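import Crest.Agent.Helper32.Snaky.Gen.R1_0_p41
set_option autoImplicit false
set_option maxRecDepth 100000
set_option linter.all false
set_option Elab.async false
namespace Crest.Agent.Helper32.Snaky.R1_0
@[reducible] def W_42 (d M Bz Z : Nat) : Prop := Crest.Agent.Helper32.Snaky.Wins (nat_lit 17) d M Bz Z
theorem D_42 {d M Bz Z : Nat} (m t1 t2 o1 x1 y1 o2 x2 y2 : Nat) (h : Crest.Agent.Helper32.Snaky.chkDoubleC (nat_lit 17) d M Bz Z m t1 t2 o1 x1 y1 o2 x2 y2 = true) : W_42 d M Bz Z := Crest.Agent.Helper32.Snaky.doubleC m t1 t2 o1 x1 y1 o2 x2 y2 h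
theorem T_42 {d M Bz Z cd cM cBz cZ : Nat} (m t o x y : Nat) (child : W_42 cd cM cBz cZ) (h : Crest.Agent.Helper32.Snaky.chkThreatC (nat_lit 17) d M Bz Z cd cM cBz cZ m t o x y = true) : W_42 d M Bz Z := Crest.Agent.Helper32.Snaky.threatC m t o x y child h
theorem Q_42 {d M Bz Z : Nat} (m : Nat) {l : List Crest.Agent.Helper32.Snaky.Spec} (kids : Crest.Agent.Helper32.Snaky.AllWins (nat_lit 17) l) (h : Crest.Agent.Helper32.Snaky.chkQuiet d M Bz Z m l = true) : W_42 d M Bz Z := Crest.Agent.Helper32.Snaky.quiet m kids h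
theorem C_42 {cd cM cBz cZ : Nat} {l : List Crest.Agent.Helper32.Snaky.Spec} (h : W_42 cd cM cBz cZ) (hl : Crest.Agent.Helper32.Snaky.AllWins (nat_lit 17) l) : Crest.Agent.Helper32.Snaky.AllWins (nat_lit 17) ((cd, cM, cBz, cZ) :: l) := Crest.Agent.Helper32.Snaky.AllWins.cons h hl
theorem N_42 : Crest.Agent.Helper32.Snaky.AllWins (nat_lit 17) [] := Crest.Agent.Helper32.Snaky.AllWins.nil
theorem L113898 : W_42 (nat_lit 8) (nat_lit 0x200010000800040000000a000d000000000000000) (nat_lit 0x0) (nat_lit 0x22001100010012000fc0020001000) := T_42 (nat_lit 109) (nat_lit 92) (nat_lit 4) (nat_lit 8) (nat_lit 9) L113897 (by decide +kernel)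
theorem L113899 : W_42 (nat_lit 13) (nat_lit 0x200010000800040000000a0005000000000000000) (nat_lit 0x0) (nat_lit 0xa000500000007400f380190015003a001fc0034001000) := Q_42 (nat_lit 63) (C_42 L113804 (C_42 L113236 (C_42 L113891 (C_42 L113898 (C_42 L113235 N_42))))) (by decide +kernel)
theorem L113900 : W_42 (nat_lit 8) (nat_lit 0x200010000800040010000a0005000000000000000) (nat_lit 0x0) (nat_lit 0x800040000000000052002d007000008007c003f001400) := Q_42 (nat_lit 45) (C_42 L113538 (C_42 L113361 (C_42 L113356 (C_42 L113352 N_42)))) (by decide +kernel)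
theorem L113901 : W_42 (nat_lit 2) (nat_lit 0x300010000800240030000a000500160001a000000) (nat_lit 0x0) (nat_lit 0x200010000800000000000000000000000) := D_42 (nat_lit 112) (nat_lit 129) (nat_lit 95) (nat_lit 5) (nat_lit 11) (nat_lit 3) (nat_lit 5) (nat_lit 11) (nat_lit 2) (by decide +kernel)
theorem L113902 : W_42 (nat_lit 3) (nat_lit 0x300010000800040030000a000500160001a000000) (nat_lit 0x0) (nat_lit 0x200030000800000008000000000000000) := T_42 (nat_lit 113) (nat_lit 63) (nat_lit 6) (nat_lit 11) (nat_lit 6) L113901 (by decide +kernel)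
theorem L113903 : W_42 (nat_lit 4) (nat_lit 0x300010000800040030000a000500060001a000000) (nat_lit 0x0) (nat_lit 0x200030000800000008001800000000000) := T_42 (nat_lit 48) (nat_lit 47) (nat_lit 0) (nat_lit 14) (nat_lit 2) L113902 (by decide +kernel)
theorem L113904 : W_42 (nat_lit 5) (nat_lit 0x300010000800040030000a0005000600018000000) (nat_lit 0x0) (nat_lit 0x200030000800000008001800006000000) := T_42 (nat_lit 25) (nat_lit 26) (nat_lit 3) (nat_lit 8) (nat_lit 1) L113903 (by decide +kernel)
theorem L113905 : W_42 (nat_lit 6) (nat_lit 0x300010000800040030000a0005000600010000000) (nat_lit 0x0) (nat_lit 0x20003000080000000800180000e000400) := T_42 (nat_lit 27) (nat_lit 10) (nat_lit 4) (nat_lit 11) (nat_lit 4) L113904 (by decide +kernel)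
theorem L113906 : W_42 (nat_lit 7) (nat_lit 0x300010000800040030000a0005000600000000000) (nat_lit 0x0) (nat_lit 0x20003000080010000800180001e000400) := T_42 (nat_lit 28) (nat_lit 80) (nat_lit 7) (nat_lit 11) (nat_lit 1) L113905 (by decide +kernel)
theorem L113907 : W_42 (nat_lit 8) (nat_lit 0x300010000800040010000a0005000600000000000) (nat_lit 0x0) (nat_lit 0x20007000280010000800180001e000400) := T_42 (nat_lit 97) (nat_lit 114) (nat_lit 7) (nat_lit 11) (nat_lit 2) L113906 (by decide +kernel)
theorem L113908 : W_42 (nat_lit 9) (nat_lit 0x300010000800040010000a0005000200000000000) (nat_lit 0x0) (nat_lit 0x200070002800100008001c0003e000400) := T_42 (nat_lit 46) (nat_lit 29) (nat_lit 6) (nat_lit 11) (nat_lit 5) L113907 (by decide +kernel)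
theorem L113909 : W_42 (nat_lit 10) (nat_lit 0x200010000800040010000a0005000200000000000) (nat_lit 0x0) (nat_lit 0x200010000000200070002800100008001c0003e000400) := T_42 (nat_lit 160) (nat_lit 177) (nat_lit 5) (nat_lit 8) (nat_lit 6) L113908 (by decide +kernel)
theorem L113910 : W_42 (nat_lit 2) (nat_lit 0x300010000800040038000a0005000200010000000) (nat_lit 0x0) (nat_lit 0x400020001000) := D_42 (nat_lit 29) (nat_lit 12) (nat_lit 46) (nat_lit 6) (nat_lit 11) (nat_lit 4) (nat_lit 6) (nat_lit 11) (nat_lit 5) (by decide +kernel)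
theorem L113911 : W_42 (nat_lit 3) (nat_lit 0x300010000800040038000a0005000200000000000) (nat_lit 0x0) (nat_lit 0x100000000400030001000) := T_42 (nat_lit 28) (nat_lit 80) (nat_lit 7) (nat_lit 11) (nat_lit 1) L113910 (by decide +kernel)
theorem L113912 : W_42 (nat_lit 4) (nat_lit 0x300010000800040018000a0005000200000000000) (nat_lit 0x0) (nat_lit 0x40002000100000000400030001000) := T_42 (nat_lit 97) (nat_lit 114) (nat_lit 7) (nat_lit 11) (nat_lit 2) L113911 (by decide +kernel)
theorem L113913 : W_42 (nat_lit 5) (nat_lit 0x200010000800040018000a0005000200000000000) (nat_lit 0x0) (nat_lit 0x200010000000000040002000100000000400030001000) := T_42 (nat_lit 160) (nat_lit 177) (nat_lit 5) (nat_lit 8) (nat_lit 6) L113912 (by decide +kernel)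
theorem L113914 : W_42 (nat_lit 6) (nat_lit 0x200010000800040010000a0005000200000000000) (nat_lit 0x0) (nat_lit 0x200010000000000050002800100000000400030001000) := T_42 (nat_lit 95) (nat_lit 112) (nat_lit 5) (nat_lit 11) (nat_lit 2) L113913 (by decide +kernel)
theorem L113915 : W_42 (nat_lit 11) (nat_lit 0x200010000800040010000a0005000000000000000) (nat_lit 0x0) (nat_lit 0x200010000000200072002d00700008801fc003f001400) := Q_42 (nat_lit 45) (C_42 L113538 (C_42 L113361 (C_42 L113442 (C_42 L113909 (C_42 L113914 N_42))))) (by decide +kernel)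
theorem L113916 : W_42 (nat_lit 2) (nat_lit 0x200010000800060030000a0005000200008000000) (nat_lit 0x0) (nat_lit 0x100000000000010000400) := D_42 (nat_lit 28) (nat_lit 80) (nat_lit 10) (nat_lit 7) (nat_lit 11) (nat_lit 1) (nat_lit 4) (nat_lit 11) (nat_lit 4) (by decide +kernel)
theorem L113917 : W_42 (nat_lit 3) (nat_lit 0x200010000800060010000a0005000200008000000) (nat_lit 0x0) (nat_lit 0x40002000100000000000010000400) := T_42 (nat_lit 97) (nat_lit 114) (nat_lit 7) (nat_lit 11) (nat_lit 2) L113916 (by decide +kernel)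
theorem L113918 : W_42 (nat_lit 4) (nat_lit 0x200010000800060010000a0005000200000000000) (nat_lit 0x0) (nat_lit 0x40002000100000000100018000400) := T_42 (nat_lit 27) (nat_lit 44) (nat_lit 4) (nat_lit 11) (nat_lit 5) L113917 (by decide +kernel)
theorem L113919 : W_42 (nat_lit 5) (nat_lit 0x200010000800040010000a0005000200000000000) (nat_lit 0x0) (nat_lit 0x42002100100000000100018000400) := T_42 (nat_lit 109) (nat_lit 92) (nat_lit 4) (nat_lit 8) (nat_lit 9) L113918 (by decide +kernel)
theorem L113920 : W_42 (nat_lit 7) (nat_lit 0x200010000800040010000a0005000000000000000) (nat_lit 0x0) (nat_lit 0x8000400000000000420025001000008007c003f001400) := Q_42 (nat_lit 45) (C_42 L113361 (C_42 L113356 (C_42 L113352 (C_42 L113919 N_42)))) (by decide +kernel)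
theorem L113921 : W_42 (nat_lit 2) (nat_lit 0x700010000800040038001a0005000300000000000) (nat_lit 0x0) (nat_lit 0x400210000000000000000000) := D_42 (nat_lit 94) (nat_lit 76) (nat_lit 81) (nat_lit 0) (nat_lit 12) (nat_lit 5) (nat_lit 2) (nat_lit 9) (nat_lit 5) (by decide +kernel)
theorem L113922 : W_42 (nat_lit 3) (nat_lit 0x700010000800040038000a0005000300000000000) (nat_lit 0x0) (nat_lit 0x400310000000000010000000) := T_42 (nat_lit 80) (nat_lit 28) (nat_lit 7) (nat_lit 11) (nat_lit 1) L113921 (by decide +kernel)
theorem L113923 : W_42 (nat_lit 4) (nat_lit 0x700010000800040018000a0005000300000000000) (nat_lit 0x0) (nat_lit 0x40002400310000000000010000000) := T_42 (nat_lit 97) (nat_lit 114) (nat_lit 7) (nat_lit 11) (nat_lit 2) L113922 (by decide +kernel)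
theorem L113924 : W_42 (nat_lit 5) (nat_lit 0x700010000800040018000a0005000200000000000) (nat_lit 0x0) (nat_lit 0x40002400310000000100018000000) := T_42 (nat_lit 44) (nat_lit 27) (nat_lit 4) (nat_lit 11) (nat_lit 5) L113923 (by decide +kernel)
theorem L113925 : W_42 (nat_lit 6) (nat_lit 0x600010000800040018000a0005000200000000000) (nat_lit 0x0) (nat_lit 0x200010000000000040002400310000000100018000000) := T_42 (nat_lit 160) (nat_lit 177) (nat_lit 5) (nat_lit 8) (nat_lit 6) L113924 (by decide +kernel)
theorem L113926 : W_42 (nat_lit 7) (nat_lit 0x600010000800040010000a0005000200000000000) (nat_lit 0x0) (nat_lit 0x200010000000000050002c00310000000100018000000) := T_42 (nat_lit 95) (nat_lit 112) (nat_lit 5) (nat_lit 11) (nat_lit 2) L113925 (by decide +kernel)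
theorem L113927 : W_42 (nat_lit 8) (nat_lit 0x200010000800040010000a0005000200000000000) (nat_lit 0x0) (nat_lit 0xa00050000000000050002c00310000000100018000000) := T_42 (nat_lit 162) (nat_lit 179) (nat_lit 7) (nat_lit 8) (nat_lit 6) L113926 (by decide +kernel)
theorem L113928 : W_42 (nat_lit 9) (nat_lit 0x200010000800040010000a0005000000000000000) (nat_lit 0x0) (nat_lit 0xa00050000000200070002c003100088007c003f001000) := Q_42 (nat_lit 45) (C_42 L113914 (C_42 L113442 (C_42 L113361 (C_42 L113927 N_42)))) (by decide +kernel)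
theorem L113929 : W_42 (nat_lit 2) (nat_lit 0x700010000800360010001a0005000200038000000) (nat_lit 0x0) (nat_lit 0x400000000000000008000000000000800) := D_42 (nat_lit 63) (nat_lit 11) (nat_lit 130) (nat_lit 7) (nat_lit 11) (nat_lit 0) (nat_lit 6) (nat_lit 11) (nat_lit 7) (by decide +kernel)
theorem L113930 : W_42 (nat_lit 3) (nat_lit 0x700010000800360010000a0005000200038000000) (nat_lit 0x0) (nat_lit 0x400000002000100008000000000000800) := T_42 (nat_lit 80) (nat_lit 97) (nat_lit 7) (nat_lit 11) (nat_lit 1) L113929 (by decide +kernel)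
theorem L113931 : W_42 (nat_lit 4) (nat_lit 0x700010000800360010000a0005000200018000000) (nat_lit 0x0) (nat_lit 0x400000002000100008000000020001800) := T_42 (nat_lit 29) (nat_lit 12) (nat_lit 6) (nat_lit 11) (nat_lit 4) L113930 (by decide +kernel)
theorem L113932 : W_42 (nat_lit 5) (nat_lit 0x700010000800360010000a0005000200008000000) (nat_lit 0x0) (nat_lit 0x400000002000100008000000030001c00) := T_42 (nat_lit 28) (nat_lit 10) (nat_lit 4) (nat_lit 11) (nat_lit 4) L113931 (by decide +kernel)
theorem L113933 : W_42 (nat_lit 6) (nat_lit 0x700010000800360010000a0005000200000000000) (nat_lit 0x0) (nat_lit 0x400000002000100008000100038001c00) := T_42 (nat_lit 27) (nat_lit 44) (nat_lit 4) (nat_lit 11) (nat_lit 5) L113932 (by decide +kernel)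
theorem L113934 : W_42 (nat_lit 7) (nat_lit 0x700010000800340010000a0005000200000000000) (nat_lit 0x0) (nat_lit 0x400002002100100008000100038001c00) := T_42 (nat_lit 109) (nat_lit 92) (nat_lit 4) (nat_lit 8) (nat_lit 9) L113933 (by decide +kernel)
theorem L113935 : W_42 (nat_lit 8) (nat_lit 0x700010000800140010000a0005000200000000000) (nat_lit 0x0) (nat_lit 0x600022002100100008000100038001c00) := T_42 (nat_lit 113) (nat_lit 129) (nat_lit 5) (nat_lit 11) (nat_lit 3) L113934 (by decide +kernel)
theorem L113936 : W_42 (nat_lit 9) (nat_lit 0x600010000800140010000a0005000200000000000) (nat_lit 0x0) (nat_lit 0x200010000000600022002100100008000100038001c00) := T_42 (nat_lit 160) (nat_lit 177) (nat_lit 5) (nat_lit 8) (nat_lit 6) L113935 (by decide +kernel)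
theorem L113937 : W_42 (nat_lit 10) (nat_lit 0x600010000800040010000a0005000200000000000) (nat_lit 0x0) (nat_lit 0x200010000000600032002900100008000100038001c00) := T_42 (nat_lit 112) (nat_lit 95) (nat_lit 5) (nat_lit 11) (nat_lit 2) L113936 (by decide +kernel)
theorem L113938 : W_42 (nat_lit 11) (nat_lit 0x200010000800040010000a0005000200000000000) (nat_lit 0x0) (nat_lit 0xa00050000000600032002900100008000100038001c00) := T_42 (nat_lit 162) (nat_lit 179) (nat_lit 7) (nat_lit 8) (nat_lit 6) L113937 (by decide +kernel)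
theorem L113939 : W_42 (nat_lit 2) (nat_lit 0x700010000800360010001a000d000340000000000) (nat_lit 0x0) (nat_lit 0x2000000000000000010000800) := D_42 (nat_lit 28) (nat_lit 11) (nat_lit 97) (nat_lit 7) (nat_lit 11) (nat_lit 0) (nat_lit 7) (nat_lit 11) (nat_lit 1) (by decide +kernel)
theorem L113940 : W_42 (nat_lit 3) (nat_lit 0x700010000800360010000a000d000340000000000) (nat_lit 0x0) (nat_lit 0x400000002000100000000000010000800) := T_42 (nat_lit 80) (nat_lit 130) (nat_lit 6) (nat_lit 11) (nat_lit 7) L113939 (by decide +kernel)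
theorem L113941 : W_42 (nat_lit 4) (nat_lit 0x700010000800360010000a000d000300000000000) (nat_lit 0x0) (nat_lit 0x4000000020001000000000c0010000800) := T_42 (nat_lit 42) (nat_lit 43) (nat_lit 3) (nat_lit 8) (nat_lit 2) L113940 (by decide +kernel)
theorem L113942 : W_42 (nat_lit 5) (nat_lit 0x700010000800360010000a0005000300000000000) (nat_lit 0x0) (nat_lit 0x4000000020001000080004c0010000800) := T_42 (nat_lit 63) (nat_lit 46) (nat_lit 6) (nat_lit 11) (nat_lit 6) L113941 (by decide +kernel)
theorem L113943 : W_42 (nat_lit 6) (nat_lit 0x700010000800160010000a0005000300000000000) (nat_lit 0x0) (nat_lit 0x6000200020001000080004c0010000800) := T_42 (nat_lit 113) (nat_lit 129) (nat_lit 5) (nat_lit 11) (nat_lit 3) L113942 (by decide +kernel)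
theorem L113944 : W_42 (nat_lit 7) (nat_lit 0x700010000800140010000a0005000300000000000) (nat_lit 0x0) (nat_lit 0x6000220021001000080004c0010000800) := T_42 (nat_lit 109) (nat_lit 92) (nat_lit 4) (nat_lit 8) (nat_lit 9) L113943 (by decide +kernel)
theorem L113945 : W_42 (nat_lit 8) (nat_lit 0x700010000800040010000a0005000300000000000) (nat_lit 0x0) (nat_lit 0x6000320029001000080004c0010000800) := T_42 (nat_lit 112) (nat_lit 95) (nat_lit 5) (nat_lit 11) (nat_lit 2) L113944 (by decide +kernel)
theorem L113946 : W_42 (nat_lit 9) (nat_lit 0x600010000800040010000a0005000300000000000) (nat_lit 0x0) (nat_lit 0x2000100000006000320029001000080004c0010000800) := T_42 (nat_lit 160) (nat_lit 177) (nat_lit 5) (nat_lit 8) (nat_lit 6) L113945 (by decide +kernel)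
theorem L113947 : W_42 (nat_lit 10) (nat_lit 0x200010000800040010000a0005000300000000000) (nat_lit 0x0) (nat_lit 0xa000500000006000320029001000080004c0010000800) := T_42 (nat_lit 162) (nat_lit 179) (nat_lit 7) (nat_lit 8) (nat_lit 6) L113946 (by decide +kernel)
theorem L113948 : W_42 (nat_lit 11) (nat_lit 0x200010000800040010000a0005000200000000000) (nat_lit 0x0) (nat_lit 0xa000500000006000320029001000080005c0018000800) := T_42 (nat_lit 44) (nat_lit 27) (nat_lit 4) (nat_lit 11) (nat_lit 5) L113947 (by decide +kernel)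
theorem L113949 : W_42 (nat_lit 12) (nat_lit 0x200010000800040010000a0005000000000000000) (nat_lit 0x0) (nat_lit 0xa00050000000600032002d001000088007c003f001c00) := Q_42 (nat_lit 45) (C_42 L113544 (C_42 L113361 (C_42 L113938 (C_42 L113948 N_42)))) (by decide +kernel)
theorem L113950 : W_42 (nat_lit 2) (nat_lit 0x300010000800360010000a0005000200000000000) (nat_lit 0x0) (nat_lit 0x800040002000000000000000000000000) := D_42 (nat_lit 114) (nat_lit 97) (nat_lit 131) (nat_lit 7) (nat_lit 11) (nat_lit 2) (nat_lit 7) (nat_lit 11) (nat_lit 3) (by decide +kernel)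
theorem L113951 : W_42 (nat_lit 3) (nat_lit 0x300010000800160010000a0005000200000000000) (nat_lit 0x0) (nat_lit 0xa00060002000000000000000000000000) := T_42 (nat_lit 113) (nat_lit 129) (nat_lit 5) (nat_lit 11) (nat_lit 3) L113950 (by decide +kernel)
theorem L113952 : W_42 (nat_lit 4) (nat_lit 0x200010000800160010000a0005000200000000000) (nat_lit 0x0) (nat_lit 0x200010000000a00060002000000000000000000000000) := T_42 (nat_lit 160) (nat_lit 177) (nat_lit 5) (nat_lit 8) (nat_lit 6) L113951 (by decide +kernel)
theorem L113953 : W_42 (nat_lit 5) (nat_lit 0x200010000800060010000a0005000200000000000) (nat_lit 0x0) (nat_lit 0x200010000000a00070002800000000000000000000000) := T_42 (nat_lit 112) (nat_lit 95) (nat_lit 5) (nat_lit 11) (nat_lit 2) L113952 (by decide +kernel)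
theorem L113954 : W_42 (nat_lit 6) (nat_lit 0x200010000800040010000a0005000200000000000) (nat_lit 0x0) (nat_lit 0x200010000000a00072002900000000000000000000000) := T_42 (nat_lit 109) (nat_lit 92) (nat_lit 4) (nat_lit 8) (nat_lit 9) L113953 (by decide +kernel)
theorem L113955 : W_42 (nat_lit 7) (nat_lit 0x200010000800040010000a0005000000000000000) (nat_lit 0x0) (nat_lit 0xa00050000000a00072002d000000088007c002f000000) := Q_42 (nat_lit 45) (C_42 L113544 (C_42 L113442 (C_42 L113361 (C_42 L113954 N_42)))) (by decide +kernel)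
theorem L113956 : W_42 (nat_lit 2) (nat_lit 0x600010000800740018000a000d000000000000000) (nat_lit 0x0) (nat_lit 0x180000400000000000000000000000) := D_42 (nat_lit 115) (nat_lit 116) (nat_lit 94) (nat_lit 0) (nat_lit 14) (nat_lit 6) (nat_lit 0) (nat_lit 13) (nat_lit 6) (by decide +kernel)
theorem L113957 : W_42 (nat_lit 3) (nat_lit 0x600010000800740010000a000d000000000000000) (nat_lit 0x0) (nat_lit 0x180000c00000000000200000000000) := T_42 (nat_lit 95) (nat_lit 45) (nat_lit 5) (nat_lit 11) (nat_lit 2) L113956 (by decide +kernel)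
theorem L113958 : W_42 (nat_lit 4) (nat_lit 0x600010000800640010000a000d000000000000000) (nat_lit 0x0) (nat_lit 0x200190000c00000000000200000000000) := T_42 (nat_lit 112) (nat_lit 129) (nat_lit 5) (nat_lit 11) (nat_lit 3) L113957 (by decide +kernel)
theorem L113959 : W_42 (nat_lit 5) (nat_lit 0x600010000800640010000a0005000000000000000) (nat_lit 0x0) (nat_lit 0x200190000c00000008000600000000000) := T_42 (nat_lit 63) (nat_lit 46) (nat_lit 6) (nat_lit 11) (nat_lit 6) L113958 (by decide +kernel)
theorem L113960 : W_42 (nat_lit 6) (nat_lit 0x600010000800240010000a0005000000000000000) (nat_lit 0x0) (nat_lit 0xa001d0000c00000008000600000000000) := T_42 (nat_lit 114) (nat_lit 131) (nat_lit 7) (nat_lit 11) (nat_lit 3) L113959 (by decide +kernel)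
theorem L113961 : W_42 (nat_lit 7) (nat_lit 0x200010000800240010000a0005000000000000000) (nat_lit 0x0) (nat_lit 0x800040000000a001d0000c00000008000600000000000) := T_42 (nat_lit 162) (nat_lit 179) (nat_lit 7) (nat_lit 8) (nat_lit 6) L113960 (by decide +kernel)
theorem L113962 : W_42 (nat_lit 2) (nat_lit 0x600010004800660010000a000d000000000000000) (nat_lit 0x0) (nat_lit 0x4000300000000000000000000000000000000) := D_42 (nat_lit 129) (nat_lit 146) (nat_lit 128) (nat_lit 5) (nat_lit 11) (nat_lit 4) (nat_lit 2) (nat_lit 8) (nat_lit 7) (by decide +kernel)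
theorem L113963 : W_42 (nat_lit 3) (nat_lit 0x600010000800660010000a000d000000000000000) (nat_lit 0x0) (nat_lit 0x4000700000000000100000000000000000000) := T_42 (nat_lit 130) (nat_lit 80) (nat_lit 6) (nat_lit 11) (nat_lit 7) L113962 (by decide +kernel)
theorem L113964 : W_42 (nat_lit 4) (nat_lit 0x200010000800660010000a000d000000000000000) (nat_lit 0x0) (nat_lit 0x800040004000700000000000100000000000000000000) := T_42 (nat_lit 162) (nat_lit 179) (nat_lit 7) (nat_lit 8) (nat_lit 6) L113963 (by decide +kernel)
theorem L113965 : W_42 (nat_lit 5) (nat_lit 0x200010000800660010000a0005000000000000000) (nat_lit 0x0) (nat_lit 0x800040004000700000000000100008000400000000000) := T_42 (nat_lit 63) (nat_lit 46) (nat_lit 6) (nat_lit 11) (nat_lit 6) L113964 (by decide +kernel)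
theorem L113966 : W_42 (nat_lit 6) (nat_lit 0x200010000800260010000a0005000000000000000) (nat_lit 0x0) (nat_lit 0x800040004000f00040000000100008000400000000000) := T_42 (nat_lit 114) (nat_lit 131) (nat_lit 7) (nat_lit 11) (nat_lit 3) L113965 (by decide +kernel)
theorem L113967 : W_42 (nat_lit 7) (nat_lit 0x200010000800240010000a0005000000000000000) (nat_lit 0x0) (nat_lit 0x800040004000f00042000100100008000400000000000) := T_42 (nat_lit 109) (nat_lit 92) (nat_lit 4) (nat_lit 8) (nat_lit 9) L113966 (by decide +kernel)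
theorem L113968 : W_42 (nat_lit 2) (nat_lit 0x700010000800660010000a0005000780002000000) (nat_lit 0x0) (nat_lit 0x400000000000040001000000) := D_42 (nat_lit 42) (nat_lit 24) (nat_lit 94) (nat_lit 0) (nat_lit 11) (nat_lit 2) (nat_lit 4) (nat_lit 9) (nat_lit 5) (by decide +kernel)
theorem L113969 : W_42 (nat_lit 3) (nat_lit 0x700010000800660010000a0005000780000000000) (nat_lit 0x0) (nat_lit 0x400000000000040007000000) := T_42 (nat_lit 25) (nat_lit 26) (nat_lit 0) (nat_lit 12) (nat_lit 2) L113968 (by decide +kernel)
theorem L113970 : W_42 (nat_lit 4) (nat_lit 0x700010000800660010000a0005000700000000000) (nat_lit 0x0) (nat_lit 0x4000000008000c0007000000) := T_42 (nat_lit 43) (nat_lit 59) (nat_lit 1) (nat_lit 12) (nat_lit 2) L113969 (by decide +kernel)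
theorem L113971 : W_42 (nat_lit 5) (nat_lit 0x700010000800660010000a0005000600000000000) (nat_lit 0x0) (nat_lit 0x4000000008001c000f000000) := T_42 (nat_lit 44) (nat_lit 27) (nat_lit 4) (nat_lit 11) (nat_lit 5) L113970 (by decide +kernel)
theorem L113972 : W_42 (nat_lit 6) (nat_lit 0x700010000800660010000a0005000400000000000) (nat_lit 0x0) (nat_lit 0x4000000008003c002f000000) := T_42 (nat_lit 45) (nat_lit 29) (nat_lit 6) (nat_lit 11) (nat_lit 5) L113971 (by decide +kernel)
theorem L113973 : W_42 (nat_lit 7) (nat_lit 0x700010000800660010000a0005000000000000000) (nat_lit 0x0) (nat_lit 0x4000000088007c002f000000) := T_42 (nat_lit 46) (nat_lit 63) (nat_lit 6) (nat_lit 11) (nat_lit 6) L113972 (by decide +kernel)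
theorem L113974 : W_42 (nat_lit 8) (nat_lit 0x300010000800660010000a0005000000000000000) (nat_lit 0x0) (nat_lit 0x8000400000000000000004000000088007c002f000000) := T_42 (nat_lit 162) (nat_lit 179) (nat_lit 7) (nat_lit 8) (nat_lit 6) L113973 (by decide +kernel)
theorem L113975 : W_42 (nat_lit 9) (nat_lit 0x300010000800260010000a0005000000000000000) (nat_lit 0x0) (nat_lit 0x8000400000008000400004000000088007c002f000000) := T_42 (nat_lit 114) (nat_lit 131) (nat_lit 7) (nat_lit 11) (nat_lit 3) L113974 (by decide +kernel)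
theorem L113976 : W_42 (nat_lit 10) (nat_lit 0x300010000800240010000a0005000000000000000) (nat_lit 0x0) (nat_lit 0x8000400000008000420005000000088007c002f000000) := T_42 (nat_lit 109) (nat_lit 92) (nat_lit 4) (nat_lit 8) (nat_lit 9) L113975 (by decide +kernel)
theorem L113977 : W_42 (nat_lit 11) (nat_lit 0x200010000800240010000a0005000000000000000) (nat_lit 0x0) (nat_lit 0xa000500000008000420005000000088007c002f000000) := T_42 (nat_lit 160) (nat_lit 177) (nat_lit 5) (nat_lit 8) (nat_lit 6) L113976 (by decide +kernel)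
theorem L113978 : W_42 (nat_lit 12) (nat_lit 0x200010000800040010000a0005000000000000000) (nat_lit 0x0) (nat_lit 0xa00050014000f001f2000d001000088007c002f000000) := Q_42 (nat_lit 113) (C_42 L113459 (C_42 L113961 (C_42 L113967 (C_42 L113977 (C_42 L113448 (C_42 L113378 N_42)))))) (by decide +kernel)
theorem L113979 : W_42 (nat_lit 2) (nat_lit 0xf00050002800160010000a0005000000000000000) (nat_lit 0x0) (nat_lit 0x3000100000000000000000000000000000000000000000) := D_42 (nat_lit 181) (nat_lit 180) (nat_lit 164) (nat_lit 3) (nat_lit 7) (nat_lit 9) (nat_lit 7) (nat_lit 10) (nat_lit 6) (by decide +kernel)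
theorem L113980 : W_42 (nat_lit 3) (nat_lit 0x700050002800160010000a0005000000000000000) (nat_lit 0x0) (nat_lit 0x3000180008000000000000000000000000000000000000) := T_42 (nat_lit 163) (nat_lit 147) (nat_lit 2) (nat_lit 7) (nat_lit 9) L113979 (by decide +kernel)
theorem L113981 : W_42 (nat_lit 4) (nat_lit 0x300050002800160010000a0005000000000000000) (nat_lit 0x0) (nat_lit 0x38001c0008000000000000000000000000000000000000) := T_42 (nat_lit 162) (nat_lit 179) (nat_lit 7) (nat_lit 8) (nat_lit 6) L113980 (by decide +kernel)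
theorem L113982 : W_42 (nat_lit 5) (nat_lit 0x300010002800160010000a0005000000000000000) (nat_lit 0x0) (nat_lit 0x38001c000c000000000000800000000000000000000000) := T_42 (nat_lit 146) (nat_lit 95) (nat_lit 6) (nat_lit 10) (nat_lit 8) L113981 (by decide +kernel)
theorem L113983 : W_42 (nat_lit 6) (nat_lit 0x300010002800140010000a0005000000000000000) (nat_lit 0x0) (nat_lit 0x38001c000c000000002000900000000000000000000000) := T_42 (nat_lit 109) (nat_lit 92) (nat_lit 4) (nat_lit 8) (nat_lit 9) L113982 (by decide +kernel)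
theorem L113984 : W_42 (nat_lit 7) (nat_lit 0x300010002800040010000a0005000000000000000) (nat_lit 0x0) (nat_lit 0x38001c000c000000032000900000000000000000000000) := T_42 (nat_lit 112) (nat_lit 113) (nat_lit 5) (nat_lit 11) (nat_lit 3) L113983 (by decide +kernel)
theorem L113985 : W_42 (nat_lit 8) (nat_lit 0x200010002800040010000a0005000000000000000) (nat_lit 0x0) (nat_lit 0x3a001d000c000000032000900000000000000000000000) := T_42 (nat_lit 160) (nat_lit 177) (nat_lit 5) (nat_lit 8) (nat_lit 6) L113984 (by decide +kernel)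
theorem L113986 : W_42 (nat_lit 2) (nat_lit 0x600010006800060010000a0005000000000000000) (nat_lit 0x0) (nat_lit 0x4000000030000000000000000000000000000) := D_42 (nat_lit 113) (nat_lit 112) (nat_lit 146) (nat_lit 5) (nat_lit 11) (nat_lit 3) (nat_lit 5) (nat_lit 11) (nat_lit 4) (by decide +kernel)
theorem L113987 : W_42 (nat_lit 3) (nat_lit 0x600010002800060010000a0005000000000000000) (nat_lit 0x0) (nat_lit 0x4000500030000000000000000000000000000) := T_42 (nat_lit 130) (nat_lit 128) (nat_lit 0) (nat_lit 11) (nat_lit 7) L113986 (by decide +kernel)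
theorem L113988 : W_42 (nat_lit 4) (nat_lit 0x600010002800040010000a0005000000000000000) (nat_lit 0x0) (nat_lit 0x4000500032000100000000000000000000000) := T_42 (nat_lit 109) (nat_lit 92) (nat_lit 4) (nat_lit 8) (nat_lit 9) L113987 (by decide +kernel)
theorem L113989 : W_42 (nat_lit 5) (nat_lit 0x200010002800040010000a0005000000000000000) (nat_lit 0x0) (nat_lit 0x800040004000500032000100000000000000000000000) := T_42 (nat_lit 162) (nat_lit 179) (nat_lit 7) (nat_lit 8) (nat_lit 6) L113988 (by decide +kernel)
theorem L113990 : W_42 (nat_lit 2) (nat_lit 0x300010002800640010000a0005000000000000000) (nat_lit 0x0) (nat_lit 0x4000500000000000000000000000000000000) := D_42 (nat_lit 130) (nat_lit 128) (nat_lit 146) (nat_lit 2) (nat_lit 8) (nat_lit 7) (nat_lit 5) (nat_lit 11) (nat_lit 4) (by decide +kernel)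
theorem L113991 : W_42 (nat_lit 3) (nat_lit 0x300010002800240010000a0005000000000000000) (nat_lit 0x0) (nat_lit 0x4000d00040000000000000000000000000000) := T_42 (nat_lit 114) (nat_lit 131) (nat_lit 7) (nat_lit 11) (nat_lit 3) L113990 (by decide +kernel)
theorem L113992 : W_42 (nat_lit 4) (nat_lit 0x200010002800240010000a0005000000000000000) (nat_lit 0x0) (nat_lit 0x200010004000d00040000000000000000000000000000) := T_42 (nat_lit 160) (nat_lit 177) (nat_lit 5) (nat_lit 8) (nat_lit 6) L113991 (by decide +kernel)
theorem L113993 : W_42 (nat_lit 5) (nat_lit 0x200010002800040010000a0005000000000000000) (nat_lit 0x0) (nat_lit 0x200010004000d00070000000000000000000000000000) := T_42 (nat_lit 113) (nat_lit 112) (nat_lit 5) (nat_lit 11) (nat_lit 3) L113992 (by decide +kernel)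
theorem L113994 : W_42 (nat_lit 9) (nat_lit 0x200010000800040010000a0005000000000000000) (nat_lit 0x0) (nat_lit 0x3a001d000c000f40073800900000000000000000000000) := Q_42 (nat_lit 129) (C_42 L113985 (C_42 L113989 (C_42 L113993 (C_42 L113888 N_42)))) (by decide +kernel)
theorem L113995 : W_42 (nat_lit 13) (nat_lit 0x200010000800040000000a0005000000000000000) (nat_lit 0x0) (nat_lit 0x3a001d001c000f401f3803d00710008801fc003f001c00) := Q_42 (nat_lit 96) (C_42 L113900 (C_42 L113915 (C_42 L113920 (C_42 L113928 (C_42 L113508 (C_42 L113949 (C_42 L113955 (C_42 L113978 (C_42 L113994 N_42))))))))) (by decide +kernel)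
theorem L113996 : W_42 (nat_lit 2) (nat_lit 0x700010000800060000004a001f001080000000000) (nat_lit 0x0) (nat_lit 0x800020002000000000000) := D_42 (nat_lit 65) (nat_lit 49) (nat_lit 83) (nat_lit 2) (nat_lit 11) (nat_lit 3) (nat_lit 3) (nat_lit 11) (nat_lit 3) (by decide +kernel)
theorem L113997 : W_42 (nat_lit 3) (nat_lit 0x700010000800060000000a001f001080000000000) (nat_lit 0x0) (nat_lit 0xe00020002000000000000) := T_42 (nat_lit 82) (nat_lit 81) (nat_lit 3) (nat_lit 10) (nat_lit 3) L113996 (by decide +kernel)
theorem L113998 : W_42 (nat_lit 4) (nat_lit 0x700010000800060000000a001f000080000000000) (nat_lit 0x0) (nat_lit 0xe00020003800000000000) := T_42 (nat_lit 48) (nat_lit 47) (nat_lit 2) (nat_lit 10) (nat_lit 3) L113997 (by decide +kernel)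
theorem L113999 : W_42 (nat_lit 6) (nat_lit 0x200010000800040000000a0005000200000000000) (nat_lit 0x0) (nat_lit 0x800040000000000062003100100002000d00038001400) := Q_42 (nat_lit 96) (C_42 L113919 (C_42 L113352 (C_42 L113809 N_42))) (by decide +kernel)
theorem L114000 : W_42 (nat_lit 7) (nat_lit 0x200010000800040000000a0005000200000000000) (nat_lit 0x0) (nat_lit 0x200010000000a00072003900100002000d00038001400) := Q_42 (nat_lit 96) (C_42 L113954 (C_42 L113919 (C_42 L113914 (C_42 L113506 N_42)))) (by decide +kernel)
theorem L114001 : W_42 (nat_lit 7) (nat_lit 0x200010000800040010000a0005000000000000000) (nat_lit 0x0) (nat_lit 0x200010000000a00072002900100002000f00038001400) := Q_42 (nat_lit 45) (C_42 L113954 (C_42 L113919 (C_42 L113914 (C_42 L113506 N_42)))) (by decide +kernel)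
theorem L114002 : W_42 (nat_lit 9) (nat_lit 0x200010000800040010000a0005000000000000000) (nat_lit 0x0) (nat_lit 0xa00050000000000070002c00310002000f00038001000) := Q_42 (nat_lit 45) (C_42 L113914 (C_42 L113927 (C_42 L113809 N_42))) (by decide +kernel)
theorem L114003 : W_42 (nat_lit 2) (nat_lit 0x700010003800160010000a0005000200000000000) (nat_lit 0x0) (nat_lit 0x40001800000000000000000000000000) := D_42 (nat_lit 108) (nat_lit 126) (nat_lit 107) (nat_lit 0) (nat_lit 10) (nat_lit 7) (nat_lit 3) (nat_lit 5) (nat_lit 6) (by decide +kernel)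
theorem L114004 : W_42 (nat_lit 3) (nat_lit 0x700010002800160010000a0005000200000000000) (nat_lit 0x0) (nat_lit 0x540001800000000000000000000000000) := T_42 (nat_lit 128) (nat_lit 130) (nat_lit 0) (nat_lit 11) (nat_lit 7) L114003 (by decide +kernel)
theorem L114005 : W_42 (nat_lit 4) (nat_lit 0x700010002800140010000a0005000200000000000) (nat_lit 0x0) (nat_lit 0x540003800100000000000000000000000) := T_42 (nat_lit 109) (nat_lit 92) (nat_lit 4) (nat_lit 8) (nat_lit 9) L114004 (by decide +kernel)
theorem L114006 : W_42 (nat_lit 5) (nat_lit 0x700010000800140010000a0005000200000000000) (nat_lit 0x0) (nat_lit 0x740023800100000000000000000000000) := T_42 (nat_lit 129) (nat_lit 113) (nat_lit 5) (nat_lit 11) (nat_lit 3) L114005 (by decide +kernel)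
theorem L114007 : W_42 (nat_lit 6) (nat_lit 0x600010000800140010000a0005000200000000000) (nat_lit 0x0) (nat_lit 0x200010000000740023800100000000000000000000000) := T_42 (nat_lit 160) (nat_lit 177) (nat_lit 5) (nat_lit 8) (nat_lit 6) L114006 (by decide +kernel)
theorem L114008 : W_42 (nat_lit 7) (nat_lit 0x600010000800040010000a0005000200000000000) (nat_lit 0x0) (nat_lit 0x200010000000740033800900000000000000000000000) := T_42 (nat_lit 112) (nat_lit 95) (nat_lit 5) (nat_lit 11) (nat_lit 2) L114007 (by decide +kernel)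
theorem L114009 : W_42 (nat_lit 8) (nat_lit 0x200010000800040010000a0005000200000000000) (nat_lit 0x0) (nat_lit 0xa00050000000740033800900000000000000000000000) := T_42 (nat_lit 162) (nat_lit 179) (nat_lit 7) (nat_lit 8) (nat_lit 6) L114008 (by decide +kernel)
theorem L114010 : W_42 (nat_lit 9) (nat_lit 0x200010000800040010000a0005000000000000000) (nat_lit 0x0) (nat_lit 0xa00050000000740033800d00000002800fc002f000000) := Q_42 (nat_lit 45) (C_42 L114009 (C_42 L113809 (C_42 L113506 (C_42 L113361 N_42)))) (by decide +kernel)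
theorem L114011 : W_42 (nat_lit 10) (nat_lit 0x200010000800040000000a0005000000000000000) (nat_lit 0x0) (nat_lit 0x3a001d000c000f40073803d00310002800fc003f001400) := Q_42 (nat_lit 96) (C_42 L113994 (C_42 L113920 (C_42 L114001 (C_42 L114002 (C_42 L114010 N_42))))) (by decide +kernel)
theorem L114012 : W_42 (nat_lit 2) (nat_lit 0x700010000800060000000a0007800240002000000) (nat_lit 0x0) (nat_lit 0x400010000000080000000000) := D_42 (nat_lit 94) (nat_lit 43) (nat_lit 76) (nat_lit 4) (nat_lit 9) (nat_lit 5) (nat_lit 7) (nat_lit 8) (nat_lit 1) (by decide +kernel)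
theorem L114013 : W_42 (nat_lit 3) (nat_lit 0x700010000800060000000a0007800240000000000) (nat_lit 0x0) (nat_lit 0x400010000000080002000100) := T_42 (nat_lit 25) (nat_lit 8) (nat_lit 7) (nat_lit 8) (nat_lit 0) L114012 (by decide +kernel)
theorem L114014 : W_42 (nat_lit 4) (nat_lit 0x700010000800060000000a0007800200000000000) (nat_lit 0x0) (nat_lit 0x4000100000000e0002000100) := T_42 (nat_lit 42) (nat_lit 41) (nat_lit 0) (nat_lit 11) (nat_lit 3) L114013 (by decide +kernel)
theorem L114015 : W_42 (nat_lit 5) (nat_lit 0x700010000800060000000a0007800000000000000) (nat_lit 0x0) (nat_lit 0x4000100000006e0002000100) := T_42 (nat_lit 45) (nat_lit 46) (nat_lit 2) (nat_lit 8) (nat_lit 3) L114014 (by decide +kernel)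
theorem L114016 : W_42 (nat_lit 2) (nat_lit 0x700010000800060000000a0007800300000000000) (nat_lit 0x0) (nat_lit 0x1000000000000000008000400) := D_42 (nat_lit 27) (nat_lit 96) (nat_lit 10) (nat_lit 4) (nat_lit 11) (nat_lit 5) (nat_lit 7) (nat_lit 10) (nat_lit 0) (by decide +kernel)
theorem L114017 : W_42 (nat_lit 3) (nat_lit 0x700010000800060000000a0007800200000000000) (nat_lit 0x0) (nat_lit 0x1000000000400100008000400) := T_42 (nat_lit 44) (nat_lit 58) (nat_lit 2) (nat_lit 7) (nat_lit 3) L114016 (by decide +kernel)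
theorem L114018 : W_42 (nat_lit 4) (nat_lit 0x700010000800060000000a0007800000000000000) (nat_lit 0x0) (nat_lit 0x1000000000400700008000400) := T_42 (nat_lit 45) (nat_lit 46) (nat_lit 2) (nat_lit 8) (nat_lit 3) L114017 (by decide +kernel)
theorem L114019 : W_42 (nat_lit 5) (nat_lit 0x700010000800060000000a0005800000000000000) (nat_lit 0x0) (nat_lit 0x1000100002400700008000400) := T_42 (nat_lit 61) (nat_lit 80) (nat_lit 3) (nat_lit 8) (nat_lit 3) L114018 (by decide +kernel)
theorem L114020 : W_42 (nat_lit 6) (nat_lit 0x600010000800060000000a0005800000000000000) (nat_lit 0x0) (nat_lit 0x200010000000000000001000100002400700008000400) := T_42 (nat_lit 160) (nat_lit 177) (nat_lit 5) (nat_lit 8) (nat_lit 6) L114019 (by decide +kernel)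
theorem L114021 : W_42 (nat_lit 7) (nat_lit 0x200010000800060000000a0005800000000000000) (nat_lit 0x0) (nat_lit 0xa00050000000000000001000100002400700008000400) := T_42 (nat_lit 162) (nat_lit 179) (nat_lit 7) (nat_lit 8) (nat_lit 6) L114020 (by decide +kernel)
theorem L114022 : W_42 (nat_lit 8) (nat_lit 0x200010000800040000000a0005800000000000000) (nat_lit 0x0) (nat_lit 0xa00050000000000002001100100002400700008000400) := T_42 (nat_lit 109) (nat_lit 92) (nat_lit 4) (nat_lit 8) (nat_lit 9) L114021 (by decide +kernel)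
theorem L114023 : W_42 (nat_lit 2) (nat_lit 0x700010000800060008000e000d000380000000000) (nat_lit 0x0) (nat_lit 0x30000400000000000) := D_42 (nat_lit 64) (nat_lit 65) (nat_lit 46) (nat_lit 1) (nat_lit 14) (nat_lit 3) (nat_lit 3) (nat_lit 9) (nat_lit 2) (by decide +kernel)
theorem L114024 : W_42 (nat_lit 3) (nat_lit 0x700010000800060008000e000d000280000000000) (nat_lit 0x0) (nat_lit 0x30000540000000000) := T_42 (nat_lit 44) (nat_lit 42) (nat_lit 3) (nat_lit 8) (nat_lit 2) L114023 (by decide +kernel)
theorem L114025 : W_42 (nat_lit 4) (nat_lit 0x300010000800060008000e000d000280000000000) (nat_lit 0x0) (nat_lit 0x800040000000000000000000000030000540000000000) := T_42 (nat_lit 162) (nat_lit 179) (nat_lit 7) (nat_lit 8) (nat_lit 6) L114024 (by decide +kernel)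
theorem L114026 : W_42 (nat_lit 5) (nat_lit 0x300010000800060008000e0005000280000000000) (nat_lit 0x0) (nat_lit 0x800040000000000000000000010038000540000000000) := T_42 (nat_lit 63) (nat_lit 76) (nat_lit 2) (nat_lit 8) (nat_lit 4) L114025 (by decide +kernel)
theorem L114027 : W_42 (nat_lit 6) (nat_lit 0x200010000800060008000e0005000280000000000) (nat_lit 0x0) (nat_lit 0xa00050000000000000000000010038000540000000000) := T_42 (nat_lit 160) (nat_lit 177) (nat_lit 5) (nat_lit 8) (nat_lit 6) L114026 (by decide +kernel)
theorem L114028 : W_42 (nat_lit 7) (nat_lit 0x200010000800060008000e0005000200000000000) (nat_lit 0x0) (nat_lit 0xa000500000000000000000000100380005c0004000000) := T_42 (nat_lit 43) (nat_lit 26) (nat_lit 7) (nat_lit 9) (nat_lit 1) L114027 (by decide +kernel)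
theorem L114029 : W_42 (nat_lit 8) (nat_lit 0x200010000800060008000e0005000000000000000) (nat_lit 0x0) (nat_lit 0xa000500000000000000000000100380007c0014000000) := T_42 (nat_lit 45) (nat_lit 28) (nat_lit 5) (nat_lit 11) (nat_lit 1) L114028 (by decide +kernel)
theorem L114030 : W_42 (nat_lit 9) (nat_lit 0x200010000800040008000e0005000000000000000) (nat_lit 0x0) (nat_lit 0xa000500000000000020001000100380007c0014000000) := T_42 (nat_lit 109) (nat_lit 92) (nat_lit 4) (nat_lit 8) (nat_lit 9) L114029 (by decide +kernel)
theorem L114031 : W_42 (nat_lit 10) (nat_lit 0x200010000800040000000e0005000000000000000) (nat_lit 0x0) (nat_lit 0xa00050000000740013800d000100380007c0014000000) := Q_42 (nat_lit 95) (C_42 L112940 (C_42 L113040 (C_42 L114030 N_42))) (by decide +kernel)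
theorem L114032 : W_42 (nat_lit 2) (nat_lit 0x200010000800060000000e0007000200010000000) (nat_lit 0x0) (nat_lit 0xc00400000000000) := D_42 (nat_lit 59) (nat_lit 58) (nat_lit 46) (nat_lit 3) (nat_lit 7) (nat_lit 3) (nat_lit 2) (nat_lit 8) (nat_lit 3) (by decide +kernel)
theorem L114033 : W_42 (nat_lit 3) (nat_lit 0x200010000800060000000e0005000200010000000) (nat_lit 0x0) (nat_lit 0x2c00400000000800) := T_42 (nat_lit 61) (nat_lit 11) (nat_lit 5) (nat_lit 11) (nat_lit 0) L114032 (by decide +kernel)
theorem L114034 : W_42 (nat_lit 4) (nat_lit 0x200010000800060000000e0005000200000000000) (nat_lit 0x0) (nat_lit 0x800000002c00400010000800) := T_42 (nat_lit 28) (nat_lit 95) (nat_lit 5) (nat_lit 11) (nat_lit 1) L114033 (by decide +kernel)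
theorem L114035 : W_42 (nat_lit 5) (nat_lit 0x200010000800040000000e0005000200000000000) (nat_lit 0x0) (nat_lit 0x2000900000002c00400010000800) := T_42 (nat_lit 109) (nat_lit 92) (nat_lit 4) (nat_lit 8) (nat_lit 9) L114034 (by decide +kernel)
theorem L114036 : W_42 (nat_lit 2) (nat_lit 0x700010003800060048003e0015000000000000000) (nat_lit 0x0) (nat_lit 0x40001800000000000000000000000000) := D_42 (nat_lit 108) (nat_lit 126) (nat_lit 107) (nat_lit 0) (nat_lit 10) (nat_lit 7) (nat_lit 3) (nat_lit 5) (nat_lit 6) (by decide +kernel)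
theorem L114037 : W_42 (nat_lit 3) (nat_lit 0x700010002800060048003e0015000000000000000) (nat_lit 0x0) (nat_lit 0x540001800000000000000000000000000) := T_42 (nat_lit 128) (nat_lit 130) (nat_lit 0) (nat_lit 11) (nat_lit 7) L114036 (by decide +kernel)
theorem L114038 : W_42 (nat_lit 4) (nat_lit 0x700010000800060048003e0015000000000000000) (nat_lit 0x0) (nat_lit 0x740011800000000000000000000000000) := T_42 (nat_lit 129) (nat_lit 112) (nat_lit 6) (nat_lit 10) (nat_lit 7) L114037 (by decide +kernel)
theorem L114039 : W_42 (nat_lit 5) (nat_lit 0x700010000800060040003e0015000000000000000) (nat_lit 0x0) (nat_lit 0x740011800c00000000000000000000000) := T_42 (nat_lit 95) (nat_lit 94) (nat_lit 1) (nat_lit 13) (nat_lit 4) L114038 (by decide +kernel)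
theorem L114040 : W_42 (nat_lit 6) (nat_lit 0x700010000800060040003e0005000000000000000) (nat_lit 0x0) (nat_lit 0x740011800c00000030000000000000000) := T_42 (nat_lit 64) (nat_lit 65) (nat_lit 2) (nat_lit 10) (nat_lit 4) L114039 (by decide +kernel)
theorem L114041 : W_42 (nat_lit 7) (nat_lit 0x700010000800060040001e0005000000000000000) (nat_lit 0x0) (nat_lit 0x740011808c00200030000000000000000) := T_42 (nat_lit 81) (nat_lit 99) (nat_lit 3) (nat_lit 10) (nat_lit 4) L114040 (by decide +kernel)
theorem L114042 : W_42 (nat_lit 8) (nat_lit 0x600010000800060040001e0005000000000000000) (nat_lit 0x0) (nat_lit 0x200010000000740011808c00200030000000000000000) := T_42 (nat_lit 160) (nat_lit 177) (nat_lit 5) (nat_lit 8) (nat_lit 6) L114041 (by decide +kernel)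
theorem L114043 : W_42 (nat_lit 9) (nat_lit 0x600010000800060000001e0005000000000000000) (nat_lit 0x0) (nat_lit 0x20001000000074001180ec00200030000000000000000) := T_42 (nat_lit 98) (nat_lit 97) (nat_lit 3) (nat_lit 9) (nat_lit 4) L114042 (by decide +kernel)
theorem L114044 : W_42 (nat_lit 10) (nat_lit 0x200010000800060000001e0005000000000000000) (nat_lit 0x0) (nat_lit 0xa0005000000074001180ec00200030000000000000000) := T_42 (nat_lit 162) (nat_lit 179) (nat_lit 7) (nat_lit 8) (nat_lit 6) L114043 (by decide +kernel)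
theorem L114045 : W_42 (nat_lit 11) (nat_lit 0x200010000800060000000e0005000000000000000) (nat_lit 0x0) (nat_lit 0xa0005000000074001180ec00300030800000000000000) := T_42 (nat_lit 80) (nat_lit 59) (nat_lit 0) (nat_lit 12) (nat_lit 4) L114044 (by decide +kernel)
theorem L114046 : W_42 (nat_lit 12) (nat_lit 0x200010000800040000000e0005000000000000000) (nat_lit 0x0) (nat_lit 0xa0005000000074001380ed00300030800000000000000) := T_42 (nat_lit 109) (nat_lit 92) (nat_lit 4) (nat_lit 8) (nat_lit 9) L114045 (by decide +kernel)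
theorem L114047 : W_42 (nat_lit 13) (nat_lit 0x200010000800040000000a0005000000000000000) (nat_lit 0x0) (nat_lit 0xa00050000000f4005380ed00350038c007c0014000000) := Q_42 (nat_lit 78) (C_42 L114031 (C_42 L113251 (C_42 L113709 (C_42 L114046 (C_42 L113245 N_42))))) (by decide +kernel)
theorem L114048 : W_42 (nat_lit 8) (nat_lit 0x200010000800040000000e0005000000000000000) (nat_lit 0x0) (nat_lit 0xa000500000007400f3803900010008000000000000000) := Q_42 (nat_lit 129) (C_42 L112946 (C_42 L112550 (C_42 L112950 N_42))) (by decide +kernel)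
theorem L114049 : W_42 (nat_lit 13) (nat_lit 0x200010000800040000000a0005000000000000000) (nat_lit 0x0) (nat_lit 0xa00050000000f400f380fd00f50038800600030000000) := Q_42 (nat_lit 78) (C_42 L114046 (C_42 L113638 (C_42 L113714 (C_42 L113756 (C_42 L114048 (C_42 L113251 N_42)))))) (by decide +kernel)
theorem L114050 : W_42 (nat_lit 7) (nat_lit 0x200010000800040010000a0005000000000000000) (nat_lit 0x0) (nat_lit 0x200010000000a00072006d000500008007c003f000000) := Q_42 (nat_lit 45) (C_42 L113849 (C_42 L113954 (C_42 L113361 N_42))) (by decide +kernel)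
theorem L114051 : W_42 (nat_lit 2) (nat_lit 0x300010000800040038000b000d000700000000000) (nat_lit 0x0) (nat_lit 0x100000c0000000000) := D_42 (nat_lit 43) (nat_lit 64) (nat_lit 42) (nat_lit 3) (nat_lit 9) (nat_lit 2) (nat_lit 3) (nat_lit 8) (nat_lit 2) (by decide +kernel)
theorem L114052 : W_42 (nat_lit 3) (nat_lit 0x300010000800040038000b0005000700000000000) (nat_lit 0x0) (nat_lit 0x200000000000180000c0000000000) := T_42 (nat_lit 63) (nat_lit 113) (nat_lit 6) (nat_lit 11) (nat_lit 6) L114051 (by decide +kernel)
theorem L114053 : W_42 (nat_lit 4) (nat_lit 0x300010000800040038000b0005000600000000000) (nat_lit 0x0) (nat_lit 0x200000000000180001c0008000000) := T_42 (nat_lit 44) (nat_lit 27) (nat_lit 4) (nat_lit 11) (nat_lit 5) L114052 (by decide +kernel)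
theorem L114054 : W_42 (nat_lit 5) (nat_lit 0x300010000800040038000b0005000200000000000) (nat_lit 0x0) (nat_lit 0x200000000000180005c0028000000) := T_42 (nat_lit 46) (nat_lit 29) (nat_lit 6) (nat_lit 11) (nat_lit 5) L114053 (by decide +kernel)
theorem L114055 : W_42 (nat_lit 6) (nat_lit 0x300010000800040030000b0005000200000000000) (nat_lit 0x0) (nat_lit 0x20000c000000180005c0028000000) := T_42 (nat_lit 95) (nat_lit 94) (nat_lit 0) (nat_lit 12) (nat_lit 5) L114054 (by decide +kernel)
theorem L114056 : W_42 (nat_lit 7) (nat_lit 0x300010000800040030000a0005000200000000000) (nat_lit 0x0) (nat_lit 0x20000c000500180005c0028000000) := T_42 (nat_lit 76) (nat_lit 78) (nat_lit 3) (nat_lit 8) (nat_lit 4) L114055 (by decide +kernel)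
theorem L114057 : W_42 (nat_lit 8) (nat_lit 0x300010000800040010000a0005000200000000000) (nat_lit 0x0) (nat_lit 0x60002c000500180005c0028000000) := T_42 (nat_lit 97) (nat_lit 114) (nat_lit 7) (nat_lit 11) (nat_lit 2) L114056 (by decide +kernel)
theorem L114058 : W_42 (nat_lit 9) (nat_lit 0x200010000800040010000a0005000200000000000) (nat_lit 0x0) (nat_lit 0x200010000000000060002c000500180005c0028000000) := T_42 (nat_lit 160) (nat_lit 177) (nat_lit 5) (nat_lit 8) (nat_lit 6) L114057 (by decide +kernel)
theorem L114059 : W_42 (nat_lit 2) (nat_lit 0x700010000800040030000b0005000780000000000) (nat_lit 0x0) (nat_lit 0x20000000000008000040000000000) := D_42 (nat_lit 63) (nat_lit 113) (nat_lit 42) (nat_lit 6) (nat_lit 11) (nat_lit 6) (nat_lit 3) (nat_lit 8) (nat_lit 2) (by decide +kernel)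
theorem L114060 : W_42 (nat_lit 3) (nat_lit 0x700010000800040030000b0005000700000000000) (nat_lit 0x0) (nat_lit 0x200000000000088000c0000000000) := T_42 (nat_lit 43) (nat_lit 59) (nat_lit 1) (nat_lit 12) (nat_lit 2) L114059 (by decide +kernel)
theorem L114061 : W_42 (nat_lit 4) (nat_lit 0x700010000800040030000b0005000300000000000) (nat_lit 0x0) (nat_lit 0x200000000000088004c0020000000) := T_42 (nat_lit 46) (nat_lit 29) (nat_lit 6) (nat_lit 11) (nat_lit 5) L114060 (by decide +kernel)
theorem L114062 : W_42 (nat_lit 5) (nat_lit 0x700010000800040030000b0005000200000000000) (nat_lit 0x0) (nat_lit 0x200000000000088005c0028000000) := T_42 (nat_lit 44) (nat_lit 27) (nat_lit 4) (nat_lit 11) (nat_lit 5) L114061 (by decide +kernel)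
theorem L114063 : W_42 (nat_lit 6) (nat_lit 0x700010000800040030000a0005000200000000000) (nat_lit 0x0) (nat_lit 0x200000000500088005c0028000000) := T_42 (nat_lit 76) (nat_lit 78) (nat_lit 3) (nat_lit 8) (nat_lit 4) L114062 (by decide +kernel)
theorem L114064 : W_42 (nat_lit 7) (nat_lit 0x700010000800040010000a0005000200000000000) (nat_lit 0x0) (nat_lit 0x600020000500088005c0028000000) := T_42 (nat_lit 97) (nat_lit 114) (nat_lit 7) (nat_lit 11) (nat_lit 2) L114063 (by decide +kernel)
theorem L114065 : W_42 (nat_lit 8) (nat_lit 0x600010000800040010000a0005000200000000000) (nat_lit 0x0) (nat_lit 0x2000100000000000600020000500088005c0028000000) := T_42 (nat_lit 160) (nat_lit 177) (nat_lit 5) (nat_lit 8) (nat_lit 6) L114064 (by decide +kernel)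
theorem L114066 : W_42 (nat_lit 9) (nat_lit 0x200010000800040010000a0005000200000000000) (nat_lit 0x0) (nat_lit 0xa000500000000000600020000500088005c0028000000) := T_42 (nat_lit 162) (nat_lit 179) (nat_lit 7) (nat_lit 8) (nat_lit 6) L114065 (by decide +kernel)
theorem L114067 : W_42 (nat_lit 2) (nat_lit 0x600010000800240010000a0005000600000000000) (nat_lit 0x0) (nat_lit 0x800040002000000000000000000000000) := D_42 (nat_lit 114) (nat_lit 97) (nat_lit 131) (nat_lit 7) (nat_lit 11) (nat_lit 2) (nat_lit 7) (nat_lit 11) (nat_lit 3) (by decide +kernel)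
theorem L114068 : W_42 (nat_lit 3) (nat_lit 0x600010000800040010000a0005000600000000000) (nat_lit 0x0) (nat_lit 0x800060002000000008000000000000000) := T_42 (nat_lit 113) (nat_lit 63) (nat_lit 6) (nat_lit 11) (nat_lit 6) L114067 (by decide +kernel)
theorem L114069 : W_42 (nat_lit 4) (nat_lit 0x200010000800040010000a0005000600000000000) (nat_lit 0x0) (nat_lit 0x800040000000800060002000000008000000000000000) := T_42 (nat_lit 162) (nat_lit 179) (nat_lit 7) (nat_lit 8) (nat_lit 6) L114068 (by decide +kernel)
theorem L114070 : W_42 (nat_lit 5) (nat_lit 0x200010000800040010000a0005000200000000000) (nat_lit 0x0) (nat_lit 0x800040000000800060002000000008000400020000000) := T_42 (nat_lit 46) (nat_lit 29) (nat_lit 6) (nat_lit 11) (nat_lit 5) L114069 (by decide +kernel)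
theorem L114071 : W_42 (nat_lit 2) (nat_lit 0x700010000800040030000e0005000200000000000) (nat_lit 0x0) (nat_lit 0x4800000000000000010000000) := D_42 (nat_lit 95) (nat_lit 28) (nat_lit 98) (nat_lit 5) (nat_lit 11) (nat_lit 1) (nat_lit 0) (nat_lit 13) (nat_lit 5) (by decide +kernel)
theorem L114072 : W_42 (nat_lit 3) (nat_lit 0x700010000800040030000a0005000200000000000) (nat_lit 0x0) (nat_lit 0x4800050000000000010000000) := T_42 (nat_lit 78) (nat_lit 76) (nat_lit 3) (nat_lit 8) (nat_lit 4) L114071 (by decide +kernel)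
theorem L114073 : W_42 (nat_lit 4) (nat_lit 0x700010000800040010000a0005000200000000000) (nat_lit 0x0) (nat_lit 0x40006800050000000000010000000) := T_42 (nat_lit 97) (nat_lit 114) (nat_lit 7) (nat_lit 11) (nat_lit 2) L114072 (by decide +kernel)
theorem L114074 : W_42 (nat_lit 5) (nat_lit 0x300010000800040010000a0005000200000000000) (nat_lit 0x0) (nat_lit 0x800040000000000040006800050000000000010000000) := T_42 (nat_lit 162) (nat_lit 179) (nat_lit 7) (nat_lit 8) (nat_lit 6) L114073 (by decide +kernel)
theorem L114075 : W_42 (nat_lit 6) (nat_lit 0x200010000800040010000a0005000200000000000) (nat_lit 0x0) (nat_lit 0xa00050000000000040006800050000000000010000000) := T_42 (nat_lit 160) (nat_lit 177) (nat_lit 5) (nat_lit 8) (nat_lit 6) L114074 (by decide +kernel)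
theorem L114076 : W_42 (nat_lit 10) (nat_lit 0x200010000800040010000a0005000000000000000) (nat_lit 0x0) (nat_lit 0xa00050000000800060006c000500188007c003f000000) := Q_42 (nat_lit 45) (C_42 L113361 (C_42 L114058 (C_42 L114066 (C_42 L114070 (C_42 L114075 N_42))))) (by decide +kernel)
theorem L114077 : W_42 (nat_lit 2) (nat_lit 0x200010000800060010000e000d000000000000000) (nat_lit 0x0) (nat_lit 0x100030000000000000000) := D_42 (nat_lit 64) (nat_lit 65) (nat_lit 80) (nat_lit 1) (nat_lit 14) (nat_lit 3) (nat_lit 2) (nat_lit 9) (nat_lit 4) (by decide +kernel)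
theorem L114078 : W_42 (nat_lit 3) (nat_lit 0x200010000800060010000a000d000000000000000) (nat_lit 0x0) (nat_lit 0x150030000000000000000) := T_42 (nat_lit 78) (nat_lit 76) (nat_lit 2) (nat_lit 8) (nat_lit 4) L114077 (by decide +kernel)
theorem L114079 : W_42 (nat_lit 4) (nat_lit 0x200010000800040010000a000d000000000000000) (nat_lit 0x0) (nat_lit 0x2000100150030000000000000000) := T_42 (nat_lit 109) (nat_lit 92) (nat_lit 4) (nat_lit 8) (nat_lit 9) L114078 (by decide +kernel)
theorem L114080 : W_42 (nat_lit 5) (nat_lit 0x200010000800040010000a0005000000000000000) (nat_lit 0x0) (nat_lit 0x22000100150038000600020001000) := Q_42 (nat_lit 63) (C_42 L113264 (C_42 L114079 N_42)) (by decide +kernel)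
theorem L114081 : W_42 (nat_lit 2) (nat_lit 0x700010000800040018000a0005000200010000000) (nat_lit 0x0) (nat_lit 0x400020001000) := D_42 (nat_lit 29) (nat_lit 46) (nat_lit 12) (nat_lit 6) (nat_lit 11) (nat_lit 5) (nat_lit 6) (nat_lit 11) (nat_lit 4) (by decide +kernel)
theorem L114082 : W_42 (nat_lit 3) (nat_lit 0x700010000800040018000a0005000200000000000) (nat_lit 0x0) (nat_lit 0x40000000400030001000) := T_42 (nat_lit 28) (nat_lit 78) (nat_lit 5) (nat_lit 11) (nat_lit 1) L114081 (by decide +kernel)
theorem L114083 : W_42 (nat_lit 4) (nat_lit 0x700010000800040010000a0005000200000000000) (nat_lit 0x0) (nat_lit 0x10000800040000000400030001000) := T_42 (nat_lit 95) (nat_lit 112) (nat_lit 5) (nat_lit 11) (nat_lit 2) L114082 (by decide +kernel)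
theorem L114084 : W_42 (nat_lit 5) (nat_lit 0x300010000800040010000a0005000200000000000) (nat_lit 0x0) (nat_lit 0x800040000000000010000800040000000400030001000) := T_42 (nat_lit 162) (nat_lit 179) (nat_lit 7) (nat_lit 8) (nat_lit 6) L114083 (by decide +kernel)
theorem L114085 : W_42 (nat_lit 6) (nat_lit 0x200010000800040010000a0005000200000000000) (nat_lit 0x0) (nat_lit 0xa00050000000000010000800040000000400030001000) := T_42 (nat_lit 160) (nat_lit 177) (nat_lit 5) (nat_lit 8) (nat_lit 6) L114084 (by decide +kernel)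
theorem L114086 : W_42 (nat_lit 7) (nat_lit 0x200010000800040010000a0005000000000000000) (nat_lit 0x0) (nat_lit 0xa00050000000000010000c000400008007c003f001400) := Q_42 (nat_lit 45) (C_42 L113501 (C_42 L113432 (C_42 L113361 (C_42 L114085 N_42)))) (by decide +kernel)
theorem L114087 : W_42 (nat_lit 2) (nat_lit 0x2000100008000400000002000500018000e000000) (nat_lit 0x0) (nat_lit 0x200001800000) := D_42 (nat_lit 24) (nat_lit 45) (nat_lit 23) (nat_lit 3) (nat_lit 7) (nat_lit 1) (nat_lit 3) (nat_lit 6) (nat_lit 1) (by decide +kernel)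
theorem L114088 : W_42 (nat_lit 3) (nat_lit 0x2000100008000400000002000500008000e000000) (nat_lit 0x0) (nat_lit 0x400000000000300001800000) := T_42 (nat_lit 44) (nat_lit 94) (nat_lit 6) (nat_lit 9) (nat_lit 5) L114087 (by decide +kernel)
theorem L114089 : W_42 (nat_lit 4) (nat_lit 0x2000100008000400000002000500008000c000000) (nat_lit 0x0) (nat_lit 0x400000000000300003800100) := T_42 (nat_lit 25) (nat_lit 8) (nat_lit 4) (nat_lit 9) (nat_lit 4) L114088 (by decide +kernel)
theorem L114090 : W_42 (nat_lit 2) (nat_lit 0x20001000080004000000020007800100000000000) (nat_lit 0x0) (nat_lit 0x400600000000000) := D_42 (nat_lit 45) (nat_lit 58) (nat_lit 46) (nat_lit 2) (nat_lit 7) (nat_lit 3) (nat_lit 2) (nat_lit 8) (nat_lit 3) (by decide +kernel)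
theorem L114091 : W_42 (nat_lit 5) (nat_lit 0x20001000080004000000020007000100000000000) (nat_lit 0x0) (nat_lit 0x200010001c0000c00600008000400) := Q_42 (nat_lit 59) (C_42 L114090 (C_42 L112704 (C_42 L112665 N_42))) (by decide +kernel)
theorem L114092 : W_42 (nat_lit 14) (nat_lit 0x20001000080004000000020005000000000000000) (nat_lit 0x0) (nat_lit 0xa000500000000000620035007d007ae01f7003f000f80) := Q_42 (nat_lit 61) (C_42 L113195 (C_42 L113175 (C_42 L113163 (C_42 L113184 (C_42 L113178 N_42))))) (by decide +kernel)
theorem L114093 : W_42 (nat_lit 9) (nat_lit 0x20001000080004000000020005000000000000000) (nat_lit 0x0) (nat_lit 0xa0005000000000002200150079001ac01ff002a000500) := Q_42 (nat_lit 61) (C_42 L113177 (C_42 L113106 (C_42 L113118 (C_42 L113175 (C_42 L113174 N_42))))) (by decide +kernel)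
theorem L114094 : W_42 (nat_lit 9) (nat_lit 0x20001000080004000000020005000000000000000) (nat_lit 0x0) (nat_lit 0x8000400000000000220015003d001ac01ff0022000100) := Q_42 (nat_lit 61) (C_42 L113177 (C_42 L113169 (C_42 L113175 (C_42 L113157 (C_42 L113109 N_42))))) (by decide +kernel)
theorem L114095 : W_42 (nat_lit 9) (nat_lit 0x20001000080004000000020005000000000000000) (nat_lit 0x0) (nat_lit 0x2000100000000000420025007d007ac01ff0012000100) := Q_42 (nat_lit 61) (C_42 L113177 (C_42 L113163 (C_42 L113109 (C_42 L113162 (C_42 L113108 N_42))))) (by decide +kernel)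
theorem L114096 : W_42 (nat_lit 6) (nat_lit 0x2000100008000400000002000f000000000000000) (nat_lit 0x0) (nat_lit 0x200010000000000002000100000000800ee0000000000) := T_42 (nat_lit 160) (nat_lit 177) (nat_lit 5) (nat_lit 8) (nat_lit 6) L112737 (by decide +kernel)
theorem L114097 : W_42 (nat_lit 2) (nat_lit 0x3000100008000400000006000f800440000000100) (nat_lit 0x0) (nat_lit 0x80000600000000000000) := D_42 (nat_lit 58) (nat_lit 57) (nat_lit 79) (nat_lit 3) (nat_lit 6) (nat_lit 3) (nat_lit 3) (nat_lit 7) (nat_lit 3) (by decide +kernel)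
theorem L114098 : W_42 (nat_lit 3) (nat_lit 0x3000100008000400000002000f800440000000100) (nat_lit 0x0) (nat_lit 0xc0010600000000000000) := T_42 (nat_lit 78) (nat_lit 64) (nat_lit 1) (nat_lit 13) (nat_lit 3) L114097 (by decide +kernel)
theorem L114099 : W_42 (nat_lit 4) (nat_lit 0x3000100008000400000002000f800440000000000) (nat_lit 0x0) (nat_lit 0xc0010600000002000100) := T_42 (nat_lit 8) (nat_lit 25) (nat_lit 7) (nat_lit 8) (nat_lit 0) L114098 (by decide +kernel)
theorem L114100 : W_42 (nat_lit 5) (nat_lit 0x2000100008000400000002000f800440000000000) (nat_lit 0x0) (nat_lit 0x2000100000000000000000000c0010600000002000100) := T_42 (nat_lit 160) (nat_lit 177) (nat_lit 5) (nat_lit 8) (nat_lit 6) L114099 (by decide +kernel)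
theorem L114101 : W_42 (nat_lit 6) (nat_lit 0x2000100008000400000002000f800400000000000) (nat_lit 0x0) (nat_lit 0x2000100000000000000000000c0010600060002000100) := T_42 (nat_lit 42) (nat_lit 41) (nat_lit 0) (nat_lit 11) (nat_lit 3) L114100 (by decide +kernel)
theorem L114102 : W_42 (nat_lit 7) (nat_lit 0x2000100008000400000002000f000400000000000) (nat_lit 0x0) (nat_lit 0x2000100000000000000000000c0010e00260002000100) := T_42 (nat_lit 59) (nat_lit 45) (nat_lit 2) (nat_lit 8) (nat_lit 3) L114101 (by decide +kernel)
theorem L114103 : W_42 (nat_lit 8) (nat_lit 0x2000100008000400000002000f000000000000000) (nat_lit 0x0) (nat_lit 0x2000100000000000000000000c0010e00e60002000100) := T_42 (nat_lit 46) (nat_lit 47) (nat_lit 2) (nat_lit 9) (nat_lit 3) L114102 (by decide +kernel)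
theorem L114104 : W_42 (nat_lit 7) (nat_lit 0x2000100008000400000002000f000000000000000) (nat_lit 0x0) (nat_lit 0x200010000000000002000100040070800f00000000000) := T_42 (nat_lit 109) (nat_lit 92) (nat_lit 4) (nat_lit 8) (nat_lit 9) L112791 (by decide +kernel)
theorem L114105 : W_42 (nat_lit 9) (nat_lit 0x20001000080004000000020007000000000000000) (nat_lit 0x0) (nat_lit 0x2000100000000000020001000c0078e00fe0002000100) := Q_42 (nat_lit 63) (C_42 L112585 (C_42 L114096 (C_42 L114103 (C_42 L114104 N_42)))) (by decide +kernel)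
theorem L114106 : W_42 (nat_lit 12) (nat_lit 0x20001000080004000000020007000000000000000) (nat_lit 0x0) (nat_lit 0xa00050000000000072007d001c0000c007f0018000400) := Q_42 (nat_lit 59) (C_42 L113173 (C_42 L113161 (C_42 L113167 (C_42 L113105 (C_42 L112712 N_42))))) (by decide +kernel)
theorem L114107 : W_42 (nat_lit 8) (nat_lit 0x20001000080004000000020007000000000000000) (nat_lit 0x0) (nat_lit 0x2000100000000000020011007c0018e01e00020001000) := T_42 (nat_lit 109) (nat_lit 92) (nat_lit 4) (nat_lit 8) (nat_lit 9) L112781 (by decide +kernel)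
theorem L114108 : W_42 (nat_lit 5) (nat_lit 0x20001000080004000000060007000000000000000) (nat_lit 0x0) (nat_lit 0x2000100000000000100008000000180000c0004000000) := T_42 (nat_lit 63) (nat_lit 64) (nat_lit 1) (nat_lit 13) (nat_lit 3) L112636 (by decide +kernel)
theorem L114109 : W_42 (nat_lit 2) (nat_lit 0x7000100008000600000016000fc00120000000000) (nat_lit 0x0) (nat_lit 0x400000000000000008000400) := D_42 (nat_lit 27) (nat_lit 10) (nat_lit 94) (nat_lit 5) (nat_lit 10) (nat_lit 0) (nat_lit 5) (nat_lit 10) (nat_lit 1) (by decide +kernel)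
theorem L114110 : W_42 (nat_lit 3) (nat_lit 0x7000100008000600000016000fc00020000000000) (nat_lit 0x0) (nat_lit 0x400000000000300008000400) := T_42 (nat_lit 44) (nat_lit 45) (nat_lit 2) (nat_lit 7) (nat_lit 3) L114109 (by decide +kernel)
theorem L114111 : W_42 (nat_lit 4) (nat_lit 0x7000100008000600000016000fc00000000000000) (nat_lit 0x0) (nat_lit 0x400000000000330008000400) := T_42 (nat_lit 41) (nat_lit 40) (nat_lit 0) (nat_lit 10) (nat_lit 3) L114110 (by decide +kernel)
theorem L114112 : W_42 (nat_lit 5) (nat_lit 0x3000100008000600000016000fc00000000000000) (nat_lit 0x0) (nat_lit 0x800040000000000000000400000000000330008000400) := T_42 (nat_lit 162) (nat_lit 179) (nat_lit 7) (nat_lit 8) (nat_lit 6) L114111 (by decide +kernel)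
theorem L114113 : W_42 (nat_lit 6) (nat_lit 0x3000100008000600000016000f800000000000000) (nat_lit 0x0) (nat_lit 0x800040000000000000000400000000600330008000400) := T_42 (nat_lit 58) (nat_lit 57) (nat_lit 3) (nat_lit 6) (nat_lit 3) L114112 (by decide +kernel)
theorem L114114 : W_42 (nat_lit 7) (nat_lit 0x3000100008000600000016000f000000000000000) (nat_lit 0x0) (nat_lit 0x800040000000000000000400080000e00330008000400) := T_42 (nat_lit 59) (nat_lit 79) (nat_lit 3) (nat_lit 8) (nat_lit 3) L114113 (by decide +kernel)
theorem L114115 : W_42 (nat_lit 8) (nat_lit 0x3000100008000600000006000f000000000000000) (nat_lit 0x0) (nat_lit 0x800040000000000000000400380000e00330008000400) := T_42 (nat_lit 80) (nat_lit 81) (nat_lit 3) (nat_lit 9) (nat_lit 3) L114114 (by decide +kernel)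
theorem L114116 : W_42 (nat_lit 9) (nat_lit 0x3000100008000400000006000f000000000000000) (nat_lit 0x0) (nat_lit 0x800040000000000002000500380000e00330008000400) := T_42 (nat_lit 109) (nat_lit 92) (nat_lit 4) (nat_lit 8) (nat_lit 9) L114115 (by decide +kernel)
theorem L114117 : W_42 (nat_lit 10) (nat_lit 0x30001000080004000000060007000000000000000) (nat_lit 0x0) (nat_lit 0x800040000000000002000500380018e00330008000400) := T_42 (nat_lit 63) (nat_lit 64) (nat_lit 1) (nat_lit 13) (nat_lit 3) L114116 (by decide +kernel)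
theorem L114118 : W_42 (nat_lit 11) (nat_lit 0x20001000080004000000060007000000000000000) (nat_lit 0x0) (nat_lit 0xa00050000000000002000500380018e00330008000400) := T_42 (nat_lit 160) (nat_lit 177) (nat_lit 5) (nat_lit 8) (nat_lit 6) L114117 (by decide +kernel)
theorem L114119 : W_42 (nat_lit 2) (nat_lit 0x700010000800060000000e00078000c0002000000) (nat_lit 0x0) (nat_lit 0x10000800000000000000004000000) := D_42 (nat_lit 95) (nat_lit 112) (nat_lit 26) (nat_lit 4) (nat_lit 10) (nat_lit 6) (nat_lit 7) (nat_lit 9) (nat_lit 1) (by decide +kernel)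
theorem L114120 : W_42 (nat_lit 3) (nat_lit 0x700010000800060000000e0007800040002000000) (nat_lit 0x0) (nat_lit 0x10000c00000000000080004000000) := T_42 (nat_lit 43) (nat_lit 94) (nat_lit 4) (nat_lit 9) (nat_lit 5) L114119 (by decide +kernel)
theorem L114121 : W_42 (nat_lit 4) (nat_lit 0x700010000800060000000e0007800040000000000) (nat_lit 0x0) (nat_lit 0x10000c00000000000080006000100) := T_42 (nat_lit 25) (nat_lit 8) (nat_lit 7) (nat_lit 8) (nat_lit 0) L114120 (by decide +kernel)
theorem L114122 : W_42 (nat_lit 5) (nat_lit 0x300010000800060000000e0007800040000000000) (nat_lit 0x0) (nat_lit 0x800040000000000010000c00000000000080006000100) := T_42 (nat_lit 162) (nat_lit 179) (nat_lit 7) (nat_lit 8) (nat_lit 6) L114121 (by decide +kernel)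
theorem L114123 : W_42 (nat_lit 6) (nat_lit 0x300010000800060000000e0007800000000000000) (nat_lit 0x0) (nat_lit 0x800040000000000010000c000000000000e0006000100) := T_42 (nat_lit 42) (nat_lit 41) (nat_lit 0) (nat_lit 11) (nat_lit 3) L114122 (by decide +kernel)
theorem L114124 : W_42 (nat_lit 7) (nat_lit 0x300010000800040000000e0007800000000000000) (nat_lit 0x0) (nat_lit 0x800040000000000012000d000000000000e0006000100) := T_42 (nat_lit 109) (nat_lit 92) (nat_lit 4) (nat_lit 8) (nat_lit 9) L114123 (by decide +kernel)
theorem L114125 : W_42 (nat_lit 8) (nat_lit 0x300010000800040000000e0007000000000000000) (nat_lit 0x0) (nat_lit 0x800040000000000012000d00000000c000e0006000100) := T_42 (nat_lit 59) (nat_lit 58) (nat_lit 3) (nat_lit 7) (nat_lit 3) L114124 (by decide +kernel)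
theorem L114126 : W_42 (nat_lit 9) (nat_lit 0x200010000800040000000e0007000000000000000) (nat_lit 0x0) (nat_lit 0xa00050000000000012000d00000000c000e0006000100) := T_42 (nat_lit 160) (nat_lit 177) (nat_lit 5) (nat_lit 8) (nat_lit 6) L114125 (by decide +kernel)
theorem L114127 : W_42 (nat_lit 10) (nat_lit 0x20001000080004000000060007000000000000000) (nat_lit 0x0) (nat_lit 0xa00050000000800052007d00380000c002e0016000100) := Q_42 (nat_lit 79) (C_42 L112649 (C_42 L113036 (C_42 L114126 N_42))) (by decide +kernel)
theorem L114128 : W_42 (nat_lit 12) (nat_lit 0x20001000080004000000020007000000000000000) (nat_lit 0x0) (nat_lit 0xa00050000000a00052007d003c0018e003f001e000500) := Q_42 (nat_lit 78) (C_42 L112643 (C_42 L112576 (C_42 L114108 (C_42 L114118 (C_42 L114127 N_42))))) (by decide +kernel)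
theorem L114129 : W_42 (nat_lit 14) (nat_lit 0x20001000080004000000020005000000000000000) (nat_lit 0x0) (nat_lit 0xa00050000000a00072007d007c007ae01ff003e001f00) := Q_42 (nat_lit 61) (C_42 L113169 (C_42 L113163 (C_42 L113153 (C_42 L113106 (C_42 L114105 (C_42 L114106 (C_42 L114107 (C_42 L112603 (C_42 L114128 N_42))))))))) (by decide +kernel)
theorem L114130 : W_42 (nat_lit 14) (nat_lit 0x20001000080004000000020005000000000000000) (nat_lit 0x0) (nat_lit 0xa000500000000000000004007d001ae01ff001f000f80) := Q_42 (nat_lit 61) (C_42 L113195 (C_42 L113169 (C_42 L113109 (C_42 L113118 (C_42 L113107 (C_42 L113168 N_42)))))) (by decide +kernel)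
theorem L114131 : W_42 (nat_lit 2) (nat_lit 0x3000100008000600000002000d00018000e000000) (nat_lit 0x0) (nat_lit 0x200001800000) := D_42 (nat_lit 24) (nat_lit 45) (nat_lit 23) (nat_lit 3) (nat_lit 7) (nat_lit 1) (nat_lit 3) (nat_lit 6) (nat_lit 1) (by decide +kernel)
theorem L114132 : W_42 (nat_lit 3) (nat_lit 0x3000100008000600000002000d00018000c000000) (nat_lit 0x0) (nat_lit 0x200003800100) := T_42 (nat_lit 25) (nat_lit 8) (nat_lit 4) (nat_lit 9) (nat_lit 4) L114131 (by decide +kernel)
theorem L114133 : W_42 (nat_lit 4) (nat_lit 0x3000100008000600000002000d000180008000000) (nat_lit 0x0) (nat_lit 0x200007800500) := T_42 (nat_lit 26) (nat_lit 10) (nat_lit 6) (nat_lit 9) (nat_lit 4) L114132 (by decide +kernel)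
theorem L114134 : W_42 (nat_lit 5) (nat_lit 0x3000100008000400000002000d000180008000000) (nat_lit 0x0) (nat_lit 0x2000100000000000200007800500) := T_42 (nat_lit 109) (nat_lit 92) (nat_lit 4) (nat_lit 8) (nat_lit 9) L114133 (by decide +kernel)
theorem L114135 : W_42 (nat_lit 6) (nat_lit 0x3000100008000400000002000d000180000000000) (nat_lit 0x0) (nat_lit 0x200050000000000020000f800500) := T_42 (nat_lit 27) (nat_lit 94) (nat_lit 6) (nat_lit 9) (nat_lit 5) L114134 (by decide +kernel)
theorem L114136 : W_42 (nat_lit 7) (nat_lit 0x2000100008000400000002000d000180000000000) (nat_lit 0x0) (nat_lit 0x20001000000000000200050000000000020000f800500) := T_42 (nat_lit 160) (nat_lit 177) (nat_lit 5) (nat_lit 8) (nat_lit 6) L114135 (by decide +kernel)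
theorem L114137 : W_42 (nat_lit 2) (nat_lit 0x6000100008000600000002000d0001a001f001000) (nat_lit 0x0) (nat_lit 0x60002000) := D_42 (nat_lit 29) (nat_lit 30) (nat_lit 13) (nat_lit 1) (nat_lit 13) (nat_lit 1) (nat_lit 2) (nat_lit 9) (nat_lit 1) (by decide +kernel)
theorem L114138 : W_42 (nat_lit 3) (nat_lit 0x6000100008000600000002000d0001a001f000000) (nat_lit 0x0) (nat_lit 0x60003800) := T_42 (nat_lit 12) (nat_lit 11) (nat_lit 2) (nat_lit 8) (nat_lit 1) L114137 (by decide +kernel)
theorem L114139 : W_42 (nat_lit 4) (nat_lit 0x6000100008000600000002000d0001a000f000000) (nat_lit 0x0) (nat_lit 0x40070003800) := T_42 (nat_lit 28) (nat_lit 42) (nat_lit 2) (nat_lit 7) (nat_lit 2) L114138 (by decide +kernel)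
theorem L114140 : W_42 (nat_lit 5) (nat_lit 0x6000100008000600000002000d00018000f000000) (nat_lit 0x0) (nat_lit 0x70070003800) := T_42 (nat_lit 41) (nat_lit 40) (nat_lit 1) (nat_lit 10) (nat_lit 1) L114139 (by decide +kernel)
theorem L114141 : W_42 (nat_lit 6) (nat_lit 0x6000100008000600000002000d00018000e000000) (nat_lit 0x0) (nat_lit 0x70071803800) := T_42 (nat_lit 24) (nat_lit 23) (nat_lit 3) (nat_lit 6) (nat_lit 1) L114140 (by decide +kernel)
theorem L114142 : W_42 (nat_lit 7) (nat_lit 0x6000100008000600000002000d00018000c000000) (nat_lit 0x0) (nat_lit 0x70073803900) := T_42 (nat_lit 25) (nat_lit 8) (nat_lit 4) (nat_lit 9) (nat_lit 4) L114141 (by decide +kernel)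
theorem L114143 : W_42 (nat_lit 8) (nat_lit 0x6000100008000600000002000d000180008000000) (nat_lit 0x0) (nat_lit 0x70077803d00) := T_42 (nat_lit 26) (nat_lit 10) (nat_lit 6) (nat_lit 9) (nat_lit 4) L114142 (by decide +kernel)
theorem L114144 : W_42 (nat_lit 9) (nat_lit 0x6000100008000400000002000d000180008000000) (nat_lit 0x0) (nat_lit 0x2000100000000000070077803d00) := T_42 (nat_lit 109) (nat_lit 92) (nat_lit 4) (nat_lit 8) (nat_lit 9) L114143 (by decide +kernel)
theorem L114145 : W_42 (nat_lit 10) (nat_lit 0x6000100008000400000002000d000180000000000) (nat_lit 0x0) (nat_lit 0x200050000000000007007f803d00) := T_42 (nat_lit 27) (nat_lit 94) (nat_lit 6) (nat_lit 9) (nat_lit 5) L114144 (by decide +kernel)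
theorem L114146 : W_42 (nat_lit 11) (nat_lit 0x2000100008000400000002000d000180000000000) (nat_lit 0x0) (nat_lit 0x80004000000000000200050000000000007007f803d00) := T_42 (nat_lit 162) (nat_lit 179) (nat_lit 7) (nat_lit 8) (nat_lit 6) L114145 (by decide +kernel)
theorem L114147 : W_42 (nat_lit 12) (nat_lit 0x2000100008000400000002000d000080000000000) (nat_lit 0x0) (nat_lit 0xa0005000000000000200050000003000077007f803d00) := Q_42 (nat_lit 44) (C_42 L114136 (C_42 L112904 (C_42 L112886 (C_42 L114146 N_42)))) (by decide +kernel)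
theorem L114148 : W_42 (nat_lit 2) (nat_lit 0x3000100038000600080006000d000080000000000) (nat_lit 0x0) (nat_lit 0x40001800000000000000000000000000) := D_42 (nat_lit 108) (nat_lit 126) (nat_lit 107) (nat_lit 0) (nat_lit 10) (nat_lit 7) (nat_lit 3) (nat_lit 5) (nat_lit 6) (by decide +kernel)
theorem L114149 : W_42 (nat_lit 3) (nat_lit 0x3000100028000600080006000d000080000000000) (nat_lit 0x0) (nat_lit 0x540001800000000000000000000000000) := T_42 (nat_lit 128) (nat_lit 130) (nat_lit 0) (nat_lit 11) (nat_lit 7) L114148 (by decide +kernel)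
theorem L114150 : W_42 (nat_lit 4) (nat_lit 0x3000100008000600080006000d000080000000000) (nat_lit 0x0) (nat_lit 0x740011800000000000000000000000000) := T_42 (nat_lit 129) (nat_lit 112) (nat_lit 4) (nat_lit 10) (nat_lit 7) L114149 (by decide +kernel)
theorem L114151 : W_42 (nat_lit 5) (nat_lit 0x2000100008000600080006000d000080000000000) (nat_lit 0x0) (nat_lit 0x200010000000740011800000000000000000000000000) := T_42 (nat_lit 160) (nat_lit 177) (nat_lit 5) (nat_lit 8) (nat_lit 6) L114150 (by decide +kernel)
theorem L114152 : W_42 (nat_lit 6) (nat_lit 0x2000100008000600000006000d000080000000000) (nat_lit 0x0) (nat_lit 0x200010000000740011800800000000000000004000000) := T_42 (nat_lit 95) (nat_lit 26) (nat_lit 7) (nat_lit 9) (nat_lit 1) L114151 (by decide +kernel)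
theorem L114153 : W_42 (nat_lit 7) (nat_lit 0x2000100008000400000006000d000080000000000) (nat_lit 0x0) (nat_lit 0x200010000000740013800900000000000000004000000) := T_42 (nat_lit 109) (nat_lit 92) (nat_lit 4) (nat_lit 8) (nat_lit 9) L114152 (by decide +kernel)
theorem L114154 : W_42 (nat_lit 8) (nat_lit 0x2000100008000400000002000d000080000000000) (nat_lit 0x0) (nat_lit 0xa000500000007400138009001d0030000000004000000) := Q_42 (nat_lit 78) (C_42 L114153 (C_42 L112862 (C_42 L112859 N_42))) (by decide +kernel)
theorem L114155 : W_42 (nat_lit 3) (nat_lit 0x7000100008000400000006000500018000c000200) (nat_lit 0x0) (nat_lit 0x200003800100) := T_42 (nat_lit 25) (nat_lit 8) (nat_lit 4) (nat_lit 9) (nat_lit 4) L113055 (by decide +kernel)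
theorem L114156 : W_42 (nat_lit 4) (nat_lit 0x70001000080004000000060005000180004000200) (nat_lit 0x0) (nat_lit 0x20000b800500) := T_42 (nat_lit 27) (nat_lit 10) (nat_lit 6) (nat_lit 9) (nat_lit 4) L114155 (by decide +kernel)
theorem L114157 : W_42 (nat_lit 5) (nat_lit 0x60001000080004000000060005000180004000200) (nat_lit 0x0) (nat_lit 0x20001000000000000000000000000000020000b800500) := T_42 (nat_lit 160) (nat_lit 177) (nat_lit 5) (nat_lit 8) (nat_lit 6) L114156 (by decide +kernel)
theorem L114158 : W_42 (nat_lit 6) (nat_lit 0x60001000080004000000060005000180004000000) (nat_lit 0x0) (nat_lit 0x20001000000000000000000000000200020000b800700) := T_42 (nat_lit 9) (nat_lit 61) (nat_lit 7) (nat_lit 9) (nat_lit 0) L114157 (by decide +kernel)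
theorem L114159 : W_42 (nat_lit 7) (nat_lit 0x60001000080004000000020005000180004000000) (nat_lit 0x0) (nat_lit 0x20001000000000000000080004000200020000b800700) := T_42 (nat_lit 78) (nat_lit 95) (nat_lit 7) (nat_lit 9) (nat_lit 1) L114158 (by decide +kernel)
theorem L114160 : W_42 (nat_lit 8) (nat_lit 0x20001000080004000000020005000180004000000) (nat_lit 0x0) (nat_lit 0xa0005000000000000000080004000200020000b800700) := T_42 (nat_lit 162) (nat_lit 179) (nat_lit 7) (nat_lit 8) (nat_lit 6) L114159 (by decide +kernel)
theorem L114161 : W_42 (nat_lit 3) (nat_lit 0x6000100008000600000006000500018000c000200) (nat_lit 0x0) (nat_lit 0x200003800100) := T_42 (nat_lit 25) (nat_lit 8) (nat_lit 4) (nat_lit 9) (nat_lit 4) L113063 (by decide +kernel)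
theorem L114162 : W_42 (nat_lit 4) (nat_lit 0x60001000080006000000060005000180004000200) (nat_lit 0x0) (nat_lit 0x20000b800500) := T_42 (nat_lit 27) (nat_lit 10) (nat_lit 6) (nat_lit 9) (nat_lit 4) L114161 (by decide +kernel)
theorem L114163 : W_42 (nat_lit 5) (nat_lit 0x20001000080006000000060005000180004000200) (nat_lit 0x0) (nat_lit 0x80004000000000000000000000000000020000b800500) := T_42 (nat_lit 162) (nat_lit 179) (nat_lit 7) (nat_lit 8) (nat_lit 6) L114162 (by decide +kernel)
theorem L114164 : W_42 (nat_lit 6) (nat_lit 0x20001000080006000000060005000180004000000) (nat_lit 0x0) (nat_lit 0x80004000000000000000000000000200020000b800700) := T_42 (nat_lit 9) (nat_lit 61) (nat_lit 7) (nat_lit 9) (nat_lit 0) L114163 (by decide +kernel)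
theorem L114165 : W_42 (nat_lit 7) (nat_lit 0x20001000080006000000020005000180004000000) (nat_lit 0x0) (nat_lit 0x80004000000000000000080004000200020000b800700) := T_42 (nat_lit 78) (nat_lit 95) (nat_lit 7) (nat_lit 9) (nat_lit 1) L114164 (by decide +kernel)
theorem L114166 : W_42 (nat_lit 8) (nat_lit 0x20001000080004000000020005000180004000000) (nat_lit 0x0) (nat_lit 0x80004000000000000200090004000200020000b800700) := T_42 (nat_lit 109) (nat_lit 92) (nat_lit 4) (nat_lit 8) (nat_lit 9) L114165 (by decide +kernel)
theorem L114167 : W_42 (nat_lit 2) (nat_lit 0x300010000800060000000600070005c000e800000) (nat_lit 0x0) (nat_lit 0x30000800) := D_42 (nat_lit 28) (nat_lit 29) (nat_lit 11) (nat_lit 1) (nat_lit 12) (nat_lit 1) (nat_lit 6) (nat_lit 10) (nat_lit 4) (by decide +kernel)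
theorem L114168 : W_42 (nat_lit 3) (nat_lit 0x300010000800060000000600070005c0006800000) (nat_lit 0x0) (nat_lit 0x38000c00) := T_42 (nat_lit 27) (nat_lit 10) (nat_lit 6) (nat_lit 9) (nat_lit 4) L114167 (by decide +kernel)
theorem L114169 : W_42 (nat_lit 4) (nat_lit 0x30001000080006000000060007000580006800000) (nat_lit 0x0) (nat_lit 0x60038000c00) := T_42 (nat_lit 42) (nat_lit 41) (nat_lit 3) (nat_lit 7) (nat_lit 2) L114168 (by decide +kernel)
theorem L114170 : W_42 (nat_lit 5) (nat_lit 0x20001000080006000000060007000580006800000) (nat_lit 0x0) (nat_lit 0x200010000000000000000000000000000060038000c00) := T_42 (nat_lit 160) (nat_lit 177) (nat_lit 5) (nat_lit 8) (nat_lit 6) L114169 (by decide +kernel)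
theorem L114171 : W_42 (nat_lit 6) (nat_lit 0x20001000080006000000060005000580006800000) (nat_lit 0x0) (nat_lit 0x200010000000000000000000000002000060038000e00) := T_42 (nat_lit 61) (nat_lit 9) (nat_lit 7) (nat_lit 9) (nat_lit 0) L114170 (by decide +kernel)
theorem L114172 : W_42 (nat_lit 7) (nat_lit 0x20001000080006000000020005000580006800000) (nat_lit 0x0) (nat_lit 0x200010000000000000000800040002000060038000e00) := T_42 (nat_lit 78) (nat_lit 95) (nat_lit 7) (nat_lit 9) (nat_lit 1) L114171 (by decide +kernel)
theorem L114173 : W_42 (nat_lit 8) (nat_lit 0x20001000080004000000020005000580006800000) (nat_lit 0x0) (nat_lit 0x200010000000000002000900040002000060038000e00) := T_42 (nat_lit 109) (nat_lit 92) (nat_lit 4) (nat_lit 8) (nat_lit 9) L114172 (by decide +kernel)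
theorem L114174 : W_42 (nat_lit 9) (nat_lit 0x20001000080004000000020005000180006800000) (nat_lit 0x0) (nat_lit 0x200010000000000002000900040002000660038000e00) := T_42 (nat_lit 46) (nat_lit 45) (nat_lit 0) (nat_lit 12) (nat_lit 2) L114173 (by decide +kernel)
theorem L114175 : W_42 (nat_lit 10) (nat_lit 0x20001000080004000000020005000180006000000) (nat_lit 0x0) (nat_lit 0x200010000000000002000900040002000660039800e00) := T_42 (nat_lit 23) (nat_lit 24) (nat_lit 3) (nat_lit 6) (nat_lit 1) L114174 (by decide +kernel)
theorem L114176 : W_42 (nat_lit 11) (nat_lit 0x20001000080004000000020005000180004000000) (nat_lit 0x0) (nat_lit 0x20001000000000000200090004000200066003b800f00) := T_42 (nat_lit 25) (nat_lit 8) (nat_lit 4) (nat_lit 9) (nat_lit 4) L114175 (by decide +kernel)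
theorem L114177 : W_42 (nat_lit 2) (nat_lit 0x30001000080004000000020005000180007000000) (nat_lit 0x0) (nat_lit 0x640000000000) := D_42 (nat_lit 45) (nat_lit 46) (nat_lit 42) (nat_lit 0) (nat_lit 12) (nat_lit 2) (nat_lit 0) (nat_lit 11) (nat_lit 2) (by decide +kernel)
theorem L114178 : W_42 (nat_lit 3) (nat_lit 0x30001000080004000000020005000180006000000) (nat_lit 0x0) (nat_lit 0x640001800000) := T_42 (nat_lit 24) (nat_lit 23) (nat_lit 3) (nat_lit 6) (nat_lit 1) L114177 (by decide +kernel)
theorem L114179 : W_42 (nat_lit 4) (nat_lit 0x30001000080004000000020005000180004000000) (nat_lit 0x0) (nat_lit 0x640003800100) := T_42 (nat_lit 25) (nat_lit 8) (nat_lit 4) (nat_lit 9) (nat_lit 4) L114178 (by decide +kernel)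
theorem L114180 : W_42 (nat_lit 5) (nat_lit 0x20001000080004000000020005000180004000000) (nat_lit 0x0) (nat_lit 0x200010000000000000000000000000000640003800100) := T_42 (nat_lit 160) (nat_lit 177) (nat_lit 5) (nat_lit 8) (nat_lit 6) L114179 (by decide +kernel)
theorem L114181 : W_42 (nat_lit 6) (nat_lit 0x300010000800060000000600070001a0004000000) (nat_lit 0x0) (nat_lit 0x7000380000000200018000c00) := T_42 (nat_lit 27) (nat_lit 10) (nat_lit 6) (nat_lit 9) (nat_lit 4) L113209 (by decide +kernel)
theorem L114182 : W_42 (nat_lit 7) (nat_lit 0x30001000080006000000060007000180004000000) (nat_lit 0x0) (nat_lit 0x7000380000000260018000c00) := T_42 (nat_lit 41) (nat_lit 42) (nat_lit 3) (nat_lit 7) (nat_lit 2) L114181 (by decide +kernel)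
theorem L114183 : W_42 (nat_lit 8) (nat_lit 0x20001000080006000000060007000180004000000) (nat_lit 0x0) (nat_lit 0x200010000000000000007000380000000260018000c00) := T_42 (nat_lit 160) (nat_lit 177) (nat_lit 5) (nat_lit 8) (nat_lit 6) L114182 (by decide +kernel)
theorem L114184 : W_42 (nat_lit 9) (nat_lit 0x20001000080006000000060005000180004000000) (nat_lit 0x0) (nat_lit 0x200010000000000000007000380002000260018000e00) := T_42 (nat_lit 61) (nat_lit 9) (nat_lit 7) (nat_lit 9) (nat_lit 0) L114183 (by decide +kernel)
theorem L114185 : W_42 (nat_lit 10) (nat_lit 0x20001000080006000000020005000180004000000) (nat_lit 0x0) (nat_lit 0x2000100000000000000078003c0002000260018000e00) := T_42 (nat_lit 78) (nat_lit 95) (nat_lit 7) (nat_lit 9) (nat_lit 1) L114184 (by decide +kernel)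
theorem L114186 : W_42 (nat_lit 11) (nat_lit 0x20001000080004000000020005000180004000000) (nat_lit 0x0) (nat_lit 0x2000100000000000020079003c0002000260018000e00) := T_42 (nat_lit 109) (nat_lit 92) (nat_lit 4) (nat_lit 8) (nat_lit 9) L114185 (by decide +kernel)
theorem L114187 : W_42 (nat_lit 2) (nat_lit 0x300010000800060000000600070001c000e800000) (nat_lit 0x0) (nat_lit 0x30000800) := D_42 (nat_lit 28) (nat_lit 29) (nat_lit 11) (nat_lit 1) (nat_lit 12) (nat_lit 1) (nat_lit 6) (nat_lit 10) (nat_lit 4) (by decide +kernel)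
theorem L114188 : W_42 (nat_lit 3) (nat_lit 0x300010000800060000000600070001c0006800000) (nat_lit 0x0) (nat_lit 0x38000c00) := T_42 (nat_lit 27) (nat_lit 10) (nat_lit 6) (nat_lit 9) (nat_lit 4) L114187 (by decide +kernel)
theorem L114189 : W_42 (nat_lit 4) (nat_lit 0x30001000080006000000060007000180006800000) (nat_lit 0x0) (nat_lit 0x60038000c00) := T_42 (nat_lit 42) (nat_lit 41) (nat_lit 3) (nat_lit 7) (nat_lit 2) L114188 (by decide +kernel)
theorem L114190 : W_42 (nat_lit 5) (nat_lit 0x20001000080006000000060007000180006800000) (nat_lit 0x0) (nat_lit 0x200010000000000000000000000000000060038000c00) := T_42 (nat_lit 160) (nat_lit 177) (nat_lit 5) (nat_lit 8) (nat_lit 6) L114189 (by decide +kernel)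
theorem L114191 : W_42 (nat_lit 6) (nat_lit 0x20001000080006000000060005000180006800000) (nat_lit 0x0) (nat_lit 0x200010000000000000000000000002000060038000e00) := T_42 (nat_lit 61) (nat_lit 9) (nat_lit 7) (nat_lit 9) (nat_lit 0) L114190 (by decide +kernel)
theorem L114192 : W_42 (nat_lit 7) (nat_lit 0x20001000080006000000020005000180006800000) (nat_lit 0x0) (nat_lit 0x200010000000000000000800040002000060038000e00) := T_42 (nat_lit 78) (nat_lit 95) (nat_lit 7) (nat_lit 9) (nat_lit 1) L114191 (by decide +kernel)
theorem L114193 : W_42 (nat_lit 8) (nat_lit 0x20001000080004000000020005000180006800000) (nat_lit 0x0) (nat_lit 0x200010000000000002000900040002000060038000e00) := T_42 (nat_lit 109) (nat_lit 92) (nat_lit 4) (nat_lit 8) (nat_lit 9) L114192 (by decide +kernel)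
theorem L114194 : W_42 (nat_lit 9) (nat_lit 0x20001000080004000000020005000180006000000) (nat_lit 0x0) (nat_lit 0x200010000000000002000900040002000060039800e00) := T_42 (nat_lit 23) (nat_lit 24) (nat_lit 3) (nat_lit 6) (nat_lit 1) L114193 (by decide +kernel)
theorem L114195 : W_42 (nat_lit 10) (nat_lit 0x20001000080004000000020005000180004000000) (nat_lit 0x0) (nat_lit 0x20001000000000000200090004000200006003b800f00) := T_42 (nat_lit 25) (nat_lit 8) (nat_lit 4) (nat_lit 9) (nat_lit 4) L114194 (by decide +kernel)
theorem L114196 : W_42 (nat_lit 12) (nat_lit 0x20001000080004000000020005000080004000000) (nat_lit 0x0) (nat_lit 0xa000500000000000020079003c000200076003b800f00) := Q_42 (nat_lit 44) (C_42 L114160 (C_42 L114166 (C_42 L114176 (C_42 L114180 (C_42 L114186 (C_42 L114195 N_42)))))) (by decide +kernel)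
theorem L114197 : W_42 (nat_lit 7) (nat_lit 0x60001000080006000000020005000080004000000) (nat_lit 0x0) (nat_lit 0xc0004000200030000b800700) := T_42 (nat_lit 78) (nat_lit 95) (nat_lit 7) (nat_lit 9) (nat_lit 1) L113067 (by decide +kernel)
theorem L114198 : W_42 (nat_lit 8) (nat_lit 0x60001000080004000000020005000080004000000) (nat_lit 0x0) (nat_lit 0x2000d0004000200030000b800700) := T_42 (nat_lit 109) (nat_lit 92) (nat_lit 4) (nat_lit 8) (nat_lit 9) L114197 (by decide +kernel)
theorem L114199 : W_42 (nat_lit 9) (nat_lit 0x20001000080004000000020005000080004000000) (nat_lit 0x0) (nat_lit 0x800040000000000002000d0004000200030000b800700) := T_42 (nat_lit 162) (nat_lit 179) (nat_lit 7) (nat_lit 8) (nat_lit 6) L114198 (by decide +kernel)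
theorem L114200 : W_42 (nat_lit 5) (nat_lit 0x20001000080004000000020005000080004000000) (nat_lit 0x0) (nat_lit 0x40000000000030000b800500) := T_42 (nat_lit 27) (nat_lit 10) (nat_lit 6) (nat_lit 9) (nat_lit 4) L114089 (by decide +kernel)
theorem L114201 : W_42 (nat_lit 2) (nat_lit 0x7000100008000600040002000500008000c000000) (nat_lit 0x0) (nat_lit 0x40002000100) := D_42 (nat_lit 25) (nat_lit 42) (nat_lit 8) (nat_lit 4) (nat_lit 9) (nat_lit 5) (nat_lit 4) (nat_lit 9) (nat_lit 4) (by decide +kernel)
theorem L114202 : W_42 (nat_lit 3) (nat_lit 0x7000100008000600000002000500008000c000000) (nat_lit 0x0) (nat_lit 0x400000000000140002000100) := T_42 (nat_lit 94) (nat_lit 44) (nat_lit 6) (nat_lit 9) (nat_lit 5) L114201 (by decide +kernel)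
theorem L114203 : W_42 (nat_lit 4) (nat_lit 0x7000100008000400000002000500008000c000000) (nat_lit 0x0) (nat_lit 0x2000500000000000140002000100) := T_42 (nat_lit 109) (nat_lit 92) (nat_lit 4) (nat_lit 8) (nat_lit 9) L114202 (by decide +kernel)
theorem L114204 : W_42 (nat_lit 5) (nat_lit 0x70001000080004000000020005000080004000000) (nat_lit 0x0) (nat_lit 0x200050000000000014000a000500) := T_42 (nat_lit 27) (nat_lit 10) (nat_lit 6) (nat_lit 9) (nat_lit 4) L114203 (by decide +kernel)
theorem L114205 : W_42 (nat_lit 6) (nat_lit 0x30001000080004000000020005000080004000000) (nat_lit 0x0) (nat_lit 0x80004000000000000200050000000000014000a000500) := T_42 (nat_lit 162) (nat_lit 179) (nat_lit 7) (nat_lit 8) (nat_lit 6) L114204 (by decide +kernel)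
theorem L114206 : W_42 (nat_lit 7) (nat_lit 0x20001000080004000000020005000080004000000) (nat_lit 0x0) (nat_lit 0xa0005000000000000200050000000000014000a000500) := T_42 (nat_lit 160) (nat_lit 177) (nat_lit 5) (nat_lit 8) (nat_lit 6) L114205 (by decide +kernel)
theorem L114207 : W_42 (nat_lit 2) (nat_lit 0x700010000800060000000600050000c000e000200) (nat_lit 0x0) (nat_lit 0x30010000000) := D_42 (nat_lit 41) (nat_lit 40) (nat_lit 28) (nat_lit 2) (nat_lit 6) (nat_lit 2) (nat_lit 1) (nat_lit 11) (nat_lit 1) (by decide +kernel)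
theorem L114208 : W_42 (nat_lit 3) (nat_lit 0x7000100008000600000006000500008000e000200) (nat_lit 0x0) (nat_lit 0x400000000000070010000000) := T_42 (nat_lit 42) (nat_lit 94) (nat_lit 4) (nat_lit 9) (nat_lit 5) L114207 (by decide +kernel)
theorem L114209 : W_42 (nat_lit 4) (nat_lit 0x7000100008000600000006000500008000c000200) (nat_lit 0x0) (nat_lit 0x400000000000070012000100) := T_42 (nat_lit 25) (nat_lit 8) (nat_lit 4) (nat_lit 9) (nat_lit 4) L114208 (by decide +kernel)
theorem L114210 : W_42 (nat_lit 5) (nat_lit 0x7000100008000600000006000500008000c000000) (nat_lit 0x0) (nat_lit 0x400000002000070012000300) := T_42 (nat_lit 9) (nat_lit 61) (nat_lit 7) (nat_lit 9) (nat_lit 0) L114209 (by decide +kernel)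
theorem L114211 : W_42 (nat_lit 6) (nat_lit 0x7000100008000600000002000500008000c000000) (nat_lit 0x0) (nat_lit 0xc00040002000070012000300) := T_42 (nat_lit 78) (nat_lit 95) (nat_lit 7) (nat_lit 9) (nat_lit 1) L114210 (by decide +kernel)
theorem L114212 : W_42 (nat_lit 7) (nat_lit 0x7000100008000400000002000500008000c000000) (nat_lit 0x0) (nat_lit 0x2000d00040002000070012000300) := T_42 (nat_lit 109) (nat_lit 92) (nat_lit 4) (nat_lit 8) (nat_lit 9) L114211 (by decide +kernel)
theorem L114213 : W_42 (nat_lit 8) (nat_lit 0x3000100008000400000002000500008000c000000) (nat_lit 0x0) (nat_lit 0x800040000000000002000d00040002000070012000300) := T_42 (nat_lit 162) (nat_lit 179) (nat_lit 7) (nat_lit 8) (nat_lit 6) L114212 (by decide +kernel)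
theorem L114214 : W_42 (nat_lit 9) (nat_lit 0x2000100008000400000002000500008000c000000) (nat_lit 0x0) (nat_lit 0xa00050000000000002000d00040002000070012000300) := T_42 (nat_lit 160) (nat_lit 177) (nat_lit 5) (nat_lit 8) (nat_lit 6) L114213 (by decide +kernel)
theorem L114215 : W_42 (nat_lit 10) (nat_lit 0x20001000080004000000020005000080004000000) (nat_lit 0x0) (nat_lit 0xa00050000000000002000d0004000200007001a000700) := T_42 (nat_lit 27) (nat_lit 10) (nat_lit 6) (nat_lit 9) (nat_lit 4) L114214 (by decide +kernel)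
theorem L114216 : W_42 (nat_lit 2) (nat_lit 0x3000100008000400040002000500008000c000000) (nat_lit 0x0) (nat_lit 0x10000800040000000000000000000) := D_42 (nat_lit 95) (nat_lit 78) (nat_lit 112) (nat_lit 7) (nat_lit 9) (nat_lit 1) (nat_lit 7) (nat_lit 9) (nat_lit 2) (by decide +kernel)
theorem L114217 : W_42 (nat_lit 3) (nat_lit 0x3000100008000400000002000500008000c000000) (nat_lit 0x0) (nat_lit 0x10000c00040000000100000000000) := T_42 (nat_lit 94) (nat_lit 44) (nat_lit 6) (nat_lit 9) (nat_lit 5) L114216 (by decide +kernel)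
theorem L114218 : W_42 (nat_lit 4) (nat_lit 0x2000100008000400000002000500008000c000000) (nat_lit 0x0) (nat_lit 0x200010000000000010000c00040000000100000000000) := T_42 (nat_lit 160) (nat_lit 177) (nat_lit 5) (nat_lit 8) (nat_lit 6) L114217 (by decide +kernel)
theorem L114219 : W_42 (nat_lit 5) (nat_lit 0x20001000080004000000020005000080004000000) (nat_lit 0x0) (nat_lit 0x200010000000000010000c00040000000100008000400) := T_42 (nat_lit 27) (nat_lit 10) (nat_lit 6) (nat_lit 9) (nat_lit 4) L114218 (by decide +kernel)
theorem L114220 : W_42 (nat_lit 2) (nat_lit 0x70001000080006000400020005000080006000000) (nat_lit 0x0) (nat_lit 0x10000800040000000000000000000) := D_42 (nat_lit 95) (nat_lit 78) (nat_lit 112) (nat_lit 7) (nat_lit 9) (nat_lit 1) (nat_lit 7) (nat_lit 9) (nat_lit 2) (by decide +kernel)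
theorem L114221 : W_42 (nat_lit 3) (nat_lit 0x70001000080006000000020005000080006000000) (nat_lit 0x0) (nat_lit 0x10000c00040000000040000000000) := T_42 (nat_lit 94) (nat_lit 42) (nat_lit 4) (nat_lit 9) (nat_lit 5) L114220 (by decide +kernel)
theorem L114222 : W_42 (nat_lit 4) (nat_lit 0x70001000080004000000020005000080006000000) (nat_lit 0x0) (nat_lit 0x12000d00040000000040000000000) := T_42 (nat_lit 109) (nat_lit 92) (nat_lit 4) (nat_lit 8) (nat_lit 9) L114221 (by decide +kernel)
theorem L114223 : W_42 (nat_lit 5) (nat_lit 0x70001000080004000000020005000080004000000) (nat_lit 0x0) (nat_lit 0x12000d00040000000040002000100) := T_42 (nat_lit 25) (nat_lit 8) (nat_lit 4) (nat_lit 9) (nat_lit 4) L114222 (by decide +kernel)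
theorem L114224 : W_42 (nat_lit 6) (nat_lit 0x60001000080004000000020005000080004000000) (nat_lit 0x0) (nat_lit 0x200010000000000012000d00040000000040002000100) := T_42 (nat_lit 160) (nat_lit 177) (nat_lit 5) (nat_lit 8) (nat_lit 6) L114223 (by decide +kernel)
theorem L114225 : W_42 (nat_lit 7) (nat_lit 0x20001000080004000000020005000080004000000) (nat_lit 0x0) (nat_lit 0xa00050000000000012000d00040000000040002000100) := T_42 (nat_lit 162) (nat_lit 179) (nat_lit 7) (nat_lit 8) (nat_lit 6) L114224 (by decide +kernel)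
theorem L114226 : W_42 (nat_lit 13) (nat_lit 0x20001000080004000000020005000080000000000) (nat_lit 0x0) (nat_lit 0xa00050000000000012007d003c000200077003f800f00) := Q_42 (nat_lit 26) (C_42 L114196 (C_42 L114199 (C_42 L114200 (C_42 L114206 (C_42 L114215 (C_42 L114219 (C_42 L114225 N_42))))))) (by decide +kernel)
theorem L114227 : W_42 (nat_lit 2) (nat_lit 0x30001000080004000c00020005000080004000000) (nat_lit 0x0) (nat_lit 0x100008000400) := D_42 (nat_lit 27) (nat_lit 10) (nat_lit 44) (nat_lit 6) (nat_lit 9) (nat_lit 4) (nat_lit 6) (nat_lit 9) (nat_lit 5) (by decide +kernel)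
theorem L114228 : W_42 (nat_lit 3) (nat_lit 0x30001000080004000c00020005000080000000000) (nat_lit 0x0) (nat_lit 0x4000000010000c000400) := T_42 (nat_lit 26) (nat_lit 78) (nat_lit 7) (nat_lit 9) (nat_lit 1) L114227 (by decide +kernel)
theorem L114229 : W_42 (nat_lit 4) (nat_lit 0x30001000080004000400020005000080000000000) (nat_lit 0x0) (nat_lit 0x1000080004000000010000c000400) := T_42 (nat_lit 95) (nat_lit 112) (nat_lit 7) (nat_lit 9) (nat_lit 2) L114228 (by decide +kernel)
theorem L114230 : W_42 (nat_lit 5) (nat_lit 0x20001000080004000400020005000080000000000) (nat_lit 0x0) (nat_lit 0x20001000000000001000080004000000010000c000400) := T_42 (nat_lit 160) (nat_lit 177) (nat_lit 5) (nat_lit 8) (nat_lit 6) L114229 (by decide +kernel)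
theorem L114231 : W_42 (nat_lit 2) (nat_lit 0x20001000080004000c00020005000180004000000) (nat_lit 0x0) (nat_lit 0x40002000100) := D_42 (nat_lit 25) (nat_lit 8) (nat_lit 42) (nat_lit 4) (nat_lit 9) (nat_lit 4) (nat_lit 4) (nat_lit 9) (nat_lit 5) (by decide +kernel)
theorem L114232 : W_42 (nat_lit 3) (nat_lit 0x20001000080004000c00020005000180000000000) (nat_lit 0x0) (nat_lit 0x40000000040006000100) := T_42 (nat_lit 26) (nat_lit 78) (nat_lit 7) (nat_lit 9) (nat_lit 1) L114231 (by decide +kernel)
theorem L114233 : W_42 (nat_lit 4) (nat_lit 0x20001000080004000400020005000180000000000) (nat_lit 0x0) (nat_lit 0x10000800040000000040006000100) := T_42 (nat_lit 95) (nat_lit 112) (nat_lit 7) (nat_lit 9) (nat_lit 2) L114232 (by decide +kernel)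
theorem L114234 : W_42 (nat_lit 5) (nat_lit 0x20001000080004000400020005000080000000000) (nat_lit 0x0) (nat_lit 0x1000080004000000014000e000100) := T_42 (nat_lit 44) (nat_lit 27) (nat_lit 6) (nat_lit 9) (nat_lit 5) L114233 (by decide +kernel)
theorem L114235 : W_42 (nat_lit 2) (nat_lit 0x2000100008000400040002000500008000a000000) (nat_lit 0x0) (nat_lit 0x4000500) := D_42 (nat_lit 26) (nat_lit 8) (nat_lit 10) (nat_lit 4) (nat_lit 9) (nat_lit 4) (nat_lit 6) (nat_lit 9) (nat_lit 4) (by decide +kernel)
theorem L114236 : W_42 (nat_lit 3) (nat_lit 0x20001000080004000400020005000080002000000) (nat_lit 0x0) (nat_lit 0x10000c000500) := T_42 (nat_lit 27) (nat_lit 44) (nat_lit 6) (nat_lit 9) (nat_lit 5) L114235 (by decide +kernel)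
theorem L114237 : W_42 (nat_lit 4) (nat_lit 0x20001000080004000400020005000080000000000) (nat_lit 0x0) (nat_lit 0x14000e000500) := T_42 (nat_lit 25) (nat_lit 42) (nat_lit 4) (nat_lit 9) (nat_lit 5) L114236 (by decide +kernel)
theorem L114238 : W_42 (nat_lit 9) (nat_lit 0x60001000080004000c000200050000c0000000000) (nat_lit 0x0) (nat_lit 0x2000100000000000420031001d0008000300038000000) := T_42 (nat_lit 160) (nat_lit 177) (nat_lit 5) (nat_lit 8) (nat_lit 6) L112869 (by decide +kernel)
theorem L114239 : W_42 (nat_lit 10) (nat_lit 0x60001000080004000c00020005000080000000000) (nat_lit 0x0) (nat_lit 0x2000100000000000420031001d000800034003a000000) := T_42 (nat_lit 42) (nat_lit 25) (nat_lit 4) (nat_lit 9) (nat_lit 5) L114238 (by decide +kernel)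
theorem L114240 : W_42 (nat_lit 11) (nat_lit 0x60001000080004000400020005000080000000000) (nat_lit 0x0) (nat_lit 0x2000100000000000520039001d000800034003a000000) := T_42 (nat_lit 95) (nat_lit 112) (nat_lit 7) (nat_lit 9) (nat_lit 2) L114239 (by decide +kernel)
theorem L114241 : W_42 (nat_lit 12) (nat_lit 0x20001000080004000400020005000080000000000) (nat_lit 0x0) (nat_lit 0xa000500000000000520039001d000800034003a000000) := T_42 (nat_lit 162) (nat_lit 179) (nat_lit 7) (nat_lit 8) (nat_lit 6) L114240 (by decide +kernel)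
theorem L114242 : W_42 (nat_lit 2) (nat_lit 0x60001000080004000c00020005000080004000000) (nat_lit 0x0) (nat_lit 0x40002000100) := D_42 (nat_lit 25) (nat_lit 42) (nat_lit 8) (nat_lit 4) (nat_lit 9) (nat_lit 5) (nat_lit 4) (nat_lit 9) (nat_lit 4) (by decide +kernel)
theorem L114243 : W_42 (nat_lit 3) (nat_lit 0x60001000080004000c00020005000080000000000) (nat_lit 0x0) (nat_lit 0x40000000040006000100) := T_42 (nat_lit 26) (nat_lit 78) (nat_lit 7) (nat_lit 9) (nat_lit 1) L114242 (by decide +kernel)
theorem L114244 : W_42 (nat_lit 4) (nat_lit 0x60001000080004000400020005000080000000000) (nat_lit 0x0) (nat_lit 0x10000800040000000040006000100) := T_42 (nat_lit 95) (nat_lit 112) (nat_lit 7) (nat_lit 9) (nat_lit 2) L114243 (by decide +kernel)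
theorem L114245 : W_42 (nat_lit 5) (nat_lit 0x20001000080004000400020005000080000000000) (nat_lit 0x0) (nat_lit 0x800040000000000010000800040000000040006000100) := T_42 (nat_lit 162) (nat_lit 179) (nat_lit 7) (nat_lit 8) (nat_lit 6) L114244 (by decide +kernel)
theorem L114246 : W_42 (nat_lit 13) (nat_lit 0x20001000080004000000020005000080000000000) (nat_lit 0x0) (nat_lit 0xa00050000000000052003d001d000800034003e000500) := Q_42 (nat_lit 94) (C_42 L114230 (C_42 L114234 (C_42 L114237 (C_42 L114241 (C_42 L114245 N_42))))) (by decide +kernel)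
theorem L114247 : W_42 (nat_lit 4) (nat_lit 0x20001000080004000000020007000080000000000) (nat_lit 0x0) (nat_lit 0x800040000000000000000000050018000100000000000) := T_42 (nat_lit 162) (nat_lit 179) (nat_lit 7) (nat_lit 8) (nat_lit 6) L112852 (by decide +kernel)
theorem L114248 : W_42 (nat_lit 2) (nat_lit 0x20001000080004000000020007000080004000000) (nat_lit 0x0) (nat_lit 0x800040000000000000000200) := D_42 (nat_lit 78) (nat_lit 9) (nat_lit 95) (nat_lit 7) (nat_lit 9) (nat_lit 0) (nat_lit 7) (nat_lit 9) (nat_lit 1) (by decide +kernel)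
theorem L114249 : W_42 (nat_lit 2) (nat_lit 0x6000100008000400040002000700008000c000000) (nat_lit 0x0) (nat_lit 0x40002000100) := D_42 (nat_lit 25) (nat_lit 42) (nat_lit 8) (nat_lit 4) (nat_lit 9) (nat_lit 5) (nat_lit 4) (nat_lit 9) (nat_lit 4) (by decide +kernel)
theorem L114250 : W_42 (nat_lit 3) (nat_lit 0x6000100008000400000002000700008000c000000) (nat_lit 0x0) (nat_lit 0x400000000000140002000100) := T_42 (nat_lit 94) (nat_lit 44) (nat_lit 6) (nat_lit 9) (nat_lit 5) L114249 (by decide +kernel)
theorem L114251 : W_42 (nat_lit 4) (nat_lit 0x60001000080004000000020007000080004000000) (nat_lit 0x0) (nat_lit 0x40000000000014000a000500) := T_42 (nat_lit 27) (nat_lit 10) (nat_lit 6) (nat_lit 9) (nat_lit 4) L114250 (by decide +kernel)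
theorem L114252 : W_42 (nat_lit 5) (nat_lit 0x20001000080004000000020007000080004000000) (nat_lit 0x0) (nat_lit 0x80004000000000000000040000000000014000a000500) := T_42 (nat_lit 162) (nat_lit 179) (nat_lit 7) (nat_lit 8) (nat_lit 6) L114251 (by decide +kernel)
theorem L114253 : W_42 (nat_lit 12) (nat_lit 0x20001000080004000000020007000080000000000) (nat_lit 0x0) (nat_lit 0x800040000000000000001c003c000000036007e003f00) := Q_42 (nat_lit 26) (C_42 L114248 (C_42 L113205 (C_42 L114252 N_42))) (by decide +kernel)
theorem L114254 : W_42 (nat_lit 13) (nat_lit 0x20001000080004000000020005000080000000000) (nat_lit 0x0) (nat_lit 0x800040000000000002001d003d001a001f6007e003f00) := Q_42 (nat_lit 61) (C_42 L112853 (C_42 L112524 (C_42 L114247 (C_42 L114253 N_42)))) (by decide +kernel)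
theorem L114255 : W_42 (nat_lit 4) (nat_lit 0x20001000080004000000020007000080000000000) (nat_lit 0x0) (nat_lit 0x200010000000000000000000050018000100000000000) := T_42 (nat_lit 160) (nat_lit 177) (nat_lit 5) (nat_lit 8) (nat_lit 6) L112851 (by decide +kernel)
theorem L114256 : W_42 (nat_lit 2) (nat_lit 0x3000100008000400040002000700008000c000200) (nat_lit 0x0) (nat_lit 0x40002000100) := D_42 (nat_lit 25) (nat_lit 42) (nat_lit 8) (nat_lit 4) (nat_lit 9) (nat_lit 5) (nat_lit 4) (nat_lit 9) (nat_lit 4) (by decide +kernel)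
theorem L114257 : W_42 (nat_lit 3) (nat_lit 0x3000100008000400000002000700008000c000200) (nat_lit 0x0) (nat_lit 0x400000000000140002000100) := T_42 (nat_lit 94) (nat_lit 44) (nat_lit 6) (nat_lit 9) (nat_lit 5) L114256 (by decide +kernel)
theorem L114258 : W_42 (nat_lit 4) (nat_lit 0x30001000080004000000020007000080004000200) (nat_lit 0x0) (nat_lit 0x40000000000014000a000500) := T_42 (nat_lit 27) (nat_lit 10) (nat_lit 6) (nat_lit 9) (nat_lit 4) L114257 (by decide +kernel)
theorem L114259 : W_42 (nat_lit 5) (nat_lit 0x30001000080004000000020007000080004000000) (nat_lit 0x0) (nat_lit 0x40004000000014000a000700) := T_42 (nat_lit 9) (nat_lit 78) (nat_lit 7) (nat_lit 9) (nat_lit 0) L114258 (by decide +kernel)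
theorem L114260 : W_42 (nat_lit 6) (nat_lit 0x20001000080004000000020007000080004000000) (nat_lit 0x0) (nat_lit 0x20001000000000000000040004000000014000a000700) := T_42 (nat_lit 160) (nat_lit 177) (nat_lit 5) (nat_lit 8) (nat_lit 6) L114259 (by decide +kernel)
theorem L114261 : W_42 (nat_lit 2) (nat_lit 0x30001000080004000400020007000080006000000) (nat_lit 0x0) (nat_lit 0x100008000400) := D_42 (nat_lit 27) (nat_lit 10) (nat_lit 44) (nat_lit 6) (nat_lit 9) (nat_lit 4) (nat_lit 6) (nat_lit 9) (nat_lit 5) (by decide +kernel)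
theorem L114262 : W_42 (nat_lit 3) (nat_lit 0x30001000080004000000020007000080006000000) (nat_lit 0x0) (nat_lit 0x400000000000140008000400) := T_42 (nat_lit 94) (nat_lit 42) (nat_lit 4) (nat_lit 9) (nat_lit 5) L114261 (by decide +kernel)
theorem L114263 : W_42 (nat_lit 4) (nat_lit 0x20001000080004000000020007000080006000000) (nat_lit 0x0) (nat_lit 0x200010000000000000000400000000000140008000400) := T_42 (nat_lit 160) (nat_lit 177) (nat_lit 5) (nat_lit 8) (nat_lit 6) L114262 (by decide +kernel)
theorem L114264 : W_42 (nat_lit 5) (nat_lit 0x20001000080004000000020007000080004000000) (nat_lit 0x0) (nat_lit 0x20001000000000000000040000000000014000a000500) := T_42 (nat_lit 25) (nat_lit 8) (nat_lit 4) (nat_lit 9) (nat_lit 4) L114263 (by decide +kernel)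
theorem L114265 : W_42 (nat_lit 7) (nat_lit 0x20001000080004000000020007000080000000000) (nat_lit 0x0) (nat_lit 0x200010000000000000000c0004000000014000e000700) := Q_42 (nat_lit 26) (C_42 L114248 (C_42 L114260 (C_42 L114264 N_42))) (by decide +kernel)
theorem L114266 : W_42 (nat_lit 8) (nat_lit 0x20001000080004000000020005000080000000000) (nat_lit 0x0) (nat_lit 0x200010000000000002000d0005001a001d4000e000700) := Q_42 (nat_lit 61) (C_42 L112853 (C_42 L112524 (C_42 L114255 (C_42 L114265 N_42)))) (by decide +kernel)
theorem L114267 : W_42 (nat_lit 13) (nat_lit 0x20001000080004000000020005000080000000000) (nat_lit 0x0) (nat_lit 0xa00050000000000000001c003d001a00036007e003f00) := Q_42 (nat_lit 61) (C_42 L114255 (C_42 L114265 (C_42 L114253 (C_42 L112853 N_42)))) (by decide +kernel)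
theorem L114268 : W_42 (nat_lit 13) (nat_lit 0x20001000080004000000020005000080000000000) (nat_lit 0x0) (nat_lit 0xa0005000000000000200050075003a000f7007f803d00) := Q_42 (nat_lit 63) (C_42 L112910 (C_42 L114147 (C_42 L112907 (C_42 L112908 (C_42 L112854 N_42))))) (by decide +kernel)
theorem L114269 : W_42 (nat_lit 13) (nat_lit 0x20001000080004000000020005000080000000000) (nat_lit 0x0) (nat_lit 0xa0005000000000000200050071003a00077007f803d00) := Q_42 (nat_lit 63) (C_42 L112907 (C_42 L114147 (C_42 L112854 N_42))) (by decide +kernel)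
theorem L114270 : W_42 (nat_lit 9) (nat_lit 0x20001000080004000000020005000080000000000) (nat_lit 0x0) (nat_lit 0xa000500000007400138009007d003a000140004000000) := Q_42 (nat_lit 63) (C_42 L114154 (C_42 L112907 (C_42 L112910 (C_42 L112856 (C_42 L112854 N_42))))) (by decide +kernel)
theorem L114271 : W_42 (nat_lit 2) (nat_lit 0x2000100008000600000002000700018000e000200) (nat_lit 0x0) (nat_lit 0x200001800000) := D_42 (nat_lit 24) (nat_lit 45) (nat_lit 23) (nat_lit 3) (nat_lit 7) (nat_lit 1) (nat_lit 3) (nat_lit 6) (nat_lit 1) (by decide +kernel)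
theorem L114272 : W_42 (nat_lit 3) (nat_lit 0x2000100008000600000002000700018000c000200) (nat_lit 0x0) (nat_lit 0x200003800100) := T_42 (nat_lit 25) (nat_lit 8) (nat_lit 4) (nat_lit 9) (nat_lit 4) L114271 (by decide +kernel)
theorem L114273 : W_42 (nat_lit 4) (nat_lit 0x2000100008000600000002000700008000c000200) (nat_lit 0x0) (nat_lit 0x400000000000300003800100) := T_42 (nat_lit 44) (nat_lit 94) (nat_lit 6) (nat_lit 9) (nat_lit 5) L114272 (by decide +kernel)
theorem L114274 : W_42 (nat_lit 5) (nat_lit 0x20001000080006000000020007000080004000200) (nat_lit 0x0) (nat_lit 0x40000000000030000b800500) := T_42 (nat_lit 27) (nat_lit 10) (nat_lit 6) (nat_lit 9) (nat_lit 4) L114273 (by decide +kernel)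
theorem L114275 : W_42 (nat_lit 6) (nat_lit 0x20001000080006000000020007000080004000000) (nat_lit 0x0) (nat_lit 0x40004000000030000b800700) := T_42 (nat_lit 9) (nat_lit 78) (nat_lit 7) (nat_lit 9) (nat_lit 0) L114274 (by decide +kernel)
theorem L114276 : W_42 (nat_lit 7) (nat_lit 0x20001000080004000000020007000080004000000) (nat_lit 0x0) (nat_lit 0x200050004000000030000b800700) := T_42 (nat_lit 109) (nat_lit 92) (nat_lit 4) (nat_lit 8) (nat_lit 9) L114275 (by decide +kernel)
theorem L114277 : W_42 (nat_lit 2) (nat_lit 0x7000100008000600000002000700018000e000000) (nat_lit 0x0) (nat_lit 0x200001800000) := D_42 (nat_lit 24) (nat_lit 45) (nat_lit 23) (nat_lit 3) (nat_lit 7) (nat_lit 1) (nat_lit 3) (nat_lit 6) (nat_lit 1) (by decide +kernel)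
theorem L114278 : W_42 (nat_lit 3) (nat_lit 0x7000100008000600000002000700018000c000000) (nat_lit 0x0) (nat_lit 0x200003800100) := T_42 (nat_lit 25) (nat_lit 8) (nat_lit 4) (nat_lit 9) (nat_lit 4) L114277 (by decide +kernel)
theorem L114279 : W_42 (nat_lit 4) (nat_lit 0x6000100008000600000002000700018000c000000) (nat_lit 0x0) (nat_lit 0x200010000000000000000000000000000200003800100) := T_42 (nat_lit 160) (nat_lit 177) (nat_lit 5) (nat_lit 8) (nat_lit 6) L114278 (by decide +kernel)
theorem L114280 : W_42 (nat_lit 5) (nat_lit 0x6000100008000600000002000700008000c000000) (nat_lit 0x0) (nat_lit 0x200010000000000000000400000000000300003800100) := T_42 (nat_lit 44) (nat_lit 94) (nat_lit 6) (nat_lit 9) (nat_lit 5) L114279 (by decide +kernel)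
theorem L114281 : W_42 (nat_lit 6) (nat_lit 0x60001000080006000000020007000080004000000) (nat_lit 0x0) (nat_lit 0x20001000000000000000040000000000030000b800500) := T_42 (nat_lit 27) (nat_lit 10) (nat_lit 6) (nat_lit 9) (nat_lit 4) L114280 (by decide +kernel)
theorem L114282 : W_42 (nat_lit 7) (nat_lit 0x60001000080004000000020007000080004000000) (nat_lit 0x0) (nat_lit 0x20001000000000000200050000000000030000b800500) := T_42 (nat_lit 109) (nat_lit 92) (nat_lit 4) (nat_lit 8) (nat_lit 9) L114281 (by decide +kernel)
theorem L114283 : W_42 (nat_lit 8) (nat_lit 0x20001000080004000000020007000080004000000) (nat_lit 0x0) (nat_lit 0xa0005000000000000200050000000000030000b800500) := T_42 (nat_lit 162) (nat_lit 179) (nat_lit 7) (nat_lit 8) (nat_lit 6) L114282 (by decide +kernel)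
theorem L114284 : W_42 (nat_lit 9) (nat_lit 0x20001000080004000000020007000080000000000) (nat_lit 0x0) (nat_lit 0xa00050000000000002000d0004000000030000f800700) := Q_42 (nat_lit 26) (C_42 L114248 (C_42 L114276 (C_42 L114283 N_42))) (by decide +kernel)
theorem L114285 : W_42 (nat_lit 10) (nat_lit 0x20001000080004000000020005000080000000000) (nat_lit 0x0) (nat_lit 0xa00050000000000002000d0075001a001f0000f800700) := Q_42 (nat_lit 61) (C_42 L114284 (C_42 L114255 (C_42 L114247 (C_42 L112850 (C_42 L112843 N_42))))) (by decide +kernel)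
theorem L114286 : W_42 (nat_lit 3) (nat_lit 0x7000100008000400000012000f000480000000000) (nat_lit 0x0) (nat_lit 0x10000800040010000000004000000) := T_42 (nat_lit 78) (nat_lit 64) (nat_lit 1) (nat_lit 13) (nat_lit 3) L112578 (by decide +kernel)
theorem L114287 : W_42 (nat_lit 4) (nat_lit 0x7000100008000400000012000f000080000000000) (nat_lit 0x0) (nat_lit 0x10000800040010000c00004000000) := T_42 (nat_lit 46) (nat_lit 47) (nat_lit 2) (nat_lit 9) (nat_lit 3) L114286 (by decide +kernel)
theorem L114288 : W_42 (nat_lit 5) (nat_lit 0x7000100008000400000002000f000080000000000) (nat_lit 0x0) (nat_lit 0x10000800340010000c00004000000) := T_42 (nat_lit 80) (nat_lit 81) (nat_lit 3) (nat_lit 9) (nat_lit 3) L114287 (by decide +kernel)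
theorem L114289 : W_42 (nat_lit 6) (nat_lit 0x3000100008000400000002000f000080000000000) (nat_lit 0x0) (nat_lit 0x800040000000000010000800340010000c00004000000) := T_42 (nat_lit 162) (nat_lit 179) (nat_lit 7) (nat_lit 8) (nat_lit 6) L114288 (by decide +kernel)
theorem L114290 : W_42 (nat_lit 7) (nat_lit 0x3000100008000400000002000d000080000000000) (nat_lit 0x0) (nat_lit 0x800040000000000010000800340012000c40004000000) := T_42 (nat_lit 61) (nat_lit 42) (nat_lit 0) (nat_lit 12) (nat_lit 3) L114289 (by decide +kernel)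
theorem L114291 : W_42 (nat_lit 8) (nat_lit 0x2000100008000400000002000d000080000000000) (nat_lit 0x0) (nat_lit 0xa00050000000000010000800340012000c40004000000) := T_42 (nat_lit 160) (nat_lit 177) (nat_lit 5) (nat_lit 8) (nat_lit 6) L114290 (by decide +kernel)
theorem L114292 : W_42 (nat_lit 9) (nat_lit 0x20001000080004000000020005000080000000000) (nat_lit 0x0) (nat_lit 0xa000500000007400138009003d003a000c40004000000) := Q_42 (nat_lit 63) (C_42 L114154 (C_42 L112854 (C_42 L114291 N_42))) (by decide +kernel)
theorem L114293 : W_42 (nat_lit 14) (nat_lit 0x20001000080004000000020005000000000000000) (nat_lit 0x0) (nat_lit 0xa00050000000740053807d007d003a701ff007fc03f00) := Q_42 (nat_lit 43) (C_42 L114226 (C_42 L114246 (C_42 L114254 (C_42 L114266 (C_42 L114267 (C_42 L114268 (C_42 L114269 (C_42 L114270 (C_42 L114285 (C_42 L112902 (C_42 L114292 N_42))))))))))) (by decide +kernel)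
theorem L114294 : W_42 (nat_lit 14) (nat_lit 0x20001000080004000000020005000000000000000) (nat_lit 0x0) (nat_lit 0xa00050000000000072007d007d001a801fe003f000f80) := Q_42 (nat_lit 61) (C_42 L113116 (C_42 L113184 (C_42 L113177 (C_42 L113169 (C_42 L113118 N_42))))) (by decide +kernel)
theorem L114295 : W_42 (nat_lit 2) (nat_lit 0x70001000080004000000020007f00200000000000) (nat_lit 0x0) (nat_lit 0x1c000000000) := D_42 (nat_lit 39) (nat_lit 40) (nat_lit 38) (nat_lit 0) (nat_lit 9) (nat_lit 3) (nat_lit 0) (nat_lit 8) (nat_lit 3) (by decide +kernel)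
theorem L114296 : W_42 (nat_lit 3) (nat_lit 0x70001000080004000000020007e00200000000000) (nat_lit 0x0) (nat_lit 0x1000010001c000000000) := T_42 (nat_lit 56) (nat_lit 76) (nat_lit 3) (nat_lit 5) (nat_lit 3) L114295 (by decide +kernel)
theorem L114297 : W_42 (nat_lit 4) (nat_lit 0x70001000080004000000020007c00200000000000) (nat_lit 0x0) (nat_lit 0x5000030001c000000000) := T_42 (nat_lit 57) (nat_lit 78) (nat_lit 3) (nat_lit 6) (nat_lit 3) L114296 (by decide +kernel)
theorem L114298 : W_42 (nat_lit 5) (nat_lit 0x30001000080004000000020007c00200000000000) (nat_lit 0x0) (nat_lit 0x80004000000000000000000005000030001c000000000) := T_42 (nat_lit 162) (nat_lit 179) (nat_lit 7) (nat_lit 8) (nat_lit 6) L114297 (by decide +kernel)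
theorem L114299 : W_42 (nat_lit 6) (nat_lit 0x30001000080004000000020007800200000000000) (nat_lit 0x0) (nat_lit 0x80004000000000000000000005000070011c000000000) := T_42 (nat_lit 58) (nat_lit 44) (nat_lit 2) (nat_lit 7) (nat_lit 3) L114298 (by decide +kernel)
theorem L114300 : W_42 (nat_lit 7) (nat_lit 0x30001000080004000000020007800000000000000) (nat_lit 0x0) (nat_lit 0x80004000000000000000000005000070071c000000000) := T_42 (nat_lit 45) (nat_lit 46) (nat_lit 2) (nat_lit 8) (nat_lit 3) L114299 (by decide +kernel)
theorem L114301 : W_42 (nat_lit 8) (nat_lit 0x20001000080004000000020007800000000000000) (nat_lit 0x0) (nat_lit 0xa0005000000000000000000005000070071c000000000) := T_42 (nat_lit 160) (nat_lit 177) (nat_lit 5) (nat_lit 8) (nat_lit 6) L114300 (by decide +kernel)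
theorem L114302 : W_42 (nat_lit 2) (nat_lit 0x70001000080006000000020007800040002000000) (nat_lit 0x0) (nat_lit 0x400010000000080000000000) := D_42 (nat_lit 94) (nat_lit 43) (nat_lit 76) (nat_lit 4) (nat_lit 9) (nat_lit 5) (nat_lit 7) (nat_lit 8) (nat_lit 1) (by decide +kernel)
theorem L114303 : W_42 (nat_lit 3) (nat_lit 0x70001000080006000000020007800040000000000) (nat_lit 0x0) (nat_lit 0x400010000000080002000100) := T_42 (nat_lit 25) (nat_lit 8) (nat_lit 7) (nat_lit 8) (nat_lit 0) L114302 (by decide +kernel)
theorem L114304 : W_42 (nat_lit 4) (nat_lit 0x30001000080006000000020007800040000000000) (nat_lit 0x0) (nat_lit 0x800040000000000000000400010000000080002000100) := T_42 (nat_lit 162) (nat_lit 179) (nat_lit 7) (nat_lit 8) (nat_lit 6) L114303 (by decide +kernel)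
theorem L114305 : W_42 (nat_lit 5) (nat_lit 0x30001000080006000000020007800000000000000) (nat_lit 0x0) (nat_lit 0x8000400000000000000004000100000000e0002000100) := T_42 (nat_lit 42) (nat_lit 41) (nat_lit 0) (nat_lit 11) (nat_lit 3) L114304 (by decide +kernel)
theorem L114306 : W_42 (nat_lit 6) (nat_lit 0x20001000080006000000020007800000000000000) (nat_lit 0x0) (nat_lit 0xa000500000000000000004000100000000e0002000100) := T_42 (nat_lit 160) (nat_lit 177) (nat_lit 5) (nat_lit 8) (nat_lit 6) L114305 (by decide +kernel)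
theorem L114307 : W_42 (nat_lit 7) (nat_lit 0x20001000080004000000020007800000000000000) (nat_lit 0x0) (nat_lit 0xa000500000000000020005000100000000e0002000100) := T_42 (nat_lit 109) (nat_lit 92) (nat_lit 4) (nat_lit 8) (nat_lit 9) L114306 (by decide +kernel)
theorem L114308 : W_42 (nat_lit 9) (nat_lit 0x20001000080004000000020007000000000000000) (nat_lit 0x0) (nat_lit 0xa00050000000000002000500050000f007fc002000100) := Q_42 (nat_lit 59) (C_42 L112712 (C_42 L113081 (C_42 L114301 (C_42 L114307 N_42)))) (by decide +kernel)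
theorem L114309 : W_42 (nat_lit 10) (nat_lit 0x20001000080004000000020005000000000000000) (nat_lit 0x0) (nat_lit 0xa0005000000000004200250075007af01ffc012000100) := Q_42 (nat_lit 61) (C_42 L114308 (C_42 L113177 (C_42 L113163 (C_42 L113118 (C_42 L113184 N_42))))) (by decide +kernel)
theorem L114310 : W_42 (nat_lit 13) (nat_lit 0x20001000080004000000020007000000000000000) (nat_lit 0x0) (nat_lit 0xa000500000000000220019001d0000f007fc03b000d00) := Q_42 (nat_lit 59) (C_42 L114301 (C_42 L113161 (C_42 L112691 (C_42 L113173 N_42)))) (by decide +kernel)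
theorem L114311 : W_42 (nat_lit 14) (nat_lit 0x20001000080004000000020005000000000000000) (nat_lit 0x0) (nat_lit 0xa000500000000000220019007d001af01ffc03b001d00) := Q_42 (nat_lit 61) (C_42 L114310 (C_42 L113177 (C_42 L114107 (C_42 L113169 (C_42 L113118 N_42))))) (by decide +kernel)
theorem L114312 : W_42 (nat_lit 2) (nat_lit 0x300010000800060000000e0007800200000000000) (nat_lit 0x0) (nat_lit 0x800000000000000010000800) := D_42 (nat_lit 28) (nat_lit 95) (nat_lit 11) (nat_lit 5) (nat_lit 11) (nat_lit 1) (nat_lit 5) (nat_lit 11) (nat_lit 0) (by decide +kernel)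
theorem L114313 : W_42 (nat_lit 3) (nat_lit 0x300010000800060000000a0007800200000000000) (nat_lit 0x0) (nat_lit 0x800040000400000010000800) := T_42 (nat_lit 78) (nat_lit 58) (nat_lit 3) (nat_lit 7) (nat_lit 3) L114312 (by decide +kernel)
theorem L114314 : W_42 (nat_lit 4) (nat_lit 0x30001000080006000000020007800200000000000) (nat_lit 0x0) (nat_lit 0x8001c0000400000010000800) := T_42 (nat_lit 79) (nat_lit 80) (nat_lit 3) (nat_lit 8) (nat_lit 3) L114313 (by decide +kernel)
theorem L114315 : W_42 (nat_lit 5) (nat_lit 0x30001000080006000000020007800000000000000) (nat_lit 0x0) (nat_lit 0x8001c0000400600010000800) := T_42 (nat_lit 45) (nat_lit 46) (nat_lit 2) (nat_lit 8) (nat_lit 3) L114314 (by decide +kernel)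
theorem L114316 : W_42 (nat_lit 6) (nat_lit 0x20001000080006000000020007800000000000000) (nat_lit 0x0) (nat_lit 0x2000100000000000000008001c0000400600010000800) := T_42 (nat_lit 160) (nat_lit 177) (nat_lit 5) (nat_lit 8) (nat_lit 6) L114315 (by decide +kernel)
theorem L114317 : W_42 (nat_lit 7) (nat_lit 0x20001000080004000000020007800000000000000) (nat_lit 0x0) (nat_lit 0x2000100000000000020009001c0000400600010000800) := T_42 (nat_lit 109) (nat_lit 92) (nat_lit 4) (nat_lit 8) (nat_lit 9) L114316 (by decide +kernel)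
theorem L114318 : W_42 (nat_lit 2) (nat_lit 0x200010000800060000001a0007000000000000000) (nat_lit 0x0) (nat_lit 0x640000000000000000000) := D_42 (nat_lit 81) (nat_lit 82) (nat_lit 78) (nat_lit 0) (nat_lit 14) (nat_lit 4) (nat_lit 0) (nat_lit 13) (nat_lit 4) (by decide +kernel)
theorem L114319 : W_42 (nat_lit 3) (nat_lit 0x200010000800060000000a0007000000000000000) (nat_lit 0x0) (nat_lit 0x740000800000000000000) := T_42 (nat_lit 80) (nat_lit 59) (nat_lit 3) (nat_lit 8) (nat_lit 3) L114318 (by decide +kernel)
theorem L114320 : W_42 (nat_lit 4) (nat_lit 0x200010000800040000000a0007000000000000000) (nat_lit 0x0) (nat_lit 0x2000100740000800000000000000) := T_42 (nat_lit 109) (nat_lit 92) (nat_lit 4) (nat_lit 8) (nat_lit 9) L114319 (by decide +kernel)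
theorem L114321 : W_42 (nat_lit 2) (nat_lit 0x60001000080004000000020007000100008000000) (nat_lit 0x0) (nat_lit 0x400040000000080000000000) := D_42 (nat_lit 94) (nat_lit 78) (nat_lit 43) (nat_lit 5) (nat_lit 10) (nat_lit 1) (nat_lit 6) (nat_lit 9) (nat_lit 5) (by decide +kernel)
theorem L114322 : W_42 (nat_lit 3) (nat_lit 0x60001000080004000000020007000100000000000) (nat_lit 0x0) (nat_lit 0x400040000000080008000400) := T_42 (nat_lit 27) (nat_lit 10) (nat_lit 5) (nat_lit 10) (nat_lit 0) L114321 (by decide +kernel)
theorem L114323 : W_42 (nat_lit 4) (nat_lit 0x20001000080004000000020007000100000000000) (nat_lit 0x0) (nat_lit 0x800040000000000000000400040000000080008000400) := T_42 (nat_lit 162) (nat_lit 179) (nat_lit 7) (nat_lit 8) (nat_lit 6) L114322 (by decide +kernel)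
theorem L114324 : W_42 (nat_lit 2) (nat_lit 0x3000100008000600100002000700078002a000000) (nat_lit 0x0) (nat_lit 0x40011000000) := D_42 (nat_lit 42) (nat_lit 28) (nat_lit 24) (nat_lit 2) (nat_lit 8) (nat_lit 2) (nat_lit 0) (nat_lit 11) (nat_lit 2) (by decide +kernel)
theorem L114325 : W_42 (nat_lit 3) (nat_lit 0x3000100008000600100002000700078000a000000) (nat_lit 0x0) (nat_lit 0x40071000000) := T_42 (nat_lit 29) (nat_lit 30) (nat_lit 2) (nat_lit 9) (nat_lit 2) L114324 (by decide +kernel)
theorem L114326 : W_42 (nat_lit 4) (nat_lit 0x30001000080006001000020007000780008000000) (nat_lit 0x0) (nat_lit 0x40077000000) := T_42 (nat_lit 25) (nat_lit 26) (nat_lit 0) (nat_lit 12) (nat_lit 2) L114325 (by decide +kernel)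
theorem L114327 : W_42 (nat_lit 5) (nat_lit 0x30001000080006000000020007000780008000000) (nat_lit 0x0) (nat_lit 0x1000080000000040077000000) := T_42 (nat_lit 96) (nat_lit 79) (nat_lit 4) (nat_lit 11) (nat_lit 5) L114326 (by decide +kernel)
theorem L114328 : W_42 (nat_lit 6) (nat_lit 0x30001000080006000000020007000700008000000) (nat_lit 0x0) (nat_lit 0x14000800000000c0077000000) := T_42 (nat_lit 43) (nat_lit 94) (nat_lit 6) (nat_lit 9) (nat_lit 5) L114327 (by decide +kernel)
theorem L114329 : W_42 (nat_lit 7) (nat_lit 0x20001000080006000000020007000700008000000) (nat_lit 0x0) (nat_lit 0x2000100000000000000014000800000000c0077000000) := T_42 (nat_lit 160) (nat_lit 177) (nat_lit 5) (nat_lit 8) (nat_lit 6) L114328 (by decide +kernel)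
theorem L114330 : W_42 (nat_lit 8) (nat_lit 0x20001000080006000000020007000700000000000) (nat_lit 0x0) (nat_lit 0x2000100000000000000014000800000000c007f000400) := T_42 (nat_lit 27) (nat_lit 10) (nat_lit 5) (nat_lit 10) (nat_lit 0) L114329 (by decide +kernel)
theorem L114331 : W_42 (nat_lit 9) (nat_lit 0x20001000080006000000020007000300000000000) (nat_lit 0x0) (nat_lit 0x200010000000000000001400080000000cc007f000400) := T_42 (nat_lit 46) (nat_lit 47) (nat_lit 1) (nat_lit 13) (nat_lit 2) L114330 (by decide +kernel)
theorem L114332 : W_42 (nat_lit 10) (nat_lit 0x20001000080004000000020007000300000000000) (nat_lit 0x0) (nat_lit 0x200010000000000002001500080000000cc007f000400) := T_42 (nat_lit 109) (nat_lit 92) (nat_lit 4) (nat_lit 8) (nat_lit 9) L114331 (by decide +kernel)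
theorem L114333 : W_42 (nat_lit 4) (nat_lit 0x30001000080006000000020007000300000000000) (nat_lit 0x0) (nat_lit 0x1000180000c00000008000400) := T_42 (nat_lit 59) (nat_lit 58) (nat_lit 2) (nat_lit 7) (nat_lit 3) L112742 (by decide +kernel)
theorem L114334 : W_42 (nat_lit 5) (nat_lit 0x30001000080004000000020007000300000000000) (nat_lit 0x0) (nat_lit 0x2001100180000c00000008000400) := T_42 (nat_lit 109) (nat_lit 92) (nat_lit 4) (nat_lit 8) (nat_lit 9) L114333 (by decide +kernel)
theorem L114335 : W_42 (nat_lit 6) (nat_lit 0x20001000080004000000020007000300000000000) (nat_lit 0x0) (nat_lit 0x200010000000000002001100180000c00000008000400) := T_42 (nat_lit 160) (nat_lit 177) (nat_lit 5) (nat_lit 8) (nat_lit 6) L114334 (by decide +kernel)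
theorem L114336 : W_42 (nat_lit 11) (nat_lit 0x20001000080004000000020007000100000000000) (nat_lit 0x0) (nat_lit 0x200010000000000002001500180000c00ec007f000400) := Q_42 (nat_lit 45) (C_42 L112746 (C_42 L114332 (C_42 L114335 N_42))) (by decide +kernel)
theorem L114337 : W_42 (nat_lit 2) (nat_lit 0x300010000800040000000a4007f00100000000000) (nat_lit 0x0) (nat_lit 0x1c000000000) := D_42 (nat_lit 39) (nat_lit 38) (nat_lit 40) (nat_lit 0) (nat_lit 8) (nat_lit 3) (nat_lit 0) (nat_lit 9) (nat_lit 3) (by decide +kernel)
theorem L114338 : W_42 (nat_lit 3) (nat_lit 0x300010000800040000000a4007e00100000000000) (nat_lit 0x0) (nat_lit 0x1000010001c000000000) := T_42 (nat_lit 56) (nat_lit 76) (nat_lit 3) (nat_lit 5) (nat_lit 3) L114337 (by decide +kernel)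
theorem L114339 : W_42 (nat_lit 4) (nat_lit 0x300010000800040000000a0007e00100000000000) (nat_lit 0x0) (nat_lit 0x1600010001c000000000) := T_42 (nat_lit 74) (nat_lit 73) (nat_lit 1) (nat_lit 9) (nat_lit 3) L114338 (by decide +kernel)
theorem L114340 : W_42 (nat_lit 5) (nat_lit 0x300010000800040000000a0007c00100000000000) (nat_lit 0x0) (nat_lit 0x1600030009c000000000) := T_42 (nat_lit 57) (nat_lit 43) (nat_lit 2) (nat_lit 6) (nat_lit 3) L114339 (by decide +kernel)
theorem L114341 : W_42 (nat_lit 6) (nat_lit 0x300010000800040000000a0007800100000000000) (nat_lit 0x0) (nat_lit 0x5600070009c000000000) := T_42 (nat_lit 58) (nat_lit 78) (nat_lit 3) (nat_lit 7) (nat_lit 3) L114340 (by decide +kernel)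
theorem L114342 : W_42 (nat_lit 7) (nat_lit 0x30001000080004000000020007800100000000000) (nat_lit 0x0) (nat_lit 0x1d600070009c000000000) := T_42 (nat_lit 79) (nat_lit 80) (nat_lit 3) (nat_lit 8) (nat_lit 3) L114341 (by decide +kernel)
theorem L114343 : W_42 (nat_lit 8) (nat_lit 0x20001000080004000000020007800100000000000) (nat_lit 0x0) (nat_lit 0x2000100000000000000000001d600070009c000000000) := T_42 (nat_lit 160) (nat_lit 177) (nat_lit 5) (nat_lit 8) (nat_lit 6) L114342 (by decide +kernel)
theorem L114344 : W_42 (nat_lit 11) (nat_lit 0x20001000080004000000020007000100000000000) (nat_lit 0x0) (nat_lit 0xa000500000000000720079001d6000f0069c010000000) := Q_42 (nat_lit 59) (C_42 L114090 (C_42 L113104 (C_42 L114343 N_42))) (by decide +kernel)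
theorem L114345 : W_42 (nat_lit 12) (nat_lit 0x20001000080004000000020007000000000000000) (nat_lit 0x0) (nat_lit 0xa00050000000000072007d001d6000f00fdc07f000400) := Q_42 (nat_lit 44) (C_42 L114323 (C_42 L114091 (C_42 L114336 (C_42 L114344 N_42)))) (by decide +kernel)
theorem L114346 : W_42 (nat_lit 13) (nat_lit 0x20001000080004000000020005000000000000000) (nat_lit 0x0) (nat_lit 0xa00050000000000072007d007d601af01fdc07f001400) := Q_42 (nat_lit 61) (C_42 L114345 (C_42 L113177 (C_42 L114107 (C_42 L113169 (C_42 L113118 N_42))))) (by decide +kernel)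
theorem L114347 : W_42 (nat_lit 2) (nat_lit 0x700010000800060000000a0007f00010000000000) (nat_lit 0x0) (nat_lit 0x7000000000000000000) := D_42 (nat_lit 73) (nat_lit 72) (nat_lit 74) (nat_lit 1) (nat_lit 8) (nat_lit 3) (nat_lit 1) (nat_lit 9) (nat_lit 3) (by decide +kernel)
theorem L114348 : W_42 (nat_lit 3) (nat_lit 0x700010000800060000000a0007e00010000000000) (nat_lit 0x0) (nat_lit 0x17000100000000000000) := T_42 (nat_lit 56) (nat_lit 76) (nat_lit 3) (nat_lit 5) (nat_lit 3) L114347 (by decide +kernel)
theorem L114349 : W_42 (nat_lit 4) (nat_lit 0x300010000800060000000a0007e00010000000000) (nat_lit 0x0) (nat_lit 0x800040000000000000000000017000100000000000000) := T_42 (nat_lit 162) (nat_lit 179) (nat_lit 7) (nat_lit 8) (nat_lit 6) L114348 (by decide +kernel)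
theorem L114350 : W_42 (nat_lit 5) (nat_lit 0x300010000800060000000a0007c00010000000000) (nat_lit 0x0) (nat_lit 0x800040000000000000000000017000300008000000000) := T_42 (nat_lit 57) (nat_lit 39) (nat_lit 0) (nat_lit 9) (nat_lit 3) L114349 (by decide +kernel)
theorem L114351 : W_42 (nat_lit 6) (nat_lit 0x300010000800040000000a0007c00010000000000) (nat_lit 0x0) (nat_lit 0x800040000000000002000100017000300008000000000) := T_42 (nat_lit 109) (nat_lit 92) (nat_lit 4) (nat_lit 8) (nat_lit 9) L114350 (by decide +kernel)
theorem L114352 : W_42 (nat_lit 7) (nat_lit 0x300010000800040000000a0007c00000000000000) (nat_lit 0x0) (nat_lit 0x800040000000000002000100017000300038000000000) := T_42 (nat_lit 40) (nat_lit 41) (nat_lit 0) (nat_lit 10) (nat_lit 3) L114351 (by decide +kernel)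
theorem L114353 : W_42 (nat_lit 8) (nat_lit 0x300010000800040000000a0007800000000000000) (nat_lit 0x0) (nat_lit 0x800040000000000002000100057000700038000000000) := T_42 (nat_lit 58) (nat_lit 78) (nat_lit 3) (nat_lit 7) (nat_lit 3) L114352 (by decide +kernel)
theorem L114354 : W_42 (nat_lit 9) (nat_lit 0x30001000080004000000020007800000000000000) (nat_lit 0x0) (nat_lit 0x8000400000000000020001001d7000700038000000000) := T_42 (nat_lit 79) (nat_lit 80) (nat_lit 3) (nat_lit 8) (nat_lit 3) L114353 (by decide +kernel)
theorem L114355 : W_42 (nat_lit 10) (nat_lit 0x20001000080004000000020007800000000000000) (nat_lit 0x0) (nat_lit 0xa000500000000000020001001d7000700038000000000) := T_42 (nat_lit 160) (nat_lit 177) (nat_lit 5) (nat_lit 8) (nat_lit 6) L114354 (by decide +kernel)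
theorem L114356 : W_42 (nat_lit 12) (nat_lit 0x20001000080004000000020007000000000000000) (nat_lit 0x0) (nat_lit 0xa00050000000000072007d001d7000f007bc018000400) := Q_42 (nat_lit 59) (C_42 L114355 (C_42 L113156 (C_42 L113105 (C_42 L113173 (C_42 L114301 N_42))))) (by decide +kernel)
theorem L114357 : W_42 (nat_lit 2) (nat_lit 0x7000100008000600000012001f800100000000000) (nat_lit 0x0) (nat_lit 0x20400200000000000) := D_42 (nat_lit 45) (nat_lit 65) (nat_lit 58) (nat_lit 0) (nat_lit 14) (nat_lit 3) (nat_lit 2) (nat_lit 7) (nat_lit 3) (by decide +kernel)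
theorem L114358 : W_42 (nat_lit 3) (nat_lit 0x7000100008000600000012001f800000000000000) (nat_lit 0x0) (nat_lit 0x20400380000000000) := T_42 (nat_lit 44) (nat_lit 43) (nat_lit 0) (nat_lit 13) (nat_lit 3) L114357 (by decide +kernel)
theorem L114359 : W_42 (nat_lit 4) (nat_lit 0x7000100008000600000012000f800000000000000) (nat_lit 0x0) (nat_lit 0x40030400380000000000) := T_42 (nat_lit 64) (nat_lit 78) (nat_lit 1) (nat_lit 13) (nat_lit 3) L114358 (by decide +kernel)
theorem L114360 : W_42 (nat_lit 5) (nat_lit 0x7000100008000600000012000f000000000000000) (nat_lit 0x0) (nat_lit 0xc0030c00380000000000) := T_42 (nat_lit 59) (nat_lit 79) (nat_lit 3) (nat_lit 8) (nat_lit 3) L114359 (by decide +kernel)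
theorem L114361 : W_42 (nat_lit 6) (nat_lit 0x7000100008000600000002000f000000000000000) (nat_lit 0x0) (nat_lit 0x3c0030c00380000000000) := T_42 (nat_lit 80) (nat_lit 81) (nat_lit 3) (nat_lit 9) (nat_lit 3) L114360 (by decide +kernel)
theorem L114362 : W_42 (nat_lit 7) (nat_lit 0x3000100008000600000002000f000000000000000) (nat_lit 0x0) (nat_lit 0x8000400000000000000000003c0030c00380000000000) := T_42 (nat_lit 162) (nat_lit 179) (nat_lit 7) (nat_lit 8) (nat_lit 6) L114361 (by decide +kernel)
theorem L114363 : W_42 (nat_lit 8) (nat_lit 0x30001000080006000000020007000000000000000) (nat_lit 0x0) (nat_lit 0x8000400000000000000000003d0038c00380000000000) := T_42 (nat_lit 63) (nat_lit 76) (nat_lit 1) (nat_lit 12) (nat_lit 3) L114362 (by decide +kernel)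
theorem L114364 : W_42 (nat_lit 9) (nat_lit 0x30001000080004000000020007000000000000000) (nat_lit 0x0) (nat_lit 0x8000400000000000020001003d0038c00380000000000) := T_42 (nat_lit 109) (nat_lit 92) (nat_lit 4) (nat_lit 8) (nat_lit 9) L114363 (by decide +kernel)
theorem L114365 : W_42 (nat_lit 10) (nat_lit 0x20001000080004000000020007000000000000000) (nat_lit 0x0) (nat_lit 0xa000500000000000020001003d0038c00380000000000) := T_42 (nat_lit 160) (nat_lit 177) (nat_lit 5) (nat_lit 8) (nat_lit 6) L114364 (by decide +kernel)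
theorem L114366 : W_42 (nat_lit 13) (nat_lit 0x20001000080004000000020005000000000000000) (nat_lit 0x0) (nat_lit 0xa00050000000000072007d007d703af01fbc038001400) := Q_42 (nat_lit 61) (C_42 L114356 (C_42 L113175 (C_42 L114107 (C_42 L113107 (C_42 L113184 (C_42 L114365 N_42)))))) (by decide +kernel)
theorem L114367 : W_42 (nat_lit 2) (nat_lit 0x70001000380006000800060005000080000000000) (nat_lit 0x0) (nat_lit 0x40001800000000000000000000000000) := D_42 (nat_lit 108) (nat_lit 126) (nat_lit 107) (nat_lit 0) (nat_lit 10) (nat_lit 7) (nat_lit 3) (nat_lit 5) (nat_lit 6) (by decide +kernel)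
theorem L114368 : W_42 (nat_lit 3) (nat_lit 0x70001000280006000800060005000080000000000) (nat_lit 0x0) (nat_lit 0x540001800000000000000000000000000) := T_42 (nat_lit 128) (nat_lit 130) (nat_lit 0) (nat_lit 11) (nat_lit 7) L114367 (by decide +kernel)
theorem L114369 : W_42 (nat_lit 4) (nat_lit 0x70001000280004000800060005000080000000000) (nat_lit 0x0) (nat_lit 0x540003800100000000000000000000000) := T_42 (nat_lit 109) (nat_lit 92) (nat_lit 4) (nat_lit 8) (nat_lit 9) L114368 (by decide +kernel)
theorem L114370 : W_42 (nat_lit 5) (nat_lit 0x70001000080004000800060005000080000000000) (nat_lit 0x0) (nat_lit 0x740013800100000000000000000000000) := T_42 (nat_lit 129) (nat_lit 112) (nat_lit 4) (nat_lit 10) (nat_lit 7) L114369 (by decide +kernel)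
theorem L114371 : W_42 (nat_lit 6) (nat_lit 0x60001000080004000800060005000080000000000) (nat_lit 0x0) (nat_lit 0x200010000000740013800100000000000000000000000) := T_42 (nat_lit 160) (nat_lit 177) (nat_lit 5) (nat_lit 8) (nat_lit 6) L114370 (by decide +kernel)
theorem L114372 : W_42 (nat_lit 7) (nat_lit 0x60001000080004000800020005000080000000000) (nat_lit 0x0) (nat_lit 0x200010000000740013800100040000000000004000000) := T_42 (nat_lit 78) (nat_lit 26) (nat_lit 7) (nat_lit 9) (nat_lit 1) L114371 (by decide +kernel)
theorem L114373 : W_42 (nat_lit 8) (nat_lit 0x20001000080004000800020005000080000000000) (nat_lit 0x0) (nat_lit 0xa00050000000740013800100040000000000004000000) := T_42 (nat_lit 162) (nat_lit 179) (nat_lit 7) (nat_lit 8) (nat_lit 6) L114372 (by decide +kernel)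
theorem L114374 : W_42 (nat_lit 2) (nat_lit 0x6000100008000600080002000500008000c000000) (nat_lit 0x0) (nat_lit 0x10000400000000000100000000000) := D_42 (nat_lit 94) (nat_lit 112) (nat_lit 44) (nat_lit 7) (nat_lit 9) (nat_lit 2) (nat_lit 6) (nat_lit 9) (nat_lit 5) (by decide +kernel)
theorem L114375 : W_42 (nat_lit 3) (nat_lit 0x60001000080006000800020005000080004000000) (nat_lit 0x0) (nat_lit 0x10000400000000000100008000400) := T_42 (nat_lit 27) (nat_lit 10) (nat_lit 6) (nat_lit 9) (nat_lit 4) L114374 (by decide +kernel)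
theorem L114376 : W_42 (nat_lit 4) (nat_lit 0x60001000080006000800020005000080000000000) (nat_lit 0x0) (nat_lit 0x1000040004000000010000c000400) := T_42 (nat_lit 26) (nat_lit 78) (nat_lit 7) (nat_lit 9) (nat_lit 1) L114375 (by decide +kernel)
theorem L114377 : W_42 (nat_lit 5) (nat_lit 0x20001000080006000800020005000080000000000) (nat_lit 0x0) (nat_lit 0x80004000000000001000040004000000010000c000400) := T_42 (nat_lit 162) (nat_lit 179) (nat_lit 7) (nat_lit 8) (nat_lit 6) L114376 (by decide +kernel)
theorem L114378 : W_42 (nat_lit 6) (nat_lit 0x20001000080004000800020005000080000000000) (nat_lit 0x0) (nat_lit 0x80004000000000001200050004000000010000c000400) := T_42 (nat_lit 109) (nat_lit 92) (nat_lit 4) (nat_lit 8) (nat_lit 9) L114377 (by decide +kernel)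
theorem L114379 : W_42 (nat_lit 4) (nat_lit 0x20001000080004000c00020005000080000000000) (nat_lit 0x0) (nat_lit 0x4000000014000e000100) := T_42 (nat_lit 44) (nat_lit 27) (nat_lit 6) (nat_lit 9) (nat_lit 5) L114232 (by decide +kernel)
theorem L114380 : W_42 (nat_lit 5) (nat_lit 0x20001000080004000800020005000080000000000) (nat_lit 0x0) (nat_lit 0x1000040004000000014000e000100) := T_42 (nat_lit 94) (nat_lit 112) (nat_lit 7) (nat_lit 9) (nat_lit 2) L114379 (by decide +kernel)
theorem L114381 : W_42 (nat_lit 2) (nat_lit 0x7000100008000600080002000500008000e000000) (nat_lit 0x0) (nat_lit 0x400000000000140000000000) := D_42 (nat_lit 94) (nat_lit 44) (nat_lit 42) (nat_lit 6) (nat_lit 9) (nat_lit 5) (nat_lit 4) (nat_lit 9) (nat_lit 5) (by decide +kernel)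
theorem L114382 : W_42 (nat_lit 3) (nat_lit 0x7000100008000600080002000500008000c000000) (nat_lit 0x0) (nat_lit 0x400000000000140002000100) := T_42 (nat_lit 25) (nat_lit 8) (nat_lit 4) (nat_lit 9) (nat_lit 4) L114381 (by decide +kernel)
theorem L114383 : W_42 (nat_lit 4) (nat_lit 0x70001000080006000800020005000080004000000) (nat_lit 0x0) (nat_lit 0x40000000000014000a000500) := T_42 (nat_lit 27) (nat_lit 10) (nat_lit 6) (nat_lit 9) (nat_lit 4) L114382 (by decide +kernel)
theorem L114384 : W_42 (nat_lit 5) (nat_lit 0x70001000080006000800020005000080000000000) (nat_lit 0x0) (nat_lit 0x40004000000014000e000500) := T_42 (nat_lit 26) (nat_lit 78) (nat_lit 7) (nat_lit 9) (nat_lit 1) L114383 (by decide +kernel)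
theorem L114385 : W_42 (nat_lit 6) (nat_lit 0x60001000080006000800020005000080000000000) (nat_lit 0x0) (nat_lit 0x20001000000000000000040004000000014000e000500) := T_42 (nat_lit 160) (nat_lit 177) (nat_lit 5) (nat_lit 8) (nat_lit 6) L114384 (by decide +kernel)
theorem L114386 : W_42 (nat_lit 7) (nat_lit 0x20001000080006000800020005000080000000000) (nat_lit 0x0) (nat_lit 0xa0005000000000000000040004000000014000e000500) := T_42 (nat_lit 162) (nat_lit 179) (nat_lit 7) (nat_lit 8) (nat_lit 6) L114385 (by decide +kernel)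
theorem L114387 : W_42 (nat_lit 8) (nat_lit 0x20001000080004000800020005000080000000000) (nat_lit 0x0) (nat_lit 0xa0005000000000000200050004000000014000e000500) := T_42 (nat_lit 109) (nat_lit 92) (nat_lit 4) (nat_lit 8) (nat_lit 9) L114386 (by decide +kernel)
theorem L114388 : W_42 (nat_lit 2) (nat_lit 0x30001000080004000c0002000500008000c000000) (nat_lit 0x0) (nat_lit 0x40002000100) := D_42 (nat_lit 25) (nat_lit 8) (nat_lit 42) (nat_lit 4) (nat_lit 9) (nat_lit 4) (nat_lit 4) (nat_lit 9) (nat_lit 5) (by decide +kernel)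
theorem L114389 : W_42 (nat_lit 3) (nat_lit 0x30001000080004000c00020005000080008000000) (nat_lit 0x0) (nat_lit 0x40006000500) := T_42 (nat_lit 26) (nat_lit 10) (nat_lit 6) (nat_lit 9) (nat_lit 4) L114388 (by decide +kernel)
theorem L114390 : W_42 (nat_lit 4) (nat_lit 0x20001000080004000c00020005000080008000000) (nat_lit 0x0) (nat_lit 0x200010000000000000000000000000000040006000500) := T_42 (nat_lit 160) (nat_lit 177) (nat_lit 5) (nat_lit 8) (nat_lit 6) L114389 (by decide +kernel)
theorem L114391 : W_42 (nat_lit 5) (nat_lit 0x20001000080004000c00020005000080000000000) (nat_lit 0x0) (nat_lit 0x20001000000000000000000000000000014000e000500) := T_42 (nat_lit 27) (nat_lit 44) (nat_lit 6) (nat_lit 9) (nat_lit 5) L114390 (by decide +kernel)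
theorem L114392 : W_42 (nat_lit 6) (nat_lit 0x20001000080004000800020005000080000000000) (nat_lit 0x0) (nat_lit 0x20001000000000001000040000000000014000e000500) := T_42 (nat_lit 94) (nat_lit 112) (nat_lit 7) (nat_lit 9) (nat_lit 2) L114391 (by decide +kernel)
theorem L114393 : W_42 (nat_lit 9) (nat_lit 0x20001000080004000000020005000080000000000) (nat_lit 0x0) (nat_lit 0xa00050000000740033800d0004000000014000e000500) := Q_42 (nat_lit 95) (C_42 L112917 (C_42 L114373 (C_42 L114378 (C_42 L114380 (C_42 L114387 (C_42 L114392 N_42)))))) (by decide +kernel)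
theorem L114394 : W_42 (nat_lit 2) (nat_lit 0x700010002800140030000e0005000200028000000) (nat_lit 0x0) (nat_lit 0x10001400) := D_42 (nat_lit 28) (nat_lit 12) (nat_lit 10) (nat_lit 6) (nat_lit 11) (nat_lit 4) (nat_lit 4) (nat_lit 11) (nat_lit 4) (by decide +kernel)
theorem L114395 : W_42 (nat_lit 3) (nat_lit 0x700010002800140030000e0005000200020000000) (nat_lit 0x0) (nat_lit 0x100018001400) := T_42 (nat_lit 27) (nat_lit 44) (nat_lit 4) (nat_lit 11) (nat_lit 5) L114394 (by decide +kernel)
theorem L114396 : W_42 (nat_lit 4) (nat_lit 0x700010002800140030000e0005000200000000000) (nat_lit 0x0) (nat_lit 0x500038001400) := T_42 (nat_lit 29) (nat_lit 46) (nat_lit 6) (nat_lit 11) (nat_lit 5) L114395 (by decide +kernel)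
theorem L114397 : W_42 (nat_lit 5) (nat_lit 0x700010002800140030000e0005000000000000000) (nat_lit 0x0) (nat_lit 0x40000000000000000700038001400) := T_42 (nat_lit 45) (nat_lit 114) (nat_lit 7) (nat_lit 11) (nat_lit 2) L114396 (by decide +kernel)
theorem L114398 : W_42 (nat_lit 6) (nat_lit 0x600010002800140030000e0005000000000000000) (nat_lit 0x0) (nat_lit 0x200010000000000040000000000000000700038001400) := T_42 (nat_lit 160) (nat_lit 177) (nat_lit 5) (nat_lit 8) (nat_lit 6) L114397 (by decide +kernel)
theorem L114399 : W_42 (nat_lit 7) (nat_lit 0x600010002800140010000e0005000000000000000) (nat_lit 0x0) (nat_lit 0x200010000000000040002000010000000700038001400) := T_42 (nat_lit 97) (nat_lit 76) (nat_lit 3) (nat_lit 8) (nat_lit 4) L114398 (by decide +kernel)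
theorem L114400 : W_42 (nat_lit 8) (nat_lit 0x600010002800140000000e0005000000000000000) (nat_lit 0x0) (nat_lit 0x200010000000000060003000010000000700038001400) := T_42 (nat_lit 96) (nat_lit 113) (nat_lit 5) (nat_lit 11) (nat_lit 3) L114399 (by decide +kernel)
theorem L114401 : W_42 (nat_lit 9) (nat_lit 0x600010002800040000000e0005000000000000000) (nat_lit 0x0) (nat_lit 0x200010000000000070003800010000000700038001400) := T_42 (nat_lit 112) (nat_lit 95) (nat_lit 6) (nat_lit 10) (nat_lit 7) L114400 (by decide +kernel)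
theorem L114402 : W_42 (nat_lit 10) (nat_lit 0x200010002800040000000e0005000000000000000) (nat_lit 0x0) (nat_lit 0xa00050000000000070003800010000000700038001400) := T_42 (nat_lit 162) (nat_lit 179) (nat_lit 7) (nat_lit 8) (nat_lit 6) L114401 (by decide +kernel)
theorem L114403 : W_42 (nat_lit 11) (nat_lit 0x200010000800040000000e0005000000000000000) (nat_lit 0x0) (nat_lit 0xa000500000007400f3803900010000000700038001400) := Q_42 (nat_lit 129) (C_42 L112946 (C_42 L112550 (C_42 L114402 N_42))) (by decide +kernel)
theorem L114404 : W_42 (nat_lit 3) (nat_lit 0x200010000800060000000e0005000000000000000) (nat_lit 0x0) (nat_lit 0x110000e00000000000000) := T_42 (nat_lit 59) (nat_lit 80) (nat_lit 0) (nat_lit 12) (nat_lit 4) L113384 (by decide +kernel)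
theorem L114405 : W_42 (nat_lit 4) (nat_lit 0x200010000800040000000e0005000000000000000) (nat_lit 0x0) (nat_lit 0x2000100110000e00000000000000) := T_42 (nat_lit 109) (nat_lit 92) (nat_lit 4) (nat_lit 8) (nat_lit 9) L114404 (by decide +kernel)
theorem L114406 : W_42 (nat_lit 13) (nat_lit 0x200010000800040000000a0005000000000000000) (nat_lit 0x0) (nat_lit 0xa00050000000f400f380fd00350030e00700038001400) := Q_42 (nat_lit 78) (C_42 L114046 (C_42 L113746 (C_42 L113638 (C_42 L113714 (C_42 L114403 (C_42 L114405 N_42)))))) (by decide +kernel)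
theorem L114407 : W_42 (nat_lit 10) (nat_lit 0x200010000800040000000a0005000000000000000) (nat_lit 0x0) (nat_lit 0x80004000c000f40073807900150038e00780038000000) := Q_42 (nat_lit 78) (C_42 L114405 (C_42 L113251 (C_42 L113638 (C_42 L112968 N_42)))) (by decide +kernel)
theorem L114408 : W_42 (nat_lit 10) (nat_lit 0x200010000800040000000a0005000000000000000) (nat_lit 0x0) (nat_lit 0x20001000c000f40073807900150038e00780038000000) := Q_42 (nat_lit 78) (C_42 L114405 (C_42 L113251 (C_42 L113250 (C_42 L112968 N_42)))) (by decide +kernel)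
theorem L114409 : W_42 (nat_lit 13) (nat_lit 0x200010000800040000000a0005000000000000000) (nat_lit 0x0) (nat_lit 0xa0005000000074001380ed00350038e007c0014000000) := Q_42 (nat_lit 78) (C_42 L114405 (C_42 L114031 (C_42 L114046 (C_42 L113251 N_42)))) (by decide +kernel)
theorem L114410 : W_42 (nat_lit 11) (nat_lit 0x200010000800040000000a0005000000000000000) (nat_lit 0x0) (nat_lit 0x3a001d000c000f40073807d000500188007c003f001400) := Q_42 (nat_lit 96) (C_42 L114086 (C_42 L113994 (C_42 L113338 (C_42 L114050 (C_42 L114076 N_42))))) (by decide +kernel)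
theorem L114411 : W_42 (nat_lit 8) (nat_lit 0x700010000800040000001e0015000000000000000) (nat_lit 0x0) (nat_lit 0x740013801d00600020000000000000000) := T_42 (nat_lit 109) (nat_lit 92) (nat_lit 4) (nat_lit 8) (nat_lit 9) L113751 (by decide +kernel)
theorem L114412 : W_42 (nat_lit 9) (nat_lit 0x700010000800040000001e0005000000000000000) (nat_lit 0x0) (nat_lit 0x740013801d00600038000000000000000) := T_42 (nat_lit 64) (nat_lit 63) (nat_lit 2) (nat_lit 9) (nat_lit 4) L114411 (by decide +kernel)
theorem L114413 : W_42 (nat_lit 10) (nat_lit 0x300010000800040000001e0005000000000000000) (nat_lit 0x0) (nat_lit 0x800040000000740013801d00600038000000000000000) := T_42 (nat_lit 162) (nat_lit 179) (nat_lit 7) (nat_lit 8) (nat_lit 6) L114412 (by decide +kernel)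
theorem L114414 : W_42 (nat_lit 11) (nat_lit 0x300010000800040000000e0005000000000000000) (nat_lit 0x0) (nat_lit 0x800040000000740013801d00700038800000000000000) := T_42 (nat_lit 80) (nat_lit 59) (nat_lit 0) (nat_lit 12) (nat_lit 4) L114413 (by decide +kernel)
theorem L114415 : W_42 (nat_lit 12) (nat_lit 0x200010000800040000000e0005000000000000000) (nat_lit 0x0) (nat_lit 0xa00050000000740013801d00700038800000000000000) := T_42 (nat_lit 160) (nat_lit 177) (nat_lit 5) (nat_lit 8) (nat_lit 6) L114414 (by decide +kernel)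
theorem L114416 : W_42 (nat_lit 13) (nat_lit 0x200010000800040000000a0005000000000000000) (nat_lit 0x0) (nat_lit 0xa00050000000740013801d00750038e007c0014000000) := Q_42 (nat_lit 78) (C_42 L114415 (C_42 L114405 (C_42 L113251 (C_42 L114031 N_42)))) (by decide +kernel)
theorem L114417 : W_42 (nat_lit 13) (nat_lit 0x200010000800040000000a0005000000000000000) (nat_lit 0x0) (nat_lit 0xa000500000007400f3803d00750038e00000000000000) := Q_42 (nat_lit 78) (C_42 L114415 (C_42 L114405 (C_42 L113251 (C_42 L114048 N_42)))) (by decide +kernel)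
theorem L114418 : W_42 (nat_lit 14) (nat_lit 0x20001000080004000000020005000000000000000) (nat_lit 0x0) (nat_lit 0x3a003d001c000f403f380fd00fd0038e01fc007f001c00) := Q_42 (nat_lit 79) (C_42 L113393 (C_42 L114406 (C_42 L114407 (C_42 L114408 (C_42 L113602 (C_42 L113715 (C_42 L113767 (C_42 L113380 (C_42 L113995 (C_42 L114047 (C_42 L114409 (C_42 L114410 (C_42 L114049 (C_42 L114416 (C_42 L114417 N_42))))))))))))))) (by decide +kernel)
theorem L114419 : W_42 (nat_lit 10) (nat_lit 0x20001000080004000000020005000000000000000) (nat_lit 0x0) (nat_lit 0xa000500000000000020005000d007af01ffc002000100) := Q_42 (nat_lit 61) (C_42 L114105 (C_42 L114308 (C_42 L113177 (C_42 L113109 (C_42 L113184 N_42))))) (by decide +kernel)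
theorem L114420 : W_42 (nat_lit 2) (nat_lit 0x70001000080006000000060007800200010000000) (nat_lit 0x0) (nat_lit 0x10000800000000000100000000000) := D_42 (nat_lit 95) (nat_lit 112) (nat_lit 44) (nat_lit 6) (nat_lit 10) (nat_lit 6) (nat_lit 6) (nat_lit 10) (nat_lit 5) (by decide +kernel)
theorem L114421 : W_42 (nat_lit 3) (nat_lit 0x70001000080006000000060007800200000000000) (nat_lit 0x0) (nat_lit 0x10000800000000000100010000800) := T_42 (nat_lit 28) (nat_lit 11) (nat_lit 5) (nat_lit 11) (nat_lit 0) L114420 (by decide +kernel)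
theorem L114422 : W_42 (nat_lit 4) (nat_lit 0x70001000080006000000060007800000000000000) (nat_lit 0x0) (nat_lit 0x10000800000000000700010000800) := T_42 (nat_lit 45) (nat_lit 46) (nat_lit 2) (nat_lit 8) (nat_lit 3) L114421 (by decide +kernel)
theorem L114423 : W_42 (nat_lit 5) (nat_lit 0x70001000080004000000060007800000000000000) (nat_lit 0x0) (nat_lit 0x12000900000000000700010000800) := T_42 (nat_lit 109) (nat_lit 92) (nat_lit 4) (nat_lit 8) (nat_lit 9) L114422 (by decide +kernel)
theorem L114424 : W_42 (nat_lit 6) (nat_lit 0x30001000080004000000060007800000000000000) (nat_lit 0x0) (nat_lit 0x800040000000000012000900000000000700010000800) := T_42 (nat_lit 162) (nat_lit 179) (nat_lit 7) (nat_lit 8) (nat_lit 6) L114423 (by decide +kernel)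
theorem L114425 : W_42 (nat_lit 7) (nat_lit 0x20001000080004000000060007800000000000000) (nat_lit 0x0) (nat_lit 0xa00050000000000012000900000000000700010000800) := T_42 (nat_lit 160) (nat_lit 177) (nat_lit 5) (nat_lit 8) (nat_lit 6) L114424 (by decide +kernel)
theorem L114426 : W_42 (nat_lit 2) (nat_lit 0x200010000800040000000a0007800200000000000) (nat_lit 0x0) (nat_lit 0x40000400100000000000) := D_42 (nat_lit 58) (nat_lit 44) (nat_lit 78) (nat_lit 2) (nat_lit 7) (nat_lit 3) (nat_lit 3) (nat_lit 7) (nat_lit 3) (by decide +kernel)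
theorem L114427 : W_42 (nat_lit 3) (nat_lit 0x200010000800040000000a0005800200000000000) (nat_lit 0x0) (nat_lit 0x40002400500000000000) := T_42 (nat_lit 61) (nat_lit 46) (nat_lit 2) (nat_lit 8) (nat_lit 3) L114426 (by decide +kernel)
theorem L114428 : W_42 (nat_lit 2) (nat_lit 0x30001000080004000800060005000080000000000) (nat_lit 0x0) (nat_lit 0x200010000000000002000000000000000) := D_42 (nat_lit 112) (nat_lit 129) (nat_lit 61) (nat_lit 4) (nat_lit 10) (nat_lit 7) (nat_lit 4) (nat_lit 10) (nat_lit 6) (by decide +kernel)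
theorem L114429 : W_42 (nat_lit 3) (nat_lit 0x30001000080004000000060005000080000000000) (nat_lit 0x0) (nat_lit 0x200010000800000002000000004000000) := T_42 (nat_lit 95) (nat_lit 26) (nat_lit 7) (nat_lit 9) (nat_lit 1) L114428 (by decide +kernel)
theorem L114430 : W_42 (nat_lit 4) (nat_lit 0x20001000080004000000060005000080000000000) (nat_lit 0x0) (nat_lit 0x200010000000200010000800000002000000004000000) := T_42 (nat_lit 160) (nat_lit 177) (nat_lit 5) (nat_lit 8) (nat_lit 6) L114429 (by decide +kernel)
theorem L114431 : W_42 (nat_lit 5) (nat_lit 0x20001000080006000000060005000080000000000) (nat_lit 0x0) (nat_lit 0x740011800800000000000000004000000) := T_42 (nat_lit 95) (nat_lit 26) (nat_lit 7) (nat_lit 9) (nat_lit 1) L113050 (by decide +kernel)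
theorem L114432 : W_42 (nat_lit 6) (nat_lit 0x20001000080004000000060005000080000000000) (nat_lit 0x0) (nat_lit 0x740013800900000000000000004000000) := T_42 (nat_lit 109) (nat_lit 92) (nat_lit 4) (nat_lit 8) (nat_lit 9) L114431 (by decide +kernel)
theorem L114433 : W_42 (nat_lit 2) (nat_lit 0x700010000800040080003e0025000000000000000) (nat_lit 0x0) (nat_lit 0x10000400040000000000000000) := D_42 (nat_lit 82) (nat_lit 66) (nat_lit 100) (nat_lit 2) (nat_lit 11) (nat_lit 4) (nat_lit 3) (nat_lit 11) (nat_lit 4) (by decide +kernel)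
theorem L114434 : W_42 (nat_lit 3) (nat_lit 0x700010000800040000003e0025000000000000000) (nat_lit 0x0) (nat_lit 0x1c000400040000000000000000) := T_42 (nat_lit 99) (nat_lit 98) (nat_lit 3) (nat_lit 10) (nat_lit 4) L114433 (by decide +kernel)
theorem L114435 : W_42 (nat_lit 4) (nat_lit 0x700010000800040000003e0005000000000000000) (nat_lit 0x0) (nat_lit 0x1c000400070000000000000000) := T_42 (nat_lit 65) (nat_lit 64) (nat_lit 2) (nat_lit 10) (nat_lit 4) L114434 (by decide +kernel)
theorem L114436 : W_42 (nat_lit 5) (nat_lit 0x300010000800040000003e0005000000000000000) (nat_lit 0x0) (nat_lit 0x80004000000000000001c000400070000000000000000) := T_42 (nat_lit 162) (nat_lit 179) (nat_lit 7) (nat_lit 8) (nat_lit 6) L114435 (by decide +kernel)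
theorem L114437 : W_42 (nat_lit 6) (nat_lit 0x300010000800040000001e0005000000000000000) (nat_lit 0x0) (nat_lit 0x80004000000000000001c000600072000000000000000) := T_42 (nat_lit 81) (nat_lit 61) (nat_lit 0) (nat_lit 13) (nat_lit 4) L114436 (by decide +kernel)
theorem L114438 : W_42 (nat_lit 7) (nat_lit 0x200010000800040000001e0005000000000000000) (nat_lit 0x0) (nat_lit 0xa0005000000000000001c000600072000000000000000) := T_42 (nat_lit 160) (nat_lit 177) (nat_lit 5) (nat_lit 8) (nat_lit 6) L114437 (by decide +kernel)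
theorem L114439 : W_42 (nat_lit 2) (nat_lit 0x600010000800060030000e0005000000000000000) (nat_lit 0x0) (nat_lit 0xc000100000000000000000000) := D_42 (nat_lit 98) (nat_lit 99) (nat_lit 80) (nat_lit 0) (nat_lit 14) (nat_lit 5) (nat_lit 3) (nat_lit 9) (nat_lit 4) (by decide +kernel)
theorem L114440 : W_42 (nat_lit 3) (nat_lit 0x600010000800060010000e0005000000000000000) (nat_lit 0x0) (nat_lit 0xe000110000000000000000000) := T_42 (nat_lit 97) (nat_lit 76) (nat_lit 3) (nat_lit 8) (nat_lit 4) L114439 (by decide +kernel)
theorem L114441 : W_42 (nat_lit 4) (nat_lit 0x600010000800040010000e0005000000000000000) (nat_lit 0x0) (nat_lit 0x200e100110000000000000000000) := T_42 (nat_lit 109) (nat_lit 92) (nat_lit 4) (nat_lit 8) (nat_lit 9) L114440 (by decide +kernel)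
theorem L114442 : W_42 (nat_lit 5) (nat_lit 0x200010000800040010000e0005000000000000000) (nat_lit 0x0) (nat_lit 0x80004000000000000200e100110000000000000000000) := T_42 (nat_lit 162) (nat_lit 179) (nat_lit 7) (nat_lit 8) (nat_lit 6) L114441 (by decide +kernel)
theorem L114443 : W_42 (nat_lit 12) (nat_lit 0x200010000800040000000a0005000000000000000) (nat_lit 0x0) (nat_lit 0xa000500000007400f380f900350002e00700038001400) := Q_42 (nat_lit 78) (C_42 L114405 (C_42 L113703 (C_42 L114403 N_42))) (by decide +kernel)
theorem L114444 : W_42 (nat_lit 2) (nat_lit 0x300010003800060048003e0015000000004000000) (nat_lit 0x0) (nat_lit 0x40001800000000000000000000000000) := D_42 (nat_lit 108) (nat_lit 126) (nat_lit 107) (nat_lit 0) (nat_lit 10) (nat_lit 7) (nat_lit 3) (nat_lit 5) (nat_lit 6) (by decide +kernel)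
theorem L114445 : W_42 (nat_lit 3) (nat_lit 0x300010002800060048003e0015000000004000000) (nat_lit 0x0) (nat_lit 0x540001800000000000000000000000000) := T_42 (nat_lit 128) (nat_lit 130) (nat_lit 0) (nat_lit 11) (nat_lit 7) L114444 (by decide +kernel)
theorem L114446 : W_42 (nat_lit 4) (nat_lit 0x300010000800060048003e0015000000004000000) (nat_lit 0x0) (nat_lit 0x740011800000000000000000000000000) := T_42 (nat_lit 129) (nat_lit 112) (nat_lit 6) (nat_lit 10) (nat_lit 7) L114445 (by decide +kernel)
theorem L114447 : W_42 (nat_lit 5) (nat_lit 0x300010000800060048003e0015000000000000000) (nat_lit 0x0) (nat_lit 0x740011800000000000000080004000000) := T_42 (nat_lit 26) (nat_lit 43) (nat_lit 7) (nat_lit 9) (nat_lit 1) L114446 (by decide +kernel)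
theorem L114448 : W_42 (nat_lit 6) (nat_lit 0x300010000800060008003e0015000000000000000) (nat_lit 0x0) (nat_lit 0x74001180c000000000000080004000000) := T_42 (nat_lit 98) (nat_lit 99) (nat_lit 3) (nat_lit 10) (nat_lit 4) L114447 (by decide +kernel)
theorem L114449 : W_42 (nat_lit 7) (nat_lit 0x300010000800060000003e0015000000000000000) (nat_lit 0x0) (nat_lit 0x74001180cc00000000000080004000000) := T_42 (nat_lit 95) (nat_lit 94) (nat_lit 1) (nat_lit 13) (nat_lit 4) L114448 (by decide +kernel)
theorem L114450 : W_42 (nat_lit 8) (nat_lit 0x300010000800060000003e0005000000000000000) (nat_lit 0x0) (nat_lit 0x74001180cc00000030000080004000000) := T_42 (nat_lit 64) (nat_lit 65) (nat_lit 2) (nat_lit 10) (nat_lit 4) L114449 (by decide +kernel)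
theorem L114451 : W_42 (nat_lit 9) (nat_lit 0x200010000800060000003e0005000000000000000) (nat_lit 0x0) (nat_lit 0x20001000000074001180cc00000030000080004000000) := T_42 (nat_lit 160) (nat_lit 177) (nat_lit 5) (nat_lit 8) (nat_lit 6) L114450 (by decide +kernel)
theorem L114452 : W_42 (nat_lit 10) (nat_lit 0x200010000800060000001e0005000000000000000) (nat_lit 0x0) (nat_lit 0x20001000000074001180cc00200032000080004000000) := T_42 (nat_lit 81) (nat_lit 61) (nat_lit 0) (nat_lit 13) (nat_lit 4) L114451 (by decide +kernel)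
theorem L114453 : W_42 (nat_lit 11) (nat_lit 0x200010000800040000001e0005000000000000000) (nat_lit 0x0) (nat_lit 0x20001000000074001380cd00200032000080004000000) := T_42 (nat_lit 109) (nat_lit 92) (nat_lit 4) (nat_lit 8) (nat_lit 9) L114452 (by decide +kernel)
theorem L114454 : W_42 (nat_lit 2) (nat_lit 0x200010006800060018003e0015000000014000000) (nat_lit 0x0) (nat_lit 0xc000000020000000000000000000000000000) := D_42 (nat_lit 113) (nat_lit 147) (nat_lit 146) (nat_lit 4) (nat_lit 11) (nat_lit 8) (nat_lit 5) (nat_lit 11) (nat_lit 4) (by decide +kernel)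
theorem L114455 : W_42 (nat_lit 3) (nat_lit 0x200010006800060008003e0015000000014000000) (nat_lit 0x0) (nat_lit 0xc000000020001000400000000000000000000) := T_42 (nat_lit 96) (nat_lit 82) (nat_lit 1) (nat_lit 14) (nat_lit 4) L114454 (by decide +kernel)
theorem L114456 : W_42 (nat_lit 4) (nat_lit 0x200010002800060008003e0015000000014000000) (nat_lit 0x0) (nat_lit 0xc000500020001000400000000000000000000) := T_42 (nat_lit 130) (nat_lit 128) (nat_lit 0) (nat_lit 11) (nat_lit 7) L114455 (by decide +kernel)
theorem L114457 : W_42 (nat_lit 5) (nat_lit 0x200010002800060008003e0015000000004000000) (nat_lit 0x0) (nat_lit 0xc000500020001000400000000200010000000) := T_42 (nat_lit 28) (nat_lit 45) (nat_lit 5) (nat_lit 11) (nat_lit 1) L114456 (by decide +kernel)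
theorem L114458 : W_42 (nat_lit 6) (nat_lit 0x200010000800060008003e0015000000004000000) (nat_lit 0x0) (nat_lit 0xc000700030001000400000000200010000000) := T_42 (nat_lit 129) (nat_lit 112) (nat_lit 6) (nat_lit 10) (nat_lit 7) L114457 (by decide +kernel)
theorem L114459 : W_42 (nat_lit 7) (nat_lit 0x200010000800060008003e0015000000000000000) (nat_lit 0x0) (nat_lit 0xc000700030001000400000000280014000000) := T_42 (nat_lit 26) (nat_lit 43) (nat_lit 7) (nat_lit 9) (nat_lit 1) L114458 (by decide +kernel)
theorem L114460 : W_42 (nat_lit 8) (nat_lit 0x200010000800060008003e0005000000000000000) (nat_lit 0x0) (nat_lit 0xc000700030001000400030000280014000000) := T_42 (nat_lit 64) (nat_lit 65) (nat_lit 2) (nat_lit 10) (nat_lit 4) L114459 (by decide +kernel)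
theorem L114461 : W_42 (nat_lit 9) (nat_lit 0x200010000800060000003e0005000000000000000) (nat_lit 0x0) (nat_lit 0xc000700030001c00400030000280014000000) := T_42 (nat_lit 95) (nat_lit 94) (nat_lit 1) (nat_lit 13) (nat_lit 4) L114460 (by decide +kernel)
theorem L114462 : W_42 (nat_lit 10) (nat_lit 0x200010000800040000003e0005000000000000000) (nat_lit 0x0) (nat_lit 0xc000700032001d00400030000280014000000) := T_42 (nat_lit 109) (nat_lit 92) (nat_lit 4) (nat_lit 8) (nat_lit 9) L114461 (by decide +kernel)
theorem L114463 : W_42 (nat_lit 11) (nat_lit 0x200010000800040000001e0005000000000000000) (nat_lit 0x0) (nat_lit 0xc000700032001d00600032000280014000000) := T_42 (nat_lit 81) (nat_lit 61) (nat_lit 0) (nat_lit 13) (nat_lit 4) L114462 (by decide +kernel)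
theorem L114464 : W_42 (nat_lit 12) (nat_lit 0x200010000800040000000e0005000000000000000) (nat_lit 0x0) (nat_lit 0x20001000c00074007380fd00710032000280014000000) := Q_42 (nat_lit 80) (C_42 L113057 (C_42 L113713 (C_42 L114453 (C_42 L114463 N_42)))) (by decide +kernel)
theorem L114465 : W_42 (nat_lit 13) (nat_lit 0x200010000800040000000a0005000000000000000) (nat_lit 0x0) (nat_lit 0x20001000c00074007380fd00750032e0078003c000000) := Q_42 (nat_lit 78) (C_42 L114405 (C_42 L113703 (C_42 L114464 (C_42 L112998 N_42)))) (by decide +kernel)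
theorem L114466 : W_42 (nat_lit 6) (nat_lit 0x200010000800040010000a0005000000000000000) (nat_lit 0x0) (nat_lit 0x800040000000000030006800050002000f00038000400) := Q_42 (nat_lit 45) (C_42 L113809 (C_42 L113849 (C_42 L113501 N_42))) (by decide +kernel)
theorem L114467 : W_42 (nat_lit 7) (nat_lit 0x200010000800040010000a0005000000000000000) (nat_lit 0x0) (nat_lit 0xa00050000000000060006800050002000f00038000000) := Q_42 (nat_lit 45) (C_42 L113809 (C_42 L114075 (C_42 L113506 N_42))) (by decide +kernel)
theorem L114468 : W_42 (nat_lit 12) (nat_lit 0x200010000800040000000a0005000000000000000) (nat_lit 0x0) (nat_lit 0x3a003d001c000f40073807d00050002800fc003f001400) := Q_42 (nat_lit 96) (C_42 L113845 (C_42 L114086 (C_42 L114466 (C_42 L114050 (C_42 L114467 (C_42 L114010 (C_42 L113994 N_42))))))) (by decide +kernel)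
theorem L114469 : W_42 (nat_lit 2) (nat_lit 0x700010000800040000000e0007800240038000100) (nat_lit 0x0) (nat_lit 0x80004000200) := D_42 (nat_lit 26) (nat_lit 43) (nat_lit 9) (nat_lit 1) (nat_lit 12) (nat_lit 1) (nat_lit 0) (nat_lit 12) (nat_lit 1) (by decide +kernel)
theorem L114470 : W_42 (nat_lit 3) (nat_lit 0x700010000800040000000e0007800240018000100) (nat_lit 0x0) (nat_lit 0x80024001200) := T_42 (nat_lit 29) (nat_lit 12) (nat_lit 6) (nat_lit 11) (nat_lit 4) L114469 (by decide +kernel)
theorem L114471 : W_42 (nat_lit 4) (nat_lit 0x700010000800040000000e0007800240010000100) (nat_lit 0x0) (nat_lit 0x8002c001600) := T_42 (nat_lit 27) (nat_lit 10) (nat_lit 4) (nat_lit 11) (nat_lit 4) L114470 (by decide +kernel)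
theorem L114472 : W_42 (nat_lit 5) (nat_lit 0x700010000800040000000e0007800240000000100) (nat_lit 0x0) (nat_lit 0x8003c001e00) := T_42 (nat_lit 28) (nat_lit 11) (nat_lit 5) (nat_lit 11) (nat_lit 0) L114471 (by decide +kernel)
theorem L114473 : W_42 (nat_lit 4) (nat_lit 0x300010000800040000000a0007800200000000000) (nat_lit 0x0) (nat_lit 0x2000900040000400000010000800) := T_42 (nat_lit 109) (nat_lit 92) (nat_lit 4) (nat_lit 8) (nat_lit 9) L114313 (by decide +kernel)
theorem L114474 : W_42 (nat_lit 5) (nat_lit 0x300010000800040000000a0007800000000000000) (nat_lit 0x0) (nat_lit 0x2000900040000400600010000800) := T_42 (nat_lit 45) (nat_lit 46) (nat_lit 2) (nat_lit 8) (nat_lit 3) L114473 (by decide +kernel)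
theorem L114475 : W_42 (nat_lit 6) (nat_lit 0x200010000800040000000a0007800000000000000) (nat_lit 0x0) (nat_lit 0x200010000000000002000900040000400600010000800) := T_42 (nat_lit 160) (nat_lit 177) (nat_lit 5) (nat_lit 8) (nat_lit 6) L114474 (by decide +kernel)
theorem L114476 : W_42 (nat_lit 12) (nat_lit 0x200010000800040000000a0005800000000000000) (nat_lit 0x0) (nat_lit 0xa0005000000015c003c00d400570027006f8012000900) := Q_42 (nat_lit 61) (C_42 L113114 (C_42 L113627 (C_42 L113622 (C_42 L114475 N_42)))) (by decide +kernel)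
theorem L114477 : W_42 (nat_lit 6) (nat_lit 0x700010000800060000000a0005800000000000000) (nat_lit 0x0) (nat_lit 0x4001100020006e0002000100) := T_42 (nat_lit 61) (nat_lit 80) (nat_lit 3) (nat_lit 8) (nat_lit 3) L114015 (by decide +kernel)
theorem L114478 : W_42 (nat_lit 7) (nat_lit 0x700010000800040000000a0005800000000000000) (nat_lit 0x0) (nat_lit 0x20005001100020006e0002000100) := T_42 (nat_lit 109) (nat_lit 92) (nat_lit 4) (nat_lit 8) (nat_lit 9) L114477 (by decide +kernel)
theorem L114479 : W_42 (nat_lit 8) (nat_lit 0x600010000800040000000a0005800000000000000) (nat_lit 0x0) (nat_lit 0x2000100000000000020005001100020006e0002000100) := T_42 (nat_lit 160) (nat_lit 177) (nat_lit 5) (nat_lit 8) (nat_lit 6) L114478 (by decide +kernel)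
theorem L114480 : W_42 (nat_lit 9) (nat_lit 0x200010000800040000000a0005800000000000000) (nat_lit 0x0) (nat_lit 0xa000500000000000020005001100020006e0002000100) := T_42 (nat_lit 162) (nat_lit 179) (nat_lit 7) (nat_lit 8) (nat_lit 6) L114479 (by decide +kernel)
theorem L114481 : W_42 (nat_lit 13) (nat_lit 0x200010000800040000000a0005000000000000000) (nat_lit 0x0) (nat_lit 0xa0005000000015c003c00d40157002f006f8012000900) := Q_42 (nat_lit 59) (C_42 L114476 (C_42 L113720 (C_42 L113386 (C_42 L113383 (C_42 L114480 N_42))))) (by decide +kernel)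
theorem L114482 : W_42 (nat_lit 2) (nat_lit 0x600010000800740010000a0007c00000000000000) (nat_lit 0x0) (nat_lit 0x70000000000) := D_42 (nat_lit 41) (nat_lit 40) (nat_lit 42) (nat_lit 0) (nat_lit 10) (nat_lit 3) (nat_lit 0) (nat_lit 11) (nat_lit 3) (by decide +kernel)
theorem L114483 : W_42 (nat_lit 3) (nat_lit 0x600010000800740010000a0007800000000000000) (nat_lit 0x0) (nat_lit 0x40000400070000000000) := T_42 (nat_lit 58) (nat_lit 78) (nat_lit 3) (nat_lit 7) (nat_lit 3) L114482 (by decide +kernel)
theorem L114484 : W_42 (nat_lit 4) (nat_lit 0x600010000800740010000a0007000000000000000) (nat_lit 0x0) (nat_lit 0x140000c00070000000000) := T_42 (nat_lit 59) (nat_lit 80) (nat_lit 3) (nat_lit 8) (nat_lit 3) L114483 (by decide +kernel)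
theorem L114485 : W_42 (nat_lit 5) (nat_lit 0x600010000800740010000a0005000000000000000) (nat_lit 0x0) (nat_lit 0x140002c00170000000000) := T_42 (nat_lit 61) (nat_lit 44) (nat_lit 4) (nat_lit 11) (nat_lit 6) L114484 (by decide +kernel)
theorem L114486 : W_42 (nat_lit 6) (nat_lit 0x600010000800640010000a0005000000000000000) (nat_lit 0x0) (nat_lit 0x200010000000140002c00170000000000) := T_42 (nat_lit 112) (nat_lit 129) (nat_lit 5) (nat_lit 11) (nat_lit 3) L114485 (by decide +kernel)
theorem L114487 : W_42 (nat_lit 7) (nat_lit 0x600010000800240010000a0005000000000000000) (nat_lit 0x0) (nat_lit 0xa00050000000140002c00170000000000) := T_42 (nat_lit 114) (nat_lit 131) (nat_lit 7) (nat_lit 11) (nat_lit 3) L114486 (by decide +kernel)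
theorem L114488 : W_42 (nat_lit 8) (nat_lit 0x200010000800240010000a0005000000000000000) (nat_lit 0x0) (nat_lit 0x800040000000a00050000000140002c00170000000000) := T_42 (nat_lit 162) (nat_lit 179) (nat_lit 7) (nat_lit 8) (nat_lit 6) L114487 (by decide +kernel)
theorem L114489 : W_42 (nat_lit 9) (nat_lit 0x200010000800040010000a0005000000000000000) (nat_lit 0x0) (nat_lit 0xa00050014000f00072000100140002c00170000000000) := Q_42 (nat_lit 113) (C_42 L113861 (C_42 L114488 (C_42 L113378 (C_42 L113844 N_42)))) (by decide +kernel)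
theorem L114490 : W_42 (nat_lit 2) (nat_lit 0x600010008800060030003e0005000000000000000) (nat_lit 0x0) (nat_lit 0xc00400000000000000000000) := D_42 (nat_lit 95) (nat_lit 94) (nat_lit 82) (nat_lit 2) (nat_lit 9) (nat_lit 5) (nat_lit 1) (nat_lit 14) (nat_lit 4) (by decide +kernel)
theorem L114491 : W_42 (nat_lit 3) (nat_lit 0x600010008800060030001e0005000000000000000) (nat_lit 0x0) (nat_lit 0xc00600002000000000000000) := T_42 (nat_lit 81) (nat_lit 61) (nat_lit 0) (nat_lit 13) (nat_lit 4) L114490 (by decide +kernel)
theorem L114492 : W_42 (nat_lit 4) (nat_lit 0x600010000800060030001e0005000000000000000) (nat_lit 0x0) (nat_lit 0x800040000c00600002000000000000000) := T_42 (nat_lit 131) (nat_lit 114) (nat_lit 4) (nat_lit 12) (nat_lit 7) L114491 (by decide +kernel)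
theorem L114493 : W_42 (nat_lit 5) (nat_lit 0x600010000800060010001e0005000000000000000) (nat_lit 0x0) (nat_lit 0x800040006c00600002000000000000000) := T_42 (nat_lit 97) (nat_lit 98) (nat_lit 3) (nat_lit 9) (nat_lit 4) L114492 (by decide +kernel)
theorem L114494 : W_42 (nat_lit 6) (nat_lit 0x200010000800060010001e0005000000000000000) (nat_lit 0x0) (nat_lit 0x800040000000800040006c00600002000000000000000) := T_42 (nat_lit 162) (nat_lit 179) (nat_lit 7) (nat_lit 8) (nat_lit 6) L114493 (by decide +kernel)
theorem L114495 : W_42 (nat_lit 7) (nat_lit 0x200010000800060010000e0005000000000000000) (nat_lit 0x0) (nat_lit 0x800040000000800040006c00700002800000000000000) := T_42 (nat_lit 80) (nat_lit 59) (nat_lit 0) (nat_lit 12) (nat_lit 4) L114494 (by decide +kernel)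
theorem L114496 : W_42 (nat_lit 8) (nat_lit 0x200010000800040010000e0005000000000000000) (nat_lit 0x0) (nat_lit 0x800040000000800042006d00700002800000000000000) := T_42 (nat_lit 109) (nat_lit 92) (nat_lit 4) (nat_lit 8) (nat_lit 9) L114495 (by decide +kernel)
theorem L114497 : W_42 (nat_lit 2) (nat_lit 0x200010000800060010003e0005000000000000000) (nat_lit 0x0) (nat_lit 0xc00400000000000000000000) := D_42 (nat_lit 95) (nat_lit 94) (nat_lit 82) (nat_lit 1) (nat_lit 13) (nat_lit 4) (nat_lit 1) (nat_lit 14) (nat_lit 4) (by decide +kernel)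
theorem L114498 : W_42 (nat_lit 3) (nat_lit 0x200010000800060010001e0005000000000000000) (nat_lit 0x0) (nat_lit 0xc00600002000000000000000) := T_42 (nat_lit 81) (nat_lit 61) (nat_lit 0) (nat_lit 13) (nat_lit 4) L114497 (by decide +kernel)
theorem L114499 : W_42 (nat_lit 4) (nat_lit 0x200010000800040010001e0005000000000000000) (nat_lit 0x0) (nat_lit 0x2000d00600002000000000000000) := T_42 (nat_lit 109) (nat_lit 92) (nat_lit 4) (nat_lit 8) (nat_lit 9) L114498 (by decide +kernel)
theorem L114500 : W_42 (nat_lit 5) (nat_lit 0x200010000800040010000e0005000000000000000) (nat_lit 0x0) (nat_lit 0x2000d00700002800000000000000) := T_42 (nat_lit 80) (nat_lit 59) (nat_lit 0) (nat_lit 12) (nat_lit 4) L114499 (by decide +kernel)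
theorem L114501 : W_42 (nat_lit 9) (nat_lit 0x200010000800040010000a0005000000000000000) (nat_lit 0x0) (nat_lit 0x80004000000080004200ed00750002c00000000000000) := Q_42 (nat_lit 78) (C_42 L114442 (C_42 L113347 (C_42 L114496 (C_42 L113047 (C_42 L114500 N_42))))) (by decide +kernel)
theorem L114502 : W_42 (nat_lit 6) (nat_lit 0x200010000800040010000a0005000000000000000) (nat_lit 0x0) (nat_lit 0x200ed00750002c00000000000000) := Q_42 (nat_lit 78) (C_42 L114500 (C_42 L113347 (C_42 L113047 N_42))) (by decide +kernel)
theorem L114503 : W_42 (nat_lit 2) (nat_lit 0x700010008800040030003e0005000000000000000) (nat_lit 0x0) (nat_lit 0xc00400000000000000000000) := D_42 (nat_lit 95) (nat_lit 94) (nat_lit 82) (nat_lit 2) (nat_lit 9) (nat_lit 5) (nat_lit 1) (nat_lit 14) (nat_lit 4) (by decide +kernel)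
theorem L114504 : W_42 (nat_lit 3) (nat_lit 0x700010008800040030001e0005000000000000000) (nat_lit 0x0) (nat_lit 0xc00600002000000000000000) := T_42 (nat_lit 81) (nat_lit 61) (nat_lit 0) (nat_lit 13) (nat_lit 4) L114503 (by decide +kernel)
theorem L114505 : W_42 (nat_lit 4) (nat_lit 0x700010000800040030001e0005000000000000000) (nat_lit 0x0) (nat_lit 0x800040000c00600002000000000000000) := T_42 (nat_lit 131) (nat_lit 114) (nat_lit 4) (nat_lit 12) (nat_lit 7) L114504 (by decide +kernel)
theorem L114506 : W_42 (nat_lit 5) (nat_lit 0x700010000800040010001e0005000000000000000) (nat_lit 0x0) (nat_lit 0x800040006c00600002000000000000000) := T_42 (nat_lit 97) (nat_lit 98) (nat_lit 3) (nat_lit 9) (nat_lit 4) L114505 (by decide +kernel)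
theorem L114507 : W_42 (nat_lit 6) (nat_lit 0x300010000800040010001e0005000000000000000) (nat_lit 0x0) (nat_lit 0x800040000000800040006c00600002000000000000000) := T_42 (nat_lit 162) (nat_lit 179) (nat_lit 7) (nat_lit 8) (nat_lit 6) L114506 (by decide +kernel)
theorem L114508 : W_42 (nat_lit 7) (nat_lit 0x300010000800040010000e0005000000000000000) (nat_lit 0x0) (nat_lit 0x800040000000800040006c00700002800000000000000) := T_42 (nat_lit 80) (nat_lit 59) (nat_lit 0) (nat_lit 12) (nat_lit 4) L114507 (by decide +kernel)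
theorem L114509 : W_42 (nat_lit 8) (nat_lit 0x200010000800040010000e0005000000000000000) (nat_lit 0x0) (nat_lit 0xa00050000000800040006c00700002800000000000000) := T_42 (nat_lit 160) (nat_lit 177) (nat_lit 5) (nat_lit 8) (nat_lit 6) L114508 (by decide +kernel)
theorem L114510 : W_42 (nat_lit 2) (nat_lit 0x300010000800040010003e0005000000000000000) (nat_lit 0x0) (nat_lit 0xc00400000000000000000000) := D_42 (nat_lit 95) (nat_lit 94) (nat_lit 82) (nat_lit 1) (nat_lit 13) (nat_lit 4) (nat_lit 1) (nat_lit 14) (nat_lit 4) (by decide +kernel)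
theorem L114511 : W_42 (nat_lit 3) (nat_lit 0x300010000800040010001e0005000000000000000) (nat_lit 0x0) (nat_lit 0xc00600002000000000000000) := T_42 (nat_lit 81) (nat_lit 61) (nat_lit 0) (nat_lit 13) (nat_lit 4) L114510 (by decide +kernel)
theorem L114512 : W_42 (nat_lit 4) (nat_lit 0x200010000800040010001e0005000000000000000) (nat_lit 0x0) (nat_lit 0x200010000000000000000c00600002000000000000000) := T_42 (nat_lit 160) (nat_lit 177) (nat_lit 5) (nat_lit 8) (nat_lit 6) L114511 (by decide +kernel)
theorem L114513 : W_42 (nat_lit 5) (nat_lit 0x200010000800040010000e0005000000000000000) (nat_lit 0x0) (nat_lit 0x200010000000000000000c00700002800000000000000) := T_42 (nat_lit 80) (nat_lit 59) (nat_lit 0) (nat_lit 12) (nat_lit 4) L114512 (by decide +kernel)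
theorem L114514 : W_42 (nat_lit 9) (nat_lit 0x200010000800040010000a0005000000000000000) (nat_lit 0x0) (nat_lit 0xa0005000000080004000ec00750002c00000000000000) := Q_42 (nat_lit 78) (C_42 L113347 (C_42 L114509 (C_42 L113047 (C_42 L114513 N_42)))) (by decide +kernel)
theorem L114515 : W_42 (nat_lit 10) (nat_lit 0x200010000800040000000a0005000000000000000) (nat_lit 0x0) (nat_lit 0x3a001d001c000f4007380fd00750002c00170000000000) := Q_42 (nat_lit 96) (C_42 L114489 (C_42 L113994 (C_42 L114501 (C_42 L114502 (C_42 L114514 N_42))))) (by decide +kernel)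
theorem L114516 : W_42 (nat_lit 14) (nat_lit 0x20001000080004000000020005000000000000000) (nat_lit 0x0) (nat_lit 0x3a003d001c000f5c3f3c0fd40fd7032f00ff803f001f80) := Q_42 (nat_lit 79) (C_42 L113890 (C_42 L114443 (C_42 L113387 (C_42 L114465 (C_42 L113681 (C_42 L113721 (C_42 L114011 (C_42 L114406 (C_42 L114468 (C_42 L114481 (C_42 L114515 N_42))))))))))) (by decide +kernel)
theorem L114517 : W_42 (nat_lit 11) (nat_lit 0x20001000080004000000020007000000000000000) (nat_lit 0x0) (nat_lit 0xa00050000000000002000d001d7000f006f8012000900) := Q_42 (nat_lit 59) (C_42 L114355 (C_42 L113161 (C_42 L113167 (C_42 L114307 (C_42 L114317 N_42))))) (by decide +kernel)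
theorem L114518 : W_42 (nat_lit 12) (nat_lit 0x20001000080004000000020005000000000000000) (nat_lit 0x0) (nat_lit 0xa00050000000000022001d007d701af01ef8032001900) := Q_42 (nat_lit 61) (C_42 L113184 (C_42 L114107 (C_42 L113175 (C_42 L113107 (C_42 L114517 (C_42 L113108 N_42)))))) (by decide +kernel)
theorem L114519 : W_42 (nat_lit 2) (nat_lit 0x200010000800060000000200070000c0002000000) (nat_lit 0x0) (nat_lit 0x800000004000100) := D_42 (nat_lit 8) (nat_lit 26) (nat_lit 59) (nat_lit 4) (nat_lit 9) (nat_lit 4) (nat_lit 7) (nat_lit 8) (nat_lit 0) (by decide +kernel)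
theorem L114520 : W_42 (nat_lit 3) (nat_lit 0x200010000800060000000200070000c0000000000) (nat_lit 0x0) (nat_lit 0x400000000800000006000100) := T_42 (nat_lit 25) (nat_lit 94) (nat_lit 4) (nat_lit 9) (nat_lit 5) L114519 (by decide +kernel)
theorem L114521 : W_42 (nat_lit 4) (nat_lit 0x200010000800040000000200070000c0000000000) (nat_lit 0x0) (nat_lit 0x2000500000000800000006000100) := T_42 (nat_lit 109) (nat_lit 92) (nat_lit 4) (nat_lit 8) (nat_lit 9) L114520 (by decide +kernel)
theorem L114522 : W_42 (nat_lit 5) (nat_lit 0x20001000080004000000020007000080000000000) (nat_lit 0x0) (nat_lit 0x2000500000000800170006000100) := Q_42 (nat_lit 42) (C_42 L112526 (C_42 L114521 N_42)) (by decide +kernel)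
theorem L114523 : W_42 (nat_lit 6) (nat_lit 0x20001000080004000000020005000080000000000) (nat_lit 0x0) (nat_lit 0x80004000000000000200050005001a800170006000100) := Q_42 (nat_lit 61) (C_42 L114247 (C_42 L114522 (C_42 L112853 N_42))) (by decide +kernel)
theorem L114524 : W_42 (nat_lit 8) (nat_lit 0x20001000080004000000020005000080000000000) (nat_lit 0x0) (nat_lit 0xa00050000000000000000c0005001a00014000e000700) := Q_42 (nat_lit 61) (C_42 L114265 (C_42 L114255 (C_42 L114247 (C_42 L112853 N_42)))) (by decide +kernel)
theorem L114525 : W_42 (nat_lit 7) (nat_lit 0x20001000080004000000020005000080000000000) (nat_lit 0x0) (nat_lit 0xa0005000000000000200050071001a800170006000100) := Q_42 (nat_lit 61) (C_42 L112853 (C_42 L114522 (C_42 L112850 N_42))) (by decide +kernel)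
theorem L114526 : W_42 (nat_lit 2) (nat_lit 0x600010000800060000000e000700018000e800000) (nat_lit 0x0) (nat_lit 0x100000c00000000000000) := D_42 (nat_lit 59) (nat_lit 80) (nat_lit 58) (nat_lit 3) (nat_lit 8) (nat_lit 3) (nat_lit 3) (nat_lit 7) (nat_lit 3) (by decide +kernel)
theorem L114527 : W_42 (nat_lit 3) (nat_lit 0x6000100008000600000006000700018000e800000) (nat_lit 0x0) (nat_lit 0x1000180000c00000000000000) := T_42 (nat_lit 79) (nat_lit 96) (nat_lit 7) (nat_lit 10) (nat_lit 1) L114526 (by decide +kernel)
theorem L114528 : W_42 (nat_lit 4) (nat_lit 0x6000100008000600000006000700018000e000000) (nat_lit 0x0) (nat_lit 0x1000180000c00000001800000) := T_42 (nat_lit 23) (nat_lit 24) (nat_lit 3) (nat_lit 6) (nat_lit 1) L114527 (by decide +kernel)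
theorem L114529 : W_42 (nat_lit 5) (nat_lit 0x6000100008000600000006000700008000e000000) (nat_lit 0x0) (nat_lit 0x1400180000c00100001800000) := T_42 (nat_lit 44) (nat_lit 94) (nat_lit 6) (nat_lit 9) (nat_lit 5) L114528 (by decide +kernel)
theorem L114530 : W_42 (nat_lit 6) (nat_lit 0x60001000080006000000060007000080006000000) (nat_lit 0x0) (nat_lit 0x1400180000c00100009800400) := T_42 (nat_lit 27) (nat_lit 10) (nat_lit 6) (nat_lit 9) (nat_lit 4) L114529 (by decide +kernel)
theorem L114531 : W_42 (nat_lit 7) (nat_lit 0x60001000080006000000060007000080004000000) (nat_lit 0x0) (nat_lit 0x1400180000c0010000b800500) := T_42 (nat_lit 25) (nat_lit 8) (nat_lit 4) (nat_lit 9) (nat_lit 4) L114530 (by decide +kernel)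
theorem L114532 : W_42 (nat_lit 8) (nat_lit 0x60001000080004000000060007000080004000000) (nat_lit 0x0) (nat_lit 0x2001500180000c0010000b800500) := T_42 (nat_lit 109) (nat_lit 92) (nat_lit 4) (nat_lit 8) (nat_lit 9) L114531 (by decide +kernel)
theorem L114533 : W_42 (nat_lit 9) (nat_lit 0x60001000080004000000060005000080004000000) (nat_lit 0x0) (nat_lit 0x2001500180002c0010000b800700) := T_42 (nat_lit 61) (nat_lit 9) (nat_lit 7) (nat_lit 9) (nat_lit 0) L114532 (by decide +kernel)
theorem L114534 : W_42 (nat_lit 10) (nat_lit 0x60001000080004000000060005000080000000000) (nat_lit 0x0) (nat_lit 0x2001d00180002c0010000f800700) := T_42 (nat_lit 26) (nat_lit 95) (nat_lit 7) (nat_lit 9) (nat_lit 1) L114533 (by decide +kernel)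
theorem L114535 : W_42 (nat_lit 11) (nat_lit 0x20001000080004000000060005000080000000000) (nat_lit 0x0) (nat_lit 0x800040000000000002001d00180002c0010000f800700) := T_42 (nat_lit 162) (nat_lit 179) (nat_lit 7) (nat_lit 8) (nat_lit 6) L114534 (by decide +kernel)
theorem L114536 : W_42 (nat_lit 2) (nat_lit 0x2000100008000400000006000d000080000000000) (nat_lit 0x0) (nat_lit 0x10012000000000000000) := D_42 (nat_lit 61) (nat_lit 76) (nat_lit 64) (nat_lit 1) (nat_lit 12) (nat_lit 3) (nat_lit 1) (nat_lit 13) (nat_lit 3) (by decide +kernel)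
theorem L114537 : W_42 (nat_lit 2) (nat_lit 0x2000100008000400000006000d000080000000000) (nat_lit 0x0) (nat_lit 0x90002000000000000000) := D_42 (nat_lit 76) (nat_lit 61) (nat_lit 79) (nat_lit 1) (nat_lit 12) (nat_lit 3) (nat_lit 2) (nat_lit 8) (nat_lit 4) (by decide +kernel)
theorem L114538 : W_42 (nat_lit 5) (nat_lit 0x20001000080004000000060005000080000000000) (nat_lit 0x0) (nat_lit 0x80004000000000000200010019003a000000000000000) := Q_42 (nat_lit 63) (C_42 L113053 (C_42 L112862 (C_42 L114536 (C_42 L114537 N_42)))) (by decide +kernel)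
theorem L114539 : W_42 (nat_lit 12) (nat_lit 0x20001000080004000000020005000080000000000) (nat_lit 0x0) (nat_lit 0xa00050000000740013801d001d003ac0010000f800700) := Q_42 (nat_lit 78) (C_42 L114432 (C_42 L114535 (C_42 L114430 (C_42 L114538 N_42)))) (by decide +kernel)
theorem L114540 : W_42 (nat_lit 11) (nat_lit 0x20001000080004000000020005000080000000000) (nat_lit 0x0) (nat_lit 0xa000500000000000020005001d001af00170002000100) := Q_42 (nat_lit 61) (C_42 L112847 (C_42 L112853 (C_42 L114255 N_42))) (by decide +kernel)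
theorem L114541 : W_42 (nat_lit 13) (nat_lit 0x20001000080004000000020005000000000000000) (nat_lit 0x0) (nat_lit 0xa00050000000740033801d007d003af01df000f800700) := Q_42 (nat_lit 43) (C_42 L114393 (C_42 L114523 (C_42 L114266 (C_42 L114524 (C_42 L114525 (C_42 L114292 (C_42 L114539 (C_42 L114540 N_42)))))))) (by decide +kernel)
theorem L114542 : W_42 (nat_lit 13) (nat_lit 0x20001000080004000000020007000000000000000) (nat_lit 0x0) (nat_lit 0xa00050000000000012007d003d0008000fc003e001f00) := T_42 (nat_lit 63) (nat_lit 76) (nat_lit 1) (nat_lit 12) (nat_lit 3) L113152 (by decide +kernel)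
theorem L114543 : W_42 (nat_lit 14) (nat_lit 0x20001000080004000000020005000000000000000) (nat_lit 0x0) (nat_lit 0xa00050000000000072007d003d700af00ffc03f001f80) := Q_42 (nat_lit 61) (C_42 L114517 (C_42 L113175 (C_42 L113162 (C_42 L114106 (C_42 L114542 (C_42 L113168 (C_42 L114308 (C_42 L113108 N_42)))))))) (by decide +kernel)
theorem L114544 : W_42 (nat_lit 2) (nat_lit 0x300010000800060000000a4007f00100000000000) (nat_lit 0x0) (nat_lit 0x1c000000000) := D_42 (nat_lit 39) (nat_lit 38) (nat_lit 40) (nat_lit 0) (nat_lit 8) (nat_lit 3) (nat_lit 0) (nat_lit 9) (nat_lit 3) (by decide +kernel)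
theorem L114545 : W_42 (nat_lit 3) (nat_lit 0x300010000800060000000a4007e00100000000000) (nat_lit 0x0) (nat_lit 0x1000010001c000000000) := T_42 (nat_lit 56) (nat_lit 76) (nat_lit 3) (nat_lit 5) (nat_lit 3) L114544 (by decide +kernel)
theorem L114546 : W_42 (nat_lit 4) (nat_lit 0x300010000800060000000a0007e00100000000000) (nat_lit 0x0) (nat_lit 0x1600010001c000000000) := T_42 (nat_lit 74) (nat_lit 73) (nat_lit 1) (nat_lit 9) (nat_lit 3) L114545 (by decide +kernel)
theorem L114547 : W_42 (nat_lit 5) (nat_lit 0x300010000800060000000a0007c00100000000000) (nat_lit 0x0) (nat_lit 0x1600030009c000000000) := T_42 (nat_lit 57) (nat_lit 43) (nat_lit 2) (nat_lit 6) (nat_lit 3) L114546 (by decide +kernel)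
theorem L114548 : W_42 (nat_lit 6) (nat_lit 0x300010000800060000000a0007c00000000000000) (nat_lit 0x0) (nat_lit 0x1600030039c000000000) := T_42 (nat_lit 44) (nat_lit 45) (nat_lit 2) (nat_lit 7) (nat_lit 3) L114547 (by decide +kernel)
theorem L114549 : W_42 (nat_lit 7) (nat_lit 0x300010000800060000000a0007800000000000000) (nat_lit 0x0) (nat_lit 0x5600070039c000000000) := T_42 (nat_lit 58) (nat_lit 78) (nat_lit 3) (nat_lit 7) (nat_lit 3) L114548 (by decide +kernel)
theorem L114550 : W_42 (nat_lit 8) (nat_lit 0x30001000080006000000020007800000000000000) (nat_lit 0x0) (nat_lit 0x1d600070039c000000000) := T_42 (nat_lit 79) (nat_lit 80) (nat_lit 3) (nat_lit 8) (nat_lit 3) L114549 (by decide +kernel)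
theorem L114551 : W_42 (nat_lit 9) (nat_lit 0x30001000080004000000020007800000000000000) (nat_lit 0x0) (nat_lit 0x20001001d600070039c000000000) := T_42 (nat_lit 109) (nat_lit 92) (nat_lit 4) (nat_lit 8) (nat_lit 9) L114550 (by decide +kernel)
theorem L114552 : W_42 (nat_lit 10) (nat_lit 0x20001000080004000000020007800000000000000) (nat_lit 0x0) (nat_lit 0x2000100000000000020001001d600070039c000000000) := T_42 (nat_lit 160) (nat_lit 177) (nat_lit 5) (nat_lit 8) (nat_lit 6) L114551 (by decide +kernel)
theorem L114553 : W_42 (nat_lit 11) (nat_lit 0x20001000080004000000020007000000000000000) (nat_lit 0x0) (nat_lit 0xa000500000000000020005001d7000f003fc002000100) := Q_42 (nat_lit 59) (C_42 L114307 (C_42 L114355 (C_42 L113161 (C_42 L113167 (C_42 L114552 N_42))))) (by decide +kernel)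
theorem L114554 : W_42 (nat_lit 13) (nat_lit 0x20001000080004000000020005000000000000000) (nat_lit 0x0) (nat_lit 0xa00050000000a00052007d007d703af003fc01e000500) := Q_42 (nat_lit 61) (C_42 L114553 (C_42 L113109 (C_42 L114128 (C_42 L113118 (C_42 L113195 (C_42 L114365 (C_42 L113108 N_42))))))) (by decide +kernel)
theorem L114555 : W_42 (nat_lit 15) (nat_lit 0x20001000080004000000020001000000000000000) (nat_lit 0x0) (nat_lit 0x3a003d001c000f5c3f3c0fd40fd707ef01ffc07fc03f80) := Q_42 (nat_lit 62) (C_42 L114092 (C_42 L114093 (C_42 L114094 (C_42 L114095 (C_42 L114129 (C_42 L114130 (C_42 L114293 (C_42 L114294 (C_42 L114309 (C_42 L114311 (C_42 L114346 (C_42 L114366 (C_42 L114418 (C_42 L114419 (C_42 L114516 (C_42 L114518 (C_42 L114541 (C_42 L114543 (C_42 L114554 N_42))))))))))))))))))) (by decide +kernel)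
theorem L114556 : W_42 (nat_lit 6) (nat_lit 0x70001000080004000000060007800240000000100) (nat_lit 0x0) (nat_lit 0x18000000008003c001e00) := T_42 (nat_lit 79) (nat_lit 80) (nat_lit 3) (nat_lit 8) (nat_lit 3) L114472 (by decide +kernel)
theorem L114557 : W_42 (nat_lit 7) (nat_lit 0x70001000080004000000060007800040000000100) (nat_lit 0x0) (nat_lit 0x18000000068003c001e00) := T_42 (nat_lit 45) (nat_lit 46) (nat_lit 2) (nat_lit 8) (nat_lit 3) L114556 (by decide +kernel)
theorem L114558 : W_42 (nat_lit 8) (nat_lit 0x70001000080004000000060007800040000000000) (nat_lit 0x0) (nat_lit 0x18000000068003e001f00) := T_42 (nat_lit 8) (nat_lit 25) (nat_lit 7) (nat_lit 8) (nat_lit 0) L114557 (by decide +kernel)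
theorem L114559 : W_42 (nat_lit 9) (nat_lit 0x30001000080004000000060007800040000000000) (nat_lit 0x0) (nat_lit 0x80004000000000000000000018000000068003e001f00) := T_42 (nat_lit 162) (nat_lit 179) (nat_lit 7) (nat_lit 8) (nat_lit 6) L114558 (by decide +kernel)
theorem L114560 : W_42 (nat_lit 10) (nat_lit 0x30001000080004000000060007800000000000000) (nat_lit 0x0) (nat_lit 0x8000400000000000000000001800000006e003e001f00) := T_42 (nat_lit 42) (nat_lit 41) (nat_lit 0) (nat_lit 11) (nat_lit 3) L114559 (by decide +kernel)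
theorem L114561 : W_42 (nat_lit 11) (nat_lit 0x20001000080004000000060007800000000000000) (nat_lit 0x0) (nat_lit 0xa000500000000000000000001800000006e003e001f00) := T_42 (nat_lit 160) (nat_lit 177) (nat_lit 5) (nat_lit 8) (nat_lit 6) L114560 (by decide +kernel)
theorem L114562 : W_42 (nat_lit 2) (nat_lit 0x600010000800040000000a0007800440000000000) (nat_lit 0x0) (nat_lit 0x8000880000000000) := D_42 (nat_lit 63) (nat_lit 47) (nat_lit 43) (nat_lit 2) (nat_lit 9) (nat_lit 3) (nat_lit 0) (nat_lit 12) (nat_lit 3) (by decide +kernel)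
theorem L114563 : W_42 (nat_lit 3) (nat_lit 0x600010000800040000000a0007800400000000000) (nat_lit 0x0) (nat_lit 0x80008e0000000000) := T_42 (nat_lit 42) (nat_lit 41) (nat_lit 0) (nat_lit 11) (nat_lit 3) L114562 (by decide +kernel)
theorem L114564 : W_42 (nat_lit 2) (nat_lit 0x70001000080006000000030007800240007000000) (nat_lit 0x0) (nat_lit 0x180008000000) := D_42 (nat_lit 44) (nat_lit 27) (nat_lit 43) (nat_lit 3) (nat_lit 7) (nat_lit 1) (nat_lit 0) (nat_lit 11) (nat_lit 2) (by decide +kernel)
theorem L114565 : W_42 (nat_lit 3) (nat_lit 0x70001000080006000000030007800240006000000) (nat_lit 0x0) (nat_lit 0x180009000080) := T_42 (nat_lit 24) (nat_lit 7) (nat_lit 4) (nat_lit 8) (nat_lit 4) L114564 (by decide +kernel)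
theorem L114566 : W_42 (nat_lit 4) (nat_lit 0x70001000080006000000030007800240002000000) (nat_lit 0x0) (nat_lit 0x18000d000280) := T_42 (nat_lit 26) (nat_lit 9) (nat_lit 6) (nat_lit 8) (nat_lit 4) L114565 (by decide +kernel)
theorem L114567 : W_42 (nat_lit 2) (nat_lit 0x600010000800060000000b0007800340003000000) (nat_lit 0x0) (nat_lit 0xc000200) := D_42 (nat_lit 26) (nat_lit 9) (nat_lit 27) (nat_lit 6) (nat_lit 8) (nat_lit 4) (nat_lit 3) (nat_lit 7) (nat_lit 1) (by decide +kernel)
theorem L114568 : W_42 (nat_lit 3) (nat_lit 0x600010000800060000000b0007800240003000000) (nat_lit 0x0) (nat_lit 0x18000c000200) := T_42 (nat_lit 44) (nat_lit 43) (nat_lit 0) (nat_lit 11) (nat_lit 2) L114567 (by decide +kernel)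
theorem L114569 : W_42 (nat_lit 4) (nat_lit 0x600010000800060000000b0007800240002000000) (nat_lit 0x0) (nat_lit 0x18000d000280) := T_42 (nat_lit 24) (nat_lit 7) (nat_lit 4) (nat_lit 8) (nat_lit 4) L114568 (by decide +kernel)
theorem L114570 : W_42 (nat_lit 2) (nat_lit 0x300010000800060000000b0007800340003000000) (nat_lit 0x0) (nat_lit 0xc000200) := D_42 (nat_lit 26) (nat_lit 9) (nat_lit 27) (nat_lit 6) (nat_lit 8) (nat_lit 4) (nat_lit 3) (nat_lit 7) (nat_lit 1) (by decide +kernel)
theorem L114571 : W_42 (nat_lit 3) (nat_lit 0x300010000800060000000b0007800240003000000) (nat_lit 0x0) (nat_lit 0x18000c000200) := T_42 (nat_lit 44) (nat_lit 43) (nat_lit 0) (nat_lit 11) (nat_lit 2) L114570 (by decide +kernel)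
theorem L114572 : W_42 (nat_lit 4) (nat_lit 0x300010000800060000000b0007800240002000000) (nat_lit 0x0) (nat_lit 0x18000d000280) := T_42 (nat_lit 24) (nat_lit 7) (nat_lit 4) (nat_lit 8) (nat_lit 4) L114571 (by decide +kernel)
theorem L114573 : W_42 (nat_lit 2) (nat_lit 0x700010000800060010000f0007800000000000000) (nat_lit 0x0) (nat_lit 0x400020000000000000000100000000000) := D_42 (nat_lit 113) (nat_lit 44) (nat_lit 130) (nat_lit 4) (nat_lit 11) (nat_lit 6) (nat_lit 4) (nat_lit 11) (nat_lit 7) (by decide +kernel)
theorem L114574 : W_42 (nat_lit 3) (nat_lit 0x700010000800060000000f0007800000000000000) (nat_lit 0x0) (nat_lit 0x400020003000000000000100000000000) := T_42 (nat_lit 96) (nat_lit 97) (nat_lit 3) (nat_lit 8) (nat_lit 4) L114573 (by decide +kernel)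
theorem L114575 : W_42 (nat_lit 4) (nat_lit 0x700010000800040000000f0007800000000000000) (nat_lit 0x0) (nat_lit 0x400022003100000000000100000000000) := T_42 (nat_lit 109) (nat_lit 92) (nat_lit 4) (nat_lit 8) (nat_lit 9) L114574 (by decide +kernel)
theorem L114576 : W_42 (nat_lit 5) (nat_lit 0x700010000800040000000e0007800000000000000) (nat_lit 0x0) (nat_lit 0x400022003300010000000100000000000) := T_42 (nat_lit 76) (nat_lit 93) (nat_lit 6) (nat_lit 8) (nat_lit 7) L114575 (by decide +kernel)
theorem L114577 : W_42 (nat_lit 6) (nat_lit 0x300010000800040000000e0007800000000000000) (nat_lit 0x0) (nat_lit 0x800040000000400022003300010000000100000000000) := T_42 (nat_lit 162) (nat_lit 179) (nat_lit 7) (nat_lit 8) (nat_lit 6) L114576 (by decide +kernel)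
theorem L114578 : W_42 (nat_lit 7) (nat_lit 0x30001000080004000000060007800000000000000) (nat_lit 0x0) (nat_lit 0x800040000000400022003300190000000100000000000) := T_42 (nat_lit 79) (nat_lit 80) (nat_lit 3) (nat_lit 8) (nat_lit 3) L114577 (by decide +kernel)
theorem L114579 : W_42 (nat_lit 8) (nat_lit 0x20001000080004000000060007800000000000000) (nat_lit 0x0) (nat_lit 0xa00050000000400022003300190000000100000000000) := T_42 (nat_lit 160) (nat_lit 177) (nat_lit 5) (nat_lit 8) (nat_lit 6) L114578 (by decide +kernel)
theorem L114580 : W_42 (nat_lit 9) (nat_lit 0x20001000080004000000020007800000000000000) (nat_lit 0x0) (nat_lit 0xa00050000000400032003b001d0000000700010000800) := Q_42 (nat_lit 78) (C_42 L114579 (C_42 L112658 (C_42 L112662 (C_42 L114425 N_42)))) (by decide +kernel)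
theorem L114581 : W_42 (nat_lit 5) (nat_lit 0x300010000800060000000b0007800240000000000) (nat_lit 0x0) (nat_lit 0x18000f000380) := T_42 (nat_lit 25) (nat_lit 8) (nat_lit 7) (nat_lit 8) (nat_lit 0) L114572 (by decide +kernel)
theorem L114582 : W_42 (nat_lit 5) (nat_lit 0x600010000800040000000b0007800240002000000) (nat_lit 0x0) (nat_lit 0x200010000000000018000d000280) := T_42 (nat_lit 109) (nat_lit 92) (nat_lit 4) (nat_lit 8) (nat_lit 9) L114569 (by decide +kernel)
theorem L114583 : W_42 (nat_lit 6) (nat_lit 0x600010000800040000000a0007800240002000000) (nat_lit 0x0) (nat_lit 0x200030001000000018000d000280) := T_42 (nat_lit 76) (nat_lit 93) (nat_lit 6) (nat_lit 8) (nat_lit 7) L114582 (by decide +kernel)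
theorem L114584 : W_42 (nat_lit 7) (nat_lit 0x600010000800040000000a0007800240000000000) (nat_lit 0x0) (nat_lit 0x200030001000000018000f000380) := T_42 (nat_lit 25) (nat_lit 8) (nat_lit 7) (nat_lit 8) (nat_lit 0) L114583 (by decide +kernel)
theorem L114585 : W_42 (nat_lit 8) (nat_lit 0x200010000800040000000a0007800240000000000) (nat_lit 0x0) (nat_lit 0x80004000000000000200030001000000018000f000380) := T_42 (nat_lit 162) (nat_lit 179) (nat_lit 7) (nat_lit 8) (nat_lit 6) L114584 (by decide +kernel)
theorem L114586 : W_42 (nat_lit 9) (nat_lit 0x200010000800040000000a0007800200000000000) (nat_lit 0x0) (nat_lit 0x8000400000000000020003000100000001e000f000380) := T_42 (nat_lit 42) (nat_lit 41) (nat_lit 0) (nat_lit 11) (nat_lit 3) L114585 (by decide +kernel)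
theorem L114587 : W_42 (nat_lit 10) (nat_lit 0x200010000800040000000a0007800000000000000) (nat_lit 0x0) (nat_lit 0x8000400000000000020003000100000007e000f000380) := T_42 (nat_lit 45) (nat_lit 46) (nat_lit 2) (nat_lit 8) (nat_lit 3) L114586 (by decide +kernel)
theorem L114588 : W_42 (nat_lit 11) (nat_lit 0x20001000080004000000020007800000000000000) (nat_lit 0x0) (nat_lit 0x8000400000000000020003001900000007e000f000380) := T_42 (nat_lit 79) (nat_lit 80) (nat_lit 3) (nat_lit 8) (nat_lit 3) L114587 (by decide +kernel)
theorem L114589 : W_42 (nat_lit 6) (nat_lit 0x300010000800060000000a0007800240000000000) (nat_lit 0x0) (nat_lit 0x20001000000018000f000380) := T_42 (nat_lit 76) (nat_lit 93) (nat_lit 6) (nat_lit 8) (nat_lit 7) L114581 (by decide +kernel)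
theorem L114590 : W_42 (nat_lit 7) (nat_lit 0x300010000800060000000a0007800200000000000) (nat_lit 0x0) (nat_lit 0x2000100000001e000f000380) := T_42 (nat_lit 42) (nat_lit 41) (nat_lit 0) (nat_lit 11) (nat_lit 3) L114589 (by decide +kernel)
theorem L114591 : W_42 (nat_lit 8) (nat_lit 0x200010000800060000000a0007800200000000000) (nat_lit 0x0) (nat_lit 0x2000100000000000000002000100000001e000f000380) := T_42 (nat_lit 160) (nat_lit 177) (nat_lit 5) (nat_lit 8) (nat_lit 6) L114590 (by decide +kernel)
theorem L114592 : W_42 (nat_lit 9) (nat_lit 0x200010000800060000000a0007800000000000000) (nat_lit 0x0) (nat_lit 0x2000100000000000000002000100000007e000f000380) := T_42 (nat_lit 45) (nat_lit 46) (nat_lit 2) (nat_lit 8) (nat_lit 3) L114591 (by decide +kernel)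
theorem L114593 : W_42 (nat_lit 10) (nat_lit 0x20001000080006000000020007800000000000000) (nat_lit 0x0) (nat_lit 0x2000100000000000000002001900000007e000f000380) := T_42 (nat_lit 79) (nat_lit 80) (nat_lit 3) (nat_lit 8) (nat_lit 3) L114592 (by decide +kernel)
theorem L114594 : W_42 (nat_lit 11) (nat_lit 0x20001000080004000000020007800000000000000) (nat_lit 0x0) (nat_lit 0x2000100000000000020003001900000007e000f000380) := T_42 (nat_lit 109) (nat_lit 92) (nat_lit 4) (nat_lit 8) (nat_lit 9) L114593 (by decide +kernel)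
theorem L114595 : W_42 (nat_lit 6) (nat_lit 0x70001000080004000000030007800240002000000) (nat_lit 0x0) (nat_lit 0x18000000010001d000e80) := T_42 (nat_lit 79) (nat_lit 80) (nat_lit 3) (nat_lit 8) (nat_lit 3) L113083 (by decide +kernel)
theorem L114596 : W_42 (nat_lit 7) (nat_lit 0x70001000080004000000020007800240002000000) (nat_lit 0x0) (nat_lit 0x20019000000010001d000e80) := T_42 (nat_lit 76) (nat_lit 93) (nat_lit 6) (nat_lit 8) (nat_lit 7) L114595 (by decide +kernel)
theorem L114597 : W_42 (nat_lit 8) (nat_lit 0x70001000080004000000020007800040002000000) (nat_lit 0x0) (nat_lit 0x20019000000070001d000e80) := T_42 (nat_lit 45) (nat_lit 46) (nat_lit 2) (nat_lit 8) (nat_lit 3) L114596 (by decide +kernel)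
theorem L114598 : W_42 (nat_lit 9) (nat_lit 0x60001000080004000000020007800040002000000) (nat_lit 0x0) (nat_lit 0x20001000000000000000020019000000070001d000e80) := T_42 (nat_lit 160) (nat_lit 177) (nat_lit 5) (nat_lit 8) (nat_lit 6) L114597 (by decide +kernel)
theorem L114599 : W_42 (nat_lit 10) (nat_lit 0x60001000080004000000020007800040000000000) (nat_lit 0x0) (nat_lit 0x20001000000000000000020019000000070001f000f80) := T_42 (nat_lit 25) (nat_lit 8) (nat_lit 7) (nat_lit 8) (nat_lit 0) L114598 (by decide +kernel)
theorem L114600 : W_42 (nat_lit 11) (nat_lit 0x20001000080004000000020007800040000000000) (nat_lit 0x0) (nat_lit 0xa0005000000000000000020019000000070001f000f80) := T_42 (nat_lit 162) (nat_lit 179) (nat_lit 7) (nat_lit 8) (nat_lit 6) L114599 (by decide +kernel)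
theorem L114601 : W_42 (nat_lit 12) (nat_lit 0x20001000080004000000020007800000000000000) (nat_lit 0x0) (nat_lit 0xa0005000000000000000020019000000076001f000f80) := T_42 (nat_lit 42) (nat_lit 41) (nat_lit 0) (nat_lit 11) (nat_lit 3) L114600 (by decide +kernel)
theorem L114602 : W_42 (nat_lit 5) (nat_lit 0x70001000080006000000020007800240002000000) (nat_lit 0x0) (nat_lit 0x20001000000018000d000280) := T_42 (nat_lit 76) (nat_lit 93) (nat_lit 6) (nat_lit 8) (nat_lit 7) L114566 (by decide +kernel)
theorem L114603 : W_42 (nat_lit 6) (nat_lit 0x70001000080006000000020007800040002000000) (nat_lit 0x0) (nat_lit 0x20001000000078000d000280) := T_42 (nat_lit 45) (nat_lit 46) (nat_lit 2) (nat_lit 8) (nat_lit 3) L114602 (by decide +kernel)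
theorem L114604 : W_42 (nat_lit 7) (nat_lit 0x70001000080006000000020007800040000000000) (nat_lit 0x0) (nat_lit 0x20001000000078000f000380) := T_42 (nat_lit 25) (nat_lit 8) (nat_lit 7) (nat_lit 8) (nat_lit 0) L114603 (by decide +kernel)
theorem L114605 : W_42 (nat_lit 8) (nat_lit 0x60001000080006000000020007800040000000000) (nat_lit 0x0) (nat_lit 0x20001000000000000000020001000000078000f000380) := T_42 (nat_lit 160) (nat_lit 177) (nat_lit 5) (nat_lit 8) (nat_lit 6) L114604 (by decide +kernel)
theorem L114606 : W_42 (nat_lit 9) (nat_lit 0x60001000080006000000020007800000000000000) (nat_lit 0x0) (nat_lit 0x2000100000000000000002000100000007e000f000380) := T_42 (nat_lit 42) (nat_lit 41) (nat_lit 0) (nat_lit 11) (nat_lit 3) L114605 (by decide +kernel)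
theorem L114607 : W_42 (nat_lit 10) (nat_lit 0x20001000080006000000020007800000000000000) (nat_lit 0x0) (nat_lit 0xa000500000000000000002000100000007e000f000380) := T_42 (nat_lit 162) (nat_lit 179) (nat_lit 7) (nat_lit 8) (nat_lit 6) L114606 (by decide +kernel)
theorem L114608 : W_42 (nat_lit 11) (nat_lit 0x20001000080004000000020007800000000000000) (nat_lit 0x0) (nat_lit 0xa000500000000000020003000100000007e000f000380) := T_42 (nat_lit 109) (nat_lit 92) (nat_lit 4) (nat_lit 8) (nat_lit 9) L114607 (by decide +kernel)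
theorem L114609 : W_42 (nat_lit 2) (nat_lit 0x60001000080006000800070007800040007000000) (nat_lit 0x0) (nat_lit 0x10000000000000000600000000000) := D_42 (nat_lit 45) (nat_lit 46) (nat_lit 112) (nat_lit 2) (nat_lit 8) (nat_lit 3) (nat_lit 6) (nat_lit 10) (nat_lit 6) (by decide +kernel)
theorem L114610 : W_42 (nat_lit 3) (nat_lit 0x60001000080006000000070007800040007000000) (nat_lit 0x0) (nat_lit 0x10000800000000000680000000000) := T_42 (nat_lit 95) (nat_lit 43) (nat_lit 7) (nat_lit 9) (nat_lit 1) L114609 (by decide +kernel)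
theorem L114611 : W_42 (nat_lit 4) (nat_lit 0x60001000080006000000070007800040003000000) (nat_lit 0x0) (nat_lit 0x10000800000000000680004000200) := T_42 (nat_lit 26) (nat_lit 9) (nat_lit 6) (nat_lit 8) (nat_lit 4) L114610 (by decide +kernel)
theorem L114612 : W_42 (nat_lit 5) (nat_lit 0x60001000080006000000070007800040002000000) (nat_lit 0x0) (nat_lit 0x10000800000000000680005000280) := T_42 (nat_lit 24) (nat_lit 7) (nat_lit 4) (nat_lit 8) (nat_lit 4) L114611 (by decide +kernel)
theorem L114613 : W_42 (nat_lit 6) (nat_lit 0x20001000080006000000070007800040002000000) (nat_lit 0x0) (nat_lit 0x800040000000000010000800000000000680005000280) := T_42 (nat_lit 162) (nat_lit 179) (nat_lit 7) (nat_lit 8) (nat_lit 6) L114612 (by decide +kernel)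
theorem L114614 : W_42 (nat_lit 7) (nat_lit 0x20001000080006000000070007800040000000000) (nat_lit 0x0) (nat_lit 0x800040000000000010000800000000000680007000380) := T_42 (nat_lit 25) (nat_lit 8) (nat_lit 7) (nat_lit 8) (nat_lit 0) L114613 (by decide +kernel)
theorem L114615 : W_42 (nat_lit 8) (nat_lit 0x20001000080004000000070007800040000000000) (nat_lit 0x0) (nat_lit 0x800040000000000012000900000000000680007000380) := T_42 (nat_lit 109) (nat_lit 92) (nat_lit 4) (nat_lit 8) (nat_lit 9) L114614 (by decide +kernel)
theorem L114616 : W_42 (nat_lit 9) (nat_lit 0x20001000080004000000070007800000000000000) (nat_lit 0x0) (nat_lit 0x8000400000000000120009000000000006e0007000380) := T_42 (nat_lit 42) (nat_lit 41) (nat_lit 0) (nat_lit 11) (nat_lit 3) L114615 (by decide +kernel)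
theorem L114617 : W_42 (nat_lit 10) (nat_lit 0x20001000080004000000060007800000000000000) (nat_lit 0x0) (nat_lit 0x800040000000000012000b000100000006e0007000380) := T_42 (nat_lit 76) (nat_lit 93) (nat_lit 6) (nat_lit 8) (nat_lit 7) L114616 (by decide +kernel)
theorem L114618 : W_42 (nat_lit 2) (nat_lit 0x200010006800060018000f0007800040002000000) (nat_lit 0x0) (nat_lit 0x80004000200) := D_42 (nat_lit 26) (nat_lit 9) (nat_lit 43) (nat_lit 6) (nat_lit 8) (nat_lit 4) (nat_lit 7) (nat_lit 9) (nat_lit 1) (by decide +kernel)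
theorem L114619 : W_42 (nat_lit 3) (nat_lit 0x200010006800060010000f0007800040002000000) (nat_lit 0x0) (nat_lit 0x10000800000000000080004000200) := T_42 (nat_lit 95) (nat_lit 112) (nat_lit 6) (nat_lit 10) (nat_lit 7) L114618 (by decide +kernel)
theorem L114620 : W_42 (nat_lit 4) (nat_lit 0x200010006800060010000f0007800040000000000) (nat_lit 0x0) (nat_lit 0x10000800000000000080006000300) := T_42 (nat_lit 25) (nat_lit 8) (nat_lit 7) (nat_lit 8) (nat_lit 0) L114619 (by decide +kernel)
theorem L114621 : W_42 (nat_lit 5) (nat_lit 0x200010004800060010000f0007800040000000000) (nat_lit 0x0) (nat_lit 0x300010000800000000000080006000300) := T_42 (nat_lit 129) (nat_lit 128) (nat_lit 0) (nat_lit 11) (nat_lit 7) L114620 (by decide +kernel)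
theorem L114622 : W_42 (nat_lit 6) (nat_lit 0x200010000800060010000f0007800040000000000) (nat_lit 0x0) (nat_lit 0x700030000800000000000080006000300) := T_42 (nat_lit 130) (nat_lit 113) (nat_lit 4) (nat_lit 11) (nat_lit 7) L114621 (by decide +kernel)
theorem L114623 : W_42 (nat_lit 7) (nat_lit 0x200010000800060010000f0007800000000000000) (nat_lit 0x0) (nat_lit 0x7000300008000000000000e0006000300) := T_42 (nat_lit 42) (nat_lit 41) (nat_lit 0) (nat_lit 11) (nat_lit 3) L114622 (by decide +kernel)
theorem L114624 : W_42 (nat_lit 8) (nat_lit 0x200010000800060000000f0007800000000000000) (nat_lit 0x0) (nat_lit 0x7000300038000000000000e0006000300) := T_42 (nat_lit 96) (nat_lit 97) (nat_lit 3) (nat_lit 8) (nat_lit 4) L114623 (by decide +kernel)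
theorem L114625 : W_42 (nat_lit 9) (nat_lit 0x200010000800040000000f0007800000000000000) (nat_lit 0x0) (nat_lit 0x7000320039000000000000e0006000300) := T_42 (nat_lit 109) (nat_lit 92) (nat_lit 4) (nat_lit 8) (nat_lit 9) L114624 (by decide +kernel)
theorem L114626 : W_42 (nat_lit 10) (nat_lit 0x200010000800040000000e0007800000000000000) (nat_lit 0x0) (nat_lit 0x700032003b000100000000e0006000300) := T_42 (nat_lit 76) (nat_lit 93) (nat_lit 6) (nat_lit 8) (nat_lit 7) L114625 (by decide +kernel)
theorem L114627 : W_42 (nat_lit 11) (nat_lit 0x20001000080004000000060007800000000000000) (nat_lit 0x0) (nat_lit 0x700032003b001900000000e0006000300) := T_42 (nat_lit 79) (nat_lit 80) (nat_lit 3) (nat_lit 8) (nat_lit 3) L114626 (by decide +kernel)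
theorem L114628 : W_42 (nat_lit 12) (nat_lit 0x20001000080004000000020007800000000000000) (nat_lit 0x0) (nat_lit 0xa00050000000700032003b001d00000006e003f001f80) := Q_42 (nat_lit 78) (C_42 L114561 (C_42 L112658 (C_42 L114617 (C_42 L114627 N_42)))) (by decide +kernel)
theorem L114629 : W_42 (nat_lit 2) (nat_lit 0x20001000080006000000030007800148007800020) (nat_lit 0x0) (nat_lit 0x4000400010) := D_42 (nat_lit 22) (nat_lit 38) (nat_lit 4) (nat_lit 1) (nat_lit 8) (nat_lit 1) (nat_lit 0) (nat_lit 8) (nat_lit 1) (by decide +kernel)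
theorem L114630 : W_42 (nat_lit 3) (nat_lit 0x20001000080006000000030007800148007800000) (nat_lit 0x0) (nat_lit 0x4000400070) := T_42 (nat_lit 5) (nat_lit 6) (nat_lit 0) (nat_lit 9) (nat_lit 1) L114629 (by decide +kernel)
theorem L114631 : W_42 (nat_lit 4) (nat_lit 0x20001000080006000000030007800140007800000) (nat_lit 0x0) (nat_lit 0x1c000400070) := T_42 (nat_lit 39) (nat_lit 40) (nat_lit 1) (nat_lit 9) (nat_lit 1) L114630 (by decide +kernel)
theorem L114632 : W_42 (nat_lit 5) (nat_lit 0x20001000080006000000030007800140007000000) (nat_lit 0x0) (nat_lit 0x9c000c00070) := T_42 (nat_lit 23) (nat_lit 43) (nat_lit 3) (nat_lit 6) (nat_lit 1) L114631 (by decide +kernel)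
theorem L114633 : W_42 (nat_lit 6) (nat_lit 0x20001000080006000000030007800140006000000) (nat_lit 0x0) (nat_lit 0x9c001c000f0) := T_42 (nat_lit 24) (nat_lit 7) (nat_lit 4) (nat_lit 8) (nat_lit 4) L114632 (by decide +kernel)
theorem L114634 : W_42 (nat_lit 7) (nat_lit 0x20001000080006000000030007800140002000000) (nat_lit 0x0) (nat_lit 0x9c005c002f0) := T_42 (nat_lit 26) (nat_lit 9) (nat_lit 6) (nat_lit 8) (nat_lit 4) L114633 (by decide +kernel)
theorem L114635 : W_42 (nat_lit 8) (nat_lit 0x20001000080006000000030007800140000000000) (nat_lit 0x0) (nat_lit 0x9c007c003f0) := T_42 (nat_lit 25) (nat_lit 8) (nat_lit 7) (nat_lit 8) (nat_lit 0) L114634 (by decide +kernel)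
theorem L114636 : W_42 (nat_lit 9) (nat_lit 0x20001000080004000000030007800140000000000) (nat_lit 0x0) (nat_lit 0x200010000000000009c007c003f0) := T_42 (nat_lit 109) (nat_lit 92) (nat_lit 4) (nat_lit 8) (nat_lit 9) L114635 (by decide +kernel)
theorem L114637 : W_42 (nat_lit 10) (nat_lit 0x20001000080004000000020007800140000000000) (nat_lit 0x0) (nat_lit 0x200030001000000009c007c003f0) := T_42 (nat_lit 76) (nat_lit 93) (nat_lit 6) (nat_lit 8) (nat_lit 7) L114636 (by decide +kernel)
theorem L114638 : W_42 (nat_lit 11) (nat_lit 0x20001000080004000000020007800100000000000) (nat_lit 0x0) (nat_lit 0x20003000100000000fc007c003f0) := T_42 (nat_lit 42) (nat_lit 41) (nat_lit 0) (nat_lit 11) (nat_lit 3) L114637 (by decide +kernel)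
theorem L114639 : W_42 (nat_lit 12) (nat_lit 0x20001000080004000000020007800000000000000) (nat_lit 0x0) (nat_lit 0x220013001d00000001fc00fc007f0) := Q_42 (nat_lit 44) (C_42 L112665 (C_42 L114638 N_42)) (by decide +kernel)
theorem L114640 : W_42 (nat_lit 13) (nat_lit 0x20001000080004000000020007000000000000000) (nat_lit 0x0) (nat_lit 0x8000400000000000220013001d0000c007fc00fc007f0) := Q_42 (nat_lit 59) (C_42 L113161 (C_42 L114639 (C_42 L113156 (C_42 L114588 (C_42 L112712 N_42))))) (by decide +kernel)
theorem L114641 : W_42 (nat_lit 13) (nat_lit 0x20001000080004000000020007000000000000000) (nat_lit 0x0) (nat_lit 0x200010000000000022001b001d0000c007fc01fc00ff0) := Q_42 (nat_lit 59) (C_42 L114317 (C_42 L114639 (C_42 L113167 (C_42 L114594 (C_42 L112712 N_42))))) (by decide +kernel)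
theorem L114642 : W_42 (nat_lit 13) (nat_lit 0x20001000080004000000020007000000000000000) (nat_lit 0x0) (nat_lit 0xa000500000000000000002001d0000f0077c01f000f80) := Q_42 (nat_lit 59) (C_42 L114601 (C_42 L113156 (C_42 L114301 (C_42 L113167 N_42)))) (by decide +kernel)
theorem L114643 : W_42 (nat_lit 2) (nat_lit 0x60001000180007000000034007e00220000000000) (nat_lit 0x0) (nat_lit 0x640000000000000000000000000000000) := D_42 (nat_lit 129) (nat_lit 130) (nat_lit 126) (nat_lit 0) (nat_lit 11) (nat_lit 7) (nat_lit 0) (nat_lit 10) (nat_lit 7) (by decide +kernel)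
theorem L114644 : W_42 (nat_lit 3) (nat_lit 0x60001000080007000000034007e00220000000000) (nat_lit 0x0) (nat_lit 0x740000800000000000000000000000000) := T_42 (nat_lit 128) (nat_lit 107) (nat_lit 3) (nat_lit 5) (nat_lit 6) L114643 (by decide +kernel)
theorem L114645 : W_42 (nat_lit 4) (nat_lit 0x60001000080006000000034007e00220000000000) (nat_lit 0x0) (nat_lit 0x740001800080000000000000000000000) := T_42 (nat_lit 108) (nat_lit 91) (nat_lit 6) (nat_lit 6) (nat_lit 6) L114644 (by decide +kernel)
theorem L114646 : W_42 (nat_lit 5) (nat_lit 0x60001000080006000000030007e00220000000000) (nat_lit 0x0) (nat_lit 0x740001800080006000000000000000000) := T_42 (nat_lit 74) (nat_lit 73) (nat_lit 1) (nat_lit 9) (nat_lit 3) L114645 (by decide +kernel)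
theorem L114647 : W_42 (nat_lit 6) (nat_lit 0x60001000080006000000030007c00220000000000) (nat_lit 0x0) (nat_lit 0x740001800080006000300000000000000) := T_42 (nat_lit 57) (nat_lit 56) (nat_lit 3) (nat_lit 5) (nat_lit 3) L114646 (by decide +kernel)
theorem L114648 : W_42 (nat_lit 7) (nat_lit 0x60001000080006000000030007800220000000000) (nat_lit 0x0) (nat_lit 0x740001800080006000700010000000000) := T_42 (nat_lit 58) (nat_lit 40) (nat_lit 0) (nat_lit 10) (nat_lit 3) L114647 (by decide +kernel)
theorem L114649 : W_42 (nat_lit 8) (nat_lit 0x60001000080006000000020007800220000000000) (nat_lit 0x0) (nat_lit 0x740001800280016000700010000000000) := T_42 (nat_lit 76) (nat_lit 93) (nat_lit 6) (nat_lit 8) (nat_lit 7) L114648 (by decide +kernel)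
theorem L114650 : W_42 (nat_lit 9) (nat_lit 0x60001000080006000000020007800200000000000) (nat_lit 0x0) (nat_lit 0x740001800280016000700070000000000) := T_42 (nat_lit 41) (nat_lit 42) (nat_lit 0) (nat_lit 11) (nat_lit 3) L114649 (by decide +kernel)
theorem L114651 : W_42 (nat_lit 10) (nat_lit 0x60001000080006000000020007800000000000000) (nat_lit 0x0) (nat_lit 0x740001800280016000700670000000000) := T_42 (nat_lit 45) (nat_lit 46) (nat_lit 2) (nat_lit 8) (nat_lit 3) L114650 (by decide +kernel)
theorem L114652 : W_42 (nat_lit 11) (nat_lit 0x60001000080004000000020007800000000000000) (nat_lit 0x0) (nat_lit 0x740003800380016000700670000000000) := T_42 (nat_lit 109) (nat_lit 92) (nat_lit 4) (nat_lit 8) (nat_lit 9) L114651 (by decide +kernel)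
theorem L114653 : W_42 (nat_lit 12) (nat_lit 0x20001000080004000000020007800000000000000) (nat_lit 0x0) (nat_lit 0x800040000000740003800380016000700670000000000) := T_42 (nat_lit 162) (nat_lit 179) (nat_lit 7) (nat_lit 8) (nat_lit 6) L114652 (by decide +kernel)
theorem L114654 : W_42 (nat_lit 2) (nat_lit 0x600010001800070000000b4007e00020000000000) (nat_lit 0x0) (nat_lit 0x640000000000000000000000000000000) := D_42 (nat_lit 129) (nat_lit 130) (nat_lit 126) (nat_lit 0) (nat_lit 11) (nat_lit 7) (nat_lit 0) (nat_lit 10) (nat_lit 7) (by decide +kernel)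
theorem L114655 : W_42 (nat_lit 3) (nat_lit 0x600010000800070000000b4007e00020000000000) (nat_lit 0x0) (nat_lit 0x740000800000000000000000000000000) := T_42 (nat_lit 128) (nat_lit 107) (nat_lit 3) (nat_lit 5) (nat_lit 6) L114654 (by decide +kernel)
theorem L114656 : W_42 (nat_lit 4) (nat_lit 0x600010000800060000000b4007e00020000000000) (nat_lit 0x0) (nat_lit 0x740001800080000000000000000000000) := T_42 (nat_lit 108) (nat_lit 91) (nat_lit 6) (nat_lit 6) (nat_lit 6) L114655 (by decide +kernel)
theorem L114657 : W_42 (nat_lit 5) (nat_lit 0x600010000800060000000b0007e00020000000000) (nat_lit 0x0) (nat_lit 0x740001800080006000000000000000000) := T_42 (nat_lit 74) (nat_lit 73) (nat_lit 1) (nat_lit 9) (nat_lit 3) L114656 (by decide +kernel)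
theorem L114658 : W_42 (nat_lit 6) (nat_lit 0x600010000800060000000b0007c00020000000000) (nat_lit 0x0) (nat_lit 0x740001800080006000300000000000000) := T_42 (nat_lit 57) (nat_lit 56) (nat_lit 3) (nat_lit 5) (nat_lit 3) L114657 (by decide +kernel)
theorem L114659 : W_42 (nat_lit 7) (nat_lit 0x600010000800060000000b0007800020000000000) (nat_lit 0x0) (nat_lit 0x740001800080006000700010000000000) := T_42 (nat_lit 58) (nat_lit 40) (nat_lit 0) (nat_lit 10) (nat_lit 3) L114658 (by decide +kernel)
theorem L114660 : W_42 (nat_lit 8) (nat_lit 0x600010000800040000000b0007800020000000000) (nat_lit 0x0) (nat_lit 0x740003800180006000700010000000000) := T_42 (nat_lit 109) (nat_lit 92) (nat_lit 4) (nat_lit 8) (nat_lit 9) L114659 (by decide +kernel)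
theorem L114661 : W_42 (nat_lit 9) (nat_lit 0x600010000800040000000b0007800000000000000) (nat_lit 0x0) (nat_lit 0x740003800180006000700070000000000) := T_42 (nat_lit 41) (nat_lit 42) (nat_lit 0) (nat_lit 11) (nat_lit 3) L114660 (by decide +kernel)
theorem L114662 : W_42 (nat_lit 10) (nat_lit 0x200010000800040000000b0007800000000000000) (nat_lit 0x0) (nat_lit 0x800040000000740003800180006000700070000000000) := T_42 (nat_lit 162) (nat_lit 179) (nat_lit 7) (nat_lit 8) (nat_lit 6) L114661 (by decide +kernel)
theorem L114663 : W_42 (nat_lit 11) (nat_lit 0x20001000080004000000030007800000000000000) (nat_lit 0x0) (nat_lit 0x800040000000740003800180186000700070000000000) := T_42 (nat_lit 79) (nat_lit 80) (nat_lit 3) (nat_lit 8) (nat_lit 3) L114662 (by decide +kernel)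
theorem L114664 : W_42 (nat_lit 12) (nat_lit 0x20001000080004000000020007800000000000000) (nat_lit 0x0) (nat_lit 0x800040000000740003800380196000700070000000000) := T_42 (nat_lit 76) (nat_lit 93) (nat_lit 6) (nat_lit 8) (nat_lit 7) L114663 (by decide +kernel)
theorem L114665 : W_42 (nat_lit 13) (nat_lit 0x20001000080004000000020007000000000000000) (nat_lit 0x0) (nat_lit 0xa00050000000740003801380196000f007f001f000f80) := Q_42 (nat_lit 59) (C_42 L114608 (C_42 L114588 (C_42 L114594 (C_42 L113173 (C_42 L114601 (C_42 L114653 (C_42 L114664 N_42))))))) (by decide +kernel)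
theorem L114666 : W_42 (nat_lit 2) (nat_lit 0x70001000180007000200024007e00020000000000) (nat_lit 0x0) (nat_lit 0x640000000000000000000000000000000) := D_42 (nat_lit 129) (nat_lit 130) (nat_lit 126) (nat_lit 0) (nat_lit 11) (nat_lit 7) (nat_lit 0) (nat_lit 10) (nat_lit 7) (by decide +kernel)
theorem L114667 : W_42 (nat_lit 3) (nat_lit 0x70001000080007000200024007e00020000000000) (nat_lit 0x0) (nat_lit 0x740000800000000000000000000000000) := T_42 (nat_lit 128) (nat_lit 107) (nat_lit 3) (nat_lit 5) (nat_lit 6) L114666 (by decide +kernel)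
theorem L114668 : W_42 (nat_lit 4) (nat_lit 0x70001000080006000200024007e00020000000000) (nat_lit 0x0) (nat_lit 0x740001800080000000000000000000000) := T_42 (nat_lit 108) (nat_lit 91) (nat_lit 6) (nat_lit 6) (nat_lit 6) L114667 (by decide +kernel)
theorem L114669 : W_42 (nat_lit 5) (nat_lit 0x70001000080006000200020007e00020000000000) (nat_lit 0x0) (nat_lit 0x740001800080006000000000000000000) := T_42 (nat_lit 74) (nat_lit 73) (nat_lit 1) (nat_lit 9) (nat_lit 3) L114668 (by decide +kernel)
theorem L114670 : W_42 (nat_lit 6) (nat_lit 0x70001000080006000200020007c00020000000000) (nat_lit 0x0) (nat_lit 0x740001800080046000200000000000000) := T_42 (nat_lit 57) (nat_lit 78) (nat_lit 3) (nat_lit 6) (nat_lit 3) L114669 (by decide +kernel)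
theorem L114671 : W_42 (nat_lit 7) (nat_lit 0x70001000080006000000020007c00020000000000) (nat_lit 0x0) (nat_lit 0x740001800280056000200000000000000) := T_42 (nat_lit 93) (nat_lit 76) (nat_lit 6) (nat_lit 8) (nat_lit 7) L114670 (by decide +kernel)
theorem L114672 : W_42 (nat_lit 8) (nat_lit 0x70001000080004000000020007c00020000000000) (nat_lit 0x0) (nat_lit 0x740003800380056000200000000000000) := T_42 (nat_lit 109) (nat_lit 92) (nat_lit 4) (nat_lit 8) (nat_lit 9) L114671 (by decide +kernel)
theorem L114673 : W_42 (nat_lit 9) (nat_lit 0x70001000080004000000020007800020000000000) (nat_lit 0x0) (nat_lit 0x740003800380056000600010000000000) := T_42 (nat_lit 58) (nat_lit 40) (nat_lit 0) (nat_lit 10) (nat_lit 3) L114672 (by decide +kernel)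
theorem L114674 : W_42 (nat_lit 10) (nat_lit 0x30001000080004000000020007800020000000000) (nat_lit 0x0) (nat_lit 0x800040000000740003800380056000600010000000000) := T_42 (nat_lit 162) (nat_lit 179) (nat_lit 7) (nat_lit 8) (nat_lit 6) L114673 (by decide +kernel)
theorem L114675 : W_42 (nat_lit 11) (nat_lit 0x30001000080004000000020007800000000000000) (nat_lit 0x0) (nat_lit 0x800040000000740003800380056000600070000000000) := T_42 (nat_lit 41) (nat_lit 42) (nat_lit 0) (nat_lit 11) (nat_lit 3) L114674 (by decide +kernel)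
theorem L114676 : W_42 (nat_lit 12) (nat_lit 0x20001000080004000000020007800000000000000) (nat_lit 0x0) (nat_lit 0xa00050000000740003800380056000600070000000000) := T_42 (nat_lit 160) (nat_lit 177) (nat_lit 5) (nat_lit 8) (nat_lit 6) L114675 (by decide +kernel)
theorem L114677 : W_42 (nat_lit 13) (nat_lit 0x20001000080004000000020007000000000000000) (nat_lit 0x0) (nat_lit 0xa00050000000740003800380056000f007fc00f000380) := Q_42 (nat_lit 59) (C_42 L114653 (C_42 L112712 (C_42 L114301 (C_42 L114608 (C_42 L114676 N_42))))) (by decide +kernel)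
theorem L114678 : W_42 (nat_lit 2) (nat_lit 0x20001000080004000000020007000000000000000) (nat_lit 0x0) (nat_lit 0x200010008000000000000000) := D_42 (nat_lit 76) (nat_lit 93) (nat_lit 63) (nat_lit 6) (nat_lit 8) (nat_lit 7) (nat_lit 1) (nat_lit 12) (nat_lit 3) (by decide +kernel)
theorem L114679 : W_42 (nat_lit 2) (nat_lit 0x600010000800060010000f0007800000000000000) (nat_lit 0x0) (nat_lit 0x400020000000000000000100000000000) := D_42 (nat_lit 113) (nat_lit 44) (nat_lit 130) (nat_lit 4) (nat_lit 11) (nat_lit 6) (nat_lit 4) (nat_lit 11) (nat_lit 7) (by decide +kernel)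
theorem L114680 : W_42 (nat_lit 3) (nat_lit 0x600010000800060000000f0007800000000000000) (nat_lit 0x0) (nat_lit 0x400020003000000000000100000000000) := T_42 (nat_lit 96) (nat_lit 97) (nat_lit 3) (nat_lit 8) (nat_lit 4) L114679 (by decide +kernel)
theorem L114681 : W_42 (nat_lit 4) (nat_lit 0x600010000800040000000f0007800000000000000) (nat_lit 0x0) (nat_lit 0x400022003100000000000100000000000) := T_42 (nat_lit 109) (nat_lit 92) (nat_lit 4) (nat_lit 8) (nat_lit 9) L114680 (by decide +kernel)
theorem L114682 : W_42 (nat_lit 5) (nat_lit 0x600010000800040000000e0007800000000000000) (nat_lit 0x0) (nat_lit 0x400022003300010000000100000000000) := T_42 (nat_lit 76) (nat_lit 93) (nat_lit 6) (nat_lit 8) (nat_lit 7) L114681 (by decide +kernel)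
theorem L114683 : W_42 (nat_lit 6) (nat_lit 0x600010000800040000000a0007800000000000000) (nat_lit 0x0) (nat_lit 0x400022003300050000400100000000000) := T_42 (nat_lit 78) (nat_lit 58) (nat_lit 3) (nat_lit 7) (nat_lit 3) L114682 (by decide +kernel)
theorem L114684 : W_42 (nat_lit 7) (nat_lit 0x60001000080004000000020007800000000000000) (nat_lit 0x0) (nat_lit 0x4000220033001d0000400100000000000) := T_42 (nat_lit 79) (nat_lit 80) (nat_lit 3) (nat_lit 8) (nat_lit 3) L114683 (by decide +kernel)
theorem L114685 : W_42 (nat_lit 8) (nat_lit 0x20001000080004000000020007800000000000000) (nat_lit 0x0) (nat_lit 0x8000400000004000220033001d0000400100000000000) := T_42 (nat_lit 162) (nat_lit 179) (nat_lit 7) (nat_lit 8) (nat_lit 6) L114684 (by decide +kernel)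
theorem L114686 : W_42 (nat_lit 11) (nat_lit 0x20001000080004000000020007000000000000000) (nat_lit 0x0) (nat_lit 0xa00050000000400032003b001d6000f0079c018000c00) := Q_42 (nat_lit 59) (C_42 L114552 (C_42 L114580 (C_42 L113156 (C_42 L113173 (C_42 L114301 (C_42 L114317 (C_42 L114685 N_42))))))) (by decide +kernel)
theorem L114687 : W_42 (nat_lit 14) (nat_lit 0x20001000080004000000020005000000000000000) (nat_lit 0x0) (nat_lit 0xa000500000000000020013007d001af01f7c03f001f80) := Q_42 (nat_lit 61) (C_42 L114678 (C_42 L114107 (C_42 L114642 N_42))) (by decide +kernel)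
theorem L114688 : W_42 (nat_lit 14) (nat_lit 0x20001000080004000000020005000000000000000) (nat_lit 0x0) (nat_lit 0x8000400000000000220013003d001ac01ffc00fc007f0) := Q_42 (nat_lit 61) (C_42 L114678 (C_42 L113169 (C_42 L114640 N_42))) (by decide +kernel)
theorem L114689 : W_42 (nat_lit 14) (nat_lit 0x20001000080004000000020005000000000000000) (nat_lit 0x0) (nat_lit 0x200010000000000022001b007d001ae01ffc03fc01ff0) := Q_42 (nat_lit 61) (C_42 L114678 (C_42 L114107 (C_42 L114641 N_42))) (by decide +kernel)
theorem L114690 : W_42 (nat_lit 2) (nat_lit 0x700010000800060000001a000f000180008000000) (nat_lit 0x0) (nat_lit 0x20001000000000000200000000000) := D_42 (nat_lit 96) (nat_lit 113) (nat_lit 45) (nat_lit 4) (nat_lit 11) (nat_lit 6) (nat_lit 4) (nat_lit 11) (nat_lit 5) (by decide +kernel)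
theorem L114691 : W_42 (nat_lit 3) (nat_lit 0x700010000800060000001a000f000180000000000) (nat_lit 0x0) (nat_lit 0x20001000000000000200008000400) := T_42 (nat_lit 27) (nat_lit 10) (nat_lit 7) (nat_lit 10) (nat_lit 0) L114690 (by decide +kernel)
theorem L114692 : W_42 (nat_lit 4) (nat_lit 0x700010000800040000001a000f000180000000000) (nat_lit 0x0) (nat_lit 0x22001100000000000200008000400) := T_42 (nat_lit 109) (nat_lit 92) (nat_lit 4) (nat_lit 8) (nat_lit 9) L114691 (by decide +kernel)
theorem L114693 : W_42 (nat_lit 5) (nat_lit 0x700010000800040000001a000f000080000000000) (nat_lit 0x0) (nat_lit 0x22001100000010000300008000400) := T_42 (nat_lit 44) (nat_lit 64) (nat_lit 0) (nat_lit 13) (nat_lit 3) L114692 (by decide +kernel)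
theorem L114694 : W_42 (nat_lit 6) (nat_lit 0x300010000800040000001a000f000080000000000) (nat_lit 0x0) (nat_lit 0x800040000000000022001100000010000300008000400) := T_42 (nat_lit 162) (nat_lit 179) (nat_lit 7) (nat_lit 8) (nat_lit 6) L114693 (by decide +kernel)
theorem L114695 : W_42 (nat_lit 7) (nat_lit 0x300010000800040000001a000f000000000000000) (nat_lit 0x0) (nat_lit 0x8000400000000000220011000000100003c0008000400) := T_42 (nat_lit 43) (nat_lit 42) (nat_lit 0) (nat_lit 12) (nat_lit 3) L114694 (by decide +kernel)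
theorem L114696 : W_42 (nat_lit 8) (nat_lit 0x200010000800040000001a000f000000000000000) (nat_lit 0x0) (nat_lit 0xa000500000000000220011000000100003c0008000400) := T_42 (nat_lit 160) (nat_lit 177) (nat_lit 5) (nat_lit 8) (nat_lit 6) L114695 (by decide +kernel)
theorem L114697 : W_42 (nat_lit 9) (nat_lit 0x200010000800040000000a000f000000000000000) (nat_lit 0x0) (nat_lit 0xa000500000000000220011003000100003c0008000400) := T_42 (nat_lit 80) (nat_lit 81) (nat_lit 3) (nat_lit 9) (nat_lit 3) L114696 (by decide +kernel)
theorem L114698 : W_42 (nat_lit 10) (nat_lit 0x200010000800040000000a0007000000000000000) (nat_lit 0x0) (nat_lit 0xa00050000000000022001100300078003fc0028001400) := Q_42 (nat_lit 63) (C_42 L113621 (C_42 L112617 (C_42 L113414 (C_42 L114697 N_42)))) (by decide +kernel)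
theorem L114699 : W_42 (nat_lit 5) (nat_lit 0x300010000800060000000a001f000080000000000) (nat_lit 0x0) (nat_lit 0x800040000000000000000000e00020003800000000000) := T_42 (nat_lit 162) (nat_lit 179) (nat_lit 7) (nat_lit 8) (nat_lit 6) L113998 (by decide +kernel)
theorem L114700 : W_42 (nat_lit 6) (nat_lit 0x300010000800060000000a000f000080000000000) (nat_lit 0x0) (nat_lit 0x800040000000000000000000e00030003900000000000) := T_42 (nat_lit 64) (nat_lit 44) (nat_lit 0) (nat_lit 13) (nat_lit 3) L114699 (by decide +kernel)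
theorem L114701 : W_42 (nat_lit 7) (nat_lit 0x200010000800060000000a000f000080000000000) (nat_lit 0x0) (nat_lit 0xa00050000000000000000000e00030003900000000000) := T_42 (nat_lit 160) (nat_lit 177) (nat_lit 5) (nat_lit 8) (nat_lit 6) L114700 (by decide +kernel)
theorem L114702 : W_42 (nat_lit 8) (nat_lit 0x200010000800060000000a000f000000000000000) (nat_lit 0x0) (nat_lit 0xa00050000000000000000000e000300039c0000000000) := T_42 (nat_lit 43) (nat_lit 42) (nat_lit 0) (nat_lit 12) (nat_lit 3) L114701 (by decide +kernel)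
theorem L114703 : W_42 (nat_lit 9) (nat_lit 0x200010000800040000000a000f000000000000000) (nat_lit 0x0) (nat_lit 0xa00050000000000002000100e000300039c0000000000) := T_42 (nat_lit 109) (nat_lit 92) (nat_lit 4) (nat_lit 8) (nat_lit 9) L114702 (by decide +kernel)
theorem L114704 : W_42 (nat_lit 2) (nat_lit 0x700010000800060010000a000f000180000000000) (nat_lit 0x0) (nat_lit 0x200008000400) := D_42 (nat_lit 27) (nat_lit 10) (nat_lit 45) (nat_lit 7) (nat_lit 10) (nat_lit 0) (nat_lit 4) (nat_lit 11) (nat_lit 5) (by decide +kernel)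
theorem L114705 : W_42 (nat_lit 3) (nat_lit 0x700010000800060000000a000f000180000000000) (nat_lit 0x0) (nat_lit 0x20001000000000000200008000400) := T_42 (nat_lit 96) (nat_lit 113) (nat_lit 4) (nat_lit 11) (nat_lit 6) L114704 (by decide +kernel)
theorem L114706 : W_42 (nat_lit 4) (nat_lit 0x700010000800060000000a000f000080000000000) (nat_lit 0x0) (nat_lit 0x20001000000010000300008000400) := T_42 (nat_lit 44) (nat_lit 64) (nat_lit 0) (nat_lit 13) (nat_lit 3) L114705 (by decide +kernel)
theorem L114707 : W_42 (nat_lit 5) (nat_lit 0x700010000800060000000a000f000000000000000) (nat_lit 0x0) (nat_lit 0x200010000000100003c0008000400) := T_42 (nat_lit 43) (nat_lit 42) (nat_lit 0) (nat_lit 12) (nat_lit 3) L114706 (by decide +kernel)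
theorem L114708 : W_42 (nat_lit 6) (nat_lit 0x600010000800060000000a000f000000000000000) (nat_lit 0x0) (nat_lit 0x2000100000000000200010000000100003c0008000400) := T_42 (nat_lit 160) (nat_lit 177) (nat_lit 5) (nat_lit 8) (nat_lit 6) L114707 (by decide +kernel)
theorem L114709 : W_42 (nat_lit 7) (nat_lit 0x600010000800040000000a000f000000000000000) (nat_lit 0x0) (nat_lit 0x2000100000000000220011000000100003c0008000400) := T_42 (nat_lit 109) (nat_lit 92) (nat_lit 4) (nat_lit 8) (nat_lit 9) L114708 (by decide +kernel)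
theorem L114710 : W_42 (nat_lit 8) (nat_lit 0x200010000800040000000a000f000000000000000) (nat_lit 0x0) (nat_lit 0xa000500000000000220011000000100003c0008000400) := T_42 (nat_lit 162) (nat_lit 179) (nat_lit 7) (nat_lit 8) (nat_lit 6) L114709 (by decide +kernel)
theorem L114711 : W_42 (nat_lit 10) (nat_lit 0x200010000800040000000a0007000000000000000) (nat_lit 0x0) (nat_lit 0xa00050000000000022001100e00038003fc0028001400) := Q_42 (nat_lit 63) (C_42 L113621 (C_42 L112617 (C_42 L114703 (C_42 L114710 N_42)))) (by decide +kernel)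
theorem L114712 : W_42 (nat_lit 4) (nat_lit 0x600010000800040000000a0007800000000000000) (nat_lit 0x0) (nat_lit 0x8000ee0000000000) := T_42 (nat_lit 46) (nat_lit 45) (nat_lit 2) (nat_lit 8) (nat_lit 3) L114563 (by decide +kernel)
theorem L114713 : W_42 (nat_lit 5) (nat_lit 0x600010000800040000000a0007000000000000000) (nat_lit 0x0) (nat_lit 0x100008800ee0000000000) := T_42 (nat_lit 59) (nat_lit 80) (nat_lit 3) (nat_lit 8) (nat_lit 3) L114712 (by decide +kernel)
theorem L114714 : W_42 (nat_lit 6) (nat_lit 0x200010000800040000000a0007000000000000000) (nat_lit 0x0) (nat_lit 0x800040000000000000000000100008800ee0000000000) := T_42 (nat_lit 162) (nat_lit 179) (nat_lit 7) (nat_lit 8) (nat_lit 6) L114713 (by decide +kernel)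
theorem L114715 : W_42 (nat_lit 3) (nat_lit 0x600010000800060000000a0007000000000000000) (nat_lit 0x0) (nat_lit 0x700008800000000000000) := T_42 (nat_lit 80) (nat_lit 59) (nat_lit 3) (nat_lit 8) (nat_lit 3) L112758 (by decide +kernel)
theorem L114716 : W_42 (nat_lit 4) (nat_lit 0x200010000800060000000a0007000000000000000) (nat_lit 0x0) (nat_lit 0x800040000000000000000000700008800000000000000) := T_42 (nat_lit 162) (nat_lit 179) (nat_lit 7) (nat_lit 8) (nat_lit 6) L114715 (by decide +kernel)
theorem L114717 : W_42 (nat_lit 5) (nat_lit 0x200010000800040000000a0007000000000000000) (nat_lit 0x0) (nat_lit 0x800040000000000002000100700008800000000000000) := T_42 (nat_lit 109) (nat_lit 92) (nat_lit 4) (nat_lit 8) (nat_lit 9) L114716 (by decide +kernel)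
theorem L114718 : W_42 (nat_lit 11) (nat_lit 0x200010000800040000000a0005000000000000000) (nat_lit 0x0) (nat_lit 0xa00050000000000022001100f0007ac03ff0028001400) := Q_42 (nat_lit 61) (C_42 L113406 (C_42 L113230 (C_42 L114698 (C_42 L114711 (C_42 L114714 (C_42 L114717 N_42)))))) (by decide +kernel)
theorem L114719 : W_42 (nat_lit 6) (nat_lit 0x200010000800040000000a0007000000000000000) (nat_lit 0x0) (nat_lit 0x800062007100340018001e00020001000) := Q_42 (nat_lit 63) (C_42 L113604 (C_42 L112617 (C_42 L113418 N_42))) (by decide +kernel)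
theorem L114720 : W_42 (nat_lit 13) (nat_lit 0x200010000800040000000a0005000000000000000) (nat_lit 0x0) (nat_lit 0x80004000000080007200790074001ac01fe003f801f00) := Q_42 (nat_lit 61) (C_42 L114717 (C_42 L114320 (C_42 L114719 (C_42 L114714 (C_42 L113525 N_42))))) (by decide +kernel)
theorem L114721 : W_42 (nat_lit 7) (nat_lit 0x200010000800040000000a0005000000000000000) (nat_lit 0x0) (nat_lit 0x20001000000080006200710034001ac01ff0020001000) := Q_42 (nat_lit 61) (C_42 L114719 (C_42 L113528 (C_42 L113230 (C_42 L113234 N_42)))) (by decide +kernel)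
theorem L114722 : W_42 (nat_lit 8) (nat_lit 0x200010000800040000000a0007000000000000000) (nat_lit 0x0) (nat_lit 0xa00050000000800040007000f40038003fc0020001000) := Q_42 (nat_lit 63) (C_42 L113621 (C_42 L113604 (C_42 L112623 (C_42 L113610 (C_42 L113418 N_42))))) (by decide +kernel)
theorem L114723 : W_42 (nat_lit 13) (nat_lit 0x200010000800040000000a0005000000000000000) (nat_lit 0x0) (nat_lit 0xa00050000000800070007800f4003ac03ff003e001d00) := Q_42 (nat_lit 61) (C_42 L114714 (C_42 L113528 (C_42 L114722 (C_42 L113406 (C_42 L113526 N_42))))) (by decide +kernel)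
theorem L114724 : W_42 (nat_lit 12) (nat_lit 0x200010000800040000000a0007000000000000000) (nat_lit 0x0) (nat_lit 0xa00050000000800042006100f40038003fc0070003800) := Q_42 (nat_lit 63) (C_42 L114703 (C_42 L113604 (C_42 L112633 (C_42 L113418 N_42)))) (by decide +kernel)
theorem L114725 : W_42 (nat_lit 13) (nat_lit 0x200010000800040000000a0005000000000000000) (nat_lit 0x0) (nat_lit 0xa00050000000800052006900f4003ac03fe007e003d00) := Q_42 (nat_lit 61) (C_42 L114717 (C_42 L114320 (C_42 L114724 (C_42 L114714 (C_42 L113526 N_42))))) (by decide +kernel)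
theorem L114726 : W_42 (nat_lit 2) (nat_lit 0x600010003800060088007e0015000000000000000) (nat_lit 0x0) (nat_lit 0x40001800000000000000000000000000) := D_42 (nat_lit 108) (nat_lit 126) (nat_lit 107) (nat_lit 0) (nat_lit 10) (nat_lit 7) (nat_lit 3) (nat_lit 5) (nat_lit 6) (by decide +kernel)
theorem L114727 : W_42 (nat_lit 3) (nat_lit 0x600010002800060088007e0015000000000000000) (nat_lit 0x0) (nat_lit 0x540001800000000000000000000000000) := T_42 (nat_lit 128) (nat_lit 130) (nat_lit 0) (nat_lit 11) (nat_lit 7) L114726 (by decide +kernel)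
theorem L114728 : W_42 (nat_lit 4) (nat_lit 0x600010000800060088007e0015000000000000000) (nat_lit 0x0) (nat_lit 0x740011800000000000000000000000000) := T_42 (nat_lit 129) (nat_lit 112) (nat_lit 6) (nat_lit 10) (nat_lit 7) L114727 (by decide +kernel)
theorem L114729 : W_42 (nat_lit 5) (nat_lit 0x600010000800060080007e0015000000000000000) (nat_lit 0x0) (nat_lit 0x740011801800000000000000000000000) := T_42 (nat_lit 95) (nat_lit 96) (nat_lit 1) (nat_lit 14) (nat_lit 4) L114728 (by decide +kernel)
theorem L114730 : W_42 (nat_lit 6) (nat_lit 0x600010000800060080003e0015000000000000000) (nat_lit 0x0) (nat_lit 0x740011811800400000000000000000000) := T_42 (nat_lit 82) (nat_lit 100) (nat_lit 3) (nat_lit 11) (nat_lit 4) L114729 (by decide +kernel)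
theorem L114731 : W_42 (nat_lit 7) (nat_lit 0x600010000800060000003e0015000000000000000) (nat_lit 0x0) (nat_lit 0x74001181d800400000000000000000000) := T_42 (nat_lit 99) (nat_lit 98) (nat_lit 3) (nat_lit 10) (nat_lit 4) L114730 (by decide +kernel)
theorem L114732 : W_42 (nat_lit 8) (nat_lit 0x600010000800060000001e0015000000000000000) (nat_lit 0x0) (nat_lit 0x74001181d800600020000000000000000) := T_42 (nat_lit 81) (nat_lit 65) (nat_lit 2) (nat_lit 10) (nat_lit 4) L114731 (by decide +kernel)
theorem L114733 : W_42 (nat_lit 9) (nat_lit 0x600010000800040000001e0015000000000000000) (nat_lit 0x0) (nat_lit 0x74001381d900600020000000000000000) := T_42 (nat_lit 109) (nat_lit 92) (nat_lit 4) (nat_lit 8) (nat_lit 9) L114732 (by decide +kernel)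
theorem L114734 : W_42 (nat_lit 10) (nat_lit 0x600010000800040000001e0005000000000000000) (nat_lit 0x0) (nat_lit 0x74001381d900600038000000000000000) := T_42 (nat_lit 64) (nat_lit 63) (nat_lit 2) (nat_lit 9) (nat_lit 4) L114733 (by decide +kernel)
theorem L114735 : W_42 (nat_lit 7) (nat_lit 0x200010000800040000000a0005000200000000000) (nat_lit 0x0) (nat_lit 0xa00050000000a00072003900040008000400030001000) := Q_42 (nat_lit 96) (C_42 L114085 (C_42 L114070 (C_42 L113954 N_42))) (by decide +kernel)
theorem L114736 : W_42 (nat_lit 7) (nat_lit 0x200010000800040000000a0005000200000000000) (nat_lit 0x0) (nat_lit 0x200010000000a00072003900140000000500038000400) := Q_42 (nat_lit 96) (C_42 L113432 (C_42 L113954 (C_42 L113919 N_42))) (by decide +kernel)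
theorem L114737 : W_42 (nat_lit 2) (nat_lit 0x600010000800040010000a0005000780000000000) (nat_lit 0x0) (nat_lit 0x20000000000008000040000000000) := D_42 (nat_lit 63) (nat_lit 113) (nat_lit 42) (nat_lit 6) (nat_lit 11) (nat_lit 6) (nat_lit 3) (nat_lit 8) (nat_lit 2) (by decide +kernel)
theorem L114738 : W_42 (nat_lit 3) (nat_lit 0x600010000800040010000a0005000700000000000) (nat_lit 0x0) (nat_lit 0x200000000000088000c0000000000) := T_42 (nat_lit 43) (nat_lit 59) (nat_lit 1) (nat_lit 12) (nat_lit 2) L114737 (by decide +kernel)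
theorem L114739 : W_42 (nat_lit 4) (nat_lit 0x600010000800040010000a0005000600000000000) (nat_lit 0x0) (nat_lit 0x200000000000088001c0008000000) := T_42 (nat_lit 44) (nat_lit 27) (nat_lit 4) (nat_lit 11) (nat_lit 5) L114738 (by decide +kernel)
theorem L114740 : W_42 (nat_lit 5) (nat_lit 0x600010000800040010000a0005000200000000000) (nat_lit 0x0) (nat_lit 0x200000000000088005c0028000000) := T_42 (nat_lit 46) (nat_lit 29) (nat_lit 6) (nat_lit 11) (nat_lit 5) L114739 (by decide +kernel)
theorem L114741 : W_42 (nat_lit 6) (nat_lit 0x200010000800040010000a0005000200000000000) (nat_lit 0x0) (nat_lit 0x8000400000000000200000000000088005c0028000000) := T_42 (nat_lit 162) (nat_lit 179) (nat_lit 7) (nat_lit 8) (nat_lit 6) L114740 (by decide +kernel)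
theorem L114742 : W_42 (nat_lit 7) (nat_lit 0x200010000800040000000a0005000200000000000) (nat_lit 0x0) (nat_lit 0x8000400000008000620031001000088005c0038000400) := Q_42 (nat_lit 96) (C_42 L114741 (C_42 L113919 (C_42 L114070 N_42))) (by decide +kernel)
theorem L114743 : W_42 (nat_lit 9) (nat_lit 0x200010000800040000000a0005000200000000000) (nat_lit 0x0) (nat_lit 0xa000500000007400338019000400088005c0038001400) := Q_42 (nat_lit 96) (C_42 L114741 (C_42 L113432 (C_42 L114085 (C_42 L114009 N_42)))) (by decide +kernel)
theorem L114744 : W_42 (nat_lit 12) (nat_lit 0x200010000800040000000a0005000200000000000) (nat_lit 0x0) (nat_lit 0xa00050000000a003f200f900e400088005c0028000000) := Q_42 (nat_lit 96) (C_42 L114741 (C_42 L113954 (C_42 L113600 N_42))) (by decide +kernel)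
theorem L114745 : W_42 (nat_lit 13) (nat_lit 0x200010000800040000000a0005000000000000000) (nat_lit 0x0) (nat_lit 0xa00050000000f403f380f900f400188007c0038001c00) := Q_42 (nat_lit 45) (C_42 L114735 (C_42 L113589 (C_42 L114736 (C_42 L113580 (C_42 L113554 (C_42 L114742 (C_42 L114743 (C_42 L114744 N_42)))))))) (by decide +kernel)
theorem L114746 : W_42 (nat_lit 7) (nat_lit 0x200010000800040000000a0005000200000000000) (nat_lit 0x0) (nat_lit 0xa00050000000a00072003900040002000d00038001000) := Q_42 (nat_lit 96) (C_42 L114085 (C_42 L113809 (C_42 L113954 N_42))) (by decide +kernel)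
theorem L114747 : W_42 (nat_lit 2) (nat_lit 0x200010000800040030000a0005800600000000000) (nat_lit 0x0) (nat_lit 0x180008000000) := D_42 (nat_lit 44) (nat_lit 43) (nat_lit 27) (nat_lit 1) (nat_lit 12) (nat_lit 2) (nat_lit 4) (nat_lit 11) (nat_lit 5) (by decide +kernel)
theorem L114748 : W_42 (nat_lit 3) (nat_lit 0x200010000800040030000a0005000600000000000) (nat_lit 0x0) (nat_lit 0x2800180008000000) := T_42 (nat_lit 59) (nat_lit 61) (nat_lit 2) (nat_lit 8) (nat_lit 3) L114747 (by decide +kernel)
theorem L114749 : W_42 (nat_lit 4) (nat_lit 0x200010000800040030000a0005000200000000000) (nat_lit 0x0) (nat_lit 0x2800580028000000) := T_42 (nat_lit 46) (nat_lit 29) (nat_lit 6) (nat_lit 11) (nat_lit 5) L114748 (by decide +kernel)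
theorem L114750 : W_42 (nat_lit 5) (nat_lit 0x200010000800040010000a0005000200000000000) (nat_lit 0x0) (nat_lit 0x40002000000002800580028000000) := T_42 (nat_lit 97) (nat_lit 114) (nat_lit 7) (nat_lit 11) (nat_lit 2) L114749 (by decide +kernel)
theorem L114751 : W_42 (nat_lit 2) (nat_lit 0x700010000800060000000a0007c00200000000000) (nat_lit 0x0) (nat_lit 0x70000000000) := D_42 (nat_lit 41) (nat_lit 40) (nat_lit 42) (nat_lit 0) (nat_lit 10) (nat_lit 3) (nat_lit 0) (nat_lit 11) (nat_lit 3) (by decide +kernel)
theorem L114752 : W_42 (nat_lit 3) (nat_lit 0x700010000800060000000a0007800200000000000) (nat_lit 0x0) (nat_lit 0x400170000000000) := T_42 (nat_lit 58) (nat_lit 44) (nat_lit 2) (nat_lit 7) (nat_lit 3) L114751 (by decide +kernel)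
theorem L114753 : W_42 (nat_lit 4) (nat_lit 0x700010000800060000000a0005800200000000000) (nat_lit 0x0) (nat_lit 0x2400570000000000) := T_42 (nat_lit 61) (nat_lit 46) (nat_lit 2) (nat_lit 8) (nat_lit 3) L114752 (by decide +kernel)
theorem L114754 : W_42 (nat_lit 5) (nat_lit 0x300010000800060000000a0005800200000000000) (nat_lit 0x0) (nat_lit 0x800040000000000000000000000002400570000000000) := T_42 (nat_lit 162) (nat_lit 179) (nat_lit 7) (nat_lit 8) (nat_lit 6) L114753 (by decide +kernel)
theorem L114755 : W_42 (nat_lit 6) (nat_lit 0x200010000800060000000a0005800200000000000) (nat_lit 0x0) (nat_lit 0xa00050000000000000000000000002400570000000000) := T_42 (nat_lit 160) (nat_lit 177) (nat_lit 5) (nat_lit 8) (nat_lit 6) L114754 (by decide +kernel)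
theorem L114756 : W_42 (nat_lit 7) (nat_lit 0x200010000800040000000a0005800200000000000) (nat_lit 0x0) (nat_lit 0xa00050000000000002000100000002400570000000000) := T_42 (nat_lit 109) (nat_lit 92) (nat_lit 4) (nat_lit 8) (nat_lit 9) L114755 (by decide +kernel)
theorem L114757 : W_42 (nat_lit 7) (nat_lit 0x200010000800040010000a0005000000000000000) (nat_lit 0x0) (nat_lit 0x80004000000080007000280004000a8007c0038000400) := Q_42 (nat_lit 45) (C_42 L114750 (C_42 L114741 (C_42 L114070 (C_42 L113501 N_42)))) (by decide +kernel)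
theorem L114758 : W_42 (nat_lit 7) (nat_lit 0x200010000800040010000a0005000000000000000) (nat_lit 0x0) (nat_lit 0x200010000000a00072002900000002800f80028000000) := Q_42 (nat_lit 45) (C_42 L114750 (C_42 L113954 (C_42 L113506 N_42))) (by decide +kernel)
theorem L114759 : W_42 (nat_lit 2) (nat_lit 0x700010000800060030000a000f800340000000000) (nat_lit 0x0) (nat_lit 0x40030000000000000000) := D_42 (nat_lit 64) (nat_lit 78) (nat_lit 65) (nat_lit 1) (nat_lit 13) (nat_lit 3) (nat_lit 0) (nat_lit 14) (nat_lit 3) (by decide +kernel)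
theorem L114760 : W_42 (nat_lit 3) (nat_lit 0x700010000800060030000a0007800340000000000) (nat_lit 0x0) (nat_lit 0x40038000080000000000) := T_42 (nat_lit 63) (nat_lit 43) (nat_lit 3) (nat_lit 8) (nat_lit 2) L114759 (by decide +kernel)
theorem L114761 : W_42 (nat_lit 4) (nat_lit 0x700010000800060030000a0007800300000000000) (nat_lit 0x0) (nat_lit 0x400380000e0000000000) := T_42 (nat_lit 42) (nat_lit 41) (nat_lit 0) (nat_lit 11) (nat_lit 3) L114760 (by decide +kernel)
theorem L114762 : W_42 (nat_lit 5) (nat_lit 0x700010000800060030000a0007000300000000000) (nat_lit 0x0) (nat_lit 0x40038c000e0000000000) := T_42 (nat_lit 59) (nat_lit 58) (nat_lit 2) (nat_lit 7) (nat_lit 3) L114761 (by decide +kernel)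
theorem L114763 : W_42 (nat_lit 6) (nat_lit 0x600010000800060030000a0007000300000000000) (nat_lit 0x0) (nat_lit 0x200010000000000000000000040038c000e0000000000) := T_42 (nat_lit 160) (nat_lit 177) (nat_lit 5) (nat_lit 8) (nat_lit 6) L114762 (by decide +kernel)
theorem L114764 : W_42 (nat_lit 7) (nat_lit 0x600010000800060030000a0005000300000000000) (nat_lit 0x0) (nat_lit 0x20001000000000002000000004003ac000e0000000000) := T_42 (nat_lit 61) (nat_lit 113) (nat_lit 4) (nat_lit 11) (nat_lit 6) L114763 (by decide +kernel)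
theorem L114765 : W_42 (nat_lit 8) (nat_lit 0x200010000800060030000a0005000300000000000) (nat_lit 0x0) (nat_lit 0xa0005000000000002000000004003ac000e0000000000) := T_42 (nat_lit 162) (nat_lit 179) (nat_lit 7) (nat_lit 8) (nat_lit 6) L114764 (by decide +kernel)
theorem L114766 : W_42 (nat_lit 9) (nat_lit 0x200010000800060030000a0005000200000000000) (nat_lit 0x0) (nat_lit 0xa0005000000000002000000004003ac001e0008000000) := T_42 (nat_lit 44) (nat_lit 27) (nat_lit 4) (nat_lit 11) (nat_lit 5) L114765 (by decide +kernel)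
theorem L114767 : W_42 (nat_lit 10) (nat_lit 0x200010000800060010000a0005000200000000000) (nat_lit 0x0) (nat_lit 0xa0005000000000006000200004003ac001e0008000000) := T_42 (nat_lit 97) (nat_lit 114) (nat_lit 7) (nat_lit 11) (nat_lit 2) L114766 (by decide +kernel)
theorem L114768 : W_42 (nat_lit 11) (nat_lit 0x200010000800040010000a0005000200000000000) (nat_lit 0x0) (nat_lit 0xa0005000000000006200210004003ac001e0008000000) := T_42 (nat_lit 109) (nat_lit 92) (nat_lit 4) (nat_lit 8) (nat_lit 9) L114767 (by decide +kernel)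
theorem L114769 : W_42 (nat_lit 12) (nat_lit 0x200010000800040010000a0005000000000000000) (nat_lit 0x0) (nat_lit 0xa0005000000080006200210004003ac007e0028000000) := Q_42 (nat_lit 45) (C_42 L114741 (C_42 L114750 (C_42 L114070 (C_42 L114768 N_42)))) (by decide +kernel)
theorem L114770 : W_42 (nat_lit 12) (nat_lit 0x200010000800040010000a0005000000000000000) (nat_lit 0x0) (nat_lit 0xa000500000000003d200e900e40002800780038001000) := Q_42 (nat_lit 45) (C_42 L114750 (C_42 L114085 (C_42 L113600 N_42))) (by decide +kernel)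
theorem L114771 : W_42 (nat_lit 9) (nat_lit 0x200010000800040010000a0005000000000000000) (nat_lit 0x0) (nat_lit 0xa0005000000074003380090004000a800fc0038001000) := Q_42 (nat_lit 45) (C_42 L114741 (C_42 L113506 (C_42 L114085 (C_42 L114009 N_42)))) (by decide +kernel)
theorem L114772 : W_42 (nat_lit 13) (nat_lit 0x200010000800040000000a0005000000000000000) (nat_lit 0x0) (nat_lit 0x3a001d000c000f403f380f900e4003ac00fe0038001400) := Q_42 (nat_lit 96) (C_42 L113994 (C_42 L114757 (C_42 L114758 (C_42 L114769 (C_42 L114770 (C_42 L114771 N_42)))))) (by decide +kernel)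
theorem L114773 : W_42 (nat_lit 2) (nat_lit 0x7000100008000600b0007e0025000000000000000) (nat_lit 0x0) (nat_lit 0x800040000000000000000200000000000) := D_42 (nat_lit 114) (nat_lit 131) (nat_lit 45) (nat_lit 4) (nat_lit 12) (nat_lit 7) (nat_lit 7) (nat_lit 11) (nat_lit 2) (by decide +kernel)
theorem L114774 : W_42 (nat_lit 3) (nat_lit 0x700010000800060090007e0025000000000000000) (nat_lit 0x0) (nat_lit 0x800040002000800000000200000000000) := T_42 (nat_lit 97) (nat_lit 83) (nat_lit 1) (nat_lit 15) (nat_lit 4) L114773 (by decide +kernel)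
theorem L114775 : W_42 (nat_lit 4) (nat_lit 0x700010000800060010007e0025000000000000000) (nat_lit 0x0) (nat_lit 0x80004001a000800000000200000000000) := T_42 (nat_lit 99) (nat_lit 100) (nat_lit 3) (nat_lit 11) (nat_lit 4) L114774 (by decide +kernel)
theorem L114776 : W_42 (nat_lit 5) (nat_lit 0x700010000800060000007e0025000000000000000) (nat_lit 0x0) (nat_lit 0x80004001b800800000000200000000000) := T_42 (nat_lit 96) (nat_lit 95) (nat_lit 1) (nat_lit 14) (nat_lit 4) L114775 (by decide +kernel)
theorem L114777 : W_42 (nat_lit 6) (nat_lit 0x700010000800060000003e0025000000000000000) (nat_lit 0x0) (nat_lit 0x80004001b800c00040000200000000000) := T_42 (nat_lit 82) (nat_lit 66) (nat_lit 2) (nat_lit 11) (nat_lit 4) L114776 (by decide +kernel)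
theorem L114778 : W_42 (nat_lit 7) (nat_lit 0x700010000800040000003e0025000000000000000) (nat_lit 0x0) (nat_lit 0x80004201b900c00040000200000000000) := T_42 (nat_lit 109) (nat_lit 92) (nat_lit 4) (nat_lit 8) (nat_lit 9) L114777 (by decide +kernel)
theorem L114779 : W_42 (nat_lit 8) (nat_lit 0x700010000800040000003e0005000000000000000) (nat_lit 0x0) (nat_lit 0x80004201b900c00070000200000000000) := T_42 (nat_lit 65) (nat_lit 64) (nat_lit 2) (nat_lit 10) (nat_lit 4) L114778 (by decide +kernel)
theorem L114780 : W_42 (nat_lit 9) (nat_lit 0x600010000800040000003e0005000000000000000) (nat_lit 0x0) (nat_lit 0x20001000000080004201b900c00070000200000000000) := T_42 (nat_lit 160) (nat_lit 177) (nat_lit 5) (nat_lit 8) (nat_lit 6) L114779 (by decide +kernel)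
theorem L114781 : W_42 (nat_lit 10) (nat_lit 0x600010000800040000001e0005000000000000000) (nat_lit 0x0) (nat_lit 0x20001000000080004201b900e00072000200000000000) := T_42 (nat_lit 81) (nat_lit 61) (nat_lit 0) (nat_lit 13) (nat_lit 4) L114780 (by decide +kernel)
theorem L114782 : W_42 (nat_lit 11) (nat_lit 0x200010000800040000001e0005000000000000000) (nat_lit 0x0) (nat_lit 0xa0005000000080004201b900e00072000200000000000) := T_42 (nat_lit 162) (nat_lit 179) (nat_lit 7) (nat_lit 8) (nat_lit 6) L114781 (by decide +kernel)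
theorem L114783 : W_42 (nat_lit 12) (nat_lit 0x200010000800040000001a0005000000000000000) (nat_lit 0x0) (nat_lit 0xa0005000000080004201f900e40072000200010000000) := Q_42 (nat_lit 78) (C_42 L114438 (C_42 L113632 (C_42 L113057 (C_42 L114782 N_42)))) (by decide +kernel)
theorem L114784 : W_42 (nat_lit 7) (nat_lit 0x200010000800040000000a0005000200000000000) (nat_lit 0x0) (nat_lit 0xa00050000000000050007800140002800580038001000) := Q_42 (nat_lit 96) (C_42 L114085 (C_42 L114750 (C_42 L113551 N_42))) (by decide +kernel)
theorem L114785 : W_42 (nat_lit 12) (nat_lit 0x200010000800040000000a0005000200000000000) (nat_lit 0x0) (nat_lit 0xa00050000000740013800900140002e005f0014000000) := Q_42 (nat_lit 59) (C_42 L114756 (C_42 L114427 (C_42 L112740 (C_42 L113649 N_42)))) (by decide +kernel)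
theorem L114786 : W_42 (nat_lit 2) (nat_lit 0x600010000800040000001e0005000600038000800) (nat_lit 0x0) (nat_lit 0x800006000000) := D_42 (nat_lit 26) (nat_lit 47) (nat_lit 25) (nat_lit 3) (nat_lit 9) (nat_lit 1) (nat_lit 3) (nat_lit 8) (nat_lit 1) (by decide +kernel)
theorem L114787 : W_42 (nat_lit 3) (nat_lit 0x600010000800040000001e0005000200038000800) (nat_lit 0x0) (nat_lit 0x1000000000000c00006000000) := T_42 (nat_lit 46) (nat_lit 96) (nat_lit 6) (nat_lit 11) (nat_lit 5) L114786 (by decide +kernel)
theorem L114788 : W_42 (nat_lit 4) (nat_lit 0x600010000800040000001e0005000200030000800) (nat_lit 0x0) (nat_lit 0x1000000000000c0000e000400) := T_42 (nat_lit 27) (nat_lit 10) (nat_lit 4) (nat_lit 11) (nat_lit 4) L114787 (by decide +kernel)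
theorem L114789 : W_42 (nat_lit 5) (nat_lit 0x600010000800040000001e0005000200010000800) (nat_lit 0x0) (nat_lit 0x1000000000000c0002e001400) := T_42 (nat_lit 29) (nat_lit 12) (nat_lit 6) (nat_lit 11) (nat_lit 4) L114788 (by decide +kernel)
theorem L114790 : W_42 (nat_lit 6) (nat_lit 0x600010000800040000000e0005000200010000800) (nat_lit 0x0) (nat_lit 0x3000100000000c0002e001400) := T_42 (nat_lit 80) (nat_lit 97) (nat_lit 7) (nat_lit 11) (nat_lit 1) L114789 (by decide +kernel)
theorem L114791 : W_42 (nat_lit 7) (nat_lit 0x600010000800040000000e0005000200010000000) (nat_lit 0x0) (nat_lit 0x3000100002000c0002e001c00) := T_42 (nat_lit 11) (nat_lit 61) (nat_lit 5) (nat_lit 11) (nat_lit 0) L114790 (by decide +kernel)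
theorem L114792 : W_42 (nat_lit 8) (nat_lit 0x600010000800040000000e0005000200000000000) (nat_lit 0x0) (nat_lit 0x3800100002000c0003e001c00) := T_42 (nat_lit 28) (nat_lit 95) (nat_lit 5) (nat_lit 11) (nat_lit 1) L114791 (by decide +kernel)
theorem L114793 : W_42 (nat_lit 9) (nat_lit 0x200010000800040000000e0005000200000000000) (nat_lit 0x0) (nat_lit 0x800040000000000000003800100002000c0003e001c00) := T_42 (nat_lit 162) (nat_lit 179) (nat_lit 7) (nat_lit 8) (nat_lit 6) L114792 (by decide +kernel)
theorem L114794 : W_42 (nat_lit 2) (nat_lit 0x600010000800060000001e0005000200000000000) (nat_lit 0x0) (nat_lit 0x6000000000000000010000000) := D_42 (nat_lit 97) (nat_lit 28) (nat_lit 98) (nat_lit 7) (nat_lit 11) (nat_lit 1) (nat_lit 3) (nat_lit 9) (nat_lit 4) (by decide +kernel)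
theorem L114795 : W_42 (nat_lit 3) (nat_lit 0x600010000800060000000e0005000200000000000) (nat_lit 0x0) (nat_lit 0x6000100000800000010000000) := T_42 (nat_lit 80) (nat_lit 59) (nat_lit 0) (nat_lit 12) (nat_lit 4) L114794 (by decide +kernel)
theorem L114796 : W_42 (nat_lit 4) (nat_lit 0x200010000800060000000e0005000200000000000) (nat_lit 0x0) (nat_lit 0x800040000000000000006000100000800000010000000) := T_42 (nat_lit 162) (nat_lit 179) (nat_lit 7) (nat_lit 8) (nat_lit 6) L114795 (by decide +kernel)
theorem L114797 : W_42 (nat_lit 5) (nat_lit 0x200010000800040000000e0005000200000000000) (nat_lit 0x0) (nat_lit 0x800040000000000002006100100000800000010000000) := T_42 (nat_lit 109) (nat_lit 92) (nat_lit 4) (nat_lit 8) (nat_lit 9) L114796 (by decide +kernel)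
theorem L114798 : W_42 (nat_lit 2) (nat_lit 0x700010000800060000003e0005000200000000000) (nat_lit 0x0) (nat_lit 0xe000000000000000000000000) := D_42 (nat_lit 98) (nat_lit 97) (nat_lit 99) (nat_lit 3) (nat_lit 9) (nat_lit 4) (nat_lit 3) (nat_lit 10) (nat_lit 4) (by decide +kernel)
theorem L114799 : W_42 (nat_lit 3) (nat_lit 0x700010000800060000001e0005000200000000000) (nat_lit 0x0) (nat_lit 0xe000200002000000000000000) := T_42 (nat_lit 81) (nat_lit 61) (nat_lit 0) (nat_lit 13) (nat_lit 4) L114798 (by decide +kernel)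
theorem L114800 : W_42 (nat_lit 4) (nat_lit 0x700010000800060000000e0005000200000000000) (nat_lit 0x0) (nat_lit 0xe000300002800000000000000) := T_42 (nat_lit 80) (nat_lit 59) (nat_lit 0) (nat_lit 12) (nat_lit 4) L114799 (by decide +kernel)
theorem L114801 : W_42 (nat_lit 5) (nat_lit 0x300010000800060000000e0005000200000000000) (nat_lit 0x0) (nat_lit 0x80004000000000000000e000300002800000000000000) := T_42 (nat_lit 162) (nat_lit 179) (nat_lit 7) (nat_lit 8) (nat_lit 6) L114800 (by decide +kernel)
theorem L114802 : W_42 (nat_lit 6) (nat_lit 0x300010000800040000000e0005000200000000000) (nat_lit 0x0) (nat_lit 0x80004000000000000200e100300002800000000000000) := T_42 (nat_lit 109) (nat_lit 92) (nat_lit 4) (nat_lit 8) (nat_lit 9) L114801 (by decide +kernel)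
theorem L114803 : W_42 (nat_lit 7) (nat_lit 0x200010000800040000000e0005000200000000000) (nat_lit 0x0) (nat_lit 0xa0005000000000000200e100300002800000000000000) := T_42 (nat_lit 160) (nat_lit 177) (nat_lit 5) (nat_lit 8) (nat_lit 6) L114802 (by decide +kernel)
theorem L114804 : W_42 (nat_lit 10) (nat_lit 0x200010000800040000000a0005000200000000000) (nat_lit 0x0) (nat_lit 0xa0005000000000000200f900340002c00c0003e001c00) := Q_42 (nat_lit 78) (C_42 L114793 (C_42 L114797 (C_42 L114035 (C_42 L114803 N_42)))) (by decide +kernel)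
theorem L114805 : W_42 (nat_lit 2) (nat_lit 0x600010000800060000001e0005000300038000800) (nat_lit 0x0) (nat_lit 0xc0040000000) := D_42 (nat_lit 43) (nat_lit 42) (nat_lit 30) (nat_lit 2) (nat_lit 8) (nat_lit 2) (nat_lit 1) (nat_lit 13) (nat_lit 1) (by decide +kernel)
theorem L114806 : W_42 (nat_lit 3) (nat_lit 0x600010000800060000001e0005000200038000800) (nat_lit 0x0) (nat_lit 0x10000000000001c0040000000) := T_42 (nat_lit 44) (nat_lit 96) (nat_lit 4) (nat_lit 11) (nat_lit 5) L114805 (by decide +kernel)
theorem L114807 : W_42 (nat_lit 4) (nat_lit 0x600010000800040000001e0005000200038000800) (nat_lit 0x0) (nat_lit 0x20011000000000001c0040000000) := T_42 (nat_lit 109) (nat_lit 92) (nat_lit 4) (nat_lit 8) (nat_lit 9) L114806 (by decide +kernel)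
theorem L114808 : W_42 (nat_lit 5) (nat_lit 0x600010000800040000001e0005000200030000800) (nat_lit 0x0) (nat_lit 0x20011000000000001c0048000400) := T_42 (nat_lit 27) (nat_lit 10) (nat_lit 4) (nat_lit 11) (nat_lit 4) L114807 (by decide +kernel)
theorem L114809 : W_42 (nat_lit 6) (nat_lit 0x600010000800040000001e0005000200010000800) (nat_lit 0x0) (nat_lit 0x20011000000000001c0068001400) := T_42 (nat_lit 29) (nat_lit 12) (nat_lit 6) (nat_lit 11) (nat_lit 4) L114808 (by decide +kernel)
theorem L114810 : W_42 (nat_lit 7) (nat_lit 0x600010000800040000000e0005000200010000800) (nat_lit 0x0) (nat_lit 0x20031001000000001c0068001400) := T_42 (nat_lit 80) (nat_lit 97) (nat_lit 7) (nat_lit 11) (nat_lit 1) L114809 (by decide +kernel)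
theorem L114811 : W_42 (nat_lit 8) (nat_lit 0x600010000800040000000e0005000200010000000) (nat_lit 0x0) (nat_lit 0x20031001000020001c0068001c00) := T_42 (nat_lit 11) (nat_lit 61) (nat_lit 5) (nat_lit 11) (nat_lit 0) L114810 (by decide +kernel)
theorem L114812 : W_42 (nat_lit 9) (nat_lit 0x600010000800040000000e0005000200000000000) (nat_lit 0x0) (nat_lit 0x20039001000020001c0078001c00) := T_42 (nat_lit 28) (nat_lit 95) (nat_lit 5) (nat_lit 11) (nat_lit 1) L114811 (by decide +kernel)
theorem L114813 : W_42 (nat_lit 10) (nat_lit 0x200010000800040000000e0005000200000000000) (nat_lit 0x0) (nat_lit 0x8000400000000000020039001000020001c0078001c00) := T_42 (nat_lit 162) (nat_lit 179) (nat_lit 7) (nat_lit 8) (nat_lit 6) L114812 (by decide +kernel)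
theorem L114814 : W_42 (nat_lit 2) (nat_lit 0x300010000800040000000e0005000200010000000) (nat_lit 0x0) (nat_lit 0x2000100000800000000000000) := D_42 (nat_lit 80) (nat_lit 59) (nat_lit 97) (nat_lit 0) (nat_lit 12) (nat_lit 4) (nat_lit 7) (nat_lit 11) (nat_lit 1) (by decide +kernel)
theorem L114815 : W_42 (nat_lit 3) (nat_lit 0x300010000800040000000e0005000200000000000) (nat_lit 0x0) (nat_lit 0x2800100000800000010000000) := T_42 (nat_lit 28) (nat_lit 95) (nat_lit 5) (nat_lit 11) (nat_lit 1) L114814 (by decide +kernel)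
theorem L114816 : W_42 (nat_lit 4) (nat_lit 0x200010000800040000000e0005000200000000000) (nat_lit 0x0) (nat_lit 0x200010000000000000002800100000800000010000000) := T_42 (nat_lit 160) (nat_lit 177) (nat_lit 5) (nat_lit 8) (nat_lit 6) L114815 (by decide +kernel)
theorem L114817 : W_42 (nat_lit 2) (nat_lit 0x300010002800640010000e0005000200038000800) (nat_lit 0x0) (nat_lit 0x4000500000000000000000000000000000000) := D_42 (nat_lit 130) (nat_lit 128) (nat_lit 146) (nat_lit 2) (nat_lit 8) (nat_lit 7) (nat_lit 5) (nat_lit 11) (nat_lit 4) (by decide +kernel)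
theorem L114818 : W_42 (nat_lit 3) (nat_lit 0x300010000800640010000e0005000200038000800) (nat_lit 0x0) (nat_lit 0x4000700010000000000000000000000000000) := T_42 (nat_lit 129) (nat_lit 112) (nat_lit 5) (nat_lit 11) (nat_lit 3) L114817 (by decide +kernel)
theorem L114819 : W_42 (nat_lit 4) (nat_lit 0x300010000800440010000e0005000200038000800) (nat_lit 0x0) (nat_lit 0x4000f00030000000000000000000000000000) := T_42 (nat_lit 113) (nat_lit 131) (nat_lit 7) (nat_lit 11) (nat_lit 3) L114818 (by decide +kernel)
theorem L114820 : W_42 (nat_lit 5) (nat_lit 0x300010000800040010000e0005000200038000800) (nat_lit 0x0) (nat_lit 0x4000f00070002000000000000000000000000) := T_42 (nat_lit 114) (nat_lit 97) (nat_lit 7) (nat_lit 11) (nat_lit 2) L114819 (by decide +kernel)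
theorem L114821 : W_42 (nat_lit 6) (nat_lit 0x300010000800040000000e0005000200038000800) (nat_lit 0x0) (nat_lit 0x4000f00070003000000000000100000000000) := T_42 (nat_lit 96) (nat_lit 44) (nat_lit 4) (nat_lit 11) (nat_lit 5) L114820 (by decide +kernel)
theorem L114822 : W_42 (nat_lit 7) (nat_lit 0x200010000800040000000e0005000200038000800) (nat_lit 0x0) (nat_lit 0x200010004000f00070003000000000000100000000000) := T_42 (nat_lit 160) (nat_lit 177) (nat_lit 5) (nat_lit 8) (nat_lit 6) L114821 (by decide +kernel)
theorem L114823 : W_42 (nat_lit 8) (nat_lit 0x200010000800040000000e0005000200030000800) (nat_lit 0x0) (nat_lit 0x200010004000f00070003000000000000100008000400) := T_42 (nat_lit 27) (nat_lit 10) (nat_lit 4) (nat_lit 11) (nat_lit 4) L114822 (by decide +kernel)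
theorem L114824 : W_42 (nat_lit 9) (nat_lit 0x200010000800040000000e0005000200010000800) (nat_lit 0x0) (nat_lit 0x200010004000f00070003000000000000100028001400) := T_42 (nat_lit 29) (nat_lit 12) (nat_lit 6) (nat_lit 11) (nat_lit 4) L114823 (by decide +kernel)
theorem L114825 : W_42 (nat_lit 10) (nat_lit 0x200010000800040000000e0005000200010000000) (nat_lit 0x0) (nat_lit 0x200010004000f00070003000000002000100028001c00) := T_42 (nat_lit 11) (nat_lit 61) (nat_lit 5) (nat_lit 11) (nat_lit 0) L114824 (by decide +kernel)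
theorem L114826 : W_42 (nat_lit 11) (nat_lit 0x200010000800040000000e0005000200000000000) (nat_lit 0x0) (nat_lit 0x200010004000f00070003800000002000100038001c00) := T_42 (nat_lit 28) (nat_lit 95) (nat_lit 5) (nat_lit 11) (nat_lit 1) L114825 (by decide +kernel)
theorem L114827 : W_42 (nat_lit 2) (nat_lit 0x700010000800040000003e0005000300038000000) (nat_lit 0x0) (nat_lit 0xc0040000000) := D_42 (nat_lit 43) (nat_lit 42) (nat_lit 30) (nat_lit 2) (nat_lit 8) (nat_lit 2) (nat_lit 1) (nat_lit 13) (nat_lit 1) (by decide +kernel)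
theorem L114828 : W_42 (nat_lit 3) (nat_lit 0x700010000800040000003e0005000200038000000) (nat_lit 0x0) (nat_lit 0x10000000000001c0040000000) := T_42 (nat_lit 44) (nat_lit 96) (nat_lit 4) (nat_lit 11) (nat_lit 5) L114827 (by decide +kernel)
theorem L114829 : W_42 (nat_lit 4) (nat_lit 0x700010000800040000003e0005000200018000000) (nat_lit 0x0) (nat_lit 0x10000000000001c0060001000) := T_42 (nat_lit 29) (nat_lit 12) (nat_lit 6) (nat_lit 11) (nat_lit 4) L114828 (by decide +kernel)
theorem L114830 : W_42 (nat_lit 5) (nat_lit 0x700010000800040000003e0005000200010000000) (nat_lit 0x0) (nat_lit 0x10000000000001c0068001400) := T_42 (nat_lit 27) (nat_lit 10) (nat_lit 4) (nat_lit 11) (nat_lit 4) L114829 (by decide +kernel)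
theorem L114831 : W_42 (nat_lit 6) (nat_lit 0x700010000800040000003e0005000200000000000) (nat_lit 0x0) (nat_lit 0x18000000000001c0078001400) := T_42 (nat_lit 28) (nat_lit 95) (nat_lit 5) (nat_lit 11) (nat_lit 1) L114830 (by decide +kernel)
theorem L114832 : W_42 (nat_lit 7) (nat_lit 0x700010000800040000001e0005000200000000000) (nat_lit 0x0) (nat_lit 0x18002000020001c0078001400) := T_42 (nat_lit 81) (nat_lit 61) (nat_lit 0) (nat_lit 13) (nat_lit 4) L114831 (by decide +kernel)
theorem L114833 : W_42 (nat_lit 8) (nat_lit 0x600010000800040000001e0005000200000000000) (nat_lit 0x0) (nat_lit 0x2000100000000000000018002000020001c0078001400) := T_42 (nat_lit 160) (nat_lit 177) (nat_lit 5) (nat_lit 8) (nat_lit 6) L114832 (by decide +kernel)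
theorem L114834 : W_42 (nat_lit 9) (nat_lit 0x600010000800040000000e0005000200000000000) (nat_lit 0x0) (nat_lit 0x2000100000000000000018003000028001c0078001400) := T_42 (nat_lit 80) (nat_lit 59) (nat_lit 0) (nat_lit 12) (nat_lit 4) L114833 (by decide +kernel)
theorem L114835 : W_42 (nat_lit 10) (nat_lit 0x200010000800040000000e0005000200000000000) (nat_lit 0x0) (nat_lit 0xa000500000000000000018003000028001c0078001400) := T_42 (nat_lit 162) (nat_lit 179) (nat_lit 7) (nat_lit 8) (nat_lit 6) L114834 (by decide +kernel)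
theorem L114836 : W_42 (nat_lit 12) (nat_lit 0x200010000800040000000a0005000200000000000) (nat_lit 0x0) (nat_lit 0xa00050004000f0007200f9003400028001c0078001c00) := Q_42 (nat_lit 78) (C_42 L114813 (C_42 L114803 (C_42 L114816 (C_42 L114826 (C_42 L114835 N_42))))) (by decide +kernel)
theorem L114837 : W_42 (nat_lit 9) (nat_lit 0x200010000800040000000a0005000200000000000) (nat_lit 0x0) (nat_lit 0xa00050000000740073803900000002800580028000000) := Q_42 (nat_lit 96) (C_42 L114009 (C_42 L114750 N_42)) (by decide +kernel)
theorem L114838 : W_42 (nat_lit 13) (nat_lit 0x200010000800040000000a0005000000000000000) (nat_lit 0x0) (nat_lit 0xa00050004000f4007380f900340002e00ff007e001c00) := Q_42 (nat_lit 45) (C_42 L114746 (C_42 L114000 (C_42 L113999 (C_42 L114784 (C_42 L114785 (C_42 L114736 (C_42 L114804 (C_42 L114836 (C_42 L114837 N_42))))))))) (by decide +kernel)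
theorem L114839 : W_42 (nat_lit 2) (nat_lit 0x600010000800040000001a001f000000000000000) (nat_lit 0x0) (nat_lit 0x1c0000000000) := D_42 (nat_lit 43) (nat_lit 44) (nat_lit 42) (nat_lit 0) (nat_lit 13) (nat_lit 3) (nat_lit 0) (nat_lit 12) (nat_lit 3) (by decide +kernel)
theorem L114840 : W_42 (nat_lit 3) (nat_lit 0x600010000800040000001a000f000000000000000) (nat_lit 0x0) (nat_lit 0x400100001c0000000000) := T_42 (nat_lit 64) (nat_lit 78) (nat_lit 2) (nat_lit 9) (nat_lit 4) L114839 (by decide +kernel)
theorem L114841 : W_42 (nat_lit 4) (nat_lit 0x600010000800040000001a000d000000000000000) (nat_lit 0x0) (nat_lit 0x2400120001c0000000000) := T_42 (nat_lit 61) (nat_lit 81) (nat_lit 3) (nat_lit 9) (nat_lit 3) L114840 (by decide +kernel)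
theorem L114842 : W_42 (nat_lit 5) (nat_lit 0x200010000800040000001a000d000000000000000) (nat_lit 0x0) (nat_lit 0x8000400000000000000000002400120001c0000000000) := T_42 (nat_lit 162) (nat_lit 179) (nat_lit 7) (nat_lit 8) (nat_lit 6) L114841 (by decide +kernel)
theorem L114843 : W_42 (nat_lit 11) (nat_lit 0x200010000800040000001a0005000000000000000) (nat_lit 0x0) (nat_lit 0xa00050000001c000e200f900e4001a000dc0060001000) := Q_42 (nat_lit 63) (C_42 L113696 (C_42 L112750 (C_42 L112755 (C_42 L113687 (C_42 L112766 (C_42 L114842 N_42)))))) (by decide +kernel)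
theorem L114844 : W_42 (nat_lit 11) (nat_lit 0x600010000800040000001a0005000000000000000) (nat_lit 0x0) (nat_lit 0x74001381d900640038800000000000000) := T_42 (nat_lit 78) (nat_lit 59) (nat_lit 0) (nat_lit 12) (nat_lit 4) L114734 (by decide +kernel)
theorem L114845 : W_42 (nat_lit 12) (nat_lit 0x200010000800040000001a0005000000000000000) (nat_lit 0x0) (nat_lit 0x80004000000074001381d900640038800000000000000) := T_42 (nat_lit 162) (nat_lit 179) (nat_lit 7) (nat_lit 8) (nat_lit 6) L114844 (by decide +kernel)
theorem L114846 : W_42 (nat_lit 13) (nat_lit 0x200010000800040000000a0005000000000000000) (nat_lit 0x0) (nat_lit 0xa00050000001f400f381f900f4003a800dc0060001000) := Q_42 (nat_lit 80) (C_42 L113697 (C_42 L114843 (C_42 L114845 (C_42 L113531 N_42)))) (by decide +kernel)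
theorem L114847 : W_42 (nat_lit 13) (nat_lit 0x200010000800040000000a0005000000000000000) (nat_lit 0x0) (nat_lit 0xa00050000000f4005381f900f4007a800200010000000) := Q_42 (nat_lit 80) (C_42 L113697 (C_42 L114845 (C_42 L114783 (C_42 L113531 N_42)))) (by decide +kernel)
theorem L114848 : W_42 (nat_lit 14) (nat_lit 0x20001000080004000000020005000000000000000) (nat_lit 0x0) (nat_lit 0x3a001d001c001f403f381f900fc007ae03ff00ff803f00) := Q_42 (nat_lit 79) (C_42 L113524 (C_42 L114718 (C_42 L114720 (C_42 L114721 (C_42 L114723 (C_42 L113532 (C_42 L114725 (C_42 L114745 (C_42 L114772 (C_42 L114838 (C_42 L113243 (C_42 L114846 (C_42 L114847 N_42))))))))))))) (by decide +kernel)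
theorem L114849 : W_42 (nat_lit 2) (nat_lit 0x200010000800060000000b0005000000000000000) (nat_lit 0x0) (nat_lit 0x4000a000000000000000) := D_42 (nat_lit 63) (nat_lit 78) (nat_lit 61) (nat_lit 2) (nat_lit 8) (nat_lit 4) (nat_lit 1) (nat_lit 12) (nat_lit 3) (by decide +kernel)
theorem L114850 : W_42 (nat_lit 3) (nat_lit 0x200010000800060000000a0005000000000000000) (nat_lit 0x0) (nat_lit 0x20005000a000000000000000) := T_42 (nat_lit 76) (nat_lit 93) (nat_lit 6) (nat_lit 8) (nat_lit 7) L114849 (by decide +kernel)
theorem L114851 : W_42 (nat_lit 4) (nat_lit 0x200010000800040000000a0005000000000000000) (nat_lit 0x0) (nat_lit 0x200030005000a000000000000000) := T_42 (nat_lit 109) (nat_lit 92) (nat_lit 4) (nat_lit 8) (nat_lit 9) L114850 (by decide +kernel)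
theorem L114852 : W_42 (nat_lit 2) (nat_lit 0x700010000800040000000b0005000000000000000) (nat_lit 0x0) (nat_lit 0x4000a000000000000000) := D_42 (nat_lit 63) (nat_lit 78) (nat_lit 61) (nat_lit 2) (nat_lit 8) (nat_lit 4) (nat_lit 1) (nat_lit 12) (nat_lit 3) (by decide +kernel)
theorem L114853 : W_42 (nat_lit 3) (nat_lit 0x700010000800040000000a0005000000000000000) (nat_lit 0x0) (nat_lit 0x20005000a000000000000000) := T_42 (nat_lit 76) (nat_lit 93) (nat_lit 6) (nat_lit 8) (nat_lit 7) L114852 (by decide +kernel)
theorem L114854 : W_42 (nat_lit 4) (nat_lit 0x600010000800040000000a0005000000000000000) (nat_lit 0x0) (nat_lit 0x20001000000000000000020005000a000000000000000) := T_42 (nat_lit 160) (nat_lit 177) (nat_lit 5) (nat_lit 8) (nat_lit 6) L114853 (by decide +kernel)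
theorem L114855 : W_42 (nat_lit 5) (nat_lit 0x200010000800040000000a0005000000000000000) (nat_lit 0x0) (nat_lit 0xa0005000000000000000020005000a000000000000000) := T_42 (nat_lit 162) (nat_lit 179) (nat_lit 7) (nat_lit 8) (nat_lit 6) L114854 (by decide +kernel)
theorem L114856 : W_42 (nat_lit 12) (nat_lit 0x200010000800040010000a0005000000000000000) (nat_lit 0x0) (nat_lit 0xa0005000000000005200290010003a003f801f8001400) := Q_42 (nat_lit 45) (C_42 L113919 (C_42 L113914 (C_42 L113731 N_42))) (by decide +kernel)
theorem L114857 : W_42 (nat_lit 13) (nat_lit 0x200010000800040000000a0005000000000000000) (nat_lit 0x0) (nat_lit 0x3a001d001c000f4007380390031003a003fc01f8001400) := Q_42 (nat_lit 96) (C_42 L114001 (C_42 L113994 (C_42 L113740 (C_42 L113460 (C_42 L114856 N_42))))) (by decide +kernel)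
theorem L114858 : W_42 (nat_lit 2) (nat_lit 0x200010000800040010000b0005000000000000000) (nat_lit 0x0) (nat_lit 0x2000040008000000000000000) := D_42 (nat_lit 78) (nat_lit 97) (nat_lit 63) (nat_lit 3) (nat_lit 8) (nat_lit 4) (nat_lit 2) (nat_lit 8) (nat_lit 4) (by decide +kernel)
theorem L114859 : W_42 (nat_lit 3) (nat_lit 0x200010000800040010000a0005000000000000000) (nat_lit 0x0) (nat_lit 0x2200050008000000000000000) := T_42 (nat_lit 76) (nat_lit 93) (nat_lit 6) (nat_lit 8) (nat_lit 7) L114858 (by decide +kernel)
theorem L114860 : W_42 (nat_lit 10) (nat_lit 0x200010000800040000000a0005000000000000000) (nat_lit 0x0) (nat_lit 0x3a001d000c000f40073803b00150038000700038001400) := Q_42 (nat_lit 96) (C_42 L113994 (C_42 L114080 (C_42 L113443 (C_42 L114859 N_42)))) (by decide +kernel)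
theorem L114861 : W_42 (nat_lit 2) (nat_lit 0x600010000800060030000b0005000200010000000) (nat_lit 0x0) (nat_lit 0x400020001000) := D_42 (nat_lit 29) (nat_lit 12) (nat_lit 46) (nat_lit 6) (nat_lit 11) (nat_lit 4) (nat_lit 6) (nat_lit 11) (nat_lit 5) (by decide +kernel)
theorem L114862 : W_42 (nat_lit 3) (nat_lit 0x600010000800060030000b0005000200000000000) (nat_lit 0x0) (nat_lit 0x100000000400030001000) := T_42 (nat_lit 28) (nat_lit 80) (nat_lit 7) (nat_lit 11) (nat_lit 1) L114861 (by decide +kernel)
theorem L114863 : W_42 (nat_lit 4) (nat_lit 0x600010000800060030000b0005000000000000000) (nat_lit 0x0) (nat_lit 0x40000000100000000600030001000) := T_42 (nat_lit 45) (nat_lit 114) (nat_lit 7) (nat_lit 11) (nat_lit 2) L114862 (by decide +kernel)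
theorem L114864 : W_42 (nat_lit 5) (nat_lit 0x600010000800040030000b0005000000000000000) (nat_lit 0x0) (nat_lit 0x42000100100000000600030001000) := T_42 (nat_lit 109) (nat_lit 92) (nat_lit 4) (nat_lit 8) (nat_lit 9) L114863 (by decide +kernel)
theorem L114865 : W_42 (nat_lit 6) (nat_lit 0x600010000800040010000b0005000000000000000) (nat_lit 0x0) (nat_lit 0x42002100140000000600030001000) := T_42 (nat_lit 97) (nat_lit 78) (nat_lit 3) (nat_lit 8) (nat_lit 4) L114864 (by decide +kernel)
theorem L114866 : W_42 (nat_lit 7) (nat_lit 0x200010000800040010000b0005000000000000000) (nat_lit 0x0) (nat_lit 0x800040000000000042002100140000000600030001000) := T_42 (nat_lit 162) (nat_lit 179) (nat_lit 7) (nat_lit 8) (nat_lit 6) L114865 (by decide +kernel)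
theorem L114867 : W_42 (nat_lit 8) (nat_lit 0x200010000800040010000a0005000000000000000) (nat_lit 0x0) (nat_lit 0x800040000000000042002300150000000600030001000) := T_42 (nat_lit 76) (nat_lit 93) (nat_lit 6) (nat_lit 8) (nat_lit 7) L114866 (by decide +kernel)
theorem L114868 : W_42 (nat_lit 12) (nat_lit 0x200010000800040000000a0005000000000000000) (nat_lit 0x0) (nat_lit 0x3a003d001c000f40073807b00150002000f00038001400) := Q_42 (nat_lit 96) (C_42 L114001 (C_42 L114467 (C_42 L114466 (C_42 L113845 (C_42 L114867 (C_42 L113994 N_42)))))) (by decide +kernel)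
theorem L114869 : W_42 (nat_lit 14) (nat_lit 0x20001000080004000000020005000000000000000) (nat_lit 0x0) (nat_lit 0x3a003d001c000f400f3807b003d003a003fc01fe001c00) := Q_42 (nat_lit 79) (C_42 L113524 (C_42 L113899 (C_42 L114851 (C_42 L114855 (C_42 L114857 (C_42 L114860 (C_42 L114868 N_42))))))) (by decide +kernel)
theorem L114870 : W_42 (nat_lit 14) (nat_lit 0x20001000080004000000020005000000000000000) (nat_lit 0x0) (nat_lit 0xa000500000000000000002003d001af01ffc01f000f80) := Q_42 (nat_lit 61) (C_42 L113169 (C_42 L114678 (C_42 L114642 N_42))) (by decide +kernel)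
theorem L114871 : W_42 (nat_lit 14) (nat_lit 0x20001000080004000000020005000000000000000) (nat_lit 0x0) (nat_lit 0xa0005000000074000380138079601af00ff001f000f80) := Q_42 (nat_lit 61) (C_42 L113106 (C_42 L114678 (C_42 L114665 N_42))) (by decide +kernel)
theorem L114872 : W_42 (nat_lit 14) (nat_lit 0x20001000080004000000020005000000000000000) (nat_lit 0x0) (nat_lit 0xa0005000000074004380238075607af00ffc01f000380) := Q_42 (nat_lit 61) (C_42 L113163 (C_42 L114678 (C_42 L114677 N_42))) (by decide +kernel)
theorem L114873 : W_42 (nat_lit 12) (nat_lit 0x20001000080004000000020005000000000000000) (nat_lit 0x0) (nat_lit 0xa00050000000400032003b007d601af01f9c038001c00) := Q_42 (nat_lit 61) (C_42 L114107 (C_42 L114678 (C_42 L114686 N_42))) (by decide +kernel)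
theorem L114874 : W_42 (nat_lit 2) (nat_lit 0x700010000800040000000f0005000000000000000) (nat_lit 0x0) (nat_lit 0x100000c00000000000000) := D_42 (nat_lit 59) (nat_lit 80) (nat_lit 58) (nat_lit 0) (nat_lit 12) (nat_lit 4) (nat_lit 0) (nat_lit 11) (nat_lit 4) (by decide +kernel)
theorem L114875 : W_42 (nat_lit 3) (nat_lit 0x700010000800040000000b0005000000000000000) (nat_lit 0x0) (nat_lit 0x140008c00000000000000) := T_42 (nat_lit 78) (nat_lit 63) (nat_lit 2) (nat_lit 8) (nat_lit 4) L114874 (by decide +kernel)
theorem L114876 : W_42 (nat_lit 4) (nat_lit 0x700010000800040000000a0005000000000000000) (nat_lit 0x0) (nat_lit 0x200150008c00000000000000) := T_42 (nat_lit 76) (nat_lit 93) (nat_lit 6) (nat_lit 8) (nat_lit 7) L114875 (by decide +kernel)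
theorem L114877 : W_42 (nat_lit 5) (nat_lit 0x300010000800040000000a0005000000000000000) (nat_lit 0x0) (nat_lit 0x800040000000000000000200150008c00000000000000) := T_42 (nat_lit 162) (nat_lit 179) (nat_lit 7) (nat_lit 8) (nat_lit 6) L114876 (by decide +kernel)
theorem L114878 : W_42 (nat_lit 6) (nat_lit 0x200010000800040000000a0005000000000000000) (nat_lit 0x0) (nat_lit 0xa00050000000000000000200150008c00000000000000) := T_42 (nat_lit 160) (nat_lit 177) (nat_lit 5) (nat_lit 8) (nat_lit 6) L114877 (by decide +kernel)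
theorem L114879 : W_42 (nat_lit 7) (nat_lit 0x200010000800040010000a0005000000000000000) (nat_lit 0x0) (nat_lit 0x8000400000008000620021001000088007c0038000400) := Q_42 (nat_lit 45) (C_42 L113919 (C_42 L114741 (C_42 L114070 N_42))) (by decide +kernel)
theorem L114880 : W_42 (nat_lit 2) (nat_lit 0x20001000080004001a000a000d000700000000000) (nat_lit 0x0) (nat_lit 0x10800080000000000) := D_42 (nat_lit 43) (nat_lit 64) (nat_lit 59) (nat_lit 3) (nat_lit 9) (nat_lit 2) (nat_lit 1) (nat_lit 12) (nat_lit 2) (by decide +kernel)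
theorem L114881 : W_42 (nat_lit 3) (nat_lit 0x20001000080004001a000a000d000600000000000) (nat_lit 0x0) (nat_lit 0x10800180008000000) := T_42 (nat_lit 44) (nat_lit 27) (nat_lit 4) (nat_lit 11) (nat_lit 5) L114880 (by decide +kernel)
theorem L114882 : W_42 (nat_lit 4) (nat_lit 0x20001000080004001a000a0005000600000000000) (nat_lit 0x0) (nat_lit 0x20000000000018800180008000000) := T_42 (nat_lit 63) (nat_lit 113) (nat_lit 6) (nat_lit 11) (nat_lit 6) L114881 (by decide +kernel)
theorem L114883 : W_42 (nat_lit 5) (nat_lit 0x200010000800040012000a0005000600000000000) (nat_lit 0x0) (nat_lit 0x30000800000018800180008000000) := T_42 (nat_lit 95) (nat_lit 112) (nat_lit 5) (nat_lit 11) (nat_lit 2) L114882 (by decide +kernel)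
theorem L114884 : W_42 (nat_lit 6) (nat_lit 0x200010000800040012000a0005000200000000000) (nat_lit 0x0) (nat_lit 0x30000800000018800580028000000) := T_42 (nat_lit 46) (nat_lit 29) (nat_lit 6) (nat_lit 11) (nat_lit 5) L114883 (by decide +kernel)
theorem L114885 : W_42 (nat_lit 7) (nat_lit 0x200010000800040010000a0005000200000000000) (nat_lit 0x0) (nat_lit 0x30000a00010018800580028000000) := T_42 (nat_lit 93) (nat_lit 76) (nat_lit 6) (nat_lit 8) (nat_lit 7) L114884 (by decide +kernel)
theorem L114886 : W_42 (nat_lit 8) (nat_lit 0x200010000800040010000a0005000000000000000) (nat_lit 0x0) (nat_lit 0x200010000000a00072002b00110018800780038001400) := Q_42 (nat_lit 45) (C_42 L113919 (C_42 L113954 (C_42 L113914 (C_42 L114885 N_42)))) (by decide +kernel)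
theorem L114887 : W_42 (nat_lit 2) (nat_lit 0x600010000800040038000a0005000200010000000) (nat_lit 0x0) (nat_lit 0x100008000400) := D_42 (nat_lit 27) (nat_lit 44) (nat_lit 10) (nat_lit 4) (nat_lit 11) (nat_lit 5) (nat_lit 4) (nat_lit 11) (nat_lit 4) (by decide +kernel)
theorem L114888 : W_42 (nat_lit 3) (nat_lit 0x600010000800040038000a0005000200000000000) (nat_lit 0x0) (nat_lit 0x100000000100018000400) := T_42 (nat_lit 28) (nat_lit 80) (nat_lit 7) (nat_lit 11) (nat_lit 1) L114887 (by decide +kernel)
theorem L114889 : W_42 (nat_lit 4) (nat_lit 0x600010000800040018000a0005000200000000000) (nat_lit 0x0) (nat_lit 0x40002000100000000100018000400) := T_42 (nat_lit 97) (nat_lit 114) (nat_lit 7) (nat_lit 11) (nat_lit 2) L114888 (by decide +kernel)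
theorem L114890 : W_42 (nat_lit 5) (nat_lit 0x600010000800040010000a0005000200000000000) (nat_lit 0x0) (nat_lit 0x50002800100000000100018000400) := T_42 (nat_lit 95) (nat_lit 112) (nat_lit 5) (nat_lit 11) (nat_lit 2) L114889 (by decide +kernel)
theorem L114891 : W_42 (nat_lit 6) (nat_lit 0x200010000800040010000a0005000200000000000) (nat_lit 0x0) (nat_lit 0x800040000000000050002800100000000100018000400) := T_42 (nat_lit 162) (nat_lit 179) (nat_lit 7) (nat_lit 8) (nat_lit 6) L114890 (by decide +kernel)
theorem L114892 : W_42 (nat_lit 8) (nat_lit 0x200010000800040010000a0005000000000000000) (nat_lit 0x0) (nat_lit 0xa00050000000000070002a001100188007c0038001400) := Q_42 (nat_lit 45) (C_42 L113914 (C_42 L114885 (C_42 L114741 (C_42 L114891 N_42)))) (by decide +kernel)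
theorem L114893 : W_42 (nat_lit 2) (nat_lit 0x20001000080004001a000a0005000780000000000) (nat_lit 0x0) (nat_lit 0x18000040000000000) := D_42 (nat_lit 63) (nat_lit 42) (nat_lit 64) (nat_lit 3) (nat_lit 8) (nat_lit 2) (nat_lit 3) (nat_lit 9) (nat_lit 2) (by decide +kernel)
theorem L114894 : W_42 (nat_lit 3) (nat_lit 0x20001000080004001a000a0005000700000000000) (nat_lit 0x0) (nat_lit 0x188000c0000000000) := T_42 (nat_lit 43) (nat_lit 59) (nat_lit 1) (nat_lit 12) (nat_lit 2) L114893 (by decide +kernel)
theorem L114895 : W_42 (nat_lit 4) (nat_lit 0x20001000080004001a000a0005000600000000000) (nat_lit 0x0) (nat_lit 0x188001c0008000000) := T_42 (nat_lit 44) (nat_lit 27) (nat_lit 4) (nat_lit 11) (nat_lit 5) L114894 (by decide +kernel)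
theorem L114896 : W_42 (nat_lit 5) (nat_lit 0x200010000800040012000a0005000600000000000) (nat_lit 0x0) (nat_lit 0x100008000000188001c0008000000) := T_42 (nat_lit 95) (nat_lit 112) (nat_lit 5) (nat_lit 11) (nat_lit 2) L114895 (by decide +kernel)
theorem L114897 : W_42 (nat_lit 6) (nat_lit 0x200010000800040012000a0005000200000000000) (nat_lit 0x0) (nat_lit 0x100008000000188005c0028000000) := T_42 (nat_lit 46) (nat_lit 29) (nat_lit 6) (nat_lit 11) (nat_lit 5) L114896 (by decide +kernel)
theorem L114898 : W_42 (nat_lit 7) (nat_lit 0x200010000800040010000a0005000200000000000) (nat_lit 0x0) (nat_lit 0x10000a000100188005c0028000000) := T_42 (nat_lit 93) (nat_lit 76) (nat_lit 6) (nat_lit 8) (nat_lit 7) L114897 (by decide +kernel)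
theorem L114899 : W_42 (nat_lit 8) (nat_lit 0x200010000800040010000a0005000000000000000) (nat_lit 0x0) (nat_lit 0xa00050000000000052002b001100188007c0038001400) := Q_42 (nat_lit 45) (C_42 L114891 (C_42 L113919 (C_42 L114898 (C_42 L113914 N_42)))) (by decide +kernel)
theorem L114900 : W_42 (nat_lit 9) (nat_lit 0x200010000800040010000a0005000000000000000) (nat_lit 0x0) (nat_lit 0xa00050000000740033800b000100188007c0028000000) := Q_42 (nat_lit 45) (C_42 L114898 (C_42 L114741 (C_42 L114009 N_42))) (by decide +kernel)
theorem L114901 : W_42 (nat_lit 10) (nat_lit 0x200010000800040000000a0005000000000000000) (nat_lit 0x0) (nat_lit 0x3a001d000c000f40073803b001100188007c0038001400) := Q_42 (nat_lit 96) (C_42 L113994 (C_42 L114879 (C_42 L114886 (C_42 L114892 (C_42 L114899 (C_42 L114900 N_42)))))) (by decide +kernel)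
theorem L114902 : W_42 (nat_lit 10) (nat_lit 0x200010000800040000000a0005000000000000000) (nat_lit 0x0) (nat_lit 0x3a001d000c000f40073803b000500188007c0028000000) := Q_42 (nat_lit 96) (C_42 L113994 (C_42 L114900 (C_42 L114859 N_42))) (by decide +kernel)
theorem L114903 : W_42 (nat_lit 12) (nat_lit 0x200010000800040000000a0005000000000000000) (nat_lit 0x0) (nat_lit 0xa00050000000f400f3807900150000e00700038001400) := Q_42 (nat_lit 78) (C_42 L113638 (C_42 L114405 (C_42 L114403 (C_42 L113714 N_42)))) (by decide +kernel)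
theorem L114904 : W_42 (nat_lit 14) (nat_lit 0x20001000080004000000020005000000000000000) (nat_lit 0x0) (nat_lit 0x3a001d000c000f403f380fb00fd0038e007c007c001c00) := Q_42 (nat_lit 79) (C_42 L114745 (C_42 L114860 (C_42 L114407 (C_42 L114408 (C_42 L113393 (C_42 L114878 (C_42 L114901 (C_42 L114902 (C_42 L114903 N_42))))))))) (by decide +kernel)
theorem L114905 : W_42 (nat_lit 14) (nat_lit 0x20001000080004000000020005000000000000000) (nat_lit 0x0) (nat_lit 0xa000500000007400038003800d607af00ffc00f000380) := Q_42 (nat_lit 61) (C_42 L114105 (C_42 L114678 (C_42 L114677 N_42))) (by decide +kernel)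
theorem L114906 : W_42 (nat_lit 2) (nat_lit 0x600010000800560010000b0005e00300000000000) (nat_lit 0x0) (nat_lit 0xa00020000000000000000000000000000) := D_42 (nat_lit 113) (nat_lit 129) (nat_lit 131) (nat_lit 5) (nat_lit 11) (nat_lit 3) (nat_lit 7) (nat_lit 11) (nat_lit 3) (by decide +kernel)
theorem L114907 : W_42 (nat_lit 3) (nat_lit 0x600010000800160010000b0005e00300000000000) (nat_lit 0x0) (nat_lit 0xa00060002000000000000000000000000) := T_42 (nat_lit 114) (nat_lit 97) (nat_lit 7) (nat_lit 11) (nat_lit 2) L114906 (by decide +kernel)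
theorem L114908 : W_42 (nat_lit 4) (nat_lit 0x600010000800060010000b0005e00300000000000) (nat_lit 0x0) (nat_lit 0xa00070002800000000000000000000000) := T_42 (nat_lit 112) (nat_lit 95) (nat_lit 5) (nat_lit 11) (nat_lit 2) L114907 (by decide +kernel)
theorem L114909 : W_42 (nat_lit 5) (nat_lit 0x600010000800060000000b0005e00300000000000) (nat_lit 0x0) (nat_lit 0xa00070003800000000000000008000000) := T_42 (nat_lit 96) (nat_lit 27) (nat_lit 4) (nat_lit 11) (nat_lit 5) L114908 (by decide +kernel)
theorem L114910 : W_42 (nat_lit 6) (nat_lit 0x600010000800060000000b0005e00100000000000) (nat_lit 0x0) (nat_lit 0xa00070003800000002000200008000000) := T_42 (nat_lit 45) (nat_lit 61) (nat_lit 2) (nat_lit 7) (nat_lit 3) L114909 (by decide +kernel)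
theorem L114911 : W_42 (nat_lit 7) (nat_lit 0x600010000800060000000b0005e00000000000000) (nat_lit 0x0) (nat_lit 0xa00070003800000002000380008000000) := T_42 (nat_lit 44) (nat_lit 43) (nat_lit 2) (nat_lit 6) (nat_lit 3) L114910 (by decide +kernel)
theorem L114912 : W_42 (nat_lit 8) (nat_lit 0x600010000800060000000b0005c00000000000000) (nat_lit 0x0) (nat_lit 0xa00070003800000002300380008000000) := T_42 (nat_lit 57) (nat_lit 56) (nat_lit 3) (nat_lit 5) (nat_lit 3) L114911 (by decide +kernel)
theorem L114913 : W_42 (nat_lit 9) (nat_lit 0x600010000800060000000b0005800000000000000) (nat_lit 0x0) (nat_lit 0xa00070003800040002700380008000000) := T_42 (nat_lit 58) (nat_lit 78) (nat_lit 0) (nat_lit 11) (nat_lit 4) L114912 (by decide +kernel)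
theorem L114914 : W_42 (nat_lit 10) (nat_lit 0x200010000800060000000b0005800000000000000) (nat_lit 0x0) (nat_lit 0x800040000000a00070003800040002700380008000000) := T_42 (nat_lit 162) (nat_lit 179) (nat_lit 7) (nat_lit 8) (nat_lit 6) L114913 (by decide +kernel)
theorem L114915 : W_42 (nat_lit 11) (nat_lit 0x200010000800060000000a0005800000000000000) (nat_lit 0x0) (nat_lit 0x800040000000a00070003a00050002700380008000000) := T_42 (nat_lit 76) (nat_lit 93) (nat_lit 6) (nat_lit 8) (nat_lit 7) L114914 (by decide +kernel)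
theorem L114916 : W_42 (nat_lit 12) (nat_lit 0x200010000800040000000a0005800000000000000) (nat_lit 0x0) (nat_lit 0x800040000000a00072003b00050002700380008000000) := T_42 (nat_lit 109) (nat_lit 92) (nat_lit 4) (nat_lit 8) (nat_lit 9) L114915 (by decide +kernel)
theorem L114917 : W_42 (nat_lit 2) (nat_lit 0x300010000800060000000b0005e0009000e000000) (nat_lit 0x0) (nat_lit 0x60001000000) := D_42 (nat_lit 41) (nat_lit 42) (nat_lit 24) (nat_lit 2) (nat_lit 6) (nat_lit 2) (nat_lit 1) (nat_lit 10) (nat_lit 1) (by decide +kernel)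
theorem L114918 : W_42 (nat_lit 3) (nat_lit 0x300010000800060000000b0005e00090006000000) (nat_lit 0x0) (nat_lit 0x60009000400) := T_42 (nat_lit 27) (nat_lit 10) (nat_lit 6) (nat_lit 9) (nat_lit 4) L114917 (by decide +kernel)
theorem L114919 : W_42 (nat_lit 4) (nat_lit 0x300010000800060000000b0005e00090004000000) (nat_lit 0x0) (nat_lit 0x6000b000500) := T_42 (nat_lit 25) (nat_lit 8) (nat_lit 4) (nat_lit 9) (nat_lit 4) L114918 (by decide +kernel)
theorem L114920 : W_42 (nat_lit 5) (nat_lit 0x300010000800060000000b0005e00090000000000) (nat_lit 0x0) (nat_lit 0x6000f000700) := T_42 (nat_lit 26) (nat_lit 9) (nat_lit 5) (nat_lit 9) (nat_lit 0) L114919 (by decide +kernel)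
theorem L114921 : W_42 (nat_lit 6) (nat_lit 0x300010000800060000000b0005e00080000000000) (nat_lit 0x0) (nat_lit 0x7800f000700) := T_42 (nat_lit 40) (nat_lit 39) (nat_lit 0) (nat_lit 9) (nat_lit 3) L114920 (by decide +kernel)
theorem L114922 : W_42 (nat_lit 7) (nat_lit 0x300010000800060000000b0005e00000000000000) (nat_lit 0x0) (nat_lit 0x1f800f000700) := T_42 (nat_lit 43) (nat_lit 44) (nat_lit 2) (nat_lit 6) (nat_lit 3) L114921 (by decide +kernel)
theorem L114923 : W_42 (nat_lit 13) (nat_lit 0x200010000800040000000a0005000000000000000) (nat_lit 0x0) (nat_lit 0x800040000000a00072003b00150002f007f0008000000) := Q_42 (nat_lit 59) (C_42 L113395 (C_42 L114916 (C_42 L113386 (C_42 L113394 (C_42 L113383 N_42))))) (by decide +kernel)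
theorem L114924 : W_42 (nat_lit 8) (nat_lit 0x300010000800060000000b0005c00000000000000) (nat_lit 0x0) (nat_lit 0x3001f800f000700) := T_42 (nat_lit 57) (nat_lit 56) (nat_lit 3) (nat_lit 5) (nat_lit 3) L114922 (by decide +kernel)
theorem L114925 : W_42 (nat_lit 9) (nat_lit 0x300010000800060000000b0005800000000000000) (nat_lit 0x0) (nat_lit 0x400007001f800f000700) := T_42 (nat_lit 58) (nat_lit 78) (nat_lit 0) (nat_lit 11) (nat_lit 4) L114924 (by decide +kernel)
theorem L114926 : W_42 (nat_lit 10) (nat_lit 0x300010000800040000000b0005800000000000000) (nat_lit 0x0) (nat_lit 0x20001000400007001f800f000700) := T_42 (nat_lit 109) (nat_lit 92) (nat_lit 4) (nat_lit 8) (nat_lit 9) L114925 (by decide +kernel)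
theorem L114927 : W_42 (nat_lit 11) (nat_lit 0x300010000800040000000a0005800000000000000) (nat_lit 0x0) (nat_lit 0x20003000500007001f800f000700) := T_42 (nat_lit 76) (nat_lit 93) (nat_lit 6) (nat_lit 8) (nat_lit 7) L114926 (by decide +kernel)
theorem L114928 : W_42 (nat_lit 12) (nat_lit 0x200010000800040000000a0005800000000000000) (nat_lit 0x0) (nat_lit 0x2000100000000000020003000500007001f800f000700) := T_42 (nat_lit 160) (nat_lit 177) (nat_lit 5) (nat_lit 8) (nat_lit 6) L114927 (by decide +kernel)
theorem L114929 : W_42 (nat_lit 13) (nat_lit 0x200010000800040000000a0005000000000000000) (nat_lit 0x0) (nat_lit 0x200010000000000022001300150002f007f800f000700) := Q_42 (nat_lit 59) (C_42 L113698 (C_42 L113386 (C_42 L113383 (C_42 L114928 N_42)))) (by decide +kernel)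
theorem L114930 : W_42 (nat_lit 2) (nat_lit 0x700010000800040000000b4005e000b0000000200) (nat_lit 0x0) (nat_lit 0x80000000000000001000080) := D_42 (nat_lit 24) (nat_lit 7) (nat_lit 91) (nat_lit 7) (nat_lit 7) (nat_lit 0) (nat_lit 6) (nat_lit 6) (nat_lit 5) (by decide +kernel)
theorem L114931 : W_42 (nat_lit 3) (nat_lit 0x700010000800040000000b4005e00090000000200) (nat_lit 0x0) (nat_lit 0x80000002000020001000080) := T_42 (nat_lit 41) (nat_lit 61) (nat_lit 0) (nat_lit 10) (nat_lit 3) L114930 (by decide +kernel)
theorem L114932 : W_42 (nat_lit 4) (nat_lit 0x700010000800040000000b4005e00080000000200) (nat_lit 0x0) (nat_lit 0x80000002000038001000080) := T_42 (nat_lit 40) (nat_lit 39) (nat_lit 0) (nat_lit 9) (nat_lit 3) L114931 (by decide +kernel)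
theorem L114933 : W_42 (nat_lit 5) (nat_lit 0x700010000800040000000b4005e00080000000000) (nat_lit 0x0) (nat_lit 0x80000002000038005000280) := T_42 (nat_lit 9) (nat_lit 26) (nat_lit 5) (nat_lit 9) (nat_lit 0) L114932 (by decide +kernel)
theorem L114934 : W_42 (nat_lit 6) (nat_lit 0x700010000800040000000b0005e00080000000000) (nat_lit 0x0) (nat_lit 0x80006002000038005000280) := T_42 (nat_lit 74) (nat_lit 73) (nat_lit 1) (nat_lit 9) (nat_lit 3) L114933 (by decide +kernel)
theorem L114935 : W_42 (nat_lit 7) (nat_lit 0x700010000800040000000b0005e00000000000000) (nat_lit 0x0) (nat_lit 0x800060020001b8005000280) := T_42 (nat_lit 43) (nat_lit 44) (nat_lit 2) (nat_lit 6) (nat_lit 3) L114934 (by decide +kernel)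
theorem L114936 : W_42 (nat_lit 8) (nat_lit 0x700010000800040000000b0005c00000000000000) (nat_lit 0x0) (nat_lit 0x800060023001b8005000280) := T_42 (nat_lit 57) (nat_lit 56) (nat_lit 3) (nat_lit 5) (nat_lit 3) L114935 (by decide +kernel)
theorem L114937 : W_42 (nat_lit 9) (nat_lit 0x700010000800040000000b0005800000000000000) (nat_lit 0x0) (nat_lit 0x800460027001b8005000280) := T_42 (nat_lit 58) (nat_lit 78) (nat_lit 0) (nat_lit 11) (nat_lit 4) L114936 (by decide +kernel)
theorem L114938 : W_42 (nat_lit 10) (nat_lit 0x700010000800040000000a0005800000000000000) (nat_lit 0x0) (nat_lit 0x2800560027001b8005000280) := T_42 (nat_lit 76) (nat_lit 93) (nat_lit 6) (nat_lit 8) (nat_lit 7) L114937 (by decide +kernel)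
theorem L114939 : W_42 (nat_lit 11) (nat_lit 0x300010000800040000000a0005800000000000000) (nat_lit 0x0) (nat_lit 0x8000400000000000000002800560027001b8005000280) := T_42 (nat_lit 162) (nat_lit 179) (nat_lit 7) (nat_lit 8) (nat_lit 6) L114938 (by decide +kernel)
theorem L114940 : W_42 (nat_lit 12) (nat_lit 0x200010000800040000000a0005800000000000000) (nat_lit 0x0) (nat_lit 0xa000500000000000000002800560027001b8005000280) := T_42 (nat_lit 160) (nat_lit 177) (nat_lit 5) (nat_lit 8) (nat_lit 6) L114939 (by decide +kernel)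
theorem L114941 : W_42 (nat_lit 13) (nat_lit 0x200010000800040000000a0005000000000000000) (nat_lit 0x0) (nat_lit 0xa00050000000000020001280156002f007f800d000280) := Q_42 (nat_lit 59) (C_42 L113720 (C_42 L113394 (C_42 L113698 (C_42 L113383 (C_42 L114940 N_42))))) (by decide +kernel)
theorem L114942 : W_42 (nat_lit 11) (nat_lit 0x200010000800040000000a0005800000000000000) (nat_lit 0x0) (nat_lit 0x8000400000000000020003001100020007e000f000380) := T_42 (nat_lit 61) (nat_lit 80) (nat_lit 3) (nat_lit 8) (nat_lit 3) L114587 (by decide +kernel)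
theorem L114943 : W_42 (nat_lit 2) (nat_lit 0x300010000800040010000a0005800600000000000) (nat_lit 0x0) (nat_lit 0x180008000000) := D_42 (nat_lit 44) (nat_lit 43) (nat_lit 27) (nat_lit 1) (nat_lit 12) (nat_lit 2) (nat_lit 4) (nat_lit 11) (nat_lit 5) (by decide +kernel)
theorem L114944 : W_42 (nat_lit 3) (nat_lit 0x300010000800040010000a0005000600000000000) (nat_lit 0x0) (nat_lit 0x2800180008000000) := T_42 (nat_lit 59) (nat_lit 61) (nat_lit 2) (nat_lit 8) (nat_lit 3) L114943 (by decide +kernel)
theorem L114945 : W_42 (nat_lit 4) (nat_lit 0x300010000800040010000a0005000200000000000) (nat_lit 0x0) (nat_lit 0x2800580028000000) := T_42 (nat_lit 46) (nat_lit 29) (nat_lit 6) (nat_lit 11) (nat_lit 5) L114944 (by decide +kernel)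
theorem L114946 : W_42 (nat_lit 5) (nat_lit 0x200010000800040010000a0005000200000000000) (nat_lit 0x0) (nat_lit 0x200010000000000000000000000002800580028000000) := T_42 (nat_lit 160) (nat_lit 177) (nat_lit 5) (nat_lit 8) (nat_lit 6) L114945 (by decide +kernel)
theorem L114947 : W_42 (nat_lit 7) (nat_lit 0x200010000800040010000a0005000000000000000) (nat_lit 0x0) (nat_lit 0x800040000000000070002800100002800f80038001400) := Q_42 (nat_lit 45) (C_42 L114891 (C_42 L114750 (C_42 L113809 (C_42 L113352 N_42)))) (by decide +kernel)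
theorem L114948 : W_42 (nat_lit 6) (nat_lit 0x200010000800040010000a0005000000000000000) (nat_lit 0x0) (nat_lit 0xa00050000000000042002100100002800780038001400) := Q_42 (nat_lit 45) (C_42 L113919 (C_42 L114946 (C_42 L113352 N_42))) (by decide +kernel)
theorem L114949 : W_42 (nat_lit 9) (nat_lit 0x200010000800040010000a0005000000000000000) (nat_lit 0x0) (nat_lit 0xa00050000000740033800900000002800f80028000000) := Q_42 (nat_lit 45) (C_42 L114009 (C_42 L114946 (C_42 L113809 N_42))) (by decide +kernel)
theorem L114950 : W_42 (nat_lit 10) (nat_lit 0x200010000800040000000a0005000000000000000) (nat_lit 0x0) (nat_lit 0x3a001d000c000f40073803900100002800f80038001400) := Q_42 (nat_lit 96) (C_42 L113994 (C_42 L114758 (C_42 L114947 (C_42 L114948 (C_42 L114949 N_42))))) (by decide +kernel)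
theorem L114951 : W_42 (nat_lit 13) (nat_lit 0x200010000800040000000a0005000000000000000) (nat_lit 0x0) (nat_lit 0xa00050000000000002001380156002f007f800f000780) := Q_42 (nat_lit 59) (C_42 L114942 (C_42 L114928 (C_42 L114022 (C_42 L114940 (C_42 L113720 N_42))))) (by decide +kernel)
theorem L114952 : W_42 (nat_lit 13) (nat_lit 0x200010000800040000000a0005000000000000000) (nat_lit 0x0) (nat_lit 0xa00050000000000002000300150002f007f800f000780) := Q_42 (nat_lit 59) (C_42 L114928 (C_42 L114942 (C_42 L113394 (C_42 L113720 N_42)))) (by decide +kernel)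
theorem L114953 : W_42 (nat_lit 13) (nat_lit 0x200010000800040000000a0005000000000000000) (nat_lit 0x0) (nat_lit 0x3a003d001c000f403f380f900e50002800f80038001400) := Q_42 (nat_lit 96) (C_42 L114949 (C_42 L114466 (C_42 L114758 (C_42 L114467 (C_42 L113845 (C_42 L114770 (C_42 L113994 N_42))))))) (by decide +kernel)
theorem L114954 : W_42 (nat_lit 8) (nat_lit 0x600010000800060000000b0007800000000000000) (nat_lit 0x0) (nat_lit 0x740001800080006000700070000000000) := T_42 (nat_lit 41) (nat_lit 42) (nat_lit 0) (nat_lit 11) (nat_lit 3) L114659 (by decide +kernel)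
theorem L114955 : W_42 (nat_lit 9) (nat_lit 0x600010000800060000000b0005800000000000000) (nat_lit 0x0) (nat_lit 0x740001800080106002700070000000000) := T_42 (nat_lit 61) (nat_lit 80) (nat_lit 3) (nat_lit 8) (nat_lit 3) L114954 (by decide +kernel)
theorem L114956 : W_42 (nat_lit 10) (nat_lit 0x200010000800060000000b0005800000000000000) (nat_lit 0x0) (nat_lit 0x800040000000740001800080106002700070000000000) := T_42 (nat_lit 162) (nat_lit 179) (nat_lit 7) (nat_lit 8) (nat_lit 6) L114955 (by decide +kernel)
theorem L114957 : W_42 (nat_lit 11) (nat_lit 0x200010000800060000000a0005800000000000000) (nat_lit 0x0) (nat_lit 0x800040000000740001800280116002700070000000000) := T_42 (nat_lit 76) (nat_lit 93) (nat_lit 6) (nat_lit 8) (nat_lit 7) L114956 (by decide +kernel)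
theorem L114958 : W_42 (nat_lit 12) (nat_lit 0x200010000800040000000a0005800000000000000) (nat_lit 0x0) (nat_lit 0x800040000000740003800380116002700070000000000) := T_42 (nat_lit 109) (nat_lit 92) (nat_lit 4) (nat_lit 8) (nat_lit 9) L114957 (by decide +kernel)
theorem L114959 : W_42 (nat_lit 2) (nat_lit 0x700010000800060000000b4005e00030000000000) (nat_lit 0x0) (nat_lit 0x80000000000000001000080) := D_42 (nat_lit 24) (nat_lit 7) (nat_lit 91) (nat_lit 7) (nat_lit 7) (nat_lit 0) (nat_lit 6) (nat_lit 6) (nat_lit 5) (by decide +kernel)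
theorem L114960 : W_42 (nat_lit 3) (nat_lit 0x700010000800060000000b4005e00010000000000) (nat_lit 0x0) (nat_lit 0x80000002000020001000080) := T_42 (nat_lit 41) (nat_lit 61) (nat_lit 0) (nat_lit 10) (nat_lit 3) L114959 (by decide +kernel)
theorem L114961 : W_42 (nat_lit 4) (nat_lit 0x700010000800060000000b4005e00000000000000) (nat_lit 0x0) (nat_lit 0x80000002000038001000080) := T_42 (nat_lit 40) (nat_lit 39) (nat_lit 0) (nat_lit 9) (nat_lit 3) L114960 (by decide +kernel)
theorem L114962 : W_42 (nat_lit 5) (nat_lit 0x700010000800060000000b0005e00000000000000) (nat_lit 0x0) (nat_lit 0x80006002000038001000080) := T_42 (nat_lit 74) (nat_lit 73) (nat_lit 1) (nat_lit 9) (nat_lit 3) L114961 (by decide +kernel)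
theorem L114963 : W_42 (nat_lit 6) (nat_lit 0x700010000800060000000b0005c00000000000000) (nat_lit 0x0) (nat_lit 0x80006002300038001000080) := T_42 (nat_lit 57) (nat_lit 56) (nat_lit 3) (nat_lit 5) (nat_lit 3) L114962 (by decide +kernel)
theorem L114964 : W_42 (nat_lit 7) (nat_lit 0x700010000800040000000b0005c00000000000000) (nat_lit 0x0) (nat_lit 0x2000180006002300038001000080) := T_42 (nat_lit 109) (nat_lit 92) (nat_lit 4) (nat_lit 8) (nat_lit 9) L114963 (by decide +kernel)
theorem L114965 : W_42 (nat_lit 8) (nat_lit 0x700010000800040000000b0005800000000000000) (nat_lit 0x0) (nat_lit 0x2000180046002700038001000080) := T_42 (nat_lit 58) (nat_lit 78) (nat_lit 0) (nat_lit 11) (nat_lit 4) L114964 (by decide +kernel)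
theorem L114966 : W_42 (nat_lit 9) (nat_lit 0x300010000800040000000b0005800000000000000) (nat_lit 0x0) (nat_lit 0x800040000000000002000180046002700038001000080) := T_42 (nat_lit 162) (nat_lit 179) (nat_lit 7) (nat_lit 8) (nat_lit 6) L114965 (by decide +kernel)
theorem L114967 : W_42 (nat_lit 10) (nat_lit 0x300010000800040000000a0005800000000000000) (nat_lit 0x0) (nat_lit 0x800040000000000002000380056002700038001000080) := T_42 (nat_lit 76) (nat_lit 93) (nat_lit 6) (nat_lit 8) (nat_lit 7) L114966 (by decide +kernel)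
theorem L114968 : W_42 (nat_lit 11) (nat_lit 0x200010000800040000000a0005800000000000000) (nat_lit 0x0) (nat_lit 0xa00050000000000002000380056002700038001000080) := T_42 (nat_lit 160) (nat_lit 177) (nat_lit 5) (nat_lit 8) (nat_lit 6) L114967 (by decide +kernel)
theorem L114969 : W_42 (nat_lit 13) (nat_lit 0x200010000800040000000a0005000000000000000) (nat_lit 0x0) (nat_lit 0xa00050000000740003800380156002f00078001000080) := Q_42 (nat_lit 59) (C_42 L113383 (C_42 L113720 (C_42 L114958 (C_42 L114968 N_42)))) (by decide +kernel)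
theorem L114970 : W_42 (nat_lit 14) (nat_lit 0x20001000080004000000020005000000000000000) (nat_lit 0x0) (nat_lit 0x3a003d001c000f403f380fb80fd6002f00ff807f001f80) := Q_42 (nat_lit 79) (C_42 L114868 (C_42 L114903 (C_42 L114923 (C_42 L114929 (C_42 L114838 (C_42 L114941 (C_42 L114950 (C_42 L114951 (C_42 L114952 (C_42 L114953 (C_42 L114969 N_42))))))))))) (by decide +kernel)
theorem L114971 : W_42 (nat_lit 13) (nat_lit 0x20001000080004000000020007000000000000000) (nat_lit 0x0) (nat_lit 0xa00050000000740033803b801d6000f006f003f001f80) := Q_42 (nat_lit 59) (C_42 L114317 (C_42 L114676 (C_42 L114664 (C_42 L113167 (C_42 L114628 N_42))))) (by decide +kernel)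
theorem L114972 : W_42 (nat_lit 14) (nat_lit 0x20001000080004000000020005000000000000000) (nat_lit 0x0) (nat_lit 0xa00050000000740033803b807d601af01ef003f001f80) := Q_42 (nat_lit 61) (C_42 L114678 (C_42 L114107 (C_42 L114971 N_42))) (by decide +kernel)
theorem L114973 : W_42 (nat_lit 13) (nat_lit 0x20001000080004000000020007000000000000000) (nat_lit 0x0) (nat_lit 0xa000500000007400238033801d6000f001fc00fc007f0) := Q_42 (nat_lit 59) (C_42 L113167 (C_42 L114685 (C_42 L114639 (C_42 L114664 (C_42 L114676 N_42))))) (by decide +kernel)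
theorem L114974 : W_42 (nat_lit 14) (nat_lit 0x20001000080004000000020005000000000000000) (nat_lit 0x0) (nat_lit 0xa000500000007400238033803d601af00dfc02fc007f0) := Q_42 (nat_lit 61) (C_42 L114678 (C_42 L112603 (C_42 L114973 N_42))) (by decide +kernel)
theorem L114975 : W_42 (nat_lit 13) (nat_lit 0x20001000080004000000020007000000000000000) (nat_lit 0x0) (nat_lit 0xa00050000000740033803b801d6000f0077c010000800) := Q_42 (nat_lit 59) (C_42 L114317 (C_42 L114685 (C_42 L114301 (C_42 L114580 (C_42 L114664 N_42))))) (by decide +kernel)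
theorem L114976 : W_42 (nat_lit 14) (nat_lit 0x20001000080004000000020005000000000000000) (nat_lit 0x0) (nat_lit 0xa00050000000740033803b807d601af01f7c030001800) := Q_42 (nat_lit 61) (C_42 L114678 (C_42 L114107 (C_42 L114975 N_42))) (by decide +kernel)
theorem L114977 : W_42 (nat_lit 4) (nat_lit 0x2000100008000400000002000f000000000000000) (nat_lit 0x0) (nat_lit 0x2000100740010000000000000000) := T_42 (nat_lit 109) (nat_lit 92) (nat_lit 4) (nat_lit 8) (nat_lit 9) L112779 (by decide +kernel)
theorem L114978 : W_42 (nat_lit 6) (nat_lit 0x20001000080004000000020007000000000000000) (nat_lit 0x0) (nat_lit 0x20001007c00188001e0000000000) := Q_42 (nat_lit 63) (C_42 L112589 (C_42 L112585 (C_42 L114977 N_42))) (by decide +kernel)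
theorem L114979 : W_42 (nat_lit 14) (nat_lit 0x20001000080004000000020005000000000000000) (nat_lit 0x0) (nat_lit 0xa000500000007400238033807d601af001fc00fc007f0) := Q_42 (nat_lit 61) (C_42 L114678 (C_42 L114973 (C_42 L114978 N_42))) (by decide +kernel)
theorem L114980 : W_42 (nat_lit 15) (nat_lit 0x20001000080004000000020001000000000000000) (nat_lit 0x0) (nat_lit 0x3a003d001c001f403f381fb80fd607ef03ffc1ffc03ff0) := Q_42 (nat_lit 62) (C_42 L114687 (C_42 L114688 (C_42 L114689 (C_42 L114848 (C_42 L114869 (C_42 L114870 (C_42 L114871 (C_42 L114872 (C_42 L114873 (C_42 L114904 (C_42 L114905 (C_42 L114970 (C_42 L114972 (C_42 L114974 (C_42 L114976 (C_42 L114979 N_42)))))))))))))))) (by decide +kernel)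
theorem L114981 : W_42 (nat_lit 16) (nat_lit 0x20001000080004000000020000000000000000000) (nat_lit 0x0) (nat_lit 0x3a003d001c001f5c3f3c1ffc0fd707ff03ffc1ffc03ff0) := Q_42 (nat_lit 60) (C_42 L112496 (C_42 L112832 (C_42 L114555 (C_42 L114980 N_42)))) (by decide +kernel)
theorem L114982 : W_42 (nat_lit 2) (nat_lit 0x300010002800140010000f0000000000000000000) (nat_lit 0x0) (nat_lit 0x2000000000000c000000000000000) := D_42 (nat_lit 62) (nat_lit 63) (nat_lit 113) (nat_lit 2) (nat_lit 8) (nat_lit 4) (nat_lit 5) (nat_lit 11) (nat_lit 3) (by decide +kernel)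
theorem L114983 : W_42 (nat_lit 3) (nat_lit 0x300010002800140000000f0000000000000000000) (nat_lit 0x0) (nat_lit 0x2000300000000c000000000000000) := T_42 (nat_lit 96) (nat_lit 97) (nat_lit 3) (nat_lit 8) (nat_lit 4) L114982 (by decide +kernel)
theorem L114984 : W_42 (nat_lit 4) (nat_lit 0x200010002800140000000f0000000000000000000) (nat_lit 0x0) (nat_lit 0x20001000000000002000300000000c000000000000000) := T_42 (nat_lit 160) (nat_lit 177) (nat_lit 5) (nat_lit 8) (nat_lit 6) L114983 (by decide +kernel)
theorem L114985 : W_42 (nat_lit 2) (nat_lit 0x200010002800140000000f0000000000000000000) (nat_lit 0x0) (nat_lit 0x80000000c000000000000000) := D_42 (nat_lit 62) (nat_lit 95) (nat_lit 63) (nat_lit 6) (nat_lit 10) (nat_lit 7) (nat_lit 2) (nat_lit 8) (nat_lit 4) (by decide +kernel)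
theorem L114986 : W_42 (nat_lit 2) (nat_lit 0x200010002800140010000f0000000000000000000) (nat_lit 0x0) (nat_lit 0x4000000000000800000004000000000000000) := D_42 (nat_lit 95) (nat_lit 62) (nat_lit 146) (nat_lit 6) (nat_lit 10) (nat_lit 7) (nat_lit 6) (nat_lit 10) (nat_lit 8) (by decide +kernel)
theorem L114987 : W_42 (nat_lit 3) (nat_lit 0x200010002800140000000f0000000000000000000) (nat_lit 0x0) (nat_lit 0x4000000000003800000004000000000000000) := T_42 (nat_lit 96) (nat_lit 97) (nat_lit 3) (nat_lit 8) (nat_lit 4) L114986 (by decide +kernel)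
theorem L114988 : W_42 (nat_lit 2) (nat_lit 0x600010002800140040003f0024800000000000000) (nat_lit 0x0) (nat_lit 0x400042000000000000000) := D_42 (nat_lit 82) (nat_lit 61) (nat_lit 66) (nat_lit 0) (nat_lit 14) (nat_lit 4) (nat_lit 2) (nat_lit 11) (nat_lit 4) (by decide +kernel)
theorem L114989 : W_42 (nat_lit 3) (nat_lit 0x600010002800140040003f0004800000000000000) (nat_lit 0x0) (nat_lit 0x400072000000000000000) := T_42 (nat_lit 65) (nat_lit 64) (nat_lit 2) (nat_lit 10) (nat_lit 4) L114988 (by decide +kernel)
theorem L114990 : W_42 (nat_lit 4) (nat_lit 0x600010002800140040001f0004800000000000000) (nat_lit 0x0) (nat_lit 0x8000600072000000000000000) := T_42 (nat_lit 81) (nat_lit 99) (nat_lit 3) (nat_lit 10) (nat_lit 4) L114989 (by decide +kernel)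
theorem L114991 : W_42 (nat_lit 5) (nat_lit 0x600010002800140000001f0004800000000000000) (nat_lit 0x0) (nat_lit 0xe000600072000000000000000) := T_42 (nat_lit 98) (nat_lit 97) (nat_lit 3) (nat_lit 9) (nat_lit 4) L114990 (by decide +kernel)
theorem L114992 : W_42 (nat_lit 6) (nat_lit 0x600010002800140000000f0004800000000000000) (nat_lit 0x0) (nat_lit 0xe000700073000000000000000) := T_42 (nat_lit 80) (nat_lit 60) (nat_lit 0) (nat_lit 12) (nat_lit 4) L114991 (by decide +kernel)
theorem L114993 : W_42 (nat_lit 7) (nat_lit 0x600010002800140000000f0004000000000000000) (nat_lit 0x0) (nat_lit 0xe000700073c00000000000000) := T_42 (nat_lit 59) (nat_lit 58) (nat_lit 0) (nat_lit 11) (nat_lit 4) L114992 (by decide +kernel)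
theorem L114994 : W_42 (nat_lit 8) (nat_lit 0x600010002800140000000f0000000000000000000) (nat_lit 0x0) (nat_lit 0xe00070007fc00000000000000) := T_42 (nat_lit 62) (nat_lit 63) (nat_lit 2) (nat_lit 8) (nat_lit 4) L114993 (by decide +kernel)
theorem L114995 : W_42 (nat_lit 9) (nat_lit 0x200010002800140000000f0000000000000000000) (nat_lit 0x0) (nat_lit 0x80004000000000000000e00070007fc00000000000000) := T_42 (nat_lit 162) (nat_lit 179) (nat_lit 7) (nat_lit 8) (nat_lit 6) L114994 (by decide +kernel)
theorem L114996 : W_42 (nat_lit 2) (nat_lit 0x300010002800140000001f0000800000000000000) (nat_lit 0x0) (nat_lit 0x1c000000000000000) := D_42 (nat_lit 63) (nat_lit 62) (nat_lit 64) (nat_lit 2) (nat_lit 8) (nat_lit 4) (nat_lit 2) (nat_lit 9) (nat_lit 4) (by decide +kernel)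
theorem L114997 : W_42 (nat_lit 3) (nat_lit 0x300010002800140000000f0000800000000000000) (nat_lit 0x0) (nat_lit 0x10001d000000000000000) := T_42 (nat_lit 80) (nat_lit 60) (nat_lit 0) (nat_lit 12) (nat_lit 4) L114996 (by decide +kernel)
theorem L114998 : W_42 (nat_lit 4) (nat_lit 0x200010002800140000000f0000800000000000000) (nat_lit 0x0) (nat_lit 0x20001000000000000000000010001d000000000000000) := T_42 (nat_lit 160) (nat_lit 177) (nat_lit 5) (nat_lit 8) (nat_lit 6) L114997 (by decide +kernel)
theorem L114999 : W_42 (nat_lit 5) (nat_lit 0x200010002800140000000f0000000000000000000) (nat_lit 0x0) (nat_lit 0x20001000000000000000000010001dc00000000000000) := T_42 (nat_lit 59) (nat_lit 58) (nat_lit 0) (nat_lit 11) (nat_lit 4) L114998 (by decide +kernel)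
theorem L115000 : W_42 (nat_lit 2) (nat_lit 0x300010000a00140000001f0008000000000000000) (nat_lit 0x0) (nat_lit 0x7000000000000000000000000) := D_42 (nat_lit 97) (nat_lit 96) (nat_lit 98) (nat_lit 3) (nat_lit 8) (nat_lit 4) (nat_lit 3) (nat_lit 9) (nat_lit 4) (by decide +kernel)
theorem L115001 : W_42 (nat_lit 3) (nat_lit 0x300010000a00140000000f0008000000000000000) (nat_lit 0x0) (nat_lit 0x7000100010000000000000000) := T_42 (nat_lit 80) (nat_lit 64) (nat_lit 2) (nat_lit 9) (nat_lit 4) L115000 (by decide +kernel)
theorem L115002 : W_42 (nat_lit 4) (nat_lit 0x200010000a00140000000f0008000000000000000) (nat_lit 0x0) (nat_lit 0x200010000000000000007000100010000000000000000) := T_42 (nat_lit 160) (nat_lit 177) (nat_lit 5) (nat_lit 8) (nat_lit 6) L115001 (by decide +kernel)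
theorem L115003 : W_42 (nat_lit 5) (nat_lit 0x200010000a00140000000f0000000000000000000) (nat_lit 0x0) (nat_lit 0x20001000000000000000700010001c000000000000000) := T_42 (nat_lit 63) (nat_lit 62) (nat_lit 2) (nat_lit 8) (nat_lit 4) L115002 (by decide +kernel)
theorem L115004 : W_42 (nat_lit 2) (nat_lit 0x600010002800140020001f0000000000000000000) (nat_lit 0x0) (nat_lit 0x1c000000000000000) := D_42 (nat_lit 63) (nat_lit 64) (nat_lit 62) (nat_lit 2) (nat_lit 9) (nat_lit 4) (nat_lit 2) (nat_lit 8) (nat_lit 4) (by decide +kernel)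
theorem L115005 : W_42 (nat_lit 3) (nat_lit 0x600010002800140020000f0000000000000000000) (nat_lit 0x0) (nat_lit 0x400010001c000000000000000) := T_42 (nat_lit 80) (nat_lit 98) (nat_lit 3) (nat_lit 9) (nat_lit 4) L115004 (by decide +kernel)
theorem L115006 : W_42 (nat_lit 4) (nat_lit 0x200010002800140020000f0000000000000000000) (nat_lit 0x0) (nat_lit 0x80004000000000000000400010001c000000000000000) := T_42 (nat_lit 162) (nat_lit 179) (nat_lit 7) (nat_lit 8) (nat_lit 6) L115005 (by decide +kernel)
theorem L115007 : W_42 (nat_lit 5) (nat_lit 0x200010002800140000000f0000000000000000000) (nat_lit 0x0) (nat_lit 0x80004000000000000000700010001c000000000000000) := T_42 (nat_lit 97) (nat_lit 96) (nat_lit 3) (nat_lit 8) (nat_lit 4) L115006 (by decide +kernel)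
theorem L115008 : W_42 (nat_lit 2) (nat_lit 0x700010002800140020000f0000800000000000000) (nat_lit 0x0) (nat_lit 0x4000100001000000000000000) := D_42 (nat_lit 80) (nat_lit 98) (nat_lit 60) (nat_lit 3) (nat_lit 9) (nat_lit 4) (nat_lit 0) (nat_lit 12) (nat_lit 4) (by decide +kernel)
theorem L115009 : W_42 (nat_lit 3) (nat_lit 0x700010002800140020000f0000000000000000000) (nat_lit 0x0) (nat_lit 0x4000100001c00000000000000) := T_42 (nat_lit 59) (nat_lit 58) (nat_lit 0) (nat_lit 11) (nat_lit 4) L115008 (by decide +kernel)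
theorem L115010 : W_42 (nat_lit 4) (nat_lit 0x700010002800140000000f0000000000000000000) (nat_lit 0x0) (nat_lit 0x7000100001c00000000000000) := T_42 (nat_lit 97) (nat_lit 96) (nat_lit 3) (nat_lit 8) (nat_lit 4) L115009 (by decide +kernel)
theorem L115011 : W_42 (nat_lit 5) (nat_lit 0x300010002800140000000f0000000000000000000) (nat_lit 0x0) (nat_lit 0x800040000000000000007000100001c00000000000000) := T_42 (nat_lit 162) (nat_lit 179) (nat_lit 7) (nat_lit 8) (nat_lit 6) L115010 (by decide +kernel)
theorem L115012 : W_42 (nat_lit 6) (nat_lit 0x200010002800140000000f0000000000000000000) (nat_lit 0x0) (nat_lit 0xa00050000000000000007000100001c00000000000000) := T_42 (nat_lit 160) (nat_lit 177) (nat_lit 5) (nat_lit 8) (nat_lit 6) L115011 (by decide +kernel)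
theorem L115013 : W_42 (nat_lit 2) (nat_lit 0x600010000a00140000001f0000800000000000000) (nat_lit 0x0) (nat_lit 0x1c000000000000000) := D_42 (nat_lit 63) (nat_lit 62) (nat_lit 64) (nat_lit 2) (nat_lit 8) (nat_lit 4) (nat_lit 2) (nat_lit 9) (nat_lit 4) (by decide +kernel)
theorem L115014 : W_42 (nat_lit 3) (nat_lit 0x600010000a00140000000f0000800000000000000) (nat_lit 0x0) (nat_lit 0x10001d000000000000000) := T_42 (nat_lit 80) (nat_lit 60) (nat_lit 0) (nat_lit 12) (nat_lit 4) L115013 (by decide +kernel)
theorem L115015 : W_42 (nat_lit 4) (nat_lit 0x200010000a00140000000f0000800000000000000) (nat_lit 0x0) (nat_lit 0x80004000000000000000000010001d000000000000000) := T_42 (nat_lit 162) (nat_lit 179) (nat_lit 7) (nat_lit 8) (nat_lit 6) L115014 (by decide +kernel)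
theorem L115016 : W_42 (nat_lit 5) (nat_lit 0x200010000a00140000000f0000000000000000000) (nat_lit 0x0) (nat_lit 0x80004000000000000000000010001dc00000000000000) := T_42 (nat_lit 59) (nat_lit 58) (nat_lit 0) (nat_lit 11) (nat_lit 4) L115015 (by decide +kernel)
theorem L115017 : W_42 (nat_lit 2) (nat_lit 0x300010000a00140000001f0000800000000000000) (nat_lit 0x0) (nat_lit 0x7000000000000000000000000) := D_42 (nat_lit 97) (nat_lit 96) (nat_lit 98) (nat_lit 3) (nat_lit 8) (nat_lit 4) (nat_lit 3) (nat_lit 9) (nat_lit 4) (by decide +kernel)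
theorem L115018 : W_42 (nat_lit 3) (nat_lit 0x300010000a00140000000f0000800000000000000) (nat_lit 0x0) (nat_lit 0x7000100001000000000000000) := T_42 (nat_lit 80) (nat_lit 60) (nat_lit 0) (nat_lit 12) (nat_lit 4) L115017 (by decide +kernel)
theorem L115019 : W_42 (nat_lit 4) (nat_lit 0x200010000a00140000000f0000800000000000000) (nat_lit 0x0) (nat_lit 0x200010000000000000007000100001000000000000000) := T_42 (nat_lit 160) (nat_lit 177) (nat_lit 5) (nat_lit 8) (nat_lit 6) L115018 (by decide +kernel)
theorem L115020 : W_42 (nat_lit 5) (nat_lit 0x200010000a00140000000f0000000000000000000) (nat_lit 0x0) (nat_lit 0x200010000000000000007000100001c00000000000000) := T_42 (nat_lit 59) (nat_lit 58) (nat_lit 0) (nat_lit 11) (nat_lit 4) L115019 (by decide +kernel)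
theorem L115021 : W_42 (nat_lit 2) (nat_lit 0x300010000a00140010000f0005800600000000000) (nat_lit 0x0) (nat_lit 0x180008000000) := D_42 (nat_lit 44) (nat_lit 43) (nat_lit 27) (nat_lit 1) (nat_lit 12) (nat_lit 2) (nat_lit 4) (nat_lit 11) (nat_lit 5) (by decide +kernel)
theorem L115022 : W_42 (nat_lit 3) (nat_lit 0x300010000a00140010000f0004800600000000000) (nat_lit 0x0) (nat_lit 0x3000180008000000) := T_42 (nat_lit 60) (nat_lit 61) (nat_lit 2) (nat_lit 8) (nat_lit 3) L115021 (by decide +kernel)
theorem L115023 : W_42 (nat_lit 4) (nat_lit 0x300010000a00140010000f0004800200000000000) (nat_lit 0x0) (nat_lit 0x3000580028000000) := T_42 (nat_lit 46) (nat_lit 29) (nat_lit 6) (nat_lit 11) (nat_lit 5) L115022 (by decide +kernel)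
theorem L115024 : W_42 (nat_lit 5) (nat_lit 0x300010000a00140010000f0004800000000000000) (nat_lit 0x0) (nat_lit 0x800000003000780028000000) := T_42 (nat_lit 45) (nat_lit 95) (nat_lit 5) (nat_lit 11) (nat_lit 2) L115023 (by decide +kernel)
theorem L115025 : W_42 (nat_lit 6) (nat_lit 0x200010000a00140010000f0004800000000000000) (nat_lit 0x0) (nat_lit 0x200010000000000000000800000003000780028000000) := T_42 (nat_lit 160) (nat_lit 177) (nat_lit 5) (nat_lit 8) (nat_lit 6) L115024 (by decide +kernel)
theorem L115026 : W_42 (nat_lit 7) (nat_lit 0x200010000a00140010000f0000800000000000000) (nat_lit 0x0) (nat_lit 0x20001000000000000000080000000f000780028000000) := T_42 (nat_lit 62) (nat_lit 63) (nat_lit 2) (nat_lit 8) (nat_lit 4) L115025 (by decide +kernel)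
theorem L115027 : W_42 (nat_lit 8) (nat_lit 0x200010000a00140010000f0000000000000000000) (nat_lit 0x0) (nat_lit 0x20001000000000000000080000000fc00780028000000) := T_42 (nat_lit 59) (nat_lit 58) (nat_lit 0) (nat_lit 11) (nat_lit 4) L115026 (by decide +kernel)
theorem L115028 : W_42 (nat_lit 9) (nat_lit 0x200010000a00140000000f0000000000000000000) (nat_lit 0x0) (nat_lit 0x20001000000000000000380000000fc00780028000000) := T_42 (nat_lit 96) (nat_lit 97) (nat_lit 3) (nat_lit 8) (nat_lit 4) L115027 (by decide +kernel)
theorem L115029 : W_42 (nat_lit 10) (nat_lit 0x200010000a0014000000070000000000000000000) (nat_lit 0x0) (nat_lit 0xa0005000000000000000780018001fc00780028000000) := Q_42 (nat_lit 79) (C_42 L115016 (C_42 L115020 (C_42 L115003 (C_42 L115028 N_42)))) (by decide +kernel)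
theorem L115030 : W_42 (nat_lit 2) (nat_lit 0x700010000a00140008000f0004000000000000000) (nat_lit 0x0) (nat_lit 0x2000200010000000) := D_42 (nat_lit 45) (nat_lit 61) (nat_lit 28) (nat_lit 6) (nat_lit 10) (nat_lit 6) (nat_lit 5) (nat_lit 11) (nat_lit 1) (by decide +kernel)
theorem L115031 : W_42 (nat_lit 3) (nat_lit 0x700010000a00140000000f0004000000000000000) (nat_lit 0x0) (nat_lit 0x200000000800000002000200010000000) := T_42 (nat_lit 95) (nat_lit 129) (nat_lit 6) (nat_lit 10) (nat_lit 7) L115030 (by decide +kernel)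
theorem L115032 : W_42 (nat_lit 4) (nat_lit 0x300010000a00140000000f0004000000000000000) (nat_lit 0x0) (nat_lit 0x800040000000200000000800000002000200010000000) := T_42 (nat_lit 162) (nat_lit 179) (nat_lit 7) (nat_lit 8) (nat_lit 6) L115031 (by decide +kernel)
theorem L115033 : W_42 (nat_lit 5) (nat_lit 0x300010000a00140000000f0000000000000000000) (nat_lit 0x0) (nat_lit 0x80004000000020000000080000000e000200010000000) := T_42 (nat_lit 62) (nat_lit 63) (nat_lit 2) (nat_lit 8) (nat_lit 4) L115032 (by decide +kernel)
theorem L115034 : W_42 (nat_lit 6) (nat_lit 0x200010000a00140000000f0000000000000000000) (nat_lit 0x0) (nat_lit 0xa0005000000020000000080000000e000200010000000) := T_42 (nat_lit 160) (nat_lit 177) (nat_lit 5) (nat_lit 8) (nat_lit 6) L115033 (by decide +kernel)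
theorem L115035 : W_42 (nat_lit 2) (nat_lit 0x600010000a00140008000f0004000000000000000) (nat_lit 0x0) (nat_lit 0x3000000000000200000000000) := D_42 (nat_lit 96) (nat_lit 97) (nat_lit 45) (nat_lit 3) (nat_lit 8) (nat_lit 4) (nat_lit 5) (nat_lit 11) (nat_lit 2) (by decide +kernel)
theorem L115036 : W_42 (nat_lit 3) (nat_lit 0x600010000a00140000000f0004000000000000000) (nat_lit 0x0) (nat_lit 0x200000003800000000000200000000000) := T_42 (nat_lit 95) (nat_lit 129) (nat_lit 6) (nat_lit 10) (nat_lit 7) L115035 (by decide +kernel)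
theorem L115037 : W_42 (nat_lit 2) (nat_lit 0x300010000a0014000800070001000000000000000) (nat_lit 0x0) (nat_lit 0x2000080004000000) := D_42 (nat_lit 43) (nat_lit 61) (nat_lit 26) (nat_lit 4) (nat_lit 10) (nat_lit 6) (nat_lit 7) (nat_lit 9) (nat_lit 1) (by decide +kernel)
theorem L115038 : W_42 (nat_lit 2) (nat_lit 0x200010002800140008000f0000000000000000000) (nat_lit 0x0) (nat_lit 0x4000000000003000000000000000000000000) := D_42 (nat_lit 96) (nat_lit 97) (nat_lit 146) (nat_lit 3) (nat_lit 8) (nat_lit 4) (nat_lit 6) (nat_lit 10) (nat_lit 8) (by decide +kernel)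
theorem L115039 : W_42 (nat_lit 3) (nat_lit 0x20001000280014000800070000000000000000000) (nat_lit 0x0) (nat_lit 0x4000000000003000080004000000000000000) := T_42 (nat_lit 79) (nat_lit 62) (nat_lit 6) (nat_lit 10) (nat_lit 7) L115038 (by decide +kernel)
theorem L115040 : W_42 (nat_lit 2) (nat_lit 0x300010000a001f000800070000000000000000000) (nat_lit 0x0) (nat_lit 0x100000800000000002000000000000000) := D_42 (nat_lit 128) (nat_lit 61) (nat_lit 107) (nat_lit 5) (nat_lit 10) (nat_lit 3) (nat_lit 3) (nat_lit 5) (nat_lit 6) (by decide +kernel)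
theorem L115041 : W_42 (nat_lit 3) (nat_lit 0x300010000a001e000800070000000000000000000) (nat_lit 0x0) (nat_lit 0x110001800000000002000000000000000) := T_42 (nat_lit 108) (nat_lit 124) (nat_lit 1) (nat_lit 9) (nat_lit 6) L115040 (by decide +kernel)
theorem L115042 : W_42 (nat_lit 4) (nat_lit 0x200010000a001e000800070000000000000000000) (nat_lit 0x0) (nat_lit 0x200010000000110001800000000002000000000000000) := T_42 (nat_lit 160) (nat_lit 177) (nat_lit 5) (nat_lit 8) (nat_lit 6) L115041 (by decide +kernel)
theorem L115043 : W_42 (nat_lit 2) (nat_lit 0x600010001a001e000800070000000000000000000) (nat_lit 0x0) (nat_lit 0x10001800000000000000000000000000) := D_42 (nat_lit 108) (nat_lit 124) (nat_lit 107) (nat_lit 1) (nat_lit 9) (nat_lit 6) (nat_lit 3) (nat_lit 5) (nat_lit 6) (by decide +kernel)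
theorem L115044 : W_42 (nat_lit 3) (nat_lit 0x600010000a001e000800070000000000000000000) (nat_lit 0x0) (nat_lit 0x110001800000000002000000000000000) := T_42 (nat_lit 128) (nat_lit 61) (nat_lit 5) (nat_lit 10) (nat_lit 3) L115043 (by decide +kernel)
theorem L115045 : W_42 (nat_lit 2) (nat_lit 0x7000100048003c001200070000d00000000000000) (nat_lit 0x0) (nat_lit 0x8000000000000800000002000000000000000) := D_42 (nat_lit 95) (nat_lit 61) (nat_lit 147) (nat_lit 7) (nat_lit 10) (nat_lit 3) (nat_lit 4) (nat_lit 11) (nat_lit 8) (by decide +kernel)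
theorem L115046 : W_42 (nat_lit 3) (nat_lit 0x7000100048003c001200030000d00000000000000) (nat_lit 0x0) (nat_lit 0x80000000000008000c0002000000000000000) := T_42 (nat_lit 78) (nat_lit 79) (nat_lit 0) (nat_lit 11) (nat_lit 4) L115045 (by decide +kernel)
theorem L115047 : W_42 (nat_lit 4) (nat_lit 0x7000100048003c001200030000c00000000000000) (nat_lit 0x0) (nat_lit 0x80000000000008000c0002300000000000000) := T_42 (nat_lit 56) (nat_lit 57) (nat_lit 3) (nat_lit 5) (nat_lit 3) L115046 (by decide +kernel)
theorem L115048 : W_42 (nat_lit 5) (nat_lit 0x7000100048003c001200030000800000000000000) (nat_lit 0x0) (nat_lit 0x80000000000008000c0002700020000000000) := T_42 (nat_lit 58) (nat_lit 41) (nat_lit 4) (nat_lit 8) (nat_lit 6) L115047 (by decide +kernel)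
theorem L115049 : W_42 (nat_lit 2) (nat_lit 0x20001000280014000000070000000000000000000) (nat_lit 0x0) (nat_lit 0xa00000001000000000000000) := D_42 (nat_lit 60) (nat_lit 93) (nat_lit 95) (nat_lit 6) (nat_lit 8) (nat_lit 7) (nat_lit 4) (nat_lit 10) (nat_lit 7) (by decide +kernel)
theorem L115050 : W_42 (nat_lit 2) (nat_lit 0x20001f00110003800740010000b0000000000000000000) (nat_lit 0x0) (nat_lit 0x200020000800000000000000000000000000000000) := D_42 (nat_lit 165) (nat_lit 149) (nat_lit 131) (nat_lit 2) (nat_lit 9) (nat_lit 9) (nat_lit 5) (nat_lit 12) (nat_lit 6) (by decide +kernel)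
theorem L115051 : W_42 (nat_lit 3) (nat_lit 0x20001f00010003800740010000b0000000000000000000) (nat_lit 0x0) (nat_lit 0x200038000800000000000000000000000000000000) := T_42 (nat_lit 148) (nat_lit 147) (nat_lit 2) (nat_lit 8) (nat_lit 9) L115050 (by decide +kernel)
theorem L115052 : W_42 (nat_lit 4) (nat_lit 0x20000f00010003800740010000b0000000000000000000) (nat_lit 0x0) (nat_lit 0x4000300038000800000000000000000000000000000000) := T_42 (nat_lit 164) (nat_lit 182) (nat_lit 3) (nat_lit 8) (nat_lit 9) L115051 (by decide +kernel)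
theorem L115053 : W_42 (nat_lit 5) (nat_lit 0x20000f00010003800340010000b0000000000000000000) (nat_lit 0x0) (nat_lit 0x40003000380008000c0000000000000000000000000000) := T_42 (nat_lit 114) (nat_lit 115) (nat_lit 1) (nat_lit 13) (nat_lit 6) L115052 (by decide +kernel)
theorem L115054 : W_42 (nat_lit 6) (nat_lit 0xf00010003800340010000b0000000000000000000) (nat_lit 0x0) (nat_lit 0x70003000380008000c0000000000000000000000000000) := T_42 (nat_lit 181) (nat_lit 180) (nat_lit 3) (nat_lit 7) (nat_lit 9) L115053 (by decide +kernel)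
theorem L115055 : W_42 (nat_lit 7) (nat_lit 0xe00010003800340010000b0000000000000000000) (nat_lit 0x0) (nat_lit 0x72003100380008000c0000000000000000000000000000) := T_42 (nat_lit 160) (nat_lit 177) (nat_lit 5) (nat_lit 8) (nat_lit 6) L115054 (by decide +kernel)
theorem L115056 : W_42 (nat_lit 8) (nat_lit 0xe00010002800340010000b0000000000000000000) (nat_lit 0x0) (nat_lit 0x72003100380009400c0000000000000000000000000000) := T_42 (nat_lit 128) (nat_lit 126) (nat_lit 2) (nat_lit 7) (nat_lit 7) L115055 (by decide +kernel)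
theorem L115057 : W_42 (nat_lit 9) (nat_lit 0x600010002800340010000b0000000000000000000) (nat_lit 0x0) (nat_lit 0x720039003c0009400c0000000000000000000000000000) := T_42 (nat_lit 163) (nat_lit 146) (nat_lit 6) (nat_lit 10) (nat_lit 9) L115056 (by decide +kernel)
theorem L115058 : W_42 (nat_lit 10) (nat_lit 0x200010002800340010000b0000000000000000000) (nat_lit 0x0) (nat_lit 0x7a003d003c0009400c0000000000000000000000000000) := T_42 (nat_lit 162) (nat_lit 179) (nat_lit 7) (nat_lit 8) (nat_lit 6) L115057 (by decide +kernel)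
theorem L115059 : W_42 (nat_lit 11) (nat_lit 0x200010002800140010000b0000000000000000000) (nat_lit 0x0) (nat_lit 0x7a003d003c0009400e0000000000004000000000000000) := T_42 (nat_lit 113) (nat_lit 62) (nat_lit 5) (nat_lit 11) (nat_lit 3) L115058 (by decide +kernel)
theorem L115060 : W_42 (nat_lit 2) (nat_lit 0x200010002800160030000b0004000300010000000) (nat_lit 0x0) (nat_lit 0x400020001000) := D_42 (nat_lit 29) (nat_lit 12) (nat_lit 46) (nat_lit 6) (nat_lit 11) (nat_lit 4) (nat_lit 6) (nat_lit 11) (nat_lit 5) (by decide +kernel)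
theorem L115061 : W_42 (nat_lit 3) (nat_lit 0x200010002800160030000b0004000300000000000) (nat_lit 0x0) (nat_lit 0x100000000400030001000) := T_42 (nat_lit 28) (nat_lit 80) (nat_lit 7) (nat_lit 11) (nat_lit 1) L115060 (by decide +kernel)
theorem L115062 : W_42 (nat_lit 4) (nat_lit 0x200010002800160010000b0004000300000000000) (nat_lit 0x0) (nat_lit 0x40002000100000000400030001000) := T_42 (nat_lit 97) (nat_lit 114) (nat_lit 7) (nat_lit 11) (nat_lit 2) L115061 (by decide +kernel)
theorem L115063 : W_42 (nat_lit 5) (nat_lit 0x200010002800160010000b0004000200000000000) (nat_lit 0x0) (nat_lit 0x40002000100000000500038001000) := T_42 (nat_lit 44) (nat_lit 27) (nat_lit 4) (nat_lit 11) (nat_lit 5) L115062 (by decide +kernel)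
theorem L115064 : W_42 (nat_lit 6) (nat_lit 0x200010002800160010000b0004000000000000000) (nat_lit 0x0) (nat_lit 0x40002800100000000700038001000) := T_42 (nat_lit 45) (nat_lit 95) (nat_lit 5) (nat_lit 11) (nat_lit 2) L115063 (by decide +kernel)
theorem L115065 : W_42 (nat_lit 7) (nat_lit 0x200010002800160010000b0000000000000000000) (nat_lit 0x0) (nat_lit 0x60002800100004000700038001000) := T_42 (nat_lit 62) (nat_lit 113) (nat_lit 5) (nat_lit 11) (nat_lit 3) L115064 (by decide +kernel)
theorem L115066 : W_42 (nat_lit 8) (nat_lit 0x200010002800140010000b0000000000000000000) (nat_lit 0x0) (nat_lit 0x62002900100004000700038001000) := T_42 (nat_lit 109) (nat_lit 92) (nat_lit 4) (nat_lit 8) (nat_lit 9) L115065 (by decide +kernel)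
theorem L115067 : W_42 (nat_lit 2) (nat_lit 0xf00050002800140010000b0000000000000000000) (nat_lit 0x0) (nat_lit 0x3000100000000000000000000000000000000000000000) := D_42 (nat_lit 181) (nat_lit 180) (nat_lit 164) (nat_lit 3) (nat_lit 7) (nat_lit 9) (nat_lit 7) (nat_lit 10) (nat_lit 6) (by decide +kernel)
theorem L115068 : W_42 (nat_lit 3) (nat_lit 0x700050002800140010000b0000000000000000000) (nat_lit 0x0) (nat_lit 0x3000180008000000000000000000000000000000000000) := T_42 (nat_lit 163) (nat_lit 147) (nat_lit 2) (nat_lit 7) (nat_lit 9) L115067 (by decide +kernel)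
theorem L115069 : W_42 (nat_lit 4) (nat_lit 0x700010002800140010000b0000000000000000000) (nat_lit 0x0) (nat_lit 0x300018000c000000000000800000000000000000000000) := T_42 (nat_lit 146) (nat_lit 95) (nat_lit 6) (nat_lit 10) (nat_lit 8) L115068 (by decide +kernel)
theorem L115070 : W_42 (nat_lit 5) (nat_lit 0x600010002800140010000b0000000000000000000) (nat_lit 0x0) (nat_lit 0x320019000c000000000000800000000000000000000000) := T_42 (nat_lit 160) (nat_lit 177) (nat_lit 5) (nat_lit 8) (nat_lit 6) L115069 (by decide +kernel)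
theorem L115071 : W_42 (nat_lit 6) (nat_lit 0x200010002800140010000b0000000000000000000) (nat_lit 0x0) (nat_lit 0x3a001d000c000000000000800000000000000000000000) := T_42 (nat_lit 162) (nat_lit 179) (nat_lit 7) (nat_lit 8) (nat_lit 6) L115070 (by decide +kernel)
theorem L115072 : W_42 (nat_lit 2) (nat_lit 0x300010002800140012000f0000800000000000000) (nat_lit 0x0) (nat_lit 0x2000000000000c000000000000000) := D_42 (nat_lit 62) (nat_lit 63) (nat_lit 113) (nat_lit 2) (nat_lit 8) (nat_lit 4) (nat_lit 5) (nat_lit 11) (nat_lit 3) (by decide +kernel)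
theorem L115073 : W_42 (nat_lit 3) (nat_lit 0x300010002800140002000f0000800000000000000) (nat_lit 0x0) (nat_lit 0x2000300000000c000000000000000) := T_42 (nat_lit 96) (nat_lit 97) (nat_lit 3) (nat_lit 8) (nat_lit 4) L115072 (by decide +kernel)
theorem L115074 : W_42 (nat_lit 4) (nat_lit 0x300010002800140002000f0000000000000000000) (nat_lit 0x0) (nat_lit 0x2000300000000cc00000000000000) := T_42 (nat_lit 59) (nat_lit 58) (nat_lit 0) (nat_lit 11) (nat_lit 4) L115073 (by decide +kernel)
theorem L115075 : W_42 (nat_lit 5) (nat_lit 0x30001000280014000200070000000000000000000) (nat_lit 0x0) (nat_lit 0x2000310008000cc00000000000000) := T_42 (nat_lit 79) (nat_lit 92) (nat_lit 1) (nat_lit 11) (nat_lit 4) L115074 (by decide +kernel)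
theorem L115076 : W_42 (nat_lit 2) (nat_lit 0x2000100008003c000000020000000000000000000) (nat_lit 0x0) (nat_lit 0x2000300000000000000000000000) := D_42 (nat_lit 92) (nat_lit 93) (nat_lit 109) (nat_lit 0) (nat_lit 11) (nat_lit 6) (nat_lit 4) (nat_lit 8) (nat_lit 9) (by decide +kernel)
theorem L115077 : W_42 (nat_lit 3) (nat_lit 0x2000100008001c000000020000000000000000000) (nat_lit 0x0) (nat_lit 0x40022000300000000000000000000000) := T_42 (nat_lit 113) (nat_lit 126) (nat_lit 1) (nat_lit 11) (nat_lit 6) L115076 (by decide +kernel)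
theorem L115078 : W_42 (nat_lit 2) (nat_lit 0x7000100048003e000000020000000000000000000) (nat_lit 0x0) (nat_lit 0x3800000000000000000000000) := D_42 (nat_lit 96) (nat_lit 95) (nat_lit 97) (nat_lit 2) (nat_lit 7) (nat_lit 6) (nat_lit 2) (nat_lit 8) (nat_lit 6) (by decide +kernel)
theorem L115079 : W_42 (nat_lit 3) (nat_lit 0x7000100048003c000000020000000000000000000) (nat_lit 0x0) (nat_lit 0x200002003800000000000000000000000) := T_42 (nat_lit 109) (nat_lit 129) (nat_lit 3) (nat_lit 7) (nat_lit 6) L115078 (by decide +kernel)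
theorem L115080 : W_42 (nat_lit 4) (nat_lit 0x7000100008003c000000020000000000000000000) (nat_lit 0x0) (nat_lit 0xe00002003800000000000000000000000) := T_42 (nat_lit 130) (nat_lit 131) (nat_lit 3) (nat_lit 8) (nat_lit 6) L115079 (by decide +kernel)
theorem L115081 : W_42 (nat_lit 5) (nat_lit 0x3000100008003c000000020000000000000000000) (nat_lit 0x0) (nat_lit 0x800040000000e00002003800000000000000000000000) := T_42 (nat_lit 162) (nat_lit 179) (nat_lit 7) (nat_lit 8) (nat_lit 6) L115080 (by decide +kernel)
theorem L115082 : W_42 (nat_lit 6) (nat_lit 0x3000100008001c000000020000000000000000000) (nat_lit 0x0) (nat_lit 0x800040000000e40022003800000000000000000000000) := T_42 (nat_lit 113) (nat_lit 126) (nat_lit 1) (nat_lit 11) (nat_lit 6) L115081 (by decide +kernel)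
theorem L115083 : W_42 (nat_lit 7) (nat_lit 0x2000100008001c000000020000000000000000000) (nat_lit 0x0) (nat_lit 0xa00050000000e40022003800000000000000000000000) := T_42 (nat_lit 160) (nat_lit 177) (nat_lit 5) (nat_lit 8) (nat_lit 6) L115082 (by decide +kernel)
theorem L115084 : W_42 (nat_lit 2) (nat_lit 0x6000100029001f800000020000000000000000000) (nat_lit 0x0) (nat_lit 0xe0000000000000000000000) := D_42 (nat_lit 90) (nat_lit 89) (nat_lit 91) (nat_lit 0) (nat_lit 8) (nat_lit 6) (nat_lit 0) (nat_lit 9) (nat_lit 6) (by decide +kernel)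
theorem L115085 : W_42 (nat_lit 3) (nat_lit 0x6000100029001f000000020000000000000000000) (nat_lit 0x0) (nat_lit 0x80008000e0000000000000000000000) := T_42 (nat_lit 107) (nat_lit 123) (nat_lit 1) (nat_lit 8) (nat_lit 6) L115084 (by decide +kernel)
theorem L115086 : W_42 (nat_lit 4) (nat_lit 0x2000100029001f000000020000000000000000000) (nat_lit 0x0) (nat_lit 0x8000400000000080008000e0000000000000000000000) := T_42 (nat_lit 162) (nat_lit 179) (nat_lit 7) (nat_lit 8) (nat_lit 6) L115085 (by decide +kernel)
theorem L115087 : W_42 (nat_lit 5) (nat_lit 0x2000100028001f000000020000000000000000000) (nat_lit 0x0) (nat_lit 0x8000400000000380008000e0000000000000000000000) := T_42 (nat_lit 124) (nat_lit 125) (nat_lit 1) (nat_lit 9) (nat_lit 6) L115086 (by decide +kernel)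
theorem L115088 : W_42 (nat_lit 6) (nat_lit 0x2000100028001e000000020000000000000000000) (nat_lit 0x0) (nat_lit 0x8000400000001380018000e0000000000000000000000) := T_42 (nat_lit 108) (nat_lit 128) (nat_lit 3) (nat_lit 6) (nat_lit 6) L115087 (by decide +kernel)
theorem L115089 : W_42 (nat_lit 7) (nat_lit 0x2000100008001e000000020000000000000000000) (nat_lit 0x0) (nat_lit 0x8000400000007380018000e0000000000000000000000) := T_42 (nat_lit 129) (nat_lit 130) (nat_lit 3) (nat_lit 7) (nat_lit 6) L115088 (by decide +kernel)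
theorem L115090 : W_42 (nat_lit 8) (nat_lit 0x2000100008001c000000020000000000000000000) (nat_lit 0x0) (nat_lit 0x8000400000007380038001e0000000000000000000000) := T_42 (nat_lit 109) (nat_lit 92) (nat_lit 4) (nat_lit 8) (nat_lit 9) L115089 (by decide +kernel)
theorem L115091 : W_42 (nat_lit 2) (nat_lit 0x6000100008007c000000020000000000000000000) (nat_lit 0x0) (nat_lit 0x1c00000000000000000000000000000000) := D_42 (nat_lit 131) (nat_lit 130) (nat_lit 132) (nat_lit 3) (nat_lit 8) (nat_lit 6) (nat_lit 3) (nat_lit 9) (nat_lit 6) (by decide +kernel)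
theorem L115092 : W_42 (nat_lit 3) (nat_lit 0x6000100008003c000000020000000000000000000) (nat_lit 0x0) (nat_lit 0x1d00040000000000000000000000000000) := T_42 (nat_lit 114) (nat_lit 128) (nat_lit 1) (nat_lit 12) (nat_lit 6) L115091 (by decide +kernel)
theorem L115093 : W_42 (nat_lit 4) (nat_lit 0x6000100008001c000000020000000000000000000) (nat_lit 0x0) (nat_lit 0x1d40060000000000000000000000000000) := T_42 (nat_lit 113) (nat_lit 126) (nat_lit 1) (nat_lit 11) (nat_lit 6) L115092 (by decide +kernel)
theorem L115094 : W_42 (nat_lit 5) (nat_lit 0x2000100008001c000000020000000000000000000) (nat_lit 0x0) (nat_lit 0x800040000001d40060000000000000000000000000000) := T_42 (nat_lit 162) (nat_lit 179) (nat_lit 7) (nat_lit 8) (nat_lit 6) L115093 (by decide +kernel)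
theorem L115095 : W_42 (nat_lit 2) (nat_lit 0x3000100029001f800000020000000000000000000) (nat_lit 0x0) (nat_lit 0xe0000000000000000000000) := D_42 (nat_lit 90) (nat_lit 89) (nat_lit 91) (nat_lit 0) (nat_lit 8) (nat_lit 6) (nat_lit 0) (nat_lit 9) (nat_lit 6) (by decide +kernel)
theorem L115096 : W_42 (nat_lit 3) (nat_lit 0x3000100029001f000000020000000000000000000) (nat_lit 0x0) (nat_lit 0x80008000e0000000000000000000000) := T_42 (nat_lit 107) (nat_lit 123) (nat_lit 1) (nat_lit 8) (nat_lit 6) L115095 (by decide +kernel)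
theorem L115097 : W_42 (nat_lit 4) (nat_lit 0x2000100029001f000000020000000000000000000) (nat_lit 0x0) (nat_lit 0x2000100000000080008000e0000000000000000000000) := T_42 (nat_lit 160) (nat_lit 177) (nat_lit 5) (nat_lit 8) (nat_lit 6) L115096 (by decide +kernel)
theorem L115098 : W_42 (nat_lit 5) (nat_lit 0x2000100028001f000000020000000000000000000) (nat_lit 0x0) (nat_lit 0x2000100000000380008000e0000000000000000000000) := T_42 (nat_lit 124) (nat_lit 125) (nat_lit 1) (nat_lit 9) (nat_lit 6) L115097 (by decide +kernel)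
theorem L115099 : W_42 (nat_lit 6) (nat_lit 0x2000100028001e000000020000000000000000000) (nat_lit 0x0) (nat_lit 0x2000100000001380018000e0000000000000000000000) := T_42 (nat_lit 108) (nat_lit 128) (nat_lit 3) (nat_lit 6) (nat_lit 6) L115098 (by decide +kernel)
theorem L115100 : W_42 (nat_lit 7) (nat_lit 0x2000100008001e000000020000000000000000000) (nat_lit 0x0) (nat_lit 0x2000100000007380018000e0000000000000000000000) := T_42 (nat_lit 129) (nat_lit 130) (nat_lit 3) (nat_lit 7) (nat_lit 6) L115099 (by decide +kernel)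
theorem L115101 : W_42 (nat_lit 8) (nat_lit 0x2000100008001c000000020000000000000000000) (nat_lit 0x0) (nat_lit 0x2000100000007380038001e0000000000000000000000) := T_42 (nat_lit 109) (nat_lit 92) (nat_lit 4) (nat_lit 8) (nat_lit 9) L115100 (by decide +kernel)
theorem L115102 : W_42 (nat_lit 2) (nat_lit 0x3000100008007c000000020000000000000000000) (nat_lit 0x0) (nat_lit 0x1c00000000000000000000000000000000) := D_42 (nat_lit 131) (nat_lit 130) (nat_lit 132) (nat_lit 3) (nat_lit 8) (nat_lit 6) (nat_lit 3) (nat_lit 9) (nat_lit 6) (by decide +kernel)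
theorem L115103 : W_42 (nat_lit 3) (nat_lit 0x3000100008003c000000020000000000000000000) (nat_lit 0x0) (nat_lit 0x1d00040000000000000000000000000000) := T_42 (nat_lit 114) (nat_lit 128) (nat_lit 1) (nat_lit 12) (nat_lit 6) L115102 (by decide +kernel)
theorem L115104 : W_42 (nat_lit 4) (nat_lit 0x3000100008001c000000020000000000000000000) (nat_lit 0x0) (nat_lit 0x1d40060000000000000000000000000000) := T_42 (nat_lit 113) (nat_lit 126) (nat_lit 1) (nat_lit 11) (nat_lit 6) L115103 (by decide +kernel)
theorem L115105 : W_42 (nat_lit 5) (nat_lit 0x2000100008001c000000020000000000000000000) (nat_lit 0x0) (nat_lit 0x200010000001d40060000000000000000000000000000) := T_42 (nat_lit 160) (nat_lit 177) (nat_lit 5) (nat_lit 8) (nat_lit 6) L115104 (by decide +kernel)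
theorem L115106 : W_42 (nat_lit 2) (nat_lit 0x1e00050002c0034000000020000000000000000000) (nat_lit 0x0) (nat_lit 0x18000000000000800000000000000000000000) := D_42 (nat_lit 147) (nat_lit 95) (nat_lit 148) (nat_lit 7) (nat_lit 10) (nat_lit 5) (nat_lit 2) (nat_lit 8) (nat_lit 9) (by decide +kernel)
theorem L115107 : W_42 (nat_lit 3) (nat_lit 0xe00050002c0034000000020000000000000000000) (nat_lit 0x0) (nat_lit 0x2000100018000000000000800000000000000000000000) := T_42 (nat_lit 164) (nat_lit 181) (nat_lit 7) (nat_lit 10) (nat_lit 6) L115106 (by decide +kernel)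
theorem L115108 : W_42 (nat_lit 2) (nat_lit 0x600010001f0014800000020000000000000000000) (nat_lit 0x0) (nat_lit 0x700000000000000000000000000000000000) := D_42 (nat_lit 141) (nat_lit 140) (nat_lit 142) (nat_lit 1) (nat_lit 8) (nat_lit 7) (nat_lit 1) (nat_lit 9) (nat_lit 7) (by decide +kernel)
theorem L115109 : W_42 (nat_lit 3) (nat_lit 0x600010000f0014800000020000000000000000000) (nat_lit 0x0) (nat_lit 0x700100001000000000000000000000000000) := T_42 (nat_lit 128) (nat_lit 108) (nat_lit 0) (nat_lit 9) (nat_lit 7) L115108 (by decide +kernel)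
theorem L115110 : W_42 (nat_lit 4) (nat_lit 0x200010000f0014800000020000000000000000000) (nat_lit 0x0) (nat_lit 0x800040000700100001000000000000000000000000000) := T_42 (nat_lit 162) (nat_lit 179) (nat_lit 7) (nat_lit 8) (nat_lit 6) L115109 (by decide +kernel)
theorem L115111 : W_42 (nat_lit 2) (nat_lit 0xf0005000380014000000020000000000000000000) (nat_lit 0x0) (nat_lit 0x3000100000000000000000000000000000000000000000) := D_42 (nat_lit 181) (nat_lit 180) (nat_lit 164) (nat_lit 3) (nat_lit 7) (nat_lit 9) (nat_lit 7) (nat_lit 10) (nat_lit 6) (by decide +kernel)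
theorem L115112 : W_42 (nat_lit 3) (nat_lit 0x70005000380014000000020000000000000000000) (nat_lit 0x0) (nat_lit 0x3000180008000000000000000000000000000000000000) := T_42 (nat_lit 163) (nat_lit 147) (nat_lit 2) (nat_lit 7) (nat_lit 9) L115111 (by decide +kernel)
theorem L115113 : W_42 (nat_lit 4) (nat_lit 0x30005000380014000000020000000000000000000) (nat_lit 0x0) (nat_lit 0x38001c0008000000000000000000000000000000000000) := T_42 (nat_lit 162) (nat_lit 179) (nat_lit 7) (nat_lit 8) (nat_lit 6) L115112 (by decide +kernel)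
theorem L115114 : W_42 (nat_lit 5) (nat_lit 0x20005000380014000000020000000000000000000) (nat_lit 0x0) (nat_lit 0x3a001d0008000000000000000000000000000000000000) := T_42 (nat_lit 160) (nat_lit 177) (nat_lit 5) (nat_lit 8) (nat_lit 6) L115113 (by decide +kernel)
theorem L115115 : W_42 (nat_lit 2) (nat_lit 0x20005000380014000000020000000000000000000) (nat_lit 0x0) (nat_lit 0x8000040020000000000000000000000000000) := D_42 (nat_lit 126) (nat_lit 147) (nat_lit 113) (nat_lit 3) (nat_lit 7) (nat_lit 7) (nat_lit 2) (nat_lit 7) (nat_lit 7) (by decide +kernel)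
theorem L115116 : W_42 (nat_lit 2) (nat_lit 0x20001000380034000000020000000000000000000) (nat_lit 0x0) (nat_lit 0x4000c0000000000000000000000000000) := D_42 (nat_lit 114) (nat_lit 130) (nat_lit 115) (nat_lit 2) (nat_lit 8) (nat_lit 7) (nat_lit 1) (nat_lit 13) (nat_lit 6) (by decide +kernel)
theorem L115117 : W_42 (nat_lit 2) (nat_lit 0x60001000380034000000020000000000000000000) (nat_lit 0x0) (nat_lit 0x4000c0000000000000000000000000000) := D_42 (nat_lit 114) (nat_lit 115) (nat_lit 130) (nat_lit 1) (nat_lit 13) (nat_lit 6) (nat_lit 2) (nat_lit 8) (nat_lit 7) (by decide +kernel)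
theorem L115118 : W_42 (nat_lit 3) (nat_lit 0x60001000380014000000020000000000000000000) (nat_lit 0x0) (nat_lit 0x4400e0000000000000000000000000000) := T_42 (nat_lit 113) (nat_lit 126) (nat_lit 2) (nat_lit 7) (nat_lit 7) L115117 (by decide +kernel)
theorem L115119 : W_42 (nat_lit 4) (nat_lit 0x20001000380014000000020000000000000000000) (nat_lit 0x0) (nat_lit 0x8000400000004400e0000000000000000000000000000) := T_42 (nat_lit 162) (nat_lit 179) (nat_lit 7) (nat_lit 8) (nat_lit 6) L115118 (by decide +kernel)
theorem L115120 : W_42 (nat_lit 2) (nat_lit 0xf0009000780014000000020000000000000000000) (nat_lit 0x0) (nat_lit 0x3000100000000000000000000000000000000000000000) := D_42 (nat_lit 181) (nat_lit 164) (nat_lit 180) (nat_lit 4) (nat_lit 11) (nat_lit 10) (nat_lit 3) (nat_lit 7) (nat_lit 9) (by decide +kernel)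
theorem L115121 : W_42 (nat_lit 3) (nat_lit 0x70009000780014000000020000000000000000000) (nat_lit 0x0) (nat_lit 0x3000180004000000000000000000000000000000000000) := T_42 (nat_lit 163) (nat_lit 146) (nat_lit 2) (nat_lit 7) (nat_lit 9) L115120 (by decide +kernel)
theorem L115122 : W_42 (nat_lit 4) (nat_lit 0x60009000780014000000020000000000000000000) (nat_lit 0x0) (nat_lit 0x3200190004000000000000000000000000000000000000) := T_42 (nat_lit 160) (nat_lit 177) (nat_lit 5) (nat_lit 8) (nat_lit 6) L115121 (by decide +kernel)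
theorem L115123 : W_42 (nat_lit 5) (nat_lit 0x60001000780014000000020000000000000000000) (nat_lit 0x0) (nat_lit 0x320019001c000000000000000000000000000000000000) := T_42 (nat_lit 147) (nat_lit 148) (nat_lit 3) (nat_lit 8) (nat_lit 7) L115122 (by decide +kernel)
theorem L115124 : W_42 (nat_lit 4) (nat_lit 0x2000100008003c000000020000000000000000000) (nat_lit 0x0) (nat_lit 0x800040000001d00040000000000000000000000000000) := T_42 (nat_lit 162) (nat_lit 179) (nat_lit 7) (nat_lit 8) (nat_lit 6) L115092 (by decide +kernel)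
theorem L115125 : W_42 (nat_lit 2) (nat_lit 0x2000100058003c001200020000000000000000000) (nat_lit 0x0) (nat_lit 0x10001800000000000000) := D_42 (nat_lit 76) (nat_lit 60) (nat_lit 59) (nat_lit 6) (nat_lit 8) (nat_lit 7) (nat_lit 7) (nat_lit 8) (nat_lit 3) (by decide +kernel)
theorem L115126 : W_42 (nat_lit 3) (nat_lit 0x2000100058003c001000020000000000000000000) (nat_lit 0x0) (nat_lit 0x300010001800000000000000) := T_42 (nat_lit 93) (nat_lit 92) (nat_lit 0) (nat_lit 11) (nat_lit 6) L115125 (by decide +kernel)
theorem L115127 : W_42 (nat_lit 4) (nat_lit 0x2000100048003c001000020000000000000000000) (nat_lit 0x0) (nat_lit 0x100040000300010001800000000000000) := T_42 (nat_lit 128) (nat_lit 114) (nat_lit 1) (nat_lit 12) (nat_lit 6) L115126 (by decide +kernel)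
theorem L115128 : W_42 (nat_lit 5) (nat_lit 0x2000100048003c000000020000000000000000000) (nat_lit 0x0) (nat_lit 0x100040003300010001800000000000000) := T_42 (nat_lit 96) (nat_lit 97) (nat_lit 2) (nat_lit 8) (nat_lit 6) L115127 (by decide +kernel)
theorem L115129 : W_42 (nat_lit 6) (nat_lit 0x2000100008003c000000020000000000000000000) (nat_lit 0x0) (nat_lit 0xd00040003300010001800000000000000) := T_42 (nat_lit 130) (nat_lit 131) (nat_lit 3) (nat_lit 8) (nat_lit 6) L115128 (by decide +kernel)
theorem L115130 : W_42 (nat_lit 2) (nat_lit 0x3000100088003c002000020000000000000000000) (nat_lit 0x0) (nat_lit 0x1000040004000000000000000000000000) := D_42 (nat_lit 114) (nat_lit 132) (nat_lit 98) (nat_lit 3) (nat_lit 9) (nat_lit 6) (nat_lit 2) (nat_lit 9) (nat_lit 6) (by decide +kernel)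
theorem L115131 : W_42 (nat_lit 3) (nat_lit 0x3000100088003c000000020000000000000000000) (nat_lit 0x0) (nat_lit 0x1000040007000000000000000000000000) := T_42 (nat_lit 97) (nat_lit 96) (nat_lit 2) (nat_lit 8) (nat_lit 6) L115130 (by decide +kernel)
theorem L115132 : W_42 (nat_lit 4) (nat_lit 0x3000100008003c000000020000000000000000000) (nat_lit 0x0) (nat_lit 0x1c00040007000000000000000000000000) := T_42 (nat_lit 131) (nat_lit 130) (nat_lit 3) (nat_lit 8) (nat_lit 6) L115131 (by decide +kernel)
theorem L115133 : W_42 (nat_lit 5) (nat_lit 0x2000100008003c000000020000000000000000000) (nat_lit 0x0) (nat_lit 0x200010000001c00040007000000000000000000000000) := T_42 (nat_lit 160) (nat_lit 177) (nat_lit 5) (nat_lit 8) (nat_lit 6) L115132 (by decide +kernel)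
theorem L115134 : W_42 (nat_lit 2) (nat_lit 0x2000100008007c000000020000000000000000000) (nat_lit 0x0) (nat_lit 0x7000000000000000000000000) := D_42 (nat_lit 97) (nat_lit 96) (nat_lit 98) (nat_lit 2) (nat_lit 8) (nat_lit 6) (nat_lit 2) (nat_lit 9) (nat_lit 6) (by decide +kernel)
theorem L115135 : W_42 (nat_lit 3) (nat_lit 0x2000100008003c000000020000000000000000000) (nat_lit 0x0) (nat_lit 0x100040007000000000000000000000000) := T_42 (nat_lit 114) (nat_lit 128) (nat_lit 1) (nat_lit 12) (nat_lit 6) L115134 (by decide +kernel)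
theorem L115136 : W_42 (nat_lit 6) (nat_lit 0x7000100048003c001200030000000000000000000) (nat_lit 0x0) (nat_lit 0x80001000000008000c0002f00020000000000) := T_42 (nat_lit 59) (nat_lit 128) (nat_lit 7) (nat_lit 8) (nat_lit 3) L115048 (by decide +kernel)
theorem L115137 : W_42 (nat_lit 7) (nat_lit 0x7000100048003c001200020000000000000000000) (nat_lit 0x0) (nat_lit 0x80001000000008000d0003f00020000000000) := T_42 (nat_lit 76) (nat_lit 60) (nat_lit 6) (nat_lit 8) (nat_lit 7) L115136 (by decide +kernel)
theorem L115138 : W_42 (nat_lit 8) (nat_lit 0x7000100048003c001000020000000000000000000) (nat_lit 0x0) (nat_lit 0x8000100000000b000d0003f00020000000000) := T_42 (nat_lit 93) (nat_lit 92) (nat_lit 0) (nat_lit 11) (nat_lit 6) L115137 (by decide +kernel)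
theorem L115139 : W_42 (nat_lit 9) (nat_lit 0x3000100048003c001000020000000000000000000) (nat_lit 0x0) (nat_lit 0x800040008000100000000b000d0003f00020000000000) := T_42 (nat_lit 162) (nat_lit 179) (nat_lit 7) (nat_lit 8) (nat_lit 6) L115138 (by decide +kernel)
theorem L115140 : W_42 (nat_lit 10) (nat_lit 0x3000100048003c000000020000000000000000000) (nat_lit 0x0) (nat_lit 0x800040008000100000003b000d0003f00020000000000) := T_42 (nat_lit 96) (nat_lit 97) (nat_lit 2) (nat_lit 8) (nat_lit 6) L115139 (by decide +kernel)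
theorem L115141 : W_42 (nat_lit 11) (nat_lit 0x3000100008003c000000020000000000000000000) (nat_lit 0x0) (nat_lit 0x800040008000d00000003b000d0003f00020000000000) := T_42 (nat_lit 130) (nat_lit 131) (nat_lit 3) (nat_lit 8) (nat_lit 6) L115140 (by decide +kernel)
theorem L115142 : W_42 (nat_lit 12) (nat_lit 0x2000100008003c000000020000000000000000000) (nat_lit 0x0) (nat_lit 0xa00050008000d00000003b000d0003f00020000000000) := T_42 (nat_lit 160) (nat_lit 177) (nat_lit 5) (nat_lit 8) (nat_lit 6) L115141 (by decide +kernel)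
theorem L115143 : W_42 (nat_lit 13) (nat_lit 0x20001000080034000000020000000000000000000) (nat_lit 0x0) (nat_lit 0xa00050008001d00048007b000d0003f00020000000000) := Q_42 (nat_lit 111) (C_42 L115124 (C_42 L115129 (C_42 L115133 (C_42 L115135 (C_42 L115142 N_42))))) (by decide +kernel)
theorem L115144 : W_42 (nat_lit 4) (nat_lit 0x20001000080034000000020000000000000000000) (nat_lit 0x0) (nat_lit 0x140048007000000000000000000000000) := T_42 (nat_lit 111) (nat_lit 126) (nat_lit 1) (nat_lit 11) (nat_lit 6) L115135 (by decide +kernel)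
theorem L115145 : W_42 (nat_lit 6) (nat_lit 0x20001000080034000000020000000000000000000) (nat_lit 0x0) (nat_lit 0x200010000001c40048007000000000000000000000000) := T_42 (nat_lit 111) (nat_lit 126) (nat_lit 1) (nat_lit 11) (nat_lit 6) L115133 (by decide +kernel)
theorem L115146 : W_42 (nat_lit 2) (nat_lit 0x60005000280034001000020000000000000000000) (nat_lit 0x0) (nat_lit 0x800080004000000000000000) := D_42 (nat_lit 79) (nat_lit 62) (nat_lit 95) (nat_lit 5) (nat_lit 11) (nat_lit 3) (nat_lit 6) (nat_lit 10) (nat_lit 8) (by decide +kernel)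
theorem L115147 : W_42 (nat_lit 3) (nat_lit 0x60001000280034001000020000000000000000000) (nat_lit 0x0) (nat_lit 0x80004000000000000800080004000000000000000) := T_42 (nat_lit 146) (nat_lit 163) (nat_lit 6) (nat_lit 10) (nat_lit 9) L115146 (by decide +kernel)
theorem L115148 : W_42 (nat_lit 4) (nat_lit 0x20001000280034001000020000000000000000000) (nat_lit 0x0) (nat_lit 0x8000c0004000000000000800080004000000000000000) := T_42 (nat_lit 162) (nat_lit 179) (nat_lit 7) (nat_lit 8) (nat_lit 6) L115147 (by decide +kernel)
theorem L115149 : W_42 (nat_lit 2) (nat_lit 0x200010002800340010000a0000000000000000000) (nat_lit 0x0) (nat_lit 0x80004000400000000000000000000000000000000) := D_42 (nat_lit 146) (nat_lit 163) (nat_lit 130) (nat_lit 6) (nat_lit 10) (nat_lit 9) (nat_lit 5) (nat_lit 11) (nat_lit 4) (by decide +kernel)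
theorem L115150 : W_42 (nat_lit 3) (nat_lit 0x20001000280034001000020000000000000000000) (nat_lit 0x0) (nat_lit 0x80004000400000000000080004000000000000000) := T_42 (nat_lit 79) (nat_lit 62) (nat_lit 5) (nat_lit 11) (nat_lit 3) L115149 (by decide +kernel)
theorem L115151 : W_42 (nat_lit 2) (nat_lit 0x20001f0001000280034001000020000000000000000000) (nat_lit 0x0) (nat_lit 0x18000400000000000000000000000000000000) := D_42 (nat_lit 147) (nat_lit 148) (nat_lit 130) (nat_lit 2) (nat_lit 8) (nat_lit 9) (nat_lit 4) (nat_lit 11) (nat_lit 10) (by decide +kernel)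
theorem L115152 : W_42 (nat_lit 3) (nat_lit 0x20000f0001000280034001000020000000000000000000) (nat_lit 0x0) (nat_lit 0x4000100018000400000000000000000000000000000000) := T_42 (nat_lit 164) (nat_lit 182) (nat_lit 3) (nat_lit 8) (nat_lit 9) L115151 (by decide +kernel)
theorem L115153 : W_42 (nat_lit 4) (nat_lit 0xf0001000280034001000020000000000000000000) (nat_lit 0x0) (nat_lit 0x7000100018000400000000000000000000000000000000) := T_42 (nat_lit 181) (nat_lit 180) (nat_lit 3) (nat_lit 7) (nat_lit 9) L115152 (by decide +kernel)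
theorem L115154 : W_42 (nat_lit 5) (nat_lit 0xe0001000280034001000020000000000000000000) (nat_lit 0x0) (nat_lit 0x7200110018000400000000000000000000000000000000) := T_42 (nat_lit 160) (nat_lit 177) (nat_lit 5) (nat_lit 8) (nat_lit 6) L115153 (by decide +kernel)
theorem L115155 : W_42 (nat_lit 6) (nat_lit 0xa0001000280034001000020000000000000000000) (nat_lit 0x0) (nat_lit 0x7a00150018000400000000000000000000000000000000) := T_42 (nat_lit 162) (nat_lit 179) (nat_lit 7) (nat_lit 8) (nat_lit 6) L115154 (by decide +kernel)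
theorem L115156 : W_42 (nat_lit 7) (nat_lit 0x20001000280034001000020000000000000000000) (nat_lit 0x0) (nat_lit 0x7a001d001c000400000000000000000000000000000000) := T_42 (nat_lit 163) (nat_lit 146) (nat_lit 6) (nat_lit 10) (nat_lit 9) L115155 (by decide +kernel)
theorem L115157 : W_42 (nat_lit 2) (nat_lit 0x70001002e800340010001e0000000000000000000) (nat_lit 0x0) (nat_lit 0x8000000000000800000001000000000000000) := D_42 (nat_lit 95) (nat_lit 60) (nat_lit 147) (nat_lit 4) (nat_lit 10) (nat_lit 7) (nat_lit 7) (nat_lit 10) (nat_lit 4) (by decide +kernel)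
theorem L115158 : W_42 (nat_lit 3) (nat_lit 0x70001002e800340010001a0000000000000000000) (nat_lit 0x0) (nat_lit 0x8000000000000800040003000000000000000) := T_42 (nat_lit 78) (nat_lit 61) (nat_lit 4) (nat_lit 11) (nat_lit 7) L115157 (by decide +kernel)
theorem L115159 : W_42 (nat_lit 4) (nat_lit 0x70001002e800340010000a0000000000000000000) (nat_lit 0x0) (nat_lit 0x800000000000080014000b000000000000000) := T_42 (nat_lit 80) (nat_lit 63) (nat_lit 6) (nat_lit 11) (nat_lit 7) L115158 (by decide +kernel)
theorem L115160 : W_42 (nat_lit 5) (nat_lit 0x70001000e800340010000a0000000000000000000) (nat_lit 0x0) (nat_lit 0x800300000000080014000b000000000000000) := T_42 (nat_lit 133) (nat_lit 132) (nat_lit 0) (nat_lit 14) (nat_lit 7) L115159 (by decide +kernel)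
theorem L115161 : W_42 (nat_lit 6) (nat_lit 0x700010006800340010000a0000000000000000000) (nat_lit 0x0) (nat_lit 0x1800380000000080014000b000000000000000) := T_42 (nat_lit 131) (nat_lit 148) (nat_lit 7) (nat_lit 11) (nat_lit 4) L115160 (by decide +kernel)
theorem L115162 : W_42 (nat_lit 7) (nat_lit 0x600010006800340010000a0000000000000000000) (nat_lit 0x0) (nat_lit 0x20001001800380000000080014000b000000000000000) := T_42 (nat_lit 160) (nat_lit 177) (nat_lit 5) (nat_lit 8) (nat_lit 6) L115161 (by decide +kernel)
theorem L115163 : W_42 (nat_lit 8) (nat_lit 0x60001000680034001000020000000000000000000) (nat_lit 0x0) (nat_lit 0x2000100180038000000008001c000f000000000000000) := T_42 (nat_lit 79) (nat_lit 62) (nat_lit 5) (nat_lit 11) (nat_lit 3) L115162 (by decide +kernel)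
theorem L115164 : W_42 (nat_lit 9) (nat_lit 0x20001000680034001000020000000000000000000) (nat_lit 0x0) (nat_lit 0xa000500180038000000008001c000f000000000000000) := T_42 (nat_lit 162) (nat_lit 179) (nat_lit 7) (nat_lit 8) (nat_lit 6) L115163 (by decide +kernel)
theorem L115165 : W_42 (nat_lit 2) (nat_lit 0x30009000780034001000020000000000000000000) (nat_lit 0x0) (nat_lit 0x2000100000000000000000800000000000000000000000) := D_42 (nat_lit 164) (nat_lit 95) (nat_lit 181) (nat_lit 4) (nat_lit 11) (nat_lit 9) (nat_lit 4) (nat_lit 11) (nat_lit 10) (by decide +kernel)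
theorem L115166 : W_42 (nat_lit 3) (nat_lit 0x30001000780034001000020000000000000000000) (nat_lit 0x0) (nat_lit 0x2000100018000000000000800000000000000000000000) := T_42 (nat_lit 147) (nat_lit 148) (nat_lit 3) (nat_lit 8) (nat_lit 7) L115165 (by decide +kernel)
theorem L115167 : W_42 (nat_lit 4) (nat_lit 0x30001000680034001000020000000000000000000) (nat_lit 0x0) (nat_lit 0x2000100018000100040000800000000000000000000000) := T_42 (nat_lit 128) (nat_lit 114) (nat_lit 2) (nat_lit 8) (nat_lit 7) L115166 (by decide +kernel)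
theorem L115168 : W_42 (nat_lit 5) (nat_lit 0x20001000680034001000020000000000000000000) (nat_lit 0x0) (nat_lit 0x2200110018000100040000800000000000000000000000) := T_42 (nat_lit 160) (nat_lit 177) (nat_lit 5) (nat_lit 8) (nat_lit 6) L115167 (by decide +kernel)
theorem L115169 : W_42 (nat_lit 2) (nat_lit 0x60009000780034001000020000000000000000000) (nat_lit 0x0) (nat_lit 0x100000000000000000800040000000000000000000) := D_42 (nat_lit 95) (nat_lit 78) (nat_lit 164) (nat_lit 7) (nat_lit 10) (nat_lit 4) (nat_lit 4) (nat_lit 11) (nat_lit 9) (by decide +kernel)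
theorem L115170 : W_42 (nat_lit 3) (nat_lit 0x60001000780034001000020000000000000000000) (nat_lit 0x0) (nat_lit 0x100018000000000000800040000000000000000000) := T_42 (nat_lit 147) (nat_lit 148) (nat_lit 3) (nat_lit 8) (nat_lit 7) L115169 (by decide +kernel)
theorem L115171 : W_42 (nat_lit 4) (nat_lit 0x60001000680034001000020000000000000000000) (nat_lit 0x0) (nat_lit 0x100018000100040000800040000000000000000000) := T_42 (nat_lit 128) (nat_lit 114) (nat_lit 2) (nat_lit 8) (nat_lit 7) L115170 (by decide +kernel)
theorem L115172 : W_42 (nat_lit 5) (nat_lit 0x20001000680034001000020000000000000000000) (nat_lit 0x0) (nat_lit 0x800140018000100040000800040000000000000000000) := T_42 (nat_lit 162) (nat_lit 179) (nat_lit 7) (nat_lit 8) (nat_lit 6) L115171 (by decide +kernel)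
theorem L115173 : W_42 (nat_lit 2) (nat_lit 0x30001002e800340010001e0000000000000000000) (nat_lit 0x0) (nat_lit 0x8000000000006000000000000000000000000) := D_42 (nat_lit 97) (nat_lit 98) (nat_lit 147) (nat_lit 3) (nat_lit 9) (nat_lit 4) (nat_lit 6) (nat_lit 11) (nat_lit 8) (by decide +kernel)
theorem L115174 : W_42 (nat_lit 3) (nat_lit 0x30001002e800340010001a0000000000000000000) (nat_lit 0x0) (nat_lit 0x8000000000006000040002000000000000000) := T_42 (nat_lit 78) (nat_lit 61) (nat_lit 4) (nat_lit 11) (nat_lit 7) L115173 (by decide +kernel)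
theorem L115175 : W_42 (nat_lit 4) (nat_lit 0x30001002e800340010000a0000000000000000000) (nat_lit 0x0) (nat_lit 0x800000000000600014000a000000000000000) := T_42 (nat_lit 80) (nat_lit 63) (nat_lit 6) (nat_lit 11) (nat_lit 7) L115174 (by decide +kernel)
theorem L115176 : W_42 (nat_lit 5) (nat_lit 0x30001000e800340010000a0000000000000000000) (nat_lit 0x0) (nat_lit 0x800300000000600014000a000000000000000) := T_42 (nat_lit 133) (nat_lit 132) (nat_lit 0) (nat_lit 14) (nat_lit 7) L115175 (by decide +kernel)
theorem L115177 : W_42 (nat_lit 6) (nat_lit 0x300010006800340010000a0000000000000000000) (nat_lit 0x0) (nat_lit 0x1800380000000600014000a000000000000000) := T_42 (nat_lit 131) (nat_lit 148) (nat_lit 7) (nat_lit 11) (nat_lit 4) L115176 (by decide +kernel)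
theorem L115178 : W_42 (nat_lit 7) (nat_lit 0x200010006800340010000a0000000000000000000) (nat_lit 0x0) (nat_lit 0x20001001800380000000600014000a000000000000000) := T_42 (nat_lit 160) (nat_lit 177) (nat_lit 5) (nat_lit 8) (nat_lit 6) L115177 (by decide +kernel)
theorem L115179 : W_42 (nat_lit 8) (nat_lit 0x20001000680034001000020000000000000000000) (nat_lit 0x0) (nat_lit 0x2000100180038000000060001c000e000000000000000) := T_42 (nat_lit 79) (nat_lit 62) (nat_lit 5) (nat_lit 11) (nat_lit 3) L115178 (by decide +kernel)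
theorem L115180 : W_42 (nat_lit 2) (nat_lit 0x20001002f800340010001e0000000000000000000) (nat_lit 0x0) (nat_lit 0x800000001800000000000000) := D_42 (nat_lit 60) (nat_lit 95) (nat_lit 59) (nat_lit 4) (nat_lit 10) (nat_lit 7) (nat_lit 0) (nat_lit 12) (nat_lit 4) (by decide +kernel)
theorem L115181 : W_42 (nat_lit 3) (nat_lit 0x20001002f800340010001a0000000000000000000) (nat_lit 0x0) (nat_lit 0x800040003800000000000000) := T_42 (nat_lit 78) (nat_lit 61) (nat_lit 4) (nat_lit 11) (nat_lit 7) L115180 (by decide +kernel)
theorem L115182 : W_42 (nat_lit 4) (nat_lit 0x20001002f800340010000a0000000000000000000) (nat_lit 0x0) (nat_lit 0x80014000b800000000000000) := T_42 (nat_lit 80) (nat_lit 63) (nat_lit 6) (nat_lit 11) (nat_lit 7) L115181 (by decide +kernel)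
theorem L115183 : W_42 (nat_lit 5) (nat_lit 0x20001000f800340010000a0000000000000000000) (nat_lit 0x0) (nat_lit 0x300000000080014000b800000000000000) := T_42 (nat_lit 133) (nat_lit 132) (nat_lit 0) (nat_lit 14) (nat_lit 7) L115182 (by decide +kernel)
theorem L115184 : W_42 (nat_lit 6) (nat_lit 0x200010007800340010000a0000000000000000000) (nat_lit 0x0) (nat_lit 0x1000380000000080014000b800000000000000) := T_42 (nat_lit 131) (nat_lit 148) (nat_lit 7) (nat_lit 11) (nat_lit 4) L115183 (by decide +kernel)
theorem L115185 : W_42 (nat_lit 7) (nat_lit 0x200010006800340010000a0000000000000000000) (nat_lit 0x0) (nat_lit 0x1000390004000080014000b800000000000000) := T_42 (nat_lit 128) (nat_lit 114) (nat_lit 2) (nat_lit 8) (nat_lit 7) L115184 (by decide +kernel)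
theorem L115186 : W_42 (nat_lit 8) (nat_lit 0x20001000680034001000020000000000000000000) (nat_lit 0x0) (nat_lit 0x100039000400008001c000f800000000000000) := T_42 (nat_lit 79) (nat_lit 62) (nat_lit 5) (nat_lit 11) (nat_lit 3) L115185 (by decide +kernel)
theorem L115187 : W_42 (nat_lit 2) (nat_lit 0x600010007800340010001e0000000000000000000) (nat_lit 0x0) (nat_lit 0x8000000000000800000001000000000000000) := D_42 (nat_lit 95) (nat_lit 60) (nat_lit 147) (nat_lit 4) (nat_lit 10) (nat_lit 7) (nat_lit 7) (nat_lit 10) (nat_lit 4) (by decide +kernel)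
theorem L115188 : W_42 (nat_lit 3) (nat_lit 0x600010007800340010001a0000000000000000000) (nat_lit 0x0) (nat_lit 0x8000000000000800040003000000000000000) := T_42 (nat_lit 78) (nat_lit 61) (nat_lit 4) (nat_lit 11) (nat_lit 7) L115187 (by decide +kernel)
theorem L115189 : W_42 (nat_lit 4) (nat_lit 0x600010007800340010000a0000000000000000000) (nat_lit 0x0) (nat_lit 0x800000000000080014000b000000000000000) := T_42 (nat_lit 80) (nat_lit 63) (nat_lit 6) (nat_lit 11) (nat_lit 7) L115188 (by decide +kernel)
theorem L115190 : W_42 (nat_lit 5) (nat_lit 0x200010007800340010000a0000000000000000000) (nat_lit 0x0) (nat_lit 0x80004000800000000000080014000b000000000000000) := T_42 (nat_lit 162) (nat_lit 179) (nat_lit 7) (nat_lit 8) (nat_lit 6) L115189 (by decide +kernel)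
theorem L115191 : W_42 (nat_lit 6) (nat_lit 0x20001000780034001000020000000000000000000) (nat_lit 0x0) (nat_lit 0x8000400080000000000008001c000f000000000000000) := T_42 (nat_lit 79) (nat_lit 62) (nat_lit 5) (nat_lit 11) (nat_lit 3) L115190 (by decide +kernel)
theorem L115192 : W_42 (nat_lit 7) (nat_lit 0x20001000680034001000020000000000000000000) (nat_lit 0x0) (nat_lit 0x8000400080001000400008001c000f000000000000000) := T_42 (nat_lit 128) (nat_lit 114) (nat_lit 2) (nat_lit 8) (nat_lit 7) L115191 (by decide +kernel)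
theorem L115193 : W_42 (nat_lit 10) (nat_lit 0x20001000280034001000020000000000000000000) (nat_lit 0x0) (nat_lit 0x2a00150018003d000400068001c000f800000000000000) := Q_42 (nat_lit 130) (C_42 L115164 (C_42 L115168 (C_42 L115172 (C_42 L115179 (C_42 L115186 (C_42 L115192 N_42)))))) (by decide +kernel)
theorem L115194 : W_42 (nat_lit 11) (nat_lit 0x20001000280034000000020000000000000000000) (nat_lit 0x0) (nat_lit 0x7a001d001c003d000400078001c000f800000000000000) := Q_42 (nat_lit 96) (C_42 L115148 (C_42 L115150 (C_42 L115156 (C_42 L115193 N_42)))) (by decide +kernel)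
theorem L115195 : W_42 (nat_lit 3) (nat_lit 0x60001000280034000000020000000000000000000) (nat_lit 0x0) (nat_lit 0x5400c0000000000000000000000000000) := T_42 (nat_lit 128) (nat_lit 126) (nat_lit 2) (nat_lit 7) (nat_lit 7) L115117 (by decide +kernel)
theorem L115196 : W_42 (nat_lit 4) (nat_lit 0x20001000280034000000020000000000000000000) (nat_lit 0x0) (nat_lit 0x8000400000005400c0000000000000000000000000000) := T_42 (nat_lit 162) (nat_lit 179) (nat_lit 7) (nat_lit 8) (nat_lit 6) L115195 (by decide +kernel)
theorem L115197 : W_42 (nat_lit 3) (nat_lit 0x20001000280034000000020000000000000000000) (nat_lit 0x0) (nat_lit 0x5400c0000000000000000000000000000) := T_42 (nat_lit 128) (nat_lit 126) (nat_lit 2) (nat_lit 7) (nat_lit 7) L115116 (by decide +kernel)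
theorem L115198 : W_42 (nat_lit 2) (nat_lit 0x60001000280034001800060000000000000000000) (nat_lit 0x0) (nat_lit 0x8000400000000000000002000000000000000) := D_42 (nat_lit 130) (nat_lit 147) (nat_lit 61) (nat_lit 7) (nat_lit 10) (nat_lit 4) (nat_lit 7) (nat_lit 10) (nat_lit 3) (by decide +kernel)
theorem L115199 : W_42 (nat_lit 3) (nat_lit 0x60001000280034001000060000000000000000000) (nat_lit 0x0) (nat_lit 0x8000400000000800000003000000000000000) := T_42 (nat_lit 95) (nat_lit 60) (nat_lit 4) (nat_lit 10) (nat_lit 7) L115198 (by decide +kernel)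
theorem L115200 : W_42 (nat_lit 4) (nat_lit 0x20001000280034001000060000000000000000000) (nat_lit 0x0) (nat_lit 0x800040008000400000000800000003000000000000000) := T_42 (nat_lit 162) (nat_lit 179) (nat_lit 7) (nat_lit 8) (nat_lit 6) L115199 (by decide +kernel)
theorem L115201 : W_42 (nat_lit 2) (nat_lit 0x20001000280034001800060000000000000000000) (nat_lit 0x0) (nat_lit 0x8000400000000000000002000000000000000) := D_42 (nat_lit 130) (nat_lit 147) (nat_lit 61) (nat_lit 7) (nat_lit 10) (nat_lit 4) (nat_lit 7) (nat_lit 10) (nat_lit 3) (by decide +kernel)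
theorem L115202 : W_42 (nat_lit 3) (nat_lit 0x20001000280034001000060000000000000000000) (nat_lit 0x0) (nat_lit 0x8000400000000800000003000000000000000) := T_42 (nat_lit 95) (nat_lit 60) (nat_lit 4) (nat_lit 10) (nat_lit 7) L115201 (by decide +kernel)
theorem L115203 : W_42 (nat_lit 2) (nat_lit 0x700010002800340010000f0000000000000000000) (nat_lit 0x0) (nat_lit 0x300000001000000000000000) := D_42 (nat_lit 93) (nat_lit 92) (nat_lit 60) (nat_lit 1) (nat_lit 11) (nat_lit 4) (nat_lit 6) (nat_lit 8) (nat_lit 7) (by decide +kernel)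
theorem L115204 : W_42 (nat_lit 3) (nat_lit 0x700010002800340010000e0000000000000000000) (nat_lit 0x0) (nat_lit 0x2300010001000000000000000) := T_42 (nat_lit 76) (nat_lit 97) (nat_lit 3) (nat_lit 8) (nat_lit 4) L115203 (by decide +kernel)
theorem L115205 : W_42 (nat_lit 4) (nat_lit 0x600010002800340010000e0000000000000000000) (nat_lit 0x0) (nat_lit 0x200010000000000000002300010001000000000000000) := T_42 (nat_lit 160) (nat_lit 177) (nat_lit 5) (nat_lit 8) (nat_lit 6) L115204 (by decide +kernel)
theorem L115206 : W_42 (nat_lit 5) (nat_lit 0x60001000280034001000060000000000000000000) (nat_lit 0x0) (nat_lit 0x200010000000000000002300090005000000000000000) := T_42 (nat_lit 79) (nat_lit 62) (nat_lit 5) (nat_lit 11) (nat_lit 3) L115205 (by decide +kernel)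
theorem L115207 : W_42 (nat_lit 6) (nat_lit 0x20001000280034001000060000000000000000000) (nat_lit 0x0) (nat_lit 0xa00050000000000000002300090005000000000000000) := T_42 (nat_lit 162) (nat_lit 179) (nat_lit 7) (nat_lit 8) (nat_lit 6) L115206 (by decide +kernel)
theorem L115208 : W_42 (nat_lit 2) (nat_lit 0x700090006800340012000f0000800000000000000) (nat_lit 0x0) (nat_lit 0x200010000800000000000000000000000000000000) := D_42 (nat_lit 148) (nat_lit 131) (nat_lit 165) (nat_lit 7) (nat_lit 11) (nat_lit 4) (nat_lit 7) (nat_lit 11) (nat_lit 5) (by decide +kernel)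
theorem L115209 : W_42 (nat_lit 3) (nat_lit 0x700010006800340012000f0000800000000000000) (nat_lit 0x0) (nat_lit 0x200018000800000000800000000000000000000000) := T_42 (nat_lit 147) (nat_lit 95) (nat_lit 7) (nat_lit 10) (nat_lit 4) L115208 (by decide +kernel)
theorem L115210 : W_42 (nat_lit 4) (nat_lit 0x700010006800340012000f0000000000000000000) (nat_lit 0x0) (nat_lit 0x200018000800000000800000000c00000000000000) := T_42 (nat_lit 59) (nat_lit 58) (nat_lit 0) (nat_lit 11) (nat_lit 4) L115209 (by decide +kernel)
theorem L115211 : W_42 (nat_lit 5) (nat_lit 0x700010006800340010000f0000000000000000000) (nat_lit 0x0) (nat_lit 0x200018000800000000b00000000c00000000000000) := T_42 (nat_lit 93) (nat_lit 92) (nat_lit 1) (nat_lit 11) (nat_lit 4) L115210 (by decide +kernel)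
theorem L115212 : W_42 (nat_lit 6) (nat_lit 0x700010006800340010000e0000000000000000000) (nat_lit 0x0) (nat_lit 0x200018000800000002b00010000c00000000000000) := T_42 (nat_lit 76) (nat_lit 97) (nat_lit 3) (nat_lit 8) (nat_lit 4) L115211 (by decide +kernel)
theorem L115213 : W_42 (nat_lit 7) (nat_lit 0x700010002800340010000e0000000000000000000) (nat_lit 0x0) (nat_lit 0x200018000c00000002b00010002c00000000000000) := T_42 (nat_lit 130) (nat_lit 61) (nat_lit 4) (nat_lit 11) (nat_lit 7) L115212 (by decide +kernel)
theorem L115214 : W_42 (nat_lit 8) (nat_lit 0x70001000280034001000060000000000000000000) (nat_lit 0x0) (nat_lit 0x200018000c00000002b00090006c00000000000000) := T_42 (nat_lit 79) (nat_lit 62) (nat_lit 5) (nat_lit 11) (nat_lit 3) L115213 (by decide +kernel)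
theorem L115215 : W_42 (nat_lit 9) (nat_lit 0x30001000280034001000060000000000000000000) (nat_lit 0x0) (nat_lit 0x800240018000c00000002b00090006c00000000000000) := T_42 (nat_lit 162) (nat_lit 179) (nat_lit 7) (nat_lit 8) (nat_lit 6) L115214 (by decide +kernel)
theorem L115216 : W_42 (nat_lit 10) (nat_lit 0x20001000280034001000060000000000000000000) (nat_lit 0x0) (nat_lit 0xa00250018000c00000002b00090006c00000000000000) := T_42 (nat_lit 160) (nat_lit 177) (nat_lit 5) (nat_lit 8) (nat_lit 6) L115215 (by decide +kernel)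
theorem L115217 : W_42 (nat_lit 11) (nat_lit 0x20001000280034001000020000000000000000000) (nat_lit 0x0) (nat_lit 0xa00250018000c00000002b000d0007c00000000000000) := Q_42 (nat_lit 78) (C_42 L115200 (C_42 L115202 (C_42 L115207 (C_42 L115216 N_42)))) (by decide +kernel)
theorem L115218 : W_42 (nat_lit 12) (nat_lit 0x20001000280034000000020000000000000000000) (nat_lit 0x0) (nat_lit 0x7a003d001c000c00000003b000d0007c00000000000000) := Q_42 (nat_lit 96) (C_42 L115150 (C_42 L115156 (C_42 L115148 (C_42 L115217 N_42)))) (by decide +kernel)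
theorem L115219 : W_42 (nat_lit 2) (nat_lit 0xf0001000280034000000020000000000000000000) (nat_lit 0x0) (nat_lit 0xc000000000001000000000000000000000000) := D_42 (nat_lit 146) (nat_lit 96) (nat_lit 147) (nat_lit 6) (nat_lit 10) (nat_lit 9) (nat_lit 2) (nat_lit 7) (nat_lit 9) (by decide +kernel)
theorem L115220 : W_42 (nat_lit 3) (nat_lit 0xe0001000280034000000020000000000000000000) (nat_lit 0x0) (nat_lit 0x20001000c000000000001000000000000000000000000) := T_42 (nat_lit 160) (nat_lit 177) (nat_lit 5) (nat_lit 8) (nat_lit 6) L115219 (by decide +kernel)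
theorem L115221 : W_42 (nat_lit 4) (nat_lit 0xe0005000280034000000020000000000000000000) (nat_lit 0x0) (nat_lit 0x2000100018000140000000800000000000000000000000) := T_42 (nat_lit 126) (nat_lit 128) (nat_lit 2) (nat_lit 7) (nat_lit 7) L115107 (by decide +kernel)
theorem L115222 : W_42 (nat_lit 5) (nat_lit 0xe0001000280034000000020000000000000000000) (nat_lit 0x0) (nat_lit 0x200010001c000140000001800000000000000000000000) := T_42 (nat_lit 146) (nat_lit 96) (nat_lit 6) (nat_lit 10) (nat_lit 9) L115221 (by decide +kernel)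
theorem L115223 : W_42 (nat_lit 2) (nat_lit 0xf0005000280034000000020000000000000000000) (nat_lit 0x0) (nat_lit 0x3000100000000000000000000000000000000000000000) := D_42 (nat_lit 181) (nat_lit 180) (nat_lit 164) (nat_lit 3) (nat_lit 7) (nat_lit 9) (nat_lit 7) (nat_lit 10) (nat_lit 6) (by decide +kernel)
theorem L115224 : W_42 (nat_lit 3) (nat_lit 0xe0005000280034000000020000000000000000000) (nat_lit 0x0) (nat_lit 0x3200110000000000000000000000000000000000000000) := T_42 (nat_lit 160) (nat_lit 177) (nat_lit 5) (nat_lit 8) (nat_lit 6) L115223 (by decide +kernel)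
theorem L115225 : W_42 (nat_lit 4) (nat_lit 0xe0001000280034000000020000000000000000000) (nat_lit 0x0) (nat_lit 0x3200110004000000000001000000000000000000000000) := T_42 (nat_lit 146) (nat_lit 96) (nat_lit 6) (nat_lit 10) (nat_lit 9) L115224 (by decide +kernel)
theorem L115226 : W_42 (nat_lit 2) (nat_lit 0x20001f0011000380074000000020000000000000000000) (nat_lit 0x0) (nat_lit 0x200020000800000000000000000000000000000000) := D_42 (nat_lit 165) (nat_lit 149) (nat_lit 131) (nat_lit 2) (nat_lit 9) (nat_lit 9) (nat_lit 5) (nat_lit 12) (nat_lit 6) (by decide +kernel)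
theorem L115227 : W_42 (nat_lit 3) (nat_lit 0x20001f0011000380034000000020000000000000000000) (nat_lit 0x0) (nat_lit 0x2000200008000c0000000000000000000000000000) := T_42 (nat_lit 114) (nat_lit 115) (nat_lit 1) (nat_lit 13) (nat_lit 6) L115226 (by decide +kernel)
theorem L115228 : W_42 (nat_lit 4) (nat_lit 0x20001f0001000380034000000020000000000000000000) (nat_lit 0x0) (nat_lit 0x2000380008000c0000000000000000000000000000) := T_42 (nat_lit 148) (nat_lit 147) (nat_lit 2) (nat_lit 8) (nat_lit 9) L115227 (by decide +kernel)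
theorem L115229 : W_42 (nat_lit 5) (nat_lit 0x20000f0001000380034000000020000000000000000000) (nat_lit 0x0) (nat_lit 0x40003000380008000c0000000000000000000000000000) := T_42 (nat_lit 164) (nat_lit 182) (nat_lit 3) (nat_lit 8) (nat_lit 9) L115228 (by decide +kernel)
theorem L115230 : W_42 (nat_lit 6) (nat_lit 0x20000f0001000280034000000020000000000000000000) (nat_lit 0x0) (nat_lit 0x40003000380009400c0000000000000000000000000000) := T_42 (nat_lit 128) (nat_lit 126) (nat_lit 2) (nat_lit 7) (nat_lit 7) L115229 (by decide +kernel)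
theorem L115231 : W_42 (nat_lit 7) (nat_lit 0xf0001000280034000000020000000000000000000) (nat_lit 0x0) (nat_lit 0x70003000380009400c0000000000000000000000000000) := T_42 (nat_lit 181) (nat_lit 180) (nat_lit 3) (nat_lit 7) (nat_lit 9) L115230 (by decide +kernel)
theorem L115232 : W_42 (nat_lit 8) (nat_lit 0xe0001000280034000000020000000000000000000) (nat_lit 0x0) (nat_lit 0x72003100380009400c0000000000000000000000000000) := T_42 (nat_lit 160) (nat_lit 177) (nat_lit 5) (nat_lit 8) (nat_lit 6) L115231 (by decide +kernel)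
theorem L115233 : W_42 (nat_lit 9) (nat_lit 0x60001000280034000000020000000000000000000) (nat_lit 0x0) (nat_lit 0x720039003c0009400c0001800000000000000000000000) := Q_42 (nat_lit 163) (C_42 L115220 (C_42 L115222 (C_42 L115225 (C_42 L115232 N_42)))) (by decide +kernel)
theorem L115234 : W_42 (nat_lit 10) (nat_lit 0x20001000280034000000020000000000000000000) (nat_lit 0x0) (nat_lit 0x7a003d003c0009400c0001800000000000000000000000) := T_42 (nat_lit 162) (nat_lit 179) (nat_lit 7) (nat_lit 8) (nat_lit 6) L115233 (by decide +kernel)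
theorem L115235 : W_42 (nat_lit 13) (nat_lit 0x20001000080034000000020000000000000000000) (nat_lit 0x0) (nat_lit 0x7a003d003c003f400c0007b001d000fc00000000000000) := Q_42 (nat_lit 129) (C_42 L115194 (C_42 L115196 (C_42 L115197 (C_42 L115218 (C_42 L115234 N_42))))) (by decide +kernel)
theorem L115236 : W_42 (nat_lit 4) (nat_lit 0x60001000080034000000020000000000000000000) (nat_lit 0x0) (nat_lit 0x1d40048000000000000000000000000000) := T_42 (nat_lit 111) (nat_lit 126) (nat_lit 1) (nat_lit 11) (nat_lit 6) L115092 (by decide +kernel)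
theorem L115237 : W_42 (nat_lit 5) (nat_lit 0x20001000080034000000020000000000000000000) (nat_lit 0x0) (nat_lit 0x800040000001d40048000000000000000000000000000) := T_42 (nat_lit 162) (nat_lit 179) (nat_lit 7) (nat_lit 8) (nat_lit 6) L115236 (by decide +kernel)
theorem L115238 : W_42 (nat_lit 13) (nat_lit 0x20001000080034000000020000000000000000000) (nat_lit 0x0) (nat_lit 0xa00050008000d40008003b000d0003f00020000000000) := T_42 (nat_lit 111) (nat_lit 126) (nat_lit 1) (nat_lit 11) (nat_lit 6) L115142 (by decide +kernel)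
theorem L115239 : W_42 (nat_lit 14) (nat_lit 0x20001000080014000000020000000000000000000) (nat_lit 0x0) (nat_lit 0x7a003d003c003f400e8007b001d000ff00020000000000) := Q_42 (nat_lit 113) (C_42 L115143 (C_42 L115144 (C_42 L115145 (C_42 L115235 (C_42 L115237 (C_42 L115238 N_42)))))) (by decide +kernel)
theorem L115240 : W_42 (nat_lit 9) (nat_lit 0x20001000080014000000020000000000000000000) (nat_lit 0x0) (nat_lit 0x800040000001f7806b8003e0000000000000000000000) := Q_42 (nat_lit 111) (C_42 L115090 (C_42 L115094 (C_42 L115077 N_42))) (by decide +kernel)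
theorem L115241 : W_42 (nat_lit 9) (nat_lit 0x20001000080014000000020000000000000000000) (nat_lit 0x0) (nat_lit 0x200010000001f7806b8003e0000000000000000000000) := Q_42 (nat_lit 111) (C_42 L115101 (C_42 L115105 (C_42 L115077 N_42))) (by decide +kernel)
theorem L115242 : W_42 (nat_lit 2) (nat_lit 0x6000100008007e001000020000000000000000000) (nat_lit 0x0) (nat_lit 0x1c00000000000000000000000000000000) := D_42 (nat_lit 131) (nat_lit 130) (nat_lit 132) (nat_lit 3) (nat_lit 8) (nat_lit 6) (nat_lit 3) (nat_lit 9) (nat_lit 6) (by decide +kernel)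
theorem L115243 : W_42 (nat_lit 3) (nat_lit 0x6000100008003e001000020000000000000000000) (nat_lit 0x0) (nat_lit 0x1d00040000000000000000000000000000) := T_42 (nat_lit 114) (nat_lit 128) (nat_lit 1) (nat_lit 12) (nat_lit 6) L115242 (by decide +kernel)
theorem L115244 : W_42 (nat_lit 4) (nat_lit 0x6000100008001e001000020000000000000000000) (nat_lit 0x0) (nat_lit 0x1d00060002000000000000000000000000) := T_42 (nat_lit 113) (nat_lit 97) (nat_lit 2) (nat_lit 8) (nat_lit 6) L115243 (by decide +kernel)
theorem L115245 : W_42 (nat_lit 5) (nat_lit 0x2000100008001e001000020000000000000000000) (nat_lit 0x0) (nat_lit 0x800040000001d00060002000000000000000000000000) := T_42 (nat_lit 162) (nat_lit 179) (nat_lit 7) (nat_lit 8) (nat_lit 6) L115244 (by decide +kernel)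
theorem L115246 : W_42 (nat_lit 6) (nat_lit 0x2000100008001e000000020000000000000000000) (nat_lit 0x0) (nat_lit 0x800040000001d00060003800000000000000000000000) := T_42 (nat_lit 96) (nat_lit 95) (nat_lit 2) (nat_lit 7) (nat_lit 6) L115245 (by decide +kernel)
theorem L115247 : W_42 (nat_lit 7) (nat_lit 0x2000100008001c000000020000000000000000000) (nat_lit 0x0) (nat_lit 0x800040000001d00062003900000000000000000000000) := T_42 (nat_lit 109) (nat_lit 92) (nat_lit 4) (nat_lit 8) (nat_lit 9) L115246 (by decide +kernel)
theorem L115248 : W_42 (nat_lit 2) (nat_lit 0x2000100048001e001000020000000000000000000) (nat_lit 0x0) (nat_lit 0x800020002000000000000000000000000) := D_42 (nat_lit 113) (nat_lit 131) (nat_lit 97) (nat_lit 3) (nat_lit 8) (nat_lit 6) (nat_lit 2) (nat_lit 8) (nat_lit 6) (by decide +kernel)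
theorem L115249 : W_42 (nat_lit 3) (nat_lit 0x2000100048001e000000020000000000000000000) (nat_lit 0x0) (nat_lit 0x800020003800000000000000000000000) := T_42 (nat_lit 96) (nat_lit 95) (nat_lit 2) (nat_lit 7) (nat_lit 6) L115248 (by decide +kernel)
theorem L115250 : W_42 (nat_lit 4) (nat_lit 0x2000100008001e000000020000000000000000000) (nat_lit 0x0) (nat_lit 0xe00020003800000000000000000000000) := T_42 (nat_lit 130) (nat_lit 129) (nat_lit 3) (nat_lit 7) (nat_lit 6) L115249 (by decide +kernel)
theorem L115251 : W_42 (nat_lit 5) (nat_lit 0x2000100008001c000000020000000000000000000) (nat_lit 0x0) (nat_lit 0xe00022003900000000000000000000000) := T_42 (nat_lit 109) (nat_lit 92) (nat_lit 4) (nat_lit 8) (nat_lit 9) L115250 (by decide +kernel)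
theorem L115252 : W_42 (nat_lit 2) (nat_lit 0x6000100008003e001000020000000000000000000) (nat_lit 0x0) (nat_lit 0xe00000000000000000000000000000000) := D_42 (nat_lit 130) (nat_lit 131) (nat_lit 129) (nat_lit 3) (nat_lit 8) (nat_lit 6) (nat_lit 3) (nat_lit 7) (nat_lit 6) (by decide +kernel)
theorem L115253 : W_42 (nat_lit 3) (nat_lit 0x6000100008003c001000020000000000000000000) (nat_lit 0x0) (nat_lit 0xe00002000800000000000000000000000) := T_42 (nat_lit 109) (nat_lit 95) (nat_lit 2) (nat_lit 7) (nat_lit 6) L115252 (by decide +kernel)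
theorem L115254 : W_42 (nat_lit 4) (nat_lit 0x6000100008003c000000020000000000000000000) (nat_lit 0x0) (nat_lit 0xe00002003800000000000000000000000) := T_42 (nat_lit 96) (nat_lit 97) (nat_lit 2) (nat_lit 8) (nat_lit 6) L115253 (by decide +kernel)
theorem L115255 : W_42 (nat_lit 5) (nat_lit 0x2000100008003c000000020000000000000000000) (nat_lit 0x0) (nat_lit 0x800040000000e00002003800000000000000000000000) := T_42 (nat_lit 162) (nat_lit 179) (nat_lit 7) (nat_lit 8) (nat_lit 6) L115254 (by decide +kernel)
theorem L115256 : W_42 (nat_lit 6) (nat_lit 0x2000100008001c000000020000000000000000000) (nat_lit 0x0) (nat_lit 0xa00050000001f00062007800000000000000000000000) := Q_42 (nat_lit 113) (C_42 L115135 (C_42 L115133 (C_42 L115124 (C_42 L115255 N_42)))) (by decide +kernel)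
theorem L115257 : W_42 (nat_lit 2) (nat_lit 0x7000100018003e001000020000000000000000000) (nat_lit 0x0) (nat_lit 0x200001800000000000000000000000000) := D_42 (nat_lit 108) (nat_lit 107) (nat_lit 129) (nat_lit 3) (nat_lit 5) (nat_lit 6) (nat_lit 3) (nat_lit 6) (nat_lit 6) (by decide +kernel)
theorem L115258 : W_42 (nat_lit 3) (nat_lit 0x7000100008003e001000020000000000000000000) (nat_lit 0x0) (nat_lit 0x300041800000000000000000000000000) := T_42 (nat_lit 128) (nat_lit 114) (nat_lit 1) (nat_lit 12) (nat_lit 6) L115257 (by decide +kernel)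
theorem L115259 : W_42 (nat_lit 4) (nat_lit 0x7000100008001e001000020000000000000000000) (nat_lit 0x0) (nat_lit 0x300061802000000000000000000000000) := T_42 (nat_lit 113) (nat_lit 97) (nat_lit 2) (nat_lit 8) (nat_lit 6) L115258 (by decide +kernel)
theorem L115260 : W_42 (nat_lit 5) (nat_lit 0x6000100008001e001000020000000000000000000) (nat_lit 0x0) (nat_lit 0x200010000000300061802000000000000000000000000) := T_42 (nat_lit 160) (nat_lit 177) (nat_lit 5) (nat_lit 8) (nat_lit 6) L115259 (by decide +kernel)
theorem L115261 : W_42 (nat_lit 6) (nat_lit 0x6000100008001e000000020000000000000000000) (nat_lit 0x0) (nat_lit 0x200010000000300061803800000000000000000000000) := T_42 (nat_lit 96) (nat_lit 95) (nat_lit 2) (nat_lit 7) (nat_lit 6) L115260 (by decide +kernel)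
theorem L115262 : W_42 (nat_lit 7) (nat_lit 0x6000100008001c000000020000000000000000000) (nat_lit 0x0) (nat_lit 0x200010000000300063803900000000000000000000000) := T_42 (nat_lit 109) (nat_lit 92) (nat_lit 4) (nat_lit 8) (nat_lit 9) L115261 (by decide +kernel)
theorem L115263 : W_42 (nat_lit 8) (nat_lit 0x2000100008001c000000020000000000000000000) (nat_lit 0x0) (nat_lit 0xa00050000000300063803900000000000000000000000) := T_42 (nat_lit 162) (nat_lit 179) (nat_lit 7) (nat_lit 8) (nat_lit 6) L115262 (by decide +kernel)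
theorem L115264 : W_42 (nat_lit 13) (nat_lit 0x2000100008001c000000020000000000000000000) (nat_lit 0x0) (nat_lit 0xa00050008001d00060007b000d0003f00020000000000) := Q_42 (nat_lit 113) (C_42 L115142 (C_42 L115135 (C_42 L115133 (C_42 L115124 N_42)))) (by decide +kernel)
theorem L115265 : W_42 (nat_lit 14) (nat_lit 0x20001000080014000000020000000000000000000) (nat_lit 0x0) (nat_lit 0xa00050008001f3806b807be00d0003f00020000000000) := Q_42 (nat_lit 111) (C_42 L115247 (C_42 L115101 (C_42 L115251 (C_42 L115256 (C_42 L115263 (C_42 L115264 N_42)))))) (by decide +kernel)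
theorem L115266 : W_42 (nat_lit 6) (nat_lit 0x20001000080034000000020000000000000000000) (nat_lit 0x0) (nat_lit 0x800040000001f0004a007800000000000000000000000) := Q_42 (nat_lit 111) (C_42 L115135 (C_42 L115255 (C_42 L115124 N_42))) (by decide +kernel)
theorem L115267 : W_42 (nat_lit 2) (nat_lit 0x600010006800360010000f0000800000000000000) (nat_lit 0x0) (nat_lit 0x100009000000000000000) := D_42 (nat_lit 80) (nat_lit 60) (nat_lit 63) (nat_lit 0) (nat_lit 12) (nat_lit 4) (nat_lit 6) (nat_lit 11) (nat_lit 7) (by decide +kernel)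
theorem L115268 : W_42 (nat_lit 3) (nat_lit 0x600010002800360010000f0000800000000000000) (nat_lit 0x0) (nat_lit 0x40000000000010000b000000000000000) := T_42 (nat_lit 130) (nat_lit 61) (nat_lit 4) (nat_lit 11) (nat_lit 7) L115267 (by decide +kernel)
theorem L115269 : W_42 (nat_lit 4) (nat_lit 0x600010002800360010000f0000000000000000000) (nat_lit 0x0) (nat_lit 0x40000000000010000bc00000000000000) := T_42 (nat_lit 59) (nat_lit 58) (nat_lit 0) (nat_lit 11) (nat_lit 4) L115268 (by decide +kernel)
theorem L115270 : W_42 (nat_lit 5) (nat_lit 0x600010002800360010000e0000000000000000000) (nat_lit 0x0) (nat_lit 0x40000000200011000bc00000000000000) := T_42 (nat_lit 76) (nat_lit 97) (nat_lit 3) (nat_lit 8) (nat_lit 4) L115269 (by decide +kernel)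
theorem L115271 : W_42 (nat_lit 6) (nat_lit 0x200010002800360010000e0000000000000000000) (nat_lit 0x0) (nat_lit 0x80004000000040000000200011000bc00000000000000) := T_42 (nat_lit 162) (nat_lit 179) (nat_lit 7) (nat_lit 8) (nat_lit 6) L115270 (by decide +kernel)
theorem L115272 : W_42 (nat_lit 7) (nat_lit 0x20001000280036001000060000000000000000000) (nat_lit 0x0) (nat_lit 0x80004000000040000000200019000fc00000000000000) := T_42 (nat_lit 79) (nat_lit 62) (nat_lit 5) (nat_lit 11) (nat_lit 3) L115271 (by decide +kernel)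
theorem L115273 : W_42 (nat_lit 8) (nat_lit 0x20001000280034001000060000000000000000000) (nat_lit 0x0) (nat_lit 0x80004000000040000200210019000fc00000000000000) := T_42 (nat_lit 109) (nat_lit 92) (nat_lit 4) (nat_lit 8) (nat_lit 9) L115272 (by decide +kernel)
theorem L115274 : W_42 (nat_lit 2) (nat_lit 0x60001000280034005800060002000000000000000) (nat_lit 0x0) (nat_lit 0x80004000200000000000) := D_42 (nat_lit 62) (nat_lit 79) (nat_lit 45) (nat_lit 6) (nat_lit 10) (nat_lit 7) (nat_lit 6) (nat_lit 10) (nat_lit 6) (by decide +kernel)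
theorem L115275 : W_42 (nat_lit 3) (nat_lit 0x60001000280034005800060000000000000000000) (nat_lit 0x0) (nat_lit 0x80006000300000000000) := T_42 (nat_lit 61) (nat_lit 44) (nat_lit 7) (nat_lit 10) (nat_lit 2) L115274 (by decide +kernel)
theorem L115276 : W_42 (nat_lit 4) (nat_lit 0x60001000280034001800060000000000000000000) (nat_lit 0x0) (nat_lit 0x6000080006000300000000000) := T_42 (nat_lit 98) (nat_lit 97) (nat_lit 0) (nat_lit 13) (nat_lit 5) L115275 (by decide +kernel)
theorem L115277 : W_42 (nat_lit 5) (nat_lit 0x60001000280034001000060000000000000000000) (nat_lit 0x0) (nat_lit 0x6800080007000300000000000) := T_42 (nat_lit 95) (nat_lit 60) (nat_lit 4) (nat_lit 10) (nat_lit 7) L115276 (by decide +kernel)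
theorem L115278 : W_42 (nat_lit 6) (nat_lit 0x20001000280034001000060000000000000000000) (nat_lit 0x0) (nat_lit 0x800040000000000000006800080007000300000000000) := T_42 (nat_lit 162) (nat_lit 179) (nat_lit 7) (nat_lit 8) (nat_lit 6) L115277 (by decide +kernel)
theorem L115279 : W_42 (nat_lit 2) (nat_lit 0x700090006800360010000f0000800000000000000) (nat_lit 0x0) (nat_lit 0x200010000800000000000000000000000000000000) := D_42 (nat_lit 148) (nat_lit 131) (nat_lit 165) (nat_lit 7) (nat_lit 11) (nat_lit 4) (nat_lit 7) (nat_lit 11) (nat_lit 5) (by decide +kernel)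
theorem L115280 : W_42 (nat_lit 3) (nat_lit 0x700010006800360010000f0000800000000000000) (nat_lit 0x0) (nat_lit 0x200018000800000000800000000000000000000000) := T_42 (nat_lit 147) (nat_lit 95) (nat_lit 7) (nat_lit 10) (nat_lit 4) L115279 (by decide +kernel)
theorem L115281 : W_42 (nat_lit 4) (nat_lit 0x700010006800360010000f0000000000000000000) (nat_lit 0x0) (nat_lit 0x200018000800000000800000000c00000000000000) := T_42 (nat_lit 59) (nat_lit 58) (nat_lit 0) (nat_lit 11) (nat_lit 4) L115280 (by decide +kernel)
theorem L115282 : W_42 (nat_lit 5) (nat_lit 0x700010006800360010000e0000000000000000000) (nat_lit 0x0) (nat_lit 0x200018000800000002800010000c00000000000000) := T_42 (nat_lit 76) (nat_lit 97) (nat_lit 3) (nat_lit 8) (nat_lit 4) L115281 (by decide +kernel)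
theorem L115283 : W_42 (nat_lit 6) (nat_lit 0x700010002800360010000e0000000000000000000) (nat_lit 0x0) (nat_lit 0x200018000c00000002800010002c00000000000000) := T_42 (nat_lit 130) (nat_lit 61) (nat_lit 4) (nat_lit 11) (nat_lit 7) L115282 (by decide +kernel)
theorem L115284 : W_42 (nat_lit 7) (nat_lit 0x70001000280036001000060000000000000000000) (nat_lit 0x0) (nat_lit 0x200018000c00000002800090006c00000000000000) := T_42 (nat_lit 79) (nat_lit 62) (nat_lit 5) (nat_lit 11) (nat_lit 3) L115283 (by decide +kernel)
theorem L115285 : W_42 (nat_lit 8) (nat_lit 0x30001000280036001000060000000000000000000) (nat_lit 0x0) (nat_lit 0x800240018000c00000002800090006c00000000000000) := T_42 (nat_lit 162) (nat_lit 179) (nat_lit 7) (nat_lit 8) (nat_lit 6) L115284 (by decide +kernel)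
theorem L115286 : W_42 (nat_lit 9) (nat_lit 0x30001000280034001000060000000000000000000) (nat_lit 0x0) (nat_lit 0x800240018000c00002002900090006c00000000000000) := T_42 (nat_lit 109) (nat_lit 92) (nat_lit 4) (nat_lit 8) (nat_lit 9) L115285 (by decide +kernel)
theorem L115287 : W_42 (nat_lit 10) (nat_lit 0x20001000280034001000060000000000000000000) (nat_lit 0x0) (nat_lit 0xa00250018000c00002002900090006c00000000000000) := T_42 (nat_lit 160) (nat_lit 177) (nat_lit 5) (nat_lit 8) (nat_lit 6) L115286 (by decide +kernel)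
theorem L115288 : W_42 (nat_lit 2) (nat_lit 0x600010002800340010000f0000800000000000000) (nat_lit 0x0) (nat_lit 0x800100001000000000000000) := D_42 (nat_lit 60) (nat_lit 95) (nat_lit 80) (nat_lit 4) (nat_lit 10) (nat_lit 7) (nat_lit 0) (nat_lit 12) (nat_lit 4) (by decide +kernel)
theorem L115289 : W_42 (nat_lit 3) (nat_lit 0x600010002800340010000f0000000000000000000) (nat_lit 0x0) (nat_lit 0x800100001c00000000000000) := T_42 (nat_lit 59) (nat_lit 58) (nat_lit 0) (nat_lit 11) (nat_lit 4) L115288 (by decide +kernel)
theorem L115290 : W_42 (nat_lit 4) (nat_lit 0x600010002800340010000e0000000000000000000) (nat_lit 0x0) (nat_lit 0x2800110001c00000000000000) := T_42 (nat_lit 76) (nat_lit 97) (nat_lit 3) (nat_lit 8) (nat_lit 4) L115289 (by decide +kernel)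
theorem L115291 : W_42 (nat_lit 5) (nat_lit 0x200010002800340010000e0000000000000000000) (nat_lit 0x0) (nat_lit 0x800040000000000000002800110001c00000000000000) := T_42 (nat_lit 162) (nat_lit 179) (nat_lit 7) (nat_lit 8) (nat_lit 6) L115290 (by decide +kernel)
theorem L115292 : W_42 (nat_lit 6) (nat_lit 0x20001000280034001000060000000000000000000) (nat_lit 0x0) (nat_lit 0x800040000000000000002800190005c00000000000000) := T_42 (nat_lit 79) (nat_lit 62) (nat_lit 5) (nat_lit 11) (nat_lit 3) L115291 (by decide +kernel)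
theorem L115293 : W_42 (nat_lit 11) (nat_lit 0x20001000280034001000020000000000000000000) (nat_lit 0x0) (nat_lit 0xa00250018000c000020069001d000fc00300000000000) := Q_42 (nat_lit 78) (C_42 L115202 (C_42 L115273 (C_42 L115278 (C_42 L115287 (C_42 L115292 N_42))))) (by decide +kernel)
theorem L115294 : W_42 (nat_lit 12) (nat_lit 0x20001000280034000000020000000000000000000) (nat_lit 0x0) (nat_lit 0x7a003d001c000c000020079001d000fc00300000000000) := Q_42 (nat_lit 96) (C_42 L115150 (C_42 L115156 (C_42 L115148 (C_42 L115293 N_42)))) (by decide +kernel)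
theorem L115295 : W_42 (nat_lit 13) (nat_lit 0x20001000080034000000020000000000000000000) (nat_lit 0x0) (nat_lit 0x7a003d003c003f400c20079001d000fc00300000000000) := Q_42 (nat_lit 129) (C_42 L115194 (C_42 L115234 (C_42 L115197 (C_42 L115294 N_42)))) (by decide +kernel)
theorem L115296 : W_42 (nat_lit 6) (nat_lit 0x30001000080034000000020000000000000000000) (nat_lit 0x0) (nat_lit 0x800040000000e4000a003800000000000000000000000) := T_42 (nat_lit 111) (nat_lit 126) (nat_lit 1) (nat_lit 11) (nat_lit 6) L115081 (by decide +kernel)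
theorem L115297 : W_42 (nat_lit 7) (nat_lit 0x20001000080034000000020000000000000000000) (nat_lit 0x0) (nat_lit 0xa00050000000e4000a003800000000000000000000000) := T_42 (nat_lit 160) (nat_lit 177) (nat_lit 5) (nat_lit 8) (nat_lit 6) L115296 (by decide +kernel)
theorem L115298 : W_42 (nat_lit 14) (nat_lit 0x20001000080014000000020000000000000000000) (nat_lit 0x0) (nat_lit 0x7a003d003c003f400ea0079001d000fc00300000000000) := Q_42 (nat_lit 113) (C_42 L115266 (C_42 L115237 (C_42 L115145 (C_42 L115295 (C_42 L115144 (C_42 L115297 N_42)))))) (by decide +kernel)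
theorem L115299 : W_42 (nat_lit 2) (nat_lit 0x600010000a001f000840020000000000000000000) (nat_lit 0x0) (nat_lit 0x100000800020000000000000000000000) := D_42 (nat_lit 107) (nat_lit 128) (nat_lit 89) (nat_lit 3) (nat_lit 5) (nat_lit 6) (nat_lit 0) (nat_lit 8) (nat_lit 6) (by decide +kernel)
theorem L115300 : W_42 (nat_lit 3) (nat_lit 0x600010000a001f000800020000000000000000000) (nat_lit 0x0) (nat_lit 0x1000008000e0000000000000000000000) := T_42 (nat_lit 90) (nat_lit 91) (nat_lit 0) (nat_lit 9) (nat_lit 6) L115299 (by decide +kernel)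
theorem L115301 : W_42 (nat_lit 4) (nat_lit 0x600010000a001e000800020000000000000000000) (nat_lit 0x0) (nat_lit 0x1100018000e0000000000000000000000) := T_42 (nat_lit 108) (nat_lit 124) (nat_lit 1) (nat_lit 9) (nat_lit 6) L115300 (by decide +kernel)
theorem L115302 : W_42 (nat_lit 5) (nat_lit 0x200010000a001e000800020000000000000000000) (nat_lit 0x0) (nat_lit 0x8000400000001100018000e0000000000000000000000) := T_42 (nat_lit 162) (nat_lit 179) (nat_lit 7) (nat_lit 8) (nat_lit 6) L115301 (by decide +kernel)
theorem L115303 : W_42 (nat_lit 6) (nat_lit 0x2000100008001e000800020000000000000000000) (nat_lit 0x0) (nat_lit 0x8000400000001700018000e0000000000000000000000) := T_42 (nat_lit 125) (nat_lit 126) (nat_lit 1) (nat_lit 10) (nat_lit 6) L115302 (by decide +kernel)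
theorem L115304 : W_42 (nat_lit 7) (nat_lit 0x2000100008001e000000020000000000000000000) (nat_lit 0x0) (nat_lit 0x8000400000001700018018e0000000000000000000000) := T_42 (nat_lit 95) (nat_lit 96) (nat_lit 2) (nat_lit 7) (nat_lit 6) L115303 (by decide +kernel)
theorem L115305 : W_42 (nat_lit 8) (nat_lit 0x2000100008001c000000020000000000000000000) (nat_lit 0x0) (nat_lit 0x8000400000001700038019e0000000000000000000000) := T_42 (nat_lit 109) (nat_lit 92) (nat_lit 4) (nat_lit 8) (nat_lit 9) L115304 (by decide +kernel)
theorem L115306 : W_42 (nat_lit 14) (nat_lit 0x20001000080014000000020000000000000000000) (nat_lit 0x0) (nat_lit 0xa00050008001d7006b807be00d0003f00020000000000) := Q_42 (nat_lit 111) (C_42 L115264 (C_42 L115247 (C_42 L115105 (C_42 L115077 (C_42 L115305 N_42))))) (by decide +kernel)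
theorem L115307 : W_42 (nat_lit 2) (nat_lit 0x3000100008001f000000020000000000000000000) (nat_lit 0x0) (nat_lit 0x70000000000000000000000000000000) := D_42 (nat_lit 125) (nat_lit 126) (nat_lit 124) (nat_lit 1) (nat_lit 10) (nat_lit 6) (nat_lit 1) (nat_lit 9) (nat_lit 6) (by decide +kernel)
theorem L115308 : W_42 (nat_lit 2) (nat_lit 0x3000100029001f000040020000000000000000000) (nat_lit 0x0) (nat_lit 0x8000800020000000000000000000000) := D_42 (nat_lit 107) (nat_lit 89) (nat_lit 123) (nat_lit 0) (nat_lit 8) (nat_lit 6) (nat_lit 1) (nat_lit 8) (nat_lit 6) (by decide +kernel)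
theorem L115309 : W_42 (nat_lit 3) (nat_lit 0x3000100028001f000040020000000000000000000) (nat_lit 0x0) (nat_lit 0x38000800020000000000000000000000) := T_42 (nat_lit 124) (nat_lit 125) (nat_lit 1) (nat_lit 9) (nat_lit 6) L115308 (by decide +kernel)
theorem L115310 : W_42 (nat_lit 4) (nat_lit 0x3000100028001f000000020000000000000000000) (nat_lit 0x0) (nat_lit 0x380008000e0000000000000000000000) := T_42 (nat_lit 90) (nat_lit 91) (nat_lit 0) (nat_lit 9) (nat_lit 6) L115309 (by decide +kernel)
theorem L115311 : W_42 (nat_lit 5) (nat_lit 0x3000100008001f000000020000000000000000000) (nat_lit 0x0) (nat_lit 0x6380008000e0000000000000000000000) := T_42 (nat_lit 129) (nat_lit 130) (nat_lit 3) (nat_lit 7) (nat_lit 6) L115310 (by decide +kernel)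
theorem L115312 : W_42 (nat_lit 2) (nat_lit 0x3000100028001fc00840060000000000000000000) (nat_lit 0x0) (nat_lit 0x1c000000000000000000000000000000) := D_42 (nat_lit 123) (nat_lit 122) (nat_lit 124) (nat_lit 1) (nat_lit 7) (nat_lit 6) (nat_lit 1) (nat_lit 8) (nat_lit 6) (by decide +kernel)
theorem L115313 : W_42 (nat_lit 3) (nat_lit 0x3000100028001f800840060000000000000000000) (nat_lit 0x0) (nat_lit 0x5c000400000000000000000000000000) := T_42 (nat_lit 106) (nat_lit 126) (nat_lit 3) (nat_lit 4) (nat_lit 6) L115312 (by decide +kernel)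
theorem L115314 : W_42 (nat_lit 4) (nat_lit 0x3000100028001f800840020000000000000000000) (nat_lit 0x0) (nat_lit 0x5c000400000040001000000000000000) := T_42 (nat_lit 78) (nat_lit 60) (nat_lit 4) (nat_lit 10) (nat_lit 7) L115313 (by decide +kernel)
theorem L115315 : W_42 (nat_lit 5) (nat_lit 0x3000100028001f000840020000000000000000000) (nat_lit 0x0) (nat_lit 0x5c000c00020040001000000000000000) := T_42 (nat_lit 107) (nat_lit 89) (nat_lit 0) (nat_lit 8) (nat_lit 6) L115314 (by decide +kernel)
theorem L115316 : W_42 (nat_lit 6) (nat_lit 0x3000100028001f000040020000000000000000000) (nat_lit 0x0) (nat_lit 0x5c000c01820040001000000000000000) := T_42 (nat_lit 95) (nat_lit 96) (nat_lit 2) (nat_lit 7) (nat_lit 6) L115315 (by decide +kernel)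
theorem L115317 : W_42 (nat_lit 7) (nat_lit 0x3000100028001f000000020000000000000000000) (nat_lit 0x0) (nat_lit 0x5c000c018e0040001000000000000000) := T_42 (nat_lit 90) (nat_lit 91) (nat_lit 0) (nat_lit 9) (nat_lit 6) L115316 (by decide +kernel)
theorem L115318 : W_42 (nat_lit 8) (nat_lit 0x3000100008001f000000020000000000000000000) (nat_lit 0x0) (nat_lit 0x65c000c018e0040001000000000000000) := T_42 (nat_lit 129) (nat_lit 130) (nat_lit 3) (nat_lit 7) (nat_lit 6) L115317 (by decide +kernel)
theorem L115319 : W_42 (nat_lit 2) (nat_lit 0x300010002c001f800800020000000000000000000) (nat_lit 0x0) (nat_lit 0xe0000000000000000000000) := D_42 (nat_lit 90) (nat_lit 91) (nat_lit 89) (nat_lit 0) (nat_lit 9) (nat_lit 6) (nat_lit 0) (nat_lit 8) (nat_lit 6) (by decide +kernel)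
theorem L115320 : W_42 (nat_lit 3) (nat_lit 0x300010002c001f000800020000000000000000000) (nat_lit 0x0) (nat_lit 0xc000e0000000000000000000000) := T_42 (nat_lit 107) (nat_lit 106) (nat_lit 3) (nat_lit 4) (nat_lit 6) L115319 (by decide +kernel)
theorem L115321 : W_42 (nat_lit 4) (nat_lit 0x300010000c001f000800020000000000000000000) (nat_lit 0x0) (nat_lit 0x600000c000e0000000000000000000000) := T_42 (nat_lit 129) (nat_lit 130) (nat_lit 3) (nat_lit 7) (nat_lit 6) L115320 (by decide +kernel)
theorem L115322 : W_42 (nat_lit 5) (nat_lit 0x3000100008001f000800020000000000000000000) (nat_lit 0x0) (nat_lit 0x660000c000e0000000000000000000000) := T_42 (nat_lit 126) (nat_lit 125) (nat_lit 1) (nat_lit 10) (nat_lit 6) L115321 (by decide +kernel)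
theorem L115323 : W_42 (nat_lit 6) (nat_lit 0x3000100008001f000000020000000000000000000) (nat_lit 0x0) (nat_lit 0x660000c018e0000000000000000000000) := T_42 (nat_lit 95) (nat_lit 96) (nat_lit 2) (nat_lit 7) (nat_lit 6) L115322 (by decide +kernel)
theorem L115324 : W_42 (nat_lit 9) (nat_lit 0x3000100008001e000000020000000000000000000) (nat_lit 0x0) (nat_lit 0x67c001c018e0040001000000000000000) := Q_42 (nat_lit 108) (C_42 L115307 (C_42 L115311 (C_42 L115318 (C_42 L115323 N_42)))) (by decide +kernel)
theorem L115325 : W_42 (nat_lit 10) (nat_lit 0x3000100008001c000000020000000000000000000) (nat_lit 0x0) (nat_lit 0x67c003c019e0040001000000000000000) := T_42 (nat_lit 109) (nat_lit 92) (nat_lit 4) (nat_lit 8) (nat_lit 9) L115324 (by decide +kernel)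
theorem L115326 : W_42 (nat_lit 11) (nat_lit 0x2000100008001c000000020000000000000000000) (nat_lit 0x0) (nat_lit 0x20001000000067c003c019e0040001000000000000000) := T_42 (nat_lit 160) (nat_lit 177) (nat_lit 5) (nat_lit 8) (nat_lit 6) L115325 (by decide +kernel)
theorem L115327 : W_42 (nat_lit 2) (nat_lit 0x7000100088007c000200030000000000000000000) (nat_lit 0x0) (nat_lit 0x7000000000000000000000000) := D_42 (nat_lit 97) (nat_lit 98) (nat_lit 96) (nat_lit 2) (nat_lit 9) (nat_lit 6) (nat_lit 2) (nat_lit 8) (nat_lit 6) (by decide +kernel)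
theorem L115328 : W_42 (nat_lit 3) (nat_lit 0x7000100088003c000200030000000000000000000) (nat_lit 0x0) (nat_lit 0x1000040007000000000000000000000000) := T_42 (nat_lit 114) (nat_lit 132) (nat_lit 3) (nat_lit 9) (nat_lit 6) L115327 (by decide +kernel)
theorem L115329 : W_42 (nat_lit 4) (nat_lit 0x7000100088003c000200020000000000000000000) (nat_lit 0x0) (nat_lit 0x1000040007000010001000000000000000) := T_42 (nat_lit 76) (nat_lit 60) (nat_lit 6) (nat_lit 8) (nat_lit 7) L115328 (by decide +kernel)
theorem L115330 : W_42 (nat_lit 5) (nat_lit 0x7000100008003c000200020000000000000000000) (nat_lit 0x0) (nat_lit 0x1c00040007000010001000000000000000) := T_42 (nat_lit 131) (nat_lit 130) (nat_lit 3) (nat_lit 8) (nat_lit 6) L115329 (by decide +kernel)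
theorem L115331 : W_42 (nat_lit 6) (nat_lit 0x7000100008003c000000020000000000000000000) (nat_lit 0x0) (nat_lit 0x1c00040007300010001000000000000000) := T_42 (nat_lit 93) (nat_lit 92) (nat_lit 0) (nat_lit 11) (nat_lit 6) L115330 (by decide +kernel)
theorem L115332 : W_42 (nat_lit 7) (nat_lit 0x7000100008001c000000020000000000000000000) (nat_lit 0x0) (nat_lit 0x1c40060007300010001000000000000000) := T_42 (nat_lit 113) (nat_lit 126) (nat_lit 1) (nat_lit 11) (nat_lit 6) L115331 (by decide +kernel)
theorem L115333 : W_42 (nat_lit 8) (nat_lit 0x6000100008001c000000020000000000000000000) (nat_lit 0x0) (nat_lit 0x200010000001c40060007300010001000000000000000) := T_42 (nat_lit 160) (nat_lit 177) (nat_lit 5) (nat_lit 8) (nat_lit 6) L115332 (by decide +kernel)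
theorem L115334 : W_42 (nat_lit 9) (nat_lit 0x2000100008001c000000020000000000000000000) (nat_lit 0x0) (nat_lit 0xa00050000001c40060007300010001000000000000000) := T_42 (nat_lit 162) (nat_lit 179) (nat_lit 7) (nat_lit 8) (nat_lit 6) L115333 (by decide +kernel)
theorem L115335 : W_42 (nat_lit 12) (nat_lit 0x20001000080014000000020000000000000000000) (nat_lit 0x0) (nat_lit 0xa00050000001e7c06bc07be0050001000000000000000) := Q_42 (nat_lit 111) (C_42 L115251 (C_42 L115077 (C_42 L115083 (C_42 L115326 (C_42 L115334 N_42))))) (by decide +kernel)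
theorem L115336 : W_42 (nat_lit 2) (nat_lit 0x700010002800340010000f0000800000000000000) (nat_lit 0x0) (nat_lit 0x200100001000000000000000) := D_42 (nat_lit 60) (nat_lit 93) (nat_lit 80) (nat_lit 6) (nat_lit 8) (nat_lit 7) (nat_lit 0) (nat_lit 12) (nat_lit 4) (by decide +kernel)
theorem L115337 : W_42 (nat_lit 3) (nat_lit 0x700010002800340010000f0000000000000000000) (nat_lit 0x0) (nat_lit 0x200100001c00000000000000) := T_42 (nat_lit 59) (nat_lit 58) (nat_lit 0) (nat_lit 11) (nat_lit 4) L115336 (by decide +kernel)
theorem L115338 : W_42 (nat_lit 4) (nat_lit 0x700010002800340010000e0000000000000000000) (nat_lit 0x0) (nat_lit 0x2200110001c00000000000000) := T_42 (nat_lit 76) (nat_lit 97) (nat_lit 3) (nat_lit 8) (nat_lit 4) L115337 (by decide +kernel)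
theorem L115339 : W_42 (nat_lit 5) (nat_lit 0x300010002800340010000e0000000000000000000) (nat_lit 0x0) (nat_lit 0x800040000000000000002200110001c00000000000000) := T_42 (nat_lit 162) (nat_lit 179) (nat_lit 7) (nat_lit 8) (nat_lit 6) L115338 (by decide +kernel)
theorem L115340 : W_42 (nat_lit 6) (nat_lit 0x30001000280034001000060000000000000000000) (nat_lit 0x0) (nat_lit 0x800040000000000000002200190005c00000000000000) := T_42 (nat_lit 79) (nat_lit 62) (nat_lit 5) (nat_lit 11) (nat_lit 3) L115339 (by decide +kernel)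
theorem L115341 : W_42 (nat_lit 7) (nat_lit 0x20001000280034001000060000000000000000000) (nat_lit 0x0) (nat_lit 0xa00050000000000000002200190005c00000000000000) := T_42 (nat_lit 160) (nat_lit 177) (nat_lit 5) (nat_lit 8) (nat_lit 6) L115340 (by decide +kernel)
theorem L115342 : W_42 (nat_lit 2) (nat_lit 0x700090006800340010000f0000800000000000000) (nat_lit 0x0) (nat_lit 0x200010000800000000000000000000000000000000) := D_42 (nat_lit 148) (nat_lit 131) (nat_lit 165) (nat_lit 7) (nat_lit 11) (nat_lit 4) (nat_lit 7) (nat_lit 11) (nat_lit 5) (by decide +kernel)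
theorem L115343 : W_42 (nat_lit 3) (nat_lit 0x700010006800340010000f0000800000000000000) (nat_lit 0x0) (nat_lit 0x200018000800000000800000000000000000000000) := T_42 (nat_lit 147) (nat_lit 95) (nat_lit 7) (nat_lit 10) (nat_lit 4) L115342 (by decide +kernel)
theorem L115344 : W_42 (nat_lit 4) (nat_lit 0x700010006800340010000f0000000000000000000) (nat_lit 0x0) (nat_lit 0x200018000800000000800000000c00000000000000) := T_42 (nat_lit 59) (nat_lit 58) (nat_lit 0) (nat_lit 11) (nat_lit 4) L115343 (by decide +kernel)
theorem L115345 : W_42 (nat_lit 5) (nat_lit 0x700010006800340010000e0000000000000000000) (nat_lit 0x0) (nat_lit 0x200018000800000002800010000c00000000000000) := T_42 (nat_lit 76) (nat_lit 97) (nat_lit 3) (nat_lit 8) (nat_lit 4) L115344 (by decide +kernel)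
theorem L115346 : W_42 (nat_lit 6) (nat_lit 0x700010002800340010000e0000000000000000000) (nat_lit 0x0) (nat_lit 0x200018000c00000002800010002c00000000000000) := T_42 (nat_lit 130) (nat_lit 61) (nat_lit 4) (nat_lit 11) (nat_lit 7) L115345 (by decide +kernel)
theorem L115347 : W_42 (nat_lit 7) (nat_lit 0x70001000280034001000060000000000000000000) (nat_lit 0x0) (nat_lit 0x200018000c00000002800090006c00000000000000) := T_42 (nat_lit 79) (nat_lit 62) (nat_lit 5) (nat_lit 11) (nat_lit 3) L115346 (by decide +kernel)
theorem L115348 : W_42 (nat_lit 8) (nat_lit 0x60001000280034001000060000000000000000000) (nat_lit 0x0) (nat_lit 0x200210018000c00000002800090006c00000000000000) := T_42 (nat_lit 160) (nat_lit 177) (nat_lit 5) (nat_lit 8) (nat_lit 6) L115347 (by decide +kernel)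
theorem L115349 : W_42 (nat_lit 9) (nat_lit 0x20001000280034001000060000000000000000000) (nat_lit 0x0) (nat_lit 0xa00250018000c00000002800090006c00000000000000) := T_42 (nat_lit 162) (nat_lit 179) (nat_lit 7) (nat_lit 8) (nat_lit 6) L115348 (by decide +kernel)
theorem L115350 : W_42 (nat_lit 10) (nat_lit 0x20001000280034001000020000000000000000000) (nat_lit 0x0) (nat_lit 0xa00250018000c00000002a001d0007c00000000000000) := Q_42 (nat_lit 78) (C_42 L115292 (C_42 L115202 (C_42 L115341 (C_42 L115349 N_42)))) (by decide +kernel)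
theorem L115351 : W_42 (nat_lit 11) (nat_lit 0x20001000280034000000020000000000000000000) (nat_lit 0x0) (nat_lit 0x7a003d001c000c00000003a001d0007c00000000000000) := Q_42 (nat_lit 96) (C_42 L115156 (C_42 L115150 (C_42 L115148 (C_42 L115350 N_42)))) (by decide +kernel)
theorem L115352 : W_42 (nat_lit 12) (nat_lit 0x20001000080034000000020000000000000000000) (nat_lit 0x0) (nat_lit 0x7a003d003c003f400c0007a001d000fc00000000000000) := Q_42 (nat_lit 129) (C_42 L115234 (C_42 L115197 (C_42 L115194 (C_42 L115351 N_42)))) (by decide +kernel)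
theorem L115353 : W_42 (nat_lit 13) (nat_lit 0x20001000080014000000020000000000000000000) (nat_lit 0x0) (nat_lit 0x7a003d003c003f400ea007a001d000fc00000000000000) := Q_42 (nat_lit 113) (C_42 L115266 (C_42 L115237 (C_42 L115297 (C_42 L115145 (C_42 L115352 (C_42 L115144 N_42)))))) (by decide +kernel)
theorem L115354 : W_42 (nat_lit 2) (nat_lit 0x10000f0005000280016000000020000000000000000000) (nat_lit 0x0) (nat_lit 0x400020001000000000000000000000000) := D_42 (nat_lit 113) (nat_lit 96) (nat_lit 130) (nat_lit 6) (nat_lit 10) (nat_lit 9) (nat_lit 6) (nat_lit 10) (nat_lit 10) (by decide +kernel)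
theorem L115355 : W_42 (nat_lit 3) (nat_lit 0x10000f0001000280016000000020000000000000000000) (nat_lit 0x0) (nat_lit 0xc000400020001000000000000000000000000) := T_42 (nat_lit 146) (nat_lit 147) (nat_lit 2) (nat_lit 7) (nat_lit 9) L115354 (by decide +kernel)
theorem L115356 : W_42 (nat_lit 4) (nat_lit 0xf0001000280016000000020000000000000000000) (nat_lit 0x0) (nat_lit 0x300000000c000400020001000000000000000000000000) := T_42 (nat_lit 180) (nat_lit 181) (nat_lit 3) (nat_lit 7) (nat_lit 9) L115355 (by decide +kernel)
theorem L115357 : W_42 (nat_lit 5) (nat_lit 0xf0001000280014000000020000000000000000000) (nat_lit 0x0) (nat_lit 0x300000000c000400022001100000000000000000000000) := T_42 (nat_lit 109) (nat_lit 92) (nat_lit 4) (nat_lit 8) (nat_lit 9) L115356 (by decide +kernel)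
theorem L115358 : W_42 (nat_lit 2) (nat_lit 0xf0005000280014000000020000000000000000000) (nat_lit 0x0) (nat_lit 0x3000100000000000000000000000000000000000000000) := D_42 (nat_lit 181) (nat_lit 180) (nat_lit 164) (nat_lit 3) (nat_lit 7) (nat_lit 9) (nat_lit 7) (nat_lit 10) (nat_lit 6) (by decide +kernel)
theorem L115359 : W_42 (nat_lit 3) (nat_lit 0xf0001000280014000000020000000000000000000) (nat_lit 0x0) (nat_lit 0x300010000c000000000000000000000000000000000000) := T_42 (nat_lit 146) (nat_lit 147) (nat_lit 2) (nat_lit 7) (nat_lit 9) L115358 (by decide +kernel)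
theorem L115360 : W_42 (nat_lit 2) (nat_lit 0x20000f0001000280014000000020000000000000000000) (nat_lit 0x0) (nat_lit 0x4000100004000000000000000000000000000000000000) := D_42 (nat_lit 164) (nat_lit 182) (nat_lit 146) (nat_lit 3) (nat_lit 8) (nat_lit 9) (nat_lit 7) (nat_lit 10) (nat_lit 6) (by decide +kernel)
theorem L115361 : W_42 (nat_lit 3) (nat_lit 0xf0001000280014000000020000000000000000000) (nat_lit 0x0) (nat_lit 0x7000100004000000000000000000000000000000000000) := T_42 (nat_lit 181) (nat_lit 180) (nat_lit 3) (nat_lit 7) (nat_lit 9) L115360 (by decide +kernel)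
theorem L115362 : W_42 (nat_lit 2) (nat_lit 0x20000f0001000680016000000020000000000000000000) (nat_lit 0x0) (nat_lit 0x4000100008000000000000000000000000000000000000) := D_42 (nat_lit 164) (nat_lit 182) (nat_lit 147) (nat_lit 3) (nat_lit 8) (nat_lit 9) (nat_lit 4) (nat_lit 11) (nat_lit 10) (by decide +kernel)
theorem L115363 : W_42 (nat_lit 3) (nat_lit 0xf0001000680016000000020000000000000000000) (nat_lit 0x0) (nat_lit 0x7000100008000000000000000000000000000000000000) := T_42 (nat_lit 181) (nat_lit 180) (nat_lit 3) (nat_lit 7) (nat_lit 9) L115362 (by decide +kernel)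
theorem L115364 : W_42 (nat_lit 4) (nat_lit 0xf0001000280016000000020000000000000000000) (nat_lit 0x0) (nat_lit 0x7000100008000500000000000000000000000000000000) := T_42 (nat_lit 130) (nat_lit 128) (nat_lit 0) (nat_lit 11) (nat_lit 7) L115363 (by decide +kernel)
theorem L115365 : W_42 (nat_lit 5) (nat_lit 0xf0001000280014000000020000000000000000000) (nat_lit 0x0) (nat_lit 0x7000100008000500002000100000000000000000000000) := T_42 (nat_lit 109) (nat_lit 92) (nat_lit 4) (nat_lit 8) (nat_lit 9) L115364 (by decide +kernel)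
theorem L115366 : W_42 (nat_lit 2) (nat_lit 0xf0009000680016000000020000000000000000000) (nat_lit 0x0) (nat_lit 0x2000100010000000000000000000000000000000000000) := D_42 (nat_lit 164) (nat_lit 148) (nat_lit 181) (nat_lit 2) (nat_lit 8) (nat_lit 9) (nat_lit 4) (nat_lit 11) (nat_lit 10) (by decide +kernel)
theorem L115367 : W_42 (nat_lit 3) (nat_lit 0xf0009000280016000000020000000000000000000) (nat_lit 0x0) (nat_lit 0x2000100010000500000000000000000000000000000000) := T_42 (nat_lit 130) (nat_lit 128) (nat_lit 0) (nat_lit 11) (nat_lit 7) L115366 (by decide +kernel)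
theorem L115368 : W_42 (nat_lit 4) (nat_lit 0xf0009000280014000000020000000000000000000) (nat_lit 0x0) (nat_lit 0x2000100010000500002000100000000000000000000000) := T_42 (nat_lit 109) (nat_lit 92) (nat_lit 4) (nat_lit 8) (nat_lit 9) L115367 (by decide +kernel)
theorem L115369 : W_42 (nat_lit 5) (nat_lit 0xf0001000280014000000020000000000000000000) (nat_lit 0x0) (nat_lit 0x200010001c000500002000100000000000000000000000) := T_42 (nat_lit 147) (nat_lit 146) (nat_lit 2) (nat_lit 7) (nat_lit 9) L115368 (by decide +kernel)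
theorem L115370 : W_42 (nat_lit 2) (nat_lit 0xf0005000680016000000020000000000000000000) (nat_lit 0x0) (nat_lit 0x1000000000000000020001000000000000000000000000) := D_42 (nat_lit 113) (nat_lit 96) (nat_lit 180) (nat_lit 6) (nat_lit 10) (nat_lit 9) (nat_lit 6) (nat_lit 10) (nat_lit 10) (by decide +kernel)
theorem L115371 : W_42 (nat_lit 3) (nat_lit 0xf0005000280016000000020000000000000000000) (nat_lit 0x0) (nat_lit 0x1000000000000500020001000000000000000000000000) := T_42 (nat_lit 130) (nat_lit 128) (nat_lit 0) (nat_lit 11) (nat_lit 7) L115370 (by decide +kernel)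
theorem L115372 : W_42 (nat_lit 4) (nat_lit 0xf0005000280014000000020000000000000000000) (nat_lit 0x0) (nat_lit 0x1000000000000500022001100000000000000000000000) := T_42 (nat_lit 109) (nat_lit 92) (nat_lit 4) (nat_lit 8) (nat_lit 9) L115371 (by decide +kernel)
theorem L115373 : W_42 (nat_lit 5) (nat_lit 0xf0001000280014000000020000000000000000000) (nat_lit 0x0) (nat_lit 0x100000000c000500022001100000000000000000000000) := T_42 (nat_lit 146) (nat_lit 147) (nat_lit 2) (nat_lit 7) (nat_lit 9) L115372 (by decide +kernel)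
theorem L115374 : W_42 (nat_lit 6) (nat_lit 0x70001000280014000000020000000000000000000) (nat_lit 0x0) (nat_lit 0x700018001c000500022001100000000000000000000000) := Q_42 (nat_lit 163) (C_42 L115357 (C_42 L115359 (C_42 L115361 (C_42 L115365 (C_42 L115369 (C_42 L115373 N_42)))))) (by decide +kernel)
theorem L115375 : W_42 (nat_lit 7) (nat_lit 0x30001000280014000000020000000000000000000) (nat_lit 0x0) (nat_lit 0x78001c001c000500022001100000000000000000000000) := T_42 (nat_lit 162) (nat_lit 179) (nat_lit 7) (nat_lit 8) (nat_lit 6) L115374 (by decide +kernel)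
theorem L115376 : W_42 (nat_lit 8) (nat_lit 0x20001000280014000000020000000000000000000) (nat_lit 0x0) (nat_lit 0x7a001d001c000500022001100000000000000000000000) := T_42 (nat_lit 160) (nat_lit 177) (nat_lit 5) (nat_lit 8) (nat_lit 6) L115375 (by decide +kernel)
theorem L115377 : W_42 (nat_lit 2) (nat_lit 0x20001000380016000000020000000000000000000) (nat_lit 0x0) (nat_lit 0x40021000000000000000000000000000) := D_42 (nat_lit 126) (nat_lit 108) (nat_lit 113) (nat_lit 0) (nat_lit 10) (nat_lit 7) (nat_lit 2) (nat_lit 7) (nat_lit 7) (by decide +kernel)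
theorem L115378 : W_42 (nat_lit 3) (nat_lit 0x20001000280016000000020000000000000000000) (nat_lit 0x0) (nat_lit 0x540021000000000000000000000000000) := T_42 (nat_lit 128) (nat_lit 130) (nat_lit 0) (nat_lit 11) (nat_lit 7) L115377 (by decide +kernel)
theorem L115379 : W_42 (nat_lit 4) (nat_lit 0x20001000280014000000020000000000000000000) (nat_lit 0x0) (nat_lit 0x540023000100000000000000000000000) := T_42 (nat_lit 109) (nat_lit 92) (nat_lit 4) (nat_lit 8) (nat_lit 9) L115378 (by decide +kernel)
theorem L115380 : W_42 (nat_lit 6) (nat_lit 0x30001000280014000000070000000000000000000) (nat_lit 0x0) (nat_lit 0x2000330008000dc00000000000000) := T_42 (nat_lit 93) (nat_lit 60) (nat_lit 6) (nat_lit 8) (nat_lit 7) L115075 (by decide +kernel)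
theorem L115381 : W_42 (nat_lit 7) (nat_lit 0x20001000280014000000070000000000000000000) (nat_lit 0x0) (nat_lit 0x20001000000000002000330008000dc00000000000000) := T_42 (nat_lit 160) (nat_lit 177) (nat_lit 5) (nat_lit 8) (nat_lit 6) L115380 (by decide +kernel)
theorem L115382 : W_42 (nat_lit 2) (nat_lit 0x60001000280014000200070000000000000000000) (nat_lit 0x0) (nat_lit 0x2000100080000000000000000000) := D_42 (nat_lit 92) (nat_lit 79) (nat_lit 109) (nat_lit 1) (nat_lit 11) (nat_lit 4) (nat_lit 4) (nat_lit 8) (nat_lit 9) (by decide +kernel)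
theorem L115383 : W_42 (nat_lit 3) (nat_lit 0x60001000280014000000070000000000000000000) (nat_lit 0x0) (nat_lit 0x2000300080001000000000000000) := T_42 (nat_lit 93) (nat_lit 60) (nat_lit 6) (nat_lit 8) (nat_lit 7) L115382 (by decide +kernel)
theorem L115384 : W_42 (nat_lit 4) (nat_lit 0x20001000280014000000070000000000000000000) (nat_lit 0x0) (nat_lit 0x800040000000000002000300080001000000000000000) := T_42 (nat_lit 162) (nat_lit 179) (nat_lit 7) (nat_lit 8) (nat_lit 6) L115383 (by decide +kernel)
theorem L115385 : W_42 (nat_lit 2) (nat_lit 0x300010002800140011000f0000800000000000000) (nat_lit 0x0) (nat_lit 0x2000000000000c000000000000000) := D_42 (nat_lit 62) (nat_lit 63) (nat_lit 113) (nat_lit 2) (nat_lit 8) (nat_lit 4) (nat_lit 5) (nat_lit 11) (nat_lit 3) (by decide +kernel)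
theorem L115386 : W_42 (nat_lit 3) (nat_lit 0x300010002800140001000f0000800000000000000) (nat_lit 0x0) (nat_lit 0x2000300000000c000000000000000) := T_42 (nat_lit 96) (nat_lit 97) (nat_lit 3) (nat_lit 8) (nat_lit 4) L115385 (by decide +kernel)
theorem L115387 : W_42 (nat_lit 4) (nat_lit 0x300010002800140001000f0000000000000000000) (nat_lit 0x0) (nat_lit 0x2000300000000cc00000000000000) := T_42 (nat_lit 59) (nat_lit 58) (nat_lit 0) (nat_lit 11) (nat_lit 4) L115386 (by decide +kernel)
theorem L115388 : W_42 (nat_lit 2) (nat_lit 0x70001000680014000800060002000000000000000) (nat_lit 0x0) (nat_lit 0x80004000200000000000) := D_42 (nat_lit 62) (nat_lit 45) (nat_lit 79) (nat_lit 6) (nat_lit 10) (nat_lit 6) (nat_lit 6) (nat_lit 10) (nat_lit 7) (by decide +kernel)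
theorem L115389 : W_42 (nat_lit 3) (nat_lit 0x70001000680014000800060000000000000000000) (nat_lit 0x0) (nat_lit 0x20000000080006000200000000000) := T_42 (nat_lit 61) (nat_lit 113) (nat_lit 7) (nat_lit 10) (nat_lit 3) L115388 (by decide +kernel)
theorem L115390 : W_42 (nat_lit 4) (nat_lit 0x70001000280014000800060000000000000000000) (nat_lit 0x0) (nat_lit 0x8000400020000000080006000200000000000) := T_42 (nat_lit 130) (nat_lit 147) (nat_lit 7) (nat_lit 10) (nat_lit 4) L115389 (by decide +kernel)
theorem L115391 : W_42 (nat_lit 5) (nat_lit 0x30001000280014000800060000000000000000000) (nat_lit 0x0) (nat_lit 0x800040008000400020000000080006000200000000000) := T_42 (nat_lit 162) (nat_lit 179) (nat_lit 7) (nat_lit 8) (nat_lit 6) L115390 (by decide +kernel)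
theorem L115392 : W_42 (nat_lit 6) (nat_lit 0x30001000280014000800020000000000000000000) (nat_lit 0x0) (nat_lit 0x8000400080004000200000000c0007000200000000000) := T_42 (nat_lit 78) (nat_lit 60) (nat_lit 4) (nat_lit 10) (nat_lit 7) L115391 (by decide +kernel)
theorem L115393 : W_42 (nat_lit 7) (nat_lit 0x20001000280014000800020000000000000000000) (nat_lit 0x0) (nat_lit 0xa000500080004000200000000c0007000200000000000) := T_42 (nat_lit 160) (nat_lit 177) (nat_lit 5) (nat_lit 8) (nat_lit 6) L115392 (by decide +kernel)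
theorem L115394 : W_42 (nat_lit 2) (nat_lit 0x60001000680014000800060002000000000000000) (nat_lit 0x0) (nat_lit 0x80004000200000000000) := D_42 (nat_lit 62) (nat_lit 45) (nat_lit 79) (nat_lit 6) (nat_lit 10) (nat_lit 6) (nat_lit 6) (nat_lit 10) (nat_lit 7) (by decide +kernel)
theorem L115395 : W_42 (nat_lit 3) (nat_lit 0x60001000680014000800060000000000000000000) (nat_lit 0x0) (nat_lit 0x20000000080006000200000000000) := T_42 (nat_lit 61) (nat_lit 113) (nat_lit 7) (nat_lit 10) (nat_lit 3) L115394 (by decide +kernel)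
theorem L115396 : W_42 (nat_lit 4) (nat_lit 0x60001000280014000800060000000000000000000) (nat_lit 0x0) (nat_lit 0x8000400020000000080006000200000000000) := T_42 (nat_lit 130) (nat_lit 147) (nat_lit 7) (nat_lit 10) (nat_lit 4) L115395 (by decide +kernel)
theorem L115397 : W_42 (nat_lit 5) (nat_lit 0x20001000280014000800060000000000000000000) (nat_lit 0x0) (nat_lit 0x800040008000400020000000080006000200000000000) := T_42 (nat_lit 162) (nat_lit 179) (nat_lit 7) (nat_lit 8) (nat_lit 6) L115396 (by decide +kernel)
theorem L115398 : W_42 (nat_lit 6) (nat_lit 0x20001000280014000800020000000000000000000) (nat_lit 0x0) (nat_lit 0x8000400080004000200000000c0007000200000000000) := T_42 (nat_lit 78) (nat_lit 60) (nat_lit 4) (nat_lit 10) (nat_lit 7) L115397 (by decide +kernel)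
theorem L115399 : W_42 (nat_lit 2) (nat_lit 0x30001000680014000800060002000000000000000) (nat_lit 0x0) (nat_lit 0x80004000200000000000) := D_42 (nat_lit 62) (nat_lit 45) (nat_lit 79) (nat_lit 6) (nat_lit 10) (nat_lit 6) (nat_lit 6) (nat_lit 10) (nat_lit 7) (by decide +kernel)
theorem L115400 : W_42 (nat_lit 3) (nat_lit 0x30001000680014000800060000000000000000000) (nat_lit 0x0) (nat_lit 0x20000000080006000200000000000) := T_42 (nat_lit 61) (nat_lit 113) (nat_lit 7) (nat_lit 10) (nat_lit 3) L115399 (by decide +kernel)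
theorem L115401 : W_42 (nat_lit 4) (nat_lit 0x30001000280014000800060000000000000000000) (nat_lit 0x0) (nat_lit 0x8000400020000000080006000200000000000) := T_42 (nat_lit 130) (nat_lit 147) (nat_lit 7) (nat_lit 10) (nat_lit 4) L115400 (by decide +kernel)
theorem L115402 : W_42 (nat_lit 5) (nat_lit 0x20001000280014000800060000000000000000000) (nat_lit 0x0) (nat_lit 0x200010008000400020000000080006000200000000000) := T_42 (nat_lit 160) (nat_lit 177) (nat_lit 5) (nat_lit 8) (nat_lit 6) L115401 (by decide +kernel)
theorem L115403 : W_42 (nat_lit 6) (nat_lit 0x20001000280014000800020000000000000000000) (nat_lit 0x0) (nat_lit 0x2000100080004000200000000c0007000200000000000) := T_42 (nat_lit 78) (nat_lit 60) (nat_lit 4) (nat_lit 10) (nat_lit 7) L115402 (by decide +kernel)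
theorem L115404 : W_42 (nat_lit 2) (nat_lit 0x700010002800140018000e0000000000000000000) (nat_lit 0x0) (nat_lit 0x6000010000000000000000000) := D_42 (nat_lit 97) (nat_lit 76) (nat_lit 98) (nat_lit 3) (nat_lit 8) (nat_lit 4) (nat_lit 0) (nat_lit 13) (nat_lit 5) (by decide +kernel)
theorem L115405 : W_42 (nat_lit 3) (nat_lit 0x700010002800140008000e0000000000000000000) (nat_lit 0x0) (nat_lit 0x4000000000007000010000000000000000000) := T_42 (nat_lit 96) (nat_lit 146) (nat_lit 6) (nat_lit 10) (nat_lit 8) L115404 (by decide +kernel)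
theorem L115406 : W_42 (nat_lit 4) (nat_lit 0x600010002800140008000e0000000000000000000) (nat_lit 0x0) (nat_lit 0x200010004000000000007000010000000000000000000) := T_42 (nat_lit 160) (nat_lit 177) (nat_lit 5) (nat_lit 8) (nat_lit 6) L115405 (by decide +kernel)
theorem L115407 : W_42 (nat_lit 5) (nat_lit 0x60001000280014000800060000000000000000000) (nat_lit 0x0) (nat_lit 0x200010004000000000007000090004000000000000000) := T_42 (nat_lit 79) (nat_lit 62) (nat_lit 6) (nat_lit 10) (nat_lit 7) L115406 (by decide +kernel)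
theorem L115408 : W_42 (nat_lit 6) (nat_lit 0x20001000280014000800060000000000000000000) (nat_lit 0x0) (nat_lit 0xa00050004000000000007000090004000000000000000) := T_42 (nat_lit 162) (nat_lit 179) (nat_lit 7) (nat_lit 8) (nat_lit 6) L115407 (by decide +kernel)
theorem L115409 : W_42 (nat_lit 7) (nat_lit 0x20001000280014000800020000000000000000000) (nat_lit 0x0) (nat_lit 0xa000500040000000000070000d0005000000000000000) := T_42 (nat_lit 78) (nat_lit 60) (nat_lit 4) (nat_lit 10) (nat_lit 7) L115408 (by decide +kernel)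
theorem L115410 : W_42 (nat_lit 2) (nat_lit 0x20001f0001000280016000800020000000000000000000) (nat_lit 0x0) (nat_lit 0x18000400000000000000000000000000000000) := D_42 (nat_lit 147) (nat_lit 148) (nat_lit 130) (nat_lit 2) (nat_lit 8) (nat_lit 9) (nat_lit 4) (nat_lit 11) (nat_lit 10) (by decide +kernel)
theorem L115411 : W_42 (nat_lit 3) (nat_lit 0x20000f0001000280016000800020000000000000000000) (nat_lit 0x0) (nat_lit 0x4000100018000400000000000000000000000000000000) := T_42 (nat_lit 164) (nat_lit 182) (nat_lit 3) (nat_lit 8) (nat_lit 9) L115410 (by decide +kernel)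
theorem L115412 : W_42 (nat_lit 4) (nat_lit 0x20000f0001000280014000800020000000000000000000) (nat_lit 0x0) (nat_lit 0x4000100018000400002000100000000000000000000000) := T_42 (nat_lit 109) (nat_lit 92) (nat_lit 4) (nat_lit 8) (nat_lit 9) L115411 (by decide +kernel)
theorem L115413 : W_42 (nat_lit 5) (nat_lit 0xf0001000280014000800020000000000000000000) (nat_lit 0x0) (nat_lit 0x7000100018000400002000100000000000000000000000) := T_42 (nat_lit 181) (nat_lit 180) (nat_lit 3) (nat_lit 7) (nat_lit 9) L115412 (by decide +kernel)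
theorem L115414 : W_42 (nat_lit 6) (nat_lit 0xe0001000280014000800020000000000000000000) (nat_lit 0x0) (nat_lit 0x7200110018000400002000100000000000000000000000) := T_42 (nat_lit 160) (nat_lit 177) (nat_lit 5) (nat_lit 8) (nat_lit 6) L115413 (by decide +kernel)
theorem L115415 : W_42 (nat_lit 7) (nat_lit 0xa0001000280014000800020000000000000000000) (nat_lit 0x0) (nat_lit 0x7a00150018000400002000100000000000000000000000) := T_42 (nat_lit 162) (nat_lit 179) (nat_lit 7) (nat_lit 8) (nat_lit 6) L115414 (by decide +kernel)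
theorem L115416 : W_42 (nat_lit 2) (nat_lit 0x20000f0001000280016000800020000000000000000000) (nat_lit 0x0) (nat_lit 0x4000100004000000000000000000000000000000000000) := D_42 (nat_lit 164) (nat_lit 182) (nat_lit 146) (nat_lit 3) (nat_lit 8) (nat_lit 9) (nat_lit 7) (nat_lit 10) (nat_lit 6) (by decide +kernel)
theorem L115417 : W_42 (nat_lit 3) (nat_lit 0xf0001000280016000800020000000000000000000) (nat_lit 0x0) (nat_lit 0x7000100004000000000000000000000000000000000000) := T_42 (nat_lit 181) (nat_lit 180) (nat_lit 3) (nat_lit 7) (nat_lit 9) L115416 (by decide +kernel)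
theorem L115418 : W_42 (nat_lit 4) (nat_lit 0xe0001000280016000800020000000000000000000) (nat_lit 0x0) (nat_lit 0x7200110004000000000000000000000000000000000000) := T_42 (nat_lit 160) (nat_lit 177) (nat_lit 5) (nat_lit 8) (nat_lit 6) L115417 (by decide +kernel)
theorem L115419 : W_42 (nat_lit 5) (nat_lit 0xa0001000280016000800020000000000000000000) (nat_lit 0x0) (nat_lit 0x7a00150004000000000000000000000000000000000000) := T_42 (nat_lit 162) (nat_lit 179) (nat_lit 7) (nat_lit 8) (nat_lit 6) L115418 (by decide +kernel)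
theorem L115420 : W_42 (nat_lit 6) (nat_lit 0xa0001000280014000800020000000000000000000) (nat_lit 0x0) (nat_lit 0x7a00150004000000002000100000000000000000000000) := T_42 (nat_lit 109) (nat_lit 92) (nat_lit 4) (nat_lit 8) (nat_lit 9) L115419 (by decide +kernel)
theorem L115421 : W_42 (nat_lit 2) (nat_lit 0xa0005000280014000800020000000000000000000) (nat_lit 0x0) (nat_lit 0x20001000080000000000000000000) := D_42 (nat_lit 96) (nat_lit 79) (nat_lit 113) (nat_lit 6) (nat_lit 10) (nat_lit 8) (nat_lit 6) (nat_lit 10) (nat_lit 9) (by decide +kernel)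
theorem L115422 : W_42 (nat_lit 2) (nat_lit 0xa0005000280014000800020000000000000000000) (nat_lit 0x0) (nat_lit 0x2000100008000000000000000000000000000000000000) := D_42 (nat_lit 164) (nat_lit 147) (nat_lit 181) (nat_lit 7) (nat_lit 10) (nat_lit 5) (nat_lit 7) (nat_lit 10) (nat_lit 6) (by decide +kernel)
theorem L115423 : W_42 (nat_lit 3) (nat_lit 0xa0001000280014000800020000000000000000000) (nat_lit 0x0) (nat_lit 0x200010000c000000020001000080000000000000000000) := Q_42 (nat_lit 146) (C_42 L115421 (C_42 L115422 N_42)) (by decide +kernel)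
theorem L115424 : W_42 (nat_lit 2) (nat_lit 0x10000f0005000280016000800020000000000000000000) (nat_lit 0x0) (nat_lit 0x20001000080000000000000000000) := D_42 (nat_lit 96) (nat_lit 79) (nat_lit 113) (nat_lit 6) (nat_lit 10) (nat_lit 8) (nat_lit 6) (nat_lit 10) (nat_lit 9) (by decide +kernel)
theorem L115425 : W_42 (nat_lit 3) (nat_lit 0x10000f0001000280016000800020000000000000000000) (nat_lit 0x0) (nat_lit 0xc000000020001000080000000000000000000) := T_42 (nat_lit 146) (nat_lit 147) (nat_lit 2) (nat_lit 7) (nat_lit 9) L115424 (by decide +kernel)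
theorem L115426 : W_42 (nat_lit 4) (nat_lit 0xf0001000280016000800020000000000000000000) (nat_lit 0x0) (nat_lit 0x300000000c000000020001000080000000000000000000) := T_42 (nat_lit 180) (nat_lit 181) (nat_lit 3) (nat_lit 7) (nat_lit 9) L115425 (by decide +kernel)
theorem L115427 : W_42 (nat_lit 5) (nat_lit 0xb0001000280016000800020000000000000000000) (nat_lit 0x0) (nat_lit 0x380004000c000000020001000080000000000000000000) := T_42 (nat_lit 162) (nat_lit 179) (nat_lit 7) (nat_lit 8) (nat_lit 6) L115426 (by decide +kernel)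
theorem L115428 : W_42 (nat_lit 6) (nat_lit 0xa0001000280016000800020000000000000000000) (nat_lit 0x0) (nat_lit 0x3a0005000c000000020001000080000000000000000000) := T_42 (nat_lit 160) (nat_lit 177) (nat_lit 5) (nat_lit 8) (nat_lit 6) L115427 (by decide +kernel)
theorem L115429 : W_42 (nat_lit 7) (nat_lit 0xa0001000280014000800020000000000000000000) (nat_lit 0x0) (nat_lit 0x3a0005000c000000022001100080000000000000000000) := T_42 (nat_lit 109) (nat_lit 92) (nat_lit 4) (nat_lit 8) (nat_lit 9) L115428 (by decide +kernel)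
theorem L115430 : W_42 (nat_lit 2) (nat_lit 0xf0005000280016000800020000000000000000000) (nat_lit 0x0) (nat_lit 0x20001000080000000000000000000) := D_42 (nat_lit 96) (nat_lit 79) (nat_lit 113) (nat_lit 6) (nat_lit 10) (nat_lit 8) (nat_lit 6) (nat_lit 10) (nat_lit 9) (by decide +kernel)
theorem L115431 : W_42 (nat_lit 3) (nat_lit 0xf0001000280016000800020000000000000000000) (nat_lit 0x0) (nat_lit 0xc000000020001000080000000000000000000) := T_42 (nat_lit 146) (nat_lit 147) (nat_lit 2) (nat_lit 7) (nat_lit 9) L115430 (by decide +kernel)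
theorem L115432 : W_42 (nat_lit 4) (nat_lit 0xe0001000280016000800020000000000000000000) (nat_lit 0x0) (nat_lit 0x20001000c000000020001000080000000000000000000) := T_42 (nat_lit 160) (nat_lit 177) (nat_lit 5) (nat_lit 8) (nat_lit 6) L115431 (by decide +kernel)
theorem L115433 : W_42 (nat_lit 5) (nat_lit 0xe0001000280014000800020000000000000000000) (nat_lit 0x0) (nat_lit 0x20001000c000000022001100080000000000000000000) := T_42 (nat_lit 109) (nat_lit 92) (nat_lit 4) (nat_lit 8) (nat_lit 9) L115432 (by decide +kernel)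
theorem L115434 : W_42 (nat_lit 6) (nat_lit 0xa0001000280014000800020000000000000000000) (nat_lit 0x0) (nat_lit 0xa0005000c000000022001100080000000000000000000) := T_42 (nat_lit 162) (nat_lit 179) (nat_lit 7) (nat_lit 8) (nat_lit 6) L115433 (by decide +kernel)
theorem L115435 : W_42 (nat_lit 8) (nat_lit 0x20001000280014000800020000000000000000000) (nat_lit 0x0) (nat_lit 0x7a001d001c000400022001100080000000000000000000) := Q_42 (nat_lit 163) (C_42 L115415 (C_42 L115420 (C_42 L115423 (C_42 L115429 (C_42 L115434 N_42))))) (by decide +kernel)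
theorem L115436 : W_42 (nat_lit 2) (nat_lit 0x70009000280014000800060000000000000000000) (nat_lit 0x0) (nat_lit 0x180004000000000000000000000000000000000000) := D_42 (nat_lit 146) (nat_lit 163) (nat_lit 164) (nat_lit 2) (nat_lit 7) (nat_lit 9) (nat_lit 7) (nat_lit 10) (nat_lit 5) (by decide +kernel)
theorem L115437 : W_42 (nat_lit 3) (nat_lit 0x70001000280014000800060000000000000000000) (nat_lit 0x0) (nat_lit 0x18000c000400000000000000000000000000000000) := T_42 (nat_lit 147) (nat_lit 130) (nat_lit 7) (nat_lit 10) (nat_lit 4) L115436 (by decide +kernel)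
theorem L115438 : W_42 (nat_lit 4) (nat_lit 0x30001000280014000800060000000000000000000) (nat_lit 0x0) (nat_lit 0x8001c000c000400000000000000000000000000000000) := T_42 (nat_lit 162) (nat_lit 179) (nat_lit 7) (nat_lit 8) (nat_lit 6) L115437 (by decide +kernel)
theorem L115439 : W_42 (nat_lit 5) (nat_lit 0x30001000280014000800020000000000000000000) (nat_lit 0x0) (nat_lit 0x8001c000c000400000000000040001000000000000000) := T_42 (nat_lit 78) (nat_lit 60) (nat_lit 4) (nat_lit 10) (nat_lit 7) L115438 (by decide +kernel)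
theorem L115440 : W_42 (nat_lit 6) (nat_lit 0x20001000280014000800020000000000000000000) (nat_lit 0x0) (nat_lit 0xa001d000c000400000000000040001000000000000000) := T_42 (nat_lit 160) (nat_lit 177) (nat_lit 5) (nat_lit 8) (nat_lit 6) L115439 (by decide +kernel)
theorem L115441 : W_42 (nat_lit 9) (nat_lit 0x20001000280014000000020000000000000000000) (nat_lit 0x0) (nat_lit 0x7a001d001c0004000220079000d0007000200000000000) := Q_42 (nat_lit 95) (C_42 L115393 (C_42 L115398 (C_42 L115403 (C_42 L115409 (C_42 L115435 (C_42 L115440 N_42)))))) (by decide +kernel)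
theorem L115442 : W_42 (nat_lit 2) (nat_lit 0x200010003c0014000000020000000000000000000) (nat_lit 0x0) (nat_lit 0x400003000000000000000000000000000) := D_42 (nat_lit 109) (nat_lit 108) (nat_lit 130) (nat_lit 0) (nat_lit 10) (nat_lit 7) (nat_lit 0) (nat_lit 11) (nat_lit 7) (by decide +kernel)
theorem L115443 : W_42 (nat_lit 3) (nat_lit 0x20001000380014000000020000000000000000000) (nat_lit 0x0) (nat_lit 0x440023000000000000000000000000000) := T_42 (nat_lit 126) (nat_lit 113) (nat_lit 2) (nat_lit 7) (nat_lit 7) L115442 (by decide +kernel)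
theorem L115444 : W_42 (nat_lit 6) (nat_lit 0x60001000380014000000020000000000000000000) (nat_lit 0x0) (nat_lit 0x320019001c000400002000000000000000000000000000) := T_42 (nat_lit 130) (nat_lit 109) (nat_lit 0) (nat_lit 11) (nat_lit 7) L115123 (by decide +kernel)
theorem L115445 : W_42 (nat_lit 7) (nat_lit 0x20001000380014000000020000000000000000000) (nat_lit 0x0) (nat_lit 0x3a001d001c000400002000000000000000000000000000) := T_42 (nat_lit 162) (nat_lit 179) (nat_lit 7) (nat_lit 8) (nat_lit 6) L115444 (by decide +kernel)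
theorem L115446 : W_42 (nat_lit 2) (nat_lit 0xf0005000380034000000020000000000000000000) (nat_lit 0x0) (nat_lit 0x3000100000000000000000000000000000000000000000) := D_42 (nat_lit 181) (nat_lit 180) (nat_lit 164) (nat_lit 3) (nat_lit 7) (nat_lit 9) (nat_lit 7) (nat_lit 10) (nat_lit 6) (by decide +kernel)
theorem L115447 : W_42 (nat_lit 3) (nat_lit 0x70005000380034000000020000000000000000000) (nat_lit 0x0) (nat_lit 0x3000180000000000000001000000000000000000000000) := T_42 (nat_lit 163) (nat_lit 96) (nat_lit 6) (nat_lit 10) (nat_lit 9) L115446 (by decide +kernel)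
theorem L115448 : W_42 (nat_lit 4) (nat_lit 0x30005000380034000000020000000000000000000) (nat_lit 0x0) (nat_lit 0x38001c0000000000000001000000000000000000000000) := T_42 (nat_lit 162) (nat_lit 179) (nat_lit 7) (nat_lit 8) (nat_lit 6) L115447 (by decide +kernel)
theorem L115449 : W_42 (nat_lit 5) (nat_lit 0x30005000380014000000020000000000000000000) (nat_lit 0x0) (nat_lit 0x38001c0000000040020001000000000000000000000000) := T_42 (nat_lit 113) (nat_lit 126) (nat_lit 2) (nat_lit 7) (nat_lit 7) L115448 (by decide +kernel)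
theorem L115450 : W_42 (nat_lit 6) (nat_lit 0x20005000380014000000020000000000000000000) (nat_lit 0x0) (nat_lit 0x3a001d0000000040020001000000000000000000000000) := T_42 (nat_lit 160) (nat_lit 177) (nat_lit 5) (nat_lit 8) (nat_lit 6) L115449 (by decide +kernel)
theorem L115451 : W_42 (nat_lit 7) (nat_lit 0x20001000380014000000020000000000000000000) (nat_lit 0x0) (nat_lit 0x3a001d000c000040020001000000000000000000000000) := Q_42 (nat_lit 146) (C_42 L115114 (C_42 L115115 (C_42 L115450 N_42))) (by decide +kernel)
theorem L115452 : W_42 (nat_lit 8) (nat_lit 0x20001000280014000000020000000000000000000) (nat_lit 0x0) (nat_lit 0x3a001d001c0005400e3001000000000000000000000000) := Q_42 (nat_lit 128) (C_42 L115119 (C_42 L115443 (C_42 L115445 (C_42 L115451 N_42)))) (by decide +kernel)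
theorem L115453 : W_42 (nat_lit 2) (nat_lit 0x600010002800140011000f0000800000000000000) (nat_lit 0x0) (nat_lit 0x2000000000000c000000000000000) := D_42 (nat_lit 62) (nat_lit 63) (nat_lit 113) (nat_lit 2) (nat_lit 8) (nat_lit 4) (nat_lit 5) (nat_lit 11) (nat_lit 3) (by decide +kernel)
theorem L115454 : W_42 (nat_lit 3) (nat_lit 0x600010002800140001000f0000800000000000000) (nat_lit 0x0) (nat_lit 0x2000300000000c000000000000000) := T_42 (nat_lit 96) (nat_lit 97) (nat_lit 3) (nat_lit 8) (nat_lit 4) L115453 (by decide +kernel)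
theorem L115455 : W_42 (nat_lit 4) (nat_lit 0x600010002800140001000f0000000000000000000) (nat_lit 0x0) (nat_lit 0x2000300000000cc00000000000000) := T_42 (nat_lit 59) (nat_lit 58) (nat_lit 0) (nat_lit 11) (nat_lit 4) L115454 (by decide +kernel)
theorem L115456 : W_42 (nat_lit 7) (nat_lit 0x20001000280014000000070000000000000000000) (nat_lit 0x0) (nat_lit 0xa0005000000000002000700018001dc00000000000000) := Q_42 (nat_lit 79) (C_42 L114984 (C_42 L115012 (C_42 L115007 (C_42 L114999 N_42)))) (by decide +kernel)
theorem L115457 : W_42 (nat_lit 2) (nat_lit 0x700010002800140011000f0000800000000000000) (nat_lit 0x0) (nat_lit 0x2000000000000c000000000000000) := D_42 (nat_lit 62) (nat_lit 63) (nat_lit 113) (nat_lit 2) (nat_lit 8) (nat_lit 4) (nat_lit 5) (nat_lit 11) (nat_lit 3) (by decide +kernel)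
theorem L115458 : W_42 (nat_lit 3) (nat_lit 0x700010002800140001000f0000800000000000000) (nat_lit 0x0) (nat_lit 0x2000300000000c000000000000000) := T_42 (nat_lit 96) (nat_lit 97) (nat_lit 3) (nat_lit 8) (nat_lit 4) L115457 (by decide +kernel)
theorem L115459 : W_42 (nat_lit 4) (nat_lit 0x700010002800140001000f0000000000000000000) (nat_lit 0x0) (nat_lit 0x2000300000000cc00000000000000) := T_42 (nat_lit 59) (nat_lit 58) (nat_lit 0) (nat_lit 11) (nat_lit 4) L115458 (by decide +kernel)
theorem L115460 : W_42 (nat_lit 5) (nat_lit 0x70001000280014000100070000000000000000000) (nat_lit 0x0) (nat_lit 0x2000320008000cc00000000000000) := T_42 (nat_lit 79) (nat_lit 93) (nat_lit 1) (nat_lit 11) (nat_lit 4) L115459 (by decide +kernel)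
theorem L115461 : W_42 (nat_lit 6) (nat_lit 0x30001000280014000100070000000000000000000) (nat_lit 0x0) (nat_lit 0x80004000000000002000320008000cc00000000000000) := T_42 (nat_lit 162) (nat_lit 179) (nat_lit 7) (nat_lit 8) (nat_lit 6) L115460 (by decide +kernel)
theorem L115462 : W_42 (nat_lit 7) (nat_lit 0x30001000280014000000070000000000000000000) (nat_lit 0x0) (nat_lit 0x80004000000000002200330008000cc00000000000000) := T_42 (nat_lit 92) (nat_lit 109) (nat_lit 4) (nat_lit 8) (nat_lit 9) L115461 (by decide +kernel)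
theorem L115463 : W_42 (nat_lit 8) (nat_lit 0x20001000280014000000070000000000000000000) (nat_lit 0x0) (nat_lit 0xa0005000000000002200330008000cc00000000000000) := T_42 (nat_lit 160) (nat_lit 177) (nat_lit 5) (nat_lit 8) (nat_lit 6) L115462 (by decide +kernel)
theorem L115464 : W_42 (nat_lit 2) (nat_lit 0x200010002c0016000200030000000000000000000) (nat_lit 0x0) (nat_lit 0x100021000000000000000000000000000) := D_42 (nat_lit 128) (nat_lit 113) (nat_lit 108) (nat_lit 2) (nat_lit 7) (nat_lit 7) (nat_lit 0) (nat_lit 10) (nat_lit 7) (by decide +kernel)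
theorem L115465 : W_42 (nat_lit 3) (nat_lit 0x20001000280016000200030000000000000000000) (nat_lit 0x0) (nat_lit 0x140021000000000000800000000000000) := T_42 (nat_lit 126) (nat_lit 59) (nat_lit 5) (nat_lit 8) (nat_lit 3) L115464 (by decide +kernel)
theorem L115466 : W_42 (nat_lit 4) (nat_lit 0x20001000280016000000030000000000000000000) (nat_lit 0x0) (nat_lit 0x140021000200000001800000000000000) := T_42 (nat_lit 93) (nat_lit 60) (nat_lit 6) (nat_lit 8) (nat_lit 7) L115465 (by decide +kernel)
theorem L115467 : W_42 (nat_lit 5) (nat_lit 0x20001000280014000000030000000000000000000) (nat_lit 0x0) (nat_lit 0x140023000300000001800000000000000) := T_42 (nat_lit 109) (nat_lit 92) (nat_lit 4) (nat_lit 8) (nat_lit 9) L115466 (by decide +kernel)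
theorem L115468 : W_42 (nat_lit 9) (nat_lit 0x20001000280014000000030000000000000000000) (nat_lit 0x0) (nat_lit 0xa00050000000000022007b001c001dc00000000000000) := Q_42 (nat_lit 78) (C_42 L115463 (C_42 L115384 (C_42 L115381 (C_42 L115456 (C_42 L115049 N_42))))) (by decide +kernel)
theorem L115469 : W_42 (nat_lit 4) (nat_lit 0x20001000280014000000070000000000000000000) (nat_lit 0x0) (nat_lit 0x4000000000003800080005000000000000000) := T_42 (nat_lit 95) (nat_lit 60) (nat_lit 4) (nat_lit 10) (nat_lit 7) L115039 (by decide +kernel)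
theorem L115470 : W_42 (nat_lit 7) (nat_lit 0x200010002800140000000b0000000000000000000) (nat_lit 0x0) (nat_lit 0xa0005000000000002000700014001dc00000000000000) := Q_42 (nat_lit 78) (C_42 L115012 (C_42 L115007 (C_42 L114999 (C_42 L114984 N_42)))) (by decide +kernel)
theorem L115471 : W_42 (nat_lit 3) (nat_lit 0x200010002800140000000f0000000000000000000) (nat_lit 0x0) (nat_lit 0x4000000000003800000001000000000000000) := T_42 (nat_lit 95) (nat_lit 60) (nat_lit 4) (nat_lit 10) (nat_lit 7) L115038 (by decide +kernel)
theorem L115472 : W_42 (nat_lit 10) (nat_lit 0x200010002800140000000b0000000000000000000) (nat_lit 0x0) (nat_lit 0x80004000400000000000f80074007fc00000000000000) := Q_42 (nat_lit 78) (C_42 L115007 (C_42 L114987 (C_42 L114995 (C_42 L115471 (C_42 L114985 N_42))))) (by decide +kernel)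
theorem L115473 : W_42 (nat_lit 6) (nat_lit 0x200010002800140000000b0000000000000000000) (nat_lit 0x0) (nat_lit 0x20001000400000000000380014001dc00000000000000) := Q_42 (nat_lit 78) (C_42 L114999 (C_42 L115471 (C_42 L114987 N_42))) (by decide +kernel)
theorem L115474 : W_42 (nat_lit 6) (nat_lit 0x200010002800140000000b0000000000000000000) (nat_lit 0x0) (nat_lit 0x80004000400000000000780014001d000000000000000) := Q_42 (nat_lit 78) (C_42 L115007 (C_42 L115471 (C_42 L114985 N_42))) (by decide +kernel)
theorem L115475 : W_42 (nat_lit 12) (nat_lit 0x200010002800140000000b0000000000000000000) (nat_lit 0x0) (nat_lit 0x7a003d003c0009400e2003900100004000700038001000) := Q_42 (nat_lit 96) (C_42 L115059 (C_42 L115071 (C_42 L115066 N_42))) (by decide +kernel)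
theorem L115476 : W_42 (nat_lit 2) (nat_lit 0x200010002800160000000f0000800000000000000) (nat_lit 0x0) (nat_lit 0x800100001000000000000000) := D_42 (nat_lit 60) (nat_lit 95) (nat_lit 80) (nat_lit 4) (nat_lit 10) (nat_lit 7) (nat_lit 0) (nat_lit 12) (nat_lit 4) (by decide +kernel)
theorem L115477 : W_42 (nat_lit 3) (nat_lit 0x200010002800160000000f0000000000000000000) (nat_lit 0x0) (nat_lit 0x800100001c00000000000000) := T_42 (nat_lit 59) (nat_lit 58) (nat_lit 0) (nat_lit 11) (nat_lit 4) L115476 (by decide +kernel)
theorem L115478 : W_42 (nat_lit 4) (nat_lit 0x200010002800140000000f0000000000000000000) (nat_lit 0x0) (nat_lit 0x2000900100001c00000000000000) := T_42 (nat_lit 109) (nat_lit 92) (nat_lit 4) (nat_lit 8) (nat_lit 9) L115477 (by decide +kernel)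
theorem L115479 : W_42 (nat_lit 10) (nat_lit 0x200010002800140000000b0000000000000000000) (nat_lit 0x0) (nat_lit 0xa0005000000000000200e90074007fc00000000000000) := Q_42 (nat_lit 78) (C_42 L114999 (C_42 L114995 (C_42 L114985 (C_42 L115478 N_42)))) (by decide +kernel)
theorem L115480 : W_42 (nat_lit 2) (nat_lit 0xe00050002800160010000f0000800000000000000) (nat_lit 0x0) (nat_lit 0x200010008000000000000000000000000000000000000) := D_42 (nat_lit 160) (nat_lit 147) (nat_lit 177) (nat_lit 2) (nat_lit 7) (nat_lit 9) (nat_lit 5) (nat_lit 8) (nat_lit 6) (by decide +kernel)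
theorem L115481 : W_42 (nat_lit 3) (nat_lit 0x600050002800160010000f0000800000000000000) (nat_lit 0x0) (nat_lit 0x200090008000000020000000000000000000000000000) := T_42 (nat_lit 163) (nat_lit 113) (nat_lit 6) (nat_lit 10) (nat_lit 9) L115480 (by decide +kernel)
theorem L115482 : W_42 (nat_lit 4) (nat_lit 0x200050002800160010000f0000800000000000000) (nat_lit 0x0) (nat_lit 0xa000d0008000000020000000000000000000000000000) := T_42 (nat_lit 162) (nat_lit 179) (nat_lit 7) (nat_lit 8) (nat_lit 6) L115481 (by decide +kernel)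
theorem L115483 : W_42 (nat_lit 5) (nat_lit 0x200010002800160010000f0000800000000000000) (nat_lit 0x0) (nat_lit 0xa000d000c000000020000800000000000000000000000) := T_42 (nat_lit 146) (nat_lit 95) (nat_lit 6) (nat_lit 10) (nat_lit 8) L115482 (by decide +kernel)
theorem L115484 : W_42 (nat_lit 6) (nat_lit 0x200010002800160010000f0000000000000000000) (nat_lit 0x0) (nat_lit 0xa000d000c000000020000800000000c00000000000000) := T_42 (nat_lit 59) (nat_lit 58) (nat_lit 0) (nat_lit 11) (nat_lit 4) L115483 (by decide +kernel)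
theorem L115485 : W_42 (nat_lit 7) (nat_lit 0x200010002800160000000f0000000000000000000) (nat_lit 0x0) (nat_lit 0xa000d000c000000020003800000000c00000000000000) := T_42 (nat_lit 96) (nat_lit 97) (nat_lit 3) (nat_lit 8) (nat_lit 4) L115484 (by decide +kernel)
theorem L115486 : W_42 (nat_lit 8) (nat_lit 0x200010002800140000000f0000000000000000000) (nat_lit 0x0) (nat_lit 0xa000d000c000000022003900000000c00000000000000) := T_42 (nat_lit 109) (nat_lit 92) (nat_lit 4) (nat_lit 8) (nat_lit 9) L115485 (by decide +kernel)
theorem L115487 : W_42 (nat_lit 9) (nat_lit 0x200010002800140000000b0000000000000000000) (nat_lit 0x0) (nat_lit 0xa000d000c000000022007900140001c00000000000000) := Q_42 (nat_lit 78) (C_42 L115012 (C_42 L115478 (C_42 L115471 (C_42 L115486 N_42)))) (by decide +kernel)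
theorem L115488 : W_42 (nat_lit 9) (nat_lit 0x200010002800140000000b0000000000000000000) (nat_lit 0x0) (nat_lit 0xa000d000c00000002200390004000dc00000000000000) := Q_42 (nat_lit 78) (C_42 L114984 (C_42 L115486 (C_42 L115471 (C_42 L114985 N_42)))) (by decide +kernel)
theorem L115489 : W_42 (nat_lit 6) (nat_lit 0x200010002800140000000b0000000000000000000) (nat_lit 0x0) (nat_lit 0x20001000000000000200090014001dc00000000000000) := Q_42 (nat_lit 78) (C_42 L114999 (C_42 L115478 (C_42 L114985 N_42))) (by decide +kernel)
theorem L115490 : W_42 (nat_lit 13) (nat_lit 0x20001000280014000000030000000000000000000) (nat_lit 0x0) (nat_lit 0x7a003d003c0009400e200f9007c007fc00700038001000) := Q_42 (nat_lit 79) (C_42 L115470 (C_42 L115472 (C_42 L115473 (C_42 L115474 (C_42 L115475 (C_42 L115479 (C_42 L115487 (C_42 L115488 (C_42 L115489 N_42))))))))) (by decide +kernel)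
theorem L115491 : W_42 (nat_lit 2) (nat_lit 0x700010002800140001000f0000000000000000000) (nat_lit 0x0) (nat_lit 0x80000000c000000000000000) := D_42 (nat_lit 62) (nat_lit 63) (nat_lit 95) (nat_lit 2) (nat_lit 8) (nat_lit 4) (nat_lit 6) (nat_lit 10) (nat_lit 7) (by decide +kernel)
theorem L115492 : W_42 (nat_lit 3) (nat_lit 0x70001000280014000100070000000000000000000) (nat_lit 0x0) (nat_lit 0xa0008000c000000000000000) := T_42 (nat_lit 79) (nat_lit 93) (nat_lit 1) (nat_lit 11) (nat_lit 4) L115491 (by decide +kernel)
theorem L115493 : W_42 (nat_lit 4) (nat_lit 0x70001000280014000000070000000000000000000) (nat_lit 0x0) (nat_lit 0x2000b0008000c000000000000000) := T_42 (nat_lit 92) (nat_lit 109) (nat_lit 4) (nat_lit 8) (nat_lit 9) L115492 (by decide +kernel)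
theorem L115494 : W_42 (nat_lit 5) (nat_lit 0x30001000280014000000070000000000000000000) (nat_lit 0x0) (nat_lit 0x800040000000000002000b0008000c000000000000000) := T_42 (nat_lit 162) (nat_lit 179) (nat_lit 7) (nat_lit 8) (nat_lit 6) L115493 (by decide +kernel)
theorem L115495 : W_42 (nat_lit 6) (nat_lit 0x20001000280014000000070000000000000000000) (nat_lit 0x0) (nat_lit 0xa00050000000000002000b0008000c000000000000000) := T_42 (nat_lit 160) (nat_lit 177) (nat_lit 5) (nat_lit 8) (nat_lit 6) L115494 (by decide +kernel)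
theorem L115496 : W_42 (nat_lit 7) (nat_lit 0x20001000280014000000030000000000000000000) (nat_lit 0x0) (nat_lit 0xa00050004000000002003b000c000d000000000000000) := Q_42 (nat_lit 78) (C_42 L115049 (C_42 L115384 (C_42 L115469 (C_42 L115495 N_42)))) (by decide +kernel)
theorem L115497 : W_42 (nat_lit 2) (nat_lit 0x700050002800140010000f0000800000000000000) (nat_lit 0x0) (nat_lit 0x80008000000020000000000000000000000000000) := D_42 (nat_lit 163) (nat_lit 147) (nat_lit 113) (nat_lit 2) (nat_lit 7) (nat_lit 9) (nat_lit 6) (nat_lit 10) (nat_lit 9) (by decide +kernel)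
theorem L115498 : W_42 (nat_lit 3) (nat_lit 0x300050002800140010000f0000800000000000000) (nat_lit 0x0) (nat_lit 0x8000c0008000000020000000000000000000000000000) := T_42 (nat_lit 162) (nat_lit 179) (nat_lit 7) (nat_lit 8) (nat_lit 6) L115497 (by decide +kernel)
theorem L115499 : W_42 (nat_lit 4) (nat_lit 0x300010002800140010000f0000800000000000000) (nat_lit 0x0) (nat_lit 0x8000c000c000000020000800000000000000000000000) := T_42 (nat_lit 146) (nat_lit 95) (nat_lit 6) (nat_lit 10) (nat_lit 8) L115498 (by decide +kernel)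
theorem L115500 : W_42 (nat_lit 5) (nat_lit 0x300010002800140010000f0000000000000000000) (nat_lit 0x0) (nat_lit 0x8000c000c000000020000800000000c00000000000000) := T_42 (nat_lit 59) (nat_lit 58) (nat_lit 0) (nat_lit 11) (nat_lit 4) L115499 (by decide +kernel)
theorem L115501 : W_42 (nat_lit 6) (nat_lit 0x300010002800140000000f0000000000000000000) (nat_lit 0x0) (nat_lit 0x8000c000c000000020003800000000c00000000000000) := T_42 (nat_lit 96) (nat_lit 97) (nat_lit 3) (nat_lit 8) (nat_lit 4) L115500 (by decide +kernel)
theorem L115502 : W_42 (nat_lit 7) (nat_lit 0x200010002800140000000f0000000000000000000) (nat_lit 0x0) (nat_lit 0xa000d000c000000020003800000000c00000000000000) := T_42 (nat_lit 160) (nat_lit 177) (nat_lit 5) (nat_lit 8) (nat_lit 6) L115501 (by decide +kernel)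
theorem L115503 : W_42 (nat_lit 8) (nat_lit 0x20001000280014000000070000000000000000000) (nat_lit 0x0) (nat_lit 0xa000d000c00000002000780018001cc00000000000000) := Q_42 (nat_lit 79) (C_42 L115007 (C_42 L114987 (C_42 L114985 (C_42 L115502 N_42)))) (by decide +kernel)
theorem L115504 : W_42 (nat_lit 9) (nat_lit 0x20001000280014000000030000000000000000000) (nat_lit 0x0) (nat_lit 0xa000d000c000000020007a001c001dc00000000000000) := Q_42 (nat_lit 78) (C_42 L115049 (C_42 L115456 (C_42 L115469 (C_42 L115503 N_42)))) (by decide +kernel)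
theorem L115505 : W_42 (nat_lit 5) (nat_lit 0x700010002800140001000b0000000000000000000) (nat_lit 0x0) (nat_lit 0x2000320004000cc00000000000000) := T_42 (nat_lit 78) (nat_lit 93) (nat_lit 1) (nat_lit 11) (nat_lit 4) L115459 (by decide +kernel)
theorem L115506 : W_42 (nat_lit 6) (nat_lit 0x600010002800140001000b0000000000000000000) (nat_lit 0x0) (nat_lit 0x20001000000000002000320004000cc00000000000000) := T_42 (nat_lit 160) (nat_lit 177) (nat_lit 5) (nat_lit 8) (nat_lit 6) L115505 (by decide +kernel)
theorem L115507 : W_42 (nat_lit 7) (nat_lit 0x600010002800140000000b0000000000000000000) (nat_lit 0x0) (nat_lit 0x20001000000000002200330004000cc00000000000000) := T_42 (nat_lit 92) (nat_lit 109) (nat_lit 4) (nat_lit 8) (nat_lit 9) L115506 (by decide +kernel)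
theorem L115508 : W_42 (nat_lit 8) (nat_lit 0x200010002800140000000b0000000000000000000) (nat_lit 0x0) (nat_lit 0xa0005000000000002200330004000cc00000000000000) := T_42 (nat_lit 162) (nat_lit 179) (nat_lit 7) (nat_lit 8) (nat_lit 6) L115507 (by decide +kernel)
theorem L115509 : W_42 (nat_lit 5) (nat_lit 0x600010002800140001000b0000000000000000000) (nat_lit 0x0) (nat_lit 0x2000320004000cc00000000000000) := T_42 (nat_lit 78) (nat_lit 93) (nat_lit 1) (nat_lit 11) (nat_lit 4) L115455 (by decide +kernel)
theorem L115510 : W_42 (nat_lit 6) (nat_lit 0x600010002800140000000b0000000000000000000) (nat_lit 0x0) (nat_lit 0x2200330004000cc00000000000000) := T_42 (nat_lit 92) (nat_lit 109) (nat_lit 4) (nat_lit 8) (nat_lit 9) L115509 (by decide +kernel)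
theorem L115511 : W_42 (nat_lit 7) (nat_lit 0x200010002800140000000b0000000000000000000) (nat_lit 0x0) (nat_lit 0x80004000000000002200330004000cc00000000000000) := T_42 (nat_lit 162) (nat_lit 179) (nat_lit 7) (nat_lit 8) (nat_lit 6) L115510 (by decide +kernel)
theorem L115512 : W_42 (nat_lit 5) (nat_lit 0x300010002800140001000b0000000000000000000) (nat_lit 0x0) (nat_lit 0x2000320004000cc00000000000000) := T_42 (nat_lit 78) (nat_lit 93) (nat_lit 1) (nat_lit 11) (nat_lit 4) L115387 (by decide +kernel)
theorem L115513 : W_42 (nat_lit 6) (nat_lit 0x200010002800140001000b0000000000000000000) (nat_lit 0x0) (nat_lit 0x20001000000000002000320004000cc00000000000000) := T_42 (nat_lit 160) (nat_lit 177) (nat_lit 5) (nat_lit 8) (nat_lit 6) L115512 (by decide +kernel)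
theorem L115514 : W_42 (nat_lit 7) (nat_lit 0x200010002800140000000b0000000000000000000) (nat_lit 0x0) (nat_lit 0x20001000000000002200330004000cc00000000000000) := T_42 (nat_lit 92) (nat_lit 109) (nat_lit 4) (nat_lit 8) (nat_lit 9) L115513 (by decide +kernel)
theorem L115515 : W_42 (nat_lit 8) (nat_lit 0x200010002800140000000b0000000000000000000) (nat_lit 0x0) (nat_lit 0xa000d000c00000002000780014001cc00000000000000) := Q_42 (nat_lit 78) (C_42 L115007 (C_42 L115502 (C_42 L114987 (C_42 L114985 N_42)))) (by decide +kernel)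
theorem L115516 : W_42 (nat_lit 3) (nat_lit 0x700010002800140001000b0000000000000000000) (nat_lit 0x0) (nat_lit 0xa0004000c000000000000000) := T_42 (nat_lit 78) (nat_lit 93) (nat_lit 1) (nat_lit 11) (nat_lit 4) L115491 (by decide +kernel)
theorem L115517 : W_42 (nat_lit 4) (nat_lit 0x300010002800140001000b0000000000000000000) (nat_lit 0x0) (nat_lit 0x800040000000000000000a0004000c000000000000000) := T_42 (nat_lit 162) (nat_lit 179) (nat_lit 7) (nat_lit 8) (nat_lit 6) L115516 (by decide +kernel)
theorem L115518 : W_42 (nat_lit 5) (nat_lit 0x300010002800140000000b0000000000000000000) (nat_lit 0x0) (nat_lit 0x800040000000000002000b0004000c000000000000000) := T_42 (nat_lit 92) (nat_lit 109) (nat_lit 4) (nat_lit 8) (nat_lit 9) L115517 (by decide +kernel)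
theorem L115519 : W_42 (nat_lit 6) (nat_lit 0x200010002800140000000b0000000000000000000) (nat_lit 0x0) (nat_lit 0xa00050000000000002000b0004000c000000000000000) := T_42 (nat_lit 160) (nat_lit 177) (nat_lit 5) (nat_lit 8) (nat_lit 6) L115518 (by decide +kernel)
theorem L115520 : W_42 (nat_lit 2) (nat_lit 0x700050002800140011000f0000800000000000000) (nat_lit 0x0) (nat_lit 0x80008000000020000000000000000000000000000) := D_42 (nat_lit 163) (nat_lit 147) (nat_lit 113) (nat_lit 2) (nat_lit 7) (nat_lit 9) (nat_lit 6) (nat_lit 10) (nat_lit 9) (by decide +kernel)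
theorem L115521 : W_42 (nat_lit 3) (nat_lit 0x700010002800140011000f0000800000000000000) (nat_lit 0x0) (nat_lit 0x8000c000000020000800000000000000000000000) := T_42 (nat_lit 146) (nat_lit 95) (nat_lit 6) (nat_lit 10) (nat_lit 8) L115520 (by decide +kernel)
theorem L115522 : W_42 (nat_lit 4) (nat_lit 0x700010002800140001000f0000800000000000000) (nat_lit 0x0) (nat_lit 0x8000c000000020003800000000000000000000000) := T_42 (nat_lit 96) (nat_lit 97) (nat_lit 3) (nat_lit 8) (nat_lit 4) L115521 (by decide +kernel)
theorem L115523 : W_42 (nat_lit 5) (nat_lit 0x700010002800140001000f0000000000000000000) (nat_lit 0x0) (nat_lit 0x8000c000000020003800000000c00000000000000) := T_42 (nat_lit 59) (nat_lit 58) (nat_lit 0) (nat_lit 11) (nat_lit 4) L115522 (by decide +kernel)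
theorem L115524 : W_42 (nat_lit 6) (nat_lit 0x700010002800140001000b0000000000000000000) (nat_lit 0x0) (nat_lit 0x8000c000000020003a00040000c00000000000000) := T_42 (nat_lit 78) (nat_lit 93) (nat_lit 1) (nat_lit 11) (nat_lit 4) L115523 (by decide +kernel)
theorem L115525 : W_42 (nat_lit 7) (nat_lit 0x700010002800140000000b0000000000000000000) (nat_lit 0x0) (nat_lit 0x8000c000000022003b00040000c00000000000000) := T_42 (nat_lit 92) (nat_lit 109) (nat_lit 4) (nat_lit 8) (nat_lit 9) L115524 (by decide +kernel)
theorem L115526 : W_42 (nat_lit 8) (nat_lit 0x600010002800140000000b0000000000000000000) (nat_lit 0x0) (nat_lit 0x20009000c000000022003b00040000c00000000000000) := T_42 (nat_lit 160) (nat_lit 177) (nat_lit 5) (nat_lit 8) (nat_lit 6) L115525 (by decide +kernel)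
theorem L115527 : W_42 (nat_lit 9) (nat_lit 0x200010002800140000000b0000000000000000000) (nat_lit 0x0) (nat_lit 0xa000d000c000000022003b00040000c00000000000000) := T_42 (nat_lit 162) (nat_lit 179) (nat_lit 7) (nat_lit 8) (nat_lit 6) L115526 (by decide +kernel)
theorem L115528 : W_42 (nat_lit 13) (nat_lit 0x20001000280014000000030000000000000000000) (nat_lit 0x0) (nat_lit 0x7a003d003c0009400e2007b001c001cc00700038001000) := Q_42 (nat_lit 79) (C_42 L115508 (C_42 L115511 (C_42 L115514 (C_42 L115475 (C_42 L115515 (C_42 L115519 (C_42 L115527 N_42))))))) (by decide +kernel)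
theorem L115529 : W_42 (nat_lit 14) (nat_lit 0x20001000280014000000020000000000000000000) (nat_lit 0x0) (nat_lit 0x7a003d003c0009400e300fb007d007fc00700038001000) := Q_42 (nat_lit 76) (C_42 L115467 (C_42 L115468 (C_42 L115490 (C_42 L115496 (C_42 L115504 (C_42 L115528 N_42)))))) (by decide +kernel)
theorem L115530 : W_42 (nat_lit 2) (nat_lit 0x20001000380016000000020000000000000000000) (nat_lit 0x0) (nat_lit 0x40001800000000000000000000000000) := D_42 (nat_lit 108) (nat_lit 126) (nat_lit 107) (nat_lit 0) (nat_lit 10) (nat_lit 7) (nat_lit 3) (nat_lit 5) (nat_lit 6) (by decide +kernel)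
theorem L115531 : W_42 (nat_lit 3) (nat_lit 0x20001000280016000000020000000000000000000) (nat_lit 0x0) (nat_lit 0x540001800000000000000000000000000) := T_42 (nat_lit 128) (nat_lit 130) (nat_lit 0) (nat_lit 11) (nat_lit 7) L115530 (by decide +kernel)
theorem L115532 : W_42 (nat_lit 4) (nat_lit 0x20001000280014000000020000000000000000000) (nat_lit 0x0) (nat_lit 0x540003800100000000000000000000000) := T_42 (nat_lit 109) (nat_lit 92) (nat_lit 4) (nat_lit 8) (nat_lit 9) L115531 (by decide +kernel)
theorem L115533 : W_42 (nat_lit 12) (nat_lit 0x20001000280014000000020000000000000000000) (nat_lit 0x0) (nat_lit 0x7a003d003c000d400e0003a001d0007c00000000000000) := Q_42 (nat_lit 113) (C_42 L115197 (C_42 L115351 (C_42 L115234 N_42))) (by decide +kernel)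
theorem L115534 : W_42 (nat_lit 15) (nat_lit 0x20001000080014000000020000000000000000000) (nat_lit 0x0) (nat_lit 0x7a003d003c000f400e380fb007d007fc00700038001000) := Q_42 (nat_lit 129) (C_42 L115376 (C_42 L115379 (C_42 L115441 (C_42 L115452 (C_42 L115529 (C_42 L115532 (C_42 L115533 N_42))))))) (by decide +kernel)
theorem L115535 : W_42 (nat_lit 2) (nat_lit 0x7000100008007c000000020000000000000000000) (nat_lit 0x0) (nat_lit 0x7000000000000000000000000) := D_42 (nat_lit 97) (nat_lit 96) (nat_lit 98) (nat_lit 2) (nat_lit 8) (nat_lit 6) (nat_lit 2) (nat_lit 9) (nat_lit 6) (by decide +kernel)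
theorem L115536 : W_42 (nat_lit 3) (nat_lit 0x7000100008003c000000020000000000000000000) (nat_lit 0x0) (nat_lit 0x100040007000000000000000000000000) := T_42 (nat_lit 114) (nat_lit 128) (nat_lit 1) (nat_lit 12) (nat_lit 6) L115535 (by decide +kernel)
theorem L115537 : W_42 (nat_lit 4) (nat_lit 0x7000100008001c000000020000000000000000000) (nat_lit 0x0) (nat_lit 0x140060007000000000000000000000000) := T_42 (nat_lit 113) (nat_lit 126) (nat_lit 1) (nat_lit 11) (nat_lit 6) L115536 (by decide +kernel)
theorem L115538 : W_42 (nat_lit 5) (nat_lit 0x3000100008001c000000020000000000000000000) (nat_lit 0x0) (nat_lit 0x800040000000140060007000000000000000000000000) := T_42 (nat_lit 162) (nat_lit 179) (nat_lit 7) (nat_lit 8) (nat_lit 6) L115537 (by decide +kernel)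
theorem L115539 : W_42 (nat_lit 6) (nat_lit 0x2000100008001c000000020000000000000000000) (nat_lit 0x0) (nat_lit 0xa00050000000140060007000000000000000000000000) := T_42 (nat_lit 160) (nat_lit 177) (nat_lit 5) (nat_lit 8) (nat_lit 6) L115538 (by decide +kernel)
theorem L115540 : W_42 (nat_lit 9) (nat_lit 0x20001000080014000000020000000000000000000) (nat_lit 0x0) (nat_lit 0xa0005000000037006b807be0000000000000000000000) := Q_42 (nat_lit 111) (C_42 L115305 (C_42 L115263 (C_42 L115077 (C_42 L115539 N_42)))) (by decide +kernel)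
theorem L115541 : W_42 (nat_lit 2) (nat_lit 0x700010000a001c00080016000fc00000000000000) (nat_lit 0x0) (nat_lit 0x70000000000) := D_42 (nat_lit 41) (nat_lit 42) (nat_lit 40) (nat_lit 0) (nat_lit 11) (nat_lit 3) (nat_lit 0) (nat_lit 10) (nat_lit 3) (by decide +kernel)
theorem L115542 : W_42 (nat_lit 3) (nat_lit 0x700010000a001c00080016000f800000000000000) (nat_lit 0x0) (nat_lit 0x600070000000000) := T_42 (nat_lit 58) (nat_lit 57) (nat_lit 3) (nat_lit 6) (nat_lit 3) L115541 (by decide +kernel)
theorem L115543 : W_42 (nat_lit 4) (nat_lit 0x700010000a001c00080016000f000000000000000) (nat_lit 0x0) (nat_lit 0x80000e00070000000000) := T_42 (nat_lit 59) (nat_lit 79) (nat_lit 3) (nat_lit 8) (nat_lit 3) L115542 (by decide +kernel)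
theorem L115544 : W_42 (nat_lit 5) (nat_lit 0x700010000a001c00080006000f000000000000000) (nat_lit 0x0) (nat_lit 0x380000e00070000000000) := T_42 (nat_lit 80) (nat_lit 81) (nat_lit 3) (nat_lit 9) (nat_lit 3) L115543 (by decide +kernel)
theorem L115545 : W_42 (nat_lit 6) (nat_lit 0x700010000a001400080006000f000000000000000) (nat_lit 0x0) (nat_lit 0x100008000000380000e00070000000000) := T_42 (nat_lit 111) (nat_lit 128) (nat_lit 5) (nat_lit 10) (nat_lit 3) L115544 (by decide +kernel)
theorem L115546 : W_42 (nat_lit 2) (nat_lit 0x200010000a001c000a0016000fc00000000000000) (nat_lit 0x0) (nat_lit 0x70000000000) := D_42 (nat_lit 41) (nat_lit 42) (nat_lit 40) (nat_lit 0) (nat_lit 11) (nat_lit 3) (nat_lit 0) (nat_lit 10) (nat_lit 3) (by decide +kernel)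
theorem L115547 : W_42 (nat_lit 3) (nat_lit 0x200010000a001c000a0016000f800000000000000) (nat_lit 0x0) (nat_lit 0x600070000000000) := T_42 (nat_lit 58) (nat_lit 57) (nat_lit 3) (nat_lit 6) (nat_lit 3) L115546 (by decide +kernel)
theorem L115548 : W_42 (nat_lit 4) (nat_lit 0x200010000a001c000a0016000f000000000000000) (nat_lit 0x0) (nat_lit 0x80000e00070000000000) := T_42 (nat_lit 59) (nat_lit 79) (nat_lit 3) (nat_lit 8) (nat_lit 3) L115547 (by decide +kernel)
theorem L115549 : W_42 (nat_lit 5) (nat_lit 0x200010000a001c000a0006000f000000000000000) (nat_lit 0x0) (nat_lit 0x380000e00070000000000) := T_42 (nat_lit 80) (nat_lit 81) (nat_lit 3) (nat_lit 9) (nat_lit 3) L115548 (by decide +kernel)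
theorem L115550 : W_42 (nat_lit 6) (nat_lit 0x200010000a0014000a0006000f000000000000000) (nat_lit 0x0) (nat_lit 0x100008000000380000e00070000000000) := T_42 (nat_lit 111) (nat_lit 128) (nat_lit 5) (nat_lit 10) (nat_lit 3) L115549 (by decide +kernel)
theorem L115551 : W_42 (nat_lit 7) (nat_lit 0x200010000a0014000a00060007000000000000000) (nat_lit 0x0) (nat_lit 0x100008000000380018e00070000000000) := T_42 (nat_lit 63) (nat_lit 64) (nat_lit 1) (nat_lit 13) (nat_lit 3) L115550 (by decide +kernel)
theorem L115552 : W_42 (nat_lit 8) (nat_lit 0x200010000a0014000a00060003000000000000000) (nat_lit 0x0) (nat_lit 0x10000800000038001ce00270000000000) := T_42 (nat_lit 62) (nat_lit 45) (nat_lit 6) (nat_lit 10) (nat_lit 6) L115551 (by decide +kernel)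
theorem L115553 : W_42 (nat_lit 9) (nat_lit 0x200010000a0014000800060003000000000000000) (nat_lit 0x0) (nat_lit 0x10000800020039001ce00270000000000) := T_42 (nat_lit 93) (nat_lit 76) (nat_lit 6) (nat_lit 8) (nat_lit 7) L115552 (by decide +kernel)
theorem L115554 : W_42 (nat_lit 2) (nat_lit 0x600010000a0014000800060007000000000000000) (nat_lit 0x0) (nat_lit 0x10018000000000000000) := D_42 (nat_lit 63) (nat_lit 64) (nat_lit 76) (nat_lit 1) (nat_lit 13) (nat_lit 3) (nat_lit 1) (nat_lit 12) (nat_lit 3) (by decide +kernel)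
theorem L115555 : W_42 (nat_lit 3) (nat_lit 0x600010000a0014000800060003000000000000000) (nat_lit 0x0) (nat_lit 0x1001c000200000000000) := T_42 (nat_lit 62) (nat_lit 45) (nat_lit 6) (nat_lit 10) (nat_lit 6) L115554 (by decide +kernel)
theorem L115556 : W_42 (nat_lit 4) (nat_lit 0x200010000a0014000800060003000000000000000) (nat_lit 0x0) (nat_lit 0x80004000000000000000000001001c000200000000000) := T_42 (nat_lit 162) (nat_lit 179) (nat_lit 7) (nat_lit 8) (nat_lit 6) L115555 (by decide +kernel)
theorem L115557 : W_42 (nat_lit 2) (nat_lit 0x300010000a00140020001e0001000000000000000) (nat_lit 0x0) (nat_lit 0x1200010000000000000000000) := D_42 (nat_lit 76) (nat_lit 96) (nat_lit 93) (nat_lit 3) (nat_lit 8) (nat_lit 4) (nat_lit 6) (nat_lit 8) (nat_lit 7) (by decide +kernel)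
theorem L115558 : W_42 (nat_lit 3) (nat_lit 0x300010000a00140000001e0001000000000000000) (nat_lit 0x0) (nat_lit 0x7200010000000000000000000) := T_42 (nat_lit 97) (nat_lit 98) (nat_lit 3) (nat_lit 9) (nat_lit 4) L115557 (by decide +kernel)
theorem L115559 : W_42 (nat_lit 4) (nat_lit 0x200010000a00140000001e0001000000000000000) (nat_lit 0x0) (nat_lit 0x200010000000000000007200010000000000000000000) := T_42 (nat_lit 160) (nat_lit 177) (nat_lit 5) (nat_lit 8) (nat_lit 6) L115558 (by decide +kernel)
theorem L115560 : W_42 (nat_lit 5) (nat_lit 0x200010000a00140000000e0001000000000000000) (nat_lit 0x0) (nat_lit 0x200010000000000000007200110000800000000000000) := T_42 (nat_lit 80) (nat_lit 59) (nat_lit 0) (nat_lit 12) (nat_lit 4) L115559 (by decide +kernel)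
theorem L115561 : W_42 (nat_lit 2) (nat_lit 0x700010000a00140082007e0049000000000000000) (nat_lit 0x0) (nat_lit 0x800084000000000000000) := D_42 (nat_lit 83) (nat_lit 62) (nat_lit 67) (nat_lit 0) (nat_lit 15) (nat_lit 4) (nat_lit 2) (nat_lit 12) (nat_lit 4) (by decide +kernel)
theorem L115562 : W_42 (nat_lit 3) (nat_lit 0x700010000a00140082007e0009000000000000000) (nat_lit 0x0) (nat_lit 0x8000e4000000000000000) := T_42 (nat_lit 66) (nat_lit 65) (nat_lit 2) (nat_lit 11) (nat_lit 4) L115561 (by decide +kernel)
theorem L115563 : W_42 (nat_lit 4) (nat_lit 0x700010000a00140082003e0009000000000000000) (nat_lit 0x0) (nat_lit 0x10000c000e4000000000000000) := T_42 (nat_lit 82) (nat_lit 100) (nat_lit 3) (nat_lit 11) (nat_lit 4) L115562 (by decide +kernel)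
theorem L115564 : W_42 (nat_lit 5) (nat_lit 0x700010000a00140002003e0009000000000000000) (nat_lit 0x0) (nat_lit 0x1c000c000e4000000000000000) := T_42 (nat_lit 99) (nat_lit 98) (nat_lit 3) (nat_lit 10) (nat_lit 4) L115563 (by decide +kernel)
theorem L115565 : W_42 (nat_lit 6) (nat_lit 0x300010000a00140002003e0009000000000000000) (nat_lit 0x0) (nat_lit 0x80004000000000000001c000c000e4000000000000000) := T_42 (nat_lit 162) (nat_lit 179) (nat_lit 7) (nat_lit 8) (nat_lit 6) L115564 (by decide +kernel)
theorem L115566 : W_42 (nat_lit 7) (nat_lit 0x300010000a00140002001e0009000000000000000) (nat_lit 0x0) (nat_lit 0x80004000000000000001c000e000e6000000000000000) := T_42 (nat_lit 81) (nat_lit 61) (nat_lit 0) (nat_lit 13) (nat_lit 4) L115565 (by decide +kernel)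
theorem L115567 : W_42 (nat_lit 8) (nat_lit 0x300010000a00140002001e0001000000000000000) (nat_lit 0x0) (nat_lit 0x80004000000000000001c000e000fe000000000000000) := T_42 (nat_lit 63) (nat_lit 64) (nat_lit 2) (nat_lit 9) (nat_lit 4) L115566 (by decide +kernel)
theorem L115568 : W_42 (nat_lit 9) (nat_lit 0x300010000a00140000001e0001000000000000000) (nat_lit 0x0) (nat_lit 0x80004000000000000001c200e100fe000000000000000) := T_42 (nat_lit 93) (nat_lit 76) (nat_lit 6) (nat_lit 8) (nat_lit 7) L115567 (by decide +kernel)
theorem L115569 : W_42 (nat_lit 10) (nat_lit 0x300010000a00140000000e0001000000000000000) (nat_lit 0x0) (nat_lit 0x80004000000000000001c200f100fe800000000000000) := T_42 (nat_lit 80) (nat_lit 59) (nat_lit 0) (nat_lit 12) (nat_lit 4) L115568 (by decide +kernel)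
theorem L115570 : W_42 (nat_lit 11) (nat_lit 0x200010000a00140000000e0001000000000000000) (nat_lit 0x0) (nat_lit 0xa0005000000000000001c200f100fe800000000000000) := T_42 (nat_lit 160) (nat_lit 177) (nat_lit 5) (nat_lit 8) (nat_lit 6) L115569 (by decide +kernel)
theorem L115571 : W_42 (nat_lit 2) (nat_lit 0x780012000f0014800000020000000000000000000) (nat_lit 0x0) (nat_lit 0x180004000000000000000000000000000000000000000) := D_42 (nat_lit 176) (nat_lit 175) (nat_lit 158) (nat_lit 1) (nat_lit 9) (nat_lit 9) (nat_lit 7) (nat_lit 5) (nat_lit 6) (by decide +kernel)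
theorem L115572 : W_42 (nat_lit 3) (nat_lit 0x700012000f0014800000020000000000000000000) (nat_lit 0x0) (nat_lit 0x18000c000400000000000000000000000000000000000) := T_42 (nat_lit 159) (nat_lit 142) (nat_lit 0) (nat_lit 9) (nat_lit 9) L115571 (by decide +kernel)
theorem L115573 : W_42 (nat_lit 2) (nat_lit 0x200016000e0014000000020000000000000000000) (nat_lit 0x0) (nat_lit 0x180010000000000000000000000000000000) := D_42 (nat_lit 140) (nat_lit 124) (nat_lit 139) (nat_lit 1) (nat_lit 8) (nat_lit 7) (nat_lit 2) (nat_lit 3) (nat_lit 8) (by decide +kernel)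
theorem L115574 : W_42 (nat_lit 3) (nat_lit 0x200012000e0014000000020000000000000000000) (nat_lit 0x0) (nat_lit 0x580110000000000000000000000000000000) := T_42 (nat_lit 142) (nat_lit 128) (nat_lit 1) (nat_lit 9) (nat_lit 7) L115573 (by decide +kernel)
theorem L115575 : W_42 (nat_lit 4) (nat_lit 0x600012000f0014800000020000000000000000000) (nat_lit 0x0) (nat_lit 0x38001c000400000000000000000000000000000000000) := T_42 (nat_lit 160) (nat_lit 177) (nat_lit 5) (nat_lit 8) (nat_lit 6) L115572 (by decide +kernel)
theorem L115576 : W_42 (nat_lit 2) (nat_lit 0x300012000f0015800000020000000000000000000) (nat_lit 0x0) (nat_lit 0x4000000000000000080004000000000000000000) := D_42 (nat_lit 91) (nat_lit 74) (nat_lit 158) (nat_lit 5) (nat_lit 6) (nat_lit 4) (nat_lit 6) (nat_lit 5) (nat_lit 9) (by decide +kernel)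
theorem L115577 : W_42 (nat_lit 3) (nat_lit 0x300012000f0014800000020000000000000000000) (nat_lit 0x0) (nat_lit 0x4000000100001000080004000000000000000000) := T_42 (nat_lit 108) (nat_lit 128) (nat_lit 0) (nat_lit 9) (nat_lit 7) L115576 (by decide +kernel)
theorem L115578 : W_42 (nat_lit 4) (nat_lit 0x200012000f0014800000020000000000000000000) (nat_lit 0x0) (nat_lit 0x200014000000100001000080004000000000000000000) := T_42 (nat_lit 160) (nat_lit 177) (nat_lit 5) (nat_lit 8) (nat_lit 6) L115577 (by decide +kernel)
theorem L115579 : W_42 (nat_lit 5) (nat_lit 0x200012000f0014000000020000000000000000000) (nat_lit 0x0) (nat_lit 0x200014000000100001c00080004000000000000000000) := T_42 (nat_lit 107) (nat_lit 106) (nat_lit 0) (nat_lit 8) (nat_lit 7) L115578 (by decide +kernel)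
theorem L115580 : W_42 (nat_lit 2) (nat_lit 0x200012000e0014000000020000000000000000000) (nat_lit 0x0) (nat_lit 0x400100008000000000000000000000000000) := D_42 (nat_lit 128) (nat_lit 111) (nat_lit 142) (nat_lit 2) (nat_lit 6) (nat_lit 7) (nat_lit 1) (nat_lit 9) (nat_lit 7) (by decide +kernel)
theorem L115581 : W_42 (nat_lit 2) (nat_lit 0x7c0012000b0014000000020000000000000000000) (nat_lit 0x0) (nat_lit 0x180000000000000000800000000000000000000000000) := D_42 (nat_lit 176) (nat_lit 175) (nat_lit 107) (nat_lit 1) (nat_lit 9) (nat_lit 9) (nat_lit 7) (nat_lit 5) (nat_lit 6) (by decide +kernel)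
theorem L115582 : W_42 (nat_lit 3) (nat_lit 0x780012000b0014000000020000000000000000000) (nat_lit 0x0) (nat_lit 0x180004000100000000800000000000000000000000000) := T_42 (nat_lit 158) (nat_lit 140) (nat_lit 0) (nat_lit 8) (nat_lit 9) L115581 (by decide +kernel)
theorem L115583 : W_42 (nat_lit 4) (nat_lit 0x700012000b0014000000020000000000000000000) (nat_lit 0x0) (nat_lit 0x18000c000500000000800000000000000000000000000) := T_42 (nat_lit 159) (nat_lit 142) (nat_lit 0) (nat_lit 9) (nat_lit 9) L115582 (by decide +kernel)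
theorem L115584 : W_42 (nat_lit 5) (nat_lit 0x300012000b0014000000020000000000000000000) (nat_lit 0x0) (nat_lit 0x98004c000500000000800000000000000000000000000) := T_42 (nat_lit 162) (nat_lit 179) (nat_lit 7) (nat_lit 8) (nat_lit 6) L115583 (by decide +kernel)
theorem L115585 : W_42 (nat_lit 6) (nat_lit 0x200012000b0014000000020000000000000000000) (nat_lit 0x0) (nat_lit 0xb8005c000500000000800000000000000000000000000) := T_42 (nat_lit 160) (nat_lit 177) (nat_lit 5) (nat_lit 8) (nat_lit 6) L115584 (by decide +kernel)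
theorem L115586 : W_42 (nat_lit 2) (nat_lit 0xc00640012000b0014800000020000000000000000000) (nat_lit 0x0) (nat_lit 0x8000400020000000000000000000000) := D_42 (nat_lit 106) (nat_lit 89) (nat_lit 123) (nat_lit 4) (nat_lit 5) (nat_lit 9) (nat_lit 4) (nat_lit 5) (nat_lit 10) (by decide +kernel)
theorem L115587 : W_42 (nat_lit 3) (nat_lit 0xc00640012000b0014000000020000000000000000000) (nat_lit 0x0) (nat_lit 0x2000000008000c00020000000000000000000000) := T_42 (nat_lit 107) (nat_lit 157) (nat_lit 5) (nat_lit 5) (nat_lit 6) L115586 (by decide +kernel)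
theorem L115588 : W_42 (nat_lit 4) (nat_lit 0x800640012000b0014000000020000000000000000000) (nat_lit 0x0) (nat_lit 0x800040002000000008000c00020000000000000000000000) := T_42 (nat_lit 174) (nat_lit 191) (nat_lit 5) (nat_lit 5) (nat_lit 7) L115587 (by decide +kernel)
theorem L115589 : W_42 (nat_lit 5) (nat_lit 0x640012000b0014000000020000000000000000000) (nat_lit 0x0) (nat_lit 0x8000c0002000000008001c00020000000000000000000000) := T_42 (nat_lit 175) (nat_lit 108) (nat_lit 6) (nat_lit 5) (nat_lit 10) L115588 (by decide +kernel)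
theorem L115590 : W_42 (nat_lit 6) (nat_lit 0x240012000b0014000000020000000000000000000) (nat_lit 0x0) (nat_lit 0x8008c0042000000008001c00020000000000000000000000) := T_42 (nat_lit 162) (nat_lit 179) (nat_lit 7) (nat_lit 8) (nat_lit 6) L115589 (by decide +kernel)
theorem L115591 : W_42 (nat_lit 2) (nat_lit 0xc00240012000b0014000000020000000000000000000) (nat_lit 0x0) (nat_lit 0x200018000000000000000000000000000000000000000) := D_42 (nat_lit 160) (nat_lit 177) (nat_lit 159) (nat_lit 5) (nat_lit 8) (nat_lit 6) (nat_lit 1) (nat_lit 8) (nat_lit 9) (by decide +kernel)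
theorem L115592 : W_42 (nat_lit 3) (nat_lit 0x800240012000b0014000000020000000000000000000) (nat_lit 0x0) (nat_lit 0x800240018000000000000000000000000000000000000000) := T_42 (nat_lit 174) (nat_lit 191) (nat_lit 5) (nat_lit 5) (nat_lit 7) L115591 (by decide +kernel)
theorem L115593 : W_42 (nat_lit 4) (nat_lit 0x240012000b0014000000020000000000000000000) (nat_lit 0x0) (nat_lit 0x8002c0018000000000001000000000000000000000000000) := T_42 (nat_lit 175) (nat_lit 108) (nat_lit 6) (nat_lit 5) (nat_lit 10) L115592 (by decide +kernel)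
theorem L115594 : W_42 (nat_lit 3) (nat_lit 0x740012000b0014000000020000000000000000000) (nat_lit 0x0) (nat_lit 0x180008000100000000800000000000000000000000000) := T_42 (nat_lit 159) (nat_lit 140) (nat_lit 0) (nat_lit 8) (nat_lit 9) L115581 (by decide +kernel)
theorem L115595 : W_42 (nat_lit 4) (nat_lit 0x640012000b0014000000020000000000000000000) (nat_lit 0x0) (nat_lit 0x380018000100000000800000000000000000000000000) := T_42 (nat_lit 160) (nat_lit 177) (nat_lit 5) (nat_lit 8) (nat_lit 6) L115594 (by decide +kernel)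
theorem L115596 : W_42 (nat_lit 5) (nat_lit 0x240012000b0014000000020000000000000000000) (nat_lit 0x0) (nat_lit 0xb80058000100000000800000000000000000000000000) := T_42 (nat_lit 162) (nat_lit 179) (nat_lit 7) (nat_lit 8) (nat_lit 6) L115595 (by decide +kernel)
theorem L115597 : W_42 (nat_lit 2) (nat_lit 0x7e0012000b00148000c0020000000000000000000) (nat_lit 0x0) (nat_lit 0x400020001000000000000000000) := D_42 (nat_lit 89) (nat_lit 72) (nat_lit 106) (nat_lit 4) (nat_lit 5) (nat_lit 8) (nat_lit 4) (nat_lit 5) (nat_lit 9) (by decide +kernel)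
theorem L115598 : W_42 (nat_lit 3) (nat_lit 0x7e0012000b0014800080020000000000000000000) (nat_lit 0x0) (nat_lit 0x400060005000000000000000000) := T_42 (nat_lit 90) (nat_lit 74) (nat_lit 6) (nat_lit 5) (nat_lit 8) L115597 (by decide +kernel)
theorem L115599 : W_42 (nat_lit 4) (nat_lit 0x7c0012000b0014800080020000000000000000000) (nat_lit 0x0) (nat_lit 0x40002000000000000400060005000000000000000000) := T_42 (nat_lit 157) (nat_lit 174) (nat_lit 5) (nat_lit 5) (nat_lit 6) L115598 (by decide +kernel)
theorem L115600 : W_42 (nat_lit 5) (nat_lit 0x7c0012000b0014800000020000000000000000000) (nat_lit 0x0) (nat_lit 0x400020000000000014000e0005000000000000000000) := T_42 (nat_lit 91) (nat_lit 108) (nat_lit 6) (nat_lit 5) (nat_lit 9) L115599 (by decide +kernel)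
theorem L115601 : W_42 (nat_lit 6) (nat_lit 0x7c0012000b0014000000020000000000000000000) (nat_lit 0x0) (nat_lit 0x140002000000000001c000e0005000000000000000000) := T_42 (nat_lit 107) (nat_lit 176) (nat_lit 7) (nat_lit 5) (nat_lit 6) L115600 (by decide +kernel)
theorem L115602 : W_42 (nat_lit 7) (nat_lit 0x3c0012000b0014000000020000000000000000000) (nat_lit 0x0) (nat_lit 0x940042000000000001c000e0005000000000000000000) := T_42 (nat_lit 162) (nat_lit 179) (nat_lit 7) (nat_lit 8) (nat_lit 6) L115601 (by decide +kernel)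
theorem L115603 : W_42 (nat_lit 8) (nat_lit 0x340012000b0014000000020000000000000000000) (nat_lit 0x0) (nat_lit 0x94004a000100000001c000e0005000000000000000000) := T_42 (nat_lit 159) (nat_lit 140) (nat_lit 0) (nat_lit 8) (nat_lit 9) L115602 (by decide +kernel)
theorem L115604 : W_42 (nat_lit 9) (nat_lit 0x240012000b0014000000020000000000000000000) (nat_lit 0x0) (nat_lit 0xb4005a000100000001c000e0005000000000000000000) := T_42 (nat_lit 160) (nat_lit 177) (nat_lit 5) (nat_lit 8) (nat_lit 6) L115603 (by decide +kernel)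
theorem L115605 : W_42 (nat_lit 10) (nat_lit 0x200012000b0014000000020000000000000000000) (nat_lit 0x0) (nat_lit 0x800bc005e000100008001c000e0005000000000000000000) := Q_42 (nat_lit 158) (C_42 L115590 (C_42 L115593 (C_42 L115596 (C_42 L115604 N_42)))) (by decide +kernel)
theorem L115606 : W_42 (nat_lit 2) (nat_lit 0x600010000a00140002003e0001000000000000000) (nat_lit 0x0) (nat_lit 0xe000000000000000000000000) := D_42 (nat_lit 98) (nat_lit 97) (nat_lit 99) (nat_lit 3) (nat_lit 9) (nat_lit 4) (nat_lit 3) (nat_lit 10) (nat_lit 4) (by decide +kernel)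
theorem L115607 : W_42 (nat_lit 3) (nat_lit 0x600010000a00140002001e0001000000000000000) (nat_lit 0x0) (nat_lit 0xe000200002000000000000000) := T_42 (nat_lit 81) (nat_lit 61) (nat_lit 0) (nat_lit 13) (nat_lit 4) L115606 (by decide +kernel)
theorem L115608 : W_42 (nat_lit 4) (nat_lit 0x600010000a00140002000e0001000000000000000) (nat_lit 0x0) (nat_lit 0xe000300002800000000000000) := T_42 (nat_lit 80) (nat_lit 59) (nat_lit 0) (nat_lit 12) (nat_lit 4) L115607 (by decide +kernel)
theorem L115609 : W_42 (nat_lit 5) (nat_lit 0x600010000a00140000000e0001000000000000000) (nat_lit 0x0) (nat_lit 0xe200310002800000000000000) := T_42 (nat_lit 93) (nat_lit 76) (nat_lit 6) (nat_lit 8) (nat_lit 7) L115608 (by decide +kernel)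
theorem L115610 : W_42 (nat_lit 6) (nat_lit 0x200010000a00140000000e0001000000000000000) (nat_lit 0x0) (nat_lit 0x80004000000000000000e200310002800000000000000) := T_42 (nat_lit 162) (nat_lit 179) (nat_lit 7) (nat_lit 8) (nat_lit 6) L115609 (by decide +kernel)
theorem L115611 : W_42 (nat_lit 2) (nat_lit 0x600010000a00140020001e0011000000000000000) (nat_lit 0x0) (nat_lit 0x200022000000000000000) := D_42 (nat_lit 81) (nat_lit 61) (nat_lit 65) (nat_lit 0) (nat_lit 13) (nat_lit 4) (nat_lit 2) (nat_lit 10) (nat_lit 4) (by decide +kernel)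
theorem L115612 : W_42 (nat_lit 3) (nat_lit 0x600010000a00140020001e0001000000000000000) (nat_lit 0x0) (nat_lit 0x20003a000000000000000) := T_42 (nat_lit 64) (nat_lit 63) (nat_lit 2) (nat_lit 9) (nat_lit 4) L115611 (by decide +kernel)
theorem L115613 : W_42 (nat_lit 4) (nat_lit 0x600010000a00140000001e0001000000000000000) (nat_lit 0x0) (nat_lit 0x600020003a000000000000000) := T_42 (nat_lit 97) (nat_lit 98) (nat_lit 3) (nat_lit 9) (nat_lit 4) L115612 (by decide +kernel)
theorem L115614 : W_42 (nat_lit 5) (nat_lit 0x200010000a00140000001e0001000000000000000) (nat_lit 0x0) (nat_lit 0x80004000000000000000600020003a000000000000000) := T_42 (nat_lit 162) (nat_lit 179) (nat_lit 7) (nat_lit 8) (nat_lit 6) L115613 (by decide +kernel)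
theorem L115615 : W_42 (nat_lit 6) (nat_lit 0x200010000a00140000000e0001000000000000000) (nat_lit 0x0) (nat_lit 0x80004000000000000000600030003a800000000000000) := T_42 (nat_lit 80) (nat_lit 59) (nat_lit 0) (nat_lit 12) (nat_lit 4) L115614 (by decide +kernel)
theorem L115616 : W_42 (nat_lit 4) (nat_lit 0x600010000a00140000000e0004000000000000000) (nat_lit 0x0) (nat_lit 0x200000003800010008000200000000000) := T_42 (nat_lit 76) (nat_lit 63) (nat_lit 2) (nat_lit 8) (nat_lit 4) L115036 (by decide +kernel)
theorem L115617 : W_42 (nat_lit 5) (nat_lit 0x200010000a00140000000e0004000000000000000) (nat_lit 0x0) (nat_lit 0x800040000000200000003800010008000200000000000) := T_42 (nat_lit 162) (nat_lit 179) (nat_lit 7) (nat_lit 8) (nat_lit 6) L115616 (by decide +kernel)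
theorem L115618 : W_42 (nat_lit 2) (nat_lit 0x300010000a00140012000f0004800200030000000) (nat_lit 0x0) (nat_lit 0x100008000400) := D_42 (nat_lit 27) (nat_lit 44) (nat_lit 10) (nat_lit 4) (nat_lit 11) (nat_lit 5) (nat_lit 4) (nat_lit 11) (nat_lit 4) (by decide +kernel)
theorem L115619 : W_42 (nat_lit 3) (nat_lit 0x300010000a00140012000f0004800200020000000) (nat_lit 0x0) (nat_lit 0x100018001400) := T_42 (nat_lit 28) (nat_lit 12) (nat_lit 6) (nat_lit 11) (nat_lit 4) L115618 (by decide +kernel)
theorem L115620 : W_42 (nat_lit 4) (nat_lit 0x200010000a00140012000f0004800200020000000) (nat_lit 0x0) (nat_lit 0x200010000000000000000000000000000100018001400) := T_42 (nat_lit 160) (nat_lit 177) (nat_lit 5) (nat_lit 8) (nat_lit 6) L115619 (by decide +kernel)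
theorem L115621 : W_42 (nat_lit 5) (nat_lit 0x200010000a00140012000f0004800200000000000) (nat_lit 0x0) (nat_lit 0x200010000000000000000000000000000500038001400) := T_42 (nat_lit 29) (nat_lit 46) (nat_lit 6) (nat_lit 11) (nat_lit 5) L115620 (by decide +kernel)
theorem L115622 : W_42 (nat_lit 6) (nat_lit 0x200010000a00140012000f0004800000000000000) (nat_lit 0x0) (nat_lit 0x200010000000000000000800000000000700038001400) := T_42 (nat_lit 45) (nat_lit 95) (nat_lit 5) (nat_lit 11) (nat_lit 2) L115621 (by decide +kernel)
theorem L115623 : W_42 (nat_lit 7) (nat_lit 0x200010000a00140012000f0004000000000000000) (nat_lit 0x0) (nat_lit 0x200010000000000000000800000000c00700038001400) := T_42 (nat_lit 59) (nat_lit 58) (nat_lit 0) (nat_lit 11) (nat_lit 4) L115622 (by decide +kernel)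
theorem L115624 : W_42 (nat_lit 8) (nat_lit 0x200010000a00140002000f0004000000000000000) (nat_lit 0x0) (nat_lit 0x200010000000000000003800000000c00700038001400) := T_42 (nat_lit 96) (nat_lit 97) (nat_lit 3) (nat_lit 8) (nat_lit 4) L115623 (by decide +kernel)
theorem L115625 : W_42 (nat_lit 9) (nat_lit 0x200010000a00140000000f0004000000000000000) (nat_lit 0x0) (nat_lit 0x200010000000000000003b00000000c00700038001400) := T_42 (nat_lit 93) (nat_lit 92) (nat_lit 1) (nat_lit 11) (nat_lit 4) L115624 (by decide +kernel)
theorem L115626 : W_42 (nat_lit 10) (nat_lit 0x200010000a00140000000e0004000000000000000) (nat_lit 0x0) (nat_lit 0x200010000000000000003b00010008c00700038001400) := T_42 (nat_lit 76) (nat_lit 63) (nat_lit 2) (nat_lit 8) (nat_lit 4) L115625 (by decide +kernel)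
theorem L115627 : W_42 (nat_lit 2) (nat_lit 0x300010000a00140000000e000c000000000000000) (nat_lit 0x0) (nat_lit 0x32000000000000000) := D_42 (nat_lit 64) (nat_lit 65) (nat_lit 61) (nat_lit 1) (nat_lit 14) (nat_lit 3) (nat_lit 1) (nat_lit 13) (nat_lit 3) (by decide +kernel)
theorem L115628 : W_42 (nat_lit 3) (nat_lit 0x300010000a00140000000e0004000000000000000) (nat_lit 0x0) (nat_lit 0x1003a000000000000000) := T_42 (nat_lit 63) (nat_lit 76) (nat_lit 2) (nat_lit 8) (nat_lit 4) L115627 (by decide +kernel)
theorem L115629 : W_42 (nat_lit 4) (nat_lit 0x200010000a00140000000e0004000000000000000) (nat_lit 0x0) (nat_lit 0x20001000000000000000000001003a000000000000000) := T_42 (nat_lit 160) (nat_lit 177) (nat_lit 5) (nat_lit 8) (nat_lit 6) L115628 (by decide +kernel)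
theorem L115630 : W_42 (nat_lit 2) (nat_lit 0x200010002a00140000000e000c000000000000000) (nat_lit 0x0) (nat_lit 0x32000000000000000) := D_42 (nat_lit 64) (nat_lit 65) (nat_lit 61) (nat_lit 1) (nat_lit 14) (nat_lit 3) (nat_lit 1) (nat_lit 13) (nat_lit 3) (by decide +kernel)
theorem L115631 : W_42 (nat_lit 3) (nat_lit 0x200010002a00140000000e0004000000000000000) (nat_lit 0x0) (nat_lit 0x1003a000000000000000) := T_42 (nat_lit 63) (nat_lit 76) (nat_lit 2) (nat_lit 8) (nat_lit 4) L115630 (by decide +kernel)
theorem L115632 : W_42 (nat_lit 4) (nat_lit 0x200010000a00140000000e0004000000000000000) (nat_lit 0x0) (nat_lit 0x20000000080001003a000000000000000) := T_42 (nat_lit 129) (nat_lit 95) (nat_lit 6) (nat_lit 10) (nat_lit 7) L115631 (by decide +kernel)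
theorem L115633 : W_42 (nat_lit 2) (nat_lit 0x600010000a00140008000e0004000000000000000) (nat_lit 0x0) (nat_lit 0x2000200010000000) := D_42 (nat_lit 45) (nat_lit 61) (nat_lit 28) (nat_lit 6) (nat_lit 10) (nat_lit 6) (nat_lit 5) (nat_lit 11) (nat_lit 1) (by decide +kernel)
theorem L115634 : W_42 (nat_lit 3) (nat_lit 0x600010000a00140000000e0004000000000000000) (nat_lit 0x0) (nat_lit 0x200000000800000002000200010000000) := T_42 (nat_lit 95) (nat_lit 129) (nat_lit 6) (nat_lit 10) (nat_lit 7) L115633 (by decide +kernel)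
theorem L115635 : W_42 (nat_lit 4) (nat_lit 0x200010000a00140000000e0004000000000000000) (nat_lit 0x0) (nat_lit 0x800040000000200000000800000002000200010000000) := T_42 (nat_lit 162) (nat_lit 179) (nat_lit 7) (nat_lit 8) (nat_lit 6) L115634 (by decide +kernel)
theorem L115636 : W_42 (nat_lit 2) (nat_lit 0x600010000a00140012000f0004800200030000000) (nat_lit 0x0) (nat_lit 0x100008000400) := D_42 (nat_lit 27) (nat_lit 44) (nat_lit 10) (nat_lit 4) (nat_lit 11) (nat_lit 5) (nat_lit 4) (nat_lit 11) (nat_lit 4) (by decide +kernel)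
theorem L115637 : W_42 (nat_lit 3) (nat_lit 0x600010000a00140012000f0004800200020000000) (nat_lit 0x0) (nat_lit 0x100018001400) := T_42 (nat_lit 28) (nat_lit 12) (nat_lit 6) (nat_lit 11) (nat_lit 4) L115636 (by decide +kernel)
theorem L115638 : W_42 (nat_lit 4) (nat_lit 0x200010000a00140012000f0004800200020000000) (nat_lit 0x0) (nat_lit 0x800040000000000000000000000000000100018001400) := T_42 (nat_lit 162) (nat_lit 179) (nat_lit 7) (nat_lit 8) (nat_lit 6) L115637 (by decide +kernel)
theorem L115639 : W_42 (nat_lit 5) (nat_lit 0x200010000a00140012000f0004800200000000000) (nat_lit 0x0) (nat_lit 0x800040000000000000000000000000000500038001400) := T_42 (nat_lit 29) (nat_lit 46) (nat_lit 6) (nat_lit 11) (nat_lit 5) L115638 (by decide +kernel)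
theorem L115640 : W_42 (nat_lit 6) (nat_lit 0x200010000a00140012000f0004800000000000000) (nat_lit 0x0) (nat_lit 0x800040000000000000000800000000000700038001400) := T_42 (nat_lit 45) (nat_lit 95) (nat_lit 5) (nat_lit 11) (nat_lit 2) L115639 (by decide +kernel)
theorem L115641 : W_42 (nat_lit 7) (nat_lit 0x200010000a00140012000f0004000000000000000) (nat_lit 0x0) (nat_lit 0x800040000000000000000800000000c00700038001400) := T_42 (nat_lit 59) (nat_lit 58) (nat_lit 0) (nat_lit 11) (nat_lit 4) L115640 (by decide +kernel)
theorem L115642 : W_42 (nat_lit 8) (nat_lit 0x200010000a00140002000f0004000000000000000) (nat_lit 0x0) (nat_lit 0x800040000000000000003800000000c00700038001400) := T_42 (nat_lit 96) (nat_lit 97) (nat_lit 3) (nat_lit 8) (nat_lit 4) L115641 (by decide +kernel)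
theorem L115643 : W_42 (nat_lit 9) (nat_lit 0x200010000a00140000000f0004000000000000000) (nat_lit 0x0) (nat_lit 0x800040000000000000003b00000000c00700038001400) := T_42 (nat_lit 93) (nat_lit 92) (nat_lit 1) (nat_lit 11) (nat_lit 4) L115642 (by decide +kernel)
theorem L115644 : W_42 (nat_lit 10) (nat_lit 0x200010000a00140000000e0004000000000000000) (nat_lit 0x0) (nat_lit 0x800040000000000000003b00010008c00700038001400) := T_42 (nat_lit 76) (nat_lit 63) (nat_lit 2) (nat_lit 8) (nat_lit 4) L115643 (by decide +kernel)
theorem L115645 : W_42 (nat_lit 2) (nat_lit 0x600010000a00140000000e000c000000000000000) (nat_lit 0x0) (nat_lit 0x32000000000000000) := D_42 (nat_lit 64) (nat_lit 65) (nat_lit 61) (nat_lit 1) (nat_lit 14) (nat_lit 3) (nat_lit 1) (nat_lit 13) (nat_lit 3) (by decide +kernel)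
theorem L115646 : W_42 (nat_lit 3) (nat_lit 0x600010000a00140000000e0004000000000000000) (nat_lit 0x0) (nat_lit 0x1003a000000000000000) := T_42 (nat_lit 63) (nat_lit 76) (nat_lit 2) (nat_lit 8) (nat_lit 4) L115645 (by decide +kernel)
theorem L115647 : W_42 (nat_lit 4) (nat_lit 0x200010000a00140000000e0004000000000000000) (nat_lit 0x0) (nat_lit 0x80004000000000000000000001003a000000000000000) := T_42 (nat_lit 162) (nat_lit 179) (nat_lit 7) (nat_lit 8) (nat_lit 6) L115646 (by decide +kernel)
theorem L115648 : W_42 (nat_lit 11) (nat_lit 0x200010000a00140000000e0000000000000000000) (nat_lit 0x0) (nat_lit 0x800040000000200000003b0001003ec00700038001400) := Q_42 (nat_lit 62) (C_42 L115617 (C_42 L115632 (C_42 L115635 (C_42 L115644 (C_42 L115647 N_42))))) (by decide +kernel)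
theorem L115649 : W_42 (nat_lit 2) (nat_lit 0x200010000a00140008000e0004000000000000000) (nat_lit 0x0) (nat_lit 0x2000200010000000) := D_42 (nat_lit 45) (nat_lit 61) (nat_lit 28) (nat_lit 6) (nat_lit 10) (nat_lit 6) (nat_lit 5) (nat_lit 11) (nat_lit 1) (by decide +kernel)
theorem L115650 : W_42 (nat_lit 3) (nat_lit 0x200010000a00140000000e0004000000000000000) (nat_lit 0x0) (nat_lit 0x200000000800000002000200010000000) := T_42 (nat_lit 95) (nat_lit 129) (nat_lit 6) (nat_lit 10) (nat_lit 7) L115649 (by decide +kernel)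
theorem L115651 : W_42 (nat_lit 11) (nat_lit 0x200010000a00140000000e0000000000000000000) (nat_lit 0x0) (nat_lit 0x200010000000200000003b0001003ec00700038001400) := Q_42 (nat_lit 62) (C_42 L115632 (C_42 L115650 (C_42 L115629 (C_42 L115626 N_42)))) (by decide +kernel)
theorem L115652 : W_42 (nat_lit 2) (nat_lit 0x200010000a00140040001e0010000000000000000) (nat_lit 0x0) (nat_lit 0x8000200020000000000000000) := D_42 (nat_lit 81) (nat_lit 99) (nat_lit 65) (nat_lit 3) (nat_lit 10) (nat_lit 4) (nat_lit 2) (nat_lit 10) (nat_lit 4) (by decide +kernel)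
theorem L115653 : W_42 (nat_lit 3) (nat_lit 0x200010000a00140040001e0000000000000000000) (nat_lit 0x0) (nat_lit 0x8000200038000000000000000) := T_42 (nat_lit 64) (nat_lit 63) (nat_lit 2) (nat_lit 9) (nat_lit 4) L115652 (by decide +kernel)
theorem L115654 : W_42 (nat_lit 4) (nat_lit 0x200010000a00140000001e0000000000000000000) (nat_lit 0x0) (nat_lit 0xe000200038000000000000000) := T_42 (nat_lit 98) (nat_lit 97) (nat_lit 3) (nat_lit 9) (nat_lit 4) L115653 (by decide +kernel)
theorem L115655 : W_42 (nat_lit 2) (nat_lit 0x700010000a00140048007e0020000000000000000) (nat_lit 0x0) (nat_lit 0x200000000000000006000000000000000) := D_42 (nat_lit 62) (nat_lit 61) (nat_lit 129) (nat_lit 0) (nat_lit 14) (nat_lit 4) (nat_lit 6) (nat_lit 10) (nat_lit 7) (by decide +kernel)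
theorem L115656 : W_42 (nat_lit 3) (nat_lit 0x700010000a00140040007e0020000000000000000) (nat_lit 0x0) (nat_lit 0x200000001800000006000000000000000) := T_42 (nat_lit 95) (nat_lit 96) (nat_lit 1) (nat_lit 14) (nat_lit 4) L115655 (by decide +kernel)
theorem L115657 : W_42 (nat_lit 4) (nat_lit 0x700010000a00140040003e0020000000000000000) (nat_lit 0x0) (nat_lit 0x200000001800400046000000000000000) := T_42 (nat_lit 82) (nat_lit 66) (nat_lit 2) (nat_lit 11) (nat_lit 4) L115656 (by decide +kernel)
theorem L115658 : W_42 (nat_lit 5) (nat_lit 0x300010000a00140040003e0020000000000000000) (nat_lit 0x0) (nat_lit 0x800040000000200000001800400046000000000000000) := T_42 (nat_lit 162) (nat_lit 179) (nat_lit 7) (nat_lit 8) (nat_lit 6) L115657 (by decide +kernel)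
theorem L115659 : W_42 (nat_lit 6) (nat_lit 0x300010000a00140040003e0000000000000000000) (nat_lit 0x0) (nat_lit 0x800040000000200000001800400076000000000000000) := T_42 (nat_lit 65) (nat_lit 64) (nat_lit 2) (nat_lit 10) (nat_lit 4) L115658 (by decide +kernel)
theorem L115660 : W_42 (nat_lit 7) (nat_lit 0x300010000a00140040001e0000000000000000000) (nat_lit 0x0) (nat_lit 0x800040000000200000009800600076000000000000000) := T_42 (nat_lit 81) (nat_lit 99) (nat_lit 3) (nat_lit 10) (nat_lit 4) L115659 (by decide +kernel)
theorem L115661 : W_42 (nat_lit 8) (nat_lit 0x200010000a00140040001e0000000000000000000) (nat_lit 0x0) (nat_lit 0xa00050000000200000009800600076000000000000000) := T_42 (nat_lit 160) (nat_lit 177) (nat_lit 5) (nat_lit 8) (nat_lit 6) L115660 (by decide +kernel)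
theorem L115662 : W_42 (nat_lit 9) (nat_lit 0x200010000a00140000001e0000000000000000000) (nat_lit 0x0) (nat_lit 0xa0005000000020000000f800600076000000000000000) := T_42 (nat_lit 98) (nat_lit 97) (nat_lit 3) (nat_lit 9) (nat_lit 4) L115661 (by decide +kernel)
theorem L115663 : W_42 (nat_lit 2) (nat_lit 0x700010000a00140088007e0010000000000000000) (nat_lit 0x0) (nat_lit 0x200000000000000006000000000000000) := D_42 (nat_lit 62) (nat_lit 61) (nat_lit 129) (nat_lit 0) (nat_lit 14) (nat_lit 4) (nat_lit 6) (nat_lit 10) (nat_lit 7) (by decide +kernel)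
theorem L115664 : W_42 (nat_lit 3) (nat_lit 0x700010000a00140080007e0010000000000000000) (nat_lit 0x0) (nat_lit 0x200000001800000006000000000000000) := T_42 (nat_lit 95) (nat_lit 96) (nat_lit 1) (nat_lit 14) (nat_lit 4) L115663 (by decide +kernel)
theorem L115665 : W_42 (nat_lit 4) (nat_lit 0x700010000a00140080003e0010000000000000000) (nat_lit 0x0) (nat_lit 0x200000011800400006000000000000000) := T_42 (nat_lit 82) (nat_lit 100) (nat_lit 3) (nat_lit 11) (nat_lit 4) L115664 (by decide +kernel)
theorem L115666 : W_42 (nat_lit 5) (nat_lit 0x700010000a00140000003e0010000000000000000) (nat_lit 0x0) (nat_lit 0x20000001d800400006000000000000000) := T_42 (nat_lit 99) (nat_lit 98) (nat_lit 3) (nat_lit 10) (nat_lit 4) L115665 (by decide +kernel)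
theorem L115667 : W_42 (nat_lit 6) (nat_lit 0x700010000a00140000001e0010000000000000000) (nat_lit 0x0) (nat_lit 0x20000001d800600026000000000000000) := T_42 (nat_lit 81) (nat_lit 65) (nat_lit 2) (nat_lit 10) (nat_lit 4) L115666 (by decide +kernel)
theorem L115668 : W_42 (nat_lit 7) (nat_lit 0x700010000a00140000001e0000000000000000000) (nat_lit 0x0) (nat_lit 0x20000001d80060003e000000000000000) := T_42 (nat_lit 64) (nat_lit 63) (nat_lit 2) (nat_lit 9) (nat_lit 4) L115667 (by decide +kernel)
theorem L115669 : W_42 (nat_lit 8) (nat_lit 0x600010000a00140000001e0000000000000000000) (nat_lit 0x0) (nat_lit 0x20001000000020000001d80060003e000000000000000) := T_42 (nat_lit 160) (nat_lit 177) (nat_lit 5) (nat_lit 8) (nat_lit 6) L115668 (by decide +kernel)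
theorem L115670 : W_42 (nat_lit 9) (nat_lit 0x200010000a00140000001e0000000000000000000) (nat_lit 0x0) (nat_lit 0xa0005000000020000001d80060003e000000000000000) := T_42 (nat_lit 162) (nat_lit 179) (nat_lit 7) (nat_lit 8) (nat_lit 6) L115669 (by decide +kernel)
theorem L115671 : W_42 (nat_lit 2) (nat_lit 0x300090002a00140008000e0000000000000000000) (nat_lit 0x0) (nat_lit 0x100004000000000001000000000000000000000000) := D_42 (nat_lit 146) (nat_lit 96) (nat_lit 164) (nat_lit 6) (nat_lit 10) (nat_lit 8) (nat_lit 7) (nat_lit 10) (nat_lit 5) (by decide +kernel)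
theorem L115672 : W_42 (nat_lit 3) (nat_lit 0x300010002a00140008000e0000000000000000000) (nat_lit 0x0) (nat_lit 0x10000c000400000001000000000000000000000000) := T_42 (nat_lit 147) (nat_lit 130) (nat_lit 7) (nat_lit 10) (nat_lit 4) L115671 (by decide +kernel)
theorem L115673 : W_42 (nat_lit 4) (nat_lit 0x200010002a00140008000e0000000000000000000) (nat_lit 0x0) (nat_lit 0x20011000c000400000001000000000000000000000000) := T_42 (nat_lit 160) (nat_lit 177) (nat_lit 5) (nat_lit 8) (nat_lit 6) L115672 (by decide +kernel)
theorem L115674 : W_42 (nat_lit 2) (nat_lit 0x700090002a0014000800060000000000000000000) (nat_lit 0x0) (nat_lit 0x180004000000000000000000000000000000000000) := D_42 (nat_lit 146) (nat_lit 163) (nat_lit 164) (nat_lit 2) (nat_lit 7) (nat_lit 9) (nat_lit 7) (nat_lit 10) (nat_lit 5) (by decide +kernel)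
theorem L115675 : W_42 (nat_lit 3) (nat_lit 0x300090002a0014000800060000000000000000000) (nat_lit 0x0) (nat_lit 0x8001c0004000000000000000000000000000000000000) := T_42 (nat_lit 162) (nat_lit 179) (nat_lit 7) (nat_lit 8) (nat_lit 6) L115674 (by decide +kernel)
theorem L115676 : W_42 (nat_lit 4) (nat_lit 0x300010002a0014000800060000000000000000000) (nat_lit 0x0) (nat_lit 0x8001c000c000400000000000000000000000000000000) := T_42 (nat_lit 147) (nat_lit 130) (nat_lit 7) (nat_lit 10) (nat_lit 4) L115675 (by decide +kernel)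
theorem L115677 : W_42 (nat_lit 5) (nat_lit 0x200010002a0014000800060000000000000000000) (nat_lit 0x0) (nat_lit 0xa001d000c000400000000000000000000000000000000) := T_42 (nat_lit 160) (nat_lit 177) (nat_lit 5) (nat_lit 8) (nat_lit 6) L115676 (by decide +kernel)
theorem L115678 : W_42 (nat_lit 2) (nat_lit 0x600010006a00140018000e0000000000000000000) (nat_lit 0x0) (nat_lit 0x6000010000000000000000000) := D_42 (nat_lit 97) (nat_lit 76) (nat_lit 98) (nat_lit 3) (nat_lit 8) (nat_lit 4) (nat_lit 0) (nat_lit 13) (nat_lit 5) (by decide +kernel)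
theorem L115679 : W_42 (nat_lit 3) (nat_lit 0x600010006a00140008000e0000000000000000000) (nat_lit 0x0) (nat_lit 0x4000000000007000010000000000000000000) := T_42 (nat_lit 96) (nat_lit 146) (nat_lit 6) (nat_lit 10) (nat_lit 8) L115678 (by decide +kernel)
theorem L115680 : W_42 (nat_lit 4) (nat_lit 0x200010006a00140008000e0000000000000000000) (nat_lit 0x0) (nat_lit 0x800040004000000000007000010000000000000000000) := T_42 (nat_lit 162) (nat_lit 179) (nat_lit 7) (nat_lit 8) (nat_lit 6) L115679 (by decide +kernel)
theorem L115681 : W_42 (nat_lit 5) (nat_lit 0x200010006a0014000800060000000000000000000) (nat_lit 0x0) (nat_lit 0x800040004000000000007000090004000000000000000) := T_42 (nat_lit 79) (nat_lit 62) (nat_lit 6) (nat_lit 10) (nat_lit 7) L115680 (by decide +kernel)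
theorem L115682 : W_42 (nat_lit 6) (nat_lit 0x200010002a0014000800060000000000000000000) (nat_lit 0x0) (nat_lit 0x80004000c000400000007000090004000000000000000) := T_42 (nat_lit 130) (nat_lit 147) (nat_lit 7) (nat_lit 10) (nat_lit 4) L115681 (by decide +kernel)
theorem L115683 : W_42 (nat_lit 5) (nat_lit 0x200010002a0014000800060000000000000000000) (nat_lit 0x0) (nat_lit 0x20011000c000400000001000080004000000000000000) := T_42 (nat_lit 79) (nat_lit 62) (nat_lit 6) (nat_lit 10) (nat_lit 7) L115673 (by decide +kernel)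
theorem L115684 : W_42 (nat_lit 2) (nat_lit 0x700010002a00140018000e0000000000000000000) (nat_lit 0x0) (nat_lit 0x6000010000000000000000000) := D_42 (nat_lit 97) (nat_lit 76) (nat_lit 98) (nat_lit 3) (nat_lit 8) (nat_lit 4) (nat_lit 0) (nat_lit 13) (nat_lit 5) (by decide +kernel)
theorem L115685 : W_42 (nat_lit 3) (nat_lit 0x700010002a00140008000e0000000000000000000) (nat_lit 0x0) (nat_lit 0x4000000000007000010000000000000000000) := T_42 (nat_lit 96) (nat_lit 146) (nat_lit 6) (nat_lit 10) (nat_lit 8) L115684 (by decide +kernel)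
theorem L115686 : W_42 (nat_lit 4) (nat_lit 0x600010002a00140008000e0000000000000000000) (nat_lit 0x0) (nat_lit 0x200010004000000000007000010000000000000000000) := T_42 (nat_lit 160) (nat_lit 177) (nat_lit 5) (nat_lit 8) (nat_lit 6) L115685 (by decide +kernel)
theorem L115687 : W_42 (nat_lit 5) (nat_lit 0x600010002a0014000800060000000000000000000) (nat_lit 0x0) (nat_lit 0x200010004000000000007000090004000000000000000) := T_42 (nat_lit 79) (nat_lit 62) (nat_lit 6) (nat_lit 10) (nat_lit 7) L115686 (by decide +kernel)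
theorem L115688 : W_42 (nat_lit 6) (nat_lit 0x200010002a0014000800060000000000000000000) (nat_lit 0x0) (nat_lit 0xa00050004000000000007000090004000000000000000) := T_42 (nat_lit 162) (nat_lit 179) (nat_lit 7) (nat_lit 8) (nat_lit 6) L115687 (by decide +kernel)
theorem L115689 : W_42 (nat_lit 2) (nat_lit 0x7c0012000a0014000000020000000000000000000) (nat_lit 0x0) (nat_lit 0x1c0000000000000000000000000000000000000000000) := D_42 (nat_lit 175) (nat_lit 176) (nat_lit 174) (nat_lit 1) (nat_lit 9) (nat_lit 9) (nat_lit 1) (nat_lit 8) (nat_lit 9) (by decide +kernel)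
theorem L115690 : W_42 (nat_lit 3) (nat_lit 0x780012000a0014000000020000000000000000000) (nat_lit 0x0) (nat_lit 0x1c0004000100000000000000000000000000000000000) := T_42 (nat_lit 158) (nat_lit 140) (nat_lit 0) (nat_lit 8) (nat_lit 9) L115689 (by decide +kernel)
theorem L115691 : W_42 (nat_lit 4) (nat_lit 0x700012000a0014000000020000000000000000000) (nat_lit 0x0) (nat_lit 0x1c000c000500000000000000000000000000000000000) := T_42 (nat_lit 159) (nat_lit 142) (nat_lit 0) (nat_lit 9) (nat_lit 9) L115690 (by decide +kernel)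
theorem L115692 : W_42 (nat_lit 5) (nat_lit 0x300012000a0014000000020000000000000000000) (nat_lit 0x0) (nat_lit 0x9c004c000500000000000000000000000000000000000) := T_42 (nat_lit 162) (nat_lit 179) (nat_lit 7) (nat_lit 8) (nat_lit 6) L115691 (by decide +kernel)
theorem L115693 : W_42 (nat_lit 6) (nat_lit 0x200012000a0014000000020000000000000000000) (nat_lit 0x0) (nat_lit 0xbc005c000500000000000000000000000000000000000) := T_42 (nat_lit 160) (nat_lit 177) (nat_lit 5) (nat_lit 8) (nat_lit 6) L115692 (by decide +kernel)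
theorem L115694 : W_42 (nat_lit 2) (nat_lit 0x200012000e0014000000020000000000000000000) (nat_lit 0x0) (nat_lit 0x100010008000000000000000000000000000) := D_42 (nat_lit 124) (nat_lit 140) (nat_lit 111) (nat_lit 1) (nat_lit 8) (nat_lit 7) (nat_lit 2) (nat_lit 5) (nat_lit 7) (by decide +kernel)
theorem L115695 : W_42 (nat_lit 4) (nat_lit 0x200012000a0014000000020000000000000000000) (nat_lit 0x0) (nat_lit 0x580150008000000000000000000000000000) := Q_42 (nat_lit 126) (C_42 L115580 (C_42 L115694 (C_42 L115574 N_42))) (by decide +kernel)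
theorem L115696 : W_42 (nat_lit 2) (nat_lit 0x200012000b0014000000020000000000000000000) (nat_lit 0x0) (nat_lit 0x100040008000000000000000000000000000) := D_42 (nat_lit 126) (nat_lit 111) (nat_lit 140) (nat_lit 2) (nat_lit 5) (nat_lit 7) (nat_lit 1) (nat_lit 8) (nat_lit 7) (by decide +kernel)
theorem L115697 : W_42 (nat_lit 2) (nat_lit 0x700012000f0015800000020000000000000000000) (nat_lit 0x0) (nat_lit 0x4000000000000000080004000000000000000000) := D_42 (nat_lit 91) (nat_lit 74) (nat_lit 158) (nat_lit 5) (nat_lit 6) (nat_lit 4) (nat_lit 6) (nat_lit 5) (nat_lit 9) (by decide +kernel)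
theorem L115698 : W_42 (nat_lit 3) (nat_lit 0x700012000f0014800000020000000000000000000) (nat_lit 0x0) (nat_lit 0x4000000100001000080004000000000000000000) := T_42 (nat_lit 108) (nat_lit 128) (nat_lit 0) (nat_lit 9) (nat_lit 7) L115697 (by decide +kernel)
theorem L115699 : W_42 (nat_lit 4) (nat_lit 0x700012000f0014000000020000000000000000000) (nat_lit 0x0) (nat_lit 0x4000000100001c00080004000000000000000000) := T_42 (nat_lit 107) (nat_lit 106) (nat_lit 0) (nat_lit 8) (nat_lit 7) L115698 (by decide +kernel)
theorem L115700 : W_42 (nat_lit 5) (nat_lit 0x700012000b0014000000020000000000000000000) (nat_lit 0x0) (nat_lit 0x4000000140009c00080004000000000000000000) := T_42 (nat_lit 126) (nat_lit 111) (nat_lit 2) (nat_lit 5) (nat_lit 7) L115699 (by decide +kernel)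
theorem L115701 : W_42 (nat_lit 6) (nat_lit 0x600012000b0014000000020000000000000000000) (nat_lit 0x0) (nat_lit 0x200014000000140009c00080004000000000000000000) := T_42 (nat_lit 160) (nat_lit 177) (nat_lit 5) (nat_lit 8) (nat_lit 6) L115700 (by decide +kernel)
theorem L115702 : W_42 (nat_lit 7) (nat_lit 0x200012000b0014000000020000000000000000000) (nat_lit 0x0) (nat_lit 0xa00054000000140009c00080004000000000000000000) := T_42 (nat_lit 162) (nat_lit 179) (nat_lit 7) (nat_lit 8) (nat_lit 6) L115701 (by decide +kernel)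
theorem L115703 : W_42 (nat_lit 11) (nat_lit 0x200012000a0014000000020000000000000000000) (nat_lit 0x0) (nat_lit 0x800bc005e000100158009c000e0005000000000000000000) := Q_42 (nat_lit 124) (C_42 L115605 (C_42 L115696 (C_42 L115702 N_42))) (by decide +kernel)
theorem L115704 : W_42 (nat_lit 2) (nat_lit 0x8007c0012000b0014400000020000000000000000000) (nat_lit 0x0) (nat_lit 0x40008800000000000000000000000000) := D_42 (nat_lit 126) (nat_lit 111) (nat_lit 107) (nat_lit 2) (nat_lit 5) (nat_lit 7) (nat_lit 0) (nat_lit 8) (nat_lit 7) (by decide +kernel)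
theorem L115705 : W_42 (nat_lit 3) (nat_lit 0x8007c0012000b0014000000020000000000000000000) (nat_lit 0x0) (nat_lit 0x48008c00000000000000000000000000) := T_42 (nat_lit 106) (nat_lit 123) (nat_lit 4) (nat_lit 5) (nat_lit 10) L115704 (by decide +kernel)
theorem L115706 : W_42 (nat_lit 4) (nat_lit 0x8007c0012000a0014000000020000000000000000000) (nat_lit 0x0) (nat_lit 0x58009c00000000000000000000000000) := T_42 (nat_lit 124) (nat_lit 108) (nat_lit 6) (nat_lit 5) (nat_lit 10) L115705 (by decide +kernel)
theorem L115707 : W_42 (nat_lit 5) (nat_lit 0x800780012000a0014000000020000000000000000000) (nat_lit 0x0) (nat_lit 0x40004000000058009c00000000000000000000000000) := T_42 (nat_lit 158) (nat_lit 174) (nat_lit 1) (nat_lit 8) (nat_lit 9) L115706 (by decide +kernel)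
theorem L115708 : W_42 (nat_lit 6) (nat_lit 0x780012000a0014000000020000000000000000000) (nat_lit 0x0) (nat_lit 0x1c0004000000058009c00000000000000000000000000) := T_42 (nat_lit 175) (nat_lit 176) (nat_lit 1) (nat_lit 9) (nat_lit 9) L115707 (by decide +kernel)
theorem L115709 : W_42 (nat_lit 7) (nat_lit 0x700012000a0014000000020000000000000000000) (nat_lit 0x0) (nat_lit 0x1c000c000400058009c00000000000000000000000000) := T_42 (nat_lit 159) (nat_lit 142) (nat_lit 0) (nat_lit 9) (nat_lit 9) L115708 (by decide +kernel)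
theorem L115710 : W_42 (nat_lit 8) (nat_lit 0x600012000a0014000000020000000000000000000) (nat_lit 0x0) (nat_lit 0x3c001c000400058009c00000000000000000000000000) := T_42 (nat_lit 160) (nat_lit 177) (nat_lit 5) (nat_lit 8) (nat_lit 6) L115709 (by decide +kernel)
theorem L115711 : W_42 (nat_lit 9) (nat_lit 0x200012000a0014000000020000000000000000000) (nat_lit 0x0) (nat_lit 0xbc005c000400058009c00000000000000000000000000) := T_42 (nat_lit 162) (nat_lit 179) (nat_lit 7) (nat_lit 8) (nat_lit 6) L115710 (by decide +kernel)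
theorem L115712 : W_42 (nat_lit 12) (nat_lit 0x200010000a0014000000020000000000000000000) (nat_lit 0x0) (nat_lit 0x800bc005e000780158009c000e0005000000000000000000) := Q_42 (nat_lit 141) (C_42 L115693 (C_42 L115695 (C_42 L115703 (C_42 L115711 N_42)))) (by decide +kernel)
theorem L115713 : W_42 (nat_lit 2) (nat_lit 0x200010000a001f000000020000000000000000000) (nat_lit 0x0) (nat_lit 0x700000000000000000000000000000000) := D_42 (nat_lit 129) (nat_lit 130) (nat_lit 128) (nat_lit 3) (nat_lit 7) (nat_lit 6) (nat_lit 3) (nat_lit 6) (nat_lit 6) (by decide +kernel)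
theorem L115714 : W_42 (nat_lit 3) (nat_lit 0x200010000a001e000000020000000000000000000) (nat_lit 0x0) (nat_lit 0x710001000000000000000000000000000) := T_42 (nat_lit 108) (nat_lit 124) (nat_lit 1) (nat_lit 9) (nat_lit 6) L115713 (by decide +kernel)
theorem L115715 : W_42 (nat_lit 4) (nat_lit 0x200010000a0016000000020000000000000000000) (nat_lit 0x0) (nat_lit 0x750009000000000000000000000000000) := T_42 (nat_lit 111) (nat_lit 126) (nat_lit 1) (nat_lit 10) (nat_lit 6) L115714 (by decide +kernel)
theorem L115716 : W_42 (nat_lit 5) (nat_lit 0x200010000a0014000000020000000000000000000) (nat_lit 0x0) (nat_lit 0x75000b000100000000000000000000000) := T_42 (nat_lit 109) (nat_lit 92) (nat_lit 4) (nat_lit 8) (nat_lit 9) L115715 (by decide +kernel)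
theorem L115717 : W_42 (nat_lit 2) (nat_lit 0x200010000a0014000200070000000000000000000) (nat_lit 0x0) (nat_lit 0x2000100080000000000000000000) := D_42 (nat_lit 92) (nat_lit 79) (nat_lit 109) (nat_lit 1) (nat_lit 11) (nat_lit 4) (nat_lit 4) (nat_lit 8) (nat_lit 9) (by decide +kernel)
theorem L115718 : W_42 (nat_lit 3) (nat_lit 0x200010000a0014000000070000000000000000000) (nat_lit 0x0) (nat_lit 0x2000300080001000000000000000) := T_42 (nat_lit 93) (nat_lit 60) (nat_lit 6) (nat_lit 8) (nat_lit 7) L115717 (by decide +kernel)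
theorem L115719 : W_42 (nat_lit 5) (nat_lit 0x200010000a0016000800070000000000000000000) (nat_lit 0x0) (nat_lit 0x200010000000110009801000000002000000000000000) := T_42 (nat_lit 111) (nat_lit 96) (nat_lit 2) (nat_lit 7) (nat_lit 6) L115042 (by decide +kernel)
theorem L115720 : W_42 (nat_lit 6) (nat_lit 0x200010000a0014000800070000000000000000000) (nat_lit 0x0) (nat_lit 0x20001000000011000b801100000002000000000000000) := T_42 (nat_lit 109) (nat_lit 92) (nat_lit 4) (nat_lit 8) (nat_lit 9) L115719 (by decide +kernel)
theorem L115721 : W_42 (nat_lit 4) (nat_lit 0x600010000a0016000800070000000000000000000) (nat_lit 0x0) (nat_lit 0x110009801000000002000000000000000) := T_42 (nat_lit 111) (nat_lit 96) (nat_lit 2) (nat_lit 7) (nat_lit 6) L115044 (by decide +kernel)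
theorem L115722 : W_42 (nat_lit 5) (nat_lit 0x600010000a0014000800070000000000000000000) (nat_lit 0x0) (nat_lit 0x11000b801100000002000000000000000) := T_42 (nat_lit 109) (nat_lit 92) (nat_lit 4) (nat_lit 8) (nat_lit 9) L115721 (by decide +kernel)
theorem L115723 : W_42 (nat_lit 6) (nat_lit 0x200010000a0014000800070000000000000000000) (nat_lit 0x0) (nat_lit 0x80004000000011000b801100000002000000000000000) := T_42 (nat_lit 162) (nat_lit 179) (nat_lit 7) (nat_lit 8) (nat_lit 6) L115722 (by decide +kernel)
theorem L115724 : W_42 (nat_lit 2) (nat_lit 0x700010000a001e000a00070000000000000000000) (nat_lit 0x0) (nat_lit 0x100000000000000002800000000000000) := D_42 (nat_lit 128) (nat_lit 61) (nat_lit 59) (nat_lit 5) (nat_lit 10) (nat_lit 3) (nat_lit 7) (nat_lit 8) (nat_lit 3) (by decide +kernel)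
theorem L115725 : W_42 (nat_lit 3) (nat_lit 0x700010000a0016000a00070000000000000000000) (nat_lit 0x0) (nat_lit 0x100008001000000002800000000000000) := T_42 (nat_lit 111) (nat_lit 96) (nat_lit 2) (nat_lit 7) (nat_lit 6) L115724 (by decide +kernel)
theorem L115726 : W_42 (nat_lit 4) (nat_lit 0x700010000a0014000a00070000000000000000000) (nat_lit 0x0) (nat_lit 0x10000a001100000002800000000000000) := T_42 (nat_lit 109) (nat_lit 92) (nat_lit 4) (nat_lit 8) (nat_lit 9) L115725 (by decide +kernel)
theorem L115727 : W_42 (nat_lit 5) (nat_lit 0x300010000a0014000a00070000000000000000000) (nat_lit 0x0) (nat_lit 0x80004000000010000a001100000002800000000000000) := T_42 (nat_lit 162) (nat_lit 179) (nat_lit 7) (nat_lit 8) (nat_lit 6) L115726 (by decide +kernel)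
theorem L115728 : W_42 (nat_lit 6) (nat_lit 0x200010000a0014000a00070000000000000000000) (nat_lit 0x0) (nat_lit 0xa0005000000010000a001100000002800000000000000) := T_42 (nat_lit 160) (nat_lit 177) (nat_lit 5) (nat_lit 8) (nat_lit 6) L115727 (by decide +kernel)
theorem L115729 : W_42 (nat_lit 7) (nat_lit 0x200010000a0014000800070000000000000000000) (nat_lit 0x0) (nat_lit 0xa0005000000010000a001300000003800000000000000) := T_42 (nat_lit 93) (nat_lit 60) (nat_lit 6) (nat_lit 8) (nat_lit 7) L115728 (by decide +kernel)
theorem L115730 : W_42 (nat_lit 2) (nat_lit 0x200010000a001f000880070001000000000000000) (nat_lit 0x0) (nat_lit 0x2000080004000000) := D_42 (nat_lit 43) (nat_lit 61) (nat_lit 26) (nat_lit 4) (nat_lit 10) (nat_lit 6) (nat_lit 7) (nat_lit 9) (nat_lit 1) (by decide +kernel)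
theorem L115731 : W_42 (nat_lit 3) (nat_lit 0x200010000a001f000880070000000000000000000) (nat_lit 0x0) (nat_lit 0x200000003000080004000000) := T_42 (nat_lit 60) (nat_lit 93) (nat_lit 6) (nat_lit 8) (nat_lit 7) L115730 (by decide +kernel)
theorem L115732 : W_42 (nat_lit 4) (nat_lit 0x200010000a001f000800070000000000000000000) (nat_lit 0x0) (nat_lit 0x2c0000003000080004000000) := T_42 (nat_lit 91) (nat_lit 90) (nat_lit 0) (nat_lit 9) (nat_lit 6) L115731 (by decide +kernel)
theorem L115733 : W_42 (nat_lit 5) (nat_lit 0x200010000a001e000800070000000000000000000) (nat_lit 0x0) (nat_lit 0x100010002c0000003000080004000000) := T_42 (nat_lit 108) (nat_lit 124) (nat_lit 1) (nat_lit 9) (nat_lit 6) L115732 (by decide +kernel)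
theorem L115734 : W_42 (nat_lit 6) (nat_lit 0x200010000a0016000800070000000000000000000) (nat_lit 0x0) (nat_lit 0x100090012c0000003000080004000000) := T_42 (nat_lit 111) (nat_lit 96) (nat_lit 2) (nat_lit 7) (nat_lit 6) L115733 (by decide +kernel)
theorem L115735 : W_42 (nat_lit 7) (nat_lit 0x200010000a0014000800070000000000000000000) (nat_lit 0x0) (nat_lit 0x1000b0013c0000003000080004000000) := T_42 (nat_lit 109) (nat_lit 92) (nat_lit 4) (nat_lit 8) (nat_lit 9) L115734 (by decide +kernel)
theorem L115736 : W_42 (nat_lit 3) (nat_lit 0x300010000a0014000800070000000000000000000) (nat_lit 0x0) (nat_lit 0x200000003000080004000000) := T_42 (nat_lit 60) (nat_lit 93) (nat_lit 6) (nat_lit 8) (nat_lit 7) L115037 (by decide +kernel)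
theorem L115737 : W_42 (nat_lit 4) (nat_lit 0x200010000a0014000800070000000000000000000) (nat_lit 0x0) (nat_lit 0x200010000000000000000200000003000080004000000) := T_42 (nat_lit 160) (nat_lit 177) (nat_lit 5) (nat_lit 8) (nat_lit 6) L115736 (by decide +kernel)
theorem L115738 : W_42 (nat_lit 2) (nat_lit 0x600010001a001f000880070000000000000000000) (nat_lit 0x0) (nat_lit 0x200000001800000000000000) := D_42 (nat_lit 93) (nat_lit 60) (nat_lit 59) (nat_lit 6) (nat_lit 8) (nat_lit 7) (nat_lit 7) (nat_lit 8) (nat_lit 3) (by decide +kernel)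
theorem L115739 : W_42 (nat_lit 3) (nat_lit 0x600010000a001f000880070000000000000000000) (nat_lit 0x0) (nat_lit 0x100000800200000001800000000000000) := T_42 (nat_lit 128) (nat_lit 107) (nat_lit 3) (nat_lit 5) (nat_lit 6) L115738 (by decide +kernel)
theorem L115740 : W_42 (nat_lit 4) (nat_lit 0x600010000a001f000800070000000000000000000) (nat_lit 0x0) (nat_lit 0x1000008002c0000001800000000000000) := T_42 (nat_lit 91) (nat_lit 90) (nat_lit 0) (nat_lit 9) (nat_lit 6) L115739 (by decide +kernel)
theorem L115741 : W_42 (nat_lit 5) (nat_lit 0x600010000a001e000800070000000000000000000) (nat_lit 0x0) (nat_lit 0x1100018002c0000001800000000000000) := T_42 (nat_lit 108) (nat_lit 124) (nat_lit 1) (nat_lit 9) (nat_lit 6) L115740 (by decide +kernel)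
theorem L115742 : W_42 (nat_lit 6) (nat_lit 0x600010000a0016000800070000000000000000000) (nat_lit 0x0) (nat_lit 0x1100098012c0000001800000000000000) := T_42 (nat_lit 111) (nat_lit 96) (nat_lit 2) (nat_lit 7) (nat_lit 6) L115741 (by decide +kernel)
theorem L115743 : W_42 (nat_lit 7) (nat_lit 0x600010000a0014000800070000000000000000000) (nat_lit 0x0) (nat_lit 0x11000b8013c0000001800000000000000) := T_42 (nat_lit 109) (nat_lit 92) (nat_lit 4) (nat_lit 8) (nat_lit 9) L115742 (by decide +kernel)
theorem L115744 : W_42 (nat_lit 8) (nat_lit 0x200010000a0014000800070000000000000000000) (nat_lit 0x0) (nat_lit 0x80004000000011000b8013c0000001800000000000000) := T_42 (nat_lit 162) (nat_lit 179) (nat_lit 7) (nat_lit 8) (nat_lit 6) L115743 (by decide +kernel)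
theorem L115745 : W_42 (nat_lit 9) (nat_lit 0x200010000a0014000000070000000000000000000) (nat_lit 0x0) (nat_lit 0xa0005000000011000b801bc0000003800080004000000) := Q_42 (nat_lit 95) (C_42 L115720 (C_42 L115723 (C_42 L115729 (C_42 L115735 (C_42 L115737 (C_42 L115744 N_42)))))) (by decide +kernel)
theorem L115746 : W_42 (nat_lit 2) (nat_lit 0x700010000a00140011000f0004800200028000000) (nat_lit 0x0) (nat_lit 0x10001400) := D_42 (nat_lit 28) (nat_lit 12) (nat_lit 10) (nat_lit 6) (nat_lit 11) (nat_lit 4) (nat_lit 4) (nat_lit 11) (nat_lit 4) (by decide +kernel)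
theorem L115747 : W_42 (nat_lit 3) (nat_lit 0x700010000a00140011000f0004800200020000000) (nat_lit 0x0) (nat_lit 0x100018001400) := T_42 (nat_lit 27) (nat_lit 44) (nat_lit 4) (nat_lit 11) (nat_lit 5) L115746 (by decide +kernel)
theorem L115748 : W_42 (nat_lit 4) (nat_lit 0x700010000a00140011000f0004800200000000000) (nat_lit 0x0) (nat_lit 0x500038001400) := T_42 (nat_lit 29) (nat_lit 46) (nat_lit 6) (nat_lit 11) (nat_lit 5) L115747 (by decide +kernel)
theorem L115749 : W_42 (nat_lit 5) (nat_lit 0x700010000a00140011000f0004800000000000000) (nat_lit 0x0) (nat_lit 0x800000000000700038001400) := T_42 (nat_lit 45) (nat_lit 95) (nat_lit 5) (nat_lit 11) (nat_lit 2) L115748 (by decide +kernel)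
theorem L115750 : W_42 (nat_lit 6) (nat_lit 0x700010000a00140011000f0000800000000000000) (nat_lit 0x0) (nat_lit 0x80000000c000700038001400) := T_42 (nat_lit 62) (nat_lit 63) (nat_lit 2) (nat_lit 8) (nat_lit 4) L115749 (by decide +kernel)
theorem L115751 : W_42 (nat_lit 7) (nat_lit 0x700010000a00140001000f0000800000000000000) (nat_lit 0x0) (nat_lit 0x380000000c000700038001400) := T_42 (nat_lit 96) (nat_lit 97) (nat_lit 3) (nat_lit 8) (nat_lit 4) L115750 (by decide +kernel)
theorem L115752 : W_42 (nat_lit 8) (nat_lit 0x700010000a00140001000f0000000000000000000) (nat_lit 0x0) (nat_lit 0x380000000cc00700038001400) := T_42 (nat_lit 59) (nat_lit 58) (nat_lit 0) (nat_lit 11) (nat_lit 4) L115751 (by decide +kernel)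
theorem L115753 : W_42 (nat_lit 9) (nat_lit 0x700010000a0014000100070000000000000000000) (nat_lit 0x0) (nat_lit 0x3a0008000cc00700038001400) := T_42 (nat_lit 79) (nat_lit 93) (nat_lit 1) (nat_lit 11) (nat_lit 4) L115752 (by decide +kernel)
theorem L115754 : W_42 (nat_lit 10) (nat_lit 0x300010000a0014000100070000000000000000000) (nat_lit 0x0) (nat_lit 0x800040000000000000003a0008000cc00700038001400) := T_42 (nat_lit 162) (nat_lit 179) (nat_lit 7) (nat_lit 8) (nat_lit 6) L115753 (by decide +kernel)
theorem L115755 : W_42 (nat_lit 11) (nat_lit 0x300010000a0014000000070000000000000000000) (nat_lit 0x0) (nat_lit 0x800040000000000002003b0008000cc00700038001400) := T_42 (nat_lit 92) (nat_lit 109) (nat_lit 4) (nat_lit 8) (nat_lit 9) L115754 (by decide +kernel)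
theorem L115756 : W_42 (nat_lit 12) (nat_lit 0x200010000a0014000000070000000000000000000) (nat_lit 0x0) (nat_lit 0xa00050000000000002003b0008000cc00700038001400) := T_42 (nat_lit 160) (nat_lit 177) (nat_lit 5) (nat_lit 8) (nat_lit 6) L115755 (by decide +kernel)
theorem L115757 : W_42 (nat_lit 4) (nat_lit 0x300010002a0014000800060000000000000000000) (nat_lit 0x0) (nat_lit 0x10000c000400000001000080004000000000000000) := T_42 (nat_lit 79) (nat_lit 62) (nat_lit 6) (nat_lit 10) (nat_lit 7) L115672 (by decide +kernel)
theorem L115758 : W_42 (nat_lit 5) (nat_lit 0x300010000a0014000800060000000000000000000) (nat_lit 0x0) (nat_lit 0x10000c000600000001000080005000000000000000) := T_42 (nat_lit 129) (nat_lit 60) (nat_lit 4) (nat_lit 10) (nat_lit 7) L115757 (by decide +kernel)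
theorem L115759 : W_42 (nat_lit 6) (nat_lit 0x200010000a0014000800060000000000000000000) (nat_lit 0x0) (nat_lit 0x20011000c000600000001000080005000000000000000) := T_42 (nat_lit 160) (nat_lit 177) (nat_lit 5) (nat_lit 8) (nat_lit 6) L115758 (by decide +kernel)
theorem L115760 : W_42 (nat_lit 7) (nat_lit 0x200010000a0014000800060000000000000000000) (nat_lit 0x0) (nat_lit 0x80004000c000600000007000090005000000000000000) := T_42 (nat_lit 129) (nat_lit 60) (nat_lit 4) (nat_lit 10) (nat_lit 7) L115682 (by decide +kernel)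
theorem L115761 : W_42 (nat_lit 10) (nat_lit 0x200010000a00140000000e0000000000000000000) (nat_lit 0x0) (nat_lit 0xa0005000000000000000780011001fc00780028000000) := Q_42 (nat_lit 76) (C_42 L115020 (C_42 L115003 (C_42 L115028 (C_42 L115016 N_42)))) (by decide +kernel)
theorem L115762 : W_42 (nat_lit 2) (nat_lit 0x200010000a00140000000f0000000000000000000) (nat_lit 0x0) (nat_lit 0x300000001000000000000000) := D_42 (nat_lit 93) (nat_lit 60) (nat_lit 92) (nat_lit 6) (nat_lit 8) (nat_lit 7) (nat_lit 1) (nat_lit 11) (nat_lit 4) (by decide +kernel)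
theorem L115763 : W_42 (nat_lit 6) (nat_lit 0x200010000a00140000000e0000000000000000000) (nat_lit 0x0) (nat_lit 0xa0005000000000000000730011001dc00000000000000) := Q_42 (nat_lit 76) (C_42 L115020 (C_42 L115003 (C_42 L115016 (C_42 L115762 N_42)))) (by decide +kernel)
theorem L115764 : W_42 (nat_lit 2) (nat_lit 0x700010000a00140028001e0009000000000000000) (nat_lit 0x0) (nat_lit 0x2000080004000000) := D_42 (nat_lit 43) (nat_lit 61) (nat_lit 26) (nat_lit 4) (nat_lit 10) (nat_lit 6) (nat_lit 7) (nat_lit 9) (nat_lit 1) (by decide +kernel)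
theorem L115765 : W_42 (nat_lit 3) (nat_lit 0x700010000a00140020001e0009000000000000000) (nat_lit 0x0) (nat_lit 0x200000000800000002000080004000000) := T_42 (nat_lit 95) (nat_lit 129) (nat_lit 4) (nat_lit 10) (nat_lit 7) L115764 (by decide +kernel)
theorem L115766 : W_42 (nat_lit 4) (nat_lit 0x300010000a00140020001e0009000000000000000) (nat_lit 0x0) (nat_lit 0x800040000000200000000800000002000080004000000) := T_42 (nat_lit 162) (nat_lit 179) (nat_lit 7) (nat_lit 8) (nat_lit 6) L115765 (by decide +kernel)
theorem L115767 : W_42 (nat_lit 5) (nat_lit 0x300010000a00140020001e0008000000000000000) (nat_lit 0x0) (nat_lit 0x800040000000200000000800000003800080004000000) := T_42 (nat_lit 60) (nat_lit 59) (nat_lit 0) (nat_lit 12) (nat_lit 4) L115766 (by decide +kernel)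
theorem L115768 : W_42 (nat_lit 6) (nat_lit 0x300010000a00140000001e0008000000000000000) (nat_lit 0x0) (nat_lit 0x800040000000200000006800000003800080004000000) := T_42 (nat_lit 97) (nat_lit 98) (nat_lit 3) (nat_lit 9) (nat_lit 4) L115767 (by decide +kernel)
theorem L115769 : W_42 (nat_lit 7) (nat_lit 0x300010000a00140000001e0000000000000000000) (nat_lit 0x0) (nat_lit 0x80004000000020000000680000001b800080004000000) := T_42 (nat_lit 63) (nat_lit 64) (nat_lit 2) (nat_lit 9) (nat_lit 4) L115768 (by decide +kernel)
theorem L115770 : W_42 (nat_lit 8) (nat_lit 0x200010000a00140000001e0000000000000000000) (nat_lit 0x0) (nat_lit 0xa0005000000020000000680000001b800080004000000) := T_42 (nat_lit 160) (nat_lit 177) (nat_lit 5) (nat_lit 8) (nat_lit 6) L115769 (by decide +kernel)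
theorem L115771 : W_42 (nat_lit 2) (nat_lit 0x300010002a00140000003e0001000000000000000) (nat_lit 0x0) (nat_lit 0xe000000000000000000000000) := D_42 (nat_lit 98) (nat_lit 97) (nat_lit 99) (nat_lit 3) (nat_lit 9) (nat_lit 4) (nat_lit 3) (nat_lit 10) (nat_lit 4) (by decide +kernel)
theorem L115772 : W_42 (nat_lit 3) (nat_lit 0x300010002a00140000001e0001000000000000000) (nat_lit 0x0) (nat_lit 0xe000200002000000000000000) := T_42 (nat_lit 81) (nat_lit 61) (nat_lit 0) (nat_lit 13) (nat_lit 4) L115771 (by decide +kernel)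
theorem L115773 : W_42 (nat_lit 4) (nat_lit 0x300010000a00140000001e0001000000000000000) (nat_lit 0x0) (nat_lit 0x20000000e800200002000000000000000) := T_42 (nat_lit 129) (nat_lit 95) (nat_lit 4) (nat_lit 10) (nat_lit 7) L115772 (by decide +kernel)
theorem L115774 : W_42 (nat_lit 5) (nat_lit 0x200010000a00140000001e0001000000000000000) (nat_lit 0x0) (nat_lit 0x20001000000020000000e800200002000000000000000) := T_42 (nat_lit 160) (nat_lit 177) (nat_lit 5) (nat_lit 8) (nat_lit 6) L115773 (by decide +kernel)
theorem L115775 : W_42 (nat_lit 6) (nat_lit 0x200010000a00140000001e0000000000000000000) (nat_lit 0x0) (nat_lit 0x20001000000020000000e800200003800000000000000) := T_42 (nat_lit 60) (nat_lit 59) (nat_lit 0) (nat_lit 12) (nat_lit 4) L115774 (by decide +kernel)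
theorem L115776 : W_42 (nat_lit 2) (nat_lit 0x700010000a00140008001e0009000000000000000) (nat_lit 0x0) (nat_lit 0x200002000080000000000) := D_42 (nat_lit 61) (nat_lit 81) (nat_lit 43) (nat_lit 0) (nat_lit 13) (nat_lit 4) (nat_lit 4) (nat_lit 10) (nat_lit 6) (by decide +kernel)
theorem L115777 : W_42 (nat_lit 3) (nat_lit 0x700010000a00140000001e0009000000000000000) (nat_lit 0x0) (nat_lit 0x200000000800200002000080000000000) := T_42 (nat_lit 95) (nat_lit 129) (nat_lit 4) (nat_lit 10) (nat_lit 7) L115776 (by decide +kernel)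
theorem L115778 : W_42 (nat_lit 4) (nat_lit 0x300010000a00140000001e0009000000000000000) (nat_lit 0x0) (nat_lit 0x800040000000200000000800200002000080000000000) := T_42 (nat_lit 162) (nat_lit 179) (nat_lit 7) (nat_lit 8) (nat_lit 6) L115777 (by decide +kernel)
theorem L115779 : W_42 (nat_lit 5) (nat_lit 0x300010000a00140000001e0008000000000000000) (nat_lit 0x0) (nat_lit 0x800040000000200000000800200003800080000000000) := T_42 (nat_lit 60) (nat_lit 59) (nat_lit 0) (nat_lit 12) (nat_lit 4) L115778 (by decide +kernel)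
theorem L115780 : W_42 (nat_lit 6) (nat_lit 0x200010000a00140000001e0008000000000000000) (nat_lit 0x0) (nat_lit 0xa00050000000200000000800200003800080000000000) := T_42 (nat_lit 160) (nat_lit 177) (nat_lit 5) (nat_lit 8) (nat_lit 6) L115779 (by decide +kernel)
theorem L115781 : W_42 (nat_lit 7) (nat_lit 0x200010000a00140000001e0000000000000000000) (nat_lit 0x0) (nat_lit 0xa0005000000020000000080020001b800080000000000) := T_42 (nat_lit 63) (nat_lit 64) (nat_lit 2) (nat_lit 9) (nat_lit 4) L115780 (by decide +kernel)
theorem L115782 : W_42 (nat_lit 10) (nat_lit 0x200010000a00140000000e0000000000000000000) (nat_lit 0x0) (nat_lit 0xa0005000000020000001f80070007f800080004000000) := Q_42 (nat_lit 80) (C_42 L115654 (C_42 L115670 (C_42 L115662 (C_42 L115770 (C_42 L115775 (C_42 L115781 N_42)))))) (by decide +kernel)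
theorem L115783 : W_42 (nat_lit 6) (nat_lit 0x200010000a00140000000e0000000000000000000) (nat_lit 0x0) (nat_lit 0x80004000000020000000380001003e000200010000000) := Q_42 (nat_lit 62) (C_42 L115647 (C_42 L115617 (C_42 L115650 N_42))) (by decide +kernel)
theorem L115784 : W_42 (nat_lit 2) (nat_lit 0x700010002a00140042001e0011000000000000000) (nat_lit 0x0) (nat_lit 0x8000200020000000000000000) := D_42 (nat_lit 81) (nat_lit 99) (nat_lit 65) (nat_lit 3) (nat_lit 10) (nat_lit 4) (nat_lit 2) (nat_lit 10) (nat_lit 4) (by decide +kernel)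
theorem L115785 : W_42 (nat_lit 3) (nat_lit 0x700010002a00140042001e0001000000000000000) (nat_lit 0x0) (nat_lit 0x8000200038000000000000000) := T_42 (nat_lit 64) (nat_lit 63) (nat_lit 2) (nat_lit 9) (nat_lit 4) L115784 (by decide +kernel)
theorem L115786 : W_42 (nat_lit 4) (nat_lit 0x700010002a00140002001e0001000000000000000) (nat_lit 0x0) (nat_lit 0xe000200038000000000000000) := T_42 (nat_lit 98) (nat_lit 97) (nat_lit 3) (nat_lit 9) (nat_lit 4) L115785 (by decide +kernel)
theorem L115787 : W_42 (nat_lit 5) (nat_lit 0x300010002a00140002001e0001000000000000000) (nat_lit 0x0) (nat_lit 0x80004000000000000000e000200038000000000000000) := T_42 (nat_lit 162) (nat_lit 179) (nat_lit 7) (nat_lit 8) (nat_lit 6) L115786 (by decide +kernel)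
theorem L115788 : W_42 (nat_lit 6) (nat_lit 0x300010002a00140002000e0001000000000000000) (nat_lit 0x0) (nat_lit 0x80004000000000000000e000300038800000000000000) := T_42 (nat_lit 80) (nat_lit 59) (nat_lit 0) (nat_lit 12) (nat_lit 4) L115787 (by decide +kernel)
theorem L115789 : W_42 (nat_lit 7) (nat_lit 0x300010002a00140000000e0001000000000000000) (nat_lit 0x0) (nat_lit 0x80004000000000000000e200310038800000000000000) := T_42 (nat_lit 93) (nat_lit 76) (nat_lit 6) (nat_lit 8) (nat_lit 7) L115788 (by decide +kernel)
theorem L115790 : W_42 (nat_lit 8) (nat_lit 0x300010000a00140000000e0001000000000000000) (nat_lit 0x0) (nat_lit 0x80004000000020000000ea00310038800000000000000) := T_42 (nat_lit 129) (nat_lit 95) (nat_lit 4) (nat_lit 10) (nat_lit 7) L115789 (by decide +kernel)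
theorem L115791 : W_42 (nat_lit 9) (nat_lit 0x200010000a00140000000e0001000000000000000) (nat_lit 0x0) (nat_lit 0xa0005000000020000000ea00310038800000000000000) := T_42 (nat_lit 160) (nat_lit 177) (nat_lit 5) (nat_lit 8) (nat_lit 6) L115790 (by decide +kernel)
theorem L115792 : W_42 (nat_lit 2) (nat_lit 0x300010002a00140002003e0001000000000000000) (nat_lit 0x0) (nat_lit 0xe000000000000000000000000) := D_42 (nat_lit 98) (nat_lit 97) (nat_lit 99) (nat_lit 3) (nat_lit 9) (nat_lit 4) (nat_lit 3) (nat_lit 10) (nat_lit 4) (by decide +kernel)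
theorem L115793 : W_42 (nat_lit 3) (nat_lit 0x300010002a00140002001e0001000000000000000) (nat_lit 0x0) (nat_lit 0xe000200002000000000000000) := T_42 (nat_lit 81) (nat_lit 61) (nat_lit 0) (nat_lit 13) (nat_lit 4) L115792 (by decide +kernel)
theorem L115794 : W_42 (nat_lit 4) (nat_lit 0x300010002a00140002000e0001000000000000000) (nat_lit 0x0) (nat_lit 0xe000300002800000000000000) := T_42 (nat_lit 80) (nat_lit 59) (nat_lit 0) (nat_lit 12) (nat_lit 4) L115793 (by decide +kernel)
theorem L115795 : W_42 (nat_lit 5) (nat_lit 0x300010002a00140000000e0001000000000000000) (nat_lit 0x0) (nat_lit 0xe200310002800000000000000) := T_42 (nat_lit 93) (nat_lit 76) (nat_lit 6) (nat_lit 8) (nat_lit 7) L115794 (by decide +kernel)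
theorem L115796 : W_42 (nat_lit 6) (nat_lit 0x300010000a00140000000e0001000000000000000) (nat_lit 0x0) (nat_lit 0x20000000ea00310002800000000000000) := T_42 (nat_lit 129) (nat_lit 95) (nat_lit 4) (nat_lit 10) (nat_lit 7) L115795 (by decide +kernel)
theorem L115797 : W_42 (nat_lit 7) (nat_lit 0x200010000a00140000000e0001000000000000000) (nat_lit 0x0) (nat_lit 0x20001000000020000000ea00310002800000000000000) := T_42 (nat_lit 160) (nat_lit 177) (nat_lit 5) (nat_lit 8) (nat_lit 6) L115796 (by decide +kernel)
theorem L115798 : W_42 (nat_lit 2) (nat_lit 0x700010002a00140000003f0009000000000000000) (nat_lit 0x0) (nat_lit 0xe000000000000000000000000) := D_42 (nat_lit 98) (nat_lit 97) (nat_lit 99) (nat_lit 3) (nat_lit 9) (nat_lit 4) (nat_lit 3) (nat_lit 10) (nat_lit 4) (by decide +kernel)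
theorem L115799 : W_42 (nat_lit 3) (nat_lit 0x700010002a00140000001f0009000000000000000) (nat_lit 0x0) (nat_lit 0xe000200002000000000000000) := T_42 (nat_lit 81) (nat_lit 61) (nat_lit 0) (nat_lit 13) (nat_lit 4) L115798 (by decide +kernel)
theorem L115800 : W_42 (nat_lit 4) (nat_lit 0x700010002a00140000000f0009000000000000000) (nat_lit 0x0) (nat_lit 0xe000300012000000000000000) := T_42 (nat_lit 80) (nat_lit 64) (nat_lit 2) (nat_lit 9) (nat_lit 4) L115799 (by decide +kernel)
theorem L115801 : W_42 (nat_lit 5) (nat_lit 0x700010002a00140000000f0001000000000000000) (nat_lit 0x0) (nat_lit 0xe00030001e000000000000000) := T_42 (nat_lit 63) (nat_lit 62) (nat_lit 2) (nat_lit 8) (nat_lit 4) L115800 (by decide +kernel)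
theorem L115802 : W_42 (nat_lit 6) (nat_lit 0x700010002a00140000000e0001000000000000000) (nat_lit 0x0) (nat_lit 0xe20031001e000000000000000) := T_42 (nat_lit 76) (nat_lit 93) (nat_lit 6) (nat_lit 8) (nat_lit 7) L115801 (by decide +kernel)
theorem L115803 : W_42 (nat_lit 7) (nat_lit 0x700010000a00140000000e0001000000000000000) (nat_lit 0x0) (nat_lit 0x20000000ea0031001e000000000000000) := T_42 (nat_lit 129) (nat_lit 95) (nat_lit 4) (nat_lit 10) (nat_lit 7) L115802 (by decide +kernel)
theorem L115804 : W_42 (nat_lit 8) (nat_lit 0x600010000a00140000000e0001000000000000000) (nat_lit 0x0) (nat_lit 0x20001000000020000000ea0031001e000000000000000) := T_42 (nat_lit 160) (nat_lit 177) (nat_lit 5) (nat_lit 8) (nat_lit 6) L115803 (by decide +kernel)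
theorem L115805 : W_42 (nat_lit 9) (nat_lit 0x200010000a00140000000e0001000000000000000) (nat_lit 0x0) (nat_lit 0xa0005000000020000000ea0031001e000000000000000) := T_42 (nat_lit 162) (nat_lit 179) (nat_lit 7) (nat_lit 8) (nat_lit 6) L115804 (by decide +kernel)
theorem L115806 : W_42 (nat_lit 2) (nat_lit 0x700010000a0014000a000e0001000000000000000) (nat_lit 0x0) (nat_lit 0x2000080004000000) := D_42 (nat_lit 43) (nat_lit 61) (nat_lit 26) (nat_lit 4) (nat_lit 10) (nat_lit 6) (nat_lit 7) (nat_lit 9) (nat_lit 1) (by decide +kernel)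
theorem L115807 : W_42 (nat_lit 3) (nat_lit 0x700010000a00140002000e0001000000000000000) (nat_lit 0x0) (nat_lit 0x200000000800000002000080004000000) := T_42 (nat_lit 95) (nat_lit 129) (nat_lit 4) (nat_lit 10) (nat_lit 7) L115806 (by decide +kernel)
theorem L115808 : W_42 (nat_lit 4) (nat_lit 0x600010000a00140002000e0001000000000000000) (nat_lit 0x0) (nat_lit 0x200010000000200000000800000002000080004000000) := T_42 (nat_lit 160) (nat_lit 177) (nat_lit 5) (nat_lit 8) (nat_lit 6) L115807 (by decide +kernel)
theorem L115809 : W_42 (nat_lit 5) (nat_lit 0x200010000a00140002000e0001000000000000000) (nat_lit 0x0) (nat_lit 0xa00050000000200000000800000002000080004000000) := T_42 (nat_lit 162) (nat_lit 179) (nat_lit 7) (nat_lit 8) (nat_lit 6) L115808 (by decide +kernel)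
theorem L115810 : W_42 (nat_lit 6) (nat_lit 0x200010000a00140000000e0001000000000000000) (nat_lit 0x0) (nat_lit 0xa00050000000200000000a00010002000080004000000) := T_42 (nat_lit 93) (nat_lit 76) (nat_lit 6) (nat_lit 8) (nat_lit 7) L115809 (by decide +kernel)
theorem L115811 : W_42 (nat_lit 10) (nat_lit 0x200010000a00140000000e0000000000000000000) (nat_lit 0x0) (nat_lit 0xa0005000000020000000ea0031003f800080004000000) := Q_42 (nat_lit 60) (C_42 L115615 (C_42 L115791 (C_42 L115797 (C_42 L115805 (C_42 L115810 N_42))))) (by decide +kernel)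
theorem L115812 : W_42 (nat_lit 10) (nat_lit 0x200010000a00140000000e0000000000000000000) (nat_lit 0x0) (nat_lit 0xa0005000000020000000ea0031003b800080004000000) := Q_42 (nat_lit 60) (C_42 L115615 (C_42 L115791 (C_42 L115810 (C_42 L115797 N_42)))) (by decide +kernel)
theorem L115813 : W_42 (nat_lit 2) (nat_lit 0x700010002a0014002000fe0021000000000000000) (nat_lit 0x0) (nat_lit 0x38000000000000000000000000) := D_42 (nat_lit 100) (nat_lit 99) (nat_lit 101) (nat_lit 3) (nat_lit 11) (nat_lit 4) (nat_lit 3) (nat_lit 12) (nat_lit 4) (by decide +kernel)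
theorem L115814 : W_42 (nat_lit 3) (nat_lit 0x700010002a00140020007e0021000000000000000) (nat_lit 0x0) (nat_lit 0x39000800000000000000000000) := T_42 (nat_lit 83) (nat_lit 96) (nat_lit 1) (nat_lit 15) (nat_lit 4) L115813 (by decide +kernel)
theorem L115815 : W_42 (nat_lit 4) (nat_lit 0x700010002a00140020003e0021000000000000000) (nat_lit 0x0) (nat_lit 0x39000c00040000000000000000) := T_42 (nat_lit 82) (nat_lit 66) (nat_lit 2) (nat_lit 11) (nat_lit 4) L115814 (by decide +kernel)
theorem L115816 : W_42 (nat_lit 5) (nat_lit 0x700010002a00140020003e0001000000000000000) (nat_lit 0x0) (nat_lit 0x39000c00070000000000000000) := T_42 (nat_lit 65) (nat_lit 64) (nat_lit 2) (nat_lit 10) (nat_lit 4) L115815 (by decide +kernel)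
theorem L115817 : W_42 (nat_lit 6) (nat_lit 0x700010002a00140020001e0001000000000000000) (nat_lit 0x0) (nat_lit 0x39000e00072000000000000000) := T_42 (nat_lit 81) (nat_lit 61) (nat_lit 0) (nat_lit 13) (nat_lit 4) L115816 (by decide +kernel)
theorem L115818 : W_42 (nat_lit 7) (nat_lit 0x700010002a00140000001e0001000000000000000) (nat_lit 0x0) (nat_lit 0x3f000e00072000000000000000) := T_42 (nat_lit 97) (nat_lit 98) (nat_lit 3) (nat_lit 9) (nat_lit 4) L115817 (by decide +kernel)
theorem L115819 : W_42 (nat_lit 8) (nat_lit 0x600010002a00140000001e0001000000000000000) (nat_lit 0x0) (nat_lit 0x20001000000000000003f000e00072000000000000000) := T_42 (nat_lit 160) (nat_lit 177) (nat_lit 5) (nat_lit 8) (nat_lit 6) L115818 (by decide +kernel)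
theorem L115820 : W_42 (nat_lit 9) (nat_lit 0x600010002a00140000000e0001000000000000000) (nat_lit 0x0) (nat_lit 0x20001000000000000003f000f00072800000000000000) := T_42 (nat_lit 80) (nat_lit 59) (nat_lit 0) (nat_lit 12) (nat_lit 4) L115819 (by decide +kernel)
theorem L115821 : W_42 (nat_lit 10) (nat_lit 0x600010000a00140000000e0001000000000000000) (nat_lit 0x0) (nat_lit 0x20001000000020000003f800f00072800000000000000) := T_42 (nat_lit 129) (nat_lit 95) (nat_lit 4) (nat_lit 10) (nat_lit 7) L115820 (by decide +kernel)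
theorem L115822 : W_42 (nat_lit 11) (nat_lit 0x200010000a00140000000e0001000000000000000) (nat_lit 0x0) (nat_lit 0xa0005000000020000003f800f00072800000000000000) := T_42 (nat_lit 162) (nat_lit 179) (nat_lit 7) (nat_lit 8) (nat_lit 6) L115821 (by decide +kernel)
theorem L115823 : W_42 (nat_lit 12) (nat_lit 0x200010000a00140000000e0000000000000000000) (nat_lit 0x0) (nat_lit 0xa0005000000020000003fa00f10073800080004000000) := Q_42 (nat_lit 60) (C_42 L115610 (C_42 L115560 (C_42 L115810 (C_42 L115822 N_42)))) (by decide +kernel)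
theorem L115824 : W_42 (nat_lit 2) (nat_lit 0x600010002a00140000000f0001000000000000000) (nat_lit 0x0) (nat_lit 0x100000c00000000000000) := D_42 (nat_lit 59) (nat_lit 80) (nat_lit 58) (nat_lit 0) (nat_lit 12) (nat_lit 4) (nat_lit 0) (nat_lit 11) (nat_lit 4) (by decide +kernel)
theorem L115825 : W_42 (nat_lit 3) (nat_lit 0x600010002a00140000000e0001000000000000000) (nat_lit 0x0) (nat_lit 0x200110000c00000000000000) := T_42 (nat_lit 76) (nat_lit 93) (nat_lit 6) (nat_lit 8) (nat_lit 7) L115824 (by decide +kernel)
theorem L115826 : W_42 (nat_lit 4) (nat_lit 0x600010000a00140000000e0001000000000000000) (nat_lit 0x0) (nat_lit 0x200000000a00110000c00000000000000) := T_42 (nat_lit 129) (nat_lit 95) (nat_lit 4) (nat_lit 10) (nat_lit 7) L115825 (by decide +kernel)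
theorem L115827 : W_42 (nat_lit 5) (nat_lit 0x200010000a00140000000e0001000000000000000) (nat_lit 0x0) (nat_lit 0x800040000000200000000a00110000c00000000000000) := T_42 (nat_lit 162) (nat_lit 179) (nat_lit 7) (nat_lit 8) (nat_lit 6) L115826 (by decide +kernel)
theorem L115828 : W_42 (nat_lit 2) (nat_lit 0x200010002a00140000001e0009000000000000000) (nat_lit 0x0) (nat_lit 0x200010004000000000000000) := D_42 (nat_lit 76) (nat_lit 62) (nat_lit 93) (nat_lit 2) (nat_lit 8) (nat_lit 4) (nat_lit 6) (nat_lit 8) (nat_lit 7) (by decide +kernel)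
theorem L115829 : W_42 (nat_lit 3) (nat_lit 0x200010002a00140000001e0001000000000000000) (nat_lit 0x0) (nat_lit 0x20001001c000000000000000) := T_42 (nat_lit 63) (nat_lit 64) (nat_lit 2) (nat_lit 9) (nat_lit 4) L115828 (by decide +kernel)
theorem L115830 : W_42 (nat_lit 4) (nat_lit 0x200010000a00140000001e0001000000000000000) (nat_lit 0x0) (nat_lit 0x200000000a0001001c000000000000000) := T_42 (nat_lit 129) (nat_lit 95) (nat_lit 4) (nat_lit 10) (nat_lit 7) L115829 (by decide +kernel)
theorem L115831 : W_42 (nat_lit 5) (nat_lit 0x200010000a00140000000e0001000000000000000) (nat_lit 0x0) (nat_lit 0x200000000a0011001c800000000000000) := T_42 (nat_lit 80) (nat_lit 59) (nat_lit 0) (nat_lit 12) (nat_lit 4) L115830 (by decide +kernel)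
theorem L115832 : W_42 (nat_lit 2) (nat_lit 0x700010002a00140080007e0049000000000000000) (nat_lit 0x0) (nat_lit 0x800084000000000000000) := D_42 (nat_lit 83) (nat_lit 62) (nat_lit 67) (nat_lit 0) (nat_lit 15) (nat_lit 4) (nat_lit 2) (nat_lit 12) (nat_lit 4) (by decide +kernel)
theorem L115833 : W_42 (nat_lit 3) (nat_lit 0x700010002a00140080007e0009000000000000000) (nat_lit 0x0) (nat_lit 0x8000e4000000000000000) := T_42 (nat_lit 66) (nat_lit 65) (nat_lit 2) (nat_lit 11) (nat_lit 4) L115832 (by decide +kernel)
theorem L115834 : W_42 (nat_lit 4) (nat_lit 0x700010002a00140080003e0009000000000000000) (nat_lit 0x0) (nat_lit 0x10000c000e4000000000000000) := T_42 (nat_lit 82) (nat_lit 100) (nat_lit 3) (nat_lit 11) (nat_lit 4) L115833 (by decide +kernel)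
theorem L115835 : W_42 (nat_lit 5) (nat_lit 0x600010002a00140080003e0009000000000000000) (nat_lit 0x0) (nat_lit 0x200010000000000000010000c000e4000000000000000) := T_42 (nat_lit 160) (nat_lit 177) (nat_lit 5) (nat_lit 8) (nat_lit 6) L115834 (by decide +kernel)
theorem L115836 : W_42 (nat_lit 6) (nat_lit 0x600010002a00140000003e0009000000000000000) (nat_lit 0x0) (nat_lit 0x20001000000000000001c000c000e4000000000000000) := T_42 (nat_lit 99) (nat_lit 98) (nat_lit 3) (nat_lit 10) (nat_lit 4) L115835 (by decide +kernel)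
theorem L115837 : W_42 (nat_lit 7) (nat_lit 0x200010002a00140000003e0009000000000000000) (nat_lit 0x0) (nat_lit 0xa0005000000000000001c000c000e4000000000000000) := T_42 (nat_lit 162) (nat_lit 179) (nat_lit 7) (nat_lit 8) (nat_lit 6) L115836 (by decide +kernel)
theorem L115838 : W_42 (nat_lit 8) (nat_lit 0x200010002a00140000001e0009000000000000000) (nat_lit 0x0) (nat_lit 0xa0005000000000000001c000e000e6000000000000000) := T_42 (nat_lit 81) (nat_lit 61) (nat_lit 0) (nat_lit 13) (nat_lit 4) L115837 (by decide +kernel)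
theorem L115839 : W_42 (nat_lit 9) (nat_lit 0x200010002a00140000001e0001000000000000000) (nat_lit 0x0) (nat_lit 0xa0005000000000000001c000e000fe000000000000000) := T_42 (nat_lit 63) (nat_lit 64) (nat_lit 2) (nat_lit 9) (nat_lit 4) L115838 (by decide +kernel)
theorem L115840 : W_42 (nat_lit 10) (nat_lit 0x200010000a00140000001e0001000000000000000) (nat_lit 0x0) (nat_lit 0xa0005000000020000001c800e000fe000000000000000) := T_42 (nat_lit 129) (nat_lit 95) (nat_lit 4) (nat_lit 10) (nat_lit 7) L115839 (by decide +kernel)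
theorem L115841 : W_42 (nat_lit 11) (nat_lit 0x200010000a00140000000e0001000000000000000) (nat_lit 0x0) (nat_lit 0xa0005000000020000001c800f000fe800000000000000) := T_42 (nat_lit 80) (nat_lit 59) (nat_lit 0) (nat_lit 12) (nat_lit 4) L115840 (by decide +kernel)
theorem L115842 : W_42 (nat_lit 12) (nat_lit 0x200010000a00140000000e0000000000000000000) (nat_lit 0x0) (nat_lit 0xa0005000000020000001ca00f100ffc00080004000000) := Q_42 (nat_lit 60) (C_42 L115570 (C_42 L115827 (C_42 L115831 (C_42 L115841 (C_42 L115810 N_42))))) (by decide +kernel)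
theorem L115843 : W_42 (nat_lit 7) (nat_lit 0x200010000a00140000000e0000000000000000000) (nat_lit 0x0) (nat_lit 0xa00050000000200000000b0001000f000200010000000) := Q_42 (nat_lit 76) (C_42 L115762 (C_42 L115034 N_42)) (by decide +kernel)
theorem L115844 : W_42 (nat_lit 13) (nat_lit 0x200010000a0014000000060000000000000000000) (nat_lit 0x0) (nat_lit 0xa0005000000020000003fb00f900ffc0078003c001400) := Q_42 (nat_lit 79) (C_42 L115761 (C_42 L115763 (C_42 L115648 (C_42 L115651 (C_42 L115782 (C_42 L115783 (C_42 L115811 (C_42 L115812 (C_42 L115823 (C_42 L115842 (C_42 L115843 N_42))))))))))) (by decide +kernel)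
theorem L115845 : W_42 (nat_lit 7) (nat_lit 0x700010000a001400080006000e000000000000000) (nat_lit 0x0) (nat_lit 0x100008000000380001e000f0000000000) := T_42 (nat_lit 60) (nat_lit 43) (nat_lit 4) (nat_lit 10) (nat_lit 6) L115545 (by decide +kernel)
theorem L115846 : W_42 (nat_lit 8) (nat_lit 0x600010000a001400080006000e000000000000000) (nat_lit 0x0) (nat_lit 0x200010000000100008000000380001e000f0000000000) := T_42 (nat_lit 160) (nat_lit 177) (nat_lit 5) (nat_lit 8) (nat_lit 6) L115845 (by decide +kernel)
theorem L115847 : W_42 (nat_lit 9) (nat_lit 0x600010000a0014000800060006000000000000000) (nat_lit 0x0) (nat_lit 0x200010000000100008000000380019e000f0000000000) := T_42 (nat_lit 63) (nat_lit 64) (nat_lit 1) (nat_lit 13) (nat_lit 3) L115846 (by decide +kernel)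
theorem L115848 : W_42 (nat_lit 10) (nat_lit 0x600010000a0014000800060002000000000000000) (nat_lit 0x0) (nat_lit 0x20001000000010000800000038001de002f0000000000) := T_42 (nat_lit 62) (nat_lit 45) (nat_lit 6) (nat_lit 10) (nat_lit 6) L115847 (by decide +kernel)
theorem L115849 : W_42 (nat_lit 11) (nat_lit 0x200010000a0014000800060002000000000000000) (nat_lit 0x0) (nat_lit 0xa0005000000010000800000038001de002f0000000000) := T_42 (nat_lit 162) (nat_lit 179) (nat_lit 7) (nat_lit 8) (nat_lit 6) L115848 (by decide +kernel)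
theorem L115850 : W_42 (nat_lit 5) (nat_lit 0x200010000a0014000800060002000000000000000) (nat_lit 0x0) (nat_lit 0x80004000000000000000000001001d000280000000000) := T_42 (nat_lit 60) (nat_lit 43) (nat_lit 4) (nat_lit 10) (nat_lit 6) L115556 (by decide +kernel)
theorem L115851 : W_42 (nat_lit 10) (nat_lit 0x200010000a0014000800060002000000000000000) (nat_lit 0x0) (nat_lit 0x10000800020039001de002f0000000000) := T_42 (nat_lit 60) (nat_lit 43) (nat_lit 4) (nat_lit 10) (nat_lit 6) L115553 (by decide +kernel)
theorem L115852 : W_42 (nat_lit 2) (nat_lit 0x700010000a001c005800060002000300004000000) (nat_lit 0x0) (nat_lit 0x80000000000008000200) := D_42 (nat_lit 27) (nat_lit 79) (nat_lit 9) (nat_lit 7) (nat_lit 10) (nat_lit 1) (nat_lit 4) (nat_lit 10) (nat_lit 4) (by decide +kernel)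
theorem L115853 : W_42 (nat_lit 3) (nat_lit 0x700010000a001c005800060002000300000000000) (nat_lit 0x0) (nat_lit 0x8000000008000c000200) := T_42 (nat_lit 26) (nat_lit 43) (nat_lit 4) (nat_lit 10) (nat_lit 5) L115852 (by decide +kernel)
theorem L115854 : W_42 (nat_lit 4) (nat_lit 0x700010000a001c005800060002000200000000000) (nat_lit 0x0) (nat_lit 0x8000000018001c000200) := T_42 (nat_lit 44) (nat_lit 28) (nat_lit 6) (nat_lit 10) (nat_lit 5) L115853 (by decide +kernel)
theorem L115855 : W_42 (nat_lit 5) (nat_lit 0x300010000a001c005800060002000200000000000) (nat_lit 0x0) (nat_lit 0x80004000000000000000000008000000018001c000200) := T_42 (nat_lit 162) (nat_lit 179) (nat_lit 7) (nat_lit 8) (nat_lit 6) L115854 (by decide +kernel)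
theorem L115856 : W_42 (nat_lit 6) (nat_lit 0x300010000a001c001800060002000200000000000) (nat_lit 0x0) (nat_lit 0x80004000000000000000600008000000018001c000200) := T_42 (nat_lit 98) (nat_lit 97) (nat_lit 1) (nat_lit 13) (nat_lit 5) L115855 (by decide +kernel)
theorem L115857 : W_42 (nat_lit 7) (nat_lit 0x200010000a001c001800060002000200000000000) (nat_lit 0x0) (nat_lit 0xa0005000000000000000600008000000018001c000200) := T_42 (nat_lit 160) (nat_lit 177) (nat_lit 5) (nat_lit 8) (nat_lit 6) L115856 (by decide +kernel)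
theorem L115858 : W_42 (nat_lit 8) (nat_lit 0x200010000a001c000800060002000200000000000) (nat_lit 0x0) (nat_lit 0xa0005000000000000200700008000000018001c000200) := T_42 (nat_lit 96) (nat_lit 109) (nat_lit 2) (nat_lit 7) (nat_lit 6) L115857 (by decide +kernel)
theorem L115859 : W_42 (nat_lit 9) (nat_lit 0x200010000a0014000800060002000200000000000) (nat_lit 0x0) (nat_lit 0xa0005000000010000a00700008000000018001c000200) := T_42 (nat_lit 111) (nat_lit 128) (nat_lit 5) (nat_lit 10) (nat_lit 3) L115858 (by decide +kernel)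
theorem L115860 : W_42 (nat_lit 10) (nat_lit 0x200010000a0014000800060002000000000000000) (nat_lit 0x0) (nat_lit 0xa0005000000010000a00700008000400038001c000200) := T_42 (nat_lit 45) (nat_lit 62) (nat_lit 6) (nat_lit 10) (nat_lit 6) L115859 (by decide +kernel)
theorem L115861 : W_42 (nat_lit 2) (nat_lit 0x200010000a001f00088006000e000000000000000) (nat_lit 0x0) (nat_lit 0x90001000000000000000) := D_42 (nat_lit 76) (nat_lit 60) (nat_lit 79) (nat_lit 1) (nat_lit 12) (nat_lit 3) (nat_lit 2) (nat_lit 8) (nat_lit 4) (by decide +kernel)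
theorem L115862 : W_42 (nat_lit 3) (nat_lit 0x200010000a001f000880060006000000000000000) (nat_lit 0x0) (nat_lit 0x90019000000000000000) := T_42 (nat_lit 63) (nat_lit 64) (nat_lit 1) (nat_lit 13) (nat_lit 3) L115861 (by decide +kernel)
theorem L115863 : W_42 (nat_lit 4) (nat_lit 0x200010000a001f000880060002000000000000000) (nat_lit 0x0) (nat_lit 0x9001d000200000000000) := T_42 (nat_lit 62) (nat_lit 45) (nat_lit 6) (nat_lit 10) (nat_lit 6) L115862 (by decide +kernel)
theorem L115864 : W_42 (nat_lit 5) (nat_lit 0x200010000a001f000800060002000000000000000) (nat_lit 0x0) (nat_lit 0xc009001d000200000000000) := T_42 (nat_lit 91) (nat_lit 90) (nat_lit 0) (nat_lit 9) (nat_lit 6) L115863 (by decide +kernel)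
theorem L115865 : W_42 (nat_lit 6) (nat_lit 0x200010000a001e000800060002000000000000000) (nat_lit 0x0) (nat_lit 0x100010000c009001d000200000000000) := T_42 (nat_lit 108) (nat_lit 124) (nat_lit 1) (nat_lit 9) (nat_lit 6) L115864 (by decide +kernel)
theorem L115866 : W_42 (nat_lit 7) (nat_lit 0x200010000a001c000800060002000000000000000) (nat_lit 0x0) (nat_lit 0x100030010c009001d000200000000000) := T_42 (nat_lit 109) (nat_lit 96) (nat_lit 2) (nat_lit 7) (nat_lit 6) L115865 (by decide +kernel)
theorem L115867 : W_42 (nat_lit 8) (nat_lit 0x200010000a0014000800060002000000000000000) (nat_lit 0x0) (nat_lit 0x11000b0010c009001d000200000000000) := T_42 (nat_lit 111) (nat_lit 128) (nat_lit 5) (nat_lit 10) (nat_lit 3) L115866 (by decide +kernel)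
theorem L115868 : W_42 (nat_lit 2) (nat_lit 0x700010000a001c005800060002000180010000000) (nat_lit 0x0) (nat_lit 0x80000000000008000800) := D_42 (nat_lit 27) (nat_lit 79) (nat_lit 11) (nat_lit 7) (nat_lit 10) (nat_lit 1) (nat_lit 6) (nat_lit 10) (nat_lit 4) (by decide +kernel)
theorem L115869 : W_42 (nat_lit 3) (nat_lit 0x700010000a001c005800060002000180000000000) (nat_lit 0x0) (nat_lit 0x80000000200018000800) := T_42 (nat_lit 28) (nat_lit 45) (nat_lit 6) (nat_lit 10) (nat_lit 5) L115868 (by decide +kernel)
theorem L115870 : W_42 (nat_lit 4) (nat_lit 0x700010000a001c005800060002000080000000000) (nat_lit 0x0) (nat_lit 0x8000000030001c000800) := T_42 (nat_lit 44) (nat_lit 26) (nat_lit 4) (nat_lit 10) (nat_lit 5) L115869 (by decide +kernel)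
theorem L115871 : W_42 (nat_lit 5) (nat_lit 0x700010000a001c005800060002000000000000000) (nat_lit 0x0) (nat_lit 0x8000100038001c000800) := T_42 (nat_lit 43) (nat_lit 60) (nat_lit 4) (nat_lit 10) (nat_lit 6) L115870 (by decide +kernel)
theorem L115872 : W_42 (nat_lit 6) (nat_lit 0x700010000a001c001800060002000000000000000) (nat_lit 0x0) (nat_lit 0x600008000100038001c000800) := T_42 (nat_lit 98) (nat_lit 97) (nat_lit 1) (nat_lit 13) (nat_lit 5) L115871 (by decide +kernel)
theorem L115873 : W_42 (nat_lit 7) (nat_lit 0x300010000a001c001800060002000000000000000) (nat_lit 0x0) (nat_lit 0x80004000000000000000600008000100038001c000800) := T_42 (nat_lit 162) (nat_lit 179) (nat_lit 7) (nat_lit 8) (nat_lit 6) L115872 (by decide +kernel)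
theorem L115874 : W_42 (nat_lit 8) (nat_lit 0x300010000a001c000800060002000000000000000) (nat_lit 0x0) (nat_lit 0x80004000000000000200700008000100038001c000800) := T_42 (nat_lit 96) (nat_lit 109) (nat_lit 2) (nat_lit 7) (nat_lit 6) L115873 (by decide +kernel)
theorem L115875 : W_42 (nat_lit 9) (nat_lit 0x300010000a0014000800060002000000000000000) (nat_lit 0x0) (nat_lit 0x80004000000010000a00700008000100038001c000800) := T_42 (nat_lit 111) (nat_lit 128) (nat_lit 5) (nat_lit 10) (nat_lit 3) L115874 (by decide +kernel)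
theorem L115876 : W_42 (nat_lit 10) (nat_lit 0x200010000a0014000800060002000000000000000) (nat_lit 0x0) (nat_lit 0xa0005000000010000a00700008000100038001c000800) := T_42 (nat_lit 160) (nat_lit 177) (nat_lit 5) (nat_lit 8) (nat_lit 6) L115875 (by decide +kernel)
theorem L115877 : W_42 (nat_lit 2) (nat_lit 0x300010000a001c001800070003000000000000000) (nat_lit 0x0) (nat_lit 0x6000080000000000000000000) := D_42 (nat_lit 97) (nat_lit 98) (nat_lit 79) (nat_lit 1) (nat_lit 13) (nat_lit 5) (nat_lit 3) (nat_lit 8) (nat_lit 4) (by decide +kernel)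
theorem L115878 : W_42 (nat_lit 3) (nat_lit 0x300010000a001c000800070003000000000000000) (nat_lit 0x0) (nat_lit 0x2007000080000000000000000000) := T_42 (nat_lit 96) (nat_lit 109) (nat_lit 2) (nat_lit 7) (nat_lit 6) L115877 (by decide +kernel)
theorem L115879 : W_42 (nat_lit 4) (nat_lit 0x300010000a0014000800070003000000000000000) (nat_lit 0x0) (nat_lit 0x10000a007000080000000000000000000) := T_42 (nat_lit 111) (nat_lit 128) (nat_lit 5) (nat_lit 10) (nat_lit 3) L115878 (by decide +kernel)
theorem L115880 : W_42 (nat_lit 5) (nat_lit 0x300010000a0014000800060003000000000000000) (nat_lit 0x0) (nat_lit 0x10000a007200090000000000000000000) := T_42 (nat_lit 76) (nat_lit 93) (nat_lit 6) (nat_lit 8) (nat_lit 7) L115879 (by decide +kernel)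
theorem L115881 : W_42 (nat_lit 6) (nat_lit 0x200010000a0014000800060003000000000000000) (nat_lit 0x0) (nat_lit 0x20001000000010000a007200090000000000000000000) := T_42 (nat_lit 160) (nat_lit 177) (nat_lit 5) (nat_lit 8) (nat_lit 6) L115880 (by decide +kernel)
theorem L115882 : W_42 (nat_lit 7) (nat_lit 0x200010000a0014000800060002000000000000000) (nat_lit 0x0) (nat_lit 0x20001000000010000a007200090001000080000000000) := T_42 (nat_lit 60) (nat_lit 43) (nat_lit 4) (nat_lit 10) (nat_lit 6) L115881 (by decide +kernel)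
theorem L115883 : W_42 (nat_lit 12) (nat_lit 0x200010000a0014000800060000000000000000000) (nat_lit 0x0) (nat_lit 0xa0005000000011000b0072c039001fe003f001c000a00) := Q_42 (nat_lit 61) (C_42 L115849 (C_42 L115850 (C_42 L115851 (C_42 L115860 (C_42 L115867 (C_42 L115876 (C_42 L115882 N_42))))))) (by decide +kernel)
theorem L115884 : W_42 (nat_lit 6) (nat_lit 0x200010000a0014000800060000000000000000000) (nat_lit 0x0) (nat_lit 0xa001d000c000600000000000000001000000000000000) := T_42 (nat_lit 129) (nat_lit 60) (nat_lit 4) (nat_lit 10) (nat_lit 7) L115677 (by decide +kernel)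
theorem L115885 : W_42 (nat_lit 2) (nat_lit 0x700010006a00140008000e0000000000000000000) (nat_lit 0x0) (nat_lit 0x10000a000000000000000000000000000) := D_42 (nat_lit 109) (nat_lit 111) (nat_lit 128) (nat_lit 3) (nat_lit 7) (nat_lit 6) (nat_lit 0) (nat_lit 11) (nat_lit 7) (by decide +kernel)
theorem L115886 : W_42 (nat_lit 3) (nat_lit 0x700010002a00140008000e0000000000000000000) (nat_lit 0x0) (nat_lit 0x800050000a000000000000000000000000000) := T_42 (nat_lit 130) (nat_lit 147) (nat_lit 7) (nat_lit 10) (nat_lit 4) L115885 (by decide +kernel)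
theorem L115887 : W_42 (nat_lit 4) (nat_lit 0x600010002a00140008000e0000000000000000000) (nat_lit 0x0) (nat_lit 0x20001000800050000a000000000000000000000000000) := T_42 (nat_lit 160) (nat_lit 177) (nat_lit 5) (nat_lit 8) (nat_lit 6) L115886 (by decide +kernel)
theorem L115888 : W_42 (nat_lit 5) (nat_lit 0x600010002a0014000800060000000000000000000) (nat_lit 0x0) (nat_lit 0x20001000800050000a000000080004000000000000000) := T_42 (nat_lit 79) (nat_lit 62) (nat_lit 6) (nat_lit 10) (nat_lit 7) L115887 (by decide +kernel)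
theorem L115889 : W_42 (nat_lit 6) (nat_lit 0x200010002a0014000800060000000000000000000) (nat_lit 0x0) (nat_lit 0xa0005000800050000a000000080004000000000000000) := T_42 (nat_lit 162) (nat_lit 179) (nat_lit 7) (nat_lit 8) (nat_lit 6) L115888 (by decide +kernel)
theorem L115890 : W_42 (nat_lit 7) (nat_lit 0x200010000a0014000800060000000000000000000) (nat_lit 0x0) (nat_lit 0xa001d000c00070000a007000090004000000000000000) := Q_42 (nat_lit 129) (C_42 L115683 (C_42 L115688 (C_42 L115682 (C_42 L115677 (C_42 L115889 N_42))))) (by decide +kernel)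
theorem L115891 : W_42 (nat_lit 13) (nat_lit 0x200010000a0014000000060000000000000000000) (nat_lit 0x0) (nat_lit 0xa001d000c00071000b007ac039001fe003f001c000a00) := Q_42 (nat_lit 95) (C_42 L115883 (C_42 L115760 (C_42 L115759 (C_42 L115884 (C_42 L115890 N_42))))) (by decide +kernel)
theorem L115892 : W_42 (nat_lit 2) (nat_lit 0x600010000a001f000800060000000000000000000) (nat_lit 0x0) (nat_lit 0x100000800000000002000000000000000) := D_42 (nat_lit 128) (nat_lit 61) (nat_lit 107) (nat_lit 5) (nat_lit 10) (nat_lit 3) (nat_lit 3) (nat_lit 5) (nat_lit 6) (by decide +kernel)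
theorem L115893 : W_42 (nat_lit 3) (nat_lit 0x600010000a001e000800060000000000000000000) (nat_lit 0x0) (nat_lit 0x110001800000000002000000000000000) := T_42 (nat_lit 108) (nat_lit 124) (nat_lit 1) (nat_lit 9) (nat_lit 6) L115892 (by decide +kernel)
theorem L115894 : W_42 (nat_lit 4) (nat_lit 0x600010000a0016000800060000000000000000000) (nat_lit 0x0) (nat_lit 0x110009801000000002000000000000000) := T_42 (nat_lit 111) (nat_lit 96) (nat_lit 2) (nat_lit 7) (nat_lit 6) L115893 (by decide +kernel)
theorem L115895 : W_42 (nat_lit 5) (nat_lit 0x600010000a0014000800060000000000000000000) (nat_lit 0x0) (nat_lit 0x11000b801100000002000000000000000) := T_42 (nat_lit 109) (nat_lit 92) (nat_lit 4) (nat_lit 8) (nat_lit 9) L115894 (by decide +kernel)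
theorem L115896 : W_42 (nat_lit 6) (nat_lit 0x200010000a0014000800060000000000000000000) (nat_lit 0x0) (nat_lit 0x80004000000011000b801100000002000000000000000) := T_42 (nat_lit 162) (nat_lit 179) (nat_lit 7) (nat_lit 8) (nat_lit 6) L115895 (by decide +kernel)
theorem L115897 : W_42 (nat_lit 2) (nat_lit 0x200010000a001e000800060000000000000000000) (nat_lit 0x0) (nat_lit 0x600000000000000001000000000000000) := D_42 (nat_lit 129) (nat_lit 60) (nat_lit 130) (nat_lit 4) (nat_lit 10) (nat_lit 7) (nat_lit 3) (nat_lit 7) (nat_lit 6) (by decide +kernel)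
theorem L115898 : W_42 (nat_lit 3) (nat_lit 0x200010000a0016000800060000000000000000000) (nat_lit 0x0) (nat_lit 0x600008001000000001000000000000000) := T_42 (nat_lit 111) (nat_lit 96) (nat_lit 2) (nat_lit 7) (nat_lit 6) L115897 (by decide +kernel)
theorem L115899 : W_42 (nat_lit 4) (nat_lit 0x200010000a0014000800060000000000000000000) (nat_lit 0x0) (nat_lit 0x60000a001100000001000000000000000) := T_42 (nat_lit 109) (nat_lit 92) (nat_lit 4) (nat_lit 8) (nat_lit 9) L115898 (by decide +kernel)
theorem L115900 : W_42 (nat_lit 2) (nat_lit 0x200010002a0016000800060000000000000000000) (nat_lit 0x0) (nat_lit 0x8000400008000000000000000000000000000) := D_42 (nat_lit 130) (nat_lit 111) (nat_lit 147) (nat_lit 3) (nat_lit 7) (nat_lit 6) (nat_lit 7) (nat_lit 10) (nat_lit 4) (by decide +kernel)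
theorem L115901 : W_42 (nat_lit 3) (nat_lit 0x200010002a0014000800060000000000000000000) (nat_lit 0x0) (nat_lit 0x800040000a000100000000000000000000000) := T_42 (nat_lit 109) (nat_lit 92) (nat_lit 4) (nat_lit 8) (nat_lit 9) L115900 (by decide +kernel)
theorem L115902 : W_42 (nat_lit 4) (nat_lit 0x200010000a0014000800060000000000000000000) (nat_lit 0x0) (nat_lit 0x800060000a000100000001000000000000000) := T_42 (nat_lit 129) (nat_lit 60) (nat_lit 4) (nat_lit 10) (nat_lit 7) L115901 (by decide +kernel)
theorem L115903 : W_42 (nat_lit 8) (nat_lit 0x200010000a0014000000060000000000000000000) (nat_lit 0x0) (nat_lit 0x80004000c00071000b807900090007000000000000000) := Q_42 (nat_lit 95) (C_42 L115896 (C_42 L115899 (C_42 L115760 (C_42 L115902 N_42)))) (by decide +kernel)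
theorem L115904 : W_42 (nat_lit 2) (nat_lit 0x200010000a001f000800060000000000000000000) (nat_lit 0x0) (nat_lit 0x100000800000000002000000000000000) := D_42 (nat_lit 128) (nat_lit 61) (nat_lit 107) (nat_lit 5) (nat_lit 10) (nat_lit 3) (nat_lit 3) (nat_lit 5) (nat_lit 6) (by decide +kernel)
theorem L115905 : W_42 (nat_lit 3) (nat_lit 0x200010000a001e000800060000000000000000000) (nat_lit 0x0) (nat_lit 0x110001800000000002000000000000000) := T_42 (nat_lit 108) (nat_lit 124) (nat_lit 1) (nat_lit 9) (nat_lit 6) L115904 (by decide +kernel)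
theorem L115906 : W_42 (nat_lit 4) (nat_lit 0x200010000a0016000800060000000000000000000) (nat_lit 0x0) (nat_lit 0x110009801000000002000000000000000) := T_42 (nat_lit 111) (nat_lit 96) (nat_lit 2) (nat_lit 7) (nat_lit 6) L115905 (by decide +kernel)
theorem L115907 : W_42 (nat_lit 5) (nat_lit 0x200010000a0014000800060000000000000000000) (nat_lit 0x0) (nat_lit 0x11000b801100000002000000000000000) := T_42 (nat_lit 109) (nat_lit 92) (nat_lit 4) (nat_lit 8) (nat_lit 9) L115906 (by decide +kernel)
theorem L115908 : W_42 (nat_lit 7) (nat_lit 0x200010000a0014000000060000000000000000000) (nat_lit 0x0) (nat_lit 0x20011000c00071000b801900080007000000000000000) := Q_42 (nat_lit 95) (C_42 L115907 (C_42 L115902 (C_42 L115759 N_42))) (by decide +kernel)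
theorem L115909 : W_42 (nat_lit 13) (nat_lit 0x200010000a0014000000060000000000000000000) (nat_lit 0x0) (nat_lit 0xa0005000000011000b807bc019001fc0078003c001400) := Q_42 (nat_lit 76) (C_42 L115718 (C_42 L115756 (C_42 L115029 (C_42 L115745 N_42)))) (by decide +kernel)
theorem L115910 : W_42 (nat_lit 2) (nat_lit 0x300010000b0017000000060000000000000000000) (nat_lit 0x0) (nat_lit 0xc000800000000000000000000000000) := D_42 (nat_lit 123) (nat_lit 107) (nat_lit 122) (nat_lit 1) (nat_lit 8) (nat_lit 6) (nat_lit 2) (nat_lit 3) (nat_lit 7) (by decide +kernel)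
theorem L115911 : W_42 (nat_lit 3) (nat_lit 0x300010000a0017000000060000000000000000000) (nat_lit 0x0) (nat_lit 0x1c008800000000000000000000000000) := T_42 (nat_lit 124) (nat_lit 111) (nat_lit 1) (nat_lit 9) (nat_lit 6) L115910 (by decide +kernel)
theorem L115912 : W_42 (nat_lit 4) (nat_lit 0x200010000a0017000000060000000000000000000) (nat_lit 0x0) (nat_lit 0x20001000000001c008800000000000000000000000000) := T_42 (nat_lit 160) (nat_lit 177) (nat_lit 5) (nat_lit 8) (nat_lit 6) L115911 (by decide +kernel)
theorem L115913 : W_42 (nat_lit 2) (nat_lit 0x600010000a0017800040062000000000000000000) (nat_lit 0x0) (nat_lit 0x8000400000000000080000000000000000000000) := D_42 (nat_lit 142) (nat_lit 159) (nat_lit 91) (nat_lit 4) (nat_lit 6) (nat_lit 9) (nat_lit 4) (nat_lit 6) (nat_lit 8) (by decide +kernel)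
theorem L115914 : W_42 (nat_lit 3) (nat_lit 0x600010000a0017800040060000000000000000000) (nat_lit 0x0) (nat_lit 0x8000400000000000080002000100000000000000) := T_42 (nat_lit 73) (nat_lit 56) (nat_lit 7) (nat_lit 5) (nat_lit 3) L115913 (by decide +kernel)
theorem L115915 : W_42 (nat_lit 4) (nat_lit 0x200010000a0017800040060000000000000000000) (nat_lit 0x0) (nat_lit 0x800048000400000000000080002000100000000000000) := T_42 (nat_lit 162) (nat_lit 179) (nat_lit 7) (nat_lit 8) (nat_lit 6) L115914 (by decide +kernel)
theorem L115916 : W_42 (nat_lit 5) (nat_lit 0x200010000a0017800000060000000000000000000) (nat_lit 0x0) (nat_lit 0x8000480004000000000000e0002000100000000000000) := T_42 (nat_lit 90) (nat_lit 89) (nat_lit 0) (nat_lit 8) (nat_lit 6) L115915 (by decide +kernel)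
theorem L115917 : W_42 (nat_lit 6) (nat_lit 0x200010000a0017000000060000000000000000000) (nat_lit 0x0) (nat_lit 0x8000480004001000008000e0002000100000000000000) := T_42 (nat_lit 107) (nat_lit 128) (nat_lit 3) (nat_lit 5) (nat_lit 6) L115916 (by decide +kernel)
theorem L115918 : W_42 (nat_lit 2) (nat_lit 0x300010000a001f000000060000000000000000000) (nat_lit 0x0) (nat_lit 0x700000000000000000000000000000000) := D_42 (nat_lit 129) (nat_lit 128) (nat_lit 130) (nat_lit 3) (nat_lit 6) (nat_lit 6) (nat_lit 3) (nat_lit 7) (nat_lit 6) (by decide +kernel)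
theorem L115919 : W_42 (nat_lit 3) (nat_lit 0x300010000a0017000000060000000000000000000) (nat_lit 0x0) (nat_lit 0x710008000000000000000000000000000) := T_42 (nat_lit 111) (nat_lit 124) (nat_lit 1) (nat_lit 9) (nat_lit 6) L115918 (by decide +kernel)
theorem L115920 : W_42 (nat_lit 4) (nat_lit 0x200010000a0017000000060000000000000000000) (nat_lit 0x0) (nat_lit 0x200010000000710008000000000000000000000000000) := T_42 (nat_lit 160) (nat_lit 177) (nat_lit 5) (nat_lit 8) (nat_lit 6) L115919 (by decide +kernel)
theorem L115921 : W_42 (nat_lit 7) (nat_lit 0x200010000a0016000000060000000000000000000) (nat_lit 0x0) (nat_lit 0xa0005800040071c0098000e0002000100000000000000) := Q_42 (nat_lit 108) (C_42 L115920 (C_42 L115917 (C_42 L115912 N_42))) (by decide +kernel)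
theorem L115922 : W_42 (nat_lit 8) (nat_lit 0x200010000a0014000000060000000000000000000) (nat_lit 0x0) (nat_lit 0xa0005800040071c00b8001e0002000100000000000000) := T_42 (nat_lit 109) (nat_lit 92) (nat_lit 4) (nat_lit 8) (nat_lit 9) L115921 (by decide +kernel)
theorem L115923 : W_42 (nat_lit 14) (nat_lit 0x200010000a0014000000020000000000000000000) (nat_lit 0x0) (nat_lit 0xa001d800c40071c00b83fbe0fd20fff007f003c001e00) := Q_42 (nat_lit 78) (C_42 L115844 (C_42 L115891 (C_42 L115903 (C_42 L115908 (C_42 L115909 (C_42 L115922 N_42)))))) (by decide +kernel)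
theorem L115924 : W_42 (nat_lit 2) (nat_lit 0x700010002a001e000800060002000000000000000) (nat_lit 0x0) (nat_lit 0x80004000200000000000) := D_42 (nat_lit 62) (nat_lit 79) (nat_lit 45) (nat_lit 6) (nat_lit 10) (nat_lit 7) (nat_lit 6) (nat_lit 10) (nat_lit 6) (by decide +kernel)
theorem L115925 : W_42 (nat_lit 3) (nat_lit 0x700010002a001e000800060000000000000000000) (nat_lit 0x0) (nat_lit 0x100000000000080006000200000000000) := T_42 (nat_lit 61) (nat_lit 128) (nat_lit 5) (nat_lit 10) (nat_lit 3) L115924 (by decide +kernel)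
theorem L115926 : W_42 (nat_lit 4) (nat_lit 0x700010002a001e000800020000000000000000000) (nat_lit 0x0) (nat_lit 0x1000000000000c0007000200000000000) := T_42 (nat_lit 78) (nat_lit 60) (nat_lit 4) (nat_lit 10) (nat_lit 7) L115925 (by decide +kernel)
theorem L115927 : W_42 (nat_lit 5) (nat_lit 0x700010002a001e000000020000000000000000000) (nat_lit 0x0) (nat_lit 0x1000000018000c0007000200000000000) := T_42 (nat_lit 95) (nat_lit 96) (nat_lit 2) (nat_lit 7) (nat_lit 6) L115926 (by decide +kernel)
theorem L115928 : W_42 (nat_lit 6) (nat_lit 0x700010000a001e000000020000000000000000000) (nat_lit 0x0) (nat_lit 0x7000000018000c0007000200000000000) := T_42 (nat_lit 129) (nat_lit 130) (nat_lit 3) (nat_lit 7) (nat_lit 6) L115927 (by decide +kernel)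
theorem L115929 : W_42 (nat_lit 7) (nat_lit 0x300010000a001e000000020000000000000000000) (nat_lit 0x0) (nat_lit 0x8000400000007000000018000c0007000200000000000) := T_42 (nat_lit 162) (nat_lit 179) (nat_lit 7) (nat_lit 8) (nat_lit 6) L115928 (by decide +kernel)
theorem L115930 : W_42 (nat_lit 8) (nat_lit 0x300010000a0016000000020000000000000000000) (nat_lit 0x0) (nat_lit 0x8000400000007400080018000c0007000200000000000) := T_42 (nat_lit 111) (nat_lit 126) (nat_lit 1) (nat_lit 10) (nat_lit 6) L115929 (by decide +kernel)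
theorem L115931 : W_42 (nat_lit 9) (nat_lit 0x300010000a0014000000020000000000000000000) (nat_lit 0x0) (nat_lit 0x80004000000074000a0019000c0007000200000000000) := T_42 (nat_lit 109) (nat_lit 92) (nat_lit 4) (nat_lit 8) (nat_lit 9) L115930 (by decide +kernel)
theorem L115932 : W_42 (nat_lit 10) (nat_lit 0x200010000a0014000000020000000000000000000) (nat_lit 0x0) (nat_lit 0xa0005000000074000a0019000c0007000200000000000) := T_42 (nat_lit 160) (nat_lit 177) (nat_lit 5) (nat_lit 8) (nat_lit 6) L115931 (by decide +kernel)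
theorem L115933 : W_42 (nat_lit 2) (nat_lit 0x780012000f0016800000020000000000000000000) (nat_lit 0x0) (nat_lit 0x180004000000000000000000000000000000000000000) := D_42 (nat_lit 176) (nat_lit 175) (nat_lit 158) (nat_lit 1) (nat_lit 9) (nat_lit 9) (nat_lit 7) (nat_lit 5) (nat_lit 6) (by decide +kernel)
theorem L115934 : W_42 (nat_lit 3) (nat_lit 0x780012000f0016000000020000000000000000000) (nat_lit 0x0) (nat_lit 0x180004000000000000c00000000000000000000000000) := T_42 (nat_lit 107) (nat_lit 106) (nat_lit 0) (nat_lit 8) (nat_lit 7) L115933 (by decide +kernel)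
theorem L115935 : W_42 (nat_lit 4) (nat_lit 0x700012000f0016000000020000000000000000000) (nat_lit 0x0) (nat_lit 0x18000c000400000000c00000000000000000000000000) := T_42 (nat_lit 159) (nat_lit 142) (nat_lit 0) (nat_lit 9) (nat_lit 9) L115934 (by decide +kernel)
theorem L115936 : W_42 (nat_lit 5) (nat_lit 0x700010000f0016000000020000000000000000000) (nat_lit 0x0) (nat_lit 0x18000c000700000000c00000000000000000000000000) := T_42 (nat_lit 141) (nat_lit 140) (nat_lit 1) (nat_lit 8) (nat_lit 7) L115935 (by decide +kernel)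
theorem L115937 : W_42 (nat_lit 6) (nat_lit 0x700010000e0016000000020000000000000000000) (nat_lit 0x0) (nat_lit 0x18000c000700018000c00000000000000000000000000) := T_42 (nat_lit 124) (nat_lit 123) (nat_lit 2) (nat_lit 4) (nat_lit 7) L115936 (by decide +kernel)
theorem L115938 : W_42 (nat_lit 7) (nat_lit 0x700010000a0016000000020000000000000000000) (nat_lit 0x0) (nat_lit 0x18000c000700058008c00000000000000000000000000) := T_42 (nat_lit 126) (nat_lit 111) (nat_lit 1) (nat_lit 10) (nat_lit 6) L115937 (by decide +kernel)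
theorem L115939 : W_42 (nat_lit 8) (nat_lit 0x700010000a0014000000020000000000000000000) (nat_lit 0x0) (nat_lit 0x18000c00070005800ac00100000000000000000000000) := T_42 (nat_lit 109) (nat_lit 92) (nat_lit 4) (nat_lit 8) (nat_lit 9) L115938 (by decide +kernel)
theorem L115940 : W_42 (nat_lit 9) (nat_lit 0x600010000a0014000000020000000000000000000) (nat_lit 0x0) (nat_lit 0x38001c00070005800ac00100000000000000000000000) := T_42 (nat_lit 160) (nat_lit 177) (nat_lit 5) (nat_lit 8) (nat_lit 6) L115939 (by decide +kernel)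
theorem L115941 : W_42 (nat_lit 10) (nat_lit 0x200010000a0014000000020000000000000000000) (nat_lit 0x0) (nat_lit 0xb8005c00070005800ac00100000000000000000000000) := T_42 (nat_lit 162) (nat_lit 179) (nat_lit 7) (nat_lit 8) (nat_lit 6) L115940 (by decide +kernel)
theorem L115942 : W_42 (nat_lit 2) (nat_lit 0x600012000f0014800000020000000000000000000) (nat_lit 0x0) (nat_lit 0x400100001000000000000000000000000000) := D_42 (nat_lit 128) (nat_lit 142) (nat_lit 108) (nat_lit 1) (nat_lit 9) (nat_lit 7) (nat_lit 0) (nat_lit 9) (nat_lit 7) (by decide +kernel)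
theorem L115943 : W_42 (nat_lit 3) (nat_lit 0x600012000f0014000000020000000000000000000) (nat_lit 0x0) (nat_lit 0x400100001c00000000000000000000000000) := T_42 (nat_lit 107) (nat_lit 106) (nat_lit 0) (nat_lit 8) (nat_lit 7) L115942 (by decide +kernel)
theorem L115944 : W_42 (nat_lit 4) (nat_lit 0x600012000b0014000000020000000000000000000) (nat_lit 0x0) (nat_lit 0x500140001c00000000000000000000000000) := T_42 (nat_lit 126) (nat_lit 140) (nat_lit 1) (nat_lit 8) (nat_lit 7) L115943 (by decide +kernel)
theorem L115945 : W_42 (nat_lit 5) (nat_lit 0x200012000b0014000000020000000000000000000) (nat_lit 0x0) (nat_lit 0x800040000500140001c00000000000000000000000000) := T_42 (nat_lit 162) (nat_lit 179) (nat_lit 7) (nat_lit 8) (nat_lit 6) L115944 (by decide +kernel)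
theorem L115946 : W_42 (nat_lit 6) (nat_lit 0x200012000b0014000000020000000000000000000) (nat_lit 0x0) (nat_lit 0x200014000100140001c00080004000000000000000000) := T_42 (nat_lit 126) (nat_lit 140) (nat_lit 1) (nat_lit 8) (nat_lit 7) L115579 (by decide +kernel)
theorem L115947 : W_42 (nat_lit 2) (nat_lit 0x600016000f0014000000020000000000000000000) (nat_lit 0x0) (nat_lit 0x200018000000000000000000000000000000000000000) := D_42 (nat_lit 160) (nat_lit 177) (nat_lit 159) (nat_lit 5) (nat_lit 8) (nat_lit 6) (nat_lit 0) (nat_lit 9) (nat_lit 9) (by decide +kernel)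
theorem L115948 : W_42 (nat_lit 3) (nat_lit 0x600012000f0014000000020000000000000000000) (nat_lit 0x0) (nat_lit 0x200018000400100000000000000000000000000000000) := T_42 (nat_lit 142) (nat_lit 128) (nat_lit 1) (nat_lit 9) (nat_lit 7) L115947 (by decide +kernel)
theorem L115949 : W_42 (nat_lit 4) (nat_lit 0x200012000f0014000000020000000000000000000) (nat_lit 0x0) (nat_lit 0xa00058000400100000000000000000000000000000000) := T_42 (nat_lit 162) (nat_lit 179) (nat_lit 7) (nat_lit 8) (nat_lit 6) L115948 (by decide +kernel)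
theorem L115950 : W_42 (nat_lit 5) (nat_lit 0x200012000b0014000000020000000000000000000) (nat_lit 0x0) (nat_lit 0xa00058000500140000000000000000000000000000000) := T_42 (nat_lit 126) (nat_lit 140) (nat_lit 1) (nat_lit 8) (nat_lit 7) L115949 (by decide +kernel)
theorem L115951 : W_42 (nat_lit 2) (nat_lit 0x800780012000b0014000000020000000000000000000) (nat_lit 0x0) (nat_lit 0x40004000000000001000000000000000000000000000) := D_42 (nat_lit 158) (nat_lit 174) (nat_lit 108) (nat_lit 1) (nat_lit 8) (nat_lit 9) (nat_lit 6) (nat_lit 5) (nat_lit 10) (by decide +kernel)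
theorem L115952 : W_42 (nat_lit 3) (nat_lit 0x780012000b0014000000020000000000000000000) (nat_lit 0x0) (nat_lit 0x1c0004000000000001000000000000000000000000000) := T_42 (nat_lit 175) (nat_lit 176) (nat_lit 1) (nat_lit 9) (nat_lit 9) L115951 (by decide +kernel)
theorem L115953 : W_42 (nat_lit 4) (nat_lit 0x700012000b0014000000020000000000000000000) (nat_lit 0x0) (nat_lit 0x1c000c000400000001000000000000000000000000000) := T_42 (nat_lit 159) (nat_lit 142) (nat_lit 0) (nat_lit 9) (nat_lit 9) L115952 (by decide +kernel)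
theorem L115954 : W_42 (nat_lit 5) (nat_lit 0x300012000b0014000000020000000000000000000) (nat_lit 0x0) (nat_lit 0x9c004c000400000001000000000000000000000000000) := T_42 (nat_lit 162) (nat_lit 179) (nat_lit 7) (nat_lit 8) (nat_lit 6) L115953 (by decide +kernel)
theorem L115955 : W_42 (nat_lit 6) (nat_lit 0x200012000b0014000000020000000000000000000) (nat_lit 0x0) (nat_lit 0xbc005c000400000001000000000000000000000000000) := T_42 (nat_lit 160) (nat_lit 177) (nat_lit 5) (nat_lit 8) (nat_lit 6) L115954 (by decide +kernel)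
theorem L115956 : W_42 (nat_lit 11) (nat_lit 0x200010000b0014000000020000000000000000000) (nat_lit 0x0) (nat_lit 0x800bc005e000700148001c000e0005000000000000000000) := Q_42 (nat_lit 141) (C_42 L115605 (C_42 L115945 (C_42 L115946 (C_42 L115585 (C_42 L115950 (C_42 L115955 N_42)))))) (by decide +kernel)
theorem L115957 : W_42 (nat_lit 2) (nat_lit 0x600010000b8016000000020000000000000000000) (nat_lit 0x0) (nat_lit 0x4001800000000000000000000000000) := D_42 (nat_lit 108) (nat_lit 122) (nat_lit 107) (nat_lit 2) (nat_lit 3) (nat_lit 7) (nat_lit 1) (nat_lit 8) (nat_lit 6) (by decide +kernel)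
theorem L115958 : W_42 (nat_lit 3) (nat_lit 0x600010000b0016000000020000000000000000000) (nat_lit 0x0) (nat_lit 0x4c001800000000000000000000000000) := T_42 (nat_lit 123) (nat_lit 126) (nat_lit 2) (nat_lit 4) (nat_lit 7) L115957 (by decide +kernel)
theorem L115959 : W_42 (nat_lit 4) (nat_lit 0x600010000b0014000000020000000000000000000) (nat_lit 0x0) (nat_lit 0x4c003800100000000000000000000000) := T_42 (nat_lit 109) (nat_lit 92) (nat_lit 4) (nat_lit 8) (nat_lit 9) L115958 (by decide +kernel)
theorem L115960 : W_42 (nat_lit 5) (nat_lit 0x200010000b0014000000020000000000000000000) (nat_lit 0x0) (nat_lit 0x80004000000004c003800100000000000000000000000) := T_42 (nat_lit 162) (nat_lit 179) (nat_lit 7) (nat_lit 8) (nat_lit 6) L115959 (by decide +kernel)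
theorem L115961 : W_42 (nat_lit 2) (nat_lit 0x200010000b8016000000020000000000000000000) (nat_lit 0x0) (nat_lit 0x4001800000000000000000000000000) := D_42 (nat_lit 108) (nat_lit 122) (nat_lit 107) (nat_lit 2) (nat_lit 3) (nat_lit 7) (nat_lit 1) (nat_lit 8) (nat_lit 6) (by decide +kernel)
theorem L115962 : W_42 (nat_lit 3) (nat_lit 0x200010000b0016000000020000000000000000000) (nat_lit 0x0) (nat_lit 0x4c001800000000000000000000000000) := T_42 (nat_lit 123) (nat_lit 126) (nat_lit 2) (nat_lit 4) (nat_lit 7) L115961 (by decide +kernel)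
theorem L115963 : W_42 (nat_lit 4) (nat_lit 0x200010000b0014000000020000000000000000000) (nat_lit 0x0) (nat_lit 0x4c003800100000000000000000000000) := T_42 (nat_lit 109) (nat_lit 92) (nat_lit 4) (nat_lit 8) (nat_lit 9) L115962 (by decide +kernel)
theorem L115964 : W_42 (nat_lit 2) (nat_lit 0x200010000b0016800000020000000000000000000) (nat_lit 0x0) (nat_lit 0x108001000000000000000000000000000) := D_42 (nat_lit 108) (nat_lit 128) (nat_lit 123) (nat_lit 3) (nat_lit 5) (nat_lit 6) (nat_lit 1) (nat_lit 8) (nat_lit 6) (by decide +kernel)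
theorem L115965 : W_42 (nat_lit 3) (nat_lit 0x200010000b0014800000020000000000000000000) (nat_lit 0x0) (nat_lit 0x108003000100000000000000000000000) := T_42 (nat_lit 109) (nat_lit 92) (nat_lit 4) (nat_lit 8) (nat_lit 9) L115964 (by decide +kernel)
theorem L115966 : W_42 (nat_lit 2) (nat_lit 0x280014000b0014800000020000000000000000000) (nat_lit 0x0) (nat_lit 0x200000000000040002000000000000000000) := D_42 (nat_lit 90) (nat_lit 73) (nat_lit 141) (nat_lit 7) (nat_lit 5) (nat_lit 4) (nat_lit 7) (nat_lit 5) (nat_lit 5) (by decide +kernel)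
theorem L115967 : W_42 (nat_lit 2) (nat_lit 0x8007c0012000b0016800000020000000000000000000) (nat_lit 0x0) (nat_lit 0x8000400020000000000000000000000) := D_42 (nat_lit 106) (nat_lit 89) (nat_lit 123) (nat_lit 4) (nat_lit 5) (nat_lit 9) (nat_lit 4) (nat_lit 5) (nat_lit 10) (by decide +kernel)
theorem L115968 : W_42 (nat_lit 3) (nat_lit 0x8007c0010000b0016800000020000000000000000000) (nat_lit 0x0) (nat_lit 0x300008000400020000000000000000000000) := T_42 (nat_lit 141) (nat_lit 140) (nat_lit 0) (nat_lit 8) (nat_lit 9) L115967 (by decide +kernel)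
theorem L115969 : W_42 (nat_lit 4) (nat_lit 0x800780010000b0016800000020000000000000000000) (nat_lit 0x0) (nat_lit 0x40004000300008000400020000000000000000000000) := T_42 (nat_lit 158) (nat_lit 174) (nat_lit 1) (nat_lit 8) (nat_lit 9) L115968 (by decide +kernel)
theorem L115970 : W_42 (nat_lit 5) (nat_lit 0x800780010000b0014800000020000000000000000000) (nat_lit 0x0) (nat_lit 0x40004000300008002400120000000000000000000000) := T_42 (nat_lit 109) (nat_lit 92) (nat_lit 4) (nat_lit 8) (nat_lit 9) L115969 (by decide +kernel)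
theorem L115971 : W_42 (nat_lit 6) (nat_lit 0x780010000b0014800000020000000000000000000) (nat_lit 0x0) (nat_lit 0x1c0004000300008002400120000000000000000000000) := T_42 (nat_lit 175) (nat_lit 176) (nat_lit 1) (nat_lit 9) (nat_lit 9) L115970 (by decide +kernel)
theorem L115972 : W_42 (nat_lit 7) (nat_lit 0x680010000b0014800000020000000000000000000) (nat_lit 0x0) (nat_lit 0x3c0014000300008002400120000000000000000000000) := T_42 (nat_lit 160) (nat_lit 177) (nat_lit 5) (nat_lit 8) (nat_lit 6) L115971 (by decide +kernel)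
theorem L115973 : W_42 (nat_lit 8) (nat_lit 0x280010000b0014800000020000000000000000000) (nat_lit 0x0) (nat_lit 0xbc0054000300008002400120000000000000000000000) := T_42 (nat_lit 162) (nat_lit 179) (nat_lit 7) (nat_lit 8) (nat_lit 6) L115972 (by decide +kernel)
theorem L115974 : W_42 (nat_lit 2) (nat_lit 0x1000680010000b0016800000020000000000000000000) (nat_lit 0x0) (nat_lit 0x280010000000000000000000000000000000000000000) := D_42 (nat_lit 160) (nat_lit 175) (nat_lit 177) (nat_lit 1) (nat_lit 9) (nat_lit 9) (nat_lit 5) (nat_lit 8) (nat_lit 6) (by decide +kernel)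
theorem L115975 : W_42 (nat_lit 3) (nat_lit 0x1000280010000b0016800000020000000000000000000) (nat_lit 0x0) (nat_lit 0xa80050000000000000000000000000000000000000000) := T_42 (nat_lit 162) (nat_lit 179) (nat_lit 7) (nat_lit 8) (nat_lit 6) L115974 (by decide +kernel)
theorem L115976 : W_42 (nat_lit 4) (nat_lit 0x280010000b0016800000020000000000000000000) (nat_lit 0x0) (nat_lit 0xb80050000400000000000000000000000000000000000) := T_42 (nat_lit 176) (nat_lit 142) (nat_lit 4) (nat_lit 6) (nat_lit 10) L115975 (by decide +kernel)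
theorem L115977 : W_42 (nat_lit 5) (nat_lit 0x280010000b0014800000020000000000000000000) (nat_lit 0x0) (nat_lit 0xb80050000400000002000100000000000000000000000) := T_42 (nat_lit 109) (nat_lit 92) (nat_lit 4) (nat_lit 8) (nat_lit 9) L115976 (by decide +kernel)
theorem L115978 : W_42 (nat_lit 2) (nat_lit 0x280014000b0016800000020000000000000000000) (nat_lit 0x0) (nat_lit 0x200000000000040002000000000000000000) := D_42 (nat_lit 90) (nat_lit 73) (nat_lit 141) (nat_lit 7) (nat_lit 5) (nat_lit 4) (nat_lit 7) (nat_lit 5) (nat_lit 5) (by decide +kernel)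
theorem L115979 : W_42 (nat_lit 3) (nat_lit 0x280010000b0016800000020000000000000000000) (nat_lit 0x0) (nat_lit 0x100000000600000000000040002000000000000000000) := T_42 (nat_lit 142) (nat_lit 176) (nat_lit 4) (nat_lit 6) (nat_lit 10) L115978 (by decide +kernel)
theorem L115980 : W_42 (nat_lit 4) (nat_lit 0x280010000b0014800000020000000000000000000) (nat_lit 0x0) (nat_lit 0x100000000600000002000140002000000000000000000) := T_42 (nat_lit 109) (nat_lit 92) (nat_lit 4) (nat_lit 8) (nat_lit 9) L115979 (by decide +kernel)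
theorem L115981 : W_42 (nat_lit 2) (nat_lit 0x780010000b0014800000020000000000000000000) (nat_lit 0x0) (nat_lit 0x180000000400000000000000000000000000000000000) := D_42 (nat_lit 176) (nat_lit 175) (nat_lit 142) (nat_lit 1) (nat_lit 9) (nat_lit 9) (nat_lit 4) (nat_lit 6) (nat_lit 10) (by decide +kernel)
theorem L115982 : W_42 (nat_lit 3) (nat_lit 0x680010000b0014800000020000000000000000000) (nat_lit 0x0) (nat_lit 0x380010000400000000000000000000000000000000000) := T_42 (nat_lit 160) (nat_lit 177) (nat_lit 5) (nat_lit 8) (nat_lit 6) L115981 (by decide +kernel)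
theorem L115983 : W_42 (nat_lit 4) (nat_lit 0x280010000b0014800000020000000000000000000) (nat_lit 0x0) (nat_lit 0xb80050000400000000000000000000000000000000000) := T_42 (nat_lit 162) (nat_lit 179) (nat_lit 7) (nat_lit 8) (nat_lit 6) L115982 (by decide +kernel)
theorem L115984 : W_42 (nat_lit 2) (nat_lit 0x7c0012000b0016800000020000000000000000000) (nat_lit 0x0) (nat_lit 0xc0002000000000000000000000000000000000000000) := D_42 (nat_lit 174) (nat_lit 175) (nat_lit 157) (nat_lit 1) (nat_lit 8) (nat_lit 9) (nat_lit 5) (nat_lit 5) (nat_lit 6) (by decide +kernel)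
theorem L115985 : W_42 (nat_lit 3) (nat_lit 0x780012000b0016800000020000000000000000000) (nat_lit 0x0) (nat_lit 0xc0006000100000000000000000000000000000000000) := T_42 (nat_lit 158) (nat_lit 140) (nat_lit 0) (nat_lit 8) (nat_lit 9) L115984 (by decide +kernel)
theorem L115986 : W_42 (nat_lit 4) (nat_lit 0x780010000b0016800000020000000000000000000) (nat_lit 0x0) (nat_lit 0xc0006000700000000000000000000000000000000000) := T_42 (nat_lit 141) (nat_lit 142) (nat_lit 0) (nat_lit 9) (nat_lit 9) L115985 (by decide +kernel)
theorem L115987 : W_42 (nat_lit 5) (nat_lit 0x680010000b0016800000020000000000000000000) (nat_lit 0x0) (nat_lit 0x2c0016000700000000000000000000000000000000000) := T_42 (nat_lit 160) (nat_lit 177) (nat_lit 5) (nat_lit 8) (nat_lit 6) L115986 (by decide +kernel)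
theorem L115988 : W_42 (nat_lit 6) (nat_lit 0x280010000b0016800000020000000000000000000) (nat_lit 0x0) (nat_lit 0xac0056000700000000000000000000000000000000000) := T_42 (nat_lit 162) (nat_lit 179) (nat_lit 7) (nat_lit 8) (nat_lit 6) L115987 (by decide +kernel)
theorem L115989 : W_42 (nat_lit 7) (nat_lit 0x280010000b0014800000020000000000000000000) (nat_lit 0x0) (nat_lit 0xac0056000700000002000100000000000000000000000) := T_42 (nat_lit 109) (nat_lit 92) (nat_lit 4) (nat_lit 8) (nat_lit 9) L115988 (by decide +kernel)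
theorem L115990 : W_42 (nat_lit 9) (nat_lit 0x200010000b0014800000020000000000000000000) (nat_lit 0x0) (nat_lit 0xbc005e000700008002400160002000000000000000000) := Q_42 (nat_lit 159) (C_42 L115973 (C_42 L115977 (C_42 L115980 (C_42 L115983 (C_42 L115989 N_42))))) (by decide +kernel)
theorem L115991 : W_42 (nat_lit 2) (nat_lit 0x8007c0010000b0014800000020000000000000000000) (nat_lit 0x0) (nat_lit 0x300000001000000000000000000000000000) := D_42 (nat_lit 141) (nat_lit 140) (nat_lit 108) (nat_lit 0) (nat_lit 8) (nat_lit 9) (nat_lit 6) (nat_lit 5) (nat_lit 10) (by decide +kernel)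
theorem L115992 : W_42 (nat_lit 3) (nat_lit 0x800780010000b0014800000020000000000000000000) (nat_lit 0x0) (nat_lit 0x40004000300000001000000000000000000000000000) := T_42 (nat_lit 158) (nat_lit 174) (nat_lit 1) (nat_lit 8) (nat_lit 9) L115991 (by decide +kernel)
theorem L115993 : W_42 (nat_lit 4) (nat_lit 0x780010000b0014800000020000000000000000000) (nat_lit 0x0) (nat_lit 0x1c0004000300000001000000000000000000000000000) := T_42 (nat_lit 175) (nat_lit 176) (nat_lit 1) (nat_lit 9) (nat_lit 9) L115992 (by decide +kernel)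
theorem L115994 : W_42 (nat_lit 5) (nat_lit 0x680010000b0014800000020000000000000000000) (nat_lit 0x0) (nat_lit 0x3c0014000300000001000000000000000000000000000) := T_42 (nat_lit 160) (nat_lit 177) (nat_lit 5) (nat_lit 8) (nat_lit 6) L115993 (by decide +kernel)
theorem L115995 : W_42 (nat_lit 6) (nat_lit 0x280010000b0014800000020000000000000000000) (nat_lit 0x0) (nat_lit 0xbc0054000300000001000000000000000000000000000) := T_42 (nat_lit 162) (nat_lit 179) (nat_lit 7) (nat_lit 8) (nat_lit 6) L115994 (by decide +kernel)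
theorem L115996 : W_42 (nat_lit 3) (nat_lit 0x280010000b0014800000020000000000000000000) (nat_lit 0x0) (nat_lit 0x100000000600000000000040002000000000000000000) := T_42 (nat_lit 142) (nat_lit 176) (nat_lit 4) (nat_lit 6) (nat_lit 10) L115966 (by decide +kernel)
theorem L115997 : W_42 (nat_lit 2) (nat_lit 0x780014000b0014800000020000000000000000000) (nat_lit 0x0) (nat_lit 0x1000040002000000000000000000) := D_42 (nat_lit 90) (nat_lit 108) (nat_lit 73) (nat_lit 4) (nat_lit 6) (nat_lit 9) (nat_lit 7) (nat_lit 5) (nat_lit 4) (by decide +kernel)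
theorem L115998 : W_42 (nat_lit 3) (nat_lit 0x780010000b0014800000020000000000000000000) (nat_lit 0x0) (nat_lit 0x600000001000040002000000000000000000) := T_42 (nat_lit 142) (nat_lit 141) (nat_lit 0) (nat_lit 9) (nat_lit 9) L115997 (by decide +kernel)
theorem L115999 : W_42 (nat_lit 4) (nat_lit 0x680010000b0014800000020000000000000000000) (nat_lit 0x0) (nat_lit 0x200010000600000001000040002000000000000000000) := T_42 (nat_lit 160) (nat_lit 177) (nat_lit 5) (nat_lit 8) (nat_lit 6) L115998 (by decide +kernel)
theorem L116000 : W_42 (nat_lit 5) (nat_lit 0x280010000b0014800000020000000000000000000) (nat_lit 0x0) (nat_lit 0xa00050000600000001000040002000000000000000000) := T_42 (nat_lit 162) (nat_lit 179) (nat_lit 7) (nat_lit 8) (nat_lit 6) L115999 (by decide +kernel)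
theorem L116001 : W_42 (nat_lit 7) (nat_lit 0x200010000b0014800000020000000000000000000) (nat_lit 0x0) (nat_lit 0xbc005c000700000001000040002000000000000000000) := Q_42 (nat_lit 159) (C_42 L115995 (C_42 L115983 (C_42 L115996 (C_42 L116000 N_42)))) (by decide +kernel)
theorem L116002 : W_42 (nat_lit 10) (nat_lit 0x200010000b0014000000020000000000000000000) (nat_lit 0x0) (nat_lit 0xbc005e000700108003c00160002000000000000000000) := Q_42 (nat_lit 107) (C_42 L115965 (C_42 L115990 (C_42 L116001 N_42))) (by decide +kernel)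
theorem L116003 : W_42 (nat_lit 6) (nat_lit 0x300010000f0016000000020000000000000000000) (nat_lit 0x0) (nat_lit 0x98004c000700000000c00000000000000000000000000) := T_42 (nat_lit 162) (nat_lit 179) (nat_lit 7) (nat_lit 8) (nat_lit 6) L115936 (by decide +kernel)
theorem L116004 : W_42 (nat_lit 7) (nat_lit 0x300010000b0016000000020000000000000000000) (nat_lit 0x0) (nat_lit 0x98004c000700048000c00000000000000000000000000) := T_42 (nat_lit 126) (nat_lit 123) (nat_lit 2) (nat_lit 4) (nat_lit 7) L116003 (by decide +kernel)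
theorem L116005 : W_42 (nat_lit 8) (nat_lit 0x300010000b0014000000020000000000000000000) (nat_lit 0x0) (nat_lit 0x98004c000700048002c00100000000000000000000000) := T_42 (nat_lit 109) (nat_lit 92) (nat_lit 4) (nat_lit 8) (nat_lit 9) L116004 (by decide +kernel)
theorem L116006 : W_42 (nat_lit 9) (nat_lit 0x200010000b0014000000020000000000000000000) (nat_lit 0x0) (nat_lit 0xb8005c000700048002c00100000000000000000000000) := T_42 (nat_lit 160) (nat_lit 177) (nat_lit 5) (nat_lit 8) (nat_lit 6) L116005 (by decide +kernel)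
theorem L116007 : W_42 (nat_lit 2) (nat_lit 0x740013800be016100000020000000000000000000) (nat_lit 0x0) (nat_lit 0x80000000000000000400020000000000000000000000) := D_42 (nat_lit 106) (nat_lit 89) (nat_lit 175) (nat_lit 7) (nat_lit 4) (nat_lit 5) (nat_lit 4) (nat_lit 5) (nat_lit 10) (by decide +kernel)
theorem L116008 : W_42 (nat_lit 3) (nat_lit 0x700013800be016100000020000000000000000000) (nat_lit 0x0) (nat_lit 0x8000c000000000000400020000000000000000000000) := T_42 (nat_lit 158) (nat_lit 159) (nat_lit 0) (nat_lit 8) (nat_lit 9) L116007 (by decide +kernel)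
theorem L116009 : W_42 (nat_lit 4) (nat_lit 0x700012800be016100000020000000000000000000) (nat_lit 0x0) (nat_lit 0x8000c000100001000400020000000000000000000000) := T_42 (nat_lit 140) (nat_lit 120) (nat_lit 3) (nat_lit 1) (nat_lit 7) L116008 (by decide +kernel)
theorem L116010 : W_42 (nat_lit 5) (nat_lit 0x700010800be016100000020000000000000000000) (nat_lit 0x0) (nat_lit 0x8000c000700001000400020000000000000000000000) := T_42 (nat_lit 141) (nat_lit 142) (nat_lit 3) (nat_lit 2) (nat_lit 7) L116009 (by decide +kernel)
theorem L116011 : W_42 (nat_lit 6) (nat_lit 0x700010800bc016100000020000000000000000000) (nat_lit 0x0) (nat_lit 0x8000c000700003000480020000000000000000000000) := T_42 (nat_lit 121) (nat_lit 103) (nat_lit 0) (nat_lit 5) (nat_lit 7) L116010 (by decide +kernel)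
theorem L116012 : W_42 (nat_lit 7) (nat_lit 0x700010800bc016000000020000000000000000000) (nat_lit 0x0) (nat_lit 0x8000c000700003000780020000000000000000000000) := T_42 (nat_lit 104) (nat_lit 105) (nat_lit 0) (nat_lit 6) (nat_lit 7) L116011 (by decide +kernel)
theorem L116013 : W_42 (nat_lit 8) (nat_lit 0x700010000bc016000000020000000000000000000) (nat_lit 0x0) (nat_lit 0x8000c0007c0003000780020000000000000000000000) := T_42 (nat_lit 139) (nat_lit 138) (nat_lit 1) (nat_lit 6) (nat_lit 7) L116012 (by decide +kernel)
theorem L116014 : W_42 (nat_lit 9) (nat_lit 0x700010000b8016000000020000000000000000000) (nat_lit 0x0) (nat_lit 0x8000c0007c0007001780020000000000000000000000) := T_42 (nat_lit 122) (nat_lit 108) (nat_lit 2) (nat_lit 3) (nat_lit 7) L116013 (by decide +kernel)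
theorem L116015 : W_42 (nat_lit 10) (nat_lit 0x700010000b0016000000020000000000000000000) (nat_lit 0x0) (nat_lit 0x8000c0007c004f001780020000000000000000000000) := T_42 (nat_lit 123) (nat_lit 126) (nat_lit 2) (nat_lit 4) (nat_lit 7) L116014 (by decide +kernel)
theorem L116016 : W_42 (nat_lit 11) (nat_lit 0x700010000b0014000000020000000000000000000) (nat_lit 0x0) (nat_lit 0x8000c0007c004f003780120000000000000000000000) := T_42 (nat_lit 109) (nat_lit 92) (nat_lit 4) (nat_lit 8) (nat_lit 9) L116015 (by decide +kernel)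
theorem L116017 : W_42 (nat_lit 12) (nat_lit 0x600010000b0014000000020000000000000000000) (nat_lit 0x0) (nat_lit 0x28001c0007c004f003780120000000000000000000000) := T_42 (nat_lit 160) (nat_lit 177) (nat_lit 5) (nat_lit 8) (nat_lit 6) L116016 (by decide +kernel)
theorem L116018 : W_42 (nat_lit 13) (nat_lit 0x200010000b0014000000020000000000000000000) (nat_lit 0x0) (nat_lit 0xa8005c0007c004f003780120000000000000000000000) := T_42 (nat_lit 162) (nat_lit 179) (nat_lit 7) (nat_lit 8) (nat_lit 6) L116017 (by decide +kernel)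
theorem L116019 : W_42 (nat_lit 5) (nat_lit 0x200010000b0014800000020000000000000000000) (nat_lit 0x0) (nat_lit 0x800040000700140001400000000000000000000000000) := T_42 (nat_lit 126) (nat_lit 106) (nat_lit 0) (nat_lit 8) (nat_lit 7) L115110 (by decide +kernel)
theorem L116020 : W_42 (nat_lit 2) (nat_lit 0x300012000f0017800000020000000000000000000) (nat_lit 0x0) (nat_lit 0x4000000000000000080004000000000000000000) := D_42 (nat_lit 91) (nat_lit 74) (nat_lit 158) (nat_lit 5) (nat_lit 6) (nat_lit 4) (nat_lit 6) (nat_lit 5) (nat_lit 9) (by decide +kernel)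
theorem L116021 : W_42 (nat_lit 3) (nat_lit 0x300010000f0017800000020000000000000000000) (nat_lit 0x0) (nat_lit 0x4000300000000000080004000000000000000000) := T_42 (nat_lit 141) (nat_lit 140) (nat_lit 1) (nat_lit 8) (nat_lit 7) L116020 (by decide +kernel)
theorem L116022 : W_42 (nat_lit 4) (nat_lit 0x300010000f0016800000020000000000000000000) (nat_lit 0x0) (nat_lit 0x4000300100001000080004000000000000000000) := T_42 (nat_lit 108) (nat_lit 128) (nat_lit 3) (nat_lit 5) (nat_lit 6) L116021 (by decide +kernel)
theorem L116023 : W_42 (nat_lit 5) (nat_lit 0x300010000f0014800000020000000000000000000) (nat_lit 0x0) (nat_lit 0x4000300100003000180004000000000000000000) := T_42 (nat_lit 109) (nat_lit 92) (nat_lit 4) (nat_lit 8) (nat_lit 9) L116022 (by decide +kernel)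
theorem L116024 : W_42 (nat_lit 6) (nat_lit 0x300010000b0014800000020000000000000000000) (nat_lit 0x0) (nat_lit 0x4000300140003400180004000000000000000000) := T_42 (nat_lit 126) (nat_lit 106) (nat_lit 0) (nat_lit 8) (nat_lit 7) L116023 (by decide +kernel)
theorem L116025 : W_42 (nat_lit 7) (nat_lit 0x200010000b0014800000020000000000000000000) (nat_lit 0x0) (nat_lit 0x200014000300140003400180004000000000000000000) := T_42 (nat_lit 160) (nat_lit 177) (nat_lit 5) (nat_lit 8) (nat_lit 6) L116024 (by decide +kernel)
theorem L116026 : W_42 (nat_lit 5) (nat_lit 0x600010000f0014800000020000000000000000000) (nat_lit 0x0) (nat_lit 0x38001c000700000000000000000000000000000000000) := T_42 (nat_lit 141) (nat_lit 140) (nat_lit 1) (nat_lit 8) (nat_lit 7) L115575 (by decide +kernel)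
theorem L116027 : W_42 (nat_lit 6) (nat_lit 0x200010000f0014800000020000000000000000000) (nat_lit 0x0) (nat_lit 0xb8005c000700000000000000000000000000000000000) := T_42 (nat_lit 162) (nat_lit 179) (nat_lit 7) (nat_lit 8) (nat_lit 6) L116026 (by decide +kernel)
theorem L116028 : W_42 (nat_lit 7) (nat_lit 0x200010000b0014800000020000000000000000000) (nat_lit 0x0) (nat_lit 0xb8005c000700040000400000000000000000000000000) := T_42 (nat_lit 126) (nat_lit 106) (nat_lit 0) (nat_lit 8) (nat_lit 7) L116027 (by decide +kernel)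
theorem L116029 : W_42 (nat_lit 2) (nat_lit 0x700010000f0017800040020000000000000000000) (nat_lit 0x0) (nat_lit 0x8000400000000000000002000000000000000000) := D_42 (nat_lit 142) (nat_lit 159) (nat_lit 73) (nat_lit 4) (nat_lit 6) (nat_lit 9) (nat_lit 7) (nat_lit 5) (nat_lit 4) (by decide +kernel)
theorem L116030 : W_42 (nat_lit 3) (nat_lit 0x700010000f0017800000020000000000000000000) (nat_lit 0x0) (nat_lit 0x8000400000000000060002000000000000000000) := T_42 (nat_lit 90) (nat_lit 89) (nat_lit 0) (nat_lit 8) (nat_lit 6) L116029 (by decide +kernel)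
theorem L116031 : W_42 (nat_lit 4) (nat_lit 0x700010000f0016800000020000000000000000000) (nat_lit 0x0) (nat_lit 0x8000400100001000060002000000000000000000) := T_42 (nat_lit 108) (nat_lit 128) (nat_lit 3) (nat_lit 5) (nat_lit 6) L116030 (by decide +kernel)
theorem L116032 : W_42 (nat_lit 5) (nat_lit 0x700010000f0014800000020000000000000000000) (nat_lit 0x0) (nat_lit 0x8000400100003000160002000000000000000000) := T_42 (nat_lit 109) (nat_lit 92) (nat_lit 4) (nat_lit 8) (nat_lit 9) L116031 (by decide +kernel)
theorem L116033 : W_42 (nat_lit 6) (nat_lit 0x700010000b0014800000020000000000000000000) (nat_lit 0x0) (nat_lit 0x8000400140003400160002000000000000000000) := T_42 (nat_lit 126) (nat_lit 106) (nat_lit 0) (nat_lit 8) (nat_lit 7) L116032 (by decide +kernel)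
theorem L116034 : W_42 (nat_lit 7) (nat_lit 0x300010000b0014800000020000000000000000000) (nat_lit 0x0) (nat_lit 0x800048000400140003400160002000000000000000000) := T_42 (nat_lit 162) (nat_lit 179) (nat_lit 7) (nat_lit 8) (nat_lit 6) L116033 (by decide +kernel)
theorem L116035 : W_42 (nat_lit 8) (nat_lit 0x200010000b0014800000020000000000000000000) (nat_lit 0x0) (nat_lit 0xa00058000400140003400160002000000000000000000) := T_42 (nat_lit 160) (nat_lit 177) (nat_lit 5) (nat_lit 8) (nat_lit 6) L116034 (by decide +kernel)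
theorem L116036 : W_42 (nat_lit 9) (nat_lit 0x200010000b0014000000020000000000000000000) (nat_lit 0x0) (nat_lit 0xbc005c000700140003c001e0006000000000000000000) := Q_42 (nat_lit 107) (C_42 L116001 (C_42 L116019 (C_42 L116025 (C_42 L116028 (C_42 L116035 N_42))))) (by decide +kernel)
theorem L116037 : W_42 (nat_lit 14) (nat_lit 0x200010000a0014000000020000000000000000000) (nat_lit 0x0) (nat_lit 0x800bc005e0007c015f003f801e0007000000000000000000) := Q_42 (nat_lit 124) (C_42 L115956 (C_42 L115960 (C_42 L115963 (C_42 L116002 (C_42 L116006 (C_42 L116018 (C_42 L116036 N_42))))))) (by decide +kernel)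
theorem L116038 : W_42 (nat_lit 15) (nat_lit 0x20001000080014000000020000000000000000000) (nat_lit 0x0) (nat_lit 0x800bc01de00c7c077f00bfbfbe0fd70fff007f003c001e00) := Q_42 (nat_lit 125) (C_42 L115712 (C_42 L115716 (C_42 L115923 (C_42 L115932 (C_42 L115941 (C_42 L116037 N_42)))))) (by decide +kernel)
theorem L116039 : W_42 (nat_lit 16) (nat_lit 0x20001000080004000000020000000000000000000) (nat_lit 0x0) (nat_lit 0x807bc03de03c7c3f7f0fbfbfbe0fd70fff007f003c001e00) := Q_42 (nat_lit 112) (C_42 L115239 (C_42 L115240 (C_42 L115241 (C_42 L115265 (C_42 L115298 (C_42 L115306 (C_42 L115335 (C_42 L115353 (C_42 L115534 (C_42 L115540 (C_42 L116038 N_42))))))))))) (by decide +kernel)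
theorem L116040 : W_42 (nat_lit 17) (nat_lit 0x20001000080004000000000000000000000000000) (nat_lit 0x0) (nat_lit 0x807bc03de03c7c3f7f3fbfbffe0ff70fff03ffc1ffc03ff0) := Q_42 (nat_lit 77) (C_42 L112333 (C_42 L112495 (C_42 L114981 (C_42 L116039 N_42)))) (by decide +kernel)
theorem L116041 : W_42 (nat_lit 2) (nat_lit 0x1f0009000180004000000000000000000000000000) (nat_lit 0x0) (nat_lit 0x7000000000000000000000000000000000000000000000) := D_42 (nat_lit 181) (nat_lit 180) (nat_lit 182) (nat_lit 3) (nat_lit 7) (nat_lit 9) (nat_lit 3) (nat_lit 8) (nat_lit 9) (by decide +kernel)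
theorem L116042 : W_42 (nat_lit 3) (nat_lit 0xf0009000180004000000000000000000000000000) (nat_lit 0x0) (nat_lit 0x7000100010000000000000000000000000000000000000) := T_42 (nat_lit 164) (nat_lit 148) (nat_lit 2) (nat_lit 8) (nat_lit 9) L116041 (by decide +kernel)
theorem L116043 : W_42 (nat_lit 4) (nat_lit 0x70009000180004000000000000000000000000000) (nat_lit 0x0) (nat_lit 0x7000180014000000000000000000000000000000000000) := T_42 (nat_lit 163) (nat_lit 146) (nat_lit 2) (nat_lit 7) (nat_lit 9) L116042 (by decide +kernel)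
theorem L116044 : W_42 (nat_lit 5) (nat_lit 0x30009000180004000000000000000000000000000) (nat_lit 0x0) (nat_lit 0x78001c0014000000000000000000000000000000000000) := T_42 (nat_lit 162) (nat_lit 179) (nat_lit 7) (nat_lit 8) (nat_lit 6) L116043 (by decide +kernel)
theorem L116045 : W_42 (nat_lit 6) (nat_lit 0x20009000180004000000000000000000000000000) (nat_lit 0x0) (nat_lit 0x7a001d0014000000000000000000000000000000000000) := T_42 (nat_lit 160) (nat_lit 177) (nat_lit 5) (nat_lit 8) (nat_lit 6) L116044 (by decide +kernel)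
theorem L116046 : W_42 (nat_lit 2) (nat_lit 0x600092003e0014800000000000000000000000000) (nat_lit 0x0) (nat_lit 0x100010000400000000000000000000000000) := D_42 (nat_lit 124) (nat_lit 140) (nat_lit 106) (nat_lit 1) (nat_lit 8) (nat_lit 7) (nat_lit 0) (nat_lit 8) (nat_lit 7) (by decide +kernel)
theorem L116047 : W_42 (nat_lit 3) (nat_lit 0x600092003e0014000000000000000000000000000) (nat_lit 0x0) (nat_lit 0x100010001c00000000000000000000000000) := T_42 (nat_lit 107) (nat_lit 108) (nat_lit 0) (nat_lit 9) (nat_lit 7) L116046 (by decide +kernel)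
theorem L116048 : W_42 (nat_lit 4) (nat_lit 0x600090003e0014000000000000000000000000000) (nat_lit 0x0) (nat_lit 0x700010001c00000000000000000000000000) := T_42 (nat_lit 141) (nat_lit 142) (nat_lit 1) (nat_lit 9) (nat_lit 7) L116047 (by decide +kernel)
theorem L116049 : W_42 (nat_lit 5) (nat_lit 0x600090003c0014000000000000000000000000000) (nat_lit 0x0) (nat_lit 0x700030009c00000000000000000000000000) := T_42 (nat_lit 125) (nat_lit 111) (nat_lit 2) (nat_lit 6) (nat_lit 7) L116048 (by decide +kernel)
theorem L116050 : W_42 (nat_lit 6) (nat_lit 0x600090003c0004000000000000000000000000000) (nat_lit 0x0) (nat_lit 0x700030039c00000000000000000000000000) := T_42 (nat_lit 112) (nat_lit 113) (nat_lit 2) (nat_lit 7) (nat_lit 7) L116049 (by decide +kernel)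
theorem L116051 : W_42 (nat_lit 7) (nat_lit 0x60009000380004000000000000000000000000000) (nat_lit 0x0) (nat_lit 0x4700070039c00000000000000000000000000) := T_42 (nat_lit 126) (nat_lit 146) (nat_lit 3) (nat_lit 7) (nat_lit 7) L116050 (by decide +kernel)
theorem L116052 : W_42 (nat_lit 8) (nat_lit 0x20009000380004000000000000000000000000000) (nat_lit 0x0) (nat_lit 0x800040004700070039c00000000000000000000000000) := T_42 (nat_lit 162) (nat_lit 179) (nat_lit 7) (nat_lit 8) (nat_lit 6) L116051 (by decide +kernel)
theorem L116053 : W_42 (nat_lit 2) (nat_lit 0x20009000380004000000000000000000000000000) (nat_lit 0x0) (nat_lit 0x10000400002000000000000000000000000000) := D_42 (nat_lit 130) (nat_lit 148) (nat_lit 109) (nat_lit 3) (nat_lit 8) (nat_lit 7) (nat_lit 0) (nat_lit 11) (nat_lit 7) (by decide +kernel)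
theorem L116054 : W_42 (nat_lit 9) (nat_lit 0x20009000180004000000000000000000000000000) (nat_lit 0x0) (nat_lit 0x80004001470067003bc00000000000000000000000000) := Q_42 (nat_lit 129) (C_42 L116052 (C_42 L116053 N_42)) (by decide +kernel)
theorem L116055 : W_42 (nat_lit 2) (nat_lit 0x300092003e0014800000000000000000000000000) (nat_lit 0x0) (nat_lit 0x100010000400000000000000000000000000) := D_42 (nat_lit 124) (nat_lit 140) (nat_lit 106) (nat_lit 1) (nat_lit 8) (nat_lit 7) (nat_lit 0) (nat_lit 8) (nat_lit 7) (by decide +kernel)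
theorem L116056 : W_42 (nat_lit 3) (nat_lit 0x300092003e0014000000000000000000000000000) (nat_lit 0x0) (nat_lit 0x100010001c00000000000000000000000000) := T_42 (nat_lit 107) (nat_lit 108) (nat_lit 0) (nat_lit 9) (nat_lit 7) L116055 (by decide +kernel)
theorem L116057 : W_42 (nat_lit 4) (nat_lit 0x300090003e0014000000000000000000000000000) (nat_lit 0x0) (nat_lit 0x700010001c00000000000000000000000000) := T_42 (nat_lit 141) (nat_lit 142) (nat_lit 1) (nat_lit 9) (nat_lit 7) L116056 (by decide +kernel)
theorem L116058 : W_42 (nat_lit 5) (nat_lit 0x300090003c0014000000000000000000000000000) (nat_lit 0x0) (nat_lit 0x700030009c00000000000000000000000000) := T_42 (nat_lit 125) (nat_lit 111) (nat_lit 2) (nat_lit 6) (nat_lit 7) L116057 (by decide +kernel)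
theorem L116059 : W_42 (nat_lit 6) (nat_lit 0x300090003c0004000000000000000000000000000) (nat_lit 0x0) (nat_lit 0x700030039c00000000000000000000000000) := T_42 (nat_lit 112) (nat_lit 113) (nat_lit 2) (nat_lit 7) (nat_lit 7) L116058 (by decide +kernel)
theorem L116060 : W_42 (nat_lit 7) (nat_lit 0x30009000380004000000000000000000000000000) (nat_lit 0x0) (nat_lit 0x4700070039c00000000000000000000000000) := T_42 (nat_lit 126) (nat_lit 146) (nat_lit 3) (nat_lit 7) (nat_lit 7) L116059 (by decide +kernel)
theorem L116061 : W_42 (nat_lit 8) (nat_lit 0x20009000380004000000000000000000000000000) (nat_lit 0x0) (nat_lit 0x200010004700070039c00000000000000000000000000) := T_42 (nat_lit 160) (nat_lit 177) (nat_lit 5) (nat_lit 8) (nat_lit 6) L116060 (by decide +kernel)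
theorem L116062 : W_42 (nat_lit 9) (nat_lit 0x20009000180004000000000000000000000000000) (nat_lit 0x0) (nat_lit 0x20001001470067003bc00000000000000000000000000) := Q_42 (nat_lit 129) (C_42 L116061 (C_42 L116053 N_42)) (by decide +kernel)
theorem L116063 : W_42 (nat_lit 2) (nat_lit 0x30009000780034000000000000000000000000000) (nat_lit 0x0) (nat_lit 0x100000000000000000800040000000000000000000) := D_42 (nat_lit 95) (nat_lit 78) (nat_lit 164) (nat_lit 7) (nat_lit 10) (nat_lit 4) (nat_lit 4) (nat_lit 11) (nat_lit 9) (by decide +kernel)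
theorem L116064 : W_42 (nat_lit 3) (nat_lit 0x30009000780024000000000000000000000000000) (nat_lit 0x0) (nat_lit 0x100000000040010000800040000000000000000000) := T_42 (nat_lit 112) (nat_lit 126) (nat_lit 2) (nat_lit 7) (nat_lit 7) L116063 (by decide +kernel)
theorem L116065 : W_42 (nat_lit 4) (nat_lit 0x30009000780004000000000000000000000000000) (nat_lit 0x0) (nat_lit 0x100000000040070000800040000000000000000000) := T_42 (nat_lit 113) (nat_lit 114) (nat_lit 2) (nat_lit 8) (nat_lit 7) L116064 (by decide +kernel)
theorem L116066 : W_42 (nat_lit 5) (nat_lit 0x30009000580004000000000000000000000000000) (nat_lit 0x0) (nat_lit 0x100010000240070000800040000000000000000000) := T_42 (nat_lit 129) (nat_lit 148) (nat_lit 3) (nat_lit 8) (nat_lit 7) L116065 (by decide +kernel)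
theorem L116067 : W_42 (nat_lit 6) (nat_lit 0x20009000580004000000000000000000000000000) (nat_lit 0x0) (nat_lit 0x200110010000240070000800040000000000000000000) := T_42 (nat_lit 160) (nat_lit 177) (nat_lit 5) (nat_lit 8) (nat_lit 6) L116066 (by decide +kernel)
theorem L116068 : W_42 (nat_lit 2) (nat_lit 0x16000900058002c003000000000000000000000000) (nat_lit 0x0) (nat_lit 0x1000080010000000000000000000000000000000000000) := D_42 (nat_lit 163) (nat_lit 180) (nat_lit 148) (nat_lit 5) (nat_lit 11) (nat_lit 6) (nat_lit 2) (nat_lit 8) (nat_lit 9) (by decide +kernel)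
theorem L116069 : W_42 (nat_lit 3) (nat_lit 0x6000900058002c003000000000000000000000000) (nat_lit 0x0) (nat_lit 0x1000180010000000040000000000000000000000000000) := T_42 (nat_lit 164) (nat_lit 114) (nat_lit 6) (nat_lit 11) (nat_lit 9) L116068 (by decide +kernel)
theorem L116070 : W_42 (nat_lit 4) (nat_lit 0x60009000580024003000000000000000000000000) (nat_lit 0x0) (nat_lit 0x1000180010000000058000000000000000000000000000) := T_42 (nat_lit 111) (nat_lit 112) (nat_lit 2) (nat_lit 8) (nat_lit 6) L116069 (by decide +kernel)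
theorem L116071 : W_42 (nat_lit 5) (nat_lit 0x60009000580024001000000000000000000000000) (nat_lit 0x0) (nat_lit 0x1000180010000000058002000100000000000000000000) := T_42 (nat_lit 97) (nat_lit 80) (nat_lit 6) (nat_lit 11) (nat_lit 8) L116070 (by decide +kernel)
theorem L116072 : W_42 (nat_lit 6) (nat_lit 0x20009000580024001000000000000000000000000) (nat_lit 0x0) (nat_lit 0x18001c0010000000058002000100000000000000000000) := T_42 (nat_lit 162) (nat_lit 179) (nat_lit 7) (nat_lit 8) (nat_lit 6) L116071 (by decide +kernel)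
theorem L116073 : W_42 (nat_lit 2) (nat_lit 0x12000900058002c003000000000000000000000000) (nat_lit 0x0) (nat_lit 0x4000200010000000000000000000000000000000000000) := D_42 (nat_lit 165) (nat_lit 148) (nat_lit 182) (nat_lit 7) (nat_lit 11) (nat_lit 5) (nat_lit 7) (nat_lit 11) (nat_lit 6) (by decide +kernel)
theorem L116074 : W_42 (nat_lit 3) (nat_lit 0x2000900058002c003000000000000000000000000) (nat_lit 0x0) (nat_lit 0x4000300010000000040000000000000000000000000000) := T_42 (nat_lit 164) (nat_lit 114) (nat_lit 6) (nat_lit 11) (nat_lit 9) L116073 (by decide +kernel)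
theorem L116075 : W_42 (nat_lit 4) (nat_lit 0x20009000580024003000000000000000000000000) (nat_lit 0x0) (nat_lit 0x4000300010000000058000000000000000000000000000) := T_42 (nat_lit 111) (nat_lit 112) (nat_lit 2) (nat_lit 8) (nat_lit 6) L116074 (by decide +kernel)
theorem L116076 : W_42 (nat_lit 5) (nat_lit 0x20009000580024001000000000000000000000000) (nat_lit 0x0) (nat_lit 0x4000300010000000058002000100000000000000000000) := T_42 (nat_lit 97) (nat_lit 80) (nat_lit 6) (nat_lit 11) (nat_lit 8) L116075 (by decide +kernel)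
theorem L116077 : W_42 (nat_lit 2) (nat_lit 0x160009000580024003000000000000000000000000) (nat_lit 0x0) (nat_lit 0x1000080010000000000000000000000000000000000000) := D_42 (nat_lit 163) (nat_lit 180) (nat_lit 148) (nat_lit 5) (nat_lit 11) (nat_lit 6) (nat_lit 2) (nat_lit 8) (nat_lit 9) (by decide +kernel)
theorem L116078 : W_42 (nat_lit 3) (nat_lit 0x60009000580024003000000000000000000000000) (nat_lit 0x0) (nat_lit 0x1000180010000000040000000000000000000000000000) := T_42 (nat_lit 164) (nat_lit 114) (nat_lit 6) (nat_lit 11) (nat_lit 9) L116077 (by decide +kernel)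
theorem L116079 : W_42 (nat_lit 4) (nat_lit 0x20009000580024003000000000000000000000000) (nat_lit 0x0) (nat_lit 0x18001c0010000000040000000000000000000000000000) := T_42 (nat_lit 162) (nat_lit 179) (nat_lit 7) (nat_lit 8) (nat_lit 6) L116078 (by decide +kernel)
theorem L116080 : W_42 (nat_lit 5) (nat_lit 0x20009000580024001000000000000000000000000) (nat_lit 0x0) (nat_lit 0x18001c0010000000040002000100000000000000000000) := T_42 (nat_lit 97) (nat_lit 80) (nat_lit 6) (nat_lit 11) (nat_lit 8) L116079 (by decide +kernel)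
theorem L116081 : W_42 (nat_lit 2) (nat_lit 0x6001900058002c003000040000000000000000000) (nat_lit 0x0) (nat_lit 0x800000000000080002000000000000000) := D_42 (nat_lit 79) (nat_lit 131) (nat_lit 61) (nat_lit 7) (nat_lit 11) (nat_lit 4) (nat_lit 4) (nat_lit 11) (nat_lit 7) (by decide +kernel)
theorem L116082 : W_42 (nat_lit 3) (nat_lit 0x6000900058002c003000040000000000000000000) (nat_lit 0x0) (nat_lit 0x200010000800000000000080002000000000000000) := T_42 (nat_lit 148) (nat_lit 165) (nat_lit 7) (nat_lit 11) (nat_lit 5) L116081 (by decide +kernel)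
theorem L116083 : W_42 (nat_lit 4) (nat_lit 0x6000900058002c003000000000000000000000000) (nat_lit 0x0) (nat_lit 0x2000100008000000008000c0002000000000000000) := T_42 (nat_lit 78) (nat_lit 95) (nat_lit 4) (nat_lit 11) (nat_lit 8) L116082 (by decide +kernel)
theorem L116084 : W_42 (nat_lit 5) (nat_lit 0x2000900058002c003000000000000000000000000) (nat_lit 0x0) (nat_lit 0x8002400100008000000008000c0002000000000000000) := T_42 (nat_lit 162) (nat_lit 179) (nat_lit 7) (nat_lit 8) (nat_lit 6) L116083 (by decide +kernel)
theorem L116085 : W_42 (nat_lit 6) (nat_lit 0x20009000580024003000000000000000000000000) (nat_lit 0x0) (nat_lit 0x8002400100008000180008000c0002000000000000000) := T_42 (nat_lit 111) (nat_lit 112) (nat_lit 2) (nat_lit 8) (nat_lit 6) L116084 (by decide +kernel)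
theorem L116086 : W_42 (nat_lit 7) (nat_lit 0x20009000580024001000000000000000000000000) (nat_lit 0x0) (nat_lit 0x8002400100008000180028001c0002000000000000000) := T_42 (nat_lit 97) (nat_lit 80) (nat_lit 6) (nat_lit 11) (nat_lit 8) L116085 (by decide +kernel)
theorem L116087 : W_42 (nat_lit 2) (nat_lit 0x20019000580024001000080000000000000000000) (nat_lit 0x0) (nat_lit 0x800040002000000000000000) := D_42 (nat_lit 78) (nat_lit 61) (nat_lit 95) (nat_lit 4) (nat_lit 11) (nat_lit 7) (nat_lit 4) (nat_lit 11) (nat_lit 8) (by decide +kernel)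
theorem L116088 : W_42 (nat_lit 3) (nat_lit 0x20019000580024001000000000000000000000000) (nat_lit 0x0) (nat_lit 0x8000000008000c0002000000000000000) := T_42 (nat_lit 79) (nat_lit 131) (nat_lit 7) (nat_lit 11) (nat_lit 4) L116087 (by decide +kernel)
theorem L116089 : W_42 (nat_lit 4) (nat_lit 0x20009000580024001000000000000000000000000) (nat_lit 0x0) (nat_lit 0x2000100008000000008000c0002000000000000000) := T_42 (nat_lit 148) (nat_lit 165) (nat_lit 7) (nat_lit 11) (nat_lit 5) L116088 (by decide +kernel)
theorem L116090 : W_42 (nat_lit 2) (nat_lit 0x1e000900058002c003000000000000000000000000) (nat_lit 0x0) (nat_lit 0x6000200000000000000000000000000000000000000000) := D_42 (nat_lit 182) (nat_lit 181) (nat_lit 165) (nat_lit 3) (nat_lit 8) (nat_lit 9) (nat_lit 7) (nat_lit 11) (nat_lit 6) (by decide +kernel)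
theorem L116091 : W_42 (nat_lit 3) (nat_lit 0x16000900058002c003000000000000000000000000) (nat_lit 0x0) (nat_lit 0x7000280000000000000000000000000000000000000000) := T_42 (nat_lit 163) (nat_lit 180) (nat_lit 5) (nat_lit 11) (nat_lit 6) L116090 (by decide +kernel)
theorem L116092 : W_42 (nat_lit 4) (nat_lit 0x6000900058002c003000000000000000000000000) (nat_lit 0x0) (nat_lit 0x7000380000000000040000000000000000000000000000) := T_42 (nat_lit 164) (nat_lit 114) (nat_lit 6) (nat_lit 11) (nat_lit 9) L116091 (by decide +kernel)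
theorem L116093 : W_42 (nat_lit 5) (nat_lit 0x60009000580024003000000000000000000000000) (nat_lit 0x0) (nat_lit 0x7000380000000000058000000000000000000000000000) := T_42 (nat_lit 111) (nat_lit 112) (nat_lit 2) (nat_lit 8) (nat_lit 6) L116092 (by decide +kernel)
theorem L116094 : W_42 (nat_lit 6) (nat_lit 0x60009000580024001000000000000000000000000) (nat_lit 0x0) (nat_lit 0x7000380000000000058002000100000000000000000000) := T_42 (nat_lit 97) (nat_lit 80) (nat_lit 6) (nat_lit 11) (nat_lit 8) L116093 (by decide +kernel)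
theorem L116095 : W_42 (nat_lit 7) (nat_lit 0x20009000580024001000000000000000000000000) (nat_lit 0x0) (nat_lit 0x78003c0000000000058002000100000000000000000000) := T_42 (nat_lit 162) (nat_lit 179) (nat_lit 7) (nat_lit 8) (nat_lit 6) L116094 (by decide +kernel)
theorem L116096 : W_42 (nat_lit 8) (nat_lit 0x20009000580024000000000000000000000000000) (nat_lit 0x0) (nat_lit 0x78003c00100008000580038001c0002000000000000000) := Q_42 (nat_lit 96) (C_42 L116072 (C_42 L116076 (C_42 L116080 (C_42 L116086 (C_42 L116089 (C_42 L116095 N_42)))))) (by decide +kernel)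
theorem L116097 : W_42 (nat_lit 2) (nat_lit 0x500013000900058002c003000000000000000000000000) (nat_lit 0x0) (nat_lit 0xa0002000000000000000000000000000000000000000000000) := D_42 (nat_lit 181) (nat_lit 197) (nat_lit 199) (nat_lit 5) (nat_lit 11) (nat_lit 7) (nat_lit 7) (nat_lit 11) (nat_lit 7) (by decide +kernel)
theorem L116098 : W_42 (nat_lit 3) (nat_lit 0x100013000900058002c003000000000000000000000000) (nat_lit 0x0) (nat_lit 0xa0006000200000000000000000000000000000000000000000) := T_42 (nat_lit 182) (nat_lit 165) (nat_lit 7) (nat_lit 11) (nat_lit 6) L116097 (by decide +kernel)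
theorem L116099 : W_42 (nat_lit 4) (nat_lit 0x13000900058002c003000000000000000000000000) (nat_lit 0x0) (nat_lit 0xa0007000280000000000000000000000000000000000000000) := T_42 (nat_lit 180) (nat_lit 163) (nat_lit 5) (nat_lit 11) (nat_lit 6) L116098 (by decide +kernel)
theorem L116100 : W_42 (nat_lit 5) (nat_lit 0x3000900058002c003000000000000000000000000) (nat_lit 0x0) (nat_lit 0xa0007000380000000000040000000000000000000000000000) := T_42 (nat_lit 164) (nat_lit 114) (nat_lit 6) (nat_lit 11) (nat_lit 9) L116099 (by decide +kernel)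
theorem L116101 : W_42 (nat_lit 6) (nat_lit 0x30009000580024003000000000000000000000000) (nat_lit 0x0) (nat_lit 0xa0007000380000000000058000000000000000000000000000) := T_42 (nat_lit 111) (nat_lit 112) (nat_lit 2) (nat_lit 8) (nat_lit 6) L116100 (by decide +kernel)
theorem L116102 : W_42 (nat_lit 7) (nat_lit 0x30009000580024001000000000000000000000000) (nat_lit 0x0) (nat_lit 0xa0007000380000000000058002000100000000000000000000) := T_42 (nat_lit 97) (nat_lit 80) (nat_lit 6) (nat_lit 11) (nat_lit 8) L116101 (by decide +kernel)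
theorem L116103 : W_42 (nat_lit 8) (nat_lit 0x20009000580024001000000000000000000000000) (nat_lit 0x0) (nat_lit 0xa0007200390000000000058002000100000000000000000000) := T_42 (nat_lit 160) (nat_lit 177) (nat_lit 5) (nat_lit 8) (nat_lit 6) L116102 (by decide +kernel)
theorem L116104 : W_42 (nat_lit 2) (nat_lit 0x3000900058006c0030000c0000000000000000000) (nat_lit 0x0) (nat_lit 0x10000800000000000000004000000000000000) := D_42 (nat_lit 131) (nat_lit 148) (nat_lit 62) (nat_lit 7) (nat_lit 11) (nat_lit 4) (nat_lit 7) (nat_lit 11) (nat_lit 3) (by decide +kernel)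
theorem L116105 : W_42 (nat_lit 3) (nat_lit 0x3000900058006c003000040000000000000000000) (nat_lit 0x0) (nat_lit 0x10000800000000000080006000000000000000) := T_42 (nat_lit 79) (nat_lit 61) (nat_lit 4) (nat_lit 11) (nat_lit 7) L116104 (by decide +kernel)
theorem L116106 : W_42 (nat_lit 4) (nat_lit 0x3000900058006c003000000000000000000000000) (nat_lit 0x0) (nat_lit 0x100008000000008000c0006000000000000000) := T_42 (nat_lit 78) (nat_lit 95) (nat_lit 4) (nat_lit 11) (nat_lit 8) L116105 (by decide +kernel)
theorem L116107 : W_42 (nat_lit 5) (nat_lit 0x2000900058006c003000000000000000000000000) (nat_lit 0x0) (nat_lit 0x2000100100008000000008000c0006000000000000000) := T_42 (nat_lit 160) (nat_lit 177) (nat_lit 5) (nat_lit 8) (nat_lit 6) L116106 (by decide +kernel)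
theorem L116108 : W_42 (nat_lit 6) (nat_lit 0x2000900058002c003000000000000000000000000) (nat_lit 0x0) (nat_lit 0x2001100100008000400008000c0006000000000000000) := T_42 (nat_lit 114) (nat_lit 164) (nat_lit 6) (nat_lit 11) (nat_lit 9) L116107 (by decide +kernel)
theorem L116109 : W_42 (nat_lit 7) (nat_lit 0x20009000580024003000000000000000000000000) (nat_lit 0x0) (nat_lit 0x2001100100008000580008000c0006000000000000000) := T_42 (nat_lit 111) (nat_lit 112) (nat_lit 2) (nat_lit 8) (nat_lit 6) L116108 (by decide +kernel)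
theorem L116110 : W_42 (nat_lit 8) (nat_lit 0x20009000580024001000000000000000000000000) (nat_lit 0x0) (nat_lit 0x2001100100008000580028001c0006000000000000000) := T_42 (nat_lit 97) (nat_lit 80) (nat_lit 6) (nat_lit 11) (nat_lit 8) L116109 (by decide +kernel)
theorem L116111 : W_42 (nat_lit 9) (nat_lit 0x20009000580024000000000000000000000000000) (nat_lit 0x0) (nat_lit 0xa00072003900100008000580038001c0006000000000000000) := Q_42 (nat_lit 96) (C_42 L116076 (C_42 L116089 (C_42 L116103 (C_42 L116110 N_42)))) (by decide +kernel)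
theorem L116112 : W_42 (nat_lit 2) (nat_lit 0x330009000580024001000000000000000000000000) (nat_lit 0x0) (nat_lit 0x40002000100000000000000000000) := D_42 (nat_lit 97) (nat_lit 80) (nat_lit 114) (nat_lit 6) (nat_lit 11) (nat_lit 8) (nat_lit 6) (nat_lit 11) (nat_lit 9) (by decide +kernel)
theorem L116113 : W_42 (nat_lit 3) (nat_lit 0x330009000580024000000000000000000000000000) (nat_lit 0x0) (nat_lit 0x10000000040003000100000000000000000000) := T_42 (nat_lit 96) (nat_lit 148) (nat_lit 7) (nat_lit 11) (nat_lit 5) L116112 (by decide +kernel)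
theorem L116114 : W_42 (nat_lit 4) (nat_lit 0x130009000580024000000000000000000000000000) (nat_lit 0x0) (nat_lit 0x4000200010000000040003000100000000000000000000) := T_42 (nat_lit 165) (nat_lit 182) (nat_lit 7) (nat_lit 11) (nat_lit 6) L116113 (by decide +kernel)
theorem L116115 : W_42 (nat_lit 5) (nat_lit 0x120009000580024000000000000000000000000000) (nat_lit 0x0) (nat_lit 0x4200210010000000040003000100000000000000000000) := T_42 (nat_lit 160) (nat_lit 177) (nat_lit 5) (nat_lit 8) (nat_lit 6) L116114 (by decide +kernel)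
theorem L116116 : W_42 (nat_lit 2) (nat_lit 0x2000320009000580164001800000000000000000000000) (nat_lit 0x0) (nat_lit 0x20001000080000000000000000000000000000000000000000) := D_42 (nat_lit 180) (nat_lit 197) (nat_lit 163) (nat_lit 5) (nat_lit 11) (nat_lit 7) (nat_lit 5) (nat_lit 11) (nat_lit 6) (by decide +kernel)
theorem L116117 : W_42 (nat_lit 3) (nat_lit 0x320009000580164001800000000000000000000000) (nat_lit 0x0) (nat_lit 0x20003000080000000800000000000000000000000000000000) := T_42 (nat_lit 181) (nat_lit 131) (nat_lit 6) (nat_lit 11) (nat_lit 10) L116116 (by decide +kernel)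
theorem L116118 : W_42 (nat_lit 4) (nat_lit 0x320009000580064001800000000000000000000000) (nat_lit 0x0) (nat_lit 0x20003000080000000800180000000000000000000000000000) := T_42 (nat_lit 116) (nat_lit 115) (nat_lit 0) (nat_lit 14) (nat_lit 6) L116117 (by decide +kernel)
theorem L116119 : W_42 (nat_lit 5) (nat_lit 0x320009000580064001000000000000000000000000) (nat_lit 0x0) (nat_lit 0x20003000080000000800180000800040000000000000000000) := T_42 (nat_lit 95) (nat_lit 78) (nat_lit 4) (nat_lit 11) (nat_lit 8) L116118 (by decide +kernel)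
theorem L116120 : W_42 (nat_lit 6) (nat_lit 0x320009000580064000000000000000000000000000) (nat_lit 0x0) (nat_lit 0x20003000080010000800180001800040000000000000000000) := T_42 (nat_lit 96) (nat_lit 148) (nat_lit 7) (nat_lit 11) (nat_lit 5) L116119 (by decide +kernel)
theorem L116121 : W_42 (nat_lit 7) (nat_lit 0x120009000580064000000000000000000000000000) (nat_lit 0x0) (nat_lit 0x20007000280010000800180001800040000000000000000000) := T_42 (nat_lit 165) (nat_lit 182) (nat_lit 7) (nat_lit 11) (nat_lit 6) L116120 (by decide +kernel)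
theorem L116122 : W_42 (nat_lit 8) (nat_lit 0x120009000580024000000000000000000000000000) (nat_lit 0x0) (nat_lit 0x200070002800100008001c0003800040000000000000000000) := T_42 (nat_lit 114) (nat_lit 97) (nat_lit 6) (nat_lit 11) (nat_lit 9) L116121 (by decide +kernel)
theorem L116123 : W_42 (nat_lit 2) (nat_lit 0x1a0009000580024000000000000000000000000000) (nat_lit 0x0) (nat_lit 0x800040010000000000000000000000000000000000000) := D_42 (nat_lit 162) (nat_lit 148) (nat_lit 179) (nat_lit 2) (nat_lit 8) (nat_lit 9) (nat_lit 7) (nat_lit 8) (nat_lit 6) (by decide +kernel)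
theorem L116124 : W_42 (nat_lit 3) (nat_lit 0x120009000580024000000000000000000000000000) (nat_lit 0x0) (nat_lit 0x18000c0010000000000000000000000000000000000000) := T_42 (nat_lit 163) (nat_lit 180) (nat_lit 5) (nat_lit 11) (nat_lit 6) L116123 (by decide +kernel)
theorem L116125 : W_42 (nat_lit 2) (nat_lit 0x40001b0009000580024000000000000000000000000000) (nat_lit 0x0) (nat_lit 0x2800040000000000000000000000000000000000000000) := D_42 (nat_lit 162) (nat_lit 179) (nat_lit 181) (nat_lit 7) (nat_lit 8) (nat_lit 6) (nat_lit 3) (nat_lit 8) (nat_lit 9) (by decide +kernel)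
theorem L116126 : W_42 (nat_lit 3) (nat_lit 0x1b0009000580024000000000000000000000000000) (nat_lit 0x0) (nat_lit 0x6800240000000000000000000000000000000000000000) := T_42 (nat_lit 182) (nat_lit 165) (nat_lit 7) (nat_lit 11) (nat_lit 6) L116125 (by decide +kernel)
theorem L116127 : W_42 (nat_lit 4) (nat_lit 0x130009000580024000000000000000000000000000) (nat_lit 0x0) (nat_lit 0x78002c0000000000000000000000000000000000000000) := T_42 (nat_lit 163) (nat_lit 180) (nat_lit 5) (nat_lit 11) (nat_lit 6) L116126 (by decide +kernel)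
theorem L116128 : W_42 (nat_lit 5) (nat_lit 0x120009000580024000000000000000000000000000) (nat_lit 0x0) (nat_lit 0x7a002d0000000000000000000000000000000000000000) := T_42 (nat_lit 160) (nat_lit 177) (nat_lit 5) (nat_lit 8) (nat_lit 6) L116127 (by decide +kernel)
theorem L116129 : W_42 (nat_lit 9) (nat_lit 0x20009000580024000000000000000000000000000) (nat_lit 0x0) (nat_lit 0x20007a003d00100008001c0003800140000000000000000000) := Q_42 (nat_lit 164) (C_42 L116115 (C_42 L116122 (C_42 L116124 (C_42 L116128 N_42)))) (by decide +kernel)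
theorem L116130 : W_42 (nat_lit 6) (nat_lit 0x20009000580024000000000000000000000000000) (nat_lit 0x0) (nat_lit 0x7a003d0010000000040003000100000000000000000000) := Q_42 (nat_lit 164) (C_42 L116124 (C_42 L116128 (C_42 L116115 N_42))) (by decide +kernel)
theorem L116131 : W_42 (nat_lit 2) (nat_lit 0x130009000580064000000000000000000000000000) (nat_lit 0x0) (nat_lit 0x18000800000000000000000000000) := D_42 (nat_lit 112) (nat_lit 111) (nat_lit 95) (nat_lit 1) (nat_lit 12) (nat_lit 6) (nat_lit 4) (nat_lit 11) (nat_lit 9) (by decide +kernel)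
theorem L116132 : W_42 (nat_lit 3) (nat_lit 0x130009000580024000000000000000000000000000) (nat_lit 0x0) (nat_lit 0x58002800000000000000000000000) := T_42 (nat_lit 114) (nat_lit 97) (nat_lit 6) (nat_lit 11) (nat_lit 9) L116131 (by decide +kernel)
theorem L116133 : W_42 (nat_lit 4) (nat_lit 0x120009000580024000000000000000000000000000) (nat_lit 0x0) (nat_lit 0x200010000000000058002800000000000000000000000) := T_42 (nat_lit 160) (nat_lit 177) (nat_lit 5) (nat_lit 8) (nat_lit 6) L116132 (by decide +kernel)
theorem L116134 : W_42 (nat_lit 6) (nat_lit 0x20009000580024000000000000000000000000000) (nat_lit 0x0) (nat_lit 0x7a003d0010000000058002800000000000000000000000) := Q_42 (nat_lit 164) (C_42 L116128 (C_42 L116124 (C_42 L116133 N_42))) (by decide +kernel)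
theorem L116135 : W_42 (nat_lit 2) (nat_lit 0x7001900058002c003000080006000400000000000) (nat_lit 0x0) (nat_lit 0x40000000000000000200020000000) := D_42 (nat_lit 45) (nat_lit 114) (nat_lit 29) (nat_lit 7) (nat_lit 11) (nat_lit 2) (nat_lit 6) (nat_lit 11) (nat_lit 5) (by decide +kernel)
theorem L116136 : W_42 (nat_lit 3) (nat_lit 0x7001900058002c003000080006000000000000000) (nat_lit 0x0) (nat_lit 0x40000000000008000600020000000) := T_42 (nat_lit 46) (nat_lit 63) (nat_lit 6) (nat_lit 11) (nat_lit 6) L116135 (by decide +kernel)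
theorem L116137 : W_42 (nat_lit 4) (nat_lit 0x7001900058002c003000080002000000000000000) (nat_lit 0x0) (nat_lit 0x4000000000000c000700020000000) := T_42 (nat_lit 62) (nat_lit 44) (nat_lit 4) (nat_lit 11) (nat_lit 6) L116136 (by decide +kernel)
theorem L116138 : W_42 (nat_lit 5) (nat_lit 0x3001900058002c003000080002000000000000000) (nat_lit 0x0) (nat_lit 0x80004000000000004000000000000c000700020000000) := T_42 (nat_lit 162) (nat_lit 179) (nat_lit 7) (nat_lit 8) (nat_lit 6) L116137 (by decide +kernel)
theorem L116139 : W_42 (nat_lit 6) (nat_lit 0x3001900058002c003000080000000000000000000) (nat_lit 0x0) (nat_lit 0x80004000000000004000000004000e000700020000000) := T_42 (nat_lit 61) (nat_lit 78) (nat_lit 4) (nat_lit 11) (nat_lit 7) L116138 (by decide +kernel)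
theorem L116140 : W_42 (nat_lit 7) (nat_lit 0x3001900058002c003000000000000000000000000) (nat_lit 0x0) (nat_lit 0x8000400000008000400000000c000e000700020000000) := T_42 (nat_lit 79) (nat_lit 131) (nat_lit 7) (nat_lit 11) (nat_lit 4) L116139 (by decide +kernel)
theorem L116141 : W_42 (nat_lit 8) (nat_lit 0x3000900058002c003000000000000000000000000) (nat_lit 0x0) (nat_lit 0x8002400100008000400000000c000e000700020000000) := T_42 (nat_lit 148) (nat_lit 165) (nat_lit 7) (nat_lit 11) (nat_lit 5) L116140 (by decide +kernel)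
theorem L116142 : W_42 (nat_lit 9) (nat_lit 0x30009000580024003000000000000000000000000) (nat_lit 0x0) (nat_lit 0x8002400100008000580000000c000e000700020000000) := T_42 (nat_lit 111) (nat_lit 112) (nat_lit 2) (nat_lit 8) (nat_lit 6) L116141 (by decide +kernel)
theorem L116143 : W_42 (nat_lit 10) (nat_lit 0x30009000580024001000000000000000000000000) (nat_lit 0x0) (nat_lit 0x8002400100008000580020001c000e000700020000000) := T_42 (nat_lit 97) (nat_lit 80) (nat_lit 6) (nat_lit 11) (nat_lit 8) L116142 (by decide +kernel)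
theorem L116144 : W_42 (nat_lit 11) (nat_lit 0x20009000580024001000000000000000000000000) (nat_lit 0x0) (nat_lit 0xa002500100008000580020001c000e000700020000000) := T_42 (nat_lit 160) (nat_lit 177) (nat_lit 5) (nat_lit 8) (nat_lit 6) L116143 (by decide +kernel)
theorem L116145 : W_42 (nat_lit 2) (nat_lit 0x70039002d80074007000000000000000000000000) (nat_lit 0x0) (nat_lit 0xc0004000000000000000000000000000000000) := D_42 (nat_lit 150) (nat_lit 134) (nat_lit 151) (nat_lit 2) (nat_lit 11) (nat_lit 8) (nat_lit 0) (nat_lit 15) (nat_lit 8) (by decide +kernel)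
theorem L116146 : W_42 (nat_lit 3) (nat_lit 0x70019002d80074007000000000000000000000000) (nat_lit 0x0) (nat_lit 0x4000e0004000000000000000000000000000000000) := T_42 (nat_lit 149) (nat_lit 166) (nat_lit 7) (nat_lit 12) (nat_lit 5) L116145 (by decide +kernel)
theorem L116147 : W_42 (nat_lit 4) (nat_lit 0x70019002d80034007000000000000000000000000) (nat_lit 0x0) (nat_lit 0x4000e0004000040000000200000000000000000000) := T_42 (nat_lit 114) (nat_lit 81) (nat_lit 6) (nat_lit 12) (nat_lit 8) L116146 (by decide +kernel)
theorem L116148 : W_42 (nat_lit 5) (nat_lit 0x70019000d80034007000000000000000000000000) (nat_lit 0x0) (nat_lit 0x4000e0007000040000000200000000000000000000) := T_42 (nat_lit 133) (nat_lit 132) (nat_lit 0) (nat_lit 14) (nat_lit 7) L116147 (by decide +kernel)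
theorem L116149 : W_42 (nat_lit 6) (nat_lit 0x70019000d80034003000000000000000000000000) (nat_lit 0x0) (nat_lit 0x4000e000700004000c000200000000000000000000) := T_42 (nat_lit 98) (nat_lit 99) (nat_lit 1) (nat_lit 14) (nat_lit 5) L116148 (by decide +kernel)
theorem L116150 : W_42 (nat_lit 7) (nat_lit 0x70019000580034003000000000000000000000000) (nat_lit 0x0) (nat_lit 0x4000e000780004000c000280000000000000000000) := T_42 (nat_lit 131) (nat_lit 79) (nat_lit 7) (nat_lit 11) (nat_lit 4) L116149 (by decide +kernel)
theorem L116151 : W_42 (nat_lit 8) (nat_lit 0x70009000580034003000000000000000000000000) (nat_lit 0x0) (nat_lit 0x6000f000780004000c000280000000000000000000) := T_42 (nat_lit 148) (nat_lit 165) (nat_lit 7) (nat_lit 11) (nat_lit 5) L116150 (by decide +kernel)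
theorem L116152 : W_42 (nat_lit 9) (nat_lit 0x70009000580024003000000000000000000000000) (nat_lit 0x0) (nat_lit 0x6000f000780005800c000280000000000000000000) := T_42 (nat_lit 112) (nat_lit 111) (nat_lit 2) (nat_lit 8) (nat_lit 6) L116151 (by decide +kernel)
theorem L116153 : W_42 (nat_lit 10) (nat_lit 0x70009000580024001000000000000000000000000) (nat_lit 0x0) (nat_lit 0x6000f000780005800e000380000000000000000000) := T_42 (nat_lit 97) (nat_lit 80) (nat_lit 6) (nat_lit 11) (nat_lit 8) L116152 (by decide +kernel)
theorem L116154 : W_42 (nat_lit 11) (nat_lit 0x60009000580024001000000000000000000000000) (nat_lit 0x0) (nat_lit 0x2006100f000780005800e000380000000000000000000) := T_42 (nat_lit 160) (nat_lit 177) (nat_lit 5) (nat_lit 8) (nat_lit 6) L116153 (by decide +kernel)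
theorem L116155 : W_42 (nat_lit 12) (nat_lit 0x20009000580024001000000000000000000000000) (nat_lit 0x0) (nat_lit 0xa006500f000780005800e000380000000000000000000) := T_42 (nat_lit 162) (nat_lit 179) (nat_lit 7) (nat_lit 8) (nat_lit 6) L116154 (by decide +kernel)
theorem L116156 : W_42 (nat_lit 6) (nat_lit 0x70019000580024003800000000000000000000000) (nat_lit 0x0) (nat_lit 0x18001d800c000600000000000000000000) := T_42 (nat_lit 112) (nat_lit 111) (nat_lit 2) (nat_lit 8) (nat_lit 6) L110067 (by decide +kernel)
theorem L116157 : W_42 (nat_lit 7) (nat_lit 0x70019000580024001800000000000000000000000) (nat_lit 0x0) (nat_lit 0x18001d800e000700000000000000000000) := T_42 (nat_lit 97) (nat_lit 80) (nat_lit 6) (nat_lit 11) (nat_lit 8) L116156 (by decide +kernel)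
theorem L116158 : W_42 (nat_lit 8) (nat_lit 0x60019000580024001800000000000000000000000) (nat_lit 0x0) (nat_lit 0x2000100000018001d800e000700000000000000000000) := T_42 (nat_lit 160) (nat_lit 177) (nat_lit 5) (nat_lit 8) (nat_lit 6) L116157 (by decide +kernel)
theorem L116159 : W_42 (nat_lit 9) (nat_lit 0x20019000580024001800000000000000000000000) (nat_lit 0x0) (nat_lit 0xa000500000018001d800e000700000000000000000000) := T_42 (nat_lit 162) (nat_lit 179) (nat_lit 7) (nat_lit 8) (nat_lit 6) L116158 (by decide +kernel)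
theorem L116160 : W_42 (nat_lit 10) (nat_lit 0x20019000580024001000000000000000000000000) (nat_lit 0x0) (nat_lit 0xa000500000018001d800e800740000000000000000000) := T_42 (nat_lit 95) (nat_lit 78) (nat_lit 4) (nat_lit 11) (nat_lit 8) L116159 (by decide +kernel)
theorem L116161 : W_42 (nat_lit 11) (nat_lit 0x20009000580024001000000000000000000000000) (nat_lit 0x0) (nat_lit 0xa002500100018001d800e800740000000000000000000) := T_42 (nat_lit 148) (nat_lit 165) (nat_lit 7) (nat_lit 11) (nat_lit 5) L116160 (by decide +kernel)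
theorem L116162 : W_42 (nat_lit 2) (nat_lit 0x20009000580024001000140000000000000000000) (nat_lit 0x0) (nat_lit 0x8000a000000000000000) := D_42 (nat_lit 79) (nat_lit 63) (nat_lit 61) (nat_lit 6) (nat_lit 11) (nat_lit 7) (nat_lit 4) (nat_lit 11) (nat_lit 7) (by decide +kernel)
theorem L116163 : W_42 (nat_lit 3) (nat_lit 0x20009000580024001000100000000000000000000) (nat_lit 0x0) (nat_lit 0x8000c000a000000000000000) := T_42 (nat_lit 78) (nat_lit 95) (nat_lit 4) (nat_lit 11) (nat_lit 8) L116162 (by decide +kernel)
theorem L116164 : W_42 (nat_lit 4) (nat_lit 0x20009000580024001000000000000000000000000) (nat_lit 0x0) (nat_lit 0x28001c000a000000000000000) := T_42 (nat_lit 80) (nat_lit 97) (nat_lit 6) (nat_lit 11) (nat_lit 8) L116163 (by decide +kernel)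
theorem L116165 : W_42 (nat_lit 13) (nat_lit 0x20009000580024000000000000000000000000000) (nat_lit 0x0) (nat_lit 0xa006500f00078001d800f8007c000e000700020000000) := Q_42 (nat_lit 96) (C_42 L116144 (C_42 L116089 (C_42 L116155 (C_42 L116161 (C_42 L116164 N_42))))) (by decide +kernel)
theorem L116166 : W_42 (nat_lit 2) (nat_lit 0x30019000580024001000100000000000000000000) (nat_lit 0x0) (nat_lit 0x800000000000080008000000000000000) := D_42 (nat_lit 79) (nat_lit 131) (nat_lit 63) (nat_lit 7) (nat_lit 11) (nat_lit 4) (nat_lit 6) (nat_lit 11) (nat_lit 7) (by decide +kernel)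
theorem L116167 : W_42 (nat_lit 3) (nat_lit 0x30009000580024001000100000000000000000000) (nat_lit 0x0) (nat_lit 0x200010000800000000000080008000000000000000) := T_42 (nat_lit 148) (nat_lit 165) (nat_lit 7) (nat_lit 11) (nat_lit 5) L116166 (by decide +kernel)
theorem L116168 : W_42 (nat_lit 4) (nat_lit 0x30009000580024001000000000000000000000000) (nat_lit 0x0) (nat_lit 0x200010000800000002000180008000000000000000) := T_42 (nat_lit 80) (nat_lit 97) (nat_lit 6) (nat_lit 11) (nat_lit 8) L116167 (by decide +kernel)
theorem L116169 : W_42 (nat_lit 5) (nat_lit 0x20009000580024001000000000000000000000000) (nat_lit 0x0) (nat_lit 0x200210010000800000002000180008000000000000000) := T_42 (nat_lit 160) (nat_lit 177) (nat_lit 5) (nat_lit 8) (nat_lit 6) L116168 (by decide +kernel)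
theorem L116170 : W_42 (nat_lit 2) (nat_lit 0x30019000580024003800000000000000000000000) (nat_lit 0x0) (nat_lit 0x100000000000018000000000000000000000000000) := D_42 (nat_lit 112) (nat_lit 111) (nat_lit 164) (nat_lit 2) (nat_lit 8) (nat_lit 6) (nat_lit 4) (nat_lit 11) (nat_lit 9) (by decide +kernel)
theorem L116171 : W_42 (nat_lit 3) (nat_lit 0x30019000580024001800000000000000000000000) (nat_lit 0x0) (nat_lit 0x100000000000018002000100000000000000000000) := T_42 (nat_lit 97) (nat_lit 80) (nat_lit 6) (nat_lit 11) (nat_lit 8) L116170 (by decide +kernel)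
theorem L116172 : W_42 (nat_lit 4) (nat_lit 0x30019000580024001000000000000000000000000) (nat_lit 0x0) (nat_lit 0x100000000000018002800140000000000000000000) := T_42 (nat_lit 95) (nat_lit 78) (nat_lit 4) (nat_lit 11) (nat_lit 8) L116171 (by decide +kernel)
theorem L116173 : W_42 (nat_lit 5) (nat_lit 0x20019000580024001000000000000000000000000) (nat_lit 0x0) (nat_lit 0x200110000000000018002800140000000000000000000) := T_42 (nat_lit 160) (nat_lit 177) (nat_lit 5) (nat_lit 8) (nat_lit 6) L116172 (by decide +kernel)
theorem L116174 : W_42 (nat_lit 6) (nat_lit 0x20009000580024001000000000000000000000000) (nat_lit 0x0) (nat_lit 0x200310010000000018002800140000000000000000000) := T_42 (nat_lit 148) (nat_lit 165) (nat_lit 7) (nat_lit 11) (nat_lit 5) L116173 (by decide +kernel)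
theorem L116175 : W_42 (nat_lit 7) (nat_lit 0x20009000580024000000000000000000000000000) (nat_lit 0x0) (nat_lit 0x2003100100008000180038001c000a000000000000000) := Q_42 (nat_lit 96) (C_42 L116169 (C_42 L116164 (C_42 L116174 (C_42 L116089 N_42)))) (by decide +kernel)
theorem L116176 : W_42 (nat_lit 2) (nat_lit 0x20009000580034000000000000000000000000000) (nat_lit 0x0) (nat_lit 0x40048000000000000000000000000000) := D_42 (nat_lit 111) (nat_lit 126) (nat_lit 114) (nat_lit 1) (nat_lit 11) (nat_lit 6) (nat_lit 1) (nat_lit 12) (nat_lit 6) (by decide +kernel)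
theorem L116177 : W_42 (nat_lit 2) (nat_lit 0x20009000580034000000000000000000000000000) (nat_lit 0x0) (nat_lit 0x800048000000000000000000000000000) := D_42 (nat_lit 111) (nat_lit 114) (nat_lit 131) (nat_lit 1) (nat_lit 12) (nat_lit 6) (nat_lit 3) (nat_lit 8) (nat_lit 6) (by decide +kernel)
theorem L116178 : W_42 (nat_lit 2) (nat_lit 0x1000370009000580074000000000000000000000000000) (nat_lit 0x0) (nat_lit 0x20002000000000000800000000000000000000000000000000) := D_42 (nat_lit 181) (nat_lit 131) (nat_lit 197) (nat_lit 6) (nat_lit 11) (nat_lit 10) (nat_lit 5) (nat_lit 11) (nat_lit 7) (by decide +kernel)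
theorem L116179 : W_42 (nat_lit 3) (nat_lit 0x370009000580074000000000000000000000000000) (nat_lit 0x0) (nat_lit 0x20003000080000000800000000000000000000000000000000) := T_42 (nat_lit 180) (nat_lit 163) (nat_lit 5) (nat_lit 11) (nat_lit 6) L116178 (by decide +kernel)
theorem L116180 : W_42 (nat_lit 4) (nat_lit 0x370009000580034000000000000000000000000000) (nat_lit 0x0) (nat_lit 0x20003000080000000800040002000000000000000000000000) := T_42 (nat_lit 114) (nat_lit 97) (nat_lit 6) (nat_lit 11) (nat_lit 9) L116179 (by decide +kernel)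
theorem L116181 : W_42 (nat_lit 5) (nat_lit 0x170009000580034000000000000000000000000000) (nat_lit 0x0) (nat_lit 0x20007000280000000800040002000000000000000000000000) := T_42 (nat_lit 165) (nat_lit 182) (nat_lit 7) (nat_lit 11) (nat_lit 6) L116180 (by decide +kernel)
theorem L116182 : W_42 (nat_lit 6) (nat_lit 0x130009000580034000000000000000000000000000) (nat_lit 0x0) (nat_lit 0x200078002c0000000800040002000000000000000000000000) := T_42 (nat_lit 162) (nat_lit 179) (nat_lit 7) (nat_lit 8) (nat_lit 6) L116181 (by decide +kernel)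
theorem L116183 : W_42 (nat_lit 7) (nat_lit 0x30009000580034000000000000000000000000000) (nat_lit 0x0) (nat_lit 0x200078003c0000000800040002800000000000000000000000) := T_42 (nat_lit 164) (nat_lit 95) (nat_lit 4) (nat_lit 11) (nat_lit 9) L116182 (by decide +kernel)
theorem L116184 : W_42 (nat_lit 8) (nat_lit 0x20009000580034000000000000000000000000000) (nat_lit 0x0) (nat_lit 0x20007a003d0000000800040002800000000000000000000000) := T_42 (nat_lit 160) (nat_lit 177) (nat_lit 5) (nat_lit 8) (nat_lit 6) L116183 (by decide +kernel)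
theorem L116185 : W_42 (nat_lit 2) (nat_lit 0x20009000580034000000000000000000000000000) (nat_lit 0x0) (nat_lit 0x840008000000000000000000000000000) := D_42 (nat_lit 111) (nat_lit 126) (nat_lit 131) (nat_lit 1) (nat_lit 11) (nat_lit 6) (nat_lit 3) (nat_lit 8) (nat_lit 6) (by decide +kernel)
theorem L116186 : W_42 (nat_lit 9) (nat_lit 0x20009000580024000000000000000000000000000) (nat_lit 0x0) (nat_lit 0x20007a003d0000000840058002800000000000000000000000) := Q_42 (nat_lit 112) (C_42 L116176 (C_42 L116177 (C_42 L116184 (C_42 L116185 N_42)))) (by decide +kernel)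
theorem L116187 : W_42 (nat_lit 2) (nat_lit 0x160009000580034000000000000000000000000000) (nat_lit 0x0) (nat_lit 0x1000080010000000000000000000000000000000000000) := D_42 (nat_lit 163) (nat_lit 148) (nat_lit 180) (nat_lit 2) (nat_lit 8) (nat_lit 9) (nat_lit 5) (nat_lit 11) (nat_lit 6) (by decide +kernel)
theorem L116188 : W_42 (nat_lit 3) (nat_lit 0x60009000580034000000000000000000000000000) (nat_lit 0x0) (nat_lit 0x1000180010000000000000800000000000000000000000) := T_42 (nat_lit 164) (nat_lit 95) (nat_lit 4) (nat_lit 11) (nat_lit 9) L116187 (by decide +kernel)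
theorem L116189 : W_42 (nat_lit 4) (nat_lit 0x20009000580034000000000000000000000000000) (nat_lit 0x0) (nat_lit 0x18001c0010000000000000800000000000000000000000) := T_42 (nat_lit 162) (nat_lit 179) (nat_lit 7) (nat_lit 8) (nat_lit 6) L116188 (by decide +kernel)
theorem L116190 : W_42 (nat_lit 5) (nat_lit 0x20009000580024000000000000000000000000000) (nat_lit 0x0) (nat_lit 0x18001c0010000840058000800000000000000000000000) := Q_42 (nat_lit 112) (C_42 L116185 (C_42 L116177 (C_42 L116189 N_42))) (by decide +kernel)
theorem L116191 : W_42 (nat_lit 14) (nat_lit 0x20009000580004000000000000000000000000000) (nat_lit 0x0) (nat_lit 0xa0007a007d00f00078401f800f8007c000e000700020000000) := Q_42 (nat_lit 113) (C_42 L116096 (C_42 L116111 (C_42 L116129 (C_42 L116130 (C_42 L116134 (C_42 L116165 (C_42 L116175 (C_42 L116186 (C_42 L116190 N_42))))))))) (by decide +kernel)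
theorem L116192 : W_42 (nat_lit 2) (nat_lit 0x20009000580004000000000000000000000000000) (nat_lit 0x0) (nat_lit 0x10000200002000000000000000000000000000) := D_42 (nat_lit 129) (nat_lit 148) (nat_lit 109) (nat_lit 3) (nat_lit 8) (nat_lit 7) (nat_lit 0) (nat_lit 11) (nat_lit 7) (by decide +kernel)
theorem L116193 : W_42 (nat_lit 2) (nat_lit 0x70009000780034000000000000000000000000000) (nat_lit 0x0) (nat_lit 0x100000000000000000800040000000000000000000) := D_42 (nat_lit 95) (nat_lit 78) (nat_lit 164) (nat_lit 7) (nat_lit 10) (nat_lit 4) (nat_lit 4) (nat_lit 11) (nat_lit 9) (by decide +kernel)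
theorem L116194 : W_42 (nat_lit 3) (nat_lit 0x70009000780024000000000000000000000000000) (nat_lit 0x0) (nat_lit 0x100000000040010000800040000000000000000000) := T_42 (nat_lit 112) (nat_lit 126) (nat_lit 2) (nat_lit 7) (nat_lit 7) L116193 (by decide +kernel)
theorem L116195 : W_42 (nat_lit 4) (nat_lit 0x70009000780004000000000000000000000000000) (nat_lit 0x0) (nat_lit 0x100000000040070000800040000000000000000000) := T_42 (nat_lit 113) (nat_lit 114) (nat_lit 2) (nat_lit 8) (nat_lit 7) L116194 (by decide +kernel)
theorem L116196 : W_42 (nat_lit 5) (nat_lit 0x60009000780004000000000000000000000000000) (nat_lit 0x0) (nat_lit 0x200110000000040070000800040000000000000000000) := T_42 (nat_lit 160) (nat_lit 177) (nat_lit 5) (nat_lit 8) (nat_lit 6) L116195 (by decide +kernel)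
theorem L116197 : W_42 (nat_lit 6) (nat_lit 0x60009000580004000000000000000000000000000) (nat_lit 0x0) (nat_lit 0x200110000000240072000800040000000000000000000) := T_42 (nat_lit 129) (nat_lit 109) (nat_lit 0) (nat_lit 11) (nat_lit 7) L116196 (by decide +kernel)
theorem L116198 : W_42 (nat_lit 7) (nat_lit 0x20009000580004000000000000000000000000000) (nat_lit 0x0) (nat_lit 0xa00150000000240072000800040000000000000000000) := T_42 (nat_lit 162) (nat_lit 179) (nat_lit 7) (nat_lit 8) (nat_lit 6) L116197 (by decide +kernel)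
theorem L116199 : W_42 (nat_lit 15) (nat_lit 0x20009000180004000000000000000000000000000) (nat_lit 0x0) (nat_lit 0xa0007a007d00f0007e401fa00f8007c000e000700020000000) := Q_42 (nat_lit 130) (C_42 L116067 (C_42 L116191 (C_42 L116192 (C_42 L116198 N_42)))) (by decide +kernel)
theorem L116200 : W_42 (nat_lit 2) (nat_lit 0x7000d000f80004000000000000000000000000000) (nat_lit 0x0) (nat_lit 0xe0000000000000000000000000000) := D_42 (nat_lit 114) (nat_lit 113) (nat_lit 115) (nat_lit 2) (nat_lit 8) (nat_lit 7) (nat_lit 2) (nat_lit 9) (nat_lit 7) (by decide +kernel)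
theorem L116201 : W_42 (nat_lit 3) (nat_lit 0x7000d000780004000000000000000000000000000) (nat_lit 0x0) (nat_lit 0x8000e8000000000000000000000000000) := T_42 (nat_lit 131) (nat_lit 111) (nat_lit 0) (nat_lit 12) (nat_lit 7) L116200 (by decide +kernel)
theorem L116202 : W_42 (nat_lit 4) (nat_lit 0x7000d000380004000000000000000000000000000) (nat_lit 0x0) (nat_lit 0xc000ea000000000000000000000000000) := T_42 (nat_lit 130) (nat_lit 109) (nat_lit 0) (nat_lit 11) (nat_lit 7) L116201 (by decide +kernel)
theorem L116203 : W_42 (nat_lit 5) (nat_lit 0x7000d000180004000000000000000000000000000) (nat_lit 0x0) (nat_lit 0xe400ea000000000000000000000000000) := T_42 (nat_lit 129) (nat_lit 126) (nat_lit 3) (nat_lit 7) (nat_lit 7) L116202 (by decide +kernel)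
theorem L116204 : W_42 (nat_lit 6) (nat_lit 0x70009000180004000000000000000000000000000) (nat_lit 0x0) (nat_lit 0x80004000e400ea000000000000000000000000000) := T_42 (nat_lit 146) (nat_lit 163) (nat_lit 2) (nat_lit 7) (nat_lit 9) L116203 (by decide +kernel)
theorem L116205 : W_42 (nat_lit 7) (nat_lit 0x60009000180004000000000000000000000000000) (nat_lit 0x0) (nat_lit 0x200090004000e400ea000000000000000000000000000) := T_42 (nat_lit 160) (nat_lit 177) (nat_lit 5) (nat_lit 8) (nat_lit 6) L116204 (by decide +kernel)
theorem L116206 : W_42 (nat_lit 8) (nat_lit 0x20009000180004000000000000000000000000000) (nat_lit 0x0) (nat_lit 0xa000d0004000e400ea000000000000000000000000000) := T_42 (nat_lit 162) (nat_lit 179) (nat_lit 7) (nat_lit 8) (nat_lit 6) L116205 (by decide +kernel)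
theorem L116207 : W_42 (nat_lit 16) (nat_lit 0x20001000180004000000000000000000000000000) (nat_lit 0x0) (nat_lit 0xa0007a007d00fc707e701fbc0f8007c000e000700020000000) := Q_42 (nat_lit 147) (C_42 L116045 (C_42 L116054 (C_42 L116062 (C_42 L116199 (C_42 L116206 N_42))))) (by decide +kernel)
theorem L116208 : W_42 (nat_lit 2) (nat_lit 0x30001000180007000000000000000000000000000) (nat_lit 0x0) (nat_lit 0x640000000000000000000000000000000) := D_42 (nat_lit 129) (nat_lit 130) (nat_lit 126) (nat_lit 0) (nat_lit 11) (nat_lit 7) (nat_lit 0) (nat_lit 10) (nat_lit 7) (by decide +kernel)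
theorem L116209 : W_42 (nat_lit 3) (nat_lit 0x30001000180006000000000000000000000000000) (nat_lit 0x0) (nat_lit 0x640001800000000000000000000000000) := T_42 (nat_lit 108) (nat_lit 107) (nat_lit 3) (nat_lit 5) (nat_lit 6) L116208 (by decide +kernel)
theorem L116210 : W_42 (nat_lit 4) (nat_lit 0x30001000180004000000000000000000000000000) (nat_lit 0x0) (nat_lit 0x640003800100000000000000000000000) := T_42 (nat_lit 109) (nat_lit 92) (nat_lit 4) (nat_lit 8) (nat_lit 9) L116209 (by decide +kernel)
theorem L116211 : W_42 (nat_lit 5) (nat_lit 0x20001000180004000000000000000000000000000) (nat_lit 0x0) (nat_lit 0x200010000000640003800100000000000000000000000) := T_42 (nat_lit 160) (nat_lit 177) (nat_lit 5) (nat_lit 8) (nat_lit 6) L116210 (by decide +kernel)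
theorem L116212 : W_42 (nat_lit 2) (nat_lit 0x20001000180007000000000000000000000000000) (nat_lit 0x0) (nat_lit 0x600008000000000000000000000000000) := D_42 (nat_lit 129) (nat_lit 130) (nat_lit 111) (nat_lit 0) (nat_lit 11) (nat_lit 7) (nat_lit 3) (nat_lit 6) (nat_lit 6) (by decide +kernel)
theorem L116213 : W_42 (nat_lit 3) (nat_lit 0x20001000180006000000000000000000000000000) (nat_lit 0x0) (nat_lit 0x600009800000000000000000000000000) := T_42 (nat_lit 108) (nat_lit 107) (nat_lit 3) (nat_lit 5) (nat_lit 6) L116212 (by decide +kernel)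
theorem L116214 : W_42 (nat_lit 4) (nat_lit 0x20001000180004000000000000000000000000000) (nat_lit 0x0) (nat_lit 0x60000b800100000000000000000000000) := T_42 (nat_lit 109) (nat_lit 92) (nat_lit 4) (nat_lit 8) (nat_lit 9) L116213 (by decide +kernel)
theorem L116215 : W_42 (nat_lit 5) (nat_lit 0x30009000380004000000000000000000000000000) (nat_lit 0x0) (nat_lit 0x100010000440070000800040000000000000000000) := T_42 (nat_lit 130) (nat_lit 148) (nat_lit 3) (nat_lit 8) (nat_lit 7) L116065 (by decide +kernel)
theorem L116216 : W_42 (nat_lit 6) (nat_lit 0x20009000380004000000000000000000000000000) (nat_lit 0x0) (nat_lit 0x200110010000440070000800040000000000000000000) := T_42 (nat_lit 160) (nat_lit 177) (nat_lit 5) (nat_lit 8) (nat_lit 6) L116215 (by decide +kernel)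
theorem L116217 : W_42 (nat_lit 2) (nat_lit 0x200090003c001c000000000000000000000000000) (nat_lit 0x0) (nat_lit 0x10000c00000000000000000000000000000000) := D_42 (nat_lit 130) (nat_lit 148) (nat_lit 131) (nat_lit 3) (nat_lit 8) (nat_lit 7) (nat_lit 0) (nat_lit 12) (nat_lit 7) (by decide +kernel)
theorem L116218 : W_42 (nat_lit 3) (nat_lit 0x200090003c0014000000000000000000000000000) (nat_lit 0x0) (nat_lit 0x10000c20008000000000000000000000000000) := T_42 (nat_lit 111) (nat_lit 125) (nat_lit 2) (nat_lit 6) (nat_lit 7) L116217 (by decide +kernel)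
theorem L116219 : W_42 (nat_lit 4) (nat_lit 0x200090003c0004000000000000000000000000000) (nat_lit 0x0) (nat_lit 0x10000c20038000000000000000000000000000) := T_42 (nat_lit 112) (nat_lit 113) (nat_lit 2) (nat_lit 7) (nat_lit 7) L116218 (by decide +kernel)
theorem L116220 : W_42 (nat_lit 5) (nat_lit 0x20009000380004000000000000000000000000000) (nat_lit 0x0) (nat_lit 0x14000c60038000000000000000000000000000) := T_42 (nat_lit 126) (nat_lit 146) (nat_lit 3) (nat_lit 7) (nat_lit 7) L116219 (by decide +kernel)
theorem L116221 : W_42 (nat_lit 2) (nat_lit 0x70009000380004000000000000000000000000000) (nat_lit 0x0) (nat_lit 0x80004000040000000000000000000000000000000) := D_42 (nat_lit 146) (nat_lit 163) (nat_lit 126) (nat_lit 2) (nat_lit 7) (nat_lit 9) (nat_lit 3) (nat_lit 7) (nat_lit 7) (by decide +kernel)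
theorem L116222 : W_42 (nat_lit 3) (nat_lit 0x60009000380004000000000000000000000000000) (nat_lit 0x0) (nat_lit 0x200090004000040000000000000000000000000000000) := T_42 (nat_lit 160) (nat_lit 177) (nat_lit 5) (nat_lit 8) (nat_lit 6) L116221 (by decide +kernel)
theorem L116223 : W_42 (nat_lit 4) (nat_lit 0x20009000380004000000000000000000000000000) (nat_lit 0x0) (nat_lit 0xa000d0004000040000000000000000000000000000000) := T_42 (nat_lit 162) (nat_lit 179) (nat_lit 7) (nat_lit 8) (nat_lit 6) L116222 (by decide +kernel)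
theorem L116224 : W_42 (nat_lit 2) (nat_lit 0xf0009000380004000000000000000000000000000) (nat_lit 0x0) (nat_lit 0x100010000400000000000000000000000000000000) := D_42 (nat_lit 148) (nat_lit 130) (nat_lit 164) (nat_lit 3) (nat_lit 8) (nat_lit 7) (nat_lit 2) (nat_lit 8) (nat_lit 9) (by decide +kernel)
theorem L116225 : W_42 (nat_lit 3) (nat_lit 0x70009000380004000000000000000000000000000) (nat_lit 0x0) (nat_lit 0x180014000400000000000000000000000000000000) := T_42 (nat_lit 163) (nat_lit 146) (nat_lit 2) (nat_lit 7) (nat_lit 9) L116224 (by decide +kernel)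
theorem L116226 : W_42 (nat_lit 4) (nat_lit 0x60009000380004000000000000000000000000000) (nat_lit 0x0) (nat_lit 0x200190014000400000000000000000000000000000000) := T_42 (nat_lit 160) (nat_lit 177) (nat_lit 5) (nat_lit 8) (nat_lit 6) L116225 (by decide +kernel)
theorem L116227 : W_42 (nat_lit 5) (nat_lit 0x20009000380004000000000000000000000000000) (nat_lit 0x0) (nat_lit 0xa001d0014000400000000000000000000000000000000) := T_42 (nat_lit 162) (nat_lit 179) (nat_lit 7) (nat_lit 8) (nat_lit 6) L116226 (by decide +kernel)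
theorem L116228 : W_42 (nat_lit 7) (nat_lit 0x20001000380004000000000000000000000000000) (nat_lit 0x0) (nat_lit 0xa001d001c000c60078000800040000000000000000000) := Q_42 (nat_lit 147) (C_42 L116216 (C_42 L116220 (C_42 L116223 (C_42 L116227 N_42)))) (by decide +kernel)
theorem L116229 : W_42 (nat_lit 2) (nat_lit 0x20001000380004000000000000000000000000000) (nat_lit 0x0) (nat_lit 0x400002000100000000000000000000000) := D_42 (nat_lit 109) (nat_lit 92) (nat_lit 130) (nat_lit 4) (nat_lit 8) (nat_lit 9) (nat_lit 0) (nat_lit 11) (nat_lit 7) (by decide +kernel)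
theorem L116230 : W_42 (nat_lit 2) (nat_lit 0x70001000380034000000000000000000000000000) (nat_lit 0x0) (nat_lit 0xc8000000000000000000000000000) := D_42 (nat_lit 114) (nat_lit 115) (nat_lit 111) (nat_lit 1) (nat_lit 13) (nat_lit 6) (nat_lit 1) (nat_lit 12) (nat_lit 6) (by decide +kernel)
theorem L116231 : W_42 (nat_lit 3) (nat_lit 0x70001000380014000000000000000000000000000) (nat_lit 0x0) (nat_lit 0x400e8000000000000000000000000000) := T_42 (nat_lit 113) (nat_lit 126) (nat_lit 2) (nat_lit 7) (nat_lit 7) L116230 (by decide +kernel)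
theorem L116232 : W_42 (nat_lit 4) (nat_lit 0x30001000380014000000000000000000000000000) (nat_lit 0x0) (nat_lit 0x8000400000000400e8000000000000000000000000000) := T_42 (nat_lit 162) (nat_lit 179) (nat_lit 7) (nat_lit 8) (nat_lit 6) L116231 (by decide +kernel)
theorem L116233 : W_42 (nat_lit 5) (nat_lit 0x20001000380014000000000000000000000000000) (nat_lit 0x0) (nat_lit 0xa000500000000400e8000000000000000000000000000) := T_42 (nat_lit 160) (nat_lit 177) (nat_lit 5) (nat_lit 8) (nat_lit 6) L116232 (by decide +kernel)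
theorem L116234 : W_42 (nat_lit 2) (nat_lit 0x600012003f0014000000000000000000000000000) (nat_lit 0x0) (nat_lit 0x8002000100000000000000000000000) := D_42 (nat_lit 109) (nat_lit 92) (nat_lit 123) (nat_lit 4) (nat_lit 8) (nat_lit 9) (nat_lit 2) (nat_lit 4) (nat_lit 7) (by decide +kernel)
theorem L116235 : W_42 (nat_lit 3) (nat_lit 0x600012003e0014000000000000000000000000000) (nat_lit 0x0) (nat_lit 0x100018002000100000000000000000000000) := T_42 (nat_lit 124) (nat_lit 140) (nat_lit 1) (nat_lit 8) (nat_lit 7) L116234 (by decide +kernel)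
theorem L116236 : W_42 (nat_lit 4) (nat_lit 0x200012003e0014000000000000000000000000000) (nat_lit 0x0) (nat_lit 0x800040000100018002000100000000000000000000000) := T_42 (nat_lit 162) (nat_lit 179) (nat_lit 7) (nat_lit 8) (nat_lit 6) L116235 (by decide +kernel)
theorem L116237 : W_42 (nat_lit 5) (nat_lit 0x200010003e0014000000000000000000000000000) (nat_lit 0x0) (nat_lit 0x800040000700018002000100000000000000000000000) := T_42 (nat_lit 141) (nat_lit 142) (nat_lit 1) (nat_lit 9) (nat_lit 7) L116236 (by decide +kernel)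
theorem L116238 : W_42 (nat_lit 6) (nat_lit 0x200010003c0014000000000000000000000000000) (nat_lit 0x0) (nat_lit 0x80004000070003800a000100000000000000000000000) := T_42 (nat_lit 125) (nat_lit 111) (nat_lit 2) (nat_lit 6) (nat_lit 7) L116237 (by decide +kernel)
theorem L116239 : W_42 (nat_lit 7) (nat_lit 0x20001000380014000000000000000000000000000) (nat_lit 0x0) (nat_lit 0x80004000070007802a000100000000000000000000000) := T_42 (nat_lit 126) (nat_lit 113) (nat_lit 2) (nat_lit 7) (nat_lit 7) L116238 (by decide +kernel)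
theorem L116240 : W_42 (nat_lit 2) (nat_lit 0x300010003f0016000000000000000000000000000) (nat_lit 0x0) (nat_lit 0x700000000000000000000000000000000000) := D_42 (nat_lit 141) (nat_lit 142) (nat_lit 140) (nat_lit 1) (nat_lit 9) (nat_lit 7) (nat_lit 1) (nat_lit 8) (nat_lit 7) (by decide +kernel)
theorem L116241 : W_42 (nat_lit 3) (nat_lit 0x300010003e0016000000000000000000000000000) (nat_lit 0x0) (nat_lit 0x700018000000000000000000000000000000) := T_42 (nat_lit 124) (nat_lit 123) (nat_lit 2) (nat_lit 4) (nat_lit 7) L116240 (by decide +kernel)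
theorem L116242 : W_42 (nat_lit 4) (nat_lit 0x300010003c0016000000000000000000000000000) (nat_lit 0x0) (nat_lit 0x700038008000000000000000000000000000) := T_42 (nat_lit 125) (nat_lit 111) (nat_lit 2) (nat_lit 6) (nat_lit 7) L116241 (by decide +kernel)
theorem L116243 : W_42 (nat_lit 5) (nat_lit 0x30001000380016000000000000000000000000000) (nat_lit 0x0) (nat_lit 0x700078028000000000000000000000000000) := T_42 (nat_lit 126) (nat_lit 113) (nat_lit 2) (nat_lit 7) (nat_lit 7) L116242 (by decide +kernel)
theorem L116244 : W_42 (nat_lit 6) (nat_lit 0x30001000380014000000000000000000000000000) (nat_lit 0x0) (nat_lit 0x70007802a000100000000000000000000000) := T_42 (nat_lit 109) (nat_lit 92) (nat_lit 4) (nat_lit 8) (nat_lit 9) L116243 (by decide +kernel)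
theorem L116245 : W_42 (nat_lit 7) (nat_lit 0x20001000380014000000000000000000000000000) (nat_lit 0x0) (nat_lit 0x20001000070007802a000100000000000000000000000) := T_42 (nat_lit 160) (nat_lit 177) (nat_lit 5) (nat_lit 8) (nat_lit 6) L116244 (by decide +kernel)
theorem L116246 : W_42 (nat_lit 2) (nat_lit 0x20001000380034000000000000000000000000000) (nat_lit 0x0) (nat_lit 0xc8000000000000000000000000000) := D_42 (nat_lit 114) (nat_lit 111) (nat_lit 115) (nat_lit 1) (nat_lit 12) (nat_lit 6) (nat_lit 1) (nat_lit 13) (nat_lit 6) (by decide +kernel)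
theorem L116247 : W_42 (nat_lit 2) (nat_lit 0x1e0005000380034000000000000000000000000000) (nat_lit 0x0) (nat_lit 0x18000000000000800000000000000000000000) := D_42 (nat_lit 147) (nat_lit 95) (nat_lit 148) (nat_lit 7) (nat_lit 10) (nat_lit 5) (nat_lit 2) (nat_lit 8) (nat_lit 9) (by decide +kernel)
theorem L116248 : W_42 (nat_lit 3) (nat_lit 0xe0005000380034000000000000000000000000000) (nat_lit 0x0) (nat_lit 0x2000100018000000000000800000000000000000000000) := T_42 (nat_lit 164) (nat_lit 181) (nat_lit 7) (nat_lit 10) (nat_lit 6) L116247 (by decide +kernel)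
theorem L116249 : W_42 (nat_lit 2) (nat_lit 0x20001f0011000380076000000000000000000000000000) (nat_lit 0x0) (nat_lit 0x200020000800000000000000000000000000000000) := D_42 (nat_lit 165) (nat_lit 149) (nat_lit 131) (nat_lit 2) (nat_lit 9) (nat_lit 9) (nat_lit 5) (nat_lit 12) (nat_lit 6) (by decide +kernel)
theorem L116250 : W_42 (nat_lit 3) (nat_lit 0x20001f0001000380076000000000000000000000000000) (nat_lit 0x0) (nat_lit 0x200038000800000000000000000000000000000000) := T_42 (nat_lit 148) (nat_lit 147) (nat_lit 2) (nat_lit 8) (nat_lit 9) L116249 (by decide +kernel)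
theorem L116251 : W_42 (nat_lit 4) (nat_lit 0x20000f0001000380076000000000000000000000000000) (nat_lit 0x0) (nat_lit 0x4000300038000800000000000000000000000000000000) := T_42 (nat_lit 164) (nat_lit 182) (nat_lit 3) (nat_lit 8) (nat_lit 9) L116250 (by decide +kernel)
theorem L116252 : W_42 (nat_lit 5) (nat_lit 0xf0001000380076000000000000000000000000000) (nat_lit 0x0) (nat_lit 0x7000300038000800000000000000000000000000000000) := T_42 (nat_lit 181) (nat_lit 180) (nat_lit 3) (nat_lit 7) (nat_lit 9) L116251 (by decide +kernel)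
theorem L116253 : W_42 (nat_lit 6) (nat_lit 0xe0001000380076000000000000000000000000000) (nat_lit 0x0) (nat_lit 0x7200310038000800000000000000000000000000000000) := T_42 (nat_lit 160) (nat_lit 177) (nat_lit 5) (nat_lit 8) (nat_lit 6) L116252 (by decide +kernel)
theorem L116254 : W_42 (nat_lit 7) (nat_lit 0xe0001000380074000000000000000000000000000) (nat_lit 0x0) (nat_lit 0x7200310038000800002000100000000000000000000000) := T_42 (nat_lit 109) (nat_lit 92) (nat_lit 4) (nat_lit 8) (nat_lit 9) L116253 (by decide +kernel)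
theorem L116255 : W_42 (nat_lit 2) (nat_lit 0xe00050003800b4000000000000000000000000000) (nat_lit 0x0) (nat_lit 0x200010008000000000000000000000000000000000000) := D_42 (nat_lit 160) (nat_lit 147) (nat_lit 177) (nat_lit 2) (nat_lit 7) (nat_lit 9) (nat_lit 5) (nat_lit 8) (nat_lit 6) (by decide +kernel)
theorem L116256 : W_42 (nat_lit 3) (nat_lit 0xe00010003800b4000000000000000000000000000) (nat_lit 0x0) (nat_lit 0x20001000c000000000001000000000000000000000000) := T_42 (nat_lit 146) (nat_lit 96) (nat_lit 6) (nat_lit 10) (nat_lit 9) L116255 (by decide +kernel)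
theorem L116257 : W_42 (nat_lit 4) (nat_lit 0xe0001000380034000000000000000000000000000) (nat_lit 0x0) (nat_lit 0x20001000c0000000c0001000000000000000000000000) := T_42 (nat_lit 115) (nat_lit 114) (nat_lit 1) (nat_lit 13) (nat_lit 6) L116256 (by decide +kernel)
theorem L116258 : W_42 (nat_lit 4) (nat_lit 0xe0001000380034000000000000000000000000000) (nat_lit 0x0) (nat_lit 0x200010001c000000000001800000000000000000000000) := T_42 (nat_lit 146) (nat_lit 96) (nat_lit 6) (nat_lit 10) (nat_lit 9) L116248 (by decide +kernel)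
theorem L116259 : W_42 (nat_lit 2) (nat_lit 0x20000f00010003800b4000000000000000000000000000) (nat_lit 0x0) (nat_lit 0x100004000000000001000000000000000000000000) := D_42 (nat_lit 146) (nat_lit 96) (nat_lit 164) (nat_lit 6) (nat_lit 10) (nat_lit 9) (nat_lit 7) (nat_lit 10) (nat_lit 6) (by decide +kernel)
theorem L116260 : W_42 (nat_lit 3) (nat_lit 0xf00010003800b4000000000000000000000000000) (nat_lit 0x0) (nat_lit 0x3000100004000000000001000000000000000000000000) := T_42 (nat_lit 181) (nat_lit 180) (nat_lit 3) (nat_lit 7) (nat_lit 9) L116259 (by decide +kernel)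
theorem L116261 : W_42 (nat_lit 4) (nat_lit 0xe00010003800b4000000000000000000000000000) (nat_lit 0x0) (nat_lit 0x3200110004000000000001000000000000000000000000) := T_42 (nat_lit 160) (nat_lit 177) (nat_lit 5) (nat_lit 8) (nat_lit 6) L116260 (by decide +kernel)
theorem L116262 : W_42 (nat_lit 5) (nat_lit 0xe0001000380034000000000000000000000000000) (nat_lit 0x0) (nat_lit 0x32001100040000000c0001000000000000000000000000) := T_42 (nat_lit 115) (nat_lit 114) (nat_lit 1) (nat_lit 13) (nat_lit 6) L116261 (by decide +kernel)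
theorem L116263 : W_42 (nat_lit 8) (nat_lit 0xe0001000380034000000000000000000000000000) (nat_lit 0x0) (nat_lit 0x72003100380008000c2000100000000000000000000000) := T_42 (nat_lit 114) (nat_lit 115) (nat_lit 1) (nat_lit 13) (nat_lit 6) L116254 (by decide +kernel)
theorem L116264 : W_42 (nat_lit 9) (nat_lit 0x60001000380034000000000000000000000000000) (nat_lit 0x0) (nat_lit 0x720039003c0008000c2001900000000000000000000000) := Q_42 (nat_lit 163) (C_42 L116257 (C_42 L116258 (C_42 L116262 (C_42 L116263 N_42)))) (by decide +kernel)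
theorem L116265 : W_42 (nat_lit 10) (nat_lit 0x20001000380034000000000000000000000000000) (nat_lit 0x0) (nat_lit 0x7a003d003c0008000c2001900000000000000000000000) := T_42 (nat_lit 162) (nat_lit 179) (nat_lit 7) (nat_lit 8) (nat_lit 6) L116264 (by decide +kernel)
theorem L116266 : W_42 (nat_lit 2) (nat_lit 0x70001000380034000100000000000000000000000) (nat_lit 0x0) (nat_lit 0x8000200008000000000000000000) := D_42 (nat_lit 93) (nat_lit 75) (nat_lit 111) (nat_lit 4) (nat_lit 8) (nat_lit 8) (nat_lit 0) (nat_lit 11) (nat_lit 6) (by decide +kernel)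
theorem L116267 : W_42 (nat_lit 3) (nat_lit 0x70001000380034000000000000000000000000000) (nat_lit 0x0) (nat_lit 0xa000300008000000000000000000) := T_42 (nat_lit 92) (nat_lit 109) (nat_lit 4) (nat_lit 8) (nat_lit 9) L116266 (by decide +kernel)
theorem L116268 : W_42 (nat_lit 4) (nat_lit 0x30001000380034000000000000000000000000000) (nat_lit 0x0) (nat_lit 0x80004000000000000a000300008000000000000000000) := T_42 (nat_lit 162) (nat_lit 179) (nat_lit 7) (nat_lit 8) (nat_lit 6) L116267 (by decide +kernel)
theorem L116269 : W_42 (nat_lit 5) (nat_lit 0x20001000380034000000000000000000000000000) (nat_lit 0x0) (nat_lit 0xa0005000000000000a000300008000000000000000000) := T_42 (nat_lit 160) (nat_lit 177) (nat_lit 5) (nat_lit 8) (nat_lit 6) L116268 (by decide +kernel)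
theorem L116270 : W_42 (nat_lit 11) (nat_lit 0x20001000380014000000000000000000000000000) (nat_lit 0x0) (nat_lit 0x7a003d003c0008000ea001b00008000000000000000000) := Q_42 (nat_lit 113) (C_42 L116246 (C_42 L116265 (C_42 L116269 N_42))) (by decide +kernel)
theorem L116271 : W_42 (nat_lit 10) (nat_lit 0x60001000380014000000000000000000000000000) (nat_lit 0x0) (nat_lit 0x720039003c0008400e2001900000000000000000000000) := T_42 (nat_lit 113) (nat_lit 126) (nat_lit 2) (nat_lit 7) (nat_lit 7) L116264 (by decide +kernel)
theorem L116272 : W_42 (nat_lit 11) (nat_lit 0x20001000380014000000000000000000000000000) (nat_lit 0x0) (nat_lit 0x7a003d003c0008400e2001900000000000000000000000) := T_42 (nat_lit 162) (nat_lit 179) (nat_lit 7) (nat_lit 8) (nat_lit 6) L116271 (by decide +kernel)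
theorem L116273 : W_42 (nat_lit 2) (nat_lit 0x200050003f0016000000000000000000000000000) (nat_lit 0x0) (nat_lit 0x700000000000000000000000000000000000) := D_42 (nat_lit 141) (nat_lit 142) (nat_lit 140) (nat_lit 1) (nat_lit 9) (nat_lit 7) (nat_lit 1) (nat_lit 8) (nat_lit 7) (by decide +kernel)
theorem L116274 : W_42 (nat_lit 3) (nat_lit 0x200050003e0016000000000000000000000000000) (nat_lit 0x0) (nat_lit 0x700018000000000000000000000000000000) := T_42 (nat_lit 124) (nat_lit 123) (nat_lit 2) (nat_lit 4) (nat_lit 7) L116273 (by decide +kernel)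
theorem L116275 : W_42 (nat_lit 4) (nat_lit 0x200050003c0016000000000000000000000000000) (nat_lit 0x0) (nat_lit 0x700038008000000000000000000000000000) := T_42 (nat_lit 125) (nat_lit 111) (nat_lit 2) (nat_lit 6) (nat_lit 7) L116274 (by decide +kernel)
theorem L116276 : W_42 (nat_lit 5) (nat_lit 0x20005000380016000000000000000000000000000) (nat_lit 0x0) (nat_lit 0x8700078008000000000000000000000000000) := T_42 (nat_lit 126) (nat_lit 147) (nat_lit 3) (nat_lit 7) (nat_lit 7) L116275 (by decide +kernel)
theorem L116277 : W_42 (nat_lit 6) (nat_lit 0x20005000380014000000000000000000000000000) (nat_lit 0x0) (nat_lit 0x870007800a000100000000000000000000000) := T_42 (nat_lit 109) (nat_lit 92) (nat_lit 4) (nat_lit 8) (nat_lit 9) L116276 (by decide +kernel)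
theorem L116278 : W_42 (nat_lit 2) (nat_lit 0x3000d000380016000000000000000000000000000) (nat_lit 0x0) (nat_lit 0x8000c0000000000000000000000000000000000000000) := D_42 (nat_lit 162) (nat_lit 179) (nat_lit 163) (nat_lit 7) (nat_lit 8) (nat_lit 6) (nat_lit 2) (nat_lit 7) (nat_lit 9) (by decide +kernel)
theorem L116279 : W_42 (nat_lit 3) (nat_lit 0x30005000380016000000000000000000000000000) (nat_lit 0x0) (nat_lit 0x8000c0008000040000000000000000000000000000000) := T_42 (nat_lit 147) (nat_lit 126) (nat_lit 3) (nat_lit 7) (nat_lit 7) L116278 (by decide +kernel)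
theorem L116280 : W_42 (nat_lit 4) (nat_lit 0x30005000380014000000000000000000000000000) (nat_lit 0x0) (nat_lit 0x8000c0008000040002000100000000000000000000000) := T_42 (nat_lit 109) (nat_lit 92) (nat_lit 4) (nat_lit 8) (nat_lit 9) L116279 (by decide +kernel)
theorem L116281 : W_42 (nat_lit 5) (nat_lit 0x20005000380014000000000000000000000000000) (nat_lit 0x0) (nat_lit 0xa000d0008000040002000100000000000000000000000) := T_42 (nat_lit 160) (nat_lit 177) (nat_lit 5) (nat_lit 8) (nat_lit 6) L116280 (by decide +kernel)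
theorem L116282 : W_42 (nat_lit 2) (nat_lit 0xf0005000380016000000000000000000000000000) (nat_lit 0x0) (nat_lit 0x3000000000000000008000000000000000000000000000) := D_42 (nat_lit 180) (nat_lit 181) (nat_lit 111) (nat_lit 3) (nat_lit 7) (nat_lit 9) (nat_lit 4) (nat_lit 10) (nat_lit 10) (by decide +kernel)
theorem L116283 : W_42 (nat_lit 3) (nat_lit 0x70005000380016000000000000000000000000000) (nat_lit 0x0) (nat_lit 0x3000080008000000008000000000000000000000000000) := T_42 (nat_lit 163) (nat_lit 147) (nat_lit 2) (nat_lit 7) (nat_lit 9) L116282 (by decide +kernel)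
theorem L116284 : W_42 (nat_lit 4) (nat_lit 0x60005000380016000000000000000000000000000) (nat_lit 0x0) (nat_lit 0x3200090008000000008000000000000000000000000000) := T_42 (nat_lit 160) (nat_lit 177) (nat_lit 5) (nat_lit 8) (nat_lit 6) L116283 (by decide +kernel)
theorem L116285 : W_42 (nat_lit 5) (nat_lit 0x60005000380014000000000000000000000000000) (nat_lit 0x0) (nat_lit 0x320009000800000000a000100000000000000000000000) := T_42 (nat_lit 109) (nat_lit 92) (nat_lit 4) (nat_lit 8) (nat_lit 9) L116284 (by decide +kernel)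
theorem L116286 : W_42 (nat_lit 6) (nat_lit 0x20005000380014000000000000000000000000000) (nat_lit 0x0) (nat_lit 0x3a000d000800000000a000100000000000000000000000) := T_42 (nat_lit 162) (nat_lit 179) (nat_lit 7) (nat_lit 8) (nat_lit 6) L116285 (by decide +kernel)
theorem L116287 : W_42 (nat_lit 2) (nat_lit 0x70005000380014000000000000000000000000000) (nat_lit 0x0) (nat_lit 0x80008000040000000000000000000000000000000) := D_42 (nat_lit 147) (nat_lit 163) (nat_lit 126) (nat_lit 2) (nat_lit 7) (nat_lit 9) (nat_lit 3) (nat_lit 7) (nat_lit 7) (by decide +kernel)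
theorem L116288 : W_42 (nat_lit 3) (nat_lit 0x30005000380014000000000000000000000000000) (nat_lit 0x0) (nat_lit 0x8000c0008000040000000000000000000000000000000) := T_42 (nat_lit 162) (nat_lit 179) (nat_lit 7) (nat_lit 8) (nat_lit 6) L116287 (by decide +kernel)
theorem L116289 : W_42 (nat_lit 4) (nat_lit 0x20005000380014000000000000000000000000000) (nat_lit 0x0) (nat_lit 0xa000d0008000040000000000000000000000000000000) := T_42 (nat_lit 160) (nat_lit 177) (nat_lit 5) (nat_lit 8) (nat_lit 6) L116288 (by decide +kernel)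
theorem L116290 : W_42 (nat_lit 2) (nat_lit 0x60005000380014001800000000000000000000000) (nat_lit 0x0) (nat_lit 0xa000100000000000000000000000) := D_42 (nat_lit 109) (nat_lit 111) (nat_lit 92) (nat_lit 2) (nat_lit 7) (nat_lit 6) (nat_lit 4) (nat_lit 8) (nat_lit 9) (by decide +kernel)
theorem L116291 : W_42 (nat_lit 3) (nat_lit 0x60005000380014000800000000000000000000000) (nat_lit 0x0) (nat_lit 0xa001100080000000000000000000) := T_42 (nat_lit 96) (nat_lit 79) (nat_lit 6) (nat_lit 10) (nat_lit 8) L116290 (by decide +kernel)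
theorem L116292 : W_42 (nat_lit 4) (nat_lit 0x20005000380014000800000000000000000000000) (nat_lit 0x0) (nat_lit 0x80004000000000000a001100080000000000000000000) := T_42 (nat_lit 162) (nat_lit 179) (nat_lit 7) (nat_lit 8) (nat_lit 6) L116291 (by decide +kernel)
theorem L116293 : W_42 (nat_lit 2) (nat_lit 0x30005000380014001800000000000000000000000) (nat_lit 0x0) (nat_lit 0xa000100000000000000000000000) := D_42 (nat_lit 109) (nat_lit 111) (nat_lit 92) (nat_lit 2) (nat_lit 7) (nat_lit 6) (nat_lit 4) (nat_lit 8) (nat_lit 9) (by decide +kernel)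
theorem L116294 : W_42 (nat_lit 3) (nat_lit 0x30005000380014000800000000000000000000000) (nat_lit 0x0) (nat_lit 0xa001100080000000000000000000) := T_42 (nat_lit 96) (nat_lit 79) (nat_lit 6) (nat_lit 10) (nat_lit 8) L116293 (by decide +kernel)
theorem L116295 : W_42 (nat_lit 4) (nat_lit 0x20005000380014000800000000000000000000000) (nat_lit 0x0) (nat_lit 0x20001000000000000a001100080000000000000000000) := T_42 (nat_lit 160) (nat_lit 177) (nat_lit 5) (nat_lit 8) (nat_lit 6) L116294 (by decide +kernel)
theorem L116296 : W_42 (nat_lit 2) (nat_lit 0x700050003800140008000c0002000000000000000) (nat_lit 0x0) (nat_lit 0x20001000080000000000) := D_42 (nat_lit 60) (nat_lit 43) (nat_lit 77) (nat_lit 4) (nat_lit 10) (nat_lit 6) (nat_lit 4) (nat_lit 10) (nat_lit 7) (by decide +kernel)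
theorem L116297 : W_42 (nat_lit 3) (nat_lit 0x700050003800140008000c0000000000000000000) (nat_lit 0x0) (nat_lit 0x8000000020003000080000000000) := T_42 (nat_lit 61) (nat_lit 111) (nat_lit 5) (nat_lit 10) (nat_lit 3) L116296 (by decide +kernel)
theorem L116298 : W_42 (nat_lit 4) (nat_lit 0x70005000380014000800080000000000000000000) (nat_lit 0x0) (nat_lit 0x8000000060007000080000000000) := T_42 (nat_lit 78) (nat_lit 62) (nat_lit 6) (nat_lit 10) (nat_lit 7) L116297 (by decide +kernel)
theorem L116299 : W_42 (nat_lit 5) (nat_lit 0x70005000380014000800000000000000000000000) (nat_lit 0x0) (nat_lit 0x80010000e0007000080000000000) := T_42 (nat_lit 79) (nat_lit 96) (nat_lit 6) (nat_lit 10) (nat_lit 8) L116298 (by decide +kernel)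
theorem L116300 : W_42 (nat_lit 6) (nat_lit 0x60005000380014000800000000000000000000000) (nat_lit 0x0) (nat_lit 0x2000100000000000080010000e0007000080000000000) := T_42 (nat_lit 160) (nat_lit 177) (nat_lit 5) (nat_lit 8) (nat_lit 6) L116299 (by decide +kernel)
theorem L116301 : W_42 (nat_lit 7) (nat_lit 0x20005000380014000800000000000000000000000) (nat_lit 0x0) (nat_lit 0xa000500000000000080010000e0007000080000000000) := T_42 (nat_lit 162) (nat_lit 179) (nat_lit 7) (nat_lit 8) (nat_lit 6) L116300 (by decide +kernel)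
theorem L116302 : W_42 (nat_lit 2) (nat_lit 0x70005000380014000b000c0000000000000000000) (nat_lit 0x0) (nat_lit 0x30001000000000000000) := D_42 (nat_lit 77) (nat_lit 60) (nat_lit 76) (nat_lit 4) (nat_lit 10) (nat_lit 7) (nat_lit 1) (nat_lit 11) (nat_lit 4) (by decide +kernel)
theorem L116303 : W_42 (nat_lit 3) (nat_lit 0x70005000380014000b00080000000000000000000) (nat_lit 0x0) (nat_lit 0x70005000000000000000) := T_42 (nat_lit 78) (nat_lit 62) (nat_lit 6) (nat_lit 10) (nat_lit 7) L116302 (by decide +kernel)
theorem L116304 : W_42 (nat_lit 4) (nat_lit 0x30005000380014000b00080000000000000000000) (nat_lit 0x0) (nat_lit 0x800040000000000000000000070005000000000000000) := T_42 (nat_lit 162) (nat_lit 179) (nat_lit 7) (nat_lit 8) (nat_lit 6) L116303 (by decide +kernel)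
theorem L116305 : W_42 (nat_lit 5) (nat_lit 0x30005000380014000900080000000000000000000) (nat_lit 0x0) (nat_lit 0x800040000000000000000200078005000000000000000) := T_42 (nat_lit 93) (nat_lit 75) (nat_lit 4) (nat_lit 8) (nat_lit 8) L116304 (by decide +kernel)
theorem L116306 : W_42 (nat_lit 6) (nat_lit 0x20005000380014000900080000000000000000000) (nat_lit 0x0) (nat_lit 0xa00050000000000000000200078005000000000000000) := T_42 (nat_lit 160) (nat_lit 177) (nat_lit 5) (nat_lit 8) (nat_lit 6) L116305 (by decide +kernel)
theorem L116307 : W_42 (nat_lit 7) (nat_lit 0x20005000380014000800080000000000000000000) (nat_lit 0x0) (nat_lit 0xa00050000000000002000300078005000000000000000) := T_42 (nat_lit 92) (nat_lit 109) (nat_lit 4) (nat_lit 8) (nat_lit 9) L116306 (by decide +kernel)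
theorem L116308 : W_42 (nat_lit 8) (nat_lit 0x20005000380014000800000000000000000000000) (nat_lit 0x0) (nat_lit 0xa000500000000000020013000f8005000000000000000) := T_42 (nat_lit 79) (nat_lit 96) (nat_lit 6) (nat_lit 10) (nat_lit 8) L116307 (by decide +kernel)
theorem L116309 : W_42 (nat_lit 2) (nat_lit 0x60005000380014000800040002000000000000000) (nat_lit 0x0) (nat_lit 0x20001000080000000000) := D_42 (nat_lit 60) (nat_lit 43) (nat_lit 77) (nat_lit 4) (nat_lit 10) (nat_lit 6) (nat_lit 4) (nat_lit 10) (nat_lit 7) (by decide +kernel)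
theorem L116310 : W_42 (nat_lit 3) (nat_lit 0x60005000380014000800040000000000000000000) (nat_lit 0x0) (nat_lit 0x8000000020003000080000000000) := T_42 (nat_lit 61) (nat_lit 111) (nat_lit 5) (nat_lit 10) (nat_lit 3) L116309 (by decide +kernel)
theorem L116311 : W_42 (nat_lit 4) (nat_lit 0x20005000380014000800040000000000000000000) (nat_lit 0x0) (nat_lit 0x800040000000000008000000020003000080000000000) := T_42 (nat_lit 162) (nat_lit 179) (nat_lit 7) (nat_lit 8) (nat_lit 6) L116310 (by decide +kernel)
theorem L116312 : W_42 (nat_lit 2) (nat_lit 0x20005000380014000800040002000000000000000) (nat_lit 0x0) (nat_lit 0x20001000080000000000) := D_42 (nat_lit 60) (nat_lit 43) (nat_lit 77) (nat_lit 4) (nat_lit 10) (nat_lit 6) (nat_lit 4) (nat_lit 10) (nat_lit 7) (by decide +kernel)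
theorem L116313 : W_42 (nat_lit 3) (nat_lit 0x20005000380014000800040000000000000000000) (nat_lit 0x0) (nat_lit 0x8000000020003000080000000000) := T_42 (nat_lit 61) (nat_lit 111) (nat_lit 5) (nat_lit 10) (nat_lit 3) L116312 (by decide +kernel)
theorem L116314 : W_42 (nat_lit 2) (nat_lit 0x70005000380014000900048007c00000000000000) (nat_lit 0x0) (nat_lit 0x70000000000) := D_42 (nat_lit 41) (nat_lit 40) (nat_lit 42) (nat_lit 0) (nat_lit 10) (nat_lit 3) (nat_lit 0) (nat_lit 11) (nat_lit 3) (by decide +kernel)
theorem L116315 : W_42 (nat_lit 3) (nat_lit 0x70005000380014000900048007800000000000000) (nat_lit 0x0) (nat_lit 0x4000400070000000000) := T_42 (nat_lit 58) (nat_lit 74) (nat_lit 1) (nat_lit 10) (nat_lit 3) L116314 (by decide +kernel)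
theorem L116316 : W_42 (nat_lit 4) (nat_lit 0x70005000380014000900048007000000000000000) (nat_lit 0x0) (nat_lit 0x14000c00070000000000) := T_42 (nat_lit 59) (nat_lit 76) (nat_lit 1) (nat_lit 11) (nat_lit 3) L116315 (by decide +kernel)
theorem L116317 : W_42 (nat_lit 5) (nat_lit 0x70005000380014000900040007000000000000000) (nat_lit 0x0) (nat_lit 0x20001c000c00070000000000) := T_42 (nat_lit 75) (nat_lit 93) (nat_lit 4) (nat_lit 8) (nat_lit 8) L116316 (by decide +kernel)
theorem L116318 : W_42 (nat_lit 6) (nat_lit 0x70005000380014000800040007000000000000000) (nat_lit 0x0) (nat_lit 0x200030001c000c00070000000000) := T_42 (nat_lit 92) (nat_lit 109) (nat_lit 4) (nat_lit 8) (nat_lit 9) L116317 (by decide +kernel)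
theorem L116319 : W_42 (nat_lit 7) (nat_lit 0x60005000380014000800040007000000000000000) (nat_lit 0x0) (nat_lit 0x20001000000000000200030001c000c00070000000000) := T_42 (nat_lit 160) (nat_lit 177) (nat_lit 5) (nat_lit 8) (nat_lit 6) L116318 (by decide +kernel)
theorem L116320 : W_42 (nat_lit 8) (nat_lit 0x20005000380014000800040007000000000000000) (nat_lit 0x0) (nat_lit 0xa0005000000000000200030001c000c00070000000000) := T_42 (nat_lit 162) (nat_lit 179) (nat_lit 7) (nat_lit 8) (nat_lit 6) L116319 (by decide +kernel)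
theorem L116321 : W_42 (nat_lit 9) (nat_lit 0x20005000380014000800040003000000000000000) (nat_lit 0x0) (nat_lit 0xa0005000000000000200030001c004c00270000000000) := T_42 (nat_lit 62) (nat_lit 45) (nat_lit 6) (nat_lit 10) (nat_lit 6) L116320 (by decide +kernel)
theorem L116322 : W_42 (nat_lit 10) (nat_lit 0x20005000380014000800040002000000000000000) (nat_lit 0x0) (nat_lit 0xa0005000000000000200030001c005c002f0000000000) := T_42 (nat_lit 60) (nat_lit 43) (nat_lit 4) (nat_lit 10) (nat_lit 6) L116321 (by decide +kernel)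
theorem L116323 : W_42 (nat_lit 11) (nat_lit 0x20005000380014000800040000000000000000000) (nat_lit 0x0) (nat_lit 0xa0005000000000000a00030001c007c002f0000000000) := T_42 (nat_lit 61) (nat_lit 111) (nat_lit 5) (nat_lit 10) (nat_lit 3) L116322 (by decide +kernel)
theorem L116324 : W_42 (nat_lit 2) (nat_lit 0x20005000380014000900068000000000000000000) (nat_lit 0x0) (nat_lit 0x1080010000000000000000000) := D_42 (nat_lit 76) (nat_lit 96) (nat_lit 91) (nat_lit 3) (nat_lit 7) (nat_lit 4) (nat_lit 1) (nat_lit 10) (nat_lit 4) (by decide +kernel)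
theorem L116325 : W_42 (nat_lit 3) (nat_lit 0x20005000380014000900060000000000000000000) (nat_lit 0x0) (nat_lit 0x1280018000000000000000000) := T_42 (nat_lit 75) (nat_lit 93) (nat_lit 4) (nat_lit 8) (nat_lit 8) L116324 (by decide +kernel)
theorem L116326 : W_42 (nat_lit 4) (nat_lit 0x20005000380014000900040000000000000000000) (nat_lit 0x0) (nat_lit 0x1280038001000000000000000) := T_42 (nat_lit 77) (nat_lit 60) (nat_lit 4) (nat_lit 10) (nat_lit 7) L116325 (by decide +kernel)
theorem L116327 : W_42 (nat_lit 5) (nat_lit 0x20005000380014000800040000000000000000000) (nat_lit 0x0) (nat_lit 0x2001380038001000000000000000) := T_42 (nat_lit 92) (nat_lit 109) (nat_lit 4) (nat_lit 8) (nat_lit 9) L116326 (by decide +kernel)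
theorem L116328 : W_42 (nat_lit 2) (nat_lit 0x60005000380016000800040000000000000000000) (nat_lit 0x0) (nat_lit 0x8001000000002000000000000000) := D_42 (nat_lit 111) (nat_lit 96) (nat_lit 61) (nat_lit 2) (nat_lit 7) (nat_lit 6) (nat_lit 5) (nat_lit 10) (nat_lit 3) (by decide +kernel)
theorem L116329 : W_42 (nat_lit 3) (nat_lit 0x60005000380014000800040000000000000000000) (nat_lit 0x0) (nat_lit 0xa001100000002000000000000000) := T_42 (nat_lit 109) (nat_lit 92) (nat_lit 4) (nat_lit 8) (nat_lit 9) L116328 (by decide +kernel)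
theorem L116330 : W_42 (nat_lit 4) (nat_lit 0x20005000380014000800040000000000000000000) (nat_lit 0x0) (nat_lit 0x80004000000000000a001100000002000000000000000) := T_42 (nat_lit 162) (nat_lit 179) (nat_lit 7) (nat_lit 8) (nat_lit 6) L116329 (by decide +kernel)
theorem L116331 : W_42 (nat_lit 12) (nat_lit 0x20005000380014000800000000000000000000000) (nat_lit 0x0) (nat_lit 0xa0005000000000000a00138007c007c002f0000000000) := Q_42 (nat_lit 78) (C_42 L116311 (C_42 L116313 (C_42 L116323 (C_42 L116327 (C_42 L116330 N_42))))) (by decide +kernel)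
theorem L116332 : W_42 (nat_lit 2) (nat_lit 0x200050003800140009000e0000000000000000000) (nat_lit 0x0) (nat_lit 0x200018000000000000000000) := D_42 (nat_lit 93) (nat_lit 76) (nat_lit 75) (nat_lit 1) (nat_lit 11) (nat_lit 4) (nat_lit 4) (nat_lit 8) (nat_lit 8) (by decide +kernel)
theorem L116333 : W_42 (nat_lit 3) (nat_lit 0x200050003800140009000c0000000000000000000) (nat_lit 0x0) (nat_lit 0x200038001000000000000000) := T_42 (nat_lit 77) (nat_lit 60) (nat_lit 4) (nat_lit 10) (nat_lit 7) L116332 (by decide +kernel)
theorem L116334 : W_42 (nat_lit 4) (nat_lit 0x200050003800140008000c0000000000000000000) (nat_lit 0x0) (nat_lit 0x2000300038001000000000000000) := T_42 (nat_lit 92) (nat_lit 109) (nat_lit 4) (nat_lit 8) (nat_lit 9) L116333 (by decide +kernel)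
theorem L116335 : W_42 (nat_lit 5) (nat_lit 0x20005000380014000800040000000000000000000) (nat_lit 0x0) (nat_lit 0x20003000b8005000000000000000) := T_42 (nat_lit 79) (nat_lit 62) (nat_lit 6) (nat_lit 10) (nat_lit 7) L116334 (by decide +kernel)
theorem L116336 : W_42 (nat_lit 2) (nat_lit 0x20005000380014000800040002000000000000000) (nat_lit 0x0) (nat_lit 0x80004000200000000000) := D_42 (nat_lit 62) (nat_lit 79) (nat_lit 45) (nat_lit 6) (nat_lit 10) (nat_lit 7) (nat_lit 6) (nat_lit 10) (nat_lit 6) (by decide +kernel)
theorem L116337 : W_42 (nat_lit 3) (nat_lit 0x20005000380014000800040000000000000000000) (nat_lit 0x0) (nat_lit 0x8000000080006000200000000000) := T_42 (nat_lit 61) (nat_lit 111) (nat_lit 5) (nat_lit 10) (nat_lit 3) L116336 (by decide +kernel)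
theorem L116338 : W_42 (nat_lit 12) (nat_lit 0x20005000380014000800000000000000000000000) (nat_lit 0x0) (nat_lit 0xa0005000000000000a0003000fc007c002f0000000000) := Q_42 (nat_lit 78) (C_42 L116323 (C_42 L116313 (C_42 L116335 (C_42 L116337 N_42)))) (by decide +kernel)
theorem L116339 : W_42 (nat_lit 13) (nat_lit 0x20005000380014000000000000000000000000000) (nat_lit 0x0) (nat_lit 0xa0005000000000000a001b800fc007c002f0000000000) := Q_42 (nat_lit 95) (C_42 L116292 (C_42 L116295 (C_42 L116301 (C_42 L116308 (C_42 L116331 (C_42 L116338 N_42)))))) (by decide +kernel)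
theorem L116340 : W_42 (nat_lit 14) (nat_lit 0x20001000380014000000000000000000000000000) (nat_lit 0x0) (nat_lit 0x3a000d000c70007800a001b800fc007c002f0000000000) := Q_42 (nat_lit 146) (C_42 L116277 (C_42 L116281 (C_42 L116286 (C_42 L116289 (C_42 L116339 N_42))))) (by decide +kernel)
theorem L116341 : W_42 (nat_lit 15) (nat_lit 0x20001000380004000000000000000000000000000) (nat_lit 0x0) (nat_lit 0x7a003d003c7008780fa001b800fc007c002f0000000000) := Q_42 (nat_lit 112) (C_42 L116233 (C_42 L116239 (C_42 L116245 (C_42 L116270 (C_42 L116272 (C_42 L116340 N_42)))))) (by decide +kernel)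
theorem L116342 : W_42 (nat_lit 16) (nat_lit 0x20001000180004000000000000000000000000000) (nat_lit 0x0) (nat_lit 0x7a003d003c700e780fa001b800fc007c002f0000000000) := Q_42 (nat_lit 129) (C_42 L116228 (C_42 L116229 (C_42 L116341 N_42))) (by decide +kernel)
theorem L116343 : W_42 (nat_lit 2) (nat_lit 0x300012001e0004000000000000000000000000000) (nat_lit 0x0) (nat_lit 0x100010008000000000000000000000000000) := D_42 (nat_lit 124) (nat_lit 140) (nat_lit 111) (nat_lit 1) (nat_lit 8) (nat_lit 7) (nat_lit 2) (nat_lit 5) (nat_lit 7) (by decide +kernel)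
theorem L116344 : W_42 (nat_lit 3) (nat_lit 0x300012001a0004000000000000000000000000000) (nat_lit 0x0) (nat_lit 0x500050008000000000000000000000000000) := T_42 (nat_lit 126) (nat_lit 142) (nat_lit 1) (nat_lit 9) (nat_lit 7) L116343 (by decide +kernel)
theorem L116345 : W_42 (nat_lit 4) (nat_lit 0x200012001a0004000000000000000000000000000) (nat_lit 0x0) (nat_lit 0x200010000500050008000000000000000000000000000) := T_42 (nat_lit 160) (nat_lit 177) (nat_lit 5) (nat_lit 8) (nat_lit 6) L116344 (by decide +kernel)
theorem L116346 : W_42 (nat_lit 4) (nat_lit 0x200012001a0004000000000000000000000000000) (nat_lit 0x0) (nat_lit 0x500050001c00000000000000000000000000) := T_42 (nat_lit 126) (nat_lit 142) (nat_lit 1) (nat_lit 9) (nat_lit 7) L110471 (by decide +kernel)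
theorem L116347 : W_42 (nat_lit 2) (nat_lit 0x7c0012001a0004000000000000000000000000000) (nat_lit 0x0) (nat_lit 0x1c0000000000000000000000000000000000000000000) := D_42 (nat_lit 175) (nat_lit 176) (nat_lit 174) (nat_lit 1) (nat_lit 9) (nat_lit 9) (nat_lit 1) (nat_lit 8) (nat_lit 9) (by decide +kernel)
theorem L116348 : W_42 (nat_lit 3) (nat_lit 0x780012001a0004000000000000000000000000000) (nat_lit 0x0) (nat_lit 0x1c0004000100000000000000000000000000000000000) := T_42 (nat_lit 158) (nat_lit 140) (nat_lit 0) (nat_lit 8) (nat_lit 9) L116347 (by decide +kernel)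
theorem L116349 : W_42 (nat_lit 4) (nat_lit 0x700012001a0004000000000000000000000000000) (nat_lit 0x0) (nat_lit 0x1c000c000500000000000000000000000000000000000) := T_42 (nat_lit 159) (nat_lit 142) (nat_lit 0) (nat_lit 9) (nat_lit 9) L116348 (by decide +kernel)
theorem L116350 : W_42 (nat_lit 5) (nat_lit 0x300012001a0004000000000000000000000000000) (nat_lit 0x0) (nat_lit 0x9c004c000500000000000000000000000000000000000) := T_42 (nat_lit 162) (nat_lit 179) (nat_lit 7) (nat_lit 8) (nat_lit 6) L116349 (by decide +kernel)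
theorem L116351 : W_42 (nat_lit 6) (nat_lit 0x200012001a0004000000000000000000000000000) (nat_lit 0x0) (nat_lit 0xbc005c000500000000000000000000000000000000000) := T_42 (nat_lit 160) (nat_lit 177) (nat_lit 5) (nat_lit 8) (nat_lit 6) L116350 (by decide +kernel)
theorem L116352 : W_42 (nat_lit 2) (nat_lit 0x200012001b0004000000000000000000000000000) (nat_lit 0x0) (nat_lit 0x100040008000000000000000000000000000) := D_42 (nat_lit 126) (nat_lit 140) (nat_lit 111) (nat_lit 1) (nat_lit 8) (nat_lit 7) (nat_lit 2) (nat_lit 5) (nat_lit 7) (by decide +kernel)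
theorem L116353 : W_42 (nat_lit 2) (nat_lit 0x600012001f0004000000000000000000000000000) (nat_lit 0x0) (nat_lit 0x1c00000000000000000000000000) := D_42 (nat_lit 107) (nat_lit 108) (nat_lit 106) (nat_lit 0) (nat_lit 9) (nat_lit 7) (nat_lit 0) (nat_lit 8) (nat_lit 7) (by decide +kernel)
theorem L116354 : W_42 (nat_lit 3) (nat_lit 0x600012001b0004000000000000000000000000000) (nat_lit 0x0) (nat_lit 0x100040001c00000000000000000000000000) := T_42 (nat_lit 126) (nat_lit 140) (nat_lit 1) (nat_lit 8) (nat_lit 7) L116353 (by decide +kernel)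
theorem L116355 : W_42 (nat_lit 4) (nat_lit 0x200012001b0004000000000000000000000000000) (nat_lit 0x0) (nat_lit 0x800040000100040001c00000000000000000000000000) := T_42 (nat_lit 162) (nat_lit 179) (nat_lit 7) (nat_lit 8) (nat_lit 6) L116354 (by decide +kernel)
theorem L116356 : W_42 (nat_lit 2) (nat_lit 0x3c0012001b0004000000000000000000000000000) (nat_lit 0x0) (nat_lit 0xc0000000000000001000000000000000000000000000) := D_42 (nat_lit 175) (nat_lit 108) (nat_lit 174) (nat_lit 6) (nat_lit 5) (nat_lit 10) (nat_lit 1) (nat_lit 8) (nat_lit 9) (by decide +kernel)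
theorem L116357 : W_42 (nat_lit 3) (nat_lit 0x340012001b0004000000000000000000000000000) (nat_lit 0x0) (nat_lit 0xc0008000100000001000000000000000000000000000) := T_42 (nat_lit 159) (nat_lit 140) (nat_lit 0) (nat_lit 8) (nat_lit 9) L116356 (by decide +kernel)
theorem L116358 : W_42 (nat_lit 4) (nat_lit 0x240012001b0004000000000000000000000000000) (nat_lit 0x0) (nat_lit 0x2c0018000100000001000000000000000000000000000) := T_42 (nat_lit 160) (nat_lit 177) (nat_lit 5) (nat_lit 8) (nat_lit 6) L116357 (by decide +kernel)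
theorem L116359 : W_42 (nat_lit 2) (nat_lit 0xc00240012001b0004800000000000000000000000000) (nat_lit 0x0) (nat_lit 0x8000400020000000000000000000000) := D_42 (nat_lit 106) (nat_lit 89) (nat_lit 123) (nat_lit 4) (nat_lit 5) (nat_lit 9) (nat_lit 4) (nat_lit 5) (nat_lit 10) (by decide +kernel)
theorem L116360 : W_42 (nat_lit 3) (nat_lit 0xc00240012001b0004000000000000000000000000000) (nat_lit 0x0) (nat_lit 0x2000000008000c00020000000000000000000000) := T_42 (nat_lit 107) (nat_lit 157) (nat_lit 5) (nat_lit 5) (nat_lit 6) L116359 (by decide +kernel)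
theorem L116361 : W_42 (nat_lit 4) (nat_lit 0x800240012001b0004000000000000000000000000000) (nat_lit 0x0) (nat_lit 0x800040002000000008000c00020000000000000000000000) := T_42 (nat_lit 174) (nat_lit 191) (nat_lit 5) (nat_lit 5) (nat_lit 7) L116360 (by decide +kernel)
theorem L116362 : W_42 (nat_lit 5) (nat_lit 0x240012001b0004000000000000000000000000000) (nat_lit 0x0) (nat_lit 0x8000c0002000000008001c00020000000000000000000000) := T_42 (nat_lit 175) (nat_lit 108) (nat_lit 6) (nat_lit 5) (nat_lit 10) L116361 (by decide +kernel)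
theorem L116363 : W_42 (nat_lit 2) (nat_lit 0x7c0012001b0004000000000000000000000000000) (nat_lit 0x0) (nat_lit 0x180000000000000000800000000000000000000000000) := D_42 (nat_lit 176) (nat_lit 175) (nat_lit 107) (nat_lit 1) (nat_lit 9) (nat_lit 9) (nat_lit 7) (nat_lit 5) (nat_lit 6) (by decide +kernel)
theorem L116364 : W_42 (nat_lit 3) (nat_lit 0x3c0012001b0004000000000000000000000000000) (nat_lit 0x0) (nat_lit 0x980040000000000000800000000000000000000000000) := T_42 (nat_lit 162) (nat_lit 179) (nat_lit 7) (nat_lit 8) (nat_lit 6) L116363 (by decide +kernel)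
theorem L116365 : W_42 (nat_lit 4) (nat_lit 0x340012001b0004000000000000000000000000000) (nat_lit 0x0) (nat_lit 0x980048000100000000800000000000000000000000000) := T_42 (nat_lit 159) (nat_lit 140) (nat_lit 0) (nat_lit 8) (nat_lit 9) L116364 (by decide +kernel)
theorem L116366 : W_42 (nat_lit 5) (nat_lit 0x240012001b0004000000000000000000000000000) (nat_lit 0x0) (nat_lit 0xb80058000100000000800000000000000000000000000) := T_42 (nat_lit 160) (nat_lit 177) (nat_lit 5) (nat_lit 8) (nat_lit 6) L116365 (by decide +kernel)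
theorem L116367 : W_42 (nat_lit 2) (nat_lit 0x7e0012001b00048000c0000000000000000000000) (nat_lit 0x0) (nat_lit 0x400020001000000000000000000) := D_42 (nat_lit 89) (nat_lit 72) (nat_lit 106) (nat_lit 4) (nat_lit 5) (nat_lit 8) (nat_lit 4) (nat_lit 5) (nat_lit 9) (by decide +kernel)
theorem L116368 : W_42 (nat_lit 3) (nat_lit 0x7e0012001b0004800080000000000000000000000) (nat_lit 0x0) (nat_lit 0x400060005000000000000000000) := T_42 (nat_lit 90) (nat_lit 74) (nat_lit 6) (nat_lit 5) (nat_lit 8) L116367 (by decide +kernel)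
theorem L116369 : W_42 (nat_lit 4) (nat_lit 0x7c0012001b0004800080000000000000000000000) (nat_lit 0x0) (nat_lit 0x40002000000000000400060005000000000000000000) := T_42 (nat_lit 157) (nat_lit 174) (nat_lit 5) (nat_lit 5) (nat_lit 6) L116368 (by decide +kernel)
theorem L116370 : W_42 (nat_lit 5) (nat_lit 0x7c0012001b0004800000000000000000000000000) (nat_lit 0x0) (nat_lit 0x400020000000000014000e0005000000000000000000) := T_42 (nat_lit 91) (nat_lit 108) (nat_lit 6) (nat_lit 5) (nat_lit 9) L116369 (by decide +kernel)
theorem L116371 : W_42 (nat_lit 6) (nat_lit 0x7c0012001b0004000000000000000000000000000) (nat_lit 0x0) (nat_lit 0x140002000000000001c000e0005000000000000000000) := T_42 (nat_lit 107) (nat_lit 176) (nat_lit 7) (nat_lit 5) (nat_lit 6) L116370 (by decide +kernel)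
theorem L116372 : W_42 (nat_lit 7) (nat_lit 0x740012001b0004000000000000000000000000000) (nat_lit 0x0) (nat_lit 0x14000a000100000001c000e0005000000000000000000) := T_42 (nat_lit 159) (nat_lit 140) (nat_lit 0) (nat_lit 8) (nat_lit 9) L116371 (by decide +kernel)
theorem L116373 : W_42 (nat_lit 8) (nat_lit 0x640012001b0004000000000000000000000000000) (nat_lit 0x0) (nat_lit 0x34001a000100000001c000e0005000000000000000000) := T_42 (nat_lit 160) (nat_lit 177) (nat_lit 5) (nat_lit 8) (nat_lit 6) L116372 (by decide +kernel)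
theorem L116374 : W_42 (nat_lit 9) (nat_lit 0x240012001b0004000000000000000000000000000) (nat_lit 0x0) (nat_lit 0xb4005a000100000001c000e0005000000000000000000) := T_42 (nat_lit 162) (nat_lit 179) (nat_lit 7) (nat_lit 8) (nat_lit 6) L116373 (by decide +kernel)
theorem L116375 : W_42 (nat_lit 10) (nat_lit 0x200012001b0004000000000000000000000000000) (nat_lit 0x0) (nat_lit 0x800bc005e000100008001c000e0005000000000000000000) := Q_42 (nat_lit 158) (C_42 L116358 (C_42 L116362 (C_42 L116366 (C_42 L116374 N_42)))) (by decide +kernel)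
theorem L116376 : W_42 (nat_lit 2) (nat_lit 0x300012001f0004000000000000000000000000000) (nat_lit 0x0) (nat_lit 0x1c00000000000000000000000000) := D_42 (nat_lit 107) (nat_lit 108) (nat_lit 106) (nat_lit 0) (nat_lit 9) (nat_lit 7) (nat_lit 0) (nat_lit 8) (nat_lit 7) (by decide +kernel)
theorem L116377 : W_42 (nat_lit 3) (nat_lit 0x300012001b0004000000000000000000000000000) (nat_lit 0x0) (nat_lit 0x40009c00000000000000000000000000) := T_42 (nat_lit 126) (nat_lit 111) (nat_lit 2) (nat_lit 5) (nat_lit 7) L116376 (by decide +kernel)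
theorem L116378 : W_42 (nat_lit 4) (nat_lit 0x200012001b0004000000000000000000000000000) (nat_lit 0x0) (nat_lit 0x200010000000040009c00000000000000000000000000) := T_42 (nat_lit 160) (nat_lit 177) (nat_lit 5) (nat_lit 8) (nat_lit 6) L116377 (by decide +kernel)
theorem L116379 : W_42 (nat_lit 11) (nat_lit 0x200012001a0004000000000000000000000000000) (nat_lit 0x0) (nat_lit 0x800bc005e000100058009c000e0005000000000000000000) := Q_42 (nat_lit 124) (C_42 L116352 (C_42 L116355 (C_42 L116375 (C_42 L116378 N_42)))) (by decide +kernel)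
theorem L116380 : W_42 (nat_lit 2) (nat_lit 0x300012001e0004000000000000000000000000000) (nat_lit 0x0) (nat_lit 0x10018000000000000000000000000000) := D_42 (nat_lit 111) (nat_lit 124) (nat_lit 112) (nat_lit 2) (nat_lit 5) (nat_lit 7) (nat_lit 2) (nat_lit 6) (nat_lit 7) (by decide +kernel)
theorem L116381 : W_42 (nat_lit 3) (nat_lit 0x300012001a0004000000000000000000000000000) (nat_lit 0x0) (nat_lit 0x400050018000000000000000000000000000) := T_42 (nat_lit 126) (nat_lit 142) (nat_lit 1) (nat_lit 9) (nat_lit 7) L116380 (by decide +kernel)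
theorem L116382 : W_42 (nat_lit 4) (nat_lit 0x200012001a0004000000000000000000000000000) (nat_lit 0x0) (nat_lit 0x200010000400050018000000000000000000000000000) := T_42 (nat_lit 160) (nat_lit 177) (nat_lit 5) (nat_lit 8) (nat_lit 6) L116381 (by decide +kernel)
theorem L116383 : W_42 (nat_lit 12) (nat_lit 0x200010001a0004000000000000000000000000000) (nat_lit 0x0) (nat_lit 0x800bc005e000700058019c000e0005000000000000000000) := Q_42 (nat_lit 141) (C_42 L116345 (C_42 L116346 (C_42 L116351 (C_42 L116379 (C_42 L116382 N_42))))) (by decide +kernel)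
theorem L116387 : W_42 (nat_lit 5) (nat_lit 0x600010001a000f000000000000000000000000000) (nat_lit 0x0) (nat_lit 0x400700038c0000000000000000000000) := T_42 (nat_lit 91) (nat_lit 90) (nat_lit 0) (nat_lit 9) (nat_lit 6) L116386 (by decide +kernel)
theorem L116388 : W_42 (nat_lit 6) (nat_lit 0x600010001a0007000000000000000000000000000) (nat_lit 0x0) (nat_lit 0x500780038c0000000000000000000000) := T_42 (nat_lit 111) (nat_lit 124) (nat_lit 1) (nat_lit 9) (nat_lit 6) L116387 (by decide +kernel)
theorem L116389 : W_42 (nat_lit 7) (nat_lit 0x200010001a0007000000000000000000000000000) (nat_lit 0x0) (nat_lit 0x8000400000000500780038c0000000000000000000000) := T_42 (nat_lit 162) (nat_lit 179) (nat_lit 7) (nat_lit 8) (nat_lit 6) L116388 (by decide +kernel)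
theorem L116390 : W_42 (nat_lit 8) (nat_lit 0x200010001a0006000000000000000000000000000) (nat_lit 0x0) (nat_lit 0x8000400000000500798038c0000000000000000000000) := T_42 (nat_lit 108) (nat_lit 107) (nat_lit 3) (nat_lit 5) (nat_lit 6) L116389 (by decide +kernel)
theorem L116391 : W_42 (nat_lit 9) (nat_lit 0x200010001a0004000000000000000000000000000) (nat_lit 0x0) (nat_lit 0x80004000000005007b8039c0000000000000000000000) := T_42 (nat_lit 109) (nat_lit 92) (nat_lit 4) (nat_lit 8) (nat_lit 9) L116390 (by decide +kernel)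
theorem L116392 : W_42 (nat_lit 2) (nat_lit 0x300010001a001f001080000000000000000000000) (nat_lit 0x0) (nat_lit 0x60002000000000000000000000000) := D_42 (nat_lit 113) (nat_lit 114) (nat_lit 97) (nat_lit 1) (nat_lit 12) (nat_lit 6) (nat_lit 2) (nat_lit 8) (nat_lit 6) (by decide +kernel)
theorem L116393 : W_42 (nat_lit 3) (nat_lit 0x300010001a001f000080000000000000000000000) (nat_lit 0x0) (nat_lit 0x60003800000000000000000000000) := T_42 (nat_lit 96) (nat_lit 95) (nat_lit 2) (nat_lit 7) (nat_lit 6) L116392 (by decide +kernel)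
theorem L116394 : W_42 (nat_lit 4) (nat_lit 0x300010001a000f000080000000000000000000000) (nat_lit 0x0) (nat_lit 0x40070003800000000000000000000000) := T_42 (nat_lit 112) (nat_lit 126) (nat_lit 2) (nat_lit 6) (nat_lit 7) L116393 (by decide +kernel)
theorem L116395 : W_42 (nat_lit 5) (nat_lit 0x300010001a000f000000000000000000000000000) (nat_lit 0x0) (nat_lit 0x400700038c0000000000000000000000) := T_42 (nat_lit 91) (nat_lit 90) (nat_lit 0) (nat_lit 9) (nat_lit 6) L116394 (by decide +kernel)
theorem L116396 : W_42 (nat_lit 6) (nat_lit 0x300010001a0007000000000000000000000000000) (nat_lit 0x0) (nat_lit 0x500780038c0000000000000000000000) := T_42 (nat_lit 111) (nat_lit 124) (nat_lit 1) (nat_lit 9) (nat_lit 6) L116395 (by decide +kernel)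
theorem L116397 : W_42 (nat_lit 7) (nat_lit 0x300010001a0006000000000000000000000000000) (nat_lit 0x0) (nat_lit 0x500798038c0000000000000000000000) := T_42 (nat_lit 108) (nat_lit 107) (nat_lit 3) (nat_lit 5) (nat_lit 6) L116396 (by decide +kernel)
theorem L116398 : W_42 (nat_lit 8) (nat_lit 0x300010001a0004000000000000000000000000000) (nat_lit 0x0) (nat_lit 0x5007b8039c0000000000000000000000) := T_42 (nat_lit 109) (nat_lit 92) (nat_lit 4) (nat_lit 8) (nat_lit 9) L116397 (by decide +kernel)
theorem L116399 : W_42 (nat_lit 9) (nat_lit 0x200010001a0004000000000000000000000000000) (nat_lit 0x0) (nat_lit 0x20001000000005007b8039c0000000000000000000000) := T_42 (nat_lit 160) (nat_lit 177) (nat_lit 5) (nat_lit 8) (nat_lit 6) L116398 (by decide +kernel)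
theorem L116400 : W_42 (nat_lit 2) (nat_lit 0x600010001b0007000000000000000000000000000) (nat_lit 0x0) (nat_lit 0x4c000000000000000000000000000000) := D_42 (nat_lit 123) (nat_lit 122) (nat_lit 126) (nat_lit 2) (nat_lit 3) (nat_lit 7) (nat_lit 2) (nat_lit 4) (nat_lit 7) (by decide +kernel)
theorem L116401 : W_42 (nat_lit 3) (nat_lit 0x600010001a0007000000000000000000000000000) (nat_lit 0x0) (nat_lit 0x5c008000000000000000000000000000) := T_42 (nat_lit 124) (nat_lit 111) (nat_lit 1) (nat_lit 9) (nat_lit 6) L116400 (by decide +kernel)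
theorem L116402 : W_42 (nat_lit 4) (nat_lit 0x200010001a0007000000000000000000000000000) (nat_lit 0x0) (nat_lit 0x80004000000005c008000000000000000000000000000) := T_42 (nat_lit 162) (nat_lit 179) (nat_lit 7) (nat_lit 8) (nat_lit 6) L116401 (by decide +kernel)
theorem L116403 : W_42 (nat_lit 5) (nat_lit 0x200010001a0006000000000000000000000000000) (nat_lit 0x0) (nat_lit 0x80004000000005c009800000000000000000000000000) := T_42 (nat_lit 108) (nat_lit 107) (nat_lit 3) (nat_lit 5) (nat_lit 6) L116402 (by decide +kernel)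
theorem L116404 : W_42 (nat_lit 6) (nat_lit 0x200010001a0004000000000000000000000000000) (nat_lit 0x0) (nat_lit 0x80004000000005c00b800100000000000000000000000) := T_42 (nat_lit 109) (nat_lit 92) (nat_lit 4) (nat_lit 8) (nat_lit 9) L116403 (by decide +kernel)
theorem L116405 : W_42 (nat_lit 2) (nat_lit 0x780014001a0005000100008000000000000000000) (nat_lit 0x0) (nat_lit 0x180004000000000000000000000000000000000000000) := D_42 (nat_lit 175) (nat_lit 176) (nat_lit 158) (nat_lit 1) (nat_lit 9) (nat_lit 9) (nat_lit 5) (nat_lit 6) (nat_lit 6) (by decide +kernel)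
theorem L116406 : W_42 (nat_lit 3) (nat_lit 0x700014001a0005000100008000000000000000000) (nat_lit 0x0) (nat_lit 0x18000c000200000000000000000000000000000000000) := T_42 (nat_lit 159) (nat_lit 141) (nat_lit 0) (nat_lit 9) (nat_lit 9) L116405 (by decide +kernel)
theorem L116407 : W_42 (nat_lit 4) (nat_lit 0x700010001a0005000100008000000000000000000) (nat_lit 0x0) (nat_lit 0x18000c000600000000000080000000000000000000000) := T_42 (nat_lit 142) (nat_lit 91) (nat_lit 6) (nat_lit 6) (nat_lit 8) L116406 (by decide +kernel)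
theorem L116408 : W_42 (nat_lit 5) (nat_lit 0x600010001a0005000100008000000000000000000) (nat_lit 0x0) (nat_lit 0x38001c000600000000000080000000000000000000000) := T_42 (nat_lit 160) (nat_lit 177) (nat_lit 5) (nat_lit 8) (nat_lit 6) L116407 (by decide +kernel)
theorem L116409 : W_42 (nat_lit 6) (nat_lit 0x600010001a0005000000008000000000000000000) (nat_lit 0x0) (nat_lit 0x38001c000600000000000380000000000000000000000) := T_42 (nat_lit 92) (nat_lit 93) (nat_lit 4) (nat_lit 8) (nat_lit 8) L116408 (by decide +kernel)
theorem L116410 : W_42 (nat_lit 7) (nat_lit 0x200010001a0005000000008000000000000000000) (nat_lit 0x0) (nat_lit 0xb8005c000600000000000380000000000000000000000) := T_42 (nat_lit 162) (nat_lit 179) (nat_lit 7) (nat_lit 8) (nat_lit 6) L116409 (by decide +kernel)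
theorem L116411 : W_42 (nat_lit 2) (nat_lit 0x600010001a0005000200018000800000000000000) (nat_lit 0x0) (nat_lit 0x20001000080000000000) := D_42 (nat_lit 60) (nat_lit 43) (nat_lit 77) (nat_lit 6) (nat_lit 8) (nat_lit 6) (nat_lit 6) (nat_lit 8) (nat_lit 7) (by decide +kernel)
theorem L116412 : W_42 (nat_lit 3) (nat_lit 0x600010001a0005000200018000000000000000000) (nat_lit 0x0) (nat_lit 0x8000000020001800080000000000) := T_42 (nat_lit 59) (nat_lit 111) (nat_lit 7) (nat_lit 8) (nat_lit 3) L116411 (by decide +kernel)
theorem L116413 : W_42 (nat_lit 4) (nat_lit 0x200010001a0005000200018000000000000000000) (nat_lit 0x0) (nat_lit 0x800040000000000008000000020001800080000000000) := T_42 (nat_lit 162) (nat_lit 179) (nat_lit 7) (nat_lit 8) (nat_lit 6) L116412 (by decide +kernel)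
theorem L116414 : W_42 (nat_lit 5) (nat_lit 0x200010001a0005000200008000000000000000000) (nat_lit 0x0) (nat_lit 0x800040000000000008000000030001c00080000000000) := T_42 (nat_lit 76) (nat_lit 58) (nat_lit 4) (nat_lit 8) (nat_lit 7) L116413 (by decide +kernel)
theorem L116415 : W_42 (nat_lit 6) (nat_lit 0x200010001a0005000000008000000000000000000) (nat_lit 0x0) (nat_lit 0x800040000000000008000300030001c00080000000000) := T_42 (nat_lit 93) (nat_lit 92) (nat_lit 4) (nat_lit 8) (nat_lit 8) L116414 (by decide +kernel)
theorem L116416 : W_42 (nat_lit 2) (nat_lit 0x300010001a0005000200018001000000000000000) (nat_lit 0x0) (nat_lit 0x8000000000000800080000000000) := D_42 (nat_lit 59) (nat_lit 111) (nat_lit 43) (nat_lit 7) (nat_lit 8) (nat_lit 3) (nat_lit 6) (nat_lit 8) (nat_lit 6) (by decide +kernel)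
theorem L116417 : W_42 (nat_lit 3) (nat_lit 0x300010001a0005000200018000000000000000000) (nat_lit 0x0) (nat_lit 0x8000000020001800080000000000) := T_42 (nat_lit 60) (nat_lit 77) (nat_lit 6) (nat_lit 8) (nat_lit 7) L116416 (by decide +kernel)
theorem L116418 : W_42 (nat_lit 4) (nat_lit 0x300010001a0005000200008000000000000000000) (nat_lit 0x0) (nat_lit 0x8000000030001c00080000000000) := T_42 (nat_lit 76) (nat_lit 58) (nat_lit 4) (nat_lit 8) (nat_lit 7) L116417 (by decide +kernel)
theorem L116419 : W_42 (nat_lit 5) (nat_lit 0x300010001a0005000000008000000000000000000) (nat_lit 0x0) (nat_lit 0x8000300030001c00080000000000) := T_42 (nat_lit 93) (nat_lit 92) (nat_lit 4) (nat_lit 8) (nat_lit 8) L116418 (by decide +kernel)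
theorem L116420 : W_42 (nat_lit 6) (nat_lit 0x200010001a0005000000008000000000000000000) (nat_lit 0x0) (nat_lit 0x200010000000000008000300030001c00080000000000) := T_42 (nat_lit 160) (nat_lit 177) (nat_lit 5) (nat_lit 8) (nat_lit 6) L116419 (by decide +kernel)
theorem L116421 : W_42 (nat_lit 2) (nat_lit 0x1000780014001a0005000000008000000000000000000) (nat_lit 0x0) (nat_lit 0x10000800040000000000000000000000) := D_42 (nat_lit 107) (nat_lit 90) (nat_lit 124) (nat_lit 4) (nat_lit 6) (nat_lit 9) (nat_lit 4) (nat_lit 6) (nat_lit 10) (by decide +kernel)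
theorem L116422 : W_42 (nat_lit 3) (nat_lit 0x1000780010001a0005000000008000000000000000000) (nat_lit 0x0) (nat_lit 0x600010000800040000000000000000000000) := T_42 (nat_lit 142) (nat_lit 141) (nat_lit 0) (nat_lit 9) (nat_lit 9) L116421 (by decide +kernel)
theorem L116423 : W_42 (nat_lit 4) (nat_lit 0x780010001a0005000000008000000000000000000) (nat_lit 0x0) (nat_lit 0x180000000600010000800040000000000000000000000) := T_42 (nat_lit 176) (nat_lit 175) (nat_lit 1) (nat_lit 9) (nat_lit 9) L116422 (by decide +kernel)
theorem L116424 : W_42 (nat_lit 5) (nat_lit 0x680010001a0005000000008000000000000000000) (nat_lit 0x0) (nat_lit 0x380010000600010000800040000000000000000000000) := T_42 (nat_lit 160) (nat_lit 177) (nat_lit 5) (nat_lit 8) (nat_lit 6) L116423 (by decide +kernel)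
theorem L116425 : W_42 (nat_lit 6) (nat_lit 0x280010001a0005000000008000000000000000000) (nat_lit 0x0) (nat_lit 0xb80050000600010000800040000000000000000000000) := T_42 (nat_lit 162) (nat_lit 179) (nat_lit 7) (nat_lit 8) (nat_lit 6) L116424 (by decide +kernel)
theorem L116426 : W_42 (nat_lit 2) (nat_lit 0x680014001a0005000080008000000000000000000) (nat_lit 0x0) (nat_lit 0x800040002000000000000000000) := D_42 (nat_lit 90) (nat_lit 107) (nat_lit 73) (nat_lit 4) (nat_lit 6) (nat_lit 9) (nat_lit 4) (nat_lit 6) (nat_lit 8) (by decide +kernel)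
theorem L116427 : W_42 (nat_lit 3) (nat_lit 0x680014001a0005000000008000000000000000000) (nat_lit 0x0) (nat_lit 0x8001c0002000000000000000000) := T_42 (nat_lit 91) (nat_lit 92) (nat_lit 6) (nat_lit 6) (nat_lit 8) L116426 (by decide +kernel)
theorem L116428 : W_42 (nat_lit 4) (nat_lit 0x280014001a0005000000008000000000000000000) (nat_lit 0x0) (nat_lit 0x8000400000000000008001c0002000000000000000000) := T_42 (nat_lit 162) (nat_lit 179) (nat_lit 7) (nat_lit 8) (nat_lit 6) L116427 (by decide +kernel)
theorem L116429 : W_42 (nat_lit 2) (nat_lit 0x2c0014001a0005000080008000000000000000000) (nat_lit 0x0) (nat_lit 0x800040002000000000000000000) := D_42 (nat_lit 90) (nat_lit 73) (nat_lit 107) (nat_lit 4) (nat_lit 6) (nat_lit 8) (nat_lit 4) (nat_lit 6) (nat_lit 9) (by decide +kernel)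
theorem L116430 : W_42 (nat_lit 3) (nat_lit 0x2c0014001a0005000000008000000000000000000) (nat_lit 0x0) (nat_lit 0x2000000008000c0002000000000000000000) := T_42 (nat_lit 91) (nat_lit 141) (nat_lit 5) (nat_lit 6) (nat_lit 5) L116429 (by decide +kernel)
theorem L116431 : W_42 (nat_lit 4) (nat_lit 0x280014001a0005000000008000000000000000000) (nat_lit 0x0) (nat_lit 0x800040002000000008000c0002000000000000000000) := T_42 (nat_lit 158) (nat_lit 175) (nat_lit 5) (nat_lit 6) (nat_lit 6) L116430 (by decide +kernel)
theorem L116432 : W_42 (nat_lit 2) (nat_lit 0x2000600010006c0014001a0005800000008000000000000000000) (nat_lit 0x0) (nat_lit 0x400040000000000000000200000000000000000000000000000000000) := D_42 (nat_lit 210) (nat_lit 141) (nat_lit 226) (nat_lit 4) (nat_lit 6) (nat_lit 12) (nat_lit 5) (nat_lit 6) (nat_lit 9) (by decide +kernel)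
theorem L116433 : W_42 (nat_lit 3) (nat_lit 0x600010006c0014001a0005800000008000000000000000000) (nat_lit 0x0) (nat_lit 0x400060001000000000000200000000000000000000000000000000000) := T_42 (nat_lit 209) (nat_lit 192) (nat_lit 5) (nat_lit 6) (nat_lit 8) L116432 (by decide +kernel)
theorem L116434 : W_42 (nat_lit 4) (nat_lit 0x400010006c0014001a0005800000008000000000000000000) (nat_lit 0x0) (nat_lit 0x4000e0003000000000000200000000000000000000000000000000000) := T_42 (nat_lit 193) (nat_lit 211) (nat_lit 7) (nat_lit 6) (nat_lit 8) L116433 (by decide +kernel)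
theorem L116435 : W_42 (nat_lit 5) (nat_lit 0x10006c0014001a0005800000008000000000000000000) (nat_lit 0x0) (nat_lit 0x4000e0007000200000000200000000000000000000000000000000000) := T_42 (nat_lit 194) (nat_lit 177) (nat_lit 7) (nat_lit 6) (nat_lit 7) L116434 (by decide +kernel)
theorem L116436 : W_42 (nat_lit 6) (nat_lit 0x6c0014001a0005800000008000000000000000000) (nat_lit 0x0) (nat_lit 0x4000e0007000300000000200010000000000000000000000000000000) := T_42 (nat_lit 176) (nat_lit 124) (nat_lit 4) (nat_lit 6) (nat_lit 10) L116435 (by decide +kernel)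
theorem L116437 : W_42 (nat_lit 7) (nat_lit 0x6c0014001a0005000000008000000000000000000) (nat_lit 0x0) (nat_lit 0x4000e0007000300000000200010000800040000000000000000000000) := T_42 (nat_lit 107) (nat_lit 90) (nat_lit 4) (nat_lit 6) (nat_lit 9) L116436 (by decide +kernel)
theorem L116438 : W_42 (nat_lit 8) (nat_lit 0x680014001a0005000000008000000000000000000) (nat_lit 0x0) (nat_lit 0x4000e0007000380004000200010000800040000000000000000000000) := T_42 (nat_lit 158) (nat_lit 175) (nat_lit 5) (nat_lit 6) (nat_lit 6) L116437 (by decide +kernel)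
theorem L116439 : W_42 (nat_lit 9) (nat_lit 0x280014001a0005000000008000000000000000000) (nat_lit 0x0) (nat_lit 0x4000e0007000b80044000200010000800040000000000000000000000) := T_42 (nat_lit 162) (nat_lit 179) (nat_lit 7) (nat_lit 8) (nat_lit 6) L116438 (by decide +kernel)
theorem L116440 : W_42 (nat_lit 2) (nat_lit 0x280014001a0005000080008000000000000000000) (nat_lit 0x0) (nat_lit 0x80004000200000000000000000000000000000000000) := D_42 (nat_lit 158) (nat_lit 175) (nat_lit 141) (nat_lit 5) (nat_lit 6) (nat_lit 6) (nat_lit 5) (nat_lit 6) (nat_lit 5) (by decide +kernel)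
theorem L116441 : W_42 (nat_lit 3) (nat_lit 0x280014001a0005000000008000000000000000000) (nat_lit 0x0) (nat_lit 0x80004000200000000000180000000000000000000000) := T_42 (nat_lit 91) (nat_lit 92) (nat_lit 6) (nat_lit 6) (nat_lit 8) L116440 (by decide +kernel)
theorem L116442 : W_42 (nat_lit 10) (nat_lit 0x280010001a0005000000008000000000000000000) (nat_lit 0x0) (nat_lit 0x4000e0007000b800440006000100008001c0002000000000000000000) := Q_42 (nat_lit 142) (C_42 L116428 (C_42 L116431 (C_42 L116439 (C_42 L116441 N_42)))) (by decide +kernel)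
theorem L116443 : W_42 (nat_lit 2) (nat_lit 0x3e0015001b0005800000008000000000000000000) (nat_lit 0x0) (nat_lit 0x60000000000008000000000000000000000000000000) := D_42 (nat_lit 174) (nat_lit 173) (nat_lit 123) (nat_lit 1) (nat_lit 7) (nat_lit 9) (nat_lit 6) (nat_lit 4) (nat_lit 10) (by decide +kernel)
theorem L116444 : W_42 (nat_lit 3) (nat_lit 0x3e0015001a0005800000008000000000000000000) (nat_lit 0x0) (nat_lit 0x160000000000018000000000000000000000000000000) := T_42 (nat_lit 124) (nat_lit 176) (nat_lit 4) (nat_lit 6) (nat_lit 10) L116443 (by decide +kernel)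
theorem L116445 : W_42 (nat_lit 4) (nat_lit 0x3c0015001a0005800000008000000000000000000) (nat_lit 0x0) (nat_lit 0x160002000080018000000000000000000000000000000) := T_42 (nat_lit 157) (nat_lit 139) (nat_lit 0) (nat_lit 7) (nat_lit 9) L116444 (by decide +kernel)
theorem L116446 : W_42 (nat_lit 5) (nat_lit 0x3c0015001a0005000000008000000000000000000) (nat_lit 0x0) (nat_lit 0x160002000080018000800040000000000000000000000) := T_42 (nat_lit 107) (nat_lit 90) (nat_lit 4) (nat_lit 6) (nat_lit 9) L116445 (by decide +kernel)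
theorem L116447 : W_42 (nat_lit 6) (nat_lit 0x3c0014001a0005000000008000000000000000000) (nat_lit 0x0) (nat_lit 0x160002000380018000800040000000000000000000000) := T_42 (nat_lit 140) (nat_lit 141) (nat_lit 0) (nat_lit 8) (nat_lit 9) L116446 (by decide +kernel)
theorem L116448 : W_42 (nat_lit 7) (nat_lit 0x380014001a0005000000008000000000000000000) (nat_lit 0x0) (nat_lit 0x1e0006000380018000800040000000000000000000000) := T_42 (nat_lit 158) (nat_lit 175) (nat_lit 5) (nat_lit 6) (nat_lit 6) L116447 (by decide +kernel)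
theorem L116449 : W_42 (nat_lit 8) (nat_lit 0x280014001a0005000000008000000000000000000) (nat_lit 0x0) (nat_lit 0x3e0016000380018000800040000000000000000000000) := T_42 (nat_lit 160) (nat_lit 177) (nat_lit 7) (nat_lit 6) (nat_lit 6) L116448 (by decide +kernel)
theorem L116450 : W_42 (nat_lit 2) (nat_lit 0x280014001a000580008000c000000000000000000) (nat_lit 0x0) (nat_lit 0x100000000000010000000000000000200000000000000) := D_42 (nat_lit 124) (nat_lit 57) (nat_lit 176) (nat_lit 5) (nat_lit 6) (nat_lit 3) (nat_lit 4) (nat_lit 6) (nat_lit 10) (by decide +kernel)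
theorem L116451 : W_42 (nat_lit 3) (nat_lit 0x280014001a0005800080008000000000000000000) (nat_lit 0x0) (nat_lit 0x100000000000010000000000004000600000000000000) := T_42 (nat_lit 74) (nat_lit 58) (nat_lit 6) (nat_lit 6) (nat_lit 7) L116450 (by decide +kernel)
theorem L116452 : W_42 (nat_lit 4) (nat_lit 0x280014001a0005800000008000000000000000000) (nat_lit 0x0) (nat_lit 0x100000000000010000000180004000600000000000000) := T_42 (nat_lit 91) (nat_lit 92) (nat_lit 6) (nat_lit 6) (nat_lit 8) L116451 (by decide +kernel)
theorem L116453 : W_42 (nat_lit 5) (nat_lit 0x280014001a0005000000008000000000000000000) (nat_lit 0x0) (nat_lit 0x1000000000000100008001c0004000600000000000000) := T_42 (nat_lit 107) (nat_lit 90) (nat_lit 4) (nat_lit 6) (nat_lit 9) L116452 (by decide +kernel)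
theorem L116454 : W_42 (nat_lit 9) (nat_lit 0x280010001a0005000000008000000000000000000) (nat_lit 0x0) (nat_lit 0x3e00160007800180008001c0006000600000000000000) := Q_42 (nat_lit 142) (C_42 L116441 (C_42 L116431 (C_42 L116449 (C_42 L116453 N_42)))) (by decide +kernel)
theorem L116455 : W_42 (nat_lit 2) (nat_lit 0x800780010001a0005000000008000000000000000000) (nat_lit 0x0) (nat_lit 0x40004000400000000000000000000000000000000000) := D_42 (nat_lit 158) (nat_lit 174) (nat_lit 142) (nat_lit 1) (nat_lit 8) (nat_lit 9) (nat_lit 5) (nat_lit 6) (nat_lit 6) (by decide +kernel)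
theorem L116456 : W_42 (nat_lit 3) (nat_lit 0x780010001a0005000000008000000000000000000) (nat_lit 0x0) (nat_lit 0x1c0004000400000000000000000000000000000000000) := T_42 (nat_lit 175) (nat_lit 176) (nat_lit 1) (nat_lit 9) (nat_lit 9) L116455 (by decide +kernel)
theorem L116457 : W_42 (nat_lit 4) (nat_lit 0x380010001a0005000000008000000000000000000) (nat_lit 0x0) (nat_lit 0x9c0044000400000000000000000000000000000000000) := T_42 (nat_lit 162) (nat_lit 179) (nat_lit 7) (nat_lit 8) (nat_lit 6) L116456 (by decide +kernel)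
theorem L116458 : W_42 (nat_lit 5) (nat_lit 0x280010001a0005000000008000000000000000000) (nat_lit 0x0) (nat_lit 0xbc0054000400000000000000000000000000000000000) := T_42 (nat_lit 160) (nat_lit 177) (nat_lit 5) (nat_lit 8) (nat_lit 6) L116457 (by decide +kernel)
theorem L116459 : W_42 (nat_lit 2) (nat_lit 0x8007c0010001a0005000000008000000000000000000) (nat_lit 0x0) (nat_lit 0x300010000000000000000000000000000000) := D_42 (nat_lit 141) (nat_lit 140) (nat_lit 124) (nat_lit 0) (nat_lit 8) (nat_lit 9) (nat_lit 6) (nat_lit 5) (nat_lit 10) (by decide +kernel)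
theorem L116460 : W_42 (nat_lit 3) (nat_lit 0x800780010001a0005000000008000000000000000000) (nat_lit 0x0) (nat_lit 0x40004000300010000000000000000000000000000000) := T_42 (nat_lit 158) (nat_lit 174) (nat_lit 1) (nat_lit 8) (nat_lit 9) L116459 (by decide +kernel)
theorem L116461 : W_42 (nat_lit 4) (nat_lit 0x780010001a0005000000008000000000000000000) (nat_lit 0x0) (nat_lit 0x1c0004000300010000000000000000000000000000000) := T_42 (nat_lit 175) (nat_lit 176) (nat_lit 1) (nat_lit 9) (nat_lit 9) L116460 (by decide +kernel)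
theorem L116462 : W_42 (nat_lit 5) (nat_lit 0x680010001a0005000000008000000000000000000) (nat_lit 0x0) (nat_lit 0x3c0014000300010000000000000000000000000000000) := T_42 (nat_lit 160) (nat_lit 177) (nat_lit 5) (nat_lit 8) (nat_lit 6) L116461 (by decide +kernel)
theorem L116463 : W_42 (nat_lit 6) (nat_lit 0x280010001a0005000000008000000000000000000) (nat_lit 0x0) (nat_lit 0xbc0054000300010000000000000000000000000000000) := T_42 (nat_lit 162) (nat_lit 179) (nat_lit 7) (nat_lit 8) (nat_lit 6) L116462 (by decide +kernel)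
theorem L116464 : W_42 (nat_lit 2) (nat_lit 0x780014001a000580008000c000200000000000000) (nat_lit 0x0) (nat_lit 0x2000100008000000000) := D_42 (nat_lit 56) (nat_lit 39) (nat_lit 73) (nat_lit 4) (nat_lit 6) (nat_lit 6) (nat_lit 4) (nat_lit 6) (nat_lit 7) (by decide +kernel)
theorem L116465 : W_42 (nat_lit 3) (nat_lit 0x780014001a000580008000c000000000000000000) (nat_lit 0x0) (nat_lit 0x10000000000002000300008000000000) := T_42 (nat_lit 57) (nat_lit 124) (nat_lit 5) (nat_lit 6) (nat_lit 3) L116464 (by decide +kernel)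
theorem L116466 : W_42 (nat_lit 4) (nat_lit 0x780014001a0005800080008000000000000000000) (nat_lit 0x0) (nat_lit 0x10000000000006000700008000000000) := T_42 (nat_lit 74) (nat_lit 58) (nat_lit 6) (nat_lit 6) (nat_lit 7) L116465 (by decide +kernel)
theorem L116467 : W_42 (nat_lit 5) (nat_lit 0x780014001a0005800000008000000000000000000) (nat_lit 0x0) (nat_lit 0x10000000180006000700008000000000) := T_42 (nat_lit 91) (nat_lit 92) (nat_lit 6) (nat_lit 6) (nat_lit 8) L116466 (by decide +kernel)
theorem L116468 : W_42 (nat_lit 6) (nat_lit 0x780014001a0005000000008000000000000000000) (nat_lit 0x0) (nat_lit 0x100008001c0006000700008000000000) := T_42 (nat_lit 107) (nat_lit 90) (nat_lit 4) (nat_lit 6) (nat_lit 9) L116467 (by decide +kernel)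
theorem L116469 : W_42 (nat_lit 7) (nat_lit 0x780010001a0005000000008000000000000000000) (nat_lit 0x0) (nat_lit 0x6000100008001c0006000700008000000000) := T_42 (nat_lit 142) (nat_lit 141) (nat_lit 0) (nat_lit 9) (nat_lit 9) L116468 (by decide +kernel)
theorem L116470 : W_42 (nat_lit 8) (nat_lit 0x380010001a0005000000008000000000000000000) (nat_lit 0x0) (nat_lit 0x8000400006000100008001c0006000700008000000000) := T_42 (nat_lit 162) (nat_lit 179) (nat_lit 7) (nat_lit 8) (nat_lit 6) L116469 (by decide +kernel)
theorem L116471 : W_42 (nat_lit 9) (nat_lit 0x280010001a0005000000008000000000000000000) (nat_lit 0x0) (nat_lit 0xa000500006000100008001c0006000700008000000000) := T_42 (nat_lit 160) (nat_lit 177) (nat_lit 5) (nat_lit 8) (nat_lit 6) L116470 (by decide +kernel)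
theorem L116472 : W_42 (nat_lit 2) (nat_lit 0x780014001a0005000000008000000000000000000) (nat_lit 0x0) (nat_lit 0x180004000000000000000000000000000000000000000) := D_42 (nat_lit 175) (nat_lit 158) (nat_lit 176) (nat_lit 5) (nat_lit 6) (nat_lit 6) (nat_lit 1) (nat_lit 9) (nat_lit 9) (by decide +kernel)
theorem L116473 : W_42 (nat_lit 3) (nat_lit 0x680014001a0005000000008000000000000000000) (nat_lit 0x0) (nat_lit 0x180014000200000000000000000000000000000000000) := T_42 (nat_lit 160) (nat_lit 141) (nat_lit 0) (nat_lit 9) (nat_lit 9) L116472 (by decide +kernel)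
theorem L116474 : W_42 (nat_lit 4) (nat_lit 0x280014001a0005000000008000000000000000000) (nat_lit 0x0) (nat_lit 0x980054000200000000000000000000000000000000000) := T_42 (nat_lit 162) (nat_lit 179) (nat_lit 7) (nat_lit 8) (nat_lit 6) L116473 (by decide +kernel)
theorem L116475 : W_42 (nat_lit 6) (nat_lit 0x280010001a0005000000008000000000000000000) (nat_lit 0x0) (nat_lit 0x9800540006000100008001c0006000600000000000000) := Q_42 (nat_lit 142) (C_42 L116453 (C_42 L116431 (C_42 L116474 N_42))) (by decide +kernel)
theorem L116476 : W_42 (nat_lit 11) (nat_lit 0x200010001a0005000000008000000000000000000) (nat_lit 0x0) (nat_lit 0x4000e0007000be005e0007800180008001c0006000700008000000000) := Q_42 (nat_lit 159) (C_42 L116425 (C_42 L116442 (C_42 L116454 (C_42 L116458 (C_42 L116463 (C_42 L116471 (C_42 L116475 N_42))))))) (by decide +kernel)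
theorem L116477 : W_42 (nat_lit 2) (nat_lit 0x1800680014001a0005000000008000000000000000000) (nat_lit 0x0) (nat_lit 0x10000800040000000000000000000000) := D_42 (nat_lit 107) (nat_lit 124) (nat_lit 90) (nat_lit 4) (nat_lit 6) (nat_lit 10) (nat_lit 4) (nat_lit 6) (nat_lit 9) (by decide +kernel)
theorem L116478 : W_42 (nat_lit 3) (nat_lit 0x800680014001a0005000000008000000000000000000) (nat_lit 0x0) (nat_lit 0x1000100000000000010000800040000000000000000000000) := T_42 (nat_lit 176) (nat_lit 192) (nat_lit 5) (nat_lit 6) (nat_lit 7) L116477 (by decide +kernel)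
theorem L116479 : W_42 (nat_lit 4) (nat_lit 0x800280014001a0005000000008000000000000000000) (nat_lit 0x0) (nat_lit 0x1000900040000000010000800040000000000000000000000) := T_42 (nat_lit 162) (nat_lit 179) (nat_lit 7) (nat_lit 8) (nat_lit 6) L116478 (by decide +kernel)
theorem L116480 : W_42 (nat_lit 5) (nat_lit 0x280014001a0005000000008000000000000000000) (nat_lit 0x0) (nat_lit 0x1000980044000000010000800040000000000000000000000) := T_42 (nat_lit 175) (nat_lit 158) (nat_lit 5) (nat_lit 6) (nat_lit 6) L116479 (by decide +kernel)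
theorem L116481 : W_42 (nat_lit 2) (nat_lit 0x2c0014001a000500008000a000000000000000000) (nat_lit 0x0) (nat_lit 0x4000500000000000000) := D_42 (nat_lit 74) (nat_lit 58) (nat_lit 56) (nat_lit 6) (nat_lit 6) (nat_lit 7) (nat_lit 4) (nat_lit 6) (nat_lit 7) (by decide +kernel)
theorem L116482 : W_42 (nat_lit 3) (nat_lit 0x2c0014001a0005000080008000000000000000000) (nat_lit 0x0) (nat_lit 0x40006000500000000000000) := T_42 (nat_lit 73) (nat_lit 90) (nat_lit 4) (nat_lit 6) (nat_lit 8) L116481 (by decide +kernel)
theorem L116483 : W_42 (nat_lit 4) (nat_lit 0x2c0014001a0005000000008000000000000000000) (nat_lit 0x0) (nat_lit 0x2000000000000c0006000500000000000000) := T_42 (nat_lit 91) (nat_lit 141) (nat_lit 5) (nat_lit 6) (nat_lit 5) L116482 (by decide +kernel)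
theorem L116484 : W_42 (nat_lit 5) (nat_lit 0x280014001a0005000000008000000000000000000) (nat_lit 0x0) (nat_lit 0x800040002000000000000c0006000500000000000000) := T_42 (nat_lit 158) (nat_lit 175) (nat_lit 5) (nat_lit 6) (nat_lit 6) L116483 (by decide +kernel)
theorem L116485 : W_42 (nat_lit 2) (nat_lit 0x40001800680014001b0005000000008000000000000000000) (nat_lit 0x0) (nat_lit 0x80002000000000000200000000000000000000000000000000000) := D_42 (nat_lit 193) (nat_lit 141) (nat_lit 211) (nat_lit 4) (nat_lit 6) (nat_lit 11) (nat_lit 7) (nat_lit 6) (nat_lit 8) (by decide +kernel)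
theorem L116486 : W_42 (nat_lit 3) (nat_lit 0x1800680014001b0005000000008000000000000000000) (nat_lit 0x0) (nat_lit 0x80006000200000000200000000000000000000000000000000000) := T_42 (nat_lit 194) (nat_lit 177) (nat_lit 7) (nat_lit 6) (nat_lit 7) L116485 (by decide +kernel)
theorem L116487 : W_42 (nat_lit 4) (nat_lit 0x1800680014001a0005000000008000000000000000000) (nat_lit 0x0) (nat_lit 0x80006000200000000200010000800000000000000000000000000) := T_42 (nat_lit 124) (nat_lit 107) (nat_lit 4) (nat_lit 6) (nat_lit 10) L116486 (by decide +kernel)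
theorem L116488 : W_42 (nat_lit 5) (nat_lit 0x800680014001a0005000000008000000000000000000) (nat_lit 0x0) (nat_lit 0x80007000300000000200010000800000000000000000000000000) := T_42 (nat_lit 176) (nat_lit 192) (nat_lit 5) (nat_lit 6) (nat_lit 7) L116487 (by decide +kernel)
theorem L116489 : W_42 (nat_lit 6) (nat_lit 0x680014001a0005000000008000000000000000000) (nat_lit 0x0) (nat_lit 0x80007000380004000200010000800000000000000000000000000) := T_42 (nat_lit 175) (nat_lit 158) (nat_lit 5) (nat_lit 6) (nat_lit 6) L116488 (by decide +kernel)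
theorem L116490 : W_42 (nat_lit 7) (nat_lit 0x280014001a0005000000008000000000000000000) (nat_lit 0x0) (nat_lit 0x80007000b80044000200010000800000000000000000000000000) := T_42 (nat_lit 162) (nat_lit 179) (nat_lit 7) (nat_lit 8) (nat_lit 6) L116489 (by decide +kernel)
theorem L116491 : W_42 (nat_lit 2) (nat_lit 0x50001000680014001a0005800000008000000000000000000) (nat_lit 0x0) (nat_lit 0xa0002000000000000000000000000000000000000000000000000) := D_42 (nat_lit 193) (nat_lit 209) (nat_lit 211) (nat_lit 5) (nat_lit 6) (nat_lit 8) (nat_lit 7) (nat_lit 6) (nat_lit 8) (by decide +kernel)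
theorem L116492 : W_42 (nat_lit 3) (nat_lit 0x10001000680014001a0005800000008000000000000000000) (nat_lit 0x0) (nat_lit 0xa0006000200000000000000000000000000000000000000000000) := T_42 (nat_lit 194) (nat_lit 177) (nat_lit 7) (nat_lit 6) (nat_lit 7) L116491 (by decide +kernel)
theorem L116493 : W_42 (nat_lit 4) (nat_lit 0x1000680014001a0005800000008000000000000000000) (nat_lit 0x0) (nat_lit 0xa0007000280000000000000000000000000000000000000000000) := T_42 (nat_lit 192) (nat_lit 175) (nat_lit 5) (nat_lit 6) (nat_lit 7) L116492 (by decide +kernel)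
theorem L116494 : W_42 (nat_lit 5) (nat_lit 0x680014001a0005800000008000000000000000000) (nat_lit 0x0) (nat_lit 0xa0007000380000000000010000000000000000000000000000000) := T_42 (nat_lit 176) (nat_lit 124) (nat_lit 4) (nat_lit 6) (nat_lit 10) L116493 (by decide +kernel)
theorem L116495 : W_42 (nat_lit 6) (nat_lit 0x280014001a0005800000008000000000000000000) (nat_lit 0x0) (nat_lit 0xa0007000b80040000000010000000000000000000000000000000) := T_42 (nat_lit 162) (nat_lit 179) (nat_lit 7) (nat_lit 8) (nat_lit 6) L116494 (by decide +kernel)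
theorem L116496 : W_42 (nat_lit 7) (nat_lit 0x280014001a0005000000008000000000000000000) (nat_lit 0x0) (nat_lit 0xa0007000b80040000000010000800040000000000000000000000) := T_42 (nat_lit 107) (nat_lit 90) (nat_lit 4) (nat_lit 6) (nat_lit 9) L116495 (by decide +kernel)
theorem L116497 : W_42 (nat_lit 2) (nat_lit 0x680016001a00050000c0008000000000000000000) (nat_lit 0x0) (nat_lit 0x10000000000004000400000000000000) := D_42 (nat_lit 74) (nat_lit 124) (nat_lit 58) (nat_lit 5) (nat_lit 6) (nat_lit 4) (nat_lit 6) (nat_lit 6) (nat_lit 7) (by decide +kernel)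
theorem L116498 : W_42 (nat_lit 3) (nat_lit 0x680014001a00050000c0008000000000000000000) (nat_lit 0x0) (nat_lit 0x4000200010000000000004000400000000000000) := T_42 (nat_lit 141) (nat_lit 158) (nat_lit 5) (nat_lit 6) (nat_lit 5) L116497 (by decide +kernel)
theorem L116499 : W_42 (nat_lit 4) (nat_lit 0x680014001a0005000040008000000000000000000) (nat_lit 0x0) (nat_lit 0x4000200010000000080006000400000000000000) := T_42 (nat_lit 91) (nat_lit 73) (nat_lit 4) (nat_lit 6) (nat_lit 8) L116498 (by decide +kernel)
theorem L116500 : W_42 (nat_lit 5) (nat_lit 0x280014001a0005000040008000000000000000000) (nat_lit 0x0) (nat_lit 0x800044000200010000000080006000400000000000000) := T_42 (nat_lit 162) (nat_lit 179) (nat_lit 7) (nat_lit 8) (nat_lit 6) L116499 (by decide +kernel)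
theorem L116501 : W_42 (nat_lit 6) (nat_lit 0x280014001a0005000000008000000000000000000) (nat_lit 0x0) (nat_lit 0x8000440002000100008000c0006000400000000000000) := T_42 (nat_lit 90) (nat_lit 107) (nat_lit 4) (nat_lit 6) (nat_lit 9) L116500 (by decide +kernel)
theorem L116502 : W_42 (nat_lit 10) (nat_lit 0x280010001a0005000000008000000000000000000) (nat_lit 0x0) (nat_lit 0x4000e0007000b800440006000100008000c0006000500000000000000) := Q_42 (nat_lit 142) (C_42 L116439 (C_42 L116431 (C_42 L116480 (C_42 L116484 (C_42 L116490 (C_42 L116496 (C_42 L116501 N_42))))))) (by decide +kernel)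
theorem L116503 : W_42 (nat_lit 2) (nat_lit 0x800380014001a0005800000008000000000000000000) (nat_lit 0x0) (nat_lit 0x1000100000000000010000000000000000000000000000000) := D_42 (nat_lit 176) (nat_lit 192) (nat_lit 124) (nat_lit 5) (nat_lit 6) (nat_lit 7) (nat_lit 4) (nat_lit 6) (nat_lit 10) (by decide +kernel)
theorem L116504 : W_42 (nat_lit 3) (nat_lit 0x800380014001a0005000000008000000000000000000) (nat_lit 0x0) (nat_lit 0x1000100000000000010000800040000000000000000000000) := T_42 (nat_lit 107) (nat_lit 90) (nat_lit 4) (nat_lit 6) (nat_lit 9) L116503 (by decide +kernel)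
theorem L116505 : W_42 (nat_lit 4) (nat_lit 0x380014001a0005000000008000000000000000000) (nat_lit 0x0) (nat_lit 0x1000180004000000010000800040000000000000000000000) := T_42 (nat_lit 175) (nat_lit 158) (nat_lit 5) (nat_lit 6) (nat_lit 6) L116504 (by decide +kernel)
theorem L116506 : W_42 (nat_lit 5) (nat_lit 0x280014001a0005000000008000000000000000000) (nat_lit 0x0) (nat_lit 0x1000380014000000010000800040000000000000000000000) := T_42 (nat_lit 160) (nat_lit 177) (nat_lit 7) (nat_lit 6) (nat_lit 6) L116505 (by decide +kernel)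
theorem L116507 : W_42 (nat_lit 2) (nat_lit 0x2c0016001a0005000000008000000000000000000) (nat_lit 0x0) (nat_lit 0x200010000100000000000000000000000000000000000) := D_42 (nat_lit 160) (nat_lit 177) (nat_lit 140) (nat_lit 7) (nat_lit 6) (nat_lit 6) (nat_lit 0) (nat_lit 8) (nat_lit 9) (by decide +kernel)
theorem L116508 : W_42 (nat_lit 3) (nat_lit 0x2c0014001a0005000000008000000000000000000) (nat_lit 0x0) (nat_lit 0x200010000300000000000080000000000000000000000) := T_42 (nat_lit 141) (nat_lit 91) (nat_lit 5) (nat_lit 6) (nat_lit 5) L116507 (by decide +kernel)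
theorem L116509 : W_42 (nat_lit 4) (nat_lit 0x280014001a0005000000008000000000000000000) (nat_lit 0x0) (nat_lit 0x280014000300000000000080000000000000000000000) := T_42 (nat_lit 158) (nat_lit 175) (nat_lit 5) (nat_lit 6) (nat_lit 6) L116508 (by decide +kernel)
theorem L116510 : W_42 (nat_lit 2) (nat_lit 0x2000280014001a0005800000008000000000000000000) (nat_lit 0x0) (nat_lit 0x4000100000000000010000000000000000000000000000000) := D_42 (nat_lit 176) (nat_lit 194) (nat_lit 124) (nat_lit 7) (nat_lit 6) (nat_lit 7) (nat_lit 4) (nat_lit 6) (nat_lit 10) (by decide +kernel)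
theorem L116511 : W_42 (nat_lit 3) (nat_lit 0x2000280014001a0005000000008000000000000000000) (nat_lit 0x0) (nat_lit 0x4000100000000000010000800040000000000000000000000) := T_42 (nat_lit 107) (nat_lit 90) (nat_lit 4) (nat_lit 6) (nat_lit 9) L116510 (by decide +kernel)
theorem L116512 : W_42 (nat_lit 4) (nat_lit 0x280014001a0005000000008000000000000000000) (nat_lit 0x0) (nat_lit 0x4000300010000000010000800040000000000000000000000) := T_42 (nat_lit 177) (nat_lit 160) (nat_lit 7) (nat_lit 6) (nat_lit 6) L116511 (by decide +kernel)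
theorem L116513 : W_42 (nat_lit 9) (nat_lit 0x280010001a0005000000008000000000000000000) (nat_lit 0x0) (nat_lit 0x50003e00160007800180008000c0006000500000000000000) := Q_42 (nat_lit 142) (C_42 L116484 (C_42 L116449 (C_42 L116506 (C_42 L116509 (C_42 L116512 N_42))))) (by decide +kernel)
theorem L116514 : W_42 (nat_lit 2) (nat_lit 0x7c0012001a0005000000008000000000000000000) (nat_lit 0x0) (nat_lit 0xc0000000000010000000000000000000000000000000) := D_42 (nat_lit 175) (nat_lit 174) (nat_lit 124) (nat_lit 1) (nat_lit 8) (nat_lit 9) (nat_lit 6) (nat_lit 5) (nat_lit 10) (by decide +kernel)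
theorem L116515 : W_42 (nat_lit 3) (nat_lit 0x780012001a0005000000008000000000000000000) (nat_lit 0x0) (nat_lit 0xc0004000100010000000000000000000000000000000) := T_42 (nat_lit 158) (nat_lit 140) (nat_lit 0) (nat_lit 8) (nat_lit 9) L116514 (by decide +kernel)
theorem L116516 : W_42 (nat_lit 4) (nat_lit 0x780010001a0005000000008000000000000000000) (nat_lit 0x0) (nat_lit 0xc0004000700010000000000000000000000000000000) := T_42 (nat_lit 141) (nat_lit 142) (nat_lit 0) (nat_lit 9) (nat_lit 9) L116515 (by decide +kernel)
theorem L116517 : W_42 (nat_lit 5) (nat_lit 0x380010001a0005000000008000000000000000000) (nat_lit 0x0) (nat_lit 0x8c0044000700010000000000000000000000000000000) := T_42 (nat_lit 162) (nat_lit 179) (nat_lit 7) (nat_lit 8) (nat_lit 6) L116516 (by decide +kernel)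
theorem L116518 : W_42 (nat_lit 6) (nat_lit 0x280010001a0005000000008000000000000000000) (nat_lit 0x0) (nat_lit 0xac0054000700010000000000000000000000000000000) := T_42 (nat_lit 160) (nat_lit 177) (nat_lit 5) (nat_lit 8) (nat_lit 6) L116517 (by decide +kernel)
theorem L116519 : W_42 (nat_lit 2) (nat_lit 0x680014001a0005000000008000000000000000000) (nat_lit 0x0) (nat_lit 0x200010000200000000000000000000000000000000000) := D_42 (nat_lit 160) (nat_lit 141) (nat_lit 177) (nat_lit 0) (nat_lit 9) (nat_lit 9) (nat_lit 7) (nat_lit 6) (nat_lit 6) (by decide +kernel)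
theorem L116520 : W_42 (nat_lit 3) (nat_lit 0x280014001a0005000000008000000000000000000) (nat_lit 0x0) (nat_lit 0xa00050000200000000000000000000000000000000000) := T_42 (nat_lit 162) (nat_lit 179) (nat_lit 7) (nat_lit 8) (nat_lit 6) L116519 (by decide +kernel)
theorem L116521 : W_42 (nat_lit 7) (nat_lit 0x280010001a0005000000008000000000000000000) (nat_lit 0x0) (nat_lit 0x4000b000540006000100008000c0006000400000000000000) := Q_42 (nat_lit 142) (C_42 L116512 (C_42 L116501 (C_42 L116520 N_42))) (by decide +kernel)
theorem L116522 : W_42 (nat_lit 2) (nat_lit 0x780014001a0005800000008000000000000000000) (nat_lit 0x0) (nat_lit 0x180000000000010000000000000000000000000000000) := D_42 (nat_lit 176) (nat_lit 124) (nat_lit 175) (nat_lit 4) (nat_lit 6) (nat_lit 10) (nat_lit 1) (nat_lit 9) (nat_lit 9) (by decide +kernel)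
theorem L116523 : W_42 (nat_lit 3) (nat_lit 0x680014001a0005800000008000000000000000000) (nat_lit 0x0) (nat_lit 0x180010000200010000000000000000000000000000000) := T_42 (nat_lit 160) (nat_lit 141) (nat_lit 0) (nat_lit 9) (nat_lit 9) L116522 (by decide +kernel)
theorem L116524 : W_42 (nat_lit 4) (nat_lit 0x280014001a0005800000008000000000000000000) (nat_lit 0x0) (nat_lit 0x980050000200010000000000000000000000000000000) := T_42 (nat_lit 162) (nat_lit 179) (nat_lit 7) (nat_lit 8) (nat_lit 6) L116523 (by decide +kernel)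
theorem L116525 : W_42 (nat_lit 5) (nat_lit 0x280014001a0005000000008000000000000000000) (nat_lit 0x0) (nat_lit 0x980050000200010000800040000000000000000000000) := T_42 (nat_lit 107) (nat_lit 90) (nat_lit 4) (nat_lit 6) (nat_lit 9) L116524 (by decide +kernel)
theorem L116526 : W_42 (nat_lit 7) (nat_lit 0x280010001a0005000000008000000000000000000) (nat_lit 0x0) (nat_lit 0x10009800540006000100008000c0006000500000000000000) := Q_42 (nat_lit 142) (C_42 L116501 (C_42 L116484 (C_42 L116480 (C_42 L116474 (C_42 L116525 N_42))))) (by decide +kernel)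
theorem L116527 : W_42 (nat_lit 11) (nat_lit 0x200010001a0005000000008000000000000000000) (nat_lit 0x0) (nat_lit 0x4000e0007000be005e0007800180008000c0006000500000000000000) := Q_42 (nat_lit 159) (C_42 L116463 (C_42 L116502 (C_42 L116513 (C_42 L116458 (C_42 L116425 (C_42 L116518 (C_42 L116521 (C_42 L116526 N_42)))))))) (by decide +kernel)
theorem L116528 : W_42 (nat_lit 12) (nat_lit 0x200010001a0005000000000000000000000000000) (nat_lit 0x0) (nat_lit 0x4000e0007000be005e0007800180088003c003e001f00088000000000) := Q_42 (nat_lit 75) (C_42 L116410 (C_42 L116415 (C_42 L116420 (C_42 L116476 (C_42 L116527 N_42))))) (by decide +kernel)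
theorem L116529 : W_42 (nat_lit 2) (nat_lit 0x200010001a0005000000000000000000000000000) (nat_lit 0x0) (nat_lit 0x2800100000000000000000000000) := D_42 (nat_lit 109) (nat_lit 92) (nat_lit 107) (nat_lit 4) (nat_lit 8) (nat_lit 9) (nat_lit 3) (nat_lit 5) (nat_lit 6) (by decide +kernel)
theorem L116530 : W_42 (nat_lit 2) (nat_lit 0x780010001a0005800000000000000000000000000) (nat_lit 0x0) (nat_lit 0x600000000000040000000000000000000000) := D_42 (nat_lit 142) (nat_lit 90) (nat_lit 141) (nat_lit 4) (nat_lit 6) (nat_lit 9) (nat_lit 0) (nat_lit 9) (nat_lit 9) (by decide +kernel)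
theorem L116531 : W_42 (nat_lit 3) (nat_lit 0x380010001a0005800000000000000000000000000) (nat_lit 0x0) (nat_lit 0x800040000600000000000040000000000000000000000) := T_42 (nat_lit 162) (nat_lit 179) (nat_lit 7) (nat_lit 8) (nat_lit 6) L116530 (by decide +kernel)
theorem L116532 : W_42 (nat_lit 4) (nat_lit 0x380010001a0005000000000000000000000000000) (nat_lit 0x0) (nat_lit 0x800040000600000002800040000000000000000000000) := T_42 (nat_lit 107) (nat_lit 109) (nat_lit 3) (nat_lit 5) (nat_lit 6) L116531 (by decide +kernel)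
theorem L116533 : W_42 (nat_lit 5) (nat_lit 0x280010001a0005000000000000000000000000000) (nat_lit 0x0) (nat_lit 0xa00050000600000002800040000000000000000000000) := T_42 (nat_lit 160) (nat_lit 177) (nat_lit 5) (nat_lit 8) (nat_lit 6) L116532 (by decide +kernel)
theorem L116534 : W_42 (nat_lit 2) (nat_lit 0x1000680014001a0005800000000000000000000000000) (nat_lit 0x0) (nat_lit 0x1000080004000000000000000000000000000000000000000) := D_42 (nat_lit 175) (nat_lit 158) (nat_lit 192) (nat_lit 5) (nat_lit 6) (nat_lit 6) (nat_lit 5) (nat_lit 6) (nat_lit 7) (by decide +kernel)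
theorem L116535 : W_42 (nat_lit 3) (nat_lit 0x680014001a0005800000000000000000000000000) (nat_lit 0x0) (nat_lit 0x1000180004000000010000000000000000000000000000000) := T_42 (nat_lit 176) (nat_lit 124) (nat_lit 4) (nat_lit 6) (nat_lit 10) L116534 (by decide +kernel)
theorem L116536 : W_42 (nat_lit 4) (nat_lit 0x680010001a0005800000000000000000000000000) (nat_lit 0x0) (nat_lit 0x1000180004000400010000000040000000000000000000000) := T_42 (nat_lit 142) (nat_lit 90) (nat_lit 4) (nat_lit 6) (nat_lit 9) L116535 (by decide +kernel)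
theorem L116537 : W_42 (nat_lit 5) (nat_lit 0x280010001a0005800000000000000000000000000) (nat_lit 0x0) (nat_lit 0x1000980044000400010000000040000000000000000000000) := T_42 (nat_lit 162) (nat_lit 179) (nat_lit 7) (nat_lit 8) (nat_lit 6) L116536 (by decide +kernel)
theorem L116538 : W_42 (nat_lit 6) (nat_lit 0x280010001a0005000000000000000000000000000) (nat_lit 0x0) (nat_lit 0x1000980044000400010002800040000000000000000000000) := T_42 (nat_lit 107) (nat_lit 109) (nat_lit 3) (nat_lit 5) (nat_lit 6) L116537 (by decide +kernel)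
theorem L116539 : W_42 (nat_lit 2) (nat_lit 0x1000380014001a0005800000000000000000000000000) (nat_lit 0x0) (nat_lit 0x1000080004000000000000000000000000000000000000000) := D_42 (nat_lit 175) (nat_lit 158) (nat_lit 192) (nat_lit 5) (nat_lit 6) (nat_lit 6) (nat_lit 5) (nat_lit 6) (nat_lit 7) (by decide +kernel)
theorem L116540 : W_42 (nat_lit 3) (nat_lit 0x380014001a0005800000000000000000000000000) (nat_lit 0x0) (nat_lit 0x1000180004000000010000000000000000000000000000000) := T_42 (nat_lit 176) (nat_lit 124) (nat_lit 4) (nat_lit 6) (nat_lit 10) L116539 (by decide +kernel)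
theorem L116541 : W_42 (nat_lit 4) (nat_lit 0x380010001a0005800000000000000000000000000) (nat_lit 0x0) (nat_lit 0x1000180004000400010000000040000000000000000000000) := T_42 (nat_lit 142) (nat_lit 90) (nat_lit 4) (nat_lit 6) (nat_lit 9) L116540 (by decide +kernel)
theorem L116542 : W_42 (nat_lit 5) (nat_lit 0x280010001a0005800000000000000000000000000) (nat_lit 0x0) (nat_lit 0x1000380014000400010000000040000000000000000000000) := T_42 (nat_lit 160) (nat_lit 177) (nat_lit 5) (nat_lit 8) (nat_lit 6) L116541 (by decide +kernel)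
theorem L116543 : W_42 (nat_lit 6) (nat_lit 0x280010001a0005000000000000000000000000000) (nat_lit 0x0) (nat_lit 0x1000380014000400010002800040000000000000000000000) := T_42 (nat_lit 107) (nat_lit 109) (nat_lit 3) (nat_lit 5) (nat_lit 6) L116542 (by decide +kernel)
theorem L116544 : W_42 (nat_lit 2) (nat_lit 0x800780010001a0005000000000000000000000000000) (nat_lit 0x0) (nat_lit 0x4000600000000000000000000000000000000000) := D_42 (nat_lit 142) (nat_lit 141) (nat_lit 158) (nat_lit 0) (nat_lit 9) (nat_lit 9) (nat_lit 5) (nat_lit 6) (nat_lit 6) (by decide +kernel)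
theorem L116545 : W_42 (nat_lit 3) (nat_lit 0x780010001a0005000000000000000000000000000) (nat_lit 0x0) (nat_lit 0x180004000600000000000000000000000000000000000) := T_42 (nat_lit 175) (nat_lit 176) (nat_lit 1) (nat_lit 9) (nat_lit 9) L116544 (by decide +kernel)
theorem L116546 : W_42 (nat_lit 4) (nat_lit 0x680010001a0005000000000000000000000000000) (nat_lit 0x0) (nat_lit 0x380014000600000000000000000000000000000000000) := T_42 (nat_lit 160) (nat_lit 177) (nat_lit 5) (nat_lit 8) (nat_lit 6) L116545 (by decide +kernel)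
theorem L116547 : W_42 (nat_lit 5) (nat_lit 0x280010001a0005000000000000000000000000000) (nat_lit 0x0) (nat_lit 0xb80054000600000000000000000000000000000000000) := T_42 (nat_lit 162) (nat_lit 179) (nat_lit 7) (nat_lit 8) (nat_lit 6) L116546 (by decide +kernel)
theorem L116548 : W_42 (nat_lit 2) (nat_lit 0x8007c0010001a0005800000000000000000000000000) (nat_lit 0x0) (nat_lit 0x300010000000000000000000000000000000) := D_42 (nat_lit 141) (nat_lit 140) (nat_lit 124) (nat_lit 0) (nat_lit 8) (nat_lit 9) (nat_lit 6) (nat_lit 5) (nat_lit 10) (by decide +kernel)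
theorem L116549 : W_42 (nat_lit 3) (nat_lit 0x800780010001a0005800000000000000000000000000) (nat_lit 0x0) (nat_lit 0x40004000300010000000000000000000000000000000) := T_42 (nat_lit 158) (nat_lit 174) (nat_lit 1) (nat_lit 8) (nat_lit 9) L116548 (by decide +kernel)
theorem L116550 : W_42 (nat_lit 4) (nat_lit 0x780010001a0005800000000000000000000000000) (nat_lit 0x0) (nat_lit 0x1c0004000300010000000000000000000000000000000) := T_42 (nat_lit 175) (nat_lit 176) (nat_lit 1) (nat_lit 9) (nat_lit 9) L116549 (by decide +kernel)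
theorem L116551 : W_42 (nat_lit 5) (nat_lit 0x380010001a0005800000000000000000000000000) (nat_lit 0x0) (nat_lit 0x9c0044000300010000000000000000000000000000000) := T_42 (nat_lit 162) (nat_lit 179) (nat_lit 7) (nat_lit 8) (nat_lit 6) L116550 (by decide +kernel)
theorem L116552 : W_42 (nat_lit 6) (nat_lit 0x380010001a0005000000000000000000000000000) (nat_lit 0x0) (nat_lit 0x9c0044000300010002800000000000000000000000000) := T_42 (nat_lit 107) (nat_lit 109) (nat_lit 3) (nat_lit 5) (nat_lit 6) L116551 (by decide +kernel)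
theorem L116553 : W_42 (nat_lit 7) (nat_lit 0x280010001a0005000000000000000000000000000) (nat_lit 0x0) (nat_lit 0xbc0054000300010002800000000000000000000000000) := T_42 (nat_lit 160) (nat_lit 177) (nat_lit 5) (nat_lit 8) (nat_lit 6) L116552 (by decide +kernel)
theorem L116554 : W_42 (nat_lit 8) (nat_lit 0x200010001a0005000000000000000000000000000) (nat_lit 0x0) (nat_lit 0x1000bc005c000700010002800040000000000000000000000) := Q_42 (nat_lit 159) (C_42 L116533 (C_42 L116538 (C_42 L116543 (C_42 L116547 (C_42 L116553 N_42))))) (by decide +kernel)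
theorem L116555 : W_42 (nat_lit 5) (nat_lit 0x700010001a0005000100000000000000000000000) (nat_lit 0x0) (nat_lit 0x18000c000600000000000280008000000000000000000) := T_42 (nat_lit 75) (nat_lit 93) (nat_lit 4) (nat_lit 8) (nat_lit 8) L116407 (by decide +kernel)
theorem L116556 : W_42 (nat_lit 6) (nat_lit 0x700010001a0005000000000000000000000000000) (nat_lit 0x0) (nat_lit 0x18000c000600000002000380008000000000000000000) := T_42 (nat_lit 92) (nat_lit 109) (nat_lit 4) (nat_lit 8) (nat_lit 9) L116555 (by decide +kernel)
theorem L116557 : W_42 (nat_lit 7) (nat_lit 0x600010001a0005000000000000000000000000000) (nat_lit 0x0) (nat_lit 0x38001c000600000002000380008000000000000000000) := T_42 (nat_lit 160) (nat_lit 177) (nat_lit 5) (nat_lit 8) (nat_lit 6) L116556 (by decide +kernel)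
theorem L116558 : W_42 (nat_lit 8) (nat_lit 0x200010001a0005000000000000000000000000000) (nat_lit 0x0) (nat_lit 0xb8005c000600000002000380008000000000000000000) := T_42 (nat_lit 162) (nat_lit 179) (nat_lit 7) (nat_lit 8) (nat_lit 6) L116557 (by decide +kernel)
theorem L116559 : W_42 (nat_lit 13) (nat_lit 0x200010001a0004000000000000000000000000000) (nat_lit 0x0) (nat_lit 0x4000e0007000be005e00078001800b8003c003e001f00088000000000) := Q_42 (nat_lit 108) (C_42 L116528 (C_42 L116529 (C_42 L116554 (C_42 L116558 N_42)))) (by decide +kernel)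
theorem L116560 : W_42 (nat_lit 2) (nat_lit 0x200010001f0004000000000000000000000000000) (nat_lit 0x0) (nat_lit 0x700000000000000000000000000000000000) := D_42 (nat_lit 141) (nat_lit 142) (nat_lit 140) (nat_lit 1) (nat_lit 9) (nat_lit 7) (nat_lit 1) (nat_lit 8) (nat_lit 7) (by decide +kernel)
theorem L116561 : W_42 (nat_lit 3) (nat_lit 0x200010001b0004000000000000000000000000000) (nat_lit 0x0) (nat_lit 0x700040008000000000000000000000000000) := T_42 (nat_lit 126) (nat_lit 111) (nat_lit 2) (nat_lit 5) (nat_lit 7) L116560 (by decide +kernel)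
theorem L116562 : W_42 (nat_lit 2) (nat_lit 0x200010001b8006800040006000100000000000000) (nat_lit 0x0) (nat_lit 0x1000080004000000000) := D_42 (nat_lit 55) (nat_lit 38) (nat_lit 72) (nat_lit 4) (nat_lit 5) (nat_lit 6) (nat_lit 4) (nat_lit 5) (nat_lit 7) (by decide +kernel)
theorem L116563 : W_42 (nat_lit 3) (nat_lit 0x200010001b8006800040006000000000000000000) (nat_lit 0x0) (nat_lit 0x400000001000180004000000000) := T_42 (nat_lit 56) (nat_lit 106) (nat_lit 5) (nat_lit 5) (nat_lit 3) L116562 (by decide +kernel)
theorem L116564 : W_42 (nat_lit 4) (nat_lit 0x200010001b0006800040006000000000000000000) (nat_lit 0x0) (nat_lit 0x100008000400000001000180004000000000) := T_42 (nat_lit 123) (nat_lit 140) (nat_lit 5) (nat_lit 5) (nat_lit 4) L116563 (by decide +kernel)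
theorem L116565 : W_42 (nat_lit 5) (nat_lit 0x200010001b0006800040002000000000000000000) (nat_lit 0x0) (nat_lit 0x100008000400000005000380004000000000) := T_42 (nat_lit 74) (nat_lit 57) (nat_lit 6) (nat_lit 5) (nat_lit 7) L116564 (by decide +kernel)
theorem L116566 : W_42 (nat_lit 6) (nat_lit 0x200010001b0006800040000000000000000000000) (nat_lit 0x0) (nat_lit 0x500008000400000007000380004000000000) := T_42 (nat_lit 73) (nat_lit 142) (nat_lit 7) (nat_lit 5) (nat_lit 4) L116565 (by decide +kernel)
theorem L116567 : W_42 (nat_lit 7) (nat_lit 0x200010001b0004800040000000000000000000000) (nat_lit 0x0) (nat_lit 0x500008002400100007000380004000000000) := T_42 (nat_lit 109) (nat_lit 92) (nat_lit 4) (nat_lit 8) (nat_lit 9) L116566 (by decide +kernel)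
theorem L116568 : W_42 (nat_lit 2) (nat_lit 0x600010001b8004800040006000100000000000000) (nat_lit 0x0) (nat_lit 0x1000080004000000000) := D_42 (nat_lit 55) (nat_lit 38) (nat_lit 72) (nat_lit 4) (nat_lit 5) (nat_lit 6) (nat_lit 4) (nat_lit 5) (nat_lit 7) (by decide +kernel)
theorem L116569 : W_42 (nat_lit 3) (nat_lit 0x600010001b8004800040006000000000000000000) (nat_lit 0x0) (nat_lit 0x400000001000180004000000000) := T_42 (nat_lit 56) (nat_lit 106) (nat_lit 5) (nat_lit 5) (nat_lit 3) L116568 (by decide +kernel)
theorem L116570 : W_42 (nat_lit 4) (nat_lit 0x600010001b0004800040006000000000000000000) (nat_lit 0x0) (nat_lit 0x100008000400000001000180004000000000) := T_42 (nat_lit 123) (nat_lit 140) (nat_lit 5) (nat_lit 5) (nat_lit 4) L116569 (by decide +kernel)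
theorem L116571 : W_42 (nat_lit 5) (nat_lit 0x600010001b0004800040002000000000000000000) (nat_lit 0x0) (nat_lit 0x100008000400000005000380004000000000) := T_42 (nat_lit 74) (nat_lit 57) (nat_lit 6) (nat_lit 5) (nat_lit 7) L116570 (by decide +kernel)
theorem L116572 : W_42 (nat_lit 6) (nat_lit 0x600010001b0004800040000000000000000000000) (nat_lit 0x0) (nat_lit 0x500008000400000007000380004000000000) := T_42 (nat_lit 73) (nat_lit 142) (nat_lit 7) (nat_lit 5) (nat_lit 4) L116571 (by decide +kernel)
theorem L116573 : W_42 (nat_lit 7) (nat_lit 0x200010001b0004800040000000000000000000000) (nat_lit 0x0) (nat_lit 0x800040000500008000400000007000380004000000000) := T_42 (nat_lit 162) (nat_lit 179) (nat_lit 7) (nat_lit 8) (nat_lit 6) L116572 (by decide +kernel)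
theorem L116574 : W_42 (nat_lit 2) (nat_lit 0x700010001b8006800040002000100000000000000) (nat_lit 0x0) (nat_lit 0x1000080004000000000) := D_42 (nat_lit 55) (nat_lit 38) (nat_lit 72) (nat_lit 4) (nat_lit 5) (nat_lit 6) (nat_lit 4) (nat_lit 5) (nat_lit 7) (by decide +kernel)
theorem L116575 : W_42 (nat_lit 3) (nat_lit 0x700010001b8006800040002000000000000000000) (nat_lit 0x0) (nat_lit 0x400000001000180004000000000) := T_42 (nat_lit 56) (nat_lit 106) (nat_lit 5) (nat_lit 5) (nat_lit 3) L116574 (by decide +kernel)
theorem L116576 : W_42 (nat_lit 4) (nat_lit 0x700010001b0006800040002000000000000000000) (nat_lit 0x0) (nat_lit 0x100008000400000001000180004000000000) := T_42 (nat_lit 123) (nat_lit 140) (nat_lit 5) (nat_lit 5) (nat_lit 4) L116575 (by decide +kernel)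
theorem L116577 : W_42 (nat_lit 5) (nat_lit 0x700010001b0006800040000000000000000000000) (nat_lit 0x0) (nat_lit 0x500008000400000003000180004000000000) := T_42 (nat_lit 73) (nat_lit 142) (nat_lit 7) (nat_lit 5) (nat_lit 4) L116576 (by decide +kernel)
theorem L116578 : W_42 (nat_lit 6) (nat_lit 0x300010001b0006800040000000000000000000000) (nat_lit 0x0) (nat_lit 0x800040000500008000400000003000180004000000000) := T_42 (nat_lit 162) (nat_lit 179) (nat_lit 7) (nat_lit 8) (nat_lit 6) L116577 (by decide +kernel)
theorem L116579 : W_42 (nat_lit 7) (nat_lit 0x300010001b0004800040000000000000000000000) (nat_lit 0x0) (nat_lit 0x800040000500008002400100003000180004000000000) := T_42 (nat_lit 109) (nat_lit 92) (nat_lit 4) (nat_lit 8) (nat_lit 9) L116578 (by decide +kernel)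
theorem L116580 : W_42 (nat_lit 8) (nat_lit 0x200010001b0004800040000000000000000000000) (nat_lit 0x0) (nat_lit 0xa00050000500008002400100003000180004000000000) := T_42 (nat_lit 160) (nat_lit 177) (nat_lit 5) (nat_lit 8) (nat_lit 6) L116579 (by decide +kernel)
theorem L116581 : W_42 (nat_lit 2) (nat_lit 0x700010001b0004800340000000000000000000000) (nat_lit 0x0) (nat_lit 0x8400080000000000000000000000) := D_42 (nat_lit 91) (nat_lit 111) (nat_lit 106) (nat_lit 3) (nat_lit 5) (nat_lit 5) (nat_lit 1) (nat_lit 8) (nat_lit 5) (by decide +kernel)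
theorem L116582 : W_42 (nat_lit 3) (nat_lit 0x700010001b0004800140000000000000000000000) (nat_lit 0x0) (nat_lit 0x8400280008000000000000000000) := T_42 (nat_lit 93) (nat_lit 75) (nat_lit 4) (nat_lit 8) (nat_lit 8) L116581 (by decide +kernel)
theorem L116583 : W_42 (nat_lit 4) (nat_lit 0x300010001b0004800140000000000000000000000) (nat_lit 0x0) (nat_lit 0x800040000000000008400280008000000000000000000) := T_42 (nat_lit 162) (nat_lit 179) (nat_lit 7) (nat_lit 8) (nat_lit 6) L116582 (by decide +kernel)
theorem L116584 : W_42 (nat_lit 5) (nat_lit 0x300010001b0004800040000000000000000000000) (nat_lit 0x0) (nat_lit 0x80004000000000000a400380008000000000000000000) := T_42 (nat_lit 92) (nat_lit 109) (nat_lit 4) (nat_lit 8) (nat_lit 9) L116583 (by decide +kernel)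
theorem L116585 : W_42 (nat_lit 6) (nat_lit 0x200010001b0004800040000000000000000000000) (nat_lit 0x0) (nat_lit 0xa0005000000000000a400380008000000000000000000) := T_42 (nat_lit 160) (nat_lit 177) (nat_lit 5) (nat_lit 8) (nat_lit 6) L116584 (by decide +kernel)
theorem L116586 : W_42 (nat_lit 2) (nat_lit 0x600012001b8004800040006000000000000000000) (nat_lit 0x0) (nat_lit 0x20001000080000000000000) := D_42 (nat_lit 72) (nat_lit 89) (nat_lit 55) (nat_lit 4) (nat_lit 5) (nat_lit 8) (nat_lit 4) (nat_lit 5) (nat_lit 7) (by decide +kernel)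
theorem L116587 : W_42 (nat_lit 3) (nat_lit 0x600010001b8004800040006000000000000000000) (nat_lit 0x0) (nat_lit 0x2000000000000a0001000080000000000000) := T_42 (nat_lit 141) (nat_lit 91) (nat_lit 6) (nat_lit 5) (nat_lit 8) L116586 (by decide +kernel)
theorem L116588 : W_42 (nat_lit 4) (nat_lit 0x600010001b0004800040006000000000000000000) (nat_lit 0x0) (nat_lit 0x3000080000000a0001000080000000000000) := T_42 (nat_lit 123) (nat_lit 140) (nat_lit 5) (nat_lit 5) (nat_lit 4) L116587 (by decide +kernel)
theorem L116589 : W_42 (nat_lit 5) (nat_lit 0x600010001b0004800040002000000000000000000) (nat_lit 0x0) (nat_lit 0x3000080000000a0005000280000000000000) := T_42 (nat_lit 74) (nat_lit 57) (nat_lit 6) (nat_lit 5) (nat_lit 7) L116588 (by decide +kernel)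
theorem L116590 : W_42 (nat_lit 6) (nat_lit 0x600010001b0004800040000000000000000000000) (nat_lit 0x0) (nat_lit 0x7000080000000a0007000280000000000000) := T_42 (nat_lit 73) (nat_lit 142) (nat_lit 7) (nat_lit 5) (nat_lit 4) L116589 (by decide +kernel)
theorem L116591 : W_42 (nat_lit 7) (nat_lit 0x200010001b0004800040000000000000000000000) (nat_lit 0x0) (nat_lit 0x8000400007000080000000a0007000280000000000000) := T_42 (nat_lit 162) (nat_lit 179) (nat_lit 7) (nat_lit 8) (nat_lit 6) L116590 (by decide +kernel)
theorem L116592 : W_42 (nat_lit 9) (nat_lit 0x200010001b0004800000000000000000000000000) (nat_lit 0x0) (nat_lit 0xa0005000070000800a4003e000f000380004000000000) := Q_42 (nat_lit 90) (C_42 L116567 (C_42 L116573 (C_42 L116580 (C_42 L116585 (C_42 L116591 N_42))))) (by decide +kernel)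
theorem L116593 : W_42 (nat_lit 2) (nat_lit 0x700013001b00048003c0010000000000000000000) (nat_lit 0x0) (nat_lit 0xc000400000000000000000000000000000000000) := D_42 (nat_lit 159) (nat_lit 142) (nat_lit 158) (nat_lit 0) (nat_lit 9) (nat_lit 9) (nat_lit 0) (nat_lit 8) (nat_lit 9) (by decide +kernel)
theorem L116594 : W_42 (nat_lit 3) (nat_lit 0x700012001b00048003c0010000000000000000000) (nat_lit 0x0) (nat_lit 0xe000500000000000000000000000000000000000) := T_42 (nat_lit 140) (nat_lit 157) (nat_lit 5) (nat_lit 5) (nat_lit 5) L116593 (by decide +kernel)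
theorem L116595 : W_42 (nat_lit 4) (nat_lit 0x700010001b00048003c0010000000000000000000) (nat_lit 0x0) (nat_lit 0xe000700000000000000004000000000000000000) := T_42 (nat_lit 141) (nat_lit 74) (nat_lit 6) (nat_lit 5) (nat_lit 8) L116594 (by decide +kernel)
theorem L116596 : W_42 (nat_lit 5) (nat_lit 0x700010001b00048003c0000000000000000000000) (nat_lit 0x0) (nat_lit 0xe000700000000000000034000000000000000000) := T_42 (nat_lit 76) (nat_lit 77) (nat_lit 2) (nat_lit 5) (nat_lit 5) L116595 (by decide +kernel)
theorem L116597 : W_42 (nat_lit 6) (nat_lit 0x700010001b0004800340000000000000000000000) (nat_lit 0x0) (nat_lit 0xe000700000000400080034000000000000000000) := T_42 (nat_lit 91) (nat_lit 106) (nat_lit 1) (nat_lit 8) (nat_lit 5) L116596 (by decide +kernel)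
theorem L116598 : W_42 (nat_lit 7) (nat_lit 0x700010001b0004800140000000000000000000000) (nat_lit 0x0) (nat_lit 0xe00070000000040028003c000000000000000000) := T_42 (nat_lit 93) (nat_lit 75) (nat_lit 4) (nat_lit 8) (nat_lit 8) L116597 (by decide +kernel)
theorem L116599 : W_42 (nat_lit 8) (nat_lit 0x700010001b0004800040000000000000000000000) (nat_lit 0x0) (nat_lit 0xe00070000000240038003c000000000000000000) := T_42 (nat_lit 92) (nat_lit 109) (nat_lit 4) (nat_lit 8) (nat_lit 9) L116598 (by decide +kernel)
theorem L116600 : W_42 (nat_lit 9) (nat_lit 0x300010001b0004800040000000000000000000000) (nat_lit 0x0) (nat_lit 0x80004e00070000000240038003c000000000000000000) := T_42 (nat_lit 162) (nat_lit 179) (nat_lit 7) (nat_lit 8) (nat_lit 6) L116599 (by decide +kernel)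
theorem L116601 : W_42 (nat_lit 10) (nat_lit 0x200010001b0004800040000000000000000000000) (nat_lit 0x0) (nat_lit 0xa0005e00070000000240038003c000000000000000000) := T_42 (nat_lit 160) (nat_lit 177) (nat_lit 5) (nat_lit 8) (nat_lit 6) L116600 (by decide +kernel)
theorem L116602 : W_42 (nat_lit 2) (nat_lit 0x300010001b00048003c0002000000000000000000) (nat_lit 0x0) (nat_lit 0x200000000000000004000200000000000000) := D_42 (nat_lit 74) (nat_lit 141) (nat_lit 57) (nat_lit 6) (nat_lit 5) (nat_lit 8) (nat_lit 6) (nat_lit 5) (nat_lit 7) (by decide +kernel)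
theorem L116603 : W_42 (nat_lit 3) (nat_lit 0x300010001b00048003c0000000000000000000000) (nat_lit 0x0) (nat_lit 0x200000000000000007000200000000000000) := T_42 (nat_lit 73) (nat_lit 72) (nat_lit 0) (nat_lit 8) (nat_lit 5) L116602 (by decide +kernel)
theorem L116604 : W_42 (nat_lit 4) (nat_lit 0x300010001b0004800340000000000000000000000) (nat_lit 0x0) (nat_lit 0x200000000400080007000200000000000000) := T_42 (nat_lit 91) (nat_lit 106) (nat_lit 1) (nat_lit 8) (nat_lit 5) L116603 (by decide +kernel)
theorem L116605 : W_42 (nat_lit 5) (nat_lit 0x300010001b0004800140000000000000000000000) (nat_lit 0x0) (nat_lit 0x20000000040028000f000200000000000000) := T_42 (nat_lit 93) (nat_lit 75) (nat_lit 4) (nat_lit 8) (nat_lit 8) L116604 (by decide +kernel)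
theorem L116606 : W_42 (nat_lit 6) (nat_lit 0x200010001b0004800140000000000000000000000) (nat_lit 0x0) (nat_lit 0x20001000020000000040028000f000200000000000000) := T_42 (nat_lit 160) (nat_lit 177) (nat_lit 5) (nat_lit 8) (nat_lit 6) L116605 (by decide +kernel)
theorem L116607 : W_42 (nat_lit 7) (nat_lit 0x200010001b0004800040000000000000000000000) (nat_lit 0x0) (nat_lit 0x20001000020000000240038000f000200000000000000) := T_42 (nat_lit 92) (nat_lit 109) (nat_lit 4) (nat_lit 8) (nat_lit 9) L116606 (by decide +kernel)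
theorem L116608 : W_42 (nat_lit 11) (nat_lit 0x200010001b0004800000000000000000000000000) (nat_lit 0x0) (nat_lit 0xa0005e0007000080024003e003f000380004000000000) := Q_42 (nat_lit 90) (C_42 L116591 (C_42 L116567 (C_42 L116580 (C_42 L116601 (C_42 L116607 N_42))))) (by decide +kernel)
theorem L116609 : W_42 (nat_lit 2) (nat_lit 0x200010001b8004800040002000100000000000000) (nat_lit 0x0) (nat_lit 0x1000080004000000000) := D_42 (nat_lit 55) (nat_lit 38) (nat_lit 72) (nat_lit 4) (nat_lit 5) (nat_lit 6) (nat_lit 4) (nat_lit 5) (nat_lit 7) (by decide +kernel)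
theorem L116610 : W_42 (nat_lit 3) (nat_lit 0x200010001b8004800040002000000000000000000) (nat_lit 0x0) (nat_lit 0x400000001000180004000000000) := T_42 (nat_lit 56) (nat_lit 106) (nat_lit 5) (nat_lit 5) (nat_lit 3) L116609 (by decide +kernel)
theorem L116611 : W_42 (nat_lit 4) (nat_lit 0x200010001b0004800040002000000000000000000) (nat_lit 0x0) (nat_lit 0x100008000400000001000180004000000000) := T_42 (nat_lit 123) (nat_lit 140) (nat_lit 5) (nat_lit 5) (nat_lit 4) L116610 (by decide +kernel)
theorem L116612 : W_42 (nat_lit 5) (nat_lit 0x200010001b0004800040000000000000000000000) (nat_lit 0x0) (nat_lit 0x500008000400000003000180004000000000) := T_42 (nat_lit 73) (nat_lit 142) (nat_lit 7) (nat_lit 5) (nat_lit 4) L116611 (by decide +kernel)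
theorem L116613 : W_42 (nat_lit 2) (nat_lit 0x600010001b0004800340000000000000000000000) (nat_lit 0x0) (nat_lit 0x8400080000000000000000000000) := D_42 (nat_lit 91) (nat_lit 111) (nat_lit 106) (nat_lit 3) (nat_lit 5) (nat_lit 5) (nat_lit 1) (nat_lit 8) (nat_lit 5) (by decide +kernel)
theorem L116614 : W_42 (nat_lit 3) (nat_lit 0x600010001b0004800140000000000000000000000) (nat_lit 0x0) (nat_lit 0x8400280008000000000000000000) := T_42 (nat_lit 93) (nat_lit 75) (nat_lit 4) (nat_lit 8) (nat_lit 8) L116613 (by decide +kernel)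
theorem L116615 : W_42 (nat_lit 4) (nat_lit 0x600010001b0004800040000000000000000000000) (nat_lit 0x0) (nat_lit 0xa400380008000000000000000000) := T_42 (nat_lit 92) (nat_lit 109) (nat_lit 4) (nat_lit 8) (nat_lit 9) L116614 (by decide +kernel)
theorem L116616 : W_42 (nat_lit 5) (nat_lit 0x200010001b0004800040000000000000000000000) (nat_lit 0x0) (nat_lit 0x80004000000000000a400380008000000000000000000) := T_42 (nat_lit 162) (nat_lit 179) (nat_lit 7) (nat_lit 8) (nat_lit 6) L116615 (by decide +kernel)
theorem L116617 : W_42 (nat_lit 8) (nat_lit 0x200010001b0004800000000000000000000000000) (nat_lit 0x0) (nat_lit 0x80004000070000800a4003e000f000380004000000000) := Q_42 (nat_lit 90) (C_42 L116591 (C_42 L116567 (C_42 L116612 (C_42 L116616 N_42)))) (by decide +kernel)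
theorem L116618 : W_42 (nat_lit 2) (nat_lit 0x300010001b0004800340000000000000000000000) (nat_lit 0x0) (nat_lit 0x8400080000000000000000000000) := D_42 (nat_lit 91) (nat_lit 111) (nat_lit 106) (nat_lit 3) (nat_lit 5) (nat_lit 5) (nat_lit 1) (nat_lit 8) (nat_lit 5) (by decide +kernel)
theorem L116619 : W_42 (nat_lit 3) (nat_lit 0x300010001b0004800140000000000000000000000) (nat_lit 0x0) (nat_lit 0x8400280008000000000000000000) := T_42 (nat_lit 93) (nat_lit 75) (nat_lit 4) (nat_lit 8) (nat_lit 8) L116618 (by decide +kernel)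
theorem L116620 : W_42 (nat_lit 4) (nat_lit 0x200010001b0004800140000000000000000000000) (nat_lit 0x0) (nat_lit 0x200010000000000008400280008000000000000000000) := T_42 (nat_lit 160) (nat_lit 177) (nat_lit 5) (nat_lit 8) (nat_lit 6) L116619 (by decide +kernel)
theorem L116621 : W_42 (nat_lit 5) (nat_lit 0x200010001b0004800040000000000000000000000) (nat_lit 0x0) (nat_lit 0x20001000000000000a400380008000000000000000000) := T_42 (nat_lit 92) (nat_lit 109) (nat_lit 4) (nat_lit 8) (nat_lit 9) L116620 (by decide +kernel)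
theorem L116622 : W_42 (nat_lit 2) (nat_lit 0x300012001b8004800040006000000000000000000) (nat_lit 0x0) (nat_lit 0x20001000080000000000000) := D_42 (nat_lit 72) (nat_lit 89) (nat_lit 55) (nat_lit 4) (nat_lit 5) (nat_lit 8) (nat_lit 4) (nat_lit 5) (nat_lit 7) (by decide +kernel)
theorem L116623 : W_42 (nat_lit 3) (nat_lit 0x300010001b8004800040006000000000000000000) (nat_lit 0x0) (nat_lit 0x2000000000000a0001000080000000000000) := T_42 (nat_lit 141) (nat_lit 91) (nat_lit 6) (nat_lit 5) (nat_lit 8) L116622 (by decide +kernel)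
theorem L116624 : W_42 (nat_lit 4) (nat_lit 0x300010001b0004800040006000000000000000000) (nat_lit 0x0) (nat_lit 0x3000080000000a0001000080000000000000) := T_42 (nat_lit 123) (nat_lit 140) (nat_lit 5) (nat_lit 5) (nat_lit 4) L116623 (by decide +kernel)
theorem L116625 : W_42 (nat_lit 5) (nat_lit 0x300010001b0004800040002000000000000000000) (nat_lit 0x0) (nat_lit 0x3000080000000a0005000280000000000000) := T_42 (nat_lit 74) (nat_lit 57) (nat_lit 6) (nat_lit 5) (nat_lit 7) L116624 (by decide +kernel)
theorem L116626 : W_42 (nat_lit 6) (nat_lit 0x300010001b0004800040000000000000000000000) (nat_lit 0x0) (nat_lit 0x7000080000000a0007000280000000000000) := T_42 (nat_lit 73) (nat_lit 142) (nat_lit 7) (nat_lit 5) (nat_lit 4) L116625 (by decide +kernel)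
theorem L116627 : W_42 (nat_lit 7) (nat_lit 0x200010001b0004800040000000000000000000000) (nat_lit 0x0) (nat_lit 0x2000100007000080000000a0007000280000000000000) := T_42 (nat_lit 160) (nat_lit 177) (nat_lit 5) (nat_lit 8) (nat_lit 6) L116626 (by decide +kernel)
theorem L116628 : W_42 (nat_lit 8) (nat_lit 0x200010001b0004800000000000000000000000000) (nat_lit 0x0) (nat_lit 0x20001000070000800a4003e000f000380004000000000) := Q_42 (nat_lit 90) (C_42 L116612 (C_42 L116621 (C_42 L116627 N_42))) (by decide +kernel)
theorem L116629 : W_42 (nat_lit 2) (nat_lit 0x310017801b40068000e0000000000000000000000) (nat_lit 0x0) (nat_lit 0x4000000008000400000000000000000000000000) := D_42 (nat_lit 106) (nat_lit 158) (nat_lit 123) (nat_lit 4) (nat_lit 5) (nat_lit 9) (nat_lit 5) (nat_lit 4) (nat_lit 5) (by decide +kernel)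
theorem L116630 : W_42 (nat_lit 3) (nat_lit 0x310017801b40068000c0000000000000000000000) (nat_lit 0x0) (nat_lit 0x4000000008000400020001000000000000000000) := T_42 (nat_lit 89) (nat_lit 72) (nat_lit 4) (nat_lit 5) (nat_lit 8) L116629 (by decide +kernel)
theorem L116631 : W_42 (nat_lit 4) (nat_lit 0x300017801b40068000c0000000000000000000000) (nat_lit 0x0) (nat_lit 0x5800000008000400020001000000000000000000) := T_42 (nat_lit 156) (nat_lit 155) (nat_lit 1) (nat_lit 6) (nat_lit 8) L116630 (by decide +kernel)
theorem L116632 : W_42 (nat_lit 5) (nat_lit 0x300017801b00068000c0000000000000000000000) (nat_lit 0x0) (nat_lit 0x580000000e000400020001000000000000000000) := T_42 (nat_lit 122) (nat_lit 121) (nat_lit 0) (nat_lit 6) (nat_lit 8) L116631 (by decide +kernel)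
theorem L116633 : W_42 (nat_lit 6) (nat_lit 0x200017801b00068000c0000000000000000000000) (nat_lit 0x0) (nat_lit 0x20001580000000e000400020001000000000000000000) := T_42 (nat_lit 160) (nat_lit 177) (nat_lit 5) (nat_lit 8) (nat_lit 6) L116632 (by decide +kernel)
theorem L116634 : W_42 (nat_lit 7) (nat_lit 0x200017001b00068000c0000000000000000000000) (nat_lit 0x0) (nat_lit 0x2000158000c000e000400020001000000000000000000) := T_42 (nat_lit 139) (nat_lit 138) (nat_lit 2) (nat_lit 2) (nat_lit 8) L116633 (by decide +kernel)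
theorem L116635 : W_42 (nat_lit 8) (nat_lit 0x200016001b00068000c0000000000000000000000) (nat_lit 0x0) (nat_lit 0x2000178001c000e000400020001000000000000000000) := T_42 (nat_lit 140) (nat_lit 157) (nat_lit 5) (nat_lit 5) (nat_lit 5) L116634 (by decide +kernel)
theorem L116636 : W_42 (nat_lit 9) (nat_lit 0x200016001b0006800040000000000000000000000) (nat_lit 0x0) (nat_lit 0x2000178001c000e0004000a0005000000000000000000) := T_42 (nat_lit 91) (nat_lit 74) (nat_lit 6) (nat_lit 5) (nat_lit 8) L116635 (by decide +kernel)
theorem L116637 : W_42 (nat_lit 10) (nat_lit 0x200012001b0006800040000000000000000000000) (nat_lit 0x0) (nat_lit 0x20001f8005c000e0004000a0005000000000000000000) := T_42 (nat_lit 142) (nat_lit 159) (nat_lit 7) (nat_lit 5) (nat_lit 5) L116636 (by decide +kernel)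
theorem L116638 : W_42 (nat_lit 11) (nat_lit 0x200012001b0004800040000000000000000000000) (nat_lit 0x0) (nat_lit 0x20001f8005c000e0024001a0005000000000000000000) := T_42 (nat_lit 109) (nat_lit 92) (nat_lit 4) (nat_lit 8) (nat_lit 9) L116637 (by decide +kernel)
theorem L116639 : W_42 (nat_lit 2) (nat_lit 0x710017801b40048000e0000000000000000000000) (nat_lit 0x0) (nat_lit 0x4000000008000400000000000000000000000000) := D_42 (nat_lit 106) (nat_lit 158) (nat_lit 123) (nat_lit 4) (nat_lit 5) (nat_lit 9) (nat_lit 5) (nat_lit 4) (nat_lit 5) (by decide +kernel)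
theorem L116640 : W_42 (nat_lit 3) (nat_lit 0x710017801b40048000c0000000000000000000000) (nat_lit 0x0) (nat_lit 0x4000000008000400020001000000000000000000) := T_42 (nat_lit 89) (nat_lit 72) (nat_lit 4) (nat_lit 5) (nat_lit 8) L116639 (by decide +kernel)
theorem L116641 : W_42 (nat_lit 4) (nat_lit 0x700017801b40048000c0000000000000000000000) (nat_lit 0x0) (nat_lit 0x5800000008000400020001000000000000000000) := T_42 (nat_lit 156) (nat_lit 155) (nat_lit 1) (nat_lit 6) (nat_lit 8) L116640 (by decide +kernel)
theorem L116642 : W_42 (nat_lit 5) (nat_lit 0x700017801b00048000c0000000000000000000000) (nat_lit 0x0) (nat_lit 0x580000000e000400020001000000000000000000) := T_42 (nat_lit 122) (nat_lit 121) (nat_lit 0) (nat_lit 6) (nat_lit 8) L116641 (by decide +kernel)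
theorem L116643 : W_42 (nat_lit 6) (nat_lit 0x600017801b00048000c0000000000000000000000) (nat_lit 0x0) (nat_lit 0x20001580000000e000400020001000000000000000000) := T_42 (nat_lit 160) (nat_lit 177) (nat_lit 5) (nat_lit 8) (nat_lit 6) L116642 (by decide +kernel)
theorem L116644 : W_42 (nat_lit 7) (nat_lit 0x600017001b00048000c0000000000000000000000) (nat_lit 0x0) (nat_lit 0x2000158000c000e000400020001000000000000000000) := T_42 (nat_lit 139) (nat_lit 138) (nat_lit 2) (nat_lit 2) (nat_lit 8) L116643 (by decide +kernel)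
theorem L116645 : W_42 (nat_lit 8) (nat_lit 0x600016001b00048000c0000000000000000000000) (nat_lit 0x0) (nat_lit 0x2000178001c000e000400020001000000000000000000) := T_42 (nat_lit 140) (nat_lit 157) (nat_lit 5) (nat_lit 5) (nat_lit 5) L116644 (by decide +kernel)
theorem L116646 : W_42 (nat_lit 9) (nat_lit 0x600016001b0004800040000000000000000000000) (nat_lit 0x0) (nat_lit 0x2000178001c000e0004000a0005000000000000000000) := T_42 (nat_lit 91) (nat_lit 74) (nat_lit 6) (nat_lit 5) (nat_lit 8) L116645 (by decide +kernel)
theorem L116647 : W_42 (nat_lit 10) (nat_lit 0x600012001b0004800040000000000000000000000) (nat_lit 0x0) (nat_lit 0x20001f8005c000e0004000a0005000000000000000000) := T_42 (nat_lit 142) (nat_lit 159) (nat_lit 7) (nat_lit 5) (nat_lit 5) L116646 (by decide +kernel)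
theorem L116648 : W_42 (nat_lit 11) (nat_lit 0x200012001b0004800040000000000000000000000) (nat_lit 0x0) (nat_lit 0xa0005f8005c000e0004000a0005000000000000000000) := T_42 (nat_lit 162) (nat_lit 179) (nat_lit 7) (nat_lit 8) (nat_lit 6) L116647 (by decide +kernel)
theorem L116649 : W_42 (nat_lit 2) (nat_lit 0x640012001b0004800060000000000000000000000) (nat_lit 0x0) (nat_lit 0x100008000400000000000000000000000000000000000) := D_42 (nat_lit 159) (nat_lit 142) (nat_lit 176) (nat_lit 7) (nat_lit 5) (nat_lit 5) (nat_lit 7) (nat_lit 5) (nat_lit 6) (by decide +kernel)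
theorem L116650 : W_42 (nat_lit 3) (nat_lit 0x600012001b0004800060000000000000000000000) (nat_lit 0x0) (nat_lit 0x10000c000400000000400000000000000000000000000) := T_42 (nat_lit 158) (nat_lit 106) (nat_lit 4) (nat_lit 5) (nat_lit 9) L116649 (by decide +kernel)
theorem L116651 : W_42 (nat_lit 4) (nat_lit 0x200012001b0004800060000000000000000000000) (nat_lit 0x0) (nat_lit 0x90004c000400000000400000000000000000000000000) := T_42 (nat_lit 162) (nat_lit 179) (nat_lit 7) (nat_lit 8) (nat_lit 6) L116650 (by decide +kernel)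
theorem L116652 : W_42 (nat_lit 5) (nat_lit 0x200012001b0004800040000000000000000000000) (nat_lit 0x0) (nat_lit 0x90004c000400000000400020001000000000000000000) := T_42 (nat_lit 89) (nat_lit 72) (nat_lit 4) (nat_lit 5) (nat_lit 8) L116651 (by decide +kernel)
theorem L116653 : W_42 (nat_lit 2) (nat_lit 0x700012001b00048001e0000000000000000000000) (nat_lit 0x0) (nat_lit 0x4000000000000600000000000000000000000000) := D_42 (nat_lit 106) (nat_lit 105) (nat_lit 158) (nat_lit 1) (nat_lit 7) (nat_lit 5) (nat_lit 4) (nat_lit 5) (nat_lit 9) (by decide +kernel)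
theorem L116654 : W_42 (nat_lit 3) (nat_lit 0x700012001b00048000e0000000000000000000000) (nat_lit 0x0) (nat_lit 0x4000000000002600100000000000000000000000) := T_42 (nat_lit 92) (nat_lit 109) (nat_lit 3) (nat_lit 4) (nat_lit 5) L116653 (by decide +kernel)
theorem L116655 : W_42 (nat_lit 4) (nat_lit 0x700012001b0004800060000000000000000000000) (nat_lit 0x0) (nat_lit 0x4000000000002600180004000000000000000000) := T_42 (nat_lit 91) (nat_lit 74) (nat_lit 6) (nat_lit 5) (nat_lit 8) L116654 (by decide +kernel)
theorem L116656 : W_42 (nat_lit 5) (nat_lit 0x700012001b0004800040000000000000000000000) (nat_lit 0x0) (nat_lit 0x40000000000026001a0005000000000000000000) := T_42 (nat_lit 89) (nat_lit 72) (nat_lit 4) (nat_lit 5) (nat_lit 8) L116655 (by decide +kernel)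
theorem L116657 : W_42 (nat_lit 6) (nat_lit 0x300012001b0004800040000000000000000000000) (nat_lit 0x0) (nat_lit 0x8000440000000000026001a0005000000000000000000) := T_42 (nat_lit 162) (nat_lit 179) (nat_lit 7) (nat_lit 8) (nat_lit 6) L116656 (by decide +kernel)
theorem L116658 : W_42 (nat_lit 7) (nat_lit 0x200012001b0004800040000000000000000000000) (nat_lit 0x0) (nat_lit 0xa000540000000000026001a0005000000000000000000) := T_42 (nat_lit 160) (nat_lit 177) (nat_lit 5) (nat_lit 8) (nat_lit 6) L116657 (by decide +kernel)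
theorem L116659 : W_42 (nat_lit 2) (nat_lit 0x200017401b0004a001f0000800000000000000000) (nat_lit 0x0) (nat_lit 0xe000000000000000000000000000000) := D_42 (nat_lit 122) (nat_lit 121) (nat_lit 123) (nat_lit 5) (nat_lit 3) (nat_lit 4) (nat_lit 7) (nat_lit 3) (nat_lit 4) (by decide +kernel)
theorem L116660 : W_42 (nat_lit 3) (nat_lit 0x200017401b0004a001f0000000000000000000000) (nat_lit 0x0) (nat_lit 0xe000000000000c00000000000000000) := T_42 (nat_lit 71) (nat_lit 70) (nat_lit 0) (nat_lit 6) (nat_lit 5) L116659 (by decide +kernel)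
theorem L116661 : W_42 (nat_lit 4) (nat_lit 0x200017401b0004a001e0000000000000000000000) (nat_lit 0x0) (nat_lit 0xe000100010000c00000000000000000) := T_42 (nat_lit 88) (nat_lit 104) (nat_lit 1) (nat_lit 6) (nat_lit 5) L116660 (by decide +kernel)
theorem L116662 : W_42 (nat_lit 5) (nat_lit 0x200017401b00048001e0000000000000000000000) (nat_lit 0x0) (nat_lit 0xe000700010000c00000000000000000) := T_42 (nat_lit 105) (nat_lit 106) (nat_lit 1) (nat_lit 7) (nat_lit 5) L116661 (by decide +kernel)
theorem L116663 : W_42 (nat_lit 6) (nat_lit 0x200017401b0004800160000000000000000000000) (nat_lit 0x0) (nat_lit 0xe000700090004c00000000000000000) := T_42 (nat_lit 91) (nat_lit 74) (nat_lit 6) (nat_lit 5) (nat_lit 8) L116662 (by decide +kernel)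
theorem L116664 : W_42 (nat_lit 7) (nat_lit 0x200017401b0004800060000000000000000000000) (nat_lit 0x0) (nat_lit 0xe002700190004c00000000000000000) := T_42 (nat_lit 92) (nat_lit 109) (nat_lit 4) (nat_lit 8) (nat_lit 9) L116663 (by decide +kernel)
theorem L116665 : W_42 (nat_lit 8) (nat_lit 0x200017401b0004800040000000000000000000000) (nat_lit 0x0) (nat_lit 0xe0027001b0005c00000000000000000) := T_42 (nat_lit 89) (nat_lit 72) (nat_lit 4) (nat_lit 5) (nat_lit 8) L116664 (by decide +kernel)
theorem L116666 : W_42 (nat_lit 9) (nat_lit 0x200013401b0004800040000000000000000000000) (nat_lit 0x0) (nat_lit 0x800040000e0027001b0005c00000000000000000) := T_42 (nat_lit 142) (nat_lit 159) (nat_lit 7) (nat_lit 5) (nat_lit 5) L116665 (by decide +kernel)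
theorem L116667 : W_42 (nat_lit 10) (nat_lit 0x200013001b0004800040000000000000000000000) (nat_lit 0x0) (nat_lit 0x80004c000e0027001b0005c00000000000000000) := T_42 (nat_lit 138) (nat_lit 139) (nat_lit 2) (nat_lit 2) (nat_lit 8) L116666 (by decide +kernel)
theorem L116668 : W_42 (nat_lit 11) (nat_lit 0x200012001b0004800040000000000000000000000) (nat_lit 0x0) (nat_lit 0xa0005c000e0027001b0005c00000000000000000) := T_42 (nat_lit 140) (nat_lit 157) (nat_lit 5) (nat_lit 5) (nat_lit 5) L116667 (by decide +kernel)
theorem L116669 : W_42 (nat_lit 2) (nat_lit 0x360016001b0004c000c0000000000000000000000) (nat_lit 0x0) (nat_lit 0x1000080000000000008000000000000000000000000000000) := D_42 (nat_lit 175) (nat_lit 192) (nat_lit 123) (nat_lit 6) (nat_lit 5) (nat_lit 11) (nat_lit 4) (nat_lit 5) (nat_lit 10) (by decide +kernel)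
theorem L116670 : W_42 (nat_lit 3) (nat_lit 0x360016001b00048000c0000000000000000000000) (nat_lit 0x0) (nat_lit 0x1000080000000000008000400020000000000000000000000) := T_42 (nat_lit 106) (nat_lit 89) (nat_lit 4) (nat_lit 5) (nat_lit 9) L116669 (by decide +kernel)
theorem L116671 : W_42 (nat_lit 4) (nat_lit 0x320016001b00048000c0000000000000000000000) (nat_lit 0x0) (nat_lit 0x10000c0004000000008000400020000000000000000000000) := T_42 (nat_lit 158) (nat_lit 174) (nat_lit 5) (nat_lit 5) (nat_lit 6) L116670 (by decide +kernel)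
theorem L116672 : W_42 (nat_lit 5) (nat_lit 0x320016001b0004800040000000000000000000000) (nat_lit 0x0) (nat_lit 0x10000c00040000000080004000a0004000000000000000000) := T_42 (nat_lit 91) (nat_lit 74) (nat_lit 6) (nat_lit 5) (nat_lit 8) L116671 (by decide +kernel)
theorem L116673 : W_42 (nat_lit 6) (nat_lit 0x300016001b0004800040000000000000000000000) (nat_lit 0x0) (nat_lit 0x10000c00060001000080004000a0004000000000000000000) := T_42 (nat_lit 157) (nat_lit 140) (nat_lit 5) (nat_lit 5) (nat_lit 5) L116672 (by decide +kernel)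
theorem L116674 : W_42 (nat_lit 7) (nat_lit 0x300012001b0004800040000000000000000000000) (nat_lit 0x0) (nat_lit 0x10000c000e0005000080004000a0004000000000000000000) := T_42 (nat_lit 142) (nat_lit 159) (nat_lit 7) (nat_lit 5) (nat_lit 5) L116673 (by decide +kernel)
theorem L116675 : W_42 (nat_lit 8) (nat_lit 0x200012001b0004800040000000000000000000000) (nat_lit 0x0) (nat_lit 0x10002c001e0005000080004000a0004000000000000000000) := T_42 (nat_lit 160) (nat_lit 177) (nat_lit 5) (nat_lit 8) (nat_lit 6) L116674 (by decide +kernel)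
theorem L116676 : W_42 (nat_lit 2) (nat_lit 0x300013401b0004800060000000000000000000000) (nat_lit 0x0) (nat_lit 0xc000400000000000000000000000000000000000) := D_42 (nat_lit 159) (nat_lit 158) (nat_lit 142) (nat_lit 0) (nat_lit 8) (nat_lit 9) (nat_lit 7) (nat_lit 5) (nat_lit 5) (by decide +kernel)
theorem L116677 : W_42 (nat_lit 3) (nat_lit 0x200013401b0004800060000000000000000000000) (nat_lit 0x0) (nat_lit 0x20001c000400000000000000000000000000000000000) := T_42 (nat_lit 160) (nat_lit 177) (nat_lit 5) (nat_lit 8) (nat_lit 6) L116676 (by decide +kernel)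
theorem L116678 : W_42 (nat_lit 4) (nat_lit 0x200013401b0004800040000000000000000000000) (nat_lit 0x0) (nat_lit 0x20001c000400000000000020001000000000000000000) := T_42 (nat_lit 89) (nat_lit 72) (nat_lit 4) (nat_lit 5) (nat_lit 8) L116677 (by decide +kernel)
theorem L116679 : W_42 (nat_lit 5) (nat_lit 0x200013001b0004800040000000000000000000000) (nat_lit 0x0) (nat_lit 0x20001c0004c0000000000020001000000000000000000) := T_42 (nat_lit 138) (nat_lit 139) (nat_lit 2) (nat_lit 2) (nat_lit 8) L116678 (by decide +kernel)
theorem L116680 : W_42 (nat_lit 6) (nat_lit 0x200012001b0004800040000000000000000000000) (nat_lit 0x0) (nat_lit 0x20001e0005c0000000000020001000000000000000000) := T_42 (nat_lit 140) (nat_lit 157) (nat_lit 5) (nat_lit 5) (nat_lit 5) L116679 (by decide +kernel)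
theorem L116681 : W_42 (nat_lit 2) (nat_lit 0x2c0012001b00048000c0000000000000000000000) (nat_lit 0x0) (nat_lit 0x40002000100000000000000000000000000000000000) := D_42 (nat_lit 157) (nat_lit 174) (nat_lit 140) (nat_lit 5) (nat_lit 5) (nat_lit 6) (nat_lit 5) (nat_lit 5) (nat_lit 5) (by decide +kernel)
theorem L116682 : W_42 (nat_lit 3) (nat_lit 0x280012001b00048000c0000000000000000000000) (nat_lit 0x0) (nat_lit 0x140006000100000000000000000000000000000000000) := T_42 (nat_lit 158) (nat_lit 176) (nat_lit 7) (nat_lit 5) (nat_lit 6) L116681 (by decide +kernel)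
theorem L116683 : W_42 (nat_lit 4) (nat_lit 0x280012001b0004800040000000000000000000000) (nat_lit 0x0) (nat_lit 0x140006000100000000000080004000000000000000000) := T_42 (nat_lit 91) (nat_lit 74) (nat_lit 6) (nat_lit 5) (nat_lit 8) L116682 (by decide +kernel)
theorem L116684 : W_42 (nat_lit 5) (nat_lit 0x200012001b0004800040000000000000000000000) (nat_lit 0x0) (nat_lit 0x14000e000500000000000080004000000000000000000) := T_42 (nat_lit 159) (nat_lit 142) (nat_lit 7) (nat_lit 5) (nat_lit 5) L116683 (by decide +kernel)
theorem L116685 : W_42 (nat_lit 12) (nat_lit 0x200010001b0004800040000000000000000000000) (nat_lit 0x0) (nat_lit 0x1000bc005f8007c000e0027001b0005c00000000000000000) := Q_42 (nat_lit 141) (C_42 L116638 (C_42 L116648 (C_42 L116652 (C_42 L116658 (C_42 L116668 (C_42 L116675 (C_42 L116680 (C_42 L116684 N_42)))))))) (by decide +kernel)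
theorem L116686 : W_42 (nat_lit 2) (nat_lit 0x300010001b8004800040002000100000000000000) (nat_lit 0x0) (nat_lit 0x4000200010000000000) := D_42 (nat_lit 57) (nat_lit 74) (nat_lit 40) (nat_lit 6) (nat_lit 5) (nat_lit 7) (nat_lit 6) (nat_lit 5) (nat_lit 6) (by decide +kernel)
theorem L116687 : W_42 (nat_lit 3) (nat_lit 0x300010001b8004800040002000000000000000000) (nat_lit 0x0) (nat_lit 0x400000004000300010000000000) := T_42 (nat_lit 56) (nat_lit 106) (nat_lit 5) (nat_lit 5) (nat_lit 3) L116686 (by decide +kernel)
theorem L116688 : W_42 (nat_lit 4) (nat_lit 0x300010001b0004800040002000000000000000000) (nat_lit 0x0) (nat_lit 0x100008000400000004000300010000000000) := T_42 (nat_lit 123) (nat_lit 140) (nat_lit 5) (nat_lit 5) (nat_lit 4) L116687 (by decide +kernel)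
theorem L116689 : W_42 (nat_lit 5) (nat_lit 0x200010001b0004800040002000000000000000000) (nat_lit 0x0) (nat_lit 0x200010000100008000400000004000300010000000000) := T_42 (nat_lit 160) (nat_lit 177) (nat_lit 5) (nat_lit 8) (nat_lit 6) L116688 (by decide +kernel)
theorem L116690 : W_42 (nat_lit 2) (nat_lit 0x200010001b0004800040007000000000000000000) (nat_lit 0x0) (nat_lit 0x2000000000000a0000000000000000000000) := D_42 (nat_lit 141) (nat_lit 91) (nat_lit 89) (nat_lit 6) (nat_lit 5) (nat_lit 8) (nat_lit 4) (nat_lit 5) (nat_lit 8) (by decide +kernel)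
theorem L116691 : W_42 (nat_lit 3) (nat_lit 0x200010001b0004800040006000000000000000000) (nat_lit 0x0) (nat_lit 0x2000000000000a0001000080000000000000) := T_42 (nat_lit 72) (nat_lit 55) (nat_lit 4) (nat_lit 5) (nat_lit 7) L116690 (by decide +kernel)
theorem L116692 : W_42 (nat_lit 4) (nat_lit 0x200010001b0004800040002000000000000000000) (nat_lit 0x0) (nat_lit 0x2000000000000a0005000280000000000000) := T_42 (nat_lit 74) (nat_lit 57) (nat_lit 6) (nat_lit 5) (nat_lit 7) L116691 (by decide +kernel)
theorem L116693 : W_42 (nat_lit 6) (nat_lit 0x200010001b0004800040000000000000000000000) (nat_lit 0x0) (nat_lit 0x2000100003000080004000a0007000380014000000000) := Q_42 (nat_lit 73) (C_42 L116611 (C_42 L116689 (C_42 L116692 N_42))) (by decide +kernel)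
theorem L116694 : W_42 (nat_lit 5) (nat_lit 0x300010001b0004800040000000000000000000000) (nat_lit 0x0) (nat_lit 0x500008000400000006000300010000000000) := T_42 (nat_lit 73) (nat_lit 142) (nat_lit 7) (nat_lit 5) (nat_lit 4) L116688 (by decide +kernel)
theorem L116695 : W_42 (nat_lit 6) (nat_lit 0x200010001b0004800040000000000000000000000) (nat_lit 0x0) (nat_lit 0x200010000500008000400000006000300010000000000) := T_42 (nat_lit 160) (nat_lit 177) (nat_lit 5) (nat_lit 8) (nat_lit 6) L116694 (by decide +kernel)
theorem L116696 : W_42 (nat_lit 2) (nat_lit 0x700010001b0004800040007000000000000000000) (nat_lit 0x0) (nat_lit 0x2000000000000a0000000000000000000000) := D_42 (nat_lit 141) (nat_lit 91) (nat_lit 89) (nat_lit 6) (nat_lit 5) (nat_lit 8) (nat_lit 4) (nat_lit 5) (nat_lit 8) (by decide +kernel)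
theorem L116697 : W_42 (nat_lit 3) (nat_lit 0x700010001b0004800040006000000000000000000) (nat_lit 0x0) (nat_lit 0x2000000000000a0001000080000000000000) := T_42 (nat_lit 72) (nat_lit 55) (nat_lit 4) (nat_lit 5) (nat_lit 7) L116696 (by decide +kernel)
theorem L116698 : W_42 (nat_lit 4) (nat_lit 0x700010001b0004800040002000000000000000000) (nat_lit 0x0) (nat_lit 0x2000000000000a0005000280000000000000) := T_42 (nat_lit 74) (nat_lit 57) (nat_lit 6) (nat_lit 5) (nat_lit 7) L116697 (by decide +kernel)
theorem L116699 : W_42 (nat_lit 5) (nat_lit 0x700010001b0004800040000000000000000000000) (nat_lit 0x0) (nat_lit 0x6000000000000a0007000280000000000000) := T_42 (nat_lit 73) (nat_lit 142) (nat_lit 7) (nat_lit 5) (nat_lit 4) L116698 (by decide +kernel)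
theorem L116700 : W_42 (nat_lit 6) (nat_lit 0x600010001b0004800040000000000000000000000) (nat_lit 0x0) (nat_lit 0x2000100006000000000000a0007000280000000000000) := T_42 (nat_lit 160) (nat_lit 177) (nat_lit 5) (nat_lit 8) (nat_lit 6) L116699 (by decide +kernel)
theorem L116701 : W_42 (nat_lit 7) (nat_lit 0x200010001b0004800040000000000000000000000) (nat_lit 0x0) (nat_lit 0xa000500006000000000000a0007000280000000000000) := T_42 (nat_lit 162) (nat_lit 179) (nat_lit 7) (nat_lit 8) (nat_lit 6) L116700 (by decide +kernel)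
theorem L116702 : W_42 (nat_lit 13) (nat_lit 0x200010001b0004800000000000000000000000000) (nat_lit 0x0) (nat_lit 0x1000bc005f8007c000e0027001f0007c00380014000000000) := Q_42 (nat_lit 90) (C_42 L116627 (C_42 L116612 (C_42 L116685 (C_42 L116693 (C_42 L116695 (C_42 L116701 N_42)))))) (by decide +kernel)
theorem L116703 : W_42 (nat_lit 2) (nat_lit 0x340013401b00048000c0000000000000000000000) (nat_lit 0x0) (nat_lit 0x400020001000000000000000000) := D_42 (nat_lit 89) (nat_lit 72) (nat_lit 106) (nat_lit 4) (nat_lit 5) (nat_lit 8) (nat_lit 4) (nat_lit 5) (nat_lit 9) (by decide +kernel)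
theorem L116704 : W_42 (nat_lit 3) (nat_lit 0x300013401b00048000c0000000000000000000000) (nat_lit 0x0) (nat_lit 0xc000000000000400020001000000000000000000) := T_42 (nat_lit 158) (nat_lit 159) (nat_lit 0) (nat_lit 8) (nat_lit 9) L116703 (by decide +kernel)
theorem L116705 : W_42 (nat_lit 4) (nat_lit 0x300013001b00048000c0000000000000000000000) (nat_lit 0x0) (nat_lit 0xc0000c0000000400020001000000000000000000) := T_42 (nat_lit 138) (nat_lit 139) (nat_lit 2) (nat_lit 2) (nat_lit 8) L116704 (by decide +kernel)
theorem L116706 : W_42 (nat_lit 5) (nat_lit 0x300012001b00048000c0000000000000000000000) (nat_lit 0x0) (nat_lit 0xe0001c0000000400020001000000000000000000) := T_42 (nat_lit 140) (nat_lit 157) (nat_lit 5) (nat_lit 5) (nat_lit 5) L116705 (by decide +kernel)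
theorem L116707 : W_42 (nat_lit 6) (nat_lit 0x300012001b0004800040000000000000000000000) (nat_lit 0x0) (nat_lit 0xe0001c00000004000a0005000000000000000000) := T_42 (nat_lit 91) (nat_lit 74) (nat_lit 6) (nat_lit 5) (nat_lit 8) L116706 (by decide +kernel)
theorem L116708 : W_42 (nat_lit 7) (nat_lit 0x200012001b0004800040000000000000000000000) (nat_lit 0x0) (nat_lit 0x20001e0001c00000004000a0005000000000000000000) := T_42 (nat_lit 160) (nat_lit 177) (nat_lit 5) (nat_lit 8) (nat_lit 6) L116707 (by decide +kernel)
theorem L116709 : W_42 (nat_lit 2) (nat_lit 0x710017801b40048000e0000000000000000000000) (nat_lit 0x0) (nat_lit 0x8000600000000000000000000000000) := D_42 (nat_lit 106) (nat_lit 123) (nat_lit 105) (nat_lit 5) (nat_lit 4) (nat_lit 5) (nat_lit 6) (nat_lit 3) (nat_lit 9) (by decide +kernel)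
theorem L116710 : W_42 (nat_lit 3) (nat_lit 0x700017801b40048000e0000000000000000000000) (nat_lit 0x0) (nat_lit 0x1800000008000600000000000000000000000000) := T_42 (nat_lit 156) (nat_lit 155) (nat_lit 1) (nat_lit 6) (nat_lit 8) L116709 (by decide +kernel)
theorem L116711 : W_42 (nat_lit 4) (nat_lit 0x700017801b00048000e0000000000000000000000) (nat_lit 0x0) (nat_lit 0x180000000e000600000000000000000000000000) := T_42 (nat_lit 122) (nat_lit 121) (nat_lit 0) (nat_lit 6) (nat_lit 8) L116710 (by decide +kernel)
theorem L116712 : W_42 (nat_lit 5) (nat_lit 0x300017801b00048000e0000000000000000000000) (nat_lit 0x0) (nat_lit 0x80004180000000e000600000000000000000000000000) := T_42 (nat_lit 162) (nat_lit 179) (nat_lit 7) (nat_lit 8) (nat_lit 6) L116711 (by decide +kernel)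
theorem L116713 : W_42 (nat_lit 6) (nat_lit 0x300017001b00048000e0000000000000000000000) (nat_lit 0x0) (nat_lit 0x8000418000c000e000600000000000000000000000000) := T_42 (nat_lit 139) (nat_lit 138) (nat_lit 2) (nat_lit 2) (nat_lit 8) L116712 (by decide +kernel)
theorem L116714 : W_42 (nat_lit 7) (nat_lit 0x300016001b00048000e0000000000000000000000) (nat_lit 0x0) (nat_lit 0x8000438001c000e000600000000000000000000000000) := T_42 (nat_lit 140) (nat_lit 157) (nat_lit 5) (nat_lit 5) (nat_lit 5) L116713 (by decide +kernel)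
theorem L116715 : W_42 (nat_lit 8) (nat_lit 0x300016001b0004800060000000000000000000000) (nat_lit 0x0) (nat_lit 0x8000438001c000e000600080004000000000000000000) := T_42 (nat_lit 91) (nat_lit 74) (nat_lit 6) (nat_lit 5) (nat_lit 8) L116714 (by decide +kernel)
theorem L116716 : W_42 (nat_lit 9) (nat_lit 0x200016001b0004800060000000000000000000000) (nat_lit 0x0) (nat_lit 0xa000538001c000e000600080004000000000000000000) := T_42 (nat_lit 160) (nat_lit 177) (nat_lit 5) (nat_lit 8) (nat_lit 6) L116715 (by decide +kernel)
theorem L116717 : W_42 (nat_lit 10) (nat_lit 0x200012001b0004800060000000000000000000000) (nat_lit 0x0) (nat_lit 0xa0005b8005c000e000600080004000000000000000000) := T_42 (nat_lit 142) (nat_lit 159) (nat_lit 7) (nat_lit 5) (nat_lit 5) L116716 (by decide +kernel)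
theorem L116718 : W_42 (nat_lit 11) (nat_lit 0x200012001b0004800040000000000000000000000) (nat_lit 0x0) (nat_lit 0xa0005b8005c000e0006000a0005000000000000000000) := T_42 (nat_lit 89) (nat_lit 72) (nat_lit 4) (nat_lit 5) (nat_lit 8) L116717 (by decide +kernel)
theorem L116719 : W_42 (nat_lit 2) (nat_lit 0x740012001b0004800060000000000000000000000) (nat_lit 0x0) (nat_lit 0x40002000100000000000000000000000000000000000) := D_42 (nat_lit 157) (nat_lit 140) (nat_lit 174) (nat_lit 5) (nat_lit 5) (nat_lit 5) (nat_lit 5) (nat_lit 5) (nat_lit 6) (by decide +kernel)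
theorem L116720 : W_42 (nat_lit 3) (nat_lit 0x700012001b0004800060000000000000000000000) (nat_lit 0x0) (nat_lit 0x40006000100000000400000000000000000000000000) := T_42 (nat_lit 158) (nat_lit 106) (nat_lit 4) (nat_lit 5) (nat_lit 9) L116719 (by decide +kernel)
theorem L116721 : W_42 (nat_lit 4) (nat_lit 0x600012001b0004800060000000000000000000000) (nat_lit 0x0) (nat_lit 0x240016000100000000400000000000000000000000000) := T_42 (nat_lit 160) (nat_lit 177) (nat_lit 5) (nat_lit 8) (nat_lit 6) L116720 (by decide +kernel)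
theorem L116722 : W_42 (nat_lit 5) (nat_lit 0x600012001b0004800040000000000000000000000) (nat_lit 0x0) (nat_lit 0x240016000100000000400020001000000000000000000) := T_42 (nat_lit 89) (nat_lit 72) (nat_lit 4) (nat_lit 5) (nat_lit 8) L116721 (by decide +kernel)
theorem L116723 : W_42 (nat_lit 6) (nat_lit 0x200012001b0004800040000000000000000000000) (nat_lit 0x0) (nat_lit 0xa40056000100000000400020001000000000000000000) := T_42 (nat_lit 162) (nat_lit 179) (nat_lit 7) (nat_lit 8) (nat_lit 6) L116722 (by decide +kernel)
theorem L116724 : W_42 (nat_lit 12) (nat_lit 0x200010001b0004800040000000000000000000000) (nat_lit 0x0) (nat_lit 0xb4005f8007c000e0006000a0005000000000000000000) := Q_42 (nat_lit 141) (C_42 L116684 (C_42 L116680 (C_42 L116708 (C_42 L116718 (C_42 L116723 (C_42 L116652 N_42)))))) (by decide +kernel)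
theorem L116725 : W_42 (nat_lit 13) (nat_lit 0x200010001b0004800000000000000000000000000) (nat_lit 0x0) (nat_lit 0xb4005f8007c000e0006000e0007000380014000000000) := Q_42 (nat_lit 90) (C_42 L116701 (C_42 L116612 (C_42 L116724 (C_42 L116693 (C_42 L116695 N_42))))) (by decide +kernel)
theorem L116726 : W_42 (nat_lit 2) (nat_lit 0x610017801b4004800060000000000000000000000) (nat_lit 0x0) (nat_lit 0x8000600000000000000000000000000) := D_42 (nat_lit 106) (nat_lit 123) (nat_lit 105) (nat_lit 5) (nat_lit 4) (nat_lit 5) (nat_lit 6) (nat_lit 3) (nat_lit 9) (by decide +kernel)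
theorem L116727 : W_42 (nat_lit 3) (nat_lit 0x600017801b4004800060000000000000000000000) (nat_lit 0x0) (nat_lit 0x1800000008000600000000000000000000000000) := T_42 (nat_lit 156) (nat_lit 155) (nat_lit 1) (nat_lit 6) (nat_lit 8) L116726 (by decide +kernel)
theorem L116728 : W_42 (nat_lit 4) (nat_lit 0x600017801b0004800060000000000000000000000) (nat_lit 0x0) (nat_lit 0x180000000e000600000000000000000000000000) := T_42 (nat_lit 122) (nat_lit 121) (nat_lit 0) (nat_lit 6) (nat_lit 8) L116727 (by decide +kernel)
theorem L116729 : W_42 (nat_lit 5) (nat_lit 0x600017801b0004800040000000000000000000000) (nat_lit 0x0) (nat_lit 0x180000000e000600020001000000000000000000) := T_42 (nat_lit 89) (nat_lit 72) (nat_lit 4) (nat_lit 5) (nat_lit 8) L116728 (by decide +kernel)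
theorem L116730 : W_42 (nat_lit 6) (nat_lit 0x600017001b0004800040000000000000000000000) (nat_lit 0x0) (nat_lit 0x18000c000e000600020001000000000000000000) := T_42 (nat_lit 139) (nat_lit 138) (nat_lit 2) (nat_lit 2) (nat_lit 8) L116729 (by decide +kernel)
theorem L116731 : W_42 (nat_lit 7) (nat_lit 0x600016001b0004800040000000000000000000000) (nat_lit 0x0) (nat_lit 0x38001c000e000600020001000000000000000000) := T_42 (nat_lit 140) (nat_lit 157) (nat_lit 5) (nat_lit 5) (nat_lit 5) L116730 (by decide +kernel)
theorem L116732 : W_42 (nat_lit 8) (nat_lit 0x200016001b0004800040000000000000000000000) (nat_lit 0x0) (nat_lit 0x8000438001c000e000600020001000000000000000000) := T_42 (nat_lit 162) (nat_lit 179) (nat_lit 7) (nat_lit 8) (nat_lit 6) L116731 (by decide +kernel)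
theorem L116733 : W_42 (nat_lit 9) (nat_lit 0x200012001b0004800040000000000000000000000) (nat_lit 0x0) (nat_lit 0x80004b8005c000e000600020001000000000000000000) := T_42 (nat_lit 142) (nat_lit 159) (nat_lit 7) (nat_lit 5) (nat_lit 5) L116732 (by decide +kernel)
theorem L116734 : W_42 (nat_lit 2) (nat_lit 0x680013401b0006800040000000000000000000000) (nat_lit 0x0) (nat_lit 0x200014000000000000000000000000000000000000000) := D_42 (nat_lit 160) (nat_lit 177) (nat_lit 158) (nat_lit 5) (nat_lit 8) (nat_lit 6) (nat_lit 0) (nat_lit 8) (nat_lit 9) (by decide +kernel)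
theorem L116735 : W_42 (nat_lit 3) (nat_lit 0x600013401b0006800040000000000000000000000) (nat_lit 0x0) (nat_lit 0x20001c000400000000000000000000000000000000000) := T_42 (nat_lit 159) (nat_lit 142) (nat_lit 7) (nat_lit 5) (nat_lit 5) L116734 (by decide +kernel)
theorem L116736 : W_42 (nat_lit 4) (nat_lit 0x600013001b0006800040000000000000000000000) (nat_lit 0x0) (nat_lit 0x20001c0004c0000000000000000000000000000000000) := T_42 (nat_lit 138) (nat_lit 139) (nat_lit 2) (nat_lit 2) (nat_lit 8) L116735 (by decide +kernel)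
theorem L116737 : W_42 (nat_lit 5) (nat_lit 0x600012001b0006800040000000000000000000000) (nat_lit 0x0) (nat_lit 0x20001e0005c0000000000000000000000000000000000) := T_42 (nat_lit 140) (nat_lit 157) (nat_lit 5) (nat_lit 5) (nat_lit 5) L116736 (by decide +kernel)
theorem L116738 : W_42 (nat_lit 6) (nat_lit 0x200012001b0006800040000000000000000000000) (nat_lit 0x0) (nat_lit 0xa0005e0005c0000000000000000000000000000000000) := T_42 (nat_lit 162) (nat_lit 179) (nat_lit 7) (nat_lit 8) (nat_lit 6) L116737 (by decide +kernel)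
theorem L116739 : W_42 (nat_lit 7) (nat_lit 0x200012001b0004800040000000000000000000000) (nat_lit 0x0) (nat_lit 0xa0005e0005c0000002000100000000000000000000000) := T_42 (nat_lit 109) (nat_lit 92) (nat_lit 4) (nat_lit 8) (nat_lit 9) L116738 (by decide +kernel)
theorem L116740 : W_42 (nat_lit 10) (nat_lit 0x200010001b0004800040000000000000000000000) (nat_lit 0x0) (nat_lit 0xb4005f8007c000e002600120001000000000000000000) := Q_42 (nat_lit 141) (C_42 L116723 (C_42 L116652 (C_42 L116680 (C_42 L116733 (C_42 L116739 N_42))))) (by decide +kernel)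
theorem L116741 : W_42 (nat_lit 2) (nat_lit 0x300010001b8006800060007000000000000000000) (nat_lit 0x0) (nat_lit 0x18008000000000000000000) := D_42 (nat_lit 88) (nat_lit 87) (nat_lit 75) (nat_lit 2) (nat_lit 2) (nat_lit 5) (nat_lit 1) (nat_lit 7) (nat_lit 4) (by decide +kernel)
theorem L116742 : W_42 (nat_lit 3) (nat_lit 0x300010001b8006800040007000000000000000000) (nat_lit 0x0) (nat_lit 0x200000000000038008000000000000000000) := T_42 (nat_lit 89) (nat_lit 141) (nat_lit 4) (nat_lit 5) (nat_lit 8) L116741 (by decide +kernel)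
theorem L116743 : W_42 (nat_lit 4) (nat_lit 0x300010001b8004800040007000000000000000000) (nat_lit 0x0) (nat_lit 0x200000002000138008000000000000000000) := T_42 (nat_lit 109) (nat_lit 92) (nat_lit 4) (nat_lit 8) (nat_lit 9) L116742 (by decide +kernel)
theorem L116744 : W_42 (nat_lit 5) (nat_lit 0x300010001b8004800040006000000000000000000) (nat_lit 0x0) (nat_lit 0x200000002000138009000080000000000000) := T_42 (nat_lit 72) (nat_lit 55) (nat_lit 4) (nat_lit 5) (nat_lit 7) L116743 (by decide +kernel)
theorem L116745 : W_42 (nat_lit 6) (nat_lit 0x300010001b0004800040006000000000000000000) (nat_lit 0x0) (nat_lit 0x300008002000138009000080000000000000) := T_42 (nat_lit 123) (nat_lit 140) (nat_lit 5) (nat_lit 5) (nat_lit 4) L116744 (by decide +kernel)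
theorem L116746 : W_42 (nat_lit 7) (nat_lit 0x200010001b0004800040006000000000000000000) (nat_lit 0x0) (nat_lit 0x200010000300008002000138009000080000000000000) := T_42 (nat_lit 160) (nat_lit 177) (nat_lit 5) (nat_lit 8) (nat_lit 6) L116745 (by decide +kernel)
theorem L116747 : W_42 (nat_lit 8) (nat_lit 0x200010001b0004800040002000000000000000000) (nat_lit 0x0) (nat_lit 0x20001000030000800200013800d000280000000000000) := T_42 (nat_lit 74) (nat_lit 57) (nat_lit 6) (nat_lit 5) (nat_lit 7) L116746 (by decide +kernel)
theorem L116748 : W_42 (nat_lit 2) (nat_lit 0x700010001b0006800060007000000000000000000) (nat_lit 0x0) (nat_lit 0x18008000000000000000000) := D_42 (nat_lit 88) (nat_lit 87) (nat_lit 75) (nat_lit 2) (nat_lit 2) (nat_lit 5) (nat_lit 1) (nat_lit 7) (nat_lit 4) (by decide +kernel)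
theorem L116749 : W_42 (nat_lit 3) (nat_lit 0x700010001b0006800040007000000000000000000) (nat_lit 0x0) (nat_lit 0x200000000000038008000000000000000000) := T_42 (nat_lit 89) (nat_lit 141) (nat_lit 4) (nat_lit 5) (nat_lit 8) L116748 (by decide +kernel)
theorem L116750 : W_42 (nat_lit 4) (nat_lit 0x700010001b0006800040006000000000000000000) (nat_lit 0x0) (nat_lit 0x200000000000038009000080000000000000) := T_42 (nat_lit 72) (nat_lit 55) (nat_lit 4) (nat_lit 5) (nat_lit 7) L116749 (by decide +kernel)
theorem L116751 : W_42 (nat_lit 5) (nat_lit 0x700010001b0004800040006000000000000000000) (nat_lit 0x0) (nat_lit 0x200000002000138009000080000000000000) := T_42 (nat_lit 109) (nat_lit 92) (nat_lit 4) (nat_lit 8) (nat_lit 9) L116750 (by decide +kernel)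
theorem L116752 : W_42 (nat_lit 6) (nat_lit 0x700010001b0004800040002000000000000000000) (nat_lit 0x0) (nat_lit 0x20000000200013800d000280000000000000) := T_42 (nat_lit 74) (nat_lit 57) (nat_lit 6) (nat_lit 5) (nat_lit 7) L116751 (by decide +kernel)
theorem L116753 : W_42 (nat_lit 7) (nat_lit 0x600010001b0004800040002000000000000000000) (nat_lit 0x0) (nat_lit 0x20001000020000000200013800d000280000000000000) := T_42 (nat_lit 160) (nat_lit 177) (nat_lit 5) (nat_lit 8) (nat_lit 6) L116752 (by decide +kernel)
theorem L116754 : W_42 (nat_lit 8) (nat_lit 0x200010001b0004800040002000000000000000000) (nat_lit 0x0) (nat_lit 0xa0005000020000000200013800d000280000000000000) := T_42 (nat_lit 162) (nat_lit 179) (nat_lit 7) (nat_lit 8) (nat_lit 6) L116753 (by decide +kernel)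
theorem L116755 : W_42 (nat_lit 9) (nat_lit 0x200010001b0004800040000000000000000000000) (nat_lit 0x0) (nat_lit 0xa0005000030000800240013800f000380014000000000) := Q_42 (nat_lit 73) (C_42 L116689 (C_42 L116611 (C_42 L116747 (C_42 L116754 N_42)))) (by decide +kernel)
theorem L116756 : W_42 (nat_lit 8) (nat_lit 0x600010001b0004800040000000000000000000000) (nat_lit 0x0) (nat_lit 0x20001000060000000200013800f000280000000000000) := T_42 (nat_lit 73) (nat_lit 142) (nat_lit 7) (nat_lit 5) (nat_lit 4) L116753 (by decide +kernel)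
theorem L116757 : W_42 (nat_lit 9) (nat_lit 0x200010001b0004800040000000000000000000000) (nat_lit 0x0) (nat_lit 0xa0005000060000000200013800f000280000000000000) := T_42 (nat_lit 162) (nat_lit 179) (nat_lit 7) (nat_lit 8) (nat_lit 6) L116756 (by decide +kernel)
theorem L116758 : W_42 (nat_lit 11) (nat_lit 0x200010001b0004800000000000000000000000000) (nat_lit 0x0) (nat_lit 0xb4005f8007c000e00260017800f000380014000000000) := Q_42 (nat_lit 90) (C_42 L116695 (C_42 L116612 (C_42 L116740 (C_42 L116755 (C_42 L116757 N_42))))) (by decide +kernel)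
theorem L116759 : W_42 (nat_lit 2) (nat_lit 0x700010001b8004800140007000000000000000000) (nat_lit 0x0) (nat_lit 0x280008000000000000000000) := D_42 (nat_lit 93) (nat_lit 75) (nat_lit 91) (nat_lit 3) (nat_lit 4) (nat_lit 4) (nat_lit 0) (nat_lit 8) (nat_lit 5) (by decide +kernel)
theorem L116760 : W_42 (nat_lit 3) (nat_lit 0x700010001b8004800040007000000000000000000) (nat_lit 0x0) (nat_lit 0x2000380008000000000000000000) := T_42 (nat_lit 92) (nat_lit 109) (nat_lit 4) (nat_lit 8) (nat_lit 9) L116759 (by decide +kernel)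
theorem L116761 : W_42 (nat_lit 4) (nat_lit 0x300010001b8004800040007000000000000000000) (nat_lit 0x0) (nat_lit 0x800040000000000002000380008000000000000000000) := T_42 (nat_lit 162) (nat_lit 179) (nat_lit 7) (nat_lit 8) (nat_lit 6) L116760 (by decide +kernel)
theorem L116762 : W_42 (nat_lit 5) (nat_lit 0x200010001b8004800040007000000000000000000) (nat_lit 0x0) (nat_lit 0xa00050000000000002000380008000000000000000000) := T_42 (nat_lit 160) (nat_lit 177) (nat_lit 5) (nat_lit 8) (nat_lit 6) L116761 (by decide +kernel)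
theorem L116763 : W_42 (nat_lit 6) (nat_lit 0x200010001b8004800040006000000000000000000) (nat_lit 0x0) (nat_lit 0xa00050000000000002000380009000080000000000000) := T_42 (nat_lit 72) (nat_lit 55) (nat_lit 4) (nat_lit 5) (nat_lit 7) L116762 (by decide +kernel)
theorem L116764 : W_42 (nat_lit 7) (nat_lit 0x200010001b0004800040006000000000000000000) (nat_lit 0x0) (nat_lit 0xa00050000100008002000380009000080000000000000) := T_42 (nat_lit 123) (nat_lit 140) (nat_lit 5) (nat_lit 5) (nat_lit 4) L116763 (by decide +kernel)
theorem L116765 : W_42 (nat_lit 8) (nat_lit 0x200010001b0004800040002000000000000000000) (nat_lit 0x0) (nat_lit 0xa0005000010000800200038000d000280000000000000) := T_42 (nat_lit 74) (nat_lit 57) (nat_lit 6) (nat_lit 5) (nat_lit 7) L116764 (by decide +kernel)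
theorem L116766 : W_42 (nat_lit 9) (nat_lit 0x200010001b0004800040000000000000000000000) (nat_lit 0x0) (nat_lit 0xa0005000050000800200038000f000280000000000000) := T_42 (nat_lit 73) (nat_lit 142) (nat_lit 7) (nat_lit 5) (nat_lit 4) L116765 (by decide +kernel)
theorem L116767 : W_42 (nat_lit 10) (nat_lit 0x200010001b0004800000000000000000000000000) (nat_lit 0x0) (nat_lit 0xa0005000050000800a4003c000f000380010000000000) := Q_42 (nat_lit 90) (C_42 L116695 (C_42 L116616 (C_42 L116766 N_42))) (by decide +kernel)
theorem L116768 : W_42 (nat_lit 2) (nat_lit 0x600011001b0006800040003000000000000000000) (nat_lit 0x0) (nat_lit 0x2000200000000000020000000000000000000000) := D_42 (nat_lit 141) (nat_lit 157) (nat_lit 89) (nat_lit 5) (nat_lit 5) (nat_lit 5) (nat_lit 4) (nat_lit 5) (nat_lit 8) (by decide +kernel)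
theorem L116769 : W_42 (nat_lit 3) (nat_lit 0x600011001b0006800040002000000000000000000) (nat_lit 0x0) (nat_lit 0x2000200000000000020001000080000000000000) := T_42 (nat_lit 72) (nat_lit 55) (nat_lit 4) (nat_lit 5) (nat_lit 7) L116768 (by decide +kernel)
theorem L116770 : W_42 (nat_lit 4) (nat_lit 0x600010001b0006800040002000000000000000000) (nat_lit 0x0) (nat_lit 0x2000300008000000020001000080000000000000) := T_42 (nat_lit 140) (nat_lit 123) (nat_lit 5) (nat_lit 5) (nat_lit 4) L116769 (by decide +kernel)
theorem L116771 : W_42 (nat_lit 5) (nat_lit 0x600010001b0006800040000000000000000000000) (nat_lit 0x0) (nat_lit 0x2000700008000000020003000080000000000000) := T_42 (nat_lit 73) (nat_lit 142) (nat_lit 7) (nat_lit 5) (nat_lit 4) L116770 (by decide +kernel)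
theorem L116772 : W_42 (nat_lit 6) (nat_lit 0x600010001b0004800040000000000000000000000) (nat_lit 0x0) (nat_lit 0x2000700008002000120003000080000000000000) := T_42 (nat_lit 109) (nat_lit 92) (nat_lit 4) (nat_lit 8) (nat_lit 9) L116771 (by decide +kernel)
theorem L116773 : W_42 (nat_lit 7) (nat_lit 0x200010001b0004800040000000000000000000000) (nat_lit 0x0) (nat_lit 0x800042000700008002000120003000080000000000000) := T_42 (nat_lit 162) (nat_lit 179) (nat_lit 7) (nat_lit 8) (nat_lit 6) L116772 (by decide +kernel)
theorem L116774 : W_42 (nat_lit 11) (nat_lit 0x200010001b0004800000000000000000000000000) (nat_lit 0x0) (nat_lit 0xb4005f8007c000e00a6003e000b000180004000000000) := Q_42 (nat_lit 90) (C_42 L116740 (C_42 L116616 (C_42 L116621 (C_42 L116612 (C_42 L116773 N_42))))) (by decide +kernel)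
theorem L116775 : W_42 (nat_lit 2) (nat_lit 0x780012001b0006800000000000000000000000000) (nat_lit 0x0) (nat_lit 0x100004000100000000000000000000000000000000000) := D_42 (nat_lit 158) (nat_lit 140) (nat_lit 176) (nat_lit 0) (nat_lit 8) (nat_lit 9) (nat_lit 7) (nat_lit 5) (nat_lit 6) (by decide +kernel)
theorem L116776 : W_42 (nat_lit 3) (nat_lit 0x700012001b0006800000000000000000000000000) (nat_lit 0x0) (nat_lit 0x10000c000500000000000000000000000000000000000) := T_42 (nat_lit 159) (nat_lit 142) (nat_lit 0) (nat_lit 9) (nat_lit 9) L116775 (by decide +kernel)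
theorem L116777 : W_42 (nat_lit 4) (nat_lit 0x600012001b0006800000000000000000000000000) (nat_lit 0x0) (nat_lit 0x30001c000500000000000000000000000000000000000) := T_42 (nat_lit 160) (nat_lit 177) (nat_lit 5) (nat_lit 8) (nat_lit 6) L116776 (by decide +kernel)
theorem L116778 : W_42 (nat_lit 5) (nat_lit 0x600012001b0004800000000000000000000000000) (nat_lit 0x0) (nat_lit 0x30001c000500000002000100000000000000000000000) := T_42 (nat_lit 109) (nat_lit 92) (nat_lit 4) (nat_lit 8) (nat_lit 9) L116777 (by decide +kernel)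
theorem L116779 : W_42 (nat_lit 6) (nat_lit 0x200012001b0004800000000000000000000000000) (nat_lit 0x0) (nat_lit 0xb0005c000500000002000100000000000000000000000) := T_42 (nat_lit 162) (nat_lit 179) (nat_lit 7) (nat_lit 8) (nat_lit 6) L116778 (by decide +kernel)
theorem L116780 : W_42 (nat_lit 2) (nat_lit 0x6c0012001b0004800040000000000000000000000) (nat_lit 0x0) (nat_lit 0x400020001000000000000000000) := D_42 (nat_lit 89) (nat_lit 106) (nat_lit 72) (nat_lit 4) (nat_lit 5) (nat_lit 9) (nat_lit 4) (nat_lit 5) (nat_lit 8) (by decide +kernel)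
theorem L116781 : W_42 (nat_lit 3) (nat_lit 0x6c0012001b0004800000000000000000000000000) (nat_lit 0x0) (nat_lit 0x400000000400060001000000000000000000) := T_42 (nat_lit 90) (nat_lit 142) (nat_lit 7) (nat_lit 5) (nat_lit 5) L116780 (by decide +kernel)
theorem L116782 : W_42 (nat_lit 4) (nat_lit 0x640012001b0004800000000000000000000000000) (nat_lit 0x0) (nat_lit 0x100008000400000000400060001000000000000000000) := T_42 (nat_lit 159) (nat_lit 176) (nat_lit 7) (nat_lit 5) (nat_lit 6) L116781 (by decide +kernel)
theorem L116783 : W_42 (nat_lit 5) (nat_lit 0x240012001b0004800000000000000000000000000) (nat_lit 0x0) (nat_lit 0x900048000400000000400060001000000000000000000) := T_42 (nat_lit 162) (nat_lit 179) (nat_lit 7) (nat_lit 8) (nat_lit 6) L116782 (by decide +kernel)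
theorem L116784 : W_42 (nat_lit 2) (nat_lit 0x260012001b0004800040000000000000000000000) (nat_lit 0x0) (nat_lit 0x400020001000000000000000000) := D_42 (nat_lit 89) (nat_lit 72) (nat_lit 106) (nat_lit 4) (nat_lit 5) (nat_lit 8) (nat_lit 4) (nat_lit 5) (nat_lit 9) (by decide +kernel)
theorem L116785 : W_42 (nat_lit 3) (nat_lit 0x260012001b0004800000000000000000000000000) (nat_lit 0x0) (nat_lit 0x100000000400060001000000000000000000) := T_42 (nat_lit 90) (nat_lit 140) (nat_lit 5) (nat_lit 5) (nat_lit 5) L116784 (by decide +kernel)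
theorem L116786 : W_42 (nat_lit 4) (nat_lit 0x240012001b0004800000000000000000000000000) (nat_lit 0x0) (nat_lit 0x40002000100000000400060001000000000000000000) := T_42 (nat_lit 157) (nat_lit 174) (nat_lit 5) (nat_lit 5) (nat_lit 6) L116785 (by decide +kernel)
theorem L116787 : W_42 (nat_lit 2) (nat_lit 0x1000100008006e0012001b0006d00000000000000000000000000) (nat_lit 0x0) (nat_lit 0x200020000000000000000100000000000000000000000000000000000) := D_42 (nat_lit 209) (nat_lit 140) (nat_lit 225) (nat_lit 4) (nat_lit 5) (nat_lit 12) (nat_lit 5) (nat_lit 5) (nat_lit 9) (by decide +kernel)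
theorem L116788 : W_42 (nat_lit 3) (nat_lit 0x100008006e0012001b0006d00000000000000000000000000) (nat_lit 0x0) (nat_lit 0x200030000800000000000100000000000000000000000000000000000) := T_42 (nat_lit 208) (nat_lit 191) (nat_lit 5) (nat_lit 5) (nat_lit 8) L116787 (by decide +kernel)
theorem L116789 : W_42 (nat_lit 4) (nat_lit 0x8006e0012001b0006d00000000000000000000000000) (nat_lit 0x0) (nat_lit 0x200030001800000000000500000000000000000000000000000000000) := T_42 (nat_lit 192) (nat_lit 142) (nat_lit 6) (nat_lit 5) (nat_lit 11) L116788 (by decide +kernel)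
theorem L116790 : W_42 (nat_lit 5) (nat_lit 0x8006e0012001b0004d00000000000000000000000000) (nat_lit 0x0) (nat_lit 0x200030001800000000000500000002000100000000000000000000000) := T_42 (nat_lit 109) (nat_lit 92) (nat_lit 4) (nat_lit 8) (nat_lit 9) L116789 (by decide +kernel)
theorem L116791 : W_42 (nat_lit 6) (nat_lit 0x6e0012001b0004d00000000000000000000000000) (nat_lit 0x0) (nat_lit 0x200030001800080000000500008002000100000000000000000000000) := T_42 (nat_lit 175) (nat_lit 123) (nat_lit 4) (nat_lit 5) (nat_lit 10) L116790 (by decide +kernel)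
theorem L116792 : W_42 (nat_lit 7) (nat_lit 0x6e0012001b0004c00000000000000000000000000) (nat_lit 0x0) (nat_lit 0x200030001800080000000500008002300100000000000000000000000) := T_42 (nat_lit 104) (nat_lit 105) (nat_lit 3) (nat_lit 2) (nat_lit 6) L116791 (by decide +kernel)
theorem L116793 : W_42 (nat_lit 8) (nat_lit 0x6e0012001b0004800000000000000000000000000) (nat_lit 0x0) (nat_lit 0x200030001800080000000500008002700120000000000000000000000) := T_42 (nat_lit 106) (nat_lit 89) (nat_lit 4) (nat_lit 5) (nat_lit 9) L116792 (by decide +kernel)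
theorem L116794 : W_42 (nat_lit 9) (nat_lit 0x6c0012001b0004800000000000000000000000000) (nat_lit 0x0) (nat_lit 0x2000300018000c0002000500008002700120000000000000000000000) := T_42 (nat_lit 157) (nat_lit 174) (nat_lit 5) (nat_lit 5) (nat_lit 6) L116793 (by decide +kernel)
theorem L116795 : W_42 (nat_lit 10) (nat_lit 0x2c0012001b0004800000000000000000000000000) (nat_lit 0x0) (nat_lit 0x2000300018008c0042000500008002700120000000000000000000000) := T_42 (nat_lit 162) (nat_lit 179) (nat_lit 7) (nat_lit 8) (nat_lit 6) L116794 (by decide +kernel)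
theorem L116796 : W_42 (nat_lit 11) (nat_lit 0x240012001b0004800000000000000000000000000) (nat_lit 0x0) (nat_lit 0x2000300018009c004a000500008002700120000000000000000000000) := T_42 (nat_lit 159) (nat_lit 176) (nat_lit 7) (nat_lit 5) (nat_lit 6) L116795 (by decide +kernel)
theorem L116797 : W_42 (nat_lit 2) (nat_lit 0x2c0012001b0004800040000000000000000000000) (nat_lit 0x0) (nat_lit 0x40002000100000000000000000000000000000000000) := D_42 (nat_lit 157) (nat_lit 174) (nat_lit 140) (nat_lit 5) (nat_lit 5) (nat_lit 6) (nat_lit 5) (nat_lit 5) (nat_lit 5) (by decide +kernel)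
theorem L116798 : W_42 (nat_lit 3) (nat_lit 0x2c0012001b0004800000000000000000000000000) (nat_lit 0x0) (nat_lit 0x40002000500000000000040000000000000000000000) := T_42 (nat_lit 90) (nat_lit 142) (nat_lit 7) (nat_lit 5) (nat_lit 5) L116797 (by decide +kernel)
theorem L116799 : W_42 (nat_lit 4) (nat_lit 0x240012001b0004800000000000000000000000000) (nat_lit 0x0) (nat_lit 0x14000a000500000000000040000000000000000000000) := T_42 (nat_lit 159) (nat_lit 176) (nat_lit 7) (nat_lit 5) (nat_lit 6) L116798 (by decide +kernel)
theorem L116800 : W_42 (nat_lit 12) (nat_lit 0x200012001b0004800000000000000000000000000) (nat_lit 0x0) (nat_lit 0x2000300018009c004e000500008002700160001000000000000000000) := Q_42 (nat_lit 158) (C_42 L116783 (C_42 L116786 (C_42 L116796 (C_42 L116799 N_42)))) (by decide +kernel)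
theorem L116801 : W_42 (nat_lit 2) (nat_lit 0x340012001b0004800000000000000000000000000) (nat_lit 0x0) (nat_lit 0x100008000100000000000000000000000000000000000) := D_42 (nat_lit 159) (nat_lit 140) (nat_lit 176) (nat_lit 0) (nat_lit 8) (nat_lit 9) (nat_lit 7) (nat_lit 5) (nat_lit 6) (by decide +kernel)
theorem L116802 : W_42 (nat_lit 3) (nat_lit 0x240012001b0004800000000000000000000000000) (nat_lit 0x0) (nat_lit 0x300018000100000000000000000000000000000000000) := T_42 (nat_lit 160) (nat_lit 177) (nat_lit 5) (nat_lit 8) (nat_lit 6) L116801 (by decide +kernel)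
theorem L116803 : W_42 (nat_lit 2) (nat_lit 0x2c0012001b0004800040000000000000000000000) (nat_lit 0x0) (nat_lit 0x400020001000000000000000000) := D_42 (nat_lit 89) (nat_lit 106) (nat_lit 72) (nat_lit 4) (nat_lit 5) (nat_lit 9) (nat_lit 4) (nat_lit 5) (nat_lit 8) (by decide +kernel)
theorem L116804 : W_42 (nat_lit 3) (nat_lit 0x2c0012001b0004800000000000000000000000000) (nat_lit 0x0) (nat_lit 0x400000000400060001000000000000000000) := T_42 (nat_lit 90) (nat_lit 142) (nat_lit 7) (nat_lit 5) (nat_lit 5) L116803 (by decide +kernel)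
theorem L116805 : W_42 (nat_lit 4) (nat_lit 0x240012001b0004800000000000000000000000000) (nat_lit 0x0) (nat_lit 0x100008000400000000400060001000000000000000000) := T_42 (nat_lit 159) (nat_lit 176) (nat_lit 7) (nat_lit 5) (nat_lit 6) L116804 (by decide +kernel)
theorem L116806 : W_42 (nat_lit 5) (nat_lit 0x200012001b0004800000000000000000000000000) (nat_lit 0x0) (nat_lit 0x34001e000500000000400060001000000000000000000) := Q_42 (nat_lit 158) (C_42 L116799 (C_42 L116786 (C_42 L116802 (C_42 L116805 N_42)))) (by decide +kernel)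
theorem L116807 : W_42 (nat_lit 2) (nat_lit 0x3c0012001b0004800000000000000000000000000) (nat_lit 0x0) (nat_lit 0xc0002000000000000000000000000000000000000000) := D_42 (nat_lit 174) (nat_lit 175) (nat_lit 157) (nat_lit 1) (nat_lit 8) (nat_lit 9) (nat_lit 5) (nat_lit 5) (nat_lit 6) (by decide +kernel)
theorem L116808 : W_42 (nat_lit 3) (nat_lit 0x2c0012001b0004800000000000000000000000000) (nat_lit 0x0) (nat_lit 0x2c0012000000000000000000000000000000000000000) := T_42 (nat_lit 160) (nat_lit 177) (nat_lit 5) (nat_lit 8) (nat_lit 6) L116807 (by decide +kernel)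
theorem L116809 : W_42 (nat_lit 4) (nat_lit 0x240012001b0004800000000000000000000000000) (nat_lit 0x0) (nat_lit 0x3c001a000000000000000000000000000000000000000) := T_42 (nat_lit 159) (nat_lit 176) (nat_lit 7) (nat_lit 5) (nat_lit 6) L116808 (by decide +kernel)
theorem L116810 : W_42 (nat_lit 5) (nat_lit 0x200012001b0004800000000000000000000000000) (nat_lit 0x0) (nat_lit 0x3c001e000100000000400060001000000000000000000) := Q_42 (nat_lit 158) (C_42 L116802 (C_42 L116786 (C_42 L116809 N_42))) (by decide +kernel)
theorem L116811 : W_42 (nat_lit 2) (nat_lit 0x300013401b00048001e0000000000000000000000) (nat_lit 0x0) (nat_lit 0x200018000000000000000000) := D_42 (nat_lit 75) (nat_lit 76) (nat_lit 93) (nat_lit 2) (nat_lit 4) (nat_lit 5) (nat_lit 4) (nat_lit 8) (nat_lit 8) (by decide +kernel)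
theorem L116812 : W_42 (nat_lit 3) (nat_lit 0x300013401b00048000e0000000000000000000000) (nat_lit 0x0) (nat_lit 0x2000300018000000000000000000) := T_42 (nat_lit 92) (nat_lit 109) (nat_lit 3) (nat_lit 4) (nat_lit 5) L116811 (by decide +kernel)
theorem L116813 : W_42 (nat_lit 4) (nat_lit 0x300013401b00048000c0000000000000000000000) (nat_lit 0x0) (nat_lit 0x2000320019000000000000000000) := T_42 (nat_lit 89) (nat_lit 72) (nat_lit 4) (nat_lit 5) (nat_lit 8) L116812 (by decide +kernel)
theorem L116814 : W_42 (nat_lit 5) (nat_lit 0x300013001b00048000c0000000000000000000000) (nat_lit 0x0) (nat_lit 0xc0000002000320019000000000000000000) := T_42 (nat_lit 138) (nat_lit 139) (nat_lit 2) (nat_lit 2) (nat_lit 8) L116813 (by decide +kernel)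
theorem L116815 : W_42 (nat_lit 6) (nat_lit 0x300012001b00048000c0000000000000000000000) (nat_lit 0x0) (nat_lit 0x20001c0000002000320019000000000000000000) := T_42 (nat_lit 140) (nat_lit 157) (nat_lit 5) (nat_lit 5) (nat_lit 5) L116814 (by decide +kernel)
theorem L116816 : W_42 (nat_lit 7) (nat_lit 0x300012001b0004800040000000000000000000000) (nat_lit 0x0) (nat_lit 0x20001c00000020003a001d000000000000000000) := T_42 (nat_lit 91) (nat_lit 74) (nat_lit 6) (nat_lit 5) (nat_lit 8) L116815 (by decide +kernel)
theorem L116817 : W_42 (nat_lit 8) (nat_lit 0x200012001b0004800040000000000000000000000) (nat_lit 0x0) (nat_lit 0x2000120001c00000020003a001d000000000000000000) := T_42 (nat_lit 160) (nat_lit 177) (nat_lit 5) (nat_lit 8) (nat_lit 6) L116816 (by decide +kernel)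
theorem L116818 : W_42 (nat_lit 2) (nat_lit 0x300012001b0004800340000000000000000000000) (nat_lit 0x0) (nat_lit 0x8000080004000000000000000000) := D_42 (nat_lit 91) (nat_lit 111) (nat_lit 74) (nat_lit 3) (nat_lit 5) (nat_lit 5) (nat_lit 6) (nat_lit 5) (nat_lit 8) (by decide +kernel)
theorem L116819 : W_42 (nat_lit 3) (nat_lit 0x300012001b0004800140000000000000000000000) (nat_lit 0x0) (nat_lit 0x800028000c000000000000000000) := T_42 (nat_lit 93) (nat_lit 75) (nat_lit 4) (nat_lit 8) (nat_lit 8) L116818 (by decide +kernel)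
theorem L116820 : W_42 (nat_lit 4) (nat_lit 0x200012001b0004800140000000000000000000000) (nat_lit 0x0) (nat_lit 0x20001000000000000800028000c000000000000000000) := T_42 (nat_lit 160) (nat_lit 177) (nat_lit 5) (nat_lit 8) (nat_lit 6) L116819 (by decide +kernel)
theorem L116821 : W_42 (nat_lit 5) (nat_lit 0x200012001b0004800040000000000000000000000) (nat_lit 0x0) (nat_lit 0x20001000000000000a00038000c000000000000000000) := T_42 (nat_lit 92) (nat_lit 109) (nat_lit 4) (nat_lit 8) (nat_lit 9) L116820 (by decide +kernel)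
theorem L116822 : W_42 (nat_lit 12) (nat_lit 0x200012001b0004800000000000000000000000000) (nat_lit 0x0) (nat_lit 0xa0005b8005c000e00a7003f001dc00000000000000000) := Q_42 (nat_lit 90) (C_42 L116733 (C_42 L116668 (C_42 L116817 (C_42 L116821 N_42)))) (by decide +kernel)
theorem L116823 : W_42 (nat_lit 2) (nat_lit 0x600013801b0006e000e0000000000000000000000) (nat_lit 0x0) (nat_lit 0x100000000c000000000000000000000000000000) := D_42 (nat_lit 156) (nat_lit 123) (nat_lit 122) (nat_lit 5) (nat_lit 4) (nat_lit 5) (nat_lit 6) (nat_lit 3) (nat_lit 9) (by decide +kernel)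
theorem L116824 : W_42 (nat_lit 3) (nat_lit 0x600013801b0006c000e0000000000000000000000) (nat_lit 0x0) (nat_lit 0x100000000c000300000000000000000000000000) := T_42 (nat_lit 105) (nat_lit 104) (nat_lit 3) (nat_lit 2) (nat_lit 6) L116823 (by decide +kernel)
theorem L116825 : W_42 (nat_lit 4) (nat_lit 0x600013801b00068000e0000000000000000000000) (nat_lit 0x0) (nat_lit 0x500000000c000700000000000000000000000000) := T_42 (nat_lit 106) (nat_lit 158) (nat_lit 4) (nat_lit 5) (nat_lit 9) L116824 (by decide +kernel)
theorem L116826 : W_42 (nat_lit 5) (nat_lit 0x600013801b00068000c0000000000000000000000) (nat_lit 0x0) (nat_lit 0x500000000c000700020001000000000000000000) := T_42 (nat_lit 89) (nat_lit 72) (nat_lit 4) (nat_lit 5) (nat_lit 8) L116825 (by decide +kernel)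
theorem L116827 : W_42 (nat_lit 6) (nat_lit 0x200013801b00068000c0000000000000000000000) (nat_lit 0x0) (nat_lit 0x80004500000000c000700020001000000000000000000) := T_42 (nat_lit 162) (nat_lit 179) (nat_lit 7) (nat_lit 8) (nat_lit 6) L116826 (by decide +kernel)
theorem L116828 : W_42 (nat_lit 7) (nat_lit 0x200013801b0006800040000000000000000000000) (nat_lit 0x0) (nat_lit 0x80004500000000c0007000a0005000000000000000000) := T_42 (nat_lit 91) (nat_lit 74) (nat_lit 6) (nat_lit 5) (nat_lit 8) L116827 (by decide +kernel)
theorem L116829 : W_42 (nat_lit 8) (nat_lit 0x200013001b0006800040000000000000000000000) (nat_lit 0x0) (nat_lit 0x8000450000c000c0007000a0005000000000000000000) := T_42 (nat_lit 139) (nat_lit 138) (nat_lit 2) (nat_lit 2) (nat_lit 8) L116828 (by decide +kernel)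
theorem L116830 : W_42 (nat_lit 9) (nat_lit 0x200012001b0006800040000000000000000000000) (nat_lit 0x0) (nat_lit 0x8000470001c000c0007000a0005000000000000000000) := T_42 (nat_lit 140) (nat_lit 157) (nat_lit 5) (nat_lit 5) (nat_lit 5) L116829 (by decide +kernel)
theorem L116831 : W_42 (nat_lit 10) (nat_lit 0x200012001b0004800040000000000000000000000) (nat_lit 0x0) (nat_lit 0x8000470001c000c0027001a0005000000000000000000) := T_42 (nat_lit 109) (nat_lit 92) (nat_lit 4) (nat_lit 8) (nat_lit 9) L116830 (by decide +kernel)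
theorem L116832 : W_42 (nat_lit 11) (nat_lit 0x200012001b0004800000000000000000000000000) (nat_lit 0x0) (nat_lit 0xa400570001c000c00a7003e000d000000000000000000) := Q_42 (nat_lit 90) (C_42 L116821 (C_42 L116723 (C_42 L116831 N_42))) (by decide +kernel)
theorem L116833 : W_42 (nat_lit 2) (nat_lit 0x780012001b0006800000000000000000000000000) (nat_lit 0x0) (nat_lit 0x180004000000000000000000000000000000000000000) := D_42 (nat_lit 176) (nat_lit 175) (nat_lit 158) (nat_lit 1) (nat_lit 9) (nat_lit 9) (nat_lit 7) (nat_lit 5) (nat_lit 6) (by decide +kernel)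
theorem L116834 : W_42 (nat_lit 3) (nat_lit 0x700012001b0006800000000000000000000000000) (nat_lit 0x0) (nat_lit 0x18000c000400000000000000000000000000000000000) := T_42 (nat_lit 159) (nat_lit 142) (nat_lit 0) (nat_lit 9) (nat_lit 9) L116833 (by decide +kernel)
theorem L116835 : W_42 (nat_lit 4) (nat_lit 0x300012001b0006800000000000000000000000000) (nat_lit 0x0) (nat_lit 0x98004c000400000000000000000000000000000000000) := T_42 (nat_lit 162) (nat_lit 179) (nat_lit 7) (nat_lit 8) (nat_lit 6) L116834 (by decide +kernel)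
theorem L116836 : W_42 (nat_lit 5) (nat_lit 0x300012001b0004800000000000000000000000000) (nat_lit 0x0) (nat_lit 0x98004c000400000002000100000000000000000000000) := T_42 (nat_lit 109) (nat_lit 92) (nat_lit 4) (nat_lit 8) (nat_lit 9) L116835 (by decide +kernel)
theorem L116837 : W_42 (nat_lit 6) (nat_lit 0x200012001b0004800000000000000000000000000) (nat_lit 0x0) (nat_lit 0xb8005c000400000002000100000000000000000000000) := T_42 (nat_lit 160) (nat_lit 177) (nat_lit 5) (nat_lit 8) (nat_lit 6) L116836 (by decide +kernel)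
theorem L116838 : W_42 (nat_lit 13) (nat_lit 0x200010001b0004800000000000000000000000000) (nat_lit 0x0) (nat_lit 0x200030001800bc005f8007c000e00a7003f001dc00000000000000000) := Q_42 (nat_lit 141) (C_42 L116779 (C_42 L116800 (C_42 L116806 (C_42 L116810 (C_42 L116822 (C_42 L116832 (C_42 L116837 N_42))))))) (by decide +kernel)
theorem L116839 : W_42 (nat_lit 2) (nat_lit 0x700012001b00048003c0010000000000000000000) (nat_lit 0x0) (nat_lit 0x20003000000000000000000) := D_42 (nat_lit 72) (nat_lit 73) (nat_lit 89) (nat_lit 0) (nat_lit 8) (nat_lit 5) (nat_lit 4) (nat_lit 5) (nat_lit 8) (by decide +kernel)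
theorem L116840 : W_42 (nat_lit 3) (nat_lit 0x700010001b00048003c0010000000000000000000) (nat_lit 0x0) (nat_lit 0x200000000000020007000000000000000000) := T_42 (nat_lit 141) (nat_lit 74) (nat_lit 6) (nat_lit 5) (nat_lit 8) L116839 (by decide +kernel)
theorem L116841 : W_42 (nat_lit 4) (nat_lit 0x700010001b00048003c0000000000000000000000) (nat_lit 0x0) (nat_lit 0x200000000000020037000000000000000000) := T_42 (nat_lit 76) (nat_lit 77) (nat_lit 2) (nat_lit 5) (nat_lit 5) L116840 (by decide +kernel)
theorem L116842 : W_42 (nat_lit 5) (nat_lit 0x700010001b0004800340000000000000000000000) (nat_lit 0x0) (nat_lit 0x2000000080000a0037000000000000000000) := T_42 (nat_lit 91) (nat_lit 111) (nat_lit 3) (nat_lit 5) (nat_lit 5) L116841 (by decide +kernel)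
theorem L116843 : W_42 (nat_lit 6) (nat_lit 0x700010001b0004800140000000000000000000000) (nat_lit 0x0) (nat_lit 0x2000000080002a003f000000000000000000) := T_42 (nat_lit 93) (nat_lit 75) (nat_lit 4) (nat_lit 8) (nat_lit 8) L116842 (by decide +kernel)
theorem L116844 : W_42 (nat_lit 7) (nat_lit 0x700010001b0004800040000000000000000000000) (nat_lit 0x0) (nat_lit 0x20000000a0003a003f000000000000000000) := T_42 (nat_lit 92) (nat_lit 109) (nat_lit 4) (nat_lit 8) (nat_lit 9) L116843 (by decide +kernel)
theorem L116845 : W_42 (nat_lit 8) (nat_lit 0x300010001b0004800040000000000000000000000) (nat_lit 0x0) (nat_lit 0x80004000020000000a0003a003f000000000000000000) := T_42 (nat_lit 162) (nat_lit 179) (nat_lit 7) (nat_lit 8) (nat_lit 6) L116844 (by decide +kernel)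
theorem L116846 : W_42 (nat_lit 9) (nat_lit 0x200010001b0004800040000000000000000000000) (nat_lit 0x0) (nat_lit 0xa0005000020000000a0003a003f000000000000000000) := T_42 (nat_lit 160) (nat_lit 177) (nat_lit 5) (nat_lit 8) (nat_lit 6) L116845 (by decide +kernel)
theorem L116847 : W_42 (nat_lit 10) (nat_lit 0x200010001b0004800000000000000000000000000) (nat_lit 0x0) (nat_lit 0xa0005000030000800a4003f803f000380014000000000) := Q_42 (nat_lit 90) (C_42 L116755 (C_42 L116616 (C_42 L116693 (C_42 L116846 N_42)))) (by decide +kernel)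
theorem L116848 : W_42 (nat_lit 2) (nat_lit 0x1000380010001b0004800000000000000000000000000) (nat_lit 0x0) (nat_lit 0x880040000000000000000000000000000000000000000) := D_42 (nat_lit 162) (nat_lit 175) (nat_lit 179) (nat_lit 1) (nat_lit 9) (nat_lit 9) (nat_lit 7) (nat_lit 8) (nat_lit 6) (by decide +kernel)
theorem L116849 : W_42 (nat_lit 3) (nat_lit 0x380010001b0004800000000000000000000000000) (nat_lit 0x0) (nat_lit 0x980040000400000000000000000000000000000000000) := T_42 (nat_lit 176) (nat_lit 142) (nat_lit 4) (nat_lit 6) (nat_lit 10) L116848 (by decide +kernel)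
theorem L116850 : W_42 (nat_lit 2) (nat_lit 0x14003e0010001b0006800000000000000000000000000) (nat_lit 0x0) (nat_lit 0x180008000000000000000000000000000000) := D_42 (nat_lit 140) (nat_lit 139) (nat_lit 123) (nat_lit 0) (nat_lit 7) (nat_lit 9) (nat_lit 6) (nat_lit 4) (nat_lit 10) (by decide +kernel)
theorem L116851 : W_42 (nat_lit 3) (nat_lit 0x14003c0010001b0006800000000000000000000000000) (nat_lit 0x0) (nat_lit 0x20002000180008000000000000000000000000000000) := T_42 (nat_lit 157) (nat_lit 173) (nat_lit 1) (nat_lit 7) (nat_lit 9) L116850 (by decide +kernel)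
theorem L116852 : W_42 (nat_lit 4) (nat_lit 0x10003c0010001b0006800000000000000000000000000) (nat_lit 0x0) (nat_lit 0xe0002000180008000000000000000000000000000000) := T_42 (nat_lit 174) (nat_lit 175) (nat_lit 1) (nat_lit 8) (nat_lit 9) L116851 (by decide +kernel)
theorem L116853 : W_42 (nat_lit 5) (nat_lit 0x1000380010001b0006800000000000000000000000000) (nat_lit 0x0) (nat_lit 0xe0006000380008000000000000000000000000000000) := T_42 (nat_lit 158) (nat_lit 141) (nat_lit 7) (nat_lit 5) (nat_lit 6) L116852 (by decide +kernel)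
theorem L116854 : W_42 (nat_lit 6) (nat_lit 0x1000380010001b0004800000000000000000000000000) (nat_lit 0x0) (nat_lit 0xe0006000380008002000100000000000000000000000) := T_42 (nat_lit 109) (nat_lit 92) (nat_lit 4) (nat_lit 8) (nat_lit 9) L116853 (by decide +kernel)
theorem L116855 : W_42 (nat_lit 7) (nat_lit 0x380010001b0004800000000000000000000000000) (nat_lit 0x0) (nat_lit 0x1e0006000780008002000100000000000000000000000) := T_42 (nat_lit 176) (nat_lit 142) (nat_lit 4) (nat_lit 6) (nat_lit 10) L116854 (by decide +kernel)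
theorem L116856 : W_42 (nat_lit 2) (nat_lit 0x8007c0012001b0006800000000000000000000000000) (nat_lit 0x0) (nat_lit 0x8000400020000000000000000000000) := D_42 (nat_lit 106) (nat_lit 89) (nat_lit 123) (nat_lit 4) (nat_lit 5) (nat_lit 9) (nat_lit 4) (nat_lit 5) (nat_lit 10) (by decide +kernel)
theorem L116857 : W_42 (nat_lit 3) (nat_lit 0x8007c0010001b0006800000000000000000000000000) (nat_lit 0x0) (nat_lit 0x300008000400020000000000000000000000) := T_42 (nat_lit 141) (nat_lit 140) (nat_lit 0) (nat_lit 8) (nat_lit 9) L116856 (by decide +kernel)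
theorem L116858 : W_42 (nat_lit 4) (nat_lit 0x800780010001b0006800000000000000000000000000) (nat_lit 0x0) (nat_lit 0x40004000300008000400020000000000000000000000) := T_42 (nat_lit 158) (nat_lit 174) (nat_lit 1) (nat_lit 8) (nat_lit 9) L116857 (by decide +kernel)
theorem L116859 : W_42 (nat_lit 5) (nat_lit 0x800780010001b0004800000000000000000000000000) (nat_lit 0x0) (nat_lit 0x40004000300008002400120000000000000000000000) := T_42 (nat_lit 109) (nat_lit 92) (nat_lit 4) (nat_lit 8) (nat_lit 9) L116858 (by decide +kernel)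
theorem L116860 : W_42 (nat_lit 6) (nat_lit 0x780010001b0004800000000000000000000000000) (nat_lit 0x0) (nat_lit 0x1c0004000300008002400120000000000000000000000) := T_42 (nat_lit 175) (nat_lit 176) (nat_lit 1) (nat_lit 9) (nat_lit 9) L116859 (by decide +kernel)
theorem L116861 : W_42 (nat_lit 7) (nat_lit 0x380010001b0004800000000000000000000000000) (nat_lit 0x0) (nat_lit 0x9c0044000300008002400120000000000000000000000) := T_42 (nat_lit 162) (nat_lit 179) (nat_lit 7) (nat_lit 8) (nat_lit 6) L116860 (by decide +kernel)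
theorem L116862 : W_42 (nat_lit 2) (nat_lit 0x7c0012001b0006800000000000000000000000000) (nat_lit 0x0) (nat_lit 0xc0002000000000000000000000000000000000000000) := D_42 (nat_lit 174) (nat_lit 175) (nat_lit 157) (nat_lit 1) (nat_lit 8) (nat_lit 9) (nat_lit 5) (nat_lit 5) (nat_lit 6) (by decide +kernel)
theorem L116863 : W_42 (nat_lit 3) (nat_lit 0x780012001b0006800000000000000000000000000) (nat_lit 0x0) (nat_lit 0xc0006000100000000000000000000000000000000000) := T_42 (nat_lit 158) (nat_lit 140) (nat_lit 0) (nat_lit 8) (nat_lit 9) L116862 (by decide +kernel)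
theorem L116864 : W_42 (nat_lit 4) (nat_lit 0x780010001b0006800000000000000000000000000) (nat_lit 0x0) (nat_lit 0xc0006000700000000000000000000000000000000000) := T_42 (nat_lit 141) (nat_lit 142) (nat_lit 0) (nat_lit 9) (nat_lit 9) L116863 (by decide +kernel)
theorem L116865 : W_42 (nat_lit 5) (nat_lit 0x380010001b0006800000000000000000000000000) (nat_lit 0x0) (nat_lit 0x8c0046000700000000000000000000000000000000000) := T_42 (nat_lit 162) (nat_lit 179) (nat_lit 7) (nat_lit 8) (nat_lit 6) L116864 (by decide +kernel)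
theorem L116866 : W_42 (nat_lit 6) (nat_lit 0x380010001b0004800000000000000000000000000) (nat_lit 0x0) (nat_lit 0x8c0046000700000002000100000000000000000000000) := T_42 (nat_lit 109) (nat_lit 92) (nat_lit 4) (nat_lit 8) (nat_lit 9) L116865 (by decide +kernel)
theorem L116867 : W_42 (nat_lit 2) (nat_lit 0x780010001b0004800000000000000000000000000) (nat_lit 0x0) (nat_lit 0x100000000600000000000000000000000000000000000) := D_42 (nat_lit 142) (nat_lit 141) (nat_lit 176) (nat_lit 0) (nat_lit 9) (nat_lit 9) (nat_lit 4) (nat_lit 6) (nat_lit 10) (by decide +kernel)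
theorem L116868 : W_42 (nat_lit 3) (nat_lit 0x380010001b0004800000000000000000000000000) (nat_lit 0x0) (nat_lit 0x900040000600000000000000000000000000000000000) := T_42 (nat_lit 162) (nat_lit 179) (nat_lit 7) (nat_lit 8) (nat_lit 6) L116867 (by decide +kernel)
theorem L116869 : W_42 (nat_lit 8) (nat_lit 0x300010001b0004800000000000000000000000000) (nat_lit 0x0) (nat_lit 0x9e004e000780008002400120000000000000000000000) := Q_42 (nat_lit 159) (C_42 L116849 (C_42 L116855 (C_42 L116861 (C_42 L116866 (C_42 L116868 N_42))))) (by decide +kernel)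
theorem L116870 : W_42 (nat_lit 9) (nat_lit 0x200010001b0004800000000000000000000000000) (nat_lit 0x0) (nat_lit 0xbe005e000780008002400120000000000000000000000) := T_42 (nat_lit 160) (nat_lit 177) (nat_lit 5) (nat_lit 8) (nat_lit 6) L116869 (by decide +kernel)
theorem L116871 : W_42 (nat_lit 2) (nat_lit 0x680013401b00048003c0010000000000000000000) (nat_lit 0x0) (nat_lit 0x200014000000000000000000000000000000000000000) := D_42 (nat_lit 160) (nat_lit 177) (nat_lit 158) (nat_lit 5) (nat_lit 8) (nat_lit 6) (nat_lit 0) (nat_lit 8) (nat_lit 9) (by decide +kernel)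
theorem L116872 : W_42 (nat_lit 3) (nat_lit 0x600013401b00048003c0010000000000000000000) (nat_lit 0x0) (nat_lit 0x20001c000400000000000000000000000000000000000) := T_42 (nat_lit 159) (nat_lit 142) (nat_lit 7) (nat_lit 5) (nat_lit 5) L116871 (by decide +kernel)
theorem L116873 : W_42 (nat_lit 4) (nat_lit 0x600013001b00048003c0010000000000000000000) (nat_lit 0x0) (nat_lit 0x20001c0004c0000000000000000000000000000000000) := T_42 (nat_lit 138) (nat_lit 139) (nat_lit 2) (nat_lit 2) (nat_lit 8) L116872 (by decide +kernel)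
theorem L116874 : W_42 (nat_lit 5) (nat_lit 0x600012001b00048003c0010000000000000000000) (nat_lit 0x0) (nat_lit 0x20001e0005c0000000000000000000000000000000000) := T_42 (nat_lit 140) (nat_lit 157) (nat_lit 5) (nat_lit 5) (nat_lit 5) L116873 (by decide +kernel)
theorem L116875 : W_42 (nat_lit 6) (nat_lit 0x600010001b00048003c0010000000000000000000) (nat_lit 0x0) (nat_lit 0x20001e0007c0000000000000004000000000000000000) := T_42 (nat_lit 141) (nat_lit 74) (nat_lit 6) (nat_lit 5) (nat_lit 8) L116874 (by decide +kernel)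
theorem L116876 : W_42 (nat_lit 7) (nat_lit 0x600010001b00048003c0000000000000000000000) (nat_lit 0x0) (nat_lit 0x20001e0007c0000000000000034000000000000000000) := T_42 (nat_lit 76) (nat_lit 77) (nat_lit 2) (nat_lit 5) (nat_lit 5) L116875 (by decide +kernel)
theorem L116877 : W_42 (nat_lit 8) (nat_lit 0x600010001b0004800340000000000000000000000) (nat_lit 0x0) (nat_lit 0x20001e0007c0000008000080034000000000000000000) := T_42 (nat_lit 91) (nat_lit 111) (nat_lit 3) (nat_lit 5) (nat_lit 5) L116876 (by decide +kernel)
theorem L116878 : W_42 (nat_lit 9) (nat_lit 0x600010001b0004800140000000000000000000000) (nat_lit 0x0) (nat_lit 0x20001e0007c000000800028003c000000000000000000) := T_42 (nat_lit 93) (nat_lit 75) (nat_lit 4) (nat_lit 8) (nat_lit 8) L116877 (by decide +kernel)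
theorem L116879 : W_42 (nat_lit 10) (nat_lit 0x200010001b0004800140000000000000000000000) (nat_lit 0x0) (nat_lit 0xa0005e0007c000000800028003c000000000000000000) := T_42 (nat_lit 162) (nat_lit 179) (nat_lit 7) (nat_lit 8) (nat_lit 6) L116878 (by decide +kernel)
theorem L116880 : W_42 (nat_lit 11) (nat_lit 0x200010001b0004800040000000000000000000000) (nat_lit 0x0) (nat_lit 0xa0005e0007c000000a00038003c000000000000000000) := T_42 (nat_lit 92) (nat_lit 109) (nat_lit 4) (nat_lit 8) (nat_lit 9) L116879 (by decide +kernel)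
theorem L116881 : W_42 (nat_lit 12) (nat_lit 0x200010001b0004800000000000000000000000000) (nat_lit 0x0) (nat_lit 0xa0005e0007c000800a0003e003f000280000000000000) := Q_42 (nat_lit 90) (C_42 L116773 (C_42 L116701 (C_42 L116846 (C_42 L116627 (C_42 L116766 (C_42 L116880 N_42)))))) (by decide +kernel)
theorem L116882 : W_42 (nat_lit 10) (nat_lit 0x200010001b0004800000000000000000000000000) (nat_lit 0x0) (nat_lit 0xa0005000060000000a4003f803f000280000000000000) := Q_42 (nat_lit 90) (C_42 L116616 (C_42 L116701 (C_42 L116846 (C_42 L116621 (C_42 L116757 N_42))))) (by decide +kernel)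
theorem L116883 : W_42 (nat_lit 14) (nat_lit 0x200010001b0004000000000000000000000000000) (nat_lit 0x0) (nat_lit 0x200030001800be005f8007c000e00af003f803fc00380014000000000) := Q_42 (nat_lit 107) (C_42 L116592 (C_42 L116608 (C_42 L116617 (C_42 L116628 (C_42 L116702 (C_42 L116725 (C_42 L116758 (C_42 L116767 (C_42 L116774 (C_42 L116838 (C_42 L116847 (C_42 L116870 (C_42 L116881 (C_42 L116882 N_42)))))))))))))) (by decide +kernel)
theorem L116884 : W_42 (nat_lit 2) (nat_lit 0x600010001f0004000000000000000000000000000) (nat_lit 0x0) (nat_lit 0x8002000100000000000000000000000) := D_42 (nat_lit 109) (nat_lit 123) (nat_lit 92) (nat_lit 2) (nat_lit 4) (nat_lit 7) (nat_lit 4) (nat_lit 8) (nat_lit 9) (by decide +kernel)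
theorem L116885 : W_42 (nat_lit 3) (nat_lit 0x600010001b0004000000000000000000000000000) (nat_lit 0x0) (nat_lit 0x4800a000100000000000000000000000) := T_42 (nat_lit 126) (nat_lit 111) (nat_lit 2) (nat_lit 5) (nat_lit 7) L116884 (by decide +kernel)
theorem L116886 : W_42 (nat_lit 4) (nat_lit 0x200010001b0004000000000000000000000000000) (nat_lit 0x0) (nat_lit 0x80004000000004800a000100000000000000000000000) := T_42 (nat_lit 162) (nat_lit 179) (nat_lit 7) (nat_lit 8) (nat_lit 6) L116885 (by decide +kernel)
theorem L116887 : W_42 (nat_lit 2) (nat_lit 0x700010001f0006000000000000000000000000000) (nat_lit 0x0) (nat_lit 0x700000000000000000000000000000000000) := D_42 (nat_lit 141) (nat_lit 142) (nat_lit 140) (nat_lit 1) (nat_lit 9) (nat_lit 7) (nat_lit 1) (nat_lit 8) (nat_lit 7) (by decide +kernel)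
theorem L116888 : W_42 (nat_lit 3) (nat_lit 0x700010001b0006000000000000000000000000000) (nat_lit 0x0) (nat_lit 0x700048000000000000000000000000000000) := T_42 (nat_lit 126) (nat_lit 123) (nat_lit 2) (nat_lit 4) (nat_lit 7) L116887 (by decide +kernel)
theorem L116889 : W_42 (nat_lit 4) (nat_lit 0x700010001b0004000000000000000000000000000) (nat_lit 0x0) (nat_lit 0x700048002000100000000000000000000000) := T_42 (nat_lit 109) (nat_lit 92) (nat_lit 4) (nat_lit 8) (nat_lit 9) L116888 (by decide +kernel)
theorem L116890 : W_42 (nat_lit 5) (nat_lit 0x600010001b0004000000000000000000000000000) (nat_lit 0x0) (nat_lit 0x200010000700048002000100000000000000000000000) := T_42 (nat_lit 160) (nat_lit 177) (nat_lit 5) (nat_lit 8) (nat_lit 6) L116889 (by decide +kernel)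
theorem L116891 : W_42 (nat_lit 6) (nat_lit 0x200010001b0004000000000000000000000000000) (nat_lit 0x0) (nat_lit 0xa00050000700048002000100000000000000000000000) := T_42 (nat_lit 162) (nat_lit 179) (nat_lit 7) (nat_lit 8) (nat_lit 6) L116890 (by decide +kernel)
theorem L116892 : W_42 (nat_lit 15) (nat_lit 0x200010001a0004000000000000000000000000000) (nat_lit 0x0) (nat_lit 0x200030001800be005f8007c005e00af003f803fc00380014000000000) := Q_42 (nat_lit 124) (C_42 L116561 (C_42 L116883 (C_42 L116886 (C_42 L116891 N_42)))) (by decide +kernel)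
theorem L116893 : W_42 (nat_lit 2) (nat_lit 0x200014001a0005000000000000000000000000000) (nat_lit 0x0) (nat_lit 0x200040000800000000000000000000000000) := D_42 (nat_lit 126) (nat_lit 107) (nat_lit 141) (nat_lit 0) (nat_lit 9) (nat_lit 7) (nat_lit 1) (nat_lit 9) (nat_lit 7) (by decide +kernel)
theorem L116894 : W_42 (nat_lit 2) (nat_lit 0x780014001a0005000000000000000000000000000) (nat_lit 0x0) (nat_lit 0x180004000000000000000000000000000000000000000) := D_42 (nat_lit 175) (nat_lit 176) (nat_lit 158) (nat_lit 1) (nat_lit 9) (nat_lit 9) (nat_lit 5) (nat_lit 6) (nat_lit 6) (by decide +kernel)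
theorem L116895 : W_42 (nat_lit 3) (nat_lit 0x700014001a0005000000000000000000000000000) (nat_lit 0x0) (nat_lit 0x18000c000200000000000000000000000000000000000) := T_42 (nat_lit 159) (nat_lit 141) (nat_lit 0) (nat_lit 9) (nat_lit 9) L116894 (by decide +kernel)
theorem L116896 : W_42 (nat_lit 4) (nat_lit 0x600014001a0005000000000000000000000000000) (nat_lit 0x0) (nat_lit 0x38001c000200000000000000000000000000000000000) := T_42 (nat_lit 160) (nat_lit 177) (nat_lit 5) (nat_lit 8) (nat_lit 6) L116895 (by decide +kernel)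
theorem L116897 : W_42 (nat_lit 5) (nat_lit 0x200014001a0005000000000000000000000000000) (nat_lit 0x0) (nat_lit 0xb8005c000200000000000000000000000000000000000) := T_42 (nat_lit 162) (nat_lit 179) (nat_lit 7) (nat_lit 8) (nat_lit 6) L116896 (by decide +kernel)
theorem L116898 : W_42 (nat_lit 2) (nat_lit 0x780014001a0005800000000000000000000000000) (nat_lit 0x0) (nat_lit 0x180000000000010000000000000000000000000000000) := D_42 (nat_lit 176) (nat_lit 175) (nat_lit 124) (nat_lit 1) (nat_lit 9) (nat_lit 9) (nat_lit 4) (nat_lit 6) (nat_lit 10) (by decide +kernel)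
theorem L116899 : W_42 (nat_lit 3) (nat_lit 0x700014001a0005800000000000000000000000000) (nat_lit 0x0) (nat_lit 0x180008000000010000000040000000000000000000000) := T_42 (nat_lit 159) (nat_lit 90) (nat_lit 4) (nat_lit 6) (nat_lit 9) L116898 (by decide +kernel)
theorem L116900 : W_42 (nat_lit 4) (nat_lit 0x300014001a0005800000000000000000000000000) (nat_lit 0x0) (nat_lit 0x980048000000010000000040000000000000000000000) := T_42 (nat_lit 162) (nat_lit 179) (nat_lit 7) (nat_lit 8) (nat_lit 6) L116899 (by decide +kernel)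
theorem L116901 : W_42 (nat_lit 5) (nat_lit 0x300014001a0005000000000000000000000000000) (nat_lit 0x0) (nat_lit 0x980048000000050000800040000000000000000000000) := T_42 (nat_lit 107) (nat_lit 126) (nat_lit 0) (nat_lit 9) (nat_lit 7) L116900 (by decide +kernel)
theorem L116902 : W_42 (nat_lit 6) (nat_lit 0x200014001a0005000000000000000000000000000) (nat_lit 0x0) (nat_lit 0xb80058000000050000800040000000000000000000000) := T_42 (nat_lit 160) (nat_lit 177) (nat_lit 5) (nat_lit 8) (nat_lit 6) L116901 (by decide +kernel)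
theorem L116903 : W_42 (nat_lit 7) (nat_lit 0x200010001a0005000000000000000000000000000) (nat_lit 0x0) (nat_lit 0xb8005c000600050000800040000000000000000000000) := Q_42 (nat_lit 142) (C_42 L116893 (C_42 L116897 (C_42 L116902 N_42))) (by decide +kernel)
theorem L116904 : W_42 (nat_lit 9) (nat_lit 0x200010001a0004000000000000000000000000000) (nat_lit 0x0) (nat_lit 0xb8005c0006000500038003c0008000000000000000000) := Q_42 (nat_lit 108) (C_42 L116903 (C_42 L116529 (C_42 L116558 N_42))) (by decide +kernel)
theorem L116905 : W_42 (nat_lit 2) (nat_lit 0x780014001a0005800000000000000000000000000) (nat_lit 0x0) (nat_lit 0x180004000000000000000000000000000000000000000) := D_42 (nat_lit 175) (nat_lit 176) (nat_lit 158) (nat_lit 1) (nat_lit 9) (nat_lit 9) (nat_lit 5) (nat_lit 6) (nat_lit 6) (by decide +kernel)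
theorem L116906 : W_42 (nat_lit 3) (nat_lit 0x700014001a0005800000000000000000000000000) (nat_lit 0x0) (nat_lit 0x18000c000000000000000040000000000000000000000) := T_42 (nat_lit 159) (nat_lit 90) (nat_lit 4) (nat_lit 6) (nat_lit 9) L116905 (by decide +kernel)
theorem L116907 : W_42 (nat_lit 4) (nat_lit 0x600014001a0005800000000000000000000000000) (nat_lit 0x0) (nat_lit 0x38001c000000000000000040000000000000000000000) := T_42 (nat_lit 160) (nat_lit 177) (nat_lit 5) (nat_lit 8) (nat_lit 6) L116906 (by decide +kernel)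
theorem L116908 : W_42 (nat_lit 5) (nat_lit 0x600014001a0005000000000000000000000000000) (nat_lit 0x0) (nat_lit 0x38001c000000040000800040000000000000000000000) := T_42 (nat_lit 107) (nat_lit 126) (nat_lit 0) (nat_lit 9) (nat_lit 7) L116907 (by decide +kernel)
theorem L116909 : W_42 (nat_lit 6) (nat_lit 0x200014001a0005000000000000000000000000000) (nat_lit 0x0) (nat_lit 0xb8005c000000040000800040000000000000000000000) := T_42 (nat_lit 162) (nat_lit 179) (nat_lit 7) (nat_lit 8) (nat_lit 6) L116908 (by decide +kernel)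
theorem L116910 : W_42 (nat_lit 7) (nat_lit 0x200010001a0005000000000000000000000000000) (nat_lit 0x0) (nat_lit 0xb8005c000600040000800040000000000000000000000) := Q_42 (nat_lit 142) (C_42 L116897 (C_42 L116893 (C_42 L116909 N_42))) (by decide +kernel)
theorem L116911 : W_42 (nat_lit 9) (nat_lit 0x200010001a0004000000000000000000000000000) (nat_lit 0x0) (nat_lit 0xb8005c0006000400038003c0008000000000000000000) := Q_42 (nat_lit 108) (C_42 L116910 (C_42 L116529 (C_42 L116558 N_42))) (by decide +kernel)
theorem L116912 : W_42 (nat_lit 2) (nat_lit 0x1000780014001e0004000000000000000000000000000) (nat_lit 0x0) (nat_lit 0x10018000000000000000000000000000) := D_42 (nat_lit 111) (nat_lit 112) (nat_lit 124) (nat_lit 2) (nat_lit 6) (nat_lit 7) (nat_lit 2) (nat_lit 5) (nat_lit 7) (by decide +kernel)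
theorem L116913 : W_42 (nat_lit 3) (nat_lit 0x1000780014001a0004000000000000000000000000000) (nat_lit 0x0) (nat_lit 0x5001a000000000000000000000000000) := T_42 (nat_lit 126) (nat_lit 109) (nat_lit 6) (nat_lit 6) (nat_lit 10) L116912 (by decide +kernel)
theorem L116914 : W_42 (nat_lit 4) (nat_lit 0x1000780010001a0004000000000000000000000000000) (nat_lit 0x0) (nat_lit 0x60005001a000000000000000000000000000) := T_42 (nat_lit 142) (nat_lit 141) (nat_lit 0) (nat_lit 9) (nat_lit 9) L116913 (by decide +kernel)
theorem L116915 : W_42 (nat_lit 5) (nat_lit 0x780010001a0004000000000000000000000000000) (nat_lit 0x0) (nat_lit 0x18000000060005001a000000000000000000000000000) := T_42 (nat_lit 176) (nat_lit 175) (nat_lit 1) (nat_lit 9) (nat_lit 9) L116914 (by decide +kernel)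
theorem L116916 : W_42 (nat_lit 2) (nat_lit 0x780014001a0006000000000000000000000000000) (nat_lit 0x0) (nat_lit 0x180000000000040000000000000000000000000000000) := D_42 (nat_lit 176) (nat_lit 175) (nat_lit 126) (nat_lit 1) (nat_lit 9) (nat_lit 9) (nat_lit 6) (nat_lit 6) (nat_lit 10) (by decide +kernel)
theorem L116917 : W_42 (nat_lit 3) (nat_lit 0x780014001a0004000000000000000000000000000) (nat_lit 0x0) (nat_lit 0x180000000000040002000100000000000000000000000) := T_42 (nat_lit 109) (nat_lit 92) (nat_lit 4) (nat_lit 8) (nat_lit 9) L116916 (by decide +kernel)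
theorem L116918 : W_42 (nat_lit 4) (nat_lit 0x780010001a0004000000000000000000000000000) (nat_lit 0x0) (nat_lit 0x180000000600040002000100000000000000000000000) := T_42 (nat_lit 142) (nat_lit 141) (nat_lit 0) (nat_lit 9) (nat_lit 9) L116917 (by decide +kernel)
theorem L116919 : W_42 (nat_lit 2) (nat_lit 0x800780014001a0004000000000000000000000000000) (nat_lit 0x0) (nat_lit 0x40004000000000001000000000000000000000000000) := D_42 (nat_lit 158) (nat_lit 174) (nat_lit 108) (nat_lit 1) (nat_lit 8) (nat_lit 9) (nat_lit 5) (nat_lit 6) (nat_lit 6) (by decide +kernel)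
theorem L116920 : W_42 (nat_lit 3) (nat_lit 0x800780010001a0004000000000000000000000000000) (nat_lit 0x0) (nat_lit 0x40004000600000001000000000000000000000000000) := T_42 (nat_lit 142) (nat_lit 141) (nat_lit 0) (nat_lit 9) (nat_lit 9) L116919 (by decide +kernel)
theorem L116921 : W_42 (nat_lit 4) (nat_lit 0x780010001a0004000000000000000000000000000) (nat_lit 0x0) (nat_lit 0x1c0004000600000001000000000000000000000000000) := T_42 (nat_lit 175) (nat_lit 176) (nat_lit 1) (nat_lit 9) (nat_lit 9) L116920 (by decide +kernel)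
theorem L116922 : W_42 (nat_lit 2) (nat_lit 0x1000780010001e0006000000000000000000000000000) (nat_lit 0x0) (nat_lit 0x10018000000000000000000000000000) := D_42 (nat_lit 111) (nat_lit 112) (nat_lit 124) (nat_lit 2) (nat_lit 6) (nat_lit 7) (nat_lit 2) (nat_lit 5) (nat_lit 7) (by decide +kernel)
theorem L116923 : W_42 (nat_lit 3) (nat_lit 0x1000780010001a0006000000000000000000000000000) (nat_lit 0x0) (nat_lit 0x400050018000000000000000000000000000) := T_42 (nat_lit 126) (nat_lit 142) (nat_lit 6) (nat_lit 6) (nat_lit 10) L116922 (by decide +kernel)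
theorem L116924 : W_42 (nat_lit 4) (nat_lit 0x1000780010001a0004000000000000000000000000000) (nat_lit 0x0) (nat_lit 0x40005001a000100000000000000000000000) := T_42 (nat_lit 109) (nat_lit 92) (nat_lit 4) (nat_lit 8) (nat_lit 9) L116923 (by decide +kernel)
theorem L116925 : W_42 (nat_lit 5) (nat_lit 0x780010001a0004000000000000000000000000000) (nat_lit 0x0) (nat_lit 0x18000000040005001a000100000000000000000000000) := T_42 (nat_lit 176) (nat_lit 175) (nat_lit 1) (nat_lit 9) (nat_lit 9) L116924 (by decide +kernel)
theorem L116926 : W_42 (nat_lit 2) (nat_lit 0x8007c0012001b0006000000000000000000000000000) (nat_lit 0x0) (nat_lit 0x48000400000000000000000000000000) := D_42 (nat_lit 123) (nat_lit 106) (nat_lit 126) (nat_lit 4) (nat_lit 5) (nat_lit 10) (nat_lit 2) (nat_lit 4) (nat_lit 7) (by decide +kernel)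
theorem L116927 : W_42 (nat_lit 3) (nat_lit 0x8007c0012001a0006000000000000000000000000000) (nat_lit 0x0) (nat_lit 0x58001400000000000000000000000000) := T_42 (nat_lit 124) (nat_lit 108) (nat_lit 6) (nat_lit 5) (nat_lit 10) L116926 (by decide +kernel)
theorem L116928 : W_42 (nat_lit 4) (nat_lit 0x8007c0010001a0006000000000000000000000000000) (nat_lit 0x0) (nat_lit 0x300058001400000000000000000000000000) := T_42 (nat_lit 141) (nat_lit 140) (nat_lit 0) (nat_lit 8) (nat_lit 9) L116927 (by decide +kernel)
theorem L116929 : W_42 (nat_lit 5) (nat_lit 0x800780010001a0006000000000000000000000000000) (nat_lit 0x0) (nat_lit 0x40004000300058001400000000000000000000000000) := T_42 (nat_lit 158) (nat_lit 174) (nat_lit 1) (nat_lit 8) (nat_lit 9) L116928 (by decide +kernel)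
theorem L116930 : W_42 (nat_lit 6) (nat_lit 0x780010001a0006000000000000000000000000000) (nat_lit 0x0) (nat_lit 0x1c0004000300058001400000000000000000000000000) := T_42 (nat_lit 175) (nat_lit 176) (nat_lit 1) (nat_lit 9) (nat_lit 9) L116929 (by decide +kernel)
theorem L116931 : W_42 (nat_lit 7) (nat_lit 0x780010001a0004000000000000000000000000000) (nat_lit 0x0) (nat_lit 0x1c0004000300058003400100000000000000000000000) := T_42 (nat_lit 109) (nat_lit 92) (nat_lit 4) (nat_lit 8) (nat_lit 9) L116930 (by decide +kernel)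
theorem L116932 : W_42 (nat_lit 4) (nat_lit 0x7c0012001a0006000000000000000000000000000) (nat_lit 0x0) (nat_lit 0xc0000000000058001400000000000000000000000000) := T_42 (nat_lit 175) (nat_lit 174) (nat_lit 1) (nat_lit 8) (nat_lit 9) L116927 (by decide +kernel)
theorem L116933 : W_42 (nat_lit 5) (nat_lit 0x780012001a0006000000000000000000000000000) (nat_lit 0x0) (nat_lit 0xc0004000100058001400000000000000000000000000) := T_42 (nat_lit 158) (nat_lit 140) (nat_lit 0) (nat_lit 8) (nat_lit 9) L116932 (by decide +kernel)
theorem L116934 : W_42 (nat_lit 6) (nat_lit 0x780012001a0004000000000000000000000000000) (nat_lit 0x0) (nat_lit 0xc0004000100058003400100000000000000000000000) := T_42 (nat_lit 109) (nat_lit 92) (nat_lit 4) (nat_lit 8) (nat_lit 9) L116933 (by decide +kernel)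
theorem L116935 : W_42 (nat_lit 7) (nat_lit 0x780010001a0004000000000000000000000000000) (nat_lit 0x0) (nat_lit 0xc0004000700058003400100000000000000000000000) := T_42 (nat_lit 141) (nat_lit 142) (nat_lit 0) (nat_lit 9) (nat_lit 9) L116934 (by decide +kernel)
theorem L116936 : W_42 (nat_lit 2) (nat_lit 0x780014001e0006000000000000000000000000000) (nat_lit 0x0) (nat_lit 0x10018000000000000000000000000000) := D_42 (nat_lit 111) (nat_lit 112) (nat_lit 124) (nat_lit 2) (nat_lit 6) (nat_lit 7) (nat_lit 2) (nat_lit 5) (nat_lit 7) (by decide +kernel)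
theorem L116937 : W_42 (nat_lit 3) (nat_lit 0x780014001a0006000000000000000000000000000) (nat_lit 0x0) (nat_lit 0x100000000000050018000000000000000000000000000) := T_42 (nat_lit 126) (nat_lit 176) (nat_lit 6) (nat_lit 6) (nat_lit 10) L116936 (by decide +kernel)
theorem L116938 : W_42 (nat_lit 4) (nat_lit 0x780014001a0004000000000000000000000000000) (nat_lit 0x0) (nat_lit 0x10000000000005001a000100000000000000000000000) := T_42 (nat_lit 109) (nat_lit 92) (nat_lit 4) (nat_lit 8) (nat_lit 9) L116937 (by decide +kernel)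
theorem L116939 : W_42 (nat_lit 5) (nat_lit 0x780010001a0004000000000000000000000000000) (nat_lit 0x0) (nat_lit 0x10000000060005001a000100000000000000000000000) := T_42 (nat_lit 142) (nat_lit 141) (nat_lit 0) (nat_lit 9) (nat_lit 9) L116938 (by decide +kernel)
theorem L116940 : W_42 (nat_lit 8) (nat_lit 0x700010001a0004000000000000000000000000000) (nat_lit 0x0) (nat_lit 0x1c000c00070005801b400100000000000000000000000) := Q_42 (nat_lit 159) (C_42 L116915 (C_42 L116918 (C_42 L116921 (C_42 L116925 (C_42 L116931 (C_42 L116935 (C_42 L116939 N_42))))))) (by decide +kernel)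
theorem L116941 : W_42 (nat_lit 9) (nat_lit 0x600010001a0004000000000000000000000000000) (nat_lit 0x0) (nat_lit 0x3c001c00070005801b400100000000000000000000000) := T_42 (nat_lit 160) (nat_lit 177) (nat_lit 5) (nat_lit 8) (nat_lit 6) L116940 (by decide +kernel)
theorem L116942 : W_42 (nat_lit 10) (nat_lit 0x200010001a0004000000000000000000000000000) (nat_lit 0x0) (nat_lit 0xbc005c00070005801b400100000000000000000000000) := T_42 (nat_lit 162) (nat_lit 179) (nat_lit 7) (nat_lit 8) (nat_lit 6) L116941 (by decide +kernel)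
theorem L116943 : W_42 (nat_lit 16) (nat_lit 0x20001000180004000000000000000000000000000) (nat_lit 0x0) (nat_lit 0x6000f0007800be005f8007c007e07bf03bf803fc01f8009c000000000) := Q_42 (nat_lit 125) (C_42 L116383 (C_42 L116391 (C_42 L116399 (C_42 L116404 (C_42 L116559 (C_42 L116892 (C_42 L116904 (C_42 L116911 (C_42 L116942 N_42))))))))) (by decide +kernel)
theorem L116944 : W_42 (nat_lit 2) (nat_lit 0x200010001e0004000000000000000000000000000) (nat_lit 0x0) (nat_lit 0x10018000000000000000000000000000) := D_42 (nat_lit 111) (nat_lit 124) (nat_lit 112) (nat_lit 2) (nat_lit 5) (nat_lit 7) (nat_lit 2) (nat_lit 6) (nat_lit 7) (by decide +kernel)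
theorem L116945 : W_42 (nat_lit 2) (nat_lit 0x600010001f0004000000000000000000000000000) (nat_lit 0x0) (nat_lit 0x700000000000000000000000000000000000) := D_42 (nat_lit 141) (nat_lit 140) (nat_lit 142) (nat_lit 1) (nat_lit 8) (nat_lit 7) (nat_lit 1) (nat_lit 9) (nat_lit 7) (by decide +kernel)
theorem L116946 : W_42 (nat_lit 3) (nat_lit 0x600010001e0004000000000000000000000000000) (nat_lit 0x0) (nat_lit 0x700010008000000000000000000000000000) := T_42 (nat_lit 124) (nat_lit 111) (nat_lit 2) (nat_lit 5) (nat_lit 7) L116945 (by decide +kernel)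
theorem L116947 : W_42 (nat_lit 4) (nat_lit 0x200010001e0004000000000000000000000000000) (nat_lit 0x0) (nat_lit 0x800040000700010008000000000000000000000000000) := T_42 (nat_lit 162) (nat_lit 179) (nat_lit 7) (nat_lit 8) (nat_lit 6) L116946 (by decide +kernel)
theorem L116948 : W_42 (nat_lit 4) (nat_lit 0x200010001e0004000000000000000000000000000) (nat_lit 0x0) (nat_lit 0x700010001c00000000000000000000000000) := T_42 (nat_lit 141) (nat_lit 142) (nat_lit 1) (nat_lit 9) (nat_lit 7) L110471 (by decide +kernel)
theorem L116949 : W_42 (nat_lit 2) (nat_lit 0x200010003e0004000000000000000000000000000) (nat_lit 0x0) (nat_lit 0x38000000000000000000000000000) := D_42 (nat_lit 112) (nat_lit 111) (nat_lit 113) (nat_lit 2) (nat_lit 6) (nat_lit 7) (nat_lit 2) (nat_lit 7) (nat_lit 7) (by decide +kernel)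
theorem L116950 : W_42 (nat_lit 2) (nat_lit 0x200094003e0024000000000000000000000000000) (nat_lit 0x0) (nat_lit 0x10000400040000000000000000000000000000) := D_42 (nat_lit 130) (nat_lit 114) (nat_lit 148) (nat_lit 2) (nat_lit 8) (nat_lit 7) (nat_lit 3) (nat_lit 8) (nat_lit 7) (by decide +kernel)
theorem L116951 : W_42 (nat_lit 3) (nat_lit 0x200014003e0024000000000000000000000000000) (nat_lit 0x0) (nat_lit 0x1c000400040000000000000000000000000000) := T_42 (nat_lit 147) (nat_lit 146) (nat_lit 3) (nat_lit 7) (nat_lit 7) L116950 (by decide +kernel)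
theorem L116952 : W_42 (nat_lit 4) (nat_lit 0x200014003e0004000000000000000000000000000) (nat_lit 0x0) (nat_lit 0x1c000400070000000000000000000000000000) := T_42 (nat_lit 113) (nat_lit 112) (nat_lit 2) (nat_lit 7) (nat_lit 7) L116951 (by decide +kernel)
theorem L116953 : W_42 (nat_lit 5) (nat_lit 0x200010003e0004000000000000000000000000000) (nat_lit 0x0) (nat_lit 0x1c600400070000000000000000000000000000) := T_42 (nat_lit 142) (nat_lit 141) (nat_lit 1) (nat_lit 9) (nat_lit 7) L116952 (by decide +kernel)
theorem L116954 : W_42 (nat_lit 2) (nat_lit 0x600094007e0044000000000000000000000000000) (nat_lit 0x0) (nat_lit 0x800088000000000000000000000000000) := D_42 (nat_lit 131) (nat_lit 111) (nat_lit 115) (nat_lit 0) (nat_lit 12) (nat_lit 7) (nat_lit 2) (nat_lit 9) (nat_lit 7) (by decide +kernel)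
theorem L116955 : W_42 (nat_lit 3) (nat_lit 0x600094007e0004000000000000000000000000000) (nat_lit 0x0) (nat_lit 0x8000e8000000000000000000000000000) := T_42 (nat_lit 114) (nat_lit 113) (nat_lit 2) (nat_lit 8) (nat_lit 7) L116954 (by decide +kernel)
theorem L116956 : W_42 (nat_lit 4) (nat_lit 0x600094003e0004000000000000000000000000000) (nat_lit 0x0) (nat_lit 0x10000c000e8000000000000000000000000000) := T_42 (nat_lit 130) (nat_lit 148) (nat_lit 3) (nat_lit 8) (nat_lit 7) L116955 (by decide +kernel)
theorem L116957 : W_42 (nat_lit 5) (nat_lit 0x200094003e0004000000000000000000000000000) (nat_lit 0x0) (nat_lit 0x800040010000c000e8000000000000000000000000000) := T_42 (nat_lit 162) (nat_lit 179) (nat_lit 7) (nat_lit 8) (nat_lit 6) L116956 (by decide +kernel)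
theorem L116958 : W_42 (nat_lit 6) (nat_lit 0x200014003e0004000000000000000000000000000) (nat_lit 0x0) (nat_lit 0x80004001c000c000e8000000000000000000000000000) := T_42 (nat_lit 147) (nat_lit 146) (nat_lit 3) (nat_lit 7) (nat_lit 7) L116957 (by decide +kernel)
theorem L116959 : W_42 (nat_lit 7) (nat_lit 0x200010003e0004000000000000000000000000000) (nat_lit 0x0) (nat_lit 0x80004001c600c000e8000000000000000000000000000) := T_42 (nat_lit 142) (nat_lit 141) (nat_lit 1) (nat_lit 9) (nat_lit 7) L116958 (by decide +kernel)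
theorem L116960 : W_42 (nat_lit 2) (nat_lit 0x200010007e000d000000000000000000000000000) (nat_lit 0x0) (nat_lit 0x1c000000000000000000000000000000000000) := D_42 (nat_lit 147) (nat_lit 146) (nat_lit 148) (nat_lit 3) (nat_lit 7) (nat_lit 7) (nat_lit 3) (nat_lit 8) (nat_lit 7) (by decide +kernel)
theorem L116961 : W_42 (nat_lit 3) (nat_lit 0x200010003e000d000000000000000000000000000) (nat_lit 0x0) (nat_lit 0x1c000c00000000000000000000000000000000) := T_42 (nat_lit 130) (nat_lit 131) (nat_lit 0) (nat_lit 12) (nat_lit 7) L116960 (by decide +kernel)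
theorem L116962 : W_42 (nat_lit 4) (nat_lit 0x200010003e0005000000000000000000000000000) (nat_lit 0x0) (nat_lit 0x1c000c00018000000000000000000000000000) := T_42 (nat_lit 111) (nat_lit 112) (nat_lit 2) (nat_lit 6) (nat_lit 7) L116961 (by decide +kernel)
theorem L116963 : W_42 (nat_lit 5) (nat_lit 0x200010003e0004000000000000000000000000000) (nat_lit 0x0) (nat_lit 0x1c000c00019800000000000000000000000000) := T_42 (nat_lit 108) (nat_lit 107) (nat_lit 0) (nat_lit 9) (nat_lit 7) L116962 (by decide +kernel)
theorem L116964 : W_42 (nat_lit 8) (nat_lit 0x200010001e0004000000000000000000000000000) (nat_lit 0x0) (nat_lit 0x80004001c600e000f9800000000000000000000000000) := Q_42 (nat_lit 129) (C_42 L116949 (C_42 L116953 (C_42 L116959 (C_42 L116963 N_42)))) (by decide +kernel)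
theorem L116965 : W_42 (nat_lit 9) (nat_lit 0x200010001c0004000000000000000000000000000) (nat_lit 0x0) (nat_lit 0x80004001c700e300f9c00000000000000000000000000) := Q_42 (nat_lit 125) (C_42 L116944 (C_42 L116947 (C_42 L116948 (C_42 L116964 N_42)))) (by decide +kernel)
theorem L116966 : W_42 (nat_lit 2) (nat_lit 0x300094007e0045000000000000000000000000000) (nat_lit 0x0) (nat_lit 0x800088000000000000000000000000000) := D_42 (nat_lit 131) (nat_lit 111) (nat_lit 115) (nat_lit 0) (nat_lit 12) (nat_lit 7) (nat_lit 2) (nat_lit 9) (nat_lit 7) (by decide +kernel)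
theorem L116967 : W_42 (nat_lit 3) (nat_lit 0x300094007e0005000000000000000000000000000) (nat_lit 0x0) (nat_lit 0x8000e8000000000000000000000000000) := T_42 (nat_lit 114) (nat_lit 113) (nat_lit 2) (nat_lit 8) (nat_lit 7) L116966 (by decide +kernel)
theorem L116968 : W_42 (nat_lit 4) (nat_lit 0x300094003e0005000000000000000000000000000) (nat_lit 0x0) (nat_lit 0x10000c000e8000000000000000000000000000) := T_42 (nat_lit 130) (nat_lit 148) (nat_lit 3) (nat_lit 8) (nat_lit 7) L116967 (by decide +kernel)
theorem L116969 : W_42 (nat_lit 5) (nat_lit 0x300014003e0005000000000000000000000000000) (nat_lit 0x0) (nat_lit 0x1c000c000e8000000000000000000000000000) := T_42 (nat_lit 147) (nat_lit 146) (nat_lit 3) (nat_lit 7) (nat_lit 7) L116968 (by decide +kernel)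
theorem L116970 : W_42 (nat_lit 6) (nat_lit 0x300010003e0005000000000000000000000000000) (nat_lit 0x0) (nat_lit 0x1c600c000e8000000000000000000000000000) := T_42 (nat_lit 142) (nat_lit 141) (nat_lit 1) (nat_lit 9) (nat_lit 7) L116969 (by decide +kernel)
theorem L116971 : W_42 (nat_lit 7) (nat_lit 0x300010003e0004000000000000000000000000000) (nat_lit 0x0) (nat_lit 0x1c600c000e9800000000000000000000000000) := T_42 (nat_lit 108) (nat_lit 107) (nat_lit 0) (nat_lit 9) (nat_lit 7) L116970 (by decide +kernel)
theorem L116972 : W_42 (nat_lit 8) (nat_lit 0x200010003e0004000000000000000000000000000) (nat_lit 0x0) (nat_lit 0x20001001c600c000e9800000000000000000000000000) := T_42 (nat_lit 160) (nat_lit 177) (nat_lit 5) (nat_lit 8) (nat_lit 6) L116971 (by decide +kernel)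
theorem L116973 : W_42 (nat_lit 9) (nat_lit 0x200010001e0004000000000000000000000000000) (nat_lit 0x0) (nat_lit 0x20001001c600e000f9800000000000000000000000000) := Q_42 (nat_lit 129) (C_42 L116963 (C_42 L116953 (C_42 L116972 (C_42 L116949 N_42)))) (by decide +kernel)
theorem L116974 : W_42 (nat_lit 10) (nat_lit 0x200010001c0004000000000000000000000000000) (nat_lit 0x0) (nat_lit 0x20001001c700e300f9c00000000000000000000000000) := Q_42 (nat_lit 125) (C_42 L116948 (C_42 L116944 (C_42 L116973 N_42))) (by decide +kernel)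
theorem L116975 : W_42 (nat_lit 3) (nat_lit 0x300012001c0004000000000000000000000000000) (nat_lit 0x0) (nat_lit 0x500030008000000000000000000000000000) := T_42 (nat_lit 125) (nat_lit 142) (nat_lit 1) (nat_lit 9) (nat_lit 7) L116343 (by decide +kernel)
theorem L116976 : W_42 (nat_lit 4) (nat_lit 0x200012001c0004000000000000000000000000000) (nat_lit 0x0) (nat_lit 0x200010000500030008000000000000000000000000000) := T_42 (nat_lit 160) (nat_lit 177) (nat_lit 5) (nat_lit 8) (nat_lit 6) L116975 (by decide +kernel)
theorem L116977 : W_42 (nat_lit 4) (nat_lit 0x200012001c0004000000000000000000000000000) (nat_lit 0x0) (nat_lit 0x500030001c00000000000000000000000000) := T_42 (nat_lit 125) (nat_lit 142) (nat_lit 1) (nat_lit 9) (nat_lit 7) L110471 (by decide +kernel)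
theorem L116978 : W_42 (nat_lit 2) (nat_lit 0x7c0012001c0004000000000000000000000000000) (nat_lit 0x0) (nat_lit 0x1c0000000000000000000000000000000000000000000) := D_42 (nat_lit 175) (nat_lit 176) (nat_lit 174) (nat_lit 1) (nat_lit 9) (nat_lit 9) (nat_lit 1) (nat_lit 8) (nat_lit 9) (by decide +kernel)
theorem L116979 : W_42 (nat_lit 3) (nat_lit 0x780012001c0004000000000000000000000000000) (nat_lit 0x0) (nat_lit 0x1c0004000100000000000000000000000000000000000) := T_42 (nat_lit 158) (nat_lit 140) (nat_lit 0) (nat_lit 8) (nat_lit 9) L116978 (by decide +kernel)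
theorem L116980 : W_42 (nat_lit 4) (nat_lit 0x700012001c0004000000000000000000000000000) (nat_lit 0x0) (nat_lit 0x1c000c000500000000000000000000000000000000000) := T_42 (nat_lit 159) (nat_lit 142) (nat_lit 0) (nat_lit 9) (nat_lit 9) L116979 (by decide +kernel)
theorem L116981 : W_42 (nat_lit 5) (nat_lit 0x300012001c0004000000000000000000000000000) (nat_lit 0x0) (nat_lit 0x9c004c000500000000000000000000000000000000000) := T_42 (nat_lit 162) (nat_lit 179) (nat_lit 7) (nat_lit 8) (nat_lit 6) L116980 (by decide +kernel)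
theorem L116982 : W_42 (nat_lit 6) (nat_lit 0x200012001c0004000000000000000000000000000) (nat_lit 0x0) (nat_lit 0xbc005c000500000000000000000000000000000000000) := T_42 (nat_lit 160) (nat_lit 177) (nat_lit 5) (nat_lit 8) (nat_lit 6) L116981 (by decide +kernel)
theorem L116983 : W_42 (nat_lit 2) (nat_lit 0x200012001d0004000000000000000000000000000) (nat_lit 0x0) (nat_lit 0x100020008000000000000000000000000000) := D_42 (nat_lit 125) (nat_lit 140) (nat_lit 111) (nat_lit 1) (nat_lit 8) (nat_lit 7) (nat_lit 2) (nat_lit 5) (nat_lit 7) (by decide +kernel)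
theorem L116984 : W_42 (nat_lit 3) (nat_lit 0x600012001d0004000000000000000000000000000) (nat_lit 0x0) (nat_lit 0x100020001c00000000000000000000000000) := T_42 (nat_lit 125) (nat_lit 140) (nat_lit 1) (nat_lit 8) (nat_lit 7) L116353 (by decide +kernel)
theorem L116985 : W_42 (nat_lit 4) (nat_lit 0x200012001d0004000000000000000000000000000) (nat_lit 0x0) (nat_lit 0x800040000100020001c00000000000000000000000000) := T_42 (nat_lit 162) (nat_lit 179) (nat_lit 7) (nat_lit 8) (nat_lit 6) L116984 (by decide +kernel)
theorem L116986 : W_42 (nat_lit 2) (nat_lit 0x1800640012001d0004800000000000000000000000000) (nat_lit 0x0) (nat_lit 0x8000400020000000000000000000000) := D_42 (nat_lit 106) (nat_lit 123) (nat_lit 89) (nat_lit 4) (nat_lit 5) (nat_lit 10) (nat_lit 4) (nat_lit 5) (nat_lit 9) (by decide +kernel)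
theorem L116987 : W_42 (nat_lit 3) (nat_lit 0x1800640012001d0004000000000000000000000000000) (nat_lit 0x0) (nat_lit 0x8000000008000c00020000000000000000000000) := T_42 (nat_lit 107) (nat_lit 159) (nat_lit 7) (nat_lit 5) (nat_lit 6) L116986 (by decide +kernel)
theorem L116988 : W_42 (nat_lit 4) (nat_lit 0x800640012001d0004000000000000000000000000000) (nat_lit 0x0) (nat_lit 0x2000100008000000008000c00020000000000000000000000) := T_42 (nat_lit 176) (nat_lit 193) (nat_lit 7) (nat_lit 5) (nat_lit 7) L116987 (by decide +kernel)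
theorem L116989 : W_42 (nat_lit 5) (nat_lit 0x800240012001d0004000000000000000000000000000) (nat_lit 0x0) (nat_lit 0x2000900048000000008000c00020000000000000000000000) := T_42 (nat_lit 162) (nat_lit 179) (nat_lit 7) (nat_lit 8) (nat_lit 6) L116988 (by decide +kernel)
theorem L116990 : W_42 (nat_lit 2) (nat_lit 0xc00240012001d0004800000000000000000000000000) (nat_lit 0x0) (nat_lit 0x8000400020000000000000000000000) := D_42 (nat_lit 106) (nat_lit 89) (nat_lit 123) (nat_lit 4) (nat_lit 5) (nat_lit 9) (nat_lit 4) (nat_lit 5) (nat_lit 10) (by decide +kernel)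
theorem L116991 : W_42 (nat_lit 3) (nat_lit 0xc00240012001d0004000000000000000000000000000) (nat_lit 0x0) (nat_lit 0x2000000008000c00020000000000000000000000) := T_42 (nat_lit 107) (nat_lit 157) (nat_lit 5) (nat_lit 5) (nat_lit 6) L116990 (by decide +kernel)
theorem L116992 : W_42 (nat_lit 4) (nat_lit 0x800240012001d0004000000000000000000000000000) (nat_lit 0x0) (nat_lit 0x800040002000000008000c00020000000000000000000000) := T_42 (nat_lit 174) (nat_lit 191) (nat_lit 5) (nat_lit 5) (nat_lit 7) L116991 (by decide +kernel)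
theorem L116993 : W_42 (nat_lit 2) (nat_lit 0x8001800640012001d8004000000000000000000000000000) (nat_lit 0x0) (nat_lit 0x10001000000000000100000000000000000000000000000000000) := D_42 (nat_lit 192) (nat_lit 208) (nat_lit 140) (nat_lit 5) (nat_lit 5) (nat_lit 8) (nat_lit 4) (nat_lit 5) (nat_lit 11) (by decide +kernel)
theorem L116994 : W_42 (nat_lit 3) (nat_lit 0x8001800640012001d0004000000000000000000000000000) (nat_lit 0x0) (nat_lit 0x10001000000000000100008000400000000000000000000000000) := T_42 (nat_lit 123) (nat_lit 106) (nat_lit 4) (nat_lit 5) (nat_lit 10) L116993 (by decide +kernel)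
theorem L116995 : W_42 (nat_lit 4) (nat_lit 0x1800640012001d0004000000000000000000000000000) (nat_lit 0x0) (nat_lit 0x10001800040000000100008000400000000000000000000000000) := T_42 (nat_lit 191) (nat_lit 174) (nat_lit 5) (nat_lit 5) (nat_lit 7) L116994 (by decide +kernel)
theorem L116996 : W_42 (nat_lit 5) (nat_lit 0x1800240012001d0004000000000000000000000000000) (nat_lit 0x0) (nat_lit 0x10001800840040000100008000400000000000000000000000000) := T_42 (nat_lit 162) (nat_lit 179) (nat_lit 7) (nat_lit 8) (nat_lit 6) L116995 (by decide +kernel)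
theorem L116997 : W_42 (nat_lit 6) (nat_lit 0x800240012001d0004000000000000000000000000000) (nat_lit 0x0) (nat_lit 0x10003800940040000100008000400000000000000000000000000) := T_42 (nat_lit 176) (nat_lit 193) (nat_lit 7) (nat_lit 5) (nat_lit 7) L116996 (by decide +kernel)
theorem L116998 : W_42 (nat_lit 2) (nat_lit 0xc00240012001d0004800000000000000000000000000) (nat_lit 0x0) (nat_lit 0x2000100008000000000000000000000000000000000000000) := D_42 (nat_lit 176) (nat_lit 193) (nat_lit 159) (nat_lit 7) (nat_lit 5) (nat_lit 7) (nat_lit 7) (nat_lit 5) (nat_lit 6) (by decide +kernel)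
theorem L116999 : W_42 (nat_lit 3) (nat_lit 0xc00240012001d0004000000000000000000000000000) (nat_lit 0x0) (nat_lit 0x200010000a000000000000800000000000000000000000000) := T_42 (nat_lit 107) (nat_lit 157) (nat_lit 5) (nat_lit 5) (nat_lit 6) L116998 (by decide +kernel)
theorem L117000 : W_42 (nat_lit 4) (nat_lit 0x800240012001d0004000000000000000000000000000) (nat_lit 0x0) (nat_lit 0x280014000a000000000000800000000000000000000000000) := T_42 (nat_lit 174) (nat_lit 191) (nat_lit 5) (nat_lit 5) (nat_lit 7) L116999 (by decide +kernel)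
theorem L117001 : W_42 (nat_lit 7) (nat_lit 0x240012001d0004000000000000000000000000000) (nat_lit 0x0) (nat_lit 0x100038009c004a000100008000c00020000000000000000000000) := Q_42 (nat_lit 175) (C_42 L116989 (C_42 L116992 (C_42 L116997 (C_42 L117000 N_42)))) (by decide +kernel)
theorem L117002 : W_42 (nat_lit 2) (nat_lit 0x8003c0012001d0004000000000000000000000000000) (nat_lit 0x0) (nat_lit 0x2000100000000000000000800000000000000000000000000) := D_42 (nat_lit 176) (nat_lit 107) (nat_lit 193) (nat_lit 7) (nat_lit 5) (nat_lit 6) (nat_lit 7) (nat_lit 5) (nat_lit 7) (by decide +kernel)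
theorem L117003 : W_42 (nat_lit 3) (nat_lit 0x3c0012001d0004000000000000000000000000000) (nat_lit 0x0) (nat_lit 0x20001c0000000000000000800000000000000000000000000) := T_42 (nat_lit 175) (nat_lit 174) (nat_lit 1) (nat_lit 8) (nat_lit 9) L117002 (by decide +kernel)
theorem L117004 : W_42 (nat_lit 4) (nat_lit 0x340012001d0004000000000000000000000000000) (nat_lit 0x0) (nat_lit 0x20001c0008000100000000800000000000000000000000000) := T_42 (nat_lit 159) (nat_lit 140) (nat_lit 0) (nat_lit 8) (nat_lit 9) L117003 (by decide +kernel)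
theorem L117005 : W_42 (nat_lit 5) (nat_lit 0x240012001d0004000000000000000000000000000) (nat_lit 0x0) (nat_lit 0x20003c0018000100000000800000000000000000000000000) := T_42 (nat_lit 160) (nat_lit 177) (nat_lit 5) (nat_lit 8) (nat_lit 6) L117004 (by decide +kernel)
theorem L117006 : W_42 (nat_lit 2) (nat_lit 0x7c0012001d0004000000000000000000000000000) (nat_lit 0x0) (nat_lit 0x1c0000000000000000000000000000000000000000000) := D_42 (nat_lit 175) (nat_lit 176) (nat_lit 174) (nat_lit 1) (nat_lit 9) (nat_lit 9) (nat_lit 1) (nat_lit 8) (nat_lit 9) (by decide +kernel)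
theorem L117007 : W_42 (nat_lit 3) (nat_lit 0x3c0012001d0004000000000000000000000000000) (nat_lit 0x0) (nat_lit 0x9c0040000000000000000000000000000000000000000) := T_42 (nat_lit 162) (nat_lit 179) (nat_lit 7) (nat_lit 8) (nat_lit 6) L117006 (by decide +kernel)
theorem L117008 : W_42 (nat_lit 4) (nat_lit 0x340012001d0004000000000000000000000000000) (nat_lit 0x0) (nat_lit 0x9c0048000100000000000000000000000000000000000) := T_42 (nat_lit 159) (nat_lit 140) (nat_lit 0) (nat_lit 8) (nat_lit 9) L117007 (by decide +kernel)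
theorem L117009 : W_42 (nat_lit 5) (nat_lit 0x240012001d0004000000000000000000000000000) (nat_lit 0x0) (nat_lit 0xbc0058000100000000000000000000000000000000000) := T_42 (nat_lit 160) (nat_lit 177) (nat_lit 5) (nat_lit 8) (nat_lit 6) L117008 (by decide +kernel)
theorem L117010 : W_42 (nat_lit 2) (nat_lit 0x30000c00760012001d0004000000000000000000000000000) (nat_lit 0x0) (nat_lit 0x20000000000000000100008000000000000000000000000000000) := D_42 (nat_lit 140) (nat_lit 123) (nat_lit 209) (nat_lit 7) (nat_lit 4) (nat_lit 7) (nat_lit 4) (nat_lit 5) (nat_lit 12) (by decide +kernel)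
theorem L117011 : W_42 (nat_lit 3) (nat_lit 0x20000c00760012001d0004000000000000000000000000000) (nat_lit 0x0) (nat_lit 0x60001000000000000100008000000000000000000000000000000) := T_42 (nat_lit 192) (nat_lit 210) (nat_lit 7) (nat_lit 5) (nat_lit 8) L117010 (by decide +kernel)
theorem L117012 : W_42 (nat_lit 4) (nat_lit 0xc00760012001d0004000000000000000000000000000) (nat_lit 0x0) (nat_lit 0x60003000100000000100008000000000000000000000000000000) := T_42 (nat_lit 193) (nat_lit 176) (nat_lit 7) (nat_lit 5) (nat_lit 7) L117011 (by decide +kernel)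
theorem L117013 : W_42 (nat_lit 5) (nat_lit 0xc00360012001d0004000000000000000000000000000) (nat_lit 0x0) (nat_lit 0x60003000900040000100008000000000000000000000000000000) := T_42 (nat_lit 162) (nat_lit 179) (nat_lit 7) (nat_lit 8) (nat_lit 6) L117012 (by decide +kernel)
theorem L117014 : W_42 (nat_lit 6) (nat_lit 0xc00340012001d0004000000000000000000000000000) (nat_lit 0x0) (nat_lit 0x60003000900042000100008000800000000000000000000000000) := T_42 (nat_lit 157) (nat_lit 107) (nat_lit 5) (nat_lit 5) (nat_lit 6) L117013 (by decide +kernel)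
theorem L117015 : W_42 (nat_lit 7) (nat_lit 0x800340012001d0004000000000000000000000000000) (nat_lit 0x0) (nat_lit 0x60003800940042000100008000800000000000000000000000000) := T_42 (nat_lit 174) (nat_lit 191) (nat_lit 5) (nat_lit 5) (nat_lit 7) L117014 (by decide +kernel)
theorem L117016 : W_42 (nat_lit 8) (nat_lit 0x800240012001d0004000000000000000000000000000) (nat_lit 0x0) (nat_lit 0x60003800b40052000100008000800000000000000000000000000) := T_42 (nat_lit 160) (nat_lit 177) (nat_lit 5) (nat_lit 8) (nat_lit 6) L117015 (by decide +kernel)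
theorem L117017 : W_42 (nat_lit 2) (nat_lit 0x30000800640012001d0004000000000000000000000000000) (nat_lit 0x0) (nat_lit 0x100008000400000000000000000000000000) := D_42 (nat_lit 123) (nat_lit 106) (nat_lit 140) (nat_lit 4) (nat_lit 5) (nat_lit 10) (nat_lit 4) (nat_lit 5) (nat_lit 11) (by decide +kernel)
theorem L117018 : W_42 (nat_lit 3) (nat_lit 0x20000800640012001d0004000000000000000000000000000) (nat_lit 0x0) (nat_lit 0x40001000000000000100008000400000000000000000000000000) := T_42 (nat_lit 192) (nat_lit 210) (nat_lit 7) (nat_lit 5) (nat_lit 8) L117017 (by decide +kernel)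
theorem L117019 : W_42 (nat_lit 4) (nat_lit 0x20000800240012001d0004000000000000000000000000000) (nat_lit 0x0) (nat_lit 0x40001000800040000100008000400000000000000000000000000) := T_42 (nat_lit 162) (nat_lit 179) (nat_lit 7) (nat_lit 8) (nat_lit 6) L117018 (by decide +kernel)
theorem L117020 : W_42 (nat_lit 5) (nat_lit 0x800240012001d0004000000000000000000000000000) (nat_lit 0x0) (nat_lit 0x40003000900040000100008000400000000000000000000000000) := T_42 (nat_lit 193) (nat_lit 176) (nat_lit 7) (nat_lit 5) (nat_lit 7) L117019 (by decide +kernel)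
theorem L117021 : W_42 (nat_lit 2) (nat_lit 0xc00240012001d00048000a0000000000000000000000) (nat_lit 0x0) (nat_lit 0x40005000000000000000000) := D_42 (nat_lit 90) (nat_lit 72) (nat_lit 74) (nat_lit 4) (nat_lit 5) (nat_lit 8) (nat_lit 6) (nat_lit 5) (nat_lit 8) (by decide +kernel)
theorem L117022 : W_42 (nat_lit 3) (nat_lit 0xc00240012001d0004800020000000000000000000000) (nat_lit 0x0) (nat_lit 0x10000c0005000000000000000000) := T_42 (nat_lit 91) (nat_lit 108) (nat_lit 6) (nat_lit 5) (nat_lit 9) L117021 (by decide +kernel)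
theorem L117023 : W_42 (nat_lit 4) (nat_lit 0xc00240012001d0004800000000000000000000000000) (nat_lit 0x0) (nat_lit 0x14000e0005000000000000000000) := T_42 (nat_lit 89) (nat_lit 106) (nat_lit 4) (nat_lit 5) (nat_lit 9) L117022 (by decide +kernel)
theorem L117024 : W_42 (nat_lit 5) (nat_lit 0xc00240012001d0004000000000000000000000000000) (nat_lit 0x0) (nat_lit 0x2000000000001c000e0005000000000000000000) := T_42 (nat_lit 107) (nat_lit 157) (nat_lit 5) (nat_lit 5) (nat_lit 6) L117023 (by decide +kernel)
theorem L117025 : W_42 (nat_lit 6) (nat_lit 0x800240012001d0004000000000000000000000000000) (nat_lit 0x0) (nat_lit 0x800040002000000000001c000e0005000000000000000000) := T_42 (nat_lit 174) (nat_lit 191) (nat_lit 5) (nat_lit 5) (nat_lit 7) L117024 (by decide +kernel)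
theorem L117026 : W_42 (nat_lit 9) (nat_lit 0x240012001d0004000000000000000000000000000) (nat_lit 0x0) (nat_lit 0x70003800bc0052000100008001c000e0005000000000000000000) := Q_42 (nat_lit 175) (C_42 L116997 (C_42 L116992 (C_42 L117016 (C_42 L117020 (C_42 L117025 N_42))))) (by decide +kernel)
theorem L117027 : W_42 (nat_lit 2) (nat_lit 0x4007c0012001d0004000000000000000000000000000) (nat_lit 0x0) (nat_lit 0x20002000000000000800000000000000000000000000) := D_42 (nat_lit 157) (nat_lit 173) (nat_lit 107) (nat_lit 1) (nat_lit 7) (nat_lit 9) (nat_lit 5) (nat_lit 5) (nat_lit 6) (by decide +kernel)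
theorem L117028 : W_42 (nat_lit 3) (nat_lit 0x7c0012001d0004000000000000000000000000000) (nat_lit 0x0) (nat_lit 0xe0002000000000000800000000000000000000000000) := T_42 (nat_lit 174) (nat_lit 175) (nat_lit 1) (nat_lit 8) (nat_lit 9) L117027 (by decide +kernel)
theorem L117029 : W_42 (nat_lit 4) (nat_lit 0x740012001d0004000000000000000000000000000) (nat_lit 0x0) (nat_lit 0xe000a000100000000800000000000000000000000000) := T_42 (nat_lit 159) (nat_lit 140) (nat_lit 0) (nat_lit 8) (nat_lit 9) L117028 (by decide +kernel)
theorem L117030 : W_42 (nat_lit 5) (nat_lit 0x640012001d0004000000000000000000000000000) (nat_lit 0x0) (nat_lit 0x2e001a000100000000800000000000000000000000000) := T_42 (nat_lit 160) (nat_lit 177) (nat_lit 5) (nat_lit 8) (nat_lit 6) L117029 (by decide +kernel)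
theorem L117031 : W_42 (nat_lit 6) (nat_lit 0x240012001d0004000000000000000000000000000) (nat_lit 0x0) (nat_lit 0xae005a000100000000800000000000000000000000000) := T_42 (nat_lit 162) (nat_lit 179) (nat_lit 7) (nat_lit 8) (nat_lit 6) L117030 (by decide +kernel)
theorem L117032 : W_42 (nat_lit 2) (nat_lit 0x1800340012001d0004000000000000000000000000000) (nat_lit 0x0) (nat_lit 0x800048000000000000000000000000000000000000000) := D_42 (nat_lit 162) (nat_lit 159) (nat_lit 179) (nat_lit 1) (nat_lit 9) (nat_lit 9) (nat_lit 7) (nat_lit 8) (nat_lit 6) (by decide +kernel)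
theorem L117033 : W_42 (nat_lit 3) (nat_lit 0x1800240012001d0004000000000000000000000000000) (nat_lit 0x0) (nat_lit 0xa00058000000000000000000000000000000000000000) := T_42 (nat_lit 160) (nat_lit 177) (nat_lit 5) (nat_lit 8) (nat_lit 6) L117032 (by decide +kernel)
theorem L117034 : W_42 (nat_lit 4) (nat_lit 0x800240012001d0004000000000000000000000000000) (nat_lit 0x0) (nat_lit 0x2000b00058000000000000000000000000000000000000000) := T_42 (nat_lit 176) (nat_lit 193) (nat_lit 7) (nat_lit 5) (nat_lit 7) L117033 (by decide +kernel)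
theorem L117035 : W_42 (nat_lit 7) (nat_lit 0x240012001d0004000000000000000000000000000) (nat_lit 0x0) (nat_lit 0x2800bc005a000000000001c000e0005000000000000000000) := Q_42 (nat_lit 175) (C_42 L117025 (C_42 L117000 (C_42 L117034 N_42))) (by decide +kernel)
theorem L117036 : W_42 (nat_lit 2) (nat_lit 0x7e0012001d00048000c0000000000000000000000) (nat_lit 0x0) (nat_lit 0x400020001000000000000000000) := D_42 (nat_lit 89) (nat_lit 72) (nat_lit 106) (nat_lit 4) (nat_lit 5) (nat_lit 8) (nat_lit 4) (nat_lit 5) (nat_lit 9) (by decide +kernel)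
theorem L117037 : W_42 (nat_lit 3) (nat_lit 0x7e0012001d0004800080000000000000000000000) (nat_lit 0x0) (nat_lit 0x400060005000000000000000000) := T_42 (nat_lit 90) (nat_lit 74) (nat_lit 6) (nat_lit 5) (nat_lit 8) L117036 (by decide +kernel)
theorem L117038 : W_42 (nat_lit 4) (nat_lit 0x7c0012001d0004800080000000000000000000000) (nat_lit 0x0) (nat_lit 0x40002000000000000400060005000000000000000000) := T_42 (nat_lit 157) (nat_lit 174) (nat_lit 5) (nat_lit 5) (nat_lit 6) L117037 (by decide +kernel)
theorem L117039 : W_42 (nat_lit 5) (nat_lit 0x7c0012001d0004800000000000000000000000000) (nat_lit 0x0) (nat_lit 0x400020000000000014000e0005000000000000000000) := T_42 (nat_lit 91) (nat_lit 108) (nat_lit 6) (nat_lit 5) (nat_lit 9) L117038 (by decide +kernel)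
theorem L117040 : W_42 (nat_lit 6) (nat_lit 0x7c0012001d0004000000000000000000000000000) (nat_lit 0x0) (nat_lit 0x140002000000000001c000e0005000000000000000000) := T_42 (nat_lit 107) (nat_lit 176) (nat_lit 7) (nat_lit 5) (nat_lit 6) L117039 (by decide +kernel)
theorem L117041 : W_42 (nat_lit 7) (nat_lit 0x3c0012001d0004000000000000000000000000000) (nat_lit 0x0) (nat_lit 0x940042000000000001c000e0005000000000000000000) := T_42 (nat_lit 162) (nat_lit 179) (nat_lit 7) (nat_lit 8) (nat_lit 6) L117040 (by decide +kernel)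
theorem L117042 : W_42 (nat_lit 8) (nat_lit 0x340012001d0004000000000000000000000000000) (nat_lit 0x0) (nat_lit 0x94004a000100000001c000e0005000000000000000000) := T_42 (nat_lit 159) (nat_lit 140) (nat_lit 0) (nat_lit 8) (nat_lit 9) L117041 (by decide +kernel)
theorem L117043 : W_42 (nat_lit 9) (nat_lit 0x240012001d0004000000000000000000000000000) (nat_lit 0x0) (nat_lit 0xb4005a000100000001c000e0005000000000000000000) := T_42 (nat_lit 160) (nat_lit 177) (nat_lit 5) (nat_lit 8) (nat_lit 6) L117042 (by decide +kernel)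
theorem L117044 : W_42 (nat_lit 2) (nat_lit 0x7c0012001d0004000000000000000000000000000) (nat_lit 0x0) (nat_lit 0x180000000000000000800000000000000000000000000) := D_42 (nat_lit 176) (nat_lit 175) (nat_lit 107) (nat_lit 1) (nat_lit 9) (nat_lit 9) (nat_lit 7) (nat_lit 5) (nat_lit 6) (by decide +kernel)
theorem L117045 : W_42 (nat_lit 3) (nat_lit 0x740012001d0004000000000000000000000000000) (nat_lit 0x0) (nat_lit 0x180008000100000000800000000000000000000000000) := T_42 (nat_lit 159) (nat_lit 140) (nat_lit 0) (nat_lit 8) (nat_lit 9) L117044 (by decide +kernel)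
theorem L117046 : W_42 (nat_lit 4) (nat_lit 0x640012001d0004000000000000000000000000000) (nat_lit 0x0) (nat_lit 0x380018000100000000800000000000000000000000000) := T_42 (nat_lit 160) (nat_lit 177) (nat_lit 5) (nat_lit 8) (nat_lit 6) L117045 (by decide +kernel)
theorem L117047 : W_42 (nat_lit 5) (nat_lit 0x240012001d0004000000000000000000000000000) (nat_lit 0x0) (nat_lit 0xb80058000100000000800000000000000000000000000) := T_42 (nat_lit 162) (nat_lit 179) (nat_lit 7) (nat_lit 8) (nat_lit 6) L117046 (by decide +kernel)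
theorem L117048 : W_42 (nat_lit 10) (nat_lit 0x200012001d0004000000000000000000000000000) (nat_lit 0x0) (nat_lit 0x70003800be005e000100008001c000e0005000000000000000000) := Q_42 (nat_lit 158) (C_42 L117001 (C_42 L117005 (C_42 L117009 (C_42 L117026 (C_42 L117031 (C_42 L117035 (C_42 L117043 (C_42 L117047 N_42)))))))) (by decide +kernel)
theorem L117049 : W_42 (nat_lit 3) (nat_lit 0x300012001d0004000000000000000000000000000) (nat_lit 0x0) (nat_lit 0x20009c00000000000000000000000000) := T_42 (nat_lit 125) (nat_lit 111) (nat_lit 2) (nat_lit 5) (nat_lit 7) L116376 (by decide +kernel)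
theorem L117050 : W_42 (nat_lit 4) (nat_lit 0x200012001d0004000000000000000000000000000) (nat_lit 0x0) (nat_lit 0x200010000000020009c00000000000000000000000000) := T_42 (nat_lit 160) (nat_lit 177) (nat_lit 5) (nat_lit 8) (nat_lit 6) L117049 (by decide +kernel)
theorem L117051 : W_42 (nat_lit 11) (nat_lit 0x200012001c0004000000000000000000000000000) (nat_lit 0x0) (nat_lit 0x70003800be005e000100038009c000e0005000000000000000000) := Q_42 (nat_lit 124) (C_42 L116983 (C_42 L116985 (C_42 L117048 (C_42 L117050 N_42)))) (by decide +kernel)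
theorem L117052 : W_42 (nat_lit 2) (nat_lit 0x600012001e0004800000000000000000000000000) (nat_lit 0x0) (nat_lit 0x10008400000000000000000000000000) := D_42 (nat_lit 124) (nat_lit 111) (nat_lit 106) (nat_lit 2) (nat_lit 5) (nat_lit 7) (nat_lit 0) (nat_lit 8) (nat_lit 7) (by decide +kernel)
theorem L117053 : W_42 (nat_lit 3) (nat_lit 0x600012001e0004000000000000000000000000000) (nat_lit 0x0) (nat_lit 0x10009c00000000000000000000000000) := T_42 (nat_lit 107) (nat_lit 108) (nat_lit 0) (nat_lit 9) (nat_lit 7) L117052 (by decide +kernel)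
theorem L117054 : W_42 (nat_lit 4) (nat_lit 0x600012001c0004000000000000000000000000000) (nat_lit 0x0) (nat_lit 0x400030009c00000000000000000000000000) := T_42 (nat_lit 125) (nat_lit 142) (nat_lit 1) (nat_lit 9) (nat_lit 7) L117053 (by decide +kernel)
theorem L117055 : W_42 (nat_lit 5) (nat_lit 0x200012001c0004000000000000000000000000000) (nat_lit 0x0) (nat_lit 0x800040000400030009c00000000000000000000000000) := T_42 (nat_lit 162) (nat_lit 179) (nat_lit 7) (nat_lit 8) (nat_lit 6) L117054 (by decide +kernel)
theorem L117056 : W_42 (nat_lit 12) (nat_lit 0x200010001c0004000000000000000000000000000) (nat_lit 0x0) (nat_lit 0x70003800be005e000700038009c000e0005000000000000000000) := Q_42 (nat_lit 141) (C_42 L116976 (C_42 L116977 (C_42 L116982 (C_42 L117051 (C_42 L117055 N_42))))) (by decide +kernel)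
theorem L117057 : W_42 (nat_lit 2) (nat_lit 0x1f00090001c0004000000000000000000000000000) (nat_lit 0x0) (nat_lit 0x7000000000000000000000000000000000000000000000) := D_42 (nat_lit 181) (nat_lit 180) (nat_lit 182) (nat_lit 3) (nat_lit 7) (nat_lit 9) (nat_lit 3) (nat_lit 8) (nat_lit 9) (by decide +kernel)
theorem L117058 : W_42 (nat_lit 3) (nat_lit 0xf00090001c0004000000000000000000000000000) (nat_lit 0x0) (nat_lit 0x7000100010000000000000000000000000000000000000) := T_42 (nat_lit 164) (nat_lit 148) (nat_lit 2) (nat_lit 8) (nat_lit 9) L117057 (by decide +kernel)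
theorem L117059 : W_42 (nat_lit 4) (nat_lit 0x700090001c0004000000000000000000000000000) (nat_lit 0x0) (nat_lit 0x7000180014000000000000000000000000000000000000) := T_42 (nat_lit 163) (nat_lit 146) (nat_lit 2) (nat_lit 7) (nat_lit 9) L117058 (by decide +kernel)
theorem L117060 : W_42 (nat_lit 5) (nat_lit 0x600090001c0004000000000000000000000000000) (nat_lit 0x0) (nat_lit 0x7200190014000000000000000000000000000000000000) := T_42 (nat_lit 160) (nat_lit 177) (nat_lit 5) (nat_lit 8) (nat_lit 6) L117059 (by decide +kernel)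
theorem L117061 : W_42 (nat_lit 6) (nat_lit 0x200090001c0004000000000000000000000000000) (nat_lit 0x0) (nat_lit 0x7a001d0014000000000000000000000000000000000000) := T_42 (nat_lit 162) (nat_lit 179) (nat_lit 7) (nat_lit 8) (nat_lit 6) L117060 (by decide +kernel)
theorem L117062 : W_42 (nat_lit 5) (nat_lit 0x200090001c0004000000000000000000000000000) (nat_lit 0x0) (nat_lit 0x14000e20038000000000000000000000000000) := T_42 (nat_lit 129) (nat_lit 146) (nat_lit 3) (nat_lit 7) (nat_lit 7) L116219 (by decide +kernel)
theorem L117063 : W_42 (nat_lit 2) (nat_lit 0x200090001c0024000000000000000000000000000) (nat_lit 0x0) (nat_lit 0x200018000000000000000000000000000) := D_42 (nat_lit 112) (nat_lit 111) (nat_lit 129) (nat_lit 1) (nat_lit 11) (nat_lit 6) (nat_lit 2) (nat_lit 7) (nat_lit 7) (by decide +kernel)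
theorem L117064 : W_42 (nat_lit 2) (nat_lit 0x300090003c0024000000000000000000000000000) (nat_lit 0x0) (nat_lit 0x10000400040000000000000000000000000000) := D_42 (nat_lit 130) (nat_lit 114) (nat_lit 148) (nat_lit 2) (nat_lit 8) (nat_lit 7) (nat_lit 3) (nat_lit 8) (nat_lit 7) (by decide +kernel)
theorem L117065 : W_42 (nat_lit 3) (nat_lit 0x300090001c0024000000000000000000000000000) (nat_lit 0x0) (nat_lit 0x10000600050000000000000000000000000000) := T_42 (nat_lit 129) (nat_lit 112) (nat_lit 2) (nat_lit 7) (nat_lit 7) L117064 (by decide +kernel)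
theorem L117066 : W_42 (nat_lit 4) (nat_lit 0x200090001c0024000000000000000000000000000) (nat_lit 0x0) (nat_lit 0x200010010000600050000000000000000000000000000) := T_42 (nat_lit 160) (nat_lit 177) (nat_lit 5) (nat_lit 8) (nat_lit 6) L117065 (by decide +kernel)
theorem L117067 : W_42 (nat_lit 2) (nat_lit 0x200090005c0024000000000000000000000000000) (nat_lit 0x0) (nat_lit 0x10000200040000000000000000000000000000) := D_42 (nat_lit 129) (nat_lit 148) (nat_lit 114) (nat_lit 3) (nat_lit 8) (nat_lit 7) (nat_lit 2) (nat_lit 8) (nat_lit 7) (by decide +kernel)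
theorem L117068 : W_42 (nat_lit 2) (nat_lit 0x1600090005c0024000000000000000000000000000) (nat_lit 0x0) (nat_lit 0x1000080010000000000000000000000000000000000000) := D_42 (nat_lit 163) (nat_lit 148) (nat_lit 180) (nat_lit 2) (nat_lit 8) (nat_lit 9) (nat_lit 5) (nat_lit 11) (nat_lit 6) (by decide +kernel)
theorem L117069 : W_42 (nat_lit 3) (nat_lit 0x1200090005c0024000000000000000000000000000) (nat_lit 0x0) (nat_lit 0x18000c0010000000000000000000000000000000000000) := T_42 (nat_lit 162) (nat_lit 179) (nat_lit 7) (nat_lit 8) (nat_lit 6) L117068 (by decide +kernel)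
theorem L117070 : W_42 (nat_lit 2) (nat_lit 0x20001300090005c0064000000000000000000000000000) (nat_lit 0x0) (nat_lit 0x20001000080000000000000000000000000000000000000000) := D_42 (nat_lit 180) (nat_lit 197) (nat_lit 163) (nat_lit 5) (nat_lit 11) (nat_lit 7) (nat_lit 5) (nat_lit 11) (nat_lit 6) (by decide +kernel)
theorem L117071 : W_42 (nat_lit 3) (nat_lit 0x1300090005c0064000000000000000000000000000) (nat_lit 0x0) (nat_lit 0x20003000080000000800000000000000000000000000000000) := T_42 (nat_lit 181) (nat_lit 131) (nat_lit 6) (nat_lit 11) (nat_lit 10) L117070 (by decide +kernel)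
theorem L117072 : W_42 (nat_lit 4) (nat_lit 0x1200090005c0064000000000000000000000000000) (nat_lit 0x0) (nat_lit 0x20003200090000000800000000000000000000000000000000) := T_42 (nat_lit 160) (nat_lit 177) (nat_lit 5) (nat_lit 8) (nat_lit 6) L117071 (by decide +kernel)
theorem L117073 : W_42 (nat_lit 5) (nat_lit 0x1200090005c0024000000000000000000000000000) (nat_lit 0x0) (nat_lit 0x20003200090000000800040002000000000000000000000000) := T_42 (nat_lit 114) (nat_lit 97) (nat_lit 6) (nat_lit 11) (nat_lit 9) L117072 (by decide +kernel)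
theorem L117074 : W_42 (nat_lit 2) (nat_lit 0x20001300090005c0064000000000000000000000000000) (nat_lit 0x0) (nat_lit 0x80004000200000000000000000000000000000000000000000) := D_42 (nat_lit 182) (nat_lit 165) (nat_lit 199) (nat_lit 7) (nat_lit 11) (nat_lit 6) (nat_lit 7) (nat_lit 11) (nat_lit 7) (by decide +kernel)
theorem L117075 : W_42 (nat_lit 3) (nat_lit 0x1300090005c0064000000000000000000000000000) (nat_lit 0x0) (nat_lit 0x80006000200000000800000000000000000000000000000000) := T_42 (nat_lit 181) (nat_lit 131) (nat_lit 6) (nat_lit 11) (nat_lit 10) L117074 (by decide +kernel)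
theorem L117076 : W_42 (nat_lit 4) (nat_lit 0x1200090005c0064000000000000000000000000000) (nat_lit 0x0) (nat_lit 0x80006200210000000800000000000000000000000000000000) := T_42 (nat_lit 160) (nat_lit 177) (nat_lit 5) (nat_lit 8) (nat_lit 6) L117075 (by decide +kernel)
theorem L117077 : W_42 (nat_lit 5) (nat_lit 0x1200090005c0024000000000000000000000000000) (nat_lit 0x0) (nat_lit 0x80006200210000000800040002000000000000000000000000) := T_42 (nat_lit 114) (nat_lit 97) (nat_lit 6) (nat_lit 11) (nat_lit 9) L117076 (by decide +kernel)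
theorem L117078 : W_42 (nat_lit 6) (nat_lit 0x200090005c0024000000000000000000000000000) (nat_lit 0x0) (nat_lit 0xa0007a003d0010000800040002000000000000000000000000) := Q_42 (nat_lit 164) (C_42 L117069 (C_42 L117073 (C_42 L117077 N_42))) (by decide +kernel)
theorem L117079 : W_42 (nat_lit 2) (nat_lit 0xf00190005c0024001000080000000000000000000) (nat_lit 0x0) (nat_lit 0x2000100008000000000000000) := D_42 (nat_lit 80) (nat_lit 63) (nat_lit 97) (nat_lit 6) (nat_lit 11) (nat_lit 7) (nat_lit 6) (nat_lit 11) (nat_lit 8) (by decide +kernel)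
theorem L117080 : W_42 (nat_lit 3) (nat_lit 0xf00190005c0024001000000000000000000000000) (nat_lit 0x0) (nat_lit 0x800000002000180008000000000000000) := T_42 (nat_lit 79) (nat_lit 131) (nat_lit 7) (nat_lit 11) (nat_lit 4) L117079 (by decide +kernel)
theorem L117081 : W_42 (nat_lit 4) (nat_lit 0xf00190005c0024000000000000000000000000000) (nat_lit 0x0) (nat_lit 0x200000000800000003000180008000000000000000) := T_42 (nat_lit 96) (nat_lit 165) (nat_lit 7) (nat_lit 11) (nat_lit 5) L117080 (by decide +kernel)
theorem L117082 : W_42 (nat_lit 5) (nat_lit 0x700190005c0024000000000000000000000000000) (nat_lit 0x0) (nat_lit 0x380000000800000003000180008000000000000000) := T_42 (nat_lit 163) (nat_lit 164) (nat_lit 2) (nat_lit 8) (nat_lit 9) L117081 (by decide +kernel)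
theorem L117083 : W_42 (nat_lit 6) (nat_lit 0x300190005c0024000000000000000000000000000) (nat_lit 0x0) (nat_lit 0x8003c0000000800000003000180008000000000000000) := T_42 (nat_lit 162) (nat_lit 179) (nat_lit 7) (nat_lit 8) (nat_lit 6) L117082 (by decide +kernel)
theorem L117084 : W_42 (nat_lit 7) (nat_lit 0x300090005c0024000000000000000000000000000) (nat_lit 0x0) (nat_lit 0x8003c0010000a00000003000180008000000000000000) := T_42 (nat_lit 148) (nat_lit 129) (nat_lit 3) (nat_lit 8) (nat_lit 7) L117083 (by decide +kernel)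
theorem L117085 : W_42 (nat_lit 8) (nat_lit 0x200090005c0024000000000000000000000000000) (nat_lit 0x0) (nat_lit 0xa003d0010000a00000003000180008000000000000000) := T_42 (nat_lit 160) (nat_lit 177) (nat_lit 5) (nat_lit 8) (nat_lit 6) L117084 (by decide +kernel)
theorem L117086 : W_42 (nat_lit 2) (nat_lit 0x1e00090005c0064000000000000000000000000000) (nat_lit 0x0) (nat_lit 0x6000000000000800000000000000000000000000000000) := D_42 (nat_lit 181) (nat_lit 182) (nat_lit 131) (nat_lit 3) (nat_lit 8) (nat_lit 9) (nat_lit 6) (nat_lit 11) (nat_lit 10) (by decide +kernel)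
theorem L117087 : W_42 (nat_lit 3) (nat_lit 0x1600090005c0064000000000000000000000000000) (nat_lit 0x0) (nat_lit 0x7000080000000800000000000000000000000000000000) := T_42 (nat_lit 163) (nat_lit 180) (nat_lit 5) (nat_lit 11) (nat_lit 6) L117086 (by decide +kernel)
theorem L117088 : W_42 (nat_lit 4) (nat_lit 0x600090005c0064000000000000000000000000000) (nat_lit 0x0) (nat_lit 0x7000180000000800000002000000000000000000000000) := T_42 (nat_lit 164) (nat_lit 97) (nat_lit 6) (nat_lit 11) (nat_lit 9) L117087 (by decide +kernel)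
theorem L117089 : W_42 (nat_lit 5) (nat_lit 0x200090005c0064000000000000000000000000000) (nat_lit 0x0) (nat_lit 0x78001c0000000800000002000000000000000000000000) := T_42 (nat_lit 162) (nat_lit 179) (nat_lit 7) (nat_lit 8) (nat_lit 6) L117088 (by decide +kernel)
theorem L117090 : W_42 (nat_lit 6) (nat_lit 0x200090005c0024000000000000000000000000000) (nat_lit 0x0) (nat_lit 0x78001c0000000a00040002000000000000000000000000) := T_42 (nat_lit 114) (nat_lit 129) (nat_lit 2) (nat_lit 8) (nat_lit 7) L117089 (by decide +kernel)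
theorem L117091 : W_42 (nat_lit 9) (nat_lit 0x200090001c0024000000000000000000000000000) (nat_lit 0x0) (nat_lit 0xa0007a003d0010000e00040003000180008000000000000000) := Q_42 (nat_lit 130) (C_42 L117067 (C_42 L117078 (C_42 L117085 (C_42 L117090 N_42)))) (by decide +kernel)
theorem L117092 : W_42 (nat_lit 2) (nat_lit 0x1e00090001c0034000000000000000000000000000) (nat_lit 0x0) (nat_lit 0x1000000000000400000000800000000000000000000000) := D_42 (nat_lit 130) (nat_lit 95) (nat_lit 180) (nat_lit 4) (nat_lit 11) (nat_lit 9) (nat_lit 5) (nat_lit 11) (nat_lit 6) (by decide +kernel)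
theorem L117093 : W_42 (nat_lit 3) (nat_lit 0x1600090001c0034000000000000000000000000000) (nat_lit 0x0) (nat_lit 0x1000080010000400000000800000000000000000000000) := T_42 (nat_lit 163) (nat_lit 148) (nat_lit 2) (nat_lit 8) (nat_lit 9) L117092 (by decide +kernel)
theorem L117094 : W_42 (nat_lit 4) (nat_lit 0x1200090001c0034000000000000000000000000000) (nat_lit 0x0) (nat_lit 0x18000c0010000400000000800000000000000000000000) := T_42 (nat_lit 162) (nat_lit 179) (nat_lit 7) (nat_lit 8) (nat_lit 6) L117093 (by decide +kernel)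
theorem L117095 : W_42 (nat_lit 5) (nat_lit 0x1200090001c0024000000000000000000000000000) (nat_lit 0x0) (nat_lit 0x18000c0010000400018000800000000000000000000000) := T_42 (nat_lit 112) (nat_lit 111) (nat_lit 1) (nat_lit 11) (nat_lit 6) L117094 (by decide +kernel)
theorem L117096 : W_42 (nat_lit 2) (nat_lit 0x3b00090005c0034001000000000000000000000000) (nat_lit 0x0) (nat_lit 0x40002000100000000000000000000) := D_42 (nat_lit 97) (nat_lit 80) (nat_lit 114) (nat_lit 6) (nat_lit 11) (nat_lit 8) (nat_lit 6) (nat_lit 11) (nat_lit 9) (by decide +kernel)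
theorem L117097 : W_42 (nat_lit 3) (nat_lit 0x3b00090005c0034000000000000000000000000000) (nat_lit 0x0) (nat_lit 0x10000000040003000100000000000000000000) := T_42 (nat_lit 96) (nat_lit 148) (nat_lit 7) (nat_lit 11) (nat_lit 5) L117096 (by decide +kernel)
theorem L117098 : W_42 (nat_lit 4) (nat_lit 0x1b00090005c0034000000000000000000000000000) (nat_lit 0x0) (nat_lit 0x4000200010000000040003000100000000000000000000) := T_42 (nat_lit 165) (nat_lit 182) (nat_lit 7) (nat_lit 11) (nat_lit 6) L117097 (by decide +kernel)
theorem L117099 : W_42 (nat_lit 5) (nat_lit 0x1300090005c0034000000000000000000000000000) (nat_lit 0x0) (nat_lit 0x5000280010000000040003000100000000000000000000) := T_42 (nat_lit 163) (nat_lit 180) (nat_lit 5) (nat_lit 11) (nat_lit 6) L117098 (by decide +kernel)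
theorem L117100 : W_42 (nat_lit 6) (nat_lit 0x1300090001c0034000000000000000000000000000) (nat_lit 0x0) (nat_lit 0x5000280010000400040003800100000000000000000000) := T_42 (nat_lit 130) (nat_lit 95) (nat_lit 4) (nat_lit 11) (nat_lit 9) L117099 (by decide +kernel)
theorem L117101 : W_42 (nat_lit 7) (nat_lit 0x1200090001c0034000000000000000000000000000) (nat_lit 0x0) (nat_lit 0x5200290010000400040003800100000000000000000000) := T_42 (nat_lit 160) (nat_lit 177) (nat_lit 5) (nat_lit 8) (nat_lit 6) L117100 (by decide +kernel)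
theorem L117102 : W_42 (nat_lit 8) (nat_lit 0x1200090001c0024000000000000000000000000000) (nat_lit 0x0) (nat_lit 0x5200290010000400058003800100000000000000000000) := T_42 (nat_lit 112) (nat_lit 111) (nat_lit 1) (nat_lit 11) (nat_lit 6) L117101 (by decide +kernel)
theorem L117103 : W_42 (nat_lit 2) (nat_lit 0x1f00090001c0024000000000000000000000000000) (nat_lit 0x0) (nat_lit 0x3000000000000400000000000000000000000000000000) := D_42 (nat_lit 180) (nat_lit 181) (nat_lit 130) (nat_lit 3) (nat_lit 7) (nat_lit 9) (nat_lit 5) (nat_lit 11) (nat_lit 6) (by decide +kernel)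
theorem L117104 : W_42 (nat_lit 3) (nat_lit 0x1e00090001c0024000000000000000000000000000) (nat_lit 0x0) (nat_lit 0x3200010000000400000000000000000000000000000000) := T_42 (nat_lit 160) (nat_lit 177) (nat_lit 5) (nat_lit 8) (nat_lit 6) L117103 (by decide +kernel)
theorem L117105 : W_42 (nat_lit 4) (nat_lit 0x1600090001c0024000000000000000000000000000) (nat_lit 0x0) (nat_lit 0x3200090010000400000000000000000000000000000000) := T_42 (nat_lit 163) (nat_lit 148) (nat_lit 2) (nat_lit 8) (nat_lit 9) L117104 (by decide +kernel)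
theorem L117106 : W_42 (nat_lit 5) (nat_lit 0x1200090001c0024000000000000000000000000000) (nat_lit 0x0) (nat_lit 0x3a000d0010000400000000000000000000000000000000) := T_42 (nat_lit 162) (nat_lit 179) (nat_lit 7) (nat_lit 8) (nat_lit 6) L117105 (by decide +kernel)
theorem L117107 : W_42 (nat_lit 2) (nat_lit 0x1f00090001c0034000000000000000000000000000) (nat_lit 0x0) (nat_lit 0x7000000000000000000000000000000000000000000000) := D_42 (nat_lit 181) (nat_lit 180) (nat_lit 182) (nat_lit 3) (nat_lit 7) (nat_lit 9) (nat_lit 3) (nat_lit 8) (nat_lit 9) (by decide +kernel)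
theorem L117108 : W_42 (nat_lit 3) (nat_lit 0x1700090001c0034000000000000000000000000000) (nat_lit 0x0) (nat_lit 0x7000080010000000000000000000000000000000000000) := T_42 (nat_lit 163) (nat_lit 148) (nat_lit 2) (nat_lit 8) (nat_lit 9) L117107 (by decide +kernel)
theorem L117109 : W_42 (nat_lit 4) (nat_lit 0x1300090001c0034000000000000000000000000000) (nat_lit 0x0) (nat_lit 0x78000c0010000000000000000000000000000000000000) := T_42 (nat_lit 162) (nat_lit 179) (nat_lit 7) (nat_lit 8) (nat_lit 6) L117108 (by decide +kernel)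
theorem L117110 : W_42 (nat_lit 5) (nat_lit 0x1300090001c0024000000000000000000000000000) (nat_lit 0x0) (nat_lit 0x78000c0010000000018000000000000000000000000000) := T_42 (nat_lit 112) (nat_lit 111) (nat_lit 1) (nat_lit 11) (nat_lit 6) L117109 (by decide +kernel)
theorem L117111 : W_42 (nat_lit 6) (nat_lit 0x1200090001c0024000000000000000000000000000) (nat_lit 0x0) (nat_lit 0x7a000d0010000000018000000000000000000000000000) := T_42 (nat_lit 160) (nat_lit 177) (nat_lit 5) (nat_lit 8) (nat_lit 6) L117110 (by decide +kernel)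
theorem L117112 : W_42 (nat_lit 2) (nat_lit 0x200020003700190005c0074000000000000000000000000000) (nat_lit 0x0) (nat_lit 0xc00040000000000000000000000000000000000000000000000000) := D_42 (nat_lit 198) (nat_lit 215) (nat_lit 214) (nat_lit 6) (nat_lit 11) (nat_lit 12) (nat_lit 5) (nat_lit 11) (nat_lit 8) (by decide +kernel)
theorem L117113 : W_42 (nat_lit 3) (nat_lit 0x20003700190005c0074000000000000000000000000000) (nat_lit 0x0) (nat_lit 0xc00060001000000000000000000000000000000000000000000000) := T_42 (nat_lit 197) (nat_lit 180) (nat_lit 5) (nat_lit 11) (nat_lit 7) L117112 (by decide +kernel)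
theorem L117114 : W_42 (nat_lit 4) (nat_lit 0x3700190005c0074000000000000000000000000000) (nat_lit 0x0) (nat_lit 0xc00060003000000000000800000000000000000000000000000000) := T_42 (nat_lit 181) (nat_lit 131) (nat_lit 6) (nat_lit 11) (nat_lit 10) L117113 (by decide +kernel)
theorem L117115 : W_42 (nat_lit 5) (nat_lit 0x3700090005c0074000000000000000000000000000) (nat_lit 0x0) (nat_lit 0xc00060003000000010000800000001000000000000000000000000) := T_42 (nat_lit 148) (nat_lit 96) (nat_lit 7) (nat_lit 11) (nat_lit 5) L117114 (by decide +kernel)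
theorem L117116 : W_42 (nat_lit 6) (nat_lit 0x1700090005c0074000000000000000000000000000) (nat_lit 0x0) (nat_lit 0xc00060007000200010000800000001000000000000000000000000) := T_42 (nat_lit 165) (nat_lit 182) (nat_lit 7) (nat_lit 11) (nat_lit 6) L117115 (by decide +kernel)
theorem L117117 : W_42 (nat_lit 7) (nat_lit 0x1700090005c0034000000000000000000000000000) (nat_lit 0x0) (nat_lit 0xc00060007000200010000800040003000000000000000000000000) := T_42 (nat_lit 114) (nat_lit 97) (nat_lit 6) (nat_lit 11) (nat_lit 9) L117116 (by decide +kernel)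
theorem L117118 : W_42 (nat_lit 8) (nat_lit 0x1700090001c0034000000000000000000000000000) (nat_lit 0x0) (nat_lit 0xc00060007000200010000c00040003800000000000000000000000) := T_42 (nat_lit 130) (nat_lit 95) (nat_lit 4) (nat_lit 11) (nat_lit 9) L117117 (by decide +kernel)
theorem L117119 : W_42 (nat_lit 9) (nat_lit 0x1700090001c0024000000000000000000000000000) (nat_lit 0x0) (nat_lit 0xc00060007000200010000c00058003800000000000000000000000) := T_42 (nat_lit 112) (nat_lit 111) (nat_lit 1) (nat_lit 11) (nat_lit 6) L117118 (by decide +kernel)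
theorem L117120 : W_42 (nat_lit 10) (nat_lit 0x1600090001c0024000000000000000000000000000) (nat_lit 0x0) (nat_lit 0xc00060007200210010000c00058003800000000000000000000000) := T_42 (nat_lit 160) (nat_lit 177) (nat_lit 5) (nat_lit 8) (nat_lit 6) L117119 (by decide +kernel)
theorem L117121 : W_42 (nat_lit 11) (nat_lit 0x1200090001c0024000000000000000000000000000) (nat_lit 0x0) (nat_lit 0xc00060007a00250010000c00058003800000000000000000000000) := T_42 (nat_lit 162) (nat_lit 179) (nat_lit 7) (nat_lit 8) (nat_lit 6) L117120 (by decide +kernel)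
theorem L117122 : W_42 (nat_lit 2) (nat_lit 0x10003700090005c0074000000000000000000000000000) (nat_lit 0x0) (nat_lit 0x20002000000000000800000000000000000000000000000000) := D_42 (nat_lit 181) (nat_lit 131) (nat_lit 197) (nat_lit 6) (nat_lit 11) (nat_lit 10) (nat_lit 5) (nat_lit 11) (nat_lit 7) (by decide +kernel)
theorem L117123 : W_42 (nat_lit 3) (nat_lit 0x3700090005c0074000000000000000000000000000) (nat_lit 0x0) (nat_lit 0x20003000080000000800000000000000000000000000000000) := T_42 (nat_lit 180) (nat_lit 163) (nat_lit 5) (nat_lit 11) (nat_lit 6) L117122 (by decide +kernel)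
theorem L117124 : W_42 (nat_lit 4) (nat_lit 0x3700090005c0034000000000000000000000000000) (nat_lit 0x0) (nat_lit 0x20003000080000000800040002000000000000000000000000) := T_42 (nat_lit 114) (nat_lit 97) (nat_lit 6) (nat_lit 11) (nat_lit 9) L117123 (by decide +kernel)
theorem L117125 : W_42 (nat_lit 5) (nat_lit 0x1700090005c0034000000000000000000000000000) (nat_lit 0x0) (nat_lit 0x20007000280000000800040002000000000000000000000000) := T_42 (nat_lit 165) (nat_lit 182) (nat_lit 7) (nat_lit 11) (nat_lit 6) L117124 (by decide +kernel)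
theorem L117126 : W_42 (nat_lit 6) (nat_lit 0x1600090005c0034000000000000000000000000000) (nat_lit 0x0) (nat_lit 0x20007200290000000800040002000000000000000000000000) := T_42 (nat_lit 160) (nat_lit 177) (nat_lit 5) (nat_lit 8) (nat_lit 6) L117125 (by decide +kernel)
theorem L117127 : W_42 (nat_lit 7) (nat_lit 0x1600090001c0034000000000000000000000000000) (nat_lit 0x0) (nat_lit 0x20007200290000000c00040002800000000000000000000000) := T_42 (nat_lit 130) (nat_lit 95) (nat_lit 4) (nat_lit 11) (nat_lit 9) L117126 (by decide +kernel)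
theorem L117128 : W_42 (nat_lit 8) (nat_lit 0x1200090001c0034000000000000000000000000000) (nat_lit 0x0) (nat_lit 0x20007a002d0000000c00040002800000000000000000000000) := T_42 (nat_lit 162) (nat_lit 179) (nat_lit 7) (nat_lit 8) (nat_lit 6) L117127 (by decide +kernel)
theorem L117129 : W_42 (nat_lit 9) (nat_lit 0x1200090001c0024000000000000000000000000000) (nat_lit 0x0) (nat_lit 0x20007a002d0000000c00058002800000000000000000000000) := T_42 (nat_lit 112) (nat_lit 111) (nat_lit 1) (nat_lit 11) (nat_lit 6) L117128 (by decide +kernel)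
theorem L117130 : W_42 (nat_lit 2) (nat_lit 0x20001f00090005c0034000000000000000000000000000) (nat_lit 0x0) (nat_lit 0x800040002000000000000000000000000) := D_42 (nat_lit 114) (nat_lit 97) (nat_lit 131) (nat_lit 6) (nat_lit 11) (nat_lit 9) (nat_lit 6) (nat_lit 11) (nat_lit 10) (by decide +kernel)
theorem L117131 : W_42 (nat_lit 3) (nat_lit 0x20001f00090001c0034000000000000000000000000000) (nat_lit 0x0) (nat_lit 0xc00040002800000000000000000000000) := T_42 (nat_lit 130) (nat_lit 95) (nat_lit 4) (nat_lit 11) (nat_lit 9) L117130 (by decide +kernel)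
theorem L117132 : W_42 (nat_lit 4) (nat_lit 0x1f00090001c0034000000000000000000000000000) (nat_lit 0x0) (nat_lit 0x6000000000000c00040002800000000000000000000000) := T_42 (nat_lit 181) (nat_lit 182) (nat_lit 3) (nat_lit 8) (nat_lit 9) L117131 (by decide +kernel)
theorem L117133 : W_42 (nat_lit 5) (nat_lit 0x1f00090001c0024000000000000000000000000000) (nat_lit 0x0) (nat_lit 0x6000000000000c00058002800000000000000000000000) := T_42 (nat_lit 112) (nat_lit 111) (nat_lit 1) (nat_lit 11) (nat_lit 6) L117132 (by decide +kernel)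
theorem L117134 : W_42 (nat_lit 6) (nat_lit 0x1700090001c0024000000000000000000000000000) (nat_lit 0x0) (nat_lit 0x6000080010000c00058002800000000000000000000000) := T_42 (nat_lit 163) (nat_lit 148) (nat_lit 2) (nat_lit 8) (nat_lit 9) L117133 (by decide +kernel)
theorem L117135 : W_42 (nat_lit 7) (nat_lit 0x1300090001c0024000000000000000000000000000) (nat_lit 0x0) (nat_lit 0x68000c0010000c00058002800000000000000000000000) := T_42 (nat_lit 162) (nat_lit 179) (nat_lit 7) (nat_lit 8) (nat_lit 6) L117134 (by decide +kernel)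
theorem L117136 : W_42 (nat_lit 8) (nat_lit 0x1200090001c0024000000000000000000000000000) (nat_lit 0x0) (nat_lit 0x6a000d0010000c00058002800000000000000000000000) := T_42 (nat_lit 160) (nat_lit 177) (nat_lit 5) (nat_lit 8) (nat_lit 6) L117135 (by decide +kernel)
theorem L117137 : W_42 (nat_lit 12) (nat_lit 0x200090001c0024000000000000000000000000000) (nat_lit 0x0) (nat_lit 0xc00060007a003d0010000c00058003800100000000000000000000) := Q_42 (nat_lit 164) (C_42 L117095 (C_42 L117102 (C_42 L117106 (C_42 L117111 (C_42 L117121 (C_42 L117129 (C_42 L117136 N_42))))))) (by decide +kernel)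
theorem L117138 : W_42 (nat_lit 13) (nat_lit 0x200090001c0004000000000000000000000000000) (nat_lit 0x0) (nat_lit 0xc000e0007a003d0010000e00078003800180008000000000000000) := Q_42 (nat_lit 113) (C_42 L117063 (C_42 L117066 (C_42 L117091 (C_42 L117137 N_42)))) (by decide +kernel)
theorem L117139 : W_42 (nat_lit 2) (nat_lit 0x3000d0001c0004000000000000000000000000000) (nat_lit 0x0) (nat_lit 0x8000c0000000000000000000000000000000000000000) := D_42 (nat_lit 162) (nat_lit 179) (nat_lit 163) (nat_lit 7) (nat_lit 8) (nat_lit 6) (nat_lit 2) (nat_lit 7) (nat_lit 9) (by decide +kernel)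
theorem L117140 : W_42 (nat_lit 3) (nat_lit 0x300090001c0004000000000000000000000000000) (nat_lit 0x0) (nat_lit 0x8000c0004000200000000000000000000000000000000) := T_42 (nat_lit 146) (nat_lit 129) (nat_lit 3) (nat_lit 7) (nat_lit 7) L117139 (by decide +kernel)
theorem L117141 : W_42 (nat_lit 4) (nat_lit 0x200090001c0004000000000000000000000000000) (nat_lit 0x0) (nat_lit 0xa000d0004000200000000000000000000000000000000) := T_42 (nat_lit 160) (nat_lit 177) (nat_lit 5) (nat_lit 8) (nat_lit 6) L117140 (by decide +kernel)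
theorem L117142 : W_42 (nat_lit 14) (nat_lit 0x200010001c0004000000000000000000000000000) (nat_lit 0x0) (nat_lit 0xc000e0007a003d001c000e20078003800180008000000000000000) := Q_42 (nat_lit 147) (C_42 L117061 (C_42 L117062 (C_42 L117138 (C_42 L117141 N_42)))) (by decide +kernel)
theorem L117143 : W_42 (nat_lit 2) (nat_lit 0x600090003c0024000000000000000000000000000) (nat_lit 0x0) (nat_lit 0x10000400040000000000000000000000000000) := D_42 (nat_lit 130) (nat_lit 148) (nat_lit 114) (nat_lit 3) (nat_lit 8) (nat_lit 7) (nat_lit 2) (nat_lit 8) (nat_lit 7) (by decide +kernel)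
theorem L117144 : W_42 (nat_lit 3) (nat_lit 0x600090003c0004000000000000000000000000000) (nat_lit 0x0) (nat_lit 0x10000400070000000000000000000000000000) := T_42 (nat_lit 113) (nat_lit 112) (nat_lit 2) (nat_lit 7) (nat_lit 7) L117143 (by decide +kernel)
theorem L117145 : W_42 (nat_lit 4) (nat_lit 0x600090001c0004000000000000000000000000000) (nat_lit 0x0) (nat_lit 0x14000600070000000000000000000000000000) := T_42 (nat_lit 129) (nat_lit 146) (nat_lit 3) (nat_lit 7) (nat_lit 7) L117144 (by decide +kernel)
theorem L117146 : W_42 (nat_lit 5) (nat_lit 0x200090001c0004000000000000000000000000000) (nat_lit 0x0) (nat_lit 0x800040014000600070000000000000000000000000000) := T_42 (nat_lit 162) (nat_lit 179) (nat_lit 7) (nat_lit 8) (nat_lit 6) L117145 (by decide +kernel)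
theorem L117147 : W_42 (nat_lit 2) (nat_lit 0x200090003c0024000000000000000000000000000) (nat_lit 0x0) (nat_lit 0x10000400040000000000000000000000000000) := D_42 (nat_lit 130) (nat_lit 148) (nat_lit 114) (nat_lit 3) (nat_lit 8) (nat_lit 7) (nat_lit 2) (nat_lit 8) (nat_lit 7) (by decide +kernel)
theorem L117148 : W_42 (nat_lit 3) (nat_lit 0x200090003c0004000000000000000000000000000) (nat_lit 0x0) (nat_lit 0x10000400070000000000000000000000000000) := T_42 (nat_lit 113) (nat_lit 112) (nat_lit 2) (nat_lit 7) (nat_lit 7) L117147 (by decide +kernel)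
theorem L117149 : W_42 (nat_lit 4) (nat_lit 0x200090001c0004000000000000000000000000000) (nat_lit 0x0) (nat_lit 0x14000600070000000000000000000000000000) := T_42 (nat_lit 129) (nat_lit 146) (nat_lit 3) (nat_lit 7) (nat_lit 7) L117148 (by decide +kernel)
theorem L117150 : W_42 (nat_lit 14) (nat_lit 0x200010001c0004000000000000000000000000000) (nat_lit 0x0) (nat_lit 0xc000e0007a003d001c000e00078003800180008000000000000000) := Q_42 (nat_lit 147) (C_42 L117061 (C_42 L117141 (C_42 L117146 (C_42 L117149 (C_42 L117138 N_42))))) (by decide +kernel)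
theorem L117151 : W_42 (nat_lit 3) (nat_lit 0x300012001d0004000000000000000000000000000) (nat_lit 0x0) (nat_lit 0x100020001c00000000000000000000000000) := T_42 (nat_lit 125) (nat_lit 140) (nat_lit 1) (nat_lit 8) (nat_lit 7) L116376 (by decide +kernel)
theorem L117152 : W_42 (nat_lit 4) (nat_lit 0x200012001d0004000000000000000000000000000) (nat_lit 0x0) (nat_lit 0x200010000100020001c00000000000000000000000000) := T_42 (nat_lit 160) (nat_lit 177) (nat_lit 5) (nat_lit 8) (nat_lit 6) L117151 (by decide +kernel)
theorem L117153 : W_42 (nat_lit 2) (nat_lit 0x200012001d0004800000000000000000000000000) (nat_lit 0x0) (nat_lit 0x100020000400000000000000000000000000) := D_42 (nat_lit 125) (nat_lit 106) (nat_lit 140) (nat_lit 0) (nat_lit 8) (nat_lit 7) (nat_lit 1) (nat_lit 8) (nat_lit 7) (by decide +kernel)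
theorem L117154 : W_42 (nat_lit 2) (nat_lit 0x2e0012001d0004800040000000000000000000000) (nat_lit 0x0) (nat_lit 0x400020001000000000000000000) := D_42 (nat_lit 89) (nat_lit 72) (nat_lit 106) (nat_lit 4) (nat_lit 5) (nat_lit 8) (nat_lit 4) (nat_lit 5) (nat_lit 9) (by decide +kernel)
theorem L117155 : W_42 (nat_lit 3) (nat_lit 0x2e0012001d0004800000000000000000000000000) (nat_lit 0x0) (nat_lit 0x100000000400060001000000000000000000) := T_42 (nat_lit 90) (nat_lit 140) (nat_lit 5) (nat_lit 5) (nat_lit 5) L117154 (by decide +kernel)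
theorem L117156 : W_42 (nat_lit 4) (nat_lit 0x2c0012001d0004800000000000000000000000000) (nat_lit 0x0) (nat_lit 0x40002000100000000400060001000000000000000000) := T_42 (nat_lit 157) (nat_lit 174) (nat_lit 5) (nat_lit 5) (nat_lit 6) L117155 (by decide +kernel)
theorem L117157 : W_42 (nat_lit 5) (nat_lit 0x240012001d0004800000000000000000000000000) (nat_lit 0x0) (nat_lit 0x14000a000100000000400060001000000000000000000) := T_42 (nat_lit 159) (nat_lit 176) (nat_lit 7) (nat_lit 5) (nat_lit 6) L117156 (by decide +kernel)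
theorem L117158 : W_42 (nat_lit 2) (nat_lit 0x340012001d0004c00000000000000000000000000) (nat_lit 0x0) (nat_lit 0x100008000100000000000000000000000000000000000) := D_42 (nat_lit 159) (nat_lit 140) (nat_lit 176) (nat_lit 0) (nat_lit 8) (nat_lit 9) (nat_lit 7) (nat_lit 5) (nat_lit 6) (by decide +kernel)
theorem L117159 : W_42 (nat_lit 3) (nat_lit 0x240012001d0004c00000000000000000000000000) (nat_lit 0x0) (nat_lit 0x300018000100000000000000000000000000000000000) := T_42 (nat_lit 160) (nat_lit 177) (nat_lit 5) (nat_lit 8) (nat_lit 6) L117158 (by decide +kernel)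
theorem L117160 : W_42 (nat_lit 4) (nat_lit 0x240012001d0004800000000000000000000000000) (nat_lit 0x0) (nat_lit 0x300018000100000000400020000000000000000000000) := T_42 (nat_lit 106) (nat_lit 89) (nat_lit 4) (nat_lit 5) (nat_lit 9) L117159 (by decide +kernel)
theorem L117161 : W_42 (nat_lit 2) (nat_lit 0x340012001d0004800000000000000000000000000) (nat_lit 0x0) (nat_lit 0x100008000100000000000000000000000000000000000) := D_42 (nat_lit 159) (nat_lit 140) (nat_lit 176) (nat_lit 0) (nat_lit 8) (nat_lit 9) (nat_lit 7) (nat_lit 5) (nat_lit 6) (by decide +kernel)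
theorem L117162 : W_42 (nat_lit 3) (nat_lit 0x240012001d0004800000000000000000000000000) (nat_lit 0x0) (nat_lit 0x300018000100000000000000000000000000000000000) := T_42 (nat_lit 160) (nat_lit 177) (nat_lit 5) (nat_lit 8) (nat_lit 6) L117161 (by decide +kernel)
theorem L117163 : W_42 (nat_lit 2) (nat_lit 0x800340012001d0004c00000000000000000000000000) (nat_lit 0x0) (nat_lit 0x800040002000000000000000000000000000000000000000) := D_42 (nat_lit 174) (nat_lit 157) (nat_lit 191) (nat_lit 5) (nat_lit 5) (nat_lit 6) (nat_lit 5) (nat_lit 5) (nat_lit 7) (by decide +kernel)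
theorem L117164 : W_42 (nat_lit 3) (nat_lit 0x340012001d0004c00000000000000000000000000) (nat_lit 0x0) (nat_lit 0x8000c0002000000008000000000000000000000000000000) := T_42 (nat_lit 175) (nat_lit 123) (nat_lit 4) (nat_lit 5) (nat_lit 10) L117163 (by decide +kernel)
theorem L117165 : W_42 (nat_lit 4) (nat_lit 0x240012001d0004c00000000000000000000000000) (nat_lit 0x0) (nat_lit 0x8002c0012000000008000000000000000000000000000000) := T_42 (nat_lit 160) (nat_lit 177) (nat_lit 5) (nat_lit 8) (nat_lit 6) L117164 (by decide +kernel)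
theorem L117166 : W_42 (nat_lit 5) (nat_lit 0x240012001d0004800000000000000000000000000) (nat_lit 0x0) (nat_lit 0x8002c0012000000008000400020000000000000000000000) := T_42 (nat_lit 106) (nat_lit 89) (nat_lit 4) (nat_lit 5) (nat_lit 9) L117165 (by decide +kernel)
theorem L117167 : W_42 (nat_lit 6) (nat_lit 0x200012001d0004800000000000000000000000000) (nat_lit 0x0) (nat_lit 0x8003c001e000100008000400060001000000000000000000) := Q_42 (nat_lit 158) (C_42 L117157 (C_42 L117160 (C_42 L117162 (C_42 L117166 N_42)))) (by decide +kernel)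
theorem L117168 : W_42 (nat_lit 2) (nat_lit 0x700013001d0004800040002000000000000000000) (nat_lit 0x0) (nat_lit 0x20001000080000000000000) := D_42 (nat_lit 72) (nat_lit 55) (nat_lit 89) (nat_lit 4) (nat_lit 5) (nat_lit 7) (nat_lit 4) (nat_lit 5) (nat_lit 8) (by decide +kernel)
theorem L117169 : W_42 (nat_lit 3) (nat_lit 0x700013001d0004800040000000000000000000000) (nat_lit 0x0) (nat_lit 0x8000000020003000080000000000000) := T_42 (nat_lit 73) (nat_lit 123) (nat_lit 5) (nat_lit 5) (nat_lit 4) L117168 (by decide +kernel)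
theorem L117170 : W_42 (nat_lit 4) (nat_lit 0x700013001d0004800000000000000000000000000) (nat_lit 0x0) (nat_lit 0x2000000008000000060003000080000000000000) := T_42 (nat_lit 90) (nat_lit 157) (nat_lit 5) (nat_lit 5) (nat_lit 5) L117169 (by decide +kernel)
theorem L117171 : W_42 (nat_lit 5) (nat_lit 0x300013001d0004800000000000000000000000000) (nat_lit 0x0) (nat_lit 0x800042000000008000000060003000080000000000000) := T_42 (nat_lit 162) (nat_lit 179) (nat_lit 7) (nat_lit 8) (nat_lit 6) L117170 (by decide +kernel)
theorem L117172 : W_42 (nat_lit 6) (nat_lit 0x300012001d0004800000000000000000000000000) (nat_lit 0x0) (nat_lit 0x800042000100028000000060003000080000000000000) := T_42 (nat_lit 140) (nat_lit 125) (nat_lit 1) (nat_lit 8) (nat_lit 7) L117171 (by decide +kernel)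
theorem L117173 : W_42 (nat_lit 7) (nat_lit 0x200012001d0004800000000000000000000000000) (nat_lit 0x0) (nat_lit 0xa00052000100028000000060003000080000000000000) := T_42 (nat_lit 160) (nat_lit 177) (nat_lit 5) (nat_lit 8) (nat_lit 6) L117172 (by decide +kernel)
theorem L117174 : W_42 (nat_lit 4) (nat_lit 0x300012001d0004c00000000000000000000000000) (nat_lit 0x0) (nat_lit 0x8000c0006000000008000000020000000000000000000000) := T_42 (nat_lit 158) (nat_lit 89) (nat_lit 4) (nat_lit 5) (nat_lit 9) L117164 (by decide +kernel)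
theorem L117175 : W_42 (nat_lit 5) (nat_lit 0x200012001d0004c00000000000000000000000000) (nat_lit 0x0) (nat_lit 0x8002c0016000000008000000020000000000000000000000) := T_42 (nat_lit 160) (nat_lit 177) (nat_lit 5) (nat_lit 8) (nat_lit 6) L117174 (by decide +kernel)
theorem L117176 : W_42 (nat_lit 6) (nat_lit 0x200012001d0004800000000000000000000000000) (nat_lit 0x0) (nat_lit 0x8002c0016000000028000400020000000000000000000000) := T_42 (nat_lit 106) (nat_lit 125) (nat_lit 0) (nat_lit 8) (nat_lit 7) L117175 (by decide +kernel)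
theorem L117177 : W_42 (nat_lit 8) (nat_lit 0x200012001d0004000000000000000000000000000) (nat_lit 0x0) (nat_lit 0x800bc005e000100028000c00060003000080000000000000) := Q_42 (nat_lit 107) (C_42 L117153 (C_42 L117167 (C_42 L117173 (C_42 L117176 N_42)))) (by decide +kernel)
theorem L117178 : W_42 (nat_lit 2) (nat_lit 0x28000800640012001f0004000000000000000000000000000) (nat_lit 0x0) (nat_lit 0x50001000000000000000000000000000000000000000000000000) := D_42 (nat_lit 192) (nat_lit 208) (nat_lit 210) (nat_lit 5) (nat_lit 5) (nat_lit 8) (nat_lit 7) (nat_lit 5) (nat_lit 8) (by decide +kernel)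
theorem L117179 : W_42 (nat_lit 3) (nat_lit 0x8000800640012001f0004000000000000000000000000000) (nat_lit 0x0) (nat_lit 0x50003000100000000000000000000000000000000000000000000) := T_42 (nat_lit 193) (nat_lit 176) (nat_lit 7) (nat_lit 5) (nat_lit 7) L117178 (by decide +kernel)
theorem L117180 : W_42 (nat_lit 4) (nat_lit 0x800640012001f0004000000000000000000000000000) (nat_lit 0x0) (nat_lit 0x50003800140000000000000000000000000000000000000000000) := T_42 (nat_lit 191) (nat_lit 174) (nat_lit 5) (nat_lit 5) (nat_lit 7) L117179 (by decide +kernel)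
theorem L117181 : W_42 (nat_lit 5) (nat_lit 0x640012001f0004000000000000000000000000000) (nat_lit 0x0) (nat_lit 0x500038001c0000000000000001000000000000000000000000000) := T_42 (nat_lit 175) (nat_lit 108) (nat_lit 6) (nat_lit 5) (nat_lit 10) L117180 (by decide +kernel)
theorem L117182 : W_42 (nat_lit 6) (nat_lit 0x240012001f0004000000000000000000000000000) (nat_lit 0x0) (nat_lit 0x500038009c0040000000000001000000000000000000000000000) := T_42 (nat_lit 162) (nat_lit 179) (nat_lit 7) (nat_lit 8) (nat_lit 6) L117181 (by decide +kernel)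
theorem L117183 : W_42 (nat_lit 7) (nat_lit 0x240012001d0004000000000000000000000000000) (nat_lit 0x0) (nat_lit 0x500038009c0040000100020001000000000000000000000000000) := T_42 (nat_lit 125) (nat_lit 140) (nat_lit 1) (nat_lit 8) (nat_lit 7) L117182 (by decide +kernel)
theorem L117184 : W_42 (nat_lit 2) (nat_lit 0x800340012001f0004000000000000000000000000000) (nat_lit 0x0) (nat_lit 0x800040008000000000000000000000000000000000000000) := D_42 (nat_lit 174) (nat_lit 191) (nat_lit 159) (nat_lit 5) (nat_lit 5) (nat_lit 7) (nat_lit 1) (nat_lit 8) (nat_lit 9) (by decide +kernel)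
theorem L117185 : W_42 (nat_lit 3) (nat_lit 0x340012001f0004000000000000000000000000000) (nat_lit 0x0) (nat_lit 0x8000c0008000000000001000000000000000000000000000) := T_42 (nat_lit 175) (nat_lit 108) (nat_lit 6) (nat_lit 5) (nat_lit 10) L117184 (by decide +kernel)
theorem L117186 : W_42 (nat_lit 4) (nat_lit 0x240012001f0004000000000000000000000000000) (nat_lit 0x0) (nat_lit 0x8002c0018000000000001000000000000000000000000000) := T_42 (nat_lit 160) (nat_lit 177) (nat_lit 5) (nat_lit 8) (nat_lit 6) L117185 (by decide +kernel)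
theorem L117187 : W_42 (nat_lit 5) (nat_lit 0x240012001d0004000000000000000000000000000) (nat_lit 0x0) (nat_lit 0x8002c0018000100020001000000000000000000000000000) := T_42 (nat_lit 125) (nat_lit 140) (nat_lit 1) (nat_lit 8) (nat_lit 7) L117186 (by decide +kernel)
theorem L117188 : W_42 (nat_lit 5) (nat_lit 0x800640012001d0004000000000000000000000000000) (nat_lit 0x0) (nat_lit 0x50003800140000000000020001000000000000000000000000000) := T_42 (nat_lit 125) (nat_lit 108) (nat_lit 6) (nat_lit 5) (nat_lit 10) L117180 (by decide +kernel)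
theorem L117189 : W_42 (nat_lit 6) (nat_lit 0x800240012001d0004000000000000000000000000000) (nat_lit 0x0) (nat_lit 0x50003800940040000000020001000000000000000000000000000) := T_42 (nat_lit 162) (nat_lit 179) (nat_lit 7) (nat_lit 8) (nat_lit 6) L117188 (by decide +kernel)
theorem L117190 : W_42 (nat_lit 2) (nat_lit 0xc00240012001d0004000000000000000000000000000) (nat_lit 0x0) (nat_lit 0x200018000000000000000000000000000000000000000) := D_42 (nat_lit 160) (nat_lit 159) (nat_lit 177) (nat_lit 1) (nat_lit 8) (nat_lit 9) (nat_lit 5) (nat_lit 8) (nat_lit 6) (by decide +kernel)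
theorem L117191 : W_42 (nat_lit 3) (nat_lit 0x800240012001d0004000000000000000000000000000) (nat_lit 0x0) (nat_lit 0x800240018000000000000000000000000000000000000000) := T_42 (nat_lit 174) (nat_lit 191) (nat_lit 5) (nat_lit 5) (nat_lit 7) L117190 (by decide +kernel)
theorem L117192 : W_42 (nat_lit 7) (nat_lit 0x240012001d0004000000000000000000000000000) (nat_lit 0x0) (nat_lit 0x50003800bc0058000000020001000000000000000000000000000) := Q_42 (nat_lit 175) (C_42 L117189 (C_42 L117191 (C_42 L117034 N_42))) (by decide +kernel)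
theorem L117193 : W_42 (nat_lit 2) (nat_lit 0x340012001d0004000000000000000000000000000) (nat_lit 0x0) (nat_lit 0x8000100020000000000000000000000000000000) := D_42 (nat_lit 140) (nat_lit 159) (nat_lit 125) (nat_lit 0) (nat_lit 8) (nat_lit 9) (nat_lit 1) (nat_lit 8) (nat_lit 7) (by decide +kernel)
theorem L117194 : W_42 (nat_lit 3) (nat_lit 0x240012001d0004000000000000000000000000000) (nat_lit 0x0) (nat_lit 0x200018000100020000000000000000000000000000000) := T_42 (nat_lit 160) (nat_lit 177) (nat_lit 5) (nat_lit 8) (nat_lit 6) L117193 (by decide +kernel)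
theorem L117195 : W_42 (nat_lit 8) (nat_lit 0x200012001d0004000000000000000000000000000) (nat_lit 0x0) (nat_lit 0x50003800bc005c000100020001000000000000000000000000000) := Q_42 (nat_lit 158) (C_42 L117183 (C_42 L117187 (C_42 L117009 (C_42 L117192 (C_42 L117194 N_42))))) (by decide +kernel)
theorem L117196 : W_42 (nat_lit 2) (nat_lit 0x200012001d0004800000000000000000000000000) (nat_lit 0x0) (nat_lit 0x20001400000000000000000000000000) := D_42 (nat_lit 125) (nat_lit 108) (nat_lit 106) (nat_lit 0) (nat_lit 9) (nat_lit 7) (nat_lit 0) (nat_lit 8) (nat_lit 7) (by decide +kernel)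
theorem L117197 : W_42 (nat_lit 2) (nat_lit 0x4002c0012001d0005c00000000000000000000000000) (nat_lit 0x0) (nat_lit 0x800080000000000008000000000000000000000000000000) := D_42 (nat_lit 175) (nat_lit 191) (nat_lit 123) (nat_lit 5) (nat_lit 5) (nat_lit 7) (nat_lit 4) (nat_lit 5) (nat_lit 10) (by decide +kernel)
theorem L117198 : W_42 (nat_lit 3) (nat_lit 0x4002c0012001d0005800000000000000000000000000) (nat_lit 0x0) (nat_lit 0x800080000000000008000400020000000000000000000000) := T_42 (nat_lit 106) (nat_lit 89) (nat_lit 4) (nat_lit 5) (nat_lit 9) L117197 (by decide +kernel)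
theorem L117199 : W_42 (nat_lit 4) (nat_lit 0x2c0012001d0005800000000000000000000000000) (nat_lit 0x0) (nat_lit 0x8000c0002000000008000400020000000000000000000000) := T_42 (nat_lit 174) (nat_lit 157) (nat_lit 5) (nat_lit 5) (nat_lit 6) L117198 (by decide +kernel)
theorem L117200 : W_42 (nat_lit 5) (nat_lit 0x2c0012001d0004800000000000000000000000000) (nat_lit 0x0) (nat_lit 0x8000c00020000000080014000a0000000000000000000000) := T_42 (nat_lit 108) (nat_lit 91) (nat_lit 6) (nat_lit 5) (nat_lit 9) L117199 (by decide +kernel)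
theorem L117201 : W_42 (nat_lit 6) (nat_lit 0x240012001d0004800000000000000000000000000) (nat_lit 0x0) (nat_lit 0x8001c000a0000000080014000a0000000000000000000000) := T_42 (nat_lit 159) (nat_lit 176) (nat_lit 7) (nat_lit 5) (nat_lit 6) L117200 (by decide +kernel)
theorem L117202 : W_42 (nat_lit 2) (nat_lit 0xc00240012001d0005800000000000000000000000000) (nat_lit 0x0) (nat_lit 0x200018000000000000000000000000000000000000000) := D_42 (nat_lit 160) (nat_lit 159) (nat_lit 177) (nat_lit 1) (nat_lit 8) (nat_lit 9) (nat_lit 5) (nat_lit 8) (nat_lit 6) (by decide +kernel)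
theorem L117203 : W_42 (nat_lit 3) (nat_lit 0x400240012001d0005800000000000000000000000000) (nat_lit 0x0) (nat_lit 0x800280018000000000000000000000000000000000000000) := T_42 (nat_lit 175) (nat_lit 191) (nat_lit 5) (nat_lit 5) (nat_lit 7) L117202 (by decide +kernel)
theorem L117204 : W_42 (nat_lit 4) (nat_lit 0x400240012001d0004800000000000000000000000000) (nat_lit 0x0) (nat_lit 0x800280018000000000001000080000000000000000000000) := T_42 (nat_lit 108) (nat_lit 91) (nat_lit 6) (nat_lit 5) (nat_lit 9) L117203 (by decide +kernel)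
theorem L117205 : W_42 (nat_lit 5) (nat_lit 0x240012001d0004800000000000000000000000000) (nat_lit 0x0) (nat_lit 0x8002c001a000000000001000080000000000000000000000) := T_42 (nat_lit 174) (nat_lit 157) (nat_lit 5) (nat_lit 5) (nat_lit 6) L117204 (by decide +kernel)
theorem L117206 : W_42 (nat_lit 2) (nat_lit 0x2e0012001d0004800060000000000000000000000) (nat_lit 0x0) (nat_lit 0x1000080004000000000000000000) := D_42 (nat_lit 91) (nat_lit 108) (nat_lit 74) (nat_lit 6) (nat_lit 5) (nat_lit 9) (nat_lit 6) (nat_lit 5) (nat_lit 8) (by decide +kernel)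
theorem L117207 : W_42 (nat_lit 3) (nat_lit 0x2e0012001d0004800020000000000000000000000) (nat_lit 0x0) (nat_lit 0x10000c0005000000000000000000) := T_42 (nat_lit 90) (nat_lit 72) (nat_lit 4) (nat_lit 5) (nat_lit 8) L117206 (by decide +kernel)
theorem L117208 : W_42 (nat_lit 4) (nat_lit 0x260012001d0004800020000000000000000000000) (nat_lit 0x0) (nat_lit 0x1000080000000000010000c0005000000000000000000) := T_42 (nat_lit 159) (nat_lit 176) (nat_lit 7) (nat_lit 5) (nat_lit 6) L117207 (by decide +kernel)
theorem L117209 : W_42 (nat_lit 5) (nat_lit 0x260012001d0004800000000000000000000000000) (nat_lit 0x0) (nat_lit 0x1000080000000000014000e0005000000000000000000) := T_42 (nat_lit 89) (nat_lit 106) (nat_lit 4) (nat_lit 5) (nat_lit 9) L117208 (by decide +kernel)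
theorem L117210 : W_42 (nat_lit 6) (nat_lit 0x240012001d0004800000000000000000000000000) (nat_lit 0x0) (nat_lit 0x14000a0000000000014000e0005000000000000000000) := T_42 (nat_lit 157) (nat_lit 174) (nat_lit 5) (nat_lit 5) (nat_lit 6) L117209 (by decide +kernel)
theorem L117211 : W_42 (nat_lit 2) (nat_lit 0x1000340012001d0004c00000000000000000000000000) (nat_lit 0x0) (nat_lit 0x2000080000000000008000000000000000000000000000000) := D_42 (nat_lit 175) (nat_lit 123) (nat_lit 193) (nat_lit 4) (nat_lit 5) (nat_lit 10) (nat_lit 7) (nat_lit 5) (nat_lit 7) (by decide +kernel)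
theorem L117212 : W_42 (nat_lit 3) (nat_lit 0x340012001d0004c00000000000000000000000000) (nat_lit 0x0) (nat_lit 0x2000180008000000008000000000000000000000000000000) := T_42 (nat_lit 176) (nat_lit 159) (nat_lit 7) (nat_lit 5) (nat_lit 6) L117211 (by decide +kernel)
theorem L117213 : W_42 (nat_lit 4) (nat_lit 0x340012001d0004800000000000000000000000000) (nat_lit 0x0) (nat_lit 0x2000180008000000008000400020000000000000000000000) := T_42 (nat_lit 106) (nat_lit 89) (nat_lit 4) (nat_lit 5) (nat_lit 9) L117212 (by decide +kernel)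
theorem L117214 : W_42 (nat_lit 5) (nat_lit 0x240012001d0004800000000000000000000000000) (nat_lit 0x0) (nat_lit 0x2000380018000000008000400020000000000000000000000) := T_42 (nat_lit 160) (nat_lit 177) (nat_lit 5) (nat_lit 8) (nat_lit 6) L117213 (by decide +kernel)
theorem L117215 : W_42 (nat_lit 7) (nat_lit 0x200012001d0004800000000000000000000000000) (nat_lit 0x0) (nat_lit 0x28003c001e0000000080014000e0005000000000000000000) := Q_42 (nat_lit 158) (C_42 L117201 (C_42 L117166 (C_42 L117205 (C_42 L117210 (C_42 L117214 N_42))))) (by decide +kernel)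
theorem L117216 : W_42 (nat_lit 2) (nat_lit 0x400740012001d0005800000000000000000000000000) (nat_lit 0x0) (nat_lit 0x180008000000000000000000000000000000000000000) := D_42 (nat_lit 159) (nat_lit 176) (nat_lit 175) (nat_lit 7) (nat_lit 5) (nat_lit 6) (nat_lit 1) (nat_lit 8) (nat_lit 9) (by decide +kernel)
theorem L117217 : W_42 (nat_lit 3) (nat_lit 0x740012001d0005800000000000000000000000000) (nat_lit 0x0) (nat_lit 0x1c000a000000000000000000000000000000000000000) := T_42 (nat_lit 174) (nat_lit 157) (nat_lit 5) (nat_lit 5) (nat_lit 6) L117216 (by decide +kernel)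
theorem L117218 : W_42 (nat_lit 4) (nat_lit 0x700012001d0005800000000000000000000000000) (nat_lit 0x0) (nat_lit 0x1c000e000000000000000080000000000000000000000) := T_42 (nat_lit 158) (nat_lit 91) (nat_lit 6) (nat_lit 5) (nat_lit 9) L117217 (by decide +kernel)
theorem L117219 : W_42 (nat_lit 5) (nat_lit 0x300012001d0005800000000000000000000000000) (nat_lit 0x0) (nat_lit 0x9c004e000000000000000080000000000000000000000) := T_42 (nat_lit 162) (nat_lit 179) (nat_lit 7) (nat_lit 8) (nat_lit 6) L117218 (by decide +kernel)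
theorem L117220 : W_42 (nat_lit 6) (nat_lit 0x300012001d0004800000000000000000000000000) (nat_lit 0x0) (nat_lit 0x9c004e000000020001000080000000000000000000000) := T_42 (nat_lit 108) (nat_lit 125) (nat_lit 0) (nat_lit 9) (nat_lit 7) L117219 (by decide +kernel)
theorem L117221 : W_42 (nat_lit 7) (nat_lit 0x200012001d0004800000000000000000000000000) (nat_lit 0x0) (nat_lit 0xbc005e000000020001000080000000000000000000000) := T_42 (nat_lit 160) (nat_lit 177) (nat_lit 5) (nat_lit 8) (nat_lit 6) L117220 (by decide +kernel)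
theorem L117222 : W_42 (nat_lit 8) (nat_lit 0x200012001d0004000000000000000000000000000) (nat_lit 0x0) (nat_lit 0x2800bc005e000000028001c000e0005000000000000000000) := Q_42 (nat_lit 107) (C_42 L117196 (C_42 L117176 (C_42 L117215 (C_42 L117221 N_42)))) (by decide +kernel)
theorem L117223 : W_42 (nat_lit 11) (nat_lit 0x200012001c0004000000000000000000000000000) (nat_lit 0x0) (nat_lit 0x70003800be005e000100038001c000e0007000080000000000000) := Q_42 (nat_lit 124) (C_42 L117048 (C_42 L116985 (C_42 L117152 (C_42 L117177 (C_42 L117195 (C_42 L117222 N_42)))))) (by decide +kernel)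
theorem L117224 : W_42 (nat_lit 2) (nat_lit 0x300016001c0004000000000000000000000000000) (nat_lit 0x0) (nat_lit 0x800048000000000000000000000000000000000000000) := D_42 (nat_lit 162) (nat_lit 179) (nat_lit 159) (nat_lit 7) (nat_lit 8) (nat_lit 6) (nat_lit 0) (nat_lit 9) (nat_lit 9) (by decide +kernel)
theorem L117225 : W_42 (nat_lit 3) (nat_lit 0x300012001c0004000000000000000000000000000) (nat_lit 0x0) (nat_lit 0x800048000400020000000000000000000000000000000) := T_42 (nat_lit 142) (nat_lit 125) (nat_lit 1) (nat_lit 9) (nat_lit 7) L117224 (by decide +kernel)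
theorem L117226 : W_42 (nat_lit 4) (nat_lit 0x200012001c0004000000000000000000000000000) (nat_lit 0x0) (nat_lit 0xa00058000400020000000000000000000000000000000) := T_42 (nat_lit 160) (nat_lit 177) (nat_lit 5) (nat_lit 8) (nat_lit 6) L117225 (by decide +kernel)
theorem L117227 : W_42 (nat_lit 12) (nat_lit 0x200010001c0004000000000000000000000000000) (nat_lit 0x0) (nat_lit 0x70003800be005e000700038001c000e0007000080000000000000) := Q_42 (nat_lit 141) (C_42 L116982 (C_42 L116977 (C_42 L117223 (C_42 L117226 N_42)))) (by decide +kernel)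
theorem L117228 : W_42 (nat_lit 15) (nat_lit 0x20001000180004000000000000000000000000000) (nat_lit 0x0) (nat_lit 0xc700e3807be03de01c700e780f9c038e0187008080000000000000) := Q_42 (nat_lit 126) (C_42 L116965 (C_42 L116974 (C_42 L117056 (C_42 L117142 (C_42 L117150 (C_42 L117227 N_42)))))) (by decide +kernel)
theorem L117229 : W_42 (nat_lit 17) (nat_lit 0x20001000080004000000000000000000000000000) (nat_lit 0x0) (nat_lit 0x600cf00e7807be07df8fc7c7f7e1fbf0fbf87ffc0ff807fc020000000) := Q_42 (nat_lit 128) (C_42 L116207 (C_42 L116211 (C_42 L100404 (C_42 L116214 (C_42 L116342 (C_42 L116943 (C_42 L117228 N_42))))))) (by decide +kernel)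
theorem L117230 : W_42 (nat_lit 18) (nat_lit 0x20001000080000000000000000000000000000000) (nat_lit 0x0) (nat_lit 0x20e03cf01e7c7fbe1fdfffc7e7f7f3fffbfffcfffcfff83ffc1ffc03ff0) := Q_42 (nat_lit 110) (C_42 L110239 (C_42 L75809 (C_42 L76033 (C_42 L110488 (C_42 L110933 (C_42 L112332 (C_42 L116040 (C_42 L117229 N_42)))))))) (by decide +kernel)
end Crest.Agent.Helper32.Snaky.R1_0
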