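import Crest.Agent.Helper32.Snaky.Gen.R1_0_p1
set_option autoImplicit false
set_option maxRecDepth 100000
set_option linter.all false
set_option Elab.async false
namespace Crest.Agent.Helper32.Snaky.R1_0
@[reducible] def W_43 (d M Bz Z : Nat) : Prop := Crest.Agent.Helper32.Snaky.Wins (nat_lit 17) d M Bz Z
theorem D_43 {d M Bz Z : Nat} (m t1 t2 o1 x1 y1 o2 x2 y2 : Nat) (h : Crest.Agent.Helper32.Snaky.chkDoubleC (nat_lit 17) d M Bz Z m t1 t2 o1 x1 y1 o2 x2 y2 = true) : W_43 d M Bz Z := Crest.Agent.Helper32.Snaky.doubleC m t1 t2 o1 x1 y1 o2 x2 y2 h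
theorem T_43 {d M Bz Z cd cM cBz cZ : Nat} (m t o x y : Nat) (child : W_43 cd cM cBz cZ) (h : Crest.Agent.Helper32.Snaky.chkThreatC (nat_lit 17) d M Bz Z cd cM cBz cZ m t o x y = true) : W_43 d M Bz Z := Crest.Agent.Helper32.Snaky.threatC m t o x y child h
theorem Q_43 {d M Bz Z : Nat} (m : Nat) {l : List Crest.Agent.Helper32.Snaky.Spec} (kids : Crest.Agent.Helper32.Snaky.AllWins (nat_lit 17) l) (h : Crest.Agent.Helper32.Snaky.chkQuiet d M Bz Z m l = true) : W_43 d M Bz Z := Crest.Agent.Helper32.Snaky.quiet m kids h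
theorem C_43 {cd cM cBz cZ : Nat} {l : List Crest.Agent.Helper32.Snaky.Spec} (h : W_43 cd cM cBz cZ) (hl : Crest.Agent.Helper32.Snaky.AllWins (nat_lit 17) l) : Crest.Agent.Helper32.Snaky.AllWins (nat_lit 17) ((cd, cM, cBz, cZ) :: l) := Crest.Agent.Helper32.Snaky.AllWins.cons h hl
theorem N_43 : Crest.Agent.Helper32.Snaky.AllWins (nat_lit 17) [] := Crest.Agent.Helper32.Snaky.AllWins.nil
theorem L100528 : W_43 (nat_lit 5) (nat_lit 0x20001000080000000000000000000000000000000) (nat_lit 0x0) (nat_lit 0x28001c000e0005000000010000c000400000000000000000000000) := Q_43 (nat_lit 178) (C_43 L575 (C_43 L871 (C_43 L903 (C_43 L527 N_43)))) (by decide +kernel)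
theorem L108875 : W_43 (nat_lit 2) (nat_lit 0xc00020001000080004000000000000000000000000000) (nat_lit 0x0) (nat_lit 0x4000200010000000000000000000000000000000000000000) := D_43 (nat_lit 177) (nat_lit 160) (nat_lit 194) (nat_lit 5) (nat_lit 8) (nat_lit 6) (nat_lit 5) (nat_lit 8) (nat_lit 7) (by decide +kernel)
theorem L108876 : W_43 (nat_lit 3) (nat_lit 0xc00020001000080000000000000000000000000000000) (nat_lit 0x0) (nat_lit 0x4000200050000000000004000000000000000000000000000) := T_43 (nat_lit 110) (nat_lit 162) (nat_lit 7) (nat_lit 8) (nat_lit 6) L108875 (by decide +kernel)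
theorem L108877 : W_43 (nat_lit 4) (nat_lit 0x400020001000080000000000000000000000000000000) (nat_lit 0x0) (nat_lit 0x14000a00050000000000004000000000000000000000000000) := T_43 (nat_lit 179) (nat_lit 196) (nat_lit 7) (nat_lit 8) (nat_lit 7) L108876 (by decide +kernel)
theorem L108878 : W_43 (nat_lit 2) (nat_lit 0xc0004000200010000c0000000000000000000000000000000) (nat_lit 0x0) (nat_lit 0x200010000800000000000000000000000000000000000000000000) := D_43 (nat_lit 196) (nat_lit 179) (nat_lit 213) (nat_lit 7) (nat_lit 8) (nat_lit 7) (nat_lit 7) (nat_lit 8) (nat_lit 8) (by decide +kernel)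
theorem L108879 : W_43 (nat_lit 3) (nat_lit 0x40004000200010000c0000000000000000000000000000000) (nat_lit 0x0) (nat_lit 0x280018000800000000000000000000000000000000000000000000) := T_43 (nat_lit 195) (nat_lit 211) (nat_lit 5) (nat_lit 8) (nat_lit 8) L108878 (by decide +kernel)
theorem L108880 : W_43 (nat_lit 4) (nat_lit 0x4000400020001000080000000000000000000000000000000) (nat_lit 0x0) (nat_lit 0x280018000800000000000040002000000000000000000000000000) := T_43 (nat_lit 126) (nat_lit 109) (nat_lit 4) (nat_lit 8) (nat_lit 10) L108879 (by decide +kernel)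
theorem L108881 : W_43 (nat_lit 5) (nat_lit 0x400020001000080000000000000000000000000000000) (nat_lit 0x0) (nat_lit 0x28001c000a00000000000040002000000000000000000000000000) := T_43 (nat_lit 194) (nat_lit 177) (nat_lit 5) (nat_lit 8) (nat_lit 7) L108880 (by decide +kernel)
theorem L108882 : W_43 (nat_lit 6) (nat_lit 0x20001000080000000000000000000000000000000) (nat_lit 0x0) (nat_lit 0x28001c000e00050000000040006000100000000000000000000000) := Q_43 (nat_lit 178) (C_43 L1011 (C_43 L1017 (C_43 L1014 (C_43 L108877 (C_43 L108881 N_43))))) (by decide +kernel)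
theorem L108883 : W_43 (nat_lit 2) (nat_lit 0x400020001000080006000000000000000000000000000) (nat_lit 0x0) (nat_lit 0x100008000400000000000000000000000) := D_43 (nat_lit 111) (nat_lit 94) (nat_lit 128) (nat_lit 6) (nat_lit 8) (nat_lit 9) (nat_lit 6) (nat_lit 8) (nat_lit 10) (by decide +kernel)
theorem L108884 : W_43 (nat_lit 3) (nat_lit 0x20001000080006000000000000000000000000000) (nat_lit 0x0) (nat_lit 0x400000000000140008000400000000000000000000000) := T_43 (nat_lit 178) (nat_lit 126) (nat_lit 4) (nat_lit 8) (nat_lit 10) L108883 (by decide +kernel)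
theorem L108885 : W_43 (nat_lit 4) (nat_lit 0x20001000080004000000000000000000000000000) (nat_lit 0x0) (nat_lit 0x40000000000014000a000500000000000000000000000) := T_43 (nat_lit 109) (nat_lit 92) (nat_lit 4) (nat_lit 8) (nat_lit 9) L108884 (by decide +kernel)
theorem L108886 : W_43 (nat_lit 2) (nat_lit 0x40002000100008000c000000000000000000000000000) (nat_lit 0x0) (nat_lit 0x10000800040000000000000000000000000000000000000000) := D_43 (nat_lit 179) (nat_lit 196) (nat_lit 162) (nat_lit 7) (nat_lit 8) (nat_lit 7) (nat_lit 7) (nat_lit 8) (nat_lit 6) (by decide +kernel)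
theorem L108887 : W_43 (nat_lit 3) (nat_lit 0x2000100008000c000000000000000000000000000) (nat_lit 0x0) (nat_lit 0x10000c00040000000100000000000000000000000000000000) := T_43 (nat_lit 178) (nat_lit 128) (nat_lit 6) (nat_lit 8) (nat_lit 10) L108886 (by decide +kernel)
theorem L108888 : W_43 (nat_lit 4) (nat_lit 0x20001000080004000000000000000000000000000) (nat_lit 0x0) (nat_lit 0x10000c00040000000100008000400000000000000000000000) := T_43 (nat_lit 111) (nat_lit 94) (nat_lit 6) (nat_lit 8) (nat_lit 9) L108887 (by decide +kernel)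
theorem L108889 : W_43 (nat_lit 3) (nat_lit 0x800020001000080004000000000000000000000000000) (nat_lit 0x0) (nat_lit 0x10000400000000000040002000100000000000000000000000) := T_43 (nat_lit 109) (nat_lit 92) (nat_lit 4) (nat_lit 8) (nat_lit 9) L1019 (by decide +kernel)
theorem L108890 : W_43 (nat_lit 4) (nat_lit 0x20001000080004000000000000000000000000000) (nat_lit 0x0) (nat_lit 0x10000c00040000000040002000100000000000000000000000) := T_43 (nat_lit 179) (nat_lit 162) (nat_lit 7) (nat_lit 8) (nat_lit 6) L108889 (by decide +kernel)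
theorem L108894 : W_43 (nat_lit 5) (nat_lit 0x20001000080000000000000000000000000000000) (nat_lit 0x0) (nat_lit 0x10000c0004000000014000e000700028000000000000000000) := Q_43 (nat_lit 110) (C_43 L108885 (C_43 L108888 (C_43 L108890 (C_43 L108893 N_43)))) (by decide +kernel)
theorem L117231 : W_43 (nat_lit 2) (nat_lit 0x40003000100008000c000000000000000000000000000) (nat_lit 0x0) (nat_lit 0x40002000100000000000000000000000) := D_43 (nat_lit 109) (nat_lit 126) (nat_lit 92) (nat_lit 4) (nat_lit 8) (nat_lit 10) (nat_lit 4) (nat_lit 8) (nat_lit 9) (by decide +kernel)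
theorem L117232 : W_43 (nat_lit 3) (nat_lit 0x3000100008000c000000000000000000000000000) (nat_lit 0x0) (nat_lit 0x400000000000140002000100000000000000000000000) := T_43 (nat_lit 178) (nat_lit 128) (nat_lit 6) (nat_lit 8) (nat_lit 10) L117231 (by decide +kernel)
theorem L117233 : W_43 (nat_lit 4) (nat_lit 0x30001000080004000000000000000000000000000) (nat_lit 0x0) (nat_lit 0x40000000000014000a000500000000000000000000000) := T_43 (nat_lit 111) (nat_lit 94) (nat_lit 6) (nat_lit 8) (nat_lit 9) L117232 (by decide +kernel)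
theorem L117234 : W_43 (nat_lit 5) (nat_lit 0x20001000080004000000000000000000000000000) (nat_lit 0x0) (nat_lit 0x60001000000014000a000500000000000000000000000) := T_43 (nat_lit 160) (nat_lit 177) (nat_lit 5) (nat_lit 8) (nat_lit 6) L117233 (by decide +kernel)
theorem L117236 : W_43 (nat_lit 3) (nat_lit 0x200020001000080004000000000000000000000000000) (nat_lit 0x0) (nat_lit 0x4000400000000000100008000400000000000000000000000) := T_43 (nat_lit 111) (nat_lit 94) (nat_lit 6) (nat_lit 8) (nat_lit 9) L117235 (by decide +kernel)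
theorem L117237 : W_43 (nat_lit 4) (nat_lit 0x20001000080004000000000000000000000000000) (nat_lit 0x0) (nat_lit 0x4000600010000000100008000400000000000000000000000) := T_43 (nat_lit 177) (nat_lit 160) (nat_lit 5) (nat_lit 8) (nat_lit 6) L117236 (by decide +kernel)
theorem L117238 : W_43 (nat_lit 2) (nat_lit 0x400020001000080006000000000000000000000000000) (nat_lit 0x0) (nat_lit 0x4000200010000000000000000000000000000000000000000) := D_43 (nat_lit 177) (nat_lit 194) (nat_lit 160) (nat_lit 5) (nat_lit 8) (nat_lit 7) (nat_lit 5) (nat_lit 8) (nat_lit 6) (by decide +kernel)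
theorem L117239 : W_43 (nat_lit 3) (nat_lit 0x20001000080006000000000000000000000000000) (nat_lit 0x0) (nat_lit 0x4000600010000000040000000000000000000000000000000) := T_43 (nat_lit 178) (nat_lit 126) (nat_lit 4) (nat_lit 8) (nat_lit 10) L117238 (by decide +kernel)
theorem L117240 : W_43 (nat_lit 4) (nat_lit 0x20001000080004000000000000000000000000000) (nat_lit 0x0) (nat_lit 0x4000600010000000040002000100000000000000000000000) := T_43 (nat_lit 109) (nat_lit 92) (nat_lit 4) (nat_lit 8) (nat_lit 9) L117239 (by decide +kernel)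
theorem L117241 : W_43 (nat_lit 2) (nat_lit 0x40002000100008000c000000000000000000000000000) (nat_lit 0x0) (nat_lit 0x40002000100000000000000000000000) := D_43 (nat_lit 109) (nat_lit 126) (nat_lit 92) (nat_lit 4) (nat_lit 8) (nat_lit 10) (nat_lit 4) (nat_lit 8) (nat_lit 9) (by decide +kernel)
theorem L117242 : W_43 (nat_lit 3) (nat_lit 0x2000100008000c000000000000000000000000000) (nat_lit 0x0) (nat_lit 0x400000000000140002000100000000000000000000000) := T_43 (nat_lit 178) (nat_lit 128) (nat_lit 6) (nat_lit 8) (nat_lit 10) L117241 (by decide +kernel)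
theorem L117243 : W_43 (nat_lit 4) (nat_lit 0x20001000080004000000000000000000000000000) (nat_lit 0x0) (nat_lit 0x40000000000014000a000500000000000000000000000) := T_43 (nat_lit 111) (nat_lit 94) (nat_lit 6) (nat_lit 8) (nat_lit 9) L117242 (by decide +kernel)
theorem L117244 : W_43 (nat_lit 2) (nat_lit 0x30001000080004000300000000000000000000000) (nat_lit 0x0) (nat_lit 0x8000400020000000000000000000) := D_43 (nat_lit 94) (nat_lit 111) (nat_lit 77) (nat_lit 6) (nat_lit 8) (nat_lit 9) (nat_lit 6) (nat_lit 8) (nat_lit 8) (by decide +kernel)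
theorem L117245 : W_43 (nat_lit 3) (nat_lit 0x30001000080004000100000000000000000000000) (nat_lit 0x0) (nat_lit 0x8000600028000000000000000000) := T_43 (nat_lit 93) (nat_lit 75) (nat_lit 4) (nat_lit 8) (nat_lit 8) L117244 (by decide +kernel)
theorem L117246 : W_43 (nat_lit 4) (nat_lit 0x20001000080004000100000000000000000000000) (nat_lit 0x0) (nat_lit 0x200010000000000008000600028000000000000000000) := T_43 (nat_lit 160) (nat_lit 177) (nat_lit 5) (nat_lit 8) (nat_lit 6) L117245 (by decide +kernel)
theorem L117247 : W_43 (nat_lit 5) (nat_lit 0x20001000080004000000000000000000000000000) (nat_lit 0x0) (nat_lit 0x20001000000000000a000700028000000000000000000) := T_43 (nat_lit 92) (nat_lit 109) (nat_lit 4) (nat_lit 8) (nat_lit 9) L117246 (by decide +kernel)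
theorem L117248 : W_43 (nat_lit 6) (nat_lit 0x20001000080000000000000000000000000000000) (nat_lit 0x0) (nat_lit 0x400060001000000014000e000700028000000000000000000) := Q_43 (nat_lit 110) (C_43 L117234 (C_43 L117237 (C_43 L117240 (C_43 L117243 (C_43 L117247 N_43))))) (by decide +kernel)
end Crest.Agent.Helper32.Snaky.R1_0
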