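import Crest.Agent.Helper32.Snaky.Gen.R1_0_p1
set_option autoImplicit false
set_option maxRecDepth 100000
set_option linter.all false
set_option Elab.async false
namespace Crest.Agent.Helper32.Snaky.R1_0
@[reducible] def W_45 (d M Bz Z : Nat) : Prop := Crest.Agent.Helper32.Snaky.Wins (nat_lit 17) d M Bz Z
theorem D_45 {d M Bz Z : Nat} (m t1 t2 o1 x1 y1 o2 x2 y2 : Nat) (h : Crest.Agent.Helper32.Snaky.chkDoubleC (nat_lit 17) d M Bz Z m t1 t2 o1 x1 y1 o2 x2 y2 = true) : W_45 d M Bz Z := Crest.Agent.Helper32.Snaky.doubleC m t1 t2 o1 x1 y1 o2 x2 y2 h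
theorem T_45 {d M Bz Z cd cM cBz cZ : Nat} (m t o x y : Nat) (child : W_45 cd cM cBz cZ) (h : Crest.Agent.Helper32.Snaky.chkThreatC (nat_lit 17) d M Bz Z cd cM cBz cZ m t o x y = true) : W_45 d M Bz Z := Crest.Agent.Helper32.Snaky.threatC m t o x y child h
theorem Q_45 {d M Bz Z : Nat} (m : Nat) {l : List Crest.Agent.Helper32.Snaky.Spec} (kids : Crest.Agent.Helper32.Snaky.AllWins (nat_lit 17) l) (h : Crest.Agent.Helper32.Snaky.chkQuiet d M Bz Z m l = true) : W_45 d M Bz Z := Crest.Agent.Helper32.Snaky.quiet m kids h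
theorem C_45 {cd cM cBz cZ : Nat} {l : List Crest.Agent.Helper32.Snaky.Spec} (h : W_45 cd cM cBz cZ) (hl : Crest.Agent.Helper32.Snaky.AllWins (nat_lit 17) l) : Crest.Agent.Helper32.Snaky.AllWins (nat_lit 17) ((cd, cM, cBz, cZ) :: l) := Crest.Agent.Helper32.Snaky.AllWins.cons h hl
theorem N_45 : Crest.Agent.Helper32.Snaky.AllWins (nat_lit 17) [] := Crest.Agent.Helper32.Snaky.AllWins.nil
theorem L122035 : W_45 (nat_lit 2) (nat_lit 0x10000f8001800000000000000000000000000) (nat_lit 0x0) (nat_lit 0x4006000000000000000000000000000) := D_45 (nat_lit 109) (nat_lit 110) (nat_lit 122) (nat_lit 2) (nat_lit 4) (nat_lit 7) (nat_lit 2) (nat_lit 3) (nat_lit 7) (by decide +kernel)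
theorem L122036 : W_45 (nat_lit 3) (nat_lit 0x10000f0001800000000000000000000000000) (nat_lit 0x0) (nat_lit 0x80000c006000000000000000000000000000) := T_45 (nat_lit 123) (nat_lit 143) (nat_lit 3) (nat_lit 4) (nat_lit 7) L122035 (by decide +kernel)
theorem L122037 : W_45 (nat_lit 4) (nat_lit 0x10000f0000800000000000000000000000000) (nat_lit 0x0) (nat_lit 0x80010c007000000000000000000000000000) := T_45 (nat_lit 108) (nat_lit 128) (nat_lit 0) (nat_lit 9) (nat_lit 7) L122036 (by decide +kernel)
theorem L122038 : W_45 (nat_lit 5) (nat_lit 0x10000e0000800000000000000000000000000) (nat_lit 0x0) (nat_lit 0x80011c007400000000000000000000000000) := T_45 (nat_lit 124) (nat_lit 106) (nat_lit 0) (nat_lit 8) (nat_lit 7) L122037 (by decide +kernel)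
theorem L122039 : W_45 (nat_lit 2) (nat_lit 0x12000fe002800000000000000000000000000) (nat_lit 0x0) (nat_lit 0xe0000000000000000000000000000000000) := D_45 (nat_lit 138) (nat_lit 137) (nat_lit 139) (nat_lit 1) (nat_lit 5) (nat_lit 7) (nat_lit 1) (nat_lit 6) (nat_lit 7) (by decide +kernel)
theorem L122040 : W_45 (nat_lit 3) (nat_lit 0x12000fc002800000000000000000000000000) (nat_lit 0x0) (nat_lit 0x4e0002000000000000000000000000000000) := T_45 (nat_lit 121) (nat_lit 142) (nat_lit 3) (nat_lit 2) (nat_lit 7) L122039 (by decide +kernel)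
theorem L122041 : W_45 (nat_lit 4) (nat_lit 0x12000f8002800000000000000000000000000) (nat_lit 0x0) (nat_lit 0x4e0006001000000000000000000000000000) := T_45 (nat_lit 122) (nat_lit 108) (nat_lit 2) (nat_lit 3) (nat_lit 7) L122040 (by decide +kernel)
theorem L122042 : W_45 (nat_lit 5) (nat_lit 0x12000f8000800000000000000000000000000) (nat_lit 0x0) (nat_lit 0x4e0006007000000000000000000000000000) := T_45 (nat_lit 109) (nat_lit 110) (nat_lit 2) (nat_lit 4) (nat_lit 7) L122041 (by decide +kernel)
theorem L122043 : W_45 (nat_lit 6) (nat_lit 0x12000f0000800000000000000000000000000) (nat_lit 0x0) (nat_lit 0xce000e007000000000000000000000000000) := T_45 (nat_lit 123) (nat_lit 143) (nat_lit 3) (nat_lit 4) (nat_lit 7) L122042 (by decide +kernel)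
theorem L122044 : W_45 (nat_lit 7) (nat_lit 0x10000f0000800000000000000000000000000) (nat_lit 0x0) (nat_lit 0xfe000e007000000000000000000000000000) := T_45 (nat_lit 141) (nat_lit 140) (nat_lit 1) (nat_lit 8) (nat_lit 7) L122043 (by decide +kernel)
theorem L122045 : W_45 (nat_lit 8) (nat_lit 0x10000e0000800000000000000000000000000) (nat_lit 0x0) (nat_lit 0xfe001e007400000000000000000000000000) := T_45 (nat_lit 124) (nat_lit 106) (nat_lit 0) (nat_lit 8) (nat_lit 7) L122044 (by decide +kernel)
theorem L122046 : W_45 (nat_lit 2) (nat_lit 0x10001f0000800000000000000000000000000) (nat_lit 0x0) (nat_lit 0x700000000000000000000000000000000000) := D_45 (nat_lit 141) (nat_lit 140) (nat_lit 142) (nat_lit 1) (nat_lit 8) (nat_lit 7) (nat_lit 1) (nat_lit 9) (nat_lit 7) (by decide +kernel)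
theorem L122047 : W_45 (nat_lit 3) (nat_lit 0x10000f0000800000000000000000000000000) (nat_lit 0x0) (nat_lit 0x700100001000000000000000000000000000) := T_45 (nat_lit 128) (nat_lit 108) (nat_lit 0) (nat_lit 9) (nat_lit 7) L122046 (by decide +kernel)
theorem L122048 : W_45 (nat_lit 4) (nat_lit 0x10000e0000800000000000000000000000000) (nat_lit 0x0) (nat_lit 0x700110001400000000000000000000000000) := T_45 (nat_lit 124) (nat_lit 106) (nat_lit 0) (nat_lit 8) (nat_lit 7) L122047 (by decide +kernel)
theorem L122049 : W_45 (nat_lit 2) (nat_lit 0x10000e0001800000000000000000000000000) (nat_lit 0x0) (nat_lit 0x2600000000000000000000000000) := D_45 (nat_lit 106) (nat_lit 105) (nat_lit 109) (nat_lit 3) (nat_lit 3) (nat_lit 6) (nat_lit 3) (nat_lit 4) (nat_lit 6) (by decide +kernel)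
theorem L122050 : W_45 (nat_lit 3) (nat_lit 0x10000e0000800000000000000000000000000) (nat_lit 0x0) (nat_lit 0x100003600000000000000000000000000) := T_45 (nat_lit 108) (nat_lit 128) (nat_lit 0) (nat_lit 9) (nat_lit 7) L122049 (by decide +kernel)
theorem L122051 : W_45 (nat_lit 2) (nat_lit 0x16000f8002800000000000000000000000000) (nat_lit 0x0) (nat_lit 0x100008000000000000000040000000000000000000000) := D_45 (nat_lit 159) (nat_lit 176) (nat_lit 90) (nat_lit 6) (nat_lit 6) (nat_lit 10) (nat_lit 7) (nat_lit 5) (nat_lit 5) (by decide +kernel)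
theorem L122052 : W_45 (nat_lit 3) (nat_lit 0x12000f8002800000000000000000000000000) (nat_lit 0x0) (nat_lit 0x100008000400100000000040000000000000000000000) := T_45 (nat_lit 142) (nat_lit 128) (nat_lit 1) (nat_lit 9) (nat_lit 7) L122051 (by decide +kernel)
theorem L122053 : W_45 (nat_lit 4) (nat_lit 0x12000f8000800000000000000000000000000) (nat_lit 0x0) (nat_lit 0x100008000400100006000040000000000000000000000) := T_45 (nat_lit 109) (nat_lit 110) (nat_lit 2) (nat_lit 4) (nat_lit 7) L122052 (by decide +kernel)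
theorem L122054 : W_45 (nat_lit 5) (nat_lit 0x12000f0000800000000000000000000000000) (nat_lit 0x0) (nat_lit 0x100008000c00108006000040000000000000000000000) := T_45 (nat_lit 123) (nat_lit 143) (nat_lit 3) (nat_lit 4) (nat_lit 7) L122053 (by decide +kernel)
theorem L122055 : W_45 (nat_lit 6) (nat_lit 0x10000f0000800000000000000000000000000) (nat_lit 0x0) (nat_lit 0x100008000f00108006000040000000000000000000000) := T_45 (nat_lit 141) (nat_lit 140) (nat_lit 1) (nat_lit 8) (nat_lit 7) L122054 (by decide +kernel)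
theorem L122056 : W_45 (nat_lit 7) (nat_lit 0x10000e0000800000000000000000000000000) (nat_lit 0x0) (nat_lit 0x100008000f00118006400040000000000000000000000) := T_45 (nat_lit 124) (nat_lit 106) (nat_lit 0) (nat_lit 8) (nat_lit 7) L122055 (by decide +kernel)
theorem L122057 : W_45 (nat_lit 2) (nat_lit 0x14000e0000800000000000000000000000000) (nat_lit 0x0) (nat_lit 0x200100001000000000000000000000000000) := D_45 (nat_lit 128) (nat_lit 108) (nat_lit 141) (nat_lit 0) (nat_lit 9) (nat_lit 7) (nat_lit 1) (nat_lit 9) (nat_lit 7) (by decide +kernel)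
theorem L122058 : W_45 (nat_lit 2) (nat_lit 0x80014000e0000800000000000000000000000000) (nat_lit 0x0) (nat_lit 0x100000000000010002000000000000000000000000000) := D_45 (nat_lit 176) (nat_lit 109) (nat_lit 124) (nat_lit 6) (nat_lit 6) (nat_lit 10) (nat_lit 4) (nat_lit 6) (nat_lit 10) (by decide +kernel)
theorem L122059 : W_45 (nat_lit 2) (nat_lit 0x1000080014000e0001800000000000000000000000000) (nat_lit 0x0) (nat_lit 0x4000200010000000000000000000000000000000000000000) := D_45 (nat_lit 177) (nat_lit 160) (nat_lit 194) (nat_lit 7) (nat_lit 6) (nat_lit 6) (nat_lit 7) (nat_lit 6) (nat_lit 7) (by decide +kernel)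
theorem L122060 : W_45 (nat_lit 3) (nat_lit 0x80014000e0001800000000000000000000000000) (nat_lit 0x0) (nat_lit 0x4000300010000000010000000000000000000000000000000) := T_45 (nat_lit 176) (nat_lit 124) (nat_lit 4) (nat_lit 6) (nat_lit 10) L122059 (by decide +kernel)
theorem L122061 : W_45 (nat_lit 4) (nat_lit 0x80014000e0000800000000000000000000000000) (nat_lit 0x0) (nat_lit 0x4000300010000000010001000040000000000000000000000) := T_45 (nat_lit 108) (nat_lit 90) (nat_lit 4) (nat_lit 6) (nat_lit 9) L122060 (by decide +kernel)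
theorem L122062 : W_45 (nat_lit 2) (nat_lit 0x1800080014000e0000800000000000000000000000000) (nat_lit 0x0) (nat_lit 0x4000000000001000040000000000000000000000) := D_45 (nat_lit 108) (nat_lit 158) (nat_lit 90) (nat_lit 5) (nat_lit 6) (nat_lit 6) (nat_lit 4) (nat_lit 6) (nat_lit 9) (by decide +kernel)
theorem L122063 : W_45 (nat_lit 3) (nat_lit 0x1000080014000e0000800000000000000000000000000) (nat_lit 0x0) (nat_lit 0x1000080004000000000001000040000000000000000000000) := T_45 (nat_lit 175) (nat_lit 192) (nat_lit 5) (nat_lit 6) (nat_lit 7) L122062 (by decide +kernel)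
theorem L122064 : W_45 (nat_lit 4) (nat_lit 0x80014000e0000800000000000000000000000000) (nat_lit 0x0) (nat_lit 0x1000180004000000000003000040000000000000000000000) := T_45 (nat_lit 176) (nat_lit 109) (nat_lit 6) (nat_lit 6) (nat_lit 10) L122063 (by decide +kernel)
theorem L122065 : W_45 (nat_lit 2) (nat_lit 0xc0014000e0001800080000000000000000000000) (nat_lit 0x0) (nat_lit 0x200010000800000000000000000000000000000000000) := D_45 (nat_lit 160) (nat_lit 177) (nat_lit 143) (nat_lit 7) (nat_lit 6) (nat_lit 6) (nat_lit 7) (nat_lit 6) (nat_lit 5) (by decide +kernel)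
theorem L122066 : W_45 (nat_lit 3) (nat_lit 0xc0014000e0001800000000000000000000000000) (nat_lit 0x0) (nat_lit 0x200010000a00000000000080000000000000000000000) := T_45 (nat_lit 91) (nat_lit 141) (nat_lit 5) (nat_lit 6) (nat_lit 5) L122065 (by decide +kernel)
theorem L122067 : W_45 (nat_lit 4) (nat_lit 0x80014000e0001800000000000000000000000000) (nat_lit 0x0) (nat_lit 0x280014000a00000000000080000000000000000000000) := T_45 (nat_lit 158) (nat_lit 175) (nat_lit 5) (nat_lit 6) (nat_lit 6) L122066 (by decide +kernel)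
theorem L122068 : W_45 (nat_lit 5) (nat_lit 0x80014000e0000800000000000000000000000000) (nat_lit 0x0) (nat_lit 0x280014000a000000010000c0000000000000000000000) := T_45 (nat_lit 108) (nat_lit 90) (nat_lit 4) (nat_lit 6) (nat_lit 9) L122067 (by decide +kernel)
theorem L122069 : W_45 (nat_lit 6) (nat_lit 0x14000e0000800000000000000000000000000) (nat_lit 0x0) (nat_lit 0x500038001c000a000100030000c0000000000000000000000) := Q_45 (nat_lit 159) (C_45 L122058 (C_45 L122061 (C_45 L122064 (C_45 L122068 N_45)))) (by decide +kernel)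
theorem L122070 : W_45 (nat_lit 2) (nat_lit 0x16000e0000800000000000000000000000000) (nat_lit 0x0) (nat_lit 0x180010000000000000000000000000000000) := D_45 (nat_lit 140) (nat_lit 124) (nat_lit 139) (nat_lit 1) (nat_lit 8) (nat_lit 7) (nat_lit 2) (nat_lit 3) (nat_lit 8) (by decide +kernel)
theorem L122071 : W_45 (nat_lit 3) (nat_lit 0x14000e0000800000000000000000000000000) (nat_lit 0x0) (nat_lit 0x380110000000000000000000000000000000) := T_45 (nat_lit 141) (nat_lit 128) (nat_lit 1) (nat_lit 9) (nat_lit 7) L122070 (by decide +kernel)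
theorem L122072 : W_45 (nat_lit 4) (nat_lit 0x14000e0001800000000000000000000000000) (nat_lit 0x0) (nat_lit 0x4000300018000000010000000040000000000000000000000) := T_45 (nat_lit 159) (nat_lit 90) (nat_lit 4) (nat_lit 6) (nat_lit 9) L122060 (by decide +kernel)
theorem L122073 : W_45 (nat_lit 5) (nat_lit 0x14000e0000800000000000000000000000000) (nat_lit 0x0) (nat_lit 0x4000300018000000110001000040000000000000000000000) := T_45 (nat_lit 108) (nat_lit 128) (nat_lit 0) (nat_lit 9) (nat_lit 7) L122072 (by decide +kernel)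
theorem L122074 : W_45 (nat_lit 7) (nat_lit 0x10000e0000800000000000000000000000000) (nat_lit 0x0) (nat_lit 0x500038001c000f801100030000c0000000000000000000000) := Q_45 (nat_lit 142) (C_45 L122057 (C_45 L122069 (C_45 L122071 (C_45 L122073 N_45)))) (by decide +kernel)
theorem L122075 : W_45 (nat_lit 9) (nat_lit 0x10000e0000000000000000000000000000000) (nat_lit 0x0) (nat_lit 0x500038001c000fe011e007e000c0000000000000000000000) := Q_45 (nat_lit 107) (C_45 L122038 (C_45 L122045 (C_45 L122048 (C_45 L122050 (C_45 L122056 (C_45 L122074 N_45)))))) (by decide +kernel)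
theorem L122076 : W_45 (nat_lit 5) (nat_lit 0x10000f0000000000000000000000000000000) (nat_lit 0x0) (nat_lit 0x80010c007c00000000000000000000000000) := T_45 (nat_lit 107) (nat_lit 106) (nat_lit 0) (nat_lit 8) (nat_lit 7) L122037 (by decide +kernel)
theorem L122077 : W_45 (nat_lit 2) (nat_lit 0x10000f0004000000000000000000000000000) (nat_lit 0x0) (nat_lit 0x800008002000000000000000000000000000) := D_45 (nat_lit 123) (nat_lit 109) (nat_lit 143) (nat_lit 2) (nat_lit 4) (nat_lit 7) (nat_lit 3) (nat_lit 4) (nat_lit 7) (by decide +kernel)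
theorem L122078 : W_45 (nat_lit 3) (nat_lit 0x10000f0000000000000000000000000000000) (nat_lit 0x0) (nat_lit 0x80000800e000000000000000000000000000) := T_45 (nat_lit 110) (nat_lit 111) (nat_lit 2) (nat_lit 5) (nat_lit 7) L122077 (by decide +kernel)
theorem L122079 : W_45 (nat_lit 2) (nat_lit 0x12001f0004000000000000000000000000000) (nat_lit 0x0) (nat_lit 0x1c00000000000000000000000000) := D_45 (nat_lit 107) (nat_lit 108) (nat_lit 106) (nat_lit 0) (nat_lit 9) (nat_lit 7) (nat_lit 0) (nat_lit 8) (nat_lit 7) (by decide +kernel)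
theorem L122080 : W_45 (nat_lit 3) (nat_lit 0x12000f0004000000000000000000000000000) (nat_lit 0x0) (nat_lit 0x400100001c00000000000000000000000000) := T_45 (nat_lit 128) (nat_lit 142) (nat_lit 1) (nat_lit 9) (nat_lit 7) L122079 (by decide +kernel)
theorem L122081 : W_45 (nat_lit 4) (nat_lit 0x12000f0000000000000000000000000000000) (nat_lit 0x0) (nat_lit 0x40010000dc00000000000000000000000000) := T_45 (nat_lit 110) (nat_lit 111) (nat_lit 2) (nat_lit 5) (nat_lit 7) L122080 (by decide +kernel)
theorem L122082 : W_45 (nat_lit 5) (nat_lit 0x10000f0000000000000000000000000000000) (nat_lit 0x0) (nat_lit 0x70010000dc00000000000000000000000000) := T_45 (nat_lit 141) (nat_lit 140) (nat_lit 1) (nat_lit 8) (nat_lit 7) L122081 (by decide +kernel)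
theorem L122083 : W_45 (nat_lit 2) (nat_lit 0x12000f0000800000000000000000000000000) (nat_lit 0x0) (nat_lit 0x400100001000000000000000000000000000) := D_45 (nat_lit 128) (nat_lit 142) (nat_lit 108) (nat_lit 1) (nat_lit 9) (nat_lit 7) (nat_lit 0) (nat_lit 9) (nat_lit 7) (by decide +kernel)
theorem L122084 : W_45 (nat_lit 3) (nat_lit 0x12000f0000000000000000000000000000000) (nat_lit 0x0) (nat_lit 0x400100001c00000000000000000000000000) := T_45 (nat_lit 107) (nat_lit 106) (nat_lit 0) (nat_lit 8) (nat_lit 7) L122083 (by decide +kernel)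
theorem L122085 : W_45 (nat_lit 4) (nat_lit 0x10000f0000000000000000000000000000000) (nat_lit 0x0) (nat_lit 0x700100001c00000000000000000000000000) := T_45 (nat_lit 141) (nat_lit 140) (nat_lit 1) (nat_lit 8) (nat_lit 7) L122084 (by decide +kernel)
theorem L122086 : W_45 (nat_lit 6) (nat_lit 0x10000e0000000000000000000000000000000) (nat_lit 0x0) (nat_lit 0xf0011c00fc00000000000000000000000000) := Q_45 (nat_lit 124) (C_45 L122076 (C_45 L122078 (C_45 L122082 (C_45 L122085 N_45)))) (by decide +kernel)
theorem L122087 : W_45 (nat_lit 2) (nat_lit 0x18001f0004800000000000000000000000000) (nat_lit 0x0) (nat_lit 0x10000000000000000200010000000000000000000) := D_45 (nat_lit 93) (nat_lit 76) (nat_lit 160) (nat_lit 5) (nat_lit 8) (nat_lit 4) (nat_lit 5) (nat_lit 8) (nat_lit 5) (by decide +kernel)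
theorem L122088 : W_45 (nat_lit 3) (nat_lit 0x10001f0004800000000000000000000000000) (nat_lit 0x0) (nat_lit 0x10000800008000000200010000000000000000000) := T_45 (nat_lit 143) (nat_lit 123) (nat_lit 3) (nat_lit 4) (nat_lit 7) L122087 (by decide +kernel)
theorem L122089 : W_45 (nat_lit 4) (nat_lit 0x10000f0004800000000000000000000000000) (nat_lit 0x0) (nat_lit 0x10000800108001000200010000000000000000000) := T_45 (nat_lit 128) (nat_lit 108) (nat_lit 0) (nat_lit 9) (nat_lit 7) L122088 (by decide +kernel)
theorem L122090 : W_45 (nat_lit 5) (nat_lit 0x10000f0000800000000000000000000000000) (nat_lit 0x0) (nat_lit 0x1000080010800d000200010000000000000000000) := T_45 (nat_lit 110) (nat_lit 111) (nat_lit 2) (nat_lit 5) (nat_lit 7) L122089 (by decide +kernel)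
theorem L122091 : W_45 (nat_lit 6) (nat_lit 0x10000f0000000000000000000000000000000) (nat_lit 0x0) (nat_lit 0x1000080010800dc00200010000000000000000000) := T_45 (nat_lit 107) (nat_lit 106) (nat_lit 0) (nat_lit 8) (nat_lit 7) L122090 (by decide +kernel)
theorem L122092 : W_45 (nat_lit 2) (nat_lit 0x10000f8000000000000000000000000000000) (nat_lit 0x0) (nat_lit 0x380000000000000000000000000000000000) := D_45 (nat_lit 140) (nat_lit 139) (nat_lit 141) (nat_lit 1) (nat_lit 7) (nat_lit 7) (nat_lit 1) (nat_lit 8) (nat_lit 7) (by decide +kernel)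
theorem L122093 : W_45 (nat_lit 3) (nat_lit 0x10000f0000000000000000000000000000000) (nat_lit 0x0) (nat_lit 0xb80008000000000000000000000000000000) := T_45 (nat_lit 123) (nat_lit 143) (nat_lit 3) (nat_lit 4) (nat_lit 7) L122092 (by decide +kernel)
theorem L122094 : W_45 (nat_lit 7) (nat_lit 0x10000e0000000000000000000000000000000) (nat_lit 0x0) (nat_lit 0x10000f8011800dc00200010000000000000000000) := Q_45 (nat_lit 124) (C_45 L122091 (C_45 L122093 (C_45 L122085 N_45))) (by decide +kernel)
theorem L122095 : W_45 (nat_lit 2) (nat_lit 0x10000f8004800000000000000000000000000) (nat_lit 0x0) (nat_lit 0x380000000000000000000000000000000000) := D_45 (nat_lit 140) (nat_lit 139) (nat_lit 141) (nat_lit 1) (nat_lit 7) (nat_lit 7) (nat_lit 1) (nat_lit 8) (nat_lit 7) (by decide +kernel)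
theorem L122096 : W_45 (nat_lit 3) (nat_lit 0x10000f0004800000000000000000000000000) (nat_lit 0x0) (nat_lit 0x380008002000000000000000000000000000) := T_45 (nat_lit 123) (nat_lit 109) (nat_lit 2) (nat_lit 4) (nat_lit 7) L122095 (by decide +kernel)
theorem L122097 : W_45 (nat_lit 4) (nat_lit 0x10000f0000800000000000000000000000000) (nat_lit 0x0) (nat_lit 0x38000800e000000000000000000000000000) := T_45 (nat_lit 110) (nat_lit 111) (nat_lit 2) (nat_lit 5) (nat_lit 7) L122096 (by decide +kernel)
theorem L122098 : W_45 (nat_lit 5) (nat_lit 0x10000f0000000000000000000000000000000) (nat_lit 0x0) (nat_lit 0x38000800ec00000000000000000000000000) := T_45 (nat_lit 107) (nat_lit 106) (nat_lit 0) (nat_lit 8) (nat_lit 7) L122097 (by decide +kernel)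
theorem L122099 : W_45 (nat_lit 2) (nat_lit 0x12000f0005800000000000000000000000000) (nat_lit 0x0) (nat_lit 0x4000000000000000080004000000000000000000) := D_45 (nat_lit 91) (nat_lit 74) (nat_lit 158) (nat_lit 5) (nat_lit 6) (nat_lit 4) (nat_lit 6) (nat_lit 5) (nat_lit 9) (by decide +kernel)
theorem L122100 : W_45 (nat_lit 3) (nat_lit 0x10000f0005800000000000000000000000000) (nat_lit 0x0) (nat_lit 0x4000300000000000080004000000000000000000) := T_45 (nat_lit 141) (nat_lit 140) (nat_lit 1) (nat_lit 8) (nat_lit 7) L122099 (by decide +kernel)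
theorem L122101 : W_45 (nat_lit 4) (nat_lit 0x10000f0004800000000000000000000000000) (nat_lit 0x0) (nat_lit 0x4000300100001000080004000000000000000000) := T_45 (nat_lit 108) (nat_lit 128) (nat_lit 0) (nat_lit 9) (nat_lit 7) L122100 (by decide +kernel)
theorem L122102 : W_45 (nat_lit 5) (nat_lit 0x10000f0000800000000000000000000000000) (nat_lit 0x0) (nat_lit 0x400030010000d000080004000000000000000000) := T_45 (nat_lit 110) (nat_lit 111) (nat_lit 2) (nat_lit 5) (nat_lit 7) L122101 (by decide +kernel)
theorem L122103 : W_45 (nat_lit 6) (nat_lit 0x10000f0000000000000000000000000000000) (nat_lit 0x0) (nat_lit 0x400030010000dc00080004000000000000000000) := T_45 (nat_lit 107) (nat_lit 106) (nat_lit 0) (nat_lit 8) (nat_lit 7) L122102 (by decide +kernel)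
theorem L122104 : W_45 (nat_lit 7) (nat_lit 0x10000e0000000000000000000000000000000) (nat_lit 0x0) (nat_lit 0x14000b8011800fc00280014000000000000000000) := Q_45 (nat_lit 124) (C_45 L122091 (C_45 L122093 (C_45 L122098 (C_45 L122103 N_45)))) (by decide +kernel)
theorem L122105 : W_45 (nat_lit 2) (nat_lit 0x18001e0004000000000000000000000000000) (nat_lit 0x0) (nat_lit 0x10000000000000000200010000000000000000000) := D_45 (nat_lit 93) (nat_lit 76) (nat_lit 160) (nat_lit 5) (nat_lit 8) (nat_lit 4) (nat_lit 5) (nat_lit 8) (nat_lit 5) (by decide +kernel)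
theorem L122106 : W_45 (nat_lit 2) (nat_lit 0x100008001c001e0004000000000000000000000000000) (nat_lit 0x0) (nat_lit 0x4000200010000000000000000000000000000000000000000) := D_45 (nat_lit 177) (nat_lit 160) (nat_lit 194) (nat_lit 6) (nat_lit 7) (nat_lit 10) (nat_lit 7) (nat_lit 6) (nat_lit 7) (by decide +kernel)
theorem L122107 : W_45 (nat_lit 3) (nat_lit 0x8001c001e0004000000000000000000000000000) (nat_lit 0x0) (nat_lit 0x6000300010000000000000000000000000000000000000000) := T_45 (nat_lit 176) (nat_lit 193) (nat_lit 6) (nat_lit 6) (nat_lit 11) L122106 (by decide +kernel)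
theorem L122108 : W_45 (nat_lit 2) (nat_lit 0x10001c001e0002000000000000000000000000000) (nat_lit 0x0) (nat_lit 0x8000000000000000100008000000000000000000) := D_45 (nat_lit 92) (nat_lit 75) (nat_lit 159) (nat_lit 7) (nat_lit 7) (nat_lit 4) (nat_lit 5) (nat_lit 7) (nat_lit 5) (by decide +kernel)
theorem L122109 : W_45 (nat_lit 2) (nat_lit 0x18001e0000000300000000000000000000000) (nat_lit 0x0) (nat_lit 0x4000000018000000000000000000) := D_45 (nat_lit 110) (nat_lit 76) (nat_lit 75) (nat_lit 5) (nat_lit 8) (nat_lit 4) (nat_lit 4) (nat_lit 8) (nat_lit 8) (by decide +kernel)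
theorem L122110 : W_45 (nat_lit 2) (nat_lit 0x1c001e0008000380030000000000000000000) (nat_lit 0x0) (nat_lit 0xc8000000000000000000) := D_45 (nat_lit 78) (nat_lit 79) (nat_lit 75) (nat_lit 1) (nat_lit 11) (nat_lit 4) (nat_lit 1) (nat_lit 10) (nat_lit 4) (by decide +kernel)
theorem L122111 : W_45 (nat_lit 2) (nat_lit 0x18001e0016000700000000000000000000000) (nat_lit 0x0) (nat_lit 0x20001800000000000000000000000) := D_45 (nat_lit 95) (nat_lit 113) (nat_lit 96) (nat_lit 3) (nat_lit 7) (nat_lit 5) (nat_lit 1) (nat_lit 11) (nat_lit 5) (by decide +kernel)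
theorem L122112 : W_45 (nat_lit 3) (nat_lit 0x18001e0016000300000000000000000000000) (nat_lit 0x0) (nat_lit 0x20001c00020000000000000000000) := T_45 (nat_lit 94) (nat_lit 77) (nat_lit 6) (nat_lit 8) (nat_lit 8) L122111 (by decide +kernel)
theorem L122113 : W_45 (nat_lit 2) (nat_lit 0x1c001e0000000100000000000000000000000) (nat_lit 0x0) (nat_lit 0x8000000000002000000008000000000000000000) := D_45 (nat_lit 109) (nat_lit 75) (nat_lit 159) (nat_lit 7) (nat_lit 7) (nat_lit 4) (nat_lit 5) (nat_lit 7) (nat_lit 5) (by decide +kernel)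
theorem L122114 : W_45 (nat_lit 2) (nat_lit 0x14001e000a000100020000000000000000000) (nat_lit 0x0) (nat_lit 0x100008000800000000000000000000000000000000000) := D_45 (nat_lit 159) (nat_lit 176) (nat_lit 143) (nat_lit 6) (nat_lit 6) (nat_lit 10) (nat_lit 5) (nat_lit 7) (nat_lit 5) (by decide +kernel)
theorem L122115 : W_45 (nat_lit 3) (nat_lit 0x10001e000a000100020000000000000000000) (nat_lit 0x0) (nat_lit 0x100008000e00000000000000000000000000000000000) := T_45 (nat_lit 142) (nat_lit 141) (nat_lit 1) (nat_lit 9) (nat_lit 7) L122114 (by decide +kernel)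
theorem L122116 : W_45 (nat_lit 2) (nat_lit 0x14001e0002000100000000000000000000000) (nat_lit 0x0) (nat_lit 0x100008000800000000000000000000000000000000000) := D_45 (nat_lit 159) (nat_lit 176) (nat_lit 143) (nat_lit 6) (nat_lit 6) (nat_lit 10) (nat_lit 5) (nat_lit 7) (nat_lit 5) (by decide +kernel)
theorem L122117 : W_45 (nat_lit 3) (nat_lit 0x14001e0002000000000000000000000000000) (nat_lit 0x0) (nat_lit 0x100008000800000000000100008000000000000000000) := T_45 (nat_lit 92) (nat_lit 75) (nat_lit 7) (nat_lit 7) (nat_lit 4) L122116 (by decide +kernel)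
theorem L122118 : W_45 (nat_lit 4) (nat_lit 0x10001e0002000000000000000000000000000) (nat_lit 0x0) (nat_lit 0x100008000e00000000000100008000000000000000000) := T_45 (nat_lit 142) (nat_lit 141) (nat_lit 1) (nat_lit 9) (nat_lit 7) L122117 (by decide +kernel)
theorem L122119 : W_45 (nat_lit 2) (nat_lit 0x1000100018001e0002000300000000000000000000000) (nat_lit 0x0) (nat_lit 0x6000200000000000000000000000000000000000000000000) := D_45 (nat_lit 177) (nat_lit 194) (nat_lit 193) (nat_lit 6) (nat_lit 7) (nat_lit 11) (nat_lit 5) (nat_lit 7) (nat_lit 7) (by decide +kernel)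
theorem L122120 : W_45 (nat_lit 3) (nat_lit 0x100018001e0002000300000000000000000000000) (nat_lit 0x0) (nat_lit 0x6000300008000000000000000000000000000000000000000) := T_45 (nat_lit 176) (nat_lit 159) (nat_lit 5) (nat_lit 7) (nat_lit 6) L122119 (by decide +kernel)
theorem L122121 : W_45 (nat_lit 4) (nat_lit 0x18001e0002000300000000000000000000000) (nat_lit 0x0) (nat_lit 0x6000300018000000000004000000000000000000000000000) := T_45 (nat_lit 160) (nat_lit 110) (nat_lit 6) (nat_lit 7) (nat_lit 9) L122120 (by decide +kernel)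
theorem L122122 : W_45 (nat_lit 2) (nat_lit 0x10001e0002000380000000000000000000000) (nat_lit 0x0) (nat_lit 0x800000000000000014000000000000000000) := D_45 (nat_lit 143) (nat_lit 76) (nat_lit 74) (nat_lit 6) (nat_lit 7) (nat_lit 8) (nat_lit 4) (nat_lit 7) (nat_lit 8) (by decide +kernel)
theorem L122123 : W_45 (nat_lit 2) (nat_lit 0x10001e000a000380004000000000000000000) (nat_lit 0x0) (nat_lit 0x400022000000000000000000) := D_45 (nat_lit 94) (nat_lit 73) (nat_lit 77) (nat_lit 0) (nat_lit 9) (nat_lit 5) (nat_lit 5) (nat_lit 9) (nat_lit 4) (by decide +kernel)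
theorem L122124 : W_45 (nat_lit 3) (nat_lit 0x10001e0002000380004000000000000000000) (nat_lit 0x0) (nat_lit 0x18000400022000000000000000000) := T_45 (nat_lit 111) (nat_lit 112) (nat_lit 2) (nat_lit 6) (nat_lit 7) L122123 (by decide +kernel)
theorem L122125 : W_45 (nat_lit 4) (nat_lit 0x10001e0002000380000000000000000000000) (nat_lit 0x0) (nat_lit 0x800000018000400026000000000000000000) := T_45 (nat_lit 74) (nat_lit 143) (nat_lit 4) (nat_lit 7) (nat_lit 8) L122124 (by decide +kernel)
theorem L122126 : W_45 (nat_lit 2) (nat_lit 0x10001e000a4003c0021000000000000000000) (nat_lit 0x0) (nat_lit 0x200020000800000000000000000) := D_45 (nat_lit 89) (nat_lit 105) (nat_lit 71) (nat_lit 1) (nat_lit 7) (nat_lit 5) (nat_lit 0) (nat_lit 7) (nat_lit 5) (by decide +kernel)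
theorem L122127 : W_45 (nat_lit 3) (nat_lit 0x10001e000a4003c0020000000000000000000) (nat_lit 0x0) (nat_lit 0x200020003800000000000000000) := T_45 (nat_lit 72) (nat_lit 73) (nat_lit 0) (nat_lit 8) (nat_lit 5) L122126 (by decide +kernel)
theorem L122128 : W_45 (nat_lit 4) (nat_lit 0x10001e000a0003c0020000000000000000000) (nat_lit 0x0) (nat_lit 0xe00020003800000000000000000) := T_45 (nat_lit 106) (nat_lit 107) (nat_lit 1) (nat_lit 8) (nat_lit 5) L122127 (by decide +kernel)
theorem L122129 : W_45 (nat_lit 5) (nat_lit 0x10001e000a000380020000000000000000000) (nat_lit 0x0) (nat_lit 0xe00060013800000000000000000) := T_45 (nat_lit 90) (nat_lit 76) (nat_lit 2) (nat_lit 5) (nat_lit 5) L122128 (by decide +kernel)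
theorem L122130 : W_45 (nat_lit 6) (nat_lit 0x10001e000a000380000000000000000000000) (nat_lit 0x0) (nat_lit 0xe00460033800000000000000000) := T_45 (nat_lit 77) (nat_lit 94) (nat_lit 5) (nat_lit 9) (nat_lit 4) L122129 (by decide +kernel)
theorem L122131 : W_45 (nat_lit 7) (nat_lit 0x10001e0002000380000000000000000000000) (nat_lit 0x0) (nat_lit 0x18e00460033800000000000000000) := T_45 (nat_lit 111) (nat_lit 112) (nat_lit 2) (nat_lit 6) (nat_lit 7) L122130 (by decide +kernel)
theorem L122132 : W_45 (nat_lit 8) (nat_lit 0x10001e0002000300000000000000000000000) (nat_lit 0x0) (nat_lit 0x800000018e004e0037800000000000000000) := Q_45 (nat_lit 91) (C_45 L122122 (C_45 L122125 (C_45 L122131 N_45))) (by decide +kernel)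
theorem L122133 : W_45 (nat_lit 2) (nat_lit 0x10001e0002000700000000000000000000000) (nat_lit 0x0) (nat_lit 0x18000000020000000000000000000) := D_45 (nat_lit 111) (nat_lit 112) (nat_lit 77) (nat_lit 2) (nat_lit 6) (nat_lit 7) (nat_lit 5) (nat_lit 9) (nat_lit 4) (by decide +kernel)
theorem L122134 : W_45 (nat_lit 2) (nat_lit 0x10001e0002000780020000000000000000000) (nat_lit 0x0) (nat_lit 0x800000000000000006000000000000000000) := D_45 (nat_lit 74) (nat_lit 73) (nat_lit 143) (nat_lit 0) (nat_lit 9) (nat_lit 5) (nat_lit 4) (nat_lit 7) (nat_lit 8) (by decide +kernel)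
theorem L122135 : W_45 (nat_lit 3) (nat_lit 0x10001e0002000700020000000000000000000) (nat_lit 0x0) (nat_lit 0x800000000000080046000000000000000000) := T_45 (nat_lit 91) (nat_lit 78) (nat_lit 2) (nat_lit 6) (nat_lit 5) L122134 (by decide +kernel)
theorem L122136 : W_45 (nat_lit 4) (nat_lit 0x10001e0002000700000000000000000000000) (nat_lit 0x0) (nat_lit 0x800000004000080066000000000000000000) := T_45 (nat_lit 77) (nat_lit 110) (nat_lit 6) (nat_lit 8) (nat_lit 8) L122135 (by decide +kernel)
theorem L122137 : W_45 (nat_lit 2) (nat_lit 0x10001e0012000f00080000000000000000000) (nat_lit 0x0) (nat_lit 0x4001000100000000000000000000) := D_45 (nat_lit 96) (nat_lit 110) (nat_lit 80) (nat_lit 1) (nat_lit 11) (nat_lit 5) (nat_lit 2) (nat_lit 8) (nat_lit 5) (by decide +kernel)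
theorem L122138 : W_45 (nat_lit 3) (nat_lit 0x10001e0012000f00000000000000000000000) (nat_lit 0x0) (nat_lit 0x40010001c0000000000000000000) := T_45 (nat_lit 79) (nat_lit 78) (nat_lit 2) (nat_lit 7) (nat_lit 5) L122137 (by decide +kernel)
theorem L122139 : W_45 (nat_lit 4) (nat_lit 0x10001e0012000700000000000000000000000) (nat_lit 0x0) (nat_lit 0x240018001c0000000000000000000) := T_45 (nat_lit 95) (nat_lit 113) (nat_lit 3) (nat_lit 7) (nat_lit 5) L122138 (by decide +kernel)
theorem L122140 : W_45 (nat_lit 5) (nat_lit 0x10001e0002000700000000000000000000000) (nat_lit 0x0) (nat_lit 0x3c0018001c0000000000000000000) := T_45 (nat_lit 112) (nat_lit 111) (nat_lit 2) (nat_lit 6) (nat_lit 7) L122139 (by decide +kernel)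
theorem L122141 : W_45 (nat_lit 6) (nat_lit 0x10001e0002000300000000000000000000000) (nat_lit 0x0) (nat_lit 0x80000003c001c801e6000000000000000000) := Q_45 (nat_lit 94) (C_45 L122133 (C_45 L122136 (C_45 L122140 N_45))) (by decide +kernel)
theorem L122142 : W_45 (nat_lit 2) (nat_lit 0x10001e00020007c0020000000000000000000) (nat_lit 0x0) (nat_lit 0x7000000000000000000) := D_45 (nat_lit 73) (nat_lit 74) (nat_lit 72) (nat_lit 0) (nat_lit 9) (nat_lit 5) (nat_lit 0) (nat_lit 8) (nat_lit 5) (by decide +kernel)
theorem L122143 : W_45 (nat_lit 3) (nat_lit 0x10001e0002000780020000000000000000000) (nat_lit 0x0) (nat_lit 0x40017000000000000000000) := T_45 (nat_lit 90) (nat_lit 76) (nat_lit 2) (nat_lit 5) (nat_lit 5) L122142 (by decide +kernel)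
theorem L122144 : W_45 (nat_lit 4) (nat_lit 0x10001e0002000700020000000000000000000) (nat_lit 0x0) (nat_lit 0xc0057000000000000000000) := T_45 (nat_lit 91) (nat_lit 78) (nat_lit 2) (nat_lit 6) (nat_lit 5) L122143 (by decide +kernel)
theorem L122145 : W_45 (nat_lit 5) (nat_lit 0x10001e0002000700000000000000000000000) (nat_lit 0x0) (nat_lit 0x40000c0077000000000000000000) := T_45 (nat_lit 77) (nat_lit 110) (nat_lit 6) (nat_lit 8) (nat_lit 8) L122144 (by decide +kernel)
theorem L122146 : W_45 (nat_lit 6) (nat_lit 0x10001e0002000300000000000000000000000) (nat_lit 0x0) (nat_lit 0x3c001cc01f7000000000000000000) := Q_45 (nat_lit 94) (C_45 L122133 (C_45 L122140 (C_45 L122145 N_45))) (by decide +kernel)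
theorem L122147 : W_45 (nat_lit 2) (nat_lit 0x10001e0002000300010000000000000000000) (nat_lit 0x0) (nat_lit 0x4000000000000800040000000000) := D_45 (nat_lit 59) (nat_lit 110) (nat_lit 42) (nat_lit 5) (nat_lit 8) (nat_lit 3) (nat_lit 5) (nat_lit 8) (nat_lit 2) (by decide +kernel)
theorem L122148 : W_45 (nat_lit 3) (nat_lit 0x10001e0002000300000000000000000000000) (nat_lit 0x0) (nat_lit 0x800000004000000010000800040000000000) := T_45 (nat_lit 76) (nat_lit 143) (nat_lit 6) (nat_lit 7) (nat_lit 8) L122147 (by decide +kernel)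
theorem L122149 : W_45 (nat_lit 9) (nat_lit 0x10001e0002000100000000000000000000000) (nat_lit 0x0) (nat_lit 0x80000003ce01ee01f7800800040000000000) := Q_45 (nat_lit 93) (C_45 L122148 (C_45 L122132 (C_45 L122141 (C_45 L122146 N_45)))) (by decide +kernel)
theorem L122150 : W_45 (nat_lit 10) (nat_lit 0x10001e0002000000000000000000000000000) (nat_lit 0x0) (nat_lit 0x80000003ce01fe01ff800800040000000000) := T_45 (nat_lit 92) (nat_lit 75) (nat_lit 7) (nat_lit 7) (nat_lit 4) L122149 (by decide +kernel)
theorem L122151 : W_45 (nat_lit 2) (nat_lit 0x14001e0004000200020000000000000000000) (nat_lit 0x0) (nat_lit 0x800000000000000010001000000000000000) := D_45 (nat_lit 76) (nat_lit 60) (nat_lit 143) (nat_lit 6) (nat_lit 8) (nat_lit 7) (nat_lit 5) (nat_lit 8) (nat_lit 4) (by decide +kernel)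
theorem L122152 : W_45 (nat_lit 3) (nat_lit 0x14001e0004000000020000000000000000000) (nat_lit 0x0) (nat_lit 0x800000000000600010001000000000000000) := T_45 (nat_lit 93) (nat_lit 94) (nat_lit 6) (nat_lit 8) (nat_lit 8) L122151 (by decide +kernel)
theorem L122153 : W_45 (nat_lit 4) (nat_lit 0x10001e0004000000020000000000000000000) (nat_lit 0x0) (nat_lit 0xe00000000000600010001000000000000000) := T_45 (nat_lit 142) (nat_lit 141) (nat_lit 1) (nat_lit 9) (nat_lit 7) L122152 (by decide +kernel)
theorem L122154 : W_45 (nat_lit 2) (nat_lit 0x10001e0000001000078000400000000000000) (nat_lit 0x0) (nat_lit 0x2000080000800000000000000) := D_45 (nat_lit 79) (nat_lit 59) (nat_lit 97) (nat_lit 0) (nat_lit 11) (nat_lit 4) (nat_lit 3) (nat_lit 8) (nat_lit 4) (by decide +kernel)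
theorem L122155 : W_45 (nat_lit 3) (nat_lit 0x10001e0000000000078000400000000000000) (nat_lit 0x0) (nat_lit 0x3800080000800000000000000) := T_45 (nat_lit 96) (nat_lit 95) (nat_lit 3) (nat_lit 7) (nat_lit 4) L122154 (by decide +kernel)
theorem L122156 : W_45 (nat_lit 4) (nat_lit 0x10001e0000000000078000000000000000000) (nat_lit 0x0) (nat_lit 0x3800080000e00000000000000) := T_45 (nat_lit 58) (nat_lit 57) (nat_lit 0) (nat_lit 10) (nat_lit 4) L122155 (by decide +kernel)
theorem L122157 : W_45 (nat_lit 2) (nat_lit 0x14001e000000000007c002000000000000000) (nat_lit 0x0) (nat_lit 0x1c00000000000000000000000) := D_45 (nat_lit 95) (nat_lit 96) (nat_lit 94) (nat_lit 3) (nat_lit 7) (nat_lit 4) (nat_lit 3) (nat_lit 6) (nat_lit 4) (by decide +kernel)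
theorem L122158 : W_45 (nat_lit 3) (nat_lit 0x14001e0000000000078002000000000000000) (nat_lit 0x0) (nat_lit 0x1c00004001000000000000000) := T_45 (nat_lit 74) (nat_lit 60) (nat_lit 2) (nat_lit 6) (nat_lit 4) L122157 (by decide +kernel)
theorem L122159 : W_45 (nat_lit 4) (nat_lit 0x14001e0000000000078000000000000000000) (nat_lit 0x0) (nat_lit 0x1c00004007000000000000000) := T_45 (nat_lit 61) (nat_lit 62) (nat_lit 2) (nat_lit 7) (nat_lit 4) L122158 (by decide +kernel)
theorem L122160 : W_45 (nat_lit 5) (nat_lit 0x10001e0000000000078000000000000000000) (nat_lit 0x0) (nat_lit 0x600000000001c00004007000000000000000) := T_45 (nat_lit 142) (nat_lit 141) (nat_lit 1) (nat_lit 9) (nat_lit 7) L122159 (by decide +kernel)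
theorem L122161 : W_45 (nat_lit 3) (nat_lit 0x14001e0000000200020000000000000000000) (nat_lit 0x0) (nat_lit 0x800000004000400010001000000000000000) := T_45 (nat_lit 110) (nat_lit 94) (nat_lit 6) (nat_lit 8) (nat_lit 8) L122151 (by decide +kernel)
theorem L122162 : W_45 (nat_lit 4) (nat_lit 0x10001e0000000200020000000000000000000) (nat_lit 0x0) (nat_lit 0xe00000004000400010001000000000000000) := T_45 (nat_lit 142) (nat_lit 141) (nat_lit 1) (nat_lit 9) (nat_lit 7) L122161 (by decide +kernel)
theorem L122163 : W_45 (nat_lit 2) (nat_lit 0x10001e000000000003e001000000000000000) (nat_lit 0x0) (nat_lit 0x380000000000000) := D_45 (nat_lit 56) (nat_lit 57) (nat_lit 55) (nat_lit 0) (nat_lit 9) (nat_lit 4) (nat_lit 0) (nat_lit 8) (nat_lit 4) (by decide +kernel)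
theorem L122164 : W_45 (nat_lit 3) (nat_lit 0x10001e000000000003c001000000000000000) (nat_lit 0x0) (nat_lit 0x2000b80000000000000) := T_45 (nat_lit 73) (nat_lit 59) (nat_lit 2) (nat_lit 5) (nat_lit 4) L122163 (by decide +kernel)
theorem L122165 : W_45 (nat_lit 2) (nat_lit 0x10001e000000000007c002000000000000000) (nat_lit 0x0) (nat_lit 0x700000000000000) := D_45 (nat_lit 57) (nat_lit 58) (nat_lit 56) (nat_lit 0) (nat_lit 10) (nat_lit 4) (nat_lit 0) (nat_lit 9) (nat_lit 4) (by decide +kernel)
theorem L122166 : W_45 (nat_lit 3) (nat_lit 0x10001e0000000000078002000000000000000) (nat_lit 0x0) (nat_lit 0x4001700000000000000) := T_45 (nat_lit 74) (nat_lit 60) (nat_lit 2) (nat_lit 6) (nat_lit 4) L122165 (by decide +kernel)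
theorem L122167 : W_45 (nat_lit 4) (nat_lit 0x10001e0000000000078000000000000000000) (nat_lit 0x0) (nat_lit 0x4007700000000000000) := T_45 (nat_lit 61) (nat_lit 62) (nat_lit 2) (nat_lit 7) (nat_lit 4) L122166 (by decide +kernel)
theorem L122168 : W_45 (nat_lit 2) (nat_lit 0x10001e000000040003e001000000000000000) (nat_lit 0x0) (nat_lit 0xe0000000000000000000000) := D_45 (nat_lit 90) (nat_lit 89) (nat_lit 91) (nat_lit 1) (nat_lit 8) (nat_lit 4) (nat_lit 1) (nat_lit 9) (nat_lit 4) (by decide +kernel)
theorem L122169 : W_45 (nat_lit 3) (nat_lit 0x10001e000000040003c001000000000000000) (nat_lit 0x0) (nat_lit 0xe0002000800000000000000) := T_45 (nat_lit 73) (nat_lit 59) (nat_lit 2) (nat_lit 5) (nat_lit 4) L122168 (by decide +kernel)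
theorem L122170 : W_45 (nat_lit 4) (nat_lit 0x10001e000000040003c000000000000000000) (nat_lit 0x0) (nat_lit 0xe0002003800000000000000) := T_45 (nat_lit 60) (nat_lit 61) (nat_lit 2) (nat_lit 6) (nat_lit 4) L122169 (by decide +kernel)
theorem L122171 : W_45 (nat_lit 2) (nat_lit 0x14001e000000000003e001000000000000000) (nat_lit 0x0) (nat_lit 0xe0000000000000000000000) := D_45 (nat_lit 90) (nat_lit 89) (nat_lit 91) (nat_lit 1) (nat_lit 8) (nat_lit 4) (nat_lit 1) (nat_lit 9) (nat_lit 4) (by decide +kernel)
theorem L122172 : W_45 (nat_lit 3) (nat_lit 0x14001e000000000003c001000000000000000) (nat_lit 0x0) (nat_lit 0xe0002000800000000000000) := T_45 (nat_lit 73) (nat_lit 59) (nat_lit 2) (nat_lit 5) (nat_lit 4) L122171 (by decide +kernel)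
theorem L122173 : W_45 (nat_lit 4) (nat_lit 0x14001e000000000003c000000000000000000) (nat_lit 0x0) (nat_lit 0xe0002003800000000000000) := T_45 (nat_lit 60) (nat_lit 61) (nat_lit 2) (nat_lit 6) (nat_lit 4) L122172 (by decide +kernel)
theorem L122174 : W_45 (nat_lit 5) (nat_lit 0x10001e000000000003c000000000000000000) (nat_lit 0x0) (nat_lit 0x6000000000000e0002003800000000000000) := T_45 (nat_lit 142) (nat_lit 141) (nat_lit 1) (nat_lit 9) (nat_lit 7) L122173 (by decide +kernel)
theorem L122175 : W_45 (nat_lit 4) (nat_lit 0x10001e000000000003c000000000000000000) (nat_lit 0x0) (nat_lit 0x2003b80000000000000) := T_45 (nat_lit 60) (nat_lit 61) (nat_lit 2) (nat_lit 6) (nat_lit 4) L122164 (by decide +kernel)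
theorem L122176 : W_45 (nat_lit 2) (nat_lit 0x14001e000000008007c000200000000000000) (nat_lit 0x0) (nat_lit 0x1c00000000000000000000000) := D_45 (nat_lit 95) (nat_lit 94) (nat_lit 96) (nat_lit 3) (nat_lit 6) (nat_lit 4) (nat_lit 3) (nat_lit 7) (nat_lit 4) (by decide +kernel)
theorem L122177 : W_45 (nat_lit 3) (nat_lit 0x14001e000000008003c000200000000000000) (nat_lit 0x0) (nat_lit 0x1c00040000400000000000000) := T_45 (nat_lit 78) (nat_lit 58) (nat_lit 0) (nat_lit 10) (nat_lit 4) L122176 (by decide +kernel)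
theorem L122178 : W_45 (nat_lit 4) (nat_lit 0x14001e000000000003c000200000000000000) (nat_lit 0x0) (nat_lit 0x1cc0040000400000000000000) := T_45 (nat_lit 91) (nat_lit 90) (nat_lit 1) (nat_lit 9) (nat_lit 4) L122177 (by decide +kernel)
theorem L122179 : W_45 (nat_lit 5) (nat_lit 0x14001e000000000003c000000000000000000) (nat_lit 0x0) (nat_lit 0x1cc0040000700000000000000) := T_45 (nat_lit 57) (nat_lit 56) (nat_lit 0) (nat_lit 9) (nat_lit 4) L122178 (by decide +kernel)
theorem L122180 : W_45 (nat_lit 6) (nat_lit 0x10001e000000000003c000000000000000000) (nat_lit 0x0) (nat_lit 0x600000000001cc0040000700000000000000) := T_45 (nat_lit 142) (nat_lit 141) (nat_lit 1) (nat_lit 9) (nat_lit 7) L122179 (by decide +kernel)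
theorem L122181 : W_45 (nat_lit 5) (nat_lit 0x10001e000000000003c000000000000000000) (nat_lit 0x0) (nat_lit 0xce0002003800000000000000) := T_45 (nat_lit 94) (nat_lit 95) (nat_lit 3) (nat_lit 6) (nat_lit 4) L122170 (by decide +kernel)
theorem L122182 : W_45 (nat_lit 2) (nat_lit 0x14001e000000108007c004200000000000000) (nat_lit 0x0) (nat_lit 0x2000080008000000000000000) := D_45 (nat_lit 79) (nat_lit 63) (nat_lit 97) (nat_lit 2) (nat_lit 8) (nat_lit 4) (nat_lit 3) (nat_lit 8) (nat_lit 4) (by decide +kernel)
theorem L122183 : W_45 (nat_lit 3) (nat_lit 0x14001e000000008007c004200000000000000) (nat_lit 0x0) (nat_lit 0x3800080008000000000000000) := T_45 (nat_lit 96) (nat_lit 95) (nat_lit 3) (nat_lit 7) (nat_lit 4) L122182 (by decide +kernel)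
theorem L122184 : W_45 (nat_lit 4) (nat_lit 0x14001e000000008007c000200000000000000) (nat_lit 0x0) (nat_lit 0x380008000e000000000000000) := T_45 (nat_lit 62) (nat_lit 61) (nat_lit 2) (nat_lit 7) (nat_lit 4) L122183 (by decide +kernel)
theorem L122185 : W_45 (nat_lit 5) (nat_lit 0x14001e000000008003c000200000000000000) (nat_lit 0x0) (nat_lit 0x38000c000e400000000000000) := T_45 (nat_lit 78) (nat_lit 58) (nat_lit 0) (nat_lit 10) (nat_lit 4) L122184 (by decide +kernel)
theorem L122186 : W_45 (nat_lit 6) (nat_lit 0x14001e000000008003c000000000000000000) (nat_lit 0x0) (nat_lit 0x38000c000e700000000000000) := T_45 (nat_lit 57) (nat_lit 56) (nat_lit 0) (nat_lit 9) (nat_lit 4) L122185 (by decide +kernel)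
theorem L122187 : W_45 (nat_lit 7) (nat_lit 0x14001e000000000003c000000000000000000) (nat_lit 0x0) (nat_lit 0x38c00c000e700000000000000) := T_45 (nat_lit 91) (nat_lit 90) (nat_lit 1) (nat_lit 9) (nat_lit 4) L122186 (by decide +kernel)
theorem L122188 : W_45 (nat_lit 8) (nat_lit 0x10001e000000000003c000000000000000000) (nat_lit 0x0) (nat_lit 0x6000000000038c00c000e700000000000000) := T_45 (nat_lit 142) (nat_lit 141) (nat_lit 1) (nat_lit 9) (nat_lit 7) L122187 (by decide +kernel)
theorem L122189 : W_45 (nat_lit 2) (nat_lit 0x14001e000000000003e001000000000000000) (nat_lit 0x0) (nat_lit 0xe00000000000000000000000) := D_45 (nat_lit 94) (nat_lit 95) (nat_lit 93) (nat_lit 3) (nat_lit 6) (nat_lit 4) (nat_lit 3) (nat_lit 5) (nat_lit 4) (by decide +kernel)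
theorem L122190 : W_45 (nat_lit 3) (nat_lit 0x14001e000000000003c001000000000000000) (nat_lit 0x0) (nat_lit 0xe00002000800000000000000) := T_45 (nat_lit 73) (nat_lit 59) (nat_lit 2) (nat_lit 5) (nat_lit 4) L122189 (by decide +kernel)
theorem L122191 : W_45 (nat_lit 4) (nat_lit 0x14001e000000000003c000000000000000000) (nat_lit 0x0) (nat_lit 0xe00002003800000000000000) := T_45 (nat_lit 60) (nat_lit 61) (nat_lit 2) (nat_lit 6) (nat_lit 4) L122190 (by decide +kernel)
theorem L122192 : W_45 (nat_lit 5) (nat_lit 0x10001e000000000003c000000000000000000) (nat_lit 0x0) (nat_lit 0x600000000000e00002003800000000000000) := T_45 (nat_lit 142) (nat_lit 141) (nat_lit 1) (nat_lit 9) (nat_lit 7) L122191 (by decide +kernel)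
theorem L122193 : W_45 (nat_lit 2) (nat_lit 0x10001e000000080003c002200000000000000) (nat_lit 0x0) (nat_lit 0x1000040004000000000000000) := D_45 (nat_lit 78) (nat_lit 96) (nat_lit 62) (nat_lit 3) (nat_lit 7) (nat_lit 4) (nat_lit 2) (nat_lit 7) (nat_lit 4) (by decide +kernel)
theorem L122194 : W_45 (nat_lit 3) (nat_lit 0x10001e000000080003c000200000000000000) (nat_lit 0x0) (nat_lit 0x1000040007000000000000000) := T_45 (nat_lit 61) (nat_lit 60) (nat_lit 2) (nat_lit 6) (nat_lit 4) L122193 (by decide +kernel)
theorem L122195 : W_45 (nat_lit 4) (nat_lit 0x10001e000000000003c000200000000000000) (nat_lit 0x0) (nat_lit 0x1c00040007000000000000000) := T_45 (nat_lit 95) (nat_lit 94) (nat_lit 3) (nat_lit 6) (nat_lit 4) L122194 (by decide +kernel)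
theorem L122196 : W_45 (nat_lit 5) (nat_lit 0x10001e000000000003c000000000000000000) (nat_lit 0x0) (nat_lit 0x1c00040007300000000000000) := T_45 (nat_lit 57) (nat_lit 56) (nat_lit 0) (nat_lit 9) (nat_lit 4) L122195 (by decide +kernel)
theorem L122197 : W_45 (nat_lit 2) (nat_lit 0x14001e000000080003c002000000000000000) (nat_lit 0x0) (nat_lit 0x1000040004000000000000000) := D_45 (nat_lit 78) (nat_lit 96) (nat_lit 62) (nat_lit 3) (nat_lit 7) (nat_lit 4) (nat_lit 2) (nat_lit 7) (nat_lit 4) (by decide +kernel)
theorem L122198 : W_45 (nat_lit 3) (nat_lit 0x14001e000000080003c000000000000000000) (nat_lit 0x0) (nat_lit 0x1000040007000000000000000) := T_45 (nat_lit 61) (nat_lit 60) (nat_lit 2) (nat_lit 6) (nat_lit 4) L122197 (by decide +kernel)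
theorem L122199 : W_45 (nat_lit 4) (nat_lit 0x14001e000000000003c000000000000000000) (nat_lit 0x0) (nat_lit 0x1c00040007000000000000000) := T_45 (nat_lit 95) (nat_lit 94) (nat_lit 3) (nat_lit 6) (nat_lit 4) L122198 (by decide +kernel)
theorem L122200 : W_45 (nat_lit 5) (nat_lit 0x10001e000000000003c000000000000000000) (nat_lit 0x0) (nat_lit 0x600000000001c00040007000000000000000) := T_45 (nat_lit 142) (nat_lit 141) (nat_lit 1) (nat_lit 9) (nat_lit 7) L122199 (by decide +kernel)
theorem L122201 : W_45 (nat_lit 9) (nat_lit 0x10001e0000000000038000000000000000000) (nat_lit 0x0) (nat_lit 0x600000000003cc00c600ff80000000000000) := Q_45 (nat_lit 74) (C_45 L122200 (C_45 L122196 (C_45 L122188 (C_45 L122175 (C_45 L122180 N_45))))) (by decide +kernel)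
theorem L122202 : W_45 (nat_lit 2) (nat_lit 0x18001e000e000300000000000000000000000) (nat_lit 0x0) (nat_lit 0xc0004000000000000000000) := D_45 (nat_lit 91) (nat_lit 90) (nat_lit 74) (nat_lit 3) (nat_lit 5) (nat_lit 5) (nat_lit 4) (nat_lit 7) (nat_lit 8) (by decide +kernel)
theorem L122203 : W_45 (nat_lit 3) (nat_lit 0x18001e000a000300000000000000000000000) (nat_lit 0x0) (nat_lit 0x100000000000040000c0004000000000000000000) := T_45 (nat_lit 110) (nat_lit 160) (nat_lit 6) (nat_lit 7) (nat_lit 9) L122202 (by decide +kernel)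
theorem L122204 : W_45 (nat_lit 4) (nat_lit 0x18001e000a000100000000000000000000000) (nat_lit 0x0) (nat_lit 0x100000000000040002c0014000000000000000000) := T_45 (nat_lit 93) (nat_lit 76) (nat_lit 6) (nat_lit 7) (nat_lit 8) L122203 (by decide +kernel)
theorem L122205 : W_45 (nat_lit 2) (nat_lit 0x700018001a001e0008000000000000000000000000000) (nat_lit 0x0) (nat_lit 0x800006000000000000000000000000000000000000000) := D_45 (nat_lit 158) (nat_lit 157) (nat_lit 179) (nat_lit 3) (nat_lit 4) (nat_lit 9) (nat_lit 0) (nat_lit 9) (nat_lit 10) (by decide +kernel)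
theorem L122206 : W_45 (nat_lit 3) (nat_lit 0x300018001a001e0008000000000000000000000000000) (nat_lit 0x0) (nat_lit 0x8000c00006000000000000000000000000000000000000000) := T_45 (nat_lit 178) (nat_lit 195) (nat_lit 7) (nat_lit 7) (nat_lit 7) L122205 (by decide +kernel)
theorem L122207 : W_45 (nat_lit 4) (nat_lit 0x300010001a001e0008000000000000000000000000000) (nat_lit 0x0) (nat_lit 0x8000c0000e000000000002000000000000000000000000000) := T_45 (nat_lit 159) (nat_lit 109) (nat_lit 5) (nat_lit 7) (nat_lit 6) L122206 (by decide +kernel)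
theorem L122208 : W_45 (nat_lit 5) (nat_lit 0x200010001a001e0008000000000000000000000000000) (nat_lit 0x0) (nat_lit 0xa000d0000e000000000002000000000000000000000000000) := T_45 (nat_lit 176) (nat_lit 193) (nat_lit 5) (nat_lit 7) (nat_lit 7) L122207 (by decide +kernel)
theorem L122209 : W_45 (nat_lit 2) (nat_lit 0x14001e000a000100000000000000000000000) (nat_lit 0x0) (nat_lit 0x100008000800000000000000000000000000000000000) := D_45 (nat_lit 159) (nat_lit 176) (nat_lit 143) (nat_lit 6) (nat_lit 6) (nat_lit 10) (nat_lit 5) (nat_lit 7) (nat_lit 5) (by decide +kernel)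
theorem L122210 : W_45 (nat_lit 3) (nat_lit 0x14001e0008000100000000000000000000000) (nat_lit 0x0) (nat_lit 0x100008000800000002000000008000000000000000000) := T_45 (nat_lit 109) (nat_lit 75) (nat_lit 7) (nat_lit 7) (nat_lit 4) L122209 (by decide +kernel)
theorem L122211 : W_45 (nat_lit 4) (nat_lit 0x10001e0008000100000000000000000000000) (nat_lit 0x0) (nat_lit 0x100008000e00000002000000008000000000000000000) := T_45 (nat_lit 142) (nat_lit 141) (nat_lit 1) (nat_lit 9) (nat_lit 7) L122210 (by decide +kernel)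
theorem L122212 : W_45 (nat_lit 3) (nat_lit 0x14001e000a000000000000000000000000000) (nat_lit 0x0) (nat_lit 0x100008000800000000000100008000000000000000000) := T_45 (nat_lit 92) (nat_lit 75) (nat_lit 7) (nat_lit 7) (nat_lit 4) L122209 (by decide +kernel)
theorem L122213 : W_45 (nat_lit 4) (nat_lit 0x10001e000a000000000000000000000000000) (nat_lit 0x0) (nat_lit 0x100008000e00000000000100008000000000000000000) := T_45 (nat_lit 142) (nat_lit 141) (nat_lit 1) (nat_lit 9) (nat_lit 7) L122212 (by decide +kernel)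
theorem L122214 : W_45 (nat_lit 2) (nat_lit 0x1c001e000c000780000000000000000000000) (nat_lit 0x0) (nat_lit 0x2000000006000000000000000000) := D_45 (nat_lit 74) (nat_lit 73) (nat_lit 109) (nat_lit 0) (nat_lit 9) (nat_lit 5) (nat_lit 4) (nat_lit 7) (nat_lit 8) (by decide +kernel)
theorem L122215 : W_45 (nat_lit 3) (nat_lit 0x1c001e000c000700000000000000000000000) (nat_lit 0x0) (nat_lit 0x20000c0006000000000000000000) := T_45 (nat_lit 91) (nat_lit 90) (nat_lit 3) (nat_lit 5) (nat_lit 5) L122214 (by decide +kernel)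
theorem L122216 : W_45 (nat_lit 2) (nat_lit 0x16000e0000000000000000000000000000000) (nat_lit 0x0) (nat_lit 0x980000000000000000000000000000000000) := D_45 (nat_lit 140) (nat_lit 139) (nat_lit 143) (nat_lit 2) (nat_lit 3) (nat_lit 8) (nat_lit 2) (nat_lit 4) (nat_lit 8) (by decide +kernel)
theorem L122217 : W_45 (nat_lit 3) (nat_lit 0x14000e0000000000000000000000000000000) (nat_lit 0x0) (nat_lit 0xb80100000000000000000000000000000000) := T_45 (nat_lit 141) (nat_lit 128) (nat_lit 1) (nat_lit 9) (nat_lit 7) L122216 (by decide +kernel)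
theorem L122218 : W_45 (nat_lit 2) (nat_lit 0x14000e0003000000000000000000000000000) (nat_lit 0x0) (nat_lit 0x100000c00000000000000000000000000) := D_45 (nat_lit 107) (nat_lit 128) (nat_lit 106) (nat_lit 0) (nat_lit 9) (nat_lit 7) (nat_lit 3) (nat_lit 4) (nat_lit 6) (by decide +kernel)
theorem L122219 : W_45 (nat_lit 2) (nat_lit 0x80014000e0003000000000000000000000000000) (nat_lit 0x0) (nat_lit 0xc00040000000000000000000000) := D_45 (nat_lit 107) (nat_lit 106) (nat_lit 90) (nat_lit 3) (nat_lit 4) (nat_lit 6) (nat_lit 4) (nat_lit 6) (nat_lit 9) (by decide +kernel)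
theorem L122220 : W_45 (nat_lit 3) (nat_lit 0x14000e0003000000000000000000000000000) (nat_lit 0x0) (nat_lit 0x100008000000000000c00040000000000000000000000) := T_45 (nat_lit 159) (nat_lit 176) (nat_lit 6) (nat_lit 6) (nat_lit 10) L122219 (by decide +kernel)
theorem L122221 : W_45 (nat_lit 2) (nat_lit 0x1c0014000e0003000000000000000000000000000) (nat_lit 0x0) (nat_lit 0x2000800000000000080000000000000000000000) := D_45 (nat_lit 143) (nat_lit 91) (nat_lit 157) (nat_lit 7) (nat_lit 6) (nat_lit 5) (nat_lit 2) (nat_lit 4) (nat_lit 9) (by decide +kernel)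
theorem L122222 : W_45 (nat_lit 3) (nat_lit 0xc0014000e0003000000000000000000000000000) (nat_lit 0x0) (nat_lit 0x200012000800000000000080000000000000000000000) := T_45 (nat_lit 160) (nat_lit 177) (nat_lit 7) (nat_lit 6) (nat_lit 6) L122221 (by decide +kernel)
theorem L122223 : W_45 (nat_lit 4) (nat_lit 0x80014000e0003000000000000000000000000000) (nat_lit 0x0) (nat_lit 0x280016000800000000000080000000000000000000000) := T_45 (nat_lit 158) (nat_lit 175) (nat_lit 5) (nat_lit 6) (nat_lit 6) L122222 (by decide +kernel)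
theorem L122224 : W_45 (nat_lit 5) (nat_lit 0x14000e0003000000000000000000000000000) (nat_lit 0x0) (nat_lit 0x38001e000800000000000080000000000000000000000) := T_45 (nat_lit 159) (nat_lit 176) (nat_lit 6) (nat_lit 6) (nat_lit 10) L122223 (by decide +kernel)
theorem L122225 : W_45 (nat_lit 6) (nat_lit 0x14000e0002000000000000000000000000000) (nat_lit 0x0) (nat_lit 0x38001e000800100001c000c0000000000000000000000) := Q_45 (nat_lit 108) (C_45 L122218 (C_45 L122220 (C_45 L122224 N_45))) (by decide +kernel)
theorem L122226 : W_45 (nat_lit 2) (nat_lit 0x80014000e0002000000000000000000000000000) (nat_lit 0x0) (nat_lit 0x1000100008000000000000000000) := D_45 (nat_lit 92) (nat_lit 75) (nat_lit 108) (nat_lit 7) (nat_lit 7) (nat_lit 4) (nat_lit 6) (nat_lit 6) (nat_lit 9) (by decide +kernel)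
theorem L122227 : W_45 (nat_lit 3) (nat_lit 0x14000e0002000000000000000000000000000) (nat_lit 0x0) (nat_lit 0x100008000000000001000100008000000000000000000) := T_45 (nat_lit 159) (nat_lit 176) (nat_lit 6) (nat_lit 6) (nat_lit 10) L122226 (by decide +kernel)
theorem L122228 : W_45 (nat_lit 2) (nat_lit 0x14000e0003000080000000000000000000000) (nat_lit 0x0) (nat_lit 0x10000800000000000000004000000000000000000) := D_45 (nat_lit 143) (nat_lit 160) (nat_lit 74) (nat_lit 7) (nat_lit 6) (nat_lit 5) (nat_lit 7) (nat_lit 6) (nat_lit 4) (by decide +kernel)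
theorem L122229 : W_45 (nat_lit 2) (nat_lit 0x14000e0003000080000000000000000000000) (nat_lit 0x0) (nat_lit 0x800000000000000004000200000000000000) := D_45 (nat_lit 74) (nat_lit 143) (nat_lit 57) (nat_lit 7) (nat_lit 6) (nat_lit 4) (nat_lit 7) (nat_lit 6) (nat_lit 3) (by decide +kernel)
theorem L122230 : W_45 (nat_lit 2) (nat_lit 0x14000e0003000080008000000000000000000) (nat_lit 0x0) (nat_lit 0x4000600000000000000) := D_45 (nat_lit 74) (nat_lit 57) (nat_lit 58) (nat_lit 7) (nat_lit 6) (nat_lit 3) (nat_lit 6) (nat_lit 6) (nat_lit 7) (by decide +kernel)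
theorem L122231 : W_45 (nat_lit 3) (nat_lit 0x14000e0003000080000000000000000000000) (nat_lit 0x0) (nat_lit 0x10000c000600000000000000) := T_45 (nat_lit 75) (nat_lit 92) (nat_lit 7) (nat_lit 7) (nat_lit 4) L122230 (by decide +kernel)
theorem L122232 : W_45 (nat_lit 2) (nat_lit 0x1c000e00078000d0008000000000000000000) (nat_lit 0x0) (nat_lit 0x600010000000000000000000) := D_45 (nat_lit 93) (nat_lit 76) (nat_lit 94) (nat_lit 5) (nat_lit 8) (nat_lit 4) (nat_lit 2) (nat_lit 5) (nat_lit 6) (by decide +kernel)
theorem L122233 : W_45 (nat_lit 3) (nat_lit 0x1c000e00070000d0008000000000000000000) (nat_lit 0x0) (nat_lit 0xc00600010000000000000000000) := T_45 (nat_lit 107) (nat_lit 106) (nat_lit 3) (nat_lit 4) (nat_lit 6) L122232 (by decide +kernel)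
theorem L122234 : W_45 (nat_lit 4) (nat_lit 0x1c000e00030000d0008000000000000000000) (nat_lit 0x0) (nat_lit 0xcc00600010000000000000000000) := T_45 (nat_lit 110) (nat_lit 111) (nat_lit 0) (nat_lit 9) (nat_lit 6) L122233 (by decide +kernel)
theorem L122235 : W_45 (nat_lit 5) (nat_lit 0x1c000e00030000c0008000000000000000000) (nat_lit 0x0) (nat_lit 0xcc00630010000000000000000000) := T_45 (nat_lit 88) (nat_lit 89) (nat_lit 3) (nat_lit 3) (nat_lit 5) L122234 (by decide +kernel)
theorem L122236 : W_45 (nat_lit 6) (nat_lit 0x1c000e0003000080008000000000000000000) (nat_lit 0x0) (nat_lit 0xcc00670012000000000000000000) := T_45 (nat_lit 90) (nat_lit 73) (nat_lit 4) (nat_lit 6) (nat_lit 8) L122235 (by decide +kernel)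
theorem L122237 : W_45 (nat_lit 7) (nat_lit 0x1c000e0003000080000000000000000000000) (nat_lit 0x0) (nat_lit 0xcc0077001a000000000000000000) := T_45 (nat_lit 75) (nat_lit 92) (nat_lit 7) (nat_lit 7) (nat_lit 4) L122236 (by decide +kernel)
theorem L122238 : W_45 (nat_lit 8) (nat_lit 0x14000e0003000080000000000000000000000) (nat_lit 0x0) (nat_lit 0x1000080000000cc0077001a000000000000000000) := T_45 (nat_lit 143) (nat_lit 160) (nat_lit 7) (nat_lit 6) (nat_lit 5) L122237 (by decide +kernel)
theorem L122239 : W_45 (nat_lit 9) (nat_lit 0x14000e0003000000000000000000000000000) (nat_lit 0x0) (nat_lit 0x1000080000000cc007f001e000600000000000000) := Q_45 (nat_lit 91) (C_45 L122228 (C_45 L122229 (C_45 L122231 (C_45 L122238 N_45)))) (by decide +kernel)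
theorem L122240 : W_45 (nat_lit 2) (nat_lit 0x1c000e00030001c0000000000000000000000) (nat_lit 0x0) (nat_lit 0x4000030000000000000000000000) := D_45 (nat_lit 89) (nat_lit 110) (nat_lit 88) (nat_lit 3) (nat_lit 4) (nat_lit 5) (nat_lit 3) (nat_lit 3) (nat_lit 5) (by decide +kernel)
theorem L122241 : W_45 (nat_lit 3) (nat_lit 0x1c000e0003000180000000000000000000000) (nat_lit 0x0) (nat_lit 0x4000070002000000000000000000) := T_45 (nat_lit 90) (nat_lit 73) (nat_lit 4) (nat_lit 6) (nat_lit 8) L122240 (by decide +kernel)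
theorem L122242 : W_45 (nat_lit 4) (nat_lit 0x1c000e0003000080000000000000000000000) (nat_lit 0x0) (nat_lit 0x400017000a000000000000000000) := T_45 (nat_lit 92) (nat_lit 75) (nat_lit 7) (nat_lit 7) (nat_lit 4) L122241 (by decide +kernel)
theorem L122243 : W_45 (nat_lit 5) (nat_lit 0x14000e0003000080000000000000000000000) (nat_lit 0x0) (nat_lit 0x1000080000000400017000a000000000000000000) := T_45 (nat_lit 143) (nat_lit 160) (nat_lit 7) (nat_lit 6) (nat_lit 5) L122242 (by decide +kernel)
theorem L122244 : W_45 (nat_lit 6) (nat_lit 0x14000e0003000000000000000000000000000) (nat_lit 0x0) (nat_lit 0x100008000000040001f000e000600000000000000) := Q_45 (nat_lit 91) (C_45 L122231 (C_45 L122229 (C_45 L122243 N_45))) (by decide +kernel)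
theorem L122245 : W_45 (nat_lit 10) (nat_lit 0x14000e0002000000000000000000000000000) (nat_lit 0x0) (nat_lit 0x1000080010000dc007f001e000600000000000000) := Q_45 (nat_lit 108) (C_45 L122218 (C_45 L122239 (C_45 L122244 N_45))) (by decide +kernel)
theorem L122246 : W_45 (nat_lit 2) (nat_lit 0x14000e0002000100000000000000000000000) (nat_lit 0x0) (nat_lit 0x100008000800000000000000000000000000000000000) := D_45 (nat_lit 159) (nat_lit 176) (nat_lit 143) (nat_lit 6) (nat_lit 6) (nat_lit 10) (nat_lit 5) (nat_lit 7) (nat_lit 5) (by decide +kernel)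
theorem L122247 : W_45 (nat_lit 3) (nat_lit 0x14000e0002000000000000000000000000000) (nat_lit 0x0) (nat_lit 0x100008000800000000000100008000000000000000000) := T_45 (nat_lit 92) (nat_lit 75) (nat_lit 7) (nat_lit 7) (nat_lit 4) L122246 (by decide +kernel)
theorem L122248 : W_45 (nat_lit 11) (nat_lit 0x14000e0000000000000000000000000000000) (nat_lit 0x0) (nat_lit 0x38001e00080010000fc007f001e000600000000000000) := Q_45 (nat_lit 109) (C_45 L122225 (C_45 L122227 (C_45 L122245 (C_45 L122247 N_45)))) (by decide +kernel)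
theorem L122249 : W_45 (nat_lit 2) (nat_lit 0x14000e000f400080000000000000000000000) (nat_lit 0x0) (nat_lit 0x10000800000000000000004000000000000000000) := D_45 (nat_lit 143) (nat_lit 160) (nat_lit 74) (nat_lit 7) (nat_lit 6) (nat_lit 5) (nat_lit 7) (nat_lit 6) (nat_lit 4) (by decide +kernel)
theorem L122250 : W_45 (nat_lit 3) (nat_lit 0x14000e000f400000000000000000000000000) (nat_lit 0x0) (nat_lit 0x100008000000000000c0004000000000000000000) := T_45 (nat_lit 91) (nat_lit 90) (nat_lit 0) (nat_lit 9) (nat_lit 6) L122249 (by decide +kernel)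
theorem L122251 : W_45 (nat_lit 4) (nat_lit 0x14000e0007400000000000000000000000000) (nat_lit 0x0) (nat_lit 0x100008000000180000c0004000000000000000000) := T_45 (nat_lit 111) (nat_lit 112) (nat_lit 1) (nat_lit 10) (nat_lit 6) L122250 (by decide +kernel)
theorem L122252 : W_45 (nat_lit 5) (nat_lit 0x14000e0007000000000000000000000000000) (nat_lit 0x0) (nat_lit 0x10000800000018c000c0004000000000000000000) := T_45 (nat_lit 106) (nat_lit 107) (nat_lit 3) (nat_lit 4) (nat_lit 6) L122251 (by decide +kernel)
theorem L122253 : W_45 (nat_lit 2) (nat_lit 0x14000e0017800200000000000000000000000) (nat_lit 0x0) (nat_lit 0x800000000000000010000800000000000000) := D_45 (nat_lit 76) (nat_lit 59) (nat_lit 143) (nat_lit 5) (nat_lit 8) (nat_lit 3) (nat_lit 5) (nat_lit 8) (nat_lit 4) (by decide +kernel)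
theorem L122254 : W_45 (nat_lit 3) (nat_lit 0x14000e0017800000000000000000000000000) (nat_lit 0x0) (nat_lit 0x800000000000600010000800000000000000) := T_45 (nat_lit 93) (nat_lit 94) (nat_lit 2) (nat_lit 5) (nat_lit 6) L122253 (by decide +kernel)
theorem L122255 : W_45 (nat_lit 4) (nat_lit 0x14000e0017000000000000000000000000000) (nat_lit 0x0) (nat_lit 0x800000000c00600010000800000000000000) := T_45 (nat_lit 107) (nat_lit 106) (nat_lit 3) (nat_lit 4) (nat_lit 6) L122254 (by decide +kernel)
theorem L122256 : W_45 (nat_lit 5) (nat_lit 0x14000e0007000000000000000000000000000) (nat_lit 0x0) (nat_lit 0x800000018c00600010000800000000000000) := T_45 (nat_lit 112) (nat_lit 111) (nat_lit 1) (nat_lit 10) (nat_lit 6) L122255 (by decide +kernel)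
theorem L122257 : W_45 (nat_lit 2) (nat_lit 0x14000e0007800200000000000000000000000) (nat_lit 0x0) (nat_lit 0x800000000000000010000800000000000000) := D_45 (nat_lit 76) (nat_lit 59) (nat_lit 143) (nat_lit 5) (nat_lit 8) (nat_lit 3) (nat_lit 5) (nat_lit 8) (nat_lit 4) (by decide +kernel)
theorem L122258 : W_45 (nat_lit 3) (nat_lit 0x14000e0007800000000000000000000000000) (nat_lit 0x0) (nat_lit 0x800000000000600010000800000000000000) := T_45 (nat_lit 93) (nat_lit 94) (nat_lit 2) (nat_lit 5) (nat_lit 6) L122257 (by decide +kernel)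
theorem L122259 : W_45 (nat_lit 4) (nat_lit 0x14000e0007000000000000000000000000000) (nat_lit 0x0) (nat_lit 0x800000000c00600010000800000000000000) := T_45 (nat_lit 107) (nat_lit 106) (nat_lit 3) (nat_lit 4) (nat_lit 6) L122258 (by decide +kernel)
theorem L122260 : W_45 (nat_lit 2) (nat_lit 0x14000e000f400480000000000000000000000) (nat_lit 0x0) (nat_lit 0x200020001000000000000000) := D_45 (nat_lit 77) (nat_lit 60) (nat_lit 93) (nat_lit 5) (nat_lit 9) (nat_lit 3) (nat_lit 6) (nat_lit 8) (nat_lit 8) (by decide +kernel)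
theorem L122261 : W_45 (nat_lit 3) (nat_lit 0x14000e000f400080000000000000000000000) (nat_lit 0x0) (nat_lit 0xe00020001000000000000000) := T_45 (nat_lit 94) (nat_lit 95) (nat_lit 2) (nat_lit 6) (nat_lit 6) L122260 (by decide +kernel)
theorem L122262 : W_45 (nat_lit 4) (nat_lit 0x14000e000f400000000000000000000000000) (nat_lit 0x0) (nat_lit 0xec0020001000000000000000) := T_45 (nat_lit 91) (nat_lit 90) (nat_lit 0) (nat_lit 9) (nat_lit 6) L122261 (by decide +kernel)
theorem L122263 : W_45 (nat_lit 5) (nat_lit 0x14000e0007400000000000000000000000000) (nat_lit 0x0) (nat_lit 0x18000ec0020001000000000000000) := T_45 (nat_lit 111) (nat_lit 112) (nat_lit 1) (nat_lit 10) (nat_lit 6) L122262 (by decide +kernel)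
theorem L122264 : W_45 (nat_lit 6) (nat_lit 0x14000e0007000000000000000000000000000) (nat_lit 0x0) (nat_lit 0x18c00ec0020001000000000000000) := T_45 (nat_lit 106) (nat_lit 107) (nat_lit 3) (nat_lit 4) (nat_lit 6) L122263 (by decide +kernel)
theorem L122265 : W_45 (nat_lit 2) (nat_lit 0x14000e000f000080000000000000000000000) (nat_lit 0x0) (nat_lit 0x10000800000000000000004000000000000000000) := D_45 (nat_lit 143) (nat_lit 160) (nat_lit 74) (nat_lit 7) (nat_lit 6) (nat_lit 5) (nat_lit 7) (nat_lit 6) (nat_lit 4) (by decide +kernel)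
theorem L122266 : W_45 (nat_lit 3) (nat_lit 0x14000e000f000000000000000000000000000) (nat_lit 0x0) (nat_lit 0x100008000000000000c0004000000000000000000) := T_45 (nat_lit 91) (nat_lit 90) (nat_lit 0) (nat_lit 9) (nat_lit 6) L122265 (by decide +kernel)
theorem L122267 : W_45 (nat_lit 4) (nat_lit 0x14000e0007000000000000000000000000000) (nat_lit 0x0) (nat_lit 0x100008000000180000c0004000000000000000000) := T_45 (nat_lit 111) (nat_lit 112) (nat_lit 1) (nat_lit 10) (nat_lit 6) L122266 (by decide +kernel)
theorem L122268 : W_45 (nat_lit 7) (nat_lit 0x14000e0003000000000000000000000000000) (nat_lit 0x0) (nat_lit 0x1000080000001cc00ec0034001800000000000000) := Q_45 (nat_lit 110) (C_45 L122252 (C_45 L122256 (C_45 L122259 (C_45 L122264 (C_45 L122267 N_45))))) (by decide +kernel)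
theorem L122269 : W_45 (nat_lit 8) (nat_lit 0x14000e0002000000000000000000000000000) (nat_lit 0x0) (nat_lit 0x38001e00080000001dc00ec0034001800000000000000) := Q_45 (nat_lit 108) (C_45 L122224 (C_45 L122220 (C_45 L122268 N_45))) (by decide +kernel)
theorem L122270 : W_45 (nat_lit 2) (nat_lit 0x1c000e0003000080000000000000000000000) (nat_lit 0x0) (nat_lit 0x4000300000000000000000000000000000000000) := D_45 (nat_lit 141) (nat_lit 140) (nat_lit 158) (nat_lit 2) (nat_lit 4) (nat_lit 8) (nat_lit 5) (nat_lit 6) (nat_lit 5) (by decide +kernel)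
theorem L122271 : W_45 (nat_lit 3) (nat_lit 0x14000e0003000080000000000000000000000) (nat_lit 0x0) (nat_lit 0x14000b00000000000000000000000000000000000) := T_45 (nat_lit 143) (nat_lit 160) (nat_lit 7) (nat_lit 6) (nat_lit 5) L122270 (by decide +kernel)
theorem L122272 : W_45 (nat_lit 2) (nat_lit 0x14000e00030000e0000000200000000000000) (nat_lit 0x0) (nat_lit 0xc800000000000000000000000000) := D_45 (nat_lit 110) (nat_lit 111) (nat_lit 107) (nat_lit 0) (nat_lit 9) (nat_lit 6) (nat_lit 0) (nat_lit 8) (nat_lit 6) (by decide +kernel)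
theorem L122273 : W_45 (nat_lit 3) (nat_lit 0x14000e00030000c0000000200000000000000) (nat_lit 0x0) (nat_lit 0xc800030000000000000000000000) := T_45 (nat_lit 89) (nat_lit 88) (nat_lit 3) (nat_lit 3) (nat_lit 5) L122272 (by decide +kernel)
theorem L122274 : W_45 (nat_lit 4) (nat_lit 0x14000e0003000080000000200000000000000) (nat_lit 0x0) (nat_lit 0xc800070002000000000000000000) := T_45 (nat_lit 90) (nat_lit 73) (nat_lit 4) (nat_lit 6) (nat_lit 8) L122273 (by decide +kernel)
theorem L122275 : W_45 (nat_lit 5) (nat_lit 0x14000e0003000080000000000000000000000) (nat_lit 0x0) (nat_lit 0xc800070006000200000000000000) := T_45 (nat_lit 57) (nat_lit 74) (nat_lit 7) (nat_lit 6) (nat_lit 3) L122274 (by decide +kernel)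
theorem L122276 : W_45 (nat_lit 2) (nat_lit 0x14000e00034001c0000000000000000000000) (nat_lit 0x0) (nat_lit 0x4200020000000000000000000000) := D_45 (nat_lit 89) (nat_lit 110) (nat_lit 105) (nat_lit 3) (nat_lit 4) (nat_lit 5) (nat_lit 1) (nat_lit 7) (nat_lit 5) (by decide +kernel)
theorem L122277 : W_45 (nat_lit 3) (nat_lit 0x14000e0003400180000000000000000000000) (nat_lit 0x0) (nat_lit 0x4200060002000000000000000000) := T_45 (nat_lit 90) (nat_lit 73) (nat_lit 4) (nat_lit 6) (nat_lit 8) L122276 (by decide +kernel)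
theorem L122278 : W_45 (nat_lit 4) (nat_lit 0x14000e0003400080000000000000000000000) (nat_lit 0x0) (nat_lit 0x420016000a000000000000000000) := T_45 (nat_lit 92) (nat_lit 75) (nat_lit 7) (nat_lit 7) (nat_lit 4) L122277 (by decide +kernel)
theorem L122279 : W_45 (nat_lit 5) (nat_lit 0x14000e0003000080000000000000000000000) (nat_lit 0x0) (nat_lit 0x4e0016000a000000000000000000) := T_45 (nat_lit 106) (nat_lit 107) (nat_lit 3) (nat_lit 4) (nat_lit 6) L122278 (by decide +kernel)
theorem L122280 : W_45 (nat_lit 2) (nat_lit 0x1e000e0016000180000000000000000000000) (nat_lit 0x0) (nat_lit 0x6000000000001000000000000000000000000000) := D_45 (nat_lit 158) (nat_lit 108) (nat_lit 157) (nat_lit 5) (nat_lit 6) (nat_lit 5) (nat_lit 1) (nat_lit 8) (nat_lit 8) (by decide +kernel)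
theorem L122281 : W_45 (nat_lit 6) (nat_lit 0x14000e0002000080000000000000000000000) (nat_lit 0x0) (nat_lit 0xde0017000e000600000000000000) := Q_45 (nat_lit 108) (C_45 L122279 (C_45 L122275 (C_45 L122231 N_45))) (by decide +kernel)
theorem L122282 : W_45 (nat_lit 2) (nat_lit 0x1d000e0003400bc0000000000000000000000) (nat_lit 0x0) (nat_lit 0x4000030000000000000000000000) := D_45 (nat_lit 89) (nat_lit 110) (nat_lit 88) (nat_lit 3) (nat_lit 4) (nat_lit 5) (nat_lit 3) (nat_lit 3) (nat_lit 5) (by decide +kernel)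
theorem L122283 : W_45 (nat_lit 3) (nat_lit 0x1d000e0003400b80000000000000000000000) (nat_lit 0x0) (nat_lit 0x4000070002000000000000000000) := T_45 (nat_lit 90) (nat_lit 73) (nat_lit 4) (nat_lit 6) (nat_lit 8) L122282 (by decide +kernel)
theorem L122284 : W_45 (nat_lit 4) (nat_lit 0x1d000e0003400380000000000000000000000) (nat_lit 0x0) (nat_lit 0x4000c70002000000000000000000) := T_45 (nat_lit 95) (nat_lit 94) (nat_lit 1) (nat_lit 10) (nat_lit 5) L122283 (by decide +kernel)
theorem L122285 : W_45 (nat_lit 5) (nat_lit 0x1d000e0003400180000000000000000000000) (nat_lit 0x0) (nat_lit 0x4000e70012000000000000000000) := T_45 (nat_lit 93) (nat_lit 76) (nat_lit 6) (nat_lit 7) (nat_lit 8) L122284 (by decide +kernel)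
theorem L122286 : W_45 (nat_lit 6) (nat_lit 0x1d000e0003000180000000000000000000000) (nat_lit 0x0) (nat_lit 0x4c00e70012000000000000000000) := T_45 (nat_lit 106) (nat_lit 107) (nat_lit 3) (nat_lit 4) (nat_lit 6) L122285 (by decide +kernel)
theorem L122287 : W_45 (nat_lit 7) (nat_lit 0x1d000e0002000180000000000000000000000) (nat_lit 0x0) (nat_lit 0x10000000000005c00e70012000000000000000000) := T_45 (nat_lit 108) (nat_lit 160) (nat_lit 7) (nat_lit 6) (nat_lit 5) L122286 (by decide +kernel)
theorem L122288 : W_45 (nat_lit 8) (nat_lit 0x1c000e0002000180000000000000000000000) (nat_lit 0x0) (nat_lit 0x10000300000005c00e70012000000000000000000) := T_45 (nat_lit 140) (nat_lit 141) (nat_lit 2) (nat_lit 4) (nat_lit 8) L122287 (by decide +kernel)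
theorem L122289 : W_45 (nat_lit 9) (nat_lit 0x14000e0002000180000000000000000000000) (nat_lit 0x0) (nat_lit 0x10000b00000005c00e70016000000000000000000) := T_45 (nat_lit 143) (nat_lit 74) (nat_lit 4) (nat_lit 7) (nat_lit 8) L122288 (by decide +kernel)
theorem L122290 : W_45 (nat_lit 10) (nat_lit 0x14000e0002000080000000000000000000000) (nat_lit 0x0) (nat_lit 0x10000b00000005c00f7001e000000000000000000) := T_45 (nat_lit 92) (nat_lit 75) (nat_lit 7) (nat_lit 7) (nat_lit 4) L122289 (by decide +kernel)
theorem L122291 : W_45 (nat_lit 6) (nat_lit 0x14000e0002000080000000000000000000000) (nat_lit 0x0) (nat_lit 0x14000b0000000d800070006000200000000000000) := Q_45 (nat_lit 108) (C_45 L122275 (C_45 L122271 N_45)) (by decide +kernel)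
theorem L122292 : W_45 (nat_lit 2) (nat_lit 0x1d000e0006000380000000000000000000000) (nat_lit 0x0) (nat_lit 0x8000060000000000000000000000) := D_45 (nat_lit 90) (nat_lit 111) (nat_lit 89) (nat_lit 3) (nat_lit 5) (nat_lit 5) (nat_lit 3) (nat_lit 4) (nat_lit 5) (by decide +kernel)
theorem L122293 : W_45 (nat_lit 3) (nat_lit 0x1d000e0002000380000000000000000000000) (nat_lit 0x0) (nat_lit 0x1000000000000c000060000000000000000000000) := T_45 (nat_lit 110) (nat_lit 160) (nat_lit 6) (nat_lit 7) (nat_lit 9) L122292 (by decide +kernel)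
theorem L122294 : W_45 (nat_lit 4) (nat_lit 0x1d000e0002000180000000000000000000000) (nat_lit 0x0) (nat_lit 0x1000000000000c000260010000000000000000000) := T_45 (nat_lit 93) (nat_lit 76) (nat_lit 6) (nat_lit 7) (nat_lit 8) L122293 (by decide +kernel)
theorem L122295 : W_45 (nat_lit 5) (nat_lit 0x1c000e0002000180000000000000000000000) (nat_lit 0x0) (nat_lit 0x1000030000000c000260010000000000000000000) := T_45 (nat_lit 140) (nat_lit 141) (nat_lit 2) (nat_lit 4) (nat_lit 8) L122294 (by decide +kernel)
theorem L122296 : W_45 (nat_lit 6) (nat_lit 0x14000e0002000180000000000000000000000) (nat_lit 0x0) (nat_lit 0x10000b0000000c000260014000000000000000000) := T_45 (nat_lit 143) (nat_lit 74) (nat_lit 4) (nat_lit 7) (nat_lit 8) L122295 (by decide +kernel)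
theorem L122297 : W_45 (nat_lit 7) (nat_lit 0x14000e0002000080000000000000000000000) (nat_lit 0x0) (nat_lit 0x10000b0000000c00036001c000000000000000000) := T_45 (nat_lit 92) (nat_lit 75) (nat_lit 7) (nat_lit 7) (nat_lit 4) L122296 (by decide +kernel)
theorem L122298 : W_45 (nat_lit 2) (nat_lit 0x1d000e0003400bc0000000000000000000000) (nat_lit 0x0) (nat_lit 0x200030000000000000000000000) := D_45 (nat_lit 89) (nat_lit 88) (nat_lit 105) (nat_lit 3) (nat_lit 3) (nat_lit 5) (nat_lit 1) (nat_lit 7) (nat_lit 5) (by decide +kernel)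
theorem L122299 : W_45 (nat_lit 3) (nat_lit 0x1d000e0003400b80000000000000000000000) (nat_lit 0x0) (nat_lit 0x200070002000000000000000000) := T_45 (nat_lit 90) (nat_lit 73) (nat_lit 4) (nat_lit 6) (nat_lit 8) L122298 (by decide +kernel)
theorem L122300 : W_45 (nat_lit 4) (nat_lit 0x1d000e0003400380000000000000000000000) (nat_lit 0x0) (nat_lit 0x200c70002000000000000000000) := T_45 (nat_lit 95) (nat_lit 94) (nat_lit 1) (nat_lit 10) (nat_lit 5) L122299 (by decide +kernel)
theorem L122301 : W_45 (nat_lit 5) (nat_lit 0x1d000e0003400180000000000000000000000) (nat_lit 0x0) (nat_lit 0x200e70012000000000000000000) := T_45 (nat_lit 93) (nat_lit 76) (nat_lit 6) (nat_lit 7) (nat_lit 8) L122300 (by decide +kernel)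
theorem L122302 : W_45 (nat_lit 6) (nat_lit 0x1d000e0003000180000000000000000000000) (nat_lit 0x0) (nat_lit 0xe00e70012000000000000000000) := T_45 (nat_lit 106) (nat_lit 107) (nat_lit 3) (nat_lit 4) (nat_lit 6) L122301 (by decide +kernel)
theorem L122303 : W_45 (nat_lit 7) (nat_lit 0x1d000e0002000180000000000000000000000) (nat_lit 0x0) (nat_lit 0x10000000000001e00e70012000000000000000000) := T_45 (nat_lit 108) (nat_lit 160) (nat_lit 7) (nat_lit 6) (nat_lit 5) L122302 (by decide +kernel)
theorem L122304 : W_45 (nat_lit 8) (nat_lit 0x1c000e0002000180000000000000000000000) (nat_lit 0x0) (nat_lit 0x10000300000001e00e70012000000000000000000) := T_45 (nat_lit 140) (nat_lit 141) (nat_lit 2) (nat_lit 4) (nat_lit 8) L122303 (by decide +kernel)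
theorem L122305 : W_45 (nat_lit 9) (nat_lit 0x14000e0002000180000000000000000000000) (nat_lit 0x0) (nat_lit 0x10000b00000001e00e70016000000000000000000) := T_45 (nat_lit 143) (nat_lit 74) (nat_lit 4) (nat_lit 7) (nat_lit 8) L122304 (by decide +kernel)
theorem L122306 : W_45 (nat_lit 10) (nat_lit 0x14000e0002000080000000000000000000000) (nat_lit 0x0) (nat_lit 0x10000b00000001e00f7001e000000000000000000) := T_45 (nat_lit 92) (nat_lit 75) (nat_lit 7) (nat_lit 7) (nat_lit 4) L122305 (by decide +kernel)
theorem L122307 : W_45 (nat_lit 2) (nat_lit 0x1d000e0003000380000000000000000000000) (nat_lit 0x0) (nat_lit 0xc00400000000000000000000000) := D_45 (nat_lit 107) (nat_lit 106) (nat_lit 94) (nat_lit 3) (nat_lit 4) (nat_lit 6) (nat_lit 1) (nat_lit 9) (nat_lit 5) (by decide +kernel)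
theorem L122308 : W_45 (nat_lit 3) (nat_lit 0x1d000e0003000180000000000000000000000) (nat_lit 0x0) (nat_lit 0xc00600010000000000000000000) := T_45 (nat_lit 93) (nat_lit 76) (nat_lit 6) (nat_lit 7) (nat_lit 8) L122307 (by decide +kernel)
theorem L122309 : W_45 (nat_lit 4) (nat_lit 0x1d000e0002000180000000000000000000000) (nat_lit 0x0) (nat_lit 0x10000000000001c00600010000000000000000000) := T_45 (nat_lit 108) (nat_lit 160) (nat_lit 7) (nat_lit 6) (nat_lit 5) L122308 (by decide +kernel)
theorem L122310 : W_45 (nat_lit 5) (nat_lit 0x1c000e0002000180000000000000000000000) (nat_lit 0x0) (nat_lit 0x10000300000001c00600010000000000000000000) := T_45 (nat_lit 140) (nat_lit 141) (nat_lit 2) (nat_lit 4) (nat_lit 8) L122309 (by decide +kernel)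
theorem L122311 : W_45 (nat_lit 6) (nat_lit 0x14000e0002000180000000000000000000000) (nat_lit 0x0) (nat_lit 0x10000b00000001c00600014000000000000000000) := T_45 (nat_lit 143) (nat_lit 74) (nat_lit 4) (nat_lit 7) (nat_lit 8) L122310 (by decide +kernel)
theorem L122312 : W_45 (nat_lit 7) (nat_lit 0x14000e0002000080000000000000000000000) (nat_lit 0x0) (nat_lit 0x10000b00000001c0070001c000000000000000000) := T_45 (nat_lit 92) (nat_lit 75) (nat_lit 7) (nat_lit 7) (nat_lit 4) L122311 (by decide +kernel)
theorem L122313 : W_45 (nat_lit 6) (nat_lit 0x14000e0002000080000000000000000000000) (nat_lit 0x0) (nat_lit 0x14000b00000005e0016000a000000000000000000) := Q_45 (nat_lit 108) (C_45 L122279 (C_45 L122271 N_45)) (by decide +kernel)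
theorem L122314 : W_45 (nat_lit 11) (nat_lit 0x14000e0002000000000000000000000000000) (nat_lit 0x0) (nat_lit 0x14000b0000000de00ff001e000600000000000000) := Q_45 (nat_lit 91) (C_45 L122281 (C_45 L122290 (C_45 L122291 (C_45 L122297 (C_45 L122306 (C_45 L122312 (C_45 L122313 N_45))))))) (by decide +kernel)
theorem L122315 : W_45 (nat_lit 12) (nat_lit 0x14000e0000000000000000000000000000000) (nat_lit 0x0) (nat_lit 0x38001e000b0000001fe00ff003e001e00000000000000) := Q_45 (nat_lit 109) (C_45 L122269 (C_45 L122247 (C_45 L122314 (C_45 L122227 N_45)))) (by decide +kernel)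
theorem L122316 : W_45 (nat_lit 2) (nat_lit 0x14000e0001000000000000000000000000000) (nat_lit 0x0) (nat_lit 0x200100000800000000000000000000000000) := D_45 (nat_lit 128) (nat_lit 141) (nat_lit 107) (nat_lit 1) (nat_lit 9) (nat_lit 7) (nat_lit 0) (nat_lit 9) (nat_lit 7) (by decide +kernel)
theorem L122317 : W_45 (nat_lit 2) (nat_lit 0x14000e00010001c0000000000000000000000) (nat_lit 0x0) (nat_lit 0x8000000000002800000000000000000000000000) := D_45 (nat_lit 159) (nat_lit 109) (nat_lit 107) (nat_lit 6) (nat_lit 6) (nat_lit 9) (nat_lit 4) (nat_lit 6) (nat_lit 9) (by decide +kernel)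
theorem L122318 : W_45 (nat_lit 3) (nat_lit 0x14000e00010000c0000000000000000000000) (nat_lit 0x0) (nat_lit 0x8000000000002800100008000000000000000000) := T_45 (nat_lit 92) (nat_lit 75) (nat_lit 6) (nat_lit 6) (nat_lit 8) L122317 (by decide +kernel)
theorem L122319 : W_45 (nat_lit 4) (nat_lit 0x14000e0001000080000000000000000000000) (nat_lit 0x0) (nat_lit 0x800000000000280014000a000000000000000000) := T_45 (nat_lit 90) (nat_lit 73) (nat_lit 4) (nat_lit 6) (nat_lit 8) L122318 (by decide +kernel)
theorem L122320 : W_45 (nat_lit 2) (nat_lit 0x16800e00018001c0000000000000000000000) (nat_lit 0x0) (nat_lit 0x600200000000000000000000000) := D_45 (nat_lit 106) (nat_lit 105) (nat_lit 93) (nat_lit 3) (nat_lit 3) (nat_lit 6) (nat_lit 1) (nat_lit 8) (nat_lit 5) (by decide +kernel)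
theorem L122321 : W_45 (nat_lit 3) (nat_lit 0x16800e00010001c0000000000000000000000) (nat_lit 0x0) (nat_lit 0x8000000000000e00200000000000000000000000) := T_45 (nat_lit 107) (nat_lit 159) (nat_lit 4) (nat_lit 6) (nat_lit 9) L122320 (by decide +kernel)
theorem L122322 : W_45 (nat_lit 4) (nat_lit 0x16000e00010001c0000000000000000000000) (nat_lit 0x0) (nat_lit 0x8000180000000e00200000000000000000000000) := T_45 (nat_lit 139) (nat_lit 140) (nat_lit 2) (nat_lit 3) (nat_lit 8) L122321 (by decide +kernel)
theorem L122323 : W_45 (nat_lit 5) (nat_lit 0x14000e00010001c0000000000000000000000) (nat_lit 0x0) (nat_lit 0xc000380000000e00200000000000000000000000) := T_45 (nat_lit 141) (nat_lit 158) (nat_lit 5) (nat_lit 6) (nat_lit 5) L122322 (by decide +kernel)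
theorem L122324 : W_45 (nat_lit 6) (nat_lit 0x14000e0001000180000000000000000000000) (nat_lit 0x0) (nat_lit 0xc000380000000e00240002000000000000000000) := T_45 (nat_lit 90) (nat_lit 73) (nat_lit 4) (nat_lit 6) (nat_lit 8) L122323 (by decide +kernel)
theorem L122325 : W_45 (nat_lit 7) (nat_lit 0x14000e0001000080000000000000000000000) (nat_lit 0x0) (nat_lit 0xc000380000000e0034000a000000000000000000) := T_45 (nat_lit 92) (nat_lit 75) (nat_lit 6) (nat_lit 6) (nat_lit 8) L122324 (by decide +kernel)
theorem L122326 : W_45 (nat_lit 2) (nat_lit 0x16800e00010000d000c000200010000000000) (nat_lit 0x0) (nat_lit 0x100008000400000) := D_45 (nat_lit 39) (nat_lit 22) (nat_lit 56) (nat_lit 4) (nat_lit 6) (nat_lit 5) (nat_lit 4) (nat_lit 6) (nat_lit 6) (by decide +kernel)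
theorem L122327 : W_45 (nat_lit 3) (nat_lit 0x16800e00010000d000c000200000000000000) (nat_lit 0x0) (nat_lit 0x800000000000100018000400000) := T_45 (nat_lit 40) (nat_lit 107) (nat_lit 5) (nat_lit 6) (nat_lit 2) L122326 (by decide +kernel)
theorem L122328 : W_45 (nat_lit 4) (nat_lit 0x16800e00010000d000c000000000000000000) (nat_lit 0x0) (nat_lit 0x2800000000000300018000400000) := T_45 (nat_lit 57) (nat_lit 109) (nat_lit 7) (nat_lit 6) (nat_lit 3) L122327 (by decide +kernel)
theorem L122329 : W_45 (nat_lit 5) (nat_lit 0x16800e00010000c000c000000000000000000) (nat_lit 0x0) (nat_lit 0x2800030000000300018000400000) := T_45 (nat_lit 88) (nat_lit 89) (nat_lit 2) (nat_lit 3) (nat_lit 5) L122328 (by decide +kernel)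
theorem L122330 : W_45 (nat_lit 6) (nat_lit 0x16800e00010000c0008000000000000000000) (nat_lit 0x0) (nat_lit 0x2800030004000700018000400000) := T_45 (nat_lit 74) (nat_lit 58) (nat_lit 6) (nat_lit 6) (nat_lit 7) L122329 (by decide +kernel)
theorem L122331 : W_45 (nat_lit 7) (nat_lit 0x16000e00010000c0008000000000000000000) (nat_lit 0x0) (nat_lit 0x180000002800030004000700018000400000) := T_45 (nat_lit 139) (nat_lit 140) (nat_lit 2) (nat_lit 3) (nat_lit 8) L122330 (by decide +kernel)
theorem L122332 : W_45 (nat_lit 8) (nat_lit 0x14000e00010000c0008000000000000000000) (nat_lit 0x0) (nat_lit 0x4000380000002800030004000700018000400000) := T_45 (nat_lit 141) (nat_lit 158) (nat_lit 5) (nat_lit 6) (nat_lit 5) L122331 (by decide +kernel)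
theorem L122333 : W_45 (nat_lit 9) (nat_lit 0x14000e00010000c0000000000000000000000) (nat_lit 0x0) (nat_lit 0x400038000000280013000c000700018000400000) := T_45 (nat_lit 75) (nat_lit 92) (nat_lit 6) (nat_lit 6) (nat_lit 8) L122332 (by decide +kernel)
theorem L122334 : W_45 (nat_lit 10) (nat_lit 0x14000e0001000080000000000000000000000) (nat_lit 0x0) (nat_lit 0x400038000000280017000e000700018000400000) := T_45 (nat_lit 90) (nat_lit 73) (nat_lit 4) (nat_lit 6) (nat_lit 8) L122333 (by decide +kernel)
theorem L122335 : W_45 (nat_lit 2) (nat_lit 0x1000080016800e00010000c0000000000000000000000) (nat_lit 0x0) (nat_lit 0x4000200010000000000000000000000000000000000000000) := D_45 (nat_lit 177) (nat_lit 160) (nat_lit 194) (nat_lit 7) (nat_lit 6) (nat_lit 6) (nat_lit 7) (nat_lit 6) (nat_lit 7) (by decide +kernel)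
theorem L122336 : W_45 (nat_lit 3) (nat_lit 0x80016800e00010000c0000000000000000000000) (nat_lit 0x0) (nat_lit 0x4000300010000000000002000000000000000000000000000) := T_45 (nat_lit 176) (nat_lit 109) (nat_lit 6) (nat_lit 6) (nat_lit 10) L122335 (by decide +kernel)
theorem L122337 : W_45 (nat_lit 4) (nat_lit 0x16800e00010000c0000000000000000000000) (nat_lit 0x0) (nat_lit 0x4000300018000000000002800000000000000000000000000) := T_45 (nat_lit 159) (nat_lit 107) (nat_lit 4) (nat_lit 6) (nat_lit 9) L122336 (by decide +kernel)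
theorem L122338 : W_45 (nat_lit 5) (nat_lit 0x16000e00010000c0000000000000000000000) (nat_lit 0x0) (nat_lit 0x4000300018000180000002800000000000000000000000000) := T_45 (nat_lit 139) (nat_lit 140) (nat_lit 2) (nat_lit 3) (nat_lit 8) L122337 (by decide +kernel)
theorem L122339 : W_45 (nat_lit 6) (nat_lit 0x14000e00010000c0000000000000000000000) (nat_lit 0x0) (nat_lit 0x400030001c000380000002800000000000000000000000000) := T_45 (nat_lit 141) (nat_lit 158) (nat_lit 5) (nat_lit 6) (nat_lit 5) L122338 (by decide +kernel)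
theorem L122340 : W_45 (nat_lit 7) (nat_lit 0x14000e0001000080000000000000000000000) (nat_lit 0x0) (nat_lit 0x400030001c000380000002800040002000000000000000000) := T_45 (nat_lit 90) (nat_lit 73) (nat_lit 4) (nat_lit 6) (nat_lit 8) L122339 (by decide +kernel)
theorem L122341 : W_45 (nat_lit 2) (nat_lit 0x80014000e00010001c0000000000000000000000) (nat_lit 0x0) (nat_lit 0x80004000200000000000000000000000000000000000) := D_45 (nat_lit 158) (nat_lit 175) (nat_lit 141) (nat_lit 5) (nat_lit 6) (nat_lit 6) (nat_lit 5) (nat_lit 6) (nat_lit 5) (by decide +kernel)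
theorem L122342 : W_45 (nat_lit 3) (nat_lit 0x14000e00010001c0000000000000000000000) (nat_lit 0x0) (nat_lit 0x8000c000200000002000000000000000000000000000) := T_45 (nat_lit 159) (nat_lit 109) (nat_lit 6) (nat_lit 6) (nat_lit 9) L122341 (by decide +kernel)
theorem L122343 : W_45 (nat_lit 4) (nat_lit 0x14000e00010000c0000000000000000000000) (nat_lit 0x0) (nat_lit 0x8000c000200000002000100008000000000000000000) := T_45 (nat_lit 92) (nat_lit 75) (nat_lit 6) (nat_lit 6) (nat_lit 8) L122342 (by decide +kernel)
theorem L122344 : W_45 (nat_lit 5) (nat_lit 0x14000e0001000080000000000000000000000) (nat_lit 0x0) (nat_lit 0x8000c00020000000200014000a000000000000000000) := T_45 (nat_lit 90) (nat_lit 73) (nat_lit 4) (nat_lit 6) (nat_lit 8) L122343 (by decide +kernel)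
theorem L122345 : W_45 (nat_lit 2) (nat_lit 0x80014000e0001000180000000000000000000000) (nat_lit 0x0) (nat_lit 0x80004000200000000000000000000000000000000000) := D_45 (nat_lit 158) (nat_lit 175) (nat_lit 141) (nat_lit 5) (nat_lit 6) (nat_lit 6) (nat_lit 5) (nat_lit 6) (nat_lit 5) (by decide +kernel)
theorem L122346 : W_45 (nat_lit 3) (nat_lit 0x14000e0001000180000000000000000000000) (nat_lit 0x0) (nat_lit 0x8000c000200000002000000000000000000000000000) := T_45 (nat_lit 159) (nat_lit 109) (nat_lit 6) (nat_lit 6) (nat_lit 9) L122345 (by decide +kernel)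
theorem L122347 : W_45 (nat_lit 4) (nat_lit 0x14000e0001000080000000000000000000000) (nat_lit 0x0) (nat_lit 0x8000c000200000002000100008000000000000000000) := T_45 (nat_lit 92) (nat_lit 75) (nat_lit 6) (nat_lit 6) (nat_lit 8) L122346 (by decide +kernel)
theorem L122348 : W_45 (nat_lit 11) (nat_lit 0x14000e0001000000000000000000000000000) (nat_lit 0x0) (nat_lit 0x400038001c000380000002e003f000e000700018000400000) := Q_45 (nat_lit 91) (C_45 L122319 (C_45 L122325 (C_45 L122334 (C_45 L122340 (C_45 L122344 (C_45 L122347 N_45)))))) (by decide +kernel)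
theorem L122349 : W_45 (nat_lit 2) (nat_lit 0x14000e0001800000000000000000000000000) (nat_lit 0x0) (nat_lit 0x2600000000000000000000000000) := D_45 (nat_lit 106) (nat_lit 105) (nat_lit 109) (nat_lit 3) (nat_lit 3) (nat_lit 6) (nat_lit 3) (nat_lit 4) (nat_lit 6) (by decide +kernel)
theorem L122350 : W_45 (nat_lit 3) (nat_lit 0x14000e0001000000000000000000000000000) (nat_lit 0x0) (nat_lit 0x100002e00000000000000000000000000) := T_45 (nat_lit 107) (nat_lit 128) (nat_lit 0) (nat_lit 9) (nat_lit 7) L122349 (by decide +kernel)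
theorem L122351 : W_45 (nat_lit 2) (nat_lit 0x16800e00030001c0000000000000000000000) (nat_lit 0x0) (nat_lit 0x4000030000000000000000000000) := D_45 (nat_lit 89) (nat_lit 110) (nat_lit 88) (nat_lit 3) (nat_lit 4) (nat_lit 5) (nat_lit 3) (nat_lit 3) (nat_lit 5) (by decide +kernel)
theorem L122352 : W_45 (nat_lit 3) (nat_lit 0x16800e00010001c0000000000000000000000) (nat_lit 0x0) (nat_lit 0x8000000000006000030000000000000000000000) := T_45 (nat_lit 109) (nat_lit 159) (nat_lit 6) (nat_lit 6) (nat_lit 9) L122351 (by decide +kernel)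
theorem L122353 : W_45 (nat_lit 4) (nat_lit 0x16800e00010000c0000000000000000000000) (nat_lit 0x0) (nat_lit 0x8000000000006000130008000000000000000000) := T_45 (nat_lit 92) (nat_lit 75) (nat_lit 6) (nat_lit 6) (nat_lit 8) L122352 (by decide +kernel)
theorem L122354 : W_45 (nat_lit 5) (nat_lit 0x16800e0001000080000000000000000000000) (nat_lit 0x0) (nat_lit 0x800000000000600017000a000000000000000000) := T_45 (nat_lit 90) (nat_lit 73) (nat_lit 4) (nat_lit 6) (nat_lit 8) L122353 (by decide +kernel)
theorem L122355 : W_45 (nat_lit 6) (nat_lit 0x16800e0001000000000000000000000000000) (nat_lit 0x0) (nat_lit 0xc0000000000060001f000a000000000000000000) := T_45 (nat_lit 91) (nat_lit 158) (nat_lit 5) (nat_lit 6) (nat_lit 5) L122354 (by decide +kernel)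
theorem L122356 : W_45 (nat_lit 7) (nat_lit 0x16000e0001000000000000000000000000000) (nat_lit 0x0) (nat_lit 0xc0001800000060001f000a000000000000000000) := T_45 (nat_lit 139) (nat_lit 140) (nat_lit 2) (nat_lit 3) (nat_lit 8) L122355 (by decide +kernel)
theorem L122357 : W_45 (nat_lit 8) (nat_lit 0x14000e0001000000000000000000000000000) (nat_lit 0x0) (nat_lit 0xc0003801000060001f000a000000000000000000) := T_45 (nat_lit 141) (nat_lit 128) (nat_lit 1) (nat_lit 9) (nat_lit 7) L122356 (by decide +kernel)
theorem L122358 : W_45 (nat_lit 12) (nat_lit 0x14000e0000000000000000000000000000000) (nat_lit 0x0) (nat_lit 0x400038001c000380100007e003f000e000700018000400000) := Q_45 (nat_lit 108) (C_45 L122316 (C_45 L122348 (C_45 L122350 (C_45 L122357 N_45)))) (by decide +kernel)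
theorem L122359 : W_45 (nat_lit 13) (nat_lit 0x10000e0000000000000000000000000000000) (nat_lit 0x0) (nat_lit 0x400038001e000f8010001fe00ff003e001f00018000400000) := Q_45 (nat_lit 142) (C_45 L122217 (C_45 L122248 (C_45 L122315 (C_45 L122358 N_45)))) (by decide +kernel)
theorem L122360 : W_45 (nat_lit 2) (nat_lit 0x12000f0000800040000000000000000000000) (nat_lit 0x0) (nat_lit 0x8000400000000000000002000000000000000000) := D_45 (nat_lit 142) (nat_lit 73) (nat_lit 159) (nat_lit 7) (nat_lit 5) (nat_lit 4) (nat_lit 7) (nat_lit 5) (nat_lit 5) (by decide +kernel)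
theorem L122361 : W_45 (nat_lit 3) (nat_lit 0x10000f0000800040000000000000000000000) (nat_lit 0x0) (nat_lit 0x8000700000000000000002000000000000000000) := T_45 (nat_lit 141) (nat_lit 140) (nat_lit 1) (nat_lit 8) (nat_lit 7) L122360 (by decide +kernel)
theorem L122362 : W_45 (nat_lit 2) (nat_lit 0x1e0012000f00048001e0000000000000000000000) (nat_lit 0x0) (nat_lit 0x200018000000000000000000) := D_45 (nat_lit 75) (nat_lit 76) (nat_lit 93) (nat_lit 2) (nat_lit 4) (nat_lit 5) (nat_lit 4) (nat_lit 8) (nat_lit 8) (by decide +kernel)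
theorem L122363 : W_45 (nat_lit 3) (nat_lit 0x1e0012000f00048000e0000000000000000000000) (nat_lit 0x0) (nat_lit 0x2000300018000000000000000000) := T_45 (nat_lit 92) (nat_lit 109) (nat_lit 3) (nat_lit 4) (nat_lit 5) L122362 (by decide +kernel)
theorem L122364 : W_45 (nat_lit 4) (nat_lit 0x1e0012000f00048000c0000000000000000000000) (nat_lit 0x0) (nat_lit 0x2000320019000000000000000000) := T_45 (nat_lit 89) (nat_lit 72) (nat_lit 4) (nat_lit 5) (nat_lit 8) L122363 (by decide +kernel)
theorem L122365 : W_45 (nat_lit 5) (nat_lit 0xe0012000f00048000c0000000000000000000000) (nat_lit 0x0) (nat_lit 0x10000800000002000320019000000000000000000) := T_45 (nat_lit 160) (nat_lit 143) (nat_lit 2) (nat_lit 4) (nat_lit 9) L122364 (by decide +kernel)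
theorem L122366 : W_45 (nat_lit 6) (nat_lit 0x60012000f00048000c0000000000000000000000) (nat_lit 0x0) (nat_lit 0x100018000800000002000320019000000000000000000) := T_45 (nat_lit 159) (nat_lit 176) (nat_lit 7) (nat_lit 5) (nat_lit 6) L122365 (by decide +kernel)
theorem L122367 : W_45 (nat_lit 7) (nat_lit 0x40012000f00048000c0000000000000000000000) (nat_lit 0x0) (nat_lit 0x14001a000800000002000320019000000000000000000) := T_45 (nat_lit 157) (nat_lit 174) (nat_lit 5) (nat_lit 5) (nat_lit 6) L122366 (by decide +kernel)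
theorem L122368 : W_45 (nat_lit 8) (nat_lit 0x12000f00048000c0000000000000000000000) (nat_lit 0x0) (nat_lit 0x14001e000800000003000320019000000000000000000) := T_45 (nat_lit 158) (nat_lit 108) (nat_lit 6) (nat_lit 5) (nat_lit 9) L122367 (by decide +kernel)
theorem L122369 : W_45 (nat_lit 9) (nat_lit 0x12000f0004800040000000000000000000000) (nat_lit 0x0) (nat_lit 0x14001e0008000000030003a001d000000000000000000) := T_45 (nat_lit 91) (nat_lit 74) (nat_lit 6) (nat_lit 5) (nat_lit 8) L122368 (by decide +kernel)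
theorem L122370 : W_45 (nat_lit 10) (nat_lit 0x12000f0000800040000000000000000000000) (nat_lit 0x0) (nat_lit 0x14001e00080000000f0003a001d000000000000000000) := T_45 (nat_lit 110) (nat_lit 111) (nat_lit 2) (nat_lit 5) (nat_lit 7) L122369 (by decide +kernel)
theorem L122371 : W_45 (nat_lit 11) (nat_lit 0x10000f0000800040000000000000000000000) (nat_lit 0x0) (nat_lit 0x14001e000b0000000f0003a001d000000000000000000) := T_45 (nat_lit 141) (nat_lit 140) (nat_lit 1) (nat_lit 8) (nat_lit 7) L122370 (by decide +kernel)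
theorem L122372 : W_45 (nat_lit 2) (nat_lit 0x12000f0000800040002000000000000000000) (nat_lit 0x0) (nat_lit 0x20001000080000000000000) := D_45 (nat_lit 72) (nat_lit 89) (nat_lit 55) (nat_lit 4) (nat_lit 5) (nat_lit 8) (nat_lit 4) (nat_lit 5) (nat_lit 7) (by decide +kernel)
theorem L122373 : W_45 (nat_lit 3) (nat_lit 0x12000f0000800040000000000000000000000) (nat_lit 0x0) (nat_lit 0x400000000000020003000080000000000000) := T_45 (nat_lit 73) (nat_lit 142) (nat_lit 7) (nat_lit 5) (nat_lit 4) L122372 (by decide +kernel)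
theorem L122374 : W_45 (nat_lit 4) (nat_lit 0x10000f0000800040000000000000000000000) (nat_lit 0x0) (nat_lit 0x700000000000020003000080000000000000) := T_45 (nat_lit 141) (nat_lit 140) (nat_lit 1) (nat_lit 8) (nat_lit 7) L122373 (by decide +kernel)
theorem L122375 : W_45 (nat_lit 2) (nat_lit 0x10000f0000800040002000100000000000000) (nat_lit 0x0) (nat_lit 0x4000200010000000000) := D_45 (nat_lit 57) (nat_lit 40) (nat_lit 74) (nat_lit 6) (nat_lit 5) (nat_lit 6) (nat_lit 6) (nat_lit 5) (nat_lit 7) (by decide +kernel)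
theorem L122376 : W_45 (nat_lit 3) (nat_lit 0x10000f0000800040002000000000000000000) (nat_lit 0x0) (nat_lit 0x1000000004000300010000000000) := T_45 (nat_lit 56) (nat_lit 108) (nat_lit 7) (nat_lit 5) (nat_lit 3) L122375 (by decide +kernel)
theorem L122377 : W_45 (nat_lit 4) (nat_lit 0x10000f0000800040000000000000000000000) (nat_lit 0x0) (nat_lit 0x400000001000000006000300010000000000) := T_45 (nat_lit 73) (nat_lit 142) (nat_lit 7) (nat_lit 5) (nat_lit 4) L122376 (by decide +kernel)
theorem L122378 : W_45 (nat_lit 12) (nat_lit 0x10000f0000800000000000000000000000000) (nat_lit 0x0) (nat_lit 0x14001e000f0000000f0003e001f000380010000000000) := Q_45 (nat_lit 90) (C_45 L122361 (C_45 L122371 (C_45 L122374 (C_45 L122377 N_45)))) (by decide +kernel)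
theorem L122379 : W_45 (nat_lit 13) (nat_lit 0x10000f0000000000000000000000000000000) (nat_lit 0x0) (nat_lit 0x14001e000f0000000fc003e001f000380010000000000) := T_45 (nat_lit 107) (nat_lit 106) (nat_lit 0) (nat_lit 8) (nat_lit 7) L122378 (by decide +kernel)
theorem L122380 : W_45 (nat_lit 14) (nat_lit 0x10000e0000000000000000000000000000000) (nat_lit 0x0) (nat_lit 0x14001e000f8001800fc003e001f000380010000000000) := Q_45 (nat_lit 124) (C_45 L122098 (C_45 L122078 (C_45 L122093 (C_45 L122379 N_45)))) (by decide +kernel)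
theorem L122381 : W_45 (nat_lit 2) (nat_lit 0x16000f0004800000000000000000000000000) (nat_lit 0x0) (nat_lit 0x8000000000000000040002000000000000000000) := D_45 (nat_lit 90) (nat_lit 159) (nat_lit 73) (nat_lit 7) (nat_lit 5) (nat_lit 5) (nat_lit 7) (nat_lit 5) (nat_lit 4) (by decide +kernel)
theorem L122382 : W_45 (nat_lit 3) (nat_lit 0x12000f0004800000000000000000000000000) (nat_lit 0x0) (nat_lit 0x8000400100000000040002000000000000000000) := T_45 (nat_lit 142) (nat_lit 128) (nat_lit 1) (nat_lit 9) (nat_lit 7) L122381 (by decide +kernel)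
theorem L122383 : W_45 (nat_lit 4) (nat_lit 0x10000f0004800000000000000000000000000) (nat_lit 0x0) (nat_lit 0x8000700100000000040002000000000000000000) := T_45 (nat_lit 141) (nat_lit 140) (nat_lit 1) (nat_lit 8) (nat_lit 7) L122382 (by decide +kernel)
theorem L122384 : W_45 (nat_lit 5) (nat_lit 0x10000f0000800000000000000000000000000) (nat_lit 0x0) (nat_lit 0x800070010000c000040002000000000000000000) := T_45 (nat_lit 110) (nat_lit 111) (nat_lit 2) (nat_lit 5) (nat_lit 7) L122383 (by decide +kernel)
theorem L122385 : W_45 (nat_lit 6) (nat_lit 0x10000f0000000000000000000000000000000) (nat_lit 0x0) (nat_lit 0x800070010000cc00040002000000000000000000) := T_45 (nat_lit 107) (nat_lit 106) (nat_lit 0) (nat_lit 8) (nat_lit 7) L122384 (by decide +kernel)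
theorem L122386 : W_45 (nat_lit 7) (nat_lit 0x10000e0000000000000000000000000000000) (nat_lit 0x0) (nat_lit 0x8000f8011800ec00040002000000000000000000) := Q_45 (nat_lit 124) (C_45 L122078 (C_45 L122098 (C_45 L122093 (C_45 L122385 N_45)))) (by decide +kernel)
theorem L122387 : W_45 (nat_lit 2) (nat_lit 0x16000f8000800000000000000000000000000) (nat_lit 0x0) (nat_lit 0x100008000000000000000040000000000000000000000) := D_45 (nat_lit 159) (nat_lit 176) (nat_lit 90) (nat_lit 4) (nat_lit 6) (nat_lit 10) (nat_lit 7) (nat_lit 5) (nat_lit 5) (by decide +kernel)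
theorem L122388 : W_45 (nat_lit 3) (nat_lit 0x12000f8000800000000000000000000000000) (nat_lit 0x0) (nat_lit 0x100008000400100000000040000000000000000000000) := T_45 (nat_lit 142) (nat_lit 128) (nat_lit 1) (nat_lit 9) (nat_lit 7) L122387 (by decide +kernel)
theorem L122389 : W_45 (nat_lit 4) (nat_lit 0x12000f0000800000000000000000000000000) (nat_lit 0x0) (nat_lit 0x100008000c00108000000040000000000000000000000) := T_45 (nat_lit 123) (nat_lit 143) (nat_lit 3) (nat_lit 4) (nat_lit 7) L122388 (by decide +kernel)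
theorem L122390 : W_45 (nat_lit 5) (nat_lit 0x10000f0000800000000000000000000000000) (nat_lit 0x0) (nat_lit 0x100008000f00108000000040000000000000000000000) := T_45 (nat_lit 141) (nat_lit 140) (nat_lit 1) (nat_lit 8) (nat_lit 7) L122389 (by decide +kernel)
theorem L122391 : W_45 (nat_lit 6) (nat_lit 0x10000e0000800000000000000000000000000) (nat_lit 0x0) (nat_lit 0x100008000f00118000400040000000000000000000000) := T_45 (nat_lit 124) (nat_lit 106) (nat_lit 0) (nat_lit 8) (nat_lit 7) L122390 (by decide +kernel)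
theorem L122392 : W_45 (nat_lit 2) (nat_lit 0x11000f0000800000000000000000000000000) (nat_lit 0x0) (nat_lit 0x880008000000000000000000000000000000) := D_45 (nat_lit 123) (nat_lit 143) (nat_lit 139) (nat_lit 3) (nat_lit 4) (nat_lit 7) (nat_lit 1) (nat_lit 7) (nat_lit 7) (by decide +kernel)
theorem L122393 : W_45 (nat_lit 3) (nat_lit 0x10000f0000800000000000000000000000000) (nat_lit 0x0) (nat_lit 0xb80008000000000000000000000000000000) := T_45 (nat_lit 140) (nat_lit 141) (nat_lit 1) (nat_lit 8) (nat_lit 7) L122392 (by decide +kernel)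
theorem L122394 : W_45 (nat_lit 4) (nat_lit 0x10000e0000800000000000000000000000000) (nat_lit 0x0) (nat_lit 0xb80018000400000000000000000000000000) := T_45 (nat_lit 124) (nat_lit 106) (nat_lit 0) (nat_lit 8) (nat_lit 7) L122393 (by decide +kernel)
theorem L122395 : W_45 (nat_lit 8) (nat_lit 0x10000e0000000000000000000000000000000) (nat_lit 0x0) (nat_lit 0x500038001c000f80118003e000c0000000000000000000000) := Q_45 (nat_lit 107) (C_45 L122391 (C_45 L122050 (C_45 L122394 (C_45 L122074 N_45)))) (by decide +kernel)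
theorem L122396 : W_45 (nat_lit 6) (nat_lit 0x10000e0000800000000000000000000000000) (nat_lit 0x0) (nat_lit 0x800070011000c400040002000000000000000000) := T_45 (nat_lit 124) (nat_lit 106) (nat_lit 0) (nat_lit 8) (nat_lit 7) L122384 (by decide +kernel)
theorem L122397 : W_45 (nat_lit 5) (nat_lit 0x10000e0000800000000000000000000000000) (nat_lit 0x0) (nat_lit 0x38001800e400000000000000000000000000) := T_45 (nat_lit 124) (nat_lit 106) (nat_lit 0) (nat_lit 8) (nat_lit 7) L122097 (by decide +kernel)
theorem L122398 : W_45 (nat_lit 2) (nat_lit 0x12001e0008800000000000000000000000000) (nat_lit 0x0) (nat_lit 0x100010004000000000000000000000000000) := D_45 (nat_lit 124) (nat_lit 110) (nat_lit 140) (nat_lit 2) (nat_lit 5) (nat_lit 7) (nat_lit 1) (nat_lit 8) (nat_lit 7) (by decide +kernel)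
theorem L122399 : W_45 (nat_lit 3) (nat_lit 0x12001e0000800000000000000000000000000) (nat_lit 0x0) (nat_lit 0x10001001c000000000000000000000000000) := T_45 (nat_lit 111) (nat_lit 112) (nat_lit 2) (nat_lit 6) (nat_lit 7) L122398 (by decide +kernel)
theorem L122400 : W_45 (nat_lit 4) (nat_lit 0x10001e0000800000000000000000000000000) (nat_lit 0x0) (nat_lit 0x70001001c000000000000000000000000000) := T_45 (nat_lit 141) (nat_lit 142) (nat_lit 1) (nat_lit 9) (nat_lit 7) L122399 (by decide +kernel)
theorem L122401 : W_45 (nat_lit 5) (nat_lit 0x10000e0000800000000000000000000000000) (nat_lit 0x0) (nat_lit 0x70011001d000000000000000000000000000) := T_45 (nat_lit 128) (nat_lit 108) (nat_lit 0) (nat_lit 9) (nat_lit 7) L122400 (by decide +kernel)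
theorem L122402 : W_45 (nat_lit 7) (nat_lit 0x10000e0000000000000000000000000000000) (nat_lit 0x0) (nat_lit 0x800078011801fe00040002000000000000000000) := Q_45 (nat_lit 107) (C_45 L122396 (C_45 L122050 (C_45 L122397 (C_45 L122401 N_45)))) (by decide +kernel)
theorem L122403 : W_45 (nat_lit 2) (nat_lit 0x11000f8001800000000000000000000000000) (nat_lit 0x0) (nat_lit 0x6002000000000000000000000000000) := D_45 (nat_lit 122) (nat_lit 121) (nat_lit 109) (nat_lit 2) (nat_lit 2) (nat_lit 7) (nat_lit 2) (nat_lit 3) (nat_lit 7) (by decide +kernel)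
theorem L122404 : W_45 (nat_lit 3) (nat_lit 0x11000f8000800000000000000000000000000) (nat_lit 0x0) (nat_lit 0x106003000000000000000000000000000) := T_45 (nat_lit 108) (nat_lit 128) (nat_lit 0) (nat_lit 9) (nat_lit 7) L122403 (by decide +kernel)
theorem L122405 : W_45 (nat_lit 4) (nat_lit 0x10000f8000800000000000000000000000000) (nat_lit 0x0) (nat_lit 0x180106003000000000000000000000000000) := T_45 (nat_lit 140) (nat_lit 139) (nat_lit 1) (nat_lit 7) (nat_lit 7) L122404 (by decide +kernel)
theorem L122406 : W_45 (nat_lit 5) (nat_lit 0x10000f0000800000000000000000000000000) (nat_lit 0x0) (nat_lit 0x98010e003000000000000000000000000000) := T_45 (nat_lit 123) (nat_lit 143) (nat_lit 3) (nat_lit 4) (nat_lit 7) L122405 (by decide +kernel)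
theorem L122407 : W_45 (nat_lit 6) (nat_lit 0x10000f0000000000000000000000000000000) (nat_lit 0x0) (nat_lit 0x98010e003c00000000000000000000000000) := T_45 (nat_lit 107) (nat_lit 106) (nat_lit 0) (nat_lit 8) (nat_lit 7) L122406 (by decide +kernel)
theorem L122408 : W_45 (nat_lit 2) (nat_lit 0x10800f8005800000000000000000000000000) (nat_lit 0x0) (nat_lit 0x40006000000000000000000000000000000) := D_45 (nat_lit 122) (nat_lit 138) (nat_lit 121) (nat_lit 1) (nat_lit 6) (nat_lit 7) (nat_lit 2) (nat_lit 2) (nat_lit 7) (by decide +kernel)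
theorem L122409 : W_45 (nat_lit 3) (nat_lit 0x10800f8004800000000000000000000000000) (nat_lit 0x0) (nat_lit 0x40106001000000000000000000000000000) := T_45 (nat_lit 108) (nat_lit 128) (nat_lit 0) (nat_lit 9) (nat_lit 7) L122408 (by decide +kernel)
theorem L122410 : W_45 (nat_lit 4) (nat_lit 0x10000f8004800000000000000000000000000) (nat_lit 0x0) (nat_lit 0x1c0106001000000000000000000000000000) := T_45 (nat_lit 139) (nat_lit 140) (nat_lit 1) (nat_lit 7) (nat_lit 7) L122409 (by decide +kernel)
theorem L122411 : W_45 (nat_lit 5) (nat_lit 0x10000f0004800000000000000000000000000) (nat_lit 0x0) (nat_lit 0x1c010e003000000000000000000000000000) := T_45 (nat_lit 123) (nat_lit 109) (nat_lit 2) (nat_lit 4) (nat_lit 7) L122410 (by decide +kernel)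
theorem L122412 : W_45 (nat_lit 6) (nat_lit 0x10000f0000800000000000000000000000000) (nat_lit 0x0) (nat_lit 0x1c010e00f000000000000000000000000000) := T_45 (nat_lit 110) (nat_lit 111) (nat_lit 2) (nat_lit 5) (nat_lit 7) L122411 (by decide +kernel)
theorem L122413 : W_45 (nat_lit 7) (nat_lit 0x10000f0000000000000000000000000000000) (nat_lit 0x0) (nat_lit 0x1c010e00fc00000000000000000000000000) := T_45 (nat_lit 107) (nat_lit 106) (nat_lit 0) (nat_lit 8) (nat_lit 7) L122412 (by decide +kernel)
theorem L122414 : W_45 (nat_lit 2) (nat_lit 0x10000f0008800000000000000000000000000) (nat_lit 0x0) (nat_lit 0x100011000000000000000000000000000) := D_45 (nat_lit 128) (nat_lit 108) (nat_lit 112) (nat_lit 0) (nat_lit 9) (nat_lit 7) (nat_lit 2) (nat_lit 6) (nat_lit 7) (by decide +kernel)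
theorem L122415 : W_45 (nat_lit 3) (nat_lit 0x10000f0000800000000000000000000000000) (nat_lit 0x0) (nat_lit 0x10001d000000000000000000000000000) := T_45 (nat_lit 111) (nat_lit 110) (nat_lit 2) (nat_lit 5) (nat_lit 7) L122414 (by decide +kernel)
theorem L122416 : W_45 (nat_lit 4) (nat_lit 0x10000f0000000000000000000000000000000) (nat_lit 0x0) (nat_lit 0x10001dc00000000000000000000000000) := T_45 (nat_lit 107) (nat_lit 106) (nat_lit 0) (nat_lit 8) (nat_lit 7) L122415 (by decide +kernel)
theorem L122417 : W_45 (nat_lit 8) (nat_lit 0x10000e0000000000000000000000000000000) (nat_lit 0x0) (nat_lit 0x100009c011e01fc00200010000000000000000000) := Q_45 (nat_lit 124) (C_45 L122078 (C_45 L122091 (C_45 L122076 (C_45 L122407 (C_45 L122413 (C_45 L122416 N_45)))))) (by decide +kernel)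
theorem L122418 : W_45 (nat_lit 2) (nat_lit 0x16000f8004200000000000000000000000000) (nat_lit 0x0) (nat_lit 0x6000100000000000000000000000000) := D_45 (nat_lit 122) (nat_lit 104) (nat_lit 121) (nat_lit 0) (nat_lit 6) (nat_lit 7) (nat_lit 3) (nat_lit 2) (nat_lit 7) (by decide +kernel)
theorem L122419 : W_45 (nat_lit 3) (nat_lit 0x12000f8004200000000000000000000000000) (nat_lit 0x0) (nat_lit 0x400106000100000000000000000000000000) := T_45 (nat_lit 142) (nat_lit 128) (nat_lit 1) (nat_lit 9) (nat_lit 7) L122418 (by decide +kernel)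
theorem L122420 : W_45 (nat_lit 4) (nat_lit 0x12000f8004000000000000000000000000000) (nat_lit 0x0) (nat_lit 0x400106000700000000000000000000000000) := T_45 (nat_lit 105) (nat_lit 106) (nat_lit 0) (nat_lit 7) (nat_lit 7) L122419 (by decide +kernel)
theorem L122421 : W_45 (nat_lit 5) (nat_lit 0x12000f0004000000000000000000000000000) (nat_lit 0x0) (nat_lit 0x40010e002700000000000000000000000000) := T_45 (nat_lit 123) (nat_lit 109) (nat_lit 2) (nat_lit 4) (nat_lit 7) L122420 (by decide +kernel)
theorem L122422 : W_45 (nat_lit 6) (nat_lit 0x12000f0000000000000000000000000000000) (nat_lit 0x0) (nat_lit 0x40010e00e700000000000000000000000000) := T_45 (nat_lit 110) (nat_lit 111) (nat_lit 2) (nat_lit 5) (nat_lit 7) L122421 (by decide +kernel)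
theorem L122423 : W_45 (nat_lit 7) (nat_lit 0x10000f0000000000000000000000000000000) (nat_lit 0x0) (nat_lit 0x70010e00e700000000000000000000000000) := T_45 (nat_lit 141) (nat_lit 140) (nat_lit 1) (nat_lit 8) (nat_lit 7) L122422 (by decide +kernel)
theorem L122424 : W_45 (nat_lit 2) (nat_lit 0x12000f0008000000000000000000000000000) (nat_lit 0x0) (nat_lit 0x400100010000000000000000000000000000) := D_45 (nat_lit 128) (nat_lit 142) (nat_lit 112) (nat_lit 1) (nat_lit 9) (nat_lit 7) (nat_lit 2) (nat_lit 6) (nat_lit 7) (by decide +kernel)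
theorem L122425 : W_45 (nat_lit 3) (nat_lit 0x12000f0000000000000000000000000000000) (nat_lit 0x0) (nat_lit 0x40010001c000000000000000000000000000) := T_45 (nat_lit 111) (nat_lit 110) (nat_lit 2) (nat_lit 5) (nat_lit 7) L122424 (by decide +kernel)
theorem L122426 : W_45 (nat_lit 4) (nat_lit 0x10000f0000000000000000000000000000000) (nat_lit 0x0) (nat_lit 0x70010001c000000000000000000000000000) := T_45 (nat_lit 141) (nat_lit 140) (nat_lit 1) (nat_lit 8) (nat_lit 7) L122425 (by decide +kernel)
theorem L122427 : W_45 (nat_lit 8) (nat_lit 0x10000e0000000000000000000000000000000) (nat_lit 0x0) (nat_lit 0xf8011e01e700000000000000000000000000) := Q_45 (nat_lit 124) (C_45 L122093 (C_45 L122078 (C_45 L122423 (C_45 L122426 N_45)))) (by decide +kernel)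
theorem L122428 : W_45 (nat_lit 2) (nat_lit 0x10000f8001800000000000000000000000000) (nat_lit 0x0) (nat_lit 0x6002000000000000000000000000000) := D_45 (nat_lit 122) (nat_lit 121) (nat_lit 109) (nat_lit 2) (nat_lit 2) (nat_lit 7) (nat_lit 2) (nat_lit 3) (nat_lit 7) (by decide +kernel)
theorem L122429 : W_45 (nat_lit 3) (nat_lit 0x10000f8000800000000000000000000000000) (nat_lit 0x0) (nat_lit 0x106003000000000000000000000000000) := T_45 (nat_lit 108) (nat_lit 128) (nat_lit 0) (nat_lit 9) (nat_lit 7) L122428 (by decide +kernel)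
theorem L122430 : W_45 (nat_lit 4) (nat_lit 0x10000f0000800000000000000000000000000) (nat_lit 0x0) (nat_lit 0x80010e003000000000000000000000000000) := T_45 (nat_lit 123) (nat_lit 143) (nat_lit 3) (nat_lit 4) (nat_lit 7) L122429 (by decide +kernel)
theorem L122431 : W_45 (nat_lit 5) (nat_lit 0x10000f0000000000000000000000000000000) (nat_lit 0x0) (nat_lit 0x80010e003c00000000000000000000000000) := T_45 (nat_lit 107) (nat_lit 106) (nat_lit 0) (nat_lit 8) (nat_lit 7) L122430 (by decide +kernel)
theorem L122432 : W_45 (nat_lit 6) (nat_lit 0x10000e0000000000000000000000000000000) (nat_lit 0x0) (nat_lit 0x80011e01fc00000000000000000000000000) := Q_45 (nat_lit 124) (C_45 L122078 (C_45 L122416 (C_45 L122076 (C_45 L122431 N_45)))) (by decide +kernel)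
theorem L122433 : W_45 (nat_lit 5) (nat_lit 0x10000e0000000000000000000000000000000) (nat_lit 0x0) (nat_lit 0xf8011801e000000000000000000000000000) := Q_45 (nat_lit 124) (C_45 L122426 (C_45 L122078 (C_45 L122093 N_45))) (by decide +kernel)
theorem L122434 : W_45 (nat_lit 15) (nat_lit 0x10000c0000000000000000000000000000000) (nat_lit 0x0) (nat_lit 0x50003c001e000fe013e01ff00ff003f001f80018000400000) := Q_45 (nat_lit 125) (C_45 L122075 (C_45 L122086 (C_45 L122094 (C_45 L122104 (C_45 L122359 (C_45 L122380 (C_45 L122386 (C_45 L122395 (C_45 L122402 (C_45 L122417 (C_45 L122427 (C_45 L122432 (C_45 L122433 N_45))))))))))))) (by decide +kernel)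
theorem L122435 : W_45 (nat_lit 2) (nat_lit 0x100018000c0000000000000000000000000000000) (nat_lit 0x0) (nat_lit 0x4000200000000000000004000000000000000000000000000) := D_45 (nat_lit 177) (nat_lit 194) (nat_lit 110) (nat_lit 6) (nat_lit 7) (nat_lit 11) (nat_lit 6) (nat_lit 7) (nat_lit 10) (by decide +kernel)
theorem L122436 : W_45 (nat_lit 5) (nat_lit 0x100018000c0000000000000000000000000000000) (nat_lit 0x0) (nat_lit 0x6000300008000000020003000080000000000000000000000) := T_45 (nat_lit 177) (nat_lit 194) (nat_lit 6) (nat_lit 7) (nat_lit 11) L65940 (by decide +kernel)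
theorem L122437 : W_45 (nat_lit 2) (nat_lit 0x10001c000f0001800200000000000000000000000) (nat_lit 0x0) (nat_lit 0x8000000000000000040002000000000000000000) := D_45 (nat_lit 90) (nat_lit 73) (nat_lit 159) (nat_lit 7) (nat_lit 5) (nat_lit 4) (nat_lit 4) (nat_lit 6) (nat_lit 9) (by decide +kernel)
theorem L122438 : W_45 (nat_lit 3) (nat_lit 0x10001c000f0000800200000000000000000000000) (nat_lit 0x0) (nat_lit 0x80000000000010000c0002000000000000000000) := T_45 (nat_lit 108) (nat_lit 91) (nat_lit 7) (nat_lit 6) (nat_lit 5) L122437 (by decide +kernel)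
theorem L122439 : W_45 (nat_lit 4) (nat_lit 0x10001c000f0000000200000000000000000000000) (nat_lit 0x0) (nat_lit 0x8000000000001c000c0002000000000000000000) := T_45 (nat_lit 107) (nat_lit 106) (nat_lit 0) (nat_lit 8) (nat_lit 7) L122438 (by decide +kernel)
theorem L122440 : W_45 (nat_lit 5) (nat_lit 0x10001c000f0000000000000000000000000000000) (nat_lit 0x0) (nat_lit 0x8000000000005c002c0002000000000000000000) := T_45 (nat_lit 93) (nat_lit 110) (nat_lit 5) (nat_lit 8) (nat_lit 5) L122439 (by decide +kernel)
theorem L122441 : W_45 (nat_lit 6) (nat_lit 0x10001c000e0000000000000000000000000000000) (nat_lit 0x0) (nat_lit 0x8000000018005c002c0002000000000000000000) := T_45 (nat_lit 124) (nat_lit 123) (nat_lit 3) (nat_lit 4) (nat_lit 7) L122440 (by decide +kernel)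
theorem L122442 : W_45 (nat_lit 2) (nat_lit 0x18001c0000000000000000000000000000000) (nat_lit 0x0) (nat_lit 0x400600000000000000000000000000000000) := D_45 (nat_lit 129) (nat_lit 142) (nat_lit 130) (nat_lit 1) (nat_lit 10) (nat_lit 7) (nat_lit 1) (nat_lit 11) (nat_lit 7) (by decide +kernel)
theorem L122443 : W_45 (nat_lit 2) (nat_lit 0x58003c001a000000000000000000000000000) (nat_lit 0x0) (nat_lit 0x80000000000000000400020000000000000000000) := D_45 (nat_lit 94) (nat_lit 77) (nat_lit 163) (nat_lit 7) (nat_lit 9) (nat_lit 4) (nat_lit 4) (nat_lit 10) (nat_lit 9) (by decide +kernel)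
theorem L122444 : W_45 (nat_lit 3) (nat_lit 0x58003c0012000000000000000000000000000) (nat_lit 0x0) (nat_lit 0x80000000020008000400020000000000000000000) := T_45 (nat_lit 111) (nat_lit 125) (nat_lit 2) (nat_lit 6) (nat_lit 7) L122443 (by decide +kernel)
theorem L122445 : W_45 (nat_lit 4) (nat_lit 0x58003c0002000000000000000000000000000) (nat_lit 0x0) (nat_lit 0x80000000020038000400020000000000000000000) := T_45 (nat_lit 112) (nat_lit 113) (nat_lit 2) (nat_lit 7) (nat_lit 7) L122444 (by decide +kernel)
theorem L122446 : W_45 (nat_lit 5) (nat_lit 0x18003c0002000000000000000000000000000) (nat_lit 0x0) (nat_lit 0x8000c000020038000400020000000000000000000) := T_45 (nat_lit 146) (nat_lit 147) (nat_lit 3) (nat_lit 7) (nat_lit 7) L122445 (by decide +kernel)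
theorem L122447 : W_45 (nat_lit 6) (nat_lit 0x18003c0000000000000000000000000000000) (nat_lit 0x0) (nat_lit 0x8000c00002003b000400020000000000000000000) := T_45 (nat_lit 109) (nat_lit 108) (nat_lit 0) (nat_lit 10) (nat_lit 7) L122446 (by decide +kernel)
theorem L122448 : W_45 (nat_lit 7) (nat_lit 0x18001c0000000000000000000000000000000) (nat_lit 0x0) (nat_lit 0x8000c00062003b000400020000000000000000000) := T_45 (nat_lit 129) (nat_lit 130) (nat_lit 1) (nat_lit 11) (nat_lit 7) L122447 (by decide +kernel)
theorem L122449 : W_45 (nat_lit 2) (nat_lit 0x1a001e0000000000000000000000000000000) (nat_lit 0x0) (nat_lit 0x100018000000000000000000000000000000) := D_45 (nat_lit 124) (nat_lit 123) (nat_lit 140) (nat_lit 3) (nat_lit 4) (nat_lit 7) (nat_lit 1) (nat_lit 8) (nat_lit 7) (by decide +kernel)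
theorem L122450 : W_45 (nat_lit 3) (nat_lit 0x18001e0000000000000000000000000000000) (nat_lit 0x0) (nat_lit 0x700018000000000000000000000000000000) := T_45 (nat_lit 141) (nat_lit 142) (nat_lit 2) (nat_lit 5) (nat_lit 8) L122449 (by decide +kernel)
theorem L122451 : W_45 (nat_lit 2) (nat_lit 0x18001e8009000080020000000000000000000) (nat_lit 0x0) (nat_lit 0x200010000000000002000000000000000000000000000) := D_45 (nat_lit 160) (nat_lit 177) (nat_lit 109) (nat_lit 4) (nat_lit 7) (nat_lit 10) (nat_lit 4) (nat_lit 7) (nat_lit 9) (by decide +kernel)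
theorem L122452 : W_45 (nat_lit 3) (nat_lit 0x18001e8009000000020000000000000000000) (nat_lit 0x0) (nat_lit 0x200010000000000002000080004000000000000000000) := T_45 (nat_lit 91) (nat_lit 74) (nat_lit 7) (nat_lit 6) (nat_lit 4) L122451 (by decide +kernel)
theorem L122453 : W_45 (nat_lit 4) (nat_lit 0x18001e8009000000000000000000000000000) (nat_lit 0x0) (nat_lit 0x200010000000000002000480024000000000000000000) := T_45 (nat_lit 77) (nat_lit 94) (nat_lit 5) (nat_lit 9) (nat_lit 4) L122452 (by decide +kernel)
theorem L122454 : W_45 (nat_lit 5) (nat_lit 0x18001e8008000000000000000000000000000) (nat_lit 0x0) (nat_lit 0x200010000000000003800480024000000000000000000) := T_45 (nat_lit 108) (nat_lit 107) (nat_lit 0) (nat_lit 9) (nat_lit 7) L122453 (by decide +kernel)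
theorem L122455 : W_45 (nat_lit 6) (nat_lit 0x18001e8000000000000000000000000000000) (nat_lit 0x0) (nat_lit 0x20001000000000001b800480024000000000000000000) := T_45 (nat_lit 111) (nat_lit 112) (nat_lit 2) (nat_lit 6) (nat_lit 7) L122454 (by decide +kernel)
theorem L122456 : W_45 (nat_lit 7) (nat_lit 0x18001e0000000000000000000000000000000) (nat_lit 0x0) (nat_lit 0x20001000000001801b800480024000000000000000000) := T_45 (nat_lit 123) (nat_lit 124) (nat_lit 3) (nat_lit 4) (nat_lit 7) L122455 (by decide +kernel)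
theorem L122457 : W_45 (nat_lit 2) (nat_lit 0x1c001e0001000000000000000000000000000) (nat_lit 0x0) (nat_lit 0x10000000000000000080004000000000000000000) := D_45 (nat_lit 91) (nat_lit 74) (nat_lit 160) (nat_lit 7) (nat_lit 6) (nat_lit 4) (nat_lit 7) (nat_lit 6) (nat_lit 5) (by decide +kernel)
theorem L122458 : W_45 (nat_lit 3) (nat_lit 0x18001e0001000000000000000000000000000) (nat_lit 0x0) (nat_lit 0x10000600000000000080004000000000000000000) := T_45 (nat_lit 142) (nat_lit 141) (nat_lit 2) (nat_lit 5) (nat_lit 8) L122457 (by decide +kernel)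
theorem L122459 : W_45 (nat_lit 4) (nat_lit 0x18001e0000000000000000000000000000000) (nat_lit 0x0) (nat_lit 0x10000600000001800080004000000000000000000) := T_45 (nat_lit 108) (nat_lit 107) (nat_lit 0) (nat_lit 9) (nat_lit 7) L122458 (by decide +kernel)
theorem L122460 : W_45 (nat_lit 8) (nat_lit 0x18001c0000000000000000000000000000000) (nat_lit 0x0) (nat_lit 0x20001000070003801b800480024000000000000000000) := Q_45 (nat_lit 125) (C_45 L122450 (C_45 L122456 (C_45 L122459 N_45))) (by decide +kernel)
theorem L122461 : W_45 (nat_lit 9) (nat_lit 0x18000c0000000000000000000000000000000) (nat_lit 0x0) (nat_lit 0x20009000c70073803b800480024000000000000000000) := Q_45 (nat_lit 128) (C_45 L122442 (C_45 L122448 (C_45 L122460 N_45))) (by decide +kernel)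
theorem L122462 : W_45 (nat_lit 2) (nat_lit 0x18001f0000000000000000000000000000000) (nat_lit 0x0) (nat_lit 0x1c000000000000000000000000000) := D_45 (nat_lit 111) (nat_lit 112) (nat_lit 110) (nat_lit 2) (nat_lit 6) (nat_lit 7) (nat_lit 2) (nat_lit 5) (nat_lit 7) (by decide +kernel)
theorem L122463 : W_45 (nat_lit 3) (nat_lit 0x18001e0000000000000000000000000000000) (nat_lit 0x0) (nat_lit 0x1801c000000000000000000000000000) := T_45 (nat_lit 124) (nat_lit 123) (nat_lit 3) (nat_lit 4) (nat_lit 7) L122462 (by decide +kernel)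
theorem L122464 : W_45 (nat_lit 2) (nat_lit 0x1000080004001a001d8000000000000000000000000000000) (nat_lit 0x0) (nat_lit 0x40002000100000000000000000000000000000000000000000000) := D_45 (nat_lit 193) (nat_lit 176) (nat_lit 210) (nat_lit 7) (nat_lit 5) (nat_lit 7) (nat_lit 7) (nat_lit 5) (nat_lit 8) (by decide +kernel)
theorem L122465 : W_45 (nat_lit 3) (nat_lit 0x80004001a001d8000000000000000000000000000000) (nat_lit 0x0) (nat_lit 0x40003000100000000100000000000000000000000000000000000) := T_45 (nat_lit 192) (nat_lit 140) (nat_lit 4) (nat_lit 5) (nat_lit 11) L122464 (by decide +kernel)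
theorem L122466 : W_45 (nat_lit 2) (nat_lit 0x1000080004001a001d8000000000000000000000000000000) (nat_lit 0x0) (nat_lit 0x10000800040000000000000000000000000000000000000000000) := D_45 (nat_lit 191) (nat_lit 174) (nat_lit 208) (nat_lit 5) (nat_lit 5) (nat_lit 7) (nat_lit 5) (nat_lit 5) (nat_lit 8) (by decide +kernel)
theorem L122467 : W_45 (nat_lit 3) (nat_lit 0x80004001a001d8000000000000000000000000000000) (nat_lit 0x0) (nat_lit 0x10001800040000000100000000000000000000000000000000000) := T_45 (nat_lit 192) (nat_lit 140) (nat_lit 4) (nat_lit 5) (nat_lit 11) L122466 (by decide +kernel)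
theorem L122468 : W_45 (nat_lit 2) (nat_lit 0x6001a001d0000800040000000000000000000000) (nat_lit 0x0) (nat_lit 0x400020001000000000000000000) := D_45 (nat_lit 89) (nat_lit 72) (nat_lit 106) (nat_lit 4) (nat_lit 5) (nat_lit 8) (nat_lit 4) (nat_lit 5) (nat_lit 9) (by decide +kernel)
theorem L122469 : W_45 (nat_lit 3) (nat_lit 0x6001a001d0000800000000000000000000000000) (nat_lit 0x0) (nat_lit 0x100000000400060001000000000000000000) := T_45 (nat_lit 90) (nat_lit 140) (nat_lit 5) (nat_lit 5) (nat_lit 5) L122468 (by decide +kernel)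
theorem L122470 : W_45 (nat_lit 4) (nat_lit 0x4001a001d0000800000000000000000000000000) (nat_lit 0x0) (nat_lit 0x40002000100000000400060001000000000000000000) := T_45 (nat_lit 157) (nat_lit 174) (nat_lit 5) (nat_lit 5) (nat_lit 6) L122469 (by decide +kernel)
theorem L122471 : W_45 (nat_lit 2) (nat_lit 0xe001a001d0000800040005000000000000000000) (nat_lit 0x0) (nat_lit 0x2000280000000000000) := D_45 (nat_lit 73) (nat_lit 55) (nat_lit 57) (nat_lit 4) (nat_lit 5) (nat_lit 7) (nat_lit 6) (nat_lit 5) (nat_lit 7) (by decide +kernel)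
theorem L122472 : W_45 (nat_lit 3) (nat_lit 0xe001a001d0000800040001000000000000000000) (nat_lit 0x0) (nat_lit 0x80006000280000000000000) := T_45 (nat_lit 74) (nat_lit 91) (nat_lit 6) (nat_lit 5) (nat_lit 8) L122471 (by decide +kernel)
theorem L122473 : W_45 (nat_lit 4) (nat_lit 0xe001a001d0000800040000000000000000000000) (nat_lit 0x0) (nat_lit 0xa0007000280000000000000) := T_45 (nat_lit 72) (nat_lit 89) (nat_lit 4) (nat_lit 5) (nat_lit 8) L122472 (by decide +kernel)
theorem L122474 : W_45 (nat_lit 5) (nat_lit 0xe001a001d0000800000000000000000000000000) (nat_lit 0x0) (nat_lit 0x1000000000000e0007000280000000000000) := T_45 (nat_lit 90) (nat_lit 140) (nat_lit 5) (nat_lit 5) (nat_lit 5) L122473 (by decide +kernel)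
theorem L122475 : W_45 (nat_lit 2) (nat_lit 0x100004001a001d0000c00000000000000000000000000) (nat_lit 0x0) (nat_lit 0x2000080000000000008000000000000000000000000000000) := D_45 (nat_lit 175) (nat_lit 123) (nat_lit 193) (nat_lit 4) (nat_lit 5) (nat_lit 10) (nat_lit 7) (nat_lit 5) (nat_lit 7) (by decide +kernel)
theorem L122476 : W_45 (nat_lit 3) (nat_lit 0x4001a001d0000c00000000000000000000000000) (nat_lit 0x0) (nat_lit 0x2000180008000000008000000000000000000000000000000) := T_45 (nat_lit 176) (nat_lit 159) (nat_lit 7) (nat_lit 5) (nat_lit 6) L122475 (by decide +kernel)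
theorem L122477 : W_45 (nat_lit 4) (nat_lit 0x4001a001d0000800000000000000000000000000) (nat_lit 0x0) (nat_lit 0x2000180008000000008000400020000000000000000000000) := T_45 (nat_lit 106) (nat_lit 89) (nat_lit 4) (nat_lit 5) (nat_lit 9) L122476 (by decide +kernel)
theorem L122478 : W_45 (nat_lit 2) (nat_lit 0x180006001b001d0000800000000000000000000000000) (nat_lit 0x0) (nat_lit 0x20001000000000000000008000000000000000000000000000000) := D_45 (nat_lit 192) (nat_lit 209) (nat_lit 123) (nat_lit 4) (nat_lit 5) (nat_lit 12) (nat_lit 4) (nat_lit 5) (nat_lit 11) (by decide +kernel)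
theorem L122479 : W_45 (nat_lit 3) (nat_lit 0x100006001b001d0000800000000000000000000000000) (nat_lit 0x0) (nat_lit 0x20003000080000000000008000000000000000000000000000000) := T_45 (nat_lit 175) (nat_lit 193) (nat_lit 7) (nat_lit 5) (nat_lit 7) L122478 (by decide +kernel)
theorem L122480 : W_45 (nat_lit 4) (nat_lit 0x100006001a001d0000800000000000000000000000000) (nat_lit 0x0) (nat_lit 0x20003000080000000100008000000040000000000000000000000) := T_45 (nat_lit 140) (nat_lit 90) (nat_lit 5) (nat_lit 5) (nat_lit 5) L122479 (by decide +kernel)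
theorem L122481 : W_45 (nat_lit 5) (nat_lit 0x100004001a001d0000800000000000000000000000000) (nat_lit 0x0) (nat_lit 0x200030000c0002000100008000000040000000000000000000000) := T_45 (nat_lit 157) (nat_lit 174) (nat_lit 5) (nat_lit 5) (nat_lit 6) L122480 (by decide +kernel)
theorem L122482 : W_45 (nat_lit 6) (nat_lit 0x4001a001d0000800000000000000000000000000) (nat_lit 0x0) (nat_lit 0x200030001c000a000100008000000040000000000000000000000) := T_45 (nat_lit 176) (nat_lit 159) (nat_lit 7) (nat_lit 5) (nat_lit 6) L122481 (by decide +kernel)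
theorem L122483 : W_45 (nat_lit 4) (nat_lit 0x80004001a001d0000000000000000000000000000000) (nat_lit 0x0) (nat_lit 0x40003000100000000100008000400000000000000000000000000) := T_45 (nat_lit 123) (nat_lit 106) (nat_lit 4) (nat_lit 5) (nat_lit 10) L122465 (by decide +kernel)
theorem L122484 : W_45 (nat_lit 2) (nat_lit 0x2000600010000c0004001a001d8000000000000000000000000000000) (nat_lit 0x0) (nat_lit 0x4000400000000000000002000000000000000000000000000000000000000) := D_45 (nat_lit 226) (nat_lit 157) (nat_lit 242) (nat_lit 4) (nat_lit 5) (nat_lit 13) (nat_lit 5) (nat_lit 5) (nat_lit 10) (by decide +kernel)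
theorem L122485 : W_45 (nat_lit 3) (nat_lit 0x600010000c0004001a001d8000000000000000000000000000000) (nat_lit 0x0) (nat_lit 0x4000600010000000000002000000000000000000000000000000000000000) := T_45 (nat_lit 225) (nat_lit 208) (nat_lit 5) (nat_lit 5) (nat_lit 9) L122484 (by decide +kernel)
theorem L122486 : W_45 (nat_lit 4) (nat_lit 0x400010000c0004001a001d8000000000000000000000000000000) (nat_lit 0x0) (nat_lit 0x4000e00030000000000002000000000000000000000000000000000000000) := T_45 (nat_lit 209) (nat_lit 227) (nat_lit 7) (nat_lit 5) (nat_lit 9) L122485 (by decide +kernel)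
theorem L122487 : W_45 (nat_lit 5) (nat_lit 0x10000c0004001a001d8000000000000000000000000000000) (nat_lit 0x0) (nat_lit 0x4000e00070002000000002000000000000000000000000000000000000000) := T_45 (nat_lit 210) (nat_lit 193) (nat_lit 7) (nat_lit 5) (nat_lit 8) L122486 (by decide +kernel)
theorem L122488 : W_45 (nat_lit 6) (nat_lit 0xc0004001a001d8000000000000000000000000000000) (nat_lit 0x0) (nat_lit 0x4000e00070003000000002000100000000000000000000000000000000000) := T_45 (nat_lit 192) (nat_lit 140) (nat_lit 4) (nat_lit 5) (nat_lit 11) L122487 (by decide +kernel)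
theorem L122489 : W_45 (nat_lit 7) (nat_lit 0xc0004001a001d0000000000000000000000000000000) (nat_lit 0x0) (nat_lit 0x4000e00070003000000002000100008000400000000000000000000000000) := T_45 (nat_lit 123) (nat_lit 106) (nat_lit 4) (nat_lit 5) (nat_lit 10) L122488 (by decide +kernel)
theorem L122490 : W_45 (nat_lit 8) (nat_lit 0x80004001a001d0000000000000000000000000000000) (nat_lit 0x0) (nat_lit 0x4000e00070003800040002000100008000400000000000000000000000000) := T_45 (nat_lit 174) (nat_lit 191) (nat_lit 5) (nat_lit 5) (nat_lit 7) L122489 (by decide +kernel)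
theorem L122491 : W_45 (nat_lit 2) (nat_lit 0x1a001d0000000000000000000000000000000) (nat_lit 0x0) (nat_lit 0x100028000000000000000000000000000000) := D_45 (nat_lit 125) (nat_lit 140) (nat_lit 123) (nat_lit 1) (nat_lit 8) (nat_lit 7) (nat_lit 3) (nat_lit 4) (nat_lit 7) (by decide +kernel)
theorem L122492 : W_45 (nat_lit 2) (nat_lit 0x1c000c0000000000000000000000000000000) (nat_lit 0x0) (nat_lit 0x300100000000000000000000000000000000) := D_45 (nat_lit 141) (nat_lit 128) (nat_lit 140) (nat_lit 2) (nat_lit 5) (nat_lit 8) (nat_lit 2) (nat_lit 4) (nat_lit 8) (by decide +kernel)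
theorem L122493 : W_45 (nat_lit 2) (nat_lit 0x1c000d0000000000000000000000000000000) (nat_lit 0x0) (nat_lit 0x300008000000000000000000000000000000) := D_45 (nat_lit 141) (nat_lit 140) (nat_lit 123) (nat_lit 2) (nat_lit 4) (nat_lit 8) (nat_lit 0) (nat_lit 8) (nat_lit 8) (by decide +kernel)
theorem L122494 : W_45 (nat_lit 2) (nat_lit 0x1c000f0004800040010000000000000000000) (nat_lit 0x0) (nat_lit 0x100008000000000001000000000000000000000000000) := D_45 (nat_lit 159) (nat_lit 176) (nat_lit 108) (nat_lit 4) (nat_lit 6) (nat_lit 10) (nat_lit 4) (nat_lit 6) (nat_lit 9) (by decide +kernel)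
theorem L122495 : W_45 (nat_lit 3) (nat_lit 0x1c000f0004800000010000000000000000000) (nat_lit 0x0) (nat_lit 0x100008000000000001000040002000000000000000000) := T_45 (nat_lit 90) (nat_lit 73) (nat_lit 7) (nat_lit 5) (nat_lit 4) L122494 (by decide +kernel)
theorem L122496 : W_45 (nat_lit 4) (nat_lit 0x1c000f0004800000000000000000000000000) (nat_lit 0x0) (nat_lit 0x100008000000000001000240012000000000000000000) := T_45 (nat_lit 76) (nat_lit 93) (nat_lit 5) (nat_lit 8) (nat_lit 4) L122495 (by decide +kernel)
theorem L122497 : W_45 (nat_lit 5) (nat_lit 0x1c000f0004000000000000000000000000000) (nat_lit 0x0) (nat_lit 0x100008000000000001c00240012000000000000000000) := T_45 (nat_lit 107) (nat_lit 106) (nat_lit 0) (nat_lit 8) (nat_lit 7) L122496 (by decide +kernel)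
theorem L122498 : W_45 (nat_lit 6) (nat_lit 0x1c000f0000000000000000000000000000000) (nat_lit 0x0) (nat_lit 0x10000800000000000dc00240012000000000000000000) := T_45 (nat_lit 110) (nat_lit 111) (nat_lit 2) (nat_lit 5) (nat_lit 7) L122497 (by decide +kernel)
theorem L122499 : W_45 (nat_lit 7) (nat_lit 0x1c000d0000000000000000000000000000000) (nat_lit 0x0) (nat_lit 0x10000800000002800dc00240012000000000000000000) := T_45 (nat_lit 125) (nat_lit 123) (nat_lit 3) (nat_lit 4) (nat_lit 7) L122498 (by decide +kernel)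
theorem L122500 : W_45 (nat_lit 2) (nat_lit 0x8001d000f0000800000000000000000000000000) (nat_lit 0x0) (nat_lit 0x1000040002000000000000000000) := D_45 (nat_lit 90) (nat_lit 73) (nat_lit 108) (nat_lit 7) (nat_lit 5) (nat_lit 4) (nat_lit 4) (nat_lit 6) (nat_lit 9) (by decide +kernel)
theorem L122501 : W_45 (nat_lit 3) (nat_lit 0x1d000f0000800000000000000000000000000) (nat_lit 0x0) (nat_lit 0x100008000000000001000040002000000000000000000) := T_45 (nat_lit 159) (nat_lit 176) (nat_lit 4) (nat_lit 6) (nat_lit 10) L122500 (by decide +kernel)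
theorem L122502 : W_45 (nat_lit 4) (nat_lit 0x1d000f0000000000000000000000000000000) (nat_lit 0x0) (nat_lit 0x100008000000000001c00040002000000000000000000) := T_45 (nat_lit 107) (nat_lit 106) (nat_lit 0) (nat_lit 8) (nat_lit 7) L122501 (by decide +kernel)
theorem L122503 : W_45 (nat_lit 5) (nat_lit 0x1c000f0000000000000000000000000000000) (nat_lit 0x0) (nat_lit 0x100008000300000001c00040002000000000000000000) := T_45 (nat_lit 140) (nat_lit 141) (nat_lit 2) (nat_lit 4) (nat_lit 8) L122502 (by decide +kernel)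
theorem L122504 : W_45 (nat_lit 2) (nat_lit 0x4001e000f0004800000012000000000000000000) (nat_lit 0x0) (nat_lit 0x80000000000000001000080000000000000000000000) := D_45 (nat_lit 108) (nat_lit 91) (nat_lit 175) (nat_lit 6) (nat_lit 5) (nat_lit 9) (nat_lit 6) (nat_lit 5) (nat_lit 10) (by decide +kernel)
theorem L122505 : W_45 (nat_lit 3) (nat_lit 0x1e000f0004800000012000000000000000000) (nat_lit 0x0) (nat_lit 0x80006000000000001000080000000000000000000000) := T_45 (nat_lit 158) (nat_lit 157) (nat_lit 1) (nat_lit 8) (nat_lit 8) L122504 (by decide +kernel)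
theorem L122506 : W_45 (nat_lit 4) (nat_lit 0x1c000f0004800000012000000000000000000) (nat_lit 0x0) (nat_lit 0x80006000300000001000080000000000000000000000) := T_45 (nat_lit 141) (nat_lit 140) (nat_lit 2) (nat_lit 4) (nat_lit 8) L122505 (by decide +kernel)
theorem L122507 : W_45 (nat_lit 5) (nat_lit 0x1c000f0004800000002000000000000000000) (nat_lit 0x0) (nat_lit 0x80006000300000001000280010000000000000000000) := T_45 (nat_lit 76) (nat_lit 93) (nat_lit 5) (nat_lit 8) (nat_lit 4) L122506 (by decide +kernel)
theorem L122508 : W_45 (nat_lit 6) (nat_lit 0x1c000f0004800000000000000000000000000) (nat_lit 0x0) (nat_lit 0x800060003000000010002c0012000000000000000000) := T_45 (nat_lit 73) (nat_lit 90) (nat_lit 7) (nat_lit 5) (nat_lit 4) L122507 (by decide +kernel)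
theorem L122509 : W_45 (nat_lit 7) (nat_lit 0x1c000f0000800000000000000000000000000) (nat_lit 0x0) (nat_lit 0x8000600030000000d0002c0012000000000000000000) := T_45 (nat_lit 110) (nat_lit 111) (nat_lit 2) (nat_lit 5) (nat_lit 7) L122508 (by decide +kernel)
theorem L122510 : W_45 (nat_lit 8) (nat_lit 0x1c000f0000000000000000000000000000000) (nat_lit 0x0) (nat_lit 0x8000600030000000dc002c0012000000000000000000) := T_45 (nat_lit 107) (nat_lit 106) (nat_lit 0) (nat_lit 8) (nat_lit 7) L122509 (by decide +kernel)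
theorem L122511 : W_45 (nat_lit 2) (nat_lit 0x1e000f0000800000000000000000000000000) (nat_lit 0x0) (nat_lit 0x100008000000000000000040000000000000000000000) := D_45 (nat_lit 159) (nat_lit 176) (nat_lit 90) (nat_lit 4) (nat_lit 6) (nat_lit 10) (nat_lit 7) (nat_lit 5) (nat_lit 5) (by decide +kernel)
theorem L122512 : W_45 (nat_lit 3) (nat_lit 0x1e000f0000000000000000000000000000000) (nat_lit 0x0) (nat_lit 0x100008000000000000c00040000000000000000000000) := T_45 (nat_lit 107) (nat_lit 106) (nat_lit 0) (nat_lit 8) (nat_lit 7) L122511 (by decide +kernel)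
theorem L122513 : W_45 (nat_lit 4) (nat_lit 0x1c000f0000000000000000000000000000000) (nat_lit 0x0) (nat_lit 0x100008000300000000c00040000000000000000000000) := T_45 (nat_lit 141) (nat_lit 140) (nat_lit 2) (nat_lit 4) (nat_lit 8) L122512 (by decide +kernel)
theorem L122514 : W_45 (nat_lit 2) (nat_lit 0x4001e000f0004000000010000000000000000000) (nat_lit 0x0) (nat_lit 0x80000000000000001000080000000000000000000000) := D_45 (nat_lit 108) (nat_lit 91) (nat_lit 175) (nat_lit 5) (nat_lit 6) (nat_lit 5) (nat_lit 6) (nat_lit 5) (nat_lit 10) (by decide +kernel)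
theorem L122515 : W_45 (nat_lit 3) (nat_lit 0x1e000f0004000000010000000000000000000) (nat_lit 0x0) (nat_lit 0x80006000000000001000080000000000000000000000) := T_45 (nat_lit 158) (nat_lit 157) (nat_lit 1) (nat_lit 8) (nat_lit 8) L122514 (by decide +kernel)
theorem L122516 : W_45 (nat_lit 4) (nat_lit 0x1e000f0004000000000000000000000000000) (nat_lit 0x0) (nat_lit 0x80006000000000001000280010000000000000000000) := T_45 (nat_lit 76) (nat_lit 93) (nat_lit 5) (nat_lit 8) (nat_lit 4) L122515 (by decide +kernel)
theorem L122517 : W_45 (nat_lit 5) (nat_lit 0x1c000f0004000000000000000000000000000) (nat_lit 0x0) (nat_lit 0x80006000300000001000280010000000000000000000) := T_45 (nat_lit 141) (nat_lit 140) (nat_lit 2) (nat_lit 4) (nat_lit 8) L122516 (by decide +kernel)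
theorem L122518 : W_45 (nat_lit 6) (nat_lit 0x1c000f0000000000000000000000000000000) (nat_lit 0x0) (nat_lit 0x8000600030000000d000280010000000000000000000) := T_45 (nat_lit 110) (nat_lit 111) (nat_lit 2) (nat_lit 5) (nat_lit 7) L122517 (by decide +kernel)
theorem L122519 : W_45 (nat_lit 9) (nat_lit 0x1c000d0000000000000000000000000000000) (nat_lit 0x0) (nat_lit 0x18000e00030002000dc002c0012000000000000000000) := Q_45 (nat_lit 125) (C_45 L122498 (C_45 L122503 (C_45 L122510 (C_45 L122513 (C_45 L122518 N_45))))) (by decide +kernel)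
theorem L122520 : W_45 (nat_lit 10) (nat_lit 0x1c000c0000000000000000000000000000000) (nat_lit 0x0) (nat_lit 0x18000e00030003800dc002c0012000000000000000000) := Q_45 (nat_lit 124) (C_45 L122493 (C_45 L122499 (C_45 L122519 N_45))) (by decide +kernel)
theorem L122521 : W_45 (nat_lit 2) (nat_lit 0x1c000c001c000000000000000000000000000) (nat_lit 0x0) (nat_lit 0x320000000000000000000000000000000) := D_45 (nat_lit 128) (nat_lit 129) (nat_lit 125) (nat_lit 1) (nat_lit 10) (nat_lit 7) (nat_lit 2) (nat_lit 6) (nat_lit 7) (by decide +kernel)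
theorem L122522 : W_45 (nat_lit 3) (nat_lit 0x1c000c0014000000000000000000000000000) (nat_lit 0x0) (nat_lit 0x320028000000000000000000000000000) := T_45 (nat_lit 111) (nat_lit 113) (nat_lit 1) (nat_lit 11) (nat_lit 6) L122521 (by decide +kernel)
theorem L122523 : W_45 (nat_lit 2) (nat_lit 0x1c001c0003000000000000000000000000000) (nat_lit 0x0) (nat_lit 0x4c00000000000000000000000000) := D_45 (nat_lit 107) (nat_lit 106) (nat_lit 110) (nat_lit 3) (nat_lit 4) (nat_lit 6) (nat_lit 3) (nat_lit 5) (nat_lit 6) (by decide +kernel)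
theorem L122524 : W_45 (nat_lit 3) (nat_lit 0x1c000c0003000000000000000000000000000) (nat_lit 0x0) (nat_lit 0x300004c00000000000000000000000000) := T_45 (nat_lit 128) (nat_lit 129) (nat_lit 1) (nat_lit 10) (nat_lit 7) L122523 (by decide +kernel)
theorem L122525 : W_45 (nat_lit 2) (nat_lit 0x1a000c0000000000000000000000000000000) (nat_lit 0x0) (nat_lit 0x500100000000000000000000000000000000) := D_45 (nat_lit 142) (nat_lit 140) (nat_lit 128) (nat_lit 2) (nat_lit 4) (nat_lit 8) (nat_lit 2) (nat_lit 5) (nat_lit 8) (by decide +kernel)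
theorem L122526 : W_45 (nat_lit 2) (nat_lit 0x8000c001a000d0000c00000000000000000000000000) (nat_lit 0x0) (nat_lit 0x800040002000000000000000000000000000000000000000) := D_45 (nat_lit 174) (nat_lit 157) (nat_lit 191) (nat_lit 5) (nat_lit 5) (nat_lit 6) (nat_lit 5) (nat_lit 5) (nat_lit 7) (by decide +kernel)
theorem L122527 : W_45 (nat_lit 3) (nat_lit 0xc001a000d0000c00000000000000000000000000) (nat_lit 0x0) (nat_lit 0x8000c0002000000008000000000000000000000000000000) := T_45 (nat_lit 175) (nat_lit 123) (nat_lit 4) (nat_lit 5) (nat_lit 10) L122526 (by decide +kernel)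
theorem L122528 : W_45 (nat_lit 4) (nat_lit 0x4001a000d0000c00000000000000000000000000) (nat_lit 0x0) (nat_lit 0x8001c000a000000008000000000000000000000000000000) := T_45 (nat_lit 159) (nat_lit 176) (nat_lit 7) (nat_lit 5) (nat_lit 6) L122527 (by decide +kernel)
theorem L122529 : W_45 (nat_lit 5) (nat_lit 0x4001a000d0000800000000000000000000000000) (nat_lit 0x0) (nat_lit 0x8001c000a000000008000400020000000000000000000000) := T_45 (nat_lit 106) (nat_lit 89) (nat_lit 4) (nat_lit 5) (nat_lit 9) L122528 (by decide +kernel)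
theorem L122530 : W_45 (nat_lit 2) (nat_lit 0x1000080006001b000d0001c00000000000000000000000000) (nat_lit 0x0) (nat_lit 0x40002000100000000000000000000000000000000000000000000) := D_45 (nat_lit 193) (nat_lit 176) (nat_lit 210) (nat_lit 7) (nat_lit 5) (nat_lit 7) (nat_lit 7) (nat_lit 5) (nat_lit 8) (by decide +kernel)
theorem L122531 : W_45 (nat_lit 3) (nat_lit 0x80006001b000d0001c00000000000000000000000000) (nat_lit 0x0) (nat_lit 0x60003000100000000000000000000000000000000000000000000) := T_45 (nat_lit 192) (nat_lit 209) (nat_lit 4) (nat_lit 5) (nat_lit 12) L122530 (by decide +kernel)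
theorem L122532 : W_45 (nat_lit 4) (nat_lit 0x6001b000d0001c00000000000000000000000000) (nat_lit 0x0) (nat_lit 0x60003000180000000000008000000000000000000000000000000) := T_45 (nat_lit 175) (nat_lit 123) (nat_lit 7) (nat_lit 4) (nat_lit 6) L122531 (by decide +kernel)
theorem L122533 : W_45 (nat_lit 5) (nat_lit 0x6001a000d0001c00000000000000000000000000) (nat_lit 0x0) (nat_lit 0x60003000180000000100008000000040000000000000000000000) := T_45 (nat_lit 140) (nat_lit 90) (nat_lit 5) (nat_lit 5) (nat_lit 5) L122532 (by decide +kernel)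
theorem L122534 : W_45 (nat_lit 6) (nat_lit 0x4001a000d0001c00000000000000000000000000) (nat_lit 0x0) (nat_lit 0x600030001c0002000100008000000040000000000000000000000) := T_45 (nat_lit 157) (nat_lit 174) (nat_lit 5) (nat_lit 5) (nat_lit 6) L122533 (by decide +kernel)
theorem L122535 : W_45 (nat_lit 7) (nat_lit 0x4001a000d0001800000000000000000000000000) (nat_lit 0x0) (nat_lit 0x600030001c0002000100008000400060000000000000000000000) := T_45 (nat_lit 106) (nat_lit 89) (nat_lit 4) (nat_lit 5) (nat_lit 9) L122534 (by decide +kernel)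
theorem L122536 : W_45 (nat_lit 8) (nat_lit 0x4001a000d0000800000000000000000000000000) (nat_lit 0x0) (nat_lit 0x600030001c00020001000080014000e0000000000000000000000) := T_45 (nat_lit 108) (nat_lit 91) (nat_lit 6) (nat_lit 5) (nat_lit 9) L122535 (by decide +kernel)
theorem L122537 : W_45 (nat_lit 2) (nat_lit 0x80004001a000d0001c00000000000000000000000000) (nat_lit 0x0) (nat_lit 0x800040002000000000000000000000000000000000000000) := D_45 (nat_lit 174) (nat_lit 157) (nat_lit 191) (nat_lit 5) (nat_lit 5) (nat_lit 6) (nat_lit 5) (nat_lit 5) (nat_lit 7) (by decide +kernel)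
theorem L122538 : W_45 (nat_lit 3) (nat_lit 0x4001a000d0001c00000000000000000000000000) (nat_lit 0x0) (nat_lit 0x8000c0002000000008000000000000000000000000000000) := T_45 (nat_lit 175) (nat_lit 123) (nat_lit 4) (nat_lit 5) (nat_lit 10) L122537 (by decide +kernel)
theorem L122539 : W_45 (nat_lit 4) (nat_lit 0x4001a000d0000c00000000000000000000000000) (nat_lit 0x0) (nat_lit 0x8000c0002000000008001000080000000000000000000000) := T_45 (nat_lit 108) (nat_lit 91) (nat_lit 6) (nat_lit 5) (nat_lit 9) L122538 (by decide +kernel)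
theorem L122540 : W_45 (nat_lit 5) (nat_lit 0x4001a000d0000800000000000000000000000000) (nat_lit 0x0) (nat_lit 0x8000c00020000000080014000a0000000000000000000000) := T_45 (nat_lit 106) (nat_lit 89) (nat_lit 4) (nat_lit 5) (nat_lit 9) L122539 (by decide +kernel)
theorem L122541 : W_45 (nat_lit 2) (nat_lit 0x6001a000d0000800040000000000000000000000) (nat_lit 0x0) (nat_lit 0x400020001000000000000000000) := D_45 (nat_lit 89) (nat_lit 72) (nat_lit 106) (nat_lit 4) (nat_lit 5) (nat_lit 8) (nat_lit 4) (nat_lit 5) (nat_lit 9) (by decide +kernel)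
theorem L122542 : W_45 (nat_lit 3) (nat_lit 0x6001a000d0000800000000000000000000000000) (nat_lit 0x0) (nat_lit 0x100000000400060001000000000000000000) := T_45 (nat_lit 90) (nat_lit 140) (nat_lit 5) (nat_lit 5) (nat_lit 5) L122541 (by decide +kernel)
theorem L122543 : W_45 (nat_lit 4) (nat_lit 0x4001a000d0000800000000000000000000000000) (nat_lit 0x0) (nat_lit 0x40002000100000000400060001000000000000000000) := T_45 (nat_lit 157) (nat_lit 174) (nat_lit 5) (nat_lit 5) (nat_lit 6) L122542 (by decide +kernel)
theorem L122544 : W_45 (nat_lit 2) (nat_lit 0xe001a000d0000800080000000000000000000000) (nat_lit 0x0) (nat_lit 0x100000000000040004000000000000000000) := D_45 (nat_lit 90) (nat_lit 140) (nat_lit 74) (nat_lit 5) (nat_lit 5) (nat_lit 5) (nat_lit 6) (nat_lit 5) (nat_lit 8) (by decide +kernel)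
theorem L122545 : W_45 (nat_lit 3) (nat_lit 0xc001a000d0000800080000000000000000000000) (nat_lit 0x0) (nat_lit 0x40002000100000000000040004000000000000000000) := T_45 (nat_lit 157) (nat_lit 174) (nat_lit 5) (nat_lit 5) (nat_lit 6) L122544 (by decide +kernel)
theorem L122546 : W_45 (nat_lit 4) (nat_lit 0xc001a000d0000800000000000000000000000000) (nat_lit 0x0) (nat_lit 0x400020001000000010000c0004000000000000000000) := T_45 (nat_lit 91) (nat_lit 108) (nat_lit 6) (nat_lit 5) (nat_lit 9) L122545 (by decide +kernel)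
theorem L122547 : W_45 (nat_lit 5) (nat_lit 0x4001a000d0000800000000000000000000000000) (nat_lit 0x0) (nat_lit 0x14000a0001000000010000c0004000000000000000000) := T_45 (nat_lit 159) (nat_lit 176) (nat_lit 7) (nat_lit 5) (nat_lit 6) L122546 (by decide +kernel)
theorem L122548 : W_45 (nat_lit 2) (nat_lit 0xc001a000d8000c000c0000000000000000000000) (nat_lit 0x0) (nat_lit 0x100000000000000002000100000000000000) := D_45 (nat_lit 73) (nat_lit 140) (nat_lit 56) (nat_lit 5) (nat_lit 5) (nat_lit 4) (nat_lit 5) (nat_lit 5) (nat_lit 3) (by decide +kernel)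
theorem L122549 : W_45 (nat_lit 3) (nat_lit 0xc001a000d8000c00080000000000000000000000) (nat_lit 0x0) (nat_lit 0x100000000000040006000100000000000000) := T_45 (nat_lit 90) (nat_lit 74) (nat_lit 6) (nat_lit 5) (nat_lit 8) L122548 (by decide +kernel)
theorem L122550 : W_45 (nat_lit 4) (nat_lit 0xc001a000d8000c00000000000000000000000000) (nat_lit 0x0) (nat_lit 0x1000000010000c0006000100000000000000) := T_45 (nat_lit 91) (nat_lit 108) (nat_lit 6) (nat_lit 5) (nat_lit 9) L122549 (by decide +kernel)
theorem L122551 : W_45 (nat_lit 5) (nat_lit 0xc001a000d0000c00000000000000000000000000) (nat_lit 0x0) (nat_lit 0x800000001000080010000c0006000100000000000000) := T_45 (nat_lit 123) (nat_lit 175) (nat_lit 4) (nat_lit 5) (nat_lit 10) L122550 (by decide +kernel)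
theorem L122552 : W_45 (nat_lit 6) (nat_lit 0x4001a000d0000c00000000000000000000000000) (nat_lit 0x0) (nat_lit 0x1800080001000080010000c0006000100000000000000) := T_45 (nat_lit 159) (nat_lit 176) (nat_lit 7) (nat_lit 5) (nat_lit 6) L122551 (by decide +kernel)
theorem L122553 : W_45 (nat_lit 7) (nat_lit 0x4001a000d0000800000000000000000000000000) (nat_lit 0x0) (nat_lit 0x1800080001000080014000e0006000100000000000000) := T_45 (nat_lit 106) (nat_lit 89) (nat_lit 4) (nat_lit 5) (nat_lit 9) L122552 (by decide +kernel)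
theorem L122554 : W_45 (nat_lit 9) (nat_lit 0x1a000d0000800000000000000000000000000) (nat_lit 0x0) (nat_lit 0x600038001c000e0001000080014000e0007000100000000000000) := Q_45 (nat_lit 158) (C_45 L122529 (C_45 L122536 (C_45 L122540 (C_45 L122543 (C_45 L122547 (C_45 L122553 N_45)))))) (by decide +kernel)
theorem L122555 : W_45 (nat_lit 2) (nat_lit 0x1a000d00008000e0000000000000000000000) (nat_lit 0x0) (nat_lit 0x4000000000001400000000000000000000000000) := D_45 (nat_lit 158) (nat_lit 106) (nat_lit 108) (nat_lit 4) (nat_lit 5) (nat_lit 9) (nat_lit 6) (nat_lit 5) (nat_lit 9) (by decide +kernel)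
theorem L122556 : W_45 (nat_lit 3) (nat_lit 0x1a000d0000800060000000000000000000000) (nat_lit 0x0) (nat_lit 0x4000000000001400080004000000000000000000) := T_45 (nat_lit 91) (nat_lit 74) (nat_lit 6) (nat_lit 5) (nat_lit 8) L122555 (by decide +kernel)
theorem L122557 : W_45 (nat_lit 4) (nat_lit 0x1a000d0000800040000000000000000000000) (nat_lit 0x0) (nat_lit 0x40000000000014000a0005000000000000000000) := T_45 (nat_lit 89) (nat_lit 72) (nat_lit 4) (nat_lit 5) (nat_lit 8) L122556 (by decide +kernel)
theorem L122558 : W_45 (nat_lit 2) (nat_lit 0x4001a000d00008000e0000000000000000000000) (nat_lit 0x0) (nat_lit 0x40002000100000000000000000000000000000000000) := D_45 (nat_lit 157) (nat_lit 140) (nat_lit 174) (nat_lit 5) (nat_lit 5) (nat_lit 5) (nat_lit 5) (nat_lit 5) (nat_lit 6) (by decide +kernel)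
theorem L122559 : W_45 (nat_lit 3) (nat_lit 0x1a000d00008000e0000000000000000000000) (nat_lit 0x0) (nat_lit 0x40006000100000000400000000000000000000000000) := T_45 (nat_lit 158) (nat_lit 106) (nat_lit 4) (nat_lit 5) (nat_lit 9) L122558 (by decide +kernel)
theorem L122560 : W_45 (nat_lit 4) (nat_lit 0x1a000d0000800060000000000000000000000) (nat_lit 0x0) (nat_lit 0x40006000100000000400080004000000000000000000) := T_45 (nat_lit 91) (nat_lit 74) (nat_lit 6) (nat_lit 5) (nat_lit 8) L122559 (by decide +kernel)
theorem L122561 : W_45 (nat_lit 5) (nat_lit 0x1a000d0000800040000000000000000000000) (nat_lit 0x0) (nat_lit 0x400060001000000004000a0005000000000000000000) := T_45 (nat_lit 89) (nat_lit 72) (nat_lit 4) (nat_lit 5) (nat_lit 8) L122560 (by decide +kernel)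
theorem L122562 : W_45 (nat_lit 2) (nat_lit 0x1b000d0000800040002000000000000000000) (nat_lit 0x0) (nat_lit 0x20001000080000000000000) := D_45 (nat_lit 72) (nat_lit 55) (nat_lit 89) (nat_lit 4) (nat_lit 5) (nat_lit 7) (nat_lit 4) (nat_lit 5) (nat_lit 8) (by decide +kernel)
theorem L122563 : W_45 (nat_lit 3) (nat_lit 0x1b000d0000800040000000000000000000000) (nat_lit 0x0) (nat_lit 0x8000000020003000080000000000000) := T_45 (nat_lit 73) (nat_lit 123) (nat_lit 5) (nat_lit 5) (nat_lit 4) L122562 (by decide +kernel)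
theorem L122564 : W_45 (nat_lit 4) (nat_lit 0x1a000d0000800040000000000000000000000) (nat_lit 0x0) (nat_lit 0x2000100008000000020003000080000000000000) := T_45 (nat_lit 140) (nat_lit 157) (nat_lit 5) (nat_lit 5) (nat_lit 5) L122563 (by decide +kernel)
theorem L122565 : W_45 (nat_lit 2) (nat_lit 0x1b000d00038000c0003400000000000000000) (nat_lit 0x0) (nat_lit 0x300004000000000000000000000000000) := D_45 (nat_lit 128) (nat_lit 129) (nat_lit 110) (nat_lit 0) (nat_lit 10) (nat_lit 7) (nat_lit 3) (nat_lit 5) (nat_lit 6) (by decide +kernel)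
theorem L122566 : W_45 (nat_lit 3) (nat_lit 0x1b000d00018000c0003400000000000000000) (nat_lit 0x0) (nat_lit 0x300006400000000000000000000000000) := T_45 (nat_lit 109) (nat_lit 106) (nat_lit 3) (nat_lit 4) (nat_lit 6) L122565 (by decide +kernel)
theorem L122567 : W_45 (nat_lit 4) (nat_lit 0x1b000d00008000c0003400000000000000000) (nat_lit 0x0) (nat_lit 0x4000000300007400000000000000000000000000) := T_45 (nat_lit 108) (nat_lit 158) (nat_lit 6) (nat_lit 5) (nat_lit 9) L122566 (by decide +kernel)
theorem L122568 : W_45 (nat_lit 5) (nat_lit 0x1b000d00008000c0003000000000000000000) (nat_lit 0x0) (nat_lit 0x4000000300007400000000c00000000000000000) := T_45 (nat_lit 70) (nat_lit 71) (nat_lit 3) (nat_lit 2) (nat_lit 4) L122567 (by decide +kernel)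
theorem L122569 : W_45 (nat_lit 6) (nat_lit 0x1b000d00008000c0002000000000000000000) (nat_lit 0x0) (nat_lit 0x4000000300007400000001c00080000000000000) := T_45 (nat_lit 72) (nat_lit 55) (nat_lit 4) (nat_lit 5) (nat_lit 7) L122568 (by decide +kernel)
theorem L122570 : W_45 (nat_lit 7) (nat_lit 0x1b000d00008000c0000000000000000000000) (nat_lit 0x0) (nat_lit 0x4000000308007400000003c00080000000000000) := T_45 (nat_lit 73) (nat_lit 123) (nat_lit 5) (nat_lit 5) (nat_lit 4) L122569 (by decide +kernel)
theorem L122571 : W_45 (nat_lit 8) (nat_lit 0x1a000d00008000c0000000000000000000000) (nat_lit 0x0) (nat_lit 0x6000100308007400000003c00080000000000000) := T_45 (nat_lit 140) (nat_lit 157) (nat_lit 5) (nat_lit 5) (nat_lit 5) L122570 (by decide +kernel)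
theorem L122572 : W_45 (nat_lit 9) (nat_lit 0x1a000d0000800040000000000000000000000) (nat_lit 0x0) (nat_lit 0x6000100308007400080007c00080000000000000) := T_45 (nat_lit 91) (nat_lit 74) (nat_lit 6) (nat_lit 5) (nat_lit 8) L122571 (by decide +kernel)
theorem L122573 : W_45 (nat_lit 2) (nat_lit 0x1b000d00038000c0002000000000000000000) (nat_lit 0x0) (nat_lit 0x4000030000000000000000000000) := D_45 (nat_lit 89) (nat_lit 88) (nat_lit 110) (nat_lit 3) (nat_lit 3) (nat_lit 5) (nat_lit 0) (nat_lit 8) (nat_lit 6) (by decide +kernel)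
theorem L122574 : W_45 (nat_lit 3) (nat_lit 0x1b000d00018000c0002000000000000000000) (nat_lit 0x0) (nat_lit 0x6400030000000000000000000000) := T_45 (nat_lit 109) (nat_lit 106) (nat_lit 3) (nat_lit 4) (nat_lit 6) L122573 (by decide +kernel)
theorem L122575 : W_45 (nat_lit 4) (nat_lit 0x1b000d00008000c0002000000000000000000) (nat_lit 0x0) (nat_lit 0x4000000000007400030000000000000000000000) := T_45 (nat_lit 108) (nat_lit 158) (nat_lit 6) (nat_lit 5) (nat_lit 9) L122574 (by decide +kernel)
theorem L122576 : W_45 (nat_lit 5) (nat_lit 0x1b000d00008000c0000000000000000000000) (nat_lit 0x0) (nat_lit 0x4000000008007400030002000000000000000000) := T_45 (nat_lit 73) (nat_lit 123) (nat_lit 5) (nat_lit 5) (nat_lit 4) L122575 (by decide +kernel)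
theorem L122577 : W_45 (nat_lit 6) (nat_lit 0x1a000d00008000c0000000000000000000000) (nat_lit 0x0) (nat_lit 0x6000100008007400030002000000000000000000) := T_45 (nat_lit 140) (nat_lit 157) (nat_lit 5) (nat_lit 5) (nat_lit 5) L122576 (by decide +kernel)
theorem L122578 : W_45 (nat_lit 7) (nat_lit 0x1a000d0000800040000000000000000000000) (nat_lit 0x0) (nat_lit 0x60001000080074000b0006000000000000000000) := T_45 (nat_lit 91) (nat_lit 74) (nat_lit 6) (nat_lit 5) (nat_lit 8) L122577 (by decide +kernel)
theorem L122579 : W_45 (nat_lit 10) (nat_lit 0x1a000d0000800000000000000000000000000) (nat_lit 0x0) (nat_lit 0x400060001003080074000f0007c00080000000000000) := Q_45 (nat_lit 90) (C_45 L122557 (C_45 L122561 (C_45 L122564 (C_45 L122572 (C_45 L122578 N_45))))) (by decide +kernel)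
theorem L122580 : W_45 (nat_lit 2) (nat_lit 0x140004001a000d00008000e0000000000000000000000) (nat_lit 0x0) (nat_lit 0x2800080000000000000000000000000000000000000000000) := D_45 (nat_lit 175) (nat_lit 191) (nat_lit 193) (nat_lit 5) (nat_lit 5) (nat_lit 7) (nat_lit 7) (nat_lit 5) (nat_lit 7) (by decide +kernel)
theorem L122581 : W_45 (nat_lit 3) (nat_lit 0x40004001a000d00008000e0000000000000000000000) (nat_lit 0x0) (nat_lit 0x2800180008000000000000000000000000000000000000000) := T_45 (nat_lit 176) (nat_lit 159) (nat_lit 7) (nat_lit 5) (nat_lit 6) L122580 (by decide +kernel)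
theorem L122582 : W_45 (nat_lit 4) (nat_lit 0x4001a000d00008000e0000000000000000000000) (nat_lit 0x0) (nat_lit 0x28001c000a000000000000000000000000000000000000000) := T_45 (nat_lit 174) (nat_lit 157) (nat_lit 5) (nat_lit 5) (nat_lit 6) L122581 (by decide +kernel)
theorem L122583 : W_45 (nat_lit 5) (nat_lit 0x1a000d00008000e0000000000000000000000) (nat_lit 0x0) (nat_lit 0x28001c000e000000000000400000000000000000000000000) := T_45 (nat_lit 158) (nat_lit 106) (nat_lit 4) (nat_lit 5) (nat_lit 9) L122582 (by decide +kernel)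
theorem L122584 : W_45 (nat_lit 6) (nat_lit 0x1a000d0000800060000000000000000000000) (nat_lit 0x0) (nat_lit 0x28001c000e000000000000400080004000000000000000000) := T_45 (nat_lit 91) (nat_lit 74) (nat_lit 6) (nat_lit 5) (nat_lit 8) L122583 (by decide +kernel)
theorem L122585 : W_45 (nat_lit 7) (nat_lit 0x1a000d0000800040000000000000000000000) (nat_lit 0x0) (nat_lit 0x28001c000e0000000000004000a0005000000000000000000) := T_45 (nat_lit 89) (nat_lit 72) (nat_lit 4) (nat_lit 5) (nat_lit 8) L122584 (by decide +kernel)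
theorem L122586 : W_45 (nat_lit 2) (nat_lit 0x1a000d0000c00060006000000000000000000) (nat_lit 0x0) (nat_lit 0x100008000000000000000100000000000000) := D_45 (nat_lit 123) (nat_lit 140) (nat_lit 56) (nat_lit 6) (nat_lit 4) (nat_lit 8) (nat_lit 5) (nat_lit 5) (nat_lit 3) (by decide +kernel)
theorem L122587 : W_45 (nat_lit 3) (nat_lit 0x1a000d0000c00060004000000000000000000) (nat_lit 0x0) (nat_lit 0x100008000000000002000300000000000000) := T_45 (nat_lit 73) (nat_lit 57) (nat_lit 6) (nat_lit 5) (nat_lit 7) L122586 (by decide +kernel)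
theorem L122588 : W_45 (nat_lit 4) (nat_lit 0x1a000d0000800060004000000000000000000) (nat_lit 0x0) (nat_lit 0x4000100008000400000002000300000000000000) := T_45 (nat_lit 106) (nat_lit 158) (nat_lit 4) (nat_lit 5) (nat_lit 9) L122587 (by decide +kernel)
theorem L122589 : W_45 (nat_lit 5) (nat_lit 0x1a000d0000800060000000000000000000000) (nat_lit 0x0) (nat_lit 0x4000100008000400080006000300000000000000) := T_45 (nat_lit 74) (nat_lit 91) (nat_lit 6) (nat_lit 5) (nat_lit 8) L122588 (by decide +kernel)
theorem L122590 : W_45 (nat_lit 6) (nat_lit 0x1a000d0000800040000000000000000000000) (nat_lit 0x0) (nat_lit 0x40001000080004000a0007000300000000000000) := T_45 (nat_lit 89) (nat_lit 72) (nat_lit 4) (nat_lit 5) (nat_lit 8) L122589 (by decide +kernel)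
theorem L122591 : W_45 (nat_lit 2) (nat_lit 0x1b000d0000800040002000000000000000000) (nat_lit 0x0) (nat_lit 0x80004000200000000000000) := D_45 (nat_lit 74) (nat_lit 91) (nat_lit 57) (nat_lit 6) (nat_lit 5) (nat_lit 8) (nat_lit 6) (nat_lit 5) (nat_lit 7) (by decide +kernel)
theorem L122592 : W_45 (nat_lit 3) (nat_lit 0x1b000d0000800040000000000000000000000) (nat_lit 0x0) (nat_lit 0x8000000080006000200000000000000) := T_45 (nat_lit 73) (nat_lit 123) (nat_lit 5) (nat_lit 5) (nat_lit 4) L122591 (by decide +kernel)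
theorem L122593 : W_45 (nat_lit 4) (nat_lit 0x1a000d0000800040000000000000000000000) (nat_lit 0x0) (nat_lit 0x2000100008000000080006000200000000000000) := T_45 (nat_lit 140) (nat_lit 157) (nat_lit 5) (nat_lit 5) (nat_lit 5) L122592 (by decide +kernel)
theorem L122594 : W_45 (nat_lit 8) (nat_lit 0x1a000d0000800000000000000000000000000) (nat_lit 0x0) (nat_lit 0x28001c000e0001000080004000e0007000380000000000000) := Q_45 (nat_lit 90) (C_45 L122564 (C_45 L122585 (C_45 L122590 (C_45 L122593 N_45)))) (by decide +kernel)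
theorem L122595 : W_45 (nat_lit 2) (nat_lit 0x180006001b000d0000800000000000000000000000000) (nat_lit 0x0) (nat_lit 0x20001000000000000000008000000000000000000000000000000) := D_45 (nat_lit 192) (nat_lit 209) (nat_lit 123) (nat_lit 4) (nat_lit 5) (nat_lit 12) (nat_lit 4) (nat_lit 5) (nat_lit 11) (by decide +kernel)
theorem L122596 : W_45 (nat_lit 3) (nat_lit 0x100006001b000d0000800000000000000000000000000) (nat_lit 0x0) (nat_lit 0x20003000080000000000008000000000000000000000000000000) := T_45 (nat_lit 175) (nat_lit 193) (nat_lit 7) (nat_lit 5) (nat_lit 7) L122595 (by decide +kernel)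
theorem L122597 : W_45 (nat_lit 4) (nat_lit 0x100006001a000d0000800000000000000000000000000) (nat_lit 0x0) (nat_lit 0x20003000080000000100008000000040000000000000000000000) := T_45 (nat_lit 140) (nat_lit 90) (nat_lit 5) (nat_lit 5) (nat_lit 5) L122596 (by decide +kernel)
theorem L122598 : W_45 (nat_lit 5) (nat_lit 0x100004001a000d0000800000000000000000000000000) (nat_lit 0x0) (nat_lit 0x200030000c0002000100008000000040000000000000000000000) := T_45 (nat_lit 157) (nat_lit 174) (nat_lit 5) (nat_lit 5) (nat_lit 6) L122597 (by decide +kernel)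
theorem L122599 : W_45 (nat_lit 6) (nat_lit 0x4001a000d0000800000000000000000000000000) (nat_lit 0x0) (nat_lit 0x200030001c000a000100008000000040000000000000000000000) := T_45 (nat_lit 176) (nat_lit 159) (nat_lit 7) (nat_lit 5) (nat_lit 6) L122598 (by decide +kernel)
theorem L122600 : W_45 (nat_lit 2) (nat_lit 0x100004001a000d0000c00000000000000000000000000) (nat_lit 0x0) (nat_lit 0x2000080000000000008000000000000000000000000000000) := D_45 (nat_lit 175) (nat_lit 193) (nat_lit 123) (nat_lit 7) (nat_lit 5) (nat_lit 7) (nat_lit 4) (nat_lit 5) (nat_lit 10) (by decide +kernel)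
theorem L122601 : W_45 (nat_lit 3) (nat_lit 0x100004001a000d0000800000000000000000000000000) (nat_lit 0x0) (nat_lit 0x2000080000000000008000400020000000000000000000000) := T_45 (nat_lit 106) (nat_lit 89) (nat_lit 4) (nat_lit 5) (nat_lit 9) L122600 (by decide +kernel)
theorem L122602 : W_45 (nat_lit 4) (nat_lit 0x4001a000d0000800000000000000000000000000) (nat_lit 0x0) (nat_lit 0x2000180008000000008000400020000000000000000000000) := T_45 (nat_lit 176) (nat_lit 159) (nat_lit 7) (nat_lit 5) (nat_lit 6) L122601 (by decide +kernel)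
theorem L122603 : W_45 (nat_lit 7) (nat_lit 0x1a000d0000800000000000000000000000000) (nat_lit 0x0) (nat_lit 0x200038001c000e000100008000400060001000000000000000000) := Q_45 (nat_lit 158) (C_45 L122543 (C_45 L122529 (C_45 L122599 (C_45 L122602 N_45)))) (by decide +kernel)
theorem L122604 : W_45 (nat_lit 2) (nat_lit 0x1a000d0000800040005000000000000000000) (nat_lit 0x0) (nat_lit 0x2000280000000000000) := D_45 (nat_lit 73) (nat_lit 55) (nat_lit 57) (nat_lit 4) (nat_lit 5) (nat_lit 7) (nat_lit 6) (nat_lit 5) (nat_lit 7) (by decide +kernel)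
theorem L122605 : W_45 (nat_lit 3) (nat_lit 0x1a000d0000800040001000000000000000000) (nat_lit 0x0) (nat_lit 0x80006000280000000000000) := T_45 (nat_lit 74) (nat_lit 91) (nat_lit 6) (nat_lit 5) (nat_lit 8) L122604 (by decide +kernel)
theorem L122606 : W_45 (nat_lit 4) (nat_lit 0x1a000d0000800040000000000000000000000) (nat_lit 0x0) (nat_lit 0xa0007000280000000000000) := T_45 (nat_lit 72) (nat_lit 89) (nat_lit 4) (nat_lit 5) (nat_lit 8) L122605 (by decide +kernel)
theorem L122607 : W_45 (nat_lit 2) (nat_lit 0x1a000d0001800060000000000000000000000) (nat_lit 0x0) (nat_lit 0x6400000000000000000000000000) := D_45 (nat_lit 109) (nat_lit 106) (nat_lit 110) (nat_lit 3) (nat_lit 4) (nat_lit 6) (nat_lit 0) (nat_lit 8) (nat_lit 6) (by decide +kernel)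
theorem L122608 : W_45 (nat_lit 3) (nat_lit 0x1a000d0001800040000000000000000000000) (nat_lit 0x0) (nat_lit 0x6400020001000000000000000000) := T_45 (nat_lit 89) (nat_lit 72) (nat_lit 4) (nat_lit 5) (nat_lit 8) L122607 (by decide +kernel)
theorem L122609 : W_45 (nat_lit 2) (nat_lit 0x1b000d0001a000f0000800000000000000000) (nat_lit 0x0) (nat_lit 0xc000400000000000000000000000000) := D_45 (nat_lit 123) (nat_lit 106) (nat_lit 122) (nat_lit 4) (nat_lit 4) (nat_lit 8) (nat_lit 7) (nat_lit 3) (nat_lit 4) (by decide +kernel)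
theorem L122610 : W_45 (nat_lit 3) (nat_lit 0x1b000d0001a000f0000000000000000000000) (nat_lit 0x0) (nat_lit 0xc000400000000c00000000000000000) := T_45 (nat_lit 71) (nat_lit 70) (nat_lit 0) (nat_lit 6) (nat_lit 5) L122609 (by decide +kernel)
theorem L122611 : W_45 (nat_lit 4) (nat_lit 0x1b000d00018000f0000000000000000000000) (nat_lit 0x0) (nat_lit 0xc000700000000c00000000000000000) := T_45 (nat_lit 105) (nat_lit 104) (nat_lit 1) (nat_lit 6) (nat_lit 5) L122610 (by decide +kernel)
theorem L122612 : W_45 (nat_lit 5) (nat_lit 0x1b000d0001800070000000000000000000000) (nat_lit 0x0) (nat_lit 0xc000700080004c00000000000000000) := T_45 (nat_lit 91) (nat_lit 74) (nat_lit 6) (nat_lit 5) (nat_lit 8) L122611 (by decide +kernel)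
theorem L122613 : W_45 (nat_lit 6) (nat_lit 0x1a000d0001800070000000000000000000000) (nat_lit 0x0) (nat_lit 0x200010000c000700080004c00000000000000000) := T_45 (nat_lit 140) (nat_lit 157) (nat_lit 5) (nat_lit 5) (nat_lit 5) L122612 (by decide +kernel)
theorem L122614 : W_45 (nat_lit 7) (nat_lit 0x1a000d0001800060000000000000000000000) (nat_lit 0x0) (nat_lit 0x200010000c000700098004c00000000000000000) := T_45 (nat_lit 88) (nat_lit 87) (nat_lit 3) (nat_lit 2) (nat_lit 5) L122613 (by decide +kernel)
theorem L122615 : W_45 (nat_lit 8) (nat_lit 0x1a000d0001800040000000000000000000000) (nat_lit 0x0) (nat_lit 0x200010000c0007000b8005c00000000000000000) := T_45 (nat_lit 89) (nat_lit 72) (nat_lit 4) (nat_lit 5) (nat_lit 8) L122614 (by decide +kernel)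
theorem L122616 : W_45 (nat_lit 2) (nat_lit 0x1a000d00018000e0000000000000000000000) (nat_lit 0x0) (nat_lit 0x2000018000000000000000000000) := D_45 (nat_lit 88) (nat_lit 109) (nat_lit 87) (nat_lit 3) (nat_lit 3) (nat_lit 5) (nat_lit 3) (nat_lit 2) (nat_lit 5) (by decide +kernel)
theorem L122617 : W_45 (nat_lit 3) (nat_lit 0x1a000d00018000c0000000000000000000000) (nat_lit 0x0) (nat_lit 0x2000038001000000000000000000) := T_45 (nat_lit 89) (nat_lit 72) (nat_lit 4) (nat_lit 5) (nat_lit 8) L122616 (by decide +kernel)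
theorem L122618 : W_45 (nat_lit 4) (nat_lit 0x1a000d0001800040000000000000000000000) (nat_lit 0x0) (nat_lit 0x20000b8005000000000000000000) := T_45 (nat_lit 91) (nat_lit 74) (nat_lit 6) (nat_lit 5) (nat_lit 8) L122617 (by decide +kernel)
theorem L122619 : W_45 (nat_lit 2) (nat_lit 0x1b000d4001e000d00008000a0000000000000) (nat_lit 0x0) (nat_lit 0x40005000000000) := D_45 (nat_lit 54) (nat_lit 38) (nat_lit 36) (nat_lit 6) (nat_lit 3) (nat_lit 6) (nat_lit 4) (nat_lit 3) (nat_lit 6) (by decide +kernel)
theorem L122620 : W_45 (nat_lit 3) (nat_lit 0x1b000d4001e000d0000800080000000000000) (nat_lit 0x0) (nat_lit 0x400060005000000000) := T_45 (nat_lit 53) (nat_lit 70) (nat_lit 4) (nat_lit 3) (nat_lit 7) L122619 (by decide +kernel)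
theorem L122621 : W_45 (nat_lit 4) (nat_lit 0x1b000d4001e000d0000800000000000000000) (nat_lit 0x0) (nat_lit 0x14000e0005000000000) := T_45 (nat_lit 55) (nat_lit 72) (nat_lit 6) (nat_lit 3) (nat_lit 7) L122620 (by decide +kernel)
theorem L122622 : W_45 (nat_lit 5) (nat_lit 0x1b000d4001e000d0000000000000000000000) (nat_lit 0x0) (nat_lit 0x8000000000001c000e0005000000000) := T_45 (nat_lit 71) (nat_lit 123) (nat_lit 7) (nat_lit 3) (nat_lit 4) L122621 (by decide +kernel)
theorem L122623 : W_45 (nat_lit 6) (nat_lit 0x1b000d4001e000c0000000000000000000000) (nat_lit 0x0) (nat_lit 0x8000000018001c000e0005000000000) := T_45 (nat_lit 88) (nat_lit 87) (nat_lit 0) (nat_lit 6) (nat_lit 6) L122622 (by decide +kernel)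
theorem L122624 : W_45 (nat_lit 7) (nat_lit 0x1b000d0001e000c0000000000000000000000) (nat_lit 0x0) (nat_lit 0xe000000018001c000e0005000000000) := T_45 (nat_lit 122) (nat_lit 121) (nat_lit 1) (nat_lit 6) (nat_lit 6) L122623 (by decide +kernel)
theorem L122625 : W_45 (nat_lit 8) (nat_lit 0x1b000d0001c000c0000000000000000000000) (nat_lit 0x0) (nat_lit 0xe000300018001c000e0005000000000) := T_45 (nat_lit 105) (nat_lit 104) (nat_lit 2) (nat_lit 2) (nat_lit 6) L122624 (by decide +kernel)
theorem L122626 : W_45 (nat_lit 9) (nat_lit 0x1b000d00018000c0000000000000000000000) (nat_lit 0x0) (nat_lit 0xe002700018001c000e0005000000000) := T_45 (nat_lit 106) (nat_lit 109) (nat_lit 3) (nat_lit 4) (nat_lit 6) L122625 (by decide +kernel)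
theorem L122627 : W_45 (nat_lit 10) (nat_lit 0x1b000d0001800040000000000000000000000) (nat_lit 0x0) (nat_lit 0xe002700098005c000e0005000000000) := T_45 (nat_lit 91) (nat_lit 74) (nat_lit 6) (nat_lit 5) (nat_lit 8) L122626 (by decide +kernel)
theorem L122628 : W_45 (nat_lit 11) (nat_lit 0x1a000d0001800040000000000000000000000) (nat_lit 0x0) (nat_lit 0x200010000e002700098005c000e0005000000000) := T_45 (nat_lit 140) (nat_lit 157) (nat_lit 5) (nat_lit 5) (nat_lit 5) L122627 (by decide +kernel)
theorem L122629 : W_45 (nat_lit 2) (nat_lit 0x1b000d4001e000d0000800000000000000000) (nat_lit 0x0) (nat_lit 0x20000400020000000000000) := D_45 (nat_lit 70) (nat_lit 53) (nat_lit 89) (nat_lit 4) (nat_lit 3) (nat_lit 7) (nat_lit 0) (nat_lit 6) (nat_lit 5) (by decide +kernel)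
theorem L122630 : W_45 (nat_lit 3) (nat_lit 0x1b000d4001e000d0000000000000000000000) (nat_lit 0x0) (nat_lit 0x8000000020000c00020000000000000) := T_45 (nat_lit 71) (nat_lit 123) (nat_lit 7) (nat_lit 3) (nat_lit 4) L122629 (by decide +kernel)
theorem L122631 : W_45 (nat_lit 4) (nat_lit 0x1b000d4001e000c0000000000000000000000) (nat_lit 0x0) (nat_lit 0x8000000038000c00020000000000000) := T_45 (nat_lit 88) (nat_lit 87) (nat_lit 0) (nat_lit 6) (nat_lit 6) L122630 (by decide +kernel)
theorem L122632 : W_45 (nat_lit 5) (nat_lit 0x1b000d0001e000c0000000000000000000000) (nat_lit 0x0) (nat_lit 0xe000000038000c00020000000000000) := T_45 (nat_lit 122) (nat_lit 121) (nat_lit 1) (nat_lit 6) (nat_lit 6) L122631 (by decide +kernel)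
theorem L122633 : W_45 (nat_lit 6) (nat_lit 0x1b000d0001c000c0000000000000000000000) (nat_lit 0x0) (nat_lit 0xe000300038000c00020000000000000) := T_45 (nat_lit 105) (nat_lit 104) (nat_lit 2) (nat_lit 2) (nat_lit 6) L122632 (by decide +kernel)
theorem L122634 : W_45 (nat_lit 7) (nat_lit 0x1b000d0001c00040000000000000000000000) (nat_lit 0x0) (nat_lit 0xe0003000b8004c00020000000000000) := T_45 (nat_lit 91) (nat_lit 74) (nat_lit 6) (nat_lit 5) (nat_lit 8) L122633 (by decide +kernel)
theorem L122635 : W_45 (nat_lit 8) (nat_lit 0x1a000d0001c00040000000000000000000000) (nat_lit 0x0) (nat_lit 0x200010000e0003000b8004c00020000000000000) := T_45 (nat_lit 140) (nat_lit 157) (nat_lit 5) (nat_lit 5) (nat_lit 5) L122634 (by decide +kernel)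
theorem L122636 : W_45 (nat_lit 9) (nat_lit 0x1a000d0001800040000000000000000000000) (nat_lit 0x0) (nat_lit 0x200010000e0027000b8004c00020000000000000) := T_45 (nat_lit 106) (nat_lit 109) (nat_lit 3) (nat_lit 4) (nat_lit 6) L122635 (by decide +kernel)
theorem L122637 : W_45 (nat_lit 12) (nat_lit 0x1a000d0000800040000000000000000000000) (nat_lit 0x0) (nat_lit 0x200010000e0077000b8005c000e0005000000000) := Q_45 (nat_lit 108) (C_45 L122608 (C_45 L122615 (C_45 L122618 (C_45 L122628 (C_45 L122636 N_45))))) (by decide +kernel)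
theorem L122638 : W_45 (nat_lit 13) (nat_lit 0x1a000d0000800000000000000000000000000) (nat_lit 0x0) (nat_lit 0x200010000e0077000f8007c002e0005000000000) := Q_45 (nat_lit 90) (C_45 L122593 (C_45 L122564 (C_45 L122606 (C_45 L122637 N_45)))) (by decide +kernel)
theorem L122639 : W_45 (nat_lit 2) (nat_lit 0x4001a000d0000c00000000000000000000000000) (nat_lit 0x0) (nat_lit 0x3000080000000000000000000000) := D_45 (nat_lit 108) (nat_lit 109) (nat_lit 91) (nat_lit 3) (nat_lit 4) (nat_lit 6) (nat_lit 6) (nat_lit 5) (nat_lit 9) (by decide +kernel)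
theorem L122640 : W_45 (nat_lit 3) (nat_lit 0x4001a000d0000800000000000000000000000000) (nat_lit 0x0) (nat_lit 0x34000a0000000000000000000000) := T_45 (nat_lit 106) (nat_lit 89) (nat_lit 4) (nat_lit 5) (nat_lit 9) L122639 (by decide +kernel)
theorem L122641 : W_45 (nat_lit 2) (nat_lit 0x180004001a000d0001800000000000000000000000000) (nat_lit 0x0) (nat_lit 0x800040002000000000000000000000000000000000000000) := D_45 (nat_lit 174) (nat_lit 191) (nat_lit 157) (nat_lit 5) (nat_lit 5) (nat_lit 7) (nat_lit 5) (nat_lit 5) (nat_lit 6) (by decide +kernel)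
theorem L122642 : W_45 (nat_lit 3) (nat_lit 0x100004001a000d0001800000000000000000000000000) (nat_lit 0x0) (nat_lit 0x28000c0002000000000000000000000000000000000000000) := T_45 (nat_lit 175) (nat_lit 193) (nat_lit 7) (nat_lit 5) (nat_lit 7) L122641 (by decide +kernel)
theorem L122643 : W_45 (nat_lit 4) (nat_lit 0x100004001a000d0000800000000000000000000000000) (nat_lit 0x0) (nat_lit 0x28000c0002000000000001000080000000000000000000000) := T_45 (nat_lit 108) (nat_lit 91) (nat_lit 6) (nat_lit 5) (nat_lit 9) L122642 (by decide +kernel)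
theorem L122644 : W_45 (nat_lit 5) (nat_lit 0x4001a000d0000800000000000000000000000000) (nat_lit 0x0) (nat_lit 0x28001c000a000000000001000080000000000000000000000) := T_45 (nat_lit 176) (nat_lit 159) (nat_lit 7) (nat_lit 5) (nat_lit 6) L122643 (by decide +kernel)
theorem L122645 : W_45 (nat_lit 6) (nat_lit 0x1a000d0000800000000000000000000000000) (nat_lit 0x0) (nat_lit 0x28001c000e0000000080034000a0000000000000000000000) := Q_45 (nat_lit 158) (C_45 L122602 (C_45 L122540 (C_45 L122640 (C_45 L122644 N_45)))) (by decide +kernel)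
theorem L122646 : W_45 (nat_lit 6) (nat_lit 0x1a000d0000800000000000000000000000000) (nat_lit 0x0) (nat_lit 0x28001c000e0001000000034000e0001000000000000000000) := Q_45 (nat_lit 158) (C_45 L122644 (C_45 L122640 (C_45 L122543 N_45))) (by decide +kernel)
theorem L122647 : W_45 (nat_lit 2) (nat_lit 0x800180004001b000d00008000e0000000000000000000000) (nat_lit 0x0) (nat_lit 0x10001000000000000000008000000000000000000000000000000) := D_45 (nat_lit 192) (nat_lit 123) (nat_lit 208) (nat_lit 4) (nat_lit 5) (nat_lit 11) (nat_lit 5) (nat_lit 5) (nat_lit 8) (by decide +kernel)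
theorem L122648 : W_45 (nat_lit 3) (nat_lit 0x180004001b000d00008000e0000000000000000000000) (nat_lit 0x0) (nat_lit 0x10001800040000000000008000000000000000000000000000000) := T_45 (nat_lit 191) (nat_lit 174) (nat_lit 5) (nat_lit 5) (nat_lit 7) L122647 (by decide +kernel)
theorem L122649 : W_45 (nat_lit 4) (nat_lit 0x100004001b000d00008000e0000000000000000000000) (nat_lit 0x0) (nat_lit 0x100038000c0000000000008000000000000000000000000000000) := T_45 (nat_lit 175) (nat_lit 193) (nat_lit 7) (nat_lit 5) (nat_lit 7) L122648 (by decide +kernel)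
theorem L122650 : W_45 (nat_lit 5) (nat_lit 0x4001b000d00008000e0000000000000000000000) (nat_lit 0x0) (nat_lit 0x100038001c0008000000008000000000000000000000000000000) := T_45 (nat_lit 176) (nat_lit 159) (nat_lit 7) (nat_lit 5) (nat_lit 6) L122649 (by decide +kernel)
theorem L122651 : W_45 (nat_lit 6) (nat_lit 0x1b000d00008000e0000000000000000000000) (nat_lit 0x0) (nat_lit 0x100038001c000c000000008001000000000000000000000000000) := T_45 (nat_lit 158) (nat_lit 108) (nat_lit 6) (nat_lit 5) (nat_lit 9) L122650 (by decide +kernel)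
theorem L122652 : W_45 (nat_lit 7) (nat_lit 0x1a000d00008000e0000000000000000000000) (nat_lit 0x0) (nat_lit 0x100038001c000e000100008001000000000000000000000000000) := T_45 (nat_lit 140) (nat_lit 157) (nat_lit 5) (nat_lit 5) (nat_lit 5) L122651 (by decide +kernel)
theorem L122653 : W_45 (nat_lit 8) (nat_lit 0x1a000d0000800060000000000000000000000) (nat_lit 0x0) (nat_lit 0x100038001c000e000100008001000080004000000000000000000) := T_45 (nat_lit 91) (nat_lit 74) (nat_lit 6) (nat_lit 5) (nat_lit 8) L122652 (by decide +kernel)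
theorem L122654 : W_45 (nat_lit 9) (nat_lit 0x1a000d0000800040000000000000000000000) (nat_lit 0x0) (nat_lit 0x100038001c000e0001000080010000a0005000000000000000000) := T_45 (nat_lit 89) (nat_lit 72) (nat_lit 4) (nat_lit 5) (nat_lit 8) L122653 (by decide +kernel)
theorem L122655 : W_45 (nat_lit 10) (nat_lit 0x1a000d0000800000000000000000000000000) (nat_lit 0x0) (nat_lit 0x100038001c000e0001000080010000e0007000280000000000000) := Q_45 (nat_lit 90) (C_45 L122606 (C_45 L122564 (C_45 L122654 (C_45 L122593 N_45)))) (by decide +kernel)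
theorem L122656 : W_45 (nat_lit 2) (nat_lit 0xc001a000d0000800040005000000000000000000) (nat_lit 0x0) (nat_lit 0x2000280000000000000) := D_45 (nat_lit 73) (nat_lit 55) (nat_lit 57) (nat_lit 4) (nat_lit 5) (nat_lit 7) (nat_lit 6) (nat_lit 5) (nat_lit 7) (by decide +kernel)
theorem L122657 : W_45 (nat_lit 3) (nat_lit 0xc001a000d0000800040001000000000000000000) (nat_lit 0x0) (nat_lit 0x80006000280000000000000) := T_45 (nat_lit 74) (nat_lit 91) (nat_lit 6) (nat_lit 5) (nat_lit 8) L122656 (by decide +kernel)
theorem L122658 : W_45 (nat_lit 4) (nat_lit 0xc001a000d0000800040000000000000000000000) (nat_lit 0x0) (nat_lit 0xa0007000280000000000000) := T_45 (nat_lit 72) (nat_lit 89) (nat_lit 4) (nat_lit 5) (nat_lit 8) L122657 (by decide +kernel)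
theorem L122659 : W_45 (nat_lit 5) (nat_lit 0x4001a000d0000800040000000000000000000000) (nat_lit 0x0) (nat_lit 0x1000080000000000000000a0007000280000000000000) := T_45 (nat_lit 159) (nat_lit 176) (nat_lit 7) (nat_lit 5) (nat_lit 6) L122658 (by decide +kernel)
theorem L122660 : W_45 (nat_lit 2) (nat_lit 0x1a000d0001800080000000000000000000000) (nat_lit 0x0) (nat_lit 0x40004000200000000000000) := D_45 (nat_lit 74) (nat_lit 90) (nat_lit 57) (nat_lit 6) (nat_lit 5) (nat_lit 8) (nat_lit 5) (nat_lit 6) (nat_lit 3) (by decide +kernel)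
theorem L122661 : W_45 (nat_lit 3) (nat_lit 0x1a000d0001800000000000000000000000000) (nat_lit 0x0) (nat_lit 0x40000000000000000c0004000200000000000000) := T_45 (nat_lit 91) (nat_lit 158) (nat_lit 6) (nat_lit 5) (nat_lit 9) L122660 (by decide +kernel)
theorem L122662 : W_45 (nat_lit 2) (nat_lit 0x80004001a000d0001c00000000000000000000000000) (nat_lit 0x0) (nat_lit 0x2000100008000000000000000000000000000000000000000) := D_45 (nat_lit 176) (nat_lit 159) (nat_lit 193) (nat_lit 7) (nat_lit 5) (nat_lit 6) (nat_lit 7) (nat_lit 5) (nat_lit 7) (by decide +kernel)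
theorem L122663 : W_45 (nat_lit 3) (nat_lit 0x4001a000d0001c00000000000000000000000000) (nat_lit 0x0) (nat_lit 0x2000180008000000008000000000000000000000000000000) := T_45 (nat_lit 175) (nat_lit 123) (nat_lit 4) (nat_lit 5) (nat_lit 10) L122662 (by decide +kernel)
theorem L122664 : W_45 (nat_lit 4) (nat_lit 0x1a000d0001c00000000000000000000000000) (nat_lit 0x0) (nat_lit 0x200018000c000000008000000020000000000000000000000) := T_45 (nat_lit 158) (nat_lit 89) (nat_lit 4) (nat_lit 5) (nat_lit 9) L122663 (by decide +kernel)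
theorem L122665 : W_45 (nat_lit 5) (nat_lit 0x1a000d0001800000000000000000000000000) (nat_lit 0x0) (nat_lit 0x200018000c000000008002400020000000000000000000000) := T_45 (nat_lit 106) (nat_lit 109) (nat_lit 3) (nat_lit 4) (nat_lit 6) L122664 (by decide +kernel)
theorem L122666 : W_45 (nat_lit 2) (nat_lit 0x1a000d0003800000000000000000000000000) (nat_lit 0x0) (nat_lit 0x108004000000000000000000000000000) := D_45 (nat_lit 110) (nat_lit 123) (nat_lit 128) (nat_lit 1) (nat_lit 8) (nat_lit 6) (nat_lit 3) (nat_lit 5) (nat_lit 6) (by decide +kernel)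
theorem L122667 : W_45 (nat_lit 3) (nat_lit 0x1a000d0001800000000000000000000000000) (nat_lit 0x0) (nat_lit 0x108006400000000000000000000000000) := T_45 (nat_lit 109) (nat_lit 106) (nat_lit 3) (nat_lit 4) (nat_lit 6) L122666 (by decide +kernel)
theorem L122668 : W_45 (nat_lit 6) (nat_lit 0x1a000d0000800000000000000000000000000) (nat_lit 0x0) (nat_lit 0x200018000c0000001080074000e0004000200000000000000) := Q_45 (nat_lit 108) (C_45 L122661 (C_45 L122665 (C_45 L122667 N_45))) (by decide +kernel)
theorem L122669 : W_45 (nat_lit 2) (nat_lit 0x6001a000d0000800040000000000000000000000) (nat_lit 0x0) (nat_lit 0x1000080004000000000000000000) := D_45 (nat_lit 91) (nat_lit 108) (nat_lit 74) (nat_lit 6) (nat_lit 5) (nat_lit 9) (nat_lit 6) (nat_lit 5) (nat_lit 8) (by decide +kernel)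
theorem L122670 : W_45 (nat_lit 3) (nat_lit 0x6001a000d0000800000000000000000000000000) (nat_lit 0x0) (nat_lit 0x1000000010000c0004000000000000000000) := T_45 (nat_lit 90) (nat_lit 140) (nat_lit 5) (nat_lit 5) (nat_lit 5) L122669 (by decide +kernel)
theorem L122671 : W_45 (nat_lit 4) (nat_lit 0x4001a000d0000800000000000000000000000000) (nat_lit 0x0) (nat_lit 0x400020001000000010000c0004000000000000000000) := T_45 (nat_lit 157) (nat_lit 174) (nat_lit 5) (nat_lit 5) (nat_lit 6) L122670 (by decide +kernel)
theorem L122672 : W_45 (nat_lit 2) (nat_lit 0xc001a000d0003800000000000000000000000000) (nat_lit 0x0) (nat_lit 0x108004000000000000000000000000000) := D_45 (nat_lit 110) (nat_lit 123) (nat_lit 128) (nat_lit 1) (nat_lit 8) (nat_lit 6) (nat_lit 3) (nat_lit 5) (nat_lit 6) (by decide +kernel)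
theorem L122673 : W_45 (nat_lit 3) (nat_lit 0xc001a000d0001800000000000000000000000000) (nat_lit 0x0) (nat_lit 0x108006400000000000000000000000000) := T_45 (nat_lit 109) (nat_lit 106) (nat_lit 3) (nat_lit 4) (nat_lit 6) L122672 (by decide +kernel)
theorem L122674 : W_45 (nat_lit 4) (nat_lit 0xc001a000d0000800000000000000000000000000) (nat_lit 0x0) (nat_lit 0x108007400080000000000000000000000) := T_45 (nat_lit 108) (nat_lit 91) (nat_lit 6) (nat_lit 5) (nat_lit 9) L122673 (by decide +kernel)
theorem L122675 : W_45 (nat_lit 5) (nat_lit 0x4001a000d0000800000000000000000000000000) (nat_lit 0x0) (nat_lit 0x100008000000108007400080000000000000000000000) := T_45 (nat_lit 159) (nat_lit 176) (nat_lit 7) (nat_lit 5) (nat_lit 6) L122674 (by decide +kernel)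
theorem L122676 : W_45 (nat_lit 7) (nat_lit 0x1a000d0000800000000000000000000000000) (nat_lit 0x0) (nat_lit 0x200038001c000e0001001080074000c0004000000000000000000) := Q_45 (nat_lit 158) (C_45 L122644 (C_45 L122671 (C_45 L122599 (C_45 L122675 N_45)))) (by decide +kernel)
theorem L122677 : W_45 (nat_lit 14) (nat_lit 0x1a000d0000000000000000000000000000000) (nat_lit 0x0) (nat_lit 0x700038001c000e00010030e007f000f8007c003e0005000000000) := Q_45 (nat_lit 107) (C_45 L122554 (C_45 L122579 (C_45 L122594 (C_45 L122603 (C_45 L122638 (C_45 L122645 (C_45 L122646 (C_45 L122655 (C_45 L122668 (C_45 L122676 N_45)))))))))) (by decide +kernel)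
theorem L122678 : W_45 (nat_lit 2) (nat_lit 0x1a000d0000000000000000000000000000000) (nat_lit 0x0) (nat_lit 0x100028000000000000000000000000000000) := D_45 (nat_lit 125) (nat_lit 140) (nat_lit 123) (nat_lit 1) (nat_lit 8) (nat_lit 7) (nat_lit 3) (nat_lit 4) (nat_lit 7) (by decide +kernel)
theorem L122679 : W_45 (nat_lit 2) (nat_lit 0x1a000f0005800000010000000000000000000) (nat_lit 0x0) (nat_lit 0x4000000000000000080004000000000000000000) := D_45 (nat_lit 91) (nat_lit 74) (nat_lit 158) (nat_lit 7) (nat_lit 6) (nat_lit 4) (nat_lit 6) (nat_lit 5) (nat_lit 9) (by decide +kernel)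
theorem L122680 : W_45 (nat_lit 3) (nat_lit 0x1a000f0004800000010000000000000000000) (nat_lit 0x0) (nat_lit 0x4000000100001000080004000000000000000000) := T_45 (nat_lit 108) (nat_lit 128) (nat_lit 0) (nat_lit 9) (nat_lit 7) L122679 (by decide +kernel)
theorem L122681 : W_45 (nat_lit 4) (nat_lit 0x1a000f0004800000000000000000000000000) (nat_lit 0x0) (nat_lit 0x4000000100001000280014000000000000000000) := T_45 (nat_lit 76) (nat_lit 93) (nat_lit 5) (nat_lit 8) (nat_lit 4) L122680 (by decide +kernel)
theorem L122682 : W_45 (nat_lit 5) (nat_lit 0x1a000f0004000000000000000000000000000) (nat_lit 0x0) (nat_lit 0x4000000100001c00280014000000000000000000) := T_45 (nat_lit 107) (nat_lit 106) (nat_lit 0) (nat_lit 8) (nat_lit 7) L122681 (by decide +kernel)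
theorem L122683 : W_45 (nat_lit 6) (nat_lit 0x1a000f0000000000000000000000000000000) (nat_lit 0x0) (nat_lit 0x400000010000dc00280014000000000000000000) := T_45 (nat_lit 110) (nat_lit 111) (nat_lit 2) (nat_lit 5) (nat_lit 7) L122682 (by decide +kernel)
theorem L122684 : W_45 (nat_lit 7) (nat_lit 0x1a000d0000000000000000000000000000000) (nat_lit 0x0) (nat_lit 0x400000012800dc00280014000000000000000000) := T_45 (nat_lit 125) (nat_lit 123) (nat_lit 3) (nat_lit 4) (nat_lit 7) L122683 (by decide +kernel)
theorem L122685 : W_45 (nat_lit 7) (nat_lit 0x1a000d0000000000000000000000000000000) (nat_lit 0x0) (nat_lit 0x400010012000dc00280014000000000000000000) := T_45 (nat_lit 125) (nat_lit 140) (nat_lit 1) (nat_lit 8) (nat_lit 7) L122683 (by decide +kernel)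
theorem L122686 : W_45 (nat_lit 15) (nat_lit 0x1a000c0000000000000000000000000000000) (nat_lit 0x0) (nat_lit 0x700038001c000e00010033e00ff002f8017c003e0005000000000) := Q_45 (nat_lit 124) (C_45 L122677 (C_45 L122678 (C_45 L122684 (C_45 L122685 N_45)))) (by decide +kernel)
theorem L122687 : W_45 (nat_lit 2) (nat_lit 0x1a000d0000000000000000000000000000000) (nat_lit 0x0) (nat_lit 0x500008000000000000000000000000000000) := D_45 (nat_lit 142) (nat_lit 140) (nat_lit 123) (nat_lit 2) (nat_lit 4) (nat_lit 8) (nat_lit 0) (nat_lit 8) (nat_lit 8) (by decide +kernel)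
theorem L122688 : W_45 (nat_lit 2) (nat_lit 0x1a000d0000000000000000000000000000000) (nat_lit 0x0) (nat_lit 0x400028000000000000000000000000000000) := D_45 (nat_lit 123) (nat_lit 142) (nat_lit 125) (nat_lit 0) (nat_lit 8) (nat_lit 8) (nat_lit 3) (nat_lit 4) (nat_lit 7) (by decide +kernel)
theorem L122689 : W_45 (nat_lit 2) (nat_lit 0x1a000d0000000000000000000000000000000) (nat_lit 0x0) (nat_lit 0x500020000000000000000000000000000000) := D_45 (nat_lit 140) (nat_lit 142) (nat_lit 125) (nat_lit 2) (nat_lit 4) (nat_lit 8) (nat_lit 1) (nat_lit 8) (nat_lit 7) (by decide +kernel)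
theorem L122690 : W_45 (nat_lit 3) (nat_lit 0x1a000c0000000000000000000000000000000) (nat_lit 0x0) (nat_lit 0x500038000000000000000000000000000000) := Q_45 (nat_lit 124) (C_45 L122687 (C_45 L122678 (C_45 L122688 (C_45 L122689 N_45)))) (by decide +kernel)
theorem L122691 : W_45 (nat_lit 2) (nat_lit 0x5a003c001a000000000000000000000000000) (nat_lit 0x0) (nat_lit 0x80000000000000000400020000000000000000000) := D_45 (nat_lit 94) (nat_lit 77) (nat_lit 163) (nat_lit 7) (nat_lit 9) (nat_lit 4) (nat_lit 4) (nat_lit 10) (nat_lit 9) (by decide +kernel)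
theorem L122692 : W_45 (nat_lit 3) (nat_lit 0x5a003c0012000000000000000000000000000) (nat_lit 0x0) (nat_lit 0x80000000020008000400020000000000000000000) := T_45 (nat_lit 111) (nat_lit 125) (nat_lit 2) (nat_lit 6) (nat_lit 7) L122691 (by decide +kernel)
theorem L122693 : W_45 (nat_lit 4) (nat_lit 0x5a003c0002000000000000000000000000000) (nat_lit 0x0) (nat_lit 0x80000000020038000400020000000000000000000) := T_45 (nat_lit 112) (nat_lit 113) (nat_lit 2) (nat_lit 7) (nat_lit 7) L122692 (by decide +kernel)
theorem L122694 : W_45 (nat_lit 5) (nat_lit 0x1a003c0002000000000000000000000000000) (nat_lit 0x0) (nat_lit 0x8000c000020038000400020000000000000000000) := T_45 (nat_lit 146) (nat_lit 147) (nat_lit 3) (nat_lit 7) (nat_lit 7) L122693 (by decide +kernel)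
theorem L122695 : W_45 (nat_lit 6) (nat_lit 0x1a003c0000000000000000000000000000000) (nat_lit 0x0) (nat_lit 0x8000c00002003b000400020000000000000000000) := T_45 (nat_lit 109) (nat_lit 108) (nat_lit 0) (nat_lit 10) (nat_lit 7) L122694 (by decide +kernel)
theorem L122696 : W_45 (nat_lit 7) (nat_lit 0x1a001c0000000000000000000000000000000) (nat_lit 0x0) (nat_lit 0x8000c00062003b000400020000000000000000000) := T_45 (nat_lit 129) (nat_lit 130) (nat_lit 1) (nat_lit 11) (nat_lit 7) L122695 (by decide +kernel)
theorem L122697 : W_45 (nat_lit 8) (nat_lit 0x1a000c0000000000000000000000000000000) (nat_lit 0x0) (nat_lit 0x8000c40072003b000400020000000000000000000) := T_45 (nat_lit 128) (nat_lit 142) (nat_lit 2) (nat_lit 5) (nat_lit 8) L122696 (by decide +kernel)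
theorem L122698 : W_45 (nat_lit 16) (nat_lit 0x18000c0000000000000000000000000000000) (nat_lit 0x0) (nat_lit 0x700038001c008e00c70073e03ff006f8037c003e0005000000000) := Q_45 (nat_lit 141) (C_45 L122525 (C_45 L122686 (C_45 L122690 (C_45 L122697 N_45)))) (by decide +kernel)
theorem L122699 : W_45 (nat_lit 6) (nat_lit 0x100018000c0000000000000000000000000000000) (nat_lit 0x0) (nat_lit 0xe000f0000e000000000002000000000000000000000000000) := T_45 (nat_lit 177) (nat_lit 194) (nat_lit 6) (nat_lit 7) (nat_lit 11) L65959 (by decide +kernel)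
theorem L122700 : W_45 (nat_lit 2) (nat_lit 0x100018001c0002000000000000000000000000000) (nat_lit 0x0) (nat_lit 0x600001000000000000000000000000000) := D_45 (nat_lit 129) (nat_lit 130) (nat_lit 108) (nat_lit 1) (nat_lit 11) (nat_lit 7) (nat_lit 0) (nat_lit 10) (nat_lit 7) (by decide +kernel)
theorem L122701 : W_45 (nat_lit 2) (nat_lit 0x100018001c0006000000000000000000000000000) (nat_lit 0x0) (nat_lit 0x1800080000000000000000000000) := D_45 (nat_lit 108) (nat_lit 91) (nat_lit 107) (nat_lit 4) (nat_lit 7) (nat_lit 9) (nat_lit 3) (nat_lit 5) (nat_lit 6) (by decide +kernel)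
theorem L122702 : W_45 (nat_lit 3) (nat_lit 0x100018001c0002000000000000000000000000000) (nat_lit 0x0) (nat_lit 0x5800280000000000000000000000) := T_45 (nat_lit 110) (nat_lit 93) (nat_lit 6) (nat_lit 7) (nat_lit 9) L122701 (by decide +kernel)
theorem L122703 : W_45 (nat_lit 2) (nat_lit 0x10001a001c0003000000000000000000000000000) (nat_lit 0x0) (nat_lit 0x4c00000000000000000000000000) := D_45 (nat_lit 107) (nat_lit 110) (nat_lit 106) (nat_lit 3) (nat_lit 5) (nat_lit 6) (nat_lit 3) (nat_lit 4) (nat_lit 6) (by decide +kernel)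
theorem L122704 : W_45 (nat_lit 3) (nat_lit 0x10001a001c0002000000000000000000000000000) (nat_lit 0x0) (nat_lit 0x5c00080000000000000000000000) := T_45 (nat_lit 108) (nat_lit 91) (nat_lit 4) (nat_lit 7) (nat_lit 9) L122703 (by decide +kernel)
theorem L122705 : W_45 (nat_lit 4) (nat_lit 0x100018001c0002000000000000000000000000000) (nat_lit 0x0) (nat_lit 0x600000005c00080000000000000000000000) := T_45 (nat_lit 141) (nat_lit 142) (nat_lit 2) (nat_lit 5) (nat_lit 8) L122704 (by decide +kernel)
theorem L122706 : W_45 (nat_lit 2) (nat_lit 0x10001c001c0006000000000000000000000000000) (nat_lit 0x0) (nat_lit 0x1800080000000000000000000000) := D_45 (nat_lit 108) (nat_lit 107) (nat_lit 91) (nat_lit 3) (nat_lit 5) (nat_lit 6) (nat_lit 4) (nat_lit 7) (nat_lit 9) (by decide +kernel)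
theorem L122707 : W_45 (nat_lit 2) (nat_lit 0x10001c000c0000000000000000000000000000000) (nat_lit 0x0) (nat_lit 0x300100000000000000000000000000000000) := D_45 (nat_lit 141) (nat_lit 128) (nat_lit 140) (nat_lit 2) (nat_lit 5) (nat_lit 8) (nat_lit 2) (nat_lit 4) (nat_lit 8) (by decide +kernel)
theorem L122708 : W_45 (nat_lit 2) (nat_lit 0x100010001c000c0004000000000000000000000000000) (nat_lit 0x0) (nat_lit 0x2000000008000000000002000000000000000000000000000) := D_45 (nat_lit 159) (nat_lit 109) (nat_lit 193) (nat_lit 5) (nat_lit 7) (nat_lit 6) (nat_lit 6) (nat_lit 6) (nat_lit 11) (by decide +kernel)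
theorem L122709 : W_45 (nat_lit 2) (nat_lit 0x100018000c0003800000000000000000000000000) (nat_lit 0x0) (nat_lit 0x300004000000000000000000000000000) := D_45 (nat_lit 128) (nat_lit 129) (nat_lit 110) (nat_lit 0) (nat_lit 10) (nat_lit 7) (nat_lit 3) (nat_lit 5) (nat_lit 6) (by decide +kernel)
theorem L122710 : W_45 (nat_lit 3) (nat_lit 0x100018000c0003000000000000000000000000000) (nat_lit 0x0) (nat_lit 0x300004c00000000000000000000000000) := T_45 (nat_lit 107) (nat_lit 106) (nat_lit 3) (nat_lit 4) (nat_lit 6) L122709 (by decide +kernel)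
theorem L122711 : W_45 (nat_lit 4) (nat_lit 0x100018000c0002000000000000000000000000000) (nat_lit 0x0) (nat_lit 0x300005c00080000000000000000000000) := T_45 (nat_lit 108) (nat_lit 91) (nat_lit 4) (nat_lit 7) (nat_lit 9) L122710 (by decide +kernel)
theorem L122712 : W_45 (nat_lit 2) (nat_lit 0x1a0018000d0007800040000000000000000000000) (nat_lit 0x0) (nat_lit 0x700000000000000000000000000000000000) := D_45 (nat_lit 141) (nat_lit 140) (nat_lit 142) (nat_lit 5) (nat_lit 5) (nat_lit 5) (nat_lit 7) (nat_lit 5) (nat_lit 5) (by decide +kernel)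
theorem L122713 : W_45 (nat_lit 3) (nat_lit 0x1a0018000d0007800000000000000000000000000) (nat_lit 0x0) (nat_lit 0x700000000000060000000000000000000000) := T_45 (nat_lit 90) (nat_lit 89) (nat_lit 0) (nat_lit 8) (nat_lit 6) L122712 (by decide +kernel)
theorem L122714 : W_45 (nat_lit 4) (nat_lit 0x1a0018000c0007800000000000000000000000000) (nat_lit 0x0) (nat_lit 0x700018000000060000000000000000000000) := T_45 (nat_lit 124) (nat_lit 123) (nat_lit 1) (nat_lit 8) (nat_lit 6) L122713 (by decide +kernel)
theorem L122715 : W_45 (nat_lit 5) (nat_lit 0x1a0018000c0007000000000000000000000000000) (nat_lit 0x0) (nat_lit 0x700018000c00060000000000000000000000) := T_45 (nat_lit 107) (nat_lit 106) (nat_lit 3) (nat_lit 4) (nat_lit 6) L122714 (by decide +kernel)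
theorem L122716 : W_45 (nat_lit 6) (nat_lit 0x1a0018000c0006000000000000000000000000000) (nat_lit 0x0) (nat_lit 0x700018001c000e0000000000000000000000) := T_45 (nat_lit 108) (nat_lit 91) (nat_lit 4) (nat_lit 7) (nat_lit 9) L122715 (by decide +kernel)
theorem L122717 : W_45 (nat_lit 7) (nat_lit 0x180018000c0006000000000000000000000000000) (nat_lit 0x0) (nat_lit 0x6000700018001c000e0000000000000000000000) := T_45 (nat_lit 157) (nat_lit 158) (nat_lit 2) (nat_lit 4) (nat_lit 9) L122716 (by decide +kernel)
theorem L122718 : W_45 (nat_lit 8) (nat_lit 0x100018000c0006000000000000000000000000000) (nat_lit 0x0) (nat_lit 0x10000e000700018001c000e0000000000000000000000) := T_45 (nat_lit 159) (nat_lit 176) (nat_lit 5) (nat_lit 7) (nat_lit 6) L122717 (by decide +kernel)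
theorem L122719 : W_45 (nat_lit 9) (nat_lit 0x100018000c0002000000000000000000000000000) (nat_lit 0x0) (nat_lit 0x10000e000700018005c002e0000000000000000000000) := T_45 (nat_lit 110) (nat_lit 93) (nat_lit 6) (nat_lit 7) (nat_lit 9) L122718 (by decide +kernel)
theorem L122720 : W_45 (nat_lit 2) (nat_lit 0x100018001c0002000000000000000000000000000) (nat_lit 0x0) (nat_lit 0x400600000000000000000000000000000000) := D_45 (nat_lit 129) (nat_lit 142) (nat_lit 130) (nat_lit 1) (nat_lit 10) (nat_lit 7) (nat_lit 1) (nat_lit 11) (nat_lit 7) (by decide +kernel)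
theorem L122721 : W_45 (nat_lit 2) (nat_lit 0x10001a000c0000000000000000000000000000000) (nat_lit 0x0) (nat_lit 0x500100000000000000000000000000000000) := D_45 (nat_lit 142) (nat_lit 140) (nat_lit 128) (nat_lit 2) (nat_lit 4) (nat_lit 8) (nat_lit 2) (nat_lit 5) (nat_lit 8) (by decide +kernel)
theorem L122722 : W_45 (nat_lit 2) (nat_lit 0x10001c001a000d0000000200000000000000000000000) (nat_lit 0x0) (nat_lit 0x40002000080000000000000000000000000000000000000000000) := D_45 (nat_lit 193) (nat_lit 210) (nat_lit 175) (nat_lit 6) (nat_lit 6) (nat_lit 12) (nat_lit 7) (nat_lit 5) (nat_lit 7) (by decide +kernel)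
theorem L122723 : W_45 (nat_lit 3) (nat_lit 0x1c001a000d0000000200000000000000000000000) (nat_lit 0x0) (nat_lit 0x40002000180000000000000000800000000000000000000000000) := T_45 (nat_lit 176) (nat_lit 107) (nat_lit 7) (nat_lit 5) (nat_lit 6) L122722 (by decide +kernel)
theorem L122724 : W_45 (nat_lit 2) (nat_lit 0x1c0014001a000d0000800000000000000000000000000) (nat_lit 0x0) (nat_lit 0x8000400020000000000000000000000) := D_45 (nat_lit 106) (nat_lit 89) (nat_lit 123) (nat_lit 4) (nat_lit 5) (nat_lit 9) (nat_lit 4) (nat_lit 5) (nat_lit 10) (by decide +kernel)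
theorem L122725 : W_45 (nat_lit 3) (nat_lit 0x1c0014001a000d0000000000000000000000000000000) (nat_lit 0x0) (nat_lit 0x2000000008000c00020000000000000000000000) := T_45 (nat_lit 107) (nat_lit 157) (nat_lit 5) (nat_lit 5) (nat_lit 6) L122724 (by decide +kernel)
theorem L122726 : W_45 (nat_lit 4) (nat_lit 0x180014001a000d0000000000000000000000000000000) (nat_lit 0x0) (nat_lit 0x800040002000000008000c00020000000000000000000000) := T_45 (nat_lit 174) (nat_lit 191) (nat_lit 5) (nat_lit 5) (nat_lit 7) L122725 (by decide +kernel)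
theorem L122727 : W_45 (nat_lit 5) (nat_lit 0x80014001a000d0000000000000000000000000000000) (nat_lit 0x0) (nat_lit 0x2800140002000000008000c00020000000000000000000000) := T_45 (nat_lit 176) (nat_lit 193) (nat_lit 7) (nat_lit 5) (nat_lit 7) L122726 (by decide +kernel)
theorem L122728 : W_45 (nat_lit 2) (nat_lit 0x1000080014001a000d8000000200000000000000000000000) (nat_lit 0x0) (nat_lit 0x10000800040000000000000000000000000000000000000000000) := D_45 (nat_lit 191) (nat_lit 174) (nat_lit 208) (nat_lit 5) (nat_lit 5) (nat_lit 7) (nat_lit 5) (nat_lit 5) (nat_lit 8) (by decide +kernel)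
theorem L122729 : W_45 (nat_lit 3) (nat_lit 0x80014001a000d8000000200000000000000000000000) (nat_lit 0x0) (nat_lit 0x10001800040000000100000000000000000000000000000000000) := T_45 (nat_lit 192) (nat_lit 140) (nat_lit 4) (nat_lit 5) (nat_lit 11) L122728 (by decide +kernel)
theorem L122730 : W_45 (nat_lit 4) (nat_lit 0x80014001a000d8000000000000000000000000000000) (nat_lit 0x0) (nat_lit 0x10001800040000000100000004000200000000000000000000000) := T_45 (nat_lit 93) (nat_lit 110) (nat_lit 5) (nat_lit 8) (nat_lit 5) L122729 (by decide +kernel)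
theorem L122731 : W_45 (nat_lit 5) (nat_lit 0x80014001a000d0000000000000000000000000000000) (nat_lit 0x0) (nat_lit 0x10001800040000000100008004400200000000000000000000000) := T_45 (nat_lit 123) (nat_lit 106) (nat_lit 4) (nat_lit 5) (nat_lit 10) L122730 (by decide +kernel)
theorem L122732 : W_45 (nat_lit 2) (nat_lit 0x3000080014001a000d0000000200000000000000000000000) (nat_lit 0x0) (nat_lit 0x100008000400000000000000000000000000) := D_45 (nat_lit 123) (nat_lit 106) (nat_lit 140) (nat_lit 4) (nat_lit 5) (nat_lit 10) (nat_lit 4) (nat_lit 5) (nat_lit 11) (by decide +kernel)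
theorem L122733 : W_45 (nat_lit 3) (nat_lit 0x2000080014001a000d0000000200000000000000000000000) (nat_lit 0x0) (nat_lit 0x40001000000000000100008000400000000000000000000000000) := T_45 (nat_lit 192) (nat_lit 210) (nat_lit 7) (nat_lit 5) (nat_lit 8) L122732 (by decide +kernel)
theorem L122734 : W_45 (nat_lit 4) (nat_lit 0x2000080014001a000d0000000000000000000000000000000) (nat_lit 0x0) (nat_lit 0x40001000000000000100008004400200000000000000000000000) := T_45 (nat_lit 93) (nat_lit 110) (nat_lit 5) (nat_lit 8) (nat_lit 5) L122733 (by decide +kernel)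
theorem L122735 : W_45 (nat_lit 5) (nat_lit 0x80014001a000d0000000000000000000000000000000) (nat_lit 0x0) (nat_lit 0x40003000100000000100008004400200000000000000000000000) := T_45 (nat_lit 193) (nat_lit 176) (nat_lit 7) (nat_lit 5) (nat_lit 7) L122734 (by decide +kernel)
theorem L122736 : W_45 (nat_lit 2) (nat_lit 0x16001a000d0000800040000000000000000000000) (nat_lit 0x0) (nat_lit 0x400020001000000000000000000) := D_45 (nat_lit 89) (nat_lit 72) (nat_lit 106) (nat_lit 4) (nat_lit 5) (nat_lit 8) (nat_lit 4) (nat_lit 5) (nat_lit 9) (by decide +kernel)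
theorem L122737 : W_45 (nat_lit 3) (nat_lit 0x16001a000d0000800000000000000000000000000) (nat_lit 0x0) (nat_lit 0x100000000400060001000000000000000000) := T_45 (nat_lit 90) (nat_lit 140) (nat_lit 5) (nat_lit 5) (nat_lit 5) L122736 (by decide +kernel)
theorem L122738 : W_45 (nat_lit 4) (nat_lit 0x16001a000d0000000000000000000000000000000) (nat_lit 0x0) (nat_lit 0x40000000100000000c00060001000000000000000000) := T_45 (nat_lit 107) (nat_lit 174) (nat_lit 5) (nat_lit 5) (nat_lit 6) L122737 (by decide +kernel)
theorem L122739 : W_45 (nat_lit 5) (nat_lit 0x14001a000d0000000000000000000000000000000) (nat_lit 0x0) (nat_lit 0x4000a000100000000c00060001000000000000000000) := T_45 (nat_lit 157) (nat_lit 159) (nat_lit 2) (nat_lit 4) (nat_lit 9) L122738 (by decide +kernel)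
theorem L122740 : W_45 (nat_lit 2) (nat_lit 0x1e0016801b000d8000000000000000000000000000000) (nat_lit 0x0) (nat_lit 0x18000400000000000000000000000000000000000000) := D_45 (nat_lit 172) (nat_lit 171) (nat_lit 154) (nat_lit 2) (nat_lit 1) (nat_lit 10) (nat_lit 0) (nat_lit 5) (nat_lit 10) (by decide +kernel)
theorem L122741 : W_45 (nat_lit 3) (nat_lit 0x1c0016801b000d8000000000000000000000000000000) (nat_lit 0x0) (nat_lit 0x400038000400000000000000000000000000000000000000) := T_45 (nat_lit 173) (nat_lit 190) (nat_lit 5) (nat_lit 4) (nat_lit 7) L122740 (by decide +kernel)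
theorem L122742 : W_45 (nat_lit 4) (nat_lit 0x1c0016801a000d8000000000000000000000000000000) (nat_lit 0x0) (nat_lit 0x1400038000400100000000000000000000000000000000000) := T_45 (nat_lit 140) (nat_lit 192) (nat_lit 7) (nat_lit 4) (nat_lit 7) L122741 (by decide +kernel)
theorem L122743 : W_45 (nat_lit 5) (nat_lit 0x1c0016001a000d8000000000000000000000000000000) (nat_lit 0x0) (nat_lit 0x1400038001c00100000000000000000000000000000000000) := T_45 (nat_lit 155) (nat_lit 156) (nat_lit 3) (nat_lit 2) (nat_lit 9) L122742 (by decide +kernel)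
theorem L122744 : W_45 (nat_lit 6) (nat_lit 0xc0016001a000d8000000000000000000000000000000) (nat_lit 0x0) (nat_lit 0x3400138001c00100000000000000000000000000000000000) := T_45 (nat_lit 176) (nat_lit 193) (nat_lit 7) (nat_lit 5) (nat_lit 7) L122743 (by decide +kernel)
theorem L122745 : W_45 (nat_lit 7) (nat_lit 0xc0016001a000d0000000000000000000000000000000) (nat_lit 0x0) (nat_lit 0x3400138001c00100008000400000000000000000000000000) := T_45 (nat_lit 123) (nat_lit 106) (nat_lit 4) (nat_lit 5) (nat_lit 10) L122744 (by decide +kernel)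
theorem L122746 : W_45 (nat_lit 8) (nat_lit 0x80016001a000d0000000000000000000000000000000) (nat_lit 0x0) (nat_lit 0x3c00178001c00100008000400000000000000000000000000) := T_45 (nat_lit 174) (nat_lit 191) (nat_lit 5) (nat_lit 5) (nat_lit 7) L122745 (by decide +kernel)
theorem L122747 : W_45 (nat_lit 9) (nat_lit 0x80014001a000d0000000000000000000000000000000) (nat_lit 0x0) (nat_lit 0x3c0017800bc00100008000400000000000000000000000000) := T_45 (nat_lit 157) (nat_lit 159) (nat_lit 2) (nat_lit 4) (nat_lit 9) L122746 (by decide +kernel)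
theorem L122748 : W_45 (nat_lit 2) (nat_lit 0x1c0014001a000d8000000200000000000000000000000) (nat_lit 0x0) (nat_lit 0x2000a000000000000000000000000000000000000000) := D_45 (nat_lit 159) (nat_lit 173) (nat_lit 157) (nat_lit 2) (nat_lit 3) (nat_lit 10) (nat_lit 2) (nat_lit 4) (nat_lit 9) (by decide +kernel)
theorem L122749 : W_45 (nat_lit 3) (nat_lit 0x180014001a000d8000000200000000000000000000000) (nat_lit 0x0) (nat_lit 0x80006000a000000000000000000000000000000000000000) := T_45 (nat_lit 174) (nat_lit 191) (nat_lit 5) (nat_lit 5) (nat_lit 7) L122748 (by decide +kernel)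
theorem L122750 : W_45 (nat_lit 4) (nat_lit 0x180014001a000d8000000000000000000000000000000) (nat_lit 0x0) (nat_lit 0x80006000a000000000004000200000000000000000000000) := T_45 (nat_lit 93) (nat_lit 110) (nat_lit 5) (nat_lit 8) (nat_lit 5) L122749 (by decide +kernel)
theorem L122751 : W_45 (nat_lit 5) (nat_lit 0x80014001a000d8000000000000000000000000000000) (nat_lit 0x0) (nat_lit 0x280016000a000000000004000200000000000000000000000) := T_45 (nat_lit 176) (nat_lit 193) (nat_lit 7) (nat_lit 5) (nat_lit 7) L122750 (by decide +kernel)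
theorem L122752 : W_45 (nat_lit 6) (nat_lit 0x80014001a000d0000000000000000000000000000000) (nat_lit 0x0) (nat_lit 0x280016000a000000008004400200000000000000000000000) := T_45 (nat_lit 123) (nat_lit 106) (nat_lit 4) (nat_lit 5) (nat_lit 10) L122751 (by decide +kernel)
theorem L122753 : W_45 (nat_lit 2) (nat_lit 0x30000c0016001a000d0000000000000000000000000000000) (nat_lit 0x0) (nat_lit 0x400020000000000000000100000000000000000000000000000000000) := D_45 (nat_lit 209) (nat_lit 226) (nat_lit 140) (nat_lit 4) (nat_lit 5) (nat_lit 13) (nat_lit 4) (nat_lit 5) (nat_lit 12) (by decide +kernel)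
theorem L122754 : W_45 (nat_lit 3) (nat_lit 0x20000c0016001a000d0000000000000000000000000000000) (nat_lit 0x0) (nat_lit 0x400060001000000000000100000000000000000000000000000000000) := T_45 (nat_lit 192) (nat_lit 210) (nat_lit 7) (nat_lit 5) (nat_lit 8) L122753 (by decide +kernel)
theorem L122755 : W_45 (nat_lit 4) (nat_lit 0x2000080016001a000d0000000000000000000000000000000) (nat_lit 0x0) (nat_lit 0x400060001800040000000100000000000000000000000000000000000) := T_45 (nat_lit 174) (nat_lit 191) (nat_lit 5) (nat_lit 5) (nat_lit 7) L122754 (by decide +kernel)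
theorem L122756 : W_45 (nat_lit 5) (nat_lit 0x80016001a000d0000000000000000000000000000000) (nat_lit 0x0) (nat_lit 0x400060003800140000000100000000000000000000000000000000000) := T_45 (nat_lit 193) (nat_lit 176) (nat_lit 7) (nat_lit 5) (nat_lit 7) L122755 (by decide +kernel)
theorem L122757 : W_45 (nat_lit 6) (nat_lit 0x80014001a000d0000000000000000000000000000000) (nat_lit 0x0) (nat_lit 0x40006000380014000a000100000000000000000000000000000000000) := T_45 (nat_lit 157) (nat_lit 159) (nat_lit 2) (nat_lit 4) (nat_lit 9) L122756 (by decide +kernel)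
theorem L122758 : W_45 (nat_lit 10) (nat_lit 0x14001a000d0000000000000000000000000000000) (nat_lit 0x0) (nat_lit 0x400070003c001f800bc00100008004400200000000000000000000000) := Q_45 (nat_lit 175) (C_45 L122747 (C_45 L122735 (C_45 L122731 (C_45 L122752 (C_45 L122757 N_45))))) (by decide +kernel)
theorem L122759 : W_45 (nat_lit 2) (nat_lit 0x180014001a000d0000800000000000000000000000000) (nat_lit 0x0) (nat_lit 0x8000400020000000000000000000000) := D_45 (nat_lit 106) (nat_lit 123) (nat_lit 89) (nat_lit 4) (nat_lit 5) (nat_lit 10) (nat_lit 4) (nat_lit 5) (nat_lit 9) (by decide +kernel)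
theorem L122760 : W_45 (nat_lit 3) (nat_lit 0x180014001a000d0000000000000000000000000000000) (nat_lit 0x0) (nat_lit 0x8000000008000c00020000000000000000000000) := T_45 (nat_lit 107) (nat_lit 159) (nat_lit 7) (nat_lit 5) (nat_lit 6) L122759 (by decide +kernel)
theorem L122761 : W_45 (nat_lit 4) (nat_lit 0x80014001a000d0000000000000000000000000000000) (nat_lit 0x0) (nat_lit 0x2000100008000000008000c00020000000000000000000000) := T_45 (nat_lit 176) (nat_lit 193) (nat_lit 7) (nat_lit 5) (nat_lit 7) L122760 (by decide +kernel)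
theorem L122762 : W_45 (nat_lit 2) (nat_lit 0x1c0014001a000d0000000200000000000000000000000) (nat_lit 0x0) (nat_lit 0x20008000000000000800000000000000000000000000) := D_45 (nat_lit 159) (nat_lit 107) (nat_lit 173) (nat_lit 7) (nat_lit 5) (nat_lit 6) (nat_lit 2) (nat_lit 3) (nat_lit 10) (by decide +kernel)
theorem L122763 : W_45 (nat_lit 3) (nat_lit 0xc0014001a000d0000000200000000000000000000000) (nat_lit 0x0) (nat_lit 0x2000120008000000000000800000000000000000000000000) := T_45 (nat_lit 176) (nat_lit 193) (nat_lit 7) (nat_lit 5) (nat_lit 7) L122762 (by decide +kernel)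
theorem L122764 : W_45 (nat_lit 4) (nat_lit 0xc0014001a000d0000000000000000000000000000000) (nat_lit 0x0) (nat_lit 0x2000120008000000000004800200000000000000000000000) := T_45 (nat_lit 93) (nat_lit 110) (nat_lit 5) (nat_lit 8) (nat_lit 5) L122763 (by decide +kernel)
theorem L122765 : W_45 (nat_lit 5) (nat_lit 0x80014001a000d0000000000000000000000000000000) (nat_lit 0x0) (nat_lit 0x2800160008000000000004800200000000000000000000000) := T_45 (nat_lit 174) (nat_lit 191) (nat_lit 5) (nat_lit 5) (nat_lit 7) L122764 (by decide +kernel)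
theorem L122766 : W_45 (nat_lit 6) (nat_lit 0x14001a000d0000000000000000000000000000000) (nat_lit 0x0) (nat_lit 0x500038001e0008000100008004c00220000000000000000000000) := Q_45 (nat_lit 175) (C_45 L122761 (C_45 L122735 (C_45 L122731 (C_45 L122765 N_45)))) (by decide +kernel)
theorem L122767 : W_45 (nat_lit 4) (nat_lit 0x14001a000d0000000200000000000000000000000) (nat_lit 0x0) (nat_lit 0x4000200018000a000000000000800000000000000000000000000) := T_45 (nat_lit 159) (nat_lit 157) (nat_lit 2) (nat_lit 4) (nat_lit 9) L122723 (by decide +kernel)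
theorem L122768 : W_45 (nat_lit 5) (nat_lit 0x14001a000d0000000000000000000000000000000) (nat_lit 0x0) (nat_lit 0x4000200018000a000000000004800200000000000000000000000) := T_45 (nat_lit 93) (nat_lit 110) (nat_lit 5) (nat_lit 8) (nat_lit 5) L122767 (by decide +kernel)
theorem L122769 : W_45 (nat_lit 4) (nat_lit 0xc0016001a000d0000000000000000000000000000000) (nat_lit 0x0) (nat_lit 0x400060003000100000000100000000000000000000000000000000000) := T_45 (nat_lit 193) (nat_lit 176) (nat_lit 7) (nat_lit 5) (nat_lit 7) L122754 (by decide +kernel)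
theorem L122770 : W_45 (nat_lit 5) (nat_lit 0xc0014001a000d0000000000000000000000000000000) (nat_lit 0x0) (nat_lit 0x400060003000100002000100000000800000000000000000000000000) := T_45 (nat_lit 157) (nat_lit 107) (nat_lit 5) (nat_lit 5) (nat_lit 6) L122769 (by decide +kernel)
theorem L122771 : W_45 (nat_lit 6) (nat_lit 0x80014001a000d0000000000000000000000000000000) (nat_lit 0x0) (nat_lit 0x400060003800140002000100000000800000000000000000000000000) := T_45 (nat_lit 174) (nat_lit 191) (nat_lit 5) (nat_lit 5) (nat_lit 7) L122770 (by decide +kernel)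
theorem L122772 : W_45 (nat_lit 7) (nat_lit 0x14001a000d0000000000000000000000000000000) (nat_lit 0x0) (nat_lit 0x4000700038001c0002000100008004c00220000000000000000000000) := Q_45 (nat_lit 175) (C_45 L122727 (C_45 L122771 (C_45 L122731 (C_45 L122735 N_45)))) (by decide +kernel)
theorem L122773 : W_45 (nat_lit 2) (nat_lit 0x16001a000d0004800040000000000000000000000) (nat_lit 0x0) (nat_lit 0x400020001000000000000000000) := D_45 (nat_lit 89) (nat_lit 72) (nat_lit 106) (nat_lit 4) (nat_lit 5) (nat_lit 8) (nat_lit 4) (nat_lit 5) (nat_lit 9) (by decide +kernel)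
theorem L122774 : W_45 (nat_lit 3) (nat_lit 0x16001a000d0004800000000000000000000000000) (nat_lit 0x0) (nat_lit 0x100000000400060001000000000000000000) := T_45 (nat_lit 90) (nat_lit 140) (nat_lit 5) (nat_lit 5) (nat_lit 5) L122773 (by decide +kernel)
theorem L122775 : W_45 (nat_lit 4) (nat_lit 0x16001a000d0004000000000000000000000000000) (nat_lit 0x0) (nat_lit 0x40000000100000000c00060001000000000000000000) := T_45 (nat_lit 107) (nat_lit 174) (nat_lit 5) (nat_lit 5) (nat_lit 6) L122774 (by decide +kernel)
theorem L122776 : W_45 (nat_lit 2) (nat_lit 0x28000800058003c0016001600000000000000000000000) (nat_lit 0x0) (nat_lit 0x50001000000000000000000000000000000000000000000000) := D_45 (nat_lit 180) (nat_lit 196) (nat_lit 198) (nat_lit 5) (nat_lit 10) (nat_lit 7) (nat_lit 7) (nat_lit 10) (nat_lit 7) (by decide +kernel)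
theorem L122777 : W_45 (nat_lit 3) (nat_lit 0x8000800058003c0016001600000000000000000000000) (nat_lit 0x0) (nat_lit 0x50003000100000000000000000000000000000000000000000) := T_45 (nat_lit 181) (nat_lit 164) (nat_lit 7) (nat_lit 10) (nat_lit 6) L122776 (by decide +kernel)
theorem L122778 : W_45 (nat_lit 4) (nat_lit 0x800058003c0016001600000000000000000000000) (nat_lit 0x0) (nat_lit 0x50003800140000000000000000000000000000000000000000) := T_45 (nat_lit 179) (nat_lit 162) (nat_lit 5) (nat_lit 10) (nat_lit 6) L122777 (by decide +kernel)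
theorem L122779 : W_45 (nat_lit 5) (nat_lit 0x800058003c0016000600000000000000000000000) (nat_lit 0x0) (nat_lit 0x50003800140000000000000001800000000000000000000000) := T_45 (nat_lit 96) (nat_lit 95) (nat_lit 1) (nat_lit 11) (nat_lit 5) L122778 (by decide +kernel)
theorem L122780 : W_45 (nat_lit 6) (nat_lit 0x58003c0016000600000000000000000000000) (nat_lit 0x0) (nat_lit 0x500038001c0000000000008001800000000000000000000000) := T_45 (nat_lit 163) (nat_lit 111) (nat_lit 4) (nat_lit 10) (nat_lit 9) L122779 (by decide +kernel)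
theorem L122781 : W_45 (nat_lit 2) (nat_lit 0x58003c0016000800000000000000000000000) (nat_lit 0x0) (nat_lit 0x8001000080000000000000000000) := D_45 (nat_lit 96) (nat_lit 111) (nat_lit 79) (nat_lit 2) (nat_lit 7) (nat_lit 6) (nat_lit 6) (nat_lit 10) (nat_lit 8) (by decide +kernel)
theorem L122782 : W_45 (nat_lit 2) (nat_lit 0x2000000058003c00160008000a0000000000000000000) (nat_lit 0x0) (nat_lit 0x40005000000000000000) := D_45 (nat_lit 78) (nat_lit 60) (nat_lit 62) (nat_lit 4) (nat_lit 10) (nat_lit 7) (nat_lit 6) (nat_lit 10) (nat_lit 7) (by decide +kernel)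
theorem L122783 : W_45 (nat_lit 3) (nat_lit 0x2000000058003c0016000800020000000000000000000) (nat_lit 0x0) (nat_lit 0x10000c0005000000000000000) := T_45 (nat_lit 79) (nat_lit 96) (nat_lit 6) (nat_lit 10) (nat_lit 8) L122782 (by decide +kernel)
theorem L122784 : W_45 (nat_lit 4) (nat_lit 0x2000000058003c0016000800000000000000000000000) (nat_lit 0x0) (nat_lit 0x14000e0005000000000000000) := T_45 (nat_lit 77) (nat_lit 94) (nat_lit 4) (nat_lit 10) (nat_lit 8) L122783 (by decide +kernel)
theorem L122785 : W_45 (nat_lit 5) (nat_lit 0x2000000018003c0016000800000000000000000000000) (nat_lit 0x0) (nat_lit 0xc0000000000014000e0005000000000000000) := T_45 (nat_lit 146) (nat_lit 147) (nat_lit 3) (nat_lit 7) (nat_lit 7) L122784 (by decide +kernel)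
theorem L122786 : W_45 (nat_lit 6) (nat_lit 0x2000000018003c0014000800000000000000000000000) (nat_lit 0x0) (nat_lit 0xc0000000030014000e0005000000000000000) := T_45 (nat_lit 109) (nat_lit 108) (nat_lit 0) (nat_lit 10) (nat_lit 7) L122785 (by decide +kernel)
theorem L122787 : W_45 (nat_lit 7) (nat_lit 0x18003c0014000800000000000000000000000) (nat_lit 0x0) (nat_lit 0x20001000c0000000030014000e0005000000000000000) := T_45 (nat_lit 177) (nat_lit 160) (nat_lit 6) (nat_lit 7) (nat_lit 10) L122786 (by decide +kernel)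
theorem L122788 : W_45 (nat_lit 2) (nat_lit 0x2000000058003c0014001c00000000000000000000000) (nat_lit 0x0) (nat_lit 0x80000000000008002000000000000000000000000) := D_45 (nat_lit 111) (nat_lit 97) (nat_lit 163) (nat_lit 1) (nat_lit 12) (nat_lit 5) (nat_lit 4) (nat_lit 10) (nat_lit 9) (by decide +kernel)
theorem L122789 : W_45 (nat_lit 3) (nat_lit 0x2000000058003c0014001800000000000000000000000) (nat_lit 0x0) (nat_lit 0x80000000000008002400020000000000000000000) := T_45 (nat_lit 94) (nat_lit 77) (nat_lit 4) (nat_lit 10) (nat_lit 8) L122788 (by decide +kernel)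
theorem L122790 : W_45 (nat_lit 4) (nat_lit 0x2000000058003c0014000800000000000000000000000) (nat_lit 0x0) (nat_lit 0x800000000000080034000a0000000000000000000) := T_45 (nat_lit 96) (nat_lit 79) (nat_lit 6) (nat_lit 10) (nat_lit 8) L122789 (by decide +kernel)
theorem L122791 : W_45 (nat_lit 5) (nat_lit 0x58003c0014000800000000000000000000000) (nat_lit 0x0) (nat_lit 0x2000900000000000080034000a0000000000000000000) := T_45 (nat_lit 177) (nat_lit 160) (nat_lit 6) (nat_lit 7) (nat_lit 10) L122790 (by decide +kernel)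
theorem L122792 : W_45 (nat_lit 6) (nat_lit 0x18003c0014000800000000000000000000000) (nat_lit 0x0) (nat_lit 0x20009000c0000000080034000a0000000000000000000) := T_45 (nat_lit 146) (nat_lit 147) (nat_lit 3) (nat_lit 7) (nat_lit 7) L122791 (by decide +kernel)
theorem L122793 : W_45 (nat_lit 3) (nat_lit 0x58003c0014000800000000000000000000000) (nat_lit 0x0) (nat_lit 0xb001000080000000000000000000) := T_45 (nat_lit 109) (nat_lit 108) (nat_lit 0) (nat_lit 10) (nat_lit 7) L122781 (by decide +kernel)
theorem L122794 : W_45 (nat_lit 4) (nat_lit 0x18003c0014000800000000000000000000000) (nat_lit 0x0) (nat_lit 0xc00000000b001000080000000000000000000) := T_45 (nat_lit 146) (nat_lit 147) (nat_lit 3) (nat_lit 7) (nat_lit 7) L122793 (by decide +kernel)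
theorem L122795 : W_45 (nat_lit 2) (nat_lit 0xa001800058003c0016000c00000000000000000000000) (nat_lit 0x0) (nat_lit 0x10001400000000000000000000000000000000000000000000) := D_45 (nat_lit 180) (nat_lit 178) (nat_lit 196) (nat_lit 2) (nat_lit 7) (nat_lit 10) (nat_lit 5) (nat_lit 10) (nat_lit 7) (by decide +kernel)
theorem L122796 : W_45 (nat_lit 3) (nat_lit 0x2001800058003c0016000c00000000000000000000000) (nat_lit 0x0) (nat_lit 0x10001c00040000000000000000000000000000000000000000) := T_45 (nat_lit 179) (nat_lit 162) (nat_lit 5) (nat_lit 10) (nat_lit 6) L122795 (by decide +kernel)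
theorem L122797 : W_45 (nat_lit 4) (nat_lit 0x2000800058003c0016000c00000000000000000000000) (nat_lit 0x0) (nat_lit 0x10003c00140000000000000000000000000000000000000000) := T_45 (nat_lit 164) (nat_lit 181) (nat_lit 7) (nat_lit 10) (nat_lit 6) L122796 (by decide +kernel)
theorem L122798 : W_45 (nat_lit 5) (nat_lit 0x2000000058003c0016000c00000000000000000000000) (nat_lit 0x0) (nat_lit 0x10003c001c0000000000008000000000000000000000000000) := T_45 (nat_lit 163) (nat_lit 111) (nat_lit 4) (nat_lit 10) (nat_lit 9) L122797 (by decide +kernel)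
theorem L122799 : W_45 (nat_lit 6) (nat_lit 0x2000000058003c0016000800000000000000000000000) (nat_lit 0x0) (nat_lit 0x10003c001c0000000000008000400020000000000000000000) := T_45 (nat_lit 94) (nat_lit 77) (nat_lit 4) (nat_lit 10) (nat_lit 8) L122798 (by decide +kernel)
theorem L122800 : W_45 (nat_lit 7) (nat_lit 0x2000000018003c0016000800000000000000000000000) (nat_lit 0x0) (nat_lit 0x10003c001c000c000000008000400020000000000000000000) := T_45 (nat_lit 146) (nat_lit 147) (nat_lit 3) (nat_lit 7) (nat_lit 7) L122799 (by decide +kernel)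
theorem L122801 : W_45 (nat_lit 8) (nat_lit 0x18003c0016000800000000000000000000000) (nat_lit 0x0) (nat_lit 0x10003e001d000c000000008000400020000000000000000000) := T_45 (nat_lit 177) (nat_lit 160) (nat_lit 6) (nat_lit 7) (nat_lit 10) L122800 (by decide +kernel)
theorem L122802 : W_45 (nat_lit 9) (nat_lit 0x18003c0014000800000000000000000000000) (nat_lit 0x0) (nat_lit 0x10003e001d000c00000000b000400020000000000000000000) := T_45 (nat_lit 109) (nat_lit 108) (nat_lit 0) (nat_lit 10) (nat_lit 7) L122801 (by decide +kernel)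
theorem L122803 : W_45 (nat_lit 2) (nat_lit 0x2000000018003c001e000800040000000000000000000) (nat_lit 0x0) (nat_lit 0x400020001000000000000000) := D_45 (nat_lit 77) (nat_lit 94) (nat_lit 60) (nat_lit 5) (nat_lit 9) (nat_lit 4) (nat_lit 4) (nat_lit 10) (nat_lit 7) (by decide +kernel)
theorem L122804 : W_45 (nat_lit 3) (nat_lit 0x2000000018003c001e000800000000000000000000000) (nat_lit 0x0) (nat_lit 0x400060003000000000000000) := T_45 (nat_lit 78) (nat_lit 61) (nat_lit 5) (nat_lit 10) (nat_lit 3) L122803 (by decide +kernel)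
theorem L122805 : W_45 (nat_lit 4) (nat_lit 0x2000000018003c0016000800000000000000000000000) (nat_lit 0x0) (nat_lit 0x8001400060003000000000000000) := T_45 (nat_lit 111) (nat_lit 96) (nat_lit 2) (nat_lit 7) (nat_lit 6) L122804 (by decide +kernel)
theorem L122806 : W_45 (nat_lit 5) (nat_lit 0x18003c0016000800000000000000000000000) (nat_lit 0x0) (nat_lit 0x200010000000000008001400060003000000000000000) := T_45 (nat_lit 177) (nat_lit 160) (nat_lit 6) (nat_lit 7) (nat_lit 10) L122805 (by decide +kernel)
theorem L122807 : W_45 (nat_lit 6) (nat_lit 0x18003c0014000800000000000000000000000) (nat_lit 0x0) (nat_lit 0x20001000000000000b001400060003000000000000000) := T_45 (nat_lit 109) (nat_lit 108) (nat_lit 0) (nat_lit 10) (nat_lit 7) L122806 (by decide +kernel)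
theorem L122808 : W_45 (nat_lit 10) (nat_lit 0x18003c0014000000000000000000000000000) (nat_lit 0x0) (nat_lit 0x10003e001d000c00000000b003c000e0007000000000000000) := Q_45 (nat_lit 95) (C_45 L122787 (C_45 L122792 (C_45 L122794 (C_45 L122802 (C_45 L122807 N_45))))) (by decide +kernel)
theorem L122809 : W_45 (nat_lit 2) (nat_lit 0x100018001c0000000000000000000000000000000) (nat_lit 0x0) (nat_lit 0x4000200000000000000004000000000000000000000000000) := D_45 (nat_lit 177) (nat_lit 194) (nat_lit 110) (nat_lit 6) (nat_lit 7) (nat_lit 11) (nat_lit 6) (nat_lit 7) (nat_lit 10) (by decide +kernel)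
theorem L122810 : W_45 (nat_lit 2) (nat_lit 0x700018001a001c0000000000000000000000000000000) (nat_lit 0x0) (nat_lit 0x800006000000000000000000000000000000000000000) := D_45 (nat_lit 158) (nat_lit 157) (nat_lit 179) (nat_lit 3) (nat_lit 4) (nat_lit 9) (nat_lit 0) (nat_lit 9) (nat_lit 10) (by decide +kernel)
theorem L122811 : W_45 (nat_lit 3) (nat_lit 0x300018001a001c0000000000000000000000000000000) (nat_lit 0x0) (nat_lit 0x8000c00006000000000000000000000000000000000000000) := T_45 (nat_lit 178) (nat_lit 195) (nat_lit 7) (nat_lit 7) (nat_lit 7) L122810 (by decide +kernel)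
theorem L122812 : W_45 (nat_lit 4) (nat_lit 0x300010001a001c0000000000000000000000000000000) (nat_lit 0x0) (nat_lit 0x8000c0000e000000000002000000000000000000000000000) := T_45 (nat_lit 159) (nat_lit 109) (nat_lit 5) (nat_lit 7) (nat_lit 6) L122811 (by decide +kernel)
theorem L122813 : W_45 (nat_lit 5) (nat_lit 0x200010001a001c0000000000000000000000000000000) (nat_lit 0x0) (nat_lit 0xa000d0000e000000000002000000000000000000000000000) := T_45 (nat_lit 176) (nat_lit 193) (nat_lit 5) (nat_lit 7) (nat_lit 7) L122812 (by decide +kernel)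
theorem L122814 : W_45 (nat_lit 6) (nat_lit 0x10001a001c0000000000000000000000000000000) (nat_lit 0x0) (nat_lit 0xe000f0000e000000000002000000000000000000000000000) := T_45 (nat_lit 177) (nat_lit 194) (nat_lit 6) (nat_lit 7) (nat_lit 11) L122813 (by decide +kernel)
theorem L122815 : W_45 (nat_lit 7) (nat_lit 0x100018001c0000000000000000000000000000000) (nat_lit 0x0) (nat_lit 0xe000f0000e000600000002000000000000000000000000000) := T_45 (nat_lit 141) (nat_lit 142) (nat_lit 2) (nat_lit 5) (nat_lit 8) L122814 (by decide +kernel)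
theorem L122816 : W_45 (nat_lit 2) (nat_lit 0x18001c0000000600000000000000000000000) (nat_lit 0x0) (nat_lit 0xc000000020000000000000000000) := D_45 (nat_lit 77) (nat_lit 110) (nat_lit 111) (nat_lit 6) (nat_lit 8) (nat_lit 8) (nat_lit 5) (nat_lit 9) (nat_lit 4) (by decide +kernel)
theorem L122817 : W_45 (nat_lit 2) (nat_lit 0x1a001c0007000600000000000000000000000) (nat_lit 0x0) (nat_lit 0x8001800000000000000000000000) := D_45 (nat_lit 95) (nat_lit 96) (nat_lit 111) (nat_lit 1) (nat_lit 11) (nat_lit 5) (nat_lit 2) (nat_lit 6) (nat_lit 6) (by decide +kernel)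
theorem L122818 : W_45 (nat_lit 3) (nat_lit 0x1a001c0007000200000000000000000000000) (nat_lit 0x0) (nat_lit 0x8001c00020000000000000000000) := T_45 (nat_lit 94) (nat_lit 77) (nat_lit 6) (nat_lit 8) (nat_lit 8) L122817 (by decide +kernel)
theorem L122819 : W_45 (nat_lit 2) (nat_lit 0x10001c000c0000000000000000000000000000000) (nat_lit 0x0) (nat_lit 0x4000200000000000000004000000000000000000000000000) := D_45 (nat_lit 177) (nat_lit 194) (nat_lit 110) (nat_lit 6) (nat_lit 7) (nat_lit 11) (nat_lit 6) (nat_lit 7) (nat_lit 10) (by decide +kernel)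
theorem L122820 : W_45 (nat_lit 2) (nat_lit 0x700018001d000c0000000000000000000000000000000) (nat_lit 0x0) (nat_lit 0x800006000000000000000000000000000000000000000) := D_45 (nat_lit 158) (nat_lit 157) (nat_lit 179) (nat_lit 3) (nat_lit 4) (nat_lit 9) (nat_lit 0) (nat_lit 9) (nat_lit 10) (by decide +kernel)
theorem L122821 : W_45 (nat_lit 3) (nat_lit 0x300018001d000c0000000000000000000000000000000) (nat_lit 0x0) (nat_lit 0x8000c00006000000000000000000000000000000000000000) := T_45 (nat_lit 178) (nat_lit 195) (nat_lit 7) (nat_lit 7) (nat_lit 7) L122820 (by decide +kernel)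
theorem L122822 : W_45 (nat_lit 4) (nat_lit 0x300010001d000c0000000000000000000000000000000) (nat_lit 0x0) (nat_lit 0x8000c0000e000000000002000000000000000000000000000) := T_45 (nat_lit 159) (nat_lit 109) (nat_lit 5) (nat_lit 7) (nat_lit 6) L122821 (by decide +kernel)
theorem L122823 : W_45 (nat_lit 5) (nat_lit 0x200010001d000c0000000000000000000000000000000) (nat_lit 0x0) (nat_lit 0xa000d0000e000000000002000000000000000000000000000) := T_45 (nat_lit 176) (nat_lit 193) (nat_lit 5) (nat_lit 7) (nat_lit 7) L122822 (by decide +kernel)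
theorem L122824 : W_45 (nat_lit 6) (nat_lit 0x10001d000c0000000000000000000000000000000) (nat_lit 0x0) (nat_lit 0xe000f0000e000000000002000000000000000000000000000) := T_45 (nat_lit 177) (nat_lit 194) (nat_lit 6) (nat_lit 7) (nat_lit 11) L122823 (by decide +kernel)
theorem L122825 : W_45 (nat_lit 7) (nat_lit 0x10001c000c0000000000000000000000000000000) (nat_lit 0x0) (nat_lit 0xe000f0000e000300000002000000000000000000000000000) := T_45 (nat_lit 140) (nat_lit 141) (nat_lit 2) (nat_lit 4) (nat_lit 8) L122824 (by decide +kernel)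
theorem L122826 : W_45 (nat_lit 2) (nat_lit 0x1c000c0004000000000000000000000000000) (nat_lit 0x0) (nat_lit 0x10000000000000000200010000000000000000000) := D_45 (nat_lit 93) (nat_lit 76) (nat_lit 160) (nat_lit 5) (nat_lit 8) (nat_lit 4) (nat_lit 5) (nat_lit 8) (nat_lit 5) (by decide +kernel)
theorem L122827 : W_45 (nat_lit 2) (nat_lit 0x1a003c0018000400000000000000000000000) (nat_lit 0x0) (nat_lit 0x8000c000000000000000000000000000000000000) := D_45 (nat_lit 146) (nat_lit 147) (nat_lit 163) (nat_lit 3) (nat_lit 7) (nat_lit 7) (nat_lit 4) (nat_lit 10) (nat_lit 9) (by decide +kernel)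
theorem L122828 : W_45 (nat_lit 3) (nat_lit 0x1a003c0018000000000000000000000000000) (nat_lit 0x0) (nat_lit 0x8000c000000000000400020000000000000000000) := T_45 (nat_lit 94) (nat_lit 77) (nat_lit 5) (nat_lit 9) (nat_lit 4) L122827 (by decide +kernel)
theorem L122829 : W_45 (nat_lit 2) (nat_lit 0x80004001a000d0002c00000000000000000000000000) (nat_lit 0x0) (nat_lit 0x800040002000000000000000000000000000000000000000) := D_45 (nat_lit 174) (nat_lit 157) (nat_lit 191) (nat_lit 5) (nat_lit 5) (nat_lit 6) (nat_lit 5) (nat_lit 5) (nat_lit 7) (by decide +kernel)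
theorem L122830 : W_45 (nat_lit 3) (nat_lit 0x4001a000d0002c00000000000000000000000000) (nat_lit 0x0) (nat_lit 0x8000c0002000000008000000000000000000000000000000) := T_45 (nat_lit 175) (nat_lit 123) (nat_lit 4) (nat_lit 5) (nat_lit 10) L122829 (by decide +kernel)
theorem L122831 : W_45 (nat_lit 2) (nat_lit 0x1a000d0002c00060006000000000000000000) (nat_lit 0x0) (nat_lit 0x100008000000000000000100000000000000) := D_45 (nat_lit 123) (nat_lit 140) (nat_lit 56) (nat_lit 6) (nat_lit 4) (nat_lit 8) (nat_lit 5) (nat_lit 5) (nat_lit 3) (by decide +kernel)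
theorem L122832 : W_45 (nat_lit 3) (nat_lit 0x1a000d0002c00060004000000000000000000) (nat_lit 0x0) (nat_lit 0x100008000000000002000300000000000000) := T_45 (nat_lit 73) (nat_lit 57) (nat_lit 6) (nat_lit 5) (nat_lit 7) L122831 (by decide +kernel)
theorem L122833 : W_45 (nat_lit 4) (nat_lit 0x1a000d0002800060004000000000000000000) (nat_lit 0x0) (nat_lit 0x4000100008000400000002000300000000000000) := T_45 (nat_lit 106) (nat_lit 158) (nat_lit 4) (nat_lit 5) (nat_lit 9) L122832 (by decide +kernel)
theorem L122834 : W_45 (nat_lit 5) (nat_lit 0x1a000d0002800060000000000000000000000) (nat_lit 0x0) (nat_lit 0x4000100008000400080006000300000000000000) := T_45 (nat_lit 74) (nat_lit 91) (nat_lit 6) (nat_lit 5) (nat_lit 8) L122833 (by decide +kernel)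
theorem L122835 : W_45 (nat_lit 6) (nat_lit 0x1a000d0002800040000000000000000000000) (nat_lit 0x0) (nat_lit 0x40001000080004000a0007000300000000000000) := T_45 (nat_lit 89) (nat_lit 72) (nat_lit 4) (nat_lit 5) (nat_lit 8) L122834 (by decide +kernel)
theorem L122836 : W_45 (nat_lit 2) (nat_lit 0x140004001a000d0002c00000000000000000000000000) (nat_lit 0x0) (nat_lit 0x2800080000000000000000000000000000000000000000000) := D_45 (nat_lit 175) (nat_lit 191) (nat_lit 193) (nat_lit 5) (nat_lit 5) (nat_lit 7) (nat_lit 7) (nat_lit 5) (nat_lit 7) (by decide +kernel)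
theorem L122837 : W_45 (nat_lit 3) (nat_lit 0x40004001a000d0002c00000000000000000000000000) (nat_lit 0x0) (nat_lit 0x2800180008000000000000000000000000000000000000000) := T_45 (nat_lit 176) (nat_lit 159) (nat_lit 7) (nat_lit 5) (nat_lit 6) L122836 (by decide +kernel)
theorem L122838 : W_45 (nat_lit 4) (nat_lit 0x4001a000d0002c00000000000000000000000000) (nat_lit 0x0) (nat_lit 0x28001c000a000000000000000000000000000000000000000) := T_45 (nat_lit 174) (nat_lit 157) (nat_lit 5) (nat_lit 5) (nat_lit 6) L122837 (by decide +kernel)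
theorem L122839 : W_45 (nat_lit 2) (nat_lit 0x1a000d0002800040003000000000000000000) (nat_lit 0x0) (nat_lit 0x80004000200000000000000) := D_45 (nat_lit 74) (nat_lit 91) (nat_lit 57) (nat_lit 6) (nat_lit 5) (nat_lit 8) (nat_lit 6) (nat_lit 5) (nat_lit 7) (by decide +kernel)
theorem L122840 : W_45 (nat_lit 3) (nat_lit 0x1a000d0002800040001000000000000000000) (nat_lit 0x0) (nat_lit 0x80006000280000000000000) := T_45 (nat_lit 73) (nat_lit 55) (nat_lit 4) (nat_lit 5) (nat_lit 7) L122839 (by decide +kernel)
theorem L122841 : W_45 (nat_lit 2) (nat_lit 0x10003c0000000000000000000000000000000) (nat_lit 0x0) (nat_lit 0xc00400000000000000000000000000000000) := D_45 (nat_lit 143) (nat_lit 142) (nat_lit 130) (nat_lit 1) (nat_lit 10) (nat_lit 7) (nat_lit 1) (nat_lit 11) (nat_lit 7) (by decide +kernel)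
theorem L122842 : W_45 (nat_lit 2) (nat_lit 0x10003c0002000000000000000000000000000) (nat_lit 0x0) (nat_lit 0x800400004000000000000000000000000000) := D_45 (nat_lit 130) (nat_lit 143) (nat_lit 110) (nat_lit 1) (nat_lit 11) (nat_lit 7) (nat_lit 0) (nat_lit 11) (nat_lit 7) (by decide +kernel)
theorem L122843 : W_45 (nat_lit 3) (nat_lit 0x10003c0000000000000000000000000000000) (nat_lit 0x0) (nat_lit 0x800400007000000000000000000000000000) := T_45 (nat_lit 109) (nat_lit 108) (nat_lit 0) (nat_lit 10) (nat_lit 7) L122842 (by decide +kernel)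
theorem L122844 : W_45 (nat_lit 2) (nat_lit 0x90003c0012000000000000000000000000000) (nat_lit 0x0) (nat_lit 0x10000400004000000000000000000000000000) := D_45 (nat_lit 130) (nat_lit 110) (nat_lit 148) (nat_lit 0) (nat_lit 11) (nat_lit 7) (nat_lit 3) (nat_lit 8) (nat_lit 7) (by decide +kernel)
theorem L122845 : W_45 (nat_lit 3) (nat_lit 0x10003c0012000000000000000000000000000) (nat_lit 0x0) (nat_lit 0x1c000400004000000000000000000000000000) := T_45 (nat_lit 147) (nat_lit 146) (nat_lit 3) (nat_lit 7) (nat_lit 7) L122844 (by decide +kernel)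
theorem L122846 : W_45 (nat_lit 4) (nat_lit 0x10003c0010000000000000000000000000000) (nat_lit 0x0) (nat_lit 0x1c000400007000000000000000000000000000) := T_45 (nat_lit 109) (nat_lit 108) (nat_lit 0) (nat_lit 10) (nat_lit 7) L122845 (by decide +kernel)
theorem L122847 : W_45 (nat_lit 5) (nat_lit 0x10003c0000000000000000000000000000000) (nat_lit 0x0) (nat_lit 0x1c000400037000000000000000000000000000) := T_45 (nat_lit 112) (nat_lit 113) (nat_lit 2) (nat_lit 7) (nat_lit 7) L122846 (by decide +kernel)
theorem L122848 : W_45 (nat_lit 2) (nat_lit 0x10003c0004000200000000000000000000000) (nat_lit 0x0) (nat_lit 0x10000800000000000000010000000000000000000) := D_45 (nat_lit 143) (nat_lit 76) (nat_lit 160) (nat_lit 5) (nat_lit 8) (nat_lit 4) (nat_lit 5) (nat_lit 8) (nat_lit 5) (by decide +kernel)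
theorem L122849 : W_45 (nat_lit 2) (nat_lit 0x10003c0006000200000000000000000000000) (nat_lit 0x0) (nat_lit 0x800000000000000010000800000000000000) := D_45 (nat_lit 76) (nat_lit 143) (nat_lit 59) (nat_lit 5) (nat_lit 8) (nat_lit 4) (nat_lit 5) (nat_lit 8) (nat_lit 3) (by decide +kernel)
theorem L122850 : W_45 (nat_lit 3) (nat_lit 0x10003c0004000200000000000000000000000) (nat_lit 0x0) (nat_lit 0x800000003000000010000800000000000000) := T_45 (nat_lit 109) (nat_lit 108) (nat_lit 0) (nat_lit 10) (nat_lit 7) L122849 (by decide +kernel)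
theorem L122851 : W_45 (nat_lit 5) (nat_lit 0x58003c0016001600000000000000000000000) (nat_lit 0x0) (nat_lit 0x500038001c0000000000008000000000000000000000000000) := T_45 (nat_lit 163) (nat_lit 111) (nat_lit 4) (nat_lit 10) (nat_lit 9) L122778 (by decide +kernel)
theorem L122852 : W_45 (nat_lit 6) (nat_lit 0x18003c0016001600000000000000000000000) (nat_lit 0x0) (nat_lit 0x500038001c000c000000008000000000000000000000000000) := T_45 (nat_lit 146) (nat_lit 147) (nat_lit 3) (nat_lit 7) (nat_lit 7) L122851 (by decide +kernel)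
theorem L122853 : W_45 (nat_lit 7) (nat_lit 0x18003c0006001600000000000000000000000) (nat_lit 0x0) (nat_lit 0x500038001c000c000000038000000000000000000000000000) := T_45 (nat_lit 112) (nat_lit 113) (nat_lit 2) (nat_lit 7) (nat_lit 7) L122852 (by decide +kernel)
theorem L122854 : W_45 (nat_lit 8) (nat_lit 0x18003c0006000600000000000000000000000) (nat_lit 0x0) (nat_lit 0x500038001c000c000000038001800000000000000000000000) := T_45 (nat_lit 96) (nat_lit 95) (nat_lit 1) (nat_lit 11) (nat_lit 5) L122853 (by decide +kernel)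
theorem L122855 : W_45 (nat_lit 9) (nat_lit 0x10003c0006000600000000000000000000000) (nat_lit 0x0) (nat_lit 0x500038001d000c800000038001800000000000000000000000) := T_45 (nat_lit 143) (nat_lit 160) (nat_lit 6) (nat_lit 7) (nat_lit 9) L122854 (by decide +kernel)
theorem L122856 : W_45 (nat_lit 10) (nat_lit 0x10003c0004000600000000000000000000000) (nat_lit 0x0) (nat_lit 0x500038001d000c80000003b001800000000000000000000000) := T_45 (nat_lit 109) (nat_lit 108) (nat_lit 0) (nat_lit 10) (nat_lit 7) L122855 (by decide +kernel)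
theorem L122857 : W_45 (nat_lit 11) (nat_lit 0x10003c0004000200000000000000000000000) (nat_lit 0x0) (nat_lit 0x500038001d000c80000003b001c00020000000000000000000) := T_45 (nat_lit 94) (nat_lit 77) (nat_lit 6) (nat_lit 8) (nat_lit 8) L122856 (by decide +kernel)
theorem L122858 : W_45 (nat_lit 2) (nat_lit 0x28000800050003c0016000600000000800000000000000) (nat_lit 0x0) (nat_lit 0x50001000000000000000000000000000000000000000000000) := D_45 (nat_lit 180) (nat_lit 196) (nat_lit 198) (nat_lit 5) (nat_lit 10) (nat_lit 7) (nat_lit 7) (nat_lit 10) (nat_lit 7) (by decide +kernel)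
theorem L122859 : W_45 (nat_lit 3) (nat_lit 0x8000800050003c0016000600000000800000000000000) (nat_lit 0x0) (nat_lit 0x50003000100000000000000000000000000000000000000000) := T_45 (nat_lit 181) (nat_lit 164) (nat_lit 7) (nat_lit 10) (nat_lit 6) L122858 (by decide +kernel)
theorem L122860 : W_45 (nat_lit 4) (nat_lit 0x800050003c0016000600000000800000000000000) (nat_lit 0x0) (nat_lit 0x50003800140000000000000000000000000000000000000000) := T_45 (nat_lit 179) (nat_lit 162) (nat_lit 5) (nat_lit 10) (nat_lit 6) L122859 (by decide +kernel)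
theorem L122861 : W_45 (nat_lit 5) (nat_lit 0x800050003c0016000600000000000000000000000) (nat_lit 0x0) (nat_lit 0x50003800140000000000000000000010000800000000000000) := T_45 (nat_lit 59) (nat_lit 76) (nat_lit 5) (nat_lit 8) (nat_lit 3) L122860 (by decide +kernel)
theorem L122862 : W_45 (nat_lit 6) (nat_lit 0x50003c0016000600000000000000000000000) (nat_lit 0x0) (nat_lit 0x500038001c0000000000008000000010000800000000000000) := T_45 (nat_lit 163) (nat_lit 111) (nat_lit 4) (nat_lit 10) (nat_lit 9) L122861 (by decide +kernel)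
theorem L122863 : W_45 (nat_lit 7) (nat_lit 0x50003c0006000600000000000000000000000) (nat_lit 0x0) (nat_lit 0x500038001c0000000000038000000010000800000000000000) := T_45 (nat_lit 112) (nat_lit 113) (nat_lit 2) (nat_lit 7) (nat_lit 7) L122862 (by decide +kernel)
theorem L122864 : W_45 (nat_lit 8) (nat_lit 0x50003c0004000600000000000000000000000) (nat_lit 0x0) (nat_lit 0x500038001c000000000003b000000010000800000000000000) := T_45 (nat_lit 109) (nat_lit 108) (nat_lit 0) (nat_lit 10) (nat_lit 7) L122863 (by decide +kernel)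
theorem L122865 : W_45 (nat_lit 9) (nat_lit 0x50003c0004000200000000000000000000000) (nat_lit 0x0) (nat_lit 0x500038001c000000000003b000400030000800000000000000) := T_45 (nat_lit 94) (nat_lit 77) (nat_lit 6) (nat_lit 8) (nat_lit 8) L122864 (by decide +kernel)
theorem L122866 : W_45 (nat_lit 10) (nat_lit 0x10003c0004000200000000000000000000000) (nat_lit 0x0) (nat_lit 0x500038001c000c00000003b000400030000800000000000000) := T_45 (nat_lit 146) (nat_lit 147) (nat_lit 3) (nat_lit 7) (nat_lit 7) L122865 (by decide +kernel)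
theorem L122867 : W_45 (nat_lit 12) (nat_lit 0x10003c0004000000000000000000000000000) (nat_lit 0x0) (nat_lit 0x500038001d000c80000003b001e00030000800000000000000) := Q_45 (nat_lit 93) (C_45 L122848 (C_45 L122850 (C_45 L122857 (C_45 L122866 N_45)))) (by decide +kernel)
theorem L122868 : W_45 (nat_lit 7) (nat_lit 0x58003c0016000200000000000000000000000) (nat_lit 0x0) (nat_lit 0x500038001c0000000000008001c00020000000000000000000) := T_45 (nat_lit 94) (nat_lit 77) (nat_lit 6) (nat_lit 8) (nat_lit 8) L122780 (by decide +kernel)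
theorem L122869 : W_45 (nat_lit 8) (nat_lit 0x58003c0014000200000000000000000000000) (nat_lit 0x0) (nat_lit 0x500038001c000000000000b001c00020000000000000000000) := T_45 (nat_lit 109) (nat_lit 108) (nat_lit 0) (nat_lit 10) (nat_lit 7) L122868 (by decide +kernel)
theorem L122870 : W_45 (nat_lit 9) (nat_lit 0x58003c0014000000000000000000000000000) (nat_lit 0x0) (nat_lit 0x500038001c000000000000b001e00030000000000000000000) := T_45 (nat_lit 93) (nat_lit 76) (nat_lit 5) (nat_lit 8) (nat_lit 4) L122869 (by decide +kernel)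
theorem L122871 : W_45 (nat_lit 10) (nat_lit 0x18003c0014000000000000000000000000000) (nat_lit 0x0) (nat_lit 0x500038001c000c00000000b001e00030000000000000000000) := T_45 (nat_lit 146) (nat_lit 147) (nat_lit 3) (nat_lit 7) (nat_lit 7) L122870 (by decide +kernel)
theorem L122872 : W_45 (nat_lit 11) (nat_lit 0x10003c0014000000000000000000000000000) (nat_lit 0x0) (nat_lit 0x500038001c000cc0000000b001e00030000000000000000000) := T_45 (nat_lit 143) (nat_lit 142) (nat_lit 1) (nat_lit 10) (nat_lit 7) L122871 (by decide +kernel)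
theorem L122873 : W_45 (nat_lit 12) (nat_lit 0x10003c0004000000000000000000000000000) (nat_lit 0x0) (nat_lit 0x500038001c000cc0000003b001e00030000000000000000000) := T_45 (nat_lit 112) (nat_lit 113) (nat_lit 2) (nat_lit 7) (nat_lit 7) L122872 (by decide +kernel)
theorem L122876 : W_45 (nat_lit 11) (nat_lit 0x10003c0014000000000000000000000000000) (nat_lit 0x0) (nat_lit 0x10003e001d000cc0000000b003c000e0007000000000000000) := T_45 (nat_lit 143) (nat_lit 142) (nat_lit 1) (nat_lit 10) (nat_lit 7) L122808 (by decide +kernel)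
theorem L122877 : W_45 (nat_lit 12) (nat_lit 0x10003c0004000000000000000000000000000) (nat_lit 0x0) (nat_lit 0x10003e001d000cc0000003b003c000e0007000000000000000) := T_45 (nat_lit 112) (nat_lit 113) (nat_lit 2) (nat_lit 7) (nat_lit 7) L122876 (by decide +kernel)
theorem L122878 : W_45 (nat_lit 2) (nat_lit 0x10003c0004000000020000000000000000000) (nat_lit 0x0) (nat_lit 0x8000600000000000000000000000) := D_45 (nat_lit 94) (nat_lit 111) (nat_lit 93) (nat_lit 5) (nat_lit 9) (nat_lit 4) (nat_lit 6) (nat_lit 8) (nat_lit 8) (by decide +kernel)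
theorem L122879 : W_45 (nat_lit 2) (nat_lit 0x50003c0004000200030000000000000000000) (nat_lit 0x0) (nat_lit 0x3000000000000800000000000000) := D_45 (nat_lit 109) (nat_lit 59) (nat_lit 108) (nat_lit 5) (nat_lit 8) (nat_lit 3) (nat_lit 0) (nat_lit 10) (nat_lit 7) (by decide +kernel)
theorem L122880 : W_45 (nat_lit 3) (nat_lit 0x50003c0004000200020000000000000000000) (nat_lit 0x0) (nat_lit 0x3000000010001800000000000000) := T_45 (nat_lit 76) (nat_lit 60) (nat_lit 6) (nat_lit 8) (nat_lit 7) L122879 (by decide +kernel)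
theorem L122881 : W_45 (nat_lit 4) (nat_lit 0x50003c0004000000020000000000000000000) (nat_lit 0x0) (nat_lit 0x3000600010001800000000000000) := T_45 (nat_lit 93) (nat_lit 94) (nat_lit 6) (nat_lit 8) (nat_lit 8) L122880 (by decide +kernel)
theorem L122882 : W_45 (nat_lit 5) (nat_lit 0x10003c0004000000020000000000000000000) (nat_lit 0x0) (nat_lit 0xc000000003000600010001800000000000000) := T_45 (nat_lit 146) (nat_lit 147) (nat_lit 3) (nat_lit 7) (nat_lit 7) L122881 (by decide +kernel)
theorem L122883 : W_45 (nat_lit 2) (nat_lit 0x10003c0016000800060000000000000000000) (nat_lit 0x0) (nat_lit 0x8001000000002000000000000000) := D_45 (nat_lit 111) (nat_lit 96) (nat_lit 61) (nat_lit 2) (nat_lit 7) (nat_lit 6) (nat_lit 5) (nat_lit 10) (nat_lit 3) (by decide +kernel)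
theorem L122884 : W_45 (nat_lit 3) (nat_lit 0x10003c0016000800020000000000000000000) (nat_lit 0x0) (nat_lit 0x8001000040003000000000000000) := T_45 (nat_lit 78) (nat_lit 60) (nat_lit 4) (nat_lit 10) (nat_lit 7) L122883 (by decide +kernel)
theorem L122885 : W_45 (nat_lit 4) (nat_lit 0x10003c0014000800020000000000000000000) (nat_lit 0x0) (nat_lit 0xb001000040003000000000000000) := T_45 (nat_lit 109) (nat_lit 108) (nat_lit 0) (nat_lit 10) (nat_lit 7) L122884 (by decide +kernel)
theorem L122886 : W_45 (nat_lit 2) (nat_lit 0x50003c0014000800060000000000000000000) (nat_lit 0x0) (nat_lit 0x1000080004000000000000000) := D_45 (nat_lit 79) (nat_lit 62) (nat_lit 96) (nat_lit 6) (nat_lit 10) (nat_lit 7) (nat_lit 6) (nat_lit 10) (nat_lit 8) (by decide +kernel)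
theorem L122887 : W_45 (nat_lit 3) (nat_lit 0x10003c0014000800060000000000000000000) (nat_lit 0x0) (nat_lit 0xc000000000001000080004000000000000000) := T_45 (nat_lit 146) (nat_lit 147) (nat_lit 3) (nat_lit 7) (nat_lit 7) L122886 (by decide +kernel)
theorem L122888 : W_45 (nat_lit 4) (nat_lit 0x10003c0014000800020000000000000000000) (nat_lit 0x0) (nat_lit 0xc0000000000010000c0005000000000000000) := T_45 (nat_lit 78) (nat_lit 60) (nat_lit 4) (nat_lit 10) (nat_lit 7) L122887 (by decide +kernel)
theorem L122889 : W_45 (nat_lit 2) (nat_lit 0x50003c0016000800060002000000000000000) (nat_lit 0x0) (nat_lit 0x80004000200000000000) := D_45 (nat_lit 62) (nat_lit 79) (nat_lit 45) (nat_lit 6) (nat_lit 10) (nat_lit 7) (nat_lit 6) (nat_lit 10) (nat_lit 6) (by decide +kernel)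
theorem L122890 : W_45 (nat_lit 3) (nat_lit 0x50003c0016000800060000000000000000000) (nat_lit 0x0) (nat_lit 0x8000000080006000200000000000) := T_45 (nat_lit 61) (nat_lit 111) (nat_lit 5) (nat_lit 10) (nat_lit 3) L122889 (by decide +kernel)
theorem L122891 : W_45 (nat_lit 4) (nat_lit 0x50003c0016000800020000000000000000000) (nat_lit 0x0) (nat_lit 0x80000000c0007000200000000000) := T_45 (nat_lit 78) (nat_lit 60) (nat_lit 4) (nat_lit 10) (nat_lit 7) L122890 (by decide +kernel)
theorem L122892 : W_45 (nat_lit 5) (nat_lit 0x50003c0014000800020000000000000000000) (nat_lit 0x0) (nat_lit 0xb0000000c0007000200000000000) := T_45 (nat_lit 109) (nat_lit 108) (nat_lit 0) (nat_lit 10) (nat_lit 7) L122891 (by decide +kernel)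
theorem L122893 : W_45 (nat_lit 6) (nat_lit 0x10003c0014000800020000000000000000000) (nat_lit 0x0) (nat_lit 0xc00000000b0000000c0007000200000000000) := T_45 (nat_lit 146) (nat_lit 147) (nat_lit 3) (nat_lit 7) (nat_lit 7) L122892 (by decide +kernel)
theorem L122894 : W_45 (nat_lit 2) (nat_lit 0x50003c0016000800020000000000000000000) (nat_lit 0x0) (nat_lit 0x8001000080000000000000000000) := D_45 (nat_lit 96) (nat_lit 79) (nat_lit 111) (nat_lit 6) (nat_lit 10) (nat_lit 8) (nat_lit 2) (nat_lit 7) (nat_lit 6) (by decide +kernel)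
theorem L122895 : W_45 (nat_lit 3) (nat_lit 0x50003c0014000800020000000000000000000) (nat_lit 0x0) (nat_lit 0xb001000080000000000000000000) := T_45 (nat_lit 109) (nat_lit 108) (nat_lit 0) (nat_lit 10) (nat_lit 7) L122894 (by decide +kernel)
theorem L122896 : W_45 (nat_lit 4) (nat_lit 0x10003c0014000800020000000000000000000) (nat_lit 0x0) (nat_lit 0xc00000000b001000080000000000000000000) := T_45 (nat_lit 146) (nat_lit 147) (nat_lit 3) (nat_lit 7) (nat_lit 7) L122895 (by decide +kernel)
theorem L122897 : W_45 (nat_lit 7) (nat_lit 0x10003c0014000000020000000000000000000) (nat_lit 0x0) (nat_lit 0xc00000000b0018000c0007000200000000000) := Q_45 (nat_lit 95) (C_45 L122885 (C_45 L122888 (C_45 L122893 (C_45 L122896 N_45)))) (by decide +kernel)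
theorem L122898 : W_45 (nat_lit 8) (nat_lit 0x10003c0004000000020000000000000000000) (nat_lit 0x0) (nat_lit 0xc00000003b0018000c0007000200000000000) := T_45 (nat_lit 112) (nat_lit 113) (nat_lit 2) (nat_lit 7) (nat_lit 7) L122897 (by decide +kernel)
theorem L122899 : W_45 (nat_lit 9) (nat_lit 0x10003c0004000000000000000000000000000) (nat_lit 0x0) (nat_lit 0xc00000003b001e000f0007800200000000000) := Q_45 (nat_lit 77) (C_45 L122878 (C_45 L122882 (C_45 L122898 N_45))) (by decide +kernel)
theorem L122900 : W_45 (nat_lit 13) (nat_lit 0x10003c0000000000000000000000000000000) (nat_lit 0x0) (nat_lit 0x50003e001d000cc0000003f003e000f0007800200000000000) := Q_45 (nat_lit 110) (C_45 L122867 (C_45 L122873 (C_45 L122875 (C_45 L122877 (C_45 L122899 N_45))))) (by decide +kernel)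
theorem L122901 : W_45 (nat_lit 14) (nat_lit 0x10001c0000000000000000000000000000000) (nat_lit 0x0) (nat_lit 0x50003e001d001cc0060003f003e000f0007800200000000000) := Q_45 (nat_lit 129) (C_45 L122841 (C_45 L122843 (C_45 L122847 (C_45 L122900 N_45)))) (by decide +kernel)
theorem L122902 : W_45 (nat_lit 2) (nat_lit 0x54003c0011000000000000000000000000000) (nat_lit 0x0) (nat_lit 0x200020000800000000000000000000000000) := D_45 (nat_lit 125) (nat_lit 107) (nat_lit 141) (nat_lit 0) (nat_lit 9) (nat_lit 7) (nat_lit 1) (nat_lit 9) (nat_lit 7) (by decide +kernel)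
theorem L122903 : W_45 (nat_lit 3) (nat_lit 0x50003c0011000000000000000000000000000) (nat_lit 0x0) (nat_lit 0xe00020000800000000000000000000000000) := T_45 (nat_lit 142) (nat_lit 143) (nat_lit 1) (nat_lit 10) (nat_lit 7) L122902 (by decide +kernel)
theorem L122904 : W_45 (nat_lit 4) (nat_lit 0x50003c0010000000000000000000000000000) (nat_lit 0x0) (nat_lit 0xe00020003800000000000000000000000000) := T_45 (nat_lit 108) (nat_lit 109) (nat_lit 0) (nat_lit 10) (nat_lit 7) L122903 (by decide +kernel)
theorem L122905 : W_45 (nat_lit 5) (nat_lit 0x50003c0000000000000000000000000000000) (nat_lit 0x0) (nat_lit 0xe00020033800000000000000000000000000) := T_45 (nat_lit 112) (nat_lit 113) (nat_lit 2) (nat_lit 7) (nat_lit 7) L122904 (by decide +kernel)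
theorem L122906 : W_45 (nat_lit 6) (nat_lit 0x10003c0000000000000000000000000000000) (nat_lit 0x0) (nat_lit 0xce00020033800000000000000000000000000) := T_45 (nat_lit 146) (nat_lit 147) (nat_lit 3) (nat_lit 7) (nat_lit 7) L122905 (by decide +kernel)
theorem L122907 : W_45 (nat_lit 7) (nat_lit 0x10001c0000000000000000000000000000000) (nat_lit 0x0) (nat_lit 0x1ce00620037800000000000000000000000000) := Q_45 (nat_lit 129) (C_45 L122847 (C_45 L122841 (C_45 L122906 N_45))) (by decide +kernel)
theorem L122908 : W_45 (nat_lit 2) (nat_lit 0x58003e0010800000000000000000000000000) (nat_lit 0x0) (nat_lit 0x18000400000000000000000000000000) := D_45 (nat_lit 124) (nat_lit 106) (nat_lit 123) (nat_lit 0) (nat_lit 8) (nat_lit 7) (nat_lit 3) (nat_lit 4) (nat_lit 7) (by decide +kernel)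
theorem L122909 : W_45 (nat_lit 3) (nat_lit 0x50003e0010800000000000000000000000000) (nat_lit 0x0) (nat_lit 0x800418000400000000000000000000000000) := T_45 (nat_lit 143) (nat_lit 130) (nat_lit 1) (nat_lit 11) (nat_lit 7) L122908 (by decide +kernel)
theorem L122910 : W_45 (nat_lit 4) (nat_lit 0x50003e0010000000000000000000000000000) (nat_lit 0x0) (nat_lit 0x800418001c00000000000000000000000000) := T_45 (nat_lit 107) (nat_lit 108) (nat_lit 0) (nat_lit 9) (nat_lit 7) L122909 (by decide +kernel)
theorem L122911 : W_45 (nat_lit 5) (nat_lit 0x50003c0010000000000000000000000000000) (nat_lit 0x0) (nat_lit 0x800438009c00000000000000000000000000) := T_45 (nat_lit 125) (nat_lit 111) (nat_lit 2) (nat_lit 6) (nat_lit 7) L122910 (by decide +kernel)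
theorem L122912 : W_45 (nat_lit 6) (nat_lit 0x50003c0000000000000000000000000000000) (nat_lit 0x0) (nat_lit 0x800438039c00000000000000000000000000) := T_45 (nat_lit 112) (nat_lit 113) (nat_lit 2) (nat_lit 7) (nat_lit 7) L122911 (by decide +kernel)
theorem L122913 : W_45 (nat_lit 7) (nat_lit 0x10003c0000000000000000000000000000000) (nat_lit 0x0) (nat_lit 0xc800438039c00000000000000000000000000) := T_45 (nat_lit 146) (nat_lit 147) (nat_lit 3) (nat_lit 7) (nat_lit 7) L122912 (by decide +kernel)
theorem L122914 : W_45 (nat_lit 8) (nat_lit 0x10001c0000000000000000000000000000000) (nat_lit 0x0) (nat_lit 0xcf00638039c00000000000000000000000000) := Q_45 (nat_lit 129) (C_45 L122841 (C_45 L122913 (C_45 L121821 N_45))) (by decide +kernel)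
theorem L122915 : W_45 (nat_lit 2) (nat_lit 0x90003e0010000000000000000000000000000) (nat_lit 0x0) (nat_lit 0x10800400000000000000000000000000000000) := D_45 (nat_lit 130) (nat_lit 143) (nat_lit 148) (nat_lit 1) (nat_lit 11) (nat_lit 7) (nat_lit 3) (nat_lit 8) (nat_lit 7) (by decide +kernel)
theorem L122916 : W_45 (nat_lit 3) (nat_lit 0x10003e0010000000000000000000000000000) (nat_lit 0x0) (nat_lit 0x1c800400000000000000000000000000000000) := T_45 (nat_lit 147) (nat_lit 146) (nat_lit 3) (nat_lit 7) (nat_lit 7) L122915 (by decide +kernel)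
theorem L122917 : W_45 (nat_lit 4) (nat_lit 0x10003c0010000000000000000000000000000) (nat_lit 0x0) (nat_lit 0x1c800420008000000000000000000000000000) := T_45 (nat_lit 125) (nat_lit 111) (nat_lit 2) (nat_lit 6) (nat_lit 7) L122916 (by decide +kernel)
theorem L122918 : W_45 (nat_lit 5) (nat_lit 0x10003c0000000000000000000000000000000) (nat_lit 0x0) (nat_lit 0x1c800420038000000000000000000000000000) := T_45 (nat_lit 112) (nat_lit 113) (nat_lit 2) (nat_lit 7) (nat_lit 7) L122917 (by decide +kernel)
theorem L122919 : W_45 (nat_lit 2) (nat_lit 0x50003c001a000000000000000000000000000) (nat_lit 0x0) (nat_lit 0x80000000000000000400020000000000000000000) := D_45 (nat_lit 94) (nat_lit 77) (nat_lit 163) (nat_lit 7) (nat_lit 9) (nat_lit 4) (nat_lit 4) (nat_lit 10) (nat_lit 9) (by decide +kernel)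
theorem L122920 : W_45 (nat_lit 3) (nat_lit 0x10003c001a000000000000000000000000000) (nat_lit 0x0) (nat_lit 0x8000c000000000000400020000000000000000000) := T_45 (nat_lit 146) (nat_lit 147) (nat_lit 3) (nat_lit 7) (nat_lit 7) L122919 (by decide +kernel)
theorem L122921 : W_45 (nat_lit 4) (nat_lit 0x10003c0012000000000000000000000000000) (nat_lit 0x0) (nat_lit 0x8000c000020008000400020000000000000000000) := T_45 (nat_lit 111) (nat_lit 125) (nat_lit 2) (nat_lit 6) (nat_lit 7) L122920 (by decide +kernel)
theorem L122922 : W_45 (nat_lit 5) (nat_lit 0x10003c0002000000000000000000000000000) (nat_lit 0x0) (nat_lit 0x8000c000020038000400020000000000000000000) := T_45 (nat_lit 112) (nat_lit 113) (nat_lit 2) (nat_lit 7) (nat_lit 7) L122921 (by decide +kernel)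
theorem L122923 : W_45 (nat_lit 6) (nat_lit 0x10003c0000000000000000000000000000000) (nat_lit 0x0) (nat_lit 0x8000c00002003b000400020000000000000000000) := T_45 (nat_lit 109) (nat_lit 108) (nat_lit 0) (nat_lit 10) (nat_lit 7) L122922 (by decide +kernel)
theorem L122924 : W_45 (nat_lit 8) (nat_lit 0x10001c0000000000000000000000000000000) (nat_lit 0x0) (nat_lit 0x8001c80063803fc00400020000000000000000000) := Q_45 (nat_lit 129) (C_45 L122913 (C_45 L122847 (C_45 L122843 (C_45 L122918 (C_45 L122923 N_45))))) (by decide +kernel)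
theorem L122925 : W_45 (nat_lit 2) (nat_lit 0x90003c0002000000000000000000000000000) (nat_lit 0x0) (nat_lit 0x10000400004000000000000000000000000000) := D_45 (nat_lit 130) (nat_lit 148) (nat_lit 110) (nat_lit 3) (nat_lit 8) (nat_lit 7) (nat_lit 0) (nat_lit 11) (nat_lit 7) (by decide +kernel)
theorem L122926 : W_45 (nat_lit 3) (nat_lit 0x90003c0000000000000000000000000000000) (nat_lit 0x0) (nat_lit 0x10000400007000000000000000000000000000) := T_45 (nat_lit 109) (nat_lit 108) (nat_lit 0) (nat_lit 10) (nat_lit 7) L122925 (by decide +kernel)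
theorem L122927 : W_45 (nat_lit 4) (nat_lit 0x10003c0000000000000000000000000000000) (nat_lit 0x0) (nat_lit 0x1c000400007000000000000000000000000000) := T_45 (nat_lit 147) (nat_lit 146) (nat_lit 3) (nat_lit 7) (nat_lit 7) L122926 (by decide +kernel)
theorem L122928 : W_45 (nat_lit 2) (nat_lit 0x5a003f0005000000004000000000000000000) (nat_lit 0x0) (nat_lit 0x200010000000000000000200000000000000000000000) := D_45 (nat_lit 160) (nat_lit 177) (nat_lit 93) (nat_lit 6) (nat_lit 7) (nat_lit 10) (nat_lit 5) (nat_lit 8) (nat_lit 5) (by decide +kernel)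
theorem L122929 : W_45 (nat_lit 3) (nat_lit 0x5a003f0001000000004000000000000000000) (nat_lit 0x0) (nat_lit 0x20001000000000000c000200000000000000000000000) := T_45 (nat_lit 110) (nat_lit 111) (nat_lit 2) (nat_lit 5) (nat_lit 7) L122928 (by decide +kernel)
theorem L122930 : W_45 (nat_lit 4) (nat_lit 0x58003f0001000000004000000000000000000) (nat_lit 0x0) (nat_lit 0x20001000030000000c000200000000000000000000000) := T_45 (nat_lit 141) (nat_lit 140) (nat_lit 1) (nat_lit 8) (nat_lit 7) L122929 (by decide +kernel)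
theorem L122931 : W_45 (nat_lit 5) (nat_lit 0x58003f0001000000000000000000000000000) (nat_lit 0x0) (nat_lit 0x20001000030000000c000280004000000000000000000) := T_45 (nat_lit 74) (nat_lit 91) (nat_lit 7) (nat_lit 6) (nat_lit 4) L122930 (by decide +kernel)
theorem L122932 : W_45 (nat_lit 6) (nat_lit 0x58003e0001000000000000000000000000000) (nat_lit 0x0) (nat_lit 0x20001000030001800c000280004000000000000000000) := T_45 (nat_lit 124) (nat_lit 123) (nat_lit 3) (nat_lit 4) (nat_lit 7) L122931 (by decide +kernel)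
theorem L122933 : W_45 (nat_lit 7) (nat_lit 0x58003c0001000000000000000000000000000) (nat_lit 0x0) (nat_lit 0x20001000030003800c800280004000000000000000000) := T_45 (nat_lit 125) (nat_lit 107) (nat_lit 0) (nat_lit 9) (nat_lit 7) L122932 (by decide +kernel)
theorem L122934 : W_45 (nat_lit 8) (nat_lit 0x58003c0000000000000000000000000000000) (nat_lit 0x0) (nat_lit 0x20001000030003800f800280004000000000000000000) := T_45 (nat_lit 108) (nat_lit 109) (nat_lit 0) (nat_lit 10) (nat_lit 7) L122933 (by decide +kernel)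
theorem L122935 : W_45 (nat_lit 9) (nat_lit 0x50003c0000000000000000000000000000000) (nat_lit 0x0) (nat_lit 0x200010000f0003800f800280004000000000000000000) := T_45 (nat_lit 143) (nat_lit 142) (nat_lit 1) (nat_lit 10) (nat_lit 7) L122934 (by decide +kernel)
theorem L122936 : W_45 (nat_lit 10) (nat_lit 0x10003c0000000000000000000000000000000) (nat_lit 0x0) (nat_lit 0x20001000cf0003800f800280004000000000000000000) := T_45 (nat_lit 146) (nat_lit 147) (nat_lit 3) (nat_lit 7) (nat_lit 7) L122935 (by decide +kernel)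
theorem L122937 : W_45 (nat_lit 11) (nat_lit 0x10001c0000000000000000000000000000000) (nat_lit 0x0) (nat_lit 0x20001001cf0063800f800280004000000000000000000) := Q_45 (nat_lit 129) (C_45 L122843 (C_45 L122841 (C_45 L122927 (C_45 L122936 N_45)))) (by decide +kernel)
theorem L122938 : W_45 (nat_lit 2) (nat_lit 0x10001f0009000000000000000000000000000) (nat_lit 0x0) (nat_lit 0x700000000000000000000000000000000000) := D_45 (nat_lit 141) (nat_lit 140) (nat_lit 142) (nat_lit 1) (nat_lit 8) (nat_lit 7) (nat_lit 1) (nat_lit 9) (nat_lit 7) (by decide +kernel)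
theorem L122939 : W_45 (nat_lit 3) (nat_lit 0x10001e0009000000000000000000000000000) (nat_lit 0x0) (nat_lit 0x700010004000000000000000000000000000) := T_45 (nat_lit 124) (nat_lit 110) (nat_lit 2) (nat_lit 5) (nat_lit 7) L122938 (by decide +kernel)
theorem L122940 : W_45 (nat_lit 4) (nat_lit 0x10001e0001000000000000000000000000000) (nat_lit 0x0) (nat_lit 0x70001001c000000000000000000000000000) := T_45 (nat_lit 111) (nat_lit 112) (nat_lit 2) (nat_lit 6) (nat_lit 7) L122939 (by decide +kernel)
theorem L122941 : W_45 (nat_lit 5) (nat_lit 0x10001e0000000000000000000000000000000) (nat_lit 0x0) (nat_lit 0x70001001d800000000000000000000000000) := T_45 (nat_lit 108) (nat_lit 107) (nat_lit 0) (nat_lit 9) (nat_lit 7) L122940 (by decide +kernel)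
theorem L122942 : W_45 (nat_lit 2) (nat_lit 0x10001f0008000000000000000000000000000) (nat_lit 0x0) (nat_lit 0x1c00000000000000000000000000) := D_45 (nat_lit 107) (nat_lit 108) (nat_lit 106) (nat_lit 0) (nat_lit 9) (nat_lit 7) (nat_lit 0) (nat_lit 8) (nat_lit 7) (by decide +kernel)
theorem L122943 : W_45 (nat_lit 3) (nat_lit 0x10001e0008000000000000000000000000000) (nat_lit 0x0) (nat_lit 0x10005c00000000000000000000000000) := T_45 (nat_lit 124) (nat_lit 110) (nat_lit 2) (nat_lit 5) (nat_lit 7) L122942 (by decide +kernel)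
theorem L122944 : W_45 (nat_lit 4) (nat_lit 0x10001e0000000000000000000000000000000) (nat_lit 0x0) (nat_lit 0x1001dc00000000000000000000000000) := T_45 (nat_lit 111) (nat_lit 112) (nat_lit 2) (nat_lit 6) (nat_lit 7) L122943 (by decide +kernel)
theorem L122945 : W_45 (nat_lit 2) (nat_lit 0x12001f8001000000000000000000000000000) (nat_lit 0x0) (nat_lit 0x4006000000000000000000000000000) := D_45 (nat_lit 109) (nat_lit 110) (nat_lit 122) (nat_lit 2) (nat_lit 4) (nat_lit 7) (nat_lit 2) (nat_lit 3) (nat_lit 7) (by decide +kernel)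
theorem L122946 : W_45 (nat_lit 3) (nat_lit 0x12001f0001000000000000000000000000000) (nat_lit 0x0) (nat_lit 0x80000c006000000000000000000000000000) := T_45 (nat_lit 123) (nat_lit 143) (nat_lit 3) (nat_lit 4) (nat_lit 7) L122945 (by decide +kernel)
theorem L122947 : W_45 (nat_lit 4) (nat_lit 0x12001e0001000000000000000000000000000) (nat_lit 0x0) (nat_lit 0x90001c006000000000000000000000000000) := T_45 (nat_lit 124) (nat_lit 140) (nat_lit 1) (nat_lit 8) (nat_lit 7) L122946 (by decide +kernel)
theorem L122948 : W_45 (nat_lit 5) (nat_lit 0x12001e0000000000000000000000000000000) (nat_lit 0x0) (nat_lit 0x90001c007800000000000000000000000000) := T_45 (nat_lit 108) (nat_lit 107) (nat_lit 0) (nat_lit 9) (nat_lit 7) L122947 (by decide +kernel)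
theorem L122949 : W_45 (nat_lit 6) (nat_lit 0x10001e0000000000000000000000000000000) (nat_lit 0x0) (nat_lit 0xf0001c007800000000000000000000000000) := T_45 (nat_lit 141) (nat_lit 142) (nat_lit 1) (nat_lit 9) (nat_lit 7) L122948 (by decide +kernel)
theorem L122950 : W_45 (nat_lit 2) (nat_lit 0x14001e000f000480000000000000000000000) (nat_lit 0x0) (nat_lit 0x800000000000000004000200000000000000) := D_45 (nat_lit 74) (nat_lit 143) (nat_lit 57) (nat_lit 7) (nat_lit 6) (nat_lit 4) (nat_lit 7) (nat_lit 6) (nat_lit 3) (by decide +kernel)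
theorem L122951 : W_45 (nat_lit 3) (nat_lit 0x14001e000f000400000000000000000000000) (nat_lit 0x0) (nat_lit 0x8000000000000c0004000200000000000000) := T_45 (nat_lit 91) (nat_lit 90) (nat_lit 0) (nat_lit 9) (nat_lit 6) L122950 (by decide +kernel)
theorem L122952 : W_45 (nat_lit 2) (nat_lit 0x10001e000f000480000000000000000000000) (nat_lit 0x0) (nat_lit 0x10000800000000000000004000000000000000000) := D_45 (nat_lit 143) (nat_lit 160) (nat_lit 74) (nat_lit 4) (nat_lit 7) (nat_lit 9) (nat_lit 7) (nat_lit 6) (nat_lit 4) (by decide +kernel)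
theorem L122953 : W_45 (nat_lit 3) (nat_lit 0x10001e000f000400000000000000000000000) (nat_lit 0x0) (nat_lit 0x100008000000000000c0004000000000000000000) := T_45 (nat_lit 91) (nat_lit 90) (nat_lit 0) (nat_lit 9) (nat_lit 6) L122952 (by decide +kernel)
theorem L122954 : W_45 (nat_lit 2) (nat_lit 0x14001e0005000200030000800000000000000) (nat_lit 0x0) (nat_lit 0x8000400020000000000) := D_45 (nat_lit 58) (nat_lit 41) (nat_lit 75) (nat_lit 4) (nat_lit 8) (nat_lit 6) (nat_lit 4) (nat_lit 8) (nat_lit 7) (by decide +kernel)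
theorem L122955 : W_45 (nat_lit 3) (nat_lit 0x14001e0005000200030000000000000000000) (nat_lit 0x0) (nat_lit 0x2000000008000c00020000000000) := T_45 (nat_lit 59) (nat_lit 109) (nat_lit 5) (nat_lit 8) (nat_lit 3) L122954 (by decide +kernel)
theorem L122956 : W_45 (nat_lit 4) (nat_lit 0x14001e0005000200020000000000000000000) (nat_lit 0x0) (nat_lit 0x2000000018001c00020000000000) := T_45 (nat_lit 76) (nat_lit 60) (nat_lit 6) (nat_lit 8) (nat_lit 7) L122955 (by decide +kernel)
theorem L122957 : W_45 (nat_lit 2) (nat_lit 0x10001e0000000000020000000000000000000) (nat_lit 0x0) (nat_lit 0x18000400000000000000000000000) := D_45 (nat_lit 111) (nat_lit 112) (nat_lit 94) (nat_lit 2) (nat_lit 6) (nat_lit 7) (nat_lit 5) (nat_lit 9) (nat_lit 4) (by decide +kernel)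
theorem L122958 : W_45 (nat_lit 2) (nat_lit 0x100018001e0005000000020000000000000000000) (nat_lit 0x0) (nat_lit 0x2000080004000000000000000000) := D_45 (nat_lit 91) (nat_lit 74) (nat_lit 109) (nat_lit 7) (nat_lit 6) (nat_lit 4) (nat_lit 4) (nat_lit 7) (nat_lit 9) (by decide +kernel)
theorem L122959 : W_45 (nat_lit 2) (nat_lit 0x100014001e0005000000020000000000000000000) (nat_lit 0x0) (nat_lit 0x200008000800000000000000000000000000000000000) := D_45 (nat_lit 177) (nat_lit 143) (nat_lit 159) (nat_lit 6) (nat_lit 7) (nat_lit 10) (nat_lit 7) (nat_lit 6) (nat_lit 6) (by decide +kernel)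
theorem L122960 : W_45 (nat_lit 3) (nat_lit 0x100010001e0005000000020000000000000000000) (nat_lit 0x0) (nat_lit 0x200008000e00000000000000000000000000000000000) := T_45 (nat_lit 142) (nat_lit 141) (nat_lit 1) (nat_lit 9) (nat_lit 7) L122959 (by decide +kernel)
theorem L122961 : W_45 (nat_lit 3) (nat_lit 0x100010001e0005000000020000000000000000000) (nat_lit 0x0) (nat_lit 0x200000000800000002000080004000000000000000000) := T_45 (nat_lit 143) (nat_lit 177) (nat_lit 6) (nat_lit 7) (nat_lit 10) L122958 (by decide +kernel)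
theorem L122962 : W_45 (nat_lit 2) (nat_lit 0x100014001e0005000080026000400000000000000) (nat_lit 0x0) (nat_lit 0x2000000000000200020000000000) := D_45 (nat_lit 57) (nat_lit 109) (nat_lit 41) (nat_lit 7) (nat_lit 6) (nat_lit 3) (nat_lit 6) (nat_lit 6) (nat_lit 6) (by decide +kernel)
theorem L122963 : W_45 (nat_lit 3) (nat_lit 0x100014001e0005000080026000000000000000000) (nat_lit 0x0) (nat_lit 0x2000000008000600020000000000) := T_45 (nat_lit 58) (nat_lit 75) (nat_lit 6) (nat_lit 6) (nat_lit 7) L122962 (by decide +kernel)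
theorem L122964 : W_45 (nat_lit 4) (nat_lit 0x100014001e0005000080022000000000000000000) (nat_lit 0x0) (nat_lit 0x200000000c000700020000000000) := T_45 (nat_lit 74) (nat_lit 56) (nat_lit 4) (nat_lit 6) (nat_lit 7) L122963 (by decide +kernel)
theorem L122965 : W_45 (nat_lit 5) (nat_lit 0x100014001e0005000080020000000000000000000) (nat_lit 0x0) (nat_lit 0x200004000e000700020000000000) := T_45 (nat_lit 73) (nat_lit 90) (nat_lit 4) (nat_lit 6) (nat_lit 8) L122964 (by decide +kernel)
theorem L122966 : W_45 (nat_lit 6) (nat_lit 0x100014001e0005000000020000000000000000000) (nat_lit 0x0) (nat_lit 0x8000000020000c000e000700020000000000) := T_45 (nat_lit 91) (nat_lit 143) (nat_lit 7) (nat_lit 6) (nat_lit 5) L122965 (by decide +kernel)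
theorem L122967 : W_45 (nat_lit 7) (nat_lit 0x100010001e0005000000020000000000000000000) (nat_lit 0x0) (nat_lit 0xe000000020000c000e000700020000000000) := T_45 (nat_lit 142) (nat_lit 141) (nat_lit 1) (nat_lit 9) (nat_lit 7) L122966 (by decide +kernel)
theorem L122968 : W_45 (nat_lit 2) (nat_lit 0x1000180014001e0005000000020000000000000000000) (nat_lit 0x0) (nat_lit 0x1000080004000000000000000000000000000000000000000) := D_45 (nat_lit 175) (nat_lit 192) (nat_lit 158) (nat_lit 5) (nat_lit 6) (nat_lit 7) (nat_lit 5) (nat_lit 6) (nat_lit 6) (by decide +kernel)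
theorem L122969 : W_45 (nat_lit 3) (nat_lit 0x180014001e0005000000020000000000000000000) (nat_lit 0x0) (nat_lit 0x1000180004000000000002000000000000000000000000000) := T_45 (nat_lit 176) (nat_lit 109) (nat_lit 6) (nat_lit 6) (nat_lit 10) L122968 (by decide +kernel)
theorem L122970 : W_45 (nat_lit 4) (nat_lit 0x100014001e0005000000020000000000000000000) (nat_lit 0x0) (nat_lit 0x100038000c000000000002000000000000000000000000000) := T_45 (nat_lit 159) (nat_lit 177) (nat_lit 7) (nat_lit 6) (nat_lit 6) L122969 (by decide +kernel)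
theorem L122971 : W_45 (nat_lit 5) (nat_lit 0x100010001e0005000000020000000000000000000) (nat_lit 0x0) (nat_lit 0x100038000c000600000002000000000000000000000000000) := T_45 (nat_lit 142) (nat_lit 141) (nat_lit 1) (nat_lit 9) (nat_lit 7) L122970 (by decide +kernel)
theorem L122972 : W_45 (nat_lit 8) (nat_lit 0x10001e0005000000020000000000000000000) (nat_lit 0x0) (nat_lit 0x100038001c000e000000020000c000e000700020000000000) := Q_45 (nat_lit 160) (C_45 L122960 (C_45 L122961 (C_45 L122967 (C_45 L122971 N_45)))) (by decide +kernel)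
theorem L122973 : W_45 (nat_lit 9) (nat_lit 0x10001e0004000000020000000000000000000) (nat_lit 0x0) (nat_lit 0x100038001c000e000000038000c000e000700020000000000) := T_45 (nat_lit 108) (nat_lit 107) (nat_lit 0) (nat_lit 9) (nat_lit 7) L122972 (by decide +kernel)
theorem L122974 : W_45 (nat_lit 2) (nat_lit 0x10001e0004000200020000000000000000000) (nat_lit 0x0) (nat_lit 0x800000000000000010001000000000000000) := D_45 (nat_lit 76) (nat_lit 60) (nat_lit 143) (nat_lit 6) (nat_lit 8) (nat_lit 7) (nat_lit 5) (nat_lit 8) (nat_lit 4) (by decide +kernel)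
theorem L122975 : W_45 (nat_lit 3) (nat_lit 0x10001e0004000000020000000000000000000) (nat_lit 0x0) (nat_lit 0x800000000000600010001000000000000000) := T_45 (nat_lit 93) (nat_lit 94) (nat_lit 6) (nat_lit 8) (nat_lit 8) L122974 (by decide +kernel)
theorem L122976 : W_45 (nat_lit 5) (nat_lit 0x14001e0005000000020000000000000000000) (nat_lit 0x0) (nat_lit 0x2000600018001c00020000000000) := T_45 (nat_lit 93) (nat_lit 94) (nat_lit 6) (nat_lit 8) (nat_lit 8) L122956 (by decide +kernel)
theorem L122977 : W_45 (nat_lit 6) (nat_lit 0x10001e0005000000020000000000000000000) (nat_lit 0x0) (nat_lit 0x600000002000600018001c00020000000000) := T_45 (nat_lit 142) (nat_lit 141) (nat_lit 1) (nat_lit 9) (nat_lit 7) L122976 (by decide +kernel)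
theorem L122978 : W_45 (nat_lit 7) (nat_lit 0x10001e0004000000020000000000000000000) (nat_lit 0x0) (nat_lit 0x600000003800600018001c00020000000000) := T_45 (nat_lit 108) (nat_lit 107) (nat_lit 0) (nat_lit 9) (nat_lit 7) L122977 (by decide +kernel)
theorem L122979 : W_45 (nat_lit 10) (nat_lit 0x10001e0000000000020000000000000000000) (nat_lit 0x0) (nat_lit 0x100038001c000e000000078006c001e001f00020000000000) := Q_45 (nat_lit 110) (C_45 L122153 (C_45 L122973 (C_45 L122975 (C_45 L122978 N_45)))) (by decide +kernel)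
theorem L122980 : W_45 (nat_lit 2) (nat_lit 0x14001e0001000080024000000000000000000) (nat_lit 0x0) (nat_lit 0x40002000100000000000000) := D_45 (nat_lit 73) (nat_lit 90) (nat_lit 56) (nat_lit 4) (nat_lit 6) (nat_lit 8) (nat_lit 4) (nat_lit 6) (nat_lit 7) (by decide +kernel)
theorem L122981 : W_45 (nat_lit 3) (nat_lit 0x14001e0001000080020000000000000000000) (nat_lit 0x0) (nat_lit 0x800000000000040006000100000000000000) := T_45 (nat_lit 74) (nat_lit 143) (nat_lit 7) (nat_lit 6) (nat_lit 4) L122980 (by decide +kernel)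
theorem L122982 : W_45 (nat_lit 4) (nat_lit 0x10001e0001000080020000000000000000000) (nat_lit 0x0) (nat_lit 0xe00000000000040006000100000000000000) := T_45 (nat_lit 142) (nat_lit 141) (nat_lit 1) (nat_lit 9) (nat_lit 7) L122981 (by decide +kernel)
theorem L122983 : W_45 (nat_lit 2) (nat_lit 0x10001e0001000080024000200000000000000) (nat_lit 0x0) (nat_lit 0x8000400020000000000) := D_45 (nat_lit 58) (nat_lit 41) (nat_lit 75) (nat_lit 6) (nat_lit 6) (nat_lit 6) (nat_lit 6) (nat_lit 6) (nat_lit 7) (by decide +kernel)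
theorem L122984 : W_45 (nat_lit 3) (nat_lit 0x10001e0001000080024000000000000000000) (nat_lit 0x0) (nat_lit 0x2000000008000600020000000000) := T_45 (nat_lit 57) (nat_lit 109) (nat_lit 7) (nat_lit 6) (nat_lit 3) L122983 (by decide +kernel)
theorem L122985 : W_45 (nat_lit 4) (nat_lit 0x10001e0001000080020000000000000000000) (nat_lit 0x0) (nat_lit 0x80000000200000000c000600020000000000) := T_45 (nat_lit 74) (nat_lit 143) (nat_lit 7) (nat_lit 6) (nat_lit 4) L122984 (by decide +kernel)
theorem L122986 : W_45 (nat_lit 2) (nat_lit 0x14001e000b0000d0024000000000000000000) (nat_lit 0x0) (nat_lit 0x18000400000000000000) := D_45 (nat_lit 75) (nat_lit 58) (nat_lit 76) (nat_lit 6) (nat_lit 6) (nat_lit 7) (nat_lit 1) (nat_lit 9) (nat_lit 4) (by decide +kernel)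
theorem L122987 : W_45 (nat_lit 3) (nat_lit 0x14001e000b0000d0020000000000000000000) (nat_lit 0x0) (nat_lit 0x1c000600000000000000) := T_45 (nat_lit 74) (nat_lit 57) (nat_lit 7) (nat_lit 6) (nat_lit 3) L122986 (by decide +kernel)
theorem L122988 : W_45 (nat_lit 4) (nat_lit 0x14001e000b0000c0020000000000000000000) (nat_lit 0x0) (nat_lit 0x3001c000600000000000000) := T_45 (nat_lit 88) (nat_lit 89) (nat_lit 3) (nat_lit 3) (nat_lit 5) L122987 (by decide +kernel)
theorem L122989 : W_45 (nat_lit 5) (nat_lit 0x14001e00090000c0020000000000000000000) (nat_lit 0x0) (nat_lit 0x600003001c000600000000000000) := T_45 (nat_lit 109) (nat_lit 110) (nat_lit 0) (nat_lit 9) (nat_lit 6) L122988 (by decide +kernel)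
theorem L122990 : W_45 (nat_lit 6) (nat_lit 0x14001e0009000080020000000000000000000) (nat_lit 0x0) (nat_lit 0x600007001e000600000000000000) := T_45 (nat_lit 90) (nat_lit 73) (nat_lit 4) (nat_lit 6) (nat_lit 8) L122989 (by decide +kernel)
theorem L122991 : W_45 (nat_lit 7) (nat_lit 0x10001e0009000080020000000000000000000) (nat_lit 0x0) (nat_lit 0x60000000600007001e000600000000000000) := T_45 (nat_lit 142) (nat_lit 141) (nat_lit 1) (nat_lit 9) (nat_lit 7) L122990 (by decide +kernel)
theorem L122992 : W_45 (nat_lit 8) (nat_lit 0x10001e0001000080020000000000000000000) (nat_lit 0x0) (nat_lit 0x60000001e00007001e000600000000000000) := T_45 (nat_lit 111) (nat_lit 112) (nat_lit 2) (nat_lit 6) (nat_lit 7) L122991 (by decide +kernel)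
theorem L122993 : W_45 (nat_lit 2) (nat_lit 0x100014001e000b0000c0020000000000000000000) (nat_lit 0x0) (nat_lit 0x300008000000000000000000000000000000000000000) := D_45 (nat_lit 159) (nat_lit 176) (nat_lit 177) (nat_lit 6) (nat_lit 6) (nat_lit 10) (nat_lit 7) (nat_lit 6) (nat_lit 6) (by decide +kernel)
theorem L122994 : W_45 (nat_lit 3) (nat_lit 0x14001e000b0000c0020000000000000000000) (nat_lit 0x0) (nat_lit 0x300018000800000000000000000000000000000000000) := T_45 (nat_lit 160) (nat_lit 143) (nat_lit 7) (nat_lit 6) (nat_lit 5) L122993 (by decide +kernel)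
theorem L122995 : W_45 (nat_lit 4) (nat_lit 0x14001e00090000c0020000000000000000000) (nat_lit 0x0) (nat_lit 0x300018000800000006000000000000000000000000000) := T_45 (nat_lit 109) (nat_lit 110) (nat_lit 0) (nat_lit 9) (nat_lit 6) L122994 (by decide +kernel)
theorem L122996 : W_45 (nat_lit 5) (nat_lit 0x14001e0009000080020000000000000000000) (nat_lit 0x0) (nat_lit 0x300018000800000006000040002000000000000000000) := T_45 (nat_lit 90) (nat_lit 73) (nat_lit 4) (nat_lit 6) (nat_lit 8) L122995 (by decide +kernel)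
theorem L122997 : W_45 (nat_lit 6) (nat_lit 0x14001e0001000080020000000000000000000) (nat_lit 0x0) (nat_lit 0x30001800080000001e000040002000000000000000000) := T_45 (nat_lit 111) (nat_lit 112) (nat_lit 2) (nat_lit 6) (nat_lit 7) L122996 (by decide +kernel)
theorem L122998 : W_45 (nat_lit 7) (nat_lit 0x10001e0001000080020000000000000000000) (nat_lit 0x0) (nat_lit 0x300018000e0000001e000040002000000000000000000) := T_45 (nat_lit 142) (nat_lit 141) (nat_lit 1) (nat_lit 9) (nat_lit 7) L122997 (by decide +kernel)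
theorem L122999 : W_45 (nat_lit 9) (nat_lit 0x10001e0001000000020000000000000000000) (nat_lit 0x0) (nat_lit 0x300018000e0000001e0000f001e000700020000000000) := Q_45 (nat_lit 91) (C_45 L122982 (C_45 L122985 (C_45 L122992 (C_45 L122998 N_45)))) (by decide +kernel)
theorem L123000 : W_45 (nat_lit 10) (nat_lit 0x10001e0000000000020000000000000000000) (nat_lit 0x0) (nat_lit 0x300018000e0000001f8000f001e000700020000000000) := T_45 (nat_lit 108) (nat_lit 107) (nat_lit 0) (nat_lit 9) (nat_lit 7) L122999 (by decide +kernel)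
theorem L123001 : W_45 (nat_lit 11) (nat_lit 0x10001e0000000000000000000000000000000) (nat_lit 0x0) (nat_lit 0x100038001c000e0000001f8006f003e001f00020000000000) := Q_45 (nat_lit 77) (C_45 L122957 (C_45 L122979 (C_45 L123000 N_45))) (by decide +kernel)
theorem L123002 : W_45 (nat_lit 4) (nat_lit 0x10001e0000000000000000000000000000000) (nat_lit 0x0) (nat_lit 0x70001001c000000000000000000000000000) := T_45 (nat_lit 111) (nat_lit 112) (nat_lit 2) (nat_lit 6) (nat_lit 7) L120772 (by decide +kernel)
theorem L123003 : W_45 (nat_lit 2) (nat_lit 0x12001fc009000000020000000000000000000) (nat_lit 0x0) (nat_lit 0x700000000000000000000000000) := D_45 (nat_lit 105) (nat_lit 106) (nat_lit 104) (nat_lit 0) (nat_lit 7) (nat_lit 7) (nat_lit 0) (nat_lit 6) (nat_lit 7) (by decide +kernel)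
theorem L123004 : W_45 (nat_lit 3) (nat_lit 0x12001f8009000000020000000000000000000) (nat_lit 0x0) (nat_lit 0x4002700000000000000000000000000) := T_45 (nat_lit 122) (nat_lit 109) (nat_lit 2) (nat_lit 3) (nat_lit 7) L123003 (by decide +kernel)
theorem L123005 : W_45 (nat_lit 4) (nat_lit 0x12001f0009000000020000000000000000000) (nat_lit 0x0) (nat_lit 0x80000c002700000000000000000000000000) := T_45 (nat_lit 123) (nat_lit 143) (nat_lit 3) (nat_lit 4) (nat_lit 7) L123004 (by decide +kernel)
theorem L123006 : W_45 (nat_lit 5) (nat_lit 0x12001e0009000000020000000000000000000) (nat_lit 0x0) (nat_lit 0x90001c002700000000000000000000000000) := T_45 (nat_lit 124) (nat_lit 140) (nat_lit 1) (nat_lit 8) (nat_lit 7) L123005 (by decide +kernel)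
theorem L123007 : W_45 (nat_lit 6) (nat_lit 0x10001e0009000000020000000000000000000) (nat_lit 0x0) (nat_lit 0xf0001c002700000000000000000000000000) := T_45 (nat_lit 141) (nat_lit 142) (nat_lit 1) (nat_lit 9) (nat_lit 7) L123006 (by decide +kernel)
theorem L123008 : W_45 (nat_lit 7) (nat_lit 0x10001e0009000000000000000000000000000) (nat_lit 0x0) (nat_lit 0xf0001c002700400020000000000000000000) := T_45 (nat_lit 77) (nat_lit 94) (nat_lit 5) (nat_lit 9) (nat_lit 4) L123007 (by decide +kernel)
theorem L123009 : W_45 (nat_lit 8) (nat_lit 0x10001e0008000000000000000000000000000) (nat_lit 0x0) (nat_lit 0xf0001c003f00400020000000000000000000) := T_45 (nat_lit 108) (nat_lit 107) (nat_lit 0) (nat_lit 9) (nat_lit 7) L123008 (by decide +kernel)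
theorem L123010 : W_45 (nat_lit 9) (nat_lit 0x10001e0000000000000000000000000000000) (nat_lit 0x0) (nat_lit 0xf0001c01bf00400020000000000000000000) := T_45 (nat_lit 111) (nat_lit 112) (nat_lit 2) (nat_lit 6) (nat_lit 7) L123009 (by decide +kernel)
theorem L123011 : W_45 (nat_lit 12) (nat_lit 0x10001c0000000000000000000000000000000) (nat_lit 0x0) (nat_lit 0x100038001c000f0003c01ff006f003e001f00020000000000) := Q_45 (nat_lit 125) (C_45 L122941 (C_45 L122944 (C_45 L122949 (C_45 L123001 (C_45 L123002 (C_45 L123010 N_45)))))) (by decide +kernel)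
theorem L123012 : W_45 (nat_lit 2) (nat_lit 0x50003c0018000000000000000000000000000) (nat_lit 0x0) (nat_lit 0x1000080000000000000000400000000000000000000000) := D_45 (nat_lit 163) (nat_lit 94) (nat_lit 180) (nat_lit 4) (nat_lit 10) (nat_lit 9) (nat_lit 4) (nat_lit 10) (nat_lit 10) (by decide +kernel)
theorem L123013 : W_45 (nat_lit 3) (nat_lit 0x50003c0010000000000000000000000000000) (nat_lit 0x0) (nat_lit 0x1000080000000020008000400000000000000000000000) := T_45 (nat_lit 111) (nat_lit 125) (nat_lit 2) (nat_lit 6) (nat_lit 7) L123012 (by decide +kernel)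
theorem L123014 : W_45 (nat_lit 4) (nat_lit 0x50003c0000000000000000000000000000000) (nat_lit 0x0) (nat_lit 0x1000080000000020038000400000000000000000000000) := T_45 (nat_lit 112) (nat_lit 113) (nat_lit 2) (nat_lit 7) (nat_lit 7) L123013 (by decide +kernel)
theorem L123015 : W_45 (nat_lit 5) (nat_lit 0x10003c0000000000000000000000000000000) (nat_lit 0x0) (nat_lit 0x100008000c000020038000400000000000000000000000) := T_45 (nat_lit 146) (nat_lit 147) (nat_lit 3) (nat_lit 7) (nat_lit 7) L123014 (by decide +kernel)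
theorem L123016 : W_45 (nat_lit 6) (nat_lit 0x10001c0000000000000000000000000000000) (nat_lit 0x0) (nat_lit 0x100008001cc00620038000400000000000000000000000) := Q_45 (nat_lit 129) (C_45 L122918 (C_45 L122841 (C_45 L123015 N_45))) (by decide +kernel)
theorem L123017 : W_45 (nat_lit 2) (nat_lit 0x12003e0016000000000000000000000000000) (nat_lit 0x0) (nat_lit 0x100018000000000000000000000000000000) := D_45 (nat_lit 124) (nat_lit 140) (nat_lit 123) (nat_lit 1) (nat_lit 8) (nat_lit 7) (nat_lit 2) (nat_lit 4) (nat_lit 7) (by decide +kernel)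
theorem L123018 : W_45 (nat_lit 3) (nat_lit 0x12003e0012000000000000000000000000000) (nat_lit 0x0) (nat_lit 0x100418004000000000000000000000000000) := T_45 (nat_lit 110) (nat_lit 130) (nat_lit 0) (nat_lit 11) (nat_lit 7) L123017 (by decide +kernel)
theorem L123019 : W_45 (nat_lit 4) (nat_lit 0x10003e0012000000000000000000000000000) (nat_lit 0x0) (nat_lit 0x700418004000000000000000000000000000) := T_45 (nat_lit 141) (nat_lit 142) (nat_lit 1) (nat_lit 9) (nat_lit 7) L123018 (by decide +kernel)
theorem L123020 : W_45 (nat_lit 5) (nat_lit 0x10003c0012000000000000000000000000000) (nat_lit 0x0) (nat_lit 0x70043800c000000000000000000000000000) := T_45 (nat_lit 125) (nat_lit 111) (nat_lit 2) (nat_lit 6) (nat_lit 7) L123019 (by decide +kernel)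
theorem L123021 : W_45 (nat_lit 6) (nat_lit 0x10003c0002000000000000000000000000000) (nat_lit 0x0) (nat_lit 0x70043803c000000000000000000000000000) := T_45 (nat_lit 112) (nat_lit 113) (nat_lit 2) (nat_lit 7) (nat_lit 7) L123020 (by decide +kernel)
theorem L123022 : W_45 (nat_lit 7) (nat_lit 0x10003c0000000000000000000000000000000) (nat_lit 0x0) (nat_lit 0x70043803f000000000000000000000000000) := T_45 (nat_lit 109) (nat_lit 108) (nat_lit 0) (nat_lit 10) (nat_lit 7) L123021 (by decide +kernel)
theorem L123023 : W_45 (nat_lit 8) (nat_lit 0x10001c0000000000000000000000000000000) (nat_lit 0x0) (nat_lit 0x100008001c70063803f000400000000000000000000000) := Q_45 (nat_lit 129) (C_45 L123015 (C_45 L122927 (C_45 L123022 N_45))) (by decide +kernel)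
theorem L123024 : W_45 (nat_lit 15) (nat_lit 0x10000c0000000000000000000000000000000) (nat_lit 0x0) (nat_lit 0x51003f801dc01cf0073c03ff03ef00fe007f00220000000000) := Q_45 (nat_lit 128) (C_45 L122901 (C_45 L122907 (C_45 L122914 (C_45 L122924 (C_45 L122937 (C_45 L123011 (C_45 L123016 (C_45 L123023 N_45)))))))) (by decide +kernel)
theorem L123025 : W_45 (nat_lit 2) (nat_lit 0x58003c0012000380000000000000000000000) (nat_lit 0x0) (nat_lit 0xc000400000000000000000000000) := D_45 (nat_lit 111) (nat_lit 94) (nat_lit 110) (nat_lit 3) (nat_lit 6) (nat_lit 5) (nat_lit 0) (nat_lit 10) (nat_lit 6) (by decide +kernel)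
theorem L123026 : W_45 (nat_lit 3) (nat_lit 0x58003c0012000300000000000000000000000) (nat_lit 0x0) (nat_lit 0xc000480004000000000000000000) := T_45 (nat_lit 91) (nat_lit 74) (nat_lit 4) (nat_lit 7) (nat_lit 8) L123025 (by decide +kernel)
theorem L123027 : W_45 (nat_lit 4) (nat_lit 0x58003c0012000100000000000000000000000) (nat_lit 0x0) (nat_lit 0xc000680014000000000000000000) := T_45 (nat_lit 93) (nat_lit 76) (nat_lit 6) (nat_lit 7) (nat_lit 8) L123026 (by decide +kernel)
theorem L123028 : W_45 (nat_lit 5) (nat_lit 0x58003c0012000000000000000000000000000) (nat_lit 0x0) (nat_lit 0xc00078001c000000000000000000) := T_45 (nat_lit 92) (nat_lit 75) (nat_lit 7) (nat_lit 7) (nat_lit 4) L123027 (by decide +kernel)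
theorem L123029 : W_45 (nat_lit 6) (nat_lit 0x18003c0012000000000000000000000000000) (nat_lit 0x0) (nat_lit 0xc00000000c00078001c000000000000000000) := T_45 (nat_lit 146) (nat_lit 147) (nat_lit 3) (nat_lit 7) (nat_lit 7) L123028 (by decide +kernel)
theorem L123030 : W_45 (nat_lit 7) (nat_lit 0x18003c0010000000000000000000000000000) (nat_lit 0x0) (nat_lit 0xc00000000f00078001c000000000000000000) := T_45 (nat_lit 109) (nat_lit 108) (nat_lit 0) (nat_lit 10) (nat_lit 7) L123029 (by decide +kernel)
theorem L123031 : W_45 (nat_lit 8) (nat_lit 0x18003c0000000000000000000000000000000) (nat_lit 0x0) (nat_lit 0xc00000003f00078001c000000000000000000) := T_45 (nat_lit 112) (nat_lit 113) (nat_lit 2) (nat_lit 7) (nat_lit 7) L123030 (by decide +kernel)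
theorem L123032 : W_45 (nat_lit 9) (nat_lit 0x10003c0000000000000000000000000000000) (nat_lit 0x0) (nat_lit 0xcc0000003f00078001c000000000000000000) := T_45 (nat_lit 143) (nat_lit 142) (nat_lit 1) (nat_lit 10) (nat_lit 7) L123031 (by decide +kernel)
theorem L123033 : W_45 (nat_lit 10) (nat_lit 0x10001c0000000000000000000000000000000) (nat_lit 0x0) (nat_lit 0x1cc0060003f00078001c000000000000000000) := Q_45 (nat_lit 129) (C_45 L122927 (C_45 L122841 (C_45 L123032 N_45))) (by decide +kernel)
theorem L123034 : W_45 (nat_lit 2) (nat_lit 0x14003c0001000000000000000000000000000) (nat_lit 0x0) (nat_lit 0x200020000800000000000000000000000000) := D_45 (nat_lit 125) (nat_lit 141) (nat_lit 107) (nat_lit 1) (nat_lit 9) (nat_lit 7) (nat_lit 0) (nat_lit 9) (nat_lit 7) (by decide +kernel)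
theorem L123035 : W_45 (nat_lit 3) (nat_lit 0x14003c0000000000000000000000000000000) (nat_lit 0x0) (nat_lit 0x200020003800000000000000000000000000) := T_45 (nat_lit 108) (nat_lit 109) (nat_lit 0) (nat_lit 10) (nat_lit 7) L123034 (by decide +kernel)
theorem L123036 : W_45 (nat_lit 4) (nat_lit 0x10003c0000000000000000000000000000000) (nat_lit 0x0) (nat_lit 0xe00020003800000000000000000000000000) := T_45 (nat_lit 142) (nat_lit 143) (nat_lit 1) (nat_lit 10) (nat_lit 7) L123035 (by decide +kernel)
theorem L123037 : W_45 (nat_lit 5) (nat_lit 0x10001c0000000000000000000000000000000) (nat_lit 0x0) (nat_lit 0x1ce00620007800000000000000000000000000) := Q_45 (nat_lit 129) (C_45 L122927 (C_45 L122841 (C_45 L123036 N_45))) (by decide +kernel)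
theorem L123038 : W_45 (nat_lit 4) (nat_lit 0x14001e000b000400000000000000000000000) (nat_lit 0x0) (nat_lit 0x8000000040008c0004000200000000000000) := T_45 (nat_lit 110) (nat_lit 95) (nat_lit 2) (nat_lit 6) (nat_lit 6) L122951 (by decide +kernel)
theorem L123039 : W_45 (nat_lit 5) (nat_lit 0x10001e000b000400000000000000000000000) (nat_lit 0x0) (nat_lit 0xe000000040008c0004000200000000000000) := T_45 (nat_lit 142) (nat_lit 141) (nat_lit 1) (nat_lit 9) (nat_lit 7) L123038 (by decide +kernel)
theorem L123040 : W_45 (nat_lit 6) (nat_lit 0x10001e000a000400000000000000000000000) (nat_lit 0x0) (nat_lit 0xe000000058008c0004000200000000000000) := T_45 (nat_lit 108) (nat_lit 107) (nat_lit 0) (nat_lit 9) (nat_lit 7) L123039 (by decide +kernel)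
theorem L123041 : W_45 (nat_lit 7) (nat_lit 0x10001e000a000000000000000000000000000) (nat_lit 0x0) (nat_lit 0xe00000005800cc0024000200000000000000) := T_45 (nat_lit 94) (nat_lit 77) (nat_lit 5) (nat_lit 9) (nat_lit 4) L123040 (by decide +kernel)
theorem L123042 : W_45 (nat_lit 8) (nat_lit 0x10001e0002000000000000000000000000000) (nat_lit 0x0) (nat_lit 0xe0000001d800cc0024000200000000000000) := T_45 (nat_lit 111) (nat_lit 112) (nat_lit 2) (nat_lit 6) (nat_lit 7) L123041 (by decide +kernel)
theorem L123043 : W_45 (nat_lit 2) (nat_lit 0x1000000014001e000f000480008000000000000000000) (nat_lit 0x0) (nat_lit 0x4000600000000000000) := D_45 (nat_lit 74) (nat_lit 57) (nat_lit 58) (nat_lit 7) (nat_lit 6) (nat_lit 3) (nat_lit 6) (nat_lit 6) (nat_lit 7) (by decide +kernel)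
theorem L123044 : W_45 (nat_lit 3) (nat_lit 0x1000000014001e000f000400008000000000000000000) (nat_lit 0x0) (nat_lit 0xc0004000600000000000000) := T_45 (nat_lit 91) (nat_lit 90) (nat_lit 0) (nat_lit 9) (nat_lit 6) L123043 (by decide +kernel)
theorem L123045 : W_45 (nat_lit 4) (nat_lit 0x1000000014001e000b000400008000000000000000000) (nat_lit 0x0) (nat_lit 0x40008c0004000600000000000000) := T_45 (nat_lit 110) (nat_lit 95) (nat_lit 2) (nat_lit 6) (nat_lit 6) L123044 (by decide +kernel)
theorem L123046 : W_45 (nat_lit 5) (nat_lit 0x1000000014001e000a000400008000000000000000000) (nat_lit 0x0) (nat_lit 0x58008c0004000600000000000000) := T_45 (nat_lit 108) (nat_lit 107) (nat_lit 0) (nat_lit 9) (nat_lit 7) L123045 (by decide +kernel)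
theorem L123047 : W_45 (nat_lit 6) (nat_lit 0x1000000014001e000a000000008000000000000000000) (nat_lit 0x0) (nat_lit 0x5800cc0024000600000000000000) := T_45 (nat_lit 94) (nat_lit 77) (nat_lit 5) (nat_lit 9) (nat_lit 4) L123046 (by decide +kernel)
theorem L123048 : W_45 (nat_lit 7) (nat_lit 0x1000000014001e0002000000008000000000000000000) (nat_lit 0x0) (nat_lit 0x1d800cc0024000600000000000000) := T_45 (nat_lit 111) (nat_lit 112) (nat_lit 2) (nat_lit 6) (nat_lit 7) L123047 (by decide +kernel)
theorem L123049 : W_45 (nat_lit 8) (nat_lit 0x14001e0002000000008000000000000000000) (nat_lit 0x0) (nat_lit 0x10000800000000001d800cc0024000600000000000000) := T_45 (nat_lit 176) (nat_lit 159) (nat_lit 6) (nat_lit 6) (nat_lit 10) L123048 (by decide +kernel)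
theorem L123050 : W_45 (nat_lit 9) (nat_lit 0x14001e0002000000000000000000000000000) (nat_lit 0x0) (nat_lit 0x10000800000000001d800dc002c000600000000000000) := T_45 (nat_lit 75) (nat_lit 92) (nat_lit 7) (nat_lit 7) (nat_lit 4) L123049 (by decide +kernel)
theorem L123051 : W_45 (nat_lit 10) (nat_lit 0x10001e0002000000000000000000000000000) (nat_lit 0x0) (nat_lit 0x10000800060000001d800dc002c000600000000000000) := T_45 (nat_lit 142) (nat_lit 141) (nat_lit 1) (nat_lit 9) (nat_lit 7) L123050 (by decide +kernel)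
theorem L123052 : W_45 (nat_lit 11) (nat_lit 0x10001e0000000000000000000000000000000) (nat_lit 0x0) (nat_lit 0x100008000e0000003fe01fe01ff800e00040000000000) := Q_45 (nat_lit 109) (C_45 L122150 (C_45 L122118 (C_45 L123042 (C_45 L123051 N_45)))) (by decide +kernel)
theorem L123053 : W_45 (nat_lit 12) (nat_lit 0x10001c0000000000000000000000000000000) (nat_lit 0x0) (nat_lit 0x100008000f0003c03ff01fe01ff800e00040000000000) := Q_45 (nat_lit 125) (C_45 L122944 (C_45 L123010 (C_45 L122949 (C_45 L123052 (C_45 L123002 N_45))))) (by decide +kernel)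
theorem L123054 : W_45 (nat_lit 13) (nat_lit 0x10000c0000000000000000000000000000000) (nat_lit 0x0) (nat_lit 0x110008801cf0073c03ff01fe01ff800e00040000000000) := Q_45 (nat_lit 128) (C_45 L123033 (C_45 L122907 (C_45 L123016 (C_45 L122924 (C_45 L123037 (C_45 L123053 (C_45 L123023 N_45))))))) (by decide +kernel)
theorem L123055 : W_45 (nat_lit 2) (nat_lit 0x100018000c0002000200000000000000000000000) (nat_lit 0x0) (nat_lit 0x100018000000000000000000) := D_45 (nat_lit 92) (nat_lit 76) (nat_lit 75) (nat_lit 6) (nat_lit 7) (nat_lit 8) (nat_lit 7) (nat_lit 7) (nat_lit 4) (by decide +kernel)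
theorem L123056 : W_45 (nat_lit 3) (nat_lit 0x100018000c0002000000000000000000000000000) (nat_lit 0x0) (nat_lit 0x4000300018000000000000000000) := T_45 (nat_lit 93) (nat_lit 110) (nat_lit 6) (nat_lit 7) (nat_lit 9) L123055 (by decide +kernel)
theorem L123057 : W_45 (nat_lit 2) (nat_lit 0x180018002c0003400000000000000000000000000) (nat_lit 0x0) (nat_lit 0x400000000000100008000000000000000000) := D_45 (nat_lit 92) (nat_lit 142) (nat_lit 75) (nat_lit 5) (nat_lit 7) (nat_lit 5) (nat_lit 7) (nat_lit 7) (nat_lit 4) (by decide +kernel)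
theorem L123058 : W_45 (nat_lit 3) (nat_lit 0x100018002c0003400000000000000000000000000) (nat_lit 0x0) (nat_lit 0x100008000400000000000100008000000000000000000) := T_45 (nat_lit 159) (nat_lit 176) (nat_lit 5) (nat_lit 7) (nat_lit 6) L123057 (by decide +kernel)
theorem L123059 : W_45 (nat_lit 4) (nat_lit 0x100018000c0003400000000000000000000000000) (nat_lit 0x0) (nat_lit 0x100008000400300000000100008000000000000000000) := T_45 (nat_lit 129) (nat_lit 128) (nat_lit 0) (nat_lit 10) (nat_lit 7) L123058 (by decide +kernel)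
theorem L123060 : W_45 (nat_lit 5) (nat_lit 0x100018000c0003000000000000000000000000000) (nat_lit 0x0) (nat_lit 0x100008000400300000c00100008000000000000000000) := T_45 (nat_lit 106) (nat_lit 107) (nat_lit 3) (nat_lit 4) (nat_lit 6) L123059 (by decide +kernel)
theorem L123061 : W_45 (nat_lit 6) (nat_lit 0x100018000c0002000000000000000000000000000) (nat_lit 0x0) (nat_lit 0x100008000400300001c00180008000000000000000000) := T_45 (nat_lit 108) (nat_lit 91) (nat_lit 4) (nat_lit 7) (nat_lit 9) L123060 (by decide +kernel)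
theorem L123062 : W_45 (nat_lit 7) (nat_lit 0x100018000c0000000000000000000000000000000) (nat_lit 0x0) (nat_lit 0x100008000400300007c00380018000000000000000000) := Q_45 (nat_lit 109) (C_45 L123056 (C_45 L122711 (C_45 L123061 N_45))) (by decide +kernel)
theorem L123063 : W_45 (nat_lit 8) (nat_lit 0x18000c0000000000000000000000000000000) (nat_lit 0x0) (nat_lit 0xe000f0001e000400300007c00380018000000000000000000) := Q_45 (nat_lit 160) (C_45 L122699 (C_45 L122435 (C_45 L123062 N_45))) (by decide +kernel)
theorem L123064 : W_45 (nat_lit 2) (nat_lit 0x1c001c0000000100000000000000000000000) (nat_lit 0x0) (nat_lit 0x8000000000002000000008000000000000000000) := D_45 (nat_lit 109) (nat_lit 75) (nat_lit 159) (nat_lit 7) (nat_lit 7) (nat_lit 4) (nat_lit 5) (nat_lit 7) (nat_lit 5) (by decide +kernel)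
theorem L123065 : W_45 (nat_lit 3) (nat_lit 0x18001c0000000100000000000000000000000) (nat_lit 0x0) (nat_lit 0x8000600000002000000008000000000000000000) := T_45 (nat_lit 142) (nat_lit 141) (nat_lit 2) (nat_lit 5) (nat_lit 8) L123064 (by decide +kernel)
theorem L123066 : W_45 (nat_lit 2) (nat_lit 0x18001c0000000300000000000000000000000) (nat_lit 0x0) (nat_lit 0x4000000018000000000000000000) := D_45 (nat_lit 110) (nat_lit 76) (nat_lit 75) (nat_lit 5) (nat_lit 8) (nat_lit 4) (nat_lit 4) (nat_lit 8) (nat_lit 8) (by decide +kernel)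
theorem L123067 : W_45 (nat_lit 2) (nat_lit 0x18001c0010000f80040000000000000000000) (nat_lit 0x0) (nat_lit 0xe000000000000000000) := D_45 (nat_lit 74) (nat_lit 75) (nat_lit 73) (nat_lit 0) (nat_lit 10) (nat_lit 5) (nat_lit 0) (nat_lit 9) (nat_lit 5) (by decide +kernel)
theorem L123068 : W_45 (nat_lit 3) (nat_lit 0x18001c0010000f00040000000000000000000) (nat_lit 0x0) (nat_lit 0x8002e000000000000000000) := T_45 (nat_lit 91) (nat_lit 77) (nat_lit 2) (nat_lit 6) (nat_lit 5) L123067 (by decide +kernel)
theorem L123069 : W_45 (nat_lit 4) (nat_lit 0x18001c0010000f00000000000000000000000) (nat_lit 0x0) (nat_lit 0x800ee000000000000000000) := T_45 (nat_lit 78) (nat_lit 79) (nat_lit 2) (nat_lit 7) (nat_lit 5) L123068 (by decide +kernel)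
theorem L123070 : W_45 (nat_lit 5) (nat_lit 0x18001c0000000f00000000000000000000000) (nat_lit 0x0) (nat_lit 0x300000800ee000000000000000000) := T_45 (nat_lit 112) (nat_lit 113) (nat_lit 3) (nat_lit 7) (nat_lit 5) L123069 (by decide +kernel)
theorem L123071 : W_45 (nat_lit 2) (nat_lit 0x1a001c0000001f00008000000000000000000) (nat_lit 0x0) (nat_lit 0x1c0000000000000000000) := D_45 (nat_lit 79) (nat_lit 78) (nat_lit 80) (nat_lit 2) (nat_lit 7) (nat_lit 5) (nat_lit 2) (nat_lit 8) (nat_lit 5) (by decide +kernel)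
theorem L123072 : W_45 (nat_lit 3) (nat_lit 0x1a001c0000000f00008000000000000000000) (nat_lit 0x0) (nat_lit 0x10001d0000000000000000000) := T_45 (nat_lit 96) (nat_lit 76) (nat_lit 0) (nat_lit 11) (nat_lit 5) L123071 (by decide +kernel)
theorem L123073 : W_45 (nat_lit 4) (nat_lit 0x18001c0000000f00008000000000000000000) (nat_lit 0x0) (nat_lit 0x6000000000010001d0000000000000000000) := T_45 (nat_lit 141) (nat_lit 142) (nat_lit 2) (nat_lit 5) (nat_lit 8) L123072 (by decide +kernel)
theorem L123074 : W_45 (nat_lit 5) (nat_lit 0x18001c0000000f00000000000000000000000) (nat_lit 0x0) (nat_lit 0x6000000000010001dc000000000000000000) := T_45 (nat_lit 75) (nat_lit 74) (nat_lit 0) (nat_lit 10) (nat_lit 5) L123073 (by decide +kernel)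
theorem L123075 : W_45 (nat_lit 2) (nat_lit 0x18001c00000007c0020000000000000000000) (nat_lit 0x0) (nat_lit 0x7000000000000000000) := D_45 (nat_lit 73) (nat_lit 74) (nat_lit 72) (nat_lit 0) (nat_lit 9) (nat_lit 5) (nat_lit 0) (nat_lit 8) (nat_lit 5) (by decide +kernel)
theorem L123076 : W_45 (nat_lit 3) (nat_lit 0x18001c0000000780020000000000000000000) (nat_lit 0x0) (nat_lit 0x40017000000000000000000) := T_45 (nat_lit 90) (nat_lit 76) (nat_lit 2) (nat_lit 5) (nat_lit 5) L123075 (by decide +kernel)
theorem L123077 : W_45 (nat_lit 4) (nat_lit 0x18001c0000000700020000000000000000000) (nat_lit 0x0) (nat_lit 0xc0057000000000000000000) := T_45 (nat_lit 91) (nat_lit 78) (nat_lit 2) (nat_lit 6) (nat_lit 5) L123076 (by decide +kernel)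
theorem L123078 : W_45 (nat_lit 5) (nat_lit 0x18001c0000000700000000000000000000000) (nat_lit 0x0) (nat_lit 0x80000c0077000000000000000000) := T_45 (nat_lit 77) (nat_lit 111) (nat_lit 5) (nat_lit 9) (nat_lit 4) L123077 (by decide +kernel)
theorem L123079 : W_45 (nat_lit 2) (nat_lit 0x18001c0010000f00078002000080000000000) (nat_lit 0x0) (nat_lit 0x10000c000000) := D_45 (nat_lit 44) (nat_lit 27) (nat_lit 26) (nat_lit 5) (nat_lit 10) (nat_lit 1) (nat_lit 4) (nat_lit 10) (nat_lit 5) (by decide +kernel)
theorem L123080 : W_45 (nat_lit 3) (nat_lit 0x18001c0010000f00078002000000000000000) (nat_lit 0x0) (nat_lit 0x100018000c000000) := T_45 (nat_lit 43) (nat_lit 60) (nat_lit 7) (nat_lit 9) (nat_lit 2) L123079 (by decide +kernel)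
theorem L123081 : W_45 (nat_lit 4) (nat_lit 0x18001c0010000f00078000000000000000000) (nat_lit 0x0) (nat_lit 0x700018000c000000) := T_45 (nat_lit 61) (nat_lit 62) (nat_lit 2) (nat_lit 7) (nat_lit 4) L123080 (by decide +kernel)
theorem L123082 : W_45 (nat_lit 5) (nat_lit 0x18001c0010000f00068000000000000000000) (nat_lit 0x0) (nat_lit 0x100001000700018000c000000) := T_45 (nat_lit 76) (nat_lit 96) (nat_lit 3) (nat_lit 7) (nat_lit 4) L123081 (by decide +kernel)
theorem L123083 : W_45 (nat_lit 6) (nat_lit 0x18001c0000000f00068000000000000000000) (nat_lit 0x0) (nat_lit 0x3000100001000700018000c000000) := T_45 (nat_lit 112) (nat_lit 113) (nat_lit 3) (nat_lit 7) (nat_lit 5) L123082 (by decide +kernel)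
theorem L123084 : W_45 (nat_lit 7) (nat_lit 0x18001c0000000f00060000000000000000000) (nat_lit 0x0) (nat_lit 0x3000100001c00700018000c000000) := T_45 (nat_lit 75) (nat_lit 74) (nat_lit 0) (nat_lit 10) (nat_lit 5) L123083 (by decide +kernel)
theorem L123085 : W_45 (nat_lit 8) (nat_lit 0x18001c0000000f00020000000000000000000) (nat_lit 0x0) (nat_lit 0x300010000dc00700018000c000000) := T_45 (nat_lit 78) (nat_lit 79) (nat_lit 2) (nat_lit 7) (nat_lit 5) L123084 (by decide +kernel)
theorem L123086 : W_45 (nat_lit 9) (nat_lit 0x18001c0000000f00000000000000000000000) (nat_lit 0x0) (nat_lit 0x380010000fc00700018000c000000) := T_45 (nat_lit 77) (nat_lit 111) (nat_lit 5) (nat_lit 9) (nat_lit 4) L123085 (by decide +kernel)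
theorem L123087 : W_45 (nat_lit 2) (nat_lit 0x18001c0018000f00000000000000000000000) (nat_lit 0x0) (nat_lit 0xc0002000000000000000) := D_45 (nat_lit 78) (nat_lit 79) (nat_lit 61) (nat_lit 2) (nat_lit 7) (nat_lit 5) (nat_lit 5) (nat_lit 10) (nat_lit 3) (by decide +kernel)
theorem L123088 : W_45 (nat_lit 3) (nat_lit 0x18001c0010000f00000000000000000000000) (nat_lit 0x0) (nat_lit 0x80000000e0002000000000000000) := T_45 (nat_lit 111) (nat_lit 77) (nat_lit 5) (nat_lit 9) (nat_lit 4) L123087 (by decide +kernel)
theorem L123089 : W_45 (nat_lit 4) (nat_lit 0x18001c0000000f00000000000000000000000) (nat_lit 0x0) (nat_lit 0x380000000e0002000000000000000) := T_45 (nat_lit 112) (nat_lit 113) (nat_lit 3) (nat_lit 7) (nat_lit 5) L123088 (by decide +kernel)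
theorem L123090 : W_45 (nat_lit 2) (nat_lit 0x18001c0000001f00028000000000000000000) (nat_lit 0x0) (nat_lit 0x70000000000000000000000000000) := D_45 (nat_lit 113) (nat_lit 112) (nat_lit 114) (nat_lit 3) (nat_lit 7) (nat_lit 5) (nat_lit 3) (nat_lit 8) (nat_lit 5) (by decide +kernel)
theorem L123091 : W_45 (nat_lit 3) (nat_lit 0x18001c0000000f00028000000000000000000) (nat_lit 0x0) (nat_lit 0x70001000010000000000000000000) := T_45 (nat_lit 96) (nat_lit 76) (nat_lit 0) (nat_lit 11) (nat_lit 5) L123090 (by decide +kernel)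
theorem L123092 : W_45 (nat_lit 4) (nat_lit 0x18001c0000000f00008000000000000000000) (nat_lit 0x0) (nat_lit 0x78001000030000000000000000000) := T_45 (nat_lit 77) (nat_lit 111) (nat_lit 5) (nat_lit 9) (nat_lit 4) L123091 (by decide +kernel)
theorem L123093 : W_45 (nat_lit 5) (nat_lit 0x18001c0000000f00000000000000000000000) (nat_lit 0x0) (nat_lit 0x7800100003c000000000000000000) := T_45 (nat_lit 75) (nat_lit 74) (nat_lit 0) (nat_lit 10) (nat_lit 5) L123092 (by decide +kernel)
theorem L123094 : W_45 (nat_lit 10) (nat_lit 0x18001c0000000700000000000000000000000) (nat_lit 0x0) (nat_lit 0x6000000780018001fc00700018000c000000) := Q_45 (nat_lit 95) (C_45 L123086 (C_45 L123074 (C_45 L123089 (C_45 L123093 N_45)))) (by decide +kernel)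
theorem L123095 : W_45 (nat_lit 2) (nat_lit 0x18001c0010000f80000000000000000000000) (nat_lit 0x0) (nat_lit 0xe000000000000000000) := D_45 (nat_lit 74) (nat_lit 75) (nat_lit 73) (nat_lit 0) (nat_lit 10) (nat_lit 5) (nat_lit 0) (nat_lit 9) (nat_lit 5) (by decide +kernel)
theorem L123096 : W_45 (nat_lit 3) (nat_lit 0x18001c0010000f00000000000000000000000) (nat_lit 0x0) (nat_lit 0x800008000e000000000000000000) := T_45 (nat_lit 91) (nat_lit 111) (nat_lit 3) (nat_lit 6) (nat_lit 5) L123095 (by decide +kernel)
theorem L123097 : W_45 (nat_lit 4) (nat_lit 0x18001c0000000f00000000000000000000000) (nat_lit 0x0) (nat_lit 0x3800008000e000000000000000000) := T_45 (nat_lit 112) (nat_lit 113) (nat_lit 3) (nat_lit 7) (nat_lit 5) L123096 (by decide +kernel)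
theorem L123098 : W_45 (nat_lit 2) (nat_lit 0x1a001c0010000f00040000000000000000000) (nat_lit 0x0) (nat_lit 0x8000080000002000000000000000) := D_45 (nat_lit 111) (nat_lit 91) (nat_lit 61) (nat_lit 3) (nat_lit 6) (nat_lit 5) (nat_lit 5) (nat_lit 10) (nat_lit 3) (by decide +kernel)
theorem L123099 : W_45 (nat_lit 3) (nat_lit 0x1a001c0000000f00040000000000000000000) (nat_lit 0x0) (nat_lit 0x38000080000002000000000000000) := T_45 (nat_lit 112) (nat_lit 113) (nat_lit 3) (nat_lit 7) (nat_lit 5) L123098 (by decide +kernel)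
theorem L123100 : W_45 (nat_lit 4) (nat_lit 0x18001c0000000f00040000000000000000000) (nat_lit 0x0) (nat_lit 0x600000038000080000002000000000000000) := T_45 (nat_lit 141) (nat_lit 142) (nat_lit 2) (nat_lit 5) (nat_lit 8) L123099 (by decide +kernel)
theorem L123101 : W_45 (nat_lit 5) (nat_lit 0x18001c0000000f00000000000000000000000) (nat_lit 0x0) (nat_lit 0x6000000380000800c0002000000000000000) := T_45 (nat_lit 78) (nat_lit 79) (nat_lit 2) (nat_lit 7) (nat_lit 5) L123100 (by decide +kernel)
theorem L123102 : W_45 (nat_lit 2) (nat_lit 0x1a001c0004003f00080000000000000000000) (nat_lit 0x0) (nat_lit 0xe0000000000000000000000000000) := D_45 (nat_lit 114) (nat_lit 113) (nat_lit 115) (nat_lit 3) (nat_lit 8) (nat_lit 5) (nat_lit 3) (nat_lit 9) (nat_lit 5) (by decide +kernel)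
theorem L123103 : W_45 (nat_lit 3) (nat_lit 0x1a001c0004001f00080000000000000000000) (nat_lit 0x0) (nat_lit 0xe8002000000000000000000000000) := T_45 (nat_lit 97) (nat_lit 111) (nat_lit 1) (nat_lit 12) (nat_lit 5) L123102 (by decide +kernel)
theorem L123104 : W_45 (nat_lit 4) (nat_lit 0x1a001c0004000f00080000000000000000000) (nat_lit 0x0) (nat_lit 0xe8003000100000000000000000000) := T_45 (nat_lit 96) (nat_lit 80) (nat_lit 2) (nat_lit 8) (nat_lit 5) L123103 (by decide +kernel)
theorem L123105 : W_45 (nat_lit 5) (nat_lit 0x18001c0004000f00080000000000000000000) (nat_lit 0x0) (nat_lit 0x6000000e8003000100000000000000000000) := T_45 (nat_lit 141) (nat_lit 142) (nat_lit 2) (nat_lit 5) (nat_lit 8) L123104 (by decide +kernel)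
theorem L123106 : W_45 (nat_lit 6) (nat_lit 0x18001c0004000f00000000000000000000000) (nat_lit 0x0) (nat_lit 0x6000000e80030001c0000000000000000000) := T_45 (nat_lit 79) (nat_lit 78) (nat_lit 2) (nat_lit 7) (nat_lit 5) L123105 (by decide +kernel)
theorem L123107 : W_45 (nat_lit 2) (nat_lit 0x18001c0000000300000000000000000000000) (nat_lit 0x0) (nat_lit 0x2000000018000000000000000000) := D_45 (nat_lit 109) (nat_lit 75) (nat_lit 76) (nat_lit 7) (nat_lit 7) (nat_lit 4) (nat_lit 6) (nat_lit 7) (nat_lit 8) (by decide +kernel)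
theorem L123108 : W_45 (nat_lit 2) (nat_lit 0x18001c0000000300000000000000000000000) (nat_lit 0x0) (nat_lit 0x6000000008000000000000000000) := D_45 (nat_lit 75) (nat_lit 109) (nat_lit 110) (nat_lit 7) (nat_lit 7) (nat_lit 4) (nat_lit 4) (nat_lit 8) (nat_lit 8) (by decide +kernel)
theorem L123109 : W_45 (nat_lit 2) (nat_lit 0x18001c0000000300000000000000000000000) (nat_lit 0x0) (nat_lit 0x6000000010000000000000000000) := D_45 (nat_lit 76) (nat_lit 110) (nat_lit 109) (nat_lit 5) (nat_lit 8) (nat_lit 4) (nat_lit 6) (nat_lit 7) (nat_lit 8) (by decide +kernel)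
theorem L123110 : W_45 (nat_lit 3) (nat_lit 0x18001c0000000100000000000000000000000) (nat_lit 0x0) (nat_lit 0x6000200018000000000000000000) := Q_45 (nat_lit 93) (C_45 L123066 (C_45 L123107 (C_45 L123108 (C_45 L123109 N_45)))) (by decide +kernel)
theorem L123111 : W_45 (nat_lit 2) (nat_lit 0x18001c0002000100000000000000000000000) (nat_lit 0x0) (nat_lit 0x8000600000000000000000000000000000000000) := D_45 (nat_lit 142) (nat_lit 141) (nat_lit 159) (nat_lit 2) (nat_lit 5) (nat_lit 8) (nat_lit 5) (nat_lit 7) (nat_lit 5) (by decide +kernel)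
theorem L123112 : W_45 (nat_lit 2) (nat_lit 0x18001c0000000600000000000000000000000) (nat_lit 0x0) (nat_lit 0x10000000000004000000020000000000000000000) := D_45 (nat_lit 110) (nat_lit 77) (nat_lit 160) (nat_lit 6) (nat_lit 8) (nat_lit 8) (nat_lit 5) (nat_lit 8) (nat_lit 5) (by decide +kernel)
theorem L123113 : W_45 (nat_lit 2) (nat_lit 0x18001c0000000700060000000000000000000) (nat_lit 0x0) (nat_lit 0x800180000000000000000000) := D_45 (nat_lit 79) (nat_lit 80) (nat_lit 95) (nat_lit 1) (nat_lit 12) (nat_lit 4) (nat_lit 2) (nat_lit 7) (nat_lit 5) (by decide +kernel)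
theorem L123114 : W_45 (nat_lit 3) (nat_lit 0x18001c0000000700020000000000000000000) (nat_lit 0x0) (nat_lit 0x8801c0000000000000000000) := T_45 (nat_lit 78) (nat_lit 91) (nat_lit 2) (nat_lit 6) (nat_lit 5) L123113 (by decide +kernel)
theorem L123115 : W_45 (nat_lit 4) (nat_lit 0x18001c0000000700000000000000000000000) (nat_lit 0x0) (nat_lit 0x80008801e0000000000000000000) := T_45 (nat_lit 77) (nat_lit 111) (nat_lit 5) (nat_lit 9) (nat_lit 4) L123114 (by decide +kernel)
theorem L123116 : W_45 (nat_lit 2) (nat_lit 0x1a001c0018000700000000000000000000000) (nat_lit 0x0) (nat_lit 0x60000800000000000000000000000) := D_45 (nat_lit 113) (nat_lit 114) (nat_lit 95) (nat_lit 1) (nat_lit 12) (nat_lit 6) (nat_lit 3) (nat_lit 7) (nat_lit 5) (by decide +kernel)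
theorem L123117 : W_45 (nat_lit 2) (nat_lit 0x1c001c0000000700060000000000000000000) (nat_lit 0x0) (nat_lit 0x800180000000000000000000) := D_45 (nat_lit 79) (nat_lit 80) (nat_lit 95) (nat_lit 1) (nat_lit 12) (nat_lit 4) (nat_lit 2) (nat_lit 7) (nat_lit 5) (by decide +kernel)
theorem L123118 : W_45 (nat_lit 7) (nat_lit 0x4001a001d0000000000000000000000000000000) (nat_lit 0x0) (nat_lit 0x200030001c000a000100008000c00060001000000000000000000) := Q_45 (nat_lit 107) (C_45 L122482 (C_45 L122470 (C_45 L122477 N_45))) (by decide +kernel)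
theorem L123119 : W_45 (nat_lit 2) (nat_lit 0x1c000c0034000600000000000000000000000) (nat_lit 0x0) (nat_lit 0x900008000000000000000000) := D_45 (nat_lit 92) (nat_lit 95) (nat_lit 75) (nat_lit 3) (nat_lit 7) (nat_lit 5) (nat_lit 4) (nat_lit 8) (nat_lit 8) (by decide +kernel)
theorem L123120 : W_45 (nat_lit 3) (nat_lit 0x1c000c0034000200000000000000000000000) (nat_lit 0x0) (nat_lit 0xd00028000000000000000000) := T_45 (nat_lit 94) (nat_lit 77) (nat_lit 6) (nat_lit 8) (nat_lit 8) L123119 (by decide +kernel)
theorem L123121 : W_45 (nat_lit 2) (nat_lit 0x2000100004001e000c0004000000000000000000000000000) (nat_lit 0x0) (nat_lit 0x80000000000018000000000000000000000000000000) := D_45 (nat_lit 124) (nat_lit 123) (nat_lit 175) (nat_lit 0) (nat_lit 8) (nat_lit 8) (nat_lit 7) (nat_lit 5) (nat_lit 7) (by decide +kernel)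
theorem L123122 : W_45 (nat_lit 3) (nat_lit 0x2000100000001e000c0004000000000000000000000000000) (nat_lit 0x0) (nat_lit 0x80006000000018000000000000000000000000000000) := T_45 (nat_lit 158) (nat_lit 157) (nat_lit 1) (nat_lit 8) (nat_lit 8) L123121 (by decide +kernel)
theorem L123123 : W_45 (nat_lit 2) (nat_lit 0x18000c0006000700000000000000000000000) (nat_lit 0x0) (nat_lit 0x1800800000000000000000000000) := D_45 (nat_lit 108) (nat_lit 107) (nat_lit 95) (nat_lit 2) (nat_lit 5) (nat_lit 6) (nat_lit 1) (nat_lit 10) (nat_lit 5) (by decide +kernel)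
theorem L123124 : W_45 (nat_lit 3) (nat_lit 0x18000c0006000300000000000000000000000) (nat_lit 0x0) (nat_lit 0x1800c00020000000000000000000) := T_45 (nat_lit 94) (nat_lit 77) (nat_lit 6) (nat_lit 8) (nat_lit 8) L123123 (by decide +kernel)
theorem L123125 : W_45 (nat_lit 4) (nat_lit 0x18000c0002000300000000000000000000000) (nat_lit 0x0) (nat_lit 0x10000000000005800c00020000000000000000000) := T_45 (nat_lit 110) (nat_lit 160) (nat_lit 6) (nat_lit 7) (nat_lit 9) L123124 (by decide +kernel)
theorem L123126 : W_45 (nat_lit 5) (nat_lit 0x18000c0002000100000000000000000000000) (nat_lit 0x0) (nat_lit 0x10000000000005800e00030000000000000000000) := T_45 (nat_lit 93) (nat_lit 76) (nat_lit 6) (nat_lit 7) (nat_lit 8) L123125 (by decide +kernel)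
theorem L123127 : W_45 (nat_lit 6) (nat_lit 0x18000c0002000000000000000000000000000) (nat_lit 0x0) (nat_lit 0x10000000000005800f00038000000000000000000) := T_45 (nat_lit 92) (nat_lit 75) (nat_lit 7) (nat_lit 7) (nat_lit 4) L123126 (by decide +kernel)
theorem L123128 : W_45 (nat_lit 2) (nat_lit 0x1c000c0002000100000000000000000000000) (nat_lit 0x0) (nat_lit 0x300100000000000000000000000000000000) := D_45 (nat_lit 141) (nat_lit 128) (nat_lit 140) (nat_lit 2) (nat_lit 5) (nat_lit 8) (nat_lit 2) (nat_lit 4) (nat_lit 8) (by decide +kernel)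
theorem L123129 : W_45 (nat_lit 3) (nat_lit 0x18000c0002000100000000000000000000000) (nat_lit 0x0) (nat_lit 0x8000700100000000000000000000000000000000) := T_45 (nat_lit 142) (nat_lit 159) (nat_lit 5) (nat_lit 7) (nat_lit 5) L123128 (by decide +kernel)
theorem L123130 : W_45 (nat_lit 4) (nat_lit 0x18000c0002000000000000000000000000000) (nat_lit 0x0) (nat_lit 0x8000700100000000100008000000000000000000) := T_45 (nat_lit 92) (nat_lit 75) (nat_lit 7) (nat_lit 7) (nat_lit 4) L123129 (by decide +kernel)
theorem L123131 : W_45 (nat_lit 2) (nat_lit 0x100018000c0002000000000000000000000000000) (nat_lit 0x0) (nat_lit 0x4000200000000000000004000000000000000000000000000) := D_45 (nat_lit 177) (nat_lit 194) (nat_lit 110) (nat_lit 6) (nat_lit 7) (nat_lit 11) (nat_lit 6) (nat_lit 7) (nat_lit 10) (by decide +kernel)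
theorem L123132 : W_45 (nat_lit 2) (nat_lit 0x2000100018000c0002000000000000000000000000000) (nat_lit 0x0) (nat_lit 0x2000100008000000000000000000000000000000000000000) := D_45 (nat_lit 176) (nat_lit 159) (nat_lit 193) (nat_lit 5) (nat_lit 7) (nat_lit 6) (nat_lit 5) (nat_lit 7) (nat_lit 7) (by decide +kernel)
theorem L123133 : W_45 (nat_lit 3) (nat_lit 0x100018000c0002000000000000000000000000000) (nat_lit 0x0) (nat_lit 0x6000300008000000000000000000000000000000000000000) := T_45 (nat_lit 177) (nat_lit 194) (nat_lit 6) (nat_lit 7) (nat_lit 11) L123132 (by decide +kernel)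
theorem L123134 : W_45 (nat_lit 3) (nat_lit 0x10001c0002000000000000000000000000000) (nat_lit 0x0) (nat_lit 0x800600005000000000000000000000000000) := T_45 (nat_lit 129) (nat_lit 108) (nat_lit 0) (nat_lit 10) (nat_lit 7) L122842 (by decide +kernel)
theorem L123135 : W_45 (nat_lit 2) (nat_lit 0x10001c000e000100000000000000000000000) (nat_lit 0x0) (nat_lit 0x30000080000000000000000000000) := D_45 (nat_lit 112) (nat_lit 113) (nat_lit 91) (nat_lit 1) (nat_lit 11) (nat_lit 6) (nat_lit 0) (nat_lit 10) (nat_lit 6) (by decide +kernel)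
theorem L123136 : W_45 (nat_lit 2) (nat_lit 0x10007c0012000000008000000000000000000) (nat_lit 0x0) (nat_lit 0x1c000000000000000000000000000000000000) := D_45 (nat_lit 147) (nat_lit 146) (nat_lit 148) (nat_lit 3) (nat_lit 7) (nat_lit 7) (nat_lit 3) (nat_lit 8) (nat_lit 7) (by decide +kernel)
theorem L123137 : W_45 (nat_lit 3) (nat_lit 0x10003c0012000000008000000000000000000) (nat_lit 0x0) (nat_lit 0x1c000400004000000000000000000000000000) := T_45 (nat_lit 130) (nat_lit 110) (nat_lit 0) (nat_lit 11) (nat_lit 7) L123136 (by decide +kernel)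
theorem L123138 : W_45 (nat_lit 4) (nat_lit 0x10003c0002000000008000000000000000000) (nat_lit 0x0) (nat_lit 0x1c000400034000000000000000000000000000) := T_45 (nat_lit 112) (nat_lit 113) (nat_lit 2) (nat_lit 7) (nat_lit 7) L123137 (by decide +kernel)
theorem L123139 : W_45 (nat_lit 5) (nat_lit 0x10003c0002000000000000000000000000000) (nat_lit 0x0) (nat_lit 0x1c000400034000100008000000000000000000) := T_45 (nat_lit 75) (nat_lit 92) (nat_lit 7) (nat_lit 7) (nat_lit 4) L123138 (by decide +kernel)
theorem L123140 : W_45 (nat_lit 2) (nat_lit 0x10003c0002000000008000000000000000000) (nat_lit 0x0) (nat_lit 0xc00400000000000000000000000000000000) := D_45 (nat_lit 143) (nat_lit 142) (nat_lit 130) (nat_lit 1) (nat_lit 10) (nat_lit 7) (nat_lit 1) (nat_lit 11) (nat_lit 7) (by decide +kernel)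
theorem L123141 : W_45 (nat_lit 3) (nat_lit 0x10001c0002000000008000000000000000000) (nat_lit 0x0) (nat_lit 0xc00600001000000000000000000000000000) := T_45 (nat_lit 129) (nat_lit 108) (nat_lit 0) (nat_lit 10) (nat_lit 7) L123140 (by decide +kernel)
theorem L123142 : W_45 (nat_lit 4) (nat_lit 0x10001c0002000000000000000000000000000) (nat_lit 0x0) (nat_lit 0xc00600001000100008000000000000000000) := T_45 (nat_lit 75) (nat_lit 92) (nat_lit 7) (nat_lit 7) (nat_lit 4) L123141 (by decide +kernel)
theorem L123143 : W_45 (nat_lit 6) (nat_lit 0x10001c0002000000000000000000000000000) (nat_lit 0x0) (nat_lit 0x1c000600035000100008000000000000000000) := T_45 (nat_lit 129) (nat_lit 108) (nat_lit 0) (nat_lit 10) (nat_lit 7) L123139 (by decide +kernel)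
theorem L123144 : W_45 (nat_lit 2) (nat_lit 0x10000c0006000200000000000000000000000) (nat_lit 0x0) (nat_lit 0x800000000000000010000800000000000000) := D_45 (nat_lit 76) (nat_lit 59) (nat_lit 143) (nat_lit 5) (nat_lit 8) (nat_lit 3) (nat_lit 5) (nat_lit 8) (nat_lit 4) (by decide +kernel)
theorem L123145 : W_45 (nat_lit 2) (nat_lit 0x10000c0007000600008000000000000000000) (nat_lit 0x0) (nat_lit 0x8001800000000000000000000000) := D_45 (nat_lit 95) (nat_lit 96) (nat_lit 111) (nat_lit 1) (nat_lit 11) (nat_lit 5) (nat_lit 2) (nat_lit 6) (nat_lit 6) (by decide +kernel)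
theorem L123146 : W_45 (nat_lit 3) (nat_lit 0x10000c0006000600008000000000000000000) (nat_lit 0x0) (nat_lit 0x9801800000000000000000000000) := T_45 (nat_lit 108) (nat_lit 107) (nat_lit 2) (nat_lit 5) (nat_lit 6) L123145 (by decide +kernel)
theorem L123147 : W_45 (nat_lit 4) (nat_lit 0x10000c0006000200008000000000000000000) (nat_lit 0x0) (nat_lit 0x9801c00020000000000000000000) := T_45 (nat_lit 94) (nat_lit 77) (nat_lit 6) (nat_lit 8) (nat_lit 8) L123146 (by decide +kernel)
theorem L123148 : W_45 (nat_lit 5) (nat_lit 0x10000c0006000200000000000000000000000) (nat_lit 0x0) (nat_lit 0x9801d00028000000000000000000) := T_45 (nat_lit 75) (nat_lit 92) (nat_lit 7) (nat_lit 7) (nat_lit 4) L123147 (by decide +kernel)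
theorem L123149 : W_45 (nat_lit 6) (nat_lit 0x10000c0006000000000000000000000000000) (nat_lit 0x0) (nat_lit 0x800000009801f00038000800000000000000) := Q_45 (nat_lit 93) (C_45 L123144 (C_45 L123148 N_45)) (by decide +kernel)
theorem L123150 : W_45 (nat_lit 2) (nat_lit 0x10000c0006000700000000000000000000000) (nat_lit 0x0) (nat_lit 0x1800800000000000000000000000) := D_45 (nat_lit 108) (nat_lit 107) (nat_lit 95) (nat_lit 2) (nat_lit 5) (nat_lit 6) (nat_lit 1) (nat_lit 10) (nat_lit 5) (by decide +kernel)
theorem L123151 : W_45 (nat_lit 3) (nat_lit 0x10000c0006000300000000000000000000000) (nat_lit 0x0) (nat_lit 0x1800c00020000000000000000000) := T_45 (nat_lit 94) (nat_lit 77) (nat_lit 6) (nat_lit 8) (nat_lit 8) L123150 (by decide +kernel)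
theorem L123152 : W_45 (nat_lit 4) (nat_lit 0x10000c0006000200000000000000000000000) (nat_lit 0x0) (nat_lit 0x1800d00028000000000000000000) := T_45 (nat_lit 92) (nat_lit 75) (nat_lit 7) (nat_lit 7) (nat_lit 4) L123151 (by decide +kernel)
theorem L123153 : W_45 (nat_lit 5) (nat_lit 0x10000c0006000000000000000000000000000) (nat_lit 0x0) (nat_lit 0x800000001800f00038000800000000000000) := Q_45 (nat_lit 93) (C_45 L123144 (C_45 L123152 N_45)) (by decide +kernel)
theorem L123154 : W_45 (nat_lit 2) (nat_lit 0x18000c0006000380000000000000000000000) (nat_lit 0x0) (nat_lit 0x8000060000000000000000000000) := D_45 (nat_lit 90) (nat_lit 111) (nat_lit 89) (nat_lit 3) (nat_lit 5) (nat_lit 5) (nat_lit 3) (nat_lit 4) (nat_lit 5) (by decide +kernel)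
theorem L123155 : W_45 (nat_lit 3) (nat_lit 0x18000c0006000300000000000000000000000) (nat_lit 0x0) (nat_lit 0x80000e0004000000000000000000) := T_45 (nat_lit 91) (nat_lit 74) (nat_lit 4) (nat_lit 7) (nat_lit 8) L123154 (by decide +kernel)
theorem L123156 : W_45 (nat_lit 4) (nat_lit 0x10000c0006000300000000000000000000000) (nat_lit 0x0) (nat_lit 0x100008000000080000e0004000000000000000000) := T_45 (nat_lit 143) (nat_lit 160) (nat_lit 6) (nat_lit 7) (nat_lit 9) L123155 (by decide +kernel)
theorem L123157 : W_45 (nat_lit 5) (nat_lit 0x10000c0006000200000000000000000000000) (nat_lit 0x0) (nat_lit 0x100008000000080001e000c000000000000000000) := T_45 (nat_lit 92) (nat_lit 75) (nat_lit 7) (nat_lit 7) (nat_lit 4) L123156 (by decide +kernel)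
theorem L123158 : W_45 (nat_lit 2) (nat_lit 0x10000c0006000200008000000000000000000) (nat_lit 0x0) (nat_lit 0x10000c00000000000000) := D_45 (nat_lit 76) (nat_lit 58) (nat_lit 59) (nat_lit 4) (nat_lit 8) (nat_lit 7) (nat_lit 5) (nat_lit 8) (nat_lit 3) (by decide +kernel)
theorem L123159 : W_45 (nat_lit 3) (nat_lit 0x10000c0006000200000000000000000000000) (nat_lit 0x0) (nat_lit 0x100018000c00000000000000) := T_45 (nat_lit 75) (nat_lit 92) (nat_lit 7) (nat_lit 7) (nat_lit 4) L123158 (by decide +kernel)
theorem L123160 : W_45 (nat_lit 6) (nat_lit 0x10000c0006000000000000000000000000000) (nat_lit 0x0) (nat_lit 0x100008000000080003e001c000c00000000000000) := Q_45 (nat_lit 93) (C_45 L123144 (C_45 L123157 (C_45 L123159 N_45))) (by decide +kernel)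
theorem L123161 : W_45 (nat_lit 2) (nat_lit 0x10000c0007000000000000000000000000000) (nat_lit 0x0) (nat_lit 0x300000800000000000000000000000000) := D_45 (nat_lit 128) (nat_lit 129) (nat_lit 107) (nat_lit 0) (nat_lit 10) (nat_lit 7) (nat_lit 3) (nat_lit 5) (nat_lit 6) (by decide +kernel)
theorem L123162 : W_45 (nat_lit 2) (nat_lit 0x10000d001f800040008000000000000000000) (nat_lit 0x0) (nat_lit 0x1c00000000000000000000000) := D_45 (nat_lit 95) (nat_lit 94) (nat_lit 96) (nat_lit 2) (nat_lit 6) (nat_lit 6) (nat_lit 2) (nat_lit 7) (nat_lit 6) (by decide +kernel)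
theorem L123163 : W_45 (nat_lit 3) (nat_lit 0x10000d000f800040008000000000000000000) (nat_lit 0x0) (nat_lit 0x30001c00000000000000000000000) := T_45 (nat_lit 112) (nat_lit 113) (nat_lit 1) (nat_lit 11) (nat_lit 6) L123162 (by decide +kernel)
theorem L123164 : W_45 (nat_lit 4) (nat_lit 0x10000d0007800040008000000000000000000) (nat_lit 0x0) (nat_lit 0x38001c80000000000000000000000) := T_45 (nat_lit 111) (nat_lit 91) (nat_lit 0) (nat_lit 9) (nat_lit 6) L123163 (by decide +kernel)
theorem L123165 : W_45 (nat_lit 5) (nat_lit 0x10000d0007800000008000000000000000000) (nat_lit 0x0) (nat_lit 0x38001ce0000000000000000000000) := T_45 (nat_lit 90) (nat_lit 89) (nat_lit 0) (nat_lit 8) (nat_lit 6) L123164 (by decide +kernel)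
theorem L123166 : W_45 (nat_lit 6) (nat_lit 0x10000c0007800000008000000000000000000) (nat_lit 0x0) (nat_lit 0x18038001ce0000000000000000000000) := T_45 (nat_lit 124) (nat_lit 123) (nat_lit 1) (nat_lit 8) (nat_lit 6) L123165 (by decide +kernel)
theorem L123167 : W_45 (nat_lit 7) (nat_lit 0x10000c0007000000008000000000000000000) (nat_lit 0x0) (nat_lit 0x18038c01ce0000000000000000000000) := T_45 (nat_lit 107) (nat_lit 106) (nat_lit 3) (nat_lit 4) (nat_lit 6) L123166 (by decide +kernel)
theorem L123168 : W_45 (nat_lit 8) (nat_lit 0x10000c0007000000000000000000000000000) (nat_lit 0x0) (nat_lit 0x18038c01de0008000000000000000000) := T_45 (nat_lit 75) (nat_lit 92) (nat_lit 7) (nat_lit 7) (nat_lit 4) L123167 (by decide +kernel)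
theorem L123169 : W_45 (nat_lit 2) (nat_lit 0x10002c000f000480004001000000000000000) (nat_lit 0x0) (nat_lit 0x10000800000000000100000000000000000000000) := D_45 (nat_lit 143) (nat_lit 160) (nat_lit 92) (nat_lit 4) (nat_lit 7) (nat_lit 9) (nat_lit 4) (nat_lit 7) (nat_lit 8) (by decide +kernel)
theorem L123170 : W_45 (nat_lit 3) (nat_lit 0x10002c000f000480000001000000000000000) (nat_lit 0x0) (nat_lit 0x10000800000000000100004000200000000000000) := T_45 (nat_lit 74) (nat_lit 57) (nat_lit 7) (nat_lit 6) (nat_lit 3) L123169 (by decide +kernel)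
theorem L123171 : W_45 (nat_lit 4) (nat_lit 0x10002c000f000480000000000000000000000) (nat_lit 0x0) (nat_lit 0x10000800000000000100024001200000000000000) := T_45 (nat_lit 60) (nat_lit 77) (nat_lit 5) (nat_lit 9) (nat_lit 3) L123170 (by decide +kernel)
theorem L123172 : W_45 (nat_lit 5) (nat_lit 0x10002c000f000400000000000000000000000) (nat_lit 0x0) (nat_lit 0x100008000000000001c0024001200000000000000) := T_45 (nat_lit 91) (nat_lit 90) (nat_lit 0) (nat_lit 9) (nat_lit 6) L123171 (by decide +kernel)
theorem L123173 : W_45 (nat_lit 6) (nat_lit 0x10002c000f000000000000000000000000000) (nat_lit 0x0) (nat_lit 0x10000800000000000dc0024001200000000000000) := T_45 (nat_lit 94) (nat_lit 95) (nat_lit 2) (nat_lit 6) (nat_lit 6) L123172 (by decide +kernel)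
theorem L123174 : W_45 (nat_lit 7) (nat_lit 0x10000c000f000000000000000000000000000) (nat_lit 0x0) (nat_lit 0x10000800300000000dc0024001200000000000000) := T_45 (nat_lit 129) (nat_lit 128) (nat_lit 3) (nat_lit 6) (nat_lit 6) L123173 (by decide +kernel)
theorem L123175 : W_45 (nat_lit 2) (nat_lit 0x10000c000f000080000000000000000000000) (nat_lit 0x0) (nat_lit 0x30000100000000000000000000000) := D_45 (nat_lit 112) (nat_lit 113) (nat_lit 92) (nat_lit 1) (nat_lit 11) (nat_lit 6) (nat_lit 0) (nat_lit 10) (nat_lit 6) (by decide +kernel)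
theorem L123176 : W_45 (nat_lit 3) (nat_lit 0x10000c000f000000000000000000000000000) (nat_lit 0x0) (nat_lit 0x300001c0000000000000000000000) := T_45 (nat_lit 91) (nat_lit 90) (nat_lit 0) (nat_lit 9) (nat_lit 6) L123175 (by decide +kernel)
theorem L123177 : W_45 (nat_lit 2) (nat_lit 0x10001c002f000000000000000000000000000) (nat_lit 0x0) (nat_lit 0xc00020000000000000000000) := D_45 (nat_lit 94) (nat_lit 77) (nat_lit 95) (nat_lit 5) (nat_lit 9) (nat_lit 4) (nat_lit 2) (nat_lit 6) (nat_lit 6) (by decide +kernel)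
theorem L123178 : W_45 (nat_lit 3) (nat_lit 0x10000c002f000000000000000000000000000) (nat_lit 0x0) (nat_lit 0x300000000c00020000000000000000000) := T_45 (nat_lit 128) (nat_lit 129) (nat_lit 3) (nat_lit 6) (nat_lit 6) L123177 (by decide +kernel)
theorem L123179 : W_45 (nat_lit 4) (nat_lit 0x10000c000f000000000000000000000000000) (nat_lit 0x0) (nat_lit 0x300030000c00020000000000000000000) := T_45 (nat_lit 113) (nat_lit 112) (nat_lit 1) (nat_lit 11) (nat_lit 6) L123178 (by decide +kernel)
theorem L123180 : W_45 (nat_lit 8) (nat_lit 0x10000c0007000000000000000000000000000) (nat_lit 0x0) (nat_lit 0x10000800300038000dc0024001200000000000000) := Q_45 (nat_lit 111) (C_45 L123174 (C_45 L123176 (C_45 L123179 N_45))) (by decide +kernel)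
theorem L123181 : W_45 (nat_lit 9) (nat_lit 0x10000c0006000000000000000000000000000) (nat_lit 0x0) (nat_lit 0x10000800318039c01de002c001200000000000000) := Q_45 (nat_lit 108) (C_45 L123161 (C_45 L123168 (C_45 L123180 N_45))) (by decide +kernel)
theorem L123182 : W_45 (nat_lit 2) (nat_lit 0x100010000c0007000600000000000000000000000) (nat_lit 0x0) (nat_lit 0x8001800000000000000000000000) := D_45 (nat_lit 95) (nat_lit 96) (nat_lit 111) (nat_lit 1) (nat_lit 11) (nat_lit 5) (nat_lit 2) (nat_lit 6) (nat_lit 6) (by decide +kernel)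
theorem L123183 : W_45 (nat_lit 3) (nat_lit 0x100010000c0006000600000000000000000000000) (nat_lit 0x0) (nat_lit 0x9801800000000000000000000000) := T_45 (nat_lit 108) (nat_lit 107) (nat_lit 2) (nat_lit 5) (nat_lit 6) L123182 (by decide +kernel)
theorem L123184 : W_45 (nat_lit 4) (nat_lit 0x100010000c0006000200000000000000000000000) (nat_lit 0x0) (nat_lit 0x9801c00020000000000000000000) := T_45 (nat_lit 94) (nat_lit 77) (nat_lit 6) (nat_lit 8) (nat_lit 8) L123183 (by decide +kernel)
theorem L123185 : W_45 (nat_lit 5) (nat_lit 0x10000c0006000200000000000000000000000) (nat_lit 0x0) (nat_lit 0x10000800000009801c00020000000000000000000) := T_45 (nat_lit 160) (nat_lit 143) (nat_lit 6) (nat_lit 7) (nat_lit 9) L123184 (by decide +kernel)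
theorem L123186 : W_45 (nat_lit 2) (nat_lit 0x10000c0007000600000000000000000000000) (nat_lit 0x0) (nat_lit 0x8001800000000000000000000000) := D_45 (nat_lit 95) (nat_lit 96) (nat_lit 111) (nat_lit 1) (nat_lit 11) (nat_lit 5) (nat_lit 2) (nat_lit 6) (nat_lit 6) (by decide +kernel)
theorem L123187 : W_45 (nat_lit 3) (nat_lit 0x10000c0006000600000000000000000000000) (nat_lit 0x0) (nat_lit 0x9801800000000000000000000000) := T_45 (nat_lit 108) (nat_lit 107) (nat_lit 2) (nat_lit 5) (nat_lit 6) L123186 (by decide +kernel)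
theorem L123188 : W_45 (nat_lit 4) (nat_lit 0x10000c0006000200000000000000000000000) (nat_lit 0x0) (nat_lit 0x9801c00020000000000000000000) := T_45 (nat_lit 94) (nat_lit 77) (nat_lit 6) (nat_lit 8) (nat_lit 8) L123187 (by decide +kernel)
theorem L123189 : W_45 (nat_lit 6) (nat_lit 0x10000c0006000000000000000000000000000) (nat_lit 0x0) (nat_lit 0x10000800000009801e00030000800000000000000) := Q_45 (nat_lit 93) (C_45 L123144 (C_45 L123185 (C_45 L123188 N_45))) (by decide +kernel)
theorem L123190 : W_45 (nat_lit 2) (nat_lit 0x10000c0007000200008000000000000000000) (nat_lit 0x0) (nat_lit 0x10000c00000000000000) := D_45 (nat_lit 76) (nat_lit 58) (nat_lit 59) (nat_lit 4) (nat_lit 8) (nat_lit 7) (nat_lit 5) (nat_lit 8) (nat_lit 3) (by decide +kernel)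
theorem L123191 : W_45 (nat_lit 3) (nat_lit 0x10000c0007000200000000000000000000000) (nat_lit 0x0) (nat_lit 0x100018000c00000000000000) := T_45 (nat_lit 75) (nat_lit 92) (nat_lit 7) (nat_lit 7) (nat_lit 4) L123190 (by decide +kernel)
theorem L123192 : W_45 (nat_lit 3) (nat_lit 0x10000c0007000200000000000000000000000) (nat_lit 0x0) (nat_lit 0x8001c00020000000000000000000) := T_45 (nat_lit 94) (nat_lit 77) (nat_lit 6) (nat_lit 8) (nat_lit 8) L123186 (by decide +kernel)
theorem L123193 : W_45 (nat_lit 4) (nat_lit 0x10000c0007000000000000000000000000000) (nat_lit 0x0) (nat_lit 0x8001f00038000c00000000000000) := Q_45 (nat_lit 93) (C_45 L123191 (C_45 L123192 N_45)) (by decide +kernel)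
theorem L123194 : W_45 (nat_lit 9) (nat_lit 0x10000c0006000000000000000000000000000) (nat_lit 0x0) (nat_lit 0x318039c01fe0038000c00000000000000) := Q_45 (nat_lit 108) (C_45 L123168 (C_45 L123161 (C_45 L123193 N_45))) (by decide +kernel)
theorem L123195 : W_45 (nat_lit 10) (nat_lit 0x10000c0002000000000000000000000000000) (nat_lit 0x0) (nat_lit 0x1000080031803dc01fe003c001e00000000000000) := Q_45 (nat_lit 110) (C_45 L123149 (C_45 L123153 (C_45 L123160 (C_45 L123181 (C_45 L123189 (C_45 L123194 N_45)))))) (by decide +kernel)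
theorem L123196 : W_45 (nat_lit 4) (nat_lit 0x18000c0002000300000000000000000000000) (nat_lit 0x0) (nat_lit 0x1000000000000c0000e0004000000000000000000) := T_45 (nat_lit 110) (nat_lit 160) (nat_lit 6) (nat_lit 7) (nat_lit 9) L123155 (by decide +kernel)
theorem L123197 : W_45 (nat_lit 5) (nat_lit 0x18000c0002000100000000000000000000000) (nat_lit 0x0) (nat_lit 0x1000000000000c0002e0014000000000000000000) := T_45 (nat_lit 93) (nat_lit 76) (nat_lit 6) (nat_lit 7) (nat_lit 8) L123196 (by decide +kernel)
theorem L123198 : W_45 (nat_lit 6) (nat_lit 0x18000c0002000000000000000000000000000) (nat_lit 0x0) (nat_lit 0x1000000000000c0003e001c000000000000000000) := T_45 (nat_lit 92) (nat_lit 75) (nat_lit 7) (nat_lit 7) (nat_lit 4) L123197 (by decide +kernel)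
theorem L123199 : W_45 (nat_lit 2) (nat_lit 0x1e000c0003800180000000000000000000000) (nat_lit 0x0) (nat_lit 0x6000000010000000000000000000000000000000) := D_45 (nat_lit 158) (nat_lit 157) (nat_lit 124) (nat_lit 1) (nat_lit 8) (nat_lit 8) (nat_lit 6) (nat_lit 5) (nat_lit 9) (by decide +kernel)
theorem L123200 : W_45 (nat_lit 3) (nat_lit 0x1c000c0003800180000000000000000000000) (nat_lit 0x0) (nat_lit 0x6000300010000000000000000000000000000000) := T_45 (nat_lit 141) (nat_lit 140) (nat_lit 2) (nat_lit 4) (nat_lit 8) L123199 (by decide +kernel)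
theorem L123201 : W_45 (nat_lit 4) (nat_lit 0x18000c0003800180000000000000000000000) (nat_lit 0x0) (nat_lit 0xe000700010000000000000000000000000000000) := T_45 (nat_lit 142) (nat_lit 159) (nat_lit 5) (nat_lit 7) (nat_lit 5) L123200 (by decide +kernel)
theorem L123202 : W_45 (nat_lit 5) (nat_lit 0x18000c0003000180000000000000000000000) (nat_lit 0x0) (nat_lit 0xe000700010000c00000000000000000000000000) := T_45 (nat_lit 107) (nat_lit 106) (nat_lit 3) (nat_lit 4) (nat_lit 6) L123201 (by decide +kernel)
theorem L123203 : W_45 (nat_lit 6) (nat_lit 0x10000c0003000180000000000000000000000) (nat_lit 0x0) (nat_lit 0x1e000f00010000c00000000000000000000000000) := T_45 (nat_lit 143) (nat_lit 160) (nat_lit 4) (nat_lit 7) (nat_lit 9) L123202 (by decide +kernel)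
theorem L123204 : W_45 (nat_lit 7) (nat_lit 0x10000c0003000080000000000000000000000) (nat_lit 0x0) (nat_lit 0x1e000f00010000c00100008000000000000000000) := T_45 (nat_lit 92) (nat_lit 75) (nat_lit 7) (nat_lit 7) (nat_lit 4) L123203 (by decide +kernel)
theorem L123205 : W_45 (nat_lit 2) (nat_lit 0x10000c0003000080004000000000000000000) (nat_lit 0x0) (nat_lit 0x800000000000100008000000000000000000) := D_45 (nat_lit 92) (nat_lit 75) (nat_lit 143) (nat_lit 7) (nat_lit 7) (nat_lit 4) (nat_lit 4) (nat_lit 7) (nat_lit 8) (by decide +kernel)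
theorem L123206 : W_45 (nat_lit 3) (nat_lit 0x10000c0003000080000000000000000000000) (nat_lit 0x0) (nat_lit 0x80000000000010000c000200000000000000) := T_45 (nat_lit 74) (nat_lit 57) (nat_lit 7) (nat_lit 6) (nat_lit 3) L123205 (by decide +kernel)
theorem L123207 : W_45 (nat_lit 2) (nat_lit 0x10000c00038000c0000000000000000000000) (nat_lit 0x0) (nat_lit 0x4000030000000000000000000000) := D_45 (nat_lit 89) (nat_lit 88) (nat_lit 110) (nat_lit 3) (nat_lit 3) (nat_lit 5) (nat_lit 0) (nat_lit 8) (nat_lit 6) (by decide +kernel)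
theorem L123208 : W_45 (nat_lit 3) (nat_lit 0x10000c00030000c0000000000000000000000) (nat_lit 0x0) (nat_lit 0x4c00030000000000000000000000) := T_45 (nat_lit 107) (nat_lit 106) (nat_lit 3) (nat_lit 4) (nat_lit 6) L123207 (by decide +kernel)
theorem L123209 : W_45 (nat_lit 2) (nat_lit 0x10000c00070000c0000000000000000000000) (nat_lit 0x0) (nat_lit 0xc00020000000000000000000000) := D_45 (nat_lit 107) (nat_lit 106) (nat_lit 89) (nat_lit 3) (nat_lit 4) (nat_lit 6) (nat_lit 0) (nat_lit 8) (nat_lit 6) (by decide +kernel)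
theorem L123210 : W_45 (nat_lit 3) (nat_lit 0x10000c0007000080000000000000000000000) (nat_lit 0x0) (nat_lit 0x8c00060000000000000000000000) := T_45 (nat_lit 90) (nat_lit 111) (nat_lit 0) (nat_lit 9) (nat_lit 6) L123209 (by decide +kernel)
theorem L123211 : W_45 (nat_lit 2) (nat_lit 0x100010000c001f000080000000000000000000000) (nat_lit 0x0) (nat_lit 0x1c00000000000000000000000) := D_45 (nat_lit 95) (nat_lit 94) (nat_lit 96) (nat_lit 2) (nat_lit 6) (nat_lit 6) (nat_lit 2) (nat_lit 7) (nat_lit 6) (by decide +kernel)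
theorem L123212 : W_45 (nat_lit 3) (nat_lit 0x100010000c000f000080000000000000000000000) (nat_lit 0x0) (nat_lit 0x30001c00000000000000000000000) := T_45 (nat_lit 112) (nat_lit 113) (nat_lit 1) (nat_lit 11) (nat_lit 6) L123211 (by decide +kernel)
theorem L123213 : W_45 (nat_lit 4) (nat_lit 0x10000c000f000080000000000000000000000) (nat_lit 0x0) (nat_lit 0x10000800000030001c00000000000000000000000) := T_45 (nat_lit 160) (nat_lit 143) (nat_lit 4) (nat_lit 7) (nat_lit 9) L123212 (by decide +kernel)
theorem L123214 : W_45 (nat_lit 2) (nat_lit 0x10000c00030000e0000000000000000000000) (nat_lit 0x0) (nat_lit 0xc000100000000000000000000000) := D_45 (nat_lit 110) (nat_lit 111) (nat_lit 92) (nat_lit 0) (nat_lit 9) (nat_lit 6) (nat_lit 3) (nat_lit 4) (nat_lit 5) (by decide +kernel)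
theorem L123215 : W_45 (nat_lit 3) (nat_lit 0x10000c00030000c0000000000000000000000) (nat_lit 0x0) (nat_lit 0xc000130000000000000000000000) := T_45 (nat_lit 89) (nat_lit 88) (nat_lit 3) (nat_lit 3) (nat_lit 5) L123214 (by decide +kernel)
theorem L123216 : W_45 (nat_lit 2) (nat_lit 0x10000c00030001e0000000200000000000000) (nat_lit 0x0) (nat_lit 0xe00000000000000000000000000) := D_45 (nat_lit 106) (nat_lit 107) (nat_lit 105) (nat_lit 3) (nat_lit 4) (nat_lit 6) (nat_lit 1) (nat_lit 7) (nat_lit 5) (by decide +kernel)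
theorem L123217 : W_45 (nat_lit 3) (nat_lit 0x10000c00030000e0000000200000000000000) (nat_lit 0x0) (nat_lit 0xe00100008000000000000000000) := T_45 (nat_lit 92) (nat_lit 75) (nat_lit 7) (nat_lit 7) (nat_lit 4) L123216 (by decide +kernel)
theorem L123218 : W_45 (nat_lit 4) (nat_lit 0x10000c00030000c0000000200000000000000) (nat_lit 0x0) (nat_lit 0xe00130008000000000000000000) := T_45 (nat_lit 89) (nat_lit 88) (nat_lit 3) (nat_lit 3) (nat_lit 5) L123217 (by decide +kernel)
theorem L123219 : W_45 (nat_lit 5) (nat_lit 0x10000c00030000c0000000000000000000000) (nat_lit 0x0) (nat_lit 0xe0013000c000200000000000000) := T_45 (nat_lit 57) (nat_lit 74) (nat_lit 7) (nat_lit 6) (nat_lit 3) L123218 (by decide +kernel)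
theorem L123220 : W_45 (nat_lit 2) (nat_lit 0x10000c00078000c000c000000000000000000) (nat_lit 0x0) (nat_lit 0x200018000000000000000000000000000000) := D_45 (nat_lit 124) (nat_lit 123) (nat_lit 141) (nat_lit 1) (nat_lit 8) (nat_lit 6) (nat_lit 6) (nat_lit 5) (nat_lit 8) (by decide +kernel)
theorem L123221 : W_45 (nat_lit 3) (nat_lit 0x10000c00078000c0008000000000000000000) (nat_lit 0x0) (nat_lit 0x200018000000000004000200000000000000) := T_45 (nat_lit 74) (nat_lit 57) (nat_lit 7) (nat_lit 6) (nat_lit 3) L123220 (by decide +kernel)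
theorem L123222 : W_45 (nat_lit 4) (nat_lit 0x10000c00038000c0008000000000000000000) (nat_lit 0x0) (nat_lit 0x20001800c000000004000200000000000000) := T_45 (nat_lit 110) (nat_lit 111) (nat_lit 0) (nat_lit 9) (nat_lit 6) L123221 (by decide +kernel)
theorem L123223 : W_45 (nat_lit 5) (nat_lit 0x10000c00038000c0000000000000000000000) (nat_lit 0x0) (nat_lit 0x20001800c00010000c000200000000000000) := T_45 (nat_lit 75) (nat_lit 92) (nat_lit 7) (nat_lit 7) (nat_lit 4) L123222 (by decide +kernel)
theorem L123224 : W_45 (nat_lit 6) (nat_lit 0x10000c00030000c0000000000000000000000) (nat_lit 0x0) (nat_lit 0x20001800cc0010000c000200000000000000) := T_45 (nat_lit 107) (nat_lit 106) (nat_lit 3) (nat_lit 4) (nat_lit 6) L123223 (by decide +kernel)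
theorem L123225 : W_45 (nat_lit 7) (nat_lit 0x10000c0003000080000000000000000000000) (nat_lit 0x0) (nat_lit 0x20001800ce0017000c000200000000000000) := Q_45 (nat_lit 90) (C_45 L123215 (C_45 L123208 (C_45 L123219 (C_45 L123224 N_45)))) (by decide +kernel)
theorem L123226 : W_45 (nat_lit 2) (nat_lit 0x10000c0003800000000000000000000000000) (nat_lit 0x0) (nat_lit 0x300004000000000000000000000000000) := D_45 (nat_lit 128) (nat_lit 129) (nat_lit 110) (nat_lit 0) (nat_lit 10) (nat_lit 7) (nat_lit 3) (nat_lit 5) (nat_lit 6) (by decide +kernel)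
theorem L123227 : W_45 (nat_lit 3) (nat_lit 0x10000c0003000000000000000000000000000) (nat_lit 0x0) (nat_lit 0x300004c00000000000000000000000000) := T_45 (nat_lit 107) (nat_lit 106) (nat_lit 3) (nat_lit 4) (nat_lit 6) L123226 (by decide +kernel)
theorem L123228 : W_45 (nat_lit 5) (nat_lit 0x18000c0003400000000000000000000000000) (nat_lit 0x0) (nat_lit 0x100018000400300000000180008000000000000000000) := T_45 (nat_lit 160) (nat_lit 91) (nat_lit 4) (nat_lit 7) (nat_lit 9) L123059 (by decide +kernel)
theorem L123229 : W_45 (nat_lit 6) (nat_lit 0x18000c0003000000000000000000000000000) (nat_lit 0x0) (nat_lit 0x100018000400300000c00180008000000000000000000) := T_45 (nat_lit 106) (nat_lit 107) (nat_lit 3) (nat_lit 4) (nat_lit 6) L123228 (by decide +kernel)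
theorem L123230 : W_45 (nat_lit 2) (nat_lit 0x1c000c0003400180000000000000000000000) (nat_lit 0x0) (nat_lit 0x300100000000000000000000000000000000) := D_45 (nat_lit 141) (nat_lit 128) (nat_lit 140) (nat_lit 2) (nat_lit 5) (nat_lit 8) (nat_lit 2) (nat_lit 4) (nat_lit 8) (by decide +kernel)
theorem L123231 : W_45 (nat_lit 3) (nat_lit 0x18000c0003400180000000000000000000000) (nat_lit 0x0) (nat_lit 0x8000700100000000000000000000000000000000) := T_45 (nat_lit 142) (nat_lit 159) (nat_lit 5) (nat_lit 7) (nat_lit 5) L123230 (by decide +kernel)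
theorem L123232 : W_45 (nat_lit 4) (nat_lit 0x18000c0003400100000000000000000000000) (nat_lit 0x0) (nat_lit 0x8000700100000000080004000000000000000000) := T_45 (nat_lit 91) (nat_lit 74) (nat_lit 4) (nat_lit 7) (nat_lit 8) L123231 (by decide +kernel)
theorem L123233 : W_45 (nat_lit 5) (nat_lit 0x18000c0003000100000000000000000000000) (nat_lit 0x0) (nat_lit 0x8000700100000c00080004000000000000000000) := T_45 (nat_lit 106) (nat_lit 107) (nat_lit 3) (nat_lit 4) (nat_lit 6) L123232 (by decide +kernel)
theorem L123234 : W_45 (nat_lit 6) (nat_lit 0x18000c0003000000000000000000000000000) (nat_lit 0x0) (nat_lit 0x8000700100000c0018000c000000000000000000) := T_45 (nat_lit 92) (nat_lit 75) (nat_lit 7) (nat_lit 7) (nat_lit 4) L123233 (by decide +kernel)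
theorem L123235 : W_45 (nat_lit 2) (nat_lit 0x2000100018002c0003000000008000000000000000000) (nat_lit 0x0) (nat_lit 0x2000100008000000000000000000000000000000000000000) := D_45 (nat_lit 176) (nat_lit 159) (nat_lit 193) (nat_lit 5) (nat_lit 7) (nat_lit 6) (nat_lit 5) (nat_lit 7) (nat_lit 7) (by decide +kernel)
theorem L123236 : W_45 (nat_lit 3) (nat_lit 0x100018002c0003000000008000000000000000000) (nat_lit 0x0) (nat_lit 0x6000300008000000000000000000000000000000000000000) := T_45 (nat_lit 177) (nat_lit 194) (nat_lit 6) (nat_lit 7) (nat_lit 11) L123235 (by decide +kernel)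
theorem L123237 : W_45 (nat_lit 4) (nat_lit 0x100018002c0003000000000000000000000000000) (nat_lit 0x0) (nat_lit 0x6000300008000000000000000100008000000000000000000) := T_45 (nat_lit 75) (nat_lit 92) (nat_lit 7) (nat_lit 7) (nat_lit 4) L123236 (by decide +kernel)
theorem L123238 : W_45 (nat_lit 5) (nat_lit 0x18002c0003000000000000000000000000000) (nat_lit 0x0) (nat_lit 0x6000300018000000000000000180008000000000000000000) := T_45 (nat_lit 160) (nat_lit 91) (nat_lit 4) (nat_lit 7) (nat_lit 9) L123237 (by decide +kernel)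
theorem L123239 : W_45 (nat_lit 6) (nat_lit 0x18000c0003000000000000000000000000000) (nat_lit 0x0) (nat_lit 0x6000300018000000300000000180008000000000000000000) := T_45 (nat_lit 129) (nat_lit 128) (nat_lit 0) (nat_lit 10) (nat_lit 7) L123238 (by decide +kernel)
theorem L123240 : W_45 (nat_lit 2) (nat_lit 0x18000c0003000080000000000000000000000) (nat_lit 0x0) (nat_lit 0x10000c000000000000000000) := D_45 (nat_lit 92) (nat_lit 75) (nat_lit 74) (nat_lit 7) (nat_lit 7) (nat_lit 4) (nat_lit 4) (nat_lit 7) (nat_lit 8) (by decide +kernel)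
theorem L123241 : W_45 (nat_lit 3) (nat_lit 0x18000c0003000000000000000000000000000) (nat_lit 0x0) (nat_lit 0x1000000000000000018000c000000000000000000) := T_45 (nat_lit 91) (nat_lit 160) (nat_lit 4) (nat_lit 7) (nat_lit 9) L123240 (by decide +kernel)
theorem L123242 : W_45 (nat_lit 2) (nat_lit 0x1000100018002c0003400000000000000000000000000) (nat_lit 0x0) (nat_lit 0x6000200000000000000000000000000000000000000000000) := D_45 (nat_lit 177) (nat_lit 194) (nat_lit 193) (nat_lit 6) (nat_lit 7) (nat_lit 11) (nat_lit 5) (nat_lit 7) (nat_lit 7) (by decide +kernel)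
theorem L123243 : W_45 (nat_lit 3) (nat_lit 0x100018002c0003400000000000000000000000000) (nat_lit 0x0) (nat_lit 0x6000300008000000000000000000000000000000000000000) := T_45 (nat_lit 176) (nat_lit 159) (nat_lit 5) (nat_lit 7) (nat_lit 6) L123242 (by decide +kernel)
theorem L123244 : W_45 (nat_lit 4) (nat_lit 0x18002c0003400000000000000000000000000) (nat_lit 0x0) (nat_lit 0x6000300018000000000000000080000000000000000000000) := T_45 (nat_lit 160) (nat_lit 91) (nat_lit 4) (nat_lit 7) (nat_lit 9) L123243 (by decide +kernel)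
theorem L123245 : W_45 (nat_lit 5) (nat_lit 0x18002c0003000000000000000000000000000) (nat_lit 0x0) (nat_lit 0x6000300018000000000000c00080000000000000000000000) := T_45 (nat_lit 106) (nat_lit 107) (nat_lit 3) (nat_lit 4) (nat_lit 6) L123244 (by decide +kernel)
theorem L123246 : W_45 (nat_lit 6) (nat_lit 0x18000c0003000000000000000000000000000) (nat_lit 0x0) (nat_lit 0x6000300018000000300000c00080000000000000000000000) := T_45 (nat_lit 129) (nat_lit 128) (nat_lit 0) (nat_lit 10) (nat_lit 7) L123245 (by decide +kernel)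
theorem L123247 : W_45 (nat_lit 2) (nat_lit 0x18001c0003000100000000000000000000000) (nat_lit 0x0) (nat_lit 0x8000600000000000000000000000000000000000) := D_45 (nat_lit 142) (nat_lit 159) (nat_lit 141) (nat_lit 5) (nat_lit 7) (nat_lit 5) (nat_lit 2) (nat_lit 5) (nat_lit 8) (by decide +kernel)
theorem L123248 : W_45 (nat_lit 3) (nat_lit 0x18000c0003000100000000000000000000000) (nat_lit 0x0) (nat_lit 0x8000600300000000000000000000000000000000) := T_45 (nat_lit 128) (nat_lit 129) (nat_lit 0) (nat_lit 10) (nat_lit 7) L123247 (by decide +kernel)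
theorem L123249 : W_45 (nat_lit 4) (nat_lit 0x18000c0003000000000000000000000000000) (nat_lit 0x0) (nat_lit 0x8000600300000000100008000000000000000000) := T_45 (nat_lit 92) (nat_lit 75) (nat_lit 7) (nat_lit 7) (nat_lit 4) L123248 (by decide +kernel)
theorem L123250 : W_45 (nat_lit 7) (nat_lit 0x10000c0003000000000000000000000000000) (nat_lit 0x0) (nat_lit 0x6000300018000f00300000c0018000c000000000000000000) := Q_45 (nat_lit 143) (C_45 L123229 (C_45 L123234 (C_45 L123239 (C_45 L123241 (C_45 L123246 (C_45 L123249 N_45)))))) (by decide +kernel)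
theorem L123251 : W_45 (nat_lit 2) (nat_lit 0x100018002c0003000000000000000000000000000) (nat_lit 0x0) (nat_lit 0x4000200000000000000004000000000000000000000000000) := D_45 (nat_lit 177) (nat_lit 110) (nat_lit 194) (nat_lit 6) (nat_lit 7) (nat_lit 10) (nat_lit 6) (nat_lit 7) (nat_lit 11) (by decide +kernel)
theorem L123252 : W_45 (nat_lit 3) (nat_lit 0x18002c0003000000000000000000000000000) (nat_lit 0x0) (nat_lit 0x4000200010000000000004000080000000000000000000000) := T_45 (nat_lit 160) (nat_lit 91) (nat_lit 4) (nat_lit 7) (nat_lit 9) L123251 (by decide +kernel)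
theorem L123253 : W_45 (nat_lit 4) (nat_lit 0x18000c0003000000000000000000000000000) (nat_lit 0x0) (nat_lit 0x4000200010000000300004000080000000000000000000000) := T_45 (nat_lit 129) (nat_lit 128) (nat_lit 0) (nat_lit 10) (nat_lit 7) L123252 (by decide +kernel)
theorem L123254 : W_45 (nat_lit 5) (nat_lit 0x10000c0003000000000000000000000000000) (nat_lit 0x0) (nat_lit 0x4000200018000e0030000400018000c000000000000000000) := Q_45 (nat_lit 143) (C_45 L123249 (C_45 L123241 (C_45 L123253 N_45))) (by decide +kernel)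
theorem L123255 : W_45 (nat_lit 2) (nat_lit 0x4001e000d0002800380000000000000000000000) (nat_lit 0x0) (nat_lit 0x400060000000000000000000000) := D_45 (nat_lit 106) (nat_lit 89) (nat_lit 90) (nat_lit 4) (nat_lit 5) (nat_lit 9) (nat_lit 1) (nat_lit 8) (nat_lit 5) (by decide +kernel)
theorem L123256 : W_45 (nat_lit 3) (nat_lit 0x4001e000d0002000380000000000000000000000) (nat_lit 0x0) (nat_lit 0x1c00060000000000000000000000) := T_45 (nat_lit 107) (nat_lit 108) (nat_lit 6) (nat_lit 5) (nat_lit 9) L123255 (by decide +kernel)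
theorem L123257 : W_45 (nat_lit 4) (nat_lit 0x1e000d0002000380000000000000000000000) (nat_lit 0x0) (nat_lit 0x6000000000001c00060000000000000000000000) := T_45 (nat_lit 158) (nat_lit 157) (nat_lit 1) (nat_lit 8) (nat_lit 8) L123256 (by decide +kernel)
theorem L123258 : W_45 (nat_lit 5) (nat_lit 0x1e000c0002000380000000000000000000000) (nat_lit 0x0) (nat_lit 0x6000000018001c00060000000000000000000000) := T_45 (nat_lit 124) (nat_lit 123) (nat_lit 0) (nat_lit 8) (nat_lit 8) L123257 (by decide +kernel)
theorem L123259 : W_45 (nat_lit 6) (nat_lit 0x1e000c0002000300000000000000000000000) (nat_lit 0x0) (nat_lit 0x6000000018001c000e0004000000000000000000) := T_45 (nat_lit 91) (nat_lit 74) (nat_lit 4) (nat_lit 7) (nat_lit 8) L123258 (by decide +kernel)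
theorem L123260 : W_45 (nat_lit 7) (nat_lit 0x1c000c0002000300000000000000000000000) (nat_lit 0x0) (nat_lit 0x6000300018001c000e0004000000000000000000) := T_45 (nat_lit 141) (nat_lit 140) (nat_lit 2) (nat_lit 4) (nat_lit 8) L123259 (by decide +kernel)
theorem L123261 : W_45 (nat_lit 8) (nat_lit 0x18000c0002000300000000000000000000000) (nat_lit 0x0) (nat_lit 0xe000700018001c000e0004000000000000000000) := T_45 (nat_lit 142) (nat_lit 159) (nat_lit 5) (nat_lit 7) (nat_lit 5) L123260 (by decide +kernel)
theorem L123262 : W_45 (nat_lit 9) (nat_lit 0x18000c0002000100000000000000000000000) (nat_lit 0x0) (nat_lit 0xe000700018001c002e0014000000000000000000) := T_45 (nat_lit 93) (nat_lit 76) (nat_lit 6) (nat_lit 7) (nat_lit 8) L123261 (by decide +kernel)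
theorem L123263 : W_45 (nat_lit 10) (nat_lit 0x18000c0002000000000000000000000000000) (nat_lit 0x0) (nat_lit 0xe000700018001c003e001c000000000000000000) := T_45 (nat_lit 92) (nat_lit 75) (nat_lit 7) (nat_lit 7) (nat_lit 4) L123262 (by decide +kernel)
theorem L123264 : W_45 (nat_lit 2) (nat_lit 0x10001d000c0002000180000000000000000000000) (nat_lit 0x0) (nat_lit 0x4000200000000000000004000000000000000000000000000) := D_45 (nat_lit 177) (nat_lit 110) (nat_lit 194) (nat_lit 6) (nat_lit 7) (nat_lit 10) (nat_lit 6) (nat_lit 7) (nat_lit 11) (by decide +kernel)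
theorem L123265 : W_45 (nat_lit 3) (nat_lit 0x1d000c0002000180000000000000000000000) (nat_lit 0x0) (nat_lit 0x4000200010000000000005000000000000000000000000000) := T_45 (nat_lit 160) (nat_lit 108) (nat_lit 4) (nat_lit 7) (nat_lit 9) L123264 (by decide +kernel)
theorem L123266 : W_45 (nat_lit 4) (nat_lit 0x1d000c0002000100000000000000000000000) (nat_lit 0x0) (nat_lit 0x4000200010000000000005000080004000000000000000000) := T_45 (nat_lit 91) (nat_lit 74) (nat_lit 4) (nat_lit 7) (nat_lit 8) L123265 (by decide +kernel)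
theorem L123267 : W_45 (nat_lit 5) (nat_lit 0x1c000c0002000100000000000000000000000) (nat_lit 0x0) (nat_lit 0x4000200010000300000005000080004000000000000000000) := T_45 (nat_lit 140) (nat_lit 141) (nat_lit 2) (nat_lit 4) (nat_lit 8) L123266 (by decide +kernel)
theorem L123268 : W_45 (nat_lit 6) (nat_lit 0x18000c0002000100000000000000000000000) (nat_lit 0x0) (nat_lit 0x4000200018000700000005000080004000000000000000000) := T_45 (nat_lit 142) (nat_lit 159) (nat_lit 5) (nat_lit 7) (nat_lit 5) L123267 (by decide +kernel)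
theorem L123269 : W_45 (nat_lit 7) (nat_lit 0x18000c0002000000000000000000000000000) (nat_lit 0x0) (nat_lit 0x400020001800070000000500018000c000000000000000000) := T_45 (nat_lit 92) (nat_lit 75) (nat_lit 7) (nat_lit 7) (nat_lit 4) L123268 (by decide +kernel)
theorem L123270 : W_45 (nat_lit 10) (nat_lit 0x18000c0002000000000000000000000000000) (nat_lit 0x0) (nat_lit 0x600030001e000700018005c002e0000000000000000000000) := Q_45 (nat_lit 160) (C_45 L123133 (C_45 L123131 (C_45 L122719 N_45))) (by decide +kernel)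
theorem L123271 : W_45 (nat_lit 11) (nat_lit 0x10000c0002000000000000000000000000000) (nat_lit 0x0) (nat_lit 0x600030001e000f0001800dc00fe003c000000000000000000) := Q_45 (nat_lit 143) (C_45 L123263 (C_45 L123198 (C_45 L123269 (C_45 L123270 (C_45 L123127 N_45))))) (by decide +kernel)
theorem L123272 : W_45 (nat_lit 2) (nat_lit 0x50003c0020000000000000000000000000000) (nat_lit 0x0) (nat_lit 0x800400040000000000000000000000000000) := D_45 (nat_lit 130) (nat_lit 143) (nat_lit 114) (nat_lit 1) (nat_lit 11) (nat_lit 7) (nat_lit 2) (nat_lit 8) (nat_lit 7) (by decide +kernel)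
theorem L123273 : W_45 (nat_lit 3) (nat_lit 0x50003c0000000000000000000000000000000) (nat_lit 0x0) (nat_lit 0x800400070000000000000000000000000000) := T_45 (nat_lit 113) (nat_lit 112) (nat_lit 2) (nat_lit 7) (nat_lit 7) L123272 (by decide +kernel)
theorem L123274 : W_45 (nat_lit 4) (nat_lit 0x10003c0000000000000000000000000000000) (nat_lit 0x0) (nat_lit 0xc800400070000000000000000000000000000) := T_45 (nat_lit 146) (nat_lit 147) (nat_lit 3) (nat_lit 7) (nat_lit 7) L123273 (by decide +kernel)
theorem L123275 : W_45 (nat_lit 2) (nat_lit 0x90003c0020000000000000000000000000000) (nat_lit 0x0) (nat_lit 0x10000400040000000000000000000000000000) := D_45 (nat_lit 130) (nat_lit 148) (nat_lit 114) (nat_lit 3) (nat_lit 8) (nat_lit 7) (nat_lit 2) (nat_lit 8) (nat_lit 7) (by decide +kernel)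
theorem L123276 : W_45 (nat_lit 3) (nat_lit 0x90003c0000000000000000000000000000000) (nat_lit 0x0) (nat_lit 0x10000400070000000000000000000000000000) := T_45 (nat_lit 113) (nat_lit 112) (nat_lit 2) (nat_lit 7) (nat_lit 7) L123275 (by decide +kernel)
theorem L123277 : W_45 (nat_lit 4) (nat_lit 0x10003c0000000000000000000000000000000) (nat_lit 0x0) (nat_lit 0x1c000400070000000000000000000000000000) := T_45 (nat_lit 147) (nat_lit 146) (nat_lit 3) (nat_lit 7) (nat_lit 7) L123276 (by decide +kernel)
theorem L123278 : W_45 (nat_lit 2) (nat_lit 0x18003c000000080007c002000000000000000) (nat_lit 0x0) (nat_lit 0x1c0000000000000000000000) := D_45 (nat_lit 91) (nat_lit 90) (nat_lit 92) (nat_lit 1) (nat_lit 9) (nat_lit 4) (nat_lit 1) (nat_lit 10) (nat_lit 4) (by decide +kernel)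
theorem L123279 : W_45 (nat_lit 3) (nat_lit 0x18003c0000000800078002000000000000000) (nat_lit 0x0) (nat_lit 0x1c0004001000000000000000) := T_45 (nat_lit 74) (nat_lit 60) (nat_lit 2) (nat_lit 6) (nat_lit 4) L123278 (by decide +kernel)
theorem L123280 : W_45 (nat_lit 4) (nat_lit 0x18003c0000000800078000000000000000000) (nat_lit 0x0) (nat_lit 0x1c0004007000000000000000) := T_45 (nat_lit 61) (nat_lit 62) (nat_lit 2) (nat_lit 7) (nat_lit 4) L123279 (by decide +kernel)
theorem L123281 : W_45 (nat_lit 5) (nat_lit 0x18003c0000000000078000000000000000000) (nat_lit 0x0) (nat_lit 0x19c0004007000000000000000) := T_45 (nat_lit 95) (nat_lit 96) (nat_lit 3) (nat_lit 7) (nat_lit 4) L123280 (by decide +kernel)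
theorem L123282 : W_45 (nat_lit 6) (nat_lit 0x10003c0000000000078000000000000000000) (nat_lit 0x0) (nat_lit 0xc000000000019c0004007000000000000000) := T_45 (nat_lit 143) (nat_lit 142) (nat_lit 1) (nat_lit 10) (nat_lit 7) L123281 (by decide +kernel)
theorem L123283 : W_45 (nat_lit 2) (nat_lit 0x10003c000000090007c002000000000000000) (nat_lit 0x0) (nat_lit 0x700000000000000) := D_45 (nat_lit 57) (nat_lit 56) (nat_lit 58) (nat_lit 0) (nat_lit 9) (nat_lit 4) (nat_lit 0) (nat_lit 10) (nat_lit 4) (by decide +kernel)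
theorem L123284 : W_45 (nat_lit 3) (nat_lit 0x10003c0000000900078002000000000000000) (nat_lit 0x0) (nat_lit 0x4001700000000000000) := T_45 (nat_lit 74) (nat_lit 60) (nat_lit 2) (nat_lit 6) (nat_lit 4) L123283 (by decide +kernel)
theorem L123285 : W_45 (nat_lit 4) (nat_lit 0x10003c0000000900078000000000000000000) (nat_lit 0x0) (nat_lit 0x4007700000000000000) := T_45 (nat_lit 61) (nat_lit 62) (nat_lit 2) (nat_lit 7) (nat_lit 4) L123284 (by decide +kernel)
theorem L123286 : W_45 (nat_lit 5) (nat_lit 0x10003c0000000100078000000000000000000) (nat_lit 0x0) (nat_lit 0x1800004007700000000000000) := T_45 (nat_lit 95) (nat_lit 96) (nat_lit 3) (nat_lit 7) (nat_lit 4) L123285 (by decide +kernel)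
theorem L123287 : W_45 (nat_lit 6) (nat_lit 0x10003c0000000000078000000000000000000) (nat_lit 0x0) (nat_lit 0x1980004007700000000000000) := T_45 (nat_lit 92) (nat_lit 91) (nat_lit 1) (nat_lit 10) (nat_lit 4) L123286 (by decide +kernel)
theorem L123288 : W_45 (nat_lit 2) (nat_lit 0x18003c00000000000f8000400000000000000) (nat_lit 0x0) (nat_lit 0x3800000000000000000000000) := D_45 (nat_lit 96) (nat_lit 95) (nat_lit 97) (nat_lit 3) (nat_lit 7) (nat_lit 4) (nat_lit 3) (nat_lit 8) (nat_lit 4) (by decide +kernel)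
theorem L123289 : W_45 (nat_lit 3) (nat_lit 0x18003c0000000000078000400000000000000) (nat_lit 0x0) (nat_lit 0x3800080000800000000000000) := T_45 (nat_lit 79) (nat_lit 59) (nat_lit 0) (nat_lit 11) (nat_lit 4) L123288 (by decide +kernel)
theorem L123290 : W_45 (nat_lit 4) (nat_lit 0x10003c0000000000078000400000000000000) (nat_lit 0x0) (nat_lit 0xc00000000003800080000800000000000000) := T_45 (nat_lit 143) (nat_lit 142) (nat_lit 1) (nat_lit 10) (nat_lit 7) L123289 (by decide +kernel)
theorem L123291 : W_45 (nat_lit 5) (nat_lit 0x10003c0000000000078000000000000000000) (nat_lit 0x0) (nat_lit 0xc00000000003800080000e00000000000000) := T_45 (nat_lit 58) (nat_lit 57) (nat_lit 0) (nat_lit 10) (nat_lit 4) L123290 (by decide +kernel)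
theorem L123292 : W_45 (nat_lit 2) (nat_lit 0x18003c00000001001f8003400000000000000) (nat_lit 0x0) (nat_lit 0x7000000000000000000000000) := D_45 (nat_lit 97) (nat_lit 96) (nat_lit 98) (nat_lit 3) (nat_lit 8) (nat_lit 4) (nat_lit 3) (nat_lit 9) (nat_lit 4) (by decide +kernel)
theorem L123293 : W_45 (nat_lit 3) (nat_lit 0x18003c00000001000f8003400000000000000) (nat_lit 0x0) (nat_lit 0x7000300000000000000000000) := T_45 (nat_lit 80) (nat_lit 81) (nat_lit 0) (nat_lit 13) (nat_lit 4) L123292 (by decide +kernel)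
theorem L123294 : W_45 (nat_lit 4) (nat_lit 0x18003c0000000100078003400000000000000) (nat_lit 0x0) (nat_lit 0x7000380000800000000000000) := T_45 (nat_lit 79) (nat_lit 59) (nat_lit 3) (nat_lit 7) (nat_lit 3) L123293 (by decide +kernel)
theorem L123295 : W_45 (nat_lit 5) (nat_lit 0x18003c0000000100078002400000000000000) (nat_lit 0x0) (nat_lit 0x7000384001800000000000000) := T_45 (nat_lit 60) (nat_lit 74) (nat_lit 2) (nat_lit 6) (nat_lit 4) L123294 (by decide +kernel)
theorem L123296 : W_45 (nat_lit 6) (nat_lit 0x18003c0000000100078000400000000000000) (nat_lit 0x0) (nat_lit 0x7000384007800000000000000) := T_45 (nat_lit 61) (nat_lit 62) (nat_lit 2) (nat_lit 7) (nat_lit 4) L123295 (by decide +kernel)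
theorem L123297 : W_45 (nat_lit 7) (nat_lit 0x18003c0000000100078000000000000000000) (nat_lit 0x0) (nat_lit 0x7000384007e00000000000000) := T_45 (nat_lit 58) (nat_lit 57) (nat_lit 0) (nat_lit 10) (nat_lit 4) L123296 (by decide +kernel)
theorem L123298 : W_45 (nat_lit 8) (nat_lit 0x10003c0000000100078000000000000000000) (nat_lit 0x0) (nat_lit 0xc00000000007000384007e00000000000000) := T_45 (nat_lit 143) (nat_lit 142) (nat_lit 1) (nat_lit 10) (nat_lit 7) L123297 (by decide +kernel)
theorem L123299 : W_45 (nat_lit 9) (nat_lit 0x10003c0000000000078000000000000000000) (nat_lit 0x0) (nat_lit 0xc00000000007180384007e00000000000000) := T_45 (nat_lit 92) (nat_lit 91) (nat_lit 1) (nat_lit 10) (nat_lit 4) L123298 (by decide +kernel)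
theorem L123300 : W_45 (nat_lit 2) (nat_lit 0x10003c00000001000f8000400000000000000) (nat_lit 0x0) (nat_lit 0xe000000000000000) := D_45 (nat_lit 62) (nat_lit 61) (nat_lit 63) (nat_lit 2) (nat_lit 7) (nat_lit 4) (nat_lit 2) (nat_lit 8) (nat_lit 4) (by decide +kernel)
theorem L123301 : W_45 (nat_lit 3) (nat_lit 0x10003c0000000100078000400000000000000) (nat_lit 0x0) (nat_lit 0x8000e800000000000000) := T_45 (nat_lit 79) (nat_lit 59) (nat_lit 0) (nat_lit 11) (nat_lit 4) L123300 (by decide +kernel)
theorem L123302 : W_45 (nat_lit 4) (nat_lit 0x10003c0000000000078000400000000000000) (nat_lit 0x0) (nat_lit 0x18008000e800000000000000) := T_45 (nat_lit 92) (nat_lit 91) (nat_lit 1) (nat_lit 10) (nat_lit 4) L123301 (by decide +kernel)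
theorem L123303 : W_45 (nat_lit 5) (nat_lit 0x10003c0000000000078000000000000000000) (nat_lit 0x0) (nat_lit 0x18008000ee00000000000000) := T_45 (nat_lit 58) (nat_lit 57) (nat_lit 0) (nat_lit 10) (nat_lit 4) L123302 (by decide +kernel)
theorem L123304 : W_45 (nat_lit 10) (nat_lit 0x10003c0000000000070000000000000000000) (nat_lit 0x0) (nat_lit 0xc000000000079c038c00ff00000000000000) := Q_45 (nat_lit 75) (C_45 L123282 (C_45 L123287 (C_45 L123291 (C_45 L123299 (C_45 L123303 N_45))))) (by decide +kernel)
theorem L123305 : W_45 (nat_lit 2) (nat_lit 0x50003c00000000000f8004000000000000000) (nat_lit 0x0) (nat_lit 0xe00000000000000) := D_45 (nat_lit 58) (nat_lit 59) (nat_lit 57) (nat_lit 0) (nat_lit 11) (nat_lit 4) (nat_lit 0) (nat_lit 10) (nat_lit 4) (by decide +kernel)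
theorem L123306 : W_45 (nat_lit 3) (nat_lit 0x50003c00000000000f0004000000000000000) (nat_lit 0x0) (nat_lit 0x8002e00000000000000) := T_45 (nat_lit 75) (nat_lit 61) (nat_lit 2) (nat_lit 7) (nat_lit 4) L123305 (by decide +kernel)
theorem L123307 : W_45 (nat_lit 4) (nat_lit 0x50003c00000000000f0000000000000000000) (nat_lit 0x0) (nat_lit 0x800ee00000000000000) := T_45 (nat_lit 62) (nat_lit 63) (nat_lit 2) (nat_lit 8) (nat_lit 4) L123306 (by decide +kernel)
theorem L123308 : W_45 (nat_lit 5) (nat_lit 0x10003c00000000000f0000000000000000000) (nat_lit 0x0) (nat_lit 0xc00000000000000000800ee00000000000000) := T_45 (nat_lit 146) (nat_lit 147) (nat_lit 3) (nat_lit 7) (nat_lit 7) L123307 (by decide +kernel)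
theorem L123309 : W_45 (nat_lit 2) (nat_lit 0x58003c00100020001f0006000000000000000) (nat_lit 0x0) (nat_lit 0x200001800000000000000) := D_45 (nat_lit 60) (nat_lit 59) (nat_lit 81) (nat_lit 3) (nat_lit 8) (nat_lit 3) (nat_lit 0) (nat_lit 13) (nat_lit 4) (by decide +kernel)
theorem L123310 : W_45 (nat_lit 3) (nat_lit 0x58003c00100020000f0006000000000000000) (nat_lit 0x0) (nat_lit 0x4000300001800000000000000) := T_45 (nat_lit 80) (nat_lit 98) (nat_lit 3) (nat_lit 9) (nat_lit 4) L123309 (by decide +kernel)
theorem L123311 : W_45 (nat_lit 4) (nat_lit 0x50003c00100020000f0006000000000000000) (nat_lit 0x0) (nat_lit 0xc00000000004000300001800000000000000) := T_45 (nat_lit 143) (nat_lit 142) (nat_lit 1) (nat_lit 10) (nat_lit 7) L123310 (by decide +kernel)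
theorem L123312 : W_45 (nat_lit 5) (nat_lit 0x50003c00100000000f0006000000000000000) (nat_lit 0x0) (nat_lit 0xc00000000007000300001800000000000000) := T_45 (nat_lit 97) (nat_lit 96) (nat_lit 3) (nat_lit 8) (nat_lit 4) L123311 (by decide +kernel)
theorem L123313 : W_45 (nat_lit 6) (nat_lit 0x10003c00100000000f0006000000000000000) (nat_lit 0x0) (nat_lit 0xcc00000000007000300001800000000000000) := T_45 (nat_lit 146) (nat_lit 147) (nat_lit 3) (nat_lit 7) (nat_lit 7) L123312 (by decide +kernel)
theorem L123314 : W_45 (nat_lit 7) (nat_lit 0x10003c00000000000f0006000000000000000) (nat_lit 0x0) (nat_lit 0xcc00000030007000300001800000000000000) := T_45 (nat_lit 112) (nat_lit 113) (nat_lit 2) (nat_lit 7) (nat_lit 7) L123313 (by decide +kernel)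
theorem L123315 : W_45 (nat_lit 8) (nat_lit 0x10003c00000000000f0004000000000000000) (nat_lit 0x0) (nat_lit 0xcc00000030007000308003800000000000000) := T_45 (nat_lit 61) (nat_lit 75) (nat_lit 2) (nat_lit 7) (nat_lit 4) L123314 (by decide +kernel)
theorem L123316 : W_45 (nat_lit 9) (nat_lit 0x10003c00000000000f0000000000000000000) (nat_lit 0x0) (nat_lit 0xcc0000003000700030800f800000000000000) := T_45 (nat_lit 62) (nat_lit 63) (nat_lit 2) (nat_lit 8) (nat_lit 4) L123315 (by decide +kernel)
theorem L123317 : W_45 (nat_lit 2) (nat_lit 0x10003c00100020000f0000800000000000000) (nat_lit 0x0) (nat_lit 0x4000100001000000000000000) := D_45 (nat_lit 80) (nat_lit 98) (nat_lit 60) (nat_lit 3) (nat_lit 9) (nat_lit 4) (nat_lit 0) (nat_lit 12) (nat_lit 4) (by decide +kernel)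
theorem L123318 : W_45 (nat_lit 3) (nat_lit 0x10003c00100020000f0000000000000000000) (nat_lit 0x0) (nat_lit 0x4000100001c00000000000000) := T_45 (nat_lit 59) (nat_lit 58) (nat_lit 0) (nat_lit 11) (nat_lit 4) L123317 (by decide +kernel)
theorem L123319 : W_45 (nat_lit 4) (nat_lit 0x10003c00100000000f0000000000000000000) (nat_lit 0x0) (nat_lit 0x7000100001c00000000000000) := T_45 (nat_lit 97) (nat_lit 96) (nat_lit 3) (nat_lit 8) (nat_lit 4) L123318 (by decide +kernel)
theorem L123320 : W_45 (nat_lit 5) (nat_lit 0x10003c00000000000f0000000000000000000) (nat_lit 0x0) (nat_lit 0x30007000100001c00000000000000) := T_45 (nat_lit 112) (nat_lit 113) (nat_lit 2) (nat_lit 7) (nat_lit 7) L123319 (by decide +kernel)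
theorem L123321 : W_45 (nat_lit 2) (nat_lit 0x50003c0010000000078002000000000000000) (nat_lit 0x0) (nat_lit 0x8001800000000000000000000000) := D_45 (nat_lit 95) (nat_lit 96) (nat_lit 111) (nat_lit 3) (nat_lit 7) (nat_lit 4) (nat_lit 5) (nat_lit 10) (nat_lit 3) (by decide +kernel)
theorem L123322 : W_45 (nat_lit 3) (nat_lit 0x50003c0000000000078002000000000000000) (nat_lit 0x0) (nat_lit 0x38001800000000000000000000000) := T_45 (nat_lit 112) (nat_lit 113) (nat_lit 2) (nat_lit 7) (nat_lit 7) L123321 (by decide +kernel)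
theorem L123323 : W_45 (nat_lit 4) (nat_lit 0x50003c0000000000078000000000000000000) (nat_lit 0x0) (nat_lit 0x38001800000006000000000000000) := T_45 (nat_lit 61) (nat_lit 62) (nat_lit 2) (nat_lit 7) (nat_lit 4) L123322 (by decide +kernel)
theorem L123324 : W_45 (nat_lit 5) (nat_lit 0x10003c0000000000078000000000000000000) (nat_lit 0x0) (nat_lit 0xc000000038001800000006000000000000000) := T_45 (nat_lit 146) (nat_lit 147) (nat_lit 3) (nat_lit 7) (nat_lit 7) L123323 (by decide +kernel)
theorem L123325 : W_45 (nat_lit 2) (nat_lit 0x50003c000000000003e001000000000000000) (nat_lit 0x0) (nat_lit 0xe0000000000000000000000) := D_45 (nat_lit 90) (nat_lit 89) (nat_lit 91) (nat_lit 1) (nat_lit 8) (nat_lit 4) (nat_lit 1) (nat_lit 9) (nat_lit 4) (by decide +kernel)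
theorem L123326 : W_45 (nat_lit 3) (nat_lit 0x50003c000000000003c001000000000000000) (nat_lit 0x0) (nat_lit 0xe0002000800000000000000) := T_45 (nat_lit 73) (nat_lit 59) (nat_lit 2) (nat_lit 5) (nat_lit 4) L123325 (by decide +kernel)
theorem L123327 : W_45 (nat_lit 4) (nat_lit 0x50003c000000000003c000000000000000000) (nat_lit 0x0) (nat_lit 0xe0002003800000000000000) := T_45 (nat_lit 60) (nat_lit 61) (nat_lit 2) (nat_lit 6) (nat_lit 4) L123326 (by decide +kernel)
theorem L123328 : W_45 (nat_lit 5) (nat_lit 0x10003c000000000003c000000000000000000) (nat_lit 0x0) (nat_lit 0xc0000000000000e0002003800000000000000) := T_45 (nat_lit 146) (nat_lit 147) (nat_lit 3) (nat_lit 7) (nat_lit 7) L123327 (by decide +kernel)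
theorem L123329 : W_45 (nat_lit 2) (nat_lit 0x10003c000000000003e001000000000000000) (nat_lit 0x0) (nat_lit 0x380000000000000) := D_45 (nat_lit 56) (nat_lit 57) (nat_lit 55) (nat_lit 0) (nat_lit 9) (nat_lit 4) (nat_lit 0) (nat_lit 8) (nat_lit 4) (by decide +kernel)
theorem L123330 : W_45 (nat_lit 3) (nat_lit 0x10003c000000000003c001000000000000000) (nat_lit 0x0) (nat_lit 0x2000b80000000000000) := T_45 (nat_lit 73) (nat_lit 59) (nat_lit 2) (nat_lit 5) (nat_lit 4) L123329 (by decide +kernel)
theorem L123331 : W_45 (nat_lit 4) (nat_lit 0x10003c000000000003c000000000000000000) (nat_lit 0x0) (nat_lit 0x2003b80000000000000) := T_45 (nat_lit 60) (nat_lit 61) (nat_lit 2) (nat_lit 6) (nat_lit 4) L123330 (by decide +kernel)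
theorem L123332 : W_45 (nat_lit 2) (nat_lit 0x10003c000000080007c002000000000000000) (nat_lit 0x0) (nat_lit 0x700000000000000) := D_45 (nat_lit 57) (nat_lit 56) (nat_lit 58) (nat_lit 0) (nat_lit 9) (nat_lit 4) (nat_lit 0) (nat_lit 10) (nat_lit 4) (by decide +kernel)
theorem L123333 : W_45 (nat_lit 3) (nat_lit 0x10003c0000000800078002000000000000000) (nat_lit 0x0) (nat_lit 0x4001700000000000000) := T_45 (nat_lit 74) (nat_lit 60) (nat_lit 2) (nat_lit 6) (nat_lit 4) L123332 (by decide +kernel)
theorem L123334 : W_45 (nat_lit 4) (nat_lit 0x10003c0000000800078000000000000000000) (nat_lit 0x0) (nat_lit 0x4007700000000000000) := T_45 (nat_lit 61) (nat_lit 62) (nat_lit 2) (nat_lit 7) (nat_lit 4) L123333 (by decide +kernel)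
theorem L123335 : W_45 (nat_lit 5) (nat_lit 0x10003c0000000000078000000000000000000) (nat_lit 0x0) (nat_lit 0x1800004007700000000000000) := T_45 (nat_lit 95) (nat_lit 96) (nat_lit 3) (nat_lit 7) (nat_lit 4) L123334 (by decide +kernel)
theorem L123336 : W_45 (nat_lit 2) (nat_lit 0x58003c0000000b00078003400030000000000) (nat_lit 0x0) (nat_lit 0xc0002000000) := D_45 (nat_lit 42) (nat_lit 25) (nat_lit 43) (nat_lit 6) (nat_lit 7) (nat_lit 5) (nat_lit 3) (nat_lit 6) (nat_lit 2) (by decide +kernel)
theorem L123337 : W_45 (nat_lit 3) (nat_lit 0x58003c0000000b00078002400030000000000) (nat_lit 0x0) (nat_lit 0x18000c0002000000) := T_45 (nat_lit 60) (nat_lit 59) (nat_lit 0) (nat_lit 10) (nat_lit 3) L123336 (by decide +kernel)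
theorem L123338 : W_45 (nat_lit 4) (nat_lit 0x58003c0000000b00078002400020000000000) (nat_lit 0x0) (nat_lit 0x18000d0002800000) := T_45 (nat_lit 40) (nat_lit 23) (nat_lit 4) (nat_lit 7) (nat_lit 5) L123337 (by decide +kernel)
theorem L123339 : W_45 (nat_lit 5) (nat_lit 0x50003c0000000b00078002400020000000000) (nat_lit 0x0) (nat_lit 0xc000000000000000000018000d0002800000) := T_45 (nat_lit 143) (nat_lit 142) (nat_lit 1) (nat_lit 10) (nat_lit 7) L123338 (by decide +kernel)
theorem L123340 : W_45 (nat_lit 6) (nat_lit 0x50003c0000000a00078002400020000000000) (nat_lit 0x0) (nat_lit 0xc000000000001800000018000d0002800000) := T_45 (nat_lit 92) (nat_lit 91) (nat_lit 1) (nat_lit 10) (nat_lit 4) L123339 (by decide +kernel)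
theorem L123341 : W_45 (nat_lit 7) (nat_lit 0x50003c0000000a00078002400000000000000) (nat_lit 0x0) (nat_lit 0xc000000000001800000018000f0003800000) := T_45 (nat_lit 41) (nat_lit 24) (nat_lit 7) (nat_lit 7) (nat_lit 1) L123340 (by decide +kernel)
theorem L123342 : W_45 (nat_lit 8) (nat_lit 0x50003c0000000a00078000400000000000000) (nat_lit 0x0) (nat_lit 0xc000000000001800000078000f0003800000) := T_45 (nat_lit 61) (nat_lit 62) (nat_lit 2) (nat_lit 7) (nat_lit 4) L123341 (by decide +kernel)
theorem L123343 : W_45 (nat_lit 9) (nat_lit 0x50003c0000000800078000400000000000000) (nat_lit 0x0) (nat_lit 0xc000000040003800000078000f0003800000) := T_45 (nat_lit 93) (nat_lit 110) (nat_lit 4) (nat_lit 8) (nat_lit 7) L123342 (by decide +kernel)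
theorem L123344 : W_45 (nat_lit 10) (nat_lit 0x10003c0000000800078000400000000000000) (nat_lit 0x0) (nat_lit 0xcc000000040003800000078000f0003800000) := T_45 (nat_lit 146) (nat_lit 147) (nat_lit 3) (nat_lit 7) (nat_lit 7) L123343 (by decide +kernel)
theorem L123345 : W_45 (nat_lit 11) (nat_lit 0x10003c0000000800078000000000000000000) (nat_lit 0x0) (nat_lit 0xcc00000004000380000007e000f0003800000) := T_45 (nat_lit 58) (nat_lit 57) (nat_lit 0) (nat_lit 10) (nat_lit 4) L123344 (by decide +kernel)
theorem L123346 : W_45 (nat_lit 12) (nat_lit 0x10003c0000000000078000000000000000000) (nat_lit 0x0) (nat_lit 0xcc00000004001b80000007e000f0003800000) := T_45 (nat_lit 95) (nat_lit 96) (nat_lit 3) (nat_lit 7) (nat_lit 4) L123345 (by decide +kernel)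
theorem L123347 : W_45 (nat_lit 2) (nat_lit 0x58003c0000000080078002200000000000000) (nat_lit 0x0) (nat_lit 0x40004000100000000000000) := D_45 (nat_lit 74) (nat_lit 56) (nat_lit 90) (nat_lit 0) (nat_lit 9) (nat_lit 4) (nat_lit 1) (nat_lit 9) (nat_lit 4) (by decide +kernel)
theorem L123348 : W_45 (nat_lit 3) (nat_lit 0x58003c0000000080078002000000000000000) (nat_lit 0x0) (nat_lit 0x40004000700000000000000) := T_45 (nat_lit 57) (nat_lit 58) (nat_lit 0) (nat_lit 10) (nat_lit 4) L123347 (by decide +kernel)
theorem L123349 : W_45 (nat_lit 4) (nat_lit 0x58003c0000000080078000000000000000000) (nat_lit 0x0) (nat_lit 0x40004006700000000000000) := T_45 (nat_lit 61) (nat_lit 62) (nat_lit 2) (nat_lit 7) (nat_lit 4) L123348 (by decide +kernel)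
theorem L123350 : W_45 (nat_lit 5) (nat_lit 0x18003c0000000080078000000000000000000) (nat_lit 0x0) (nat_lit 0xc000000000000040004006700000000000000) := T_45 (nat_lit 146) (nat_lit 147) (nat_lit 3) (nat_lit 7) (nat_lit 7) L123349 (by decide +kernel)
theorem L123351 : W_45 (nat_lit 6) (nat_lit 0x18003c0000000000078000000000000000000) (nat_lit 0x0) (nat_lit 0xc0000000000001c0004006700000000000000) := T_45 (nat_lit 91) (nat_lit 92) (nat_lit 1) (nat_lit 10) (nat_lit 4) L123350 (by decide +kernel)
theorem L123352 : W_45 (nat_lit 7) (nat_lit 0x10003c0000000000078000000000000000000) (nat_lit 0x0) (nat_lit 0xcc000000000001c0004006700000000000000) := T_45 (nat_lit 143) (nat_lit 142) (nat_lit 1) (nat_lit 10) (nat_lit 7) L123351 (by decide +kernel)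
theorem L123353 : W_45 (nat_lit 2) (nat_lit 0x50003c0004000000038003000000000000000) (nat_lit 0x0) (nat_lit 0xc800000000000000) := D_45 (nat_lit 62) (nat_lit 63) (nat_lit 59) (nat_lit 1) (nat_lit 12) (nat_lit 3) (nat_lit 1) (nat_lit 11) (nat_lit 3) (by decide +kernel)
theorem L123354 : W_45 (nat_lit 3) (nat_lit 0x50003c0004000000038001000000000000000) (nat_lit 0x0) (nat_lit 0x400e800000000000000) := T_45 (nat_lit 61) (nat_lit 74) (nat_lit 2) (nat_lit 6) (nat_lit 4) L123353 (by decide +kernel)
theorem L123355 : W_45 (nat_lit 4) (nat_lit 0x50003c0000000000038001000000000000000) (nat_lit 0x0) (nat_lit 0x400020000400e800000000000000) := T_45 (nat_lit 110) (nat_lit 93) (nat_lit 6) (nat_lit 8) (nat_lit 7) L123354 (by decide +kernel)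
theorem L123356 : W_45 (nat_lit 5) (nat_lit 0x10003c0000000000038001000000000000000) (nat_lit 0x0) (nat_lit 0xc00000000400020000400e800000000000000) := T_45 (nat_lit 146) (nat_lit 147) (nat_lit 3) (nat_lit 7) (nat_lit 7) L123355 (by decide +kernel)
theorem L123357 : W_45 (nat_lit 2) (nat_lit 0x50003c00000010000f0008800000000000000) (nat_lit 0x0) (nat_lit 0x100011000000000000000) := D_45 (nat_lit 80) (nat_lit 64) (nat_lit 60) (nat_lit 2) (nat_lit 9) (nat_lit 4) (nat_lit 0) (nat_lit 12) (nat_lit 4) (by decide +kernel)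
theorem L123358 : W_45 (nat_lit 3) (nat_lit 0x50003c00000010000f0008000000000000000) (nat_lit 0x0) (nat_lit 0x100011c00000000000000) := T_45 (nat_lit 59) (nat_lit 58) (nat_lit 0) (nat_lit 11) (nat_lit 4) L123357 (by decide +kernel)
theorem L123359 : W_45 (nat_lit 4) (nat_lit 0x50003c00000010000f0000000000000000000) (nat_lit 0x0) (nat_lit 0x10001dc00000000000000) := T_45 (nat_lit 63) (nat_lit 62) (nat_lit 2) (nat_lit 8) (nat_lit 4) L123358 (by decide +kernel)
theorem L123360 : W_45 (nat_lit 5) (nat_lit 0x50003c00000000000f0000000000000000000) (nat_lit 0x0) (nat_lit 0x300010001dc00000000000000) := T_45 (nat_lit 96) (nat_lit 97) (nat_lit 3) (nat_lit 8) (nat_lit 4) L123359 (by decide +kernel)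
theorem L123361 : W_45 (nat_lit 6) (nat_lit 0x10003c00000000000f0000000000000000000) (nat_lit 0x0) (nat_lit 0xc00000000000300010001dc00000000000000) := T_45 (nat_lit 146) (nat_lit 147) (nat_lit 3) (nat_lit 7) (nat_lit 7) L123360 (by decide +kernel)
theorem L123362 : W_45 (nat_lit 2) (nat_lit 0x10003c00000000000f8004000000000000000) (nat_lit 0x0) (nat_lit 0xe00000000000000) := D_45 (nat_lit 58) (nat_lit 57) (nat_lit 59) (nat_lit 0) (nat_lit 10) (nat_lit 4) (nat_lit 0) (nat_lit 11) (nat_lit 4) (by decide +kernel)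
theorem L123363 : W_45 (nat_lit 3) (nat_lit 0x10003c00000000000f0004000000000000000) (nat_lit 0x0) (nat_lit 0x8002e00000000000000) := T_45 (nat_lit 75) (nat_lit 61) (nat_lit 2) (nat_lit 7) (nat_lit 4) L123362 (by decide +kernel)
theorem L123364 : W_45 (nat_lit 4) (nat_lit 0x10003c00000000000f0000000000000000000) (nat_lit 0x0) (nat_lit 0x800ee00000000000000) := T_45 (nat_lit 62) (nat_lit 63) (nat_lit 2) (nat_lit 8) (nat_lit 4) L123363 (by decide +kernel)
theorem L123365 : W_45 (nat_lit 2) (nat_lit 0x10003c00000010000f8000000000000000000) (nat_lit 0x0) (nat_lit 0xe000000000000000) := D_45 (nat_lit 62) (nat_lit 61) (nat_lit 63) (nat_lit 2) (nat_lit 7) (nat_lit 4) (nat_lit 2) (nat_lit 8) (nat_lit 4) (by decide +kernel)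
theorem L123366 : W_45 (nat_lit 3) (nat_lit 0x10003c00000010000f0000000000000000000) (nat_lit 0x0) (nat_lit 0x80000800e000000000000000) := T_45 (nat_lit 75) (nat_lit 95) (nat_lit 3) (nat_lit 7) (nat_lit 4) L123365 (by decide +kernel)
theorem L123367 : W_45 (nat_lit 4) (nat_lit 0x10003c00000000000f0000000000000000000) (nat_lit 0x0) (nat_lit 0x380000800e000000000000000) := T_45 (nat_lit 96) (nat_lit 97) (nat_lit 3) (nat_lit 8) (nat_lit 4) L123366 (by decide +kernel)
theorem L123368 : W_45 (nat_lit 2) (nat_lit 0x10003c00000010000f8001800000000000000) (nat_lit 0x0) (nat_lit 0x6002000000000000000) := D_45 (nat_lit 74) (nat_lit 73) (nat_lit 61) (nat_lit 2) (nat_lit 5) (nat_lit 4) (nat_lit 2) (nat_lit 6) (nat_lit 4) (by decide +kernel)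
theorem L123369 : W_45 (nat_lit 3) (nat_lit 0x10003c00000010000f8000800000000000000) (nat_lit 0x0) (nat_lit 0x106003000000000000000) := T_45 (nat_lit 60) (nat_lit 80) (nat_lit 0) (nat_lit 12) (nat_lit 4) L123368 (by decide +kernel)
theorem L123370 : W_45 (nat_lit 4) (nat_lit 0x10003c00000010000f0000800000000000000) (nat_lit 0x0) (nat_lit 0x80010e003000000000000000) := T_45 (nat_lit 75) (nat_lit 95) (nat_lit 3) (nat_lit 7) (nat_lit 4) L123369 (by decide +kernel)
theorem L123371 : W_45 (nat_lit 5) (nat_lit 0x10003c00000000000f0000800000000000000) (nat_lit 0x0) (nat_lit 0x380010e003000000000000000) := T_45 (nat_lit 96) (nat_lit 97) (nat_lit 3) (nat_lit 8) (nat_lit 4) L123370 (by decide +kernel)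
theorem L123372 : W_45 (nat_lit 6) (nat_lit 0x10003c00000000000f0000000000000000000) (nat_lit 0x0) (nat_lit 0x380010e003c00000000000000) := T_45 (nat_lit 59) (nat_lit 58) (nat_lit 0) (nat_lit 11) (nat_lit 4) L123371 (by decide +kernel)
theorem L123373 : W_45 (nat_lit 7) (nat_lit 0x10003c0000000000070000000000000000000) (nat_lit 0x0) (nat_lit 0xc00000000000380018e01fe00000000000000) := Q_45 (nat_lit 79) (C_45 L123361 (C_45 L123308 (C_45 L123364 (C_45 L123367 (C_45 L123372 N_45))))) (by decide +kernel)
theorem L123374 : W_45 (nat_lit 2) (nat_lit 0x58003c00000012001f0000800000000000000) (nat_lit 0x0) (nat_lit 0x1c000000000000000) := D_45 (nat_lit 63) (nat_lit 62) (nat_lit 64) (nat_lit 2) (nat_lit 8) (nat_lit 4) (nat_lit 2) (nat_lit 9) (nat_lit 4) (by decide +kernel)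
theorem L123375 : W_45 (nat_lit 3) (nat_lit 0x58003c00000012000f0000800000000000000) (nat_lit 0x0) (nat_lit 0x10001d000000000000000) := T_45 (nat_lit 80) (nat_lit 60) (nat_lit 0) (nat_lit 12) (nat_lit 4) L123374 (by decide +kernel)
theorem L123376 : W_45 (nat_lit 4) (nat_lit 0x58003c00000002000f0000800000000000000) (nat_lit 0x0) (nat_lit 0x300010001d000000000000000) := T_45 (nat_lit 96) (nat_lit 97) (nat_lit 3) (nat_lit 8) (nat_lit 4) L123375 (by decide +kernel)
theorem L123377 : W_45 (nat_lit 5) (nat_lit 0x58003c00000002000f0000000000000000000) (nat_lit 0x0) (nat_lit 0x300010001dc00000000000000) := T_45 (nat_lit 59) (nat_lit 58) (nat_lit 0) (nat_lit 11) (nat_lit 4) L123376 (by decide +kernel)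
theorem L123378 : W_45 (nat_lit 6) (nat_lit 0x58003c0000000200070000000000000000000) (nat_lit 0x0) (nat_lit 0x310018001dc00000000000000) := T_45 (nat_lit 79) (nat_lit 92) (nat_lit 1) (nat_lit 11) (nat_lit 4) L123377 (by decide +kernel)
theorem L123379 : W_45 (nat_lit 7) (nat_lit 0x58003c0000000000070000000000000000000) (nat_lit 0x0) (nat_lit 0x400330018001dc00000000000000) := T_45 (nat_lit 93) (nat_lit 110) (nat_lit 5) (nat_lit 8) (nat_lit 4) L123378 (by decide +kernel)
theorem L123380 : W_45 (nat_lit 8) (nat_lit 0x18003c0000000000070000000000000000000) (nat_lit 0x0) (nat_lit 0xc00000000400330018001dc00000000000000) := T_45 (nat_lit 146) (nat_lit 147) (nat_lit 3) (nat_lit 7) (nat_lit 7) L123379 (by decide +kernel)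
theorem L123381 : W_45 (nat_lit 9) (nat_lit 0x10003c0000000000070000000000000000000) (nat_lit 0x0) (nat_lit 0xcc0000000400330018001dc00000000000000) := T_45 (nat_lit 143) (nat_lit 142) (nat_lit 1) (nat_lit 10) (nat_lit 7) L123380 (by decide +kernel)
theorem L123382 : W_45 (nat_lit 2) (nat_lit 0x58003c00000002003f0006800000000000000) (nat_lit 0x0) (nat_lit 0xe000000000000000000000000) := D_45 (nat_lit 98) (nat_lit 97) (nat_lit 99) (nat_lit 3) (nat_lit 9) (nat_lit 4) (nat_lit 3) (nat_lit 10) (nat_lit 4) (by decide +kernel)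
theorem L123383 : W_45 (nat_lit 3) (nat_lit 0x58003c00000002001f0006800000000000000) (nat_lit 0x0) (nat_lit 0xe000600000000000000000000) := T_45 (nat_lit 81) (nat_lit 82) (nat_lit 0) (nat_lit 14) (nat_lit 4) L123382 (by decide +kernel)
theorem L123384 : W_45 (nat_lit 4) (nat_lit 0x58003c00000002000f0006800000000000000) (nat_lit 0x0) (nat_lit 0xe000700001000000000000000) := T_45 (nat_lit 80) (nat_lit 60) (nat_lit 3) (nat_lit 8) (nat_lit 3) L123383 (by decide +kernel)
theorem L123385 : W_45 (nat_lit 5) (nat_lit 0x58003c00000002000f0004800000000000000) (nat_lit 0x0) (nat_lit 0xe000708003000000000000000) := T_45 (nat_lit 61) (nat_lit 75) (nat_lit 2) (nat_lit 7) (nat_lit 4) L123384 (by decide +kernel)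
theorem L123386 : W_45 (nat_lit 6) (nat_lit 0x58003c00000002000f0000800000000000000) (nat_lit 0x0) (nat_lit 0xe00070800f000000000000000) := T_45 (nat_lit 62) (nat_lit 63) (nat_lit 2) (nat_lit 8) (nat_lit 4) L123385 (by decide +kernel)
theorem L123387 : W_45 (nat_lit 7) (nat_lit 0x58003c00000002000f0000000000000000000) (nat_lit 0x0) (nat_lit 0xe00070800fc00000000000000) := T_45 (nat_lit 59) (nat_lit 58) (nat_lit 0) (nat_lit 11) (nat_lit 4) L123386 (by decide +kernel)
theorem L123388 : W_45 (nat_lit 8) (nat_lit 0x58003c0000000200070000000000000000000) (nat_lit 0x0) (nat_lit 0xe10078800fc00000000000000) := T_45 (nat_lit 79) (nat_lit 92) (nat_lit 1) (nat_lit 11) (nat_lit 4) L123387 (by decide +kernel)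
theorem L123389 : W_45 (nat_lit 9) (nat_lit 0x58003c0000000000070000000000000000000) (nat_lit 0x0) (nat_lit 0x400e30078800fc00000000000000) := T_45 (nat_lit 93) (nat_lit 110) (nat_lit 5) (nat_lit 8) (nat_lit 4) L123388 (by decide +kernel)
theorem L123390 : W_45 (nat_lit 10) (nat_lit 0x18003c0000000000070000000000000000000) (nat_lit 0x0) (nat_lit 0xc00000000400e30078800fc00000000000000) := T_45 (nat_lit 146) (nat_lit 147) (nat_lit 3) (nat_lit 7) (nat_lit 7) L123389 (by decide +kernel)
theorem L123391 : W_45 (nat_lit 11) (nat_lit 0x10003c0000000000070000000000000000000) (nat_lit 0x0) (nat_lit 0xcc0000000400e30078800fc00000000000000) := T_45 (nat_lit 143) (nat_lit 142) (nat_lit 1) (nat_lit 10) (nat_lit 7) L123390 (by decide +kernel)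
theorem L123392 : W_45 (nat_lit 2) (nat_lit 0x58003c00000002000f8004000000000000000) (nat_lit 0x0) (nat_lit 0x3800000000000000000000000) := D_45 (nat_lit 96) (nat_lit 97) (nat_lit 95) (nat_lit 3) (nat_lit 8) (nat_lit 4) (nat_lit 3) (nat_lit 7) (nat_lit 4) (by decide +kernel)
theorem L123393 : W_45 (nat_lit 3) (nat_lit 0x58003c00000002000f0004000000000000000) (nat_lit 0x0) (nat_lit 0x3800008002000000000000000) := T_45 (nat_lit 75) (nat_lit 61) (nat_lit 2) (nat_lit 7) (nat_lit 4) L123392 (by decide +kernel)
theorem L123394 : W_45 (nat_lit 4) (nat_lit 0x58003c00000002000f0000000000000000000) (nat_lit 0x0) (nat_lit 0x380000800e000000000000000) := T_45 (nat_lit 62) (nat_lit 63) (nat_lit 2) (nat_lit 8) (nat_lit 4) L123393 (by decide +kernel)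
theorem L123395 : W_45 (nat_lit 5) (nat_lit 0x58003c0000000200070000000000000000000) (nat_lit 0x0) (nat_lit 0x390008800e000000000000000) := T_45 (nat_lit 79) (nat_lit 92) (nat_lit 1) (nat_lit 11) (nat_lit 4) L123394 (by decide +kernel)
theorem L123396 : W_45 (nat_lit 6) (nat_lit 0x58003c0000000000070000000000000000000) (nat_lit 0x0) (nat_lit 0x4003b0008800e000000000000000) := T_45 (nat_lit 93) (nat_lit 110) (nat_lit 5) (nat_lit 8) (nat_lit 4) L123395 (by decide +kernel)
theorem L123397 : W_45 (nat_lit 7) (nat_lit 0x18003c0000000000070000000000000000000) (nat_lit 0x0) (nat_lit 0xc000000004003b0008800e000000000000000) := T_45 (nat_lit 146) (nat_lit 147) (nat_lit 3) (nat_lit 7) (nat_lit 7) L123396 (by decide +kernel)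
theorem L123398 : W_45 (nat_lit 8) (nat_lit 0x10003c0000000000070000000000000000000) (nat_lit 0x0) (nat_lit 0xcc00000004003b0008800e000000000000000) := T_45 (nat_lit 143) (nat_lit 142) (nat_lit 1) (nat_lit 10) (nat_lit 7) L123397 (by decide +kernel)
theorem L123399 : W_45 (nat_lit 2) (nat_lit 0x50003c000000080007c000200000000000000) (nat_lit 0x0) (nat_lit 0x1c0000000000000000000000) := D_45 (nat_lit 91) (nat_lit 92) (nat_lit 90) (nat_lit 1) (nat_lit 10) (nat_lit 4) (nat_lit 1) (nat_lit 9) (nat_lit 4) (by decide +kernel)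
theorem L123400 : W_45 (nat_lit 3) (nat_lit 0x50003c0000000800078000200000000000000) (nat_lit 0x0) (nat_lit 0x1c0004000100000000000000) := T_45 (nat_lit 74) (nat_lit 56) (nat_lit 0) (nat_lit 9) (nat_lit 4) L123399 (by decide +kernel)
theorem L123401 : W_45 (nat_lit 4) (nat_lit 0x10003c0000000800078000200000000000000) (nat_lit 0x0) (nat_lit 0xc0000000000001c0004000100000000000000) := T_45 (nat_lit 146) (nat_lit 147) (nat_lit 3) (nat_lit 7) (nat_lit 7) L123400 (by decide +kernel)
theorem L123402 : W_45 (nat_lit 5) (nat_lit 0x10003c0000000800078000000000000000000) (nat_lit 0x0) (nat_lit 0xc0000000000001c0004000700000000000000) := T_45 (nat_lit 57) (nat_lit 58) (nat_lit 0) (nat_lit 10) (nat_lit 4) L123401 (by decide +kernel)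
theorem L123403 : W_45 (nat_lit 6) (nat_lit 0x10003c0000000000078000000000000000000) (nat_lit 0x0) (nat_lit 0xc0000000000019c0004000700000000000000) := T_45 (nat_lit 95) (nat_lit 96) (nat_lit 3) (nat_lit 7) (nat_lit 4) L123402 (by decide +kernel)
theorem L123404 : W_45 (nat_lit 13) (nat_lit 0x10003c0000000000070000000000000000000) (nat_lit 0x0) (nat_lit 0xcc00000004001bc000c007f000f0003800000) := Q_45 (nat_lit 75) (C_45 L123352 (C_45 L123335 (C_45 L123282 (C_45 L123346 (C_45 L123403 N_45))))) (by decide +kernel)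
theorem L123405 : W_45 (nat_lit 2) (nat_lit 0x58003c00000012000f8001800000000000000) (nat_lit 0x0) (nat_lit 0x6002000000000000000) := D_45 (nat_lit 74) (nat_lit 73) (nat_lit 61) (nat_lit 2) (nat_lit 5) (nat_lit 4) (nat_lit 2) (nat_lit 6) (nat_lit 4) (by decide +kernel)
theorem L123406 : W_45 (nat_lit 3) (nat_lit 0x58003c00000012000f8000800000000000000) (nat_lit 0x0) (nat_lit 0x106003000000000000000) := T_45 (nat_lit 60) (nat_lit 80) (nat_lit 0) (nat_lit 12) (nat_lit 4) L123405 (by decide +kernel)
theorem L123407 : W_45 (nat_lit 4) (nat_lit 0x58003c00000012000f0000800000000000000) (nat_lit 0x0) (nat_lit 0x80010e003000000000000000) := T_45 (nat_lit 75) (nat_lit 95) (nat_lit 3) (nat_lit 7) (nat_lit 4) L123406 (by decide +kernel)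
theorem L123408 : W_45 (nat_lit 5) (nat_lit 0x58003c00000002000f0000800000000000000) (nat_lit 0x0) (nat_lit 0x380010e003000000000000000) := T_45 (nat_lit 96) (nat_lit 97) (nat_lit 3) (nat_lit 8) (nat_lit 4) L123407 (by decide +kernel)
theorem L123409 : W_45 (nat_lit 6) (nat_lit 0x58003c00000002000f0000000000000000000) (nat_lit 0x0) (nat_lit 0x380010e003c00000000000000) := T_45 (nat_lit 59) (nat_lit 58) (nat_lit 0) (nat_lit 11) (nat_lit 4) L123408 (by decide +kernel)
theorem L123410 : W_45 (nat_lit 7) (nat_lit 0x58003c0000000200070000000000000000000) (nat_lit 0x0) (nat_lit 0x390018e003c00000000000000) := T_45 (nat_lit 79) (nat_lit 92) (nat_lit 1) (nat_lit 11) (nat_lit 4) L123409 (by decide +kernel)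
theorem L123411 : W_45 (nat_lit 8) (nat_lit 0x58003c0000000000070000000000000000000) (nat_lit 0x0) (nat_lit 0x4003b0018e003c00000000000000) := T_45 (nat_lit 93) (nat_lit 110) (nat_lit 5) (nat_lit 8) (nat_lit 4) L123410 (by decide +kernel)
theorem L123412 : W_45 (nat_lit 9) (nat_lit 0x18003c0000000000070000000000000000000) (nat_lit 0x0) (nat_lit 0xc000000004003b0018e003c00000000000000) := T_45 (nat_lit 146) (nat_lit 147) (nat_lit 3) (nat_lit 7) (nat_lit 7) L123411 (by decide +kernel)
theorem L123413 : W_45 (nat_lit 10) (nat_lit 0x10003c0000000000070000000000000000000) (nat_lit 0x0) (nat_lit 0xcc00000004003b0018e003c00000000000000) := T_45 (nat_lit 143) (nat_lit 142) (nat_lit 1) (nat_lit 10) (nat_lit 7) L123412 (by decide +kernel)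
theorem L123414 : W_45 (nat_lit 2) (nat_lit 0x18003c00000010000f0006000000000000000) (nat_lit 0x0) (nat_lit 0x30000000000000000100000000000) := D_45 (nat_lit 113) (nat_lit 112) (nat_lit 44) (nat_lit 2) (nat_lit 7) (nat_lit 7) (nat_lit 4) (nat_lit 11) (nat_lit 6) (by decide +kernel)
theorem L123415 : W_45 (nat_lit 3) (nat_lit 0x18003c00000000000f0006000000000000000) (nat_lit 0x0) (nat_lit 0x30003000000000000100000000000) := T_45 (nat_lit 96) (nat_lit 97) (nat_lit 3) (nat_lit 8) (nat_lit 4) L123414 (by decide +kernel)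
theorem L123416 : W_45 (nat_lit 4) (nat_lit 0x18003c00000000000f0004000000000000000) (nat_lit 0x0) (nat_lit 0x30003000008002000100000000000) := T_45 (nat_lit 61) (nat_lit 75) (nat_lit 2) (nat_lit 7) (nat_lit 4) L123415 (by decide +kernel)
theorem L123417 : W_45 (nat_lit 5) (nat_lit 0x18003c00000000000f0000000000000000000) (nat_lit 0x0) (nat_lit 0x3000300000800e000100000000000) := T_45 (nat_lit 62) (nat_lit 63) (nat_lit 2) (nat_lit 8) (nat_lit 4) L123416 (by decide +kernel)
theorem L123418 : W_45 (nat_lit 6) (nat_lit 0x10003c00000000000f0000000000000000000) (nat_lit 0x0) (nat_lit 0xc0000003000300000800e000100000000000) := T_45 (nat_lit 143) (nat_lit 142) (nat_lit 1) (nat_lit 10) (nat_lit 7) L123417 (by decide +kernel)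
theorem L123419 : W_45 (nat_lit 10) (nat_lit 0x10003c0000000000070000000000000000000) (nat_lit 0x0) (nat_lit 0xcc0000003000700038801fe00100000000000) := Q_45 (nat_lit 79) (C_45 L123361 (C_45 L123364 (C_45 L123316 (C_45 L123418 (C_45 L123320 N_45))))) (by decide +kernel)
theorem L123420 : W_45 (nat_lit 2) (nat_lit 0x18003c00000012000f0004000000000000000) (nat_lit 0x0) (nat_lit 0x30000800000000000000000000000) := D_45 (nat_lit 112) (nat_lit 113) (nat_lit 95) (nat_lit 2) (nat_lit 7) (nat_lit 7) (nat_lit 6) (nat_lit 10) (nat_lit 7) (by decide +kernel)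
theorem L123421 : W_45 (nat_lit 3) (nat_lit 0x18003c00000012000f0000000000000000000) (nat_lit 0x0) (nat_lit 0x3000080000000c000000000000000) := T_45 (nat_lit 62) (nat_lit 63) (nat_lit 2) (nat_lit 8) (nat_lit 4) L123420 (by decide +kernel)
theorem L123422 : W_45 (nat_lit 4) (nat_lit 0x18003c00000010000f0000000000000000000) (nat_lit 0x0) (nat_lit 0x34000a0000000c000000000000000) := T_45 (nat_lit 93) (nat_lit 110) (nat_lit 5) (nat_lit 8) (nat_lit 4) L123421 (by decide +kernel)
theorem L123423 : W_45 (nat_lit 5) (nat_lit 0x18003c00000000000f0000000000000000000) (nat_lit 0x0) (nat_lit 0x34003a0000000c000000000000000) := T_45 (nat_lit 96) (nat_lit 97) (nat_lit 3) (nat_lit 8) (nat_lit 4) L123422 (by decide +kernel)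
theorem L123424 : W_45 (nat_lit 6) (nat_lit 0x10003c00000000000f0000000000000000000) (nat_lit 0x0) (nat_lit 0xc00000034003a0000000c000000000000000) := T_45 (nat_lit 143) (nat_lit 142) (nat_lit 1) (nat_lit 10) (nat_lit 7) L123423 (by decide +kernel)
theorem L123425 : W_45 (nat_lit 2) (nat_lit 0x18003c00000018000f0000800000000000000) (nat_lit 0x0) (nat_lit 0x4000000030000000000000000000000000000) := D_45 (nat_lit 112) (nat_lit 113) (nat_lit 146) (nat_lit 2) (nat_lit 7) (nat_lit 7) (nat_lit 6) (nat_lit 10) (nat_lit 8) (by decide +kernel)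
theorem L123426 : W_45 (nat_lit 3) (nat_lit 0x18003c00000010000f0000800000000000000) (nat_lit 0x0) (nat_lit 0x4000000030000800008000000000000000000) := T_45 (nat_lit 95) (nat_lit 75) (nat_lit 3) (nat_lit 7) (nat_lit 4) L123425 (by decide +kernel)
theorem L123427 : W_45 (nat_lit 4) (nat_lit 0x18003c00000000000f0000800000000000000) (nat_lit 0x0) (nat_lit 0x4000000030003800008000000000000000000) := T_45 (nat_lit 96) (nat_lit 97) (nat_lit 3) (nat_lit 8) (nat_lit 4) L123426 (by decide +kernel)
theorem L123428 : W_45 (nat_lit 5) (nat_lit 0x10003c00000000000f0000800000000000000) (nat_lit 0x0) (nat_lit 0x4c00000030003800008000000000000000000) := T_45 (nat_lit 143) (nat_lit 142) (nat_lit 1) (nat_lit 10) (nat_lit 7) L123427 (by decide +kernel)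
theorem L123429 : W_45 (nat_lit 6) (nat_lit 0x10003c00000000000f0000000000000000000) (nat_lit 0x0) (nat_lit 0x4c00000030003800008000c00000000000000) := T_45 (nat_lit 59) (nat_lit 58) (nat_lit 0) (nat_lit 11) (nat_lit 4) L123428 (by decide +kernel)
theorem L123430 : W_45 (nat_lit 7) (nat_lit 0x10003c0000000000070000000000000000000) (nat_lit 0x0) (nat_lit 0x4c00000034003a0008800ee00100000000000) := Q_45 (nat_lit 79) (C_45 L123424 (C_45 L123418 (C_45 L123367 (C_45 L123364 (C_45 L123429 N_45))))) (by decide +kernel)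
theorem L123431 : W_45 (nat_lit 2) (nat_lit 0x50003c00000000000f8004000000000000000) (nat_lit 0x0) (nat_lit 0x380000000000000000000000) := D_45 (nat_lit 92) (nat_lit 91) (nat_lit 93) (nat_lit 1) (nat_lit 10) (nat_lit 4) (nat_lit 1) (nat_lit 11) (nat_lit 4) (by decide +kernel)
theorem L123432 : W_45 (nat_lit 3) (nat_lit 0x50003c00000000000f0004000000000000000) (nat_lit 0x0) (nat_lit 0x380008002000000000000000) := T_45 (nat_lit 75) (nat_lit 61) (nat_lit 2) (nat_lit 7) (nat_lit 4) L123431 (by decide +kernel)
theorem L123433 : W_45 (nat_lit 4) (nat_lit 0x50003c00000000000f0000000000000000000) (nat_lit 0x0) (nat_lit 0x38000800e000000000000000) := T_45 (nat_lit 62) (nat_lit 63) (nat_lit 2) (nat_lit 8) (nat_lit 4) L123432 (by decide +kernel)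
theorem L123434 : W_45 (nat_lit 5) (nat_lit 0x10003c00000000000f0000000000000000000) (nat_lit 0x0) (nat_lit 0xc00000000000038000800e000000000000000) := T_45 (nat_lit 146) (nat_lit 147) (nat_lit 3) (nat_lit 7) (nat_lit 7) L123433 (by decide +kernel)
theorem L123435 : W_45 (nat_lit 7) (nat_lit 0x10003c0000000000070000000000000000000) (nat_lit 0x0) (nat_lit 0xc00000003000738018801fe00000000000000) := Q_45 (nat_lit 79) (C_45 L123361 (C_45 L123364 (C_45 L123434 (C_45 L123320 N_45)))) (by decide +kernel)
theorem L123436 : W_45 (nat_lit 2) (nat_lit 0x10003c0010000800078000000000000000000) (nat_lit 0x0) (nat_lit 0x8000000000006000000000000000) := D_45 (nat_lit 61) (nat_lit 62) (nat_lit 111) (nat_lit 2) (nat_lit 7) (nat_lit 4) (nat_lit 5) (nat_lit 10) (nat_lit 3) (by decide +kernel)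
theorem L123437 : W_45 (nat_lit 2) (nat_lit 0x10003c001000000007c002000000000000000) (nat_lit 0x0) (nat_lit 0x700000000000000) := D_45 (nat_lit 57) (nat_lit 56) (nat_lit 58) (nat_lit 0) (nat_lit 9) (nat_lit 4) (nat_lit 0) (nat_lit 10) (nat_lit 4) (by decide +kernel)
theorem L123438 : W_45 (nat_lit 3) (nat_lit 0x10003c0010000000078002000000000000000) (nat_lit 0x0) (nat_lit 0x4001700000000000000) := T_45 (nat_lit 74) (nat_lit 60) (nat_lit 2) (nat_lit 6) (nat_lit 4) L123437 (by decide +kernel)
theorem L123439 : W_45 (nat_lit 4) (nat_lit 0x10003c0010000000078000000000000000000) (nat_lit 0x0) (nat_lit 0x4007700000000000000) := T_45 (nat_lit 61) (nat_lit 62) (nat_lit 2) (nat_lit 7) (nat_lit 4) L123438 (by decide +kernel)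
theorem L123440 : W_45 (nat_lit 5) (nat_lit 0x10003c0000000000078000000000000000000) (nat_lit 0x0) (nat_lit 0x30000000004007700000000000000) := T_45 (nat_lit 112) (nat_lit 113) (nat_lit 2) (nat_lit 7) (nat_lit 7) L123439 (by decide +kernel)
theorem L123441 : W_45 (nat_lit 2) (nat_lit 0x58003c0010000300078002400070000000000) (nat_lit 0x0) (nat_lit 0x1800080000000000) := D_45 (nat_lit 60) (nat_lit 59) (nat_lit 43) (nat_lit 0) (nat_lit 10) (nat_lit 3) (nat_lit 3) (nat_lit 6) (nat_lit 2) (by decide +kernel)
theorem L123442 : W_45 (nat_lit 3) (nat_lit 0x58003c0010000300078000400070000000000) (nat_lit 0x0) (nat_lit 0x7800080000000000) := T_45 (nat_lit 61) (nat_lit 62) (nat_lit 2) (nat_lit 7) (nat_lit 4) L123441 (by decide +kernel)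
theorem L123443 : W_45 (nat_lit 4) (nat_lit 0x58003c0010000300078000400030000000000) (nat_lit 0x0) (nat_lit 0x78000c0002000000) := T_45 (nat_lit 42) (nat_lit 25) (nat_lit 6) (nat_lit 7) (nat_lit 5) L123442 (by decide +kernel)
theorem L123444 : W_45 (nat_lit 5) (nat_lit 0x58003c0010000300078000400020000000000) (nat_lit 0x0) (nat_lit 0x78000d0002800000) := T_45 (nat_lit 40) (nat_lit 23) (nat_lit 4) (nat_lit 7) (nat_lit 5) L123443 (by decide +kernel)
theorem L123445 : W_45 (nat_lit 6) (nat_lit 0x58003c0000000300078000400020000000000) (nat_lit 0x0) (nat_lit 0x300000000000078000d0002800000) := T_45 (nat_lit 112) (nat_lit 113) (nat_lit 2) (nat_lit 7) (nat_lit 7) L123444 (by decide +kernel)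
theorem L123446 : W_45 (nat_lit 7) (nat_lit 0x58003c0000000200078000400020000000000) (nat_lit 0x0) (nat_lit 0x300001800000078000d0002800000) := T_45 (nat_lit 92) (nat_lit 91) (nat_lit 1) (nat_lit 10) (nat_lit 4) L123445 (by decide +kernel)
theorem L123447 : W_45 (nat_lit 8) (nat_lit 0x18003c0000000200078000400020000000000) (nat_lit 0x0) (nat_lit 0xc0000000300001800000078000d0002800000) := T_45 (nat_lit 146) (nat_lit 147) (nat_lit 3) (nat_lit 7) (nat_lit 7) L123446 (by decide +kernel)
theorem L123448 : W_45 (nat_lit 9) (nat_lit 0x18003c0000000200078000400000000000000) (nat_lit 0x0) (nat_lit 0xc0000000300001800000078000f0003800000) := T_45 (nat_lit 41) (nat_lit 24) (nat_lit 7) (nat_lit 7) (nat_lit 1) L123447 (by decide +kernel)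
theorem L123449 : W_45 (nat_lit 10) (nat_lit 0x18003c0000000000078000400000000000000) (nat_lit 0x0) (nat_lit 0xc0000000340003800000078000f0003800000) := T_45 (nat_lit 93) (nat_lit 110) (nat_lit 5) (nat_lit 8) (nat_lit 4) L123448 (by decide +kernel)
theorem L123450 : W_45 (nat_lit 11) (nat_lit 0x18003c0000000000078000000000000000000) (nat_lit 0x0) (nat_lit 0xc000000034000380000007e000f0003800000) := T_45 (nat_lit 58) (nat_lit 57) (nat_lit 0) (nat_lit 10) (nat_lit 4) L123449 (by decide +kernel)
theorem L123451 : W_45 (nat_lit 12) (nat_lit 0x10003c0000000000078000000000000000000) (nat_lit 0x0) (nat_lit 0xcc00000034000380000007e000f0003800000) := T_45 (nat_lit 143) (nat_lit 142) (nat_lit 1) (nat_lit 10) (nat_lit 7) L123450 (by decide +kernel)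
theorem L123452 : W_45 (nat_lit 2) (nat_lit 0x18003c00100012001f0000800000000000000) (nat_lit 0x0) (nat_lit 0x1c000000000000000) := D_45 (nat_lit 63) (nat_lit 62) (nat_lit 64) (nat_lit 2) (nat_lit 8) (nat_lit 4) (nat_lit 2) (nat_lit 9) (nat_lit 4) (by decide +kernel)
theorem L123453 : W_45 (nat_lit 3) (nat_lit 0x18003c00100012000f0000800000000000000) (nat_lit 0x0) (nat_lit 0x10001d000000000000000) := T_45 (nat_lit 80) (nat_lit 60) (nat_lit 0) (nat_lit 12) (nat_lit 4) L123452 (by decide +kernel)
theorem L123454 : W_45 (nat_lit 4) (nat_lit 0x18003c00100002000f0000800000000000000) (nat_lit 0x0) (nat_lit 0x300010001d000000000000000) := T_45 (nat_lit 96) (nat_lit 97) (nat_lit 3) (nat_lit 8) (nat_lit 4) L123453 (by decide +kernel)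
theorem L123455 : W_45 (nat_lit 5) (nat_lit 0x18003c00100002000f0000000000000000000) (nat_lit 0x0) (nat_lit 0x300010001dc00000000000000) := T_45 (nat_lit 59) (nat_lit 58) (nat_lit 0) (nat_lit 11) (nat_lit 4) L123454 (by decide +kernel)
theorem L123456 : W_45 (nat_lit 6) (nat_lit 0x18003c0010000200070000000000000000000) (nat_lit 0x0) (nat_lit 0x310018001dc00000000000000) := T_45 (nat_lit 79) (nat_lit 92) (nat_lit 1) (nat_lit 11) (nat_lit 4) L123455 (by decide +kernel)
theorem L123457 : W_45 (nat_lit 7) (nat_lit 0x18003c0010000000070000000000000000000) (nat_lit 0x0) (nat_lit 0x400330018001dc00000000000000) := T_45 (nat_lit 93) (nat_lit 110) (nat_lit 5) (nat_lit 8) (nat_lit 4) L123456 (by decide +kernel)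
theorem L123458 : W_45 (nat_lit 8) (nat_lit 0x10003c0010000000070000000000000000000) (nat_lit 0x0) (nat_lit 0xc0000000400330018001dc00000000000000) := T_45 (nat_lit 143) (nat_lit 142) (nat_lit 1) (nat_lit 10) (nat_lit 7) L123457 (by decide +kernel)
theorem L123459 : W_45 (nat_lit 9) (nat_lit 0x10003c0000000000070000000000000000000) (nat_lit 0x0) (nat_lit 0xc0000003400330018001dc00000000000000) := T_45 (nat_lit 112) (nat_lit 113) (nat_lit 2) (nat_lit 7) (nat_lit 7) L123458 (by decide +kernel)
theorem L123460 : W_45 (nat_lit 2) (nat_lit 0x58003c00100022000f0008800000000000000) (nat_lit 0x0) (nat_lit 0x4000100010000000000000000) := D_45 (nat_lit 80) (nat_lit 98) (nat_lit 64) (nat_lit 3) (nat_lit 9) (nat_lit 4) (nat_lit 2) (nat_lit 9) (nat_lit 4) (by decide +kernel)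
theorem L123461 : W_45 (nat_lit 3) (nat_lit 0x58003c00100022000f0000800000000000000) (nat_lit 0x0) (nat_lit 0x400010001c000000000000000) := T_45 (nat_lit 63) (nat_lit 62) (nat_lit 2) (nat_lit 8) (nat_lit 4) L123460 (by decide +kernel)
theorem L123462 : W_45 (nat_lit 4) (nat_lit 0x58003c00100002000f0000800000000000000) (nat_lit 0x0) (nat_lit 0x700010001c000000000000000) := T_45 (nat_lit 97) (nat_lit 96) (nat_lit 3) (nat_lit 8) (nat_lit 4) L123461 (by decide +kernel)
theorem L123463 : W_45 (nat_lit 5) (nat_lit 0x58003c00100002000f0000000000000000000) (nat_lit 0x0) (nat_lit 0x700010001cc00000000000000) := T_45 (nat_lit 59) (nat_lit 58) (nat_lit 0) (nat_lit 11) (nat_lit 4) L123462 (by decide +kernel)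
theorem L123464 : W_45 (nat_lit 6) (nat_lit 0x58003c0010000200070000000000000000000) (nat_lit 0x0) (nat_lit 0x710018001cc00000000000000) := T_45 (nat_lit 79) (nat_lit 92) (nat_lit 1) (nat_lit 11) (nat_lit 4) L123463 (by decide +kernel)
theorem L123465 : W_45 (nat_lit 7) (nat_lit 0x58003c0010000000070000000000000000000) (nat_lit 0x0) (nat_lit 0x400730018001cc00000000000000) := T_45 (nat_lit 93) (nat_lit 110) (nat_lit 5) (nat_lit 8) (nat_lit 4) L123464 (by decide +kernel)
theorem L123466 : W_45 (nat_lit 8) (nat_lit 0x50003c0010000000070000000000000000000) (nat_lit 0x0) (nat_lit 0xc0000000400730018001cc00000000000000) := T_45 (nat_lit 143) (nat_lit 142) (nat_lit 1) (nat_lit 10) (nat_lit 7) L123465 (by decide +kernel)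
theorem L123467 : W_45 (nat_lit 9) (nat_lit 0x10003c0010000000070000000000000000000) (nat_lit 0x0) (nat_lit 0xcc0000000400730018001cc00000000000000) := T_45 (nat_lit 146) (nat_lit 147) (nat_lit 3) (nat_lit 7) (nat_lit 7) L123466 (by decide +kernel)
theorem L123468 : W_45 (nat_lit 10) (nat_lit 0x10003c0000000000070000000000000000000) (nat_lit 0x0) (nat_lit 0xcc0000003400730018001cc00000000000000) := T_45 (nat_lit 112) (nat_lit 113) (nat_lit 2) (nat_lit 7) (nat_lit 7) L123467 (by decide +kernel)
theorem L123469 : W_45 (nat_lit 2) (nat_lit 0x50003c001000030007c002100000000000000) (nat_lit 0x0) (nat_lit 0x3000080000000000000) := D_45 (nat_lit 73) (nat_lit 72) (nat_lit 55) (nat_lit 3) (nat_lit 4) (nat_lit 4) (nat_lit 0) (nat_lit 8) (nat_lit 4) (by decide +kernel)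
theorem L123470 : W_45 (nat_lit 3) (nat_lit 0x50003c001000030007c002000000000000000) (nat_lit 0x0) (nat_lit 0x3000380000000000000) := T_45 (nat_lit 56) (nat_lit 57) (nat_lit 0) (nat_lit 9) (nat_lit 4) L123469 (by decide +kernel)
theorem L123471 : W_45 (nat_lit 4) (nat_lit 0x50003c0010000300078002000000000000000) (nat_lit 0x0) (nat_lit 0x7001380000000000000) := T_45 (nat_lit 74) (nat_lit 60) (nat_lit 2) (nat_lit 6) (nat_lit 4) L123470 (by decide +kernel)
theorem L123472 : W_45 (nat_lit 5) (nat_lit 0x50003c0010000300078000000000000000000) (nat_lit 0x0) (nat_lit 0x7007380000000000000) := T_45 (nat_lit 61) (nat_lit 62) (nat_lit 2) (nat_lit 7) (nat_lit 4) L123471 (by decide +kernel)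
theorem L123473 : W_45 (nat_lit 6) (nat_lit 0x50003c0010000100078000000000000000000) (nat_lit 0x0) (nat_lit 0x4000200007007380000000000000) := T_45 (nat_lit 93) (nat_lit 110) (nat_lit 4) (nat_lit 8) (nat_lit 8) L123472 (by decide +kernel)
theorem L123474 : W_45 (nat_lit 7) (nat_lit 0x50003c0000000100078000000000000000000) (nat_lit 0x0) (nat_lit 0x34000200007007380000000000000) := T_45 (nat_lit 112) (nat_lit 113) (nat_lit 2) (nat_lit 7) (nat_lit 7) L123473 (by decide +kernel)
theorem L123475 : W_45 (nat_lit 8) (nat_lit 0x50003c0000000000078000000000000000000) (nat_lit 0x0) (nat_lit 0x34000380007007380000000000000) := T_45 (nat_lit 92) (nat_lit 91) (nat_lit 1) (nat_lit 10) (nat_lit 4) L123474 (by decide +kernel)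
theorem L123476 : W_45 (nat_lit 9) (nat_lit 0x10003c0000000000078000000000000000000) (nat_lit 0x0) (nat_lit 0xc000000034000380007007380000000000000) := T_45 (nat_lit 146) (nat_lit 147) (nat_lit 3) (nat_lit 7) (nat_lit 7) L123475 (by decide +kernel)
theorem L123477 : W_45 (nat_lit 2) (nat_lit 0x58003c0010000280078002000000000000000) (nat_lit 0x0) (nat_lit 0x40004001000000000000000) := D_45 (nat_lit 74) (nat_lit 60) (nat_lit 90) (nat_lit 2) (nat_lit 6) (nat_lit 4) (nat_lit 1) (nat_lit 9) (nat_lit 4) (by decide +kernel)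
theorem L123478 : W_45 (nat_lit 3) (nat_lit 0x58003c0010000280078000000000000000000) (nat_lit 0x0) (nat_lit 0x40004007000000000000000) := T_45 (nat_lit 61) (nat_lit 62) (nat_lit 2) (nat_lit 7) (nat_lit 4) L123477 (by decide +kernel)
theorem L123479 : W_45 (nat_lit 4) (nat_lit 0x58003c0010000200078000000000000000000) (nat_lit 0x0) (nat_lit 0x1c0004007000000000000000) := T_45 (nat_lit 91) (nat_lit 92) (nat_lit 1) (nat_lit 10) (nat_lit 4) L123478 (by decide +kernel)
theorem L123480 : W_45 (nat_lit 5) (nat_lit 0x58003c0000000200078000000000000000000) (nat_lit 0x0) (nat_lit 0x300001c0004007000000000000000) := T_45 (nat_lit 112) (nat_lit 113) (nat_lit 2) (nat_lit 7) (nat_lit 7) L123479 (by decide +kernel)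
theorem L123481 : W_45 (nat_lit 6) (nat_lit 0x58003c0000000000078000000000000000000) (nat_lit 0x0) (nat_lit 0x340003c0004007000000000000000) := T_45 (nat_lit 93) (nat_lit 110) (nat_lit 5) (nat_lit 8) (nat_lit 4) L123480 (by decide +kernel)
theorem L123482 : W_45 (nat_lit 7) (nat_lit 0x18003c0000000000078000000000000000000) (nat_lit 0x0) (nat_lit 0xc0000000340003c0004007000000000000000) := T_45 (nat_lit 146) (nat_lit 147) (nat_lit 3) (nat_lit 7) (nat_lit 7) L123481 (by decide +kernel)
theorem L123483 : W_45 (nat_lit 8) (nat_lit 0x10003c0000000000078000000000000000000) (nat_lit 0x0) (nat_lit 0xcc000000340003c0004007000000000000000) := T_45 (nat_lit 143) (nat_lit 142) (nat_lit 1) (nat_lit 10) (nat_lit 7) L123482 (by decide +kernel)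
theorem L123484 : W_45 (nat_lit 2) (nat_lit 0x58003c001000030007e000200000000800000) (nat_lit 0x0) (nat_lit 0x3800000000000000) := D_45 (nat_lit 60) (nat_lit 61) (nat_lit 59) (nat_lit 2) (nat_lit 6) (nat_lit 4) (nat_lit 2) (nat_lit 5) (nat_lit 4) (by decide +kernel)
theorem L123485 : W_45 (nat_lit 3) (nat_lit 0x58003c001000030007c000200000000800000) (nat_lit 0x0) (nat_lit 0x3003800000000000000) := T_45 (nat_lit 73) (nat_lit 72) (nat_lit 3) (nat_lit 4) (nat_lit 4) L123484 (by decide +kernel)
theorem L123486 : W_45 (nat_lit 4) (nat_lit 0x58003c001000030007c000200000000000000) (nat_lit 0x0) (nat_lit 0x3003800010000800000) := T_45 (nat_lit 23) (nat_lit 40) (nat_lit 7) (nat_lit 6) (nat_lit 1) L123485 (by decide +kernel)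
theorem L123487 : W_45 (nat_lit 5) (nat_lit 0x50003c001000030007c000200000000000000) (nat_lit 0x0) (nat_lit 0xc00000000000000003003800010000800000) := T_45 (nat_lit 143) (nat_lit 142) (nat_lit 1) (nat_lit 10) (nat_lit 7) L123486 (by decide +kernel)
theorem L123488 : W_45 (nat_lit 6) (nat_lit 0x50003c0010000300078000200000000000000) (nat_lit 0x0) (nat_lit 0xc00000000000000007003900010000800000) := T_45 (nat_lit 74) (nat_lit 56) (nat_lit 0) (nat_lit 9) (nat_lit 4) L123487 (by decide +kernel)
theorem L123489 : W_45 (nat_lit 7) (nat_lit 0x50003c0000000300078000200000000000000) (nat_lit 0x0) (nat_lit 0xc00000030000000007003900010000800000) := T_45 (nat_lit 112) (nat_lit 113) (nat_lit 2) (nat_lit 7) (nat_lit 7) L123488 (by decide +kernel)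
theorem L123490 : W_45 (nat_lit 8) (nat_lit 0x50003c0000000300078000000000000000000) (nat_lit 0x0) (nat_lit 0xc00000030000000007003f00010000800000) := T_45 (nat_lit 57) (nat_lit 58) (nat_lit 0) (nat_lit 10) (nat_lit 4) L123489 (by decide +kernel)
theorem L123491 : W_45 (nat_lit 9) (nat_lit 0x50003c0000000100078000000000000000000) (nat_lit 0x0) (nat_lit 0xc00000034000200007003f00010000800000) := T_45 (nat_lit 93) (nat_lit 110) (nat_lit 4) (nat_lit 8) (nat_lit 8) L123490 (by decide +kernel)
theorem L123492 : W_45 (nat_lit 10) (nat_lit 0x10003c0000000100078000000000000000000) (nat_lit 0x0) (nat_lit 0xcc00000034000200007003f00010000800000) := T_45 (nat_lit 146) (nat_lit 147) (nat_lit 3) (nat_lit 7) (nat_lit 7) L123491 (by decide +kernel)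
theorem L123493 : W_45 (nat_lit 11) (nat_lit 0x10003c0000000000078000000000000000000) (nat_lit 0x0) (nat_lit 0xcc00000034000380007003f00010000800000) := T_45 (nat_lit 92) (nat_lit 91) (nat_lit 1) (nat_lit 10) (nat_lit 4) L123492 (by decide +kernel)
theorem L123494 : W_45 (nat_lit 2) (nat_lit 0x50003c0010000080078000200000000000000) (nat_lit 0x0) (nat_lit 0x40004000100000000000000) := D_45 (nat_lit 74) (nat_lit 90) (nat_lit 56) (nat_lit 1) (nat_lit 9) (nat_lit 4) (nat_lit 0) (nat_lit 9) (nat_lit 4) (by decide +kernel)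
theorem L123495 : W_45 (nat_lit 3) (nat_lit 0x50003c0010000080078000000000000000000) (nat_lit 0x0) (nat_lit 0x40004000700000000000000) := T_45 (nat_lit 57) (nat_lit 58) (nat_lit 0) (nat_lit 10) (nat_lit 4) L123494 (by decide +kernel)
theorem L123496 : W_45 (nat_lit 4) (nat_lit 0x50003c0010000000078000000000000000000) (nat_lit 0x0) (nat_lit 0x1c0004000700000000000000) := T_45 (nat_lit 91) (nat_lit 92) (nat_lit 1) (nat_lit 10) (nat_lit 4) L123495 (by decide +kernel)
theorem L123497 : W_45 (nat_lit 5) (nat_lit 0x10003c0010000000078000000000000000000) (nat_lit 0x0) (nat_lit 0xc0000000000001c0004000700000000000000) := T_45 (nat_lit 146) (nat_lit 147) (nat_lit 3) (nat_lit 7) (nat_lit 7) L123496 (by decide +kernel)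
theorem L123498 : W_45 (nat_lit 6) (nat_lit 0x10003c0000000000078000000000000000000) (nat_lit 0x0) (nat_lit 0xc0000000300001c0004000700000000000000) := T_45 (nat_lit 112) (nat_lit 113) (nat_lit 2) (nat_lit 7) (nat_lit 7) L123497 (by decide +kernel)
theorem L123499 : W_45 (nat_lit 13) (nat_lit 0x10003c0000000000070000000000000000000) (nat_lit 0x0) (nat_lit 0xcc000000340003c000f007f800f0003800000) := Q_45 (nat_lit 75) (C_45 L123440 (C_45 L123451 (C_45 L123352 (C_45 L123476 (C_45 L123483 (C_45 L123493 (C_45 L123498 N_45))))))) (by decide +kernel)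
theorem L123500 : W_45 (nat_lit 2) (nat_lit 0x58003c00100022001f0006000000000000000) (nat_lit 0x0) (nat_lit 0x600001000000000000000) := D_45 (nat_lit 81) (nat_lit 82) (nat_lit 60) (nat_lit 0) (nat_lit 14) (nat_lit 4) (nat_lit 0) (nat_lit 13) (nat_lit 4) (by decide +kernel)
theorem L123501 : W_45 (nat_lit 3) (nat_lit 0x58003c00100022000f0006000000000000000) (nat_lit 0x0) (nat_lit 0x4000700001000000000000000) := T_45 (nat_lit 80) (nat_lit 98) (nat_lit 3) (nat_lit 9) (nat_lit 4) L123500 (by decide +kernel)
theorem L123502 : W_45 (nat_lit 4) (nat_lit 0x58003c00100022000f0004000000000000000) (nat_lit 0x0) (nat_lit 0x4000708003000000000000000) := T_45 (nat_lit 61) (nat_lit 75) (nat_lit 2) (nat_lit 7) (nat_lit 4) L123501 (by decide +kernel)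
theorem L123503 : W_45 (nat_lit 5) (nat_lit 0x58003c00100022000f0000000000000000000) (nat_lit 0x0) (nat_lit 0x400070800f000000000000000) := T_45 (nat_lit 62) (nat_lit 63) (nat_lit 2) (nat_lit 8) (nat_lit 4) L123502 (by decide +kernel)
theorem L123504 : W_45 (nat_lit 6) (nat_lit 0x58003c00100002000f0000000000000000000) (nat_lit 0x0) (nat_lit 0x700070800f000000000000000) := T_45 (nat_lit 97) (nat_lit 96) (nat_lit 3) (nat_lit 8) (nat_lit 4) L123503 (by decide +kernel)
theorem L123505 : W_45 (nat_lit 7) (nat_lit 0x18003c00100002000f0000000000000000000) (nat_lit 0x0) (nat_lit 0xc00000000000700070800f000000000000000) := T_45 (nat_lit 146) (nat_lit 147) (nat_lit 3) (nat_lit 7) (nat_lit 7) L123504 (by decide +kernel)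
theorem L123506 : W_45 (nat_lit 8) (nat_lit 0x18003c0010000200070000000000000000000) (nat_lit 0x0) (nat_lit 0xc00000000000710078800f000000000000000) := T_45 (nat_lit 79) (nat_lit 92) (nat_lit 1) (nat_lit 11) (nat_lit 4) L123505 (by decide +kernel)
theorem L123507 : W_45 (nat_lit 9) (nat_lit 0x18003c0010000000070000000000000000000) (nat_lit 0x0) (nat_lit 0xc00000000400730078800f000000000000000) := T_45 (nat_lit 93) (nat_lit 110) (nat_lit 5) (nat_lit 8) (nat_lit 4) L123506 (by decide +kernel)
theorem L123508 : W_45 (nat_lit 10) (nat_lit 0x18003c0000000000070000000000000000000) (nat_lit 0x0) (nat_lit 0xc00000003400730078800f000000000000000) := T_45 (nat_lit 112) (nat_lit 113) (nat_lit 2) (nat_lit 7) (nat_lit 7) L123507 (by decide +kernel)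
theorem L123509 : W_45 (nat_lit 11) (nat_lit 0x10003c0000000000070000000000000000000) (nat_lit 0x0) (nat_lit 0xcc0000003400730078800f000000000000000) := T_45 (nat_lit 143) (nat_lit 142) (nat_lit 1) (nat_lit 10) (nat_lit 7) L123508 (by decide +kernel)
theorem L123510 : W_45 (nat_lit 2) (nat_lit 0x58003c00100022000f0000800000000000000) (nat_lit 0x0) (nat_lit 0x4000100001000000000000000) := D_45 (nat_lit 80) (nat_lit 60) (nat_lit 98) (nat_lit 0) (nat_lit 12) (nat_lit 4) (nat_lit 3) (nat_lit 9) (nat_lit 4) (by decide +kernel)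
theorem L123511 : W_45 (nat_lit 3) (nat_lit 0x58003c00100002000f0000800000000000000) (nat_lit 0x0) (nat_lit 0x7000100001000000000000000) := T_45 (nat_lit 97) (nat_lit 96) (nat_lit 3) (nat_lit 8) (nat_lit 4) L123510 (by decide +kernel)
theorem L123512 : W_45 (nat_lit 4) (nat_lit 0x58003c00100002000f0000000000000000000) (nat_lit 0x0) (nat_lit 0x7000100001c00000000000000) := T_45 (nat_lit 59) (nat_lit 58) (nat_lit 0) (nat_lit 11) (nat_lit 4) L123511 (by decide +kernel)
theorem L123513 : W_45 (nat_lit 5) (nat_lit 0x58003c0010000200070000000000000000000) (nat_lit 0x0) (nat_lit 0x7100180001c00000000000000) := T_45 (nat_lit 79) (nat_lit 92) (nat_lit 1) (nat_lit 11) (nat_lit 4) L123512 (by decide +kernel)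
theorem L123514 : W_45 (nat_lit 6) (nat_lit 0x58003c0010000000070000000000000000000) (nat_lit 0x0) (nat_lit 0x4007300180001c00000000000000) := T_45 (nat_lit 93) (nat_lit 110) (nat_lit 5) (nat_lit 8) (nat_lit 4) L123513 (by decide +kernel)
theorem L123515 : W_45 (nat_lit 7) (nat_lit 0x50003c0010000000070000000000000000000) (nat_lit 0x0) (nat_lit 0xc00000004007300180001c00000000000000) := T_45 (nat_lit 143) (nat_lit 142) (nat_lit 1) (nat_lit 10) (nat_lit 7) L123514 (by decide +kernel)
theorem L123516 : W_45 (nat_lit 8) (nat_lit 0x50003c0000000000070000000000000000000) (nat_lit 0x0) (nat_lit 0xc00000034007300180001c00000000000000) := T_45 (nat_lit 112) (nat_lit 113) (nat_lit 2) (nat_lit 7) (nat_lit 7) L123515 (by decide +kernel)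
theorem L123517 : W_45 (nat_lit 9) (nat_lit 0x10003c0000000000070000000000000000000) (nat_lit 0x0) (nat_lit 0xcc00000034007300180001c00000000000000) := T_45 (nat_lit 146) (nat_lit 147) (nat_lit 3) (nat_lit 7) (nat_lit 7) L123516 (by decide +kernel)
theorem L123518 : W_45 (nat_lit 2) (nat_lit 0x50003c001000004003e000000000000000000) (nat_lit 0x0) (nat_lit 0x380000000000000) := D_45 (nat_lit 56) (nat_lit 55) (nat_lit 57) (nat_lit 0) (nat_lit 8) (nat_lit 4) (nat_lit 0) (nat_lit 9) (nat_lit 4) (by decide +kernel)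
theorem L123519 : W_45 (nat_lit 3) (nat_lit 0x50003c001000004003c000000000000000000) (nat_lit 0x0) (nat_lit 0x20002000380000000000000) := T_45 (nat_lit 73) (nat_lit 89) (nat_lit 1) (nat_lit 8) (nat_lit 4) L123518 (by decide +kernel)
theorem L123520 : W_45 (nat_lit 4) (nat_lit 0x50003c000000004003c000000000000000000) (nat_lit 0x0) (nat_lit 0x30000020002000380000000000000) := T_45 (nat_lit 112) (nat_lit 113) (nat_lit 2) (nat_lit 7) (nat_lit 7) L123519 (by decide +kernel)
theorem L123521 : W_45 (nat_lit 5) (nat_lit 0x50003c000000000003c000000000000000000) (nat_lit 0x0) (nat_lit 0x300000e0002000380000000000000) := T_45 (nat_lit 90) (nat_lit 91) (nat_lit 1) (nat_lit 9) (nat_lit 4) L123520 (by decide +kernel)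
theorem L123522 : W_45 (nat_lit 6) (nat_lit 0x10003c000000000003c000000000000000000) (nat_lit 0x0) (nat_lit 0xc0000000300000e0002000380000000000000) := T_45 (nat_lit 146) (nat_lit 147) (nat_lit 3) (nat_lit 7) (nat_lit 7) L123521 (by decide +kernel)
theorem L123523 : W_45 (nat_lit 2) (nat_lit 0x10003c0000000800078002000000000000000) (nat_lit 0x0) (nat_lit 0x38000000000000000000000000000) := D_45 (nat_lit 112) (nat_lit 113) (nat_lit 111) (nat_lit 2) (nat_lit 7) (nat_lit 7) (nat_lit 5) (nat_lit 10) (nat_lit 3) (by decide +kernel)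
theorem L123524 : W_45 (nat_lit 3) (nat_lit 0x10003c0000000800078000000000000000000) (nat_lit 0x0) (nat_lit 0x38000000000006000000000000000) := T_45 (nat_lit 61) (nat_lit 62) (nat_lit 2) (nat_lit 7) (nat_lit 4) L123523 (by decide +kernel)
theorem L123525 : W_45 (nat_lit 4) (nat_lit 0x10003c0000000000078000000000000000000) (nat_lit 0x0) (nat_lit 0x38001800000006000000000000000) := T_45 (nat_lit 95) (nat_lit 96) (nat_lit 3) (nat_lit 7) (nat_lit 4) L123524 (by decide +kernel)
theorem L123526 : W_45 (nat_lit 7) (nat_lit 0x10003c0000000000070000000000000000000) (nat_lit 0x0) (nat_lit 0xc0000000380019c000c006700000000000000) := Q_45 (nat_lit 75) (C_45 L123403 (C_45 L123498 (C_45 L123324 (C_45 L123525 N_45)))) (by decide +kernel)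
theorem L123527 : W_45 (nat_lit 2) (nat_lit 0x18003c00100002000f0000000000000000000) (nat_lit 0x0) (nat_lit 0x80000000c000000000000000) := D_45 (nat_lit 62) (nat_lit 63) (nat_lit 95) (nat_lit 2) (nat_lit 8) (nat_lit 4) (nat_lit 6) (nat_lit 10) (nat_lit 7) (by decide +kernel)
theorem L123528 : W_45 (nat_lit 3) (nat_lit 0x18003c0010000200070000000000000000000) (nat_lit 0x0) (nat_lit 0x90008000c000000000000000) := T_45 (nat_lit 79) (nat_lit 92) (nat_lit 1) (nat_lit 11) (nat_lit 4) L123527 (by decide +kernel)
theorem L123529 : W_45 (nat_lit 4) (nat_lit 0x18003c0010000000070000000000000000000) (nat_lit 0x0) (nat_lit 0x4000b0008000c000000000000000) := T_45 (nat_lit 93) (nat_lit 110) (nat_lit 5) (nat_lit 8) (nat_lit 4) L123528 (by decide +kernel)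
theorem L123530 : W_45 (nat_lit 5) (nat_lit 0x10003c0010000000070000000000000000000) (nat_lit 0x0) (nat_lit 0xc00000004000b0008000c000000000000000) := T_45 (nat_lit 143) (nat_lit 142) (nat_lit 1) (nat_lit 10) (nat_lit 7) L123529 (by decide +kernel)
theorem L123531 : W_45 (nat_lit 6) (nat_lit 0x10003c0000000000070000000000000000000) (nat_lit 0x0) (nat_lit 0xc00000034000b0008000c000000000000000) := T_45 (nat_lit 112) (nat_lit 113) (nat_lit 2) (nat_lit 7) (nat_lit 7) L123530 (by decide +kernel)
theorem L123532 : W_45 (nat_lit 2) (nat_lit 0x58003c00000012000f0000800000000000000) (nat_lit 0x0) (nat_lit 0x10000800008000000000000000000) := D_45 (nat_lit 95) (nat_lit 75) (nat_lit 112) (nat_lit 3) (nat_lit 7) (nat_lit 4) (nat_lit 6) (nat_lit 10) (nat_lit 8) (by decide +kernel)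
theorem L123533 : W_45 (nat_lit 3) (nat_lit 0x58003c00000002000f0000800000000000000) (nat_lit 0x0) (nat_lit 0x10003800008000000000000000000) := T_45 (nat_lit 96) (nat_lit 97) (nat_lit 3) (nat_lit 8) (nat_lit 4) L123532 (by decide +kernel)
theorem L123534 : W_45 (nat_lit 4) (nat_lit 0x58003c00000002000f0000000000000000000) (nat_lit 0x0) (nat_lit 0x10003800008000c00000000000000) := T_45 (nat_lit 59) (nat_lit 58) (nat_lit 0) (nat_lit 11) (nat_lit 4) L123533 (by decide +kernel)
theorem L123535 : W_45 (nat_lit 5) (nat_lit 0x58003c0000000200070000000000000000000) (nat_lit 0x0) (nat_lit 0x10003900088000c00000000000000) := T_45 (nat_lit 79) (nat_lit 92) (nat_lit 1) (nat_lit 11) (nat_lit 4) L123534 (by decide +kernel)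
theorem L123536 : W_45 (nat_lit 6) (nat_lit 0x58003c0000000000070000000000000000000) (nat_lit 0x0) (nat_lit 0x14003b00088000c00000000000000) := T_45 (nat_lit 93) (nat_lit 110) (nat_lit 5) (nat_lit 8) (nat_lit 4) L123535 (by decide +kernel)
theorem L123537 : W_45 (nat_lit 7) (nat_lit 0x18003c0000000000070000000000000000000) (nat_lit 0x0) (nat_lit 0xc000000014003b00088000c00000000000000) := T_45 (nat_lit 146) (nat_lit 147) (nat_lit 3) (nat_lit 7) (nat_lit 7) L123536 (by decide +kernel)
theorem L123538 : W_45 (nat_lit 8) (nat_lit 0x10003c0000000000070000000000000000000) (nat_lit 0x0) (nat_lit 0xcc00000014003b00088000c00000000000000) := T_45 (nat_lit 143) (nat_lit 142) (nat_lit 1) (nat_lit 10) (nat_lit 7) L123537 (by decide +kernel)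
theorem L123539 : W_45 (nat_lit 2) (nat_lit 0x50003c0010000800060000000000000000000) (nat_lit 0x0) (nat_lit 0x1000080004000000000000000) := D_45 (nat_lit 79) (nat_lit 62) (nat_lit 96) (nat_lit 6) (nat_lit 10) (nat_lit 7) (nat_lit 6) (nat_lit 10) (nat_lit 8) (by decide +kernel)
theorem L123540 : W_45 (nat_lit 3) (nat_lit 0x50003c0010000000060000000000000000000) (nat_lit 0x0) (nat_lit 0x1800080005000000000000000) := T_45 (nat_lit 95) (nat_lit 60) (nat_lit 4) (nat_lit 10) (nat_lit 7) L123539 (by decide +kernel)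
theorem L123541 : W_45 (nat_lit 4) (nat_lit 0x10003c0010000000060000000000000000000) (nat_lit 0x0) (nat_lit 0xc000000000001800080005000000000000000) := T_45 (nat_lit 146) (nat_lit 147) (nat_lit 3) (nat_lit 7) (nat_lit 7) L123540 (by decide +kernel)
theorem L123542 : W_45 (nat_lit 5) (nat_lit 0x10003c0000000000060000000000000000000) (nat_lit 0x0) (nat_lit 0xc000000030001800080005000000000000000) := T_45 (nat_lit 112) (nat_lit 113) (nat_lit 2) (nat_lit 7) (nat_lit 7) L123541 (by decide +kernel)
theorem L123543 : W_45 (nat_lit 13) (nat_lit 0x10003c0000000000068000000000000000000) (nat_lit 0x0) (nat_lit 0xcc00000004001bc0014007f000f0003800000) := Q_45 (nat_lit 76) (C_45 L123403 (C_45 L123352 (C_45 L123335 (C_45 L123282 (C_45 L123346 N_45))))) (by decide +kernel)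
theorem L123544 : W_45 (nat_lit 2) (nat_lit 0x18003c0010000200020000000000000000000) (nat_lit 0x0) (nat_lit 0x10000000000004000000010000000000000000000) := D_45 (nat_lit 110) (nat_lit 160) (nat_lit 76) (nat_lit 5) (nat_lit 8) (nat_lit 5) (nat_lit 5) (nat_lit 8) (nat_lit 4) (by decide +kernel)
theorem L123545 : W_45 (nat_lit 3) (nat_lit 0x10003c0010000200020000000000000000000) (nat_lit 0x0) (nat_lit 0x10000c00000004000000010000000000000000000) := T_45 (nat_lit 143) (nat_lit 142) (nat_lit 1) (nat_lit 10) (nat_lit 7) L123544 (by decide +kernel)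
theorem L123546 : W_45 (nat_lit 4) (nat_lit 0x10003c0000000200020000000000000000000) (nat_lit 0x0) (nat_lit 0x10000c00000034000000010000000000000000000) := T_45 (nat_lit 112) (nat_lit 113) (nat_lit 2) (nat_lit 7) (nat_lit 7) L123545 (by decide +kernel)
theorem L123547 : W_45 (nat_lit 2) (nat_lit 0x58003c0000000200020000000000000000000) (nat_lit 0x0) (nat_lit 0x10000000000004000000010000000000000000000) := D_45 (nat_lit 110) (nat_lit 160) (nat_lit 76) (nat_lit 5) (nat_lit 8) (nat_lit 5) (nat_lit 5) (nat_lit 8) (nat_lit 4) (by decide +kernel)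
theorem L123548 : W_45 (nat_lit 3) (nat_lit 0x50003c0000000200020000000000000000000) (nat_lit 0x0) (nat_lit 0x10000c00000004000000010000000000000000000) := T_45 (nat_lit 143) (nat_lit 142) (nat_lit 1) (nat_lit 10) (nat_lit 7) L123547 (by decide +kernel)
theorem L123549 : W_45 (nat_lit 4) (nat_lit 0x10003c0000000200020000000000000000000) (nat_lit 0x0) (nat_lit 0x1000cc00000004000000010000000000000000000) := T_45 (nat_lit 146) (nat_lit 147) (nat_lit 3) (nat_lit 7) (nat_lit 7) L123548 (by decide +kernel)
theorem L123550 : W_45 (nat_lit 2) (nat_lit 0x10003c0000000800078000000000000000000) (nat_lit 0x0) (nat_lit 0x30000000000001000000000000000) := D_45 (nat_lit 112) (nat_lit 113) (nat_lit 60) (nat_lit 2) (nat_lit 7) (nat_lit 7) (nat_lit 4) (nat_lit 10) (nat_lit 7) (by decide +kernel)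
theorem L123551 : W_45 (nat_lit 3) (nat_lit 0x10003c0000000000078000000000000000000) (nat_lit 0x0) (nat_lit 0x30001800000001000000000000000) := T_45 (nat_lit 95) (nat_lit 96) (nat_lit 3) (nat_lit 7) (nat_lit 4) L123550 (by decide +kernel)
theorem L123552 : W_45 (nat_lit 6) (nat_lit 0x10003c0000000000038000000000000000000) (nat_lit 0x0) (nat_lit 0x38001800044007700000000000000) := Q_45 (nat_lit 78) (C_45 L123525 (C_45 L123440 (C_45 L123335 (C_45 L123551 N_45)))) (by decide +kernel)
theorem L123553 : W_45 (nat_lit 2) (nat_lit 0x50003c0010000800068000000000000000000) (nat_lit 0x0) (nat_lit 0x1000090000000000000000000) := D_45 (nat_lit 96) (nat_lit 76) (nat_lit 79) (nat_lit 3) (nat_lit 7) (nat_lit 4) (nat_lit 6) (nat_lit 10) (nat_lit 8) (by decide +kernel)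
theorem L123554 : W_45 (nat_lit 3) (nat_lit 0x50003c0010000000068000000000000000000) (nat_lit 0x0) (nat_lit 0x1800090001000000000000000) := T_45 (nat_lit 95) (nat_lit 60) (nat_lit 4) (nat_lit 10) (nat_lit 7) L123553 (by decide +kernel)
theorem L123555 : W_45 (nat_lit 4) (nat_lit 0x10003c0010000000068000000000000000000) (nat_lit 0x0) (nat_lit 0xc000000000001800090001000000000000000) := T_45 (nat_lit 146) (nat_lit 147) (nat_lit 3) (nat_lit 7) (nat_lit 7) L123554 (by decide +kernel)
theorem L123556 : W_45 (nat_lit 5) (nat_lit 0x10003c0000000000068000000000000000000) (nat_lit 0x0) (nat_lit 0xc000000030001800090001000000000000000) := T_45 (nat_lit 112) (nat_lit 113) (nat_lit 2) (nat_lit 7) (nat_lit 7) L123555 (by decide +kernel)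
theorem L123557 : W_45 (nat_lit 2) (nat_lit 0x50003c0010000800068000000000000000000) (nat_lit 0x0) (nat_lit 0x1000080004000000000000000) := D_45 (nat_lit 79) (nat_lit 62) (nat_lit 96) (nat_lit 6) (nat_lit 10) (nat_lit 7) (nat_lit 6) (nat_lit 10) (nat_lit 8) (by decide +kernel)
theorem L123558 : W_45 (nat_lit 3) (nat_lit 0x50003c0010000000068000000000000000000) (nat_lit 0x0) (nat_lit 0x1800080005000000000000000) := T_45 (nat_lit 95) (nat_lit 60) (nat_lit 4) (nat_lit 10) (nat_lit 7) L123557 (by decide +kernel)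
theorem L123559 : W_45 (nat_lit 4) (nat_lit 0x50003c0000000000068000000000000000000) (nat_lit 0x0) (nat_lit 0x30001800080005000000000000000) := T_45 (nat_lit 112) (nat_lit 113) (nat_lit 2) (nat_lit 7) (nat_lit 7) L123558 (by decide +kernel)
theorem L123560 : W_45 (nat_lit 5) (nat_lit 0x10003c0000000000068000000000000000000) (nat_lit 0x0) (nat_lit 0xc000000030001800080005000000000000000) := T_45 (nat_lit 146) (nat_lit 147) (nat_lit 3) (nat_lit 7) (nat_lit 7) L123559 (by decide +kernel)
theorem L123561 : W_45 (nat_lit 3) (nat_lit 0x10003c0010000800068000000000000000000) (nat_lit 0x0) (nat_lit 0x8001000010006000000000000000) := T_45 (nat_lit 76) (nat_lit 96) (nat_lit 3) (nat_lit 7) (nat_lit 4) L123436 (by decide +kernel)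
theorem L123562 : W_45 (nat_lit 4) (nat_lit 0x10003c0010000000068000000000000000000) (nat_lit 0x0) (nat_lit 0x8001800010007000000000000000) := T_45 (nat_lit 95) (nat_lit 60) (nat_lit 4) (nat_lit 10) (nat_lit 7) L123561 (by decide +kernel)
theorem L123563 : W_45 (nat_lit 5) (nat_lit 0x10003c0000000000068000000000000000000) (nat_lit 0x0) (nat_lit 0x38001800010007000000000000000) := T_45 (nat_lit 112) (nat_lit 113) (nat_lit 2) (nat_lit 7) (nat_lit 7) L123562 (by decide +kernel)
theorem L123564 : W_45 (nat_lit 7) (nat_lit 0x10003c0000000000068000000000000000000) (nat_lit 0x0) (nat_lit 0xc0000000380019c0014006700000000000000) := Q_45 (nat_lit 76) (C_45 L123403 (C_45 L123525 (C_45 L123498 N_45))) (by decide +kernel)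
theorem L123565 : W_45 (nat_lit 2) (nat_lit 0x50003c000000000007c002000000000000000) (nat_lit 0x0) (nat_lit 0x1c0000000000000000000000) := D_45 (nat_lit 91) (nat_lit 90) (nat_lit 92) (nat_lit 1) (nat_lit 9) (nat_lit 4) (nat_lit 1) (nat_lit 10) (nat_lit 4) (by decide +kernel)
theorem L123566 : W_45 (nat_lit 3) (nat_lit 0x50003c0000000000078002000000000000000) (nat_lit 0x0) (nat_lit 0x1c0004001000000000000000) := T_45 (nat_lit 74) (nat_lit 60) (nat_lit 2) (nat_lit 6) (nat_lit 4) L123565 (by decide +kernel)
theorem L123567 : W_45 (nat_lit 4) (nat_lit 0x50003c0000000000078000000000000000000) (nat_lit 0x0) (nat_lit 0x1c0004007000000000000000) := T_45 (nat_lit 61) (nat_lit 62) (nat_lit 2) (nat_lit 7) (nat_lit 4) L123566 (by decide +kernel)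
theorem L123568 : W_45 (nat_lit 5) (nat_lit 0x10003c0000000000078000000000000000000) (nat_lit 0x0) (nat_lit 0xc0000000000001c0004007000000000000000) := T_45 (nat_lit 146) (nat_lit 147) (nat_lit 3) (nat_lit 7) (nat_lit 7) L123567 (by decide +kernel)
theorem L123569 : W_45 (nat_lit 2) (nat_lit 0x10003c0010000000038003000000000000000) (nat_lit 0x0) (nat_lit 0xc800000000000000) := D_45 (nat_lit 62) (nat_lit 63) (nat_lit 59) (nat_lit 1) (nat_lit 12) (nat_lit 3) (nat_lit 1) (nat_lit 11) (nat_lit 3) (by decide +kernel)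
theorem L123570 : W_45 (nat_lit 3) (nat_lit 0x10003c0010000000038001000000000000000) (nat_lit 0x0) (nat_lit 0x400e800000000000000) := T_45 (nat_lit 61) (nat_lit 74) (nat_lit 2) (nat_lit 6) (nat_lit 4) L123569 (by decide +kernel)
theorem L123571 : W_45 (nat_lit 4) (nat_lit 0x10003c0000000000038001000000000000000) (nat_lit 0x0) (nat_lit 0x3000000000400e800000000000000) := T_45 (nat_lit 112) (nat_lit 113) (nat_lit 2) (nat_lit 7) (nat_lit 7) L123570 (by decide +kernel)
theorem L123572 : W_45 (nat_lit 7) (nat_lit 0x10003c0000000000068000000000000000000) (nat_lit 0x0) (nat_lit 0xc0000000000019c009400ff00000000000000) := Q_45 (nat_lit 76) (C_45 L123303 (C_45 L123568 (C_45 L123335 (C_45 L123403 N_45)))) (by decide +kernel)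
theorem L123573 : W_45 (nat_lit 7) (nat_lit 0x10003c0000000000068000000000000000000) (nat_lit 0x0) (nat_lit 0xc0000000300001c009400ff00000000000000) := Q_45 (nat_lit 76) (C_45 L123303 (C_45 L123568 (C_45 L123440 (C_45 L123498 N_45)))) (by decide +kernel)
theorem L123574 : W_45 (nat_lit 8) (nat_lit 0x10003c0000000000028000000000000000000) (nat_lit 0x0) (nat_lit 0xc0000000380019c00d400ff00000000000000) := Q_45 (nat_lit 78) (C_45 L123563 (C_45 L123564 (C_45 L123560 (C_45 L123572 (C_45 L123573 (C_45 L123556 N_45)))))) (by decide +kernel)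
theorem L123575 : W_45 (nat_lit 2) (nat_lit 0x50003c000000004007c002100000000000000) (nat_lit 0x0) (nat_lit 0x20002000080000000000000) := D_45 (nat_lit 73) (nat_lit 89) (nat_lit 55) (nat_lit 1) (nat_lit 8) (nat_lit 4) (nat_lit 0) (nat_lit 8) (nat_lit 4) (by decide +kernel)
theorem L123576 : W_45 (nat_lit 3) (nat_lit 0x50003c000000004007c002000000000000000) (nat_lit 0x0) (nat_lit 0x20002000380000000000000) := T_45 (nat_lit 56) (nat_lit 57) (nat_lit 0) (nat_lit 9) (nat_lit 4) L123575 (by decide +kernel)
theorem L123577 : W_45 (nat_lit 4) (nat_lit 0x50003c000000000007c002000000000000000) (nat_lit 0x0) (nat_lit 0xe0002000380000000000000) := T_45 (nat_lit 90) (nat_lit 91) (nat_lit 1) (nat_lit 9) (nat_lit 4) L123576 (by decide +kernel)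
theorem L123578 : W_45 (nat_lit 5) (nat_lit 0x50003c0000000000078002000000000000000) (nat_lit 0x0) (nat_lit 0xe0006001380000000000000) := T_45 (nat_lit 74) (nat_lit 60) (nat_lit 2) (nat_lit 6) (nat_lit 4) L123577 (by decide +kernel)
theorem L123579 : W_45 (nat_lit 6) (nat_lit 0x50003c0000000000078000000000000000000) (nat_lit 0x0) (nat_lit 0xe0006007380000000000000) := T_45 (nat_lit 61) (nat_lit 62) (nat_lit 2) (nat_lit 7) (nat_lit 4) L123578 (by decide +kernel)
theorem L123580 : W_45 (nat_lit 7) (nat_lit 0x10003c0000000000078000000000000000000) (nat_lit 0x0) (nat_lit 0xc0000000000000e0006007380000000000000) := T_45 (nat_lit 146) (nat_lit 147) (nat_lit 3) (nat_lit 7) (nat_lit 7) L123579 (by decide +kernel)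
theorem L123581 : W_45 (nat_lit 2) (nat_lit 0x50003c00000010000f8000000000000000000) (nat_lit 0x0) (nat_lit 0xe000000000000000) := D_45 (nat_lit 62) (nat_lit 63) (nat_lit 61) (nat_lit 2) (nat_lit 8) (nat_lit 4) (nat_lit 2) (nat_lit 7) (nat_lit 4) (by decide +kernel)
theorem L123582 : W_45 (nat_lit 3) (nat_lit 0x50003c0000001000078000000000000000000) (nat_lit 0x0) (nat_lit 0x200008000e000000000000000) := T_45 (nat_lit 79) (nat_lit 97) (nat_lit 3) (nat_lit 8) (nat_lit 4) L123581 (by decide +kernel)
theorem L123583 : W_45 (nat_lit 4) (nat_lit 0x10003c0000001000078000000000000000000) (nat_lit 0x0) (nat_lit 0xc00000000000200008000e000000000000000) := T_45 (nat_lit 146) (nat_lit 147) (nat_lit 3) (nat_lit 7) (nat_lit 7) L123582 (by decide +kernel)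
theorem L123584 : W_45 (nat_lit 5) (nat_lit 0x10003c0000000000078000000000000000000) (nat_lit 0x0) (nat_lit 0xc00000000000380008000e000000000000000) := T_45 (nat_lit 96) (nat_lit 95) (nat_lit 3) (nat_lit 7) (nat_lit 4) L123583 (by decide +kernel)
theorem L123585 : W_45 (nat_lit 2) (nat_lit 0x58003c00100008000a0000000000000000000) (nat_lit 0x0) (nat_lit 0x40005000000000000000) := D_45 (nat_lit 78) (nat_lit 60) (nat_lit 62) (nat_lit 4) (nat_lit 10) (nat_lit 7) (nat_lit 6) (nat_lit 10) (nat_lit 7) (by decide +kernel)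
theorem L123586 : W_45 (nat_lit 3) (nat_lit 0x58003c0010000800020000000000000000000) (nat_lit 0x0) (nat_lit 0x10000c0005000000000000000) := T_45 (nat_lit 79) (nat_lit 96) (nat_lit 6) (nat_lit 10) (nat_lit 8) L123585 (by decide +kernel)
theorem L123587 : W_45 (nat_lit 2) (nat_lit 0x58003c0010000800060002000000000000000) (nat_lit 0x0) (nat_lit 0x80004000200000000000) := D_45 (nat_lit 62) (nat_lit 79) (nat_lit 45) (nat_lit 6) (nat_lit 10) (nat_lit 7) (nat_lit 6) (nat_lit 10) (nat_lit 6) (by decide +kernel)
theorem L123588 : W_45 (nat_lit 3) (nat_lit 0x58003c0010000800060000000000000000000) (nat_lit 0x0) (nat_lit 0x8000000080006000200000000000) := T_45 (nat_lit 61) (nat_lit 111) (nat_lit 5) (nat_lit 10) (nat_lit 3) L123587 (by decide +kernel)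
theorem L123589 : W_45 (nat_lit 4) (nat_lit 0x58003c0010000000060000000000000000000) (nat_lit 0x0) (nat_lit 0x8000800080007000200000000000) := T_45 (nat_lit 95) (nat_lit 60) (nat_lit 4) (nat_lit 10) (nat_lit 7) L123588 (by decide +kernel)
theorem L123590 : W_45 (nat_lit 5) (nat_lit 0x18003c0010000000060000000000000000000) (nat_lit 0x0) (nat_lit 0xc000000008000800080007000200000000000) := T_45 (nat_lit 146) (nat_lit 147) (nat_lit 3) (nat_lit 7) (nat_lit 7) L123589 (by decide +kernel)
theorem L123591 : W_45 (nat_lit 6) (nat_lit 0x18003c0000000000060000000000000000000) (nat_lit 0x0) (nat_lit 0xc000000038000800080007000200000000000) := T_45 (nat_lit 112) (nat_lit 113) (nat_lit 2) (nat_lit 7) (nat_lit 7) L123590 (by decide +kernel)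
theorem L123592 : W_45 (nat_lit 2) (nat_lit 0x18003c0010000800060002000000000000000) (nat_lit 0x0) (nat_lit 0x80004000200000000000) := D_45 (nat_lit 62) (nat_lit 79) (nat_lit 45) (nat_lit 6) (nat_lit 10) (nat_lit 7) (nat_lit 6) (nat_lit 10) (nat_lit 6) (by decide +kernel)
theorem L123593 : W_45 (nat_lit 3) (nat_lit 0x18003c0010000800060000000000000000000) (nat_lit 0x0) (nat_lit 0x8000000080006000200000000000) := T_45 (nat_lit 61) (nat_lit 111) (nat_lit 5) (nat_lit 10) (nat_lit 3) L123592 (by decide +kernel)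
theorem L123594 : W_45 (nat_lit 2) (nat_lit 0x18003c0010000400020000000000000000000) (nat_lit 0x0) (nat_lit 0xc000000000000800000000000000000000000) := D_45 (nat_lit 146) (nat_lit 147) (nat_lit 95) (nat_lit 3) (nat_lit 7) (nat_lit 7) (nat_lit 4) (nat_lit 10) (nat_lit 8) (by decide +kernel)
theorem L123595 : W_45 (nat_lit 2) (nat_lit 0x50003c0000000400020000000000000000000) (nat_lit 0x0) (nat_lit 0x30000800000000000000000000000) := D_45 (nat_lit 112) (nat_lit 95) (nat_lit 113) (nat_lit 4) (nat_lit 10) (nat_lit 8) (nat_lit 2) (nat_lit 7) (nat_lit 7) (by decide +kernel)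
theorem L123596 : W_45 (nat_lit 2) (nat_lit 0x50003c00000007c0020000000000000000000) (nat_lit 0x0) (nat_lit 0x7000000000000000000) := D_45 (nat_lit 73) (nat_lit 74) (nat_lit 72) (nat_lit 0) (nat_lit 9) (nat_lit 5) (nat_lit 0) (nat_lit 8) (nat_lit 5) (by decide +kernel)
theorem L123597 : W_45 (nat_lit 3) (nat_lit 0x50003c0000000780020000000000000000000) (nat_lit 0x0) (nat_lit 0x40017000000000000000000) := T_45 (nat_lit 90) (nat_lit 76) (nat_lit 2) (nat_lit 5) (nat_lit 5) L123596 (by decide +kernel)
theorem L123598 : W_45 (nat_lit 4) (nat_lit 0x50003c0000000700020000000000000000000) (nat_lit 0x0) (nat_lit 0xc0057000000000000000000) := T_45 (nat_lit 91) (nat_lit 78) (nat_lit 2) (nat_lit 6) (nat_lit 5) L123597 (by decide +kernel)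
theorem L123599 : W_45 (nat_lit 5) (nat_lit 0x10003c0000000700020000000000000000000) (nat_lit 0x0) (nat_lit 0xc0000000000000c0057000000000000000000) := T_45 (nat_lit 146) (nat_lit 147) (nat_lit 3) (nat_lit 7) (nat_lit 7) L123598 (by decide +kernel)
theorem L123600 : W_45 (nat_lit 2) (nat_lit 0x28000800058003c0014000700000000000000000000000) (nat_lit 0x0) (nat_lit 0x50001000000000000000000000000000000000000000000000) := D_45 (nat_lit 180) (nat_lit 196) (nat_lit 198) (nat_lit 5) (nat_lit 10) (nat_lit 7) (nat_lit 7) (nat_lit 10) (nat_lit 7) (by decide +kernel)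
theorem L123601 : W_45 (nat_lit 3) (nat_lit 0x8000800058003c0014000700000000000000000000000) (nat_lit 0x0) (nat_lit 0x50003000100000000000000000000000000000000000000000) := T_45 (nat_lit 181) (nat_lit 164) (nat_lit 7) (nat_lit 10) (nat_lit 6) L123600 (by decide +kernel)
theorem L123602 : W_45 (nat_lit 4) (nat_lit 0x800058003c0014000700000000000000000000000) (nat_lit 0x0) (nat_lit 0x50003800140000000000000000000000000000000000000000) := T_45 (nat_lit 179) (nat_lit 162) (nat_lit 5) (nat_lit 10) (nat_lit 6) L123601 (by decide +kernel)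
theorem L123603 : W_45 (nat_lit 5) (nat_lit 0x800058003c0014000600000000000000000000000) (nat_lit 0x0) (nat_lit 0x50003800140000000000000000100008000000000000000000) := T_45 (nat_lit 92) (nat_lit 75) (nat_lit 4) (nat_lit 8) (nat_lit 8) L123602 (by decide +kernel)
theorem L123604 : W_45 (nat_lit 6) (nat_lit 0x58003c0014000600000000000000000000000) (nat_lit 0x0) (nat_lit 0x500038001c0000000000008000100008000000000000000000) := T_45 (nat_lit 163) (nat_lit 111) (nat_lit 4) (nat_lit 10) (nat_lit 9) L123603 (by decide +kernel)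
theorem L123605 : W_45 (nat_lit 7) (nat_lit 0x58003c0014000200000000000000000000000) (nat_lit 0x0) (nat_lit 0x500038001c0000000000008000500028000000000000000000) := T_45 (nat_lit 94) (nat_lit 77) (nat_lit 6) (nat_lit 8) (nat_lit 8) L123604 (by decide +kernel)
theorem L123606 : W_45 (nat_lit 8) (nat_lit 0x18003c0014000200000000000000000000000) (nat_lit 0x0) (nat_lit 0x500038001c000c000000008000500028000000000000000000) := T_45 (nat_lit 146) (nat_lit 147) (nat_lit 3) (nat_lit 7) (nat_lit 7) L123605 (by decide +kernel)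
theorem L123607 : W_45 (nat_lit 9) (nat_lit 0x18003c0014000000000000000000000000000) (nat_lit 0x0) (nat_lit 0x500038001c000c000000008000700038000000000000000000) := T_45 (nat_lit 93) (nat_lit 76) (nat_lit 5) (nat_lit 8) (nat_lit 4) L123606 (by decide +kernel)
theorem L123608 : W_45 (nat_lit 10) (nat_lit 0x18003c0004000000000000000000000000000) (nat_lit 0x0) (nat_lit 0x500038001c000c000000038000700038000000000000000000) := T_45 (nat_lit 112) (nat_lit 113) (nat_lit 2) (nat_lit 7) (nat_lit 7) L123607 (by decide +kernel)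
theorem L123609 : W_45 (nat_lit 11) (nat_lit 0x10003c0004000000000000000000000000000) (nat_lit 0x0) (nat_lit 0x500038001c000cc00000038000700038000000000000000000) := T_45 (nat_lit 143) (nat_lit 142) (nat_lit 1) (nat_lit 10) (nat_lit 7) L123608 (by decide +kernel)
theorem L123610 : W_45 (nat_lit 2) (nat_lit 0x10003c0014000600010000000000000000000) (nat_lit 0x0) (nat_lit 0x100008000400000000000000) := D_45 (nat_lit 75) (nat_lit 58) (nat_lit 92) (nat_lit 4) (nat_lit 8) (nat_lit 7) (nat_lit 4) (nat_lit 8) (nat_lit 8) (by decide +kernel)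
theorem L123611 : W_45 (nat_lit 3) (nat_lit 0x10003c0014000600000000000000000000000) (nat_lit 0x0) (nat_lit 0x800000000000100018000400000000000000) := T_45 (nat_lit 76) (nat_lit 143) (nat_lit 5) (nat_lit 8) (nat_lit 4) L123610 (by decide +kernel)
theorem L123612 : W_45 (nat_lit 4) (nat_lit 0x10003c0014000200000000000000000000000) (nat_lit 0x0) (nat_lit 0x800000000000500038000400000000000000) := T_45 (nat_lit 94) (nat_lit 77) (nat_lit 6) (nat_lit 8) (nat_lit 8) L123611 (by decide +kernel)
theorem L123613 : W_45 (nat_lit 5) (nat_lit 0x10003c0004000200000000000000000000000) (nat_lit 0x0) (nat_lit 0x800000030000500038000400000000000000) := T_45 (nat_lit 112) (nat_lit 113) (nat_lit 2) (nat_lit 7) (nat_lit 7) L123612 (by decide +kernel)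
theorem L123614 : W_45 (nat_lit 9) (nat_lit 0x18003c0004000200000000000000000000000) (nat_lit 0x0) (nat_lit 0x500038001c000c000000038000500028000000000000000000) := T_45 (nat_lit 112) (nat_lit 113) (nat_lit 2) (nat_lit 7) (nat_lit 7) L123606 (by decide +kernel)
theorem L123615 : W_45 (nat_lit 10) (nat_lit 0x10003c0004000200000000000000000000000) (nat_lit 0x0) (nat_lit 0x500038001d000c800000038000500028000000000000000000) := T_45 (nat_lit 143) (nat_lit 160) (nat_lit 5) (nat_lit 8) (nat_lit 5) L123614 (by decide +kernel)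
theorem L123616 : W_45 (nat_lit 2) (nat_lit 0x10003c0014800780002000000000000000000) (nat_lit 0x0) (nat_lit 0x400040001000000000000000000) := D_45 (nat_lit 90) (nat_lit 106) (nat_lit 72) (nat_lit 1) (nat_lit 8) (nat_lit 5) (nat_lit 0) (nat_lit 8) (nat_lit 5) (by decide +kernel)
theorem L123617 : W_45 (nat_lit 3) (nat_lit 0x10003c0014800780000000000000000000000) (nat_lit 0x0) (nat_lit 0x400040007000000000000000000) := T_45 (nat_lit 73) (nat_lit 74) (nat_lit 0) (nat_lit 9) (nat_lit 5) L123616 (by decide +kernel)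
theorem L123618 : W_45 (nat_lit 4) (nat_lit 0x10003c0014000780000000000000000000000) (nat_lit 0x0) (nat_lit 0x1c00040007000000000000000000) := T_45 (nat_lit 107) (nat_lit 108) (nat_lit 1) (nat_lit 9) (nat_lit 5) L123617 (by decide +kernel)
theorem L123619 : W_45 (nat_lit 5) (nat_lit 0x10003c0014000700000000000000000000000) (nat_lit 0x0) (nat_lit 0x9c000c0007000000000000000000) := T_45 (nat_lit 91) (nat_lit 111) (nat_lit 3) (nat_lit 6) (nat_lit 5) L123618 (by decide +kernel)
theorem L123620 : W_45 (nat_lit 6) (nat_lit 0x10003c0014000600000000000000000000000) (nat_lit 0x0) (nat_lit 0x9c001c000f000000000000000000) := T_45 (nat_lit 92) (nat_lit 75) (nat_lit 4) (nat_lit 8) (nat_lit 8) L123619 (by decide +kernel)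
theorem L123621 : W_45 (nat_lit 7) (nat_lit 0x10003c0004000600000000000000000000000) (nat_lit 0x0) (nat_lit 0x39c001c000f000000000000000000) := T_45 (nat_lit 112) (nat_lit 113) (nat_lit 2) (nat_lit 7) (nat_lit 7) L123620 (by decide +kernel)
theorem L123622 : W_45 (nat_lit 8) (nat_lit 0x10003c0004000200000000000000000000000) (nat_lit 0x0) (nat_lit 0x39c005c002f000000000000000000) := T_45 (nat_lit 94) (nat_lit 77) (nat_lit 6) (nat_lit 8) (nat_lit 8) L123621 (by decide +kernel)
theorem L123623 : W_45 (nat_lit 11) (nat_lit 0x10003c0004000000000000000000000000000) (nat_lit 0x0) (nat_lit 0x500038001d000c800000039c007c003f000400000000000000) := Q_45 (nat_lit 93) (C_45 L122848 (C_45 L123613 (C_45 L123615 (C_45 L123622 N_45)))) (by decide +kernel)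
theorem L123624 : W_45 (nat_lit 2) (nat_lit 0xa001800058003c0014000c00000000000000000000000) (nat_lit 0x0) (nat_lit 0x10001400000000000000000000000000000000000000000000) := D_45 (nat_lit 180) (nat_lit 178) (nat_lit 196) (nat_lit 2) (nat_lit 7) (nat_lit 10) (nat_lit 5) (nat_lit 10) (nat_lit 7) (by decide +kernel)
theorem L123625 : W_45 (nat_lit 3) (nat_lit 0x2001800058003c0014000c00000000000000000000000) (nat_lit 0x0) (nat_lit 0x10001c00040000000000000000000000000000000000000000) := T_45 (nat_lit 179) (nat_lit 162) (nat_lit 5) (nat_lit 10) (nat_lit 6) L123624 (by decide +kernel)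
theorem L123626 : W_45 (nat_lit 4) (nat_lit 0x2000800058003c0014000c00000000000000000000000) (nat_lit 0x0) (nat_lit 0x10003c00140000000000000000000000000000000000000000) := T_45 (nat_lit 164) (nat_lit 181) (nat_lit 7) (nat_lit 10) (nat_lit 6) L123625 (by decide +kernel)
theorem L123627 : W_45 (nat_lit 2) (nat_lit 0x50003c0014001c00000000000000000000000) (nat_lit 0x0) (nat_lit 0x80000000000008002000000000000000000000000) := D_45 (nat_lit 111) (nat_lit 97) (nat_lit 163) (nat_lit 1) (nat_lit 12) (nat_lit 5) (nat_lit 4) (nat_lit 10) (nat_lit 9) (by decide +kernel)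
theorem L123628 : W_45 (nat_lit 3) (nat_lit 0x50003c0014001800000000000000000000000) (nat_lit 0x0) (nat_lit 0x80000000000008002400020000000000000000000) := T_45 (nat_lit 94) (nat_lit 77) (nat_lit 4) (nat_lit 10) (nat_lit 8) L123627 (by decide +kernel)
theorem L123629 : W_45 (nat_lit 2) (nat_lit 0x2000000058003c00140008000c0000000000000000000) (nat_lit 0x0) (nat_lit 0x400020001000000000000000) := D_45 (nat_lit 77) (nat_lit 60) (nat_lit 94) (nat_lit 4) (nat_lit 10) (nat_lit 7) (nat_lit 4) (nat_lit 10) (nat_lit 8) (by decide +kernel)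
theorem L123630 : W_45 (nat_lit 3) (nat_lit 0x2000000058003c0014000800080000000000000000000) (nat_lit 0x0) (nat_lit 0x400060005000000000000000) := T_45 (nat_lit 78) (nat_lit 62) (nat_lit 6) (nat_lit 10) (nat_lit 7) L123629 (by decide +kernel)
theorem L123631 : W_45 (nat_lit 4) (nat_lit 0x58003c0014000800080000000000000000000) (nat_lit 0x0) (nat_lit 0x200010000000000000000400060005000000000000000) := T_45 (nat_lit 177) (nat_lit 160) (nat_lit 6) (nat_lit 7) (nat_lit 10) L123630 (by decide +kernel)
theorem L123632 : W_45 (nat_lit 5) (nat_lit 0x58003c0014000800000000000000000000000) (nat_lit 0x0) (nat_lit 0x2000100000000000000014000e0005000000000000000) := T_45 (nat_lit 79) (nat_lit 96) (nat_lit 6) (nat_lit 10) (nat_lit 8) L123631 (by decide +kernel)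
theorem L123633 : W_45 (nat_lit 6) (nat_lit 0x50003c0014000800000000000000000000000) (nat_lit 0x0) (nat_lit 0x200010000c000000000014000e0005000000000000000) := T_45 (nat_lit 143) (nat_lit 142) (nat_lit 1) (nat_lit 10) (nat_lit 7) L123632 (by decide +kernel)
theorem L123634 : W_45 (nat_lit 4) (nat_lit 0x50003c0014000800000000000000000000000) (nat_lit 0x0) (nat_lit 0x800000000000080034000a0000000000000000000) := T_45 (nat_lit 96) (nat_lit 79) (nat_lit 6) (nat_lit 10) (nat_lit 8) L123628 (by decide +kernel)
theorem L123635 : W_45 (nat_lit 2) (nat_lit 0x58003c00140008000c0002000000000000000) (nat_lit 0x0) (nat_lit 0x20001000080000000000) := D_45 (nat_lit 60) (nat_lit 43) (nat_lit 77) (nat_lit 4) (nat_lit 10) (nat_lit 6) (nat_lit 4) (nat_lit 10) (nat_lit 7) (by decide +kernel)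
theorem L123636 : W_45 (nat_lit 3) (nat_lit 0x58003c00140008000c0000000000000000000) (nat_lit 0x0) (nat_lit 0x8000000020003000080000000000) := T_45 (nat_lit 61) (nat_lit 111) (nat_lit 5) (nat_lit 10) (nat_lit 3) L123635 (by decide +kernel)
theorem L123637 : W_45 (nat_lit 4) (nat_lit 0x58003c0014000800080000000000000000000) (nat_lit 0x0) (nat_lit 0x8000000060007000080000000000) := T_45 (nat_lit 78) (nat_lit 62) (nat_lit 6) (nat_lit 10) (nat_lit 7) L123636 (by decide +kernel)
theorem L123638 : W_45 (nat_lit 5) (nat_lit 0x50003c0014000800080000000000000000000) (nat_lit 0x0) (nat_lit 0xc00000008000000060007000080000000000) := T_45 (nat_lit 143) (nat_lit 142) (nat_lit 1) (nat_lit 10) (nat_lit 7) L123637 (by decide +kernel)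
theorem L123639 : W_45 (nat_lit 6) (nat_lit 0x50003c0014000800000000000000000000000) (nat_lit 0x0) (nat_lit 0xc000000080010000e0007000080000000000) := T_45 (nat_lit 79) (nat_lit 96) (nat_lit 6) (nat_lit 10) (nat_lit 8) L123638 (by decide +kernel)
theorem L123640 : W_45 (nat_lit 5) (nat_lit 0x800058003c0014000c00000000000000000000000) (nat_lit 0x0) (nat_lit 0x10003e00150000000000000000000000000000000000000000) := T_45 (nat_lit 177) (nat_lit 160) (nat_lit 6) (nat_lit 7) (nat_lit 10) L123626 (by decide +kernel)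
theorem L123641 : W_45 (nat_lit 6) (nat_lit 0x58003c0014000c00000000000000000000000) (nat_lit 0x0) (nat_lit 0x10003e001d0000000000008000000000000000000000000000) := T_45 (nat_lit 163) (nat_lit 111) (nat_lit 4) (nat_lit 10) (nat_lit 9) L123640 (by decide +kernel)
theorem L123642 : W_45 (nat_lit 7) (nat_lit 0x50003c0014000c00000000000000000000000) (nat_lit 0x0) (nat_lit 0x10003e001d0000c00000008000000000000000000000000000) := T_45 (nat_lit 143) (nat_lit 142) (nat_lit 1) (nat_lit 10) (nat_lit 7) L123641 (by decide +kernel)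
theorem L123643 : W_45 (nat_lit 8) (nat_lit 0x50003c0014000800000000000000000000000) (nat_lit 0x0) (nat_lit 0x10003e001d0000c00000008000400020000000000000000000) := T_45 (nat_lit 94) (nat_lit 77) (nat_lit 4) (nat_lit 10) (nat_lit 8) L123642 (by decide +kernel)
theorem L123644 : W_45 (nat_lit 2) (nat_lit 0x58003c001c0008000c0000000000000000000) (nat_lit 0x0) (nat_lit 0x1000080000000000000000400000000000000000000000) := D_45 (nat_lit 163) (nat_lit 180) (nat_lit 94) (nat_lit 4) (nat_lit 10) (nat_lit 10) (nat_lit 4) (nat_lit 10) (nat_lit 9) (by decide +kernel)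
theorem L123645 : W_45 (nat_lit 3) (nat_lit 0x58003c00140008000c0000000000000000000) (nat_lit 0x0) (nat_lit 0x1000080000000000008000400000002000000000000000) := T_45 (nat_lit 111) (nat_lit 61) (nat_lit 5) (nat_lit 10) (nat_lit 3) L123644 (by decide +kernel)
theorem L123646 : W_45 (nat_lit 4) (nat_lit 0x58003c0014000800080000000000000000000) (nat_lit 0x0) (nat_lit 0x1000080000000000008000400040006000000000000000) := T_45 (nat_lit 78) (nat_lit 62) (nat_lit 6) (nat_lit 10) (nat_lit 7) L123645 (by decide +kernel)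
theorem L123647 : W_45 (nat_lit 5) (nat_lit 0x50003c0014000800080000000000000000000) (nat_lit 0x0) (nat_lit 0x1000080000c00000008000400040006000000000000000) := T_45 (nat_lit 143) (nat_lit 142) (nat_lit 1) (nat_lit 10) (nat_lit 7) L123646 (by decide +kernel)
theorem L123648 : W_45 (nat_lit 6) (nat_lit 0x50003c0014000800000000000000000000000) (nat_lit 0x0) (nat_lit 0x1000080000c000000080014000c0006000000000000000) := T_45 (nat_lit 79) (nat_lit 96) (nat_lit 6) (nat_lit 10) (nat_lit 8) L123647 (by decide +kernel)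
theorem L123649 : W_45 (nat_lit 9) (nat_lit 0x50003c0014000000000000000000000000000) (nat_lit 0x0) (nat_lit 0x10003e001d0000c00000008003c000e0007000080000000000) := Q_45 (nat_lit 95) (C_45 L123639 (C_45 L123633 (C_45 L123634 (C_45 L123643 (C_45 L123648 N_45))))) (by decide +kernel)
theorem L123650 : W_45 (nat_lit 10) (nat_lit 0x50003c0004000000000000000000000000000) (nat_lit 0x0) (nat_lit 0x10003e001d0000c00000038003c000e0007000080000000000) := T_45 (nat_lit 112) (nat_lit 113) (nat_lit 2) (nat_lit 7) (nat_lit 7) L123649 (by decide +kernel)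
theorem L123651 : W_45 (nat_lit 11) (nat_lit 0x10003c0004000000000000000000000000000) (nat_lit 0x0) (nat_lit 0x10003e001d000cc00000038003c000e0007000080000000000) := T_45 (nat_lit 146) (nat_lit 147) (nat_lit 3) (nat_lit 7) (nat_lit 7) L123650 (by decide +kernel)
theorem L123652 : W_45 (nat_lit 2) (nat_lit 0x50003c0014000200030000000000000000000) (nat_lit 0x0) (nat_lit 0x100008000400000000000000) := D_45 (nat_lit 75) (nat_lit 58) (nat_lit 92) (nat_lit 4) (nat_lit 8) (nat_lit 7) (nat_lit 4) (nat_lit 8) (nat_lit 8) (by decide +kernel)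
theorem L123653 : W_45 (nat_lit 3) (nat_lit 0x50003c0014000200020000000000000000000) (nat_lit 0x0) (nat_lit 0x100018001400000000000000) := T_45 (nat_lit 76) (nat_lit 60) (nat_lit 6) (nat_lit 8) (nat_lit 7) L123652 (by decide +kernel)
theorem L123654 : W_45 (nat_lit 2) (nat_lit 0x50003c0014000200018001000000000000000) (nat_lit 0x0) (nat_lit 0x8000000000000800080000000000) := D_45 (nat_lit 59) (nat_lit 111) (nat_lit 43) (nat_lit 7) (nat_lit 8) (nat_lit 3) (nat_lit 6) (nat_lit 8) (nat_lit 6) (by decide +kernel)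
theorem L123655 : W_45 (nat_lit 3) (nat_lit 0x50003c0014000200018000000000000000000) (nat_lit 0x0) (nat_lit 0x8000000020001800080000000000) := T_45 (nat_lit 60) (nat_lit 77) (nat_lit 6) (nat_lit 8) (nat_lit 7) L123654 (by decide +kernel)
theorem L123656 : W_45 (nat_lit 4) (nat_lit 0x50003c0014000200008000000000000000000) (nat_lit 0x0) (nat_lit 0x8000000030001c00080000000000) := T_45 (nat_lit 76) (nat_lit 58) (nat_lit 4) (nat_lit 8) (nat_lit 7) L123655 (by decide +kernel)
theorem L123657 : W_45 (nat_lit 5) (nat_lit 0x50003c0004000200008000000000000000000) (nat_lit 0x0) (nat_lit 0x38000000030001c00080000000000) := T_45 (nat_lit 112) (nat_lit 113) (nat_lit 2) (nat_lit 7) (nat_lit 7) L123656 (by decide +kernel)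
theorem L123658 : W_45 (nat_lit 6) (nat_lit 0x50003c0004000200000000000000000000000) (nat_lit 0x0) (nat_lit 0x38000100038001c00080000000000) := T_45 (nat_lit 75) (nat_lit 92) (nat_lit 4) (nat_lit 8) (nat_lit 8) L123657 (by decide +kernel)
theorem L123659 : W_45 (nat_lit 7) (nat_lit 0x10003c0004000200000000000000000000000) (nat_lit 0x0) (nat_lit 0xc000000038000100038001c00080000000000) := T_45 (nat_lit 146) (nat_lit 147) (nat_lit 3) (nat_lit 7) (nat_lit 7) L123658 (by decide +kernel)
theorem L123660 : W_45 (nat_lit 4) (nat_lit 0x50003c0014000200000000000000000000000) (nat_lit 0x0) (nat_lit 0x500038001400000000000000) := T_45 (nat_lit 77) (nat_lit 94) (nat_lit 6) (nat_lit 8) (nat_lit 8) L123653 (by decide +kernel)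
theorem L123661 : W_45 (nat_lit 5) (nat_lit 0x10003c0014000200000000000000000000000) (nat_lit 0x0) (nat_lit 0xc000000000000500038001400000000000000) := T_45 (nat_lit 146) (nat_lit 147) (nat_lit 3) (nat_lit 7) (nat_lit 7) L123660 (by decide +kernel)
theorem L123662 : W_45 (nat_lit 6) (nat_lit 0x10003c0004000200000000000000000000000) (nat_lit 0x0) (nat_lit 0xc000000030000500038001400000000000000) := T_45 (nat_lit 112) (nat_lit 113) (nat_lit 2) (nat_lit 7) (nat_lit 7) L123661 (by decide +kernel)
theorem L123663 : W_45 (nat_lit 2) (nat_lit 0x50003c0004000200018000000000000000000) (nat_lit 0x0) (nat_lit 0x400020001000000000000000) := D_45 (nat_lit 77) (nat_lit 94) (nat_lit 60) (nat_lit 6) (nat_lit 8) (nat_lit 8) (nat_lit 6) (nat_lit 8) (nat_lit 7) (by decide +kernel)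
theorem L123664 : W_45 (nat_lit 3) (nat_lit 0x50003c0004000200008000000000000000000) (nat_lit 0x0) (nat_lit 0x400030001400000000000000) := T_45 (nat_lit 76) (nat_lit 58) (nat_lit 4) (nat_lit 8) (nat_lit 7) L123663 (by decide +kernel)
theorem L123665 : W_45 (nat_lit 4) (nat_lit 0x10003c0004000200008000000000000000000) (nat_lit 0x0) (nat_lit 0xc000000000000400030001400000000000000) := T_45 (nat_lit 146) (nat_lit 147) (nat_lit 3) (nat_lit 7) (nat_lit 7) L123664 (by decide +kernel)
theorem L123666 : W_45 (nat_lit 5) (nat_lit 0x10003c0004000200000000000000000000000) (nat_lit 0x0) (nat_lit 0xc000000000000500038001400000000000000) := T_45 (nat_lit 75) (nat_lit 92) (nat_lit 4) (nat_lit 8) (nat_lit 8) L123665 (by decide +kernel)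
theorem L123667 : W_45 (nat_lit 2) (nat_lit 0x28000800050003c0014000600000000000000000000000) (nat_lit 0x0) (nat_lit 0x50001000000000000000000000000000000000000000000000) := D_45 (nat_lit 180) (nat_lit 198) (nat_lit 196) (nat_lit 7) (nat_lit 10) (nat_lit 7) (nat_lit 5) (nat_lit 10) (nat_lit 7) (by decide +kernel)
theorem L123668 : W_45 (nat_lit 3) (nat_lit 0x20000800050003c0014000600000000000000000000000) (nat_lit 0x0) (nat_lit 0x50001800040000000000000000000000000000000000000000) := T_45 (nat_lit 179) (nat_lit 162) (nat_lit 5) (nat_lit 10) (nat_lit 6) L123667 (by decide +kernel)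
theorem L123669 : W_45 (nat_lit 4) (nat_lit 0x800050003c0014000600000000000000000000000) (nat_lit 0x0) (nat_lit 0x50003800140000000000000000000000000000000000000000) := T_45 (nat_lit 181) (nat_lit 164) (nat_lit 7) (nat_lit 10) (nat_lit 6) L123668 (by decide +kernel)
theorem L123670 : W_45 (nat_lit 5) (nat_lit 0x50003c0014000600000000000000000000000) (nat_lit 0x0) (nat_lit 0x500038001c0000000000008000000000000000000000000000) := T_45 (nat_lit 163) (nat_lit 111) (nat_lit 4) (nat_lit 10) (nat_lit 9) L123669 (by decide +kernel)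
theorem L123671 : W_45 (nat_lit 6) (nat_lit 0x10003c0014000600000000000000000000000) (nat_lit 0x0) (nat_lit 0x500038001c000c000000008000000000000000000000000000) := T_45 (nat_lit 146) (nat_lit 147) (nat_lit 3) (nat_lit 7) (nat_lit 7) L123670 (by decide +kernel)
theorem L123672 : W_45 (nat_lit 7) (nat_lit 0x10003c0004000600000000000000000000000) (nat_lit 0x0) (nat_lit 0x500038001c000c000000038000000000000000000000000000) := T_45 (nat_lit 112) (nat_lit 113) (nat_lit 2) (nat_lit 7) (nat_lit 7) L123671 (by decide +kernel)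
theorem L123673 : W_45 (nat_lit 8) (nat_lit 0x10003c0004000200000000000000000000000) (nat_lit 0x0) (nat_lit 0x500038001c000c000000038000400020000000000000000000) := T_45 (nat_lit 94) (nat_lit 77) (nat_lit 6) (nat_lit 8) (nat_lit 8) L123672 (by decide +kernel)
theorem L123674 : W_45 (nat_lit 2) (nat_lit 0x50003c001c000200018000000000000000000) (nat_lit 0x0) (nat_lit 0x1000080000000000000000400000000000000000000000) := D_45 (nat_lit 163) (nat_lit 180) (nat_lit 94) (nat_lit 4) (nat_lit 10) (nat_lit 10) (nat_lit 4) (nat_lit 10) (nat_lit 9) (by decide +kernel)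
theorem L123675 : W_45 (nat_lit 3) (nat_lit 0x50003c0014000200018000000000000000000) (nat_lit 0x0) (nat_lit 0x1000080000000000008000400000000800000000000000) := T_45 (nat_lit 111) (nat_lit 59) (nat_lit 7) (nat_lit 8) (nat_lit 3) L123674 (by decide +kernel)
theorem L123676 : W_45 (nat_lit 4) (nat_lit 0x50003c0014000200008000000000000000000) (nat_lit 0x0) (nat_lit 0x1000080000000000008000400010000c00000000000000) := T_45 (nat_lit 76) (nat_lit 58) (nat_lit 4) (nat_lit 8) (nat_lit 7) L123675 (by decide +kernel)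
theorem L123677 : W_45 (nat_lit 5) (nat_lit 0x50003c0004000200008000000000000000000) (nat_lit 0x0) (nat_lit 0x1000080000000000038000400010000c00000000000000) := T_45 (nat_lit 112) (nat_lit 113) (nat_lit 2) (nat_lit 7) (nat_lit 7) L123676 (by decide +kernel)
theorem L123678 : W_45 (nat_lit 6) (nat_lit 0x50003c0004000200000000000000000000000) (nat_lit 0x0) (nat_lit 0x1000080000000000038000500018000c00000000000000) := T_45 (nat_lit 75) (nat_lit 92) (nat_lit 4) (nat_lit 8) (nat_lit 8) L123677 (by decide +kernel)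
theorem L123679 : W_45 (nat_lit 7) (nat_lit 0x10003c0004000200000000000000000000000) (nat_lit 0x0) (nat_lit 0x100008000c000000038000500018000c00000000000000) := T_45 (nat_lit 146) (nat_lit 147) (nat_lit 3) (nat_lit 7) (nat_lit 7) L123678 (by decide +kernel)
theorem L123680 : W_45 (nat_lit 9) (nat_lit 0x10003c0004000000000000000000000000000) (nat_lit 0x0) (nat_lit 0x500038001c000c000000039c007c003f001c00080000000000) := Q_45 (nat_lit 93) (C_45 L123659 (C_45 L123622 (C_45 L123662 (C_45 L123666 (C_45 L123673 (C_45 L123679 N_45)))))) (by decide +kernel)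
theorem L123681 : W_45 (nat_lit 12) (nat_lit 0x10003c0000000000000000000000000000000) (nat_lit 0x0) (nat_lit 0x50003e001d000cc0000003dc03fc00ff007c00080000000000) := Q_45 (nat_lit 110) (C_45 L122875 (C_45 L123609 (C_45 L123623 (C_45 L123651 (C_45 L123680 N_45))))) (by decide +kernel)
theorem L123682 : W_45 (nat_lit 13) (nat_lit 0x10001c0000000000000000000000000000000) (nat_lit 0x0) (nat_lit 0x50003e001d001cc0060007dc03fc00ff007c00080000000000) := Q_45 (nat_lit 129) (C_45 L122841 (C_45 L123274 (C_45 L123277 (C_45 L123681 N_45)))) (by decide +kernel)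
theorem L123683 : W_45 (nat_lit 2) (nat_lit 0x1000100058003c0012000300000000000000000000000) (nat_lit 0x0) (nat_lit 0x6000200000000000000000000000000000000000000000000) := D_45 (nat_lit 177) (nat_lit 194) (nat_lit 193) (nat_lit 6) (nat_lit 7) (nat_lit 11) (nat_lit 5) (nat_lit 7) (nat_lit 7) (by decide +kernel)
theorem L123684 : W_45 (nat_lit 3) (nat_lit 0x100058003c0012000300000000000000000000000) (nat_lit 0x0) (nat_lit 0x6000300008000000000000000000000000000000000000000) := T_45 (nat_lit 176) (nat_lit 159) (nat_lit 5) (nat_lit 7) (nat_lit 6) L123683 (by decide +kernel)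
theorem L123685 : W_45 (nat_lit 4) (nat_lit 0x58003c0012000300000000000000000000000) (nat_lit 0x0) (nat_lit 0x6000300018000000000004000000000000000000000000000) := T_45 (nat_lit 160) (nat_lit 110) (nat_lit 6) (nat_lit 7) (nat_lit 9) L123684 (by decide +kernel)
theorem L123686 : W_45 (nat_lit 5) (nat_lit 0x58003c0012000100000000000000000000000) (nat_lit 0x0) (nat_lit 0x6000300018000000000004000200010000000000000000000) := T_45 (nat_lit 93) (nat_lit 76) (nat_lit 6) (nat_lit 7) (nat_lit 8) L123685 (by decide +kernel)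
theorem L123687 : W_45 (nat_lit 6) (nat_lit 0x50003c0012000100000000000000000000000) (nat_lit 0x0) (nat_lit 0x6000300018000c00000004000200010000000000000000000) := T_45 (nat_lit 143) (nat_lit 142) (nat_lit 1) (nat_lit 10) (nat_lit 7) L123686 (by decide +kernel)
theorem L123688 : W_45 (nat_lit 7) (nat_lit 0x10003c0012000100000000000000000000000) (nat_lit 0x0) (nat_lit 0x600030001800cc00000004000200010000000000000000000) := T_45 (nat_lit 146) (nat_lit 147) (nat_lit 3) (nat_lit 7) (nat_lit 7) L123687 (by decide +kernel)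
theorem L123689 : W_45 (nat_lit 8) (nat_lit 0x10003c0012000000000000000000000000000) (nat_lit 0x0) (nat_lit 0x600030001800cc00000004000300018000000000000000000) := T_45 (nat_lit 92) (nat_lit 75) (nat_lit 7) (nat_lit 7) (nat_lit 4) L123688 (by decide +kernel)
theorem L123690 : W_45 (nat_lit 9) (nat_lit 0x10003c0002000000000000000000000000000) (nat_lit 0x0) (nat_lit 0x600030001800cc00000034000300018000000000000000000) := T_45 (nat_lit 112) (nat_lit 113) (nat_lit 2) (nat_lit 7) (nat_lit 7) L123689 (by decide +kernel)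
theorem L123691 : W_45 (nat_lit 10) (nat_lit 0x10003c0000000000000000000000000000000) (nat_lit 0x0) (nat_lit 0x600030001800cc00000037000300018000000000000000000) := T_45 (nat_lit 109) (nat_lit 108) (nat_lit 0) (nat_lit 10) (nat_lit 7) L123690 (by decide +kernel)
theorem L123692 : W_45 (nat_lit 11) (nat_lit 0x10001c0000000000000000000000000000000) (nat_lit 0x0) (nat_lit 0x600030001801cc00600077000300018000000000000000000) := Q_45 (nat_lit 129) (C_45 L123277 (C_45 L122927 (C_45 L122843 (C_45 L123691 N_45)))) (by decide +kernel)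
theorem L123693 : W_45 (nat_lit 2) (nat_lit 0x18003c0006001780000000000000000000000) (nat_lit 0x0) (nat_lit 0x8000060000000000000000000000) := D_45 (nat_lit 90) (nat_lit 111) (nat_lit 89) (nat_lit 3) (nat_lit 5) (nat_lit 5) (nat_lit 3) (nat_lit 4) (nat_lit 5) (by decide +kernel)
theorem L123694 : W_45 (nat_lit 3) (nat_lit 0x18003c0006001700000000000000000000000) (nat_lit 0x0) (nat_lit 0x80000e0004000000000000000000) := T_45 (nat_lit 91) (nat_lit 74) (nat_lit 4) (nat_lit 7) (nat_lit 8) L123693 (by decide +kernel)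
theorem L123695 : W_45 (nat_lit 4) (nat_lit 0x18003c0006000700000000000000000000000) (nat_lit 0x0) (nat_lit 0x80018e0004000000000000000000) := T_45 (nat_lit 96) (nat_lit 95) (nat_lit 1) (nat_lit 11) (nat_lit 5) L123694 (by decide +kernel)
theorem L123696 : W_45 (nat_lit 5) (nat_lit 0x18003c0006000300000000000000000000000) (nat_lit 0x0) (nat_lit 0x8001ce0024000000000000000000) := T_45 (nat_lit 94) (nat_lit 77) (nat_lit 6) (nat_lit 8) (nat_lit 8) L123695 (by decide +kernel)
theorem L123697 : W_45 (nat_lit 6) (nat_lit 0x18003c0006000200000000000000000000000) (nat_lit 0x0) (nat_lit 0x8001de002c000000000000000000) := T_45 (nat_lit 92) (nat_lit 75) (nat_lit 7) (nat_lit 7) (nat_lit 4) L123696 (by decide +kernel)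
theorem L123698 : W_45 (nat_lit 7) (nat_lit 0x10003c0006000200000000000000000000000) (nat_lit 0x0) (nat_lit 0x10000800000008001de002c000000000000000000) := T_45 (nat_lit 143) (nat_lit 160) (nat_lit 6) (nat_lit 7) (nat_lit 9) L123697 (by decide +kernel)
theorem L123699 : W_45 (nat_lit 8) (nat_lit 0x10003c0004000200000000000000000000000) (nat_lit 0x0) (nat_lit 0x1000080000000b001de002c000000000000000000) := T_45 (nat_lit 109) (nat_lit 108) (nat_lit 0) (nat_lit 10) (nat_lit 7) L123698 (by decide +kernel)
theorem L123700 : W_45 (nat_lit 9) (nat_lit 0x10003c0004000000000000000000000000000) (nat_lit 0x0) (nat_lit 0x1000c80000000b001fe003c001c00000000000000) := Q_45 (nat_lit 93) (C_45 L122850 (C_45 L123666 (C_45 L123699 N_45))) (by decide +kernel)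
theorem L123701 : W_45 (nat_lit 2) (nat_lit 0x58003c00160001a0000000000000000000000) (nat_lit 0x0) (nat_lit 0x10000000000000000200010000000000000000000) := D_45 (nat_lit 93) (nat_lit 76) (nat_lit 160) (nat_lit 6) (nat_lit 7) (nat_lit 8) (nat_lit 6) (nat_lit 7) (nat_lit 9) (by decide +kernel)
theorem L123702 : W_45 (nat_lit 3) (nat_lit 0x50003c00160001a0000000000000000000000) (nat_lit 0x0) (nat_lit 0x10000800000000000200014000000000000000000) := T_45 (nat_lit 143) (nat_lit 74) (nat_lit 4) (nat_lit 7) (nat_lit 8) L123701 (by decide +kernel)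
theorem L123703 : W_45 (nat_lit 4) (nat_lit 0x50003c0016000180000000000000000000000) (nat_lit 0x0) (nat_lit 0x10000800000000000260014000000000000000000) := T_45 (nat_lit 89) (nat_lit 90) (nat_lit 3) (nat_lit 4) (nat_lit 5) L123702 (by decide +kernel)
theorem L123704 : W_45 (nat_lit 5) (nat_lit 0x50003c0016000100000000000000000000000) (nat_lit 0x0) (nat_lit 0x100008000000080002e0014000000000000000000) := T_45 (nat_lit 91) (nat_lit 111) (nat_lit 0) (nat_lit 10) (nat_lit 6) L123703 (by decide +kernel)
theorem L123705 : W_45 (nat_lit 6) (nat_lit 0x50003c0016000000000000000000000000000) (nat_lit 0x0) (nat_lit 0x100008000000080003e001c000000000000000000) := T_45 (nat_lit 92) (nat_lit 75) (nat_lit 7) (nat_lit 7) (nat_lit 4) L123704 (by decide +kernel)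
theorem L123706 : W_45 (nat_lit 7) (nat_lit 0x50003c0014000000000000000000000000000) (nat_lit 0x0) (nat_lit 0x1000080000000b0003e001c000000000000000000) := T_45 (nat_lit 109) (nat_lit 108) (nat_lit 0) (nat_lit 10) (nat_lit 7) L123705 (by decide +kernel)
theorem L123707 : W_45 (nat_lit 8) (nat_lit 0x50003c0004000000000000000000000000000) (nat_lit 0x0) (nat_lit 0x1000080000003b0003e001c000000000000000000) := T_45 (nat_lit 112) (nat_lit 113) (nat_lit 2) (nat_lit 7) (nat_lit 7) L123706 (by decide +kernel)
theorem L123708 : W_45 (nat_lit 9) (nat_lit 0x10003c0004000000000000000000000000000) (nat_lit 0x0) (nat_lit 0x1000c80000003b0003e001c000000000000000000) := T_45 (nat_lit 146) (nat_lit 147) (nat_lit 3) (nat_lit 7) (nat_lit 7) L123707 (by decide +kernel)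
theorem L123709 : W_45 (nat_lit 2) (nat_lit 0x10003c0004000780000000000000000000000) (nat_lit 0x0) (nat_lit 0x3800000000000000000000000000) := D_45 (nat_lit 108) (nat_lit 107) (nat_lit 109) (nat_lit 1) (nat_lit 9) (nat_lit 5) (nat_lit 0) (nat_lit 10) (nat_lit 7) (by decide +kernel)
theorem L123710 : W_45 (nat_lit 3) (nat_lit 0x10003c0004000380000000000000000000000) (nat_lit 0x0) (nat_lit 0x3800400020000000000000000000) := T_45 (nat_lit 94) (nat_lit 77) (nat_lit 6) (nat_lit 8) (nat_lit 8) L123709 (by decide +kernel)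
theorem L123711 : W_45 (nat_lit 2) (nat_lit 0x50003c0004800780002000000000000000000) (nat_lit 0x0) (nat_lit 0x400040001000000000000000000) := D_45 (nat_lit 90) (nat_lit 106) (nat_lit 72) (nat_lit 1) (nat_lit 8) (nat_lit 5) (nat_lit 0) (nat_lit 8) (nat_lit 5) (by decide +kernel)
theorem L123712 : W_45 (nat_lit 3) (nat_lit 0x50003c0004800780000000000000000000000) (nat_lit 0x0) (nat_lit 0x400040007000000000000000000) := T_45 (nat_lit 73) (nat_lit 74) (nat_lit 0) (nat_lit 9) (nat_lit 5) L123711 (by decide +kernel)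
theorem L123713 : W_45 (nat_lit 4) (nat_lit 0x50003c0004000780000000000000000000000) (nat_lit 0x0) (nat_lit 0x1c00040007000000000000000000) := T_45 (nat_lit 107) (nat_lit 108) (nat_lit 1) (nat_lit 9) (nat_lit 5) L123712 (by decide +kernel)
theorem L123714 : W_45 (nat_lit 5) (nat_lit 0x50003c0004000380000000000000000000000) (nat_lit 0x0) (nat_lit 0x1c00440027000000000000000000) := T_45 (nat_lit 94) (nat_lit 77) (nat_lit 6) (nat_lit 8) (nat_lit 8) L123713 (by decide +kernel)
theorem L123715 : W_45 (nat_lit 6) (nat_lit 0x10003c0004000380000000000000000000000) (nat_lit 0x0) (nat_lit 0xc000000001c00440027000000000000000000) := T_45 (nat_lit 146) (nat_lit 147) (nat_lit 3) (nat_lit 7) (nat_lit 7) L123714 (by decide +kernel)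
theorem L123716 : W_45 (nat_lit 2) (nat_lit 0x50003c0016000380000000000000000000000) (nat_lit 0x0) (nat_lit 0x10000800000000000000004000000000000000000) := D_45 (nat_lit 143) (nat_lit 160) (nat_lit 74) (nat_lit 6) (nat_lit 7) (nat_lit 9) (nat_lit 4) (nat_lit 7) (nat_lit 8) (by decide +kernel)
theorem L123717 : W_45 (nat_lit 3) (nat_lit 0x50003c0014000380000000000000000000000) (nat_lit 0x0) (nat_lit 0x10000800000003000000004000000000000000000) := T_45 (nat_lit 109) (nat_lit 108) (nat_lit 0) (nat_lit 10) (nat_lit 7) L123716 (by decide +kernel)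
theorem L123718 : W_45 (nat_lit 4) (nat_lit 0x10003c0014000380000000000000000000000) (nat_lit 0x0) (nat_lit 0x1000c800000003000000004000000000000000000) := T_45 (nat_lit 146) (nat_lit 147) (nat_lit 3) (nat_lit 7) (nat_lit 7) L123717 (by decide +kernel)
theorem L123719 : W_45 (nat_lit 5) (nat_lit 0x10003c0004000380000000000000000000000) (nat_lit 0x0) (nat_lit 0x1000c800000033000000004000000000000000000) := T_45 (nat_lit 112) (nat_lit 113) (nat_lit 2) (nat_lit 7) (nat_lit 7) L123718 (by decide +kernel)
theorem L123720 : W_45 (nat_lit 2) (nat_lit 0x18003c0004000380004000000000000000000) (nat_lit 0x0) (nat_lit 0x400022000000000000000000) := D_45 (nat_lit 94) (nat_lit 77) (nat_lit 73) (nat_lit 6) (nat_lit 8) (nat_lit 8) (nat_lit 0) (nat_lit 9) (nat_lit 5) (by decide +kernel)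
theorem L123721 : W_45 (nat_lit 3) (nat_lit 0x18003c0004000380000000000000000000000) (nat_lit 0x0) (nat_lit 0x2000400026000000000000000000) := T_45 (nat_lit 74) (nat_lit 109) (nat_lit 4) (nat_lit 7) (nat_lit 8) L123720 (by decide +kernel)
theorem L123722 : W_45 (nat_lit 4) (nat_lit 0x10003c0004000380000000000000000000000) (nat_lit 0x0) (nat_lit 0x10000800000002000400026000000000000000000) := T_45 (nat_lit 143) (nat_lit 160) (nat_lit 5) (nat_lit 8) (nat_lit 5) L123721 (by decide +kernel)
theorem L123723 : W_45 (nat_lit 7) (nat_lit 0x10003c0004000300000000000000000000000) (nat_lit 0x0) (nat_lit 0x1000c800000033c004c0027000000000000000000) := Q_45 (nat_lit 91) (C_45 L123710 (C_45 L123715 (C_45 L123719 (C_45 L123722 N_45)))) (by decide +kernel)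
theorem L123724 : W_45 (nat_lit 8) (nat_lit 0x10003c0004000200000000000000000000000) (nat_lit 0x0) (nat_lit 0x1000c800000033c005c002f000000000000000000) := T_45 (nat_lit 92) (nat_lit 75) (nat_lit 4) (nat_lit 8) (nat_lit 8) L123723 (by decide +kernel)
theorem L123725 : W_45 (nat_lit 9) (nat_lit 0x10003c0004000000000000000000000000000) (nat_lit 0x0) (nat_lit 0x1000c800000033c007c003f001c00000000000000) := Q_45 (nat_lit 93) (C_45 L122850 (C_45 L123666 (C_45 L123724 N_45))) (by decide +kernel)
theorem L123726 : W_45 (nat_lit 2) (nat_lit 0x50003c001e000100000000000000000000000) (nat_lit 0x0) (nat_lit 0x1000080000000000000000400000000000000000000000) := D_45 (nat_lit 163) (nat_lit 94) (nat_lit 180) (nat_lit 4) (nat_lit 10) (nat_lit 9) (nat_lit 4) (nat_lit 10) (nat_lit 10) (by decide +kernel)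
theorem L123727 : W_45 (nat_lit 3) (nat_lit 0x50003c0016000100000000000000000000000) (nat_lit 0x0) (nat_lit 0x1000080000000000008000480000000000000000000000) := T_45 (nat_lit 111) (nat_lit 91) (nat_lit 0) (nat_lit 10) (nat_lit 6) L123726 (by decide +kernel)
theorem L123728 : W_45 (nat_lit 4) (nat_lit 0x50003c0016000000000000000000000000000) (nat_lit 0x0) (nat_lit 0x1000080000000000008000580008000000000000000000) := T_45 (nat_lit 92) (nat_lit 75) (nat_lit 7) (nat_lit 7) (nat_lit 4) L123727 (by decide +kernel)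
theorem L123729 : W_45 (nat_lit 5) (nat_lit 0x50003c0014000000000000000000000000000) (nat_lit 0x0) (nat_lit 0x100008000000000000b000580008000000000000000000) := T_45 (nat_lit 109) (nat_lit 108) (nat_lit 0) (nat_lit 10) (nat_lit 7) L123728 (by decide +kernel)
theorem L123730 : W_45 (nat_lit 6) (nat_lit 0x10003c0014000000000000000000000000000) (nat_lit 0x0) (nat_lit 0x100008000c00000000b000580008000000000000000000) := T_45 (nat_lit 146) (nat_lit 147) (nat_lit 3) (nat_lit 7) (nat_lit 7) L123729 (by decide +kernel)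
theorem L123731 : W_45 (nat_lit 7) (nat_lit 0x10003c0004000000000000000000000000000) (nat_lit 0x0) (nat_lit 0x100008000c00000003b000580008000000000000000000) := T_45 (nat_lit 112) (nat_lit 113) (nat_lit 2) (nat_lit 7) (nat_lit 7) L123730 (by decide +kernel)
theorem L123732 : W_45 (nat_lit 9) (nat_lit 0x10003c0004000000000000000000000000000) (nat_lit 0x0) (nat_lit 0x500038001c000c800000038000700038001c00080000000000) := Q_45 (nat_lit 93) (C_45 L123659 (C_45 L123613 (C_45 L123679 (C_45 L123666 (C_45 L123673 N_45))))) (by decide +kernel)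
theorem L123733 : W_45 (nat_lit 2) (nat_lit 0x10003c001e000900020000000000000000000) (nat_lit 0x0) (nat_lit 0x40003000000000000000) := D_45 (nat_lit 78) (nat_lit 60) (nat_lit 61) (nat_lit 4) (nat_lit 10) (nat_lit 7) (nat_lit 5) (nat_lit 10) (nat_lit 3) (by decide +kernel)
theorem L123734 : W_45 (nat_lit 3) (nat_lit 0x10003c001e000900000000000000000000000) (nat_lit 0x0) (nat_lit 0x400060003000000000000000) := T_45 (nat_lit 77) (nat_lit 94) (nat_lit 5) (nat_lit 9) (nat_lit 4) L123733 (by decide +kernel)
theorem L123735 : W_45 (nat_lit 4) (nat_lit 0x10003c001e000100000000000000000000000) (nat_lit 0x0) (nat_lit 0x1c00060003000000000000000) := T_45 (nat_lit 95) (nat_lit 96) (nat_lit 2) (nat_lit 7) (nat_lit 6) L123734 (by decide +kernel)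
theorem L123736 : W_45 (nat_lit 5) (nat_lit 0x10003c0016000100000000000000000000000) (nat_lit 0x0) (nat_lit 0x8001c80060003000000000000000) := T_45 (nat_lit 111) (nat_lit 91) (nat_lit 0) (nat_lit 10) (nat_lit 6) L123735 (by decide +kernel)
theorem L123737 : W_45 (nat_lit 6) (nat_lit 0x10003c0016000000000000000000000000000) (nat_lit 0x0) (nat_lit 0x8001d80068003000000000000000) := T_45 (nat_lit 92) (nat_lit 75) (nat_lit 7) (nat_lit 7) (nat_lit 4) L123736 (by decide +kernel)
theorem L123738 : W_45 (nat_lit 7) (nat_lit 0x10003c0006000000000000000000000000000) (nat_lit 0x0) (nat_lit 0x38001d80068003000000000000000) := T_45 (nat_lit 112) (nat_lit 113) (nat_lit 2) (nat_lit 7) (nat_lit 7) L123737 (by decide +kernel)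
theorem L123739 : W_45 (nat_lit 8) (nat_lit 0x10003c0004000000000000000000000000000) (nat_lit 0x0) (nat_lit 0x3b001d80068003000000000000000) := T_45 (nat_lit 109) (nat_lit 108) (nat_lit 0) (nat_lit 10) (nat_lit 7) L123738 (by decide +kernel)
theorem L123740 : W_45 (nat_lit 10) (nat_lit 0x10003c0000000000000000000000000000000) (nat_lit 0x0) (nat_lit 0x500038001d000c80000003fc01fe00ff007c00280000000000) := Q_45 (nat_lit 110) (C_45 L123700 (C_45 L123708 (C_45 L123680 (C_45 L123725 (C_45 L123731 (C_45 L122899 (C_45 L123732 (C_45 L123739 N_45)))))))) (by decide +kernel)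
theorem L123741 : W_45 (nat_lit 11) (nat_lit 0x10001c0000000000000000000000000000000) (nat_lit 0x0) (nat_lit 0x500038001d001c80060007fc01fe00ff007c00280000000000) := Q_45 (nat_lit 129) (C_45 L123277 (C_45 L122927 (C_45 L122843 (C_45 L123740 N_45)))) (by decide +kernel)
theorem L123742 : W_45 (nat_lit 2) (nat_lit 0x58003c001a000180000000000000000000000) (nat_lit 0x0) (nat_lit 0x1000080000000000000000400000000000000000000000) := D_45 (nat_lit 163) (nat_lit 94) (nat_lit 180) (nat_lit 4) (nat_lit 10) (nat_lit 9) (nat_lit 4) (nat_lit 10) (nat_lit 10) (by decide +kernel)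
theorem L123743 : W_45 (nat_lit 3) (nat_lit 0x58003c0012000180000000000000000000000) (nat_lit 0x0) (nat_lit 0x100008000000000000c000400000000000000000000000) := T_45 (nat_lit 111) (nat_lit 110) (nat_lit 0) (nat_lit 10) (nat_lit 6) L123742 (by decide +kernel)
theorem L123744 : W_45 (nat_lit 4) (nat_lit 0x58003c0012000100000000000000000000000) (nat_lit 0x0) (nat_lit 0x100008000000000000c000480004000000000000000000) := T_45 (nat_lit 91) (nat_lit 74) (nat_lit 4) (nat_lit 7) (nat_lit 8) L123743 (by decide +kernel)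
theorem L123745 : W_45 (nat_lit 5) (nat_lit 0x50003c0012000100000000000000000000000) (nat_lit 0x0) (nat_lit 0x1000080000c0000000c000480004000000000000000000) := T_45 (nat_lit 143) (nat_lit 142) (nat_lit 1) (nat_lit 10) (nat_lit 7) L123744 (by decide +kernel)
theorem L123746 : W_45 (nat_lit 6) (nat_lit 0x10003c0012000100000000000000000000000) (nat_lit 0x0) (nat_lit 0x100008000cc0000000c000480004000000000000000000) := T_45 (nat_lit 146) (nat_lit 147) (nat_lit 3) (nat_lit 7) (nat_lit 7) L123745 (by decide +kernel)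
theorem L123747 : W_45 (nat_lit 7) (nat_lit 0x10003c0012000000000000000000000000000) (nat_lit 0x0) (nat_lit 0x100008000cc0000000c00058000c000000000000000000) := T_45 (nat_lit 92) (nat_lit 75) (nat_lit 7) (nat_lit 7) (nat_lit 4) L123746 (by decide +kernel)
theorem L123748 : W_45 (nat_lit 8) (nat_lit 0x10003c0002000000000000000000000000000) (nat_lit 0x0) (nat_lit 0x100008000cc0000003c00058000c000000000000000000) := T_45 (nat_lit 112) (nat_lit 113) (nat_lit 2) (nat_lit 7) (nat_lit 7) L123747 (by decide +kernel)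
theorem L123749 : W_45 (nat_lit 9) (nat_lit 0x10003c0000000000000000000000000000000) (nat_lit 0x0) (nat_lit 0x100008000cc0000003f00058000c000000000000000000) := T_45 (nat_lit 109) (nat_lit 108) (nat_lit 0) (nat_lit 10) (nat_lit 7) L123748 (by decide +kernel)
theorem L123750 : W_45 (nat_lit 10) (nat_lit 0x10001c0000000000000000000000000000000) (nat_lit 0x0) (nat_lit 0x100008001cc0060007f00058000c000000000000000000) := Q_45 (nat_lit 129) (C_45 L123277 (C_45 L122927 (C_45 L122843 (C_45 L123749 N_45)))) (by decide +kernel)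
theorem L123751 : W_45 (nat_lit 2) (nat_lit 0x58003c0006001780000000000000000000000) (nat_lit 0x0) (nat_lit 0x8000060000000000000000000000) := D_45 (nat_lit 90) (nat_lit 111) (nat_lit 89) (nat_lit 3) (nat_lit 5) (nat_lit 5) (nat_lit 3) (nat_lit 4) (nat_lit 5) (by decide +kernel)
theorem L123752 : W_45 (nat_lit 3) (nat_lit 0x58003c0006001700000000000000000000000) (nat_lit 0x0) (nat_lit 0x80000e0004000000000000000000) := T_45 (nat_lit 91) (nat_lit 74) (nat_lit 4) (nat_lit 7) (nat_lit 8) L123751 (by decide +kernel)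
theorem L123753 : W_45 (nat_lit 4) (nat_lit 0x58003c0006000700000000000000000000000) (nat_lit 0x0) (nat_lit 0x80018e0004000000000000000000) := T_45 (nat_lit 96) (nat_lit 95) (nat_lit 1) (nat_lit 11) (nat_lit 5) L123752 (by decide +kernel)
theorem L123754 : W_45 (nat_lit 5) (nat_lit 0x58003c0006000300000000000000000000000) (nat_lit 0x0) (nat_lit 0x8001ce0024000000000000000000) := T_45 (nat_lit 94) (nat_lit 77) (nat_lit 6) (nat_lit 8) (nat_lit 8) L123753 (by decide +kernel)
theorem L123755 : W_45 (nat_lit 6) (nat_lit 0x58003c0002000300000000000000000000000) (nat_lit 0x0) (nat_lit 0x1000000000000c001ce0024000000000000000000) := T_45 (nat_lit 110) (nat_lit 160) (nat_lit 6) (nat_lit 7) (nat_lit 9) L123754 (by decide +kernel)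
theorem L123756 : W_45 (nat_lit 7) (nat_lit 0x58003c0002000100000000000000000000000) (nat_lit 0x0) (nat_lit 0x1000000000000c001ee0034000000000000000000) := T_45 (nat_lit 93) (nat_lit 76) (nat_lit 6) (nat_lit 7) (nat_lit 8) L123755 (by decide +kernel)
theorem L123757 : W_45 (nat_lit 8) (nat_lit 0x58003c0002000000000000000000000000000) (nat_lit 0x0) (nat_lit 0x1000000000000c001fe003c000000000000000000) := T_45 (nat_lit 92) (nat_lit 75) (nat_lit 7) (nat_lit 7) (nat_lit 4) L123756 (by decide +kernel)
theorem L123758 : W_45 (nat_lit 9) (nat_lit 0x50003c0002000000000000000000000000000) (nat_lit 0x0) (nat_lit 0x10000c0000000c001fe003c000000000000000000) := T_45 (nat_lit 143) (nat_lit 142) (nat_lit 1) (nat_lit 10) (nat_lit 7) L123757 (by decide +kernel)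
theorem L123759 : W_45 (nat_lit 10) (nat_lit 0x50003c0000000000000000000000000000000) (nat_lit 0x0) (nat_lit 0x10000c0000000f001fe003c000000000000000000) := T_45 (nat_lit 109) (nat_lit 108) (nat_lit 0) (nat_lit 10) (nat_lit 7) L123758 (by decide +kernel)
theorem L123760 : W_45 (nat_lit 11) (nat_lit 0x10003c0000000000000000000000000000000) (nat_lit 0x0) (nat_lit 0x1000cc0000000f001fe003c000000000000000000) := T_45 (nat_lit 146) (nat_lit 147) (nat_lit 3) (nat_lit 7) (nat_lit 7) L123759 (by decide +kernel)
theorem L123761 : W_45 (nat_lit 12) (nat_lit 0x10001c0000000000000000000000000000000) (nat_lit 0x0) (nat_lit 0x1001cc0060000f001fe003c000000000000000000) := Q_45 (nat_lit 129) (C_45 L122927 (C_45 L122841 (C_45 L123760 N_45))) (by decide +kernel)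
theorem L123762 : W_45 (nat_lit 3) (nat_lit 0x18001c0002000000000000000000000000000) (nat_lit 0x0) (nat_lit 0x8000600000000000100008000000000000000000) := T_45 (nat_lit 92) (nat_lit 75) (nat_lit 7) (nat_lit 7) (nat_lit 4) L123111 (by decide +kernel)
theorem L123763 : W_45 (nat_lit 2) (nat_lit 0x18001c0006000380000000000000000000000) (nat_lit 0x0) (nat_lit 0x8000060000000000000000000000) := D_45 (nat_lit 90) (nat_lit 111) (nat_lit 89) (nat_lit 3) (nat_lit 5) (nat_lit 5) (nat_lit 3) (nat_lit 4) (nat_lit 5) (by decide +kernel)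
theorem L123764 : W_45 (nat_lit 3) (nat_lit 0x18001c0006000300000000000000000000000) (nat_lit 0x0) (nat_lit 0x80000e0004000000000000000000) := T_45 (nat_lit 91) (nat_lit 74) (nat_lit 4) (nat_lit 7) (nat_lit 8) L123763 (by decide +kernel)
theorem L123765 : W_45 (nat_lit 4) (nat_lit 0x18001c0006000200000000000000000000000) (nat_lit 0x0) (nat_lit 0x80001e000c000000000000000000) := T_45 (nat_lit 92) (nat_lit 75) (nat_lit 7) (nat_lit 7) (nat_lit 4) L123764 (by decide +kernel)
theorem L123766 : W_45 (nat_lit 2) (nat_lit 0x100018001c0002000180000000000000000000000) (nat_lit 0x0) (nat_lit 0x4000200000000000000004000000000000000000000000000) := D_45 (nat_lit 177) (nat_lit 110) (nat_lit 194) (nat_lit 6) (nat_lit 7) (nat_lit 10) (nat_lit 6) (nat_lit 7) (nat_lit 11) (by decide +kernel)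
theorem L123767 : W_45 (nat_lit 3) (nat_lit 0x18001c0002000180000000000000000000000) (nat_lit 0x0) (nat_lit 0x4000200010000000000005000000000000000000000000000) := T_45 (nat_lit 160) (nat_lit 108) (nat_lit 4) (nat_lit 7) (nat_lit 9) L123766 (by decide +kernel)
theorem L123768 : W_45 (nat_lit 4) (nat_lit 0x18001c0002000100000000000000000000000) (nat_lit 0x0) (nat_lit 0x4000200010000000000005000080004000000000000000000) := T_45 (nat_lit 91) (nat_lit 74) (nat_lit 4) (nat_lit 7) (nat_lit 8) L123767 (by decide +kernel)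
theorem L123769 : W_45 (nat_lit 2) (nat_lit 0x10001c0004000300000000000000000000000) (nat_lit 0x0) (nat_lit 0x10000800000000000000010000000000000000000) := D_45 (nat_lit 143) (nat_lit 76) (nat_lit 160) (nat_lit 5) (nat_lit 8) (nat_lit 4) (nat_lit 5) (nat_lit 8) (nat_lit 5) (by decide +kernel)
theorem L123770 : W_45 (nat_lit 3) (nat_lit 0x10001c0000000300000000000000000000000) (nat_lit 0x0) (nat_lit 0x10000800000004000000018000000000000000000) := T_45 (nat_lit 110) (nat_lit 75) (nat_lit 4) (nat_lit 8) (nat_lit 8) L123769 (by decide +kernel)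
theorem L123771 : W_45 (nat_lit 2) (nat_lit 0x10001c0004000300010000000000000000000) (nat_lit 0x0) (nat_lit 0x400020001000000000000000) := D_45 (nat_lit 77) (nat_lit 94) (nat_lit 60) (nat_lit 6) (nat_lit 8) (nat_lit 8) (nat_lit 6) (nat_lit 8) (nat_lit 7) (by decide +kernel)
theorem L123772 : W_45 (nat_lit 3) (nat_lit 0x10001c0004000300000000000000000000000) (nat_lit 0x0) (nat_lit 0x800000000000400030001000000000000000) := T_45 (nat_lit 76) (nat_lit 143) (nat_lit 5) (nat_lit 8) (nat_lit 4) L123771 (by decide +kernel)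
theorem L123773 : W_45 (nat_lit 4) (nat_lit 0x10001c0000000300000000000000000000000) (nat_lit 0x0) (nat_lit 0x800000004000400038001000000000000000) := T_45 (nat_lit 110) (nat_lit 75) (nat_lit 4) (nat_lit 8) (nat_lit 8) L123772 (by decide +kernel)
theorem L123774 : W_45 (nat_lit 2) (nat_lit 0x10001c00000007c0020000000000000000000) (nat_lit 0x0) (nat_lit 0x1c00000000000000000000000000) := D_45 (nat_lit 107) (nat_lit 106) (nat_lit 108) (nat_lit 1) (nat_lit 8) (nat_lit 5) (nat_lit 1) (nat_lit 9) (nat_lit 5) (by decide +kernel)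
theorem L123775 : W_45 (nat_lit 3) (nat_lit 0x10001c0000000780020000000000000000000) (nat_lit 0x0) (nat_lit 0x1c00040010000000000000000000) := T_45 (nat_lit 90) (nat_lit 76) (nat_lit 2) (nat_lit 5) (nat_lit 5) L123774 (by decide +kernel)
theorem L123776 : W_45 (nat_lit 4) (nat_lit 0x10001c0000000700020000000000000000000) (nat_lit 0x0) (nat_lit 0x1c000c0050000000000000000000) := T_45 (nat_lit 91) (nat_lit 78) (nat_lit 2) (nat_lit 6) (nat_lit 5) L123775 (by decide +kernel)
theorem L123777 : W_45 (nat_lit 5) (nat_lit 0x10001c0000000700000000000000000000000) (nat_lit 0x0) (nat_lit 0x9c000c0070000000000000000000) := T_45 (nat_lit 77) (nat_lit 111) (nat_lit 5) (nat_lit 9) (nat_lit 4) L123776 (by decide +kernel)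
theorem L123778 : W_45 (nat_lit 2) (nat_lit 0x10001c00000007c0024000000000000000000) (nat_lit 0x0) (nat_lit 0x1c00000000000000000000000000) := D_45 (nat_lit 107) (nat_lit 106) (nat_lit 108) (nat_lit 1) (nat_lit 8) (nat_lit 5) (nat_lit 1) (nat_lit 9) (nat_lit 5) (by decide +kernel)
theorem L123779 : W_45 (nat_lit 3) (nat_lit 0x10001c0000000780024000000000000000000) (nat_lit 0x0) (nat_lit 0x1c00040010000000000000000000) := T_45 (nat_lit 90) (nat_lit 76) (nat_lit 2) (nat_lit 5) (nat_lit 5) L123778 (by decide +kernel)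
theorem L123780 : W_45 (nat_lit 4) (nat_lit 0x10001c0000000780004000000000000000000) (nat_lit 0x0) (nat_lit 0x1c00040070000000000000000000) := T_45 (nat_lit 77) (nat_lit 78) (nat_lit 2) (nat_lit 6) (nat_lit 5) L123779 (by decide +kernel)
theorem L123781 : W_45 (nat_lit 5) (nat_lit 0x10001c0000000780000000000000000000000) (nat_lit 0x0) (nat_lit 0x1c00040076000000000000000000) := T_45 (nat_lit 74) (nat_lit 73) (nat_lit 0) (nat_lit 9) (nat_lit 5) L123780 (by decide +kernel)
theorem L123782 : W_45 (nat_lit 2) (nat_lit 0x10001c00004007c002c000000000000000000) (nat_lit 0x0) (nat_lit 0x200030000000000000000000000) := D_45 (nat_lit 89) (nat_lit 105) (nat_lit 88) (nat_lit 1) (nat_lit 7) (nat_lit 5) (nat_lit 2) (nat_lit 3) (nat_lit 5) (by decide +kernel)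
theorem L123783 : W_45 (nat_lit 3) (nat_lit 0x10001c00004007c0024000000000000000000) (nat_lit 0x0) (nat_lit 0x200830008000000000000000000) := T_45 (nat_lit 75) (nat_lit 95) (nat_lit 0) (nat_lit 10) (nat_lit 5) L123782 (by decide +kernel)
theorem L123784 : W_45 (nat_lit 4) (nat_lit 0x10001c00000007c0024000000000000000000) (nat_lit 0x0) (nat_lit 0xe00830008000000000000000000) := T_45 (nat_lit 106) (nat_lit 107) (nat_lit 1) (nat_lit 8) (nat_lit 5) L123783 (by decide +kernel)
theorem L123785 : W_45 (nat_lit 5) (nat_lit 0x10001c0000000780024000000000000000000) (nat_lit 0x0) (nat_lit 0xe00870018000000000000000000) := T_45 (nat_lit 90) (nat_lit 76) (nat_lit 2) (nat_lit 5) (nat_lit 5) L123784 (by decide +kernel)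
theorem L123786 : W_45 (nat_lit 6) (nat_lit 0x10001c0000000780004000000000000000000) (nat_lit 0x0) (nat_lit 0xe00870078000000000000000000) := T_45 (nat_lit 77) (nat_lit 78) (nat_lit 2) (nat_lit 6) (nat_lit 5) L123785 (by decide +kernel)
theorem L123787 : W_45 (nat_lit 7) (nat_lit 0x10001c0000000780000000000000000000000) (nat_lit 0x0) (nat_lit 0xe0087007e000000000000000000) := T_45 (nat_lit 74) (nat_lit 73) (nat_lit 0) (nat_lit 9) (nat_lit 5) L123786 (by decide +kernel)
theorem L123788 : W_45 (nat_lit 2) (nat_lit 0x10001c0001000f80004000000000000000000) (nat_lit 0x0) (nat_lit 0xe0000000000000000000) := D_45 (nat_lit 78) (nat_lit 77) (nat_lit 79) (nat_lit 2) (nat_lit 6) (nat_lit 5) (nat_lit 2) (nat_lit 7) (nat_lit 5) (by decide +kernel)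
theorem L123789 : W_45 (nat_lit 3) (nat_lit 0x10001c0001000780004000000000000000000) (nat_lit 0x0) (nat_lit 0x8000e8000000000000000000) := T_45 (nat_lit 95) (nat_lit 75) (nat_lit 0) (nat_lit 10) (nat_lit 5) L123788 (by decide +kernel)
theorem L123790 : W_45 (nat_lit 4) (nat_lit 0x10001c0000000780004000000000000000000) (nat_lit 0x0) (nat_lit 0x18008000e8000000000000000000) := T_45 (nat_lit 108) (nat_lit 107) (nat_lit 1) (nat_lit 9) (nat_lit 5) L123789 (by decide +kernel)
theorem L123791 : W_45 (nat_lit 5) (nat_lit 0x10001c0000000780000000000000000000000) (nat_lit 0x0) (nat_lit 0x18008000ee000000000000000000) := T_45 (nat_lit 74) (nat_lit 73) (nat_lit 0) (nat_lit 9) (nat_lit 5) L123790 (by decide +kernel)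
theorem L123792 : W_45 (nat_lit 2) (nat_lit 0x10001c00000007c0020000000000000000000) (nat_lit 0x0) (nat_lit 0x7000000000000000000) := D_45 (nat_lit 73) (nat_lit 72) (nat_lit 74) (nat_lit 0) (nat_lit 8) (nat_lit 5) (nat_lit 0) (nat_lit 9) (nat_lit 5) (by decide +kernel)
theorem L123793 : W_45 (nat_lit 3) (nat_lit 0x10001c0000000780020000000000000000000) (nat_lit 0x0) (nat_lit 0x40017000000000000000000) := T_45 (nat_lit 90) (nat_lit 76) (nat_lit 2) (nat_lit 5) (nat_lit 5) L123792 (by decide +kernel)
theorem L123794 : W_45 (nat_lit 4) (nat_lit 0x10001c0000000780000000000000000000000) (nat_lit 0x0) (nat_lit 0x40077000000000000000000) := T_45 (nat_lit 77) (nat_lit 78) (nat_lit 2) (nat_lit 6) (nat_lit 5) L123793 (by decide +kernel)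
theorem L123795 : W_45 (nat_lit 2) (nat_lit 0x10001c0000800780020000000000000000000) (nat_lit 0x0) (nat_lit 0x400040010000000000000000000) := D_45 (nat_lit 90) (nat_lit 76) (nat_lit 106) (nat_lit 2) (nat_lit 5) (nat_lit 5) (nat_lit 1) (nat_lit 8) (nat_lit 5) (by decide +kernel)
theorem L123796 : W_45 (nat_lit 3) (nat_lit 0x10001c0000800780000000000000000000000) (nat_lit 0x0) (nat_lit 0x400040070000000000000000000) := T_45 (nat_lit 77) (nat_lit 78) (nat_lit 2) (nat_lit 6) (nat_lit 5) L123795 (by decide +kernel)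
theorem L123797 : W_45 (nat_lit 4) (nat_lit 0x10001c0000000780000000000000000000000) (nat_lit 0x0) (nat_lit 0x1c00040070000000000000000000) := T_45 (nat_lit 107) (nat_lit 108) (nat_lit 1) (nat_lit 9) (nat_lit 5) L123796 (by decide +kernel)
theorem L123798 : W_45 (nat_lit 2) (nat_lit 0x10001c0021000f80084000000000000000000) (nat_lit 0x0) (nat_lit 0x40001000100000000000000000000) := D_45 (nat_lit 96) (nat_lit 80) (nat_lit 114) (nat_lit 2) (nat_lit 8) (nat_lit 5) (nat_lit 3) (nat_lit 8) (nat_lit 5) (by decide +kernel)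
theorem L123799 : W_45 (nat_lit 3) (nat_lit 0x10001c0001000f80084000000000000000000) (nat_lit 0x0) (nat_lit 0x70001000100000000000000000000) := T_45 (nat_lit 113) (nat_lit 112) (nat_lit 3) (nat_lit 7) (nat_lit 5) L123798 (by decide +kernel)
theorem L123800 : W_45 (nat_lit 4) (nat_lit 0x10001c0001000f80004000000000000000000) (nat_lit 0x0) (nat_lit 0x700010001c0000000000000000000) := T_45 (nat_lit 79) (nat_lit 78) (nat_lit 2) (nat_lit 7) (nat_lit 5) L123799 (by decide +kernel)
theorem L123801 : W_45 (nat_lit 5) (nat_lit 0x10001c0001000780004000000000000000000) (nat_lit 0x0) (nat_lit 0x700018001c8000000000000000000) := T_45 (nat_lit 95) (nat_lit 75) (nat_lit 0) (nat_lit 10) (nat_lit 5) L123800 (by decide +kernel)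
theorem L123802 : W_45 (nat_lit 6) (nat_lit 0x10001c0000000780004000000000000000000) (nat_lit 0x0) (nat_lit 0x718018001c8000000000000000000) := T_45 (nat_lit 108) (nat_lit 107) (nat_lit 1) (nat_lit 9) (nat_lit 5) L123801 (by decide +kernel)
theorem L123803 : W_45 (nat_lit 7) (nat_lit 0x10001c0000000780000000000000000000000) (nat_lit 0x0) (nat_lit 0x718018001ce000000000000000000) := T_45 (nat_lit 74) (nat_lit 73) (nat_lit 0) (nat_lit 9) (nat_lit 5) L123802 (by decide +kernel)
theorem L123804 : W_45 (nat_lit 2) (nat_lit 0x10001c00008007c000c000000000000000000) (nat_lit 0x0) (nat_lit 0x20030000000000000000000) := D_45 (nat_lit 76) (nat_lit 77) (nat_lit 89) (nat_lit 2) (nat_lit 5) (nat_lit 5) (nat_lit 2) (nat_lit 4) (nat_lit 5) (by decide +kernel)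
theorem L123805 : W_45 (nat_lit 3) (nat_lit 0x10001c000080078000c000000000000000000) (nat_lit 0x0) (nat_lit 0x400060030000000000000000000) := T_45 (nat_lit 90) (nat_lit 106) (nat_lit 1) (nat_lit 8) (nat_lit 5) L123804 (by decide +kernel)
theorem L123806 : W_45 (nat_lit 4) (nat_lit 0x10001c0000800780004000000000000000000) (nat_lit 0x0) (nat_lit 0x400860038000000000000000000) := T_45 (nat_lit 75) (nat_lit 95) (nat_lit 0) (nat_lit 10) (nat_lit 5) L123805 (by decide +kernel)
theorem L123807 : W_45 (nat_lit 5) (nat_lit 0x10001c0000000780004000000000000000000) (nat_lit 0x0) (nat_lit 0x1c00860038000000000000000000) := T_45 (nat_lit 107) (nat_lit 108) (nat_lit 1) (nat_lit 9) (nat_lit 5) L123806 (by decide +kernel)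
theorem L123808 : W_45 (nat_lit 6) (nat_lit 0x10001c0000000780000000000000000000000) (nat_lit 0x0) (nat_lit 0x1c0086003e000000000000000000) := T_45 (nat_lit 74) (nat_lit 73) (nat_lit 0) (nat_lit 9) (nat_lit 5) L123807 (by decide +kernel)
theorem L123809 : W_45 (nat_lit 8) (nat_lit 0x10001c0000000700000000000000000000000) (nat_lit 0x0) (nat_lit 0x71e018f01ff000000000000000000) := Q_45 (nat_lit 91) (C_45 L123781 (C_45 L123787 (C_45 L123791 (C_45 L123794 (C_45 L123797 (C_45 L123803 (C_45 L123808 N_45))))))) (by decide +kernel)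
theorem L123810 : W_45 (nat_lit 4) (nat_lit 0x10001c0000000700020000000000000000000) (nat_lit 0x0) (nat_lit 0xc0057000000000000000000) := T_45 (nat_lit 91) (nat_lit 78) (nat_lit 2) (nat_lit 6) (nat_lit 5) L123793 (by decide +kernel)
theorem L123811 : W_45 (nat_lit 5) (nat_lit 0x10001c0000000700000000000000000000000) (nat_lit 0x0) (nat_lit 0x80000c0077000000000000000000) := T_45 (nat_lit 77) (nat_lit 111) (nat_lit 5) (nat_lit 9) (nat_lit 4) L123810 (by decide +kernel)
theorem L123812 : W_45 (nat_lit 2) (nat_lit 0x10001c0000800780022000000000000000000) (nat_lit 0x0) (nat_lit 0x400040001000000000000000000) := D_45 (nat_lit 90) (nat_lit 106) (nat_lit 72) (nat_lit 1) (nat_lit 8) (nat_lit 5) (nat_lit 0) (nat_lit 8) (nat_lit 5) (by decide +kernel)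
theorem L123813 : W_45 (nat_lit 3) (nat_lit 0x10001c0000800780020000000000000000000) (nat_lit 0x0) (nat_lit 0x400040007000000000000000000) := T_45 (nat_lit 73) (nat_lit 74) (nat_lit 0) (nat_lit 9) (nat_lit 5) L123812 (by decide +kernel)
theorem L123814 : W_45 (nat_lit 4) (nat_lit 0x10001c0000000780020000000000000000000) (nat_lit 0x0) (nat_lit 0x1c00040007000000000000000000) := T_45 (nat_lit 107) (nat_lit 108) (nat_lit 1) (nat_lit 9) (nat_lit 5) L123813 (by decide +kernel)
theorem L123815 : W_45 (nat_lit 5) (nat_lit 0x10001c0000000700020000000000000000000) (nat_lit 0x0) (nat_lit 0x1c000c0047000000000000000000) := T_45 (nat_lit 91) (nat_lit 78) (nat_lit 2) (nat_lit 6) (nat_lit 5) L123814 (by decide +kernel)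
theorem L123816 : W_45 (nat_lit 6) (nat_lit 0x10001c0000000700000000000000000000000) (nat_lit 0x0) (nat_lit 0x9c000c0067000000000000000000) := T_45 (nat_lit 77) (nat_lit 111) (nat_lit 5) (nat_lit 9) (nat_lit 4) L123815 (by decide +kernel)
theorem L123817 : W_45 (nat_lit 2) (nat_lit 0x10001c0000003f00068000000000000000000) (nat_lit 0x0) (nat_lit 0xe0000000000000000000000000000) := D_45 (nat_lit 114) (nat_lit 113) (nat_lit 115) (nat_lit 3) (nat_lit 8) (nat_lit 5) (nat_lit 3) (nat_lit 9) (nat_lit 5) (by decide +kernel)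
theorem L123818 : W_45 (nat_lit 3) (nat_lit 0x10001c0000001f00068000000000000000000) (nat_lit 0x0) (nat_lit 0xe0006000000000000000000000000) := T_45 (nat_lit 97) (nat_lit 98) (nat_lit 0) (nat_lit 13) (nat_lit 5) L123817 (by decide +kernel)
theorem L123819 : W_45 (nat_lit 4) (nat_lit 0x10001c0000000f00068000000000000000000) (nat_lit 0x0) (nat_lit 0xe0007000010000000000000000000) := T_45 (nat_lit 96) (nat_lit 76) (nat_lit 3) (nat_lit 7) (nat_lit 4) L123818 (by decide +kernel)
theorem L123820 : W_45 (nat_lit 5) (nat_lit 0x10001c0000000f00060000000000000000000) (nat_lit 0x0) (nat_lit 0xe000700001c000000000000000000) := T_45 (nat_lit 75) (nat_lit 74) (nat_lit 0) (nat_lit 10) (nat_lit 5) L123819 (by decide +kernel)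
theorem L123821 : W_45 (nat_lit 6) (nat_lit 0x10001c0000000f00020000000000000000000) (nat_lit 0x0) (nat_lit 0xe00070000dc000000000000000000) := T_45 (nat_lit 78) (nat_lit 79) (nat_lit 2) (nat_lit 7) (nat_lit 5) L123820 (by decide +kernel)
theorem L123822 : W_45 (nat_lit 7) (nat_lit 0x10001c0000000f00000000000000000000000) (nat_lit 0x0) (nat_lit 0xe80070000fc000000000000000000) := T_45 (nat_lit 77) (nat_lit 111) (nat_lit 5) (nat_lit 9) (nat_lit 4) L123821 (by decide +kernel)
theorem L123823 : W_45 (nat_lit 2) (nat_lit 0x10001c0010001f00008000000000000000000) (nat_lit 0x0) (nat_lit 0x1c0000000000000000000) := D_45 (nat_lit 79) (nat_lit 78) (nat_lit 80) (nat_lit 2) (nat_lit 7) (nat_lit 5) (nat_lit 2) (nat_lit 8) (nat_lit 5) (by decide +kernel)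
theorem L123824 : W_45 (nat_lit 3) (nat_lit 0x10001c0010000f00008000000000000000000) (nat_lit 0x0) (nat_lit 0x10001d0000000000000000000) := T_45 (nat_lit 96) (nat_lit 76) (nat_lit 0) (nat_lit 11) (nat_lit 5) L123823 (by decide +kernel)
theorem L123825 : W_45 (nat_lit 4) (nat_lit 0x10001c0000000f00008000000000000000000) (nat_lit 0x0) (nat_lit 0x300010001d0000000000000000000) := T_45 (nat_lit 112) (nat_lit 113) (nat_lit 3) (nat_lit 7) (nat_lit 5) L123824 (by decide +kernel)
theorem L123826 : W_45 (nat_lit 5) (nat_lit 0x10001c0000000f00000000000000000000000) (nat_lit 0x0) (nat_lit 0x300010001dc000000000000000000) := T_45 (nat_lit 75) (nat_lit 74) (nat_lit 0) (nat_lit 10) (nat_lit 5) L123825 (by decide +kernel)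
theorem L123827 : W_45 (nat_lit 2) (nat_lit 0x10001c0008000f00040000000000000000000) (nat_lit 0x0) (nat_lit 0x30000000000002000000000000000) := D_45 (nat_lit 112) (nat_lit 113) (nat_lit 61) (nat_lit 3) (nat_lit 7) (nat_lit 5) (nat_lit 5) (nat_lit 10) (nat_lit 3) (by decide +kernel)
theorem L123828 : W_45 (nat_lit 3) (nat_lit 0x10001c0000000f00040000000000000000000) (nat_lit 0x0) (nat_lit 0x38000000020002000000000000000) := T_45 (nat_lit 111) (nat_lit 77) (nat_lit 5) (nat_lit 9) (nat_lit 4) L123827 (by decide +kernel)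
theorem L123829 : W_45 (nat_lit 4) (nat_lit 0x10001c0000000f00000000000000000000000) (nat_lit 0x0) (nat_lit 0x380000000e0002000000000000000) := T_45 (nat_lit 78) (nat_lit 79) (nat_lit 2) (nat_lit 7) (nat_lit 5) L123828 (by decide +kernel)
theorem L123830 : W_45 (nat_lit 2) (nat_lit 0x10001c0000000f00078002400380001000000) (nat_lit 0x0) (nat_lit 0x1800040000000000) := D_45 (nat_lit 59) (nat_lit 60) (nat_lit 42) (nat_lit 2) (nat_lit 7) (nat_lit 3) (nat_lit 1) (nat_lit 11) (nat_lit 2) (by decide +kernel)
theorem L123831 : W_45 (nat_lit 3) (nat_lit 0x10001c0000000f00078002400180001000000) (nat_lit 0x0) (nat_lit 0x1800240010000000) := T_45 (nat_lit 45) (nat_lit 28) (nat_lit 6) (nat_lit 10) (nat_lit 5) L123830 (by decide +kernel)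
theorem L123832 : W_45 (nat_lit 4) (nat_lit 0x10001c0000000f00078002400100001000000) (nat_lit 0x0) (nat_lit 0x18002c0014000000) := T_45 (nat_lit 43) (nat_lit 26) (nat_lit 4) (nat_lit 10) (nat_lit 5) L123831 (by decide +kernel)
theorem L123833 : W_45 (nat_lit 5) (nat_lit 0x10001c0000000f00078002400000001000000) (nat_lit 0x0) (nat_lit 0x18003c001c000000) := T_45 (nat_lit 44) (nat_lit 27) (nat_lit 5) (nat_lit 10) (nat_lit 1) L123832 (by decide +kernel)
theorem L123834 : W_45 (nat_lit 6) (nat_lit 0x10001c0000000f00078002400000000000000) (nat_lit 0x0) (nat_lit 0x18003e001d000000) := T_45 (nat_lit 24) (nat_lit 41) (nat_lit 7) (nat_lit 7) (nat_lit 1) L123833 (by decide +kernel)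
theorem L123835 : W_45 (nat_lit 7) (nat_lit 0x10001c0000000f00078000400000000000000) (nat_lit 0x0) (nat_lit 0x78003e001d000000) := T_45 (nat_lit 61) (nat_lit 62) (nat_lit 2) (nat_lit 7) (nat_lit 4) L123834 (by decide +kernel)
theorem L123836 : W_45 (nat_lit 8) (nat_lit 0x10001c0000000f00078000000000000000000) (nat_lit 0x0) (nat_lit 0x7e003e001d000000) := T_45 (nat_lit 58) (nat_lit 57) (nat_lit 0) (nat_lit 10) (nat_lit 4) L123835 (by decide +kernel)
theorem L123837 : W_45 (nat_lit 9) (nat_lit 0x10001c0000000f00068000000000000000000) (nat_lit 0x0) (nat_lit 0x1000010007e003e001d000000) := T_45 (nat_lit 76) (nat_lit 96) (nat_lit 3) (nat_lit 7) (nat_lit 4) L123836 (by decide +kernel)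
theorem L123838 : W_45 (nat_lit 10) (nat_lit 0x10001c0000000f00060000000000000000000) (nat_lit 0x0) (nat_lit 0x100001c007e003e001d000000) := T_45 (nat_lit 75) (nat_lit 74) (nat_lit 0) (nat_lit 10) (nat_lit 5) L123837 (by decide +kernel)
theorem L123839 : W_45 (nat_lit 11) (nat_lit 0x10001c0000000f00040000000000000000000) (nat_lit 0x0) (nat_lit 0x800100003c007e003e001d000000) := T_45 (nat_lit 77) (nat_lit 111) (nat_lit 5) (nat_lit 9) (nat_lit 4) L123838 (by decide +kernel)
theorem L123840 : W_45 (nat_lit 12) (nat_lit 0x10001c0000000f00000000000000000000000) (nat_lit 0x0) (nat_lit 0x80010000fc007e003e001d000000) := T_45 (nat_lit 78) (nat_lit 79) (nat_lit 2) (nat_lit 7) (nat_lit 5) L123839 (by decide +kernel)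
theorem L123841 : W_45 (nat_lit 2) (nat_lit 0x10001c0020000f00008000000000000000000) (nat_lit 0x0) (nat_lit 0x40001000010000000000000000000) := D_45 (nat_lit 96) (nat_lit 76) (nat_lit 114) (nat_lit 0) (nat_lit 11) (nat_lit 5) (nat_lit 3) (nat_lit 8) (nat_lit 5) (by decide +kernel)
theorem L123842 : W_45 (nat_lit 3) (nat_lit 0x10001c0000000f00008000000000000000000) (nat_lit 0x0) (nat_lit 0x70001000010000000000000000000) := T_45 (nat_lit 113) (nat_lit 112) (nat_lit 3) (nat_lit 7) (nat_lit 5) L123841 (by decide +kernel)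
theorem L123843 : W_45 (nat_lit 4) (nat_lit 0x10001c0000000f00000000000000000000000) (nat_lit 0x0) (nat_lit 0x7000100001c000000000000000000) := T_45 (nat_lit 75) (nat_lit 74) (nat_lit 0) (nat_lit 10) (nat_lit 5) L123842 (by decide +kernel)
theorem L123844 : W_45 (nat_lit 13) (nat_lit 0x10001c0000000700000000000000000000000) (nat_lit 0x0) (nat_lit 0xf80078001fc007e003e001d000000) := Q_45 (nat_lit 95) (C_45 L123822 (C_45 L123826 (C_45 L123829 (C_45 L123840 (C_45 L123843 N_45))))) (by decide +kernel)
theorem L123845 : W_45 (nat_lit 2) (nat_lit 0x10001c0000000f00088000000000000000000) (nat_lit 0x0) (nat_lit 0x1000110000000000000000000) := D_45 (nat_lit 96) (nat_lit 76) (nat_lit 80) (nat_lit 0) (nat_lit 11) (nat_lit 5) (nat_lit 2) (nat_lit 8) (nat_lit 5) (by decide +kernel)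
theorem L123846 : W_45 (nat_lit 3) (nat_lit 0x10001c0000000f00008000000000000000000) (nat_lit 0x0) (nat_lit 0x10001d0000000000000000000) := T_45 (nat_lit 79) (nat_lit 78) (nat_lit 2) (nat_lit 7) (nat_lit 5) L123845 (by decide +kernel)
theorem L123847 : W_45 (nat_lit 4) (nat_lit 0x10001c0000000f00000000000000000000000) (nat_lit 0x0) (nat_lit 0x10001dc000000000000000000) := T_45 (nat_lit 75) (nat_lit 74) (nat_lit 0) (nat_lit 10) (nat_lit 5) L123846 (by decide +kernel)
theorem L123848 : W_45 (nat_lit 2) (nat_lit 0x10001c0018000f00008000000000000000000) (nat_lit 0x0) (nat_lit 0xc0002000000000000000) := D_45 (nat_lit 78) (nat_lit 79) (nat_lit 61) (nat_lit 2) (nat_lit 7) (nat_lit 5) (nat_lit 5) (nat_lit 10) (nat_lit 3) (by decide +kernel)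
theorem L123849 : W_45 (nat_lit 3) (nat_lit 0x10001c0010000f00008000000000000000000) (nat_lit 0x0) (nat_lit 0x80000800c0002000000000000000) := T_45 (nat_lit 111) (nat_lit 91) (nat_lit 3) (nat_lit 6) (nat_lit 5) L123848 (by decide +kernel)
theorem L123850 : W_45 (nat_lit 4) (nat_lit 0x10001c0000000f00008000000000000000000) (nat_lit 0x0) (nat_lit 0x380000800c0002000000000000000) := T_45 (nat_lit 112) (nat_lit 113) (nat_lit 3) (nat_lit 7) (nat_lit 5) L123849 (by decide +kernel)
theorem L123851 : W_45 (nat_lit 5) (nat_lit 0x10001c0000000f00000000000000000000000) (nat_lit 0x0) (nat_lit 0x380000800cc002000000000000000) := T_45 (nat_lit 75) (nat_lit 74) (nat_lit 0) (nat_lit 10) (nat_lit 5) L123850 (by decide +kernel)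
theorem L123852 : W_45 (nat_lit 2) (nat_lit 0x10001c0010000f00040000000000000000000) (nat_lit 0x0) (nat_lit 0x8000080000002000000000000000) := D_45 (nat_lit 111) (nat_lit 91) (nat_lit 61) (nat_lit 3) (nat_lit 6) (nat_lit 5) (nat_lit 5) (nat_lit 10) (nat_lit 3) (by decide +kernel)
theorem L123853 : W_45 (nat_lit 3) (nat_lit 0x10001c0000000f00040000000000000000000) (nat_lit 0x0) (nat_lit 0x38000080000002000000000000000) := T_45 (nat_lit 112) (nat_lit 113) (nat_lit 3) (nat_lit 7) (nat_lit 5) L123852 (by decide +kernel)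
theorem L123854 : W_45 (nat_lit 4) (nat_lit 0x10001c0000000f00000000000000000000000) (nat_lit 0x0) (nat_lit 0x380000800c0002000000000000000) := T_45 (nat_lit 78) (nat_lit 79) (nat_lit 2) (nat_lit 7) (nat_lit 5) L123853 (by decide +kernel)
theorem L123855 : W_45 (nat_lit 6) (nat_lit 0x10001c0000000700000000000000000000000) (nat_lit 0x0) (nat_lit 0x780018801dc002000000000000000) := Q_45 (nat_lit 95) (C_45 L123847 (C_45 L123851 (C_45 L123854 (C_45 L123843 N_45)))) (by decide +kernel)
theorem L123856 : W_45 (nat_lit 2) (nat_lit 0x10001c00088007c000c000000000000000000) (nat_lit 0x0) (nat_lit 0x30010000000000000000000) := D_45 (nat_lit 89) (nat_lit 88) (nat_lit 76) (nat_lit 2) (nat_lit 3) (nat_lit 5) (nat_lit 2) (nat_lit 4) (nat_lit 5) (by decide +kernel)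
theorem L123857 : W_45 (nat_lit 3) (nat_lit 0x10001c00088007c0004000000000000000000) (nat_lit 0x0) (nat_lit 0x830018000000000000000000) := T_45 (nat_lit 75) (nat_lit 95) (nat_lit 0) (nat_lit 10) (nat_lit 5) L123856 (by decide +kernel)
theorem L123858 : W_45 (nat_lit 4) (nat_lit 0x10001c0008800780004000000000000000000) (nat_lit 0x0) (nat_lit 0x400870018000000000000000000) := T_45 (nat_lit 90) (nat_lit 106) (nat_lit 1) (nat_lit 8) (nat_lit 5) L123857 (by decide +kernel)
theorem L123859 : W_45 (nat_lit 5) (nat_lit 0x10001c0008800780000000000000000000000) (nat_lit 0x0) (nat_lit 0x40087001e000000000000000000) := T_45 (nat_lit 74) (nat_lit 73) (nat_lit 0) (nat_lit 9) (nat_lit 5) L123858 (by decide +kernel)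
theorem L123860 : W_45 (nat_lit 6) (nat_lit 0x10001c0008000780000000000000000000000) (nat_lit 0x0) (nat_lit 0x1c0087001e000000000000000000) := T_45 (nat_lit 107) (nat_lit 108) (nat_lit 1) (nat_lit 9) (nat_lit 5) L123859 (by decide +kernel)
theorem L123861 : W_45 (nat_lit 7) (nat_lit 0x10001c0008000700000000000000000000000) (nat_lit 0x0) (nat_lit 0x11c008f001e000000000000000000) := T_45 (nat_lit 91) (nat_lit 112) (nat_lit 3) (nat_lit 6) (nat_lit 5) L123860 (by decide +kernel)
theorem L123862 : W_45 (nat_lit 8) (nat_lit 0x10001c0000000700000000000000000000000) (nat_lit 0x0) (nat_lit 0x19c008f003e000000000000000000) := T_45 (nat_lit 111) (nat_lit 77) (nat_lit 5) (nat_lit 9) (nat_lit 4) L123861 (by decide +kernel)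
theorem L123863 : W_45 (nat_lit 14) (nat_lit 0x10001c0000000300000000000000000000000) (nat_lit 0x0) (nat_lit 0xf9e07cf01ff007e003e001d000000) := Q_45 (nat_lit 94) (C_45 L123777 (C_45 L123809 (C_45 L123811 (C_45 L123816 (C_45 L123844 (C_45 L123855 (C_45 L123862 N_45))))))) (by decide +kernel)
theorem L123864 : W_45 (nat_lit 2) (nat_lit 0x10001c0000000700000000000000000000000) (nat_lit 0x0) (nat_lit 0x4000000028000000000000000000) := D_45 (nat_lit 110) (nat_lit 75) (nat_lit 77) (nat_lit 4) (nat_lit 8) (nat_lit 8) (nat_lit 6) (nat_lit 8) (nat_lit 8) (by decide +kernel)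
theorem L123865 : W_45 (nat_lit 5) (nat_lit 0x10001c0000000700008000000000000000000) (nat_lit 0x0) (nat_lit 0x380008800c4002000000000000000) := T_45 (nat_lit 95) (nat_lit 74) (nat_lit 0) (nat_lit 10) (nat_lit 5) L123850 (by decide +kernel)
theorem L123866 : W_45 (nat_lit 6) (nat_lit 0x10001c0000000700000000000000000000000) (nat_lit 0x0) (nat_lit 0x3c0008800cc002000000000000000) := T_45 (nat_lit 75) (nat_lit 110) (nat_lit 4) (nat_lit 8) (nat_lit 8) L123865 (by decide +kernel)
theorem L123867 : W_45 (nat_lit 7) (nat_lit 0x10001c0000000300000000000000000000000) (nat_lit 0x0) (nat_lit 0x3dc00cc00ef002000000000000000) := Q_45 (nat_lit 94) (C_45 L123816 (C_45 L123864 (C_45 L123866 N_45))) (by decide +kernel)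
theorem L123868 : W_45 (nat_lit 7) (nat_lit 0x10001c0004000f00000000000000000000000) (nat_lit 0x0) (nat_lit 0x10000e000000e80030001c0000000000000000000) := T_45 (nat_lit 143) (nat_lit 160) (nat_lit 5) (nat_lit 8) (nat_lit 5) L123106 (by decide +kernel)
theorem L123869 : W_45 (nat_lit 2) (nat_lit 0x10001c0014800f80002000000000000000000) (nat_lit 0x0) (nat_lit 0x400040001000000000000000000) := D_45 (nat_lit 90) (nat_lit 106) (nat_lit 72) (nat_lit 1) (nat_lit 8) (nat_lit 5) (nat_lit 0) (nat_lit 8) (nat_lit 5) (by decide +kernel)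
theorem L123870 : W_45 (nat_lit 3) (nat_lit 0x10001c0014800f80000000000000000000000) (nat_lit 0x0) (nat_lit 0x400040007000000000000000000) := T_45 (nat_lit 73) (nat_lit 74) (nat_lit 0) (nat_lit 9) (nat_lit 5) L123869 (by decide +kernel)
theorem L123871 : W_45 (nat_lit 4) (nat_lit 0x10001c0014000f80000000000000000000000) (nat_lit 0x0) (nat_lit 0x1c00040007000000000000000000) := T_45 (nat_lit 107) (nat_lit 108) (nat_lit 1) (nat_lit 9) (nat_lit 5) L123870 (by decide +kernel)
theorem L123872 : W_45 (nat_lit 5) (nat_lit 0x10001c0014000f00000000000000000000000) (nat_lit 0x0) (nat_lit 0x9c000c0007000000000000000000) := T_45 (nat_lit 91) (nat_lit 111) (nat_lit 3) (nat_lit 6) (nat_lit 5) L123871 (by decide +kernel)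
theorem L123873 : W_45 (nat_lit 6) (nat_lit 0x10001c0004000f00000000000000000000000) (nat_lit 0x0) (nat_lit 0x39c000c0007000000000000000000) := T_45 (nat_lit 112) (nat_lit 113) (nat_lit 3) (nat_lit 7) (nat_lit 5) L123872 (by decide +kernel)
theorem L123874 : W_45 (nat_lit 2) (nat_lit 0x1a001c0004001f00080000000000000000000) (nat_lit 0x0) (nat_lit 0x70000000000000000000000000000) := D_45 (nat_lit 113) (nat_lit 112) (nat_lit 114) (nat_lit 3) (nat_lit 7) (nat_lit 5) (nat_lit 3) (nat_lit 8) (nat_lit 5) (by decide +kernel)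
theorem L123875 : W_45 (nat_lit 3) (nat_lit 0x1a001c0004000f00080000000000000000000) (nat_lit 0x0) (nat_lit 0x70001000100000000000000000000) := T_45 (nat_lit 96) (nat_lit 80) (nat_lit 2) (nat_lit 8) (nat_lit 5) L123874 (by decide +kernel)
theorem L123876 : W_45 (nat_lit 4) (nat_lit 0x18001c0004000f00080000000000000000000) (nat_lit 0x0) (nat_lit 0x600000070001000100000000000000000000) := T_45 (nat_lit 141) (nat_lit 142) (nat_lit 2) (nat_lit 5) (nat_lit 8) L123875 (by decide +kernel)
theorem L123877 : W_45 (nat_lit 5) (nat_lit 0x10001c0004000f00080000000000000000000) (nat_lit 0x0) (nat_lit 0x10000e00000070001000100000000000000000000) := T_45 (nat_lit 143) (nat_lit 160) (nat_lit 5) (nat_lit 8) (nat_lit 5) L123876 (by decide +kernel)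
theorem L123878 : W_45 (nat_lit 6) (nat_lit 0x10001c0004000f00000000000000000000000) (nat_lit 0x0) (nat_lit 0x10000e000000700010001c0000000000000000000) := T_45 (nat_lit 79) (nat_lit 78) (nat_lit 2) (nat_lit 7) (nat_lit 5) L123877 (by decide +kernel)
theorem L123879 : W_45 (nat_lit 2) (nat_lit 0x1a001c000c001f00080000000000000000000) (nat_lit 0x0) (nat_lit 0x100000c0000000000000000000000) := D_45 (nat_lit 91) (nat_lit 90) (nat_lit 112) (nat_lit 3) (nat_lit 5) (nat_lit 5) (nat_lit 3) (nat_lit 6) (nat_lit 5) (by decide +kernel)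
theorem L123880 : W_45 (nat_lit 3) (nat_lit 0x1a001c0004001f00080000000000000000000) (nat_lit 0x0) (nat_lit 0x180020c0000000000000000000000) := T_45 (nat_lit 111) (nat_lit 97) (nat_lit 1) (nat_lit 12) (nat_lit 5) L123879 (by decide +kernel)
theorem L123881 : W_45 (nat_lit 4) (nat_lit 0x1a001c0004000f00080000000000000000000) (nat_lit 0x0) (nat_lit 0x180030c0100000000000000000000) := T_45 (nat_lit 96) (nat_lit 80) (nat_lit 2) (nat_lit 8) (nat_lit 5) L123880 (by decide +kernel)
theorem L123882 : W_45 (nat_lit 5) (nat_lit 0x1a001c0004000f00000000000000000000000) (nat_lit 0x0) (nat_lit 0x180030c01c0000000000000000000) := T_45 (nat_lit 79) (nat_lit 78) (nat_lit 2) (nat_lit 7) (nat_lit 5) L123881 (by decide +kernel)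
theorem L123883 : W_45 (nat_lit 6) (nat_lit 0x18001c0004000f00000000000000000000000) (nat_lit 0x0) (nat_lit 0x6000000180030c01c0000000000000000000) := T_45 (nat_lit 141) (nat_lit 142) (nat_lit 2) (nat_lit 5) (nat_lit 8) L123882 (by decide +kernel)
theorem L123884 : W_45 (nat_lit 7) (nat_lit 0x10001c0004000f00000000000000000000000) (nat_lit 0x0) (nat_lit 0x10000e000000180030c01c0000000000000000000) := T_45 (nat_lit 143) (nat_lit 160) (nat_lit 5) (nat_lit 8) (nat_lit 5) L123883 (by decide +kernel)
theorem L123885 : W_45 (nat_lit 8) (nat_lit 0x10001c0004000700000000000000000000000) (nat_lit 0x0) (nat_lit 0x10000e000000f9c038c01c7000000000000000000) := Q_45 (nat_lit 95) (C_45 L123868 (C_45 L123873 (C_45 L123878 (C_45 L123884 N_45)))) (by decide +kernel)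
theorem L123886 : W_45 (nat_lit 9) (nat_lit 0x10001c0004000300000000000000000000000) (nat_lit 0x0) (nat_lit 0x10000e000000f9c03cc01e7000000000000000000) := T_45 (nat_lit 94) (nat_lit 77) (nat_lit 6) (nat_lit 8) (nat_lit 8) L123885 (by decide +kernel)
theorem L123887 : W_45 (nat_lit 2) (nat_lit 0x10001c0004000300010000800000000000000) (nat_lit 0x0) (nat_lit 0x20001000080000000000) := D_45 (nat_lit 60) (nat_lit 43) (nat_lit 77) (nat_lit 6) (nat_lit 8) (nat_lit 6) (nat_lit 6) (nat_lit 8) (nat_lit 7) (by decide +kernel)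
theorem L123888 : W_45 (nat_lit 3) (nat_lit 0x10001c0004000300010000000000000000000) (nat_lit 0x0) (nat_lit 0x8000000020001800080000000000) := T_45 (nat_lit 59) (nat_lit 111) (nat_lit 7) (nat_lit 8) (nat_lit 3) L123887 (by decide +kernel)
theorem L123889 : W_45 (nat_lit 2) (nat_lit 0x10001c000c000700010000000000000000000) (nat_lit 0x0) (nat_lit 0x100000c0000000000000000000000) := D_45 (nat_lit 91) (nat_lit 112) (nat_lit 90) (nat_lit 3) (nat_lit 6) (nat_lit 5) (nat_lit 3) (nat_lit 5) (nat_lit 5) (by decide +kernel)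
theorem L123890 : W_45 (nat_lit 3) (nat_lit 0x10001c0004000700010000000000000000000) (nat_lit 0x0) (nat_lit 0x180000c0000000800000000000000) := T_45 (nat_lit 111) (nat_lit 59) (nat_lit 7) (nat_lit 8) (nat_lit 3) L123889 (by decide +kernel)
theorem L123891 : W_45 (nat_lit 4) (nat_lit 0x10001c0004000300010000000000000000000) (nat_lit 0x0) (nat_lit 0x180004c0020000800000000000000) := T_45 (nat_lit 94) (nat_lit 77) (nat_lit 6) (nat_lit 8) (nat_lit 8) L123890 (by decide +kernel)
theorem L123892 : W_45 (nat_lit 2) (nat_lit 0x10001c00040003000100008000a0000000000) (nat_lit 0x0) (nat_lit 0x40005000000) := D_45 (nat_lit 42) (nat_lit 26) (nat_lit 24) (nat_lit 6) (nat_lit 8) (nat_lit 5) (nat_lit 4) (nat_lit 8) (nat_lit 5) (by decide +kernel)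
theorem L123893 : W_45 (nat_lit 3) (nat_lit 0x10001c0004000300010000800080000000000) (nat_lit 0x0) (nat_lit 0x400060005000000) := T_45 (nat_lit 41) (nat_lit 58) (nat_lit 4) (nat_lit 8) (nat_lit 6) L123892 (by decide +kernel)
theorem L123894 : W_45 (nat_lit 4) (nat_lit 0x10001c0004000300010000800000000000000) (nat_lit 0x0) (nat_lit 0x14000e0005000000) := T_45 (nat_lit 43) (nat_lit 60) (nat_lit 6) (nat_lit 8) (nat_lit 6) L123893 (by decide +kernel)
theorem L123895 : W_45 (nat_lit 5) (nat_lit 0x10001c0004000300010000000000000000000) (nat_lit 0x0) (nat_lit 0x8000000000001c000e0005000000) := T_45 (nat_lit 59) (nat_lit 111) (nat_lit 7) (nat_lit 8) (nat_lit 3) L123894 (by decide +kernel)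
theorem L123896 : W_45 (nat_lit 6) (nat_lit 0x10001c0004000300000000000000000000000) (nat_lit 0x0) (nat_lit 0x180004c0030001c000e0005000000) := Q_45 (nat_lit 76) (C_45 L123771 (C_45 L123888 (C_45 L123891 (C_45 L123895 N_45)))) (by decide +kernel)
theorem L123897 : W_45 (nat_lit 10) (nat_lit 0x10001c0000000300000000000000000000000) (nat_lit 0x0) (nat_lit 0x10000e000000fdc03cc01f7001c000e0005000000) := Q_45 (nat_lit 110) (C_45 L123769 (C_45 L123772 (C_45 L123886 (C_45 L123896 N_45)))) (by decide +kernel)
theorem L123898 : W_45 (nat_lit 15) (nat_lit 0x10001c0000000100000000000000000000000) (nat_lit 0x0) (nat_lit 0x10000e000000fde07ef01ff007e003e001d000000) := Q_45 (nat_lit 93) (C_45 L123770 (C_45 L123773 (C_45 L123863 (C_45 L123867 (C_45 L123897 N_45))))) (by decide +kernel)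
theorem L123899 : W_45 (nat_lit 2) (nat_lit 0x10001c0000000300000000000000000000000) (nat_lit 0x0) (nat_lit 0x6000000008000000000000000000) := D_45 (nat_lit 75) (nat_lit 109) (nat_lit 110) (nat_lit 7) (nat_lit 7) (nat_lit 4) (nat_lit 4) (nat_lit 8) (nat_lit 8) (by decide +kernel)
theorem L123900 : W_45 (nat_lit 2) (nat_lit 0x10001c00040007000100008000a0000000000) (nat_lit 0x0) (nat_lit 0x40005000000) := D_45 (nat_lit 42) (nat_lit 26) (nat_lit 24) (nat_lit 6) (nat_lit 8) (nat_lit 5) (nat_lit 4) (nat_lit 8) (nat_lit 5) (by decide +kernel)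
theorem L123901 : W_45 (nat_lit 3) (nat_lit 0x10001c0004000700010000800080000000000) (nat_lit 0x0) (nat_lit 0x400060005000000) := T_45 (nat_lit 41) (nat_lit 58) (nat_lit 4) (nat_lit 8) (nat_lit 6) L123900 (by decide +kernel)
theorem L123902 : W_45 (nat_lit 4) (nat_lit 0x10001c0004000700010000800000000000000) (nat_lit 0x0) (nat_lit 0x14000e0005000000) := T_45 (nat_lit 43) (nat_lit 60) (nat_lit 6) (nat_lit 8) (nat_lit 6) L123901 (by decide +kernel)
theorem L123903 : W_45 (nat_lit 5) (nat_lit 0x10001c0004000700010000000000000000000) (nat_lit 0x0) (nat_lit 0x2000000000001c000e0005000000) := T_45 (nat_lit 59) (nat_lit 109) (nat_lit 5) (nat_lit 8) (nat_lit 3) L123902 (by decide +kernel)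
theorem L123904 : W_45 (nat_lit 6) (nat_lit 0x10001c0004000700000000000000000000000) (nat_lit 0x0) (nat_lit 0x800000002000000010001c000e0005000000) := T_45 (nat_lit 76) (nat_lit 143) (nat_lit 5) (nat_lit 8) (nat_lit 4) L123903 (by decide +kernel)
theorem L123905 : W_45 (nat_lit 7) (nat_lit 0x10001c0000000700000000000000000000000) (nat_lit 0x0) (nat_lit 0x800000006000000030001c000e0005000000) := T_45 (nat_lit 110) (nat_lit 77) (nat_lit 6) (nat_lit 8) (nat_lit 8) L123904 (by decide +kernel)
theorem L123906 : W_45 (nat_lit 2) (nat_lit 0x10001c0001000780004000000000000000000) (nat_lit 0x0) (nat_lit 0x800000002000800000000000000000000000) := D_45 (nat_lit 109) (nat_lit 143) (nat_lit 95) (nat_lit 4) (nat_lit 7) (nat_lit 8) (nat_lit 1) (nat_lit 10) (nat_lit 5) (by decide +kernel)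
theorem L123907 : W_45 (nat_lit 3) (nat_lit 0x10001c0000000780004000000000000000000) (nat_lit 0x0) (nat_lit 0x800000003800800000000000000000000000) := T_45 (nat_lit 108) (nat_lit 107) (nat_lit 1) (nat_lit 9) (nat_lit 5) L123906 (by decide +kernel)
theorem L123908 : W_45 (nat_lit 4) (nat_lit 0x10001c0000000780000000000000000000000) (nat_lit 0x0) (nat_lit 0x800000003800800006000000000000000000) := T_45 (nat_lit 74) (nat_lit 73) (nat_lit 0) (nat_lit 9) (nat_lit 5) L123907 (by decide +kernel)
theorem L123909 : W_45 (nat_lit 2) (nat_lit 0x10001c00080007c0004000000000000000000) (nat_lit 0x0) (nat_lit 0x1c00000000000000000000000000) := D_45 (nat_lit 107) (nat_lit 106) (nat_lit 108) (nat_lit 1) (nat_lit 8) (nat_lit 5) (nat_lit 1) (nat_lit 9) (nat_lit 5) (by decide +kernel)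
theorem L123910 : W_45 (nat_lit 3) (nat_lit 0x10001c0008000780004000000000000000000) (nat_lit 0x0) (nat_lit 0x5c00040000000000000000000000) := T_45 (nat_lit 90) (nat_lit 110) (nat_lit 3) (nat_lit 5) (nat_lit 5) L123909 (by decide +kernel)
theorem L123911 : W_45 (nat_lit 4) (nat_lit 0x10001c0000000780004000000000000000000) (nat_lit 0x0) (nat_lit 0x1dc00040000000000000000000000) := T_45 (nat_lit 111) (nat_lit 112) (nat_lit 3) (nat_lit 6) (nat_lit 5) L123910 (by decide +kernel)
theorem L123912 : W_45 (nat_lit 5) (nat_lit 0x10001c0000000780000000000000000000000) (nat_lit 0x0) (nat_lit 0x1dc00040006000000000000000000) := T_45 (nat_lit 74) (nat_lit 73) (nat_lit 0) (nat_lit 9) (nat_lit 5) L123911 (by decide +kernel)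
theorem L123913 : W_45 (nat_lit 2) (nat_lit 0x18001c00088007c0004000000000000000000) (nat_lit 0x0) (nat_lit 0x600010000000000000000000000000000000) := D_45 (nat_lit 141) (nat_lit 142) (nat_lit 124) (nat_lit 2) (nat_lit 5) (nat_lit 8) (nat_lit 6) (nat_lit 5) (nat_lit 8) (by decide +kernel)
theorem L123914 : W_45 (nat_lit 3) (nat_lit 0x10001c00088007c0004000000000000000000) (nat_lit 0x0) (nat_lit 0xe00010002000000000000000000000000000) := T_45 (nat_lit 143) (nat_lit 109) (nat_lit 4) (nat_lit 7) (nat_lit 8) L123913 (by decide +kernel)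
theorem L123915 : W_45 (nat_lit 4) (nat_lit 0x10001c00080007c0004000000000000000000) (nat_lit 0x0) (nat_lit 0xe00010002c00000000000000000000000000) := T_45 (nat_lit 107) (nat_lit 106) (nat_lit 1) (nat_lit 8) (nat_lit 5) L123914 (by decide +kernel)
theorem L123916 : W_45 (nat_lit 5) (nat_lit 0x10001c0008000780004000000000000000000) (nat_lit 0x0) (nat_lit 0xe00010006c00040000000000000000000000) := T_45 (nat_lit 90) (nat_lit 110) (nat_lit 3) (nat_lit 5) (nat_lit 5) L123915 (by decide +kernel)
theorem L123917 : W_45 (nat_lit 6) (nat_lit 0x10001c0000000780004000000000000000000) (nat_lit 0x0) (nat_lit 0xe0001001ec00040000000000000000000000) := T_45 (nat_lit 111) (nat_lit 112) (nat_lit 3) (nat_lit 6) (nat_lit 5) L123916 (by decide +kernel)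
theorem L123918 : W_45 (nat_lit 7) (nat_lit 0x10001c0000000780000000000000000000000) (nat_lit 0x0) (nat_lit 0xe0001001ec00040006000000000000000000) := T_45 (nat_lit 74) (nat_lit 73) (nat_lit 0) (nat_lit 9) (nat_lit 5) L123917 (by decide +kernel)
theorem L123919 : W_45 (nat_lit 2) (nat_lit 0x10001c000a0007c0004000000000000000000) (nat_lit 0x0) (nat_lit 0x1000800000000200000000000000) := D_45 (nat_lit 108) (nat_lit 95) (nat_lit 57) (nat_lit 1) (nat_lit 10) (nat_lit 5) (nat_lit 7) (nat_lit 6) (nat_lit 3) (by decide +kernel)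
theorem L123920 : W_45 (nat_lit 3) (nat_lit 0x10001c00080007c0004000000000000000000) (nat_lit 0x0) (nat_lit 0x800000003000800000000200000000000000) := T_45 (nat_lit 109) (nat_lit 143) (nat_lit 4) (nat_lit 7) (nat_lit 8) L123919 (by decide +kernel)
theorem L123921 : W_45 (nat_lit 4) (nat_lit 0x10001c0008000780004000000000000000000) (nat_lit 0x0) (nat_lit 0x800000007000840000000200000000000000) := T_45 (nat_lit 90) (nat_lit 110) (nat_lit 3) (nat_lit 5) (nat_lit 5) L123920 (by decide +kernel)
theorem L123922 : W_45 (nat_lit 5) (nat_lit 0x10001c0000000780004000000000000000000) (nat_lit 0x0) (nat_lit 0x80000001f000840000000200000000000000) := T_45 (nat_lit 111) (nat_lit 112) (nat_lit 3) (nat_lit 6) (nat_lit 5) L123921 (by decide +kernel)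
theorem L123923 : W_45 (nat_lit 6) (nat_lit 0x10001c0000000780000000000000000000000) (nat_lit 0x0) (nat_lit 0x80000001f000840006000200000000000000) := T_45 (nat_lit 74) (nat_lit 73) (nat_lit 0) (nat_lit 9) (nat_lit 5) L123922 (by decide +kernel)
theorem L123924 : W_45 (nat_lit 2) (nat_lit 0x18001c000b0007c0002000000008000000000) (nat_lit 0x0) (nat_lit 0x8000600000000000000000000000000000000000) := D_45 (nat_lit 142) (nat_lit 159) (nat_lit 141) (nat_lit 5) (nat_lit 7) (nat_lit 5) (nat_lit 2) (nat_lit 5) (nat_lit 8) (by decide +kernel)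
theorem L123925 : W_45 (nat_lit 3) (nat_lit 0x10001c000b0007c0002000000008000000000) (nat_lit 0x0) (nat_lit 0x8000e00000000000000010000000000000000000) := T_45 (nat_lit 143) (nat_lit 76) (nat_lit 6) (nat_lit 7) (nat_lit 8) L123924 (by decide +kernel)
theorem L123926 : W_45 (nat_lit 4) (nat_lit 0x10001c000b0007c0002000000000000000000) (nat_lit 0x0) (nat_lit 0x8000e00000000000000010000100008000000000) := T_45 (nat_lit 39) (nat_lit 56) (nat_lit 7) (nat_lit 5) (nat_lit 2) L123925 (by decide +kernel)
theorem L123927 : W_45 (nat_lit 5) (nat_lit 0x10001c00090007c0002000000000000000000) (nat_lit 0x0) (nat_lit 0x8000e00000002000800010000100008000000000) := T_45 (nat_lit 109) (nat_lit 95) (nat_lit 1) (nat_lit 10) (nat_lit 5) L123926 (by decide +kernel)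
theorem L123928 : W_45 (nat_lit 6) (nat_lit 0x10001c00090007c0000000000000000000000) (nat_lit 0x0) (nat_lit 0x8000e00000002000800013000100008000000000) := T_45 (nat_lit 73) (nat_lit 72) (nat_lit 0) (nat_lit 8) (nat_lit 5) L123927 (by decide +kernel)
theorem L123929 : W_45 (nat_lit 7) (nat_lit 0x10001c0009000780000000000000000000000) (nat_lit 0x0) (nat_lit 0x8000e00000006000840013000100008000000000) := T_45 (nat_lit 90) (nat_lit 110) (nat_lit 3) (nat_lit 5) (nat_lit 5) L123928 (by decide +kernel)
theorem L123930 : W_45 (nat_lit 8) (nat_lit 0x10001c0001000780000000000000000000000) (nat_lit 0x0) (nat_lit 0x8000e0000001e000840013000100008000000000) := T_45 (nat_lit 111) (nat_lit 112) (nat_lit 3) (nat_lit 6) (nat_lit 5) L123929 (by decide +kernel)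
theorem L123931 : W_45 (nat_lit 9) (nat_lit 0x10001c0000000780000000000000000000000) (nat_lit 0x0) (nat_lit 0x8000e0000001f800840013000100008000000000) := T_45 (nat_lit 108) (nat_lit 107) (nat_lit 1) (nat_lit 9) (nat_lit 5) L123930 (by decide +kernel)
theorem L123932 : W_45 (nat_lit 2) (nat_lit 0x10001c000b0007c0000000000000000000000) (nat_lit 0x0) (nat_lit 0x800000000000000014000000000000000000) := D_45 (nat_lit 143) (nat_lit 74) (nat_lit 76) (nat_lit 4) (nat_lit 7) (nat_lit 8) (nat_lit 6) (nat_lit 7) (nat_lit 8) (by decide +kernel)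
theorem L123933 : W_45 (nat_lit 3) (nat_lit 0x10001c00090007c0000000000000000000000) (nat_lit 0x0) (nat_lit 0x800000002000800014000000000000000000) := T_45 (nat_lit 109) (nat_lit 95) (nat_lit 1) (nat_lit 10) (nat_lit 5) L123932 (by decide +kernel)
theorem L123934 : W_45 (nat_lit 4) (nat_lit 0x10001c0009000780000000000000000000000) (nat_lit 0x0) (nat_lit 0x800000006000840014000000000000000000) := T_45 (nat_lit 90) (nat_lit 110) (nat_lit 3) (nat_lit 5) (nat_lit 5) L123933 (by decide +kernel)
theorem L123935 : W_45 (nat_lit 5) (nat_lit 0x10001c0001000780000000000000000000000) (nat_lit 0x0) (nat_lit 0x80000001e000840014000000000000000000) := T_45 (nat_lit 111) (nat_lit 112) (nat_lit 3) (nat_lit 6) (nat_lit 5) L123934 (by decide +kernel)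
theorem L123936 : W_45 (nat_lit 6) (nat_lit 0x10001c0000000780000000000000000000000) (nat_lit 0x0) (nat_lit 0x80000001f800840014000000000000000000) := T_45 (nat_lit 108) (nat_lit 107) (nat_lit 1) (nat_lit 9) (nat_lit 5) L123935 (by decide +kernel)
theorem L123937 : W_45 (nat_lit 10) (nat_lit 0x10001c0000000700000000000000000000000) (nat_lit 0x0) (nat_lit 0x8000e0001001fc008c0017000300008000000000) := Q_45 (nat_lit 91) (C_45 L123908 (C_45 L123912 (C_45 L123918 (C_45 L123923 (C_45 L123931 (C_45 L123936 N_45)))))) (by decide +kernel)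
theorem L123938 : W_45 (nat_lit 11) (nat_lit 0x10001c0000000300000000000000000000000) (nat_lit 0x0) (nat_lit 0x8000e0001001fc00cc0077001f000e8005000000) := Q_45 (nat_lit 94) (C_45 L123816 (C_45 L123905 (C_45 L123937 N_45))) (by decide +kernel)
theorem L123939 : W_45 (nat_lit 15) (nat_lit 0x10001c0000000100000000000000000000000) (nat_lit 0x0) (nat_lit 0x8000e000100ffe07ef01ff007f003e801d000000) := Q_45 (nat_lit 93) (C_45 L123773 (C_45 L123899 (C_45 L123863 (C_45 L123938 N_45)))) (by decide +kernel)
theorem L123940 : W_45 (nat_lit 5) (nat_lit 0x10001c0002000100000000000000000000000) (nat_lit 0x0) (nat_lit 0x4000200018000e00000005000080004000000000000000000) := Q_45 (nat_lit 143) (C_45 L123768 (C_45 L123111 N_45)) (by decide +kernel)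
theorem L123941 : W_45 (nat_lit 6) (nat_lit 0x10001c0000000100000000000000000000000) (nat_lit 0x0) (nat_lit 0x4000200018000e0000000700008000c000000000000000000) := T_45 (nat_lit 109) (nat_lit 75) (nat_lit 7) (nat_lit 7) (nat_lit 4) L123940 (by decide +kernel)
theorem L123942 : W_45 (nat_lit 2) (nat_lit 0x10001c000c000780004000000000000000000) (nat_lit 0x0) (nat_lit 0x800000002000000010000000000000000000) := D_45 (nat_lit 143) (nat_lit 109) (nat_lit 76) (nat_lit 4) (nat_lit 7) (nat_lit 8) (nat_lit 5) (nat_lit 8) (nat_lit 4) (by decide +kernel)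
theorem L123943 : W_45 (nat_lit 3) (nat_lit 0x10001c0008000780004000000000000000000) (nat_lit 0x0) (nat_lit 0x800000006000040010000000000000000000) := T_45 (nat_lit 110) (nat_lit 90) (nat_lit 3) (nat_lit 5) (nat_lit 5) L123942 (by decide +kernel)
theorem L123944 : W_45 (nat_lit 4) (nat_lit 0x10001c0000000780004000000000000000000) (nat_lit 0x0) (nat_lit 0x80000001e000040010000000000000000000) := T_45 (nat_lit 111) (nat_lit 112) (nat_lit 3) (nat_lit 6) (nat_lit 5) L123943 (by decide +kernel)
theorem L123945 : W_45 (nat_lit 5) (nat_lit 0x10001c0000000780000000000000000000000) (nat_lit 0x0) (nat_lit 0x80000001e000040016000000000000000000) := T_45 (nat_lit 74) (nat_lit 73) (nat_lit 0) (nat_lit 9) (nat_lit 5) L123944 (by decide +kernel)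
theorem L123946 : W_45 (nat_lit 2) (nat_lit 0x10001c000b0007c0002000000000000000000) (nat_lit 0x0) (nat_lit 0x10000800000000000000010000000000000000000) := D_45 (nat_lit 143) (nat_lit 160) (nat_lit 76) (nat_lit 4) (nat_lit 7) (nat_lit 9) (nat_lit 6) (nat_lit 7) (nat_lit 8) (by decide +kernel)
theorem L123947 : W_45 (nat_lit 3) (nat_lit 0x10001c00090007c0002000000000000000000) (nat_lit 0x0) (nat_lit 0x10000800000002000800010000000000000000000) := T_45 (nat_lit 109) (nat_lit 95) (nat_lit 1) (nat_lit 10) (nat_lit 5) L123946 (by decide +kernel)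
theorem L123948 : W_45 (nat_lit 4) (nat_lit 0x10001c00090007c0000000000000000000000) (nat_lit 0x0) (nat_lit 0x10000800000002000800013000000000000000000) := T_45 (nat_lit 73) (nat_lit 72) (nat_lit 0) (nat_lit 8) (nat_lit 5) L123947 (by decide +kernel)
theorem L123949 : W_45 (nat_lit 5) (nat_lit 0x10001c0009000780000000000000000000000) (nat_lit 0x0) (nat_lit 0x10000800000006000840013000000000000000000) := T_45 (nat_lit 90) (nat_lit 110) (nat_lit 3) (nat_lit 5) (nat_lit 5) L123948 (by decide +kernel)
theorem L123950 : W_45 (nat_lit 6) (nat_lit 0x10001c0001000780000000000000000000000) (nat_lit 0x0) (nat_lit 0x1000080000001e000840013000000000000000000) := T_45 (nat_lit 111) (nat_lit 112) (nat_lit 3) (nat_lit 6) (nat_lit 5) L123949 (by decide +kernel)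
theorem L123951 : W_45 (nat_lit 7) (nat_lit 0x10001c0000000780000000000000000000000) (nat_lit 0x0) (nat_lit 0x1000080000001f800840013000000000000000000) := T_45 (nat_lit 108) (nat_lit 107) (nat_lit 1) (nat_lit 9) (nat_lit 5) L123950 (by decide +kernel)
theorem L123952 : W_45 (nat_lit 8) (nat_lit 0x10001c0000000700000000000000000000000) (nat_lit 0x0) (nat_lit 0x1000080000001fc008c0017000000000000000000) := Q_45 (nat_lit 91) (C_45 L123908 (C_45 L123936 (C_45 L123912 (C_45 L123945 (C_45 L123951 N_45))))) (by decide +kernel)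
theorem L123953 : W_45 (nat_lit 9) (nat_lit 0x10001c0000000300000000000000000000000) (nat_lit 0x0) (nat_lit 0x1000080000001fc00cc0077001c000e0005000000) := Q_45 (nat_lit 94) (C_45 L123905 (C_45 L123816 (C_45 L123952 N_45))) (by decide +kernel)
theorem L123954 : W_45 (nat_lit 15) (nat_lit 0x10001c0000000100000000000000000000000) (nat_lit 0x0) (nat_lit 0x100008000000ffe07ef01ff007e003e001d000000) := Q_45 (nat_lit 93) (C_45 L123899 (C_45 L123867 (C_45 L123863 (C_45 L123953 N_45)))) (by decide +kernel)
theorem L123955 : W_45 (nat_lit 2) (nat_lit 0x18001c0020001f00060000000000000000000) (nat_lit 0x0) (nat_lit 0x2000018000000000000000000) := D_45 (nat_lit 76) (nat_lit 75) (nat_lit 97) (nat_lit 3) (nat_lit 7) (nat_lit 4) (nat_lit 0) (nat_lit 12) (nat_lit 5) (by decide +kernel)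
theorem L123956 : W_45 (nat_lit 3) (nat_lit 0x18001c0020000f00060000000000000000000) (nat_lit 0x0) (nat_lit 0x40003000018000000000000000000) := T_45 (nat_lit 96) (nat_lit 114) (nat_lit 3) (nat_lit 8) (nat_lit 5) L123955 (by decide +kernel)
theorem L123957 : W_45 (nat_lit 4) (nat_lit 0x18001c0020000f00040000000000000000000) (nat_lit 0x0) (nat_lit 0x40003080038000000000000000000) := T_45 (nat_lit 77) (nat_lit 91) (nat_lit 2) (nat_lit 6) (nat_lit 5) L123956 (by decide +kernel)
theorem L123958 : W_45 (nat_lit 5) (nat_lit 0x18001c0020000f00000000000000000000000) (nat_lit 0x0) (nat_lit 0x400030800f8000000000000000000) := T_45 (nat_lit 78) (nat_lit 79) (nat_lit 2) (nat_lit 7) (nat_lit 5) L123957 (by decide +kernel)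
theorem L123959 : W_45 (nat_lit 6) (nat_lit 0x18001c0000000f00000000000000000000000) (nat_lit 0x0) (nat_lit 0x700030800f8000000000000000000) := T_45 (nat_lit 113) (nat_lit 112) (nat_lit 3) (nat_lit 7) (nat_lit 5) L123958 (by decide +kernel)
theorem L123960 : W_45 (nat_lit 2) (nat_lit 0x1a001c0010000fc0024000000000000000000) (nat_lit 0x0) (nat_lit 0x10000c00000000000000000000000000) := D_45 (nat_lit 107) (nat_lit 106) (nat_lit 124) (nat_lit 1) (nat_lit 8) (nat_lit 5) (nat_lit 6) (nat_lit 5) (nat_lit 8) (by decide +kernel)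
theorem L123961 : W_45 (nat_lit 3) (nat_lit 0x1a001c0010000f80024000000000000000000) (nat_lit 0x0) (nat_lit 0x10000c00040010000000000000000000) := T_45 (nat_lit 90) (nat_lit 76) (nat_lit 2) (nat_lit 5) (nat_lit 5) L123960 (by decide +kernel)
theorem L123962 : W_45 (nat_lit 4) (nat_lit 0x1a001c0010000f80004000000000000000000) (nat_lit 0x0) (nat_lit 0x10000c00040070000000000000000000) := T_45 (nat_lit 77) (nat_lit 78) (nat_lit 2) (nat_lit 6) (nat_lit 5) L123961 (by decide +kernel)
theorem L123963 : W_45 (nat_lit 5) (nat_lit 0x1a001c0010000f00004000000000000000000) (nat_lit 0x0) (nat_lit 0x10000c000c0072000000000000000000) := T_45 (nat_lit 91) (nat_lit 73) (nat_lit 0) (nat_lit 9) (nat_lit 5) L123962 (by decide +kernel)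
theorem L123964 : W_45 (nat_lit 6) (nat_lit 0x18001c0010000f00004000000000000000000) (nat_lit 0x0) (nat_lit 0x600010000c000c0072000000000000000000) := T_45 (nat_lit 141) (nat_lit 142) (nat_lit 2) (nat_lit 5) (nat_lit 8) L123963 (by decide +kernel)
theorem L123965 : W_45 (nat_lit 7) (nat_lit 0x18001c0010000f00000000000000000000000) (nat_lit 0x0) (nat_lit 0x600010000c000c007e000000000000000000) := T_45 (nat_lit 74) (nat_lit 75) (nat_lit 0) (nat_lit 10) (nat_lit 5) L123964 (by decide +kernel)
theorem L123966 : W_45 (nat_lit 8) (nat_lit 0x18001c0000000f00000000000000000000000) (nat_lit 0x0) (nat_lit 0x600010030c000c007e000000000000000000) := T_45 (nat_lit 112) (nat_lit 113) (nat_lit 3) (nat_lit 7) (nat_lit 5) L123965 (by decide +kernel)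
theorem L123967 : W_45 (nat_lit 2) (nat_lit 0x1a001c0020001f00060000000000000000000) (nat_lit 0x0) (nat_lit 0x6000010000000000000000000) := D_45 (nat_lit 97) (nat_lit 98) (nat_lit 76) (nat_lit 0) (nat_lit 13) (nat_lit 5) (nat_lit 0) (nat_lit 12) (nat_lit 5) (by decide +kernel)
theorem L123968 : W_45 (nat_lit 3) (nat_lit 0x1a001c0020000f00060000000000000000000) (nat_lit 0x0) (nat_lit 0x40007000010000000000000000000) := T_45 (nat_lit 96) (nat_lit 114) (nat_lit 3) (nat_lit 8) (nat_lit 5) L123967 (by decide +kernel)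
theorem L123969 : W_45 (nat_lit 4) (nat_lit 0x1a001c0020000f00040000000000000000000) (nat_lit 0x0) (nat_lit 0x40007080030000000000000000000) := T_45 (nat_lit 77) (nat_lit 91) (nat_lit 2) (nat_lit 6) (nat_lit 5) L123968 (by decide +kernel)
theorem L123970 : W_45 (nat_lit 5) (nat_lit 0x1a001c0020000f00000000000000000000000) (nat_lit 0x0) (nat_lit 0x400070800f0000000000000000000) := T_45 (nat_lit 78) (nat_lit 79) (nat_lit 2) (nat_lit 7) (nat_lit 5) L123969 (by decide +kernel)
theorem L123971 : W_45 (nat_lit 6) (nat_lit 0x1a001c0000000f00000000000000000000000) (nat_lit 0x0) (nat_lit 0x700070800f0000000000000000000) := T_45 (nat_lit 113) (nat_lit 112) (nat_lit 3) (nat_lit 7) (nat_lit 5) L123970 (by decide +kernel)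
theorem L123972 : W_45 (nat_lit 7) (nat_lit 0x18001c0000000f00000000000000000000000) (nat_lit 0x0) (nat_lit 0x6000000700070800f0000000000000000000) := T_45 (nat_lit 141) (nat_lit 142) (nat_lit 2) (nat_lit 5) (nat_lit 8) L123971 (by decide +kernel)
theorem L123973 : W_45 (nat_lit 2) (nat_lit 0x1a001c0020001f00000000000000000000000) (nat_lit 0x0) (nat_lit 0x1c000000000000000000) := D_45 (nat_lit 75) (nat_lit 74) (nat_lit 76) (nat_lit 0) (nat_lit 10) (nat_lit 5) (nat_lit 0) (nat_lit 11) (nat_lit 5) (by decide +kernel)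
theorem L123974 : W_45 (nat_lit 3) (nat_lit 0x1a001c0020000f00000000000000000000000) (nat_lit 0x0) (nat_lit 0x4000100001c000000000000000000) := T_45 (nat_lit 96) (nat_lit 114) (nat_lit 3) (nat_lit 8) (nat_lit 5) L123973 (by decide +kernel)
theorem L123975 : W_45 (nat_lit 4) (nat_lit 0x18001c0020000f00000000000000000000000) (nat_lit 0x0) (nat_lit 0x60000004000100001c000000000000000000) := T_45 (nat_lit 141) (nat_lit 142) (nat_lit 2) (nat_lit 5) (nat_lit 8) L123974 (by decide +kernel)
theorem L123976 : W_45 (nat_lit 5) (nat_lit 0x18001c0000000f00000000000000000000000) (nat_lit 0x0) (nat_lit 0x60000007000100001c000000000000000000) := T_45 (nat_lit 113) (nat_lit 112) (nat_lit 3) (nat_lit 7) (nat_lit 5) L123975 (by decide +kernel)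
theorem L123977 : W_45 (nat_lit 9) (nat_lit 0x18001c0000000700000000000000000000000) (nat_lit 0x0) (nat_lit 0x600010070c078c01fe000000000000000000) := Q_45 (nat_lit 95) (C_45 L123074 (C_45 L123070 (C_45 L123959 (C_45 L123966 (C_45 L123972 (C_45 L123976 N_45)))))) (by decide +kernel)
theorem L123978 : W_45 (nat_lit 6) (nat_lit 0x18001c0000000700000000000000000000000) (nat_lit 0x0) (nat_lit 0x6000000780018801de002000000000000000) := Q_45 (nat_lit 95) (C_45 L123976 (C_45 L123097 (C_45 L123074 (C_45 L123101 N_45)))) (by decide +kernel)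
theorem L123979 : W_45 (nat_lit 3) (nat_lit 0x1a001c0008000700000000000000000000000) (nat_lit 0x0) (nat_lit 0x70000880000000000000000000000) := T_45 (nat_lit 112) (nat_lit 91) (nat_lit 3) (nat_lit 6) (nat_lit 5) L123116 (by decide +kernel)
theorem L123980 : W_45 (nat_lit 4) (nat_lit 0x1a001c0000000700000000000000000000000) (nat_lit 0x0) (nat_lit 0x78000880020000000000000000000) := T_45 (nat_lit 111) (nat_lit 77) (nat_lit 5) (nat_lit 9) (nat_lit 4) L123979 (by decide +kernel)
theorem L123981 : W_45 (nat_lit 5) (nat_lit 0x18001c0000000700000000000000000000000) (nat_lit 0x0) (nat_lit 0x600000078000880020000000000000000000) := T_45 (nat_lit 141) (nat_lit 142) (nat_lit 2) (nat_lit 5) (nat_lit 8) L123980 (by decide +kernel)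
theorem L123982 : W_45 (nat_lit 11) (nat_lit 0x18001c0000000300000000000000000000000) (nat_lit 0x0) (nat_lit 0x600010078c07cc01ff00700018000c000000) := Q_45 (nat_lit 94) (C_45 L123115 (C_45 L123977 (C_45 L123078 (C_45 L123094 (C_45 L123978 (C_45 L123981 N_45)))))) (by decide +kernel)
theorem L123983 : W_45 (nat_lit 2) (nat_lit 0x18001c0000000300000000000000000000000) (nat_lit 0x0) (nat_lit 0x10000000000004000000008000000000000000000) := D_45 (nat_lit 110) (nat_lit 75) (nat_lit 160) (nat_lit 4) (nat_lit 8) (nat_lit 8) (nat_lit 5) (nat_lit 8) (nat_lit 5) (by decide +kernel)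
theorem L123984 : W_45 (nat_lit 2) (nat_lit 0x18001c0000000300000000000000000000000) (nat_lit 0x0) (nat_lit 0x10000000000004000000010000000000000000000) := D_45 (nat_lit 110) (nat_lit 76) (nat_lit 160) (nat_lit 5) (nat_lit 8) (nat_lit 4) (nat_lit 5) (nat_lit 8) (nat_lit 5) (by decide +kernel)
theorem L123985 : W_45 (nat_lit 12) (nat_lit 0x18001c0000000100000000000000000000000) (nat_lit 0x0) (nat_lit 0x1000060001007cc07ec01ff00700018000c000000) := Q_45 (nat_lit 93) (C_45 L123066 (C_45 L123982 (C_45 L123983 (C_45 L123984 N_45)))) (by decide +kernel)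
theorem L123986 : W_45 (nat_lit 2) (nat_lit 0x1c001c0006000380000000000000000000000) (nat_lit 0x0) (nat_lit 0x8000060000000000000000000000) := D_45 (nat_lit 90) (nat_lit 111) (nat_lit 89) (nat_lit 3) (nat_lit 5) (nat_lit 5) (nat_lit 3) (nat_lit 4) (nat_lit 5) (by decide +kernel)
theorem L123987 : W_45 (nat_lit 3) (nat_lit 0x1c001c0002000380000000000000000000000) (nat_lit 0x0) (nat_lit 0x1000000000000c000060000000000000000000000) := T_45 (nat_lit 110) (nat_lit 160) (nat_lit 6) (nat_lit 7) (nat_lit 9) L123986 (by decide +kernel)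
theorem L123988 : W_45 (nat_lit 4) (nat_lit 0x1c001c0002000180000000000000000000000) (nat_lit 0x0) (nat_lit 0x1000000000000c000260010000000000000000000) := T_45 (nat_lit 93) (nat_lit 76) (nat_lit 6) (nat_lit 7) (nat_lit 8) L123987 (by decide +kernel)
theorem L123989 : W_45 (nat_lit 5) (nat_lit 0x1c001c0002000100000000000000000000000) (nat_lit 0x0) (nat_lit 0x1000000000000c0002e0014000000000000000000) := T_45 (nat_lit 91) (nat_lit 74) (nat_lit 4) (nat_lit 7) (nat_lit 8) L123988 (by decide +kernel)
theorem L123990 : W_45 (nat_lit 6) (nat_lit 0x1c001c0000000100000000000000000000000) (nat_lit 0x0) (nat_lit 0x1800000000000e0002e0014000000000000000000) := T_45 (nat_lit 109) (nat_lit 159) (nat_lit 5) (nat_lit 7) (nat_lit 5) L123989 (by decide +kernel)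
theorem L123991 : W_45 (nat_lit 7) (nat_lit 0x18001c0000000100000000000000000000000) (nat_lit 0x0) (nat_lit 0x1800060000000e0002e0014000000000000000000) := T_45 (nat_lit 142) (nat_lit 141) (nat_lit 2) (nat_lit 5) (nat_lit 8) L123990 (by decide +kernel)
theorem L123992 : W_45 (nat_lit 13) (nat_lit 0x10001c0000000100000000000000000000000) (nat_lit 0x0) (nat_lit 0x18000e0001007ec07ee01ff00700018000c000000) := Q_45 (nat_lit 143) (C_45 L123110 (C_45 L123985 (C_45 L123065 (C_45 L123991 N_45)))) (by decide +kernel)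
theorem L123993 : W_45 (nat_lit 4) (nat_lit 0x10001c0000000700008000000000000000000) (nat_lit 0x0) (nat_lit 0x18001d4000000000000000000) := T_45 (nat_lit 95) (nat_lit 74) (nat_lit 0) (nat_lit 10) (nat_lit 5) L123846 (by decide +kernel)
theorem L123994 : W_45 (nat_lit 5) (nat_lit 0x10001c0000000700000000000000000000000) (nat_lit 0x0) (nat_lit 0x20018001dc000000000000000000) := T_45 (nat_lit 75) (nat_lit 109) (nat_lit 7) (nat_lit 7) (nat_lit 4) L123993 (by decide +kernel)
theorem L123995 : W_45 (nat_lit 2) (nat_lit 0x10001c0040001f00128000000000000000000) (nat_lit 0x0) (nat_lit 0x80002000200000000000000000000) := D_45 (nat_lit 97) (nat_lit 115) (nat_lit 81) (nat_lit 3) (nat_lit 9) (nat_lit 5) (nat_lit 2) (nat_lit 9) (nat_lit 5) (by decide +kernel)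
theorem L123996 : W_45 (nat_lit 3) (nat_lit 0x10001c0040001f00028000000000000000000) (nat_lit 0x0) (nat_lit 0x80002000380000000000000000000) := T_45 (nat_lit 80) (nat_lit 79) (nat_lit 2) (nat_lit 8) (nat_lit 5) L123995 (by decide +kernel)
theorem L123997 : W_45 (nat_lit 4) (nat_lit 0x10001c0000001f00028000000000000000000) (nat_lit 0x0) (nat_lit 0xe0002000380000000000000000000) := T_45 (nat_lit 114) (nat_lit 113) (nat_lit 3) (nat_lit 8) (nat_lit 5) L123996 (by decide +kernel)
theorem L123998 : W_45 (nat_lit 5) (nat_lit 0x10001c0000000f00028000000000000000000) (nat_lit 0x0) (nat_lit 0xe0003000390000000000000000000) := T_45 (nat_lit 96) (nat_lit 76) (nat_lit 0) (nat_lit 11) (nat_lit 5) L123997 (by decide +kernel)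
theorem L123999 : W_45 (nat_lit 6) (nat_lit 0x10001c0000000f00008000000000000000000) (nat_lit 0x0) (nat_lit 0xe80030003b0000000000000000000) := T_45 (nat_lit 77) (nat_lit 111) (nat_lit 5) (nat_lit 9) (nat_lit 4) L123998 (by decide +kernel)
theorem L124000 : W_45 (nat_lit 7) (nat_lit 0x10001c0000000700008000000000000000000) (nat_lit 0x0) (nat_lit 0xe80038003b4000000000000000000) := T_45 (nat_lit 95) (nat_lit 74) (nat_lit 0) (nat_lit 10) (nat_lit 5) L123999 (by decide +kernel)
theorem L124001 : W_45 (nat_lit 8) (nat_lit 0x10001c0000000700000000000000000000000) (nat_lit 0x0) (nat_lit 0xea0038003bc000000000000000000) := T_45 (nat_lit 75) (nat_lit 109) (nat_lit 7) (nat_lit 7) (nat_lit 4) L124000 (by decide +kernel)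
theorem L124002 : W_45 (nat_lit 9) (nat_lit 0x10001c0000000500000000000000000000000) (nat_lit 0x0) (nat_lit 0xebc03ac03ff000000000000000000) := Q_45 (nat_lit 93) (C_45 L123816 (C_45 L123994 (C_45 L123777 (C_45 L124001 N_45)))) (by decide +kernel)
theorem L124003 : W_45 (nat_lit 14) (nat_lit 0x10001c0000000500000000000000000000000) (nat_lit 0x0) (nat_lit 0xf9e07af01ff007e003e001d000000) := Q_45 (nat_lit 93) (C_45 L123862 (C_45 L123809 (C_45 L123816 (C_45 L123855 (C_45 L123844 (C_45 L123777 N_45)))))) (by decide +kernel)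
theorem L124004 : W_45 (nat_lit 2) (nat_lit 0x10001c0020000f00088000000000000000000) (nat_lit 0x0) (nat_lit 0x40001000100000000000000000000) := D_45 (nat_lit 96) (nat_lit 80) (nat_lit 114) (nat_lit 2) (nat_lit 8) (nat_lit 5) (nat_lit 3) (nat_lit 8) (nat_lit 5) (by decide +kernel)
theorem L124005 : W_45 (nat_lit 3) (nat_lit 0x10001c0000000f00088000000000000000000) (nat_lit 0x0) (nat_lit 0x70001000100000000000000000000) := T_45 (nat_lit 113) (nat_lit 112) (nat_lit 3) (nat_lit 7) (nat_lit 5) L124004 (by decide +kernel)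
theorem L124006 : W_45 (nat_lit 4) (nat_lit 0x10001c0000000f00008000000000000000000) (nat_lit 0x0) (nat_lit 0x700010001c0000000000000000000) := T_45 (nat_lit 79) (nat_lit 78) (nat_lit 2) (nat_lit 7) (nat_lit 5) L124005 (by decide +kernel)
theorem L124007 : W_45 (nat_lit 5) (nat_lit 0x10001c0000000700008000000000000000000) (nat_lit 0x0) (nat_lit 0x700018001c4000000000000000000) := T_45 (nat_lit 95) (nat_lit 74) (nat_lit 0) (nat_lit 10) (nat_lit 5) L124006 (by decide +kernel)
theorem L124008 : W_45 (nat_lit 6) (nat_lit 0x10001c0000000700000000000000000000000) (nat_lit 0x0) (nat_lit 0x720018001cc000000000000000000) := T_45 (nat_lit 75) (nat_lit 109) (nat_lit 7) (nat_lit 7) (nat_lit 4) L124007 (by decide +kernel)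
theorem L124009 : W_45 (nat_lit 2) (nat_lit 0x18001c0002000700000000000000000000000) (nat_lit 0x0) (nat_lit 0x8000600000000000000000000000000000000000) := D_45 (nat_lit 142) (nat_lit 159) (nat_lit 141) (nat_lit 5) (nat_lit 7) (nat_lit 5) (nat_lit 2) (nat_lit 5) (nat_lit 8) (by decide +kernel)
theorem L124010 : W_45 (nat_lit 3) (nat_lit 0x10001c0002000700000000000000000000000) (nat_lit 0x0) (nat_lit 0x8000e00000000000000010000000000000000000) := T_45 (nat_lit 143) (nat_lit 76) (nat_lit 6) (nat_lit 7) (nat_lit 8) L124009 (by decide +kernel)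
theorem L124011 : W_45 (nat_lit 4) (nat_lit 0x10001c0000000700000000000000000000000) (nat_lit 0x0) (nat_lit 0x8000e00000002000000018000000000000000000) := T_45 (nat_lit 109) (nat_lit 75) (nat_lit 7) (nat_lit 7) (nat_lit 4) L124010 (by decide +kernel)
theorem L124012 : W_45 (nat_lit 5) (nat_lit 0x10001c0000000700000000000000000000000) (nat_lit 0x0) (nat_lit 0x800000003c008c0077000000000000000000) := Q_45 (nat_lit 91) (C_45 L123908 (C_45 L123797 (C_45 L123794 N_45))) (by decide +kernel)
theorem L124013 : W_45 (nat_lit 9) (nat_lit 0x10001c0000000500000000000000000000000) (nat_lit 0x0) (nat_lit 0x8000e00000073e01af01ff000000000000000000) := Q_45 (nat_lit 93) (C_45 L123809 (C_45 L123994 (C_45 L124008 (C_45 L124011 (C_45 L124012 N_45))))) (by decide +kernel)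
theorem L124014 : W_45 (nat_lit 2) (nat_lit 0x18001c0002000580000000000000000000000) (nat_lit 0x0) (nat_lit 0x8000600000000000000000000000000000000000) := D_45 (nat_lit 142) (nat_lit 141) (nat_lit 159) (nat_lit 2) (nat_lit 5) (nat_lit 8) (nat_lit 5) (nat_lit 7) (nat_lit 5) (by decide +kernel)
theorem L124015 : W_45 (nat_lit 3) (nat_lit 0x10001c0002000580000000000000000000000) (nat_lit 0x0) (nat_lit 0x8000e00000000000000004000000000000000000) := T_45 (nat_lit 143) (nat_lit 74) (nat_lit 4) (nat_lit 7) (nat_lit 8) L124014 (by decide +kernel)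
theorem L124016 : W_45 (nat_lit 4) (nat_lit 0x10001c0000000580000000000000000000000) (nat_lit 0x0) (nat_lit 0x8000e0000000200000000c000000000000000000) := T_45 (nat_lit 109) (nat_lit 75) (nat_lit 7) (nat_lit 7) (nat_lit 4) L124015 (by decide +kernel)
theorem L124017 : W_45 (nat_lit 2) (nat_lit 0x10001c000000050003e001000000000000000) (nat_lit 0x0) (nat_lit 0x380000000000000) := D_45 (nat_lit 56) (nat_lit 57) (nat_lit 55) (nat_lit 0) (nat_lit 9) (nat_lit 4) (nat_lit 0) (nat_lit 8) (nat_lit 4) (by decide +kernel)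
theorem L124018 : W_45 (nat_lit 3) (nat_lit 0x10001c000000050003c001000000000000000) (nat_lit 0x0) (nat_lit 0x2000b80000000000000) := T_45 (nat_lit 73) (nat_lit 59) (nat_lit 2) (nat_lit 5) (nat_lit 4) L124017 (by decide +kernel)
theorem L124019 : W_45 (nat_lit 4) (nat_lit 0x10001c000000050003c000000000000000000) (nat_lit 0x0) (nat_lit 0x2003b80000000000000) := T_45 (nat_lit 60) (nat_lit 61) (nat_lit 2) (nat_lit 6) (nat_lit 4) L124018 (by decide +kernel)
theorem L124020 : W_45 (nat_lit 5) (nat_lit 0x10001c0000000500038000000000000000000) (nat_lit 0x0) (nat_lit 0x800006003b80000000000000) := T_45 (nat_lit 74) (nat_lit 95) (nat_lit 3) (nat_lit 6) (nat_lit 4) L124019 (by decide +kernel)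
theorem L124021 : W_45 (nat_lit 2) (nat_lit 0x10001c0000000500078003c0002000a000000) (nat_lit 0x0) (nat_lit 0x1000180) := D_45 (nat_lit 24) (nat_lit 7) (nat_lit 8) (nat_lit 7) (nat_lit 7) (nat_lit 0) (nat_lit 6) (nat_lit 7) (nat_lit 4) (by decide +kernel)
theorem L124022 : W_45 (nat_lit 3) (nat_lit 0x10001c0000000500078003c0000000a000000) (nat_lit 0x0) (nat_lit 0x30001000180) := T_45 (nat_lit 41) (nat_lit 40) (nat_lit 0) (nat_lit 10) (nat_lit 3) L124021 (by decide +kernel)
theorem L124023 : W_45 (nat_lit 4) (nat_lit 0x10001c0000000500078003c00000008000000) (nat_lit 0x0) (nat_lit 0x70003000180) := T_45 (nat_lit 25) (nat_lit 42) (nat_lit 7) (nat_lit 8) (nat_lit 1) L124022 (by decide +kernel)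
theorem L124024 : W_45 (nat_lit 5) (nat_lit 0x10001c0000000500078003400000008000000) (nat_lit 0x0) (nat_lit 0x80000800070003000180) := T_45 (nat_lit 59) (nat_lit 79) (nat_lit 3) (nat_lit 7) (nat_lit 3) L124023 (by decide +kernel)
theorem L124025 : W_45 (nat_lit 6) (nat_lit 0x10001c0000000500078003400000000000000) (nat_lit 0x0) (nat_lit 0x8000080017000b000180) := T_45 (nat_lit 27) (nat_lit 44) (nat_lit 5) (nat_lit 10) (nat_lit 1) L124024 (by decide +kernel)
theorem L124026 : W_45 (nat_lit 7) (nat_lit 0x10001c0000000500078002400000000000000) (nat_lit 0x0) (nat_lit 0x8400180017000b000180) := T_45 (nat_lit 60) (nat_lit 74) (nat_lit 2) (nat_lit 6) (nat_lit 4) L124025 (by decide +kernel)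
theorem L124027 : W_45 (nat_lit 8) (nat_lit 0x10001c0000000500078000400000000000000) (nat_lit 0x0) (nat_lit 0x8400780017000b000180) := T_45 (nat_lit 61) (nat_lit 62) (nat_lit 2) (nat_lit 7) (nat_lit 4) L124026 (by decide +kernel)
theorem L124028 : W_45 (nat_lit 9) (nat_lit 0x10001c0000000500078000000000000000000) (nat_lit 0x0) (nat_lit 0x84007e0017000b000180) := T_45 (nat_lit 58) (nat_lit 57) (nat_lit 0) (nat_lit 10) (nat_lit 4) L124027 (by decide +kernel)
theorem L124029 : W_45 (nat_lit 10) (nat_lit 0x10001c0000000500038000000000000000000) (nat_lit 0x0) (nat_lit 0x800c4007e0017000b000180) := T_45 (nat_lit 78) (nat_lit 91) (nat_lit 1) (nat_lit 10) (nat_lit 4) L124028 (by decide +kernel)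
theorem L124030 : W_45 (nat_lit 2) (nat_lit 0x10001c0000000d000f8000400000000000000) (nat_lit 0x0) (nat_lit 0xe000000000000000) := D_45 (nat_lit 62) (nat_lit 61) (nat_lit 63) (nat_lit 2) (nat_lit 7) (nat_lit 4) (nat_lit 2) (nat_lit 8) (nat_lit 4) (by decide +kernel)
theorem L124031 : W_45 (nat_lit 3) (nat_lit 0x10001c0000000d00078000400000000000000) (nat_lit 0x0) (nat_lit 0x8000e800000000000000) := T_45 (nat_lit 79) (nat_lit 59) (nat_lit 0) (nat_lit 11) (nat_lit 4) L124030 (by decide +kernel)
theorem L124032 : W_45 (nat_lit 4) (nat_lit 0x10001c0000000500078000400000000000000) (nat_lit 0x0) (nat_lit 0x180008000e800000000000000) := T_45 (nat_lit 95) (nat_lit 96) (nat_lit 3) (nat_lit 7) (nat_lit 4) L124031 (by decide +kernel)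
theorem L124033 : W_45 (nat_lit 5) (nat_lit 0x10001c0000000500078000000000000000000) (nat_lit 0x0) (nat_lit 0x180008000ee00000000000000) := T_45 (nat_lit 58) (nat_lit 57) (nat_lit 0) (nat_lit 10) (nat_lit 4) L124032 (by decide +kernel)
theorem L124034 : W_45 (nat_lit 6) (nat_lit 0x10001c0000000500038000000000000000000) (nat_lit 0x0) (nat_lit 0x18800c000ee00000000000000) := T_45 (nat_lit 78) (nat_lit 91) (nat_lit 1) (nat_lit 10) (nat_lit 4) L124033 (by decide +kernel)
theorem L124035 : W_45 (nat_lit 2) (nat_lit 0x10001c0000000500078000000000000000000) (nat_lit 0x0) (nat_lit 0x1800004000000000000000000) := D_45 (nat_lit 95) (nat_lit 74) (nat_lit 96) (nat_lit 3) (nat_lit 6) (nat_lit 4) (nat_lit 3) (nat_lit 7) (nat_lit 4) (by decide +kernel)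
theorem L124036 : W_45 (nat_lit 3) (nat_lit 0x10001c0000000500038000000000000000000) (nat_lit 0x0) (nat_lit 0x1880044000000000000000000) := T_45 (nat_lit 78) (nat_lit 91) (nat_lit 1) (nat_lit 10) (nat_lit 4) L124035 (by decide +kernel)
theorem L124037 : W_45 (nat_lit 11) (nat_lit 0x10001c0000000500028000000000000000000) (nat_lit 0x0) (nat_lit 0x18800d600ff8017000b000180) := Q_45 (nat_lit 76) (C_45 L124036 (C_45 L124029 (C_45 L124020 (C_45 L124034 N_45)))) (by decide +kernel)
theorem L124038 : W_45 (nat_lit 12) (nat_lit 0x10001c0000000500008000000000000000000) (nat_lit 0x0) (nat_lit 0x80018800f600ff8017000b000180) := T_45 (nat_lit 77) (nat_lit 111) (nat_lit 5) (nat_lit 9) (nat_lit 4) L124037 (by decide +kernel)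
theorem L124039 : W_45 (nat_lit 13) (nat_lit 0x10001c0000000500000000000000000000000) (nat_lit 0x0) (nat_lit 0xa0018800fe00ff8017000b000180) := T_45 (nat_lit 75) (nat_lit 109) (nat_lit 7) (nat_lit 7) (nat_lit 4) L124038 (by decide +kernel)
theorem L124040 : W_45 (nat_lit 2) (nat_lit 0x10001c0000000700068000000000000000000) (nat_lit 0x0) (nat_lit 0x800180000000000000000000) := D_45 (nat_lit 79) (nat_lit 80) (nat_lit 95) (nat_lit 1) (nat_lit 12) (nat_lit 4) (nat_lit 2) (nat_lit 7) (nat_lit 5) (by decide +kernel)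
theorem L124041 : W_45 (nat_lit 3) (nat_lit 0x10001c0000000700028000000000000000000) (nat_lit 0x0) (nat_lit 0x8801c0000000000000000000) := T_45 (nat_lit 78) (nat_lit 91) (nat_lit 2) (nat_lit 6) (nat_lit 5) L124040 (by decide +kernel)
theorem L124042 : W_45 (nat_lit 4) (nat_lit 0x10001c0000000700008000000000000000000) (nat_lit 0x0) (nat_lit 0x80008801e0000000000000000000) := T_45 (nat_lit 77) (nat_lit 111) (nat_lit 5) (nat_lit 9) (nat_lit 4) L124041 (by decide +kernel)
theorem L124043 : W_45 (nat_lit 5) (nat_lit 0x10001c0000000700000000000000000000000) (nat_lit 0x0) (nat_lit 0xa0008801e8000000000000000000) := T_45 (nat_lit 75) (nat_lit 109) (nat_lit 7) (nat_lit 7) (nat_lit 4) L124042 (by decide +kernel)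
theorem L124044 : W_45 (nat_lit 2) (nat_lit 0x10001c000000070002c000000000000000000) (nat_lit 0x0) (nat_lit 0x80003000000000000000000) := D_45 (nat_lit 73) (nat_lit 91) (nat_lit 72) (nat_lit 0) (nat_lit 9) (nat_lit 5) (nat_lit 3) (nat_lit 4) (nat_lit 4) (by decide +kernel)
theorem L124045 : W_45 (nat_lit 3) (nat_lit 0x10001c0000000700028000000000000000000) (nat_lit 0x0) (nat_lit 0x880007000000000000000000) := T_45 (nat_lit 74) (nat_lit 95) (nat_lit 0) (nat_lit 10) (nat_lit 5) L124044 (by decide +kernel)
theorem L124046 : W_45 (nat_lit 4) (nat_lit 0x10001c0000000700020000000000000000000) (nat_lit 0x0) (nat_lit 0x200088000f000000000000000000) := T_45 (nat_lit 75) (nat_lit 109) (nat_lit 7) (nat_lit 7) (nat_lit 4) L124045 (by decide +kernel)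
theorem L124047 : W_45 (nat_lit 5) (nat_lit 0x10001c0000000700000000000000000000000) (nat_lit 0x0) (nat_lit 0xa00088002f000000000000000000) := T_45 (nat_lit 77) (nat_lit 111) (nat_lit 5) (nat_lit 9) (nat_lit 4) L124046 (by decide +kernel)
theorem L124048 : W_45 (nat_lit 7) (nat_lit 0x10001c0000000500000000000000000000000) (nat_lit 0x0) (nat_lit 0x7bc01ac01ef000000000000000000) := Q_45 (nat_lit 93) (C_45 L123816 (C_45 L124008 (C_45 L124043 (C_45 L124047 N_45)))) (by decide +kernel)
theorem L124049 : W_45 (nat_lit 5) (nat_lit 0x10001c0000000580020000000000000000000) (nat_lit 0x0) (nat_lit 0x1c00240047000000000000000000) := T_45 (nat_lit 93) (nat_lit 78) (nat_lit 2) (nat_lit 6) (nat_lit 5) L123814 (by decide +kernel)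
theorem L124050 : W_45 (nat_lit 6) (nat_lit 0x10001c0000000580000000000000000000000) (nat_lit 0x0) (nat_lit 0x9c00240067000000000000000000) := T_45 (nat_lit 77) (nat_lit 111) (nat_lit 5) (nat_lit 9) (nat_lit 4) L124049 (by decide +kernel)
theorem L124051 : W_45 (nat_lit 2) (nat_lit 0x10001c0000000580028000000000000000000) (nat_lit 0x0) (nat_lit 0x200050000000000000000000) := D_45 (nat_lit 78) (nat_lit 93) (nat_lit 76) (nat_lit 2) (nat_lit 6) (nat_lit 5) (nat_lit 1) (nat_lit 10) (nat_lit 4) (by decide +kernel)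
theorem L124052 : W_45 (nat_lit 3) (nat_lit 0x10001c0000000580008000000000000000000) (nat_lit 0x0) (nat_lit 0x8000200070000000000000000000) := T_45 (nat_lit 77) (nat_lit 111) (nat_lit 5) (nat_lit 9) (nat_lit 4) L124051 (by decide +kernel)
theorem L124053 : W_45 (nat_lit 4) (nat_lit 0x10001c0000000580000000000000000000000) (nat_lit 0x0) (nat_lit 0xa000200078000000000000000000) := T_45 (nat_lit 75) (nat_lit 109) (nat_lit 7) (nat_lit 7) (nat_lit 4) L124052 (by decide +kernel)
theorem L124054 : W_45 (nat_lit 7) (nat_lit 0x10001c0000000500000000000000000000000) (nat_lit 0x0) (nat_lit 0x8000e0000000bc002c007f000000000000000000) := Q_45 (nat_lit 91) (C_45 L124050 (C_45 L124016 (C_45 L124053 N_45))) (by decide +kernel)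
theorem L124055 : W_45 (nat_lit 5) (nat_lit 0x10001c0000000d00000000000000000000000) (nat_lit 0x0) (nat_lit 0x780012001fc002000000000000000) := Q_45 (nat_lit 93) (C_45 L123847 (C_45 L123829 (C_45 L123843 N_45))) (by decide +kernel)
theorem L124056 : W_45 (nat_lit 5) (nat_lit 0x10001c0000000d00008000000000000000000) (nat_lit 0x0) (nat_lit 0x700012001c4000000000000000000) := T_45 (nat_lit 93) (nat_lit 74) (nat_lit 0) (nat_lit 10) (nat_lit 5) L124006 (by decide +kernel)
theorem L124057 : W_45 (nat_lit 6) (nat_lit 0x10001c0000000d00000000000000000000000) (nat_lit 0x0) (nat_lit 0x720012001cc000000000000000000) := T_45 (nat_lit 75) (nat_lit 109) (nat_lit 7) (nat_lit 7) (nat_lit 4) L124056 (by decide +kernel)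
theorem L124058 : W_45 (nat_lit 2) (nat_lit 0x10001c0000000d00038000000000000000000) (nat_lit 0x0) (nat_lit 0x3000040000000000000000000) := D_45 (nat_lit 96) (nat_lit 97) (nat_lit 78) (nat_lit 0) (nat_lit 12) (nat_lit 5) (nat_lit 3) (nat_lit 7) (nat_lit 4) (by decide +kernel)
theorem L124059 : W_45 (nat_lit 3) (nat_lit 0x10001c0000000d00028000000000000000000) (nat_lit 0x0) (nat_lit 0x3000054000000000000000000) := T_45 (nat_lit 76) (nat_lit 74) (nat_lit 3) (nat_lit 6) (nat_lit 4) L124058 (by decide +kernel)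
theorem L124060 : W_45 (nat_lit 4) (nat_lit 0x10001c0000000d00008000000000000000000) (nat_lit 0x0) (nat_lit 0x8003000074000000000000000000) := T_45 (nat_lit 77) (nat_lit 111) (nat_lit 5) (nat_lit 9) (nat_lit 4) L124059 (by decide +kernel)
theorem L124061 : W_45 (nat_lit 5) (nat_lit 0x10001c0000000d00000000000000000000000) (nat_lit 0x0) (nat_lit 0xa00300007c000000000000000000) := T_45 (nat_lit 75) (nat_lit 109) (nat_lit 7) (nat_lit 7) (nat_lit 4) L124060 (by decide +kernel)
theorem L124062 : W_45 (nat_lit 2) (nat_lit 0x10001c0000000d00028000000000000000000) (nat_lit 0x0) (nat_lit 0x200014000000000000000000) := D_45 (nat_lit 74) (nat_lit 76) (nat_lit 93) (nat_lit 3) (nat_lit 6) (nat_lit 4) (nat_lit 0) (nat_lit 10) (nat_lit 5) (by decide +kernel)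
theorem L124063 : W_45 (nat_lit 3) (nat_lit 0x10001c0000000d00020000000000000000000) (nat_lit 0x0) (nat_lit 0x200020001c000000000000000000) := T_45 (nat_lit 75) (nat_lit 109) (nat_lit 7) (nat_lit 7) (nat_lit 4) L124062 (by decide +kernel)
theorem L124064 : W_45 (nat_lit 4) (nat_lit 0x10001c0000000d00000000000000000000000) (nat_lit 0x0) (nat_lit 0xa00020003c000000000000000000) := T_45 (nat_lit 77) (nat_lit 111) (nat_lit 5) (nat_lit 9) (nat_lit 4) L124063 (by decide +kernel)
theorem L124065 : W_45 (nat_lit 2) (nat_lit 0x18001c0002000f00060000000000000000000) (nat_lit 0x0) (nat_lit 0x8000600000000000000000000000000000000000) := D_45 (nat_lit 142) (nat_lit 159) (nat_lit 141) (nat_lit 5) (nat_lit 7) (nat_lit 5) (nat_lit 2) (nat_lit 5) (nat_lit 8) (by decide +kernel)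
theorem L124066 : W_45 (nat_lit 3) (nat_lit 0x10001c0002000f00060000000000000000000) (nat_lit 0x0) (nat_lit 0x8000e00000000000000010000000000000000000) := T_45 (nat_lit 143) (nat_lit 76) (nat_lit 6) (nat_lit 7) (nat_lit 8) L124065 (by decide +kernel)
theorem L124067 : W_45 (nat_lit 4) (nat_lit 0x10001c0002000f00020000000000000000000) (nat_lit 0x0) (nat_lit 0x8000e000000000000000d0000000000000000000) := T_45 (nat_lit 78) (nat_lit 79) (nat_lit 2) (nat_lit 7) (nat_lit 5) L124066 (by decide +kernel)
theorem L124068 : W_45 (nat_lit 5) (nat_lit 0x10001c0002000d00020000000000000000000) (nat_lit 0x0) (nat_lit 0x8000e000000010002000d0000000000000000000) := T_45 (nat_lit 93) (nat_lit 108) (nat_lit 1) (nat_lit 10) (nat_lit 5) L124067 (by decide +kernel)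
theorem L124069 : W_45 (nat_lit 6) (nat_lit 0x10001c0002000d00000000000000000000000) (nat_lit 0x0) (nat_lit 0x8000e000000090002000f0000000000000000000) := T_45 (nat_lit 77) (nat_lit 111) (nat_lit 5) (nat_lit 9) (nat_lit 4) L124068 (by decide +kernel)
theorem L124070 : W_45 (nat_lit 7) (nat_lit 0x10001c0000000d00000000000000000000000) (nat_lit 0x0) (nat_lit 0x8000e0000000b0002000f8000000000000000000) := T_45 (nat_lit 109) (nat_lit 75) (nat_lit 7) (nat_lit 7) (nat_lit 4) L124069 (by decide +kernel)
theorem L124071 : W_45 (nat_lit 2) (nat_lit 0x18001c0012000f00040000000000000000000) (nat_lit 0x0) (nat_lit 0x8000600000000000000000000000000000000000) := D_45 (nat_lit 142) (nat_lit 159) (nat_lit 141) (nat_lit 5) (nat_lit 7) (nat_lit 5) (nat_lit 2) (nat_lit 5) (nat_lit 8) (by decide +kernel)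
theorem L124072 : W_45 (nat_lit 3) (nat_lit 0x10001c0012000f00040000000000000000000) (nat_lit 0x0) (nat_lit 0x8000e00000000000000010000000000000000000) := T_45 (nat_lit 143) (nat_lit 76) (nat_lit 6) (nat_lit 7) (nat_lit 8) L124071 (by decide +kernel)
theorem L124073 : W_45 (nat_lit 4) (nat_lit 0x10001c0010000f00040000000000000000000) (nat_lit 0x0) (nat_lit 0x8000e00000003000000010000000000000000000) := T_45 (nat_lit 109) (nat_lit 108) (nat_lit 1) (nat_lit 10) (nat_lit 5) L124072 (by decide +kernel)
theorem L124074 : W_45 (nat_lit 5) (nat_lit 0x10001c0010000f00000000000000000000000) (nat_lit 0x0) (nat_lit 0x8000e000000030000000d0000000000000000000) := T_45 (nat_lit 78) (nat_lit 79) (nat_lit 2) (nat_lit 7) (nat_lit 5) L124073 (by decide +kernel)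
theorem L124075 : W_45 (nat_lit 6) (nat_lit 0x10001c0000000f00000000000000000000000) (nat_lit 0x0) (nat_lit 0x8000e000000330000000d0000000000000000000) := T_45 (nat_lit 112) (nat_lit 113) (nat_lit 3) (nat_lit 7) (nat_lit 5) L124074 (by decide +kernel)
theorem L124076 : W_45 (nat_lit 5) (nat_lit 0x10001c0002000f00000000000000000000000) (nat_lit 0x0) (nat_lit 0x8000e000000080000000f0000000000000000000) := T_45 (nat_lit 77) (nat_lit 111) (nat_lit 5) (nat_lit 9) (nat_lit 4) L124067 (by decide +kernel)
theorem L124077 : W_45 (nat_lit 6) (nat_lit 0x10001c0000000f00000000000000000000000) (nat_lit 0x0) (nat_lit 0x8000e0000000b0000000f0000000000000000000) := T_45 (nat_lit 109) (nat_lit 108) (nat_lit 1) (nat_lit 10) (nat_lit 5) L124076 (by decide +kernel)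
theorem L124078 : W_45 (nat_lit 2) (nat_lit 0x18001c0002000f00020000000000000000000) (nat_lit 0x0) (nat_lit 0x8000600000000000000000000000000000000000) := D_45 (nat_lit 142) (nat_lit 159) (nat_lit 141) (nat_lit 5) (nat_lit 7) (nat_lit 5) (nat_lit 2) (nat_lit 5) (nat_lit 8) (by decide +kernel)
theorem L124079 : W_45 (nat_lit 3) (nat_lit 0x10001c0002000f00020000000000000000000) (nat_lit 0x0) (nat_lit 0x8000e00000000000000010000000000000000000) := T_45 (nat_lit 143) (nat_lit 76) (nat_lit 6) (nat_lit 7) (nat_lit 8) L124078 (by decide +kernel)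
theorem L124080 : W_45 (nat_lit 4) (nat_lit 0x10001c0002000f00000000000000000000000) (nat_lit 0x0) (nat_lit 0x8000e00000008000000030000000000000000000) := T_45 (nat_lit 77) (nat_lit 111) (nat_lit 5) (nat_lit 9) (nat_lit 4) L124079 (by decide +kernel)
theorem L124081 : W_45 (nat_lit 5) (nat_lit 0x10001c0000000f00000000000000000000000) (nat_lit 0x0) (nat_lit 0x8000e0000000b000000030000000000000000000) := T_45 (nat_lit 109) (nat_lit 108) (nat_lit 1) (nat_lit 10) (nat_lit 5) L124080 (by decide +kernel)
theorem L124082 : W_45 (nat_lit 7) (nat_lit 0x10001c0000000d00000000000000000000000) (nat_lit 0x0) (nat_lit 0x8000e0000003b0002000f0002000000000000000) := Q_45 (nat_lit 93) (C_45 L123829 (C_45 L124075 (C_45 L124077 (C_45 L124081 N_45)))) (by decide +kernel)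
theorem L124083 : W_45 (nat_lit 8) (nat_lit 0x10001c0000000500000000000000000000000) (nat_lit 0x0) (nat_lit 0x8000e0000007b003a001fc002000000000000000) := Q_45 (nat_lit 95) (C_45 L124055 (C_45 L124057 (C_45 L124061 (C_45 L124064 (C_45 L124070 (C_45 L124082 N_45)))))) (by decide +kernel)
theorem L124084 : W_45 (nat_lit 6) (nat_lit 0x10001c0000000500000000000000000000000) (nat_lit 0x0) (nat_lit 0x8000e0000000bc00ac01f8000000000000000000) := Q_45 (nat_lit 93) (C_45 L123777 (C_45 L124011 (C_45 L124043 N_45))) (by decide +kernel)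
theorem L124085 : W_45 (nat_lit 2) (nat_lit 0x18001c0002000f00040000000000000000000) (nat_lit 0x0) (nat_lit 0x8000600000000000000000000000000000000000) := D_45 (nat_lit 142) (nat_lit 159) (nat_lit 141) (nat_lit 5) (nat_lit 7) (nat_lit 5) (nat_lit 2) (nat_lit 5) (nat_lit 8) (by decide +kernel)
theorem L124086 : W_45 (nat_lit 3) (nat_lit 0x10001c0002000f00040000000000000000000) (nat_lit 0x0) (nat_lit 0x8000e00000000000000010000000000000000000) := T_45 (nat_lit 143) (nat_lit 76) (nat_lit 6) (nat_lit 7) (nat_lit 8) L124085 (by decide +kernel)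
theorem L124087 : W_45 (nat_lit 4) (nat_lit 0x10001c0002000f00000000000000000000000) (nat_lit 0x0) (nat_lit 0x8000e000000000000000d0000000000000000000) := T_45 (nat_lit 78) (nat_lit 79) (nat_lit 2) (nat_lit 7) (nat_lit 5) L124086 (by decide +kernel)
theorem L124088 : W_45 (nat_lit 5) (nat_lit 0x10001c0000000f00000000000000000000000) (nat_lit 0x0) (nat_lit 0x8000e000000030000000d0000000000000000000) := T_45 (nat_lit 109) (nat_lit 108) (nat_lit 1) (nat_lit 10) (nat_lit 5) L124087 (by decide +kernel)
theorem L124089 : W_45 (nat_lit 2) (nat_lit 0x10001c0012000f80000000000000000000000) (nat_lit 0x0) (nat_lit 0x800000000000000006000000000000000000) := D_45 (nat_lit 74) (nat_lit 73) (nat_lit 143) (nat_lit 0) (nat_lit 9) (nat_lit 5) (nat_lit 4) (nat_lit 7) (nat_lit 8) (by decide +kernel)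
theorem L124090 : W_45 (nat_lit 3) (nat_lit 0x10001c0012000f00000000000000000000000) (nat_lit 0x0) (nat_lit 0x800000008000080006000000000000000000) := T_45 (nat_lit 91) (nat_lit 111) (nat_lit 3) (nat_lit 6) (nat_lit 5) L124089 (by decide +kernel)
theorem L124091 : W_45 (nat_lit 4) (nat_lit 0x10001c0002000f00000000000000000000000) (nat_lit 0x0) (nat_lit 0x800000038000080006000000000000000000) := T_45 (nat_lit 112) (nat_lit 113) (nat_lit 3) (nat_lit 7) (nat_lit 5) L124090 (by decide +kernel)
theorem L124092 : W_45 (nat_lit 5) (nat_lit 0x10001c0000000f00000000000000000000000) (nat_lit 0x0) (nat_lit 0x80000003b000080006000000000000000000) := T_45 (nat_lit 109) (nat_lit 108) (nat_lit 1) (nat_lit 10) (nat_lit 5) L124091 (by decide +kernel)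
theorem L124093 : W_45 (nat_lit 7) (nat_lit 0x10001c0000000700000000000000000000000) (nat_lit 0x0) (nat_lit 0x8000e0000003b0008800d6002000000000000000) := Q_45 (nat_lit 95) (C_45 L124075 (C_45 L123854 (C_45 L124088 (C_45 L124092 N_45)))) (by decide +kernel)
theorem L124094 : W_45 (nat_lit 8) (nat_lit 0x10001c0000000500000000000000000000000) (nat_lit 0x0) (nat_lit 0x8000e0000007b001a801de002000000000000000) := Q_45 (nat_lit 93) (C_45 L123855 (C_45 L124011 (C_45 L124008 (C_45 L124093 N_45)))) (by decide +kernel)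
theorem L124095 : W_45 (nat_lit 6) (nat_lit 0x10001c0000000700000000000000000000000) (nat_lit 0x0) (nat_lit 0x8000e0000003b0008000f0002000000000000000) := Q_45 (nat_lit 95) (C_45 L124088 (C_45 L123829 (C_45 L124081 N_45))) (by decide +kernel)
theorem L124096 : W_45 (nat_lit 2) (nat_lit 0x10001c0009000780004000000000000000000) (nat_lit 0x0) (nat_lit 0x800000002000800000000000000000000000) := D_45 (nat_lit 109) (nat_lit 95) (nat_lit 143) (nat_lit 1) (nat_lit 10) (nat_lit 5) (nat_lit 4) (nat_lit 7) (nat_lit 8) (by decide +kernel)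
theorem L124097 : W_45 (nat_lit 3) (nat_lit 0x10001c0009000780000000000000000000000) (nat_lit 0x0) (nat_lit 0x800000002000800006000000000000000000) := T_45 (nat_lit 74) (nat_lit 73) (nat_lit 0) (nat_lit 9) (nat_lit 5) L124096 (by decide +kernel)
theorem L124098 : W_45 (nat_lit 4) (nat_lit 0x10001c0008000780000000000000000000000) (nat_lit 0x0) (nat_lit 0x800000003800800006000000000000000000) := T_45 (nat_lit 108) (nat_lit 107) (nat_lit 1) (nat_lit 9) (nat_lit 5) L124097 (by decide +kernel)
theorem L124099 : W_45 (nat_lit 5) (nat_lit 0x10001c0008000700000000000000000000000) (nat_lit 0x0) (nat_lit 0x800000013800880006000000000000000000) := T_45 (nat_lit 91) (nat_lit 112) (nat_lit 3) (nat_lit 6) (nat_lit 5) L124098 (by decide +kernel)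
theorem L124100 : W_45 (nat_lit 6) (nat_lit 0x10001c0000000700000000000000000000000) (nat_lit 0x0) (nat_lit 0x80000001b800880026000000000000000000) := T_45 (nat_lit 111) (nat_lit 77) (nat_lit 5) (nat_lit 9) (nat_lit 4) L124099 (by decide +kernel)
theorem L124101 : W_45 (nat_lit 8) (nat_lit 0x10001c0000000500000000000000000000000) (nat_lit 0x0) (nat_lit 0x8000e0000003bc00ac00f7002000000000000000) := Q_45 (nat_lit 93) (C_45 L123816 (C_45 L124093 (C_45 L124012 (C_45 L123811 (C_45 L124095 (C_45 L124100 N_45)))))) (by decide +kernel)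
theorem L124102 : W_45 (nat_lit 9) (nat_lit 0x10001c0000000500000000000000000000000) (nat_lit 0x0) (nat_lit 0x8000e0000001bc00af003e000000000000000000) := Q_45 (nat_lit 93) (C_45 L123862 (C_45 L124011 (C_45 L124100 N_45))) (by decide +kernel)
theorem L124103 : W_45 (nat_lit 15) (nat_lit 0x10001c0000000100000000000000000000000) (nat_lit 0x0) (nat_lit 0x8000e000000fbe07ef03ff00ff803f001f000180) := Q_45 (nat_lit 94) (C_45 L124002 (C_45 L124003 (C_45 L124013 (C_45 L124039 (C_45 L124048 (C_45 L124054 (C_45 L124083 (C_45 L124084 (C_45 L124094 (C_45 L124101 (C_45 L124102 N_45))))))))))) (by decide +kernel)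
theorem L124104 : W_45 (nat_lit 2) (nat_lit 0x10001c0001000780004000000000000000000) (nat_lit 0x0) (nat_lit 0x2000800000000200000000000000) := D_45 (nat_lit 109) (nat_lit 95) (nat_lit 57) (nat_lit 1) (nat_lit 10) (nat_lit 5) (nat_lit 7) (nat_lit 6) (nat_lit 3) (by decide +kernel)
theorem L124105 : W_45 (nat_lit 3) (nat_lit 0x10001c0000000780004000000000000000000) (nat_lit 0x0) (nat_lit 0x3800800000000200000000000000) := T_45 (nat_lit 108) (nat_lit 107) (nat_lit 1) (nat_lit 9) (nat_lit 5) L124104 (by decide +kernel)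
theorem L124106 : W_45 (nat_lit 4) (nat_lit 0x10001c0000000780000000000000000000000) (nat_lit 0x0) (nat_lit 0x3800800006000200000000000000) := T_45 (nat_lit 74) (nat_lit 73) (nat_lit 0) (nat_lit 9) (nat_lit 5) L124105 (by decide +kernel)
theorem L124107 : W_45 (nat_lit 2) (nat_lit 0x10001c00080007c0000000000000000000000) (nat_lit 0x0) (nat_lit 0x7000000000000000000) := D_45 (nat_lit 73) (nat_lit 74) (nat_lit 72) (nat_lit 0) (nat_lit 9) (nat_lit 5) (nat_lit 0) (nat_lit 8) (nat_lit 5) (by decide +kernel)
theorem L124108 : W_45 (nat_lit 3) (nat_lit 0x10001c0008000780000000000000000000000) (nat_lit 0x0) (nat_lit 0x4000040007000000000000000000) := T_45 (nat_lit 90) (nat_lit 110) (nat_lit 3) (nat_lit 5) (nat_lit 5) L124107 (by decide +kernel)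
theorem L124109 : W_45 (nat_lit 4) (nat_lit 0x10001c0000000780000000000000000000000) (nat_lit 0x0) (nat_lit 0x1c000040007000000000000000000) := T_45 (nat_lit 111) (nat_lit 112) (nat_lit 3) (nat_lit 6) (nat_lit 5) L124108 (by decide +kernel)
theorem L124110 : W_45 (nat_lit 2) (nat_lit 0x10001c000b0007c0001000000000000000000) (nat_lit 0x0) (nat_lit 0x30000800000000000000000) := D_45 (nat_lit 89) (nat_lit 71) (nat_lit 88) (nat_lit 0) (nat_lit 7) (nat_lit 5) (nat_lit 3) (nat_lit 3) (nat_lit 5) (by decide +kernel)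
theorem L124111 : W_45 (nat_lit 3) (nat_lit 0x10001c00090007c0001000000000000000000) (nat_lit 0x0) (nat_lit 0x2000830000800000000000000000) := T_45 (nat_lit 109) (nat_lit 95) (nat_lit 1) (nat_lit 10) (nat_lit 5) L124110 (by decide +kernel)
theorem L124112 : W_45 (nat_lit 4) (nat_lit 0x10001c00090007c0000000000000000000000) (nat_lit 0x0) (nat_lit 0x2000830003800000000000000000) := T_45 (nat_lit 72) (nat_lit 73) (nat_lit 0) (nat_lit 8) (nat_lit 5) L124111 (by decide +kernel)
theorem L124113 : W_45 (nat_lit 5) (nat_lit 0x10001c0009000780000000000000000000000) (nat_lit 0x0) (nat_lit 0x6000870003800000000000000000) := T_45 (nat_lit 90) (nat_lit 110) (nat_lit 3) (nat_lit 5) (nat_lit 5) L124112 (by decide +kernel)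
theorem L124114 : W_45 (nat_lit 6) (nat_lit 0x10001c0001000780000000000000000000000) (nat_lit 0x0) (nat_lit 0x1e000870003800000000000000000) := T_45 (nat_lit 111) (nat_lit 112) (nat_lit 3) (nat_lit 6) (nat_lit 5) L124113 (by decide +kernel)
theorem L124115 : W_45 (nat_lit 7) (nat_lit 0x10001c0000000780000000000000000000000) (nat_lit 0x0) (nat_lit 0x1f800870003800000000000000000) := T_45 (nat_lit 108) (nat_lit 107) (nat_lit 1) (nat_lit 9) (nat_lit 5) L124114 (by decide +kernel)
theorem L124116 : W_45 (nat_lit 2) (nat_lit 0x10001c000d001f80000000800000000000000) (nat_lit 0x0) (nat_lit 0x1c0000000000000000000) := D_45 (nat_lit 79) (nat_lit 78) (nat_lit 80) (nat_lit 2) (nat_lit 7) (nat_lit 5) (nat_lit 2) (nat_lit 8) (nat_lit 5) (by decide +kernel)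
theorem L124117 : W_45 (nat_lit 3) (nat_lit 0x10001c000d000f80000000800000000000000) (nat_lit 0x0) (nat_lit 0x30001c0000000000000000000) := T_45 (nat_lit 96) (nat_lit 97) (nat_lit 1) (nat_lit 12) (nat_lit 5) L124116 (by decide +kernel)
theorem L124118 : W_45 (nat_lit 4) (nat_lit 0x10001c000d000f80000000000000000000000) (nat_lit 0x0) (nat_lit 0x30001d0000800000000000000) := T_45 (nat_lit 59) (nat_lit 76) (nat_lit 7) (nat_lit 8) (nat_lit 3) L124117 (by decide +kernel)
theorem L124119 : W_45 (nat_lit 5) (nat_lit 0x10001c000d000780000000000000000000000) (nat_lit 0x0) (nat_lit 0x20038001d0000800000000000000) := T_45 (nat_lit 95) (nat_lit 109) (nat_lit 2) (nat_lit 6) (nat_lit 6) L124118 (by decide +kernel)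
theorem L124120 : W_45 (nat_lit 6) (nat_lit 0x10001c0009000780000000000000000000000) (nat_lit 0x0) (nat_lit 0x60038401d0000800000000000000) := T_45 (nat_lit 110) (nat_lit 90) (nat_lit 3) (nat_lit 5) (nat_lit 5) L124119 (by decide +kernel)
theorem L124121 : W_45 (nat_lit 7) (nat_lit 0x10001c0001000780000000000000000000000) (nat_lit 0x0) (nat_lit 0x1e0038401d0000800000000000000) := T_45 (nat_lit 111) (nat_lit 112) (nat_lit 3) (nat_lit 6) (nat_lit 5) L124120 (by decide +kernel)
theorem L124122 : W_45 (nat_lit 8) (nat_lit 0x10001c0000000780000000000000000000000) (nat_lit 0x0) (nat_lit 0x1f8038401d0000800000000000000) := T_45 (nat_lit 108) (nat_lit 107) (nat_lit 1) (nat_lit 9) (nat_lit 5) L124121 (by decide +kernel)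
theorem L124123 : W_45 (nat_lit 9) (nat_lit 0x10001c0000000700000000000000000000000) (nat_lit 0x0) (nat_lit 0x1fc038f01d7800a00000000000000) := Q_45 (nat_lit 91) (C_45 L123912 (C_45 L124106 (C_45 L124109 (C_45 L124115 (C_45 L124122 N_45))))) (by decide +kernel)
theorem L124124 : W_45 (nat_lit 6) (nat_lit 0x10001c0000000700000000000000000000000) (nat_lit 0x0) (nat_lit 0x5c000c0067000000000000000000) := T_45 (nat_lit 77) (nat_lit 110) (nat_lit 6) (nat_lit 8) (nat_lit 8) L123815 (by decide +kernel)
theorem L124125 : W_45 (nat_lit 2) (nat_lit 0x10001c0000000700000000000000000000000) (nat_lit 0x0) (nat_lit 0xc000000020000000000000000000) := D_45 (nat_lit 77) (nat_lit 110) (nat_lit 111) (nat_lit 6) (nat_lit 8) (nat_lit 8) (nat_lit 5) (nat_lit 9) (nat_lit 4) (by decide +kernel)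
theorem L124126 : W_45 (nat_lit 10) (nat_lit 0x10001c0000000300000000000000000000000) (nat_lit 0x0) (nat_lit 0x1fc03cf01f7800a00000000000000) := Q_45 (nat_lit 94) (C_45 L123816 (C_45 L124123 (C_45 L124124 (C_45 L123811 (C_45 L124125 N_45))))) (by decide +kernel)
theorem L124127 : W_45 (nat_lit 15) (nat_lit 0x10001c0000000100000000000000000000000) (nat_lit 0x0) (nat_lit 0xffe07ef01ff807e003e001d000000) := Q_45 (nat_lit 93) (C_45 L123899 (C_45 L123867 (C_45 L123863 (C_45 L124126 N_45)))) (by decide +kernel)
theorem L124128 : W_45 (nat_lit 2) (nat_lit 0x18001c0002000300000000000000000000000) (nat_lit 0x0) (nat_lit 0x8000600000000000000000000000000000000000) := D_45 (nat_lit 142) (nat_lit 159) (nat_lit 141) (nat_lit 5) (nat_lit 7) (nat_lit 5) (nat_lit 2) (nat_lit 5) (nat_lit 8) (by decide +kernel)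
theorem L124129 : W_45 (nat_lit 3) (nat_lit 0x10001c0002000300000000000000000000000) (nat_lit 0x0) (nat_lit 0x8000e00000000000000010000000000000000000) := T_45 (nat_lit 143) (nat_lit 76) (nat_lit 6) (nat_lit 7) (nat_lit 8) L124128 (by decide +kernel)
theorem L124130 : W_45 (nat_lit 4) (nat_lit 0x10001c0000000300000000000000000000000) (nat_lit 0x0) (nat_lit 0x8000e00000002000000018000000000000000000) := T_45 (nat_lit 109) (nat_lit 75) (nat_lit 7) (nat_lit 7) (nat_lit 4) L124129 (by decide +kernel)
theorem L124131 : W_45 (nat_lit 2) (nat_lit 0x1c001c0000000300000000000000000000000) (nat_lit 0x0) (nat_lit 0x8000000000002000000010000000000000000000) := D_45 (nat_lit 109) (nat_lit 76) (nat_lit 159) (nat_lit 6) (nat_lit 7) (nat_lit 8) (nat_lit 5) (nat_lit 7) (nat_lit 5) (by decide +kernel)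
theorem L124132 : W_45 (nat_lit 3) (nat_lit 0x18001c0000000300000000000000000000000) (nat_lit 0x0) (nat_lit 0x8000600000002000000010000000000000000000) := T_45 (nat_lit 142) (nat_lit 141) (nat_lit 2) (nat_lit 5) (nat_lit 8) L124131 (by decide +kernel)
theorem L124133 : W_45 (nat_lit 2) (nat_lit 0x1c001c0006000700000000000000000000000) (nat_lit 0x0) (nat_lit 0x1800800000000000000000000000) := D_45 (nat_lit 108) (nat_lit 107) (nat_lit 95) (nat_lit 3) (nat_lit 5) (nat_lit 6) (nat_lit 1) (nat_lit 10) (nat_lit 5) (by decide +kernel)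
theorem L124134 : W_45 (nat_lit 3) (nat_lit 0x1c001c0004000700000000000000000000000) (nat_lit 0x0) (nat_lit 0x8000000000003800800000000000000000000000) := T_45 (nat_lit 109) (nat_lit 159) (nat_lit 5) (nat_lit 7) (nat_lit 5) L124133 (by decide +kernel)
theorem L124135 : W_45 (nat_lit 4) (nat_lit 0x1c001c0004000300000000000000000000000) (nat_lit 0x0) (nat_lit 0x8000000000003800c00020000000000000000000) := T_45 (nat_lit 94) (nat_lit 77) (nat_lit 6) (nat_lit 8) (nat_lit 8) L124134 (by decide +kernel)
theorem L124136 : W_45 (nat_lit 5) (nat_lit 0x18001c0004000300000000000000000000000) (nat_lit 0x0) (nat_lit 0x8000600000003800c00020000000000000000000) := T_45 (nat_lit 142) (nat_lit 141) (nat_lit 2) (nat_lit 5) (nat_lit 8) L124135 (by decide +kernel)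
theorem L124137 : W_45 (nat_lit 6) (nat_lit 0x18001c0000000300000000000000000000000) (nat_lit 0x0) (nat_lit 0x18000600000007800c00020000000000000000000) := T_45 (nat_lit 110) (nat_lit 160) (nat_lit 5) (nat_lit 8) (nat_lit 5) L124136 (by decide +kernel)
theorem L124138 : W_45 (nat_lit 7) (nat_lit 0x10001c0000000300000000000000000000000) (nat_lit 0x0) (nat_lit 0x18000e00000007800c00030000000000000000000) := Q_45 (nat_lit 143) (C_45 L123984 (C_45 L123109 (C_45 L124132 (C_45 L124137 N_45)))) (by decide +kernel)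
theorem L124139 : W_45 (nat_lit 8) (nat_lit 0x10001c0000000100000000000000000000000) (nat_lit 0x0) (nat_lit 0x18000e00000007800e00038001000000000000000) := Q_45 (nat_lit 93) (C_45 L123773 (C_45 L123899 (C_45 L124130 (C_45 L124138 N_45)))) (by decide +kernel)
theorem L124140 : W_45 (nat_lit 2) (nat_lit 0x300010001a001c0002000300000000000000000000000) (nat_lit 0x0) (nat_lit 0x1000080004000000000000000000) := D_45 (nat_lit 91) (nat_lit 108) (nat_lit 74) (nat_lit 4) (nat_lit 7) (nat_lit 9) (nat_lit 4) (nat_lit 7) (nat_lit 8) (by decide +kernel)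
theorem L124141 : W_45 (nat_lit 3) (nat_lit 0x300010001a001c0000000300000000000000000000000) (nat_lit 0x0) (nat_lit 0x8000000000003000080004000000000000000000) := T_45 (nat_lit 109) (nat_lit 159) (nat_lit 5) (nat_lit 7) (nat_lit 6) L124140 (by decide +kernel)
theorem L124142 : W_45 (nat_lit 4) (nat_lit 0x200010001a001c0000000300000000000000000000000) (nat_lit 0x0) (nat_lit 0x2000100008000000000003000080004000000000000000000) := T_45 (nat_lit 176) (nat_lit 193) (nat_lit 5) (nat_lit 7) (nat_lit 7) L124141 (by decide +kernel)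
theorem L124143 : W_45 (nat_lit 5) (nat_lit 0x10001a001c0000000300000000000000000000000) (nat_lit 0x0) (nat_lit 0x6000300008000000000003000080004000000000000000000) := T_45 (nat_lit 177) (nat_lit 194) (nat_lit 6) (nat_lit 7) (nat_lit 11) L124142 (by decide +kernel)
theorem L124144 : W_45 (nat_lit 6) (nat_lit 0x1a001c0000000300000000000000000000000) (nat_lit 0x0) (nat_lit 0x6000300018000000000007000080004000000000000000000) := T_45 (nat_lit 160) (nat_lit 110) (nat_lit 5) (nat_lit 8) (nat_lit 5) L124143 (by decide +kernel)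
theorem L124145 : W_45 (nat_lit 7) (nat_lit 0x18001c0000000300000000000000000000000) (nat_lit 0x0) (nat_lit 0x6000300018000600000007000080004000000000000000000) := T_45 (nat_lit 141) (nat_lit 142) (nat_lit 2) (nat_lit 5) (nat_lit 8) L124144 (by decide +kernel)
theorem L124146 : W_45 (nat_lit 8) (nat_lit 0x10001c0000000300000000000000000000000) (nat_lit 0x0) (nat_lit 0x6000300018000e00000007000080014000000000000000000) := Q_45 (nat_lit 143) (C_45 L123984 (C_45 L124132 (C_45 L124145 N_45))) (by decide +kernel)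
theorem L124147 : W_45 (nat_lit 2) (nat_lit 0x700018001a001c0000000300000000000000000000000) (nat_lit 0x0) (nat_lit 0x800006000000000000000000000000000000000000000) := D_45 (nat_lit 158) (nat_lit 157) (nat_lit 179) (nat_lit 3) (nat_lit 4) (nat_lit 9) (nat_lit 0) (nat_lit 9) (nat_lit 10) (by decide +kernel)
theorem L124148 : W_45 (nat_lit 3) (nat_lit 0x300018001a001c0000000300000000000000000000000) (nat_lit 0x0) (nat_lit 0x8000c00006000000000000000000000000000000000000000) := T_45 (nat_lit 178) (nat_lit 195) (nat_lit 7) (nat_lit 7) (nat_lit 7) L124147 (by decide +kernel)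
theorem L124149 : W_45 (nat_lit 4) (nat_lit 0x300010001a001c0000000300000000000000000000000) (nat_lit 0x0) (nat_lit 0x8000c0000e000000000002000000000000000000000000000) := T_45 (nat_lit 159) (nat_lit 109) (nat_lit 5) (nat_lit 7) (nat_lit 6) L124148 (by decide +kernel)
theorem L124150 : W_45 (nat_lit 5) (nat_lit 0x200010001a001c0000000300000000000000000000000) (nat_lit 0x0) (nat_lit 0xa000d0000e000000000002000000000000000000000000000) := T_45 (nat_lit 176) (nat_lit 193) (nat_lit 5) (nat_lit 7) (nat_lit 7) L124149 (by decide +kernel)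
theorem L124151 : W_45 (nat_lit 6) (nat_lit 0x10001a001c0000000300000000000000000000000) (nat_lit 0x0) (nat_lit 0xe000f0000e000000000002000000000000000000000000000) := T_45 (nat_lit 177) (nat_lit 194) (nat_lit 6) (nat_lit 7) (nat_lit 11) L124150 (by decide +kernel)
theorem L124152 : W_45 (nat_lit 7) (nat_lit 0x1a001c0000000300000000000000000000000) (nat_lit 0x0) (nat_lit 0xe000f0001e000000000006000000000000000000000000000) := T_45 (nat_lit 160) (nat_lit 110) (nat_lit 5) (nat_lit 8) (nat_lit 5) L124151 (by decide +kernel)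
theorem L124153 : W_45 (nat_lit 8) (nat_lit 0x18001c0000000300000000000000000000000) (nat_lit 0x0) (nat_lit 0xe000f0001e000600000006000000000000000000000000000) := T_45 (nat_lit 141) (nat_lit 142) (nat_lit 2) (nat_lit 5) (nat_lit 8) L124152 (by decide +kernel)
theorem L124154 : W_45 (nat_lit 9) (nat_lit 0x10001c0000000300000000000000000000000) (nat_lit 0x0) (nat_lit 0xe000f0001e000e00000006000000010000000000000000000) := Q_45 (nat_lit 143) (C_45 L123984 (C_45 L124132 (C_45 L124153 N_45))) (by decide +kernel)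
theorem L124155 : W_45 (nat_lit 8) (nat_lit 0x10001c0000000300000000000000000000000) (nat_lit 0x0) (nat_lit 0x8000e0000003bc00cc00f7002000000000000000) := Q_45 (nat_lit 94) (C_45 L123816 (C_45 L124093 (C_45 L124100 (C_45 L124012 (C_45 L123811 (C_45 L124095 N_45)))))) (by decide +kernel)
theorem L124156 : W_45 (nat_lit 2) (nat_lit 0x10001c00080007c0000000000000000000000) (nat_lit 0x0) (nat_lit 0x1c00000000000000000000000000) := D_45 (nat_lit 107) (nat_lit 106) (nat_lit 108) (nat_lit 1) (nat_lit 8) (nat_lit 5) (nat_lit 1) (nat_lit 9) (nat_lit 5) (by decide +kernel)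
theorem L124157 : W_45 (nat_lit 3) (nat_lit 0x10001c0008000780000000000000000000000) (nat_lit 0x0) (nat_lit 0x5c00040000000000000000000000) := T_45 (nat_lit 90) (nat_lit 110) (nat_lit 3) (nat_lit 5) (nat_lit 5) L124156 (by decide +kernel)
theorem L124158 : W_45 (nat_lit 4) (nat_lit 0x10001c0000000780000000000000000000000) (nat_lit 0x0) (nat_lit 0x1dc00040000000000000000000000) := T_45 (nat_lit 111) (nat_lit 112) (nat_lit 3) (nat_lit 6) (nat_lit 5) L124157 (by decide +kernel)
theorem L124159 : W_45 (nat_lit 8) (nat_lit 0x10001c0000000700000000000000000000000) (nat_lit 0x0) (nat_lit 0x1fc008f0007800200000000000000) := Q_45 (nat_lit 91) (C_45 L124115 (C_45 L124109 (C_45 L124106 (C_45 L124158 N_45)))) (by decide +kernel)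
theorem L124160 : W_45 (nat_lit 9) (nat_lit 0x10001c0000000300000000000000000000000) (nat_lit 0x0) (nat_lit 0x80000001fc00cf0067800200000000000000) := Q_45 (nat_lit 94) (C_45 L124125 (C_45 L124159 (C_45 L124124 (C_45 L124100 N_45)))) (by decide +kernel)
theorem L124161 : W_45 (nat_lit 11) (nat_lit 0x10001c0000000100000000000000000000000) (nat_lit 0x0) (nat_lit 0xe000f0001e000e000000ffc03ef01f7803e000e0005000000) := Q_45 (nat_lit 93) (C_45 L123897 (C_45 L124138 (C_45 L124126 (C_45 L124146 (C_45 L124154 (C_45 L124155 (C_45 L124160 N_45))))))) (by decide +kernel)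
theorem L124162 : W_45 (nat_lit 16) (nat_lit 0x10001c0000000000000000000000000000000) (nat_lit 0x0) (nat_lit 0xe000f0001e000e000100ffe07ff03ff80ff803f801f000180) := Q_45 (nat_lit 92) (C_45 L123898 (C_45 L123939 (C_45 L123941 (C_45 L123954 (C_45 L123992 (C_45 L124103 (C_45 L124127 (C_45 L124139 (C_45 L124161 N_45))))))))) (by decide +kernel)
theorem L124163 : W_45 (nat_lit 2) (nat_lit 0x10003c0000000200020000000000000000000) (nat_lit 0x0) (nat_lit 0xc000400000000000000000000000) := D_45 (nat_lit 94) (nat_lit 110) (nat_lit 111) (nat_lit 6) (nat_lit 8) (nat_lit 8) (nat_lit 5) (nat_lit 9) (nat_lit 4) (by decide +kernel)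
theorem L124164 : W_45 (nat_lit 2) (nat_lit 0x10003c0000000780028000000000000000000) (nat_lit 0x0) (nat_lit 0x800006000000000000000000) := D_45 (nat_lit 74) (nat_lit 95) (nat_lit 73) (nat_lit 0) (nat_lit 10) (nat_lit 5) (nat_lit 0) (nat_lit 9) (nat_lit 5) (by decide +kernel)
theorem L124165 : W_45 (nat_lit 3) (nat_lit 0x10003c0000000700028000000000000000000) (nat_lit 0x0) (nat_lit 0x880046000000000000000000) := T_45 (nat_lit 91) (nat_lit 78) (nat_lit 2) (nat_lit 6) (nat_lit 5) L124164 (by decide +kernel)
theorem L124166 : W_45 (nat_lit 4) (nat_lit 0x10003c0000000300028000000000000000000) (nat_lit 0x0) (nat_lit 0x8000c80046000000000000000000) := T_45 (nat_lit 94) (nat_lit 111) (nat_lit 5) (nat_lit 9) (nat_lit 4) L124165 (by decide +kernel)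
theorem L124167 : W_45 (nat_lit 5) (nat_lit 0x10003c0000000300020000000000000000000) (nat_lit 0x0) (nat_lit 0xa000c8004e000000000000000000) := T_45 (nat_lit 75) (nat_lit 109) (nat_lit 7) (nat_lit 7) (nat_lit 4) L124166 (by decide +kernel)
theorem L124168 : W_45 (nat_lit 6) (nat_lit 0x10003c0000000300020000000000000000000) (nat_lit 0x0) (nat_lit 0xc0000000080004c0057000000000000000000) := T_45 (nat_lit 94) (nat_lit 111) (nat_lit 5) (nat_lit 9) (nat_lit 4) L123599 (by decide +kernel)
theorem L124169 : W_45 (nat_lit 2) (nat_lit 0x10003c0002000300020000000000000000000) (nat_lit 0x0) (nat_lit 0xc00000000000000010000000000000000000) := D_45 (nat_lit 143) (nat_lit 142) (nat_lit 76) (nat_lit 1) (nat_lit 10) (nat_lit 7) (nat_lit 6) (nat_lit 7) (nat_lit 8) (by decide +kernel)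
theorem L124170 : W_45 (nat_lit 3) (nat_lit 0x10003c0000000300020000000000000000000) (nat_lit 0x0) (nat_lit 0xc00000002000000018000000000000000000) := T_45 (nat_lit 109) (nat_lit 75) (nat_lit 7) (nat_lit 7) (nat_lit 4) L124169 (by decide +kernel)
theorem L124171 : W_45 (nat_lit 7) (nat_lit 0x10003c0000000200020000000000000000000) (nat_lit 0x0) (nat_lit 0xcc0000000a000dc005f000000000000000000) := Q_45 (nat_lit 92) (C_45 L124167 (C_45 L124168 (C_45 L124170 N_45))) (by decide +kernel)
theorem L124172 : W_45 (nat_lit 8) (nat_lit 0x10003c0000000000020000000000000000000) (nat_lit 0x0) (nat_lit 0x1000cc0000000e000fc005f000000000000000000) := Q_45 (nat_lit 93) (C_45 L124163 (C_45 L124171 (C_45 L123549 N_45))) (by decide +kernel)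
theorem L124173 : W_45 (nat_lit 3) (nat_lit 0x18003c0010000000020000000000000000000) (nat_lit 0x0) (nat_lit 0xc000000008000c00000000000000000000000) := T_45 (nat_lit 94) (nat_lit 111) (nat_lit 5) (nat_lit 9) (nat_lit 4) L123594 (by decide +kernel)
theorem L124174 : W_45 (nat_lit 4) (nat_lit 0x18003c0000000000020000000000000000000) (nat_lit 0x0) (nat_lit 0xc000000038000c00000000000000000000000) := T_45 (nat_lit 112) (nat_lit 113) (nat_lit 2) (nat_lit 7) (nat_lit 7) L124173 (by decide +kernel)
theorem L124175 : W_45 (nat_lit 5) (nat_lit 0x10003c0000000000020000000000000000000) (nat_lit 0x0) (nat_lit 0xcc00000038000c00000000000000000000000) := T_45 (nat_lit 143) (nat_lit 142) (nat_lit 1) (nat_lit 10) (nat_lit 7) L124174 (by decide +kernel)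
theorem L124176 : W_45 (nat_lit 4) (nat_lit 0x58003c0010000000020000000000000000000) (nat_lit 0x0) (nat_lit 0x1c000c0005000000000000000) := T_45 (nat_lit 95) (nat_lit 94) (nat_lit 4) (nat_lit 10) (nat_lit 8) L123586 (by decide +kernel)
theorem L124177 : W_45 (nat_lit 5) (nat_lit 0x18003c0010000000020000000000000000000) (nat_lit 0x0) (nat_lit 0xc000000000001c000c0005000000000000000) := T_45 (nat_lit 146) (nat_lit 147) (nat_lit 3) (nat_lit 7) (nat_lit 7) L124176 (by decide +kernel)
theorem L124178 : W_45 (nat_lit 6) (nat_lit 0x18003c0000000000020000000000000000000) (nat_lit 0x0) (nat_lit 0xc000000030001c000c0005000000000000000) := T_45 (nat_lit 112) (nat_lit 113) (nat_lit 2) (nat_lit 7) (nat_lit 7) L124177 (by decide +kernel)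
theorem L124179 : W_45 (nat_lit 7) (nat_lit 0x10003c0000000000020000000000000000000) (nat_lit 0x0) (nat_lit 0xcc00000030001c000c0005000000000000000) := T_45 (nat_lit 143) (nat_lit 142) (nat_lit 1) (nat_lit 10) (nat_lit 7) L124178 (by decide +kernel)
theorem L124180 : W_45 (nat_lit 3) (nat_lit 0x50003c0000000000020000000000000000000) (nat_lit 0x0) (nat_lit 0x38000c00000000000000000000000) := T_45 (nat_lit 94) (nat_lit 111) (nat_lit 7) (nat_lit 9) (nat_lit 4) L123595 (by decide +kernel)
theorem L124181 : W_45 (nat_lit 4) (nat_lit 0x10003c0000000000020000000000000000000) (nat_lit 0x0) (nat_lit 0xc000000038000c00000000000000000000000) := T_45 (nat_lit 146) (nat_lit 147) (nat_lit 3) (nat_lit 7) (nat_lit 7) L124180 (by decide +kernel)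
theorem L124182 : W_45 (nat_lit 2) (nat_lit 0x10003c001000000003e001000000000000000) (nat_lit 0x0) (nat_lit 0xe0000000000000000000000) := D_45 (nat_lit 90) (nat_lit 89) (nat_lit 91) (nat_lit 1) (nat_lit 8) (nat_lit 4) (nat_lit 1) (nat_lit 9) (nat_lit 4) (by decide +kernel)
theorem L124183 : W_45 (nat_lit 3) (nat_lit 0x10003c001000000003c001000000000000000) (nat_lit 0x0) (nat_lit 0xe0002000800000000000000) := T_45 (nat_lit 73) (nat_lit 59) (nat_lit 2) (nat_lit 5) (nat_lit 4) L124182 (by decide +kernel)
theorem L124184 : W_45 (nat_lit 4) (nat_lit 0x10003c001000000003c000000000000000000) (nat_lit 0x0) (nat_lit 0xe0002003800000000000000) := T_45 (nat_lit 60) (nat_lit 61) (nat_lit 2) (nat_lit 6) (nat_lit 4) L124183 (by decide +kernel)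
theorem L124185 : W_45 (nat_lit 5) (nat_lit 0x10003c000000000003c000000000000000000) (nat_lit 0x0) (nat_lit 0x300000e0002003800000000000000) := T_45 (nat_lit 112) (nat_lit 113) (nat_lit 2) (nat_lit 7) (nat_lit 7) L124184 (by decide +kernel)
theorem L124186 : W_45 (nat_lit 2) (nat_lit 0x10000000058003c001e000800068000000000000000000) (nat_lit 0x0) (nat_lit 0x200010000000000000000200000000000000000000000) := D_45 (nat_lit 160) (nat_lit 93) (nat_lit 177) (nat_lit 6) (nat_lit 7) (nat_lit 9) (nat_lit 6) (nat_lit 7) (nat_lit 10) (by decide +kernel)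
theorem L124187 : W_45 (nat_lit 3) (nat_lit 0x10000000058003c001a000800068000000000000000000) (nat_lit 0x0) (nat_lit 0x200010000000000004001200000000000000000000000) := T_45 (nat_lit 110) (nat_lit 96) (nat_lit 2) (nat_lit 7) (nat_lit 6) L124186 (by decide +kernel)
theorem L124188 : W_45 (nat_lit 4) (nat_lit 0x58003c001a000800068000000000000000000) (nat_lit 0x0) (nat_lit 0x1200090000000000004001200000000000000000000000) := T_45 (nat_lit 180) (nat_lit 163) (nat_lit 4) (nat_lit 10) (nat_lit 10) L124187 (by decide +kernel)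
theorem L124189 : W_45 (nat_lit 5) (nat_lit 0x58003c0012000800068000000000000000000) (nat_lit 0x0) (nat_lit 0x120009000000000000c001200000002000000000000000) := T_45 (nat_lit 111) (nat_lit 61) (nat_lit 5) (nat_lit 10) (nat_lit 3) L124188 (by decide +kernel)
theorem L124190 : W_45 (nat_lit 2) (nat_lit 0x50003c0012000800060000000000000000000) (nat_lit 0x0) (nat_lit 0x1000080004000000000000000) := D_45 (nat_lit 79) (nat_lit 62) (nat_lit 96) (nat_lit 6) (nat_lit 10) (nat_lit 7) (nat_lit 6) (nat_lit 10) (nat_lit 8) (by decide +kernel)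
theorem L124191 : W_45 (nat_lit 14) (nat_lit 0x10003c0000000000060000000000000000000) (nat_lit 0x0) (nat_lit 0xcc0000000400fbc079e01ff000f0003800000) := Q_45 (nat_lit 76) (C_45 L123381 (C_45 L123413 (C_45 L123373 (C_45 L123391 (C_45 L123304 (C_45 L123398 (C_45 L123404 N_45))))))) (by decide +kernel)
theorem L124192 : W_45 (nat_lit 14) (nat_lit 0x10003c0000000000060000000000000000000) (nat_lit 0x0) (nat_lit 0xcc0000003400f3c079f01ff801f0003800000) := Q_45 (nat_lit 76) (C_45 L123391 (C_45 L123517 (C_45 L123435 (C_45 L123419 (C_45 L123459 (C_45 L123509 (C_45 L123468 (C_45 L123499 N_45)))))))) (by decide +kernel)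
theorem L124193 : W_45 (nat_lit 7) (nat_lit 0x10003c0000000000060000000000000000000) (nat_lit 0x0) (nat_lit 0xcc00000038000800080007000200000000000) := T_45 (nat_lit 143) (nat_lit 142) (nat_lit 1) (nat_lit 10) (nat_lit 7) L123591 (by decide +kernel)
theorem L124194 : W_45 (nat_lit 4) (nat_lit 0x18003c0010000000060000000000000000000) (nat_lit 0x0) (nat_lit 0x8000800080007000200000000000) := T_45 (nat_lit 95) (nat_lit 60) (nat_lit 4) (nat_lit 10) (nat_lit 7) L123593 (by decide +kernel)
theorem L124195 : W_45 (nat_lit 5) (nat_lit 0x18003c0000000000060000000000000000000) (nat_lit 0x0) (nat_lit 0x38000800080007000200000000000) := T_45 (nat_lit 112) (nat_lit 113) (nat_lit 2) (nat_lit 7) (nat_lit 7) L124194 (by decide +kernel)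
theorem L124196 : W_45 (nat_lit 6) (nat_lit 0x10003c0000000000060000000000000000000) (nat_lit 0x0) (nat_lit 0xc00000038000800080007000200000000000) := T_45 (nat_lit 143) (nat_lit 142) (nat_lit 1) (nat_lit 10) (nat_lit 7) L124195 (by decide +kernel)
theorem L124197 : W_45 (nat_lit 11) (nat_lit 0x10003c0000000000060000000000000000000) (nat_lit 0x0) (nat_lit 0xcc0000003c007bc019c01ef00100000000000) := Q_45 (nat_lit 76) (C_45 L123398 (C_45 L123531 (C_45 L123538 (C_45 L123526 (C_45 L123430 (C_45 L123468 N_45)))))) (by decide +kernel)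
theorem L124198 : W_45 (nat_lit 6) (nat_lit 0x58003c0012000000068000000000000000000) (nat_lit 0x0) (nat_lit 0x120009000000000000c001a00000003000000000000000) := T_45 (nat_lit 95) (nat_lit 60) (nat_lit 4) (nat_lit 10) (nat_lit 7) L124189 (by decide +kernel)
theorem L124199 : W_45 (nat_lit 7) (nat_lit 0x58003c0002000000068000000000000000000) (nat_lit 0x0) (nat_lit 0x120009000000000003c001a00000003000000000000000) := T_45 (nat_lit 112) (nat_lit 113) (nat_lit 2) (nat_lit 7) (nat_lit 7) L124198 (by decide +kernel)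
theorem L124200 : W_45 (nat_lit 8) (nat_lit 0x50003c0002000000068000000000000000000) (nat_lit 0x0) (nat_lit 0x1200090000c0000003c001a00000003000000000000000) := T_45 (nat_lit 143) (nat_lit 142) (nat_lit 1) (nat_lit 10) (nat_lit 7) L124199 (by decide +kernel)
theorem L124201 : W_45 (nat_lit 9) (nat_lit 0x50003c0000000000068000000000000000000) (nat_lit 0x0) (nat_lit 0x1200090000c0000003e001b00000003000000000000000) := T_45 (nat_lit 109) (nat_lit 92) (nat_lit 7) (nat_lit 7) (nat_lit 4) L124200 (by decide +kernel)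
theorem L124202 : W_45 (nat_lit 10) (nat_lit 0x10003c0000000000068000000000000000000) (nat_lit 0x0) (nat_lit 0x120009000cc0000003e001b00000003000000000000000) := T_45 (nat_lit 146) (nat_lit 147) (nat_lit 3) (nat_lit 7) (nat_lit 7) L124201 (by decide +kernel)
theorem L124203 : W_45 (nat_lit 2) (nat_lit 0x50003c0014000100078002200000000000000) (nat_lit 0x0) (nat_lit 0x4001100000000000000) := D_45 (nat_lit 74) (nat_lit 60) (nat_lit 56) (nat_lit 2) (nat_lit 6) (nat_lit 4) (nat_lit 0) (nat_lit 9) (nat_lit 4) (by decide +kernel)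
theorem L124204 : W_45 (nat_lit 3) (nat_lit 0x50003c0014000100078000200000000000000) (nat_lit 0x0) (nat_lit 0x4007100000000000000) := T_45 (nat_lit 61) (nat_lit 62) (nat_lit 2) (nat_lit 7) (nat_lit 4) L124203 (by decide +kernel)
theorem L124205 : W_45 (nat_lit 4) (nat_lit 0x50003c0014000100078000000000000000000) (nat_lit 0x0) (nat_lit 0x4007700000000000000) := T_45 (nat_lit 57) (nat_lit 58) (nat_lit 0) (nat_lit 10) (nat_lit 4) L124204 (by decide +kernel)
theorem L124206 : W_45 (nat_lit 5) (nat_lit 0x50003c0014000100068000000000000000000) (nat_lit 0x0) (nat_lit 0x80014007700000000000000) := T_45 (nat_lit 76) (nat_lit 91) (nat_lit 1) (nat_lit 10) (nat_lit 4) L124205 (by decide +kernel)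
theorem L124207 : W_45 (nat_lit 6) (nat_lit 0x50003c0010000100068000000000000000000) (nat_lit 0x0) (nat_lit 0x4000280014007700000000000000) := T_45 (nat_lit 110) (nat_lit 93) (nat_lit 4) (nat_lit 8) (nat_lit 8) L124206 (by decide +kernel)
theorem L124208 : W_45 (nat_lit 7) (nat_lit 0x50003c0010000000068000000000000000000) (nat_lit 0x0) (nat_lit 0x6000380014007700000000000000) := T_45 (nat_lit 92) (nat_lit 109) (nat_lit 7) (nat_lit 7) (nat_lit 4) L124207 (by decide +kernel)
theorem L124209 : W_45 (nat_lit 8) (nat_lit 0x10003c0010000000068000000000000000000) (nat_lit 0x0) (nat_lit 0xc000000006000380014007700000000000000) := T_45 (nat_lit 146) (nat_lit 147) (nat_lit 3) (nat_lit 7) (nat_lit 7) L124208 (by decide +kernel)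
theorem L124210 : W_45 (nat_lit 9) (nat_lit 0x10003c0000000000068000000000000000000) (nat_lit 0x0) (nat_lit 0xc000000036000380014007700000000000000) := T_45 (nat_lit 112) (nat_lit 113) (nat_lit 2) (nat_lit 7) (nat_lit 7) L124209 (by decide +kernel)
theorem L124211 : W_45 (nat_lit 2) (nat_lit 0x58003c0010000800078000000000000000000) (nat_lit 0x0) (nat_lit 0x2000180000000000000000000000) := D_45 (nat_lit 92) (nat_lit 91) (nat_lit 109) (nat_lit 1) (nat_lit 10) (nat_lit 4) (nat_lit 7) (nat_lit 7) (nat_lit 4) (by decide +kernel)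
theorem L124212 : W_45 (nat_lit 3) (nat_lit 0x58003c0010000800068000000000000000000) (nat_lit 0x0) (nat_lit 0x2001180010000000000000000000) := T_45 (nat_lit 76) (nat_lit 96) (nat_lit 3) (nat_lit 7) (nat_lit 4) L124211 (by decide +kernel)
theorem L124213 : W_45 (nat_lit 4) (nat_lit 0x58003c0010000000068000000000000000000) (nat_lit 0x0) (nat_lit 0x2001980010001000000000000000) := T_45 (nat_lit 95) (nat_lit 60) (nat_lit 4) (nat_lit 10) (nat_lit 7) L124212 (by decide +kernel)
theorem L124214 : W_45 (nat_lit 5) (nat_lit 0x18003c0010000000068000000000000000000) (nat_lit 0x0) (nat_lit 0xc000000002001980010001000000000000000) := T_45 (nat_lit 146) (nat_lit 147) (nat_lit 3) (nat_lit 7) (nat_lit 7) L124213 (by decide +kernel)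
theorem L124215 : W_45 (nat_lit 6) (nat_lit 0x18003c0000000000068000000000000000000) (nat_lit 0x0) (nat_lit 0xc000000032001980010001000000000000000) := T_45 (nat_lit 112) (nat_lit 113) (nat_lit 2) (nat_lit 7) (nat_lit 7) L124214 (by decide +kernel)
theorem L124216 : W_45 (nat_lit 7) (nat_lit 0x10003c0000000000068000000000000000000) (nat_lit 0x0) (nat_lit 0xcc00000032001980010001000000000000000) := T_45 (nat_lit 143) (nat_lit 142) (nat_lit 1) (nat_lit 10) (nat_lit 7) L124215 (by decide +kernel)
theorem L124217 : W_45 (nat_lit 14) (nat_lit 0x10003c0000000000060000000000000000000) (nat_lit 0x0) (nat_lit 0x120009000cc0000003e001bc001c007f000f0003800000) := Q_45 (nat_lit 75) (C_45 L123543 (C_45 L123564 (C_45 L123563 (C_45 L124202 (C_45 L124210 (C_45 L124216 N_45)))))) (by decide +kernel)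
theorem L124218 : W_45 (nat_lit 2) (nat_lit 0x58003c0018001800068000000000000000000) (nat_lit 0x0) (nat_lit 0x6000100000000000000000000000) := D_45 (nat_lit 109) (nat_lit 110) (nat_lit 92) (nat_lit 2) (nat_lit 7) (nat_lit 6) (nat_lit 7) (nat_lit 7) (nat_lit 4) (by decide +kernel)
theorem L124219 : W_45 (nat_lit 3) (nat_lit 0x58003c0018001800060000000000000000000) (nat_lit 0x0) (nat_lit 0x6000100018000000000000000000) := T_45 (nat_lit 75) (nat_lit 76) (nat_lit 3) (nat_lit 7) (nat_lit 4) L124218 (by decide +kernel)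
theorem L124220 : W_45 (nat_lit 4) (nat_lit 0x58003c0018000800060000000000000000000) (nat_lit 0x0) (nat_lit 0x6001100098000000000000000000) := T_45 (nat_lit 96) (nat_lit 79) (nat_lit 6) (nat_lit 10) (nat_lit 8) L124219 (by decide +kernel)
theorem L124221 : W_45 (nat_lit 5) (nat_lit 0x58003c0010000800060000000000000000000) (nat_lit 0x0) (nat_lit 0xe001100098002000000000000000) := T_45 (nat_lit 111) (nat_lit 61) (nat_lit 5) (nat_lit 10) (nat_lit 3) L124220 (by decide +kernel)
theorem L124222 : W_45 (nat_lit 6) (nat_lit 0x58003c0010000000060000000000000000000) (nat_lit 0x0) (nat_lit 0xe001900098003000000000000000) := T_45 (nat_lit 95) (nat_lit 60) (nat_lit 4) (nat_lit 10) (nat_lit 7) L124221 (by decide +kernel)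
theorem L124223 : W_45 (nat_lit 7) (nat_lit 0x58003c0000000000060000000000000000000) (nat_lit 0x0) (nat_lit 0x3e001900098003000000000000000) := T_45 (nat_lit 112) (nat_lit 113) (nat_lit 2) (nat_lit 7) (nat_lit 7) L124222 (by decide +kernel)
theorem L124224 : W_45 (nat_lit 8) (nat_lit 0x18003c0000000000060000000000000000000) (nat_lit 0x0) (nat_lit 0xc00000003e001900098003000000000000000) := T_45 (nat_lit 146) (nat_lit 147) (nat_lit 3) (nat_lit 7) (nat_lit 7) L124223 (by decide +kernel)
theorem L124225 : W_45 (nat_lit 9) (nat_lit 0x10003c0000000000060000000000000000000) (nat_lit 0x0) (nat_lit 0xcc0000003e001900098003000000000000000) := T_45 (nat_lit 143) (nat_lit 142) (nat_lit 1) (nat_lit 10) (nat_lit 7) L124224 (by decide +kernel)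
theorem L124226 : W_45 (nat_lit 15) (nat_lit 0x10003c0000000000020000000000000000000) (nat_lit 0x0) (nat_lit 0x120009000cc0000003e00fbc07df01ff803f0003800000) := Q_45 (nat_lit 78) (C_45 L123542 (C_45 L124191 (C_45 L124192 (C_45 L124193 (C_45 L124196 (C_45 L124197 (C_45 L124217 (C_45 L124225 N_45)))))))) (by decide +kernel)
theorem L124227 : W_45 (nat_lit 2) (nat_lit 0x58003c0012000700020000000000000000000) (nat_lit 0x0) (nat_lit 0x80044000000000000000000) := D_45 (nat_lit 91) (nat_lit 78) (nat_lit 74) (nat_lit 2) (nat_lit 6) (nat_lit 5) (nat_lit 4) (nat_lit 7) (nat_lit 8) (by decide +kernel)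
theorem L124228 : W_45 (nat_lit 3) (nat_lit 0x58003c0010000700020000000000000000000) (nat_lit 0x0) (nat_lit 0x200008004c000000000000000000) := T_45 (nat_lit 109) (nat_lit 75) (nat_lit 7) (nat_lit 7) (nat_lit 4) L124227 (by decide +kernel)
theorem L124229 : W_45 (nat_lit 4) (nat_lit 0x58003c0000000700020000000000000000000) (nat_lit 0x0) (nat_lit 0x3200008004c000000000000000000) := T_45 (nat_lit 112) (nat_lit 113) (nat_lit 2) (nat_lit 7) (nat_lit 7) L124228 (by decide +kernel)
theorem L124230 : W_45 (nat_lit 5) (nat_lit 0x58003c0000000300020000000000000000000) (nat_lit 0x0) (nat_lit 0x3a00048004c000000000000000000) := T_45 (nat_lit 94) (nat_lit 111) (nat_lit 7) (nat_lit 9) (nat_lit 4) L124229 (by decide +kernel)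
theorem L124231 : W_45 (nat_lit 6) (nat_lit 0x50003c0000000300020000000000000000000) (nat_lit 0x0) (nat_lit 0xc0000003a00048004c000000000000000000) := T_45 (nat_lit 143) (nat_lit 142) (nat_lit 1) (nat_lit 10) (nat_lit 7) L124230 (by decide +kernel)
theorem L124232 : W_45 (nat_lit 7) (nat_lit 0x10003c0000000300020000000000000000000) (nat_lit 0x0) (nat_lit 0xcc0000003a00048004c000000000000000000) := T_45 (nat_lit 146) (nat_lit 147) (nat_lit 3) (nat_lit 7) (nat_lit 7) L124231 (by decide +kernel)
theorem L124233 : W_45 (nat_lit 8) (nat_lit 0x10003c0000000200020000000000000000000) (nat_lit 0x0) (nat_lit 0xcc0000003a0005c005f000000000000000000) := Q_45 (nat_lit 92) (C_45 L124168 (C_45 L124170 (C_45 L124232 N_45))) (by decide +kernel)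
theorem L124234 : W_45 (nat_lit 9) (nat_lit 0x10003c0000000000020000000000000000000) (nat_lit 0x0) (nat_lit 0x1000cc0000003e0007c005f000000000000000000) := Q_45 (nat_lit 93) (C_45 L124233 (C_45 L124163 (C_45 L123549 N_45))) (by decide +kernel)
theorem L124235 : W_45 (nat_lit 2) (nat_lit 0x10003c0010000c00020000000000000000000) (nat_lit 0x0) (nat_lit 0x40001000080000000000) := D_45 (nat_lit 60) (nat_lit 78) (nat_lit 43) (nat_lit 4) (nat_lit 10) (nat_lit 7) (nat_lit 7) (nat_lit 9) (nat_lit 2) (by decide +kernel)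
theorem L124236 : W_45 (nat_lit 3) (nat_lit 0x10003c0010000400020000000000000000000) (nat_lit 0x0) (nat_lit 0x4000000000000800040001000080000000000) := T_45 (nat_lit 95) (nat_lit 146) (nat_lit 4) (nat_lit 10) (nat_lit 8) L124235 (by decide +kernel)
theorem L124237 : W_45 (nat_lit 4) (nat_lit 0x10003c0010000000020000000000000000000) (nat_lit 0x0) (nat_lit 0x4000000008000c00040001000080000000000) := T_45 (nat_lit 94) (nat_lit 111) (nat_lit 5) (nat_lit 9) (nat_lit 4) L124236 (by decide +kernel)
theorem L124238 : W_45 (nat_lit 5) (nat_lit 0x10003c0000000000020000000000000000000) (nat_lit 0x0) (nat_lit 0x4000000038000c00040001000080000000000) := T_45 (nat_lit 112) (nat_lit 113) (nat_lit 2) (nat_lit 7) (nat_lit 7) L124237 (by decide +kernel)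
theorem L124239 : W_45 (nat_lit 2) (nat_lit 0x10003c00000007c0020000000000000000000) (nat_lit 0x0) (nat_lit 0x7000000000000000000) := D_45 (nat_lit 73) (nat_lit 74) (nat_lit 72) (nat_lit 0) (nat_lit 9) (nat_lit 5) (nat_lit 0) (nat_lit 8) (nat_lit 5) (by decide +kernel)
theorem L124240 : W_45 (nat_lit 3) (nat_lit 0x10003c0000000780020000000000000000000) (nat_lit 0x0) (nat_lit 0x40017000000000000000000) := T_45 (nat_lit 90) (nat_lit 76) (nat_lit 2) (nat_lit 5) (nat_lit 5) L124239 (by decide +kernel)
theorem L124241 : W_45 (nat_lit 4) (nat_lit 0x10003c0000000700020000000000000000000) (nat_lit 0x0) (nat_lit 0xc0057000000000000000000) := T_45 (nat_lit 91) (nat_lit 78) (nat_lit 2) (nat_lit 6) (nat_lit 5) L124240 (by decide +kernel)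
theorem L124242 : W_45 (nat_lit 5) (nat_lit 0x10003c0000000300020000000000000000000) (nat_lit 0x0) (nat_lit 0x80004c0057000000000000000000) := T_45 (nat_lit 94) (nat_lit 111) (nat_lit 5) (nat_lit 9) (nat_lit 4) L124241 (by decide +kernel)
theorem L124243 : W_45 (nat_lit 6) (nat_lit 0x10003c0000000200020000000000000000000) (nat_lit 0x0) (nat_lit 0xc0000000a000dc005f000000000000000000) := Q_45 (nat_lit 92) (C_45 L124170 (C_45 L124167 (C_45 L124242 N_45))) (by decide +kernel)
theorem L124244 : W_45 (nat_lit 7) (nat_lit 0x10003c0000000000020000000000000000000) (nat_lit 0x0) (nat_lit 0x10000c0000003e000fc005f000000000000000000) := Q_45 (nat_lit 93) (C_45 L124243 (C_45 L124163 (C_45 L123546 N_45))) (by decide +kernel)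
theorem L124245 : W_45 (nat_lit 16) (nat_lit 0x10003c0000000000000000000000000000000) (nat_lit 0x0) (nat_lit 0x120009000cc0000003e00ffc07ff01ff803f0003800000) := Q_45 (nat_lit 77) (C_45 L124172 (C_45 L124175 (C_45 L124179 (C_45 L124181 (C_45 L124226 (C_45 L124234 (C_45 L124238 (C_45 L124244 N_45)))))))) (by decide +kernel)
theorem L124246 : W_45 (nat_lit 17) (nat_lit 0x10001c0000000000000000000000000000000) (nat_lit 0x0) (nat_lit 0x120009001cc0060007e00ffc07ff01ff803f0003800000) := Q_45 (nat_lit 129) (C_45 L123277 (C_45 L122841 (C_45 L124245 N_45))) (by decide +kernel)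
theorem L124247 : W_45 (nat_lit 2) (nat_lit 0x58003c0012000780000000000000000000000) (nat_lit 0x0) (nat_lit 0x800060000000000000000000) := D_45 (nat_lit 77) (nat_lit 78) (nat_lit 95) (nat_lit 2) (nat_lit 6) (nat_lit 5) (nat_lit 4) (nat_lit 10) (nat_lit 8) (by decide +kernel)
theorem L124248 : W_45 (nat_lit 3) (nat_lit 0x58003c0012000380000000000000000000000) (nat_lit 0x0) (nat_lit 0x8000c00060000000000000000000) := T_45 (nat_lit 94) (nat_lit 111) (nat_lit 3) (nat_lit 6) (nat_lit 5) L124247 (by decide +kernel)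
theorem L124249 : W_45 (nat_lit 4) (nat_lit 0x58003c0012000300000000000000000000000) (nat_lit 0x0) (nat_lit 0x8000c80064000000000000000000) := T_45 (nat_lit 91) (nat_lit 74) (nat_lit 4) (nat_lit 7) (nat_lit 8) L124248 (by decide +kernel)
theorem L124250 : W_45 (nat_lit 5) (nat_lit 0x58003c0012000100000000000000000000000) (nat_lit 0x0) (nat_lit 0x8000e80074000000000000000000) := T_45 (nat_lit 93) (nat_lit 76) (nat_lit 6) (nat_lit 7) (nat_lit 8) L124249 (by decide +kernel)
theorem L124251 : W_45 (nat_lit 6) (nat_lit 0x50003c0012000100000000000000000000000) (nat_lit 0x0) (nat_lit 0xc00000008000e80074000000000000000000) := T_45 (nat_lit 143) (nat_lit 142) (nat_lit 1) (nat_lit 10) (nat_lit 7) L124250 (by decide +kernel)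
theorem L124252 : W_45 (nat_lit 7) (nat_lit 0x50003c0002000100000000000000000000000) (nat_lit 0x0) (nat_lit 0xc00000038000e80074000000000000000000) := T_45 (nat_lit 112) (nat_lit 113) (nat_lit 2) (nat_lit 7) (nat_lit 7) L124251 (by decide +kernel)
theorem L124253 : W_45 (nat_lit 8) (nat_lit 0x50003c0002000000000000000000000000000) (nat_lit 0x0) (nat_lit 0xc00000038000f8007c000000000000000000) := T_45 (nat_lit 92) (nat_lit 75) (nat_lit 7) (nat_lit 7) (nat_lit 4) L124252 (by decide +kernel)
theorem L124254 : W_45 (nat_lit 9) (nat_lit 0x10003c0002000000000000000000000000000) (nat_lit 0x0) (nat_lit 0xcc00000038000f8007c000000000000000000) := T_45 (nat_lit 146) (nat_lit 147) (nat_lit 3) (nat_lit 7) (nat_lit 7) L124253 (by decide +kernel)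
theorem L124255 : W_45 (nat_lit 10) (nat_lit 0x10003c0000000000000000000000000000000) (nat_lit 0x0) (nat_lit 0xcc0000003b000f8007c000000000000000000) := T_45 (nat_lit 109) (nat_lit 108) (nat_lit 0) (nat_lit 10) (nat_lit 7) L124254 (by decide +kernel)
theorem L124256 : W_45 (nat_lit 11) (nat_lit 0x10001c0000000000000000000000000000000) (nat_lit 0x0) (nat_lit 0x1cc0060007b000f8007c000000000000000000) := Q_45 (nat_lit 129) (C_45 L123277 (C_45 L122841 (C_45 L124255 N_45))) (by decide +kernel)
theorem L124257 : W_45 (nat_lit 6) (nat_lit 0x10003c0012000100000000000000000000000) (nat_lit 0x0) (nat_lit 0x40000c001c80060003000000000000000) := T_45 (nat_lit 110) (nat_lit 130) (nat_lit 0) (nat_lit 11) (nat_lit 7) L123736 (by decide +kernel)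
theorem L124258 : W_45 (nat_lit 7) (nat_lit 0x10003c0012000000000000000000000000000) (nat_lit 0x0) (nat_lit 0x40000c001d80068003000000000000000) := T_45 (nat_lit 92) (nat_lit 75) (nat_lit 7) (nat_lit 7) (nat_lit 4) L124257 (by decide +kernel)
theorem L124259 : W_45 (nat_lit 8) (nat_lit 0x10003c0002000000000000000000000000000) (nat_lit 0x0) (nat_lit 0x40003c001d80068003000000000000000) := T_45 (nat_lit 112) (nat_lit 113) (nat_lit 2) (nat_lit 7) (nat_lit 7) L124258 (by decide +kernel)
theorem L124260 : W_45 (nat_lit 9) (nat_lit 0x10003c0000000000000000000000000000000) (nat_lit 0x0) (nat_lit 0x40003f001d80068003000000000000000) := T_45 (nat_lit 109) (nat_lit 108) (nat_lit 0) (nat_lit 10) (nat_lit 7) L124259 (by decide +kernel)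
theorem L124261 : W_45 (nat_lit 2) (nat_lit 0x50003c00020007c0020000000000000000000) (nat_lit 0x0) (nat_lit 0x7000000000000000000) := D_45 (nat_lit 73) (nat_lit 74) (nat_lit 72) (nat_lit 0) (nat_lit 9) (nat_lit 5) (nat_lit 0) (nat_lit 8) (nat_lit 5) (by decide +kernel)
theorem L124262 : W_45 (nat_lit 3) (nat_lit 0x50003c0002000780020000000000000000000) (nat_lit 0x0) (nat_lit 0x40017000000000000000000) := T_45 (nat_lit 90) (nat_lit 76) (nat_lit 2) (nat_lit 5) (nat_lit 5) L124261 (by decide +kernel)
theorem L124263 : W_45 (nat_lit 4) (nat_lit 0x50003c0002000700020000000000000000000) (nat_lit 0x0) (nat_lit 0xc0057000000000000000000) := T_45 (nat_lit 91) (nat_lit 78) (nat_lit 2) (nat_lit 6) (nat_lit 5) L124262 (by decide +kernel)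
theorem L124264 : W_45 (nat_lit 5) (nat_lit 0x50003c0002000600020000000000000000000) (nat_lit 0x0) (nat_lit 0x1c005f000000000000000000) := T_45 (nat_lit 92) (nat_lit 75) (nat_lit 7) (nat_lit 7) (nat_lit 4) L124263 (by decide +kernel)
theorem L124265 : W_45 (nat_lit 6) (nat_lit 0x50003c0000000600020000000000000000000) (nat_lit 0x0) (nat_lit 0x30001c005f000000000000000000) := T_45 (nat_lit 109) (nat_lit 108) (nat_lit 0) (nat_lit 10) (nat_lit 7) L124264 (by decide +kernel)
theorem L124266 : W_45 (nat_lit 7) (nat_lit 0x50003c0000000400020000000000000000000) (nat_lit 0x0) (nat_lit 0x70003c005f000000000000000000) := T_45 (nat_lit 93) (nat_lit 110) (nat_lit 6) (nat_lit 8) (nat_lit 8) L124265 (by decide +kernel)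
theorem L124267 : W_45 (nat_lit 8) (nat_lit 0x10003c0000000400020000000000000000000) (nat_lit 0x0) (nat_lit 0xc0000000070003c005f000000000000000000) := T_45 (nat_lit 146) (nat_lit 147) (nat_lit 3) (nat_lit 7) (nat_lit 7) L124266 (by decide +kernel)
theorem L124268 : W_45 (nat_lit 9) (nat_lit 0x10003c0000000000020000000000000000000) (nat_lit 0x0) (nat_lit 0xc00000000f0007c005f000000000000000000) := T_45 (nat_lit 94) (nat_lit 111) (nat_lit 5) (nat_lit 9) (nat_lit 4) L124267 (by decide +kernel)
theorem L124269 : W_45 (nat_lit 3) (nat_lit 0x50003c0012000800020000000000000000000) (nat_lit 0x0) (nat_lit 0x10000c0005000000000000000) := T_45 (nat_lit 78) (nat_lit 60) (nat_lit 4) (nat_lit 10) (nat_lit 7) L124190 (by decide +kernel)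
theorem L124270 : W_45 (nat_lit 4) (nat_lit 0x50003c0012000000020000000000000000000) (nat_lit 0x0) (nat_lit 0x1c000c0005000000000000000) := T_45 (nat_lit 95) (nat_lit 94) (nat_lit 4) (nat_lit 10) (nat_lit 8) L124269 (by decide +kernel)
theorem L124271 : W_45 (nat_lit 5) (nat_lit 0x50003c0010000000020000000000000000000) (nat_lit 0x0) (nat_lit 0x3001c000c0005000000000000000) := T_45 (nat_lit 109) (nat_lit 108) (nat_lit 0) (nat_lit 10) (nat_lit 7) L124270 (by decide +kernel)
theorem L124272 : W_45 (nat_lit 6) (nat_lit 0x10003c0010000000020000000000000000000) (nat_lit 0x0) (nat_lit 0xc000000003001c000c0005000000000000000) := T_45 (nat_lit 146) (nat_lit 147) (nat_lit 3) (nat_lit 7) (nat_lit 7) L124271 (by decide +kernel)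
theorem L124273 : W_45 (nat_lit 7) (nat_lit 0x10003c0000000000020000000000000000000) (nat_lit 0x0) (nat_lit 0xc000000033001c000c0005000000000000000) := T_45 (nat_lit 112) (nat_lit 113) (nat_lit 2) (nat_lit 7) (nat_lit 7) L124272 (by decide +kernel)
theorem L124274 : W_45 (nat_lit 2) (nat_lit 0x10003c0000000000028000000000000000000) (nat_lit 0x0) (nat_lit 0x3000100000000000000000000000) := D_45 (nat_lit 109) (nat_lit 108) (nat_lit 92) (nat_lit 0) (nat_lit 10) (nat_lit 7) (nat_lit 7) (nat_lit 7) (nat_lit 4) (by decide +kernel)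
theorem L124275 : W_45 (nat_lit 8) (nat_lit 0x10003c0000000000038000000000000000000) (nat_lit 0x0) (nat_lit 0xc0000000300038e00c600f380000000000000) := Q_45 (nat_lit 78) (C_45 L123584 (C_45 L123580 (C_45 L123551 N_45))) (by decide +kernel)
theorem L124276 : W_45 (nat_lit 2) (nat_lit 0x50003c000200108007c004200000000000000) (nat_lit 0x0) (nat_lit 0x2000080008000000000000000) := D_45 (nat_lit 79) (nat_lit 63) (nat_lit 97) (nat_lit 2) (nat_lit 8) (nat_lit 4) (nat_lit 3) (nat_lit 8) (nat_lit 4) (by decide +kernel)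
theorem L124277 : W_45 (nat_lit 3) (nat_lit 0x50003c000200008007c004200000000000000) (nat_lit 0x0) (nat_lit 0x3800080008000000000000000) := T_45 (nat_lit 96) (nat_lit 95) (nat_lit 3) (nat_lit 7) (nat_lit 4) L124276 (by decide +kernel)
theorem L124278 : W_45 (nat_lit 4) (nat_lit 0x50003c000200008007c000200000000000000) (nat_lit 0x0) (nat_lit 0x380008000e000000000000000) := T_45 (nat_lit 62) (nat_lit 61) (nat_lit 2) (nat_lit 7) (nat_lit 4) L124277 (by decide +kernel)
theorem L124279 : W_45 (nat_lit 5) (nat_lit 0x50003c000200008003c000200000000000000) (nat_lit 0x0) (nat_lit 0x38000c000e400000000000000) := T_45 (nat_lit 78) (nat_lit 58) (nat_lit 0) (nat_lit 10) (nat_lit 4) L124278 (by decide +kernel)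
theorem L124280 : W_45 (nat_lit 6) (nat_lit 0x10003c000200008003c000200000000000000) (nat_lit 0x0) (nat_lit 0xc0000000000038000c000e400000000000000) := T_45 (nat_lit 146) (nat_lit 147) (nat_lit 3) (nat_lit 7) (nat_lit 7) L124279 (by decide +kernel)
theorem L124281 : W_45 (nat_lit 7) (nat_lit 0x10003c000200008003c000000000000000000) (nat_lit 0x0) (nat_lit 0xc0000000000038000c000e700000000000000) := T_45 (nat_lit 57) (nat_lit 56) (nat_lit 0) (nat_lit 9) (nat_lit 4) L124280 (by decide +kernel)
theorem L124282 : W_45 (nat_lit 8) (nat_lit 0x10003c000200000003c000000000000000000) (nat_lit 0x0) (nat_lit 0xc0000000000038c00c000e700000000000000) := T_45 (nat_lit 91) (nat_lit 90) (nat_lit 1) (nat_lit 9) (nat_lit 4) L124281 (by decide +kernel)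
theorem L124283 : W_45 (nat_lit 9) (nat_lit 0x10003c000000000003c000000000000000000) (nat_lit 0x0) (nat_lit 0xc0000000030038c00c000e700000000000000) := T_45 (nat_lit 109) (nat_lit 108) (nat_lit 0) (nat_lit 10) (nat_lit 7) L124282 (by decide +kernel)
theorem L124284 : W_45 (nat_lit 2) (nat_lit 0x50003c000200004003e000600000000000000) (nat_lit 0x0) (nat_lit 0x1001800000000000000) := D_45 (nat_lit 59) (nat_lit 60) (nat_lit 72) (nat_lit 2) (nat_lit 5) (nat_lit 4) (nat_lit 2) (nat_lit 4) (nat_lit 4) (by decide +kernel)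
theorem L124285 : W_45 (nat_lit 3) (nat_lit 0x50003c000200004003c000600000000000000) (nat_lit 0x0) (nat_lit 0x20003001800000000000000) := T_45 (nat_lit 73) (nat_lit 89) (nat_lit 1) (nat_lit 8) (nat_lit 4) L124284 (by decide +kernel)
theorem L124286 : W_45 (nat_lit 4) (nat_lit 0x10003c000200004003c000600000000000000) (nat_lit 0x0) (nat_lit 0xc000000000000020003001800000000000000) := T_45 (nat_lit 146) (nat_lit 147) (nat_lit 3) (nat_lit 7) (nat_lit 7) L124285 (by decide +kernel)
theorem L124287 : W_45 (nat_lit 5) (nat_lit 0x10003c000200000003c000600000000000000) (nat_lit 0x0) (nat_lit 0xc0000000000000e0003001800000000000000) := T_45 (nat_lit 90) (nat_lit 91) (nat_lit 1) (nat_lit 9) (nat_lit 4) L124286 (by decide +kernel)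
theorem L124288 : W_45 (nat_lit 6) (nat_lit 0x10003c000200000003c000200000000000000) (nat_lit 0x0) (nat_lit 0xc0000000000000e0043001c00000000000000) := T_45 (nat_lit 58) (nat_lit 78) (nat_lit 0) (nat_lit 10) (nat_lit 4) L124287 (by decide +kernel)
theorem L124289 : W_45 (nat_lit 7) (nat_lit 0x10003c000000000003c000200000000000000) (nat_lit 0x0) (nat_lit 0xc0000000030000e0043001c00000000000000) := T_45 (nat_lit 109) (nat_lit 108) (nat_lit 0) (nat_lit 10) (nat_lit 7) L124288 (by decide +kernel)
theorem L124290 : W_45 (nat_lit 8) (nat_lit 0x10003c000000000003c000000000000000000) (nat_lit 0x0) (nat_lit 0xc0000000030000e0043001f00000000000000) := T_45 (nat_lit 57) (nat_lit 56) (nat_lit 0) (nat_lit 9) (nat_lit 4) L124289 (by decide +kernel)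
theorem L124291 : W_45 (nat_lit 10) (nat_lit 0x10003c0000000000038000000000000000000) (nat_lit 0x0) (nat_lit 0xc0000000030038e00c700ff80000000000000) := Q_45 (nat_lit 74) (C_45 L123331 (C_45 L124283 (C_45 L123328 (C_45 L124290 N_45)))) (by decide +kernel)
theorem L124292 : W_45 (nat_lit 2) (nat_lit 0x50003c001200028003c001600180000000000) (nat_lit 0x0) (nat_lit 0x60001000000) := D_45 (nat_lit 41) (nat_lit 24) (nat_lit 42) (nat_lit 7) (nat_lit 7) (nat_lit 1) (nat_lit 1) (nat_lit 10) (nat_lit 2) (by decide +kernel)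
theorem L124293 : W_45 (nat_lit 3) (nat_lit 0x50003c001200028003c001600080000000000) (nat_lit 0x0) (nat_lit 0x800160001000000) := T_45 (nat_lit 44) (nat_lit 59) (nat_lit 2) (nat_lit 6) (nat_lit 3) L124292 (by decide +kernel)
theorem L124294 : W_45 (nat_lit 4) (nat_lit 0x50003c001200028003c001200080000000000) (nat_lit 0x0) (nat_lit 0x40000c00160001000000) := T_45 (nat_lit 58) (nat_lit 78) (nat_lit 0) (nat_lit 10) (nat_lit 4) L124293 (by decide +kernel)
theorem L124295 : W_45 (nat_lit 5) (nat_lit 0x50003c001200028003c001000080000000000) (nat_lit 0x0) (nat_lit 0x40000f00160001000000) := T_45 (nat_lit 57) (nat_lit 56) (nat_lit 0) (nat_lit 9) (nat_lit 4) L124294 (by decide +kernel)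
theorem L124296 : W_45 (nat_lit 6) (nat_lit 0x50003c000200028003c001000080000000000) (nat_lit 0x0) (nat_lit 0x30000000040000f00160001000000) := T_45 (nat_lit 112) (nat_lit 113) (nat_lit 2) (nat_lit 7) (nat_lit 7) L124295 (by decide +kernel)
theorem L124297 : W_45 (nat_lit 7) (nat_lit 0x50003c000200028003c001000000000000000) (nat_lit 0x0) (nat_lit 0x30000000040000f001e0005000000) := T_45 (nat_lit 43) (nat_lit 26) (nat_lit 5) (nat_lit 9) (nat_lit 1) L124296 (by decide +kernel)
theorem L124298 : W_45 (nat_lit 8) (nat_lit 0x10003c000200028003c001000000000000000) (nat_lit 0x0) (nat_lit 0xc000000030000000040000f001e0005000000) := T_45 (nat_lit 146) (nat_lit 147) (nat_lit 3) (nat_lit 7) (nat_lit 7) L124297 (by decide +kernel)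
theorem L124299 : W_45 (nat_lit 9) (nat_lit 0x10003c000200008003c001000000000000000) (nat_lit 0x0) (nat_lit 0xc000000034000200040000f001e0005000000) := T_45 (nat_lit 93) (nat_lit 110) (nat_lit 6) (nat_lit 8) (nat_lit 7) L124298 (by decide +kernel)
theorem L124300 : W_45 (nat_lit 10) (nat_lit 0x10003c000000008003c001000000000000000) (nat_lit 0x0) (nat_lit 0xc000000037000200040000f001e0005000000) := T_45 (nat_lit 109) (nat_lit 108) (nat_lit 0) (nat_lit 10) (nat_lit 7) L124299 (by decide +kernel)
theorem L124301 : W_45 (nat_lit 11) (nat_lit 0x10003c000000008003c000000000000000000) (nat_lit 0x0) (nat_lit 0xc000000037000200040003f001e0005000000) := T_45 (nat_lit 60) (nat_lit 61) (nat_lit 2) (nat_lit 6) (nat_lit 4) L124300 (by decide +kernel)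
theorem L124302 : W_45 (nat_lit 12) (nat_lit 0x10003c000000000003c000000000000000000) (nat_lit 0x0) (nat_lit 0xc0000000370002c0040003f001e0005000000) := T_45 (nat_lit 91) (nat_lit 90) (nat_lit 1) (nat_lit 9) (nat_lit 4) L124301 (by decide +kernel)
theorem L124303 : W_45 (nat_lit 13) (nat_lit 0x10003c0000000000038000000000000000000) (nat_lit 0x0) (nat_lit 0xc0000000370002e0047003f801e0005000000) := Q_45 (nat_lit 74) (C_45 L124290 (C_45 L124185 (C_45 L123331 (C_45 L123522 (C_45 L124302 N_45))))) (by decide +kernel)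
theorem L124304 : W_45 (nat_lit 2) (nat_lit 0x50003c00160020001f8012400000000000000) (nat_lit 0x0) (nat_lit 0x200021000000000000000) := D_45 (nat_lit 81) (nat_lit 60) (nat_lit 65) (nat_lit 0) (nat_lit 13) (nat_lit 4) (nat_lit 2) (nat_lit 10) (nat_lit 4) (by decide +kernel)
theorem L124305 : W_45 (nat_lit 3) (nat_lit 0x50003c00160020001f8002400000000000000) (nat_lit 0x0) (nat_lit 0x200039000000000000000) := T_45 (nat_lit 64) (nat_lit 63) (nat_lit 2) (nat_lit 9) (nat_lit 4) L124304 (by decide +kernel)
theorem L124306 : W_45 (nat_lit 4) (nat_lit 0x50003c00160020000f8002400000000000000) (nat_lit 0x0) (nat_lit 0x4000300039000000000000000) := T_45 (nat_lit 80) (nat_lit 98) (nat_lit 3) (nat_lit 9) (nat_lit 4) L124305 (by decide +kernel)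
theorem L124307 : W_45 (nat_lit 5) (nat_lit 0x50003c00160000000f8002400000000000000) (nat_lit 0x0) (nat_lit 0x7000300039000000000000000) := T_45 (nat_lit 97) (nat_lit 96) (nat_lit 3) (nat_lit 8) (nat_lit 4) L124306 (by decide +kernel)
theorem L124308 : W_45 (nat_lit 6) (nat_lit 0x50003c00140000000f8002400000000000000) (nat_lit 0x0) (nat_lit 0x3007000300039000000000000000) := T_45 (nat_lit 109) (nat_lit 108) (nat_lit 0) (nat_lit 10) (nat_lit 7) L124307 (by decide +kernel)
theorem L124309 : W_45 (nat_lit 7) (nat_lit 0x50003c0014000000078002400000000000000) (nat_lit 0x0) (nat_lit 0x3007000380039800000000000000) := T_45 (nat_lit 79) (nat_lit 59) (nat_lit 0) (nat_lit 11) (nat_lit 4) L124308 (by decide +kernel)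
theorem L124310 : W_45 (nat_lit 8) (nat_lit 0x50003c0010000000078002400000000000000) (nat_lit 0x0) (nat_lit 0x7007200380039800000000000000) := T_45 (nat_lit 110) (nat_lit 93) (nat_lit 4) (nat_lit 8) (nat_lit 7) L124309 (by decide +kernel)
theorem L124311 : W_45 (nat_lit 9) (nat_lit 0x10003c0010000000078002400000000000000) (nat_lit 0x0) (nat_lit 0xc000000007007200380039800000000000000) := T_45 (nat_lit 146) (nat_lit 147) (nat_lit 3) (nat_lit 7) (nat_lit 7) L124310 (by decide +kernel)
theorem L124312 : W_45 (nat_lit 10) (nat_lit 0x10003c0010000000078002000000000000000) (nat_lit 0x0) (nat_lit 0xc000000007007200380039e00000000000000) := T_45 (nat_lit 58) (nat_lit 57) (nat_lit 0) (nat_lit 10) (nat_lit 4) L124311 (by decide +kernel)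
theorem L124313 : W_45 (nat_lit 11) (nat_lit 0x10003c0010000000078000000000000000000) (nat_lit 0x0) (nat_lit 0xc00000000700720038003fe00000000000000) := T_45 (nat_lit 61) (nat_lit 62) (nat_lit 2) (nat_lit 7) (nat_lit 4) L124312 (by decide +kernel)
theorem L124314 : W_45 (nat_lit 12) (nat_lit 0x10003c0000000000078000000000000000000) (nat_lit 0x0) (nat_lit 0xc00000003700720038003fe00000000000000) := T_45 (nat_lit 112) (nat_lit 113) (nat_lit 2) (nat_lit 7) (nat_lit 7) L124313 (by decide +kernel)
theorem L124315 : W_45 (nat_lit 2) (nat_lit 0x10003c0014000800078000400000000000000) (nat_lit 0x0) (nat_lit 0x80004800000000000000) := D_45 (nat_lit 79) (nat_lit 59) (nat_lit 62) (nat_lit 0) (nat_lit 11) (nat_lit 4) (nat_lit 6) (nat_lit 10) (nat_lit 7) (by decide +kernel)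
theorem L124316 : W_45 (nat_lit 3) (nat_lit 0x10003c0014000000078000400000000000000) (nat_lit 0x0) (nat_lit 0x800080005800000000000000) := T_45 (nat_lit 95) (nat_lit 60) (nat_lit 4) (nat_lit 10) (nat_lit 7) L124315 (by decide +kernel)
theorem L124317 : W_45 (nat_lit 4) (nat_lit 0x10003c0010000000078000400000000000000) (nat_lit 0x0) (nat_lit 0x4000a00080005800000000000000) := T_45 (nat_lit 110) (nat_lit 93) (nat_lit 4) (nat_lit 8) (nat_lit 7) L124316 (by decide +kernel)
theorem L124318 : W_45 (nat_lit 5) (nat_lit 0x10003c0000000000078000400000000000000) (nat_lit 0x0) (nat_lit 0x34000a00080005800000000000000) := T_45 (nat_lit 112) (nat_lit 113) (nat_lit 2) (nat_lit 7) (nat_lit 7) L124317 (by decide +kernel)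
theorem L124319 : W_45 (nat_lit 6) (nat_lit 0x10003c0000000000078000000000000000000) (nat_lit 0x0) (nat_lit 0x34000a00080005e00000000000000) := T_45 (nat_lit 58) (nat_lit 57) (nat_lit 0) (nat_lit 10) (nat_lit 4) L124318 (by decide +kernel)
theorem L124320 : W_45 (nat_lit 13) (nat_lit 0x10003c0000000000038000000000000000000) (nat_lit 0x0) (nat_lit 0xc000000037007a003c003fe00000000000000) := Q_45 (nat_lit 78) (C_45 L123584 (C_45 L124314 (C_45 L124319 (C_45 L123551 N_45)))) (by decide +kernel)
theorem L124321 : W_45 (nat_lit 2) (nat_lit 0x10003c00120000000f8004000000000000000) (nat_lit 0x0) (nat_lit 0xe00000000000000) := D_45 (nat_lit 58) (nat_lit 59) (nat_lit 57) (nat_lit 0) (nat_lit 11) (nat_lit 4) (nat_lit 0) (nat_lit 10) (nat_lit 4) (by decide +kernel)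
theorem L124322 : W_45 (nat_lit 3) (nat_lit 0x10003c0012000000078004000000000000000) (nat_lit 0x0) (nat_lit 0x80008e00000000000000) := T_45 (nat_lit 79) (nat_lit 63) (nat_lit 2) (nat_lit 8) (nat_lit 4) L124321 (by decide +kernel)
theorem L124323 : W_45 (nat_lit 4) (nat_lit 0x10003c0002000000078004000000000000000) (nat_lit 0x0) (nat_lit 0x30000000080008e00000000000000) := T_45 (nat_lit 112) (nat_lit 113) (nat_lit 2) (nat_lit 7) (nat_lit 7) L124322 (by decide +kernel)
theorem L124324 : W_45 (nat_lit 5) (nat_lit 0x10003c0002000000078000000000000000000) (nat_lit 0x0) (nat_lit 0x3000000008000ee00000000000000) := T_45 (nat_lit 62) (nat_lit 61) (nat_lit 2) (nat_lit 7) (nat_lit 4) L124323 (by decide +kernel)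
theorem L124325 : W_45 (nat_lit 6) (nat_lit 0x10003c0000000000078000000000000000000) (nat_lit 0x0) (nat_lit 0x3300000008000ee00000000000000) := T_45 (nat_lit 109) (nat_lit 108) (nat_lit 0) (nat_lit 10) (nat_lit 7) L124324 (by decide +kernel)
theorem L124326 : W_45 (nat_lit 2) (nat_lit 0x10003c0000001000078000400000000000000) (nat_lit 0x0) (nat_lit 0x2000080000800000000000000) := D_45 (nat_lit 79) (nat_lit 97) (nat_lit 59) (nat_lit 3) (nat_lit 8) (nat_lit 4) (nat_lit 0) (nat_lit 11) (nat_lit 4) (by decide +kernel)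
theorem L124327 : W_45 (nat_lit 3) (nat_lit 0x10003c0000001000078000000000000000000) (nat_lit 0x0) (nat_lit 0x2000080000e00000000000000) := T_45 (nat_lit 58) (nat_lit 57) (nat_lit 0) (nat_lit 10) (nat_lit 4) L124326 (by decide +kernel)
theorem L124328 : W_45 (nat_lit 4) (nat_lit 0x10003c0000000000078000000000000000000) (nat_lit 0x0) (nat_lit 0x3800080000e00000000000000) := T_45 (nat_lit 96) (nat_lit 95) (nat_lit 3) (nat_lit 7) (nat_lit 4) L124327 (by decide +kernel)
theorem L124329 : W_45 (nat_lit 7) (nat_lit 0x10003c0000000000038000000000000000000) (nat_lit 0x0) (nat_lit 0xc00000003b0038000c000ee00000000000000) := Q_45 (nat_lit 78) (C_45 L123584 (C_45 L124325 (C_45 L123525 (C_45 L124328 N_45)))) (by decide +kernel)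
theorem L124330 : W_45 (nat_lit 2) (nat_lit 0x10003c001100028003c001200038004000000) (nat_lit 0x0) (nat_lit 0x800040002000000) := D_45 (nat_lit 42) (nat_lit 59) (nat_lit 25) (nat_lit 3) (nat_lit 5) (nat_lit 2) (nat_lit 2) (nat_lit 5) (nat_lit 2) (by decide +kernel)
theorem L124331 : W_45 (nat_lit 3) (nat_lit 0x10003c001100028003c001200030004000000) (nat_lit 0x0) (nat_lit 0x800048002400000) := T_45 (nat_lit 39) (nat_lit 22) (nat_lit 4) (nat_lit 6) (nat_lit 5) L124330 (by decide +kernel)
theorem L124332 : W_45 (nat_lit 4) (nat_lit 0x10003c001100028003c001200020004000000) (nat_lit 0x0) (nat_lit 0x800058003400000) := T_45 (nat_lit 40) (nat_lit 24) (nat_lit 6) (nat_lit 6) (nat_lit 5) L124331 (by decide +kernel)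
theorem L124333 : W_45 (nat_lit 5) (nat_lit 0x10003c001100028003c001200000004000000) (nat_lit 0x0) (nat_lit 0xc00078003400000) := T_45 (nat_lit 41) (nat_lit 58) (nat_lit 6) (nat_lit 6) (nat_lit 6) L124332 (by decide +kernel)
theorem L124334 : W_45 (nat_lit 6) (nat_lit 0x10003c001000028003c001200000004000000) (nat_lit 0x0) (nat_lit 0x3000000000000c00078003400000) := T_45 (nat_lit 108) (nat_lit 109) (nat_lit 0) (nat_lit 10) (nat_lit 7) L124333 (by decide +kernel)
theorem L124335 : W_45 (nat_lit 7) (nat_lit 0x10003c001000028003c001200000000000000) (nat_lit 0x0) (nat_lit 0x3000000000000c000f8007400000) := T_45 (nat_lit 26) (nat_lit 43) (nat_lit 5) (nat_lit 9) (nat_lit 1) L124334 (by decide +kernel)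
theorem L124336 : W_45 (nat_lit 8) (nat_lit 0x10003c001000028003c001000000000000000) (nat_lit 0x0) (nat_lit 0x3000000000000f000f8007400000) := T_45 (nat_lit 57) (nat_lit 56) (nat_lit 0) (nat_lit 9) (nat_lit 4) L124335 (by decide +kernel)
theorem L124337 : W_45 (nat_lit 9) (nat_lit 0x10003c001000008003c001000000000000000) (nat_lit 0x0) (nat_lit 0x7000200000000f000f8007400000) := T_45 (nat_lit 93) (nat_lit 110) (nat_lit 6) (nat_lit 8) (nat_lit 7) L124336 (by decide +kernel)
theorem L124338 : W_45 (nat_lit 10) (nat_lit 0x10003c001000000003c001000000000000000) (nat_lit 0x0) (nat_lit 0x70002c0000000f000f8007400000) := T_45 (nat_lit 91) (nat_lit 90) (nat_lit 1) (nat_lit 9) (nat_lit 4) L124337 (by decide +kernel)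
theorem L124339 : W_45 (nat_lit 11) (nat_lit 0x10003c001000000003c000000000000000000) (nat_lit 0x0) (nat_lit 0x70002c0000003f000f8007400000) := T_45 (nat_lit 60) (nat_lit 61) (nat_lit 2) (nat_lit 6) (nat_lit 4) L124338 (by decide +kernel)
theorem L124340 : W_45 (nat_lit 12) (nat_lit 0x10003c000000000003c000000000000000000) (nat_lit 0x0) (nat_lit 0x370002c0000003f000f8007400000) := T_45 (nat_lit 112) (nat_lit 113) (nat_lit 2) (nat_lit 7) (nat_lit 7) L124339 (by decide +kernel)
theorem L124341 : W_45 (nat_lit 13) (nat_lit 0x10003c0000000000038000000000000000000) (nat_lit 0x0) (nat_lit 0xc0000000370002e0006003f800f8007400000) := Q_45 (nat_lit 74) (C_45 L124185 (C_45 L123331 (C_45 L123522 (C_45 L124340 N_45)))) (by decide +kernel)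
theorem L124342 : W_45 (nat_lit 2) (nat_lit 0x10003c0016001800038001000000000000000) (nat_lit 0x0) (nat_lit 0xc000000000000000080000000000000000000) := D_45 (nat_lit 146) (nat_lit 147) (nat_lit 79) (nat_lit 3) (nat_lit 7) (nat_lit 7) (nat_lit 6) (nat_lit 10) (nat_lit 8) (by decide +kernel)
theorem L124343 : W_45 (nat_lit 3) (nat_lit 0x10003c0016000800038001000000000000000) (nat_lit 0x0) (nat_lit 0xc000000008001000080000000000000000000) := T_45 (nat_lit 96) (nat_lit 111) (nat_lit 2) (nat_lit 7) (nat_lit 6) L124342 (by decide +kernel)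
theorem L124344 : W_45 (nat_lit 4) (nat_lit 0x10003c0016000000038001000000000000000) (nat_lit 0x0) (nat_lit 0xc0000000080018000c0000000000000000000) := T_45 (nat_lit 95) (nat_lit 78) (nat_lit 4) (nat_lit 10) (nat_lit 7) L124343 (by decide +kernel)
theorem L124345 : W_45 (nat_lit 5) (nat_lit 0x10003c0012000000038001000000000000000) (nat_lit 0x0) (nat_lit 0xc00000000c001a000c0000000000000000000) := T_45 (nat_lit 110) (nat_lit 93) (nat_lit 6) (nat_lit 8) (nat_lit 7) L124344 (by decide +kernel)
theorem L124346 : W_45 (nat_lit 6) (nat_lit 0x10003c0002000000038001000000000000000) (nat_lit 0x0) (nat_lit 0xc00000003c001a000c0000000000000000000) := T_45 (nat_lit 112) (nat_lit 113) (nat_lit 2) (nat_lit 7) (nat_lit 7) L124345 (by decide +kernel)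
theorem L124347 : W_45 (nat_lit 7) (nat_lit 0x10003c0000000000038001000000000000000) (nat_lit 0x0) (nat_lit 0xc00000003f001a000c0000000000000000000) := T_45 (nat_lit 109) (nat_lit 108) (nat_lit 0) (nat_lit 10) (nat_lit 7) L124346 (by decide +kernel)
theorem L124348 : W_45 (nat_lit 8) (nat_lit 0x10003c0000000000038000000000000000000) (nat_lit 0x0) (nat_lit 0xc00000003f001a000c400f800000000000000) := Q_45 (nat_lit 60) (C_45 L123571 (C_45 L123356 (C_45 L124347 N_45))) (by decide +kernel)
theorem L124349 : W_45 (nat_lit 2) (nat_lit 0x50003c00160020000f8008400000000000000) (nat_lit 0x0) (nat_lit 0x4000100010000000000000000) := D_45 (nat_lit 80) (nat_lit 98) (nat_lit 64) (nat_lit 3) (nat_lit 9) (nat_lit 4) (nat_lit 2) (nat_lit 9) (nat_lit 4) (by decide +kernel)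
theorem L124350 : W_45 (nat_lit 3) (nat_lit 0x50003c00160020000f8000400000000000000) (nat_lit 0x0) (nat_lit 0x400010001c000000000000000) := T_45 (nat_lit 63) (nat_lit 62) (nat_lit 2) (nat_lit 8) (nat_lit 4) L124349 (by decide +kernel)
theorem L124351 : W_45 (nat_lit 4) (nat_lit 0x50003c00160000000f8000400000000000000) (nat_lit 0x0) (nat_lit 0x700010001c000000000000000) := T_45 (nat_lit 97) (nat_lit 96) (nat_lit 3) (nat_lit 8) (nat_lit 4) L124350 (by decide +kernel)
theorem L124352 : W_45 (nat_lit 5) (nat_lit 0x50003c00140000000f8000400000000000000) (nat_lit 0x0) (nat_lit 0x300700010001c000000000000000) := T_45 (nat_lit 109) (nat_lit 108) (nat_lit 0) (nat_lit 10) (nat_lit 7) L124351 (by decide +kernel)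
theorem L124353 : W_45 (nat_lit 6) (nat_lit 0x50003c0014000000078000400000000000000) (nat_lit 0x0) (nat_lit 0x300700018001c800000000000000) := T_45 (nat_lit 79) (nat_lit 59) (nat_lit 0) (nat_lit 11) (nat_lit 4) L124352 (by decide +kernel)
theorem L124354 : W_45 (nat_lit 7) (nat_lit 0x50003c0010000000078000400000000000000) (nat_lit 0x0) (nat_lit 0x700720018001c800000000000000) := T_45 (nat_lit 110) (nat_lit 93) (nat_lit 4) (nat_lit 8) (nat_lit 7) L124353 (by decide +kernel)
theorem L124355 : W_45 (nat_lit 8) (nat_lit 0x50003c0000000000078000400000000000000) (nat_lit 0x0) (nat_lit 0x3700720018001c800000000000000) := T_45 (nat_lit 112) (nat_lit 113) (nat_lit 2) (nat_lit 7) (nat_lit 7) L124354 (by decide +kernel)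
theorem L124356 : W_45 (nat_lit 9) (nat_lit 0x50003c0000000000078000000000000000000) (nat_lit 0x0) (nat_lit 0x3700720018001ce00000000000000) := T_45 (nat_lit 58) (nat_lit 57) (nat_lit 0) (nat_lit 10) (nat_lit 4) L124355 (by decide +kernel)
theorem L124357 : W_45 (nat_lit 10) (nat_lit 0x10003c0000000000078000000000000000000) (nat_lit 0x0) (nat_lit 0xc00000003700720018001ce00000000000000) := T_45 (nat_lit 146) (nat_lit 147) (nat_lit 3) (nat_lit 7) (nat_lit 7) L124356 (by decide +kernel)
theorem L124358 : W_45 (nat_lit 11) (nat_lit 0x10003c0000000000038000000000000000000) (nat_lit 0x0) (nat_lit 0xc000000037007a001c001de00000000000000) := Q_45 (nat_lit 78) (C_45 L124328 (C_45 L124357 (C_45 L124319 (C_45 L123551 N_45)))) (by decide +kernel)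
theorem L124359 : W_45 (nat_lit 14) (nat_lit 0x10003c0000000000028000000000000000000) (nat_lit 0x0) (nat_lit 0xc00000003f007ae03d703ff801f8007400000) := Q_45 (nat_lit 76) (C_45 L123552 (C_45 L124275 (C_45 L124291 (C_45 L124303 (C_45 L124320 (C_45 L124329 (C_45 L124341 (C_45 L124348 (C_45 L124358 N_45))))))))) (by decide +kernel)
theorem L124360 : W_45 (nat_lit 15) (nat_lit 0x10003c0000000000020000000000000000000) (nat_lit 0x0) (nat_lit 0xc00000003f007be03df03ff801f8007400000) := Q_45 (nat_lit 75) (C_45 L124274 (C_45 L123574 (C_45 L124359 N_45))) (by decide +kernel)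
theorem L124361 : W_45 (nat_lit 2) (nat_lit 0x10003c00120007c0020000000000000000000) (nat_lit 0x0) (nat_lit 0x7000000000000000000) := D_45 (nat_lit 73) (nat_lit 74) (nat_lit 72) (nat_lit 0) (nat_lit 9) (nat_lit 5) (nat_lit 0) (nat_lit 8) (nat_lit 5) (by decide +kernel)
theorem L124362 : W_45 (nat_lit 3) (nat_lit 0x10003c0012000780020000000000000000000) (nat_lit 0x0) (nat_lit 0x40017000000000000000000) := T_45 (nat_lit 90) (nat_lit 76) (nat_lit 2) (nat_lit 5) (nat_lit 5) L124361 (by decide +kernel)
theorem L124363 : W_45 (nat_lit 4) (nat_lit 0x10003c0012000700020000000000000000000) (nat_lit 0x0) (nat_lit 0xc0057000000000000000000) := T_45 (nat_lit 91) (nat_lit 78) (nat_lit 2) (nat_lit 6) (nat_lit 5) L124362 (by decide +kernel)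
theorem L124364 : W_45 (nat_lit 5) (nat_lit 0x10003c0012000500020000000000000000000) (nat_lit 0x0) (nat_lit 0x40002c0057000000000000000000) := T_45 (nat_lit 93) (nat_lit 110) (nat_lit 6) (nat_lit 8) (nat_lit 8) L124363 (by decide +kernel)
theorem L124365 : W_45 (nat_lit 6) (nat_lit 0x10003c0012000100020000000000000000000) (nat_lit 0x0) (nat_lit 0xc0006c0057000000000000000000) := T_45 (nat_lit 94) (nat_lit 111) (nat_lit 5) (nat_lit 9) (nat_lit 4) L124364 (by decide +kernel)
theorem L124366 : W_45 (nat_lit 7) (nat_lit 0x10003c0012000000020000000000000000000) (nat_lit 0x0) (nat_lit 0xc0007c005f000000000000000000) := T_45 (nat_lit 92) (nat_lit 75) (nat_lit 7) (nat_lit 7) (nat_lit 4) L124365 (by decide +kernel)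
theorem L124367 : W_45 (nat_lit 8) (nat_lit 0x10003c0002000000020000000000000000000) (nat_lit 0x0) (nat_lit 0x3c0007c005f000000000000000000) := T_45 (nat_lit 112) (nat_lit 113) (nat_lit 2) (nat_lit 7) (nat_lit 7) L124366 (by decide +kernel)
theorem L124368 : W_45 (nat_lit 9) (nat_lit 0x10003c0000000000020000000000000000000) (nat_lit 0x0) (nat_lit 0x3f0007c005f000000000000000000) := T_45 (nat_lit 109) (nat_lit 108) (nat_lit 0) (nat_lit 10) (nat_lit 7) L124367 (by decide +kernel)
theorem L124369 : W_45 (nat_lit 16) (nat_lit 0x10003c0000000000000000000000000000000) (nat_lit 0x0) (nat_lit 0xc00000003f007fe03ff03ff801f8007400000) := Q_45 (nat_lit 77) (C_45 L124268 (C_45 L124238 (C_45 L124273 (C_45 L124360 (C_45 L124181 (C_45 L124368 N_45)))))) (by decide +kernel)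
theorem L124370 : W_45 (nat_lit 17) (nat_lit 0x10001c0000000000000000000000000000000) (nat_lit 0x0) (nat_lit 0x1c00060007f007fe03ff03ff801f8007400000) := Q_45 (nat_lit 129) (C_45 L123277 (C_45 L122927 (C_45 L124260 (C_45 L124369 N_45)))) (by decide +kernel)
theorem L124371 : W_45 (nat_lit 18) (nat_lit 0x10000c0000000000000000000000000000000) (nat_lit 0x0) (nat_lit 0x5e003f001de01ce007100ffe0fff07ff83ff803f801fc00180) := Q_45 (nat_lit 128) (C_45 L122901 (C_45 L123682 (C_45 L123033 (C_45 L123692 (C_45 L123741 (C_45 L123750 (C_45 L123761 (C_45 L124162 (C_45 L124246 (C_45 L124256 (C_45 L124370 N_45))))))))))) (by decide +kernel)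
theorem L124372 : W_45 (nat_lit 2) (nat_lit 0x18001f0004000000000000000000000000000) (nat_lit 0x0) (nat_lit 0x1c00000000000000000000000000) := D_45 (nat_lit 107) (nat_lit 108) (nat_lit 106) (nat_lit 0) (nat_lit 9) (nat_lit 7) (nat_lit 0) (nat_lit 8) (nat_lit 7) (by decide +kernel)
theorem L124373 : W_45 (nat_lit 3) (nat_lit 0x18001e0004000000000000000000000000000) (nat_lit 0x0) (nat_lit 0x18001c00000000000000000000000000) := T_45 (nat_lit 124) (nat_lit 123) (nat_lit 3) (nat_lit 4) (nat_lit 7) L124372 (by decide +kernel)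
theorem L124374 : W_45 (nat_lit 2) (nat_lit 0x18001c0000000200000000000000000000000) (nat_lit 0x0) (nat_lit 0x10000000000004000000010000000000000000000) := D_45 (nat_lit 110) (nat_lit 76) (nat_lit 160) (nat_lit 5) (nat_lit 8) (nat_lit 4) (nat_lit 5) (nat_lit 8) (nat_lit 5) (by decide +kernel)
theorem L124375 : W_45 (nat_lit 2) (nat_lit 0x100018001e0010000200000000000000000000000) (nat_lit 0x0) (nat_lit 0x600020000000000000000000000000000) := D_45 (nat_lit 129) (nat_lit 130) (nat_lit 113) (nat_lit 1) (nat_lit 11) (nat_lit 7) (nat_lit 2) (nat_lit 7) (nat_lit 7) (by decide +kernel)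
theorem L124376 : W_45 (nat_lit 2) (nat_lit 0x58003f0010000000000000000000000000000) (nat_lit 0x0) (nat_lit 0x1c00000000000000000000000000) := D_45 (nat_lit 107) (nat_lit 108) (nat_lit 106) (nat_lit 0) (nat_lit 9) (nat_lit 7) (nat_lit 0) (nat_lit 8) (nat_lit 7) (by decide +kernel)
theorem L124377 : W_45 (nat_lit 3) (nat_lit 0x58003e0010000000000000000000000000000) (nat_lit 0x0) (nat_lit 0x18001c00000000000000000000000000) := T_45 (nat_lit 124) (nat_lit 123) (nat_lit 3) (nat_lit 4) (nat_lit 7) L124376 (by decide +kernel)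
theorem L124378 : W_45 (nat_lit 2) (nat_lit 0x51003f0010800000000000000000000000000) (nat_lit 0x0) (nat_lit 0x880008000000000000000000000000000000) := D_45 (nat_lit 123) (nat_lit 143) (nat_lit 139) (nat_lit 3) (nat_lit 4) (nat_lit 7) (nat_lit 1) (nat_lit 7) (nat_lit 7) (by decide +kernel)
theorem L124379 : W_45 (nat_lit 3) (nat_lit 0x50003f0010800000000000000000000000000) (nat_lit 0x0) (nat_lit 0xb80008000000000000000000000000000000) := T_45 (nat_lit 140) (nat_lit 141) (nat_lit 1) (nat_lit 8) (nat_lit 7) L124378 (by decide +kernel)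
theorem L124380 : W_45 (nat_lit 4) (nat_lit 0x50003e0010800000000000000000000000000) (nat_lit 0x0) (nat_lit 0xb80018000400000000000000000000000000) := T_45 (nat_lit 124) (nat_lit 106) (nat_lit 0) (nat_lit 8) (nat_lit 7) L124379 (by decide +kernel)
theorem L124381 : W_45 (nat_lit 5) (nat_lit 0x10003e0010800000000000000000000000000) (nat_lit 0x0) (nat_lit 0xcb80018000400000000000000000000000000) := T_45 (nat_lit 146) (nat_lit 147) (nat_lit 3) (nat_lit 7) (nat_lit 7) L124380 (by decide +kernel)
theorem L124382 : W_45 (nat_lit 6) (nat_lit 0x10003e0010000000000000000000000000000) (nat_lit 0x0) (nat_lit 0xcb80018001c00000000000000000000000000) := T_45 (nat_lit 107) (nat_lit 108) (nat_lit 0) (nat_lit 9) (nat_lit 7) L124381 (by decide +kernel)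
theorem L124383 : W_45 (nat_lit 7) (nat_lit 0x10003e0000000000000000000000000000000) (nat_lit 0x0) (nat_lit 0xcb80018031c00000000000000000000000000) := T_45 (nat_lit 112) (nat_lit 113) (nat_lit 2) (nat_lit 7) (nat_lit 7) L124382 (by decide +kernel)
theorem L124384 : W_45 (nat_lit 4) (nat_lit 0x52003e0000000000000000000000000000000) (nat_lit 0x0) (nat_lit 0x100010031c00000000000000000000000000) := T_45 (nat_lit 112) (nat_lit 113) (nat_lit 2) (nat_lit 7) (nat_lit 7) L121817 (by decide +kernel)
theorem L124385 : W_45 (nat_lit 5) (nat_lit 0x50003e0000000000000000000000000000000) (nat_lit 0x0) (nat_lit 0x700010031c00000000000000000000000000) := T_45 (nat_lit 141) (nat_lit 142) (nat_lit 1) (nat_lit 9) (nat_lit 7) L124384 (by decide +kernel)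
theorem L124386 : W_45 (nat_lit 6) (nat_lit 0x10003e0000000000000000000000000000000) (nat_lit 0x0) (nat_lit 0xc700010031c00000000000000000000000000) := T_45 (nat_lit 146) (nat_lit 147) (nat_lit 3) (nat_lit 7) (nat_lit 7) L124385 (by decide +kernel)
theorem L124387 : W_45 (nat_lit 4) (nat_lit 0x50003e0010000000000000000000000000000) (nat_lit 0x0) (nat_lit 0xc00018001c00000000000000000000000000) := T_45 (nat_lit 143) (nat_lit 142) (nat_lit 1) (nat_lit 10) (nat_lit 7) L124377 (by decide +kernel)
theorem L124388 : W_45 (nat_lit 5) (nat_lit 0x10003e0010000000000000000000000000000) (nat_lit 0x0) (nat_lit 0xcc00018001c00000000000000000000000000) := T_45 (nat_lit 146) (nat_lit 147) (nat_lit 3) (nat_lit 7) (nat_lit 7) L124387 (by decide +kernel)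
theorem L124389 : W_45 (nat_lit 6) (nat_lit 0x10003e0000000000000000000000000000000) (nat_lit 0x0) (nat_lit 0xcc00018031c00000000000000000000000000) := T_45 (nat_lit 112) (nat_lit 113) (nat_lit 2) (nat_lit 7) (nat_lit 7) L124388 (by decide +kernel)
theorem L124390 : W_45 (nat_lit 8) (nat_lit 0x10003c0000000000000000000000000000000) (nat_lit 0x0) (nat_lit 0xcf80038031c00000000000000000000000000) := Q_45 (nat_lit 125) (C_45 L121300 (C_45 L124383 (C_45 L124386 (C_45 L124389 N_45)))) (by decide +kernel)
theorem L124391 : W_45 (nat_lit 9) (nat_lit 0x10001c0000000000000000000000000000000) (nat_lit 0x0) (nat_lit 0x1cf80638071c00000000000000000000000000) := Q_45 (nat_lit 129) (C_45 L123277 (C_45 L122841 (C_45 L124390 N_45))) (by decide +kernel)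
theorem L124392 : W_45 (nat_lit 2) (nat_lit 0x10007c0000000000000000000000000000000) (nat_lit 0x0) (nat_lit 0x1c000000000000000000000000000000000000) := D_45 (nat_lit 147) (nat_lit 146) (nat_lit 148) (nat_lit 3) (nat_lit 7) (nat_lit 7) (nat_lit 3) (nat_lit 8) (nat_lit 7) (by decide +kernel)
theorem L124393 : W_45 (nat_lit 3) (nat_lit 0x10003c0000000000000000000000000000000) (nat_lit 0x0) (nat_lit 0x1c800400000000000000000000000000000000) := T_45 (nat_lit 130) (nat_lit 143) (nat_lit 1) (nat_lit 11) (nat_lit 7) L124392 (by decide +kernel)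
theorem L124394 : W_45 (nat_lit 2) (nat_lit 0x18003e0010800000000000000000000000000) (nat_lit 0x0) (nat_lit 0x18000400000000000000000000000000) := D_45 (nat_lit 124) (nat_lit 106) (nat_lit 123) (nat_lit 0) (nat_lit 8) (nat_lit 7) (nat_lit 3) (nat_lit 4) (nat_lit 7) (by decide +kernel)
theorem L124395 : W_45 (nat_lit 3) (nat_lit 0x10003e0010800000000000000000000000000) (nat_lit 0x0) (nat_lit 0x800418000400000000000000000000000000) := T_45 (nat_lit 143) (nat_lit 130) (nat_lit 1) (nat_lit 11) (nat_lit 7) L124394 (by decide +kernel)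
theorem L124396 : W_45 (nat_lit 4) (nat_lit 0x10003e0010000000000000000000000000000) (nat_lit 0x0) (nat_lit 0x800418001c00000000000000000000000000) := T_45 (nat_lit 107) (nat_lit 108) (nat_lit 0) (nat_lit 9) (nat_lit 7) L124395 (by decide +kernel)
theorem L124397 : W_45 (nat_lit 5) (nat_lit 0x10003c0010000000000000000000000000000) (nat_lit 0x0) (nat_lit 0x800438009c00000000000000000000000000) := T_45 (nat_lit 125) (nat_lit 111) (nat_lit 2) (nat_lit 6) (nat_lit 7) L124396 (by decide +kernel)
theorem L124398 : W_45 (nat_lit 6) (nat_lit 0x10003c0000000000000000000000000000000) (nat_lit 0x0) (nat_lit 0x800438039c00000000000000000000000000) := T_45 (nat_lit 112) (nat_lit 113) (nat_lit 2) (nat_lit 7) (nat_lit 7) L124397 (by decide +kernel)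
theorem L124399 : W_45 (nat_lit 7) (nat_lit 0x10001c0000000000000000000000000000000) (nat_lit 0x0) (nat_lit 0x100008001c800638079c00400000000000000000000000) := Q_45 (nat_lit 129) (C_45 L123277 (C_45 L124393 (C_45 L124398 (C_45 L123015 N_45)))) (by decide +kernel)
theorem L124400 : W_45 (nat_lit 2) (nat_lit 0x18001e0004000080000000000000000000000) (nat_lit 0x0) (nat_lit 0x1800000004000000000000000000) := D_45 (nat_lit 108) (nat_lit 107) (nat_lit 74) (nat_lit 0) (nat_lit 9) (nat_lit 7) (nat_lit 7) (nat_lit 6) (nat_lit 4) (by decide +kernel)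
theorem L124401 : W_45 (nat_lit 2) (nat_lit 0x18005e00040007c0000000000000000000000) (nat_lit 0x0) (nat_lit 0x7000000000000000000) := D_45 (nat_lit 73) (nat_lit 74) (nat_lit 72) (nat_lit 0) (nat_lit 9) (nat_lit 5) (nat_lit 0) (nat_lit 8) (nat_lit 5) (by decide +kernel)
theorem L124402 : W_45 (nat_lit 3) (nat_lit 0x18005e0004000780000000000000000000000) (nat_lit 0x0) (nat_lit 0x8000040007000000000000000000) := T_45 (nat_lit 90) (nat_lit 111) (nat_lit 3) (nat_lit 5) (nat_lit 5) L124401 (by decide +kernel)
theorem L124403 : W_45 (nat_lit 4) (nat_lit 0x18005e0004000680000000000000000000000) (nat_lit 0x0) (nat_lit 0x800014000f000000000000000000) := T_45 (nat_lit 92) (nat_lit 75) (nat_lit 4) (nat_lit 8) (nat_lit 8) L124402 (by decide +kernel)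
theorem L124404 : W_45 (nat_lit 5) (nat_lit 0x18005e0004000280000000000000000000000) (nat_lit 0x0) (nat_lit 0x800054002f000000000000000000) := T_45 (nat_lit 94) (nat_lit 77) (nat_lit 6) (nat_lit 8) (nat_lit 8) L124403 (by decide +kernel)
theorem L124405 : W_45 (nat_lit 6) (nat_lit 0x18001e0004000280000000000000000000000) (nat_lit 0x0) (nat_lit 0x60000800054002f000000000000000000) := T_45 (nat_lit 130) (nat_lit 129) (nat_lit 1) (nat_lit 11) (nat_lit 7) L124404 (by decide +kernel)
theorem L124406 : W_45 (nat_lit 7) (nat_lit 0x18001e0004000080000000000000000000000) (nat_lit 0x0) (nat_lit 0x60000800074003f000000000000000000) := T_45 (nat_lit 93) (nat_lit 76) (nat_lit 5) (nat_lit 8) (nat_lit 4) L124405 (by decide +kernel)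
theorem L124407 : W_45 (nat_lit 2) (nat_lit 0x18005e0004800380000000000000000000000) (nat_lit 0x0) (nat_lit 0x8400040000000000000000000000) := D_45 (nat_lit 90) (nat_lit 111) (nat_lit 106) (nat_lit 3) (nat_lit 5) (nat_lit 5) (nat_lit 1) (nat_lit 8) (nat_lit 5) (by decide +kernel)
theorem L124408 : W_45 (nat_lit 3) (nat_lit 0x18005e0004800280000000000000000000000) (nat_lit 0x0) (nat_lit 0x8400140008000000000000000000) := T_45 (nat_lit 92) (nat_lit 75) (nat_lit 4) (nat_lit 8) (nat_lit 8) L124407 (by decide +kernel)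
theorem L124409 : W_45 (nat_lit 4) (nat_lit 0x18005e0004800080000000000000000000000) (nat_lit 0x0) (nat_lit 0x8400340018000000000000000000) := T_45 (nat_lit 93) (nat_lit 76) (nat_lit 5) (nat_lit 8) (nat_lit 4) L124408 (by decide +kernel)
theorem L124410 : W_45 (nat_lit 5) (nat_lit 0x18005e0004000080000000000000000000000) (nat_lit 0x0) (nat_lit 0x9c00340018000000000000000000) := T_45 (nat_lit 107) (nat_lit 108) (nat_lit 0) (nat_lit 9) (nat_lit 7) L124409 (by decide +kernel)
theorem L124411 : W_45 (nat_lit 6) (nat_lit 0x18001e0004000080000000000000000000000) (nat_lit 0x0) (nat_lit 0x600009c00340018000000000000000000) := T_45 (nat_lit 130) (nat_lit 129) (nat_lit 1) (nat_lit 11) (nat_lit 7) L124410 (by decide +kernel)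
theorem L124412 : W_45 (nat_lit 8) (nat_lit 0x18001e0004000000000000000000000000000) (nat_lit 0x0) (nat_lit 0x600009c007c003f000000000000000000) := Q_45 (nat_lit 91) (C_45 L124400 (C_45 L124406 (C_45 L124411 N_45))) (by decide +kernel)
theorem L124413 : W_45 (nat_lit 2) (nat_lit 0x18001e0004000000000000000000000000000) (nat_lit 0x0) (nat_lit 0x18008000000000000000000000000000) := D_45 (nat_lit 124) (nat_lit 123) (nat_lit 111) (nat_lit 3) (nat_lit 4) (nat_lit 7) (nat_lit 2) (nat_lit 5) (nat_lit 7) (by decide +kernel)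
theorem L124414 : W_45 (nat_lit 9) (nat_lit 0x18001c0004000000000000000000000000000) (nat_lit 0x0) (nat_lit 0x638009c007c003f000000000000000000) := Q_45 (nat_lit 125) (C_45 L124373 (C_45 L124412 (C_45 L124413 N_45))) (by decide +kernel)
theorem L124415 : W_45 (nat_lit 2) (nat_lit 0x14001e000100008000a000000000000000000) (nat_lit 0x0) (nat_lit 0x4000500000000000000) := D_45 (nat_lit 74) (nat_lit 56) (nat_lit 58) (nat_lit 4) (nat_lit 6) (nat_lit 7) (nat_lit 6) (nat_lit 6) (nat_lit 7) (by decide +kernel)
theorem L124416 : W_45 (nat_lit 3) (nat_lit 0x14001e0001000080002000000000000000000) (nat_lit 0x0) (nat_lit 0x10000c000500000000000000) := T_45 (nat_lit 75) (nat_lit 92) (nat_lit 6) (nat_lit 6) (nat_lit 8) L124415 (by decide +kernel)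
theorem L124417 : W_45 (nat_lit 4) (nat_lit 0x14001e0001000080000000000000000000000) (nat_lit 0x0) (nat_lit 0x14000e000500000000000000) := T_45 (nat_lit 73) (nat_lit 90) (nat_lit 4) (nat_lit 6) (nat_lit 8) L124416 (by decide +kernel)
theorem L124418 : W_45 (nat_lit 2) (nat_lit 0x14001e00090001c0020000000000000000000) (nat_lit 0x0) (nat_lit 0x4000200010000000000000000000) := D_45 (nat_lit 93) (nat_lit 110) (nat_lit 76) (nat_lit 3) (nat_lit 5) (nat_lit 5) (nat_lit 2) (nat_lit 5) (nat_lit 5) (by decide +kernel)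
theorem L124419 : W_45 (nat_lit 3) (nat_lit 0x14001e0009000180020000000000000000000) (nat_lit 0x0) (nat_lit 0x4000240012000000000000000000) := T_45 (nat_lit 90) (nat_lit 73) (nat_lit 4) (nat_lit 6) (nat_lit 8) L124418 (by decide +kernel)
theorem L124420 : W_45 (nat_lit 4) (nat_lit 0x14001e0009000100020000000000000000000) (nat_lit 0x0) (nat_lit 0x40002c001a000000000000000000) := T_45 (nat_lit 91) (nat_lit 75) (nat_lit 6) (nat_lit 6) (nat_lit 8) L124419 (by decide +kernel)
theorem L124421 : W_45 (nat_lit 5) (nat_lit 0x14001e0009000100000000000000000000000) (nat_lit 0x0) (nat_lit 0x40006c003a000000000000000000) := T_45 (nat_lit 77) (nat_lit 94) (nat_lit 5) (nat_lit 9) (nat_lit 4) L124420 (by decide +kernel)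
theorem L124422 : W_45 (nat_lit 2) (nat_lit 0x12001e0000800000000000000000000000000) (nat_lit 0x0) (nat_lit 0x100010000400000000000000000000000000) := D_45 (nat_lit 124) (nat_lit 106) (nat_lit 140) (nat_lit 0) (nat_lit 8) (nat_lit 7) (nat_lit 1) (nat_lit 8) (nat_lit 7) (by decide +kernel)
theorem L124423 : W_45 (nat_lit 3) (nat_lit 0x10001e0000800000000000000000000000000) (nat_lit 0x0) (nat_lit 0x700010000400000000000000000000000000) := T_45 (nat_lit 141) (nat_lit 142) (nat_lit 1) (nat_lit 9) (nat_lit 7) L124422 (by decide +kernel)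
theorem L124424 : W_45 (nat_lit 4) (nat_lit 0x10001e0000000000000000000000000000000) (nat_lit 0x0) (nat_lit 0x700010001c00000000000000000000000000) := T_45 (nat_lit 107) (nat_lit 108) (nat_lit 0) (nat_lit 9) (nat_lit 7) L124423 (by decide +kernel)
theorem L124425 : W_45 (nat_lit 2) (nat_lit 0x1a001f0004800000000000000000000000000) (nat_lit 0x0) (nat_lit 0x10000000000000000200010000000000000000000) := D_45 (nat_lit 93) (nat_lit 76) (nat_lit 160) (nat_lit 5) (nat_lit 8) (nat_lit 4) (nat_lit 5) (nat_lit 8) (nat_lit 5) (by decide +kernel)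
theorem L124426 : W_45 (nat_lit 3) (nat_lit 0x1a001f0000800000000000000000000000000) (nat_lit 0x0) (nat_lit 0x1000000000000c000200010000000000000000000) := T_45 (nat_lit 110) (nat_lit 111) (nat_lit 2) (nat_lit 5) (nat_lit 7) L124425 (by decide +kernel)
theorem L124427 : W_45 (nat_lit 4) (nat_lit 0x12001f0000800000000000000000000000000) (nat_lit 0x0) (nat_lit 0x1000080000800c000200010000000000000000000) := T_45 (nat_lit 143) (nat_lit 123) (nat_lit 3) (nat_lit 4) (nat_lit 7) L124426 (by decide +kernel)
theorem L124428 : W_45 (nat_lit 5) (nat_lit 0x10001f0000800000000000000000000000000) (nat_lit 0x0) (nat_lit 0x10000b0000800c000200010000000000000000000) := T_45 (nat_lit 141) (nat_lit 140) (nat_lit 1) (nat_lit 8) (nat_lit 7) L124427 (by decide +kernel)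
theorem L124429 : W_45 (nat_lit 6) (nat_lit 0x10001e0000800000000000000000000000000) (nat_lit 0x0) (nat_lit 0x10000b0001800c400200010000000000000000000) := T_45 (nat_lit 124) (nat_lit 106) (nat_lit 0) (nat_lit 8) (nat_lit 7) L124428 (by decide +kernel)
theorem L124430 : W_45 (nat_lit 7) (nat_lit 0x10001e0000000000000000000000000000000) (nat_lit 0x0) (nat_lit 0x10000b0001800dc00200010000000000000000000) := T_45 (nat_lit 107) (nat_lit 108) (nat_lit 0) (nat_lit 9) (nat_lit 7) L124429 (by decide +kernel)
theorem L124431 : W_45 (nat_lit 3) (nat_lit 0x14001e0001000000000000000000000000000) (nat_lit 0x0) (nat_lit 0x10000800200000000080004000000000000000000) := T_45 (nat_lit 143) (nat_lit 129) (nat_lit 1) (nat_lit 10) (nat_lit 7) L122457 (by decide +kernel)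
theorem L124432 : W_45 (nat_lit 4) (nat_lit 0x10001e0001000000000000000000000000000) (nat_lit 0x0) (nat_lit 0x10000e00200000000080004000000000000000000) := T_45 (nat_lit 142) (nat_lit 141) (nat_lit 1) (nat_lit 9) (nat_lit 7) L124431 (by decide +kernel)
theorem L124433 : W_45 (nat_lit 5) (nat_lit 0x10001e0000000000000000000000000000000) (nat_lit 0x0) (nat_lit 0x10000e00200001800080004000000000000000000) := T_45 (nat_lit 108) (nat_lit 107) (nat_lit 0) (nat_lit 9) (nat_lit 7) L124432 (by decide +kernel)
theorem L124434 : W_45 (nat_lit 2) (nat_lit 0x1c001f0004000000000000000000000000000) (nat_lit 0x0) (nat_lit 0x10000000000000000200010000000000000000000) := D_45 (nat_lit 93) (nat_lit 76) (nat_lit 160) (nat_lit 5) (nat_lit 8) (nat_lit 4) (nat_lit 5) (nat_lit 8) (nat_lit 5) (by decide +kernel)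
theorem L124435 : W_45 (nat_lit 3) (nat_lit 0x1c001f0000000000000000000000000000000) (nat_lit 0x0) (nat_lit 0x1000000000000c000200010000000000000000000) := T_45 (nat_lit 110) (nat_lit 111) (nat_lit 2) (nat_lit 5) (nat_lit 7) L124434 (by decide +kernel)
theorem L124436 : W_45 (nat_lit 4) (nat_lit 0x1c001e0000000000000000000000000000000) (nat_lit 0x0) (nat_lit 0x1000000001800c000200010000000000000000000) := T_45 (nat_lit 124) (nat_lit 123) (nat_lit 3) (nat_lit 4) (nat_lit 7) L124435 (by decide +kernel)
theorem L124437 : W_45 (nat_lit 5) (nat_lit 0x14001e0000000000000000000000000000000) (nat_lit 0x0) (nat_lit 0x1000080021800c000200010000000000000000000) := T_45 (nat_lit 143) (nat_lit 129) (nat_lit 1) (nat_lit 10) (nat_lit 7) L124436 (by decide +kernel)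
theorem L124438 : W_45 (nat_lit 6) (nat_lit 0x10001e0000000000000000000000000000000) (nat_lit 0x0) (nat_lit 0x10000e0021800c000200010000000000000000000) := T_45 (nat_lit 142) (nat_lit 141) (nat_lit 1) (nat_lit 9) (nat_lit 7) L124437 (by decide +kernel)
theorem L124439 : W_45 (nat_lit 4) (nat_lit 0x10001f0000800000000000000000000000000) (nat_lit 0x0) (nat_lit 0x1000080000800c000200010000000000000000000) := T_45 (nat_lit 110) (nat_lit 111) (nat_lit 2) (nat_lit 5) (nat_lit 7) L122088 (by decide +kernel)
theorem L124440 : W_45 (nat_lit 5) (nat_lit 0x10001e0000800000000000000000000000000) (nat_lit 0x0) (nat_lit 0x1000080001800c400200010000000000000000000) := T_45 (nat_lit 124) (nat_lit 106) (nat_lit 0) (nat_lit 8) (nat_lit 7) L124439 (by decide +kernel)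
theorem L124441 : W_45 (nat_lit 6) (nat_lit 0x10001e0000000000000000000000000000000) (nat_lit 0x0) (nat_lit 0x1000080001800dc00200010000000000000000000) := T_45 (nat_lit 107) (nat_lit 108) (nat_lit 0) (nat_lit 9) (nat_lit 7) L124440 (by decide +kernel)
theorem L124442 : W_45 (nat_lit 8) (nat_lit 0x10001c0000000000000000000000000000000) (nat_lit 0x0) (nat_lit 0x10000f0023800dc00280014000000000000000000) := Q_45 (nat_lit 125) (C_45 L124424 (C_45 L124430 (C_45 L124433 (C_45 L124438 (C_45 L124441 N_45))))) (by decide +kernel)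
theorem L124443 : W_45 (nat_lit 2) (nat_lit 0x1c001e00090001c0020000000000000000000) (nat_lit 0x0) (nat_lit 0x4000200010000000000000000000) := D_45 (nat_lit 93) (nat_lit 110) (nat_lit 76) (nat_lit 3) (nat_lit 5) (nat_lit 5) (nat_lit 2) (nat_lit 5) (nat_lit 5) (by decide +kernel)
theorem L124444 : W_45 (nat_lit 3) (nat_lit 0x1c001e00090000c0020000000000000000000) (nat_lit 0x0) (nat_lit 0x4000300018000000000000000000) := T_45 (nat_lit 92) (nat_lit 75) (nat_lit 6) (nat_lit 6) (nat_lit 8) L124443 (by decide +kernel)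
theorem L124445 : W_45 (nat_lit 4) (nat_lit 0x1c001e00090000c0000000000000000000000) (nat_lit 0x0) (nat_lit 0x4000700038000000000000000000) := T_45 (nat_lit 77) (nat_lit 94) (nat_lit 5) (nat_lit 9) (nat_lit 4) L124444 (by decide +kernel)
theorem L124446 : W_45 (nat_lit 5) (nat_lit 0x1c001e0009000080000000000000000000000) (nat_lit 0x0) (nat_lit 0x400074003a000000000000000000) := T_45 (nat_lit 90) (nat_lit 73) (nat_lit 4) (nat_lit 6) (nat_lit 8) L124445 (by decide +kernel)
theorem L124447 : W_45 (nat_lit 6) (nat_lit 0x1c001e0001000080000000000000000000000) (nat_lit 0x0) (nat_lit 0x1c00074003a000000000000000000) := T_45 (nat_lit 111) (nat_lit 112) (nat_lit 2) (nat_lit 6) (nat_lit 7) L124446 (by decide +kernel)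
theorem L124448 : W_45 (nat_lit 7) (nat_lit 0x1c001e0001000000000000000000000000000) (nat_lit 0x0) (nat_lit 0x1c0007c003e000000000000000000) := T_45 (nat_lit 91) (nat_lit 74) (nat_lit 7) (nat_lit 6) (nat_lit 4) L124447 (by decide +kernel)
theorem L124449 : W_45 (nat_lit 2) (nat_lit 0x18001e0001000380030000000000000000000) (nat_lit 0x0) (nat_lit 0xc8000000000000000000) := D_45 (nat_lit 78) (nat_lit 79) (nat_lit 75) (nat_lit 1) (nat_lit 11) (nat_lit 4) (nat_lit 1) (nat_lit 10) (nat_lit 4) (by decide +kernel)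
theorem L124450 : W_45 (nat_lit 3) (nat_lit 0x18001e0001000280030000000000000000000) (nat_lit 0x0) (nat_lit 0x1400c8000000000000000000) := T_45 (nat_lit 92) (nat_lit 90) (nat_lit 2) (nat_lit 5) (nat_lit 5) L124449 (by decide +kernel)
theorem L124451 : W_45 (nat_lit 4) (nat_lit 0x18001e0001000200030000000000000000000) (nat_lit 0x0) (nat_lit 0x1c00cc000000000000000000) := T_45 (nat_lit 91) (nat_lit 74) (nat_lit 7) (nat_lit 6) (nat_lit 4) L124450 (by decide +kernel)
theorem L124452 : W_45 (nat_lit 2) (nat_lit 0x10001e0005000200020000000000000000000) (nat_lit 0x0) (nat_lit 0x800000000000000010001000000000000000) := D_45 (nat_lit 76) (nat_lit 60) (nat_lit 143) (nat_lit 6) (nat_lit 8) (nat_lit 7) (nat_lit 5) (nat_lit 8) (nat_lit 4) (by decide +kernel)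
theorem L124453 : W_45 (nat_lit 3) (nat_lit 0x10001e0001000200020000000000000000000) (nat_lit 0x0) (nat_lit 0x800000004000400010001000000000000000) := T_45 (nat_lit 110) (nat_lit 94) (nat_lit 6) (nat_lit 8) (nat_lit 8) L124452 (by decide +kernel)
theorem L124454 : W_45 (nat_lit 4) (nat_lit 0x10001e0000000200020000000000000000000) (nat_lit 0x0) (nat_lit 0x800000005800400010001000000000000000) := T_45 (nat_lit 108) (nat_lit 107) (nat_lit 0) (nat_lit 9) (nat_lit 7) L124453 (by decide +kernel)
theorem L124455 : W_45 (nat_lit 2) (nat_lit 0x18001e0000000200020000000000000000000) (nat_lit 0x0) (nat_lit 0x10000000000004000000010000000000000000000) := D_45 (nat_lit 110) (nat_lit 160) (nat_lit 76) (nat_lit 5) (nat_lit 8) (nat_lit 5) (nat_lit 5) (nat_lit 8) (nat_lit 4) (by decide +kernel)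
theorem L124456 : W_45 (nat_lit 2) (nat_lit 0x1c001e0001000200020000000000000000000) (nat_lit 0x0) (nat_lit 0x200010000000000000000080000000000000000000000) := D_45 (nat_lit 160) (nat_lit 177) (nat_lit 91) (nat_lit 4) (nat_lit 7) (nat_lit 10) (nat_lit 7) (nat_lit 6) (nat_lit 5) (by decide +kernel)
theorem L124457 : W_45 (nat_lit 3) (nat_lit 0x1c001e0000000200020000000000000000000) (nat_lit 0x0) (nat_lit 0x200010000000000001800080000000000000000000000) := T_45 (nat_lit 108) (nat_lit 107) (nat_lit 0) (nat_lit 9) (nat_lit 7) L124456 (by decide +kernel)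
theorem L124458 : W_45 (nat_lit 4) (nat_lit 0x18001e0000000200020000000000000000000) (nat_lit 0x0) (nat_lit 0x200010000600000001800080000000000000000000000) := T_45 (nat_lit 142) (nat_lit 141) (nat_lit 2) (nat_lit 5) (nat_lit 8) L124457 (by decide +kernel)
theorem L124459 : W_45 (nat_lit 5) (nat_lit 0x18001e0001000200020000000000000000000) (nat_lit 0x0) (nat_lit 0x40001c00dc000000000000000000) := T_45 (nat_lit 76) (nat_lit 110) (nat_lit 5) (nat_lit 8) (nat_lit 4) L124451 (by decide +kernel)
theorem L124460 : W_45 (nat_lit 6) (nat_lit 0x18001e0000000200020000000000000000000) (nat_lit 0x0) (nat_lit 0x58001c00dc000000000000000000) := T_45 (nat_lit 108) (nat_lit 107) (nat_lit 0) (nat_lit 9) (nat_lit 7) L124459 (by decide +kernel)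
theorem L124461 : W_45 (nat_lit 7) (nat_lit 0x10001e0000000200020000000000000000000) (nat_lit 0x0) (nat_lit 0x200010000e000000058001c00dc000000000000000000) := Q_45 (nat_lit 143) (C_45 L124455 (C_45 L124458 (C_45 L124460 N_45))) (by decide +kernel)
theorem L124462 : W_45 (nat_lit 2) (nat_lit 0x14001e0001000280020000000000000000000) (nat_lit 0x0) (nat_lit 0x10000800000000000000004000000000000000000) := D_45 (nat_lit 143) (nat_lit 74) (nat_lit 160) (nat_lit 7) (nat_lit 6) (nat_lit 4) (nat_lit 7) (nat_lit 6) (nat_lit 5) (by decide +kernel)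
theorem L124463 : W_45 (nat_lit 2) (nat_lit 0x10001e000100028003c000000000000000000) (nat_lit 0x0) (nat_lit 0x2000300000000000000) := D_45 (nat_lit 56) (nat_lit 57) (nat_lit 73) (nat_lit 0) (nat_lit 9) (nat_lit 4) (nat_lit 4) (nat_lit 6) (nat_lit 7) (by decide +kernel)
theorem L124464 : W_45 (nat_lit 3) (nat_lit 0x10001e000100028002c000000000000000000) (nat_lit 0x0) (nat_lit 0x40012000300000000000000) := T_45 (nat_lit 76) (nat_lit 90) (nat_lit 1) (nat_lit 9) (nat_lit 4) L124463 (by decide +kernel)
theorem L124465 : W_45 (nat_lit 4) (nat_lit 0x10001e0001000280024000000000000000000) (nat_lit 0x0) (nat_lit 0x4001a000700000000000000) := T_45 (nat_lit 75) (nat_lit 58) (nat_lit 6) (nat_lit 6) (nat_lit 7) L124464 (by decide +kernel)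
theorem L124466 : W_45 (nat_lit 5) (nat_lit 0x10001e0001000280020000000000000000000) (nat_lit 0x0) (nat_lit 0x80000000000004001e000700000000000000) := T_45 (nat_lit 74) (nat_lit 143) (nat_lit 7) (nat_lit 6) (nat_lit 4) L124465 (by decide +kernel)
theorem L124467 : W_45 (nat_lit 2) (nat_lit 0x10001e000100028002c000000000000000000) (nat_lit 0x0) (nat_lit 0x600000000000100000000000000000000000) := D_45 (nat_lit 142) (nat_lit 141) (nat_lit 92) (nat_lit 1) (nat_lit 9) (nat_lit 7) (nat_lit 6) (nat_lit 6) (nat_lit 8) (by decide +kernel)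
theorem L124468 : W_45 (nat_lit 3) (nat_lit 0x10001e0001000280024000000000000000000) (nat_lit 0x0) (nat_lit 0x600000000000100008000400000000000000) := T_45 (nat_lit 75) (nat_lit 58) (nat_lit 6) (nat_lit 6) (nat_lit 7) L124467 (by decide +kernel)
theorem L124469 : W_45 (nat_lit 4) (nat_lit 0x10001e0001000280020000000000000000000) (nat_lit 0x0) (nat_lit 0xe0000000000010000c000400000000000000) := T_45 (nat_lit 74) (nat_lit 143) (nat_lit 7) (nat_lit 6) (nat_lit 4) L124468 (by decide +kernel)
theorem L124470 : W_45 (nat_lit 2) (nat_lit 0x14001e00010002c0020000000000000000000) (nat_lit 0x0) (nat_lit 0x100018000000000000000000) := D_45 (nat_lit 92) (nat_lit 76) (nat_lit 75) (nat_lit 2) (nat_lit 5) (nat_lit 5) (nat_lit 6) (nat_lit 6) (nat_lit 8) (by decide +kernel)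
theorem L124471 : W_45 (nat_lit 3) (nat_lit 0x14001e0001000280020000000000000000000) (nat_lit 0x0) (nat_lit 0x14001a000000000000000000) := T_45 (nat_lit 90) (nat_lit 73) (nat_lit 4) (nat_lit 6) (nat_lit 8) L124470 (by decide +kernel)
theorem L124472 : W_45 (nat_lit 4) (nat_lit 0x10001e0001000280020000000000000000000) (nat_lit 0x0) (nat_lit 0x60000000000014001a000000000000000000) := T_45 (nat_lit 142) (nat_lit 141) (nat_lit 1) (nat_lit 9) (nat_lit 7) L124471 (by decide +kernel)
theorem L124473 : W_45 (nat_lit 3) (nat_lit 0x10001e0001000280020000000000000000000) (nat_lit 0x0) (nat_lit 0x10000e00000000000000004000000000000000000) := T_45 (nat_lit 142) (nat_lit 141) (nat_lit 1) (nat_lit 9) (nat_lit 7) L124462 (by decide +kernel)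
theorem L124474 : W_45 (nat_lit 6) (nat_lit 0x10001e0001000200020000000000000000000) (nat_lit 0x0) (nat_lit 0x10000e000000000001c001e000700000000000000) := Q_45 (nat_lit 91) (C_45 L124466 (C_45 L124469 (C_45 L124472 (C_45 L124473 N_45)))) (by decide +kernel)
theorem L124475 : W_45 (nat_lit 7) (nat_lit 0x10001e0000000200020000000000000000000) (nat_lit 0x0) (nat_lit 0x10000e000000018001c001e000700000000000000) := T_45 (nat_lit 108) (nat_lit 107) (nat_lit 0) (nat_lit 9) (nat_lit 7) L124474 (by decide +kernel)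
theorem L124476 : W_45 (nat_lit 2) (nat_lit 0x18001e0000000200020000000000000000000) (nat_lit 0x0) (nat_lit 0x10000000000004000400000000000000000000000) := D_45 (nat_lit 110) (nat_lit 160) (nat_lit 94) (nat_lit 5) (nat_lit 8) (nat_lit 5) (nat_lit 6) (nat_lit 8) (nat_lit 8) (by decide +kernel)
theorem L124477 : W_45 (nat_lit 2) (nat_lit 0x1c001e0001000680020000000000000000000) (nat_lit 0x0) (nat_lit 0x100048000000000000000000) := D_45 (nat_lit 92) (nat_lit 75) (nat_lit 78) (nat_lit 6) (nat_lit 6) (nat_lit 8) (nat_lit 2) (nat_lit 6) (nat_lit 5) (by decide +kernel)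
theorem L124478 : W_45 (nat_lit 3) (nat_lit 0x1c001e0001000600020000000000000000000) (nat_lit 0x0) (nat_lit 0x18004c000000000000000000) := T_45 (nat_lit 91) (nat_lit 74) (nat_lit 7) (nat_lit 6) (nat_lit 4) L124477 (by decide +kernel)
theorem L124479 : W_45 (nat_lit 4) (nat_lit 0x1c001e0001000200020000000000000000000) (nat_lit 0x0) (nat_lit 0x400058004c000000000000000000) := T_45 (nat_lit 94) (nat_lit 110) (nat_lit 6) (nat_lit 8) (nat_lit 8) L124478 (by decide +kernel)
theorem L124480 : W_45 (nat_lit 5) (nat_lit 0x18001e0001000200020000000000000000000) (nat_lit 0x0) (nat_lit 0x60000000400058004c000000000000000000) := T_45 (nat_lit 142) (nat_lit 141) (nat_lit 2) (nat_lit 5) (nat_lit 8) L124479 (by decide +kernel)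
theorem L124481 : W_45 (nat_lit 6) (nat_lit 0x18001e0000000200020000000000000000000) (nat_lit 0x0) (nat_lit 0x60000000580058004c000000000000000000) := T_45 (nat_lit 108) (nat_lit 107) (nat_lit 0) (nat_lit 9) (nat_lit 7) L124480 (by decide +kernel)
theorem L124482 : W_45 (nat_lit 7) (nat_lit 0x10001e0000000200020000000000000000000) (nat_lit 0x0) (nat_lit 0x200010000e0000000580058004c000000000000000000) := Q_45 (nat_lit 143) (C_45 L124476 (C_45 L124481 (C_45 L124458 N_45))) (by decide +kernel)
theorem L124483 : W_45 (nat_lit 2) (nat_lit 0x14001e0005000200030000000000000000000) (nat_lit 0x0) (nat_lit 0x100008000400000000000000) := D_45 (nat_lit 75) (nat_lit 58) (nat_lit 92) (nat_lit 4) (nat_lit 8) (nat_lit 7) (nat_lit 4) (nat_lit 8) (nat_lit 8) (by decide +kernel)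
theorem L124484 : W_45 (nat_lit 3) (nat_lit 0x14001e0005000200020000000000000000000) (nat_lit 0x0) (nat_lit 0x100018001400000000000000) := T_45 (nat_lit 76) (nat_lit 60) (nat_lit 6) (nat_lit 8) (nat_lit 7) L124483 (by decide +kernel)
theorem L124485 : W_45 (nat_lit 4) (nat_lit 0x14001e0001000200020000000000000000000) (nat_lit 0x0) (nat_lit 0x4000500018001400000000000000) := T_45 (nat_lit 110) (nat_lit 94) (nat_lit 6) (nat_lit 8) (nat_lit 8) L124484 (by decide +kernel)
theorem L124486 : W_45 (nat_lit 5) (nat_lit 0x10001e0001000200020000000000000000000) (nat_lit 0x0) (nat_lit 0x600000004000500018001400000000000000) := T_45 (nat_lit 142) (nat_lit 141) (nat_lit 1) (nat_lit 9) (nat_lit 7) L124485 (by decide +kernel)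
theorem L124487 : W_45 (nat_lit 6) (nat_lit 0x10001e0000000200020000000000000000000) (nat_lit 0x0) (nat_lit 0x600000005800500018001400000000000000) := T_45 (nat_lit 108) (nat_lit 107) (nat_lit 0) (nat_lit 9) (nat_lit 7) L124486 (by decide +kernel)
theorem L124488 : W_45 (nat_lit 8) (nat_lit 0x10001e0000000000020000000000000000000) (nat_lit 0x0) (nat_lit 0x200010000e000000058007c00de001700000000000000) := Q_45 (nat_lit 93) (C_45 L124454 (C_45 L124461 (C_45 L122162 (C_45 L124475 (C_45 L124482 (C_45 L124487 N_45)))))) (by decide +kernel)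
theorem L124489 : W_45 (nat_lit 2) (nat_lit 0x14001e0000001100078004000000000000000) (nat_lit 0x0) (nat_lit 0x2000080008000000000000000) := D_45 (nat_lit 79) (nat_lit 63) (nat_lit 97) (nat_lit 2) (nat_lit 8) (nat_lit 4) (nat_lit 3) (nat_lit 8) (nat_lit 4) (by decide +kernel)
theorem L124490 : W_45 (nat_lit 3) (nat_lit 0x14001e0000000100078004000000000000000) (nat_lit 0x0) (nat_lit 0x3800080008000000000000000) := T_45 (nat_lit 96) (nat_lit 95) (nat_lit 3) (nat_lit 7) (nat_lit 4) L124489 (by decide +kernel)
theorem L124491 : W_45 (nat_lit 4) (nat_lit 0x14001e0000000100078000000000000000000) (nat_lit 0x0) (nat_lit 0x380008000e000000000000000) := T_45 (nat_lit 62) (nat_lit 61) (nat_lit 2) (nat_lit 7) (nat_lit 4) L124490 (by decide +kernel)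
theorem L124492 : W_45 (nat_lit 5) (nat_lit 0x14001e0000000000078000000000000000000) (nat_lit 0x0) (nat_lit 0x398008000e000000000000000) := T_45 (nat_lit 92) (nat_lit 91) (nat_lit 1) (nat_lit 10) (nat_lit 4) L124491 (by decide +kernel)
theorem L124493 : W_45 (nat_lit 6) (nat_lit 0x10001e0000000000078000000000000000000) (nat_lit 0x0) (nat_lit 0x60000000000398008000e000000000000000) := T_45 (nat_lit 142) (nat_lit 141) (nat_lit 1) (nat_lit 9) (nat_lit 7) L124492 (by decide +kernel)
theorem L124494 : W_45 (nat_lit 2) (nat_lit 0x14001e000000004003c000100000000000000) (nat_lit 0x0) (nat_lit 0x20002000080000000000000) := D_45 (nat_lit 73) (nat_lit 89) (nat_lit 55) (nat_lit 1) (nat_lit 8) (nat_lit 4) (nat_lit 0) (nat_lit 8) (nat_lit 4) (by decide +kernel)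
theorem L124495 : W_45 (nat_lit 3) (nat_lit 0x14001e000000004003c000000000000000000) (nat_lit 0x0) (nat_lit 0x20002000380000000000000) := T_45 (nat_lit 56) (nat_lit 57) (nat_lit 0) (nat_lit 9) (nat_lit 4) L124494 (by decide +kernel)
theorem L124496 : W_45 (nat_lit 4) (nat_lit 0x14001e000000000003c000000000000000000) (nat_lit 0x0) (nat_lit 0xe0002000380000000000000) := T_45 (nat_lit 90) (nat_lit 91) (nat_lit 1) (nat_lit 9) (nat_lit 4) L124495 (by decide +kernel)
theorem L124497 : W_45 (nat_lit 5) (nat_lit 0x10001e000000000003c000000000000000000) (nat_lit 0x0) (nat_lit 0x6000000000000e0002000380000000000000) := T_45 (nat_lit 142) (nat_lit 141) (nat_lit 1) (nat_lit 9) (nat_lit 7) L124496 (by decide +kernel)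
theorem L124498 : W_45 (nat_lit 2) (nat_lit 0x14001e000000100007c004200000000000000) (nat_lit 0x0) (nat_lit 0x2000080008000000000000000) := D_45 (nat_lit 79) (nat_lit 97) (nat_lit 63) (nat_lit 3) (nat_lit 8) (nat_lit 4) (nat_lit 2) (nat_lit 8) (nat_lit 4) (by decide +kernel)
theorem L124499 : W_45 (nat_lit 3) (nat_lit 0x14001e000000100007c000200000000000000) (nat_lit 0x0) (nat_lit 0x200008000e000000000000000) := T_45 (nat_lit 62) (nat_lit 61) (nat_lit 2) (nat_lit 7) (nat_lit 4) L124498 (by decide +kernel)
theorem L124500 : W_45 (nat_lit 4) (nat_lit 0x14001e000000000007c000200000000000000) (nat_lit 0x0) (nat_lit 0x380008000e000000000000000) := T_45 (nat_lit 96) (nat_lit 95) (nat_lit 3) (nat_lit 7) (nat_lit 4) L124499 (by decide +kernel)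
theorem L124501 : W_45 (nat_lit 5) (nat_lit 0x14001e000000000003c000200000000000000) (nat_lit 0x0) (nat_lit 0x38000c000e400000000000000) := T_45 (nat_lit 78) (nat_lit 58) (nat_lit 0) (nat_lit 10) (nat_lit 4) L124500 (by decide +kernel)
theorem L124502 : W_45 (nat_lit 6) (nat_lit 0x10001e000000000003c000200000000000000) (nat_lit 0x0) (nat_lit 0x6000000000038000c000e400000000000000) := T_45 (nat_lit 142) (nat_lit 141) (nat_lit 1) (nat_lit 9) (nat_lit 7) L124501 (by decide +kernel)
theorem L124503 : W_45 (nat_lit 7) (nat_lit 0x10001e000000000003c000000000000000000) (nat_lit 0x0) (nat_lit 0x6000000000038000c000e700000000000000) := T_45 (nat_lit 57) (nat_lit 56) (nat_lit 0) (nat_lit 9) (nat_lit 4) L124502 (by decide +kernel)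
theorem L124504 : W_45 (nat_lit 2) (nat_lit 0x10001e000900008003c000000000000000000) (nat_lit 0x0) (nat_lit 0x2000300000000000000) := D_45 (nat_lit 56) (nat_lit 57) (nat_lit 73) (nat_lit 0) (nat_lit 9) (nat_lit 4) (nat_lit 4) (nat_lit 6) (nat_lit 7) (by decide +kernel)
theorem L124505 : W_45 (nat_lit 3) (nat_lit 0x10001e000900008002c000000000000000000) (nat_lit 0x0) (nat_lit 0x40012000300000000000000) := T_45 (nat_lit 76) (nat_lit 90) (nat_lit 1) (nat_lit 9) (nat_lit 4) L124504 (by decide +kernel)
theorem L124506 : W_45 (nat_lit 4) (nat_lit 0x10001e0009000080024000000000000000000) (nat_lit 0x0) (nat_lit 0x4001a000700000000000000) := T_45 (nat_lit 75) (nat_lit 58) (nat_lit 6) (nat_lit 6) (nat_lit 7) L124505 (by decide +kernel)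
theorem L124507 : W_45 (nat_lit 5) (nat_lit 0x10001e0009000080020000000000000000000) (nat_lit 0x0) (nat_lit 0x80000000000004001e000700000000000000) := T_45 (nat_lit 74) (nat_lit 143) (nat_lit 7) (nat_lit 6) (nat_lit 4) L124506 (by decide +kernel)
theorem L124508 : W_45 (nat_lit 6) (nat_lit 0x10001e0001000080020000000000000000000) (nat_lit 0x0) (nat_lit 0x80000001800004001e000700000000000000) := T_45 (nat_lit 111) (nat_lit 112) (nat_lit 2) (nat_lit 6) (nat_lit 7) L124507 (by decide +kernel)
theorem L124509 : W_45 (nat_lit 2) (nat_lit 0x10001e00000008800f8000400000000000000) (nat_lit 0x0) (nat_lit 0xe000000000000000) := D_45 (nat_lit 62) (nat_lit 61) (nat_lit 63) (nat_lit 2) (nat_lit 7) (nat_lit 4) (nat_lit 2) (nat_lit 8) (nat_lit 4) (by decide +kernel)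
theorem L124510 : W_45 (nat_lit 3) (nat_lit 0x10001e0000000880078000400000000000000) (nat_lit 0x0) (nat_lit 0x8000e800000000000000) := T_45 (nat_lit 79) (nat_lit 59) (nat_lit 0) (nat_lit 11) (nat_lit 4) L124509 (by decide +kernel)
theorem L124511 : W_45 (nat_lit 4) (nat_lit 0x10001e0000000080078000400000000000000) (nat_lit 0x0) (nat_lit 0x180008000e800000000000000) := T_45 (nat_lit 95) (nat_lit 96) (nat_lit 3) (nat_lit 7) (nat_lit 4) L124510 (by decide +kernel)
theorem L124512 : W_45 (nat_lit 5) (nat_lit 0x10001e0000000080078000000000000000000) (nat_lit 0x0) (nat_lit 0x180008000ee00000000000000) := T_45 (nat_lit 58) (nat_lit 57) (nat_lit 0) (nat_lit 10) (nat_lit 4) L124511 (by decide +kernel)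
theorem L124513 : W_45 (nat_lit 6) (nat_lit 0x10001e0000000080038000000000000000000) (nat_lit 0x0) (nat_lit 0x19000c000ee00000000000000) := T_45 (nat_lit 78) (nat_lit 92) (nat_lit 1) (nat_lit 10) (nat_lit 4) L124512 (by decide +kernel)
theorem L124514 : W_45 (nat_lit 2) (nat_lit 0x10001e000000008003c000200000000000000) (nat_lit 0x0) (nat_lit 0x100040000400000000000000) := D_45 (nat_lit 78) (nat_lit 92) (nat_lit 58) (nat_lit 1) (nat_lit 10) (nat_lit 4) (nat_lit 0) (nat_lit 10) (nat_lit 4) (by decide +kernel)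
theorem L124515 : W_45 (nat_lit 3) (nat_lit 0x10001e000000008003c000000000000000000) (nat_lit 0x0) (nat_lit 0x100040000700000000000000) := T_45 (nat_lit 57) (nat_lit 56) (nat_lit 0) (nat_lit 9) (nat_lit 4) L124514 (by decide +kernel)
theorem L124516 : W_45 (nat_lit 4) (nat_lit 0x10001e0000000080038000000000000000000) (nat_lit 0x0) (nat_lit 0x140044000700000000000000) := T_45 (nat_lit 74) (nat_lit 90) (nat_lit 1) (nat_lit 9) (nat_lit 4) L124515 (by decide +kernel)
theorem L124517 : W_45 (nat_lit 2) (nat_lit 0x10001e000000008003c001100000000000000) (nat_lit 0x0) (nat_lit 0x2000880000000000000) := D_45 (nat_lit 73) (nat_lit 59) (nat_lit 55) (nat_lit 2) (nat_lit 5) (nat_lit 4) (nat_lit 0) (nat_lit 8) (nat_lit 4) (by decide +kernel)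
theorem L124518 : W_45 (nat_lit 3) (nat_lit 0x10001e000000008003c000100000000000000) (nat_lit 0x0) (nat_lit 0x2003880000000000000) := T_45 (nat_lit 60) (nat_lit 61) (nat_lit 2) (nat_lit 6) (nat_lit 4) L124517 (by decide +kernel)
theorem L124519 : W_45 (nat_lit 4) (nat_lit 0x10001e000000008003c000000000000000000) (nat_lit 0x0) (nat_lit 0x2003b80000000000000) := T_45 (nat_lit 56) (nat_lit 57) (nat_lit 0) (nat_lit 9) (nat_lit 4) L124518 (by decide +kernel)
theorem L124520 : W_45 (nat_lit 5) (nat_lit 0x10001e0000000080038000000000000000000) (nat_lit 0x0) (nat_lit 0x40006003b80000000000000) := T_45 (nat_lit 74) (nat_lit 90) (nat_lit 1) (nat_lit 9) (nat_lit 4) L124519 (by decide +kernel)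
theorem L124521 : W_45 (nat_lit 2) (nat_lit 0x10001e000000008007c000000000000000000) (nat_lit 0x0) (nat_lit 0x7000000000000000) := D_45 (nat_lit 61) (nat_lit 60) (nat_lit 62) (nat_lit 2) (nat_lit 6) (nat_lit 4) (nat_lit 2) (nat_lit 7) (nat_lit 4) (by decide +kernel)
theorem L124522 : W_45 (nat_lit 3) (nat_lit 0x10001e000000008003c000000000000000000) (nat_lit 0x0) (nat_lit 0x100040007000000000000000) := T_45 (nat_lit 78) (nat_lit 92) (nat_lit 1) (nat_lit 10) (nat_lit 4) L124521 (by decide +kernel)
theorem L124523 : W_45 (nat_lit 4) (nat_lit 0x10001e0000000080038000000000000000000) (nat_lit 0x0) (nat_lit 0x140044007000000000000000) := T_45 (nat_lit 74) (nat_lit 90) (nat_lit 1) (nat_lit 9) (nat_lit 4) L124522 (by decide +kernel)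
theorem L124524 : W_45 (nat_lit 4) (nat_lit 0x14001e0009000080020000000000000000000) (nat_lit 0x0) (nat_lit 0x400034001a000000000000000000) := T_45 (nat_lit 92) (nat_lit 75) (nat_lit 6) (nat_lit 6) (nat_lit 8) L124419 (by decide +kernel)
theorem L124525 : W_45 (nat_lit 5) (nat_lit 0x14001e0001000080020000000000000000000) (nat_lit 0x0) (nat_lit 0x1c00034001a000000000000000000) := T_45 (nat_lit 111) (nat_lit 112) (nat_lit 2) (nat_lit 6) (nat_lit 7) L124524 (by decide +kernel)
theorem L124526 : W_45 (nat_lit 6) (nat_lit 0x10001e0001000080020000000000000000000) (nat_lit 0x0) (nat_lit 0x60000001c00034001a000000000000000000) := T_45 (nat_lit 142) (nat_lit 141) (nat_lit 1) (nat_lit 9) (nat_lit 7) L124525 (by decide +kernel)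
theorem L124527 : W_45 (nat_lit 2) (nat_lit 0x14001e0001000080020000000000000000000) (nat_lit 0x0) (nat_lit 0x10000800000000000000004000000000000000000) := D_45 (nat_lit 143) (nat_lit 74) (nat_lit 160) (nat_lit 7) (nat_lit 6) (nat_lit 4) (nat_lit 7) (nat_lit 6) (nat_lit 5) (by decide +kernel)
theorem L124528 : W_45 (nat_lit 3) (nat_lit 0x10001e0001000080020000000000000000000) (nat_lit 0x0) (nat_lit 0x10000e00000000000000004000000000000000000) := T_45 (nat_lit 142) (nat_lit 141) (nat_lit 1) (nat_lit 9) (nat_lit 7) L124527 (by decide +kernel)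
theorem L124529 : W_45 (nat_lit 7) (nat_lit 0x10001e0001000000020000000000000000000) (nat_lit 0x0) (nat_lit 0x10000e0000001c0003c001e000700000000000000) := Q_45 (nat_lit 91) (C_45 L124508 (C_45 L122982 (C_45 L124526 (C_45 L124528 N_45)))) (by decide +kernel)
theorem L124530 : W_45 (nat_lit 8) (nat_lit 0x10001e0000000000020000000000000000000) (nat_lit 0x0) (nat_lit 0x10000e0000001d8003c001e000700000000000000) := T_45 (nat_lit 108) (nat_lit 107) (nat_lit 0) (nat_lit 9) (nat_lit 7) L124529 (by decide +kernel)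
theorem L124531 : W_45 (nat_lit 9) (nat_lit 0x10001e0000000000000000000000000000000) (nat_lit 0x0) (nat_lit 0x200010000e0000001d8007c00fe001700000000000000) := Q_45 (nat_lit 77) (C_45 L122957 (C_45 L124488 (C_45 L124530 N_45))) (by decide +kernel)
theorem L124532 : W_45 (nat_lit 10) (nat_lit 0x10001c0000000000000000000000000000000) (nat_lit 0x0) (nat_lit 0x200010000f0003801dc007c00fe001700000000000000) := Q_45 (nat_lit 125) (C_45 L124424 (C_45 L124441 (C_45 L124531 (C_45 L123002 N_45)))) (by decide +kernel)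
theorem L124533 : W_45 (nat_lit 2) (nat_lit 0x10000f8004400000000000000000000000000) (nat_lit 0x0) (nat_lit 0x380000000000000000000000000000000000) := D_45 (nat_lit 140) (nat_lit 141) (nat_lit 139) (nat_lit 1) (nat_lit 8) (nat_lit 7) (nat_lit 1) (nat_lit 7) (nat_lit 7) (by decide +kernel)
theorem L124534 : W_45 (nat_lit 3) (nat_lit 0x10000f0004400000000000000000000000000) (nat_lit 0x0) (nat_lit 0x380008000200000000000000000000000000) := T_45 (nat_lit 123) (nat_lit 105) (nat_lit 0) (nat_lit 7) (nat_lit 7) L124533 (by decide +kernel)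
theorem L124535 : W_45 (nat_lit 4) (nat_lit 0x10000f0000400000000000000000000000000) (nat_lit 0x0) (nat_lit 0x38000800c200000000000000000000000000) := T_45 (nat_lit 110) (nat_lit 111) (nat_lit 2) (nat_lit 5) (nat_lit 7) L124534 (by decide +kernel)
theorem L124536 : W_45 (nat_lit 5) (nat_lit 0x10000f0000000000000000000000000000000) (nat_lit 0x0) (nat_lit 0x38000800ce00000000000000000000000000) := T_45 (nat_lit 106) (nat_lit 107) (nat_lit 0) (nat_lit 8) (nat_lit 7) L124535 (by decide +kernel)
theorem L124537 : W_45 (nat_lit 6) (nat_lit 0x10000e0000000000000000000000000000000) (nat_lit 0x0) (nat_lit 0x78011801de00000000000000000000000000) := Q_45 (nat_lit 124) (C_45 L122416 (C_45 L122426 (C_45 L122085 (C_45 L124536 N_45)))) (by decide +kernel)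
theorem L124538 : W_45 (nat_lit 2) (nat_lit 0x10800f8001800000000000000000000000000) (nat_lit 0x0) (nat_lit 0x40006000000000000000000000000000000) := D_45 (nat_lit 122) (nat_lit 138) (nat_lit 121) (nat_lit 1) (nat_lit 6) (nat_lit 7) (nat_lit 2) (nat_lit 2) (nat_lit 7) (by decide +kernel)
theorem L124539 : W_45 (nat_lit 3) (nat_lit 0x10800f8000800000000000000000000000000) (nat_lit 0x0) (nat_lit 0x40106001000000000000000000000000000) := T_45 (nat_lit 108) (nat_lit 128) (nat_lit 0) (nat_lit 9) (nat_lit 7) L124538 (by decide +kernel)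
theorem L124540 : W_45 (nat_lit 4) (nat_lit 0x10000f8000800000000000000000000000000) (nat_lit 0x0) (nat_lit 0x1c0106001000000000000000000000000000) := T_45 (nat_lit 139) (nat_lit 140) (nat_lit 1) (nat_lit 7) (nat_lit 7) L124539 (by decide +kernel)
theorem L124541 : W_45 (nat_lit 5) (nat_lit 0x10000f0000800000000000000000000000000) (nat_lit 0x0) (nat_lit 0x9c010e001000000000000000000000000000) := T_45 (nat_lit 123) (nat_lit 143) (nat_lit 3) (nat_lit 4) (nat_lit 7) L124540 (by decide +kernel)
theorem L124542 : W_45 (nat_lit 6) (nat_lit 0x10000f0000000000000000000000000000000) (nat_lit 0x0) (nat_lit 0x9c010e001c00000000000000000000000000) := T_45 (nat_lit 107) (nat_lit 106) (nat_lit 0) (nat_lit 8) (nat_lit 7) L124541 (by decide +kernel)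
theorem L124543 : W_45 (nat_lit 2) (nat_lit 0x18001f0000800000000000000000000000000) (nat_lit 0x0) (nat_lit 0x600200000000000000000000000000000000) := D_45 (nat_lit 142) (nat_lit 141) (nat_lit 129) (nat_lit 2) (nat_lit 5) (nat_lit 8) (nat_lit 1) (nat_lit 10) (nat_lit 7) (by decide +kernel)
theorem L124544 : W_45 (nat_lit 3) (nat_lit 0x18000f0000800000000000000000000000000) (nat_lit 0x0) (nat_lit 0x600300001000000000000000000000000000) := T_45 (nat_lit 128) (nat_lit 108) (nat_lit 0) (nat_lit 9) (nat_lit 7) L124543 (by decide +kernel)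
theorem L124545 : W_45 (nat_lit 4) (nat_lit 0x10000f0000800000000000000000000000000) (nat_lit 0x0) (nat_lit 0xe00308001000000000000000000000000000) := T_45 (nat_lit 143) (nat_lit 123) (nat_lit 3) (nat_lit 4) (nat_lit 7) L124544 (by decide +kernel)
theorem L124546 : W_45 (nat_lit 5) (nat_lit 0x10000f0000000000000000000000000000000) (nat_lit 0x0) (nat_lit 0xe00308001c00000000000000000000000000) := T_45 (nat_lit 107) (nat_lit 106) (nat_lit 0) (nat_lit 8) (nat_lit 7) L124545 (by decide +kernel)
theorem L124547 : W_45 (nat_lit 7) (nat_lit 0x10000e0000000000000000000000000000000) (nat_lit 0x0) (nat_lit 0xfc031e001c00000000000000000000000000) := Q_45 (nat_lit 124) (C_45 L122085 (C_45 L122093 (C_45 L124542 (C_45 L124546 N_45)))) (by decide +kernel)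
theorem L124548 : W_45 (nat_lit 7) (nat_lit 0x10000e0000000000000000000000000000000) (nat_lit 0x0) (nat_lit 0xbc011e01de00000000000000000000000000) := Q_45 (nat_lit 124) (C_45 L124536 (C_45 L124542 (C_45 L122093 (C_45 L122416 N_45)))) (by decide +kernel)
theorem L124549 : W_45 (nat_lit 2) (nat_lit 0x10001e000900008003e000000000000000000) (nat_lit 0x0) (nat_lit 0x3800000000000000) := D_45 (nat_lit 60) (nat_lit 61) (nat_lit 59) (nat_lit 2) (nat_lit 6) (nat_lit 4) (nat_lit 2) (nat_lit 5) (nat_lit 4) (by decide +kernel)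
theorem L124550 : W_45 (nat_lit 3) (nat_lit 0x10001e000900008002e000000000000000000) (nat_lit 0x0) (nat_lit 0x40010003800000000000000) := T_45 (nat_lit 76) (nat_lit 90) (nat_lit 1) (nat_lit 9) (nat_lit 4) L124549 (by decide +kernel)
theorem L124551 : W_45 (nat_lit 4) (nat_lit 0x10001e000900008000e000000000000000000) (nat_lit 0x0) (nat_lit 0x440030003800000000000000) := T_45 (nat_lit 77) (nat_lit 94) (nat_lit 5) (nat_lit 9) (nat_lit 4) L124550 (by decide +kernel)
theorem L124552 : W_45 (nat_lit 5) (nat_lit 0x10001e000900008000c000000000000000000) (nat_lit 0x0) (nat_lit 0x440032003900000000000000) := T_45 (nat_lit 73) (nat_lit 56) (nat_lit 4) (nat_lit 6) (nat_lit 7) L124551 (by decide +kernel)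
theorem L124553 : W_45 (nat_lit 6) (nat_lit 0x10001e000100008000c000000000000000000) (nat_lit 0x0) (nat_lit 0x18000440032003900000000000000) := T_45 (nat_lit 111) (nat_lit 112) (nat_lit 2) (nat_lit 6) (nat_lit 7) L124552 (by decide +kernel)
theorem L124554 : W_45 (nat_lit 7) (nat_lit 0x10001e0001000080004000000000000000000) (nat_lit 0x0) (nat_lit 0x1800044003a003d00000000000000) := T_45 (nat_lit 75) (nat_lit 58) (nat_lit 6) (nat_lit 6) (nat_lit 7) L124553 (by decide +kernel)
theorem L124555 : W_45 (nat_lit 8) (nat_lit 0x10000e0001000080004000000000000000000) (nat_lit 0x0) (nat_lit 0x10001880044003a003d00000000000000) := T_45 (nat_lit 128) (nat_lit 107) (nat_lit 0) (nat_lit 9) (nat_lit 7) L124554 (by decide +kernel)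
theorem L124556 : W_45 (nat_lit 2) (nat_lit 0x10001e0001000080004000500000000000000) (nat_lit 0x0) (nat_lit 0x200028000000000) := D_45 (nat_lit 57) (nat_lit 41) (nat_lit 39) (nat_lit 6) (nat_lit 6) (nat_lit 6) (nat_lit 4) (nat_lit 6) (nat_lit 6) (by decide +kernel)
theorem L124557 : W_45 (nat_lit 3) (nat_lit 0x10001e0001000080004000400000000000000) (nat_lit 0x0) (nat_lit 0x2000300028000000000) := T_45 (nat_lit 56) (nat_lit 73) (nat_lit 4) (nat_lit 6) (nat_lit 7) L124556 (by decide +kernel)
theorem L124558 : W_45 (nat_lit 4) (nat_lit 0x10001e0001000080004000000000000000000) (nat_lit 0x0) (nat_lit 0xa000700028000000000) := T_45 (nat_lit 58) (nat_lit 75) (nat_lit 6) (nat_lit 6) (nat_lit 7) L124557 (by decide +kernel)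
theorem L124559 : W_45 (nat_lit 5) (nat_lit 0x10000e0001000080004000000000000000000) (nat_lit 0x0) (nat_lit 0x10000080000000a000700028000000000) := T_45 (nat_lit 128) (nat_lit 107) (nat_lit 0) (nat_lit 9) (nat_lit 7) L124558 (by decide +kernel)
theorem L124560 : W_45 (nat_lit 2) (nat_lit 0x10000e0001000080004000500000000000000) (nat_lit 0x0) (nat_lit 0x200028000000000) := D_45 (nat_lit 57) (nat_lit 39) (nat_lit 41) (nat_lit 4) (nat_lit 6) (nat_lit 6) (nat_lit 6) (nat_lit 6) (nat_lit 6) (by decide +kernel)
theorem L124561 : W_45 (nat_lit 3) (nat_lit 0x10000e0001000080004000100000000000000) (nat_lit 0x0) (nat_lit 0x8000600028000000000) := T_45 (nat_lit 58) (nat_lit 75) (nat_lit 6) (nat_lit 6) (nat_lit 7) L124560 (by decide +kernel)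
theorem L124562 : W_45 (nat_lit 4) (nat_lit 0x10000e0001000080004000000000000000000) (nat_lit 0x0) (nat_lit 0xa000700028000000000) := T_45 (nat_lit 56) (nat_lit 73) (nat_lit 4) (nat_lit 6) (nat_lit 7) L124561 (by decide +kernel)
theorem L124563 : W_45 (nat_lit 2) (nat_lit 0x10001e0009000680016000000000000000000) (nat_lit 0x0) (nat_lit 0x4000000000000800040000000000) := D_45 (nat_lit 59) (nat_lit 42) (nat_lit 110) (nat_lit 7) (nat_lit 8) (nat_lit 2) (nat_lit 7) (nat_lit 8) (nat_lit 3) (by decide +kernel)
theorem L124564 : W_45 (nat_lit 3) (nat_lit 0x10001e0009000680006000000000000000000) (nat_lit 0x0) (nat_lit 0x4000000018000800040000000000) := T_45 (nat_lit 76) (nat_lit 75) (nat_lit 3) (nat_lit 5) (nat_lit 4) L124563 (by decide +kernel)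
theorem L124565 : W_45 (nat_lit 4) (nat_lit 0x10001e0009000480006000000000000000000) (nat_lit 0x0) (nat_lit 0x4000300018000800040000000000) := T_45 (nat_lit 93) (nat_lit 92) (nat_lit 0) (nat_lit 9) (nat_lit 5) L124564 (by decide +kernel)
theorem L124566 : W_45 (nat_lit 5) (nat_lit 0x10001e0009000080006000000000000000000) (nat_lit 0x0) (nat_lit 0x4000700038000800040000000000) := T_45 (nat_lit 94) (nat_lit 77) (nat_lit 5) (nat_lit 9) (nat_lit 4) L124565 (by decide +kernel)
theorem L124567 : W_45 (nat_lit 6) (nat_lit 0x10001e0001000080006000000000000000000) (nat_lit 0x0) (nat_lit 0x1c000700038000800040000000000) := T_45 (nat_lit 111) (nat_lit 112) (nat_lit 2) (nat_lit 6) (nat_lit 7) L124566 (by decide +kernel)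
theorem L124568 : W_45 (nat_lit 7) (nat_lit 0x10001e0001000080004000000000000000000) (nat_lit 0x0) (nat_lit 0x1c00070003a000900040000000000) := T_45 (nat_lit 73) (nat_lit 56) (nat_lit 4) (nat_lit 6) (nat_lit 7) L124567 (by decide +kernel)
theorem L124569 : W_45 (nat_lit 8) (nat_lit 0x10000e0001000080004000000000000000000) (nat_lit 0x0) (nat_lit 0x10001c80070003a000900040000000000) := T_45 (nat_lit 128) (nat_lit 107) (nat_lit 0) (nat_lit 9) (nat_lit 7) L124568 (by decide +kernel)
theorem L124570 : W_45 (nat_lit 2) (nat_lit 0x10001e0009000080024000f00080000000000) (nat_lit 0x0) (nat_lit 0x40001000100000000000) := D_45 (nat_lit 60) (nat_lit 78) (nat_lit 44) (nat_lit 3) (nat_lit 6) (nat_lit 3) (nat_lit 2) (nat_lit 6) (nat_lit 3) (by decide +kernel)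
theorem L124571 : W_45 (nat_lit 3) (nat_lit 0x10001e0009000080024000f00000000000000) (nat_lit 0x0) (nat_lit 0x400010001c0000000000) := T_45 (nat_lit 43) (nat_lit 42) (nat_lit 2) (nat_lit 5) (nat_lit 3) L124570 (by decide +kernel)
theorem L124572 : W_45 (nat_lit 4) (nat_lit 0x10001e0009000080024000700000000000000) (nat_lit 0x0) (nat_lit 0x500018001c0000000000) := T_45 (nat_lit 59) (nat_lit 76) (nat_lit 3) (nat_lit 5) (nat_lit 3) L124571 (by decide +kernel)
theorem L124573 : W_45 (nat_lit 5) (nat_lit 0x10001e0009000080024000300000000000000) (nat_lit 0x0) (nat_lit 0x50001c001e0000000000) := T_45 (nat_lit 58) (nat_lit 41) (nat_lit 6) (nat_lit 6) (nat_lit 6) L124572 (by decide +kernel)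
theorem L124574 : W_45 (nat_lit 6) (nat_lit 0x10001e0009000080004000300000000000000) (nat_lit 0x0) (nat_lit 0x400070001c001e0000000000) := T_45 (nat_lit 77) (nat_lit 94) (nat_lit 5) (nat_lit 9) (nat_lit 4) L124573 (by decide +kernel)
theorem L124575 : W_45 (nat_lit 7) (nat_lit 0x10001e0009000080004000100000000000000) (nat_lit 0x0) (nat_lit 0x400070001e001e8000000000) := T_45 (nat_lit 57) (nat_lit 39) (nat_lit 4) (nat_lit 6) (nat_lit 6) L124574 (by decide +kernel)
theorem L124576 : W_45 (nat_lit 8) (nat_lit 0x10001e0001000080004000100000000000000) (nat_lit 0x0) (nat_lit 0x18000400070001e001e8000000000) := T_45 (nat_lit 111) (nat_lit 112) (nat_lit 2) (nat_lit 6) (nat_lit 7) L124575 (by decide +kernel)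
theorem L124577 : W_45 (nat_lit 9) (nat_lit 0x10001e0001000080004000000000000000000) (nat_lit 0x0) (nat_lit 0x18000400072001f001e8000000000) := T_45 (nat_lit 56) (nat_lit 73) (nat_lit 4) (nat_lit 6) (nat_lit 7) L124576 (by decide +kernel)
theorem L124578 : W_45 (nat_lit 10) (nat_lit 0x10000e0001000080004000000000000000000) (nat_lit 0x0) (nat_lit 0x100018800400072001f001e8000000000) := T_45 (nat_lit 128) (nat_lit 107) (nat_lit 0) (nat_lit 9) (nat_lit 7) L124577 (by decide +kernel)
theorem L124579 : W_45 (nat_lit 2) (nat_lit 0x10001e000d0010800fc009200000000000000) (nat_lit 0x0) (nat_lit 0x100010800000000000000) := D_45 (nat_lit 80) (nat_lit 59) (nat_lit 64) (nat_lit 0) (nat_lit 12) (nat_lit 4) (nat_lit 2) (nat_lit 9) (nat_lit 4) (by decide +kernel)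
theorem L124580 : W_45 (nat_lit 3) (nat_lit 0x10001e000d0010800fc001200000000000000) (nat_lit 0x0) (nat_lit 0x10001c800000000000000) := T_45 (nat_lit 63) (nat_lit 62) (nat_lit 2) (nat_lit 8) (nat_lit 4) L124579 (by decide +kernel)
theorem L124581 : W_45 (nat_lit 4) (nat_lit 0x10001e000d00108007c001200000000000000) (nat_lit 0x0) (nat_lit 0x200018001c800000000000000) := T_45 (nat_lit 79) (nat_lit 97) (nat_lit 3) (nat_lit 8) (nat_lit 4) L124580 (by decide +kernel)
theorem L124582 : W_45 (nat_lit 5) (nat_lit 0x10001e000d00008007c001200000000000000) (nat_lit 0x0) (nat_lit 0x380018001c800000000000000) := T_45 (nat_lit 96) (nat_lit 95) (nat_lit 3) (nat_lit 7) (nat_lit 4) L124581 (by decide +kernel)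
theorem L124583 : W_45 (nat_lit 6) (nat_lit 0x10001e000900008007c001200000000000000) (nat_lit 0x0) (nat_lit 0x4003a0018001c800000000000000) := T_45 (nat_lit 110) (nat_lit 93) (nat_lit 6) (nat_lit 8) (nat_lit 7) L124582 (by decide +kernel)
theorem L124584 : W_45 (nat_lit 7) (nat_lit 0x10001e000900008003c001200000000000000) (nat_lit 0x0) (nat_lit 0x4003b001c001c800000000000000) := T_45 (nat_lit 78) (nat_lit 92) (nat_lit 1) (nat_lit 10) (nat_lit 4) L124583 (by decide +kernel)
theorem L124585 : W_45 (nat_lit 8) (nat_lit 0x10001e000900008003c000200000000000000) (nat_lit 0x0) (nat_lit 0x4003b001c001f800000000000000) := T_45 (nat_lit 60) (nat_lit 61) (nat_lit 2) (nat_lit 6) (nat_lit 4) L124584 (by decide +kernel)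
theorem L124586 : W_45 (nat_lit 9) (nat_lit 0x10001e000900008003c000000000000000000) (nat_lit 0x0) (nat_lit 0x4003b001c001fb00000000000000) := T_45 (nat_lit 57) (nat_lit 56) (nat_lit 0) (nat_lit 9) (nat_lit 4) L124585 (by decide +kernel)
theorem L124587 : W_45 (nat_lit 10) (nat_lit 0x10001e000900008002c000000000000000000) (nat_lit 0x0) (nat_lit 0x4003b401d001fb00000000000000) := T_45 (nat_lit 76) (nat_lit 90) (nat_lit 1) (nat_lit 9) (nat_lit 4) L124586 (by decide +kernel)
theorem L124588 : W_45 (nat_lit 11) (nat_lit 0x10001e000900008000c000000000000000000) (nat_lit 0x0) (nat_lit 0x4003f401f001fb00000000000000) := T_45 (nat_lit 77) (nat_lit 94) (nat_lit 5) (nat_lit 9) (nat_lit 4) L124587 (by decide +kernel)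
theorem L124589 : W_45 (nat_lit 12) (nat_lit 0x10001e000100008000c000000000000000000) (nat_lit 0x0) (nat_lit 0x1c003f401f001fb00000000000000) := T_45 (nat_lit 111) (nat_lit 112) (nat_lit 2) (nat_lit 6) (nat_lit 7) L124588 (by decide +kernel)
theorem L124590 : W_45 (nat_lit 13) (nat_lit 0x10001e0001000080004000000000000000000) (nat_lit 0x0) (nat_lit 0x1c003f401f801ff00000000000000) := T_45 (nat_lit 75) (nat_lit 58) (nat_lit 6) (nat_lit 6) (nat_lit 7) L124589 (by decide +kernel)
theorem L124591 : W_45 (nat_lit 14) (nat_lit 0x10000e0001000080004000000000000000000) (nat_lit 0x0) (nat_lit 0x10001c803f401f801ff00000000000000) := T_45 (nat_lit 128) (nat_lit 107) (nat_lit 0) (nat_lit 9) (nat_lit 7) L124590 (by decide +kernel)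
theorem L124592 : W_45 (nat_lit 2) (nat_lit 0x10001e000900008007c000000000000000000) (nat_lit 0x0) (nat_lit 0x7000000000000000) := D_45 (nat_lit 61) (nat_lit 60) (nat_lit 62) (nat_lit 2) (nat_lit 6) (nat_lit 4) (nat_lit 2) (nat_lit 7) (nat_lit 4) (by decide +kernel)
theorem L124593 : W_45 (nat_lit 3) (nat_lit 0x10001e000900008003c000000000000000000) (nat_lit 0x0) (nat_lit 0x100040007000000000000000) := T_45 (nat_lit 78) (nat_lit 92) (nat_lit 1) (nat_lit 10) (nat_lit 4) L124592 (by decide +kernel)
theorem L124594 : W_45 (nat_lit 4) (nat_lit 0x10001e000900008002c000000000000000000) (nat_lit 0x0) (nat_lit 0x140050007000000000000000) := T_45 (nat_lit 76) (nat_lit 90) (nat_lit 1) (nat_lit 9) (nat_lit 4) L124593 (by decide +kernel)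
theorem L124595 : W_45 (nat_lit 5) (nat_lit 0x10001e000900008000c000000000000000000) (nat_lit 0x0) (nat_lit 0x540070007000000000000000) := T_45 (nat_lit 77) (nat_lit 94) (nat_lit 5) (nat_lit 9) (nat_lit 4) L124594 (by decide +kernel)
theorem L124596 : W_45 (nat_lit 6) (nat_lit 0x10001e000100008000c000000000000000000) (nat_lit 0x0) (nat_lit 0x18000540070007000000000000000) := T_45 (nat_lit 111) (nat_lit 112) (nat_lit 2) (nat_lit 6) (nat_lit 7) L124595 (by decide +kernel)
theorem L124597 : W_45 (nat_lit 7) (nat_lit 0x10001e0001000080004000000000000000000) (nat_lit 0x0) (nat_lit 0x18000540078007400000000000000) := T_45 (nat_lit 75) (nat_lit 58) (nat_lit 6) (nat_lit 6) (nat_lit 7) L124596 (by decide +kernel)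
theorem L124598 : W_45 (nat_lit 8) (nat_lit 0x10000e0001000080004000000000000000000) (nat_lit 0x0) (nat_lit 0x100018800540078007400000000000000) := T_45 (nat_lit 128) (nat_lit 107) (nat_lit 0) (nat_lit 9) (nat_lit 7) L124597 (by decide +kernel)
theorem L124599 : W_45 (nat_lit 15) (nat_lit 0x10000e0001000080000000000000000000000) (nat_lit 0x0) (nat_lit 0x10001c803f401fe01ff001e8000000000) := Q_45 (nat_lit 74) (C_45 L124555 (C_45 L124559 (C_45 L124562 (C_45 L124569 (C_45 L124578 (C_45 L124591 (C_45 L124598 N_45))))))) (by decide +kernel)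
theorem L124600 : W_45 (nat_lit 5) (nat_lit 0x10001e0001000080000000000000000000000) (nat_lit 0x0) (nat_lit 0x60000000000014000e000500000000000000) := T_45 (nat_lit 142) (nat_lit 141) (nat_lit 1) (nat_lit 9) (nat_lit 7) L124417 (by decide +kernel)
theorem L124601 : W_45 (nat_lit 6) (nat_lit 0x10000e0001000080000000000000000000000) (nat_lit 0x0) (nat_lit 0x60010000080014000e000500000000000000) := T_45 (nat_lit 128) (nat_lit 107) (nat_lit 0) (nat_lit 9) (nat_lit 7) L124600 (by decide +kernel)
theorem L124602 : W_45 (nat_lit 2) (nat_lit 0x10000e0001000180006000000000000000000) (nat_lit 0x0) (nat_lit 0x400000000000040008000000000000000000) := D_45 (nat_lit 142) (nat_lit 75) (nat_lit 90) (nat_lit 6) (nat_lit 6) (nat_lit 8) (nat_lit 4) (nat_lit 6) (nat_lit 8) (by decide +kernel)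
theorem L124603 : W_45 (nat_lit 3) (nat_lit 0x10000e0001000180004000000000000000000) (nat_lit 0x0) (nat_lit 0x40000000000004000a000100000000000000) := T_45 (nat_lit 73) (nat_lit 56) (nat_lit 4) (nat_lit 6) (nat_lit 7) L124602 (by decide +kernel)
theorem L124604 : W_45 (nat_lit 2) (nat_lit 0x10000e00054003e0016800000000000000000) (nat_lit 0x0) (nat_lit 0x18000400000000000000000) := D_45 (nat_lit 88) (nat_lit 70) (nat_lit 87) (nat_lit 0) (nat_lit 6) (nat_lit 5) (nat_lit 2) (nat_lit 2) (nat_lit 5) (by decide +kernel)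
theorem L124605 : W_45 (nat_lit 3) (nat_lit 0x10000e00054003c0016800000000000000000) (nat_lit 0x0) (nat_lit 0x200038000400000000000000000) := T_45 (nat_lit 89) (nat_lit 105) (nat_lit 1) (nat_lit 7) (nat_lit 5) L124604 (by decide +kernel)
theorem L124606 : W_45 (nat_lit 4) (nat_lit 0x10000e00050003c0016800000000000000000) (nat_lit 0x0) (nat_lit 0xe00038000400000000000000000) := T_45 (nat_lit 106) (nat_lit 107) (nat_lit 1) (nat_lit 8) (nat_lit 5) L124605 (by decide +kernel)
theorem L124607 : W_45 (nat_lit 5) (nat_lit 0x10000e00050003c0006800000000000000000) (nat_lit 0x0) (nat_lit 0xe00038030400000000000000000) := T_45 (nat_lit 76) (nat_lit 77) (nat_lit 2) (nat_lit 5) (nat_lit 5) L124606 (by decide +kernel)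
theorem L124608 : W_45 (nat_lit 6) (nat_lit 0x10000e0005000380006800000000000000000) (nat_lit 0x0) (nat_lit 0x8e00078030400000000000000000) := T_45 (nat_lit 90) (nat_lit 111) (nat_lit 3) (nat_lit 5) (nat_lit 5) L124607 (by decide +kernel)
theorem L124609 : W_45 (nat_lit 7) (nat_lit 0x10000e0001000380006800000000000000000) (nat_lit 0x0) (nat_lit 0xce00078038400000000000000000) := T_45 (nat_lit 110) (nat_lit 75) (nat_lit 4) (nat_lit 8) (nat_lit 8) L124608 (by decide +kernel)
theorem L124610 : W_45 (nat_lit 8) (nat_lit 0x10000e0001000180006800000000000000000) (nat_lit 0x0) (nat_lit 0xce00678038400000000000000000) := T_45 (nat_lit 93) (nat_lit 94) (nat_lit 0) (nat_lit 9) (nat_lit 5) L124609 (by decide +kernel)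
theorem L124611 : W_45 (nat_lit 9) (nat_lit 0x10000e0001000180006000000000000000000) (nat_lit 0x0) (nat_lit 0xce00678039c00000000000000000) := T_45 (nat_lit 71) (nat_lit 72) (nat_lit 3) (nat_lit 3) (nat_lit 4) L124610 (by decide +kernel)
theorem L124612 : W_45 (nat_lit 10) (nat_lit 0x10000e0001000180004000000000000000000) (nat_lit 0x0) (nat_lit 0xce0067803bc00100000000000000) := T_45 (nat_lit 73) (nat_lit 56) (nat_lit 4) (nat_lit 6) (nat_lit 7) L124611 (by decide +kernel)
theorem L124613 : W_45 (nat_lit 2) (nat_lit 0x10000e0001000380006800000000000000000) (nat_lit 0x0) (nat_lit 0x400000004000000008000000000000000000) := D_45 (nat_lit 75) (nat_lit 142) (nat_lit 110) (nat_lit 6) (nat_lit 6) (nat_lit 8) (nat_lit 4) (nat_lit 8) (nat_lit 8) (by decide +kernel)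
theorem L124614 : W_45 (nat_lit 3) (nat_lit 0x10000e0001000180006800000000000000000) (nat_lit 0x0) (nat_lit 0x400000004000600008000000000000000000) := T_45 (nat_lit 93) (nat_lit 94) (nat_lit 0) (nat_lit 9) (nat_lit 5) L124613 (by decide +kernel)
theorem L124615 : W_45 (nat_lit 4) (nat_lit 0x10000e0001000180006000000000000000000) (nat_lit 0x0) (nat_lit 0x400000004000600009800000000000000000) := T_45 (nat_lit 71) (nat_lit 72) (nat_lit 3) (nat_lit 3) (nat_lit 4) L124614 (by decide +kernel)
theorem L124616 : W_45 (nat_lit 5) (nat_lit 0x10000e0001000180004000000000000000000) (nat_lit 0x0) (nat_lit 0x40000000400060000b800100000000000000) := T_45 (nat_lit 73) (nat_lit 56) (nat_lit 4) (nat_lit 6) (nat_lit 7) L124615 (by decide +kernel)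
theorem L124617 : W_45 (nat_lit 2) (nat_lit 0x10000e00054003e0006800000000000000000) (nat_lit 0x0) (nat_lit 0x18000400000000000000000) := D_45 (nat_lit 88) (nat_lit 70) (nat_lit 87) (nat_lit 0) (nat_lit 6) (nat_lit 5) (nat_lit 2) (nat_lit 2) (nat_lit 5) (by decide +kernel)
theorem L124618 : W_45 (nat_lit 3) (nat_lit 0x10000e00054003c0006800000000000000000) (nat_lit 0x0) (nat_lit 0x200038000400000000000000000) := T_45 (nat_lit 89) (nat_lit 105) (nat_lit 1) (nat_lit 7) (nat_lit 5) L124617 (by decide +kernel)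
theorem L124619 : W_45 (nat_lit 4) (nat_lit 0x10000e00014003c0006800000000000000000) (nat_lit 0x0) (nat_lit 0xc200038000400000000000000000) := T_45 (nat_lit 110) (nat_lit 111) (nat_lit 3) (nat_lit 5) (nat_lit 5) L124618 (by decide +kernel)
theorem L124620 : W_45 (nat_lit 5) (nat_lit 0x10000e00010003c0006800000000000000000) (nat_lit 0x0) (nat_lit 0xce00038000400000000000000000) := T_45 (nat_lit 106) (nat_lit 107) (nat_lit 1) (nat_lit 8) (nat_lit 5) L124619 (by decide +kernel)
theorem L124621 : W_45 (nat_lit 6) (nat_lit 0x10000e00010001c0006800000000000000000) (nat_lit 0x0) (nat_lit 0xce00638000400000000000000000) := T_45 (nat_lit 93) (nat_lit 94) (nat_lit 0) (nat_lit 9) (nat_lit 5) L124620 (by decide +kernel)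
theorem L124622 : W_45 (nat_lit 7) (nat_lit 0x10000e0001000180006800000000000000000) (nat_lit 0x0) (nat_lit 0x40000000ce00678000400000000000000000) := T_45 (nat_lit 90) (nat_lit 142) (nat_lit 4) (nat_lit 6) (nat_lit 8) L124621 (by decide +kernel)
theorem L124623 : W_45 (nat_lit 8) (nat_lit 0x10000e0001000180006000000000000000000) (nat_lit 0x0) (nat_lit 0x40000000ce00678001c00000000000000000) := T_45 (nat_lit 71) (nat_lit 72) (nat_lit 3) (nat_lit 3) (nat_lit 4) L124622 (by decide +kernel)
theorem L124624 : W_45 (nat_lit 9) (nat_lit 0x10000e0001000180004000000000000000000) (nat_lit 0x0) (nat_lit 0x40000000ce00678003c00100000000000000) := T_45 (nat_lit 73) (nat_lit 56) (nat_lit 4) (nat_lit 6) (nat_lit 7) L124623 (by decide +kernel)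
theorem L124625 : W_45 (nat_lit 2) (nat_lit 0x10000e000100038000c000000000000000000) (nat_lit 0x0) (nat_lit 0x800c00000000000000000000000) := D_45 (nat_lit 94) (nat_lit 107) (nat_lit 95) (nat_lit 1) (nat_lit 9) (nat_lit 5) (nat_lit 0) (nat_lit 10) (nat_lit 5) (by decide +kernel)
theorem L124626 : W_45 (nat_lit 3) (nat_lit 0x10000e000100018000c000000000000000000) (nat_lit 0x0) (nat_lit 0x4800e00000000000000000000000) := T_45 (nat_lit 93) (nat_lit 110) (nat_lit 4) (nat_lit 8) (nat_lit 8) L124625 (by decide +kernel)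
theorem L124627 : W_45 (nat_lit 4) (nat_lit 0x10000e0001000180004000000000000000000) (nat_lit 0x0) (nat_lit 0x400000004800e00008000000000000000000) := T_45 (nat_lit 75) (nat_lit 142) (nat_lit 6) (nat_lit 6) (nat_lit 8) L124626 (by decide +kernel)
theorem L124628 : W_45 (nat_lit 11) (nat_lit 0x10000e0001000080004000000000000000000) (nat_lit 0x0) (nat_lit 0x40000000ce00f7803bc00100000000000000) := Q_45 (nat_lit 92) (C_45 L124603 (C_45 L124612 (C_45 L124616 (C_45 L124624 (C_45 L124627 N_45))))) (by decide +kernel)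
theorem L124629 : W_45 (nat_lit 2) (nat_lit 0x10000e0001000080004000200000000000000) (nat_lit 0x0) (nat_lit 0x2000100008000000000) := D_45 (nat_lit 56) (nat_lit 73) (nat_lit 39) (nat_lit 4) (nat_lit 6) (nat_lit 7) (nat_lit 4) (nat_lit 6) (nat_lit 6) (by decide +kernel)
theorem L124630 : W_45 (nat_lit 2) (nat_lit 0x10000e0001000080004000200028000000000) (nat_lit 0x0) (nat_lit 0x10001400000) := D_45 (nat_lit 40) (nat_lit 24) (nat_lit 22) (nat_lit 6) (nat_lit 6) (nat_lit 5) (nat_lit 4) (nat_lit 6) (nat_lit 5) (by decide +kernel)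
theorem L124631 : W_45 (nat_lit 3) (nat_lit 0x10000e0001000080004000200020000000000) (nat_lit 0x0) (nat_lit 0x100018001400000) := T_45 (nat_lit 39) (nat_lit 56) (nat_lit 4) (nat_lit 6) (nat_lit 6) L124630 (by decide +kernel)
theorem L124632 : W_45 (nat_lit 4) (nat_lit 0x10000e0001000080004000200000000000000) (nat_lit 0x0) (nat_lit 0x500038001400000) := T_45 (nat_lit 41) (nat_lit 58) (nat_lit 6) (nat_lit 6) (nat_lit 6) L124631 (by decide +kernel)
theorem L124633 : W_45 (nat_lit 2) (nat_lit 0x10000e00010000c0004000200030000000000) (nat_lit 0x0) (nat_lit 0x400000000000000002000000000000800000) := D_45 (nat_lit 73) (nat_lit 23) (nat_lit 142) (nat_lit 5) (nat_lit 6) (nat_lit 1) (nat_lit 4) (nat_lit 6) (nat_lit 8) (by decide +kernel)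
theorem L124634 : W_45 (nat_lit 3) (nat_lit 0x10000e0001000080004000200030000000000) (nat_lit 0x0) (nat_lit 0x400000000800040002000000000000800000) := T_45 (nat_lit 90) (nat_lit 107) (nat_lit 5) (nat_lit 6) (nat_lit 2) L124633 (by decide +kernel)
theorem L124635 : W_45 (nat_lit 4) (nat_lit 0x10000e0001000080004000200020000000000) (nat_lit 0x0) (nat_lit 0x400000000800040002000000010001800000) := T_45 (nat_lit 40) (nat_lit 24) (nat_lit 6) (nat_lit 6) (nat_lit 5) L124634 (by decide +kernel)
theorem L124636 : W_45 (nat_lit 5) (nat_lit 0x10000e0001000080004000200000000000000) (nat_lit 0x0) (nat_lit 0x400000000800040002000400030001800000) := T_45 (nat_lit 41) (nat_lit 58) (nat_lit 6) (nat_lit 6) (nat_lit 6) L124635 (by decide +kernel)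
theorem L124637 : W_45 (nat_lit 6) (nat_lit 0x10000e0001000080004000000000000000000) (nat_lit 0x0) (nat_lit 0x400000000800040002000700038001c00000) := Q_45 (nat_lit 57) (C_45 L124629 (C_45 L124632 (C_45 L124636 N_45))) (by decide +kernel)
theorem L124638 : W_45 (nat_lit 4) (nat_lit 0x10000e000100008000c000000000000000000) (nat_lit 0x0) (nat_lit 0x400000004800f00000000000000000000000) := T_45 (nat_lit 92) (nat_lit 142) (nat_lit 6) (nat_lit 6) (nat_lit 8) L124626 (by decide +kernel)
theorem L124639 : W_45 (nat_lit 5) (nat_lit 0x10000e0001000080004000000000000000000) (nat_lit 0x0) (nat_lit 0x400000004800f00008000400000000000000) := T_45 (nat_lit 75) (nat_lit 58) (nat_lit 6) (nat_lit 6) (nat_lit 7) L124638 (by decide +kernel)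
theorem L124640 : W_45 (nat_lit 12) (nat_lit 0x10000e0001000080000000000000000000000) (nat_lit 0x0) (nat_lit 0x40000000ce00f7803fc00700038001c00000) := Q_45 (nat_lit 74) (C_45 L124562 (C_45 L124628 (C_45 L124637 (C_45 L124639 N_45)))) (by decide +kernel)
theorem L124641 : W_45 (nat_lit 2) (nat_lit 0x14000e0001000080000000000000000000000) (nat_lit 0x0) (nat_lit 0x200100000800000000000000000000000000) := D_45 (nat_lit 128) (nat_lit 107) (nat_lit 141) (nat_lit 0) (nat_lit 9) (nat_lit 7) (nat_lit 1) (nat_lit 9) (nat_lit 7) (by decide +kernel)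
theorem L124642 : W_45 (nat_lit 2) (nat_lit 0x40014000e00010000c0000000000000000000000) (nat_lit 0x0) (nat_lit 0x80008000000000000800000000000000000000000000) := D_45 (nat_lit 159) (nat_lit 107) (nat_lit 175) (nat_lit 4) (nat_lit 6) (nat_lit 9) (nat_lit 5) (nat_lit 6) (nat_lit 6) (by decide +kernel)
theorem L124643 : W_45 (nat_lit 3) (nat_lit 0x14000e00010000c0000000000000000000000) (nat_lit 0x0) (nat_lit 0x8000c000200000000800000000000000000000000000) := T_45 (nat_lit 158) (nat_lit 141) (nat_lit 5) (nat_lit 6) (nat_lit 5) L124642 (by decide +kernel)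
theorem L124644 : W_45 (nat_lit 4) (nat_lit 0x14000e0001000080000000000000000000000) (nat_lit 0x0) (nat_lit 0x8000c000200000000800040002000000000000000000) := T_45 (nat_lit 90) (nat_lit 73) (nat_lit 4) (nat_lit 6) (nat_lit 8) L124643 (by decide +kernel)
theorem L124645 : W_45 (nat_lit 2) (nat_lit 0x14000e00010000c0000000000000000000000) (nat_lit 0x0) (nat_lit 0x8000000100000800000000000000000000000000) := D_45 (nat_lit 107) (nat_lit 128) (nat_lit 159) (nat_lit 0) (nat_lit 9) (nat_lit 7) (nat_lit 4) (nat_lit 6) (nat_lit 9) (by decide +kernel)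
theorem L124646 : W_45 (nat_lit 3) (nat_lit 0x14000e0001000080000000000000000000000) (nat_lit 0x0) (nat_lit 0x8000000100000800040002000000000000000000) := T_45 (nat_lit 90) (nat_lit 73) (nat_lit 4) (nat_lit 6) (nat_lit 8) L124645 (by decide +kernel)
theorem L124647 : W_45 (nat_lit 2) (nat_lit 0x14000e0001000080000000000000000000000) (nat_lit 0x0) (nat_lit 0x4000200100000000000000000000000000000000) := D_45 (nat_lit 141) (nat_lit 158) (nat_lit 128) (nat_lit 5) (nat_lit 6) (nat_lit 5) (nat_lit 1) (nat_lit 9) (nat_lit 7) (by decide +kernel)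
theorem L124648 : W_45 (nat_lit 5) (nat_lit 0x10000e0001000080000000000000000000000) (nat_lit 0x0) (nat_lit 0x8000c000600100000800040002000000000000000000) := Q_45 (nat_lit 142) (C_45 L124641 (C_45 L124644 (C_45 L124646 (C_45 L124647 N_45)))) (by decide +kernel)
theorem L124649 : W_45 (nat_lit 2) (nat_lit 0x16800e0001000080006000000000000000000) (nat_lit 0x0) (nat_lit 0x100008000400000000000000) := D_45 (nat_lit 75) (nat_lit 92) (nat_lit 58) (nat_lit 6) (nat_lit 6) (nat_lit 8) (nat_lit 6) (nat_lit 6) (nat_lit 7) (by decide +kernel)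
theorem L124650 : W_45 (nat_lit 3) (nat_lit 0x16800e0001000080002000000000000000000) (nat_lit 0x0) (nat_lit 0x10000c000500000000000000) := T_45 (nat_lit 74) (nat_lit 56) (nat_lit 4) (nat_lit 6) (nat_lit 7) L124649 (by decide +kernel)
theorem L124651 : W_45 (nat_lit 4) (nat_lit 0x16000e0001000080002000000000000000000) (nat_lit 0x0) (nat_lit 0x18000000000010000c000500000000000000) := T_45 (nat_lit 139) (nat_lit 140) (nat_lit 2) (nat_lit 3) (nat_lit 8) L124650 (by decide +kernel)
theorem L124652 : W_45 (nat_lit 5) (nat_lit 0x14000e0001000080002000000000000000000) (nat_lit 0x0) (nat_lit 0x400038000000000010000c000500000000000000) := T_45 (nat_lit 141) (nat_lit 158) (nat_lit 5) (nat_lit 6) (nat_lit 5) L124651 (by decide +kernel)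
theorem L124653 : W_45 (nat_lit 6) (nat_lit 0x14000e0001000080000000000000000000000) (nat_lit 0x0) (nat_lit 0x400038000000000014000e000500000000000000) := T_45 (nat_lit 73) (nat_lit 90) (nat_lit 4) (nat_lit 6) (nat_lit 8) L124652 (by decide +kernel)
theorem L124654 : W_45 (nat_lit 2) (nat_lit 0x14000e000100008000a000000000000000000) (nat_lit 0x0) (nat_lit 0x4000500000000000000) := D_45 (nat_lit 74) (nat_lit 58) (nat_lit 56) (nat_lit 6) (nat_lit 6) (nat_lit 7) (nat_lit 4) (nat_lit 6) (nat_lit 7) (by decide +kernel)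
theorem L124655 : W_45 (nat_lit 3) (nat_lit 0x14000e0001000080008000000000000000000) (nat_lit 0x0) (nat_lit 0x40006000500000000000000) := T_45 (nat_lit 73) (nat_lit 90) (nat_lit 4) (nat_lit 6) (nat_lit 8) L124654 (by decide +kernel)
theorem L124656 : W_45 (nat_lit 4) (nat_lit 0x14000e0001000080000000000000000000000) (nat_lit 0x0) (nat_lit 0x14000e000500000000000000) := T_45 (nat_lit 75) (nat_lit 92) (nat_lit 6) (nat_lit 6) (nat_lit 8) L124655 (by decide +kernel)
theorem L124657 : W_45 (nat_lit 7) (nat_lit 0x10000e0001000080000000000000000000000) (nat_lit 0x0) (nat_lit 0x400078010000000014000e000500000000000000) := Q_45 (nat_lit 142) (C_45 L124647 (C_45 L124653 (C_45 L124656 N_45))) (by decide +kernel)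
theorem L124658 : W_45 (nat_lit 2) (nat_lit 0x14001e000900008002c000100000000000000) (nat_lit 0x0) (nat_lit 0x10000200008000000000) := D_45 (nat_lit 57) (nat_lit 39) (nat_lit 76) (nat_lit 4) (nat_lit 6) (nat_lit 6) (nat_lit 0) (nat_lit 9) (nat_lit 4) (by decide +kernel)
theorem L124659 : W_45 (nat_lit 3) (nat_lit 0x14001e000900008002c000000000000000000) (nat_lit 0x0) (nat_lit 0x12000300008000000000) := T_45 (nat_lit 56) (nat_lit 73) (nat_lit 4) (nat_lit 6) (nat_lit 7) L124658 (by decide +kernel)
theorem L124660 : W_45 (nat_lit 4) (nat_lit 0x14001e0009000080028000000000000000000) (nat_lit 0x0) (nat_lit 0x16000700008000000000) := T_45 (nat_lit 74) (nat_lit 58) (nat_lit 6) (nat_lit 6) (nat_lit 7) L124659 (by decide +kernel)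
theorem L124661 : W_45 (nat_lit 5) (nat_lit 0x14001e0009000080008000000000000000000) (nat_lit 0x0) (nat_lit 0x400036000700008000000000) := T_45 (nat_lit 77) (nat_lit 94) (nat_lit 5) (nat_lit 9) (nat_lit 4) L124660 (by decide +kernel)
theorem L124662 : W_45 (nat_lit 6) (nat_lit 0x14001e0009000080000000000000000000000) (nat_lit 0x0) (nat_lit 0x50003e000700008000000000) := T_45 (nat_lit 75) (nat_lit 92) (nat_lit 6) (nat_lit 6) (nat_lit 8) L124661 (by decide +kernel)
theorem L124663 : W_45 (nat_lit 7) (nat_lit 0x14001e0001000080000000000000000000000) (nat_lit 0x0) (nat_lit 0x1800050003e000700008000000000) := T_45 (nat_lit 111) (nat_lit 112) (nat_lit 2) (nat_lit 6) (nat_lit 7) L124662 (by decide +kernel)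
theorem L124664 : W_45 (nat_lit 8) (nat_lit 0x10001e0001000080000000000000000000000) (nat_lit 0x0) (nat_lit 0x60000001800050003e000700008000000000) := T_45 (nat_lit 142) (nat_lit 141) (nat_lit 1) (nat_lit 9) (nat_lit 7) L124663 (by decide +kernel)
theorem L124665 : W_45 (nat_lit 9) (nat_lit 0x10000e0001000080000000000000000000000) (nat_lit 0x0) (nat_lit 0x60010001880050003e000700008000000000) := T_45 (nat_lit 128) (nat_lit 107) (nat_lit 0) (nat_lit 9) (nat_lit 7) L124664 (by decide +kernel)
theorem L124666 : W_45 (nat_lit 2) (nat_lit 0x14000e0001c00180000000000000000000000) (nat_lit 0x0) (nat_lit 0x640000000000000000000000) := D_45 (nat_lit 93) (nat_lit 94) (nat_lit 90) (nat_lit 1) (nat_lit 9) (nat_lit 5) (nat_lit 1) (nat_lit 8) (nat_lit 5) (by decide +kernel)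
theorem L124667 : W_45 (nat_lit 3) (nat_lit 0x14000e0001800180000000000000000000000) (nat_lit 0x0) (nat_lit 0x600640000000000000000000000) := T_45 (nat_lit 106) (nat_lit 105) (nat_lit 3) (nat_lit 3) (nat_lit 6) L124666 (by decide +kernel)
theorem L124668 : W_45 (nat_lit 4) (nat_lit 0x14000e0001800080000000000000000000000) (nat_lit 0x0) (nat_lit 0x600740008000000000000000000) := T_45 (nat_lit 92) (nat_lit 75) (nat_lit 6) (nat_lit 6) (nat_lit 8) L124667 (by decide +kernel)
theorem L124669 : W_45 (nat_lit 2) (nat_lit 0x10000e0001000180008000000000000000000) (nat_lit 0x0) (nat_lit 0x4000400020000000000) := D_45 (nat_lit 58) (nat_lit 74) (nat_lit 41) (nat_lit 6) (nat_lit 6) (nat_lit 7) (nat_lit 5) (nat_lit 7) (nat_lit 2) (by decide +kernel)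
theorem L124670 : W_45 (nat_lit 3) (nat_lit 0x10000e0001000080008000000000000000000) (nat_lit 0x0) (nat_lit 0x400000000000100004000400020000000000) := T_45 (nat_lit 92) (nat_lit 142) (nat_lit 6) (nat_lit 6) (nat_lit 8) L124669 (by decide +kernel)
theorem L124671 : W_45 (nat_lit 7) (nat_lit 0x10000e000100008000c000000000000000000) (nat_lit 0x0) (nat_lit 0x100018800540070007000000000000000) := T_45 (nat_lit 128) (nat_lit 107) (nat_lit 0) (nat_lit 9) (nat_lit 7) L124596 (by decide +kernel)
theorem L124672 : W_45 (nat_lit 8) (nat_lit 0x10000e0001000080008000000000000000000) (nat_lit 0x0) (nat_lit 0x100018800540074007400000000000000) := T_45 (nat_lit 74) (nat_lit 58) (nat_lit 6) (nat_lit 6) (nat_lit 7) L124671 (by decide +kernel)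
theorem L124673 : W_45 (nat_lit 2) (nat_lit 0x10001e0001000080028000000000000000000) (nat_lit 0x0) (nat_lit 0x18000400000000000000000000000) := D_45 (nat_lit 111) (nat_lit 112) (nat_lit 94) (nat_lit 2) (nat_lit 6) (nat_lit 7) (nat_lit 5) (nat_lit 9) (nat_lit 4) (by decide +kernel)
theorem L124674 : W_45 (nat_lit 3) (nat_lit 0x10000e0001000080028000000000000000000) (nat_lit 0x0) (nat_lit 0x100018800400000000000000000000000) := T_45 (nat_lit 128) (nat_lit 107) (nat_lit 0) (nat_lit 9) (nat_lit 7) L124673 (by decide +kernel)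
theorem L124675 : W_45 (nat_lit 2) (nat_lit 0x10001e000100088007c000200000000000000) (nat_lit 0x0) (nat_lit 0x7000000000000000) := D_45 (nat_lit 61) (nat_lit 62) (nat_lit 60) (nat_lit 2) (nat_lit 7) (nat_lit 4) (nat_lit 2) (nat_lit 6) (nat_lit 4) (by decide +kernel)
theorem L124676 : W_45 (nat_lit 3) (nat_lit 0x10001e000100088003c000200000000000000) (nat_lit 0x0) (nat_lit 0x1000040007000000000000000) := T_45 (nat_lit 78) (nat_lit 96) (nat_lit 3) (nat_lit 7) (nat_lit 4) L124675 (by decide +kernel)
theorem L124677 : W_45 (nat_lit 4) (nat_lit 0x10000e000100088003c000200000000000000) (nat_lit 0x0) (nat_lit 0x100000801000040007000000000000000) := T_45 (nat_lit 128) (nat_lit 107) (nat_lit 0) (nat_lit 9) (nat_lit 7) L124676 (by decide +kernel)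
theorem L124678 : W_45 (nat_lit 5) (nat_lit 0x10000e000100008003c000200000000000000) (nat_lit 0x0) (nat_lit 0x100000801c00040007000000000000000) := T_45 (nat_lit 95) (nat_lit 94) (nat_lit 3) (nat_lit 6) (nat_lit 4) L124677 (by decide +kernel)
theorem L124679 : W_45 (nat_lit 6) (nat_lit 0x10000e000100008003c000000000000000000) (nat_lit 0x0) (nat_lit 0x100000801c00040007300000000000000) := T_45 (nat_lit 57) (nat_lit 56) (nat_lit 0) (nat_lit 9) (nat_lit 4) L124678 (by decide +kernel)
theorem L124680 : W_45 (nat_lit 7) (nat_lit 0x10000e000100008002c000000000000000000) (nat_lit 0x0) (nat_lit 0x100000801c40050007300000000000000) := T_45 (nat_lit 76) (nat_lit 90) (nat_lit 1) (nat_lit 9) (nat_lit 4) L124679 (by decide +kernel)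
theorem L124681 : W_45 (nat_lit 8) (nat_lit 0x10000e0001000080028000000000000000000) (nat_lit 0x0) (nat_lit 0x100000801c40054007700000000000000) := T_45 (nat_lit 74) (nat_lit 58) (nat_lit 6) (nat_lit 6) (nat_lit 7) L124680 (by decide +kernel)
theorem L124682 : W_45 (nat_lit 2) (nat_lit 0x10003e001100088007c002200000000000000) (nat_lit 0x0) (nat_lit 0xc000400000000000000000000000000000000) := D_45 (nat_lit 147) (nat_lit 146) (nat_lit 130) (nat_lit 3) (nat_lit 7) (nat_lit 7) (nat_lit 7) (nat_lit 10) (nat_lit 4) (by decide +kernel)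
theorem L124683 : W_45 (nat_lit 3) (nat_lit 0x10003e001100008007c002200000000000000) (nat_lit 0x0) (nat_lit 0xc000400000001800000000000000000000000) := T_45 (nat_lit 95) (nat_lit 96) (nat_lit 3) (nat_lit 7) (nat_lit 4) L124682 (by decide +kernel)
theorem L124684 : W_45 (nat_lit 4) (nat_lit 0x10001e001100008007c002200000000000000) (nat_lit 0x0) (nat_lit 0xc000600020001800000000000000000000000) := T_45 (nat_lit 129) (nat_lit 113) (nat_lit 2) (nat_lit 7) (nat_lit 7) L124683 (by decide +kernel)
theorem L124685 : W_45 (nat_lit 5) (nat_lit 0x10001e001100008003c002200000000000000) (nat_lit 0x0) (nat_lit 0xc000600020001800040004000000000000000) := T_45 (nat_lit 78) (nat_lit 62) (nat_lit 2) (nat_lit 7) (nat_lit 4) L124684 (by decide +kernel)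
theorem L124686 : W_45 (nat_lit 6) (nat_lit 0x10001e000100008003c002200000000000000) (nat_lit 0x0) (nat_lit 0xc000600038001800040004000000000000000) := T_45 (nat_lit 112) (nat_lit 111) (nat_lit 2) (nat_lit 6) (nat_lit 7) L124685 (by decide +kernel)
theorem L124687 : W_45 (nat_lit 7) (nat_lit 0x10001e000100008003c000200000000000000) (nat_lit 0x0) (nat_lit 0xc000600038001800040007000000000000000) := T_45 (nat_lit 61) (nat_lit 60) (nat_lit 2) (nat_lit 6) (nat_lit 4) L124686 (by decide +kernel)
theorem L124688 : W_45 (nat_lit 8) (nat_lit 0x10001e000100008003c000000000000000000) (nat_lit 0x0) (nat_lit 0xc000600038001800040007300000000000000) := T_45 (nat_lit 57) (nat_lit 56) (nat_lit 0) (nat_lit 9) (nat_lit 4) L124687 (by decide +kernel)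
theorem L124689 : W_45 (nat_lit 9) (nat_lit 0x10001e000100008002c000000000000000000) (nat_lit 0x0) (nat_lit 0xc000600038001840050007300000000000000) := T_45 (nat_lit 76) (nat_lit 90) (nat_lit 1) (nat_lit 9) (nat_lit 4) L124688 (by decide +kernel)
theorem L124690 : W_45 (nat_lit 10) (nat_lit 0x10001e0001000080028000000000000000000) (nat_lit 0x0) (nat_lit 0xc000600038001840054007700000000000000) := T_45 (nat_lit 74) (nat_lit 58) (nat_lit 6) (nat_lit 6) (nat_lit 7) L124689 (by decide +kernel)
theorem L124691 : W_45 (nat_lit 11) (nat_lit 0x10000e0001000080028000000000000000000) (nat_lit 0x0) (nat_lit 0xc000700038801840054007700000000000000) := T_45 (nat_lit 128) (nat_lit 107) (nat_lit 0) (nat_lit 9) (nat_lit 7) L124690 (by decide +kernel)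
theorem L124692 : W_45 (nat_lit 2) (nat_lit 0x10000e000100048003c001200000000000000) (nat_lit 0x0) (nat_lit 0xc000200000000000000000000000) := D_45 (nat_lit 110) (nat_lit 93) (nat_lit 111) (nat_lit 6) (nat_lit 8) (nat_lit 7) (nat_lit 5) (nat_lit 9) (nat_lit 3) (by decide +kernel)
theorem L124693 : W_45 (nat_lit 3) (nat_lit 0x10000e000100048003c000200000000000000) (nat_lit 0x0) (nat_lit 0xc000200000003000000000000000) := T_45 (nat_lit 60) (nat_lit 61) (nat_lit 2) (nat_lit 6) (nat_lit 4) L124692 (by decide +kernel)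
theorem L124694 : W_45 (nat_lit 4) (nat_lit 0x10000e000100008003c000200000000000000) (nat_lit 0x0) (nat_lit 0xc000e00000003000000000000000) := T_45 (nat_lit 94) (nat_lit 95) (nat_lit 3) (nat_lit 6) (nat_lit 4) L124693 (by decide +kernel)
theorem L124695 : W_45 (nat_lit 5) (nat_lit 0x10000e000100008003c000000000000000000) (nat_lit 0x0) (nat_lit 0xc000e00000003300000000000000) := T_45 (nat_lit 57) (nat_lit 56) (nat_lit 0) (nat_lit 9) (nat_lit 4) L124694 (by decide +kernel)
theorem L124696 : W_45 (nat_lit 6) (nat_lit 0x10000e000100008002c000000000000000000) (nat_lit 0x0) (nat_lit 0xc000e40010003300000000000000) := T_45 (nat_lit 76) (nat_lit 90) (nat_lit 1) (nat_lit 9) (nat_lit 4) L124695 (by decide +kernel)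
theorem L124697 : W_45 (nat_lit 7) (nat_lit 0x10000e0001000080028000000000000000000) (nat_lit 0x0) (nat_lit 0xc000e40014003700000000000000) := T_45 (nat_lit 74) (nat_lit 58) (nat_lit 6) (nat_lit 6) (nat_lit 7) L124696 (by decide +kernel)
theorem L124698 : W_45 (nat_lit 12) (nat_lit 0x10000e0001000080008000000000000000000) (nat_lit 0x0) (nat_lit 0xc00070003c801e40074007700000000000000) := Q_45 (nat_lit 77) (C_45 L124674 (C_45 L124681 (C_45 L124691 (C_45 L124697 N_45)))) (by decide +kernel)
theorem L124699 : W_45 (nat_lit 2) (nat_lit 0x14000e0001000080008000000000000000000) (nat_lit 0x0) (nat_lit 0x4000200100000000000000000000000000000000) := D_45 (nat_lit 141) (nat_lit 158) (nat_lit 128) (nat_lit 5) (nat_lit 6) (nat_lit 5) (nat_lit 1) (nat_lit 9) (nat_lit 7) (by decide +kernel)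
theorem L124700 : W_45 (nat_lit 3) (nat_lit 0x10000e0001000080008000000000000000000) (nat_lit 0x0) (nat_lit 0x4000600100000000100000000000000000000000) := T_45 (nat_lit 142) (nat_lit 92) (nat_lit 6) (nat_lit 6) (nat_lit 8) L124699 (by decide +kernel)
theorem L124701 : W_45 (nat_lit 13) (nat_lit 0x10000e0001000080000000000000000000000) (nat_lit 0x0) (nat_lit 0x400c60070003c801f4007c007700020000000000) := Q_45 (nat_lit 75) (C_45 L124670 (C_45 L124672 (C_45 L124698 (C_45 L124700 N_45)))) (by decide +kernel)
theorem L124702 : W_45 (nat_lit 16) (nat_lit 0x10000e0001000000000000000000000000000) (nat_lit 0x0) (nat_lit 0x8000c00c78070003ce03ff81ffc1ff001f8001c00000) := Q_45 (nat_lit 91) (C_45 L124599 (C_45 L124601 (C_45 L124640 (C_45 L124648 (C_45 L124657 (C_45 L124665 (C_45 L124701 N_45))))))) (by decide +kernel)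
theorem L124703 : W_45 (nat_lit 2) (nat_lit 0x10007e0011000000000000000000000000000) (nat_lit 0x0) (nat_lit 0x1c000000000000000000000000000000000000) := D_45 (nat_lit 147) (nat_lit 146) (nat_lit 148) (nat_lit 3) (nat_lit 7) (nat_lit 7) (nat_lit 3) (nat_lit 8) (nat_lit 7) (by decide +kernel)
theorem L124704 : W_45 (nat_lit 3) (nat_lit 0x10003e0011000000000000000000000000000) (nat_lit 0x0) (nat_lit 0x1c800400000000000000000000000000000000) := T_45 (nat_lit 130) (nat_lit 143) (nat_lit 1) (nat_lit 11) (nat_lit 7) L124703 (by decide +kernel)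
theorem L124705 : W_45 (nat_lit 4) (nat_lit 0x10001e0011000000000000000000000000000) (nat_lit 0x0) (nat_lit 0x1c800600020000000000000000000000000000) := T_45 (nat_lit 129) (nat_lit 113) (nat_lit 2) (nat_lit 7) (nat_lit 7) L124704 (by decide +kernel)
theorem L124706 : W_45 (nat_lit 5) (nat_lit 0x10001e0001000000000000000000000000000) (nat_lit 0x0) (nat_lit 0x1c800600038000000000000000000000000000) := T_45 (nat_lit 112) (nat_lit 111) (nat_lit 2) (nat_lit 6) (nat_lit 7) L124705 (by decide +kernel)
theorem L124707 : W_45 (nat_lit 6) (nat_lit 0x10000e0001000000000000000000000000000) (nat_lit 0x0) (nat_lit 0x1c800700038800000000000000000000000000) := T_45 (nat_lit 128) (nat_lit 107) (nat_lit 0) (nat_lit 9) (nat_lit 7) L124706 (by decide +kernel)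
theorem L124708 : W_45 (nat_lit 5) (nat_lit 0x10000e0001000000000000000000000000000) (nat_lit 0x0) (nat_lit 0x10000e00300000800080004000000000000000000) := T_45 (nat_lit 128) (nat_lit 107) (nat_lit 0) (nat_lit 9) (nat_lit 7) L124432 (by decide +kernel)
theorem L124709 : W_45 (nat_lit 2) (nat_lit 0x4001e000e0001000000000000000000000000000) (nat_lit 0x0) (nat_lit 0x1000080008000000000000000000000000000000000000000) := D_45 (nat_lit 175) (nat_lit 159) (nat_lit 192) (nat_lit 5) (nat_lit 6) (nat_lit 6) (nat_lit 6) (nat_lit 5) (nat_lit 11) (by decide +kernel)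
theorem L124710 : W_45 (nat_lit 3) (nat_lit 0x1e000e0001000000000000000000000000000) (nat_lit 0x0) (nat_lit 0x100008000e000000000000000000000000000000000000000) := T_45 (nat_lit 158) (nat_lit 157) (nat_lit 1) (nat_lit 8) (nat_lit 8) L124709 (by decide +kernel)
theorem L124711 : W_45 (nat_lit 4) (nat_lit 0x1c000e0001000000000000000000000000000) (nat_lit 0x0) (nat_lit 0x100008000e000300000000000000000000000000000000000) := T_45 (nat_lit 141) (nat_lit 140) (nat_lit 2) (nat_lit 4) (nat_lit 8) L124710 (by decide +kernel)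
theorem L124712 : W_45 (nat_lit 2) (nat_lit 0x80008001c000e0001000000000000000000000000000) (nat_lit 0x0) (nat_lit 0x3000100000000000000000000000000000000000000000000) := D_45 (nat_lit 176) (nat_lit 193) (nat_lit 192) (nat_lit 6) (nat_lit 6) (nat_lit 11) (nat_lit 5) (nat_lit 6) (nat_lit 7) (by decide +kernel)
theorem L124713 : W_45 (nat_lit 3) (nat_lit 0x8001c000e0001000000000000000000000000000) (nat_lit 0x0) (nat_lit 0x3000180004000000000000000000000000000000000000000) := T_45 (nat_lit 175) (nat_lit 158) (nat_lit 5) (nat_lit 6) (nat_lit 6) L124712 (by decide +kernel)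
theorem L124714 : W_45 (nat_lit 5) (nat_lit 0x10000e0001000080000000000000000000000) (nat_lit 0x0) (nat_lit 0x80000000000000000e000700028000000000) := T_45 (nat_lit 74) (nat_lit 143) (nat_lit 7) (nat_lit 6) (nat_lit 4) L124562 (by decide +kernel)
theorem L124715 : W_45 (nat_lit 12) (nat_lit 0x10000e0001000080000000000000000000000) (nat_lit 0x0) (nat_lit 0xc0000000ce00f7803fc00100000000000000) := T_45 (nat_lit 74) (nat_lit 143) (nat_lit 7) (nat_lit 6) (nat_lit 4) L124628 (by decide +kernel)
theorem L124716 : W_45 (nat_lit 2) (nat_lit 0x1c000e00010000c0000000000000000000000) (nat_lit 0x0) (nat_lit 0x4000300000000000000000000000000000000000) := D_45 (nat_lit 141) (nat_lit 140) (nat_lit 158) (nat_lit 2) (nat_lit 4) (nat_lit 8) (nat_lit 5) (nat_lit 6) (nat_lit 5) (by decide +kernel)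
theorem L124717 : W_45 (nat_lit 3) (nat_lit 0x14000e00010000c0000000000000000000000) (nat_lit 0x0) (nat_lit 0x14000b00000000000000000000000000000000000) := T_45 (nat_lit 143) (nat_lit 160) (nat_lit 7) (nat_lit 6) (nat_lit 5) L124716 (by decide +kernel)
theorem L124718 : W_45 (nat_lit 4) (nat_lit 0x14000e0001000080000000000000000000000) (nat_lit 0x0) (nat_lit 0x14000b00000000000040002000000000000000000) := T_45 (nat_lit 90) (nat_lit 73) (nat_lit 4) (nat_lit 6) (nat_lit 8) L124717 (by decide +kernel)
theorem L124719 : W_45 (nat_lit 2) (nat_lit 0x80008001c000e00010001c0000000000000000000000) (nat_lit 0x0) (nat_lit 0x3000100000000000000000000000000000000000000000000) := D_45 (nat_lit 176) (nat_lit 193) (nat_lit 192) (nat_lit 6) (nat_lit 6) (nat_lit 11) (nat_lit 5) (nat_lit 6) (nat_lit 7) (by decide +kernel)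
theorem L124720 : W_45 (nat_lit 3) (nat_lit 0x8001c000e00010001c0000000000000000000000) (nat_lit 0x0) (nat_lit 0x3000180004000000000000000000000000000000000000000) := T_45 (nat_lit 175) (nat_lit 158) (nat_lit 5) (nat_lit 6) (nat_lit 6) L124719 (by decide +kernel)
theorem L124721 : W_45 (nat_lit 4) (nat_lit 0x1c000e00010001c0000000000000000000000) (nat_lit 0x0) (nat_lit 0x300018000c000000000000800000000000000000000000000) := T_45 (nat_lit 159) (nat_lit 107) (nat_lit 4) (nat_lit 6) (nat_lit 9) L124720 (by decide +kernel)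
theorem L124722 : W_45 (nat_lit 5) (nat_lit 0x1c000e0001000180000000000000000000000) (nat_lit 0x0) (nat_lit 0x300018000c000000000000800040002000000000000000000) := T_45 (nat_lit 90) (nat_lit 73) (nat_lit 4) (nat_lit 6) (nat_lit 8) L124721 (by decide +kernel)
theorem L124723 : W_45 (nat_lit 6) (nat_lit 0x14000e0001000180000000000000000000000) (nat_lit 0x0) (nat_lit 0x300018001c000800000000800040002000000000000000000) := T_45 (nat_lit 143) (nat_lit 160) (nat_lit 7) (nat_lit 6) (nat_lit 5) L124722 (by decide +kernel)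
theorem L124724 : W_45 (nat_lit 7) (nat_lit 0x14000e0001000080000000000000000000000) (nat_lit 0x0) (nat_lit 0x300018001c00080000000080014000a000000000000000000) := T_45 (nat_lit 92) (nat_lit 75) (nat_lit 6) (nat_lit 6) (nat_lit 8) L124723 (by decide +kernel)
theorem L124725 : W_45 (nat_lit 2) (nat_lit 0x80014000e00010001c0000000000000000000000) (nat_lit 0x0) (nat_lit 0x200010000800000000000000000000000000000000000) := D_45 (nat_lit 160) (nat_lit 143) (nat_lit 177) (nat_lit 7) (nat_lit 6) (nat_lit 5) (nat_lit 7) (nat_lit 6) (nat_lit 6) (by decide +kernel)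
theorem L124726 : W_45 (nat_lit 3) (nat_lit 0x14000e00010001c0000000000000000000000) (nat_lit 0x0) (nat_lit 0x200018000800000000800000000000000000000000000) := T_45 (nat_lit 159) (nat_lit 107) (nat_lit 4) (nat_lit 6) (nat_lit 9) L124725 (by decide +kernel)
theorem L124727 : W_45 (nat_lit 4) (nat_lit 0x14000e00010000c0000000000000000000000) (nat_lit 0x0) (nat_lit 0x200018000800000000800100008000000000000000000) := T_45 (nat_lit 92) (nat_lit 75) (nat_lit 6) (nat_lit 6) (nat_lit 8) L124726 (by decide +kernel)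
theorem L124728 : W_45 (nat_lit 5) (nat_lit 0x14000e0001000080000000000000000000000) (nat_lit 0x0) (nat_lit 0x20001800080000000080014000a000000000000000000) := T_45 (nat_lit 90) (nat_lit 73) (nat_lit 4) (nat_lit 6) (nat_lit 8) L124727 (by decide +kernel)
theorem L124729 : W_45 (nat_lit 2) (nat_lit 0x1c000e0001000080000000000000000000000) (nat_lit 0x0) (nat_lit 0x4000300000000000000000000000000000000000) := D_45 (nat_lit 141) (nat_lit 140) (nat_lit 158) (nat_lit 2) (nat_lit 4) (nat_lit 8) (nat_lit 5) (nat_lit 6) (nat_lit 5) (by decide +kernel)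
theorem L124730 : W_45 (nat_lit 3) (nat_lit 0x14000e0001000080000000000000000000000) (nat_lit 0x0) (nat_lit 0x14000b00000000000000000000000000000000000) := T_45 (nat_lit 143) (nat_lit 160) (nat_lit 7) (nat_lit 6) (nat_lit 5) L124729 (by decide +kernel)
theorem L124731 : W_45 (nat_lit 8) (nat_lit 0x10000e0001000080000000000000000000000) (nat_lit 0x0) (nat_lit 0x300038001c000f0000000080014000a000000000000000000) := Q_45 (nat_lit 142) (C_45 L124644 (C_45 L124718 (C_45 L124724 (C_45 L124728 (C_45 L124730 N_45))))) (by decide +kernel)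
theorem L124732 : W_45 (nat_lit 7) (nat_lit 0x10000e0001000080000000000000000000000) (nat_lit 0x0) (nat_lit 0xc00000000800040006000700038001c00000) := T_45 (nat_lit 74) (nat_lit 143) (nat_lit 7) (nat_lit 6) (nat_lit 4) L124637 (by decide +kernel)
theorem L124733 : W_45 (nat_lit 6) (nat_lit 0x10000e0001000080000000000000000000000) (nat_lit 0x0) (nat_lit 0xc00000004800f0000c000400000000000000) := T_45 (nat_lit 74) (nat_lit 143) (nat_lit 7) (nat_lit 6) (nat_lit 4) L124639 (by decide +kernel)
theorem L124734 : W_45 (nat_lit 13) (nat_lit 0x10000e0001000000000000000000000000000) (nat_lit 0x0) (nat_lit 0x300038001c000f0000000ce00ff803fc00700038001c00000) := Q_45 (nat_lit 91) (C_45 L124714 (C_45 L124640 (C_45 L124715 (C_45 L124731 (C_45 L124732 (C_45 L124733 N_45)))))) (by decide +kernel)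
theorem L124735 : W_45 (nat_lit 2) (nat_lit 0x14003e0001000000000000000000000000000) (nat_lit 0x0) (nat_lit 0x38000000000000000000000000000) := D_45 (nat_lit 112) (nat_lit 111) (nat_lit 113) (nat_lit 2) (nat_lit 6) (nat_lit 7) (nat_lit 2) (nat_lit 7) (nat_lit 7) (by decide +kernel)
theorem L124736 : W_45 (nat_lit 3) (nat_lit 0x14001e0001000000000000000000000000000) (nat_lit 0x0) (nat_lit 0x800200038000000000000000000000000000) := T_45 (nat_lit 129) (nat_lit 143) (nat_lit 1) (nat_lit 10) (nat_lit 7) L124735 (by decide +kernel)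
theorem L124737 : W_45 (nat_lit 4) (nat_lit 0x14000e0001000000000000000000000000000) (nat_lit 0x0) (nat_lit 0xa00300038000000000000000000000000000) := T_45 (nat_lit 128) (nat_lit 141) (nat_lit 1) (nat_lit 9) (nat_lit 7) L124736 (by decide +kernel)
theorem L124738 : W_45 (nat_lit 4) (nat_lit 0x14000e0001000000000000000000000000000) (nat_lit 0x0) (nat_lit 0x10000a00300000000080004000000000000000000) := T_45 (nat_lit 128) (nat_lit 141) (nat_lit 1) (nat_lit 9) (nat_lit 7) L124431 (by decide +kernel)
theorem L124739 : W_45 (nat_lit 2) (nat_lit 0x1c000e0001000000000000000000000000000) (nat_lit 0x0) (nat_lit 0x10000000000000000080004000000000000000000) := D_45 (nat_lit 91) (nat_lit 74) (nat_lit 160) (nat_lit 7) (nat_lit 6) (nat_lit 4) (nat_lit 7) (nat_lit 6) (nat_lit 5) (by decide +kernel)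
theorem L124740 : W_45 (nat_lit 5) (nat_lit 0x14000e0001000000000000000000000000000) (nat_lit 0x0) (nat_lit 0x100008001e000b00000000000080004000000000000000000) := Q_45 (nat_lit 143) (C_45 L124711 (C_45 L124739 N_45)) (by decide +kernel)
theorem L124741 : W_45 (nat_lit 4) (nat_lit 0x16800e0001000080000000000000000000000) (nat_lit 0x0) (nat_lit 0x14000e000500000000000000) := T_45 (nat_lit 73) (nat_lit 90) (nat_lit 4) (nat_lit 6) (nat_lit 8) L124650 (by decide +kernel)
theorem L124742 : W_45 (nat_lit 5) (nat_lit 0x16800e0001000000000000000000000000000) (nat_lit 0x0) (nat_lit 0x40000000000000001c000e000500000000000000) := T_45 (nat_lit 91) (nat_lit 158) (nat_lit 5) (nat_lit 6) (nat_lit 5) L124741 (by decide +kernel)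
theorem L124743 : W_45 (nat_lit 6) (nat_lit 0x16000e0001000000000000000000000000000) (nat_lit 0x0) (nat_lit 0x40001800000000001c000e000500000000000000) := T_45 (nat_lit 139) (nat_lit 140) (nat_lit 2) (nat_lit 3) (nat_lit 8) L124742 (by decide +kernel)
theorem L124744 : W_45 (nat_lit 7) (nat_lit 0x14000e0001000000000000000000000000000) (nat_lit 0x0) (nat_lit 0x40003801000000001c000e000500000000000000) := T_45 (nat_lit 141) (nat_lit 128) (nat_lit 1) (nat_lit 9) (nat_lit 7) L124743 (by decide +kernel)
theorem L124745 : W_45 (nat_lit 8) (nat_lit 0x1c000e0001000000000000000000000000000) (nat_lit 0x0) (nat_lit 0x30001c0007c003e000000000000000000) := T_45 (nat_lit 128) (nat_lit 129) (nat_lit 1) (nat_lit 10) (nat_lit 7) L124448 (by decide +kernel)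
theorem L124746 : W_45 (nat_lit 2) (nat_lit 0x200008001c000e0001000000000000000000000000000) (nat_lit 0x0) (nat_lit 0x6000100000000000000000000000000000000000000000000) := D_45 (nat_lit 176) (nat_lit 193) (nat_lit 194) (nat_lit 6) (nat_lit 6) (nat_lit 11) (nat_lit 7) (nat_lit 6) (nat_lit 7) (by decide +kernel)
theorem L124747 : W_45 (nat_lit 3) (nat_lit 0x8001c000e0001000000000000000000000000000) (nat_lit 0x0) (nat_lit 0x6000300010000000000000000000000000000000000000000) := T_45 (nat_lit 177) (nat_lit 160) (nat_lit 7) (nat_lit 6) (nat_lit 6) L124746 (by decide +kernel)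
theorem L124748 : W_45 (nat_lit 2) (nat_lit 0x18001c000e0001000000000000000000000000000) (nat_lit 0x0) (nat_lit 0x80006000000000000000000000000000000000000000) := D_45 (nat_lit 158) (nat_lit 175) (nat_lit 157) (nat_lit 5) (nat_lit 6) (nat_lit 6) (nat_lit 2) (nat_lit 4) (nat_lit 9) (by decide +kernel)
theorem L124749 : W_45 (nat_lit 3) (nat_lit 0x8001c000e0001000000000000000000000000000) (nat_lit 0x0) (nat_lit 0x280016000000000000000000000000000000000000000) := T_45 (nat_lit 160) (nat_lit 177) (nat_lit 7) (nat_lit 6) (nat_lit 6) L124748 (by decide +kernel)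
theorem L124750 : W_45 (nat_lit 4) (nat_lit 0x1c000e0001000000000000000000000000000) (nat_lit 0x0) (nat_lit 0x700038001e000000000000000000000000000000000000000) := Q_45 (nat_lit 159) (C_45 L124747 (C_45 L124713 (C_45 L124749 N_45))) (by decide +kernel)
theorem L124751 : W_45 (nat_lit 9) (nat_lit 0x14000e0001000000000000000000000000000) (nat_lit 0x0) (nat_lit 0x700038001e00080030001c0007c003e000000000000000000) := Q_45 (nat_lit 143) (C_45 L124745 (C_45 L124739 (C_45 L124750 N_45))) (by decide +kernel)
theorem L124752 : W_45 (nat_lit 10) (nat_lit 0x10000e0001000000000000000000000000000) (nat_lit 0x0) (nat_lit 0x700038001e000f8030003c0007c003e000500000000000000) := Q_45 (nat_lit 142) (C_45 L124737 (C_45 L124738 (C_45 L124740 (C_45 L124744 (C_45 L124751 N_45))))) (by decide +kernel)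
theorem L124753 : W_45 (nat_lit 17) (nat_lit 0x10000e0000000000000000000000000000000) (nat_lit 0x0) (nat_lit 0x700038001e01cf8070003de03ff81ffc1ff001f8001c00000) := Q_45 (nat_lit 108) (C_45 L124702 (C_45 L124707 (C_45 L124708 (C_45 L124734 (C_45 L124752 N_45))))) (by decide +kernel)
theorem L124754 : W_45 (nat_lit 2) (nat_lit 0x10800fc004900000000000000000000000000) (nat_lit 0x0) (nat_lit 0x2001080000000000000000000000000) := D_45 (nat_lit 121) (nat_lit 108) (nat_lit 103) (nat_lit 2) (nat_lit 2) (nat_lit 7) (nat_lit 0) (nat_lit 5) (nat_lit 7) (by decide +kernel)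
theorem L124755 : W_45 (nat_lit 3) (nat_lit 0x10800fc004800000000000000000000000000) (nat_lit 0x0) (nat_lit 0x2001380000000000000000000000000) := T_45 (nat_lit 104) (nat_lit 105) (nat_lit 0) (nat_lit 6) (nat_lit 7) L124754 (by decide +kernel)
theorem L124756 : W_45 (nat_lit 4) (nat_lit 0x10800f8004800000000000000000000000000) (nat_lit 0x0) (nat_lit 0x40006001380000000000000000000000000) := T_45 (nat_lit 122) (nat_lit 138) (nat_lit 1) (nat_lit 6) (nat_lit 7) L124755 (by decide +kernel)
theorem L124757 : W_45 (nat_lit 5) (nat_lit 0x10800f8000800000000000000000000000000) (nat_lit 0x0) (nat_lit 0x4000600d380000000000000000000000000) := T_45 (nat_lit 110) (nat_lit 111) (nat_lit 2) (nat_lit 5) (nat_lit 7) L124756 (by decide +kernel)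
theorem L124758 : W_45 (nat_lit 6) (nat_lit 0x10000f8000800000000000000000000000000) (nat_lit 0x0) (nat_lit 0x1c000600d380000000000000000000000000) := T_45 (nat_lit 139) (nat_lit 140) (nat_lit 1) (nat_lit 7) (nat_lit 7) L124757 (by decide +kernel)
theorem L124759 : W_45 (nat_lit 7) (nat_lit 0x10000f0000800000000000000000000000000) (nat_lit 0x0) (nat_lit 0x9c000e00d380000000000000000000000000) := T_45 (nat_lit 123) (nat_lit 143) (nat_lit 3) (nat_lit 4) (nat_lit 7) L124758 (by decide +kernel)
theorem L124760 : W_45 (nat_lit 8) (nat_lit 0x10000f0000000000000000000000000000000) (nat_lit 0x0) (nat_lit 0x9c000e00df80000000000000000000000000) := T_45 (nat_lit 107) (nat_lit 106) (nat_lit 0) (nat_lit 8) (nat_lit 7) L124759 (by decide +kernel)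
theorem L124761 : W_45 (nat_lit 2) (nat_lit 0x18000f0004800000000000000000000000000) (nat_lit 0x0) (nat_lit 0x10000000000000000200010000000000000000000) := D_45 (nat_lit 93) (nat_lit 76) (nat_lit 160) (nat_lit 5) (nat_lit 8) (nat_lit 4) (nat_lit 5) (nat_lit 8) (nat_lit 5) (by decide +kernel)
theorem L124762 : W_45 (nat_lit 3) (nat_lit 0x10000f0004800000000000000000000000000) (nat_lit 0x0) (nat_lit 0x10000800008000000200010000000000000000000) := T_45 (nat_lit 143) (nat_lit 123) (nat_lit 3) (nat_lit 4) (nat_lit 7) L124761 (by decide +kernel)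
theorem L124763 : W_45 (nat_lit 4) (nat_lit 0x10000f0004000000000000000000000000000) (nat_lit 0x0) (nat_lit 0x10000800008000c00200010000000000000000000) := T_45 (nat_lit 107) (nat_lit 106) (nat_lit 0) (nat_lit 8) (nat_lit 7) L124762 (by decide +kernel)
theorem L124764 : W_45 (nat_lit 5) (nat_lit 0x10000f0000000000000000000000000000000) (nat_lit 0x0) (nat_lit 0x1000080000800cc00200010000000000000000000) := T_45 (nat_lit 110) (nat_lit 111) (nat_lit 2) (nat_lit 5) (nat_lit 7) L124763 (by decide +kernel)
theorem L124765 : W_45 (nat_lit 2) (nat_lit 0x1400040012000f00048000e0000000000000000000000) (nat_lit 0x0) (nat_lit 0x2800080000000000000000000000000000000000000000000) := D_45 (nat_lit 175) (nat_lit 191) (nat_lit 193) (nat_lit 5) (nat_lit 5) (nat_lit 7) (nat_lit 7) (nat_lit 5) (nat_lit 7) (by decide +kernel)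
theorem L124766 : W_45 (nat_lit 3) (nat_lit 0x400040012000f00048000e0000000000000000000000) (nat_lit 0x0) (nat_lit 0x2800180008000000000000000000000000000000000000000) := T_45 (nat_lit 176) (nat_lit 159) (nat_lit 7) (nat_lit 5) (nat_lit 6) L124765 (by decide +kernel)
theorem L124767 : W_45 (nat_lit 4) (nat_lit 0x40012000f00048000e0000000000000000000000) (nat_lit 0x0) (nat_lit 0x28001c000a000000000000000000000000000000000000000) := T_45 (nat_lit 174) (nat_lit 157) (nat_lit 5) (nat_lit 5) (nat_lit 6) L124766 (by decide +kernel)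
theorem L124768 : W_45 (nat_lit 5) (nat_lit 0x12000f00048000e0000000000000000000000) (nat_lit 0x0) (nat_lit 0x28001c000e000000000001000000000000000000000000000) := T_45 (nat_lit 158) (nat_lit 108) (nat_lit 6) (nat_lit 5) (nat_lit 9) L124767 (by decide +kernel)
theorem L124769 : W_45 (nat_lit 6) (nat_lit 0x12000f0004800060000000000000000000000) (nat_lit 0x0) (nat_lit 0x28001c000e000000000001000080004000000000000000000) := T_45 (nat_lit 91) (nat_lit 74) (nat_lit 6) (nat_lit 5) (nat_lit 8) L124768 (by decide +kernel)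
theorem L124770 : W_45 (nat_lit 7) (nat_lit 0x12000f0004800040000000000000000000000) (nat_lit 0x0) (nat_lit 0x28001c000e0000000000010000a0005000000000000000000) := T_45 (nat_lit 89) (nat_lit 72) (nat_lit 4) (nat_lit 5) (nat_lit 8) L124769 (by decide +kernel)
theorem L124771 : W_45 (nat_lit 8) (nat_lit 0x10000f0004800040000000000000000000000) (nat_lit 0x0) (nat_lit 0x28001c000e0003000000010000a0005000000000000000000) := T_45 (nat_lit 141) (nat_lit 140) (nat_lit 1) (nat_lit 8) (nat_lit 7) L124770 (by decide +kernel)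
theorem L124772 : W_45 (nat_lit 9) (nat_lit 0x10000f0000800040000000000000000000000) (nat_lit 0x0) (nat_lit 0x28001c000e00030000000d0000a0005000000000000000000) := T_45 (nat_lit 110) (nat_lit 111) (nat_lit 2) (nat_lit 5) (nat_lit 7) L124771 (by decide +kernel)
theorem L124773 : W_45 (nat_lit 10) (nat_lit 0x10000f0000800000000000000000000000000) (nat_lit 0x0) (nat_lit 0x28001c000e00070000000d0000e0007000380010000000000) := Q_45 (nat_lit 90) (C_45 L122377 (C_45 L124772 (C_45 L122374 N_45))) (by decide +kernel)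
theorem L124774 : W_45 (nat_lit 11) (nat_lit 0x10000f0000000000000000000000000000000) (nat_lit 0x0) (nat_lit 0x28001c000e00070000000dc000e0007000380010000000000) := T_45 (nat_lit 107) (nat_lit 106) (nat_lit 0) (nat_lit 8) (nat_lit 7) L124773 (by decide +kernel)
theorem L124775 : W_45 (nat_lit 12) (nat_lit 0x10000e0000000000000000000000000000000) (nat_lit 0x0) (nat_lit 0x28001c001e000fc001e00df802e0017000380010000000000) := Q_45 (nat_lit 124) (C_45 L124536 (C_45 L122093 (C_45 L124760 (C_45 L124764 (C_45 L124774 N_45))))) (by decide +kernel)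
theorem L124776 : W_45 (nat_lit 6) (nat_lit 0x10000e0000000000000000000000000000000) (nat_lit 0x0) (nat_lit 0x10000f8011801ce00200010000000000000000000) := Q_45 (nat_lit 124) (C_45 L124536 (C_45 L124764 (C_45 L122093 (C_45 L122426 N_45)))) (by decide +kernel)
theorem L124777 : W_45 (nat_lit 2) (nat_lit 0x10800f8004200000000000000000000000000) (nat_lit 0x0) (nat_lit 0x40004000100000000000000000000000000) := D_45 (nat_lit 122) (nat_lit 138) (nat_lit 104) (nat_lit 1) (nat_lit 6) (nat_lit 7) (nat_lit 0) (nat_lit 6) (nat_lit 7) (by decide +kernel)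
theorem L124778 : W_45 (nat_lit 3) (nat_lit 0x10800f8004000000000000000000000000000) (nat_lit 0x0) (nat_lit 0x40004000700000000000000000000000000) := T_45 (nat_lit 105) (nat_lit 106) (nat_lit 0) (nat_lit 7) (nat_lit 7) L124777 (by decide +kernel)
theorem L124779 : W_45 (nat_lit 4) (nat_lit 0x10000f8004000000000000000000000000000) (nat_lit 0x0) (nat_lit 0x1c0004000700000000000000000000000000) := T_45 (nat_lit 139) (nat_lit 140) (nat_lit 1) (nat_lit 7) (nat_lit 7) L124778 (by decide +kernel)
theorem L124780 : W_45 (nat_lit 5) (nat_lit 0x10000f0004000000000000000000000000000) (nat_lit 0x0) (nat_lit 0x9c000c000700000000000000000000000000) := T_45 (nat_lit 123) (nat_lit 143) (nat_lit 3) (nat_lit 4) (nat_lit 7) L124779 (by decide +kernel)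
theorem L124781 : W_45 (nat_lit 6) (nat_lit 0x10000f0000000000000000000000000000000) (nat_lit 0x0) (nat_lit 0x9c000c00c700000000000000000000000000) := T_45 (nat_lit 110) (nat_lit 111) (nat_lit 2) (nat_lit 5) (nat_lit 7) L124780 (by decide +kernel)
theorem L124782 : W_45 (nat_lit 2) (nat_lit 0x18000f0004000000000000000000000000000) (nat_lit 0x0) (nat_lit 0x10000000000000000200010000000000000000000) := D_45 (nat_lit 93) (nat_lit 76) (nat_lit 160) (nat_lit 5) (nat_lit 8) (nat_lit 4) (nat_lit 5) (nat_lit 8) (nat_lit 5) (by decide +kernel)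
theorem L124783 : W_45 (nat_lit 3) (nat_lit 0x18000f0000000000000000000000000000000) (nat_lit 0x0) (nat_lit 0x1000000000000c000200010000000000000000000) := T_45 (nat_lit 110) (nat_lit 111) (nat_lit 2) (nat_lit 5) (nat_lit 7) L124782 (by decide +kernel)
theorem L124784 : W_45 (nat_lit 4) (nat_lit 0x10000f0000000000000000000000000000000) (nat_lit 0x0) (nat_lit 0x1000080000800c000200010000000000000000000) := T_45 (nat_lit 143) (nat_lit 123) (nat_lit 3) (nat_lit 4) (nat_lit 7) L124783 (by decide +kernel)
theorem L124785 : W_45 (nat_lit 7) (nat_lit 0x10000e0000000000000000000000000000000) (nat_lit 0x0) (nat_lit 0x100009c011e01df00200010000000000000000000) := Q_45 (nat_lit 124) (C_45 L122416 (C_45 L124764 (C_45 L124542 (C_45 L124781 (C_45 L124784 N_45))))) (by decide +kernel)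
theorem L124786 : W_45 (nat_lit 4) (nat_lit 0x18000e0000000000000000000000000000000) (nat_lit 0x0) (nat_lit 0x1000000001800c000200010000000000000000000) := T_45 (nat_lit 124) (nat_lit 123) (nat_lit 3) (nat_lit 4) (nat_lit 7) L124783 (by decide +kernel)
theorem L124787 : W_45 (nat_lit 4) (nat_lit 0x1a000f0004000000010000000000000000000) (nat_lit 0x0) (nat_lit 0x80006000400100001000080000000000000000000000) := T_45 (nat_lit 142) (nat_lit 128) (nat_lit 2) (nat_lit 5) (nat_lit 8) L122515 (by decide +kernel)
theorem L124788 : W_45 (nat_lit 5) (nat_lit 0x1a000f0004000000000000000000000000000) (nat_lit 0x0) (nat_lit 0x80006000400100001000280010000000000000000000) := T_45 (nat_lit 76) (nat_lit 93) (nat_lit 5) (nat_lit 8) (nat_lit 4) L124787 (by decide +kernel)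
theorem L124789 : W_45 (nat_lit 6) (nat_lit 0x18000f0004000000000000000000000000000) (nat_lit 0x0) (nat_lit 0x80006000700100001000280010000000000000000000) := T_45 (nat_lit 141) (nat_lit 140) (nat_lit 1) (nat_lit 8) (nat_lit 7) L124788 (by decide +kernel)
theorem L124790 : W_45 (nat_lit 7) (nat_lit 0x18000f0000000000000000000000000000000) (nat_lit 0x0) (nat_lit 0x8000600070010000d000280010000000000000000000) := T_45 (nat_lit 110) (nat_lit 111) (nat_lit 2) (nat_lit 5) (nat_lit 7) L124789 (by decide +kernel)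
theorem L124791 : W_45 (nat_lit 8) (nat_lit 0x18000e0000000000000000000000000000000) (nat_lit 0x0) (nat_lit 0x8000600070011800d000280010000000000000000000) := T_45 (nat_lit 124) (nat_lit 123) (nat_lit 3) (nat_lit 4) (nat_lit 7) L124790 (by decide +kernel)
theorem L124792 : W_45 (nat_lit 2) (nat_lit 0x4001e000f0000000000000000000000000000000) (nat_lit 0x0) (nat_lit 0x80000000000000001000080000000000000000000000) := D_45 (nat_lit 108) (nat_lit 91) (nat_lit 175) (nat_lit 5) (nat_lit 6) (nat_lit 5) (nat_lit 6) (nat_lit 5) (nat_lit 10) (by decide +kernel)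
theorem L124793 : W_45 (nat_lit 3) (nat_lit 0x1e000f0000000000000000000000000000000) (nat_lit 0x0) (nat_lit 0x80006000000000001000080000000000000000000000) := T_45 (nat_lit 158) (nat_lit 157) (nat_lit 1) (nat_lit 8) (nat_lit 8) L124792 (by decide +kernel)
theorem L124794 : W_45 (nat_lit 4) (nat_lit 0x1a000f0000000000000000000000000000000) (nat_lit 0x0) (nat_lit 0x80006000400100001000080000000000000000000000) := T_45 (nat_lit 142) (nat_lit 128) (nat_lit 2) (nat_lit 5) (nat_lit 8) L124793 (by decide +kernel)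
theorem L124795 : W_45 (nat_lit 5) (nat_lit 0x18000f0000000000000000000000000000000) (nat_lit 0x0) (nat_lit 0x80006000700100001000080000000000000000000000) := T_45 (nat_lit 141) (nat_lit 140) (nat_lit 1) (nat_lit 8) (nat_lit 7) L124794 (by decide +kernel)
theorem L124796 : W_45 (nat_lit 6) (nat_lit 0x18000e0000000000000000000000000000000) (nat_lit 0x0) (nat_lit 0x80006000700118001000080000000000000000000000) := T_45 (nat_lit 124) (nat_lit 123) (nat_lit 3) (nat_lit 4) (nat_lit 7) L124795 (by decide +kernel)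
theorem L124797 : W_45 (nat_lit 2) (nat_lit 0x18001e0000000000000000000000000000000) (nat_lit 0x0) (nat_lit 0x600200000000000000000000000000000000) := D_45 (nat_lit 142) (nat_lit 141) (nat_lit 129) (nat_lit 2) (nat_lit 5) (nat_lit 8) (nat_lit 1) (nat_lit 10) (nat_lit 7) (by decide +kernel)
theorem L124798 : W_45 (nat_lit 2) (nat_lit 0x18003e0000000000000000000000000000000) (nat_lit 0x0) (nat_lit 0x38000000000000000000000000000) := D_45 (nat_lit 112) (nat_lit 111) (nat_lit 113) (nat_lit 2) (nat_lit 6) (nat_lit 7) (nat_lit 2) (nat_lit 7) (nat_lit 7) (by decide +kernel)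
theorem L124799 : W_45 (nat_lit 3) (nat_lit 0x18001e0000000000000000000000000000000) (nat_lit 0x0) (nat_lit 0x600038000000000000000000000000000) := T_45 (nat_lit 129) (nat_lit 130) (nat_lit 1) (nat_lit 11) (nat_lit 7) L124798 (by decide +kernel)
theorem L124800 : W_45 (nat_lit 2) (nat_lit 0x1c001e000c000780000000000000000000000) (nat_lit 0x0) (nat_lit 0x1000000006000000000000000000) := D_45 (nat_lit 74) (nat_lit 73) (nat_lit 108) (nat_lit 0) (nat_lit 9) (nat_lit 5) (nat_lit 7) (nat_lit 6) (nat_lit 4) (by decide +kernel)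
theorem L124801 : W_45 (nat_lit 3) (nat_lit 0x1c001e000c000700000000000000000000000) (nat_lit 0x0) (nat_lit 0x10000c0006000000000000000000) := T_45 (nat_lit 91) (nat_lit 90) (nat_lit 3) (nat_lit 5) (nat_lit 5) L124800 (by decide +kernel)
theorem L124802 : W_45 (nat_lit 4) (nat_lit 0x1c001e000c000600000000000000000000000) (nat_lit 0x0) (nat_lit 0x10001c000e000000000000000000) := T_45 (nat_lit 92) (nat_lit 75) (nat_lit 4) (nat_lit 8) (nat_lit 8) L124801 (by decide +kernel)
theorem L124803 : W_45 (nat_lit 5) (nat_lit 0x18001e000c000600000000000000000000000) (nat_lit 0x0) (nat_lit 0x6000000010001c000e000000000000000000) := T_45 (nat_lit 142) (nat_lit 141) (nat_lit 2) (nat_lit 5) (nat_lit 8) L124802 (by decide +kernel)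
theorem L124804 : W_45 (nat_lit 6) (nat_lit 0x18001e000c000400000000000000000000000) (nat_lit 0x0) (nat_lit 0x6000000010003c001e000000000000000000) := T_45 (nat_lit 93) (nat_lit 76) (nat_lit 5) (nat_lit 8) (nat_lit 4) L124803 (by decide +kernel)
theorem L124805 : W_45 (nat_lit 7) (nat_lit 0x18001e000c000000000000000000000000000) (nat_lit 0x0) (nat_lit 0x6000000010007c003e000000000000000000) := T_45 (nat_lit 94) (nat_lit 77) (nat_lit 5) (nat_lit 9) (nat_lit 4) L124804 (by decide +kernel)
theorem L124806 : W_45 (nat_lit 8) (nat_lit 0x18001e0004000000000000000000000000000) (nat_lit 0x0) (nat_lit 0x6000000190007c003e000000000000000000) := T_45 (nat_lit 111) (nat_lit 112) (nat_lit 2) (nat_lit 6) (nat_lit 7) L124805 (by decide +kernel)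
theorem L124807 : W_45 (nat_lit 2) (nat_lit 0x38000c001c001e000c000000020000000000000000000) (nat_lit 0x0) (nat_lit 0x400003000000000000000000000000000000000000000) := D_45 (nat_lit 157) (nat_lit 156) (nat_lit 178) (nat_lit 3) (nat_lit 3) (nat_lit 9) (nat_lit 0) (nat_lit 8) (nat_lit 10) (by decide +kernel)
theorem L124808 : W_45 (nat_lit 3) (nat_lit 0x380008001c001e000c000000020000000000000000000) (nat_lit 0x0) (nat_lit 0x400007000000000001000000000000000000000000000) := T_45 (nat_lit 158) (nat_lit 108) (nat_lit 5) (nat_lit 6) (nat_lit 6) L124807 (by decide +kernel)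
theorem L124809 : W_45 (nat_lit 4) (nat_lit 0x300008001c001e000c000000020000000000000000000) (nat_lit 0x0) (nat_lit 0x1000480007000000000001000000000000000000000000000) := T_45 (nat_lit 175) (nat_lit 192) (nat_lit 5) (nat_lit 6) (nat_lit 7) L124808 (by decide +kernel)
theorem L124810 : W_45 (nat_lit 5) (nat_lit 0x100008001c001e000c000000020000000000000000000) (nat_lit 0x0) (nat_lit 0x5000680007000000000001000000000000000000000000000) := T_45 (nat_lit 177) (nat_lit 194) (nat_lit 7) (nat_lit 6) (nat_lit 7) L124809 (by decide +kernel)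
theorem L124811 : W_45 (nat_lit 6) (nat_lit 0x100008001c001e000c000000000000000000000000000) (nat_lit 0x0) (nat_lit 0x5000680007000000000001000400020000000000000000000) := T_45 (nat_lit 77) (nat_lit 94) (nat_lit 5) (nat_lit 9) (nat_lit 4) L124810 (by decide +kernel)
theorem L124812 : W_45 (nat_lit 7) (nat_lit 0x100008001c001e0004000000000000000000000000000) (nat_lit 0x0) (nat_lit 0x5000680007000000000019000400020000000000000000000) := T_45 (nat_lit 111) (nat_lit 112) (nat_lit 2) (nat_lit 6) (nat_lit 7) L124811 (by decide +kernel)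
theorem L124813 : W_45 (nat_lit 8) (nat_lit 0x8001c001e0004000000000000000000000000000) (nat_lit 0x0) (nat_lit 0x7000780007000000000019000400020000000000000000000) := T_45 (nat_lit 176) (nat_lit 193) (nat_lit 6) (nat_lit 6) (nat_lit 11) L124812 (by decide +kernel)
theorem L124814 : W_45 (nat_lit 2) (nat_lit 0x180008001c001e000d000000020000000000000000000) (nat_lit 0x0) (nat_lit 0x10000000000000000080004000000000000000000) := D_45 (nat_lit 91) (nat_lit 74) (nat_lit 160) (nat_lit 7) (nat_lit 6) (nat_lit 4) (nat_lit 7) (nat_lit 6) (nat_lit 5) (by decide +kernel)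
theorem L124815 : W_45 (nat_lit 3) (nat_lit 0x180008001c001e000c000000020000000000000000000) (nat_lit 0x0) (nat_lit 0x14000000000001000080004000000000000000000) := T_45 (nat_lit 108) (nat_lit 158) (nat_lit 5) (nat_lit 6) (nat_lit 6) L124814 (by decide +kernel)
theorem L124816 : W_45 (nat_lit 4) (nat_lit 0x100008001c001e000c000000020000000000000000000) (nat_lit 0x0) (nat_lit 0x1000080014000000000001000080004000000000000000000) := T_45 (nat_lit 175) (nat_lit 192) (nat_lit 5) (nat_lit 6) (nat_lit 7) L124815 (by decide +kernel)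
theorem L124817 : W_45 (nat_lit 5) (nat_lit 0x8001c001e000c000000020000000000000000000) (nat_lit 0x0) (nat_lit 0x3000180014000000000001000080004000000000000000000) := T_45 (nat_lit 176) (nat_lit 193) (nat_lit 6) (nat_lit 6) (nat_lit 11) L124816 (by decide +kernel)
theorem L124818 : W_45 (nat_lit 6) (nat_lit 0x8001c001e000c000000000000000000000000000) (nat_lit 0x0) (nat_lit 0x3000180014000000000001000480024000000000000000000) := T_45 (nat_lit 77) (nat_lit 94) (nat_lit 5) (nat_lit 9) (nat_lit 4) L124817 (by decide +kernel)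
theorem L124819 : W_45 (nat_lit 7) (nat_lit 0x8001c001e0004000000000000000000000000000) (nat_lit 0x0) (nat_lit 0x3000180014000000000019000480024000000000000000000) := T_45 (nat_lit 111) (nat_lit 112) (nat_lit 2) (nat_lit 6) (nat_lit 7) L124818 (by decide +kernel)
theorem L124820 : W_45 (nat_lit 2) (nat_lit 0x1c001c001e000c000000020000000000000000000) (nat_lit 0x0) (nat_lit 0x80000000000000001000080000000000000000000000) := D_45 (nat_lit 108) (nat_lit 91) (nat_lit 175) (nat_lit 7) (nat_lit 6) (nat_lit 5) (nat_lit 5) (nat_lit 6) (nat_lit 6) (by decide +kernel)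
theorem L124821 : W_45 (nat_lit 3) (nat_lit 0x18001c001e000c000000020000000000000000000) (nat_lit 0x0) (nat_lit 0x80006000000000001000080000000000000000000000) := T_45 (nat_lit 158) (nat_lit 157) (nat_lit 2) (nat_lit 4) (nat_lit 9) L124820 (by decide +kernel)
theorem L124822 : W_45 (nat_lit 4) (nat_lit 0x18001c001e000c000000000000000000000000000) (nat_lit 0x0) (nat_lit 0x80006000000000001000480020000000000000000000) := T_45 (nat_lit 77) (nat_lit 94) (nat_lit 5) (nat_lit 9) (nat_lit 4) L124821 (by decide +kernel)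
theorem L124823 : W_45 (nat_lit 5) (nat_lit 0x18001c001e0004000000000000000000000000000) (nat_lit 0x0) (nat_lit 0x80006000000000019000480020000000000000000000) := T_45 (nat_lit 111) (nat_lit 112) (nat_lit 2) (nat_lit 6) (nat_lit 7) L124822 (by decide +kernel)
theorem L124824 : W_45 (nat_lit 6) (nat_lit 0x8001c001e0004000000000000000000000000000) (nat_lit 0x0) (nat_lit 0x280016000000000019000480020000000000000000000) := T_45 (nat_lit 160) (nat_lit 177) (nat_lit 6) (nat_lit 7) (nat_lit 10) L124823 (by decide +kernel)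
theorem L124825 : W_45 (nat_lit 9) (nat_lit 0x1c001e0004000000000000000000000000000) (nat_lit 0x0) (nat_lit 0x700078001f000000000019000480024000000000000000000) := Q_45 (nat_lit 159) (C_45 L122107 (C_45 L124813 (C_45 L124819 (C_45 L124824 N_45)))) (by decide +kernel)
theorem L124826 : W_45 (nat_lit 10) (nat_lit 0x18001e0004000000000000000000000000000) (nat_lit 0x0) (nat_lit 0x700078001f000600000019000480024000000000000000000) := T_45 (nat_lit 142) (nat_lit 141) (nat_lit 2) (nat_lit 5) (nat_lit 8) L124825 (by decide +kernel)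
theorem L124827 : W_45 (nat_lit 11) (nat_lit 0x18001e0000000000000000000000000000000) (nat_lit 0x0) (nat_lit 0x700078001f00060000001d0007c003e000000000000000000) := Q_45 (nat_lit 110) (C_45 L124806 (C_45 L122105 (C_45 L124826 N_45))) (by decide +kernel)
theorem L124828 : W_45 (nat_lit 12) (nat_lit 0x18000e0000000000000000000000000000000) (nat_lit 0x0) (nat_lit 0x700078001f00060070003d0007c003e000000000000000000) := Q_45 (nat_lit 128) (C_45 L124797 (C_45 L124799 (C_45 L124827 N_45))) (by decide +kernel)
theorem L124829 : W_45 (nat_lit 13) (nat_lit 0x10000e0000000000000000000000000000000) (nat_lit 0x0) (nat_lit 0x700078001f000f0071803d0007c003e000000000000000000) := Q_45 (nat_lit 143) (C_45 L124786 (C_45 L124791 (C_45 L124796 (C_45 L124828 N_45)))) (by decide +kernel)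
theorem L124830 : W_45 (nat_lit 10) (nat_lit 0x10000e0000000000000000000000000000000) (nat_lit 0x0) (nat_lit 0x200010000e0031801dc007c00fe001700000000000000) := Q_45 (nat_lit 128) (C_45 L122944 (C_45 L124531 (C_45 L124433 (C_45 L124438 N_45)))) (by decide +kernel)
theorem L124831 : W_45 (nat_lit 18) (nat_lit 0x10000c0000000000000000000000000000000) (nat_lit 0x0) (nat_lit 0x78007c001f01cfc073e03df83ff81ffc1ff801f8001c00000) := Q_45 (nat_lit 125) (C_45 L124537 (C_45 L124547 (C_45 L124548 (C_45 L124753 (C_45 L124775 (C_45 L124776 (C_45 L124785 (C_45 L124829 (C_45 L124830 N_45))))))))) (by decide +kernel)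
theorem L124832 : W_45 (nat_lit 2) (nat_lit 0x18000c0006000000000000000000000000000) (nat_lit 0x0) (nat_lit 0x10000000000000000200010000000000000000000) := D_45 (nat_lit 93) (nat_lit 76) (nat_lit 160) (nat_lit 5) (nat_lit 8) (nat_lit 4) (nat_lit 6) (nat_lit 7) (nat_lit 9) (by decide +kernel)
theorem L124833 : W_45 (nat_lit 2) (nat_lit 0x80008001c001e000d0007000000000000000000000000000) (nat_lit 0x0) (nat_lit 0x30001000000000000000000000000000000000000000000000000) := D_45 (nat_lit 192) (nat_lit 209) (nat_lit 208) (nat_lit 6) (nat_lit 5) (nat_lit 12) (nat_lit 5) (nat_lit 5) (nat_lit 8) (by decide +kernel)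
theorem L124834 : W_45 (nat_lit 3) (nat_lit 0x8001c001e000d0007000000000000000000000000000) (nat_lit 0x0) (nat_lit 0x30001800040000000000000000000000000000000000000000000) := T_45 (nat_lit 191) (nat_lit 174) (nat_lit 5) (nat_lit 5) (nat_lit 7) L124833 (by decide +kernel)
theorem L124835 : W_45 (nat_lit 4) (nat_lit 0x1c001e000d0007000000000000000000000000000) (nat_lit 0x0) (nat_lit 0x300018000c0000000000020000000000000000000000000000000) := T_45 (nat_lit 175) (nat_lit 125) (nat_lit 6) (nat_lit 5) (nat_lit 10) L124834 (by decide +kernel)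
theorem L124836 : W_45 (nat_lit 5) (nat_lit 0x1c001e000d0006000000000000000000000000000) (nat_lit 0x0) (nat_lit 0x300018000c0000000000020001000080000000000000000000000) := T_45 (nat_lit 108) (nat_lit 91) (nat_lit 4) (nat_lit 7) (nat_lit 9) L124835 (by decide +kernel)
theorem L124837 : W_45 (nat_lit 6) (nat_lit 0x18001e000d0006000000000000000000000000000) (nat_lit 0x0) (nat_lit 0x300018000c0006000000020001000080000000000000000000000) := T_45 (nat_lit 158) (nat_lit 157) (nat_lit 2) (nat_lit 4) (nat_lit 9) L124836 (by decide +kernel)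
theorem L124838 : W_45 (nat_lit 7) (nat_lit 0x10001e000d0006000000000000000000000000000) (nat_lit 0x0) (nat_lit 0x300018001c000e000000020001000080000000000000000000000) := T_45 (nat_lit 159) (nat_lit 176) (nat_lit 5) (nat_lit 7) (nat_lit 6) L124837 (by decide +kernel)
theorem L124839 : W_45 (nat_lit 8) (nat_lit 0x10001e000c0006000000000000000000000000000) (nat_lit 0x0) (nat_lit 0x300018001c000e000000038001000080000000000000000000000) := T_45 (nat_lit 124) (nat_lit 123) (nat_lit 0) (nat_lit 8) (nat_lit 8) L124838 (by decide +kernel)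
theorem L124840 : W_45 (nat_lit 9) (nat_lit 0x10001e000c0002000000000000000000000000000) (nat_lit 0x0) (nat_lit 0x300018001c000e000000038005000280000000000000000000000) := T_45 (nat_lit 110) (nat_lit 93) (nat_lit 6) (nat_lit 7) (nat_lit 9) L124839 (by decide +kernel)
theorem L124841 : W_45 (nat_lit 10) (nat_lit 0x10001c000c0002000000000000000000000000000) (nat_lit 0x0) (nat_lit 0x300018001c000e000300038005000280000000000000000000000) := T_45 (nat_lit 141) (nat_lit 140) (nat_lit 2) (nat_lit 4) (nat_lit 8) L124840 (by decide +kernel)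
theorem L124842 : W_45 (nat_lit 2) (nat_lit 0x10001c000c0003000000000000000000000000000) (nat_lit 0x0) (nat_lit 0x4000200000000000020000000000000000000000000000000) := D_45 (nat_lit 177) (nat_lit 194) (nat_lit 125) (nat_lit 6) (nat_lit 7) (nat_lit 11) (nat_lit 4) (nat_lit 7) (nat_lit 10) (by decide +kernel)
theorem L124843 : W_45 (nat_lit 3) (nat_lit 0x10001c000c0002000000000000000000000000000) (nat_lit 0x0) (nat_lit 0x4000200000000000020001000080000000000000000000000) := T_45 (nat_lit 108) (nat_lit 91) (nat_lit 4) (nat_lit 7) (nat_lit 9) L124842 (by decide +kernel)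
theorem L124844 : W_45 (nat_lit 6) (nat_lit 0x10001c0002000000000000000000000000000) (nat_lit 0x0) (nat_lit 0x4000200018000e0000000500018000c000000000000000000) := T_45 (nat_lit 92) (nat_lit 75) (nat_lit 7) (nat_lit 7) (nat_lit 4) L123940 (by decide +kernel)
theorem L124845 : W_45 (nat_lit 2) (nat_lit 0x18001c0002000000000000000000000000000) (nat_lit 0x0) (nat_lit 0x400600000000000000000000000000000000) := D_45 (nat_lit 129) (nat_lit 142) (nat_lit 130) (nat_lit 1) (nat_lit 10) (nat_lit 7) (nat_lit 1) (nat_lit 11) (nat_lit 7) (by decide +kernel)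
theorem L124846 : W_45 (nat_lit 2) (nat_lit 0x1000100018005c0002000380000000000000000000000) (nat_lit 0x0) (nat_lit 0x6000200000000000000000000000000000000000000000000) := D_45 (nat_lit 177) (nat_lit 194) (nat_lit 193) (nat_lit 6) (nat_lit 7) (nat_lit 11) (nat_lit 5) (nat_lit 7) (nat_lit 7) (by decide +kernel)
theorem L124847 : W_45 (nat_lit 3) (nat_lit 0x100018005c0002000380000000000000000000000) (nat_lit 0x0) (nat_lit 0x6000300008000000000000000000000000000000000000000) := T_45 (nat_lit 176) (nat_lit 159) (nat_lit 5) (nat_lit 7) (nat_lit 6) L124846 (by decide +kernel)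
theorem L124848 : W_45 (nat_lit 4) (nat_lit 0x18005c0002000380000000000000000000000) (nat_lit 0x0) (nat_lit 0x6000300018000000000004000000000000000000000000000) := T_45 (nat_lit 160) (nat_lit 110) (nat_lit 6) (nat_lit 7) (nat_lit 9) L124847 (by decide +kernel)
theorem L124849 : W_45 (nat_lit 5) (nat_lit 0x18005c0002000180000000000000000000000) (nat_lit 0x0) (nat_lit 0x6000300018000000000004000200010000000000000000000) := T_45 (nat_lit 93) (nat_lit 76) (nat_lit 6) (nat_lit 7) (nat_lit 8) L124848 (by decide +kernel)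
theorem L124850 : W_45 (nat_lit 6) (nat_lit 0x18005c0002000100000000000000000000000) (nat_lit 0x0) (nat_lit 0x6000300018000000000004000280014000000000000000000) := T_45 (nat_lit 91) (nat_lit 74) (nat_lit 4) (nat_lit 7) (nat_lit 8) L124849 (by decide +kernel)
theorem L124851 : W_45 (nat_lit 7) (nat_lit 0x18001c0002000100000000000000000000000) (nat_lit 0x0) (nat_lit 0x6000300018000000600004000280014000000000000000000) := T_45 (nat_lit 130) (nat_lit 129) (nat_lit 1) (nat_lit 11) (nat_lit 7) L124850 (by decide +kernel)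
theorem L124852 : W_45 (nat_lit 8) (nat_lit 0x18001c0002000000000000000000000000000) (nat_lit 0x0) (nat_lit 0x600030001800000060000400038001c000000000000000000) := T_45 (nat_lit 92) (nat_lit 75) (nat_lit 7) (nat_lit 7) (nat_lit 4) L124851 (by decide +kernel)
theorem L124853 : W_45 (nat_lit 9) (nat_lit 0x10001c0002000000000000000000000000000) (nat_lit 0x0) (nat_lit 0x6000300018000e0060000400038001c000000000000000000) := Q_45 (nat_lit 143) (C_45 L123762 (C_45 L124845 (C_45 L124852 N_45))) (by decide +kernel)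
theorem L124854 : W_45 (nat_lit 10) (nat_lit 0x10000c0002000000000000000000000000000) (nat_lit 0x0) (nat_lit 0x600030001801ce0070003500038001c000000000000000000) := Q_45 (nat_lit 128) (C_45 L123134 (C_45 L123143 (C_45 L124844 (C_45 L124853 (C_45 L123142 N_45))))) (by decide +kernel)
theorem L124855 : W_45 (nat_lit 2) (nat_lit 0x16000e00034000d0000000000000000000000) (nat_lit 0x0) (nat_lit 0x10000000000004000200000000000000) := D_45 (nat_lit 74) (nat_lit 124) (nat_lit 57) (nat_lit 5) (nat_lit 6) (nat_lit 4) (nat_lit 7) (nat_lit 6) (nat_lit 3) (by decide +kernel)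
theorem L124856 : W_45 (nat_lit 3) (nat_lit 0x14000e00034000d0000000000000000000000) (nat_lit 0x0) (nat_lit 0x4000200010000000000004000200000000000000) := T_45 (nat_lit 141) (nat_lit 158) (nat_lit 5) (nat_lit 6) (nat_lit 5) L124855 (by decide +kernel)
theorem L124857 : W_45 (nat_lit 4) (nat_lit 0x14000e00034000c0000000000000000000000) (nat_lit 0x0) (nat_lit 0x4000200010000000030004000200000000000000) := T_45 (nat_lit 88) (nat_lit 89) (nat_lit 3) (nat_lit 3) (nat_lit 5) L124856 (by decide +kernel)
theorem L124858 : W_45 (nat_lit 5) (nat_lit 0x14000e0003400080000000000000000000000) (nat_lit 0x0) (nat_lit 0x4000200010000000070006000200000000000000) := T_45 (nat_lit 90) (nat_lit 73) (nat_lit 4) (nat_lit 6) (nat_lit 8) L124857 (by decide +kernel)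
theorem L124859 : W_45 (nat_lit 6) (nat_lit 0x14000e0003000080000000000000000000000) (nat_lit 0x0) (nat_lit 0x4000200010000c00070006000200000000000000) := T_45 (nat_lit 106) (nat_lit 107) (nat_lit 3) (nat_lit 4) (nat_lit 6) L124858 (by decide +kernel)
theorem L124860 : W_45 (nat_lit 7) (nat_lit 0x14000e0003000000000000000000000000000) (nat_lit 0x0) (nat_lit 0x4000200010004e001f000e000600000000000000) := Q_45 (nat_lit 91) (C_45 L122279 (C_45 L124859 (C_45 L122231 N_45))) (by decide +kernel)
theorem L124861 : W_45 (nat_lit 2) (nat_lit 0x14000e0003000000000000000000000000000) (nat_lit 0x0) (nat_lit 0x8000000000000000100008000000000000000000) := D_45 (nat_lit 92) (nat_lit 75) (nat_lit 159) (nat_lit 7) (nat_lit 7) (nat_lit 4) (nat_lit 6) (nat_lit 6) (nat_lit 9) (by decide +kernel)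
theorem L124862 : W_45 (nat_lit 8) (nat_lit 0x10000e0003000000000000000000000000000) (nat_lit 0x0) (nat_lit 0x10000c000600010004e001f000e000600000000000000) := Q_45 (nat_lit 142) (C_45 L122220 (C_45 L124860 (C_45 L124861 N_45))) (by decide +kernel)
theorem L124863 : W_45 (nat_lit 2) (nat_lit 0x14000e00030000e0000000000000000000000) (nat_lit 0x0) (nat_lit 0x4c00000000000000000000000000) := D_45 (nat_lit 107) (nat_lit 106) (nat_lit 110) (nat_lit 3) (nat_lit 4) (nat_lit 6) (nat_lit 0) (nat_lit 8) (nat_lit 6) (by decide +kernel)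
theorem L124864 : W_45 (nat_lit 3) (nat_lit 0x14000e00030000c0000000000000000000000) (nat_lit 0x0) (nat_lit 0x4c00030000000000000000000000) := T_45 (nat_lit 89) (nat_lit 88) (nat_lit 3) (nat_lit 3) (nat_lit 5) L124863 (by decide +kernel)
theorem L124865 : W_45 (nat_lit 4) (nat_lit 0x14000e0003000080000000000000000000000) (nat_lit 0x0) (nat_lit 0x4c00070002000000000000000000) := T_45 (nat_lit 90) (nat_lit 73) (nat_lit 4) (nat_lit 6) (nat_lit 8) L124864 (by decide +kernel)
theorem L124866 : W_45 (nat_lit 6) (nat_lit 0x14000e0003000000000000000000000000000) (nat_lit 0x0) (nat_lit 0x4e001f000e000600000000000000) := Q_45 (nat_lit 91) (C_45 L122279 (C_45 L124865 (C_45 L122231 N_45))) (by decide +kernel)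
theorem L124867 : W_45 (nat_lit 7) (nat_lit 0x10000e0003000000000000000000000000000) (nat_lit 0x0) (nat_lit 0x100008000400000004e001f000e000600000000000000) := Q_45 (nat_lit 142) (C_45 L124861 (C_45 L124866 (C_45 L122220 N_45))) (by decide +kernel)
theorem L124868 : W_45 (nat_lit 2) (nat_lit 0x10000f0003000000000000000000000000000) (nat_lit 0x0) (nat_lit 0xc004000000000000000000000000000) := D_45 (nat_lit 123) (nat_lit 122) (nat_lit 110) (nat_lit 2) (nat_lit 3) (nat_lit 7) (nat_lit 2) (nat_lit 4) (nat_lit 7) (by decide +kernel)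
theorem L124869 : W_45 (nat_lit 2) (nat_lit 0x10000f0003400000000000000000000000000) (nat_lit 0x0) (nat_lit 0xc000200000000000000000000000000) := D_45 (nat_lit 123) (nat_lit 122) (nat_lit 105) (nat_lit 2) (nat_lit 3) (nat_lit 7) (nat_lit 0) (nat_lit 7) (nat_lit 7) (by decide +kernel)
theorem L124870 : W_45 (nat_lit 3) (nat_lit 0x10000f0003000000000000000000000000000) (nat_lit 0x0) (nat_lit 0xc000e00000000000000000000000000) := T_45 (nat_lit 106) (nat_lit 107) (nat_lit 3) (nat_lit 4) (nat_lit 6) L124869 (by decide +kernel)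
theorem L124871 : W_45 (nat_lit 2) (nat_lit 0x12000f0003800000000000000000000000000) (nat_lit 0x0) (nat_lit 0x4000000000000000080004000000000000000000) := D_45 (nat_lit 91) (nat_lit 74) (nat_lit 158) (nat_lit 5) (nat_lit 6) (nat_lit 4) (nat_lit 6) (nat_lit 5) (nat_lit 9) (by decide +kernel)
theorem L124872 : W_45 (nat_lit 3) (nat_lit 0x10000f0003800000000000000000000000000) (nat_lit 0x0) (nat_lit 0x4000300000000000080004000000000000000000) := T_45 (nat_lit 141) (nat_lit 140) (nat_lit 1) (nat_lit 8) (nat_lit 7) L124871 (by decide +kernel)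
theorem L124873 : W_45 (nat_lit 4) (nat_lit 0x10000f0003000000000000000000000000000) (nat_lit 0x0) (nat_lit 0x4000300000000c00080004000000000000000000) := T_45 (nat_lit 107) (nat_lit 106) (nat_lit 3) (nat_lit 4) (nat_lit 6) L124872 (by decide +kernel)
theorem L124874 : W_45 (nat_lit 5) (nat_lit 0x10000e0003000000000000000000000000000) (nat_lit 0x0) (nat_lit 0x400030001c004e00080004000000000000000000) := Q_45 (nat_lit 124) (C_45 L124868 (C_45 L124870 (C_45 L124873 N_45))) (by decide +kernel)
theorem L124875 : W_45 (nat_lit 2) (nat_lit 0x16000e00034000d0008000000000000000000) (nat_lit 0x0) (nat_lit 0x180010000000000000000000000000000000) := D_45 (nat_lit 140) (nat_lit 139) (nat_lit 124) (nat_lit 2) (nat_lit 3) (nat_lit 8) (nat_lit 1) (nat_lit 8) (nat_lit 7) (by decide +kernel)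
theorem L124876 : W_45 (nat_lit 3) (nat_lit 0x14000e00034000d0008000000000000000000) (nat_lit 0x0) (nat_lit 0x4000380010000000000000000000000000000000) := T_45 (nat_lit 141) (nat_lit 158) (nat_lit 5) (nat_lit 6) (nat_lit 5) L124875 (by decide +kernel)
theorem L124877 : W_45 (nat_lit 4) (nat_lit 0x14000e00030000d0008000000000000000000) (nat_lit 0x0) (nat_lit 0x4000380010000c00000000000000000000000000) := T_45 (nat_lit 106) (nat_lit 107) (nat_lit 3) (nat_lit 4) (nat_lit 6) L124876 (by decide +kernel)
theorem L124878 : W_45 (nat_lit 5) (nat_lit 0x14000e00030000c0008000000000000000000) (nat_lit 0x0) (nat_lit 0x4000380010000c00030000000000000000000000) := T_45 (nat_lit 88) (nat_lit 89) (nat_lit 3) (nat_lit 3) (nat_lit 5) L124877 (by decide +kernel)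
theorem L124879 : W_45 (nat_lit 6) (nat_lit 0x14000e0003000080008000000000000000000) (nat_lit 0x0) (nat_lit 0x4000380010000c00070002000000000000000000) := T_45 (nat_lit 90) (nat_lit 73) (nat_lit 4) (nat_lit 6) (nat_lit 8) L124878 (by decide +kernel)
theorem L124880 : W_45 (nat_lit 7) (nat_lit 0x14000e0003000080000000000000000000000) (nat_lit 0x0) (nat_lit 0x4000380010000c0017000a000000000000000000) := T_45 (nat_lit 75) (nat_lit 92) (nat_lit 7) (nat_lit 7) (nat_lit 4) L124879 (by decide +kernel)
theorem L124881 : W_45 (nat_lit 8) (nat_lit 0x14000e0003000000000000000000000000000) (nat_lit 0x0) (nat_lit 0x4000380010000c001f000e000600000000000000) := Q_45 (nat_lit 91) (C_45 L124859 (C_45 L122231 (C_45 L124880 N_45))) (by decide +kernel)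
theorem L124882 : W_45 (nat_lit 9) (nat_lit 0x10000e0003000000000000000000000000000) (nat_lit 0x0) (nat_lit 0x10000c000780010000c001f000e000600000000000000) := Q_45 (nat_lit 142) (C_45 L124861 (C_45 L124881 (C_45 L122220 N_45))) (by decide +kernel)
theorem L124883 : W_45 (nat_lit 2) (nat_lit 0xe0012000f0003800040008000000000000000000) (nat_lit 0x0) (nat_lit 0x4000020001000000000000000000) := D_45 (nat_lit 89) (nat_lit 72) (nat_lit 110) (nat_lit 4) (nat_lit 5) (nat_lit 8) (nat_lit 0) (nat_lit 8) (nat_lit 6) (by decide +kernel)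
theorem L124884 : W_45 (nat_lit 3) (nat_lit 0xe0012000f0003800000008000000000000000000) (nat_lit 0x0) (nat_lit 0x400000004000060001000000000000000000) := T_45 (nat_lit 90) (nat_lit 142) (nat_lit 7) (nat_lit 5) (nat_lit 5) L124883 (by decide +kernel)
theorem L124885 : W_45 (nat_lit 4) (nat_lit 0x60012000f0003800000008000000000000000000) (nat_lit 0x0) (nat_lit 0x100008000400000004000060001000000000000000000) := T_45 (nat_lit 159) (nat_lit 176) (nat_lit 7) (nat_lit 5) (nat_lit 6) L124884 (by decide +kernel)
theorem L124886 : W_45 (nat_lit 5) (nat_lit 0x40012000f0003800000008000000000000000000) (nat_lit 0x0) (nat_lit 0x14000a000400000004000060001000000000000000000) := T_45 (nat_lit 157) (nat_lit 174) (nat_lit 5) (nat_lit 5) (nat_lit 6) L124885 (by decide +kernel)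
theorem L124887 : W_45 (nat_lit 6) (nat_lit 0x12000f0003800000008000000000000000000) (nat_lit 0x0) (nat_lit 0x1c000e000400000004000060001000000000000000000) := T_45 (nat_lit 158) (nat_lit 175) (nat_lit 6) (nat_lit 5) (nat_lit 10) L124886 (by decide +kernel)
theorem L124888 : W_45 (nat_lit 7) (nat_lit 0x12000f0003000000008000000000000000000) (nat_lit 0x0) (nat_lit 0x1c000e000400000004c00060001000000000000000000) := T_45 (nat_lit 107) (nat_lit 106) (nat_lit 3) (nat_lit 4) (nat_lit 6) L124887 (by decide +kernel)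
theorem L124889 : W_45 (nat_lit 8) (nat_lit 0x10000f0003000000008000000000000000000) (nat_lit 0x0) (nat_lit 0x1c000e000700000004c00060001000000000000000000) := T_45 (nat_lit 141) (nat_lit 140) (nat_lit 1) (nat_lit 8) (nat_lit 7) L124888 (by decide +kernel)
theorem L124890 : W_45 (nat_lit 9) (nat_lit 0x10000f0003000000000000000000000000000) (nat_lit 0x0) (nat_lit 0x1c000e000700000004c00160009000000000000000000) := T_45 (nat_lit 75) (nat_lit 92) (nat_lit 7) (nat_lit 7) (nat_lit 4) L124889 (by decide +kernel)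
theorem L124891 : W_45 (nat_lit 10) (nat_lit 0x10000e0003000000000000000000000000000) (nat_lit 0x0) (nat_lit 0x1c000e00070001c004e00160009000000000000000000) := Q_45 (nat_lit 124) (C_45 L124870 (C_45 L124868 (C_45 L124890 N_45))) (by decide +kernel)
theorem L124892 : W_45 (nat_lit 2) (nat_lit 0x16000e00030000d0000000200000000000000) (nat_lit 0x0) (nat_lit 0x180010000000000000000000000000000000) := D_45 (nat_lit 140) (nat_lit 139) (nat_lit 124) (nat_lit 2) (nat_lit 3) (nat_lit 8) (nat_lit 1) (nat_lit 8) (nat_lit 7) (by decide +kernel)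
theorem L124893 : W_45 (nat_lit 3) (nat_lit 0x14000e00030000d0000000200000000000000) (nat_lit 0x0) (nat_lit 0x4000380010000000000000000000000000000000) := T_45 (nat_lit 141) (nat_lit 158) (nat_lit 5) (nat_lit 6) (nat_lit 5) L124892 (by decide +kernel)
theorem L124894 : W_45 (nat_lit 4) (nat_lit 0x14000e00030000c0000000200000000000000) (nat_lit 0x0) (nat_lit 0x4000380010000000030000000000000000000000) := T_45 (nat_lit 88) (nat_lit 89) (nat_lit 3) (nat_lit 3) (nat_lit 5) L124893 (by decide +kernel)
theorem L124895 : W_45 (nat_lit 5) (nat_lit 0x14000e0003000080000000200000000000000) (nat_lit 0x0) (nat_lit 0x4000380010000000070002000000000000000000) := T_45 (nat_lit 90) (nat_lit 73) (nat_lit 4) (nat_lit 6) (nat_lit 8) L124894 (by decide +kernel)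
theorem L124896 : W_45 (nat_lit 6) (nat_lit 0x14000e0003000080000000000000000000000) (nat_lit 0x0) (nat_lit 0x4000380010000000070006000200000000000000) := T_45 (nat_lit 57) (nat_lit 74) (nat_lit 7) (nat_lit 6) (nat_lit 3) L124895 (by decide +kernel)
theorem L124897 : W_45 (nat_lit 2) (nat_lit 0x16000e0003000080000000000000000000000) (nat_lit 0x0) (nat_lit 0x180010000000000000000000000000000000) := D_45 (nat_lit 140) (nat_lit 139) (nat_lit 124) (nat_lit 2) (nat_lit 3) (nat_lit 8) (nat_lit 1) (nat_lit 8) (nat_lit 7) (by decide +kernel)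
theorem L124898 : W_45 (nat_lit 3) (nat_lit 0x14000e0003000080000000000000000000000) (nat_lit 0x0) (nat_lit 0x4000380010000000000000000000000000000000) := T_45 (nat_lit 141) (nat_lit 158) (nat_lit 5) (nat_lit 6) (nat_lit 5) L124897 (by decide +kernel)
theorem L124899 : W_45 (nat_lit 7) (nat_lit 0x14000e0003000000000000000000000000000) (nat_lit 0x0) (nat_lit 0x40003800100000001f000e000600000000000000) := Q_45 (nat_lit 91) (C_45 L122231 (C_45 L124896 (C_45 L124898 N_45))) (by decide +kernel)
theorem L124900 : W_45 (nat_lit 2) (nat_lit 0xc0014000e0003000080002000000000000000000) (nat_lit 0x0) (nat_lit 0x4000300000000000000) := D_45 (nat_lit 74) (nat_lit 57) (nat_lit 56) (nat_lit 7) (nat_lit 6) (nat_lit 3) (nat_lit 4) (nat_lit 6) (nat_lit 7) (by decide +kernel)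
theorem L124901 : W_45 (nat_lit 3) (nat_lit 0xc0014000e0003000080000000000000000000000) (nat_lit 0x0) (nat_lit 0x40006000300000000000000) := T_45 (nat_lit 73) (nat_lit 90) (nat_lit 4) (nat_lit 6) (nat_lit 8) L124900 (by decide +kernel)
theorem L124902 : W_45 (nat_lit 4) (nat_lit 0xc0014000e0003000000000000000000000000000) (nat_lit 0x0) (nat_lit 0x2000000000000c0006000300000000000000) := T_45 (nat_lit 91) (nat_lit 141) (nat_lit 5) (nat_lit 6) (nat_lit 5) L124901 (by decide +kernel)
theorem L124903 : W_45 (nat_lit 5) (nat_lit 0x80014000e0003000000000000000000000000000) (nat_lit 0x0) (nat_lit 0x800040002000000000000c0006000300000000000000) := T_45 (nat_lit 158) (nat_lit 175) (nat_lit 5) (nat_lit 6) (nat_lit 6) L124902 (by decide +kernel)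
theorem L124904 : W_45 (nat_lit 6) (nat_lit 0x14000e0003000000000000000000000000000) (nat_lit 0x0) (nat_lit 0x18000c0002000000000000c0006000300000000000000) := T_45 (nat_lit 159) (nat_lit 176) (nat_lit 6) (nat_lit 6) (nat_lit 10) L124903 (by decide +kernel)
theorem L124905 : W_45 (nat_lit 8) (nat_lit 0x10000e0003000000000000000000000000000) (nat_lit 0x0) (nat_lit 0x18000c0007800100000001f000e000700000000000000) := Q_45 (nat_lit 142) (C_45 L124861 (C_45 L124899 (C_45 L124904 N_45))) (by decide +kernel)
theorem L124906 : W_45 (nat_lit 11) (nat_lit 0x10000c0003000000000000000000000000000) (nat_lit 0x0) (nat_lit 0x1c000e00078003c004e001f000f000700000000000000) := Q_45 (nat_lit 125) (C_45 L124862 (C_45 L124867 (C_45 L124874 (C_45 L124882 (C_45 L124891 (C_45 L124905 N_45)))))) (by decide +kernel)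
theorem L124907 : W_45 (nat_lit 2) (nat_lit 0x10001c0003000000008000000000000000000) (nat_lit 0x0) (nat_lit 0x20000c00000000000000000000000000) := D_45 (nat_lit 107) (nat_lit 106) (nat_lit 125) (nat_lit 3) (nat_lit 4) (nat_lit 6) (nat_lit 0) (nat_lit 9) (nat_lit 7) (by decide +kernel)
theorem L124908 : W_45 (nat_lit 3) (nat_lit 0x10000c0003000000008000000000000000000) (nat_lit 0x0) (nat_lit 0x320000c00000000000000000000000000) := T_45 (nat_lit 128) (nat_lit 129) (nat_lit 0) (nat_lit 10) (nat_lit 7) L124907 (by decide +kernel)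
theorem L124909 : W_45 (nat_lit 4) (nat_lit 0x10000c0003000000000000000000000000000) (nat_lit 0x0) (nat_lit 0x320000c00100008000000000000000000) := T_45 (nat_lit 75) (nat_lit 92) (nat_lit 7) (nat_lit 7) (nat_lit 4) L124908 (by decide +kernel)
theorem L124910 : W_45 (nat_lit 2) (nat_lit 0x10002f000300008000c000000000000000000) (nat_lit 0x0) (nat_lit 0xc004000000000000000000000000000) := D_45 (nat_lit 123) (nat_lit 110) (nat_lit 122) (nat_lit 2) (nat_lit 4) (nat_lit 7) (nat_lit 2) (nat_lit 3) (nat_lit 7) (by decide +kernel)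
theorem L124911 : W_45 (nat_lit 3) (nat_lit 0x10002e000300008000c000000000000000000) (nat_lit 0x0) (nat_lit 0x20001c004000000000000000000000000000) := T_45 (nat_lit 124) (nat_lit 141) (nat_lit 5) (nat_lit 6) (nat_lit 4) L124910 (by decide +kernel)
theorem L124912 : W_45 (nat_lit 4) (nat_lit 0x10002c000300008000c000000000000000000) (nat_lit 0x0) (nat_lit 0x20003c004000000000000400000000000000) := T_45 (nat_lit 125) (nat_lit 58) (nat_lit 6) (nat_lit 6) (nat_lit 7) L124911 (by decide +kernel)
theorem L124913 : W_45 (nat_lit 5) (nat_lit 0x10000c000300008000c000000000000000000) (nat_lit 0x0) (nat_lit 0x20033c004000000000000400000000000000) := T_45 (nat_lit 129) (nat_lit 128) (nat_lit 0) (nat_lit 10) (nat_lit 7) L124912 (by decide +kernel)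
theorem L124914 : W_45 (nat_lit 6) (nat_lit 0x10000c000300000000c000000000000000000) (nat_lit 0x0) (nat_lit 0x20033c004000080000000600000000000000) := T_45 (nat_lit 91) (nat_lit 57) (nat_lit 7) (nat_lit 6) (nat_lit 3) L124913 (by decide +kernel)
theorem L124915 : W_45 (nat_lit 7) (nat_lit 0x10000c0003000000004000000000000000000) (nat_lit 0x0) (nat_lit 0x20033c004000180008000600000000000000) := T_45 (nat_lit 75) (nat_lit 92) (nat_lit 7) (nat_lit 7) (nat_lit 4) L124914 (by decide +kernel)
theorem L124916 : W_45 (nat_lit 2) (nat_lit 0x10002c000300040003c000200000000000000) (nat_lit 0x0) (nat_lit 0x4000200002000000000000000000) := D_45 (nat_lit 93) (nat_lit 73) (nat_lit 110) (nat_lit 3) (nat_lit 5) (nat_lit 4) (nat_lit 6) (nat_lit 8) (nat_lit 8) (by decide +kernel)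
theorem L124917 : W_45 (nat_lit 3) (nat_lit 0x10002c000300000003c000200000000000000) (nat_lit 0x0) (nat_lit 0x4000e00002000000000000000000) := T_45 (nat_lit 94) (nat_lit 95) (nat_lit 3) (nat_lit 6) (nat_lit 4) L124916 (by decide +kernel)
theorem L124918 : W_45 (nat_lit 4) (nat_lit 0x10000c000300000003c000200000000000000) (nat_lit 0x0) (nat_lit 0x300004000e00002000000000000000000) := T_45 (nat_lit 129) (nat_lit 128) (nat_lit 0) (nat_lit 10) (nat_lit 7) L124917 (by decide +kernel)
theorem L124919 : W_45 (nat_lit 5) (nat_lit 0x10000c000300000001c000200000000000000) (nat_lit 0x0) (nat_lit 0x300004000e00022000100000000000000) := T_45 (nat_lit 77) (nat_lit 56) (nat_lit 0) (nat_lit 9) (nat_lit 4) L124918 (by decide +kernel)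
theorem L124920 : W_45 (nat_lit 6) (nat_lit 0x10000c000300000001c000000000000000000) (nat_lit 0x0) (nat_lit 0x300004000e80022000300000000000000) := T_45 (nat_lit 57) (nat_lit 91) (nat_lit 7) (nat_lit 6) (nat_lit 3) L124919 (by decide +kernel)
theorem L124921 : W_45 (nat_lit 2) (nat_lit 0x10002c000300000007c000200000000000000) (nat_lit 0x0) (nat_lit 0x7000000000000000) := D_45 (nat_lit 61) (nat_lit 60) (nat_lit 62) (nat_lit 2) (nat_lit 6) (nat_lit 4) (nat_lit 2) (nat_lit 7) (nat_lit 4) (by decide +kernel)
theorem L124922 : W_45 (nat_lit 3) (nat_lit 0x10002c000300000003c000200000000000000) (nat_lit 0x0) (nat_lit 0x40007400000000000000) := T_45 (nat_lit 78) (nat_lit 58) (nat_lit 0) (nat_lit 10) (nat_lit 4) L124921 (by decide +kernel)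
theorem L124923 : W_45 (nat_lit 4) (nat_lit 0x10002c000300000001c000200000000000000) (nat_lit 0x0) (nat_lit 0x60007500000000000000) := T_45 (nat_lit 77) (nat_lit 56) (nat_lit 0) (nat_lit 9) (nat_lit 4) L124922 (by decide +kernel)
theorem L124924 : W_45 (nat_lit 5) (nat_lit 0x10002c000300000001c000000000000000000) (nat_lit 0x0) (nat_lit 0x80060007700000000000000) := T_45 (nat_lit 57) (nat_lit 91) (nat_lit 7) (nat_lit 6) (nat_lit 3) L124923 (by decide +kernel)
theorem L124925 : W_45 (nat_lit 6) (nat_lit 0x10000c000300000001c000000000000000000) (nat_lit 0x0) (nat_lit 0x300000000080060007700000000000000) := T_45 (nat_lit 129) (nat_lit 128) (nat_lit 0) (nat_lit 10) (nat_lit 7) L124924 (by decide +kernel)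
theorem L124926 : W_45 (nat_lit 2) (nat_lit 0x10000c000300000007c000200000000000000) (nat_lit 0x0) (nat_lit 0x1c00000000000000000000000) := D_45 (nat_lit 95) (nat_lit 94) (nat_lit 96) (nat_lit 3) (nat_lit 6) (nat_lit 4) (nat_lit 3) (nat_lit 7) (nat_lit 4) (by decide +kernel)
theorem L124927 : W_45 (nat_lit 3) (nat_lit 0x10000c000300000003c000200000000000000) (nat_lit 0x0) (nat_lit 0x1c00040000400000000000000) := T_45 (nat_lit 78) (nat_lit 58) (nat_lit 0) (nat_lit 10) (nat_lit 4) L124926 (by decide +kernel)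
theorem L124928 : W_45 (nat_lit 4) (nat_lit 0x10000c000300000001c000200000000000000) (nat_lit 0x0) (nat_lit 0x1c00060000500000000000000) := T_45 (nat_lit 77) (nat_lit 56) (nat_lit 0) (nat_lit 9) (nat_lit 4) L124927 (by decide +kernel)
theorem L124929 : W_45 (nat_lit 5) (nat_lit 0x10000c000300000001c000000000000000000) (nat_lit 0x0) (nat_lit 0x1c80060000700000000000000) := T_45 (nat_lit 57) (nat_lit 91) (nat_lit 7) (nat_lit 6) (nat_lit 3) L124928 (by decide +kernel)
theorem L124930 : W_45 (nat_lit 2) (nat_lit 0x10002c000300020001e000000000000000000) (nat_lit 0x0) (nat_lit 0x4000000000001800000000000000) := D_45 (nat_lit 59) (nat_lit 60) (nat_lit 110) (nat_lit 2) (nat_lit 5) (nat_lit 4) (nat_lit 5) (nat_lit 8) (nat_lit 3) (by decide +kernel)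
theorem L124931 : W_45 (nat_lit 3) (nat_lit 0x10002c000300000001e000000000000000000) (nat_lit 0x0) (nat_lit 0x4000600000001800000000000000) := T_45 (nat_lit 93) (nat_lit 94) (nat_lit 3) (nat_lit 5) (nat_lit 4) L124930 (by decide +kernel)
theorem L124932 : W_45 (nat_lit 4) (nat_lit 0x10000c000300000001e000000000000000000) (nat_lit 0x0) (nat_lit 0x300004000600000001800000000000000) := T_45 (nat_lit 129) (nat_lit 128) (nat_lit 0) (nat_lit 10) (nat_lit 7) L124931 (by decide +kernel)
theorem L124933 : W_45 (nat_lit 2) (nat_lit 0x10000c000300000001f000800000000000000) (nat_lit 0x0) (nat_lit 0x70000000000000000000000) := D_45 (nat_lit 89) (nat_lit 88) (nat_lit 90) (nat_lit 1) (nat_lit 7) (nat_lit 4) (nat_lit 1) (nat_lit 8) (nat_lit 4) (by decide +kernel)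
theorem L124934 : W_45 (nat_lit 3) (nat_lit 0x10000c000300000001e000800000000000000) (nat_lit 0x0) (nat_lit 0x70001000400000000000000) := T_45 (nat_lit 72) (nat_lit 58) (nat_lit 2) (nat_lit 4) (nat_lit 4) L124933 (by decide +kernel)
theorem L124935 : W_45 (nat_lit 4) (nat_lit 0x10000c000300000001e000000000000000000) (nat_lit 0x0) (nat_lit 0x70001001c00000000000000) := T_45 (nat_lit 59) (nat_lit 60) (nat_lit 2) (nat_lit 5) (nat_lit 4) L124934 (by decide +kernel)
theorem L124936 : W_45 (nat_lit 2) (nat_lit 0x10000c000300020001e000000000000000000) (nat_lit 0x0) (nat_lit 0x4000000000000c00000000000000) := D_45 (nat_lit 110) (nat_lit 58) (nat_lit 59) (nat_lit 4) (nat_lit 8) (nat_lit 7) (nat_lit 5) (nat_lit 8) (nat_lit 3) (by decide +kernel)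
theorem L124937 : W_45 (nat_lit 3) (nat_lit 0x10000c000300000001e000000000000000000) (nat_lit 0x0) (nat_lit 0x4000600000000c00000000000000) := T_45 (nat_lit 93) (nat_lit 94) (nat_lit 3) (nat_lit 5) (nat_lit 4) L124936 (by decide +kernel)
theorem L124938 : W_45 (nat_lit 2) (nat_lit 0x10002c000700024001e000100000000000000) (nat_lit 0x0) (nat_lit 0x20001200000000000000) := D_45 (nat_lit 77) (nat_lit 60) (nat_lit 57) (nat_lit 6) (nat_lit 8) (nat_lit 7) (nat_lit 0) (nat_lit 9) (nat_lit 4) (by decide +kernel)
theorem L124939 : W_45 (nat_lit 3) (nat_lit 0x10002c000700024001e000000000000000000) (nat_lit 0x0) (nat_lit 0x20001380000000000000) := T_45 (nat_lit 56) (nat_lit 55) (nat_lit 0) (nat_lit 8) (nat_lit 4) L124938 (by decide +kernel)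
theorem L124940 : W_45 (nat_lit 4) (nat_lit 0x10002c000300024001e000000000000000000) (nat_lit 0x0) (nat_lit 0x4000000020001780000000000000) := T_45 (nat_lit 110) (nat_lit 58) (nat_lit 4) (nat_lit 8) (nat_lit 7) L124939 (by decide +kernel)
theorem L124941 : W_45 (nat_lit 5) (nat_lit 0x10002c000300020001e000000000000000000) (nat_lit 0x0) (nat_lit 0x4000060020001780000000000000) := T_45 (nat_lit 90) (nat_lit 89) (nat_lit 1) (nat_lit 8) (nat_lit 4) L124940 (by decide +kernel)
theorem L124942 : W_45 (nat_lit 6) (nat_lit 0x10002c000300000001e000000000000000000) (nat_lit 0x0) (nat_lit 0x4000660020001780000000000000) := T_45 (nat_lit 93) (nat_lit 94) (nat_lit 3) (nat_lit 5) (nat_lit 4) L124941 (by decide +kernel)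
theorem L124943 : W_45 (nat_lit 7) (nat_lit 0x10000c000300000001e000000000000000000) (nat_lit 0x0) (nat_lit 0x300004000660020001780000000000000) := T_45 (nat_lit 129) (nat_lit 128) (nat_lit 0) (nat_lit 10) (nat_lit 7) L124942 (by decide +kernel)
theorem L124944 : W_45 (nat_lit 8) (nat_lit 0x10000c000300000001c000000000000000000) (nat_lit 0x0) (nat_lit 0x300004000670023001f80000000000000) := Q_45 (nat_lit 73) (C_45 L124932 (C_45 L124935 (C_45 L124937 (C_45 L124943 N_45)))) (by decide +kernel)
theorem L124945 : W_45 (nat_lit 2) (nat_lit 0x10002c000700024001e000100000000000000) (nat_lit 0x0) (nat_lit 0x80000000200008000000000) := D_45 (nat_lit 91) (nat_lit 57) (nat_lit 39) (nat_lit 7) (nat_lit 6) (nat_lit 3) (nat_lit 7) (nat_lit 5) (nat_lit 2) (by decide +kernel)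
theorem L124946 : W_45 (nat_lit 3) (nat_lit 0x10002c000700024001e000000000000000000) (nat_lit 0x0) (nat_lit 0x80000000380008000000000) := T_45 (nat_lit 56) (nat_lit 55) (nat_lit 0) (nat_lit 8) (nat_lit 4) L124945 (by decide +kernel)
theorem L124947 : W_45 (nat_lit 4) (nat_lit 0x10002c000300024001e000000000000000000) (nat_lit 0x0) (nat_lit 0x4000080000000780008000000000) := T_45 (nat_lit 110) (nat_lit 58) (nat_lit 4) (nat_lit 8) (nat_lit 7) L124946 (by decide +kernel)
theorem L124948 : W_45 (nat_lit 5) (nat_lit 0x10002c000300020001e000000000000000000) (nat_lit 0x0) (nat_lit 0x40000e0000000780008000000000) := T_45 (nat_lit 90) (nat_lit 89) (nat_lit 1) (nat_lit 8) (nat_lit 4) L124947 (by decide +kernel)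
theorem L124949 : W_45 (nat_lit 6) (nat_lit 0x10002c000300000001e000000000000000000) (nat_lit 0x0) (nat_lit 0x40006e0000000780008000000000) := T_45 (nat_lit 93) (nat_lit 94) (nat_lit 3) (nat_lit 5) (nat_lit 4) L124948 (by decide +kernel)
theorem L124950 : W_45 (nat_lit 7) (nat_lit 0x10000c000300000001e000000000000000000) (nat_lit 0x0) (nat_lit 0x3000040006e0000000780008000000000) := T_45 (nat_lit 129) (nat_lit 128) (nat_lit 0) (nat_lit 10) (nat_lit 7) L124949 (by decide +kernel)
theorem L124951 : W_45 (nat_lit 8) (nat_lit 0x10000c000300000001c000000000000000000) (nat_lit 0x0) (nat_lit 0x3000040006f0003001f80008000000000) := Q_45 (nat_lit 73) (C_45 L124937 (C_45 L124935 (C_45 L124932 (C_45 L124950 N_45)))) (by decide +kernel)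
theorem L124952 : W_45 (nat_lit 2) (nat_lit 0x10002c000700024001e000000000000000000) (nat_lit 0x0) (nat_lit 0x80020001000000000000000) := D_45 (nat_lit 77) (nat_lit 91) (nat_lit 60) (nat_lit 1) (nat_lit 9) (nat_lit 4) (nat_lit 6) (nat_lit 8) (nat_lit 7) (by decide +kernel)
theorem L124953 : W_45 (nat_lit 3) (nat_lit 0x10002c000300024001e000000000000000000) (nat_lit 0x0) (nat_lit 0x4000080020001400000000000000) := T_45 (nat_lit 110) (nat_lit 58) (nat_lit 4) (nat_lit 8) (nat_lit 7) L124952 (by decide +kernel)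
theorem L124954 : W_45 (nat_lit 4) (nat_lit 0x10002c000300020001e000000000000000000) (nat_lit 0x0) (nat_lit 0x40000e0020001400000000000000) := T_45 (nat_lit 90) (nat_lit 89) (nat_lit 1) (nat_lit 8) (nat_lit 4) L124953 (by decide +kernel)
theorem L124955 : W_45 (nat_lit 5) (nat_lit 0x10002c000300000001e000000000000000000) (nat_lit 0x0) (nat_lit 0x40006e0020001400000000000000) := T_45 (nat_lit 93) (nat_lit 94) (nat_lit 3) (nat_lit 5) (nat_lit 4) L124954 (by decide +kernel)
theorem L124956 : W_45 (nat_lit 6) (nat_lit 0x10000c000300000001e000000000000000000) (nat_lit 0x0) (nat_lit 0x3000040006e0020001400000000000000) := T_45 (nat_lit 129) (nat_lit 128) (nat_lit 0) (nat_lit 10) (nat_lit 7) L124955 (by decide +kernel)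
theorem L124957 : W_45 (nat_lit 7) (nat_lit 0x10000c000300000001c000000000000000000) (nat_lit 0x0) (nat_lit 0x3000040006f0023001c00000000000000) := Q_45 (nat_lit 73) (C_45 L124937 (C_45 L124935 (C_45 L124932 (C_45 L124956 N_45)))) (by decide +kernel)
theorem L124958 : W_45 (nat_lit 9) (nat_lit 0x10000c000300000000c000000000000000000) (nat_lit 0x0) (nat_lit 0x300004001ef0073007f80008000000000) := Q_45 (nat_lit 76) (C_45 L124920 (C_45 L124925 (C_45 L124929 (C_45 L124944 (C_45 L124951 (C_45 L124957 N_45)))))) (by decide +kernel)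
theorem L124959 : W_45 (nat_lit 10) (nat_lit 0x10000c0003000000004000000000000000000) (nat_lit 0x0) (nat_lit 0x300004001ff007b007f80008000000000) := T_45 (nat_lit 75) (nat_lit 92) (nat_lit 7) (nat_lit 7) (nat_lit 4) L124958 (by decide +kernel)
theorem L124960 : W_45 (nat_lit 2) (nat_lit 0x10000f000300008000c000000000000000000) (nat_lit 0x0) (nat_lit 0xc004000000000000000000000000000) := D_45 (nat_lit 123) (nat_lit 110) (nat_lit 122) (nat_lit 2) (nat_lit 4) (nat_lit 7) (nat_lit 2) (nat_lit 3) (nat_lit 7) (by decide +kernel)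
theorem L124961 : W_45 (nat_lit 3) (nat_lit 0x10000e000300008000c000000000000000000) (nat_lit 0x0) (nat_lit 0x20001c004000000000000000000000000000) := T_45 (nat_lit 124) (nat_lit 141) (nat_lit 5) (nat_lit 6) (nat_lit 4) L124960 (by decide +kernel)
theorem L124962 : W_45 (nat_lit 4) (nat_lit 0x10000c000300008000c000000000000000000) (nat_lit 0x0) (nat_lit 0x20003c004000000000000400000000000000) := T_45 (nat_lit 125) (nat_lit 58) (nat_lit 6) (nat_lit 6) (nat_lit 7) L124961 (by decide +kernel)
theorem L124963 : W_45 (nat_lit 5) (nat_lit 0x10000c000300000000c000000000000000000) (nat_lit 0x0) (nat_lit 0x20003c004000080000000600000000000000) := T_45 (nat_lit 91) (nat_lit 57) (nat_lit 7) (nat_lit 6) (nat_lit 3) L124962 (by decide +kernel)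
theorem L124964 : W_45 (nat_lit 6) (nat_lit 0x10000c0003000000004000000000000000000) (nat_lit 0x0) (nat_lit 0x20003c004000180008000600000000000000) := T_45 (nat_lit 75) (nat_lit 92) (nat_lit 7) (nat_lit 7) (nat_lit 4) L124963 (by decide +kernel)
theorem L124965 : W_45 (nat_lit 2) (nat_lit 0x12001f0003000000004000200000000000000) (nat_lit 0x0) (nat_lit 0xc004000000000000000000000000000) := D_45 (nat_lit 123) (nat_lit 122) (nat_lit 110) (nat_lit 2) (nat_lit 3) (nat_lit 7) (nat_lit 2) (nat_lit 4) (nat_lit 7) (by decide +kernel)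
theorem L124966 : W_45 (nat_lit 3) (nat_lit 0x12001e0003000000004000200000000000000) (nat_lit 0x0) (nat_lit 0x10001c004000000000000000000000000000) := T_45 (nat_lit 124) (nat_lit 140) (nat_lit 1) (nat_lit 8) (nat_lit 7) L124965 (by decide +kernel)
theorem L124967 : W_45 (nat_lit 4) (nat_lit 0x10001e0003000000004000200000000000000) (nat_lit 0x0) (nat_lit 0x70001c004000000000000000000000000000) := T_45 (nat_lit 141) (nat_lit 142) (nat_lit 1) (nat_lit 9) (nat_lit 7) L124966 (by decide +kernel)
theorem L124968 : W_45 (nat_lit 5) (nat_lit 0x10000e0003000000004000200000000000000) (nat_lit 0x0) (nat_lit 0x70031c004000000000000000000000000000) := T_45 (nat_lit 128) (nat_lit 129) (nat_lit 0) (nat_lit 10) (nat_lit 7) L124967 (by decide +kernel)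
theorem L124969 : W_45 (nat_lit 6) (nat_lit 0x10000e0003000000004000000000000000000) (nat_lit 0x0) (nat_lit 0x70031c004000080000000200000000000000) := T_45 (nat_lit 57) (nat_lit 91) (nat_lit 7) (nat_lit 6) (nat_lit 3) L124968 (by decide +kernel)
theorem L124970 : W_45 (nat_lit 2) (nat_lit 0x40014002e000300008000e000000000000000000) (nat_lit 0x0) (nat_lit 0x180008000000000000000000000000000000000000000) := D_45 (nat_lit 159) (nat_lit 176) (nat_lit 175) (nat_lit 6) (nat_lit 6) (nat_lit 10) (nat_lit 5) (nat_lit 6) (nat_lit 6) (by decide +kernel)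
theorem L124971 : W_45 (nat_lit 3) (nat_lit 0x14002e000300008000e000000000000000000) (nat_lit 0x0) (nat_lit 0x18000c000200000000000000000000000000000000000) := T_45 (nat_lit 158) (nat_lit 141) (nat_lit 5) (nat_lit 6) (nat_lit 5) L124970 (by decide +kernel)
theorem L124972 : W_45 (nat_lit 4) (nat_lit 0x10002e000300008000e000000000000000000) (nat_lit 0x0) (nat_lit 0x18000c000600000000000040000000000000000000000) := T_45 (nat_lit 142) (nat_lit 90) (nat_lit 4) (nat_lit 6) (nat_lit 8) L124971 (by decide +kernel)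
theorem L124973 : W_45 (nat_lit 5) (nat_lit 0x10002e000300008000c000000000000000000) (nat_lit 0x0) (nat_lit 0x18000c000600000000000040002000100000000000000) := T_45 (nat_lit 73) (nat_lit 56) (nat_lit 4) (nat_lit 6) (nat_lit 7) L124972 (by decide +kernel)
theorem L124974 : W_45 (nat_lit 6) (nat_lit 0x10002e0003000080004000000000000000000) (nat_lit 0x0) (nat_lit 0x18000c00060000000000004000a000500000000000000) := T_45 (nat_lit 75) (nat_lit 58) (nat_lit 6) (nat_lit 6) (nat_lit 7) L124973 (by decide +kernel)
theorem L124975 : W_45 (nat_lit 7) (nat_lit 0x10002e0003000000004000000000000000000) (nat_lit 0x0) (nat_lit 0x18000c0006000000000000c000a000700000000000000) := T_45 (nat_lit 91) (nat_lit 57) (nat_lit 7) (nat_lit 6) (nat_lit 3) L124974 (by decide +kernel)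
theorem L124976 : W_45 (nat_lit 8) (nat_lit 0x10000e0003000000004000000000000000000) (nat_lit 0x0) (nat_lit 0x18000c0006003000000000c000a000700000000000000) := T_45 (nat_lit 129) (nat_lit 128) (nat_lit 0) (nat_lit 10) (nat_lit 7) L124975 (by decide +kernel)
theorem L124977 : W_45 (nat_lit 2) (nat_lit 0x10002f0003000080004000000000000000000) (nat_lit 0x0) (nat_lit 0xc004000000000000000000000000000) := D_45 (nat_lit 123) (nat_lit 110) (nat_lit 122) (nat_lit 2) (nat_lit 4) (nat_lit 7) (nat_lit 2) (nat_lit 3) (nat_lit 7) (by decide +kernel)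
theorem L124978 : W_45 (nat_lit 3) (nat_lit 0x10002e0003000080004000000000000000000) (nat_lit 0x0) (nat_lit 0x20001c004000000000000000000000000000) := T_45 (nat_lit 124) (nat_lit 141) (nat_lit 5) (nat_lit 6) (nat_lit 4) L124977 (by decide +kernel)
theorem L124979 : W_45 (nat_lit 4) (nat_lit 0x10000e0003000080004000000000000000000) (nat_lit 0x0) (nat_lit 0x20031c004000000000000000000000000000) := T_45 (nat_lit 129) (nat_lit 128) (nat_lit 0) (nat_lit 10) (nat_lit 7) L124978 (by decide +kernel)
theorem L124980 : W_45 (nat_lit 5) (nat_lit 0x10000e0003000000004000000000000000000) (nat_lit 0x0) (nat_lit 0x20031c004000080000000200000000000000) := T_45 (nat_lit 91) (nat_lit 57) (nat_lit 7) (nat_lit 6) (nat_lit 3) L124979 (by decide +kernel)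
theorem L124981 : W_45 (nat_lit 4) (nat_lit 0x10000e0003000080004000000000000000000) (nat_lit 0x0) (nat_lit 0x20001c004000000008000400000000000000) := T_45 (nat_lit 75) (nat_lit 58) (nat_lit 6) (nat_lit 6) (nat_lit 7) L124961 (by decide +kernel)
theorem L124982 : W_45 (nat_lit 5) (nat_lit 0x10000e0003000000004000000000000000000) (nat_lit 0x0) (nat_lit 0x20001c004000080008000600000000000000) := T_45 (nat_lit 91) (nat_lit 57) (nat_lit 7) (nat_lit 6) (nat_lit 3) L124981 (by decide +kernel)
theorem L124983 : W_45 (nat_lit 2) (nat_lit 0x10002e00030000c000e000000000000000000) (nat_lit 0x0) (nat_lit 0x30010000000000000000000) := D_45 (nat_lit 89) (nat_lit 88) (nat_lit 76) (nat_lit 3) (nat_lit 3) (nat_lit 5) (nat_lit 1) (nat_lit 8) (nat_lit 4) (by decide +kernel)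
theorem L124984 : W_45 (nat_lit 3) (nat_lit 0x10002e000300008000e000000000000000000) (nat_lit 0x0) (nat_lit 0x400000000000070010000000000000000000) := T_45 (nat_lit 90) (nat_lit 142) (nat_lit 4) (nat_lit 6) (nat_lit 8) L124983 (by decide +kernel)
theorem L124985 : W_45 (nat_lit 4) (nat_lit 0x10002e0003000080006000000000000000000) (nat_lit 0x0) (nat_lit 0x400000000000070018000400000000000000) := T_45 (nat_lit 75) (nat_lit 58) (nat_lit 6) (nat_lit 6) (nat_lit 7) L124984 (by decide +kernel)
theorem L124986 : W_45 (nat_lit 5) (nat_lit 0x10002e0003000080004000000000000000000) (nat_lit 0x0) (nat_lit 0x40000000000007001a000500000000000000) := T_45 (nat_lit 73) (nat_lit 56) (nat_lit 4) (nat_lit 6) (nat_lit 7) L124985 (by decide +kernel)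
theorem L124987 : W_45 (nat_lit 6) (nat_lit 0x10000e0003000080004000000000000000000) (nat_lit 0x0) (nat_lit 0x40030000000007001a000500000000000000) := T_45 (nat_lit 129) (nat_lit 128) (nat_lit 0) (nat_lit 10) (nat_lit 7) L124986 (by decide +kernel)
theorem L124988 : W_45 (nat_lit 7) (nat_lit 0x10000e0003000000004000000000000000000) (nat_lit 0x0) (nat_lit 0x4003000000000f001a000700000000000000) := T_45 (nat_lit 91) (nat_lit 57) (nat_lit 7) (nat_lit 6) (nat_lit 3) L124987 (by decide +kernel)
theorem L124989 : W_45 (nat_lit 2) (nat_lit 0x12001f0003000000004000000000000000000) (nat_lit 0x0) (nat_lit 0xc004000000000000000000000000000) := D_45 (nat_lit 123) (nat_lit 122) (nat_lit 110) (nat_lit 2) (nat_lit 3) (nat_lit 7) (nat_lit 2) (nat_lit 4) (nat_lit 7) (by decide +kernel)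
theorem L124990 : W_45 (nat_lit 3) (nat_lit 0x12001e0003000000004000000000000000000) (nat_lit 0x0) (nat_lit 0x10001c004000000000000000000000000000) := T_45 (nat_lit 124) (nat_lit 140) (nat_lit 1) (nat_lit 8) (nat_lit 7) L124989 (by decide +kernel)
theorem L124991 : W_45 (nat_lit 4) (nat_lit 0x10001e0003000000004000000000000000000) (nat_lit 0x0) (nat_lit 0x70001c004000000000000000000000000000) := T_45 (nat_lit 141) (nat_lit 142) (nat_lit 1) (nat_lit 9) (nat_lit 7) L124990 (by decide +kernel)
theorem L124992 : W_45 (nat_lit 5) (nat_lit 0x10000e0003000000004000000000000000000) (nat_lit 0x0) (nat_lit 0x70031c004000000000000000000000000000) := T_45 (nat_lit 128) (nat_lit 129) (nat_lit 0) (nat_lit 10) (nat_lit 7) L124991 (by decide +kernel)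
theorem L124993 : W_45 (nat_lit 9) (nat_lit 0x10000c0003000000004000000000000000000) (nat_lit 0x0) (nat_lit 0x18000c00070033c0040000f001a000700000000000000) := Q_45 (nat_lit 125) (C_45 L124969 (C_45 L124976 (C_45 L124980 (C_45 L124982 (C_45 L124988 (C_45 L124992 N_45)))))) (by decide +kernel)
theorem L124994 : W_45 (nat_lit 6) (nat_lit 0x10002c000300008000c000000000000000000) (nat_lit 0x0) (nat_lit 0x18000c000600020000000040002000500000000000000) := T_45 (nat_lit 125) (nat_lit 58) (nat_lit 6) (nat_lit 6) (nat_lit 7) L124973 (by decide +kernel)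
theorem L124995 : W_45 (nat_lit 7) (nat_lit 0x10002c000300000000c000000000000000000) (nat_lit 0x0) (nat_lit 0x18000c0006000200000000c0002000700000000000000) := T_45 (nat_lit 91) (nat_lit 57) (nat_lit 7) (nat_lit 6) (nat_lit 3) L124994 (by decide +kernel)
theorem L124996 : W_45 (nat_lit 8) (nat_lit 0x10002c0003000000004000000000000000000) (nat_lit 0x0) (nat_lit 0x18000c0006000200000001c000a000700000000000000) := T_45 (nat_lit 75) (nat_lit 92) (nat_lit 7) (nat_lit 7) (nat_lit 4) L124995 (by decide +kernel)
theorem L124997 : W_45 (nat_lit 9) (nat_lit 0x10000c0003000000004000000000000000000) (nat_lit 0x0) (nat_lit 0x18000c0006003200000001c000a000700000000000000) := T_45 (nat_lit 129) (nat_lit 128) (nat_lit 0) (nat_lit 10) (nat_lit 7) L124996 (by decide +kernel)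
theorem L124998 : W_45 (nat_lit 2) (nat_lit 0x10002c000300022001f000800000000000000) (nat_lit 0x0) (nat_lit 0x1c0000000000000) := D_45 (nat_lit 55) (nat_lit 54) (nat_lit 56) (nat_lit 0) (nat_lit 7) (nat_lit 4) (nat_lit 0) (nat_lit 8) (nat_lit 4) (by decide +kernel)
theorem L124999 : W_45 (nat_lit 3) (nat_lit 0x10002c000300022001e000800000000000000) (nat_lit 0x0) (nat_lit 0x100010001c0000000000000) := T_45 (nat_lit 72) (nat_lit 88) (nat_lit 1) (nat_lit 7) (nat_lit 4) L124998 (by decide +kernel)
theorem L125000 : W_45 (nat_lit 4) (nat_lit 0x10002c000300002001e000800000000000000) (nat_lit 0x0) (nat_lit 0x40002100010001c0000000000000) := T_45 (nat_lit 93) (nat_lit 110) (nat_lit 5) (nat_lit 8) (nat_lit 3) L124999 (by decide +kernel)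
theorem L125001 : W_45 (nat_lit 5) (nat_lit 0x10002c000300000001e000800000000000000) (nat_lit 0x0) (nat_lit 0x40002700010001c0000000000000) := T_45 (nat_lit 89) (nat_lit 90) (nat_lit 1) (nat_lit 8) (nat_lit 4) L125000 (by decide +kernel)
theorem L125002 : W_45 (nat_lit 6) (nat_lit 0x10002c000300000001e000000000000000000) (nat_lit 0x0) (nat_lit 0x40002700010019c0000000000000) := T_45 (nat_lit 59) (nat_lit 60) (nat_lit 2) (nat_lit 5) (nat_lit 4) L125001 (by decide +kernel)
theorem L125003 : W_45 (nat_lit 7) (nat_lit 0x10000c000300000001e000000000000000000) (nat_lit 0x0) (nat_lit 0x3000040002700010019c0000000000000) := T_45 (nat_lit 129) (nat_lit 128) (nat_lit 0) (nat_lit 10) (nat_lit 7) L125002 (by decide +kernel)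
theorem L125004 : W_45 (nat_lit 2) (nat_lit 0x10002c000300000003e000100000000000000) (nat_lit 0x0) (nat_lit 0x3800000000000000) := D_45 (nat_lit 60) (nat_lit 59) (nat_lit 61) (nat_lit 2) (nat_lit 5) (nat_lit 4) (nat_lit 2) (nat_lit 6) (nat_lit 4) (by decide +kernel)
theorem L125005 : W_45 (nat_lit 3) (nat_lit 0x10002c000300000001e000100000000000000) (nat_lit 0x0) (nat_lit 0x20003a00000000000000) := T_45 (nat_lit 77) (nat_lit 57) (nat_lit 0) (nat_lit 9) (nat_lit 4) L125004 (by decide +kernel)
theorem L125006 : W_45 (nat_lit 4) (nat_lit 0x10000c000300000001e000100000000000000) (nat_lit 0x0) (nat_lit 0x300000000000020003a00000000000000) := T_45 (nat_lit 129) (nat_lit 128) (nat_lit 0) (nat_lit 10) (nat_lit 7) L125005 (by decide +kernel)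
theorem L125007 : W_45 (nat_lit 5) (nat_lit 0x10000c000300000001e000000000000000000) (nat_lit 0x0) (nat_lit 0x300000000000020003b80000000000000) := T_45 (nat_lit 56) (nat_lit 55) (nat_lit 0) (nat_lit 8) (nat_lit 4) L125006 (by decide +kernel)
theorem L125008 : W_45 (nat_lit 2) (nat_lit 0x10002c000300002001f000000000000000000) (nat_lit 0x0) (nat_lit 0x1c0000000000000) := D_45 (nat_lit 55) (nat_lit 54) (nat_lit 56) (nat_lit 0) (nat_lit 7) (nat_lit 4) (nat_lit 0) (nat_lit 8) (nat_lit 4) (by decide +kernel)
theorem L125009 : W_45 (nat_lit 3) (nat_lit 0x10002c000300002001e000000000000000000) (nat_lit 0x0) (nat_lit 0x100010001c0000000000000) := T_45 (nat_lit 72) (nat_lit 88) (nat_lit 1) (nat_lit 7) (nat_lit 4) L125008 (by decide +kernel)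
theorem L125010 : W_45 (nat_lit 4) (nat_lit 0x10000c000300002001e000000000000000000) (nat_lit 0x0) (nat_lit 0x3000000000100010001c0000000000000) := T_45 (nat_lit 129) (nat_lit 128) (nat_lit 0) (nat_lit 10) (nat_lit 7) L125009 (by decide +kernel)
theorem L125011 : W_45 (nat_lit 5) (nat_lit 0x10000c000300000001e000000000000000000) (nat_lit 0x0) (nat_lit 0x3000000000700010001c0000000000000) := T_45 (nat_lit 89) (nat_lit 90) (nat_lit 1) (nat_lit 8) (nat_lit 4) L125010 (by decide +kernel)
theorem L125012 : W_45 (nat_lit 8) (nat_lit 0x10000c000300000001c000000000000000000) (nat_lit 0x0) (nat_lit 0x300004000270023003fc0000000000000) := Q_45 (nat_lit 73) (C_45 L124935 (C_45 L125003 (C_45 L125007 (C_45 L125011 N_45)))) (by decide +kernel)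
theorem L125013 : W_45 (nat_lit 6) (nat_lit 0x10000c000300000001c000000000000000000) (nat_lit 0x0) (nat_lit 0x300000000070023003fc0000000000000) := Q_45 (nat_lit 73) (C_45 L125011 (C_45 L124935 (C_45 L125007 N_45))) (by decide +kernel)
theorem L125014 : W_45 (nat_lit 2) (nat_lit 0x10000c000300020001e000100000000000000) (nat_lit 0x0) (nat_lit 0x4000000000001800000000000000) := D_45 (nat_lit 59) (nat_lit 60) (nat_lit 110) (nat_lit 2) (nat_lit 5) (nat_lit 4) (nat_lit 5) (nat_lit 8) (nat_lit 3) (by decide +kernel)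
theorem L125015 : W_45 (nat_lit 3) (nat_lit 0x10000c000300000001e000100000000000000) (nat_lit 0x0) (nat_lit 0x4000600000001800000000000000) := T_45 (nat_lit 93) (nat_lit 94) (nat_lit 3) (nat_lit 5) (nat_lit 4) L125014 (by decide +kernel)
theorem L125016 : W_45 (nat_lit 4) (nat_lit 0x10000c000300000001e000000000000000000) (nat_lit 0x0) (nat_lit 0x4000600000001980000000000000) := T_45 (nat_lit 56) (nat_lit 55) (nat_lit 0) (nat_lit 8) (nat_lit 4) L125015 (by decide +kernel)
theorem L125017 : W_45 (nat_lit 2) (nat_lit 0x10000c000300020003e000100000000000000) (nat_lit 0x0) (nat_lit 0x4000000000001400000000000000) := D_45 (nat_lit 110) (nat_lit 58) (nat_lit 60) (nat_lit 4) (nat_lit 8) (nat_lit 7) (nat_lit 6) (nat_lit 8) (nat_lit 7) (by decide +kernel)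
theorem L125018 : W_45 (nat_lit 3) (nat_lit 0x10000c000300020001e000100000000000000) (nat_lit 0x0) (nat_lit 0x4000000020001600000000000000) := T_45 (nat_lit 77) (nat_lit 57) (nat_lit 0) (nat_lit 9) (nat_lit 4) L125017 (by decide +kernel)
theorem L125019 : W_45 (nat_lit 4) (nat_lit 0x10000c000300000001e000100000000000000) (nat_lit 0x0) (nat_lit 0x4000600020001600000000000000) := T_45 (nat_lit 93) (nat_lit 94) (nat_lit 3) (nat_lit 5) (nat_lit 4) L125018 (by decide +kernel)
theorem L125020 : W_45 (nat_lit 5) (nat_lit 0x10000c000300000001e000000000000000000) (nat_lit 0x0) (nat_lit 0x4000600020001780000000000000) := T_45 (nat_lit 56) (nat_lit 55) (nat_lit 0) (nat_lit 8) (nat_lit 4) L125019 (by decide +kernel)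
theorem L125021 : W_45 (nat_lit 6) (nat_lit 0x10000c000300000001c000000000000000000) (nat_lit 0x0) (nat_lit 0x4000670023001f80000000000000) := Q_45 (nat_lit 73) (C_45 L124937 (C_45 L124935 (C_45 L125016 (C_45 L125020 N_45)))) (by decide +kernel)
theorem L125022 : W_45 (nat_lit 6) (nat_lit 0x10000c000300000001c000000000000000000) (nat_lit 0x0) (nat_lit 0x3000040006700030019c0000000000000) := Q_45 (nat_lit 73) (C_45 L125016 (C_45 L125011 (C_45 L124932 N_45))) (by decide +kernel)
theorem L125023 : W_45 (nat_lit 2) (nat_lit 0x10002c000300040003c000000000000000000) (nat_lit 0x0) (nat_lit 0x4000200002000000000000000000) := D_45 (nat_lit 93) (nat_lit 73) (nat_lit 110) (nat_lit 3) (nat_lit 5) (nat_lit 4) (nat_lit 6) (nat_lit 8) (nat_lit 8) (by decide +kernel)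
theorem L125024 : W_45 (nat_lit 3) (nat_lit 0x10002c000300000003c000000000000000000) (nat_lit 0x0) (nat_lit 0x4000e00002000000000000000000) := T_45 (nat_lit 94) (nat_lit 95) (nat_lit 3) (nat_lit 6) (nat_lit 4) L125023 (by decide +kernel)
theorem L125025 : W_45 (nat_lit 4) (nat_lit 0x10000c000300000003c000000000000000000) (nat_lit 0x0) (nat_lit 0x300004000e00002000000000000000000) := T_45 (nat_lit 129) (nat_lit 128) (nat_lit 0) (nat_lit 10) (nat_lit 7) L125024 (by decide +kernel)
theorem L125026 : W_45 (nat_lit 2) (nat_lit 0x10002c000300000003e001000000000000000) (nat_lit 0x0) (nat_lit 0x380000000000000) := D_45 (nat_lit 56) (nat_lit 55) (nat_lit 57) (nat_lit 0) (nat_lit 8) (nat_lit 4) (nat_lit 0) (nat_lit 9) (nat_lit 4) (by decide +kernel)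
theorem L125027 : W_45 (nat_lit 3) (nat_lit 0x10002c000300000003c001000000000000000) (nat_lit 0x0) (nat_lit 0x2000b80000000000000) := T_45 (nat_lit 73) (nat_lit 59) (nat_lit 2) (nat_lit 5) (nat_lit 4) L125026 (by decide +kernel)
theorem L125028 : W_45 (nat_lit 4) (nat_lit 0x10002c000300000003c000000000000000000) (nat_lit 0x0) (nat_lit 0x2003b80000000000000) := T_45 (nat_lit 60) (nat_lit 61) (nat_lit 2) (nat_lit 6) (nat_lit 4) L125027 (by decide +kernel)
theorem L125029 : W_45 (nat_lit 5) (nat_lit 0x10000c000300000003c000000000000000000) (nat_lit 0x0) (nat_lit 0x300000000000002003b80000000000000) := T_45 (nat_lit 129) (nat_lit 128) (nat_lit 0) (nat_lit 10) (nat_lit 7) L125028 (by decide +kernel)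
theorem L125030 : W_45 (nat_lit 2) (nat_lit 0x10000c000300000003e001000000000000000) (nat_lit 0x0) (nat_lit 0x380000000000000) := D_45 (nat_lit 56) (nat_lit 55) (nat_lit 57) (nat_lit 0) (nat_lit 8) (nat_lit 4) (nat_lit 0) (nat_lit 9) (nat_lit 4) (by decide +kernel)
theorem L125031 : W_45 (nat_lit 3) (nat_lit 0x10000c000300000003c001000000000000000) (nat_lit 0x0) (nat_lit 0x2000b80000000000000) := T_45 (nat_lit 73) (nat_lit 59) (nat_lit 2) (nat_lit 5) (nat_lit 4) L125030 (by decide +kernel)
theorem L125032 : W_45 (nat_lit 4) (nat_lit 0x10000c000300000003c000000000000000000) (nat_lit 0x0) (nat_lit 0x2003b80000000000000) := T_45 (nat_lit 60) (nat_lit 61) (nat_lit 2) (nat_lit 6) (nat_lit 4) L125031 (by decide +kernel)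
theorem L125033 : W_45 (nat_lit 2) (nat_lit 0x10002c000700080003c001000000000000000) (nat_lit 0x0) (nat_lit 0x10001000040000000000000000000) := D_45 (nat_lit 78) (nat_lit 96) (nat_lit 112) (nat_lit 3) (nat_lit 7) (nat_lit 4) (nat_lit 4) (nat_lit 10) (nat_lit 7) (by decide +kernel)
theorem L125034 : W_45 (nat_lit 3) (nat_lit 0x10002c000700000003c001000000000000000) (nat_lit 0x0) (nat_lit 0x10001c00040000000000000000000) := T_45 (nat_lit 95) (nat_lit 94) (nat_lit 3) (nat_lit 6) (nat_lit 4) L125033 (by decide +kernel)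
theorem L125035 : W_45 (nat_lit 4) (nat_lit 0x10002c000300000003c001000000000000000) (nat_lit 0x0) (nat_lit 0x14001e00040000000000000000000) := T_45 (nat_lit 110) (nat_lit 93) (nat_lit 6) (nat_lit 8) (nat_lit 7) L125034 (by decide +kernel)
theorem L125036 : W_45 (nat_lit 5) (nat_lit 0x10000c000300000003c001000000000000000) (nat_lit 0x0) (nat_lit 0x300014001e00040000000000000000000) := T_45 (nat_lit 129) (nat_lit 128) (nat_lit 0) (nat_lit 10) (nat_lit 7) L125035 (by decide +kernel)
theorem L125037 : W_45 (nat_lit 6) (nat_lit 0x10000c000300000003c000000000000000000) (nat_lit 0x0) (nat_lit 0x300014001e00040003000000000000000) := T_45 (nat_lit 60) (nat_lit 61) (nat_lit 2) (nat_lit 6) (nat_lit 4) L125036 (by decide +kernel)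
theorem L125038 : W_45 (nat_lit 7) (nat_lit 0x10000c000300000001c000000000000000000) (nat_lit 0x0) (nat_lit 0x300014001e00062003b80000000000000) := Q_45 (nat_lit 77) (C_45 L125025 (C_45 L125029 (C_45 L125032 (C_45 L125037 N_45)))) (by decide +kernel)
theorem L125039 : W_45 (nat_lit 6) (nat_lit 0x10000c000300000001c000000000000000000) (nat_lit 0x0) (nat_lit 0x300004000670003000dc0000000000000) := Q_45 (nat_lit 73) (C_45 L125011 (C_45 L124937 N_45)) (by decide +kernel)
theorem L125040 : W_45 (nat_lit 2) (nat_lit 0x10002c000700000007c001200000000000000) (nat_lit 0x0) (nat_lit 0x10001800000000000000000000000) := D_45 (nat_lit 95) (nat_lit 96) (nat_lit 112) (nat_lit 3) (nat_lit 7) (nat_lit 4) (nat_lit 4) (nat_lit 10) (nat_lit 7) (by decide +kernel)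
theorem L125041 : W_45 (nat_lit 3) (nat_lit 0x10002c000700000003c001200000000000000) (nat_lit 0x0) (nat_lit 0x10001800040000400000000000000) := T_45 (nat_lit 78) (nat_lit 58) (nat_lit 0) (nat_lit 10) (nat_lit 4) L125040 (by decide +kernel)
theorem L125042 : W_45 (nat_lit 4) (nat_lit 0x10002c000300000003c001200000000000000) (nat_lit 0x0) (nat_lit 0x14001a00040000400000000000000) := T_45 (nat_lit 110) (nat_lit 93) (nat_lit 6) (nat_lit 8) (nat_lit 7) L125041 (by decide +kernel)
theorem L125043 : W_45 (nat_lit 5) (nat_lit 0x10002c000300000003c001000000000000000) (nat_lit 0x0) (nat_lit 0x14001a00040000700000000000000) := T_45 (nat_lit 57) (nat_lit 56) (nat_lit 0) (nat_lit 9) (nat_lit 4) L125042 (by decide +kernel)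
theorem L125044 : W_45 (nat_lit 6) (nat_lit 0x10002c000300000003c000000000000000000) (nat_lit 0x0) (nat_lit 0x14001a00040003700000000000000) := T_45 (nat_lit 60) (nat_lit 61) (nat_lit 2) (nat_lit 6) (nat_lit 4) L125043 (by decide +kernel)
theorem L125045 : W_45 (nat_lit 7) (nat_lit 0x10000c000300000003c000000000000000000) (nat_lit 0x0) (nat_lit 0x300014001a00040003700000000000000) := T_45 (nat_lit 129) (nat_lit 128) (nat_lit 0) (nat_lit 10) (nat_lit 7) L125044 (by decide +kernel)
theorem L125046 : W_45 (nat_lit 4) (nat_lit 0x10000c000300000003c000000000000000000) (nat_lit 0x0) (nat_lit 0x1c00040000700000000000000) := T_45 (nat_lit 57) (nat_lit 56) (nat_lit 0) (nat_lit 9) (nat_lit 4) L124927 (by decide +kernel)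
theorem L125047 : W_45 (nat_lit 4) (nat_lit 0x10000c000300000003c000200000000000000) (nat_lit 0x0) (nat_lit 0x300000000000040007400000000000000) := T_45 (nat_lit 129) (nat_lit 128) (nat_lit 0) (nat_lit 10) (nat_lit 7) L124922 (by decide +kernel)
theorem L125048 : W_45 (nat_lit 5) (nat_lit 0x10000c000300000003c000000000000000000) (nat_lit 0x0) (nat_lit 0x300000000000040007700000000000000) := T_45 (nat_lit 57) (nat_lit 56) (nat_lit 0) (nat_lit 9) (nat_lit 4) L125047 (by decide +kernel)
theorem L125049 : W_45 (nat_lit 8) (nat_lit 0x10000c000300000001c000000000000000000) (nat_lit 0x0) (nat_lit 0x300014001e00062007700000000000000) := Q_45 (nat_lit 77) (C_45 L125037 (C_45 L125045 (C_45 L125046 (C_45 L125048 (C_45 L125025 N_45))))) (by decide +kernel)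
theorem L125050 : W_45 (nat_lit 2) (nat_lit 0x10002c000300060003c0012001c0000000000) (nat_lit 0x0) (nat_lit 0xc00020000000000) := D_45 (nat_lit 58) (nat_lit 59) (nat_lit 41) (nat_lit 2) (nat_lit 6) (nat_lit 3) (nat_lit 1) (nat_lit 10) (nat_lit 2) (by decide +kernel)
theorem L125051 : W_45 (nat_lit 3) (nat_lit 0x10002c000300060003c0012000c0000000000) (nat_lit 0x0) (nat_lit 0xc00120008000000) := T_45 (nat_lit 44) (nat_lit 27) (nat_lit 6) (nat_lit 9) (nat_lit 5) L125050 (by decide +kernel)
theorem L125052 : W_45 (nat_lit 4) (nat_lit 0x10002c000300060003c001200080000000000) (nat_lit 0x0) (nat_lit 0xc0016000a000000) := T_45 (nat_lit 42) (nat_lit 25) (nat_lit 4) (nat_lit 9) (nat_lit 5) L125051 (by decide +kernel)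
theorem L125053 : W_45 (nat_lit 5) (nat_lit 0x10002c000300060003c001200000000000000) (nat_lit 0x0) (nat_lit 0xc001e000e000000) := T_45 (nat_lit 43) (nat_lit 26) (nat_lit 5) (nat_lit 9) (nat_lit 1) L125052 (by decide +kernel)
theorem L125054 : W_45 (nat_lit 6) (nat_lit 0x10002c000300060003c001000000000000000) (nat_lit 0x0) (nat_lit 0xf001e000e000000) := T_45 (nat_lit 57) (nat_lit 56) (nat_lit 0) (nat_lit 9) (nat_lit 4) L125053 (by decide +kernel)
theorem L125055 : W_45 (nat_lit 7) (nat_lit 0x10002c000300060003c000000000000000000) (nat_lit 0x0) (nat_lit 0x3f001e000e000000) := T_45 (nat_lit 60) (nat_lit 61) (nat_lit 2) (nat_lit 6) (nat_lit 4) L125054 (by decide +kernel)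
theorem L125056 : W_45 (nat_lit 8) (nat_lit 0x10002c000300040003c000000000000000000) (nat_lit 0x0) (nat_lit 0x4000200000003f001e000e000000) := T_45 (nat_lit 93) (nat_lit 110) (nat_lit 6) (nat_lit 8) (nat_lit 8) L125055 (by decide +kernel)
theorem L125057 : W_45 (nat_lit 9) (nat_lit 0x10000c000300040003c000000000000000000) (nat_lit 0x0) (nat_lit 0x300004000200000003f001e000e000000) := T_45 (nat_lit 129) (nat_lit 128) (nat_lit 0) (nat_lit 10) (nat_lit 7) L125056 (by decide +kernel)
theorem L125058 : W_45 (nat_lit 10) (nat_lit 0x10000c000300000003c000000000000000000) (nat_lit 0x0) (nat_lit 0x300004000e00000003f001e000e000000) := T_45 (nat_lit 94) (nat_lit 95) (nat_lit 3) (nat_lit 6) (nat_lit 4) L125057 (by decide +kernel)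
theorem L125059 : W_45 (nat_lit 11) (nat_lit 0x10000c000300000001c000000000000000000) (nat_lit 0x0) (nat_lit 0x300014001e00060007f001e000e000000) := Q_45 (nat_lit 77) (C_45 L125048 (C_45 L125046 (C_45 L125037 (C_45 L125058 N_45)))) (by decide +kernel)
theorem L125060 : W_45 (nat_lit 2) (nat_lit 0x10000c000300020001c000000000000000000) (nat_lit 0x0) (nat_lit 0x4000000000000c00000000000000) := D_45 (nat_lit 110) (nat_lit 58) (nat_lit 59) (nat_lit 4) (nat_lit 8) (nat_lit 7) (nat_lit 5) (nat_lit 8) (nat_lit 3) (by decide +kernel)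
theorem L125061 : W_45 (nat_lit 2) (nat_lit 0x10002c000300020001f000800000000000000) (nat_lit 0x0) (nat_lit 0x70000000000000000000000) := D_45 (nat_lit 89) (nat_lit 88) (nat_lit 90) (nat_lit 1) (nat_lit 7) (nat_lit 4) (nat_lit 1) (nat_lit 8) (nat_lit 4) (by decide +kernel)
theorem L125062 : W_45 (nat_lit 3) (nat_lit 0x10002c000300020001e000800000000000000) (nat_lit 0x0) (nat_lit 0x70001000400000000000000) := T_45 (nat_lit 72) (nat_lit 58) (nat_lit 2) (nat_lit 4) (nat_lit 4) L125061 (by decide +kernel)
theorem L125063 : W_45 (nat_lit 4) (nat_lit 0x10002c000300020001e000000000000000000) (nat_lit 0x0) (nat_lit 0x70001001c00000000000000) := T_45 (nat_lit 59) (nat_lit 60) (nat_lit 2) (nat_lit 5) (nat_lit 4) L125062 (by decide +kernel)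
theorem L125064 : W_45 (nat_lit 5) (nat_lit 0x10002c000300020001c000000000000000000) (nat_lit 0x0) (nat_lit 0x470003001c00000000000000) := T_45 (nat_lit 73) (nat_lit 94) (nat_lit 3) (nat_lit 5) (nat_lit 4) L125063 (by decide +kernel)
theorem L125065 : W_45 (nat_lit 6) (nat_lit 0x10000c000300020001c000000000000000000) (nat_lit 0x0) (nat_lit 0x300000000470003001c00000000000000) := T_45 (nat_lit 129) (nat_lit 128) (nat_lit 0) (nat_lit 10) (nat_lit 7) L125064 (by decide +kernel)
theorem L125066 : W_45 (nat_lit 2) (nat_lit 0x10000c000300020001e000000000000000000) (nat_lit 0x0) (nat_lit 0x4000000000001800000000000000) := D_45 (nat_lit 59) (nat_lit 60) (nat_lit 110) (nat_lit 2) (nat_lit 5) (nat_lit 4) (nat_lit 5) (nat_lit 8) (nat_lit 3) (by decide +kernel)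
theorem L125067 : W_45 (nat_lit 3) (nat_lit 0x10000c000300020001c000000000000000000) (nat_lit 0x0) (nat_lit 0x4000400002001800000000000000) := T_45 (nat_lit 73) (nat_lit 94) (nat_lit 3) (nat_lit 5) (nat_lit 4) L125066 (by decide +kernel)
theorem L125068 : W_45 (nat_lit 2) (nat_lit 0x10000c000700020001c000000000000000000) (nat_lit 0x0) (nat_lit 0x400022000000000000000000) := D_45 (nat_lit 94) (nat_lit 73) (nat_lit 77) (nat_lit 3) (nat_lit 5) (nat_lit 4) (nat_lit 6) (nat_lit 8) (nat_lit 8) (by decide +kernel)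
theorem L125069 : W_45 (nat_lit 3) (nat_lit 0x10000c000300020001c000000000000000000) (nat_lit 0x0) (nat_lit 0x4000400022000400000000000000) := T_45 (nat_lit 110) (nat_lit 58) (nat_lit 4) (nat_lit 8) (nat_lit 7) L125068 (by decide +kernel)
theorem L125070 : W_45 (nat_lit 7) (nat_lit 0x10000c000300000001c000000000000000000) (nat_lit 0x0) (nat_lit 0x300004000670023001c00000000000000) := Q_45 (nat_lit 93) (C_45 L125060 (C_45 L125065 (C_45 L125067 (C_45 L125069 N_45)))) (by decide +kernel)
theorem L125071 : W_45 (nat_lit 12) (nat_lit 0x10000c000300000000c000000000000000000) (nat_lit 0x0) (nat_lit 0x300014001e70073007fc01e000e000000) := Q_45 (nat_lit 76) (C_45 L124944 (C_45 L125012 (C_45 L125013 (C_45 L125021 (C_45 L125022 (C_45 L125038 (C_45 L125039 (C_45 L125049 (C_45 L125059 (C_45 L125070 N_45)))))))))) (by decide +kernel)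
theorem L125072 : W_45 (nat_lit 13) (nat_lit 0x10000c0003000000004000000000000000000) (nat_lit 0x0) (nat_lit 0x300014001f7007b007fc01e000e000000) := T_45 (nat_lit 75) (nat_lit 92) (nat_lit 7) (nat_lit 7) (nat_lit 4) L125071 (by decide +kernel)
theorem L125073 : W_45 (nat_lit 6) (nat_lit 0x10002e0003000080004000000000000000000) (nat_lit 0x0) (nat_lit 0x18000c00060000000000014000a000100000000000000) := T_45 (nat_lit 75) (nat_lit 92) (nat_lit 7) (nat_lit 7) (nat_lit 4) L124973 (by decide +kernel)
theorem L125074 : W_45 (nat_lit 7) (nat_lit 0x10002e0003000000004000000000000000000) (nat_lit 0x0) (nat_lit 0x18000c0006000000000001c000a000300000000000000) := T_45 (nat_lit 91) (nat_lit 57) (nat_lit 7) (nat_lit 6) (nat_lit 3) L125073 (by decide +kernel)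
theorem L125075 : W_45 (nat_lit 8) (nat_lit 0x10000e0003000000004000000000000000000) (nat_lit 0x0) (nat_lit 0x18000c0006003000000001c000a000300000000000000) := T_45 (nat_lit 129) (nat_lit 128) (nat_lit 0) (nat_lit 10) (nat_lit 7) L125074 (by decide +kernel)
theorem L125076 : W_45 (nat_lit 4) (nat_lit 0x10000e000300000000c000000000000000000) (nat_lit 0x0) (nat_lit 0x20001c004000080000000200000000000000) := T_45 (nat_lit 91) (nat_lit 57) (nat_lit 7) (nat_lit 6) (nat_lit 3) L124961 (by decide +kernel)
theorem L125077 : W_45 (nat_lit 5) (nat_lit 0x10000e0003000000004000000000000000000) (nat_lit 0x0) (nat_lit 0x20001c004000180008000200000000000000) := T_45 (nat_lit 75) (nat_lit 92) (nat_lit 7) (nat_lit 7) (nat_lit 4) L125076 (by decide +kernel)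
theorem L125078 : W_45 (nat_lit 4) (nat_lit 0x10002e0003000080006000000000000000000) (nat_lit 0x0) (nat_lit 0x400000000000170018000000000000000000) := T_45 (nat_lit 75) (nat_lit 92) (nat_lit 7) (nat_lit 7) (nat_lit 4) L124984 (by decide +kernel)
theorem L125079 : W_45 (nat_lit 5) (nat_lit 0x10002e0003000080004000000000000000000) (nat_lit 0x0) (nat_lit 0x40000000000017001a000100000000000000) := T_45 (nat_lit 73) (nat_lit 56) (nat_lit 4) (nat_lit 6) (nat_lit 7) L125078 (by decide +kernel)
theorem L125080 : W_45 (nat_lit 6) (nat_lit 0x10000e0003000080004000000000000000000) (nat_lit 0x0) (nat_lit 0x40030000000017001a000100000000000000) := T_45 (nat_lit 129) (nat_lit 128) (nat_lit 0) (nat_lit 10) (nat_lit 7) L125079 (by decide +kernel)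
theorem L125081 : W_45 (nat_lit 7) (nat_lit 0x10000e0003000000004000000000000000000) (nat_lit 0x0) (nat_lit 0x4003000000001f001a000300000000000000) := T_45 (nat_lit 91) (nat_lit 57) (nat_lit 7) (nat_lit 6) (nat_lit 3) L125080 (by decide +kernel)
theorem L125082 : W_45 (nat_lit 9) (nat_lit 0x10000c0003000000004000000000000000000) (nat_lit 0x0) (nat_lit 0x18000c00070033c0040001f001a000300000000000000) := Q_45 (nat_lit 125) (C_45 L124992 (C_45 L125075 (C_45 L124980 (C_45 L125077 (C_45 L125081 N_45))))) (by decide +kernel)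
theorem L125083 : W_45 (nat_lit 2) (nat_lit 0x14002e0003000080006000000000000000000) (nat_lit 0x0) (nat_lit 0x100008000000000000000100000000000000000000000) := D_45 (nat_lit 159) (nat_lit 92) (nat_lit 176) (nat_lit 6) (nat_lit 6) (nat_lit 9) (nat_lit 6) (nat_lit 6) (nat_lit 10) (by decide +kernel)
theorem L125084 : W_45 (nat_lit 3) (nat_lit 0x10002e0003000080006000000000000000000) (nat_lit 0x0) (nat_lit 0x100008000400000000000140000000000000000000000) := T_45 (nat_lit 142) (nat_lit 90) (nat_lit 4) (nat_lit 6) (nat_lit 8) L125083 (by decide +kernel)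
theorem L125085 : W_45 (nat_lit 4) (nat_lit 0x10002e0003000080004000000000000000000) (nat_lit 0x0) (nat_lit 0x100008000400000000000140002000100000000000000) := T_45 (nat_lit 73) (nat_lit 56) (nat_lit 4) (nat_lit 6) (nat_lit 7) L125084 (by decide +kernel)
theorem L125086 : W_45 (nat_lit 5) (nat_lit 0x10002e0003000000004000000000000000000) (nat_lit 0x0) (nat_lit 0x1000080004000000000001c0002000300000000000000) := T_45 (nat_lit 91) (nat_lit 57) (nat_lit 7) (nat_lit 6) (nat_lit 3) L125085 (by decide +kernel)
theorem L125087 : W_45 (nat_lit 6) (nat_lit 0x10000e0003000000004000000000000000000) (nat_lit 0x0) (nat_lit 0x1000080004003000000001c0002000300000000000000) := T_45 (nat_lit 129) (nat_lit 128) (nat_lit 0) (nat_lit 10) (nat_lit 7) L125086 (by decide +kernel)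
theorem L125088 : W_45 (nat_lit 2) (nat_lit 0x10000f0003000080004000000000000000000) (nat_lit 0x0) (nat_lit 0xc004000000000000000000000000000) := D_45 (nat_lit 123) (nat_lit 110) (nat_lit 122) (nat_lit 2) (nat_lit 4) (nat_lit 7) (nat_lit 2) (nat_lit 3) (nat_lit 7) (by decide +kernel)
theorem L125089 : W_45 (nat_lit 3) (nat_lit 0x10000e0003000080004000000000000000000) (nat_lit 0x0) (nat_lit 0x20001c004000000000000000000000000000) := T_45 (nat_lit 124) (nat_lit 141) (nat_lit 5) (nat_lit 6) (nat_lit 4) L125088 (by decide +kernel)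
theorem L125090 : W_45 (nat_lit 4) (nat_lit 0x10000e0003000000004000000000000000000) (nat_lit 0x0) (nat_lit 0x20001c004000080000000200000000000000) := T_45 (nat_lit 91) (nat_lit 57) (nat_lit 7) (nat_lit 6) (nat_lit 3) L125089 (by decide +kernel)
theorem L125091 : W_45 (nat_lit 7) (nat_lit 0x10000c0003000000004000000000000000000) (nat_lit 0x0) (nat_lit 0x10000800070033c0040001c0002000300000000000000) := Q_45 (nat_lit 125) (C_45 L124992 (C_45 L125087 (C_45 L124980 (C_45 L125090 N_45)))) (by decide +kernel)
theorem L125092 : W_45 (nat_lit 4) (nat_lit 0x10000e000300008000e000000000000000000) (nat_lit 0x0) (nat_lit 0x400300000000070010000000000000000000) := T_45 (nat_lit 129) (nat_lit 128) (nat_lit 0) (nat_lit 10) (nat_lit 7) L124984 (by decide +kernel)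
theorem L125093 : W_45 (nat_lit 5) (nat_lit 0x10000e000300008000c000000000000000000) (nat_lit 0x0) (nat_lit 0x400300000000070012000100000000000000) := T_45 (nat_lit 73) (nat_lit 56) (nat_lit 4) (nat_lit 6) (nat_lit 7) L125092 (by decide +kernel)
theorem L125094 : W_45 (nat_lit 6) (nat_lit 0x10000e000300000000c000000000000000000) (nat_lit 0x0) (nat_lit 0x4003000000000f0012000500000000000000) := T_45 (nat_lit 91) (nat_lit 58) (nat_lit 6) (nat_lit 6) (nat_lit 7) L125093 (by decide +kernel)
theorem L125095 : W_45 (nat_lit 7) (nat_lit 0x10000e0003000000004000000000000000000) (nat_lit 0x0) (nat_lit 0x4003000000001f001a000500000000000000) := T_45 (nat_lit 75) (nat_lit 92) (nat_lit 7) (nat_lit 7) (nat_lit 4) L125094 (by decide +kernel)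
theorem L125096 : W_45 (nat_lit 4) (nat_lit 0x10002e000300000000c000000000000000000) (nat_lit 0x0) (nat_lit 0x20001c004000080000000400000000000000) := T_45 (nat_lit 91) (nat_lit 58) (nat_lit 6) (nat_lit 6) (nat_lit 7) L124911 (by decide +kernel)
theorem L125097 : W_45 (nat_lit 5) (nat_lit 0x10002e0003000000004000000000000000000) (nat_lit 0x0) (nat_lit 0x20001c004000180008000400000000000000) := T_45 (nat_lit 75) (nat_lit 92) (nat_lit 7) (nat_lit 7) (nat_lit 4) L125096 (by decide +kernel)
theorem L125098 : W_45 (nat_lit 6) (nat_lit 0x10000e0003000000004000000000000000000) (nat_lit 0x0) (nat_lit 0x20031c004000180008000400000000000000) := T_45 (nat_lit 129) (nat_lit 128) (nat_lit 0) (nat_lit 10) (nat_lit 7) L125097 (by decide +kernel)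
theorem L125099 : W_45 (nat_lit 4) (nat_lit 0x10000e000300000000c000000000000000000) (nat_lit 0x0) (nat_lit 0x20001c004000080000000400000000000000) := T_45 (nat_lit 91) (nat_lit 58) (nat_lit 6) (nat_lit 6) (nat_lit 7) L124961 (by decide +kernel)
theorem L125100 : W_45 (nat_lit 5) (nat_lit 0x10000e0003000000004000000000000000000) (nat_lit 0x0) (nat_lit 0x20001c004000180008000400000000000000) := T_45 (nat_lit 75) (nat_lit 92) (nat_lit 7) (nat_lit 7) (nat_lit 4) L125099 (by decide +kernel)
theorem L125101 : W_45 (nat_lit 8) (nat_lit 0x10000c0003000000004000000000000000000) (nat_lit 0x0) (nat_lit 0x70033c0040001f001a000500000000000000) := Q_45 (nat_lit 125) (C_45 L124992 (C_45 L125095 (C_45 L125098 (C_45 L125100 N_45)))) (by decide +kernel)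
theorem L125102 : W_45 (nat_lit 14) (nat_lit 0x10000c0003000000000000000000000000000) (nat_lit 0x0) (nat_lit 0x18000c00070033c014001ff007f007fc01e800e000000) := Q_45 (nat_lit 74) (C_45 L124915 (C_45 L124959 (C_45 L124964 (C_45 L124993 (C_45 L124997 (C_45 L125072 (C_45 L125082 (C_45 L125091 (C_45 L125101 N_45))))))))) (by decide +kernel)
theorem L125103 : W_45 (nat_lit 15) (nat_lit 0x10000c0002000000000000000000000000000) (nat_lit 0x0) (nat_lit 0x1c000e00078033c015e01ff007f007fc01e800e000000) := Q_45 (nat_lit 108) (C_45 L123227 (C_45 L124906 (C_45 L124909 (C_45 L125102 N_45)))) (by decide +kernel)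
theorem L125104 : W_45 (nat_lit 2) (nat_lit 0x100018000c0003400000000000000000000000000) (nat_lit 0x0) (nat_lit 0x200000000000020004000000000000000000000000000) := D_45 (nat_lit 177) (nat_lit 125) (nat_lit 110) (nat_lit 4) (nat_lit 7) (nat_lit 10) (nat_lit 6) (nat_lit 7) (nat_lit 10) (by decide +kernel)
theorem L125105 : W_45 (nat_lit 3) (nat_lit 0x18000c0003400000000000000000000000000) (nat_lit 0x0) (nat_lit 0x200010000000020004000080000000000000000000000) := T_45 (nat_lit 160) (nat_lit 91) (nat_lit 4) (nat_lit 7) (nat_lit 9) L125104 (by decide +kernel)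
theorem L125106 : W_45 (nat_lit 4) (nat_lit 0x18000c0003000000000000000000000000000) (nat_lit 0x0) (nat_lit 0x200010000000020004c00080000000000000000000000) := T_45 (nat_lit 106) (nat_lit 107) (nat_lit 3) (nat_lit 4) (nat_lit 6) L125105 (by decide +kernel)
theorem L125107 : W_45 (nat_lit 2) (nat_lit 0x18000c0003400780000000000000000000000) (nat_lit 0x0) (nat_lit 0x4000000060000000000000000000) := D_45 (nat_lit 77) (nat_lit 78) (nat_lit 110) (nat_lit 2) (nat_lit 6) (nat_lit 5) (nat_lit 6) (nat_lit 8) (nat_lit 8) (by decide +kernel)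
theorem L125108 : W_45 (nat_lit 3) (nat_lit 0x18000c0003400380000000000000000000000) (nat_lit 0x0) (nat_lit 0x4000c00060000000000000000000) := T_45 (nat_lit 94) (nat_lit 95) (nat_lit 1) (nat_lit 10) (nat_lit 5) L125107 (by decide +kernel)
theorem L125109 : W_45 (nat_lit 4) (nat_lit 0x18000c0003400180000000000000000000000) (nat_lit 0x0) (nat_lit 0x4000e00070000000000000000000) := T_45 (nat_lit 93) (nat_lit 76) (nat_lit 6) (nat_lit 7) (nat_lit 8) L125108 (by decide +kernel)
theorem L125110 : W_45 (nat_lit 5) (nat_lit 0x18000c0003400100000000000000000000000) (nat_lit 0x0) (nat_lit 0x4000e80074000000000000000000) := T_45 (nat_lit 91) (nat_lit 74) (nat_lit 4) (nat_lit 7) (nat_lit 8) L125109 (by decide +kernel)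
theorem L125111 : W_45 (nat_lit 6) (nat_lit 0x18000c0003000100000000000000000000000) (nat_lit 0x0) (nat_lit 0x4c00e80074000000000000000000) := T_45 (nat_lit 106) (nat_lit 107) (nat_lit 3) (nat_lit 4) (nat_lit 6) L125110 (by decide +kernel)
theorem L125112 : W_45 (nat_lit 7) (nat_lit 0x18000c0003000000000000000000000000000) (nat_lit 0x0) (nat_lit 0x4c00f8007c000000000000000000) := T_45 (nat_lit 92) (nat_lit 75) (nat_lit 7) (nat_lit 7) (nat_lit 4) L125111 (by decide +kernel)
theorem L125113 : W_45 (nat_lit 2) (nat_lit 0x18000c0007400300000000000000000000000) (nat_lit 0x0) (nat_lit 0xc00020000000000000000000) := D_45 (nat_lit 94) (nat_lit 77) (nat_lit 95) (nat_lit 6) (nat_lit 8) (nat_lit 8) (nat_lit 1) (nat_lit 10) (nat_lit 5) (by decide +kernel)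
theorem L125114 : W_45 (nat_lit 3) (nat_lit 0x18000c0003400300000000000000000000000) (nat_lit 0x0) (nat_lit 0x10000000000004000c00020000000000000000000) := T_45 (nat_lit 110) (nat_lit 160) (nat_lit 6) (nat_lit 7) (nat_lit 9) L125113 (by decide +kernel)
theorem L125115 : W_45 (nat_lit 4) (nat_lit 0x18000c0003400100000000000000000000000) (nat_lit 0x0) (nat_lit 0x10000000000004000e00030000000000000000000) := T_45 (nat_lit 93) (nat_lit 76) (nat_lit 6) (nat_lit 7) (nat_lit 8) L125114 (by decide +kernel)
theorem L125116 : W_45 (nat_lit 5) (nat_lit 0x18000c0003400000000000000000000000000) (nat_lit 0x0) (nat_lit 0x10000000000004000f00038000000000000000000) := T_45 (nat_lit 92) (nat_lit 75) (nat_lit 7) (nat_lit 7) (nat_lit 4) L125115 (by decide +kernel)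
theorem L125117 : W_45 (nat_lit 6) (nat_lit 0x18000c0003000000000000000000000000000) (nat_lit 0x0) (nat_lit 0x10000000000004c00f00038000000000000000000) := T_45 (nat_lit 106) (nat_lit 107) (nat_lit 3) (nat_lit 4) (nat_lit 6) L125116 (by decide +kernel)
theorem L125118 : W_45 (nat_lit 8) (nat_lit 0x10000c0003000000000000000000000000000) (nat_lit 0x0) (nat_lit 0x200010000800020004c00f8007c000000000000000000) := Q_45 (nat_lit 143) (C_45 L125106 (C_45 L125112 (C_45 L123241 (C_45 L125117 N_45)))) (by decide +kernel)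
theorem L125119 : W_45 (nat_lit 2) (nat_lit 0x18002c0003000780000000000000000000000) (nat_lit 0x0) (nat_lit 0x4000000060000000000000000000) := D_45 (nat_lit 77) (nat_lit 78) (nat_lit 110) (nat_lit 2) (nat_lit 6) (nat_lit 5) (nat_lit 6) (nat_lit 8) (nat_lit 8) (by decide +kernel)
theorem L125120 : W_45 (nat_lit 3) (nat_lit 0x18002c0003000380000000000000000000000) (nat_lit 0x0) (nat_lit 0x4000c00060000000000000000000) := T_45 (nat_lit 94) (nat_lit 95) (nat_lit 1) (nat_lit 10) (nat_lit 5) L125119 (by decide +kernel)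
theorem L125121 : W_45 (nat_lit 4) (nat_lit 0x18002c0003000180000000000000000000000) (nat_lit 0x0) (nat_lit 0x4000e00070000000000000000000) := T_45 (nat_lit 93) (nat_lit 76) (nat_lit 6) (nat_lit 7) (nat_lit 8) L125120 (by decide +kernel)
theorem L125122 : W_45 (nat_lit 5) (nat_lit 0x18002c0003000100000000000000000000000) (nat_lit 0x0) (nat_lit 0x4000e80074000000000000000000) := T_45 (nat_lit 91) (nat_lit 74) (nat_lit 4) (nat_lit 7) (nat_lit 8) L125121 (by decide +kernel)
theorem L125123 : W_45 (nat_lit 6) (nat_lit 0x18000c0003000100000000000000000000000) (nat_lit 0x0) (nat_lit 0x300004000e80074000000000000000000) := T_45 (nat_lit 129) (nat_lit 128) (nat_lit 0) (nat_lit 10) (nat_lit 7) L125122 (by decide +kernel)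
theorem L125124 : W_45 (nat_lit 7) (nat_lit 0x18000c0003000000000000000000000000000) (nat_lit 0x0) (nat_lit 0x300004000f8007c000000000000000000) := T_45 (nat_lit 92) (nat_lit 75) (nat_lit 7) (nat_lit 7) (nat_lit 4) L125123 (by decide +kernel)
theorem L125125 : W_45 (nat_lit 2) (nat_lit 0x18002c0007000300000000000000000000000) (nat_lit 0x0) (nat_lit 0xc00020000000000000000000) := D_45 (nat_lit 94) (nat_lit 77) (nat_lit 95) (nat_lit 6) (nat_lit 8) (nat_lit 8) (nat_lit 1) (nat_lit 10) (nat_lit 5) (by decide +kernel)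
theorem L125126 : W_45 (nat_lit 3) (nat_lit 0x18002c0003000300000000000000000000000) (nat_lit 0x0) (nat_lit 0x10000000000004000c00020000000000000000000) := T_45 (nat_lit 110) (nat_lit 160) (nat_lit 6) (nat_lit 7) (nat_lit 9) L125125 (by decide +kernel)
theorem L125127 : W_45 (nat_lit 4) (nat_lit 0x18002c0003000100000000000000000000000) (nat_lit 0x0) (nat_lit 0x10000000000004000e00030000000000000000000) := T_45 (nat_lit 93) (nat_lit 76) (nat_lit 6) (nat_lit 7) (nat_lit 8) L125126 (by decide +kernel)
theorem L125128 : W_45 (nat_lit 5) (nat_lit 0x18002c0003000000000000000000000000000) (nat_lit 0x0) (nat_lit 0x10000000000004000f00038000000000000000000) := T_45 (nat_lit 92) (nat_lit 75) (nat_lit 7) (nat_lit 7) (nat_lit 4) L125127 (by decide +kernel)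
theorem L125129 : W_45 (nat_lit 6) (nat_lit 0x18000c0003000000000000000000000000000) (nat_lit 0x0) (nat_lit 0x10000000300004000f00038000000000000000000) := T_45 (nat_lit 129) (nat_lit 128) (nat_lit 0) (nat_lit 10) (nat_lit 7) L125128 (by decide +kernel)
theorem L125130 : W_45 (nat_lit 8) (nat_lit 0x10000c0003000000000000000000000000000) (nat_lit 0x0) (nat_lit 0x4000200010000800300004000f8007c000000000000000000) := Q_45 (nat_lit 143) (C_45 L123253 (C_45 L125124 (C_45 L123241 (C_45 L125129 N_45)))) (by decide +kernel)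
theorem L125131 : W_45 (nat_lit 9) (nat_lit 0x10000c0002000000000000000000000000000) (nat_lit 0x0) (nat_lit 0x4000200010000800320005c00f8007c000000000000000000) := Q_45 (nat_lit 108) (C_45 L123227 (C_45 L124909 (C_45 L125118 (C_45 L125130 N_45)))) (by decide +kernel)
theorem L125132 : W_45 (nat_lit 12) (nat_lit 0x10000c0002000000000000000000000000000) (nat_lit 0x0) (nat_lit 0x40003c001e000f8033c005e001f000f000700000000000000) := Q_45 (nat_lit 108) (C_45 L123227 (C_45 L124909 (C_45 L124906 (C_45 L123254 N_45)))) (by decide +kernel)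
theorem L125133 : W_45 (nat_lit 2) (nat_lit 0x1d000c00068017c0002000000000000000000) (nat_lit 0x0) (nat_lit 0x38000000000000000000000000000000) := D_45 (nat_lit 124) (nat_lit 123) (nat_lit 125) (nat_lit 5) (nat_lit 5) (nat_lit 4) (nat_lit 7) (nat_lit 5) (nat_lit 4) (by decide +kernel)
theorem L125134 : W_45 (nat_lit 3) (nat_lit 0x1d000c00068017c0000000000000000000000) (nat_lit 0x0) (nat_lit 0x38000000000003000000000000000000) := T_45 (nat_lit 73) (nat_lit 72) (nat_lit 0) (nat_lit 8) (nat_lit 5) L125133 (by decide +kernel)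
theorem L125135 : W_45 (nat_lit 4) (nat_lit 0x1d000c00060017c0000000000000000000000) (nat_lit 0x0) (nat_lit 0x38000c00000003000000000000000000) := T_45 (nat_lit 107) (nat_lit 106) (nat_lit 1) (nat_lit 8) (nat_lit 5) L125134 (by decide +kernel)
theorem L125136 : W_45 (nat_lit 5) (nat_lit 0x1d000c0006001780000000000000000000000) (nat_lit 0x0) (nat_lit 0x38000c00060003000000000000000000) := T_45 (nat_lit 90) (nat_lit 89) (nat_lit 3) (nat_lit 4) (nat_lit 5) L125135 (by decide +kernel)
theorem L125137 : W_45 (nat_lit 6) (nat_lit 0x1d000c0006001700000000000000000000000) (nat_lit 0x0) (nat_lit 0x38000c000e0007000000000000000000) := T_45 (nat_lit 91) (nat_lit 74) (nat_lit 4) (nat_lit 7) (nat_lit 8) L125136 (by decide +kernel)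
theorem L125138 : W_45 (nat_lit 7) (nat_lit 0x1c000c0006001700000000000000000000000) (nat_lit 0x0) (nat_lit 0x300038000c000e0007000000000000000000) := T_45 (nat_lit 140) (nat_lit 141) (nat_lit 2) (nat_lit 4) (nat_lit 8) L125137 (by decide +kernel)
theorem L125139 : W_45 (nat_lit 8) (nat_lit 0x18000c0006001700000000000000000000000) (nat_lit 0x0) (nat_lit 0x8000700038000c000e0007000000000000000000) := T_45 (nat_lit 142) (nat_lit 159) (nat_lit 5) (nat_lit 7) (nat_lit 5) L125138 (by decide +kernel)
theorem L125140 : W_45 (nat_lit 9) (nat_lit 0x18000c0006000700000000000000000000000) (nat_lit 0x0) (nat_lit 0x8000700038000c018e0007000000000000000000) := T_45 (nat_lit 96) (nat_lit 95) (nat_lit 1) (nat_lit 11) (nat_lit 5) L125139 (by decide +kernel)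
theorem L125141 : W_45 (nat_lit 10) (nat_lit 0x18000c0006000300000000000000000000000) (nat_lit 0x0) (nat_lit 0x8000700038000c01ce0027000000000000000000) := T_45 (nat_lit 94) (nat_lit 77) (nat_lit 6) (nat_lit 8) (nat_lit 8) L125140 (by decide +kernel)
theorem L125142 : W_45 (nat_lit 11) (nat_lit 0x18000c0002000300000000000000000000000) (nat_lit 0x0) (nat_lit 0x18000700038004c01ce0027000000000000000000) := T_45 (nat_lit 110) (nat_lit 160) (nat_lit 6) (nat_lit 7) (nat_lit 9) L125141 (by decide +kernel)
theorem L125143 : W_45 (nat_lit 12) (nat_lit 0x18000c0002000100000000000000000000000) (nat_lit 0x0) (nat_lit 0x18000700038004c01ee0037000000000000000000) := T_45 (nat_lit 93) (nat_lit 76) (nat_lit 6) (nat_lit 7) (nat_lit 8) L125142 (by decide +kernel)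
theorem L125144 : W_45 (nat_lit 13) (nat_lit 0x18000c0002000000000000000000000000000) (nat_lit 0x0) (nat_lit 0x18000700038004c01fe003f000000000000000000) := T_45 (nat_lit 92) (nat_lit 75) (nat_lit 7) (nat_lit 7) (nat_lit 4) L125143 (by decide +kernel)
theorem L125145 : W_45 (nat_lit 14) (nat_lit 0x10000c0002000000000000000000000000000) (nat_lit 0x0) (nat_lit 0x600030001e000f00038005c01fe003f000000000000000000) := Q_45 (nat_lit 143) (C_45 L123270 (C_45 L123263 (C_45 L123127 (C_45 L123269 (C_45 L125144 N_45))))) (by decide +kernel)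
theorem L125146 : W_45 (nat_lit 2) (nat_lit 0x10000e8003000000000000000000000000000) (nat_lit 0x0) (nat_lit 0x14004000000000000000000000000000) := D_45 (nat_lit 124) (nat_lit 122) (nat_lit 110) (nat_lit 2) (nat_lit 3) (nat_lit 7) (nat_lit 2) (nat_lit 4) (nat_lit 7) (by decide +kernel)
theorem L125147 : W_45 (nat_lit 2) (nat_lit 0x16000d0002800060000000000000000000000) (nat_lit 0x0) (nat_lit 0x800108000000000000000000000000000000) := D_45 (nat_lit 143) (nat_lit 128) (nat_lit 123) (nat_lit 2) (nat_lit 5) (nat_lit 8) (nat_lit 0) (nat_lit 8) (nat_lit 8) (by decide +kernel)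
theorem L125148 : W_45 (nat_lit 3) (nat_lit 0x12000d0002800060000000000000000000000) (nat_lit 0x0) (nat_lit 0x8000c00108000000000000000000000000000000) := T_45 (nat_lit 142) (nat_lit 159) (nat_lit 7) (nat_lit 5) (nat_lit 5) L125147 (by decide +kernel)
theorem L125149 : W_45 (nat_lit 4) (nat_lit 0x12000d0002800040000000000000000000000) (nat_lit 0x0) (nat_lit 0x8000c00108000000020001000000000000000000) := T_45 (nat_lit 89) (nat_lit 72) (nat_lit 4) (nat_lit 5) (nat_lit 8) L125148 (by decide +kernel)
theorem L125150 : W_45 (nat_lit 2) (nat_lit 0x40012000d00028000e0000000000000000000000) (nat_lit 0x0) (nat_lit 0x40002000100000000000000000000000000000000000) := D_45 (nat_lit 157) (nat_lit 140) (nat_lit 174) (nat_lit 5) (nat_lit 5) (nat_lit 5) (nat_lit 5) (nat_lit 5) (nat_lit 6) (by decide +kernel)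
theorem L125151 : W_45 (nat_lit 3) (nat_lit 0x12000d00028000e0000000000000000000000) (nat_lit 0x0) (nat_lit 0x40006000100000000400000000000000000000000000) := T_45 (nat_lit 158) (nat_lit 106) (nat_lit 4) (nat_lit 5) (nat_lit 9) L125150 (by decide +kernel)
theorem L125152 : W_45 (nat_lit 4) (nat_lit 0x12000d0002800060000000000000000000000) (nat_lit 0x0) (nat_lit 0x40006000100000000400080004000000000000000000) := T_45 (nat_lit 91) (nat_lit 74) (nat_lit 6) (nat_lit 5) (nat_lit 8) L125151 (by decide +kernel)
theorem L125153 : W_45 (nat_lit 5) (nat_lit 0x12000d0002800040000000000000000000000) (nat_lit 0x0) (nat_lit 0x400060001000000004000a0005000000000000000000) := T_45 (nat_lit 89) (nat_lit 72) (nat_lit 4) (nat_lit 5) (nat_lit 8) L125152 (by decide +kernel)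
theorem L125154 : W_45 (nat_lit 2) (nat_lit 0x13000d0002800040000000000000000000000) (nat_lit 0x0) (nat_lit 0x8000c00000000000000000000000000000000000) := D_45 (nat_lit 142) (nat_lit 159) (nat_lit 143) (nat_lit 7) (nat_lit 5) (nat_lit 5) (nat_lit 2) (nat_lit 4) (nat_lit 8) (by decide +kernel)
theorem L125155 : W_45 (nat_lit 3) (nat_lit 0x12000d0002800040000000000000000000000) (nat_lit 0x0) (nat_lit 0xa000d00000000000000000000000000000000000) := T_45 (nat_lit 140) (nat_lit 157) (nat_lit 5) (nat_lit 5) (nat_lit 5) L125154 (by decide +kernel)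
theorem L125156 : W_45 (nat_lit 6) (nat_lit 0x12000d0002800000000000000000000000000) (nat_lit 0x0) (nat_lit 0x4000e000d001080004000e0005000000000000000000) := Q_45 (nat_lit 90) (C_45 L125149 (C_45 L125153 (C_45 L125155 N_45))) (by decide +kernel)
theorem L125157 : W_45 (nat_lit 2) (nat_lit 0x13000d0002c00060002000200000000000000) (nat_lit 0x0) (nat_lit 0x100018000000000) := D_45 (nat_lit 56) (nat_lit 39) (nat_lit 40) (nat_lit 5) (nat_lit 5) (nat_lit 2) (nat_lit 6) (nat_lit 5) (nat_lit 6) (by decide +kernel)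
theorem L125158 : W_45 (nat_lit 3) (nat_lit 0x13000d0002c00060002000000000000000000) (nat_lit 0x0) (nat_lit 0x4000300018000000000) := T_45 (nat_lit 57) (nat_lit 74) (nat_lit 6) (nat_lit 5) (nat_lit 7) L125157 (by decide +kernel)
theorem L125159 : W_45 (nat_lit 4) (nat_lit 0x13000d0002800060002000000000000000000) (nat_lit 0x0) (nat_lit 0x4000000000000400000004000300018000000000) := T_45 (nat_lit 106) (nat_lit 158) (nat_lit 4) (nat_lit 5) (nat_lit 9) L125158 (by decide +kernel)
theorem L125160 : W_45 (nat_lit 5) (nat_lit 0x13000d0002800060000000000000000000000) (nat_lit 0x0) (nat_lit 0x4000000008000400000006000300018000000000) := T_45 (nat_lit 73) (nat_lit 123) (nat_lit 5) (nat_lit 5) (nat_lit 4) L125159 (by decide +kernel)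
theorem L125161 : W_45 (nat_lit 6) (nat_lit 0x12000d0002800060000000000000000000000) (nat_lit 0x0) (nat_lit 0x6000100008000400000006000300018000000000) := T_45 (nat_lit 140) (nat_lit 157) (nat_lit 5) (nat_lit 5) (nat_lit 5) L125160 (by decide +kernel)
theorem L125162 : W_45 (nat_lit 7) (nat_lit 0x12000d0002800040000000000000000000000) (nat_lit 0x0) (nat_lit 0x6000100008000400020007000300018000000000) := T_45 (nat_lit 89) (nat_lit 72) (nat_lit 4) (nat_lit 5) (nat_lit 8) L125161 (by decide +kernel)
theorem L125163 : W_45 (nat_lit 2) (nat_lit 0x13000d0002800060004000000000000000000) (nat_lit 0x0) (nat_lit 0x8000000000002000200000000000000) := D_45 (nat_lit 73) (nat_lit 123) (nat_lit 57) (nat_lit 5) (nat_lit 5) (nat_lit 4) (nat_lit 6) (nat_lit 5) (nat_lit 7) (by decide +kernel)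
theorem L125164 : W_45 (nat_lit 3) (nat_lit 0x12000d0002800060004000000000000000000) (nat_lit 0x0) (nat_lit 0x2000100008000000000002000200000000000000) := T_45 (nat_lit 140) (nat_lit 157) (nat_lit 5) (nat_lit 5) (nat_lit 5) L125163 (by decide +kernel)
theorem L125165 : W_45 (nat_lit 4) (nat_lit 0x12000d0002800060000000000000000000000) (nat_lit 0x0) (nat_lit 0x2000100008000000080006000200000000000000) := T_45 (nat_lit 74) (nat_lit 91) (nat_lit 6) (nat_lit 5) (nat_lit 8) L125164 (by decide +kernel)
theorem L125166 : W_45 (nat_lit 5) (nat_lit 0x12000d0002800040000000000000000000000) (nat_lit 0x0) (nat_lit 0x20001000080000000a0007000200000000000000) := T_45 (nat_lit 89) (nat_lit 72) (nat_lit 4) (nat_lit 5) (nat_lit 8) L125165 (by decide +kernel)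
theorem L125167 : W_45 (nat_lit 2) (nat_lit 0x13000d0002800040002000000000000000000) (nat_lit 0x0) (nat_lit 0x20001000080000000000000) := D_45 (nat_lit 72) (nat_lit 55) (nat_lit 89) (nat_lit 4) (nat_lit 5) (nat_lit 7) (nat_lit 4) (nat_lit 5) (nat_lit 8) (by decide +kernel)
theorem L125168 : W_45 (nat_lit 3) (nat_lit 0x13000d0002800040000000000000000000000) (nat_lit 0x0) (nat_lit 0x8000000020003000080000000000000) := T_45 (nat_lit 73) (nat_lit 123) (nat_lit 5) (nat_lit 5) (nat_lit 4) L125167 (by decide +kernel)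
theorem L125169 : W_45 (nat_lit 4) (nat_lit 0x12000d0002800040000000000000000000000) (nat_lit 0x0) (nat_lit 0x2000100008000000020003000080000000000000) := T_45 (nat_lit 140) (nat_lit 157) (nat_lit 5) (nat_lit 5) (nat_lit 5) L125168 (by decide +kernel)
theorem L125170 : W_45 (nat_lit 2) (nat_lit 0x1400040012000d00028000e0000000000000000000000) (nat_lit 0x0) (nat_lit 0x2800080000000000000000000000000000000000000000000) := D_45 (nat_lit 175) (nat_lit 191) (nat_lit 193) (nat_lit 5) (nat_lit 5) (nat_lit 7) (nat_lit 7) (nat_lit 5) (nat_lit 7) (by decide +kernel)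
theorem L125171 : W_45 (nat_lit 3) (nat_lit 0x400040012000d00028000e0000000000000000000000) (nat_lit 0x0) (nat_lit 0x2800180008000000000000000000000000000000000000000) := T_45 (nat_lit 176) (nat_lit 159) (nat_lit 7) (nat_lit 5) (nat_lit 6) L125170 (by decide +kernel)
theorem L125172 : W_45 (nat_lit 4) (nat_lit 0x40012000d00028000e0000000000000000000000) (nat_lit 0x0) (nat_lit 0x28001c000a000000000000000000000000000000000000000) := T_45 (nat_lit 174) (nat_lit 157) (nat_lit 5) (nat_lit 5) (nat_lit 6) L125171 (by decide +kernel)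
theorem L125173 : W_45 (nat_lit 5) (nat_lit 0x12000d00028000e0000000000000000000000) (nat_lit 0x0) (nat_lit 0x28001c000e000000000000400000000000000000000000000) := T_45 (nat_lit 158) (nat_lit 106) (nat_lit 4) (nat_lit 5) (nat_lit 9) L125172 (by decide +kernel)
theorem L125174 : W_45 (nat_lit 6) (nat_lit 0x12000d0002800060000000000000000000000) (nat_lit 0x0) (nat_lit 0x28001c000e000000000000400080004000000000000000000) := T_45 (nat_lit 91) (nat_lit 74) (nat_lit 6) (nat_lit 5) (nat_lit 8) L125173 (by decide +kernel)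
theorem L125175 : W_45 (nat_lit 7) (nat_lit 0x12000d0002800040000000000000000000000) (nat_lit 0x0) (nat_lit 0x28001c000e0000000000004000a0005000000000000000000) := T_45 (nat_lit 89) (nat_lit 72) (nat_lit 4) (nat_lit 5) (nat_lit 8) L125174 (by decide +kernel)
theorem L125176 : W_45 (nat_lit 2) (nat_lit 0x12000d0002c00060006000000000000000000) (nat_lit 0x0) (nat_lit 0x100008000000000000000100000000000000) := D_45 (nat_lit 123) (nat_lit 140) (nat_lit 56) (nat_lit 6) (nat_lit 4) (nat_lit 8) (nat_lit 5) (nat_lit 5) (nat_lit 3) (by decide +kernel)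
theorem L125177 : W_45 (nat_lit 3) (nat_lit 0x12000d0002c00060004000000000000000000) (nat_lit 0x0) (nat_lit 0x100008000000000002000300000000000000) := T_45 (nat_lit 73) (nat_lit 57) (nat_lit 6) (nat_lit 5) (nat_lit 7) L125176 (by decide +kernel)
theorem L125178 : W_45 (nat_lit 4) (nat_lit 0x12000d0002800060004000000000000000000) (nat_lit 0x0) (nat_lit 0x4000100008000400000002000300000000000000) := T_45 (nat_lit 106) (nat_lit 158) (nat_lit 4) (nat_lit 5) (nat_lit 9) L125177 (by decide +kernel)
theorem L125179 : W_45 (nat_lit 5) (nat_lit 0x12000d0002800060000000000000000000000) (nat_lit 0x0) (nat_lit 0x4000100008000400080006000300000000000000) := T_45 (nat_lit 74) (nat_lit 91) (nat_lit 6) (nat_lit 5) (nat_lit 8) L125178 (by decide +kernel)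
theorem L125180 : W_45 (nat_lit 6) (nat_lit 0x12000d0002800040000000000000000000000) (nat_lit 0x0) (nat_lit 0x40001000080004000a0007000300000000000000) := T_45 (nat_lit 89) (nat_lit 72) (nat_lit 4) (nat_lit 5) (nat_lit 8) L125179 (by decide +kernel)
theorem L125181 : W_45 (nat_lit 2) (nat_lit 0x13000d0002800040002000000000000000000) (nat_lit 0x0) (nat_lit 0x80004000200000000000000) := D_45 (nat_lit 74) (nat_lit 91) (nat_lit 57) (nat_lit 6) (nat_lit 5) (nat_lit 8) (nat_lit 6) (nat_lit 5) (nat_lit 7) (by decide +kernel)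
theorem L125182 : W_45 (nat_lit 3) (nat_lit 0x13000d0002800040000000000000000000000) (nat_lit 0x0) (nat_lit 0x8000000080006000200000000000000) := T_45 (nat_lit 73) (nat_lit 123) (nat_lit 5) (nat_lit 5) (nat_lit 4) L125181 (by decide +kernel)
theorem L125183 : W_45 (nat_lit 4) (nat_lit 0x12000d0002800040000000000000000000000) (nat_lit 0x0) (nat_lit 0x2000100008000000080006000200000000000000) := T_45 (nat_lit 140) (nat_lit 157) (nat_lit 5) (nat_lit 5) (nat_lit 5) L125182 (by decide +kernel)
theorem L125184 : W_45 (nat_lit 8) (nat_lit 0x12000d0002800000000000000000000000000) (nat_lit 0x0) (nat_lit 0x28001c000e0001000080004000e0007000380018000000000) := Q_45 (nat_lit 90) (C_45 L125153 (C_45 L125162 (C_45 L125166 (C_45 L125169 (C_45 L125175 (C_45 L125180 (C_45 L125183 N_45))))))) (by decide +kernel)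
theorem L125185 : W_45 (nat_lit 2) (nat_lit 0x12000d0002c00060006000000000000000000) (nat_lit 0x0) (nat_lit 0x8000000000000000100008000000000) := D_45 (nat_lit 56) (nat_lit 123) (nat_lit 39) (nat_lit 5) (nat_lit 5) (nat_lit 3) (nat_lit 5) (nat_lit 5) (nat_lit 2) (by decide +kernel)
theorem L125186 : W_45 (nat_lit 3) (nat_lit 0x12000d0002c00060004000000000000000000) (nat_lit 0x0) (nat_lit 0x8000000000002000300008000000000) := T_45 (nat_lit 73) (nat_lit 57) (nat_lit 6) (nat_lit 5) (nat_lit 7) L125185 (by decide +kernel)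
theorem L125187 : W_45 (nat_lit 4) (nat_lit 0x12000d0002800060004000000000000000000) (nat_lit 0x0) (nat_lit 0x4000000008000400000002000300008000000000) := T_45 (nat_lit 106) (nat_lit 158) (nat_lit 4) (nat_lit 5) (nat_lit 9) L125186 (by decide +kernel)
theorem L125188 : W_45 (nat_lit 5) (nat_lit 0x12000d0002800060000000000000000000000) (nat_lit 0x0) (nat_lit 0x4000000008000400080006000300008000000000) := T_45 (nat_lit 74) (nat_lit 91) (nat_lit 6) (nat_lit 5) (nat_lit 8) L125187 (by decide +kernel)
theorem L125189 : W_45 (nat_lit 6) (nat_lit 0x12000d0002800040000000000000000000000) (nat_lit 0x0) (nat_lit 0x40000000080004000a0007000300008000000000) := T_45 (nat_lit 89) (nat_lit 72) (nat_lit 4) (nat_lit 5) (nat_lit 8) L125188 (by decide +kernel)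
theorem L125190 : W_45 (nat_lit 7) (nat_lit 0x12000d0002800000000000000000000000000) (nat_lit 0x0) (nat_lit 0x400060001000080004000e0007000380008000000000) := Q_45 (nat_lit 90) (C_45 L125183 (C_45 L125169 (C_45 L125189 (C_45 L125153 N_45)))) (by decide +kernel)
theorem L125191 : W_45 (nat_lit 2) (nat_lit 0xc0012000d0002c00040000000000000000000000) (nat_lit 0x0) (nat_lit 0x40002000100000000000000000000000000000000000) := D_45 (nat_lit 157) (nat_lit 140) (nat_lit 174) (nat_lit 5) (nat_lit 5) (nat_lit 5) (nat_lit 5) (nat_lit 5) (nat_lit 6) (by decide +kernel)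
theorem L125192 : W_45 (nat_lit 3) (nat_lit 0xc0012000d0002c00000000000000000000000000) (nat_lit 0x0) (nat_lit 0x40002000500000000000040000000000000000000000) := T_45 (nat_lit 90) (nat_lit 142) (nat_lit 7) (nat_lit 5) (nat_lit 5) L125191 (by decide +kernel)
theorem L125193 : W_45 (nat_lit 4) (nat_lit 0x40012000d0002c00000000000000000000000000) (nat_lit 0x0) (nat_lit 0x14000a000500000000000040000000000000000000000) := T_45 (nat_lit 159) (nat_lit 176) (nat_lit 7) (nat_lit 5) (nat_lit 6) L125192 (by decide +kernel)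
theorem L125194 : W_45 (nat_lit 5) (nat_lit 0x40012000d0002800000000000000000000000000) (nat_lit 0x0) (nat_lit 0x14000a000500000000400060000000000000000000000) := T_45 (nat_lit 106) (nat_lit 89) (nat_lit 4) (nat_lit 5) (nat_lit 9) L125193 (by decide +kernel)
theorem L125195 : W_45 (nat_lit 2) (nat_lit 0x8000c0012000d0002c00000000000000000000000000) (nat_lit 0x0) (nat_lit 0x800040002000000000000000000000000000000000000000) := D_45 (nat_lit 174) (nat_lit 157) (nat_lit 191) (nat_lit 5) (nat_lit 5) (nat_lit 6) (nat_lit 5) (nat_lit 5) (nat_lit 7) (by decide +kernel)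
theorem L125196 : W_45 (nat_lit 3) (nat_lit 0xc0012000d0002c00000000000000000000000000) (nat_lit 0x0) (nat_lit 0x8000c0002000000008000000000000000000000000000000) := T_45 (nat_lit 175) (nat_lit 123) (nat_lit 4) (nat_lit 5) (nat_lit 10) L125195 (by decide +kernel)
theorem L125197 : W_45 (nat_lit 4) (nat_lit 0x40012000d0002c00000000000000000000000000) (nat_lit 0x0) (nat_lit 0x8001c000a000000008000000000000000000000000000000) := T_45 (nat_lit 159) (nat_lit 176) (nat_lit 7) (nat_lit 5) (nat_lit 6) L125196 (by decide +kernel)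
theorem L125198 : W_45 (nat_lit 5) (nat_lit 0x40012000d0002800000000000000000000000000) (nat_lit 0x0) (nat_lit 0x8001c000a000000008000400020000000000000000000000) := T_45 (nat_lit 106) (nat_lit 89) (nat_lit 4) (nat_lit 5) (nat_lit 9) L125197 (by decide +kernel)
theorem L125199 : W_45 (nat_lit 2) (nat_lit 0x60012000d0002800040000000000000000000000) (nat_lit 0x0) (nat_lit 0x400020001000000000000000000) := D_45 (nat_lit 89) (nat_lit 72) (nat_lit 106) (nat_lit 4) (nat_lit 5) (nat_lit 8) (nat_lit 4) (nat_lit 5) (nat_lit 9) (by decide +kernel)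
theorem L125200 : W_45 (nat_lit 3) (nat_lit 0x60012000d0002800000000000000000000000000) (nat_lit 0x0) (nat_lit 0x100000000400060001000000000000000000) := T_45 (nat_lit 90) (nat_lit 140) (nat_lit 5) (nat_lit 5) (nat_lit 5) L125199 (by decide +kernel)
theorem L125201 : W_45 (nat_lit 4) (nat_lit 0x40012000d0002800000000000000000000000000) (nat_lit 0x0) (nat_lit 0x40002000100000000400060001000000000000000000) := T_45 (nat_lit 157) (nat_lit 174) (nat_lit 5) (nat_lit 5) (nat_lit 6) L125200 (by decide +kernel)
theorem L125202 : W_45 (nat_lit 2) (nat_lit 0xc0012000d0002800040000000000000000000000) (nat_lit 0x0) (nat_lit 0x40002000100000000000000000000000000000000000) := D_45 (nat_lit 157) (nat_lit 140) (nat_lit 174) (nat_lit 5) (nat_lit 5) (nat_lit 5) (nat_lit 5) (nat_lit 5) (nat_lit 6) (by decide +kernel)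
theorem L125203 : W_45 (nat_lit 3) (nat_lit 0xc0012000d0002800000000000000000000000000) (nat_lit 0x0) (nat_lit 0x40002000500000000000040000000000000000000000) := T_45 (nat_lit 90) (nat_lit 142) (nat_lit 7) (nat_lit 5) (nat_lit 5) L125202 (by decide +kernel)
theorem L125204 : W_45 (nat_lit 4) (nat_lit 0x40012000d0002800000000000000000000000000) (nat_lit 0x0) (nat_lit 0x14000a000500000000000040000000000000000000000) := T_45 (nat_lit 159) (nat_lit 176) (nat_lit 7) (nat_lit 5) (nat_lit 6) L125203 (by decide +kernel)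
theorem L125205 : W_45 (nat_lit 2) (nat_lit 0xc0012000d8002c00040000000000000000000000) (nat_lit 0x0) (nat_lit 0x100000000000000002000100000000000000) := D_45 (nat_lit 73) (nat_lit 56) (nat_lit 140) (nat_lit 5) (nat_lit 5) (nat_lit 3) (nat_lit 5) (nat_lit 5) (nat_lit 4) (by decide +kernel)
theorem L125206 : W_45 (nat_lit 3) (nat_lit 0xc0012000d0002c00040000000000000000000000) (nat_lit 0x0) (nat_lit 0x80000000100008000000000002000100000000000000) := T_45 (nat_lit 123) (nat_lit 175) (nat_lit 4) (nat_lit 5) (nat_lit 10) L125205 (by decide +kernel)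
theorem L125207 : W_45 (nat_lit 4) (nat_lit 0xc0012000d0002c00000000000000000000000000) (nat_lit 0x0) (nat_lit 0x80000000500008000000040002000100000000000000) := T_45 (nat_lit 90) (nat_lit 142) (nat_lit 7) (nat_lit 5) (nat_lit 5) L125206 (by decide +kernel)
theorem L125208 : W_45 (nat_lit 5) (nat_lit 0x40012000d0002c00000000000000000000000000) (nat_lit 0x0) (nat_lit 0x180008000500008000000040002000100000000000000) := T_45 (nat_lit 159) (nat_lit 176) (nat_lit 7) (nat_lit 5) (nat_lit 6) L125207 (by decide +kernel)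
theorem L125209 : W_45 (nat_lit 6) (nat_lit 0x40012000d0002800000000000000000000000000) (nat_lit 0x0) (nat_lit 0x180008000500008000400060002000100000000000000) := T_45 (nat_lit 106) (nat_lit 89) (nat_lit 4) (nat_lit 5) (nat_lit 9) L125208 (by decide +kernel)
theorem L125210 : W_45 (nat_lit 7) (nat_lit 0x12000d0002800000000000000000000000000) (nat_lit 0x0) (nat_lit 0x8001c000e000500008000400060003000100000000000000) := Q_45 (nat_lit 158) (C_45 L125194 (C_45 L125198 (C_45 L125201 (C_45 L125204 (C_45 L125209 N_45))))) (by decide +kernel)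
theorem L125211 : W_45 (nat_lit 5) (nat_lit 0x12000d0002800000000000000000000000000) (nat_lit 0x0) (nat_lit 0xa000d001080000000e0007000280000000000000) := Q_45 (nat_lit 90) (C_45 L125183 (C_45 L125169 (C_45 L125149 (C_45 L125155 N_45)))) (by decide +kernel)
theorem L125212 : W_45 (nat_lit 2) (nat_lit 0x1a000d0002800000000000000000000000000) (nat_lit 0x0) (nat_lit 0x500008000000000000000000000000000000) := D_45 (nat_lit 142) (nat_lit 123) (nat_lit 140) (nat_lit 0) (nat_lit 8) (nat_lit 8) (nat_lit 2) (nat_lit 4) (nat_lit 8) (by decide +kernel)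
theorem L125213 : W_45 (nat_lit 2) (nat_lit 0x10001a000d0002800000000000000000000000000) (nat_lit 0x0) (nat_lit 0x4000200000000000000004000000000000000000000000000) := D_45 (nat_lit 177) (nat_lit 194) (nat_lit 110) (nat_lit 6) (nat_lit 7) (nat_lit 11) (nat_lit 6) (nat_lit 7) (nat_lit 10) (by decide +kernel)
theorem L125214 : W_45 (nat_lit 2) (nat_lit 0x200010001a000d0002800000000000000000000000000) (nat_lit 0x0) (nat_lit 0x2000100008000000000000000000000000000000000000000) := D_45 (nat_lit 176) (nat_lit 159) (nat_lit 193) (nat_lit 5) (nat_lit 7) (nat_lit 6) (nat_lit 5) (nat_lit 7) (nat_lit 7) (by decide +kernel)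
theorem L125215 : W_45 (nat_lit 3) (nat_lit 0x10001a000d0002800000000000000000000000000) (nat_lit 0x0) (nat_lit 0x6000300008000000000000000000000000000000000000000) := T_45 (nat_lit 177) (nat_lit 194) (nat_lit 6) (nat_lit 7) (nat_lit 11) L125214 (by decide +kernel)
theorem L125216 : W_45 (nat_lit 2) (nat_lit 0x1a000d0006800000000000000000000000000) (nat_lit 0x0) (nat_lit 0x10000000000000000200010000000000000000000) := D_45 (nat_lit 93) (nat_lit 76) (nat_lit 160) (nat_lit 5) (nat_lit 8) (nat_lit 4) (nat_lit 6) (nat_lit 7) (nat_lit 9) (by decide +kernel)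
theorem L125217 : W_45 (nat_lit 5) (nat_lit 0x4001a000d0002800000000000000000000000000) (nat_lit 0x0) (nat_lit 0x28001c000a000000000000400020000000000000000000000) := T_45 (nat_lit 106) (nat_lit 89) (nat_lit 4) (nat_lit 5) (nat_lit 9) L122838 (by decide +kernel)
theorem L125218 : W_45 (nat_lit 4) (nat_lit 0x4001a000d0002800000000000000000000000000) (nat_lit 0x0) (nat_lit 0x8000c0002000000008000400020000000000000000000000) := T_45 (nat_lit 106) (nat_lit 89) (nat_lit 4) (nat_lit 5) (nat_lit 9) L122830 (by decide +kernel)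
theorem L125219 : W_45 (nat_lit 2) (nat_lit 0x6001a000d0002800000000000000000000000000) (nat_lit 0x0) (nat_lit 0x100018000000000000000000000000000000000000000) := D_45 (nat_lit 159) (nat_lit 160) (nat_lit 176) (nat_lit 2) (nat_lit 4) (nat_lit 9) (nat_lit 7) (nat_lit 5) (nat_lit 6) (by decide +kernel)
theorem L125220 : W_45 (nat_lit 3) (nat_lit 0x4001a000d0002800000000000000000000000000) (nat_lit 0x0) (nat_lit 0x14001a000000000000000000000000000000000000000) := T_45 (nat_lit 157) (nat_lit 174) (nat_lit 5) (nat_lit 5) (nat_lit 6) L125219 (by decide +kernel)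
theorem L125221 : W_45 (nat_lit 2) (nat_lit 0x100004001a000d0002c00000000000000000000000000) (nat_lit 0x0) (nat_lit 0x2000080000000000008000000000000000000000000000000) := D_45 (nat_lit 175) (nat_lit 193) (nat_lit 123) (nat_lit 7) (nat_lit 5) (nat_lit 7) (nat_lit 4) (nat_lit 5) (nat_lit 10) (by decide +kernel)
theorem L125222 : W_45 (nat_lit 3) (nat_lit 0x100004001a000d0002800000000000000000000000000) (nat_lit 0x0) (nat_lit 0x2000080000000000008000400020000000000000000000000) := T_45 (nat_lit 106) (nat_lit 89) (nat_lit 4) (nat_lit 5) (nat_lit 9) L125221 (by decide +kernel)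
theorem L125223 : W_45 (nat_lit 4) (nat_lit 0x4001a000d0002800000000000000000000000000) (nat_lit 0x0) (nat_lit 0x2000180008000000008000400020000000000000000000000) := T_45 (nat_lit 176) (nat_lit 159) (nat_lit 7) (nat_lit 5) (nat_lit 6) L125222 (by decide +kernel)
theorem L125224 : W_45 (nat_lit 6) (nat_lit 0x1a000d0002800000000000000000000000000) (nat_lit 0x0) (nat_lit 0x28001c001e000000008000400020000000000000000000000) := Q_45 (nat_lit 158) (C_45 L125217 (C_45 L125218 (C_45 L125220 (C_45 L125223 N_45)))) (by decide +kernel)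
theorem L125225 : W_45 (nat_lit 2) (nat_lit 0x1a000d0002800000000000000000000000000) (nat_lit 0x0) (nat_lit 0x500100000000000000000000000000000000) := D_45 (nat_lit 142) (nat_lit 128) (nat_lit 140) (nat_lit 2) (nat_lit 5) (nat_lit 8) (nat_lit 2) (nat_lit 4) (nat_lit 8) (by decide +kernel)
theorem L125226 : W_45 (nat_lit 7) (nat_lit 0x12000d0002800000000000000000000000000) (nat_lit 0x0) (nat_lit 0x28001c001e000d00108000400020000000000000000000000) := Q_45 (nat_lit 143) (C_45 L125212 (C_45 L125224 (C_45 L125225 N_45))) (by decide +kernel)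
theorem L125227 : W_45 (nat_lit 2) (nat_lit 0x380006801a000d0002c00000000000000000000000000) (nat_lit 0x0) (nat_lit 0x4000000010000000000004000000000000000000000000000) := D_45 (nat_lit 160) (nat_lit 110) (nat_lit 194) (nat_lit 6) (nat_lit 7) (nat_lit 10) (nat_lit 6) (nat_lit 7) (nat_lit 11) (by decide +kernel)
theorem L125228 : W_45 (nat_lit 3) (nat_lit 0x180006801a000d0002c00000000000000000000000000) (nat_lit 0x0) (nat_lit 0x4000600010000000000004000000000000000000000000000) := T_45 (nat_lit 177) (nat_lit 178) (nat_lit 0) (nat_lit 8) (nat_lit 10) L125227 (by decide +kernel)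
theorem L125229 : W_45 (nat_lit 4) (nat_lit 0x180006001a000d0002c00000000000000000000000000) (nat_lit 0x0) (nat_lit 0x4000600011800000000004000000000000000000000000000) := T_45 (nat_lit 155) (nat_lit 156) (nat_lit 3) (nat_lit 2) (nat_lit 9) L125228 (by decide +kernel)
theorem L125230 : W_45 (nat_lit 5) (nat_lit 0x80006001a000d0002c00000000000000000000000000) (nat_lit 0x0) (nat_lit 0x6000700011800000000004000000000000000000000000000) := T_45 (nat_lit 176) (nat_lit 193) (nat_lit 7) (nat_lit 5) (nat_lit 7) L125229 (by decide +kernel)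
theorem L125231 : W_45 (nat_lit 6) (nat_lit 0x6001a000d0002c00000000000000000000000000) (nat_lit 0x0) (nat_lit 0x6000780011800000008004000000000000000000000000000) := T_45 (nat_lit 175) (nat_lit 123) (nat_lit 4) (nat_lit 5) (nat_lit 10) L125230 (by decide +kernel)
theorem L125232 : W_45 (nat_lit 7) (nat_lit 0x60012000d0002c00000000000000000000000000) (nat_lit 0x0) (nat_lit 0x6000780011800c00008004000000000000000000000000000) := T_45 (nat_lit 143) (nat_lit 142) (nat_lit 1) (nat_lit 8) (nat_lit 8) L125231 (by decide +kernel)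
theorem L125233 : W_45 (nat_lit 8) (nat_lit 0x40012000d0002c00000000000000000000000000) (nat_lit 0x0) (nat_lit 0x60007c0013800c00008004000000000000000000000000000) := T_45 (nat_lit 157) (nat_lit 174) (nat_lit 5) (nat_lit 5) (nat_lit 6) L125232 (by decide +kernel)
theorem L125234 : W_45 (nat_lit 9) (nat_lit 0x40012000d0002800000000000000000000000000) (nat_lit 0x0) (nat_lit 0x60007c0013800c00008004400020000000000000000000000) := T_45 (nat_lit 106) (nat_lit 89) (nat_lit 4) (nat_lit 5) (nat_lit 9) L125233 (by decide +kernel)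
theorem L125235 : W_45 (nat_lit 2) (nat_lit 0x16001a000d0002c00000000000000000000000000) (nat_lit 0x0) (nat_lit 0x200000000000000004000200000000000000000000000) := D_45 (nat_lit 110) (nat_lit 93) (nat_lit 177) (nat_lit 6) (nat_lit 7) (nat_lit 9) (nat_lit 6) (nat_lit 7) (nat_lit 10) (by decide +kernel)
theorem L125236 : W_45 (nat_lit 3) (nat_lit 0x6001a000d0002c00000000000000000000000000) (nat_lit 0x0) (nat_lit 0x200018000000000004000200000000000000000000000) := T_45 (nat_lit 160) (nat_lit 159) (nat_lit 2) (nat_lit 4) (nat_lit 9) L125235 (by decide +kernel)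
theorem L125237 : W_45 (nat_lit 4) (nat_lit 0x60012000d0002c00000000000000000000000000) (nat_lit 0x0) (nat_lit 0x200018000c00000004000200000000000000000000000) := T_45 (nat_lit 143) (nat_lit 142) (nat_lit 1) (nat_lit 8) (nat_lit 8) L125236 (by decide +kernel)
theorem L125238 : W_45 (nat_lit 5) (nat_lit 0x40012000d0002c00000000000000000000000000) (nat_lit 0x0) (nat_lit 0x24001a000c00000004000200000000000000000000000) := T_45 (nat_lit 157) (nat_lit 174) (nat_lit 5) (nat_lit 5) (nat_lit 6) L125237 (by decide +kernel)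
theorem L125239 : W_45 (nat_lit 6) (nat_lit 0x40012000d0002800000000000000000000000000) (nat_lit 0x0) (nat_lit 0x24001a000c00000004400220000000000000000000000) := T_45 (nat_lit 106) (nat_lit 89) (nat_lit 4) (nat_lit 5) (nat_lit 9) L125238 (by decide +kernel)
theorem L125240 : W_45 (nat_lit 2) (nat_lit 0xc0012000d0002800040005000000000000000000) (nat_lit 0x0) (nat_lit 0x2000280000000000000) := D_45 (nat_lit 73) (nat_lit 57) (nat_lit 55) (nat_lit 6) (nat_lit 5) (nat_lit 7) (nat_lit 4) (nat_lit 5) (nat_lit 7) (by decide +kernel)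
theorem L125241 : W_45 (nat_lit 3) (nat_lit 0xc0012000d0002800040004000000000000000000) (nat_lit 0x0) (nat_lit 0x20003000280000000000000) := T_45 (nat_lit 72) (nat_lit 89) (nat_lit 4) (nat_lit 5) (nat_lit 8) L125240 (by decide +kernel)
theorem L125242 : W_45 (nat_lit 4) (nat_lit 0xc0012000d0002800040000000000000000000000) (nat_lit 0x0) (nat_lit 0xa0007000280000000000000) := T_45 (nat_lit 74) (nat_lit 91) (nat_lit 6) (nat_lit 5) (nat_lit 8) L125241 (by decide +kernel)
theorem L125243 : W_45 (nat_lit 5) (nat_lit 0xc0012000d0002800000000000000000000000000) (nat_lit 0x0) (nat_lit 0x4000000000000e0007000280000000000000) := T_45 (nat_lit 90) (nat_lit 142) (nat_lit 7) (nat_lit 5) (nat_lit 5) L125242 (by decide +kernel)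
theorem L125244 : W_45 (nat_lit 6) (nat_lit 0x40012000d0002800000000000000000000000000) (nat_lit 0x0) (nat_lit 0x1000080004000000000000e0007000280000000000000) := T_45 (nat_lit 159) (nat_lit 176) (nat_lit 7) (nat_lit 5) (nat_lit 6) L125243 (by decide +kernel)
theorem L125245 : W_45 (nat_lit 3) (nat_lit 0x60012000d0002800000000000000000000000000) (nat_lit 0x0) (nat_lit 0x100018000c00000000000000000000000000000000000) := T_45 (nat_lit 143) (nat_lit 142) (nat_lit 1) (nat_lit 8) (nat_lit 8) L125219 (by decide +kernel)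
theorem L125246 : W_45 (nat_lit 4) (nat_lit 0x40012000d0002800000000000000000000000000) (nat_lit 0x0) (nat_lit 0x14001a000c00000000000000000000000000000000000) := T_45 (nat_lit 157) (nat_lit 174) (nat_lit 5) (nat_lit 5) (nat_lit 6) L125245 (by decide +kernel)
theorem L125247 : W_45 (nat_lit 10) (nat_lit 0x12000d0002800000000000000000000000000) (nat_lit 0x0) (nat_lit 0x68007c001f800c000080044002e0007000280000000000000) := Q_45 (nat_lit 158) (C_45 L125198 (C_45 L125234 (C_45 L125239 (C_45 L125244 (C_45 L125246 N_45))))) (by decide +kernel)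
theorem L125248 : W_45 (nat_lit 2) (nat_lit 0x16000d0002800060000000000000000000000) (nat_lit 0x0) (nat_lit 0x900100000000000000000000000000000000) := D_45 (nat_lit 143) (nat_lit 128) (nat_lit 140) (nat_lit 2) (nat_lit 5) (nat_lit 8) (nat_lit 2) (nat_lit 4) (nat_lit 8) (by decide +kernel)
theorem L125249 : W_45 (nat_lit 3) (nat_lit 0x12000d0002800060000000000000000000000) (nat_lit 0x0) (nat_lit 0x8000d00100000000000000000000000000000000) := T_45 (nat_lit 142) (nat_lit 159) (nat_lit 7) (nat_lit 5) (nat_lit 5) L125248 (by decide +kernel)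
theorem L125250 : W_45 (nat_lit 4) (nat_lit 0x12000d0002800040000000000000000000000) (nat_lit 0x0) (nat_lit 0x8000d00100000000020001000000000000000000) := T_45 (nat_lit 89) (nat_lit 72) (nat_lit 4) (nat_lit 5) (nat_lit 8) L125249 (by decide +kernel)
theorem L125251 : W_45 (nat_lit 8) (nat_lit 0x12000d0002800000000000000000000000000) (nat_lit 0x0) (nat_lit 0x28001c000e000d001000004000e0005000000000000000000) := Q_45 (nat_lit 90) (C_45 L125175 (C_45 L125153 (C_45 L125155 (C_45 L125250 N_45)))) (by decide +kernel)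
theorem L125252 : W_45 (nat_lit 2) (nat_lit 0x1a00380004001b000d0002800060000000000000000000000) (nat_lit 0x0) (nat_lit 0x4000000010000000000004000000000000000000000000000) := D_45 (nat_lit 160) (nat_lit 110) (nat_lit 194) (nat_lit 6) (nat_lit 7) (nat_lit 10) (nat_lit 6) (nat_lit 7) (nat_lit 11) (by decide +kernel)
theorem L125253 : W_45 (nat_lit 3) (nat_lit 0x1a00180004001b000d0002800060000000000000000000000) (nat_lit 0x0) (nat_lit 0x4000600010000000000004000000000000000000000000000) := T_45 (nat_lit 177) (nat_lit 178) (nat_lit 1) (nat_lit 8) (nat_lit 10) L125252 (by decide +kernel)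
theorem L125254 : W_45 (nat_lit 4) (nat_lit 0x1800180004001b000d0002800060000000000000000000000) (nat_lit 0x0) (nat_lit 0x4600600010000000000004000000000000000000000000000) := T_45 (nat_lit 189) (nat_lit 190) (nat_lit 2) (nat_lit 2) (nat_lit 11) L125253 (by decide +kernel)
theorem L125255 : W_45 (nat_lit 5) (nat_lit 0x1800180004001a000d0002800060000000000000000000000) (nat_lit 0x0) (nat_lit 0x4600600010000100008004000000000000000000000000000) := T_45 (nat_lit 140) (nat_lit 123) (nat_lit 4) (nat_lit 5) (nat_lit 11) L125254 (by decide +kernel)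
theorem L125256 : W_45 (nat_lit 6) (nat_lit 0x800180004001a000d0002800060000000000000000000000) (nat_lit 0x0) (nat_lit 0x10005600600010000100008004000000000000000000000000000) := T_45 (nat_lit 192) (nat_lit 208) (nat_lit 5) (nat_lit 5) (nat_lit 8) L125255 (by decide +kernel)
theorem L125257 : W_45 (nat_lit 7) (nat_lit 0x180004001a000d0002800060000000000000000000000) (nat_lit 0x0) (nat_lit 0x10005e00640010000100008004000000000000000000000000000) := T_45 (nat_lit 191) (nat_lit 174) (nat_lit 5) (nat_lit 5) (nat_lit 7) L125256 (by decide +kernel)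
theorem L125258 : W_45 (nat_lit 8) (nat_lit 0x100004001a000d0002800060000000000000000000000) (nat_lit 0x0) (nat_lit 0x10007e006c0010000100008004000000000000000000000000000) := T_45 (nat_lit 175) (nat_lit 193) (nat_lit 7) (nat_lit 5) (nat_lit 7) L125257 (by decide +kernel)
theorem L125259 : W_45 (nat_lit 9) (nat_lit 0x4001a000d0002800060000000000000000000000) (nat_lit 0x0) (nat_lit 0x10007e007c0018000100008004000000000000000000000000000) := T_45 (nat_lit 176) (nat_lit 159) (nat_lit 7) (nat_lit 5) (nat_lit 6) L125258 (by decide +kernel)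
theorem L125260 : W_45 (nat_lit 10) (nat_lit 0x1a000d0002800060000000000000000000000) (nat_lit 0x0) (nat_lit 0x10007e007c001c000100008004400000000000000000000000000) := T_45 (nat_lit 158) (nat_lit 106) (nat_lit 4) (nat_lit 5) (nat_lit 9) L125259 (by decide +kernel)
theorem L125261 : W_45 (nat_lit 11) (nat_lit 0x1a000d0002800040000000000000000000000) (nat_lit 0x0) (nat_lit 0x10007e007c001c000100008004400020001000000000000000000) := T_45 (nat_lit 89) (nat_lit 72) (nat_lit 4) (nat_lit 5) (nat_lit 8) L125260 (by decide +kernel)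
theorem L125262 : W_45 (nat_lit 4) (nat_lit 0x1a000d0002800040000000000000000000000) (nat_lit 0x0) (nat_lit 0xa0007000280000000000000) := T_45 (nat_lit 72) (nat_lit 89) (nat_lit 4) (nat_lit 5) (nat_lit 8) L122840 (by decide +kernel)
theorem L125263 : W_45 (nat_lit 2) (nat_lit 0x1a000d8002800040006000100000000000000) (nat_lit 0x0) (nat_lit 0x1000080004000000000) := D_45 (nat_lit 55) (nat_lit 38) (nat_lit 72) (nat_lit 4) (nat_lit 5) (nat_lit 6) (nat_lit 4) (nat_lit 5) (nat_lit 7) (by decide +kernel)
theorem L125264 : W_45 (nat_lit 3) (nat_lit 0x1a000d8002800040006000000000000000000) (nat_lit 0x0) (nat_lit 0x400000001000180004000000000) := T_45 (nat_lit 56) (nat_lit 106) (nat_lit 5) (nat_lit 5) (nat_lit 3) L125263 (by decide +kernel)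
theorem L125265 : W_45 (nat_lit 4) (nat_lit 0x1a000d0002800040006000000000000000000) (nat_lit 0x0) (nat_lit 0x100008000400000001000180004000000000) := T_45 (nat_lit 123) (nat_lit 140) (nat_lit 5) (nat_lit 5) (nat_lit 4) L125264 (by decide +kernel)
theorem L125266 : W_45 (nat_lit 5) (nat_lit 0x1a000d0002800040004000000000000000000) (nat_lit 0x0) (nat_lit 0x100008000400000003000380004000000000) := T_45 (nat_lit 73) (nat_lit 57) (nat_lit 6) (nat_lit 5) (nat_lit 7) L125265 (by decide +kernel)
theorem L125267 : W_45 (nat_lit 6) (nat_lit 0x1a000d0002800040000000000000000000000) (nat_lit 0x0) (nat_lit 0x100008000400080007000380004000000000) := T_45 (nat_lit 74) (nat_lit 91) (nat_lit 6) (nat_lit 5) (nat_lit 8) L125266 (by decide +kernel)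
theorem L125268 : W_45 (nat_lit 2) (nat_lit 0x1a000d8002c00040006000000000000000000) (nat_lit 0x0) (nat_lit 0x80004000000000000000020000000000000000000000) := D_45 (nat_lit 158) (nat_lit 175) (nat_lit 89) (nat_lit 4) (nat_lit 5) (nat_lit 10) (nat_lit 4) (nat_lit 5) (nat_lit 9) (by decide +kernel)
theorem L125269 : W_45 (nat_lit 3) (nat_lit 0x1a000d8002800040006000000000000000000) (nat_lit 0x0) (nat_lit 0x80004000000000000400020000000100000000000000) := T_45 (nat_lit 106) (nat_lit 56) (nat_lit 5) (nat_lit 5) (nat_lit 3) L125268 (by decide +kernel)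
theorem L125270 : W_45 (nat_lit 4) (nat_lit 0x1a000d0002800040006000000000000000000) (nat_lit 0x0) (nat_lit 0x80004000100008000400020000000100000000000000) := T_45 (nat_lit 123) (nat_lit 140) (nat_lit 5) (nat_lit 5) (nat_lit 4) L125269 (by decide +kernel)
theorem L125271 : W_45 (nat_lit 5) (nat_lit 0x1a000d0002800040004000000000000000000) (nat_lit 0x0) (nat_lit 0x80004000100008000400020002000300000000000000) := T_45 (nat_lit 73) (nat_lit 57) (nat_lit 6) (nat_lit 5) (nat_lit 7) L125270 (by decide +kernel)
theorem L125272 : W_45 (nat_lit 6) (nat_lit 0x1a000d0002800040000000000000000000000) (nat_lit 0x0) (nat_lit 0x800040001000080004000a0006000300000000000000) := T_45 (nat_lit 74) (nat_lit 91) (nat_lit 6) (nat_lit 5) (nat_lit 8) L125271 (by decide +kernel)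
theorem L125273 : W_45 (nat_lit 12) (nat_lit 0x1a000d0002800000000000000000000000000) (nat_lit 0x0) (nat_lit 0x10007e007c001c0001000080044000e0007000380004000000000) := Q_45 (nat_lit 90) (C_45 L122835 (C_45 L125261 (C_45 L125262 (C_45 L125267 (C_45 L125272 N_45))))) (by decide +kernel)
theorem L125274 : W_45 (nat_lit 2) (nat_lit 0x1a000d0002800000000000000000000000000) (nat_lit 0x0) (nat_lit 0x400108000000000000000000000000000000) := D_45 (nat_lit 142) (nat_lit 123) (nat_lit 128) (nat_lit 0) (nat_lit 8) (nat_lit 8) (nat_lit 2) (nat_lit 5) (nat_lit 8) (by decide +kernel)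
theorem L125275 : W_45 (nat_lit 13) (nat_lit 0x12000d0002800000000000000000000000000) (nat_lit 0x0) (nat_lit 0x10007e007c001c000d001080044000e0007000380004000000000) := Q_45 (nat_lit 143) (C_45 L125225 (C_45 L125273 (C_45 L125274 N_45))) (by decide +kernel)
theorem L125276 : W_45 (nat_lit 2) (nat_lit 0x1a001b000d0002800200000000000000000000000) (nat_lit 0x0) (nat_lit 0x800040000000000008000000000000000000000000000000) := D_45 (nat_lit 174) (nat_lit 123) (nat_lit 191) (nat_lit 6) (nat_lit 4) (nat_lit 10) (nat_lit 6) (nat_lit 4) (nat_lit 11) (by decide +kernel)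
theorem L125277 : W_45 (nat_lit 3) (nat_lit 0x1a001a000d0002800200000000000000000000000) (nat_lit 0x0) (nat_lit 0x800040000000100008000000040000000000000000000000) := T_45 (nat_lit 140) (nat_lit 90) (nat_lit 5) (nat_lit 5) (nat_lit 5) L125276 (by decide +kernel)
theorem L125278 : W_45 (nat_lit 4) (nat_lit 0x18001a000d0002800200000000000000000000000) (nat_lit 0x0) (nat_lit 0x800040006000100008000000040000000000000000000000) := T_45 (nat_lit 157) (nat_lit 158) (nat_lit 2) (nat_lit 4) (nat_lit 9) L125277 (by decide +kernel)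
theorem L125279 : W_45 (nat_lit 5) (nat_lit 0x10001a000d0002800200000000000000000000000) (nat_lit 0x0) (nat_lit 0x80014000e000100008000000040000000000000000000000) := T_45 (nat_lit 159) (nat_lit 176) (nat_lit 5) (nat_lit 7) (nat_lit 6) L125278 (by decide +kernel)
theorem L125280 : W_45 (nat_lit 6) (nat_lit 0x10001a000d0002800000000000000000000000000) (nat_lit 0x0) (nat_lit 0x80014000e000100008004000240000000000000000000000) := T_45 (nat_lit 93) (nat_lit 110) (nat_lit 6) (nat_lit 7) (nat_lit 9) L125279 (by decide +kernel)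
theorem L125281 : W_45 (nat_lit 7) (nat_lit 0x1a000d0002800000000000000000000000000) (nat_lit 0x0) (nat_lit 0x680034001e000100008004000240000000000000000000000) := Q_45 (nat_lit 160) (C_45 L125280 (C_45 L125213 (C_45 L125215 N_45))) (by decide +kernel)
theorem L125282 : W_45 (nat_lit 8) (nat_lit 0x12000d0002800000000000000000000000000) (nat_lit 0x0) (nat_lit 0x680034001e000d00108004000240000000000000000000000) := Q_45 (nat_lit 143) (C_45 L125274 (C_45 L125281 (C_45 L125225 N_45))) (by decide +kernel)
theorem L125283 : W_45 (nat_lit 14) (nat_lit 0x10000d0002800000000000000000000000000) (nat_lit 0x0) (nat_lit 0x10007e007c001f800f001080044002e000700038001c000000000) := Q_45 (nat_lit 141) (C_45 L125156 (C_45 L125184 (C_45 L125190 (C_45 L125210 (C_45 L125211 (C_45 L125226 (C_45 L125247 (C_45 L125251 (C_45 L125275 (C_45 L125282 N_45)))))))))) (by decide +kernel)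
theorem L125284 : W_45 (nat_lit 2) (nat_lit 0x10000f0002800000000000000000000000000) (nat_lit 0x0) (nat_lit 0x800008004000000000000000000000000000) := D_45 (nat_lit 123) (nat_lit 110) (nat_lit 143) (nat_lit 2) (nat_lit 4) (nat_lit 7) (nat_lit 3) (nat_lit 4) (nat_lit 7) (by decide +kernel)
theorem L125285 : W_45 (nat_lit 3) (nat_lit 0x10000d0002800000000000000000000000000) (nat_lit 0x0) (nat_lit 0x800028004400000000000000000000000000) := T_45 (nat_lit 125) (nat_lit 106) (nat_lit 0) (nat_lit 8) (nat_lit 7) L125284 (by decide +kernel)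
theorem L125286 : W_45 (nat_lit 4) (nat_lit 0x12000f0002800000000000000000000000000) (nat_lit 0x0) (nat_lit 0x100008000c00108000000040000000000000000000000) := T_45 (nat_lit 123) (nat_lit 143) (nat_lit 3) (nat_lit 4) (nat_lit 7) L122052 (by decide +kernel)
theorem L125287 : W_45 (nat_lit 5) (nat_lit 0x10000f0002800000000000000000000000000) (nat_lit 0x0) (nat_lit 0x100008000f00108000000040000000000000000000000) := T_45 (nat_lit 141) (nat_lit 140) (nat_lit 1) (nat_lit 8) (nat_lit 7) L125286 (by decide +kernel)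
theorem L125288 : W_45 (nat_lit 6) (nat_lit 0x10000d0002800000000000000000000000000) (nat_lit 0x0) (nat_lit 0x100008000f00128000400040000000000000000000000) := T_45 (nat_lit 125) (nat_lit 106) (nat_lit 0) (nat_lit 8) (nat_lit 7) L125287 (by decide +kernel)
theorem L125289 : W_45 (nat_lit 4) (nat_lit 0x12000f0002800000000000000000000000000) (nat_lit 0x0) (nat_lit 0x100008000400108004000040000000000000000000000) := T_45 (nat_lit 123) (nat_lit 110) (nat_lit 2) (nat_lit 4) (nat_lit 7) L122052 (by decide +kernel)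
theorem L125290 : W_45 (nat_lit 5) (nat_lit 0x10000f0002800000000000000000000000000) (nat_lit 0x0) (nat_lit 0x100008000700108004000040000000000000000000000) := T_45 (nat_lit 141) (nat_lit 140) (nat_lit 1) (nat_lit 8) (nat_lit 7) L125289 (by decide +kernel)
theorem L125291 : W_45 (nat_lit 6) (nat_lit 0x10000d0002800000000000000000000000000) (nat_lit 0x0) (nat_lit 0x100008000700128004400040000000000000000000000) := T_45 (nat_lit 125) (nat_lit 106) (nat_lit 0) (nat_lit 8) (nat_lit 7) L125290 (by decide +kernel)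
theorem L125292 : W_45 (nat_lit 2) (nat_lit 0x16000f0002800000000000000000000000000) (nat_lit 0x0) (nat_lit 0x8000000000000000040002000000000000000000) := D_45 (nat_lit 90) (nat_lit 159) (nat_lit 73) (nat_lit 7) (nat_lit 5) (nat_lit 5) (nat_lit 7) (nat_lit 5) (nat_lit 4) (by decide +kernel)
theorem L125293 : W_45 (nat_lit 3) (nat_lit 0x12000f0002800000000000000000000000000) (nat_lit 0x0) (nat_lit 0x8000400100000000040002000000000000000000) := T_45 (nat_lit 142) (nat_lit 128) (nat_lit 1) (nat_lit 9) (nat_lit 7) L125292 (by decide +kernel)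
theorem L125294 : W_45 (nat_lit 4) (nat_lit 0x10000f0002800000000000000000000000000) (nat_lit 0x0) (nat_lit 0x8000700100000000040002000000000000000000) := T_45 (nat_lit 141) (nat_lit 140) (nat_lit 1) (nat_lit 8) (nat_lit 7) L125293 (by decide +kernel)
theorem L125295 : W_45 (nat_lit 5) (nat_lit 0x10000d0002800000000000000000000000000) (nat_lit 0x0) (nat_lit 0x8000700120000400040002000000000000000000) := T_45 (nat_lit 125) (nat_lit 106) (nat_lit 0) (nat_lit 8) (nat_lit 7) L125294 (by decide +kernel)
theorem L125296 : W_45 (nat_lit 5) (nat_lit 0x10000d0002800000000000000000000000000) (nat_lit 0x0) (nat_lit 0x8000f00128004000040002000000000000000000) := Q_45 (nat_lit 125) (C_45 L125294 (C_45 L125284 N_45)) (by decide +kernel)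
theorem L125297 : W_45 (nat_lit 15) (nat_lit 0x10000c0002800000000000000000000000000) (nat_lit 0x0) (nat_lit 0x10007e007c001f800f001380044002e000700038001c000000000) := Q_45 (nat_lit 124) (C_45 L125283 (C_45 L125285 (C_45 L125288 (C_45 L125291 (C_45 L125295 (C_45 L125296 N_45)))))) (by decide +kernel)
theorem L125298 : W_45 (nat_lit 3) (nat_lit 0x10000c0002800000000000000000000000000) (nat_lit 0x0) (nat_lit 0x300005400000000000000000000000000) := T_45 (nat_lit 108) (nat_lit 106) (nat_lit 3) (nat_lit 4) (nat_lit 6) L123226 (by decide +kernel)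
theorem L125299 : W_45 (nat_lit 2) (nat_lit 0x10000d0007800240000000000000000000000) (nat_lit 0x0) (nat_lit 0x800000000000000010000800000000000000) := D_45 (nat_lit 76) (nat_lit 59) (nat_lit 143) (nat_lit 5) (nat_lit 8) (nat_lit 3) (nat_lit 5) (nat_lit 8) (nat_lit 4) (by decide +kernel)
theorem L125300 : W_45 (nat_lit 3) (nat_lit 0x10000d0007800040000000000000000000000) (nat_lit 0x0) (nat_lit 0x800000000000600010000800000000000000) := T_45 (nat_lit 93) (nat_lit 94) (nat_lit 2) (nat_lit 5) (nat_lit 6) L125299 (by decide +kernel)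
theorem L125301 : W_45 (nat_lit 4) (nat_lit 0x10000d0007800000000000000000000000000) (nat_lit 0x0) (nat_lit 0x800000000000660010000800000000000000) := T_45 (nat_lit 90) (nat_lit 89) (nat_lit 0) (nat_lit 8) (nat_lit 6) L125300 (by decide +kernel)
theorem L125302 : W_45 (nat_lit 5) (nat_lit 0x10000d0003800000000000000000000000000) (nat_lit 0x0) (nat_lit 0x800008004000660010000800000000000000) := T_45 (nat_lit 110) (nat_lit 123) (nat_lit 1) (nat_lit 8) (nat_lit 6) L125301 (by decide +kernel)
theorem L125303 : W_45 (nat_lit 6) (nat_lit 0x10000d0002800000000000000000000000000) (nat_lit 0x0) (nat_lit 0x800008005400660010000800000000000000) := T_45 (nat_lit 108) (nat_lit 106) (nat_lit 3) (nat_lit 4) (nat_lit 6) L125302 (by decide +kernel)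
theorem L125304 : W_45 (nat_lit 2) (nat_lit 0x10000d0002800000000000000000000000000) (nat_lit 0x0) (nat_lit 0x20001400000000000000000000000000) := D_45 (nat_lit 106) (nat_lit 108) (nat_lit 125) (nat_lit 3) (nat_lit 4) (nat_lit 6) (nat_lit 0) (nat_lit 8) (nat_lit 7) (by decide +kernel)
theorem L125305 : W_45 (nat_lit 2) (nat_lit 0x10000d8002800000000000000000000000000) (nat_lit 0x0) (nat_lit 0x20005000000000000000000000000000) := D_45 (nat_lit 110) (nat_lit 108) (nat_lit 125) (nat_lit 1) (nat_lit 8) (nat_lit 6) (nat_lit 2) (nat_lit 4) (nat_lit 7) (by decide +kernel)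
theorem L125306 : W_45 (nat_lit 2) (nat_lit 0x16000d8006800040000000000000000000000) (nat_lit 0x0) (nat_lit 0x2000100000000000000002000000000000000000) := D_45 (nat_lit 140) (nat_lit 73) (nat_lit 157) (nat_lit 5) (nat_lit 5) (nat_lit 4) (nat_lit 5) (nat_lit 5) (nat_lit 5) (by decide +kernel)
theorem L125307 : W_45 (nat_lit 3) (nat_lit 0x16000d8006800000000000000000000000000) (nat_lit 0x0) (nat_lit 0xa000100000000000040002000000000000000000) := T_45 (nat_lit 90) (nat_lit 159) (nat_lit 7) (nat_lit 5) (nat_lit 5) L125306 (by decide +kernel)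
theorem L125308 : W_45 (nat_lit 4) (nat_lit 0x12000d8006800000000000000000000000000) (nat_lit 0x0) (nat_lit 0xa000d00000000000040002000000000000000000) := T_45 (nat_lit 142) (nat_lit 143) (nat_lit 0) (nat_lit 8) (nat_lit 8) L125307 (by decide +kernel)
theorem L125309 : W_45 (nat_lit 5) (nat_lit 0x12000d8002800000000000000000000000000) (nat_lit 0x0) (nat_lit 0xa000d00000005000040002000000000000000000) := T_45 (nat_lit 110) (nat_lit 108) (nat_lit 1) (nat_lit 8) (nat_lit 6) L125308 (by decide +kernel)
theorem L125310 : W_45 (nat_lit 2) (nat_lit 0xe0013000da003800000000000000000000000000) (nat_lit 0x0) (nat_lit 0x100000c0000000000000000000000000000000000) := D_45 (nat_lit 139) (nat_lit 138) (nat_lit 160) (nat_lit 3) (nat_lit 2) (nat_lit 8) (nat_lit 0) (nat_lit 7) (nat_lit 9) (by decide +kernel)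
theorem L125311 : W_45 (nat_lit 3) (nat_lit 0x60013000da003800000000000000000000000000) (nat_lit 0x0) (nat_lit 0x1000180000c0000000000000000000000000000000000) := T_45 (nat_lit 159) (nat_lit 176) (nat_lit 7) (nat_lit 5) (nat_lit 6) L125310 (by decide +kernel)
theorem L125312 : W_45 (nat_lit 4) (nat_lit 0x60012000da003800000000000000000000000000) (nat_lit 0x0) (nat_lit 0x1000180001c0000000000040000000000000000000000) := T_45 (nat_lit 140) (nat_lit 90) (nat_lit 5) (nat_lit 5) (nat_lit 5) L125311 (by decide +kernel)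
theorem L125313 : W_45 (nat_lit 5) (nat_lit 0x40012000da003800000000000000000000000000) (nat_lit 0x0) (nat_lit 0x14001a0001c0000000000040000000000000000000000) := T_45 (nat_lit 157) (nat_lit 174) (nat_lit 5) (nat_lit 5) (nat_lit 6) L125312 (by decide +kernel)
theorem L125314 : W_45 (nat_lit 6) (nat_lit 0x12000da003800000000000000000000000000) (nat_lit 0x0) (nat_lit 0x14001e0001c00000000000c0000000000000000000000) := T_45 (nat_lit 158) (nat_lit 91) (nat_lit 6) (nat_lit 5) (nat_lit 9) L125313 (by decide +kernel)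
theorem L125315 : W_45 (nat_lit 7) (nat_lit 0x12000d8003800000000000000000000000000) (nat_lit 0x0) (nat_lit 0x14001e0001c00060000000c0000000000000000000000) := T_45 (nat_lit 121) (nat_lit 122) (nat_lit 2) (nat_lit 2) (nat_lit 7) L125314 (by decide +kernel)
theorem L125316 : W_45 (nat_lit 8) (nat_lit 0x12000d8002800000000000000000000000000) (nat_lit 0x0) (nat_lit 0x14001e0001c00060050000c0000000000000000000000) := T_45 (nat_lit 108) (nat_lit 110) (nat_lit 1) (nat_lit 8) (nat_lit 6) L125315 (by decide +kernel)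
theorem L125317 : W_45 (nat_lit 2) (nat_lit 0x1a000d8006800000000000000000000000000) (nat_lit 0x0) (nat_lit 0x200010000000000000000200000000000000000000000) := D_45 (nat_lit 160) (nat_lit 177) (nat_lit 93) (nat_lit 6) (nat_lit 7) (nat_lit 10) (nat_lit 6) (nat_lit 7) (nat_lit 9) (by decide +kernel)
theorem L125318 : W_45 (nat_lit 3) (nat_lit 0x12000d8006800000000000000000000000000) (nat_lit 0x0) (nat_lit 0x200010000c00000000000200000000000000000000000) := T_45 (nat_lit 143) (nat_lit 142) (nat_lit 0) (nat_lit 8) (nat_lit 8) L125317 (by decide +kernel)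
theorem L125319 : W_45 (nat_lit 4) (nat_lit 0x12000d8002800000000000000000000000000) (nat_lit 0x0) (nat_lit 0x200010000c00000005000200000000000000000000000) := T_45 (nat_lit 110) (nat_lit 108) (nat_lit 1) (nat_lit 8) (nat_lit 6) L125318 (by decide +kernel)
theorem L125320 : W_45 (nat_lit 2) (nat_lit 0x16000d8002800040000000000000000000000) (nat_lit 0x0) (nat_lit 0x2000100000000000000002000000000000000000) := D_45 (nat_lit 140) (nat_lit 73) (nat_lit 157) (nat_lit 5) (nat_lit 5) (nat_lit 4) (nat_lit 5) (nat_lit 5) (nat_lit 5) (by decide +kernel)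
theorem L125321 : W_45 (nat_lit 3) (nat_lit 0x16000d8002800000000000000000000000000) (nat_lit 0x0) (nat_lit 0xa000100000000000040002000000000000000000) := T_45 (nat_lit 90) (nat_lit 159) (nat_lit 7) (nat_lit 5) (nat_lit 5) L125320 (by decide +kernel)
theorem L125322 : W_45 (nat_lit 4) (nat_lit 0x12000d8002800000000000000000000000000) (nat_lit 0x0) (nat_lit 0xa000d00000000000040002000000000000000000) := T_45 (nat_lit 142) (nat_lit 143) (nat_lit 0) (nat_lit 8) (nat_lit 8) L125321 (by decide +kernel)
theorem L125323 : W_45 (nat_lit 9) (nat_lit 0x10000d8002800000000000000000000000000) (nat_lit 0x0) (nat_lit 0x34001e000fc00060050002c0002000000000000000000) := Q_45 (nat_lit 141) (C_45 L125309 (C_45 L125316 (C_45 L125319 (C_45 L125322 N_45)))) (by decide +kernel)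
theorem L125324 : W_45 (nat_lit 2) (nat_lit 0x10000d8002800000000000000000000000000) (nat_lit 0x0) (nat_lit 0x800020004000000000000000000000000000) := D_45 (nat_lit 125) (nat_lit 143) (nat_lit 110) (nat_lit 3) (nat_lit 4) (nat_lit 7) (nat_lit 2) (nat_lit 4) (nat_lit 7) (by decide +kernel)
theorem L125325 : W_45 (nat_lit 2) (nat_lit 0x10000f8002800000000000000000000000000) (nat_lit 0x0) (nat_lit 0x380000000000000000000000000000000000) := D_45 (nat_lit 140) (nat_lit 139) (nat_lit 141) (nat_lit 1) (nat_lit 7) (nat_lit 7) (nat_lit 1) (nat_lit 8) (nat_lit 7) (by decide +kernel)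
theorem L125326 : W_45 (nat_lit 3) (nat_lit 0x10000d8002800000000000000000000000000) (nat_lit 0x0) (nat_lit 0xb80020000000000000000000000000000000) := T_45 (nat_lit 125) (nat_lit 143) (nat_lit 3) (nat_lit 4) (nat_lit 7) L125325 (by decide +kernel)
theorem L125327 : W_45 (nat_lit 10) (nat_lit 0x10000d0002800000000000000000000000000) (nat_lit 0x0) (nat_lit 0x34001e000fc002e0050002c0002000000000000000000) := Q_45 (nat_lit 123) (C_45 L125305 (C_45 L125323 (C_45 L125324 (C_45 L125326 N_45)))) (by decide +kernel)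
theorem L125328 : W_45 (nat_lit 11) (nat_lit 0x10000c0002800000000000000000000000000) (nat_lit 0x0) (nat_lit 0x34001e000fc003e0054006e0012000800000000000000) := Q_45 (nat_lit 124) (C_45 L125303 (C_45 L125285 (C_45 L125304 (C_45 L125327 N_45)))) (by decide +kernel)
theorem L125329 : W_45 (nat_lit 2) (nat_lit 0x10000c0003800000000000000000000000000) (nat_lit 0x0) (nat_lit 0x320000000000000000000000000000000) := D_45 (nat_lit 128) (nat_lit 129) (nat_lit 125) (nat_lit 0) (nat_lit 10) (nat_lit 7) (nat_lit 0) (nat_lit 9) (nat_lit 7) (by decide +kernel)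
theorem L125330 : W_45 (nat_lit 3) (nat_lit 0x10000c0002800000000000000000000000000) (nat_lit 0x0) (nat_lit 0x320001400000000000000000000000000) := T_45 (nat_lit 108) (nat_lit 106) (nat_lit 3) (nat_lit 4) (nat_lit 6) L125329 (by decide +kernel)
theorem L125331 : W_45 (nat_lit 2) (nat_lit 0x10000c0003800000000000000000000000000) (nat_lit 0x0) (nat_lit 0x120004000000000000000000000000000) := D_45 (nat_lit 128) (nat_lit 110) (nat_lit 125) (nat_lit 3) (nat_lit 5) (nat_lit 6) (nat_lit 0) (nat_lit 9) (nat_lit 7) (by decide +kernel)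
theorem L125332 : W_45 (nat_lit 2) (nat_lit 0x10000c0007800240000000000000000000000) (nat_lit 0x0) (nat_lit 0x800000000000000010000800000000000000) := D_45 (nat_lit 76) (nat_lit 59) (nat_lit 143) (nat_lit 5) (nat_lit 8) (nat_lit 3) (nat_lit 5) (nat_lit 8) (nat_lit 4) (by decide +kernel)
theorem L125333 : W_45 (nat_lit 3) (nat_lit 0x10000c0007800040000000000000000000000) (nat_lit 0x0) (nat_lit 0x800000000000600010000800000000000000) := T_45 (nat_lit 93) (nat_lit 94) (nat_lit 2) (nat_lit 5) (nat_lit 6) L125332 (by decide +kernel)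
theorem L125334 : W_45 (nat_lit 4) (nat_lit 0x10000c0007800000000000000000000000000) (nat_lit 0x0) (nat_lit 0x800000000000660010000800000000000000) := T_45 (nat_lit 90) (nat_lit 89) (nat_lit 0) (nat_lit 8) (nat_lit 6) L125333 (by decide +kernel)
theorem L125335 : W_45 (nat_lit 2) (nat_lit 0x12000f0007800000000000000000000000000) (nat_lit 0x0) (nat_lit 0x4000000000000000080004000000000000000000) := D_45 (nat_lit 91) (nat_lit 74) (nat_lit 158) (nat_lit 5) (nat_lit 6) (nat_lit 4) (nat_lit 6) (nat_lit 5) (nat_lit 9) (by decide +kernel)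
theorem L125336 : W_45 (nat_lit 3) (nat_lit 0x10000f0007800000000000000000000000000) (nat_lit 0x0) (nat_lit 0x4000300000000000080004000000000000000000) := T_45 (nat_lit 141) (nat_lit 140) (nat_lit 1) (nat_lit 8) (nat_lit 7) L125335 (by decide +kernel)
theorem L125337 : W_45 (nat_lit 4) (nat_lit 0x10000e0007800000000000000000000000000) (nat_lit 0x0) (nat_lit 0x4000300018000000080004000000000000000000) := T_45 (nat_lit 124) (nat_lit 123) (nat_lit 2) (nat_lit 4) (nat_lit 7) L125336 (by decide +kernel)
theorem L125338 : W_45 (nat_lit 2) (nat_lit 0x14000e0007800040000000000000000000000) (nat_lit 0x0) (nat_lit 0x80002000100000000000000) := D_45 (nat_lit 73) (nat_lit 56) (nat_lit 91) (nat_lit 7) (nat_lit 5) (nat_lit 3) (nat_lit 4) (nat_lit 6) (nat_lit 8) (by decide +kernel)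
theorem L125339 : W_45 (nat_lit 3) (nat_lit 0x10000e0007800040000000000000000000000) (nat_lit 0x0) (nat_lit 0x8000400000000000080002000100000000000000) := T_45 (nat_lit 142) (nat_lit 159) (nat_lit 4) (nat_lit 6) (nat_lit 9) L125338 (by decide +kernel)
theorem L125340 : W_45 (nat_lit 4) (nat_lit 0x10000e0007800000000000000000000000000) (nat_lit 0x0) (nat_lit 0x80004000000000000e0002000100000000000000) := T_45 (nat_lit 90) (nat_lit 89) (nat_lit 0) (nat_lit 8) (nat_lit 6) L125339 (by decide +kernel)
theorem L125341 : W_45 (nat_lit 2) (nat_lit 0x10000f0007800040000000000000000000000) (nat_lit 0x0) (nat_lit 0x8000400000000000000002000000000000000000) := D_45 (nat_lit 142) (nat_lit 159) (nat_lit 73) (nat_lit 4) (nat_lit 6) (nat_lit 9) (nat_lit 7) (nat_lit 5) (nat_lit 4) (by decide +kernel)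
theorem L125342 : W_45 (nat_lit 3) (nat_lit 0x10000e0007800040000000000000000000000) (nat_lit 0x0) (nat_lit 0x8000400018000000000002000000000000000000) := T_45 (nat_lit 124) (nat_lit 123) (nat_lit 2) (nat_lit 4) (nat_lit 7) L125341 (by decide +kernel)
theorem L125343 : W_45 (nat_lit 4) (nat_lit 0x10000e0007800000000000000000000000000) (nat_lit 0x0) (nat_lit 0x8000400018000000060002000000000000000000) := T_45 (nat_lit 90) (nat_lit 89) (nat_lit 0) (nat_lit 8) (nat_lit 6) L125342 (by decide +kernel)
theorem L125344 : W_45 (nat_lit 5) (nat_lit 0x10000c0007800000000000000000000000000) (nat_lit 0x0) (nat_lit 0xc0007000380000000e0006000100000000000000) := Q_45 (nat_lit 125) (C_45 L125337 (C_45 L125340 (C_45 L125343 N_45))) (by decide +kernel)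
theorem L125345 : W_45 (nat_lit 2) (nat_lit 0x10000c0007800200000000000000000000000) (nat_lit 0x0) (nat_lit 0x800000000000000010000800000000000000) := D_45 (nat_lit 76) (nat_lit 59) (nat_lit 143) (nat_lit 5) (nat_lit 8) (nat_lit 3) (nat_lit 5) (nat_lit 8) (nat_lit 4) (by decide +kernel)
theorem L125346 : W_45 (nat_lit 3) (nat_lit 0x10000c0007800000000000000000000000000) (nat_lit 0x0) (nat_lit 0x800000000000600010000800000000000000) := T_45 (nat_lit 93) (nat_lit 94) (nat_lit 2) (nat_lit 5) (nat_lit 6) L125345 (by decide +kernel)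
theorem L125347 : W_45 (nat_lit 6) (nat_lit 0x10000c0003800000000000000000000000000) (nat_lit 0x0) (nat_lit 0xc000f000380040006e0016000900000000000000) := Q_45 (nat_lit 110) (C_45 L125334 (C_45 L125344 (C_45 L125346 N_45))) (by decide +kernel)
theorem L125348 : W_45 (nat_lit 7) (nat_lit 0x10000c0002800000000000000000000000000) (nat_lit 0x0) (nat_lit 0xc000f003380050006e0016000900000000000000) := Q_45 (nat_lit 108) (C_45 L123226 (C_45 L125331 (C_45 L125347 (C_45 L125329 N_45)))) (by decide +kernel)
theorem L125349 : W_45 (nat_lit 16) (nat_lit 0x10000c0002000000000000000000000000000) (nat_lit 0x0) (nat_lit 0x10007e007c001f800fc033e005c006e0017000b8001c000000000) := Q_45 (nat_lit 107) (C_45 L125297 (C_45 L125298 (C_45 L125328 (C_45 L125330 (C_45 L125348 N_45))))) (by decide +kernel)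
theorem L125350 : W_45 (nat_lit 2) (nat_lit 0x1000100018000c0002000300000000000000000000000) (nat_lit 0x0) (nat_lit 0x6000200000000000000000000000000000000000000000000) := D_45 (nat_lit 177) (nat_lit 194) (nat_lit 193) (nat_lit 6) (nat_lit 7) (nat_lit 11) (nat_lit 5) (nat_lit 7) (nat_lit 7) (by decide +kernel)
theorem L125351 : W_45 (nat_lit 3) (nat_lit 0x100018000c0002000300000000000000000000000) (nat_lit 0x0) (nat_lit 0x6000300008000000000000000000000000000000000000000) := T_45 (nat_lit 176) (nat_lit 159) (nat_lit 5) (nat_lit 7) (nat_lit 6) L125350 (by decide +kernel)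
theorem L125352 : W_45 (nat_lit 4) (nat_lit 0x18000c0002000300000000000000000000000) (nat_lit 0x0) (nat_lit 0x6000300018000000000004000000000000000000000000000) := T_45 (nat_lit 160) (nat_lit 110) (nat_lit 6) (nat_lit 7) (nat_lit 9) L125351 (by decide +kernel)
theorem L125353 : W_45 (nat_lit 5) (nat_lit 0x18000c0002000100000000000000000000000) (nat_lit 0x0) (nat_lit 0x6000300018000000000004000200010000000000000000000) := T_45 (nat_lit 93) (nat_lit 76) (nat_lit 6) (nat_lit 7) (nat_lit 8) L125352 (by decide +kernel)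
theorem L125354 : W_45 (nat_lit 6) (nat_lit 0x18000c0002000000000000000000000000000) (nat_lit 0x0) (nat_lit 0x6000300018000000000004000300018000000000000000000) := T_45 (nat_lit 92) (nat_lit 75) (nat_lit 7) (nat_lit 7) (nat_lit 4) L125353 (by decide +kernel)
theorem L125355 : W_45 (nat_lit 2) (nat_lit 0x18001d80060017c0002000000000000000000) (nat_lit 0x0) (nat_lit 0x100000000c00000000000000000000000000) := D_45 (nat_lit 107) (nat_lit 106) (nat_lit 140) (nat_lit 1) (nat_lit 8) (nat_lit 5) (nat_lit 5) (nat_lit 5) (nat_lit 4) (by decide +kernel)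
theorem L125356 : W_45 (nat_lit 3) (nat_lit 0x18001d80060017c0000000000000000000000) (nat_lit 0x0) (nat_lit 0x100000000c00000003000000000000000000) := T_45 (nat_lit 73) (nat_lit 72) (nat_lit 0) (nat_lit 8) (nat_lit 5) L125355 (by decide +kernel)
theorem L125357 : W_45 (nat_lit 4) (nat_lit 0x18001d80060007c0000000000000000000000) (nat_lit 0x0) (nat_lit 0x100000000c01800003000000000000000000) := T_45 (nat_lit 96) (nat_lit 95) (nat_lit 1) (nat_lit 11) (nat_lit 5) L125356 (by decide +kernel)
theorem L125358 : W_45 (nat_lit 5) (nat_lit 0x18001d80060003c0000000000000000000000) (nat_lit 0x0) (nat_lit 0x100000000c01c00023000000000000000000) := T_45 (nat_lit 94) (nat_lit 77) (nat_lit 6) (nat_lit 8) (nat_lit 8) L125357 (by decide +kernel)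
theorem L125359 : W_45 (nat_lit 6) (nat_lit 0x18001d80060001c0000000000000000000000) (nat_lit 0x0) (nat_lit 0x100000000c01e00033000000000000000000) := T_45 (nat_lit 93) (nat_lit 76) (nat_lit 6) (nat_lit 7) (nat_lit 8) L125358 (by decide +kernel)
theorem L125360 : W_45 (nat_lit 7) (nat_lit 0x18001d8006000180000000000000000000000) (nat_lit 0x0) (nat_lit 0x100000000c01e60033000000000000000000) := T_45 (nat_lit 90) (nat_lit 89) (nat_lit 3) (nat_lit 4) (nat_lit 5) L125359 (by decide +kernel)
theorem L125361 : W_45 (nat_lit 8) (nat_lit 0x18001d8006000100000000000000000000000) (nat_lit 0x0) (nat_lit 0x100000000c01ee0037000000000000000000) := T_45 (nat_lit 91) (nat_lit 74) (nat_lit 4) (nat_lit 7) (nat_lit 8) L125360 (by decide +kernel)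
theorem L125362 : W_45 (nat_lit 9) (nat_lit 0x18001d0006000100000000000000000000000) (nat_lit 0x0) (nat_lit 0x100028000c01ee0037000000000000000000) := T_45 (nat_lit 123) (nat_lit 125) (nat_lit 3) (nat_lit 4) (nat_lit 7) L125361 (by decide +kernel)
theorem L125363 : W_45 (nat_lit 10) (nat_lit 0x18001d0006000000000000000000000000000) (nat_lit 0x0) (nat_lit 0x100028000c01fe003f000000000000000000) := T_45 (nat_lit 92) (nat_lit 75) (nat_lit 7) (nat_lit 7) (nat_lit 4) L125362 (by decide +kernel)
theorem L125364 : W_45 (nat_lit 2) (nat_lit 0x1a001d00068003c0002000000000000000000) (nat_lit 0x0) (nat_lit 0x2000100008000000000000000000000000000000) := D_45 (nat_lit 140) (nat_lit 157) (nat_lit 123) (nat_lit 5) (nat_lit 5) (nat_lit 5) (nat_lit 5) (nat_lit 5) (nat_lit 4) (by decide +kernel)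
theorem L125365 : W_45 (nat_lit 3) (nat_lit 0x1a001d00068003c0000000000000000000000) (nat_lit 0x0) (nat_lit 0x2000100008000000000003000000000000000000) := T_45 (nat_lit 73) (nat_lit 72) (nat_lit 0) (nat_lit 8) (nat_lit 5) L125364 (by decide +kernel)
theorem L125366 : W_45 (nat_lit 4) (nat_lit 0x1a001d00060003c0000000000000000000000) (nat_lit 0x0) (nat_lit 0x2000100008000c00000003000000000000000000) := T_45 (nat_lit 107) (nat_lit 106) (nat_lit 1) (nat_lit 8) (nat_lit 5) L125365 (by decide +kernel)
theorem L125367 : W_45 (nat_lit 5) (nat_lit 0x1a001d00060001c0000000000000000000000) (nat_lit 0x0) (nat_lit 0x2000100008000c00200013000000000000000000) := T_45 (nat_lit 93) (nat_lit 76) (nat_lit 6) (nat_lit 7) (nat_lit 8) L125366 (by decide +kernel)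
theorem L125368 : W_45 (nat_lit 6) (nat_lit 0x1a001d0006000180000000000000000000000) (nat_lit 0x0) (nat_lit 0x2000100008000c00260013000000000000000000) := T_45 (nat_lit 90) (nat_lit 89) (nat_lit 3) (nat_lit 4) (nat_lit 5) L125367 (by decide +kernel)
theorem L125369 : W_45 (nat_lit 7) (nat_lit 0x1a001d0006000100000000000000000000000) (nat_lit 0x0) (nat_lit 0x2000100008000c002e0017000000000000000000) := T_45 (nat_lit 91) (nat_lit 74) (nat_lit 4) (nat_lit 7) (nat_lit 8) L125368 (by decide +kernel)
theorem L125370 : W_45 (nat_lit 8) (nat_lit 0x18001d0006000100000000000000000000000) (nat_lit 0x0) (nat_lit 0x2000700008000c002e0017000000000000000000) := T_45 (nat_lit 141) (nat_lit 142) (nat_lit 2) (nat_lit 5) (nat_lit 8) L125369 (by decide +kernel)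
theorem L125371 : W_45 (nat_lit 9) (nat_lit 0x18001d0006000000000000000000000000000) (nat_lit 0x0) (nat_lit 0x2000700008000c003e001f000000000000000000) := T_45 (nat_lit 92) (nat_lit 75) (nat_lit 7) (nat_lit 7) (nat_lit 4) L125370 (by decide +kernel)
theorem L125372 : W_45 (nat_lit 2) (nat_lit 0x1a001d0006000000000000000000000000000) (nat_lit 0x0) (nat_lit 0x100028000000000000000000000000000000) := D_45 (nat_lit 125) (nat_lit 140) (nat_lit 123) (nat_lit 1) (nat_lit 8) (nat_lit 7) (nat_lit 3) (nat_lit 4) (nat_lit 7) (by decide +kernel)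
theorem L125373 : W_45 (nat_lit 3) (nat_lit 0x18001d0006000000000000000000000000000) (nat_lit 0x0) (nat_lit 0x700028000000000000000000000000000000) := T_45 (nat_lit 141) (nat_lit 142) (nat_lit 2) (nat_lit 5) (nat_lit 8) L125372 (by decide +kernel)
theorem L125374 : W_45 (nat_lit 2) (nat_lit 0x1a001d80064001a0010000000000000000000) (nat_lit 0x0) (nat_lit 0x80004000000000000800000000000000000000000000) := D_45 (nat_lit 158) (nat_lit 175) (nat_lit 107) (nat_lit 4) (nat_lit 5) (nat_lit 10) (nat_lit 4) (nat_lit 5) (nat_lit 9) (by decide +kernel)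
theorem L125375 : W_45 (nat_lit 3) (nat_lit 0x1a001d80060001a0010000000000000000000) (nat_lit 0x0) (nat_lit 0x80004000000000000c00000001000000000000000000) := T_45 (nat_lit 106) (nat_lit 72) (nat_lit 7) (nat_lit 4) (nat_lit 4) L125374 (by decide +kernel)
theorem L125376 : W_45 (nat_lit 4) (nat_lit 0x1a001d8006000180010000000000000000000) (nat_lit 0x0) (nat_lit 0x80004000000000000c00060001000000000000000000) := T_45 (nat_lit 89) (nat_lit 90) (nat_lit 3) (nat_lit 4) (nat_lit 5) L125375 (by decide +kernel)
theorem L125377 : W_45 (nat_lit 5) (nat_lit 0x1a001d8006000100010000000000000000000) (nat_lit 0x0) (nat_lit 0x80004000000000000c000e0005000000000000000000) := T_45 (nat_lit 91) (nat_lit 74) (nat_lit 4) (nat_lit 7) (nat_lit 8) L125376 (by decide +kernel)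
theorem L125378 : W_45 (nat_lit 6) (nat_lit 0x1a001d8006000000010000000000000000000) (nat_lit 0x0) (nat_lit 0x80004000000000000c001e000d000000000000000000) := T_45 (nat_lit 92) (nat_lit 75) (nat_lit 7) (nat_lit 7) (nat_lit 4) L125377 (by decide +kernel)
theorem L125379 : W_45 (nat_lit 7) (nat_lit 0x1a001d8006000000000000000000000000000) (nat_lit 0x0) (nat_lit 0x80004000000000000c003e001d000000000000000000) := T_45 (nat_lit 76) (nat_lit 93) (nat_lit 5) (nat_lit 8) (nat_lit 4) L125378 (by decide +kernel)
theorem L125380 : W_45 (nat_lit 8) (nat_lit 0x18001d8006000000000000000000000000000) (nat_lit 0x0) (nat_lit 0x80004000600000000c003e001d000000000000000000) := T_45 (nat_lit 141) (nat_lit 142) (nat_lit 2) (nat_lit 5) (nat_lit 8) L125379 (by decide +kernel)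
theorem L125381 : W_45 (nat_lit 9) (nat_lit 0x18001d0006000000000000000000000000000) (nat_lit 0x0) (nat_lit 0x80004000600028000c003e001d000000000000000000) := T_45 (nat_lit 123) (nat_lit 125) (nat_lit 3) (nat_lit 4) (nat_lit 7) L125380 (by decide +kernel)
theorem L125382 : W_45 (nat_lit 2) (nat_lit 0x1b001d00060003c0000000000000000000000) (nat_lit 0x0) (nat_lit 0x2000000000000c00000000000000000000000000) := D_45 (nat_lit 107) (nat_lit 157) (nat_lit 106) (nat_lit 5) (nat_lit 5) (nat_lit 5) (nat_lit 1) (nat_lit 8) (nat_lit 5) (by decide +kernel)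
theorem L125383 : W_45 (nat_lit 3) (nat_lit 0x1b001d00060001c0000000000000000000000) (nat_lit 0x0) (nat_lit 0x2000000000000c00200010000000000000000000) := T_45 (nat_lit 93) (nat_lit 76) (nat_lit 6) (nat_lit 7) (nat_lit 8) L125382 (by decide +kernel)
theorem L125384 : W_45 (nat_lit 4) (nat_lit 0x1b001d0006000180000000000000000000000) (nat_lit 0x0) (nat_lit 0x2000000000000c00260010000000000000000000) := T_45 (nat_lit 90) (nat_lit 89) (nat_lit 3) (nat_lit 4) (nat_lit 5) L125383 (by decide +kernel)
theorem L125385 : W_45 (nat_lit 5) (nat_lit 0x1b001d0006000100000000000000000000000) (nat_lit 0x0) (nat_lit 0x2000000000000c002e0014000000000000000000) := T_45 (nat_lit 91) (nat_lit 74) (nat_lit 4) (nat_lit 7) (nat_lit 8) L125384 (by decide +kernel)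
theorem L125386 : W_45 (nat_lit 6) (nat_lit 0x1a001d0006000100000000000000000000000) (nat_lit 0x0) (nat_lit 0x2000100020000c002e0014000000000000000000) := T_45 (nat_lit 140) (nat_lit 125) (nat_lit 1) (nat_lit 8) (nat_lit 7) L125385 (by decide +kernel)
theorem L125387 : W_45 (nat_lit 7) (nat_lit 0x18001d0006000100000000000000000000000) (nat_lit 0x0) (nat_lit 0x2000700020000c002e0014000000000000000000) := T_45 (nat_lit 141) (nat_lit 142) (nat_lit 2) (nat_lit 5) (nat_lit 8) L125386 (by decide +kernel)
theorem L125388 : W_45 (nat_lit 8) (nat_lit 0x18001d0006000000000000000000000000000) (nat_lit 0x0) (nat_lit 0x2000700020000c003e001c000000000000000000) := T_45 (nat_lit 92) (nat_lit 75) (nat_lit 7) (nat_lit 7) (nat_lit 4) L125387 (by decide +kernel)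
theorem L125389 : W_45 (nat_lit 11) (nat_lit 0x18001c0006000000000000000000000000000) (nat_lit 0x0) (nat_lit 0x80006000700038000c01fe003f000000000000000000) := Q_45 (nat_lit 124) (C_45 L125363 (C_45 L125371 (C_45 L125373 (C_45 L125381 (C_45 L125388 N_45))))) (by decide +kernel)
theorem L125390 : W_45 (nat_lit 2) (nat_lit 0x1d000c00068003c0002000000000000000000) (nat_lit 0x0) (nat_lit 0x38000000000000000000000000000000) := D_45 (nat_lit 124) (nat_lit 123) (nat_lit 125) (nat_lit 5) (nat_lit 5) (nat_lit 4) (nat_lit 7) (nat_lit 5) (nat_lit 4) (by decide +kernel)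
theorem L125391 : W_45 (nat_lit 3) (nat_lit 0x1d000c00068003c0000000000000000000000) (nat_lit 0x0) (nat_lit 0x38000000000003000000000000000000) := T_45 (nat_lit 73) (nat_lit 72) (nat_lit 0) (nat_lit 8) (nat_lit 5) L125390 (by decide +kernel)
theorem L125392 : W_45 (nat_lit 4) (nat_lit 0x1d000c00060003c0000000000000000000000) (nat_lit 0x0) (nat_lit 0x38000c00000003000000000000000000) := T_45 (nat_lit 107) (nat_lit 106) (nat_lit 1) (nat_lit 8) (nat_lit 5) L125391 (by decide +kernel)
theorem L125393 : W_45 (nat_lit 5) (nat_lit 0x1d000c00060001c0000000000000000000000) (nat_lit 0x0) (nat_lit 0x38000c00200013000000000000000000) := T_45 (nat_lit 93) (nat_lit 76) (nat_lit 6) (nat_lit 7) (nat_lit 8) L125392 (by decide +kernel)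
theorem L125394 : W_45 (nat_lit 6) (nat_lit 0x1d000c0006000180000000000000000000000) (nat_lit 0x0) (nat_lit 0x38000c00260013000000000000000000) := T_45 (nat_lit 90) (nat_lit 89) (nat_lit 3) (nat_lit 4) (nat_lit 5) L125393 (by decide +kernel)
theorem L125395 : W_45 (nat_lit 2) (nat_lit 0x1b000d00060003c0000000000000000000000) (nat_lit 0x0) (nat_lit 0x2000000000000c00000000000000000000000000) := D_45 (nat_lit 107) (nat_lit 106) (nat_lit 157) (nat_lit 1) (nat_lit 8) (nat_lit 5) (nat_lit 5) (nat_lit 5) (nat_lit 5) (by decide +kernel)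
theorem L125396 : W_45 (nat_lit 2) (nat_lit 0x1a000d00068017c0002000000000000000000) (nat_lit 0x0) (nat_lit 0x2000100008000000000000000000000000000000) := D_45 (nat_lit 140) (nat_lit 157) (nat_lit 123) (nat_lit 5) (nat_lit 5) (nat_lit 5) (nat_lit 5) (nat_lit 5) (nat_lit 4) (by decide +kernel)
theorem L125397 : W_45 (nat_lit 3) (nat_lit 0x1a000d00068017c0000000000000000000000) (nat_lit 0x0) (nat_lit 0x2000100008000000000003000000000000000000) := T_45 (nat_lit 73) (nat_lit 72) (nat_lit 0) (nat_lit 8) (nat_lit 5) L125396 (by decide +kernel)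
theorem L125398 : W_45 (nat_lit 4) (nat_lit 0x1a000d00060017c0000000000000000000000) (nat_lit 0x0) (nat_lit 0x2000100008000c00000003000000000000000000) := T_45 (nat_lit 107) (nat_lit 106) (nat_lit 1) (nat_lit 8) (nat_lit 5) L125397 (by decide +kernel)
theorem L125399 : W_45 (nat_lit 5) (nat_lit 0x1a000d0006001780000000000000000000000) (nat_lit 0x0) (nat_lit 0x2000100008000c00060003000000000000000000) := T_45 (nat_lit 90) (nat_lit 89) (nat_lit 3) (nat_lit 4) (nat_lit 5) L125398 (by decide +kernel)
theorem L125400 : W_45 (nat_lit 6) (nat_lit 0x1a000d0006001700000000000000000000000) (nat_lit 0x0) (nat_lit 0x2000100008000c000e0007000000000000000000) := T_45 (nat_lit 91) (nat_lit 74) (nat_lit 4) (nat_lit 7) (nat_lit 8) L125399 (by decide +kernel)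
theorem L125401 : W_45 (nat_lit 7) (nat_lit 0x1a000d0006000700000000000000000000000) (nat_lit 0x0) (nat_lit 0x2000100008000c018e0007000000000000000000) := T_45 (nat_lit 96) (nat_lit 95) (nat_lit 1) (nat_lit 11) (nat_lit 5) L125400 (by decide +kernel)
theorem L125402 : W_45 (nat_lit 8) (nat_lit 0x1a000d0006000300000000000000000000000) (nat_lit 0x0) (nat_lit 0x2000100008000c01ce0027000000000000000000) := T_45 (nat_lit 94) (nat_lit 77) (nat_lit 6) (nat_lit 8) (nat_lit 8) L125401 (by decide +kernel)
theorem L125403 : W_45 (nat_lit 9) (nat_lit 0x1a000d0006000200000000000000000000000) (nat_lit 0x0) (nat_lit 0x2000100008000c01de002f000000000000000000) := T_45 (nat_lit 92) (nat_lit 75) (nat_lit 7) (nat_lit 7) (nat_lit 4) L125402 (by decide +kernel)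
theorem L125404 : W_45 (nat_lit 2) (nat_lit 0x4001e000d00060017c0002000000000000000000) (nat_lit 0x0) (nat_lit 0x20000c00000000000000000000000000) := D_45 (nat_lit 107) (nat_lit 106) (nat_lit 125) (nat_lit 1) (nat_lit 8) (nat_lit 5) (nat_lit 7) (nat_lit 5) (nat_lit 4) (by decide +kernel)
theorem L125405 : W_45 (nat_lit 3) (nat_lit 0x4001e000d00060017c0000000000000000000000) (nat_lit 0x0) (nat_lit 0x20000c00000003000000000000000000) := T_45 (nat_lit 73) (nat_lit 72) (nat_lit 0) (nat_lit 8) (nat_lit 5) L125404 (by decide +kernel)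
theorem L125406 : W_45 (nat_lit 4) (nat_lit 0x4001e000d00060007c0000000000000000000000) (nat_lit 0x0) (nat_lit 0x20000c01800003000000000000000000) := T_45 (nat_lit 96) (nat_lit 95) (nat_lit 1) (nat_lit 11) (nat_lit 5) L125405 (by decide +kernel)
theorem L125407 : W_45 (nat_lit 5) (nat_lit 0x4001e000d00060003c0000000000000000000000) (nat_lit 0x0) (nat_lit 0x20000c01c00023000000000000000000) := T_45 (nat_lit 94) (nat_lit 77) (nat_lit 6) (nat_lit 8) (nat_lit 8) L125406 (by decide +kernel)
theorem L125408 : W_45 (nat_lit 6) (nat_lit 0x4001e000d0006000380000000000000000000000) (nat_lit 0x0) (nat_lit 0x20000c01c60023000000000000000000) := T_45 (nat_lit 90) (nat_lit 89) (nat_lit 3) (nat_lit 4) (nat_lit 5) L125407 (by decide +kernel)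
theorem L125409 : W_45 (nat_lit 7) (nat_lit 0x4001e000d0006000300000000000000000000000) (nat_lit 0x0) (nat_lit 0x20000c01ce0027000000000000000000) := T_45 (nat_lit 91) (nat_lit 74) (nat_lit 4) (nat_lit 7) (nat_lit 8) L125408 (by decide +kernel)
theorem L125410 : W_45 (nat_lit 8) (nat_lit 0x4001e000d0006000200000000000000000000000) (nat_lit 0x0) (nat_lit 0x20000c01de002f000000000000000000) := T_45 (nat_lit 92) (nat_lit 75) (nat_lit 7) (nat_lit 7) (nat_lit 4) L125409 (by decide +kernel)
theorem L125411 : W_45 (nat_lit 2) (nat_lit 0x18000c0002000200000000000000000000000) (nat_lit 0x0) (nat_lit 0x100018000000000000000000) := D_45 (nat_lit 92) (nat_lit 75) (nat_lit 76) (nat_lit 7) (nat_lit 7) (nat_lit 4) (nat_lit 6) (nat_lit 7) (nat_lit 8) (by decide +kernel)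
theorem L125412 : W_45 (nat_lit 2) (nat_lit 0x18000c0002000200000000000000000000000) (nat_lit 0x0) (nat_lit 0x10000000000004000000010000000000000000000) := D_45 (nat_lit 110) (nat_lit 160) (nat_lit 76) (nat_lit 6) (nat_lit 7) (nat_lit 9) (nat_lit 5) (nat_lit 8) (nat_lit 4) (by decide +kernel)
theorem L125413 : W_45 (nat_lit 2) (nat_lit 0x1a000d0002000200000000000000000000000) (nat_lit 0x0) (nat_lit 0x100028000000000000000000000000000000) := D_45 (nat_lit 125) (nat_lit 123) (nat_lit 140) (nat_lit 3) (nat_lit 4) (nat_lit 7) (nat_lit 1) (nat_lit 8) (nat_lit 7) (by decide +kernel)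
theorem L125414 : W_45 (nat_lit 10) (nat_lit 0x1a000d0002000200000000000000000000000) (nat_lit 0x0) (nat_lit 0x12000100008004c01de002f000000000000000000) := T_45 (nat_lit 110) (nat_lit 160) (nat_lit 6) (nat_lit 7) (nat_lit 9) L125403 (by decide +kernel)
theorem L125415 : W_45 (nat_lit 2) (nat_lit 0x1a000d80064017a0000000000000000000000) (nat_lit 0x0) (nat_lit 0x80004000000000000800000000000000000000000000) := D_45 (nat_lit 158) (nat_lit 175) (nat_lit 107) (nat_lit 4) (nat_lit 5) (nat_lit 10) (nat_lit 4) (nat_lit 5) (nat_lit 9) (by decide +kernel)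
theorem L125416 : W_45 (nat_lit 3) (nat_lit 0x1a000d80060017a0000000000000000000000) (nat_lit 0x0) (nat_lit 0x80004000000000000c00000001000000000000000000) := T_45 (nat_lit 106) (nat_lit 72) (nat_lit 7) (nat_lit 4) (nat_lit 4) L125415 (by decide +kernel)
theorem L125417 : W_45 (nat_lit 4) (nat_lit 0x1a000d00060017a0000000000000000000000) (nat_lit 0x0) (nat_lit 0x80004000000028000c00000001000000000000000000) := T_45 (nat_lit 123) (nat_lit 125) (nat_lit 3) (nat_lit 4) (nat_lit 7) L125416 (by decide +kernel)
theorem L125418 : W_45 (nat_lit 5) (nat_lit 0x1a000d00060007a0000000000000000000000) (nat_lit 0x0) (nat_lit 0x80004000000028000c01800001000000000000000000) := T_45 (nat_lit 96) (nat_lit 95) (nat_lit 1) (nat_lit 11) (nat_lit 5) L125417 (by decide +kernel)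
theorem L125419 : W_45 (nat_lit 6) (nat_lit 0x1a000d00060003a0000000000000000000000) (nat_lit 0x0) (nat_lit 0x80004000000028000c01c00021000000000000000000) := T_45 (nat_lit 94) (nat_lit 77) (nat_lit 6) (nat_lit 8) (nat_lit 8) L125418 (by decide +kernel)
theorem L125420 : W_45 (nat_lit 7) (nat_lit 0x1a000d0006000380000000000000000000000) (nat_lit 0x0) (nat_lit 0x80004000000028000c01c60021000000000000000000) := T_45 (nat_lit 89) (nat_lit 90) (nat_lit 3) (nat_lit 4) (nat_lit 5) L125419 (by decide +kernel)
theorem L125421 : W_45 (nat_lit 8) (nat_lit 0x1a000d0006000300000000000000000000000) (nat_lit 0x0) (nat_lit 0x80004000000028000c01ce0025000000000000000000) := T_45 (nat_lit 91) (nat_lit 74) (nat_lit 4) (nat_lit 7) (nat_lit 8) L125420 (by decide +kernel)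
theorem L125422 : W_45 (nat_lit 9) (nat_lit 0x1a000d0006000200000000000000000000000) (nat_lit 0x0) (nat_lit 0x80004000000028000c01de002d000000000000000000) := T_45 (nat_lit 92) (nat_lit 75) (nat_lit 7) (nat_lit 7) (nat_lit 4) L125421 (by decide +kernel)
theorem L125423 : W_45 (nat_lit 10) (nat_lit 0x1a000d0002000200000000000000000000000) (nat_lit 0x0) (nat_lit 0x80014000000028004c01de002d000000000000000000) := T_45 (nat_lit 110) (nat_lit 160) (nat_lit 6) (nat_lit 7) (nat_lit 9) L125422 (by decide +kernel)
theorem L125424 : W_45 (nat_lit 3) (nat_lit 0x1b000d0006000380000000000000000000000) (nat_lit 0x0) (nat_lit 0x2000000000000c00060000000000000000000000) := T_45 (nat_lit 90) (nat_lit 89) (nat_lit 3) (nat_lit 4) (nat_lit 5) L125395 (by decide +kernel)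
theorem L125425 : W_45 (nat_lit 4) (nat_lit 0x1b000d0006000300000000000000000000000) (nat_lit 0x0) (nat_lit 0x2000000000000c000e0004000000000000000000) := T_45 (nat_lit 91) (nat_lit 74) (nat_lit 4) (nat_lit 7) (nat_lit 8) L125424 (by decide +kernel)
theorem L125426 : W_45 (nat_lit 5) (nat_lit 0x1b000d0006000200000000000000000000000) (nat_lit 0x0) (nat_lit 0x2000000000000c001e000c000000000000000000) := T_45 (nat_lit 92) (nat_lit 75) (nat_lit 7) (nat_lit 7) (nat_lit 4) L125425 (by decide +kernel)
theorem L125427 : W_45 (nat_lit 6) (nat_lit 0x1b000d0002000200000000000000000000000) (nat_lit 0x0) (nat_lit 0x12000000000004c001e000c000000000000000000) := T_45 (nat_lit 110) (nat_lit 160) (nat_lit 6) (nat_lit 7) (nat_lit 9) L125426 (by decide +kernel)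
theorem L125428 : W_45 (nat_lit 7) (nat_lit 0x1a000d0002000200000000000000000000000) (nat_lit 0x0) (nat_lit 0x12000100020004c001e000c000000000000000000) := T_45 (nat_lit 140) (nat_lit 125) (nat_lit 1) (nat_lit 8) (nat_lit 7) L125427 (by decide +kernel)
theorem L125429 : W_45 (nat_lit 11) (nat_lit 0x1a000c0002000200000000000000000000000) (nat_lit 0x0) (nat_lit 0x80016000100038004c01de002f000000000000000000) := Q_45 (nat_lit 124) (C_45 L125413 (C_45 L125414 (C_45 L125423 (C_45 L125428 N_45)))) (by decide +kernel)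
theorem L125430 : W_45 (nat_lit 2) (nat_lit 0x1a000c0002000200000000000000000000000) (nat_lit 0x0) (nat_lit 0x500100000000000000000000000000000000) := D_45 (nat_lit 142) (nat_lit 128) (nat_lit 140) (nat_lit 2) (nat_lit 5) (nat_lit 8) (nat_lit 2) (nat_lit 4) (nat_lit 8) (by decide +kernel)
theorem L125431 : W_45 (nat_lit 9) (nat_lit 0x4001e000d0002000200000000000000000000000) (nat_lit 0x0) (nat_lit 0x10000000020004c01de002f000000000000000000) := T_45 (nat_lit 110) (nat_lit 160) (nat_lit 6) (nat_lit 7) (nat_lit 9) L125410 (by decide +kernel)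
theorem L125432 : W_45 (nat_lit 10) (nat_lit 0x4001e000c0002000200000000000000000000000) (nat_lit 0x0) (nat_lit 0x10000000038004c01de002f000000000000000000) := T_45 (nat_lit 124) (nat_lit 123) (nat_lit 0) (nat_lit 8) (nat_lit 8) L125431 (by decide +kernel)
theorem L125433 : W_45 (nat_lit 11) (nat_lit 0x1e000c0002000200000000000000000000000) (nat_lit 0x0) (nat_lit 0x16000000038004c01de002f000000000000000000) := T_45 (nat_lit 158) (nat_lit 157) (nat_lit 1) (nat_lit 8) (nat_lit 8) L125432 (by decide +kernel)
theorem L125434 : W_45 (nat_lit 12) (nat_lit 0x1a000c0002000200000000000000000000000) (nat_lit 0x0) (nat_lit 0x16000400138004c01de002f000000000000000000) := T_45 (nat_lit 142) (nat_lit 128) (nat_lit 2) (nat_lit 5) (nat_lit 8) L125433 (by decide +kernel)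
theorem L125435 : W_45 (nat_lit 13) (nat_lit 0x18000c0002000200000000000000000000000) (nat_lit 0x0) (nat_lit 0x80016000700138004c01de002f000000000000000000) := Q_45 (nat_lit 141) (C_45 L125429 (C_45 L125430 (C_45 L125434 N_45))) (by decide +kernel)
theorem L125436 : W_45 (nat_lit 14) (nat_lit 0x18000c0002000000000000000000000000000) (nat_lit 0x0) (nat_lit 0x80016000700138004c01fe003f000000000000000000) := Q_45 (nat_lit 93) (C_45 L125411 (C_45 L125412 (C_45 L125435 N_45))) (by decide +kernel)
theorem L125437 : W_45 (nat_lit 2) (nat_lit 0x1c001e000d0006800000000000000000000000000) (nat_lit 0x0) (nat_lit 0x20000400020000000000000000000000) := D_45 (nat_lit 106) (nat_lit 89) (nat_lit 125) (nat_lit 4) (nat_lit 5) (nat_lit 9) (nat_lit 0) (nat_lit 8) (nat_lit 7) (by decide +kernel)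
theorem L125438 : W_45 (nat_lit 3) (nat_lit 0x1c001e000d0006000000000000000000000000000) (nat_lit 0x0) (nat_lit 0x20000c00060000000000000000000000) := T_45 (nat_lit 107) (nat_lit 90) (nat_lit 7) (nat_lit 5) (nat_lit 5) L125437 (by decide +kernel)
theorem L125439 : W_45 (nat_lit 2) (nat_lit 0x100010001c002c0002000000000000000000000000000) (nat_lit 0x0) (nat_lit 0x6000200000000000000000000000000000000000000000000) := D_45 (nat_lit 177) (nat_lit 194) (nat_lit 193) (nat_lit 6) (nat_lit 7) (nat_lit 11) (nat_lit 5) (nat_lit 7) (nat_lit 7) (by decide +kernel)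
theorem L125440 : W_45 (nat_lit 3) (nat_lit 0x10001c002c0002000000000000000000000000000) (nat_lit 0x0) (nat_lit 0x6000300008000000000000000000000000000000000000000) := T_45 (nat_lit 176) (nat_lit 159) (nat_lit 5) (nat_lit 7) (nat_lit 6) L125439 (by decide +kernel)
theorem L125441 : W_45 (nat_lit 4) (nat_lit 0x10001c000c0002000000000000000000000000000) (nat_lit 0x0) (nat_lit 0x6000300008000000300000000000000000000000000000000) := T_45 (nat_lit 129) (nat_lit 128) (nat_lit 1) (nat_lit 10) (nat_lit 7) L125440 (by decide +kernel)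
theorem L125442 : W_45 (nat_lit 2) (nat_lit 0x8001c000c0002000000000000000000000000000) (nat_lit 0x0) (nat_lit 0x2000100000000000020000000000000000000000000000000) := D_45 (nat_lit 176) (nat_lit 193) (nat_lit 125) (nat_lit 6) (nat_lit 6) (nat_lit 11) (nat_lit 6) (nat_lit 6) (nat_lit 10) (by decide +kernel)
theorem L125443 : W_45 (nat_lit 2) (nat_lit 0x8001c000c0002000000000000000000000000000) (nat_lit 0x0) (nat_lit 0x2000100010000000000000000000000000000000000000000) := D_45 (nat_lit 176) (nat_lit 193) (nat_lit 160) (nat_lit 6) (nat_lit 6) (nat_lit 11) (nat_lit 5) (nat_lit 7) (nat_lit 6) (by decide +kernel)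
theorem L125444 : W_45 (nat_lit 2) (nat_lit 0x1a000c0002000000000000000000000000000) (nat_lit 0x0) (nat_lit 0x500100000000000000000000000000000000) := D_45 (nat_lit 142) (nat_lit 140) (nat_lit 128) (nat_lit 2) (nat_lit 4) (nat_lit 8) (nat_lit 2) (nat_lit 5) (nat_lit 8) (by decide +kernel)
theorem L125445 : W_45 (nat_lit 2) (nat_lit 0x10001a000c0002000000000000000000000000000) (nat_lit 0x0) (nat_lit 0x4000200000000000000004000000000000000000000000000) := D_45 (nat_lit 177) (nat_lit 194) (nat_lit 110) (nat_lit 6) (nat_lit 7) (nat_lit 11) (nat_lit 6) (nat_lit 7) (nat_lit 10) (by decide +kernel)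
theorem L125446 : W_45 (nat_lit 2) (nat_lit 0x200010001a000c0002000000000000000000000000000) (nat_lit 0x0) (nat_lit 0x2000100008000000000000000000000000000000000000000) := D_45 (nat_lit 176) (nat_lit 159) (nat_lit 193) (nat_lit 5) (nat_lit 7) (nat_lit 6) (nat_lit 5) (nat_lit 7) (nat_lit 7) (by decide +kernel)
theorem L125447 : W_45 (nat_lit 3) (nat_lit 0x10001a000c0002000000000000000000000000000) (nat_lit 0x0) (nat_lit 0x6000300008000000000000000000000000000000000000000) := T_45 (nat_lit 177) (nat_lit 194) (nat_lit 6) (nat_lit 7) (nat_lit 11) L125446 (by decide +kernel)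
theorem L125448 : W_45 (nat_lit 2) (nat_lit 0x1a000d0002000000000000000000000000000) (nat_lit 0x0) (nat_lit 0x100028000000000000000000000000000000) := D_45 (nat_lit 125) (nat_lit 140) (nat_lit 123) (nat_lit 1) (nat_lit 8) (nat_lit 7) (nat_lit 3) (nat_lit 4) (nat_lit 7) (by decide +kernel)
theorem L125449 : W_45 (nat_lit 2) (nat_lit 0x180004001a000d8002000000000000000000000000000) (nat_lit 0x0) (nat_lit 0x18000000000000800000000000000000000000000) := D_45 (nat_lit 159) (nat_lit 107) (nat_lit 160) (nat_lit 7) (nat_lit 5) (nat_lit 6) (nat_lit 5) (nat_lit 7) (nat_lit 6) (by decide +kernel)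
theorem L125450 : W_45 (nat_lit 3) (nat_lit 0x80004001a000d8002000000000000000000000000000) (nat_lit 0x0) (nat_lit 0x2000100018000000000000800000000000000000000000000) := T_45 (nat_lit 176) (nat_lit 193) (nat_lit 7) (nat_lit 5) (nat_lit 7) L125449 (by decide +kernel)
theorem L125451 : W_45 (nat_lit 4) (nat_lit 0x80004001a000d0002000000000000000000000000000) (nat_lit 0x0) (nat_lit 0x2000100018000000008000c00000000000000000000000000) := T_45 (nat_lit 123) (nat_lit 106) (nat_lit 4) (nat_lit 5) (nat_lit 10) L125450 (by decide +kernel)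
theorem L125452 : W_45 (nat_lit 2) (nat_lit 0x180004001a000d8002800000000000000000000000000) (nat_lit 0x0) (nat_lit 0x800040002000000000000000000000000000000000000000) := D_45 (nat_lit 174) (nat_lit 157) (nat_lit 191) (nat_lit 5) (nat_lit 5) (nat_lit 6) (nat_lit 5) (nat_lit 5) (nat_lit 7) (by decide +kernel)
theorem L125453 : W_45 (nat_lit 3) (nat_lit 0x180004001a000d8002000000000000000000000000000) (nat_lit 0x0) (nat_lit 0x80004000a000000000000800000000000000000000000000) := T_45 (nat_lit 107) (nat_lit 159) (nat_lit 7) (nat_lit 5) (nat_lit 6) L125452 (by decide +kernel)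
theorem L125454 : W_45 (nat_lit 4) (nat_lit 0x80004001a000d8002000000000000000000000000000) (nat_lit 0x0) (nat_lit 0x280014000a000000000000800000000000000000000000000) := T_45 (nat_lit 176) (nat_lit 193) (nat_lit 7) (nat_lit 5) (nat_lit 7) L125453 (by decide +kernel)
theorem L125455 : W_45 (nat_lit 5) (nat_lit 0x80004001a000d0002000000000000000000000000000) (nat_lit 0x0) (nat_lit 0x280014000a000000008000c00000000000000000000000000) := T_45 (nat_lit 123) (nat_lit 106) (nat_lit 4) (nat_lit 5) (nat_lit 10) L125454 (by decide +kernel)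
theorem L125456 : W_45 (nat_lit 2) (nat_lit 0x1000180004001a000d8002000000000000000000000000000) (nat_lit 0x0) (nat_lit 0x10000800040000000000000000000000000000000000000000000) := D_45 (nat_lit 191) (nat_lit 174) (nat_lit 208) (nat_lit 5) (nat_lit 5) (nat_lit 7) (nat_lit 5) (nat_lit 5) (nat_lit 8) (by decide +kernel)
theorem L125457 : W_45 (nat_lit 3) (nat_lit 0x180004001a000d8002000000000000000000000000000) (nat_lit 0x0) (nat_lit 0x10001800040000000100000000000000000000000000000000000) := T_45 (nat_lit 192) (nat_lit 140) (nat_lit 4) (nat_lit 5) (nat_lit 11) L125456 (by decide +kernel)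
theorem L125458 : W_45 (nat_lit 4) (nat_lit 0x80004001a000d8002000000000000000000000000000) (nat_lit 0x0) (nat_lit 0x10003800140000000100000000000000000000000000000000000) := T_45 (nat_lit 176) (nat_lit 193) (nat_lit 7) (nat_lit 5) (nat_lit 7) L125457 (by decide +kernel)
theorem L125459 : W_45 (nat_lit 5) (nat_lit 0x80004001a000d0002000000000000000000000000000) (nat_lit 0x0) (nat_lit 0x10003800140000000100008000400000000000000000000000000) := T_45 (nat_lit 123) (nat_lit 106) (nat_lit 4) (nat_lit 5) (nat_lit 10) L125458 (by decide +kernel)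
theorem L125460 : W_45 (nat_lit 2) (nat_lit 0xc0004001a000d0002800000000000000000000000000) (nat_lit 0x0) (nat_lit 0x8000400020000000000000000000000) := D_45 (nat_lit 106) (nat_lit 89) (nat_lit 123) (nat_lit 4) (nat_lit 5) (nat_lit 9) (nat_lit 4) (nat_lit 5) (nat_lit 10) (by decide +kernel)
theorem L125461 : W_45 (nat_lit 3) (nat_lit 0xc0004001a000d0002000000000000000000000000000) (nat_lit 0x0) (nat_lit 0x2000000008000c00020000000000000000000000) := T_45 (nat_lit 107) (nat_lit 157) (nat_lit 5) (nat_lit 5) (nat_lit 6) L125460 (by decide +kernel)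
theorem L125462 : W_45 (nat_lit 4) (nat_lit 0x80004001a000d0002000000000000000000000000000) (nat_lit 0x0) (nat_lit 0x800040002000000008000c00020000000000000000000000) := T_45 (nat_lit 174) (nat_lit 191) (nat_lit 5) (nat_lit 5) (nat_lit 7) L125461 (by decide +kernel)
theorem L125463 : W_45 (nat_lit 2) (nat_lit 0x180004001a000d0002000000000000000000000000000) (nat_lit 0x0) (nat_lit 0x18000000000000800000000000000000000000000) := D_45 (nat_lit 159) (nat_lit 107) (nat_lit 160) (nat_lit 7) (nat_lit 5) (nat_lit 6) (nat_lit 5) (nat_lit 7) (nat_lit 6) (by decide +kernel)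
theorem L125464 : W_45 (nat_lit 3) (nat_lit 0x80004001a000d0002000000000000000000000000000) (nat_lit 0x0) (nat_lit 0x2000100018000000000000800000000000000000000000000) := T_45 (nat_lit 176) (nat_lit 193) (nat_lit 7) (nat_lit 5) (nat_lit 7) L125463 (by decide +kernel)
theorem L125465 : W_45 (nat_lit 6) (nat_lit 0x4001a000d0002000000000000000000000000000) (nat_lit 0x0) (nat_lit 0x100038001c001a000100008000c00020000000000000000000000) := Q_45 (nat_lit 175) (C_45 L125451 (C_45 L125455 (C_45 L125459 (C_45 L125462 (C_45 L125464 N_45))))) (by decide +kernel)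
theorem L125466 : W_45 (nat_lit 2) (nat_lit 0x180004001a000d0002800000000000000000000000000) (nat_lit 0x0) (nat_lit 0x800040002000000000000000000000000000000000000000) := D_45 (nat_lit 174) (nat_lit 157) (nat_lit 191) (nat_lit 5) (nat_lit 5) (nat_lit 6) (nat_lit 5) (nat_lit 5) (nat_lit 7) (by decide +kernel)
theorem L125467 : W_45 (nat_lit 3) (nat_lit 0x180004001a000d0002000000000000000000000000000) (nat_lit 0x0) (nat_lit 0x80004000a000000000000800000000000000000000000000) := T_45 (nat_lit 107) (nat_lit 159) (nat_lit 7) (nat_lit 5) (nat_lit 6) L125466 (by decide +kernel)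
theorem L125468 : W_45 (nat_lit 4) (nat_lit 0x80004001a000d0002000000000000000000000000000) (nat_lit 0x0) (nat_lit 0x280014000a000000000000800000000000000000000000000) := T_45 (nat_lit 176) (nat_lit 193) (nat_lit 7) (nat_lit 5) (nat_lit 7) L125467 (by decide +kernel)
theorem L125469 : W_45 (nat_lit 2) (nat_lit 0x180004001b000d8002800000000000000000000000000) (nat_lit 0x0) (nat_lit 0x2000000000000000040002000000000000000000) := D_45 (nat_lit 90) (nat_lit 73) (nat_lit 157) (nat_lit 5) (nat_lit 5) (nat_lit 4) (nat_lit 5) (nat_lit 5) (nat_lit 5) (by decide +kernel)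
theorem L125470 : W_45 (nat_lit 3) (nat_lit 0x180004001a000d8002800000000000000000000000000) (nat_lit 0x0) (nat_lit 0x1000000002000100000000000040002000000000000000000) := T_45 (nat_lit 140) (nat_lit 192) (nat_lit 4) (nat_lit 5) (nat_lit 11) L125469 (by decide +kernel)
theorem L125471 : W_45 (nat_lit 4) (nat_lit 0x180004001a000d8002000000000000000000000000000) (nat_lit 0x0) (nat_lit 0x100000000a000100000000800040002000000000000000000) := T_45 (nat_lit 107) (nat_lit 159) (nat_lit 7) (nat_lit 5) (nat_lit 6) L125470 (by decide +kernel)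
theorem L125472 : W_45 (nat_lit 5) (nat_lit 0x80004001a000d8002000000000000000000000000000) (nat_lit 0x0) (nat_lit 0x300010000a000100000000800040002000000000000000000) := T_45 (nat_lit 176) (nat_lit 193) (nat_lit 7) (nat_lit 5) (nat_lit 7) L125471 (by decide +kernel)
theorem L125473 : W_45 (nat_lit 6) (nat_lit 0x80004001a000d0002000000000000000000000000000) (nat_lit 0x0) (nat_lit 0x300010000a000100008000c00040002000000000000000000) := T_45 (nat_lit 123) (nat_lit 106) (nat_lit 4) (nat_lit 5) (nat_lit 10) L125472 (by decide +kernel)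
theorem L125474 : W_45 (nat_lit 7) (nat_lit 0x4001a000d0002000000000000000000000000000) (nat_lit 0x0) (nat_lit 0x100038001c000a000100008000c00060002000000000000000000) := Q_45 (nat_lit 175) (C_45 L125462 (C_45 L125459 (C_45 L125468 (C_45 L125473 N_45)))) (by decide +kernel)
theorem L125475 : W_45 (nat_lit 2) (nat_lit 0x1c0006001a000d0002000000000000000000000000000) (nat_lit 0x0) (nat_lit 0x200001800000000000000000000000000000000000000) := D_45 (nat_lit 156) (nat_lit 155) (nat_lit 177) (nat_lit 3) (nat_lit 2) (nat_lit 9) (nat_lit 0) (nat_lit 7) (nat_lit 10) (by decide +kernel)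
theorem L125476 : W_45 (nat_lit 3) (nat_lit 0x1c0004001a000d0002000000000000000000000000000) (nat_lit 0x0) (nat_lit 0x200003800000000000800000000000000000000000000) := T_45 (nat_lit 157) (nat_lit 107) (nat_lit 5) (nat_lit 5) (nat_lit 6) L125475 (by decide +kernel)
theorem L125477 : W_45 (nat_lit 4) (nat_lit 0x180004001a000d0002000000000000000000000000000) (nat_lit 0x0) (nat_lit 0x800240003800000000000800000000000000000000000000) := T_45 (nat_lit 174) (nat_lit 191) (nat_lit 5) (nat_lit 5) (nat_lit 7) L125476 (by decide +kernel)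
theorem L125478 : W_45 (nat_lit 5) (nat_lit 0x80004001a000d0002000000000000000000000000000) (nat_lit 0x0) (nat_lit 0x2800340003800000000000800000000000000000000000000) := T_45 (nat_lit 176) (nat_lit 193) (nat_lit 7) (nat_lit 5) (nat_lit 7) L125477 (by decide +kernel)
theorem L125479 : W_45 (nat_lit 2) (nat_lit 0x1a00380004001a000d8002000000000000000000000000000) (nat_lit 0x0) (nat_lit 0x4000000010000000000004000000000000000000000000000) := D_45 (nat_lit 160) (nat_lit 194) (nat_lit 110) (nat_lit 6) (nat_lit 7) (nat_lit 11) (nat_lit 6) (nat_lit 7) (nat_lit 10) (by decide +kernel)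
theorem L125480 : W_45 (nat_lit 3) (nat_lit 0x1a00180004001a000d8002000000000000000000000000000) (nat_lit 0x0) (nat_lit 0x4000600010000000000004000000000000000000000000000) := T_45 (nat_lit 177) (nat_lit 178) (nat_lit 1) (nat_lit 8) (nat_lit 10) L125479 (by decide +kernel)
theorem L125481 : W_45 (nat_lit 4) (nat_lit 0x1800180004001a000d8002000000000000000000000000000) (nat_lit 0x0) (nat_lit 0x4600600010000000000004000000000000000000000000000) := T_45 (nat_lit 189) (nat_lit 190) (nat_lit 2) (nat_lit 2) (nat_lit 11) L125480 (by decide +kernel)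
theorem L125482 : W_45 (nat_lit 5) (nat_lit 0x1000180004001a000d8002000000000000000000000000000) (nat_lit 0x0) (nat_lit 0x10004e00600010000000000004000000000000000000000000000) := T_45 (nat_lit 191) (nat_lit 208) (nat_lit 5) (nat_lit 5) (nat_lit 8) L125481 (by decide +kernel)
theorem L125483 : W_45 (nat_lit 6) (nat_lit 0x180004001a000d8002000000000000000000000000000) (nat_lit 0x0) (nat_lit 0x10005e00600010000100000004000000000000000000000000000) := T_45 (nat_lit 192) (nat_lit 140) (nat_lit 4) (nat_lit 5) (nat_lit 11) L125482 (by decide +kernel)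
theorem L125484 : W_45 (nat_lit 7) (nat_lit 0x80004001a000d8002000000000000000000000000000) (nat_lit 0x0) (nat_lit 0x10007e00700010000100000004000000000000000000000000000) := T_45 (nat_lit 176) (nat_lit 193) (nat_lit 7) (nat_lit 5) (nat_lit 7) L125483 (by decide +kernel)
theorem L125485 : W_45 (nat_lit 8) (nat_lit 0x80004001a000d0002000000000000000000000000000) (nat_lit 0x0) (nat_lit 0x10007e00700010000100008004400000000000000000000000000) := T_45 (nat_lit 123) (nat_lit 106) (nat_lit 4) (nat_lit 5) (nat_lit 10) L125484 (by decide +kernel)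
theorem L125486 : W_45 (nat_lit 2) (nat_lit 0x2000080004001a000d8002000000000000000000000000000) (nat_lit 0x0) (nat_lit 0x40001000000000000100000000000000000000000000000000000) := D_45 (nat_lit 192) (nat_lit 140) (nat_lit 210) (nat_lit 4) (nat_lit 5) (nat_lit 11) (nat_lit 7) (nat_lit 5) (nat_lit 8) (by decide +kernel)
theorem L125487 : W_45 (nat_lit 3) (nat_lit 0x80004001a000d8002000000000000000000000000000) (nat_lit 0x0) (nat_lit 0x40003000100000000100000000000000000000000000000000000) := T_45 (nat_lit 193) (nat_lit 176) (nat_lit 7) (nat_lit 5) (nat_lit 7) L125486 (by decide +kernel)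
theorem L125488 : W_45 (nat_lit 4) (nat_lit 0x80004001a000d0002000000000000000000000000000) (nat_lit 0x0) (nat_lit 0x40003000100000000100008000400000000000000000000000000) := T_45 (nat_lit 123) (nat_lit 106) (nat_lit 4) (nat_lit 5) (nat_lit 10) L125487 (by decide +kernel)
theorem L125489 : W_45 (nat_lit 9) (nat_lit 0x4001a000d0002000000000000000000000000000) (nat_lit 0x0) (nat_lit 0x50007e007c0013800100008004c00020000000000000000000000) := Q_45 (nat_lit 175) (C_45 L125462 (C_45 L125459 (C_45 L125478 (C_45 L125485 (C_45 L125488 N_45))))) (by decide +kernel)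
theorem L125490 : W_45 (nat_lit 2) (nat_lit 0x14001a000d0002000000000000000000000000000) (nat_lit 0x0) (nat_lit 0x200000000000000004000200000000000000000000000) := D_45 (nat_lit 110) (nat_lit 93) (nat_lit 177) (nat_lit 6) (nat_lit 7) (nat_lit 9) (nat_lit 6) (nat_lit 7) (nat_lit 10) (by decide +kernel)
theorem L125491 : W_45 (nat_lit 2) (nat_lit 0x14001a000d0002000000000000000000000000000) (nat_lit 0x0) (nat_lit 0x4000200000000000000004000000000000000000000000000) := D_45 (nat_lit 177) (nat_lit 194) (nat_lit 110) (nat_lit 6) (nat_lit 7) (nat_lit 11) (nat_lit 6) (nat_lit 7) (nat_lit 10) (by decide +kernel)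
theorem L125492 : W_45 (nat_lit 2) (nat_lit 0x4000000016001a000d0002800040000000000000000000000) (nat_lit 0x0) (nat_lit 0x400020001000000000000000000) := D_45 (nat_lit 89) (nat_lit 72) (nat_lit 106) (nat_lit 4) (nat_lit 5) (nat_lit 8) (nat_lit 4) (nat_lit 5) (nat_lit 9) (by decide +kernel)
theorem L125493 : W_45 (nat_lit 3) (nat_lit 0x4000000016001a000d0002800000000000000000000000000) (nat_lit 0x0) (nat_lit 0x100000000400060001000000000000000000) := T_45 (nat_lit 90) (nat_lit 140) (nat_lit 5) (nat_lit 5) (nat_lit 5) L125492 (by decide +kernel)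
theorem L125494 : W_45 (nat_lit 4) (nat_lit 0x4000000016001a000d0002000000000000000000000000000) (nat_lit 0x0) (nat_lit 0x40000000100000000c00060001000000000000000000) := T_45 (nat_lit 107) (nat_lit 174) (nat_lit 5) (nat_lit 5) (nat_lit 6) L125493 (by decide +kernel)
theorem L125495 : W_45 (nat_lit 5) (nat_lit 0x16001a000d0002000000000000000000000000000) (nat_lit 0x0) (nat_lit 0x4000240000000100000000c00060001000000000000000000) := T_45 (nat_lit 194) (nat_lit 177) (nat_lit 6) (nat_lit 7) (nat_lit 11) L125494 (by decide +kernel)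
theorem L125496 : W_45 (nat_lit 6) (nat_lit 0x14001a000d0002000000000000000000000000000) (nat_lit 0x0) (nat_lit 0x400024000a000100000000c00060001000000000000000000) := T_45 (nat_lit 157) (nat_lit 159) (nat_lit 2) (nat_lit 4) (nat_lit 9) L125495 (by decide +kernel)
theorem L125497 : W_45 (nat_lit 2) (nat_lit 0x16001a000d0002800240000000000000000000000) (nat_lit 0x0) (nat_lit 0x400020001000000000000000000) := D_45 (nat_lit 89) (nat_lit 72) (nat_lit 106) (nat_lit 4) (nat_lit 5) (nat_lit 8) (nat_lit 4) (nat_lit 5) (nat_lit 9) (by decide +kernel)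
theorem L125498 : W_45 (nat_lit 3) (nat_lit 0x16001a000d0002800200000000000000000000000) (nat_lit 0x0) (nat_lit 0x100000000400060001000000000000000000) := T_45 (nat_lit 90) (nat_lit 140) (nat_lit 5) (nat_lit 5) (nat_lit 5) L125497 (by decide +kernel)
theorem L125499 : W_45 (nat_lit 4) (nat_lit 0x16001a000d0002000200000000000000000000000) (nat_lit 0x0) (nat_lit 0x40000000100000000c00060001000000000000000000) := T_45 (nat_lit 107) (nat_lit 174) (nat_lit 5) (nat_lit 5) (nat_lit 6) L125498 (by decide +kernel)
theorem L125500 : W_45 (nat_lit 5) (nat_lit 0x16001a000d0002000000000000000000000000000) (nat_lit 0x0) (nat_lit 0x40000000100000004c00260001000000000000000000) := T_45 (nat_lit 93) (nat_lit 110) (nat_lit 6) (nat_lit 7) (nat_lit 9) L125499 (by decide +kernel)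
theorem L125501 : W_45 (nat_lit 6) (nat_lit 0x14001a000d0002000000000000000000000000000) (nat_lit 0x0) (nat_lit 0x4000a000100000004c00260001000000000000000000) := T_45 (nat_lit 157) (nat_lit 159) (nat_lit 2) (nat_lit 4) (nat_lit 9) L125500 (by decide +kernel)
theorem L125502 : W_45 (nat_lit 7) (nat_lit 0x4001a000d0002000000000000000000000000000) (nat_lit 0x0) (nat_lit 0x400024001a000100000004c00260001000000000000000000) := Q_45 (nat_lit 160) (C_45 L125490 (C_45 L125491 (C_45 L125496 (C_45 L125501 N_45)))) (by decide +kernel)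
theorem L125503 : W_45 (nat_lit 2) (nat_lit 0x14001a000d0002000000000000000000000000000) (nat_lit 0x0) (nat_lit 0x10000a000000000000000000000000000000000000000) := D_45 (nat_lit 159) (nat_lit 157) (nat_lit 176) (nat_lit 2) (nat_lit 4) (nat_lit 9) (nat_lit 5) (nat_lit 7) (nat_lit 6) (by decide +kernel)
theorem L125504 : W_45 (nat_lit 3) (nat_lit 0x4001a000d0002000000000000000000000000000) (nat_lit 0x0) (nat_lit 0x400030001a000000000004000000000000000000000000000) := Q_45 (nat_lit 160) (C_45 L125491 (C_45 L125503 N_45)) (by decide +kernel)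
theorem L125505 : W_45 (nat_lit 2) (nat_lit 0x4800180014001a000d8002000000000000000000000000000) (nat_lit 0x0) (nat_lit 0x10001000000000000100000000000000000000000000000000000) := D_45 (nat_lit 192) (nat_lit 208) (nat_lit 140) (nat_lit 5) (nat_lit 5) (nat_lit 8) (nat_lit 4) (nat_lit 5) (nat_lit 11) (by decide +kernel)
theorem L125506 : W_45 (nat_lit 3) (nat_lit 0x4800180014001a000d0002000000000000000000000000000) (nat_lit 0x0) (nat_lit 0x10001000000000000100008000400000000000000000000000000) := T_45 (nat_lit 123) (nat_lit 106) (nat_lit 4) (nat_lit 5) (nat_lit 10) L125505 (by decide +kernel)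
theorem L125507 : W_45 (nat_lit 4) (nat_lit 0x4000180014001a000d0002000000000000000000000000000) (nat_lit 0x0) (nat_lit 0x10001800040000000100008000400000000000000000000000000) := T_45 (nat_lit 191) (nat_lit 174) (nat_lit 5) (nat_lit 5) (nat_lit 7) L125506 (by decide +kernel)
theorem L125508 : W_45 (nat_lit 5) (nat_lit 0x4000100014001a000d0002000000000000000000000000000) (nat_lit 0x0) (nat_lit 0x100038000c0000000100008000400000000000000000000000000) := T_45 (nat_lit 175) (nat_lit 193) (nat_lit 7) (nat_lit 5) (nat_lit 7) L125507 (by decide +kernel)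
theorem L125509 : W_45 (nat_lit 6) (nat_lit 0x4000000014001a000d0002000000000000000000000000000) (nat_lit 0x0) (nat_lit 0x100038001c0008000100008000400000000000000000000000000) := T_45 (nat_lit 176) (nat_lit 159) (nat_lit 5) (nat_lit 7) (nat_lit 6) L125508 (by decide +kernel)
theorem L125510 : W_45 (nat_lit 7) (nat_lit 0x14001a000d0002000000000000000000000000000) (nat_lit 0x0) (nat_lit 0x100078003c0008000100008000400000000000000000000000000) := T_45 (nat_lit 194) (nat_lit 177) (nat_lit 6) (nat_lit 7) (nat_lit 11) L125509 (by decide +kernel)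
theorem L125511 : W_45 (nat_lit 2) (nat_lit 0x800180014001a000d8002000200000000000000000000000) (nat_lit 0x0) (nat_lit 0x10001000000000000100000000000000000000000000000000000) := D_45 (nat_lit 192) (nat_lit 208) (nat_lit 140) (nat_lit 5) (nat_lit 5) (nat_lit 8) (nat_lit 4) (nat_lit 5) (nat_lit 11) (by decide +kernel)
theorem L125512 : W_45 (nat_lit 3) (nat_lit 0x800180014001a000d0002000200000000000000000000000) (nat_lit 0x0) (nat_lit 0x10001000000000000100008000400000000000000000000000000) := T_45 (nat_lit 123) (nat_lit 106) (nat_lit 4) (nat_lit 5) (nat_lit 10) L125511 (by decide +kernel)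
theorem L125513 : W_45 (nat_lit 4) (nat_lit 0x180014001a000d0002000200000000000000000000000) (nat_lit 0x0) (nat_lit 0x10001800040000000100008000400000000000000000000000000) := T_45 (nat_lit 191) (nat_lit 174) (nat_lit 5) (nat_lit 5) (nat_lit 7) L125512 (by decide +kernel)
theorem L125514 : W_45 (nat_lit 5) (nat_lit 0x100014001a000d0002000200000000000000000000000) (nat_lit 0x0) (nat_lit 0x100038000c0000000100008000400000000000000000000000000) := T_45 (nat_lit 175) (nat_lit 193) (nat_lit 7) (nat_lit 5) (nat_lit 7) L125513 (by decide +kernel)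
theorem L125515 : W_45 (nat_lit 6) (nat_lit 0x100014001a000d0002000000000000000000000000000) (nat_lit 0x0) (nat_lit 0x100038000c0000000100008004400200000000000000000000000) := T_45 (nat_lit 93) (nat_lit 110) (nat_lit 6) (nat_lit 7) (nat_lit 9) L125514 (by decide +kernel)
theorem L125516 : W_45 (nat_lit 7) (nat_lit 0x14001a000d0002000000000000000000000000000) (nat_lit 0x0) (nat_lit 0x100038001c0008000100008004400200000000000000000000000) := T_45 (nat_lit 176) (nat_lit 159) (nat_lit 5) (nat_lit 7) (nat_lit 6) L125515 (by decide +kernel)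
theorem L125517 : W_45 (nat_lit 8) (nat_lit 0x4001a000d0002000000000000000000000000000) (nat_lit 0x0) (nat_lit 0x100078003c0018000100008004400200000000000000000000000) := Q_45 (nat_lit 160) (C_45 L125491 (C_45 L125510 (C_45 L125516 N_45))) (by decide +kernel)
theorem L125518 : W_45 (nat_lit 10) (nat_lit 0x1a000d0002000000000000000000000000000) (nat_lit 0x0) (nat_lit 0x50007e007c001f800100008004c00260003000000000000000000) := Q_45 (nat_lit 158) (C_45 L125465 (C_45 L125474 (C_45 L125489 (C_45 L125502 (C_45 L125504 (C_45 L125517 N_45)))))) (by decide +kernel)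
theorem L125519 : W_45 (nat_lit 2) (nat_lit 0x10001a000d0002000000000000000000000000000) (nat_lit 0x0) (nat_lit 0x200000000000000004000200000000000000000000000) := D_45 (nat_lit 110) (nat_lit 93) (nat_lit 177) (nat_lit 6) (nat_lit 7) (nat_lit 9) (nat_lit 6) (nat_lit 7) (nat_lit 10) (by decide +kernel)
theorem L125520 : W_45 (nat_lit 2) (nat_lit 0x10001a000d0002000000000000000000000000000) (nat_lit 0x0) (nat_lit 0x4000200000000000000004000000000000000000000000000) := D_45 (nat_lit 177) (nat_lit 194) (nat_lit 110) (nat_lit 6) (nat_lit 7) (nat_lit 11) (nat_lit 6) (nat_lit 7) (nat_lit 10) (by decide +kernel)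
theorem L125521 : W_45 (nat_lit 2) (nat_lit 0x400000001c001a000d8002400000000000000000000000000) (nat_lit 0x0) (nat_lit 0x800020001000000000000000000) := D_45 (nat_lit 89) (nat_lit 107) (nat_lit 72) (nat_lit 4) (nat_lit 5) (nat_lit 9) (nat_lit 7) (nat_lit 4) (nat_lit 4) (by decide +kernel)
theorem L125522 : W_45 (nat_lit 3) (nat_lit 0x400000001c001a000d8002000000000000000000000000000) (nat_lit 0x0) (nat_lit 0x80000000000000000c00020001000000000000000000) := T_45 (nat_lit 106) (nat_lit 175) (nat_lit 4) (nat_lit 5) (nat_lit 10) L125521 (by decide +kernel)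
theorem L125523 : W_45 (nat_lit 4) (nat_lit 0x1c001a000d8002000000000000000000000000000) (nat_lit 0x0) (nat_lit 0x4000280000000000000000c00020001000000000000000000) := T_45 (nat_lit 194) (nat_lit 177) (nat_lit 6) (nat_lit 7) (nat_lit 11) L125522 (by decide +kernel)
theorem L125524 : W_45 (nat_lit 5) (nat_lit 0x18001a000d8002000000000000000000000000000) (nat_lit 0x0) (nat_lit 0x4000280006000000000000c00020001000000000000000000) := T_45 (nat_lit 158) (nat_lit 157) (nat_lit 2) (nat_lit 4) (nat_lit 9) L125523 (by decide +kernel)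
theorem L125525 : W_45 (nat_lit 6) (nat_lit 0x10001a000d8002000000000000000000000000000) (nat_lit 0x0) (nat_lit 0x400038000e000000000000c00020001000000000000000000) := T_45 (nat_lit 159) (nat_lit 176) (nat_lit 5) (nat_lit 7) (nat_lit 6) L125524 (by decide +kernel)
theorem L125526 : W_45 (nat_lit 7) (nat_lit 0x10001a000d0002000000000000000000000000000) (nat_lit 0x0) (nat_lit 0x400038000e000000028000c00020001000000000000000000) := T_45 (nat_lit 123) (nat_lit 125) (nat_lit 3) (nat_lit 4) (nat_lit 7) L125525 (by decide +kernel)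
theorem L125527 : W_45 (nat_lit 2) (nat_lit 0x1c001a000d8006400000000000000000000000000) (nat_lit 0x0) (nat_lit 0x800020001000000000000000000) := D_45 (nat_lit 89) (nat_lit 107) (nat_lit 72) (nat_lit 4) (nat_lit 5) (nat_lit 9) (nat_lit 7) (nat_lit 4) (nat_lit 4) (by decide +kernel)
theorem L125528 : W_45 (nat_lit 3) (nat_lit 0x1c001a000d8006000000000000000000000000000) (nat_lit 0x0) (nat_lit 0x80000000000000000c00020001000000000000000000) := T_45 (nat_lit 106) (nat_lit 175) (nat_lit 4) (nat_lit 5) (nat_lit 10) L125527 (by decide +kernel)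
theorem L125529 : W_45 (nat_lit 4) (nat_lit 0x18001a000d8006000000000000000000000000000) (nat_lit 0x0) (nat_lit 0x80006000000000000c00020001000000000000000000) := T_45 (nat_lit 158) (nat_lit 157) (nat_lit 2) (nat_lit 4) (nat_lit 9) L125528 (by decide +kernel)
theorem L125530 : W_45 (nat_lit 5) (nat_lit 0x10001a000d8006000000000000000000000000000) (nat_lit 0x0) (nat_lit 0x18000e000000000000c00020001000000000000000000) := T_45 (nat_lit 159) (nat_lit 176) (nat_lit 5) (nat_lit 7) (nat_lit 6) L125529 (by decide +kernel)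
theorem L125531 : W_45 (nat_lit 6) (nat_lit 0x10001a000d0006000000000000000000000000000) (nat_lit 0x0) (nat_lit 0x18000e000000028000c00020001000000000000000000) := T_45 (nat_lit 123) (nat_lit 125) (nat_lit 3) (nat_lit 4) (nat_lit 7) L125530 (by decide +kernel)
theorem L125532 : W_45 (nat_lit 7) (nat_lit 0x10001a000d0002000000000000000000000000000) (nat_lit 0x0) (nat_lit 0x18000e000000028004c00220001000000000000000000) := T_45 (nat_lit 110) (nat_lit 93) (nat_lit 6) (nat_lit 7) (nat_lit 9) L125531 (by decide +kernel)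
theorem L125533 : W_45 (nat_lit 8) (nat_lit 0x1a000d0002000000000000000000000000000) (nat_lit 0x0) (nat_lit 0x400038001e000000028004c00220001000000000000000000) := Q_45 (nat_lit 160) (C_45 L125519 (C_45 L125520 (C_45 L125526 (C_45 L125532 N_45)))) (by decide +kernel)
theorem L125534 : W_45 (nat_lit 2) (nat_lit 0x100010001a000f0002800000000000000000000000000) (nat_lit 0x0) (nat_lit 0x6000200000000000000000000000000000000000000000000) := D_45 (nat_lit 177) (nat_lit 194) (nat_lit 193) (nat_lit 6) (nat_lit 7) (nat_lit 11) (nat_lit 5) (nat_lit 7) (nat_lit 7) (by decide +kernel)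
theorem L125535 : W_45 (nat_lit 3) (nat_lit 0x10001a000f0002800000000000000000000000000) (nat_lit 0x0) (nat_lit 0x6000300008000000000000000000000000000000000000000) := T_45 (nat_lit 176) (nat_lit 159) (nat_lit 5) (nat_lit 7) (nat_lit 6) L125534 (by decide +kernel)
theorem L125536 : W_45 (nat_lit 4) (nat_lit 0x10001a000f0002000000000000000000000000000) (nat_lit 0x0) (nat_lit 0x6000300008000000000000c00000000000000000000000000) := T_45 (nat_lit 107) (nat_lit 106) (nat_lit 0) (nat_lit 8) (nat_lit 7) L125535 (by decide +kernel)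
theorem L125537 : W_45 (nat_lit 5) (nat_lit 0x10001a000d0002000000000000000000000000000) (nat_lit 0x0) (nat_lit 0x6000300008000100020000c00000000000000000000000000) := T_45 (nat_lit 125) (nat_lit 140) (nat_lit 1) (nat_lit 8) (nat_lit 7) L125536 (by decide +kernel)
theorem L125538 : W_45 (nat_lit 2) (nat_lit 0x10001a000d0002800000000000000000000000000) (nat_lit 0x0) (nat_lit 0x100020000400000000000000000000000000) := D_45 (nat_lit 125) (nat_lit 140) (nat_lit 106) (nat_lit 1) (nat_lit 8) (nat_lit 7) (nat_lit 0) (nat_lit 8) (nat_lit 7) (by decide +kernel)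
theorem L125539 : W_45 (nat_lit 2) (nat_lit 0x1a001a000d0006800040005000000000000000000) (nat_lit 0x0) (nat_lit 0x2000280000000000000) := D_45 (nat_lit 73) (nat_lit 55) (nat_lit 57) (nat_lit 4) (nat_lit 5) (nat_lit 7) (nat_lit 6) (nat_lit 5) (nat_lit 7) (by decide +kernel)
theorem L125540 : W_45 (nat_lit 3) (nat_lit 0x1a001a000d0006800040001000000000000000000) (nat_lit 0x0) (nat_lit 0x80006000280000000000000) := T_45 (nat_lit 74) (nat_lit 91) (nat_lit 6) (nat_lit 5) (nat_lit 8) L125539 (by decide +kernel)
theorem L125541 : W_45 (nat_lit 4) (nat_lit 0x1a001a000d0006800040000000000000000000000) (nat_lit 0x0) (nat_lit 0xa0007000280000000000000) := T_45 (nat_lit 72) (nat_lit 89) (nat_lit 4) (nat_lit 5) (nat_lit 8) L125540 (by decide +kernel)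
theorem L125542 : W_45 (nat_lit 5) (nat_lit 0x1a001a000d0006800000000000000000000000000) (nat_lit 0x0) (nat_lit 0x1000000000000e0007000280000000000000) := T_45 (nat_lit 90) (nat_lit 140) (nat_lit 5) (nat_lit 5) (nat_lit 5) L125541 (by decide +kernel)
theorem L125543 : W_45 (nat_lit 6) (nat_lit 0x18001a000d0006800000000000000000000000000) (nat_lit 0x0) (nat_lit 0x60001000000000000e0007000280000000000000) := T_45 (nat_lit 157) (nat_lit 158) (nat_lit 2) (nat_lit 4) (nat_lit 9) L125542 (by decide +kernel)
theorem L125544 : W_45 (nat_lit 7) (nat_lit 0x10001a000d0006800000000000000000000000000) (nat_lit 0x0) (nat_lit 0x10000e0001000000000000e0007000280000000000000) := T_45 (nat_lit 159) (nat_lit 176) (nat_lit 5) (nat_lit 7) (nat_lit 6) L125543 (by decide +kernel)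
theorem L125545 : W_45 (nat_lit 8) (nat_lit 0x10001a000d0002800000000000000000000000000) (nat_lit 0x0) (nat_lit 0x10000e0001000000040002e0007000280000000000000) := T_45 (nat_lit 110) (nat_lit 93) (nat_lit 6) (nat_lit 7) (nat_lit 9) L125544 (by decide +kernel)
theorem L125546 : W_45 (nat_lit 2) (nat_lit 0x1c001a000d0002800000000000000000000000000) (nat_lit 0x0) (nat_lit 0x20000400020000000000000000000000) := D_45 (nat_lit 106) (nat_lit 125) (nat_lit 89) (nat_lit 0) (nat_lit 8) (nat_lit 7) (nat_lit 4) (nat_lit 5) (nat_lit 9) (by decide +kernel)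
theorem L125547 : W_45 (nat_lit 3) (nat_lit 0x18001a000d0002800000000000000000000000000) (nat_lit 0x0) (nat_lit 0x6000000020000400020000000000000000000000) := T_45 (nat_lit 158) (nat_lit 157) (nat_lit 2) (nat_lit 4) (nat_lit 9) L125546 (by decide +kernel)
theorem L125548 : W_45 (nat_lit 4) (nat_lit 0x10001a000d0002800000000000000000000000000) (nat_lit 0x0) (nat_lit 0x10000e000000020000400020000000000000000000000) := T_45 (nat_lit 159) (nat_lit 176) (nat_lit 5) (nat_lit 7) (nat_lit 6) L125547 (by decide +kernel)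
theorem L125549 : W_45 (nat_lit 9) (nat_lit 0x10001a000d0002000000000000000000000000000) (nat_lit 0x0) (nat_lit 0x10000e000100020004c002e0007000280000000000000) := Q_45 (nat_lit 107) (C_45 L125538 (C_45 L125545 (C_45 L125548 N_45))) (by decide +kernel)
theorem L125550 : W_45 (nat_lit 10) (nat_lit 0x1a000d0002000000000000000000000000000) (nat_lit 0x0) (nat_lit 0x600030001e000100020004c002e0007000280000000000000) := Q_45 (nat_lit 160) (C_45 L125520 (C_45 L125537 (C_45 L125549 N_45))) (by decide +kernel)
theorem L125551 : W_45 (nat_lit 11) (nat_lit 0x1a000c0002000000000000000000000000000) (nat_lit 0x0) (nat_lit 0x50007e007c001f800100038004c002e0007000280000000000000) := Q_45 (nat_lit 124) (C_45 L125448 (C_45 L125518 (C_45 L125533 (C_45 L125550 N_45)))) (by decide +kernel)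
theorem L125552 : W_45 (nat_lit 4) (nat_lit 0x14001e000d0006000000000000000000000000000) (nat_lit 0x0) (nat_lit 0x100008000000020000c00060000000000000000000000) := T_45 (nat_lit 159) (nat_lit 176) (nat_lit 5) (nat_lit 7) (nat_lit 6) L125438 (by decide +kernel)
theorem L125553 : W_45 (nat_lit 5) (nat_lit 0x14001e000d0002000000000000000000000000000) (nat_lit 0x0) (nat_lit 0x100008000000020004c00260000000000000000000000) := T_45 (nat_lit 110) (nat_lit 93) (nat_lit 6) (nat_lit 7) (nat_lit 9) L125552 (by decide +kernel)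
theorem L125554 : W_45 (nat_lit 6) (nat_lit 0x14001e000c0002000000000000000000000000000) (nat_lit 0x0) (nat_lit 0x100008000000038004c00260000000000000000000000) := T_45 (nat_lit 124) (nat_lit 123) (nat_lit 0) (nat_lit 8) (nat_lit 8) L125553 (by decide +kernel)
theorem L125555 : W_45 (nat_lit 7) (nat_lit 0x10001e000c0002000000000000000000000000000) (nat_lit 0x0) (nat_lit 0x10000e000000038004c00260000000000000000000000) := T_45 (nat_lit 158) (nat_lit 157) (nat_lit 1) (nat_lit 8) (nat_lit 8) L125554 (by decide +kernel)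
theorem L125556 : W_45 (nat_lit 8) (nat_lit 0x10001a000c0002000000000000000000000000000) (nat_lit 0x0) (nat_lit 0x10000e000400138004c00260000000000000000000000) := T_45 (nat_lit 142) (nat_lit 128) (nat_lit 2) (nat_lit 5) (nat_lit 8) L125555 (by decide +kernel)
theorem L125557 : W_45 (nat_lit 9) (nat_lit 0x1a000c0002000000000000000000000000000) (nat_lit 0x0) (nat_lit 0x600030001e000400138004c00260000000000000000000000) := Q_45 (nat_lit 160) (C_45 L125556 (C_45 L125447 (C_45 L125445 N_45))) (by decide +kernel)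
theorem L125558 : W_45 (nat_lit 12) (nat_lit 0x18000c0002000000000000000000000000000) (nat_lit 0x0) (nat_lit 0x50007e007c001f800700138004c002e0007000280000000000000) := Q_45 (nat_lit 141) (C_45 L125444 (C_45 L125551 (C_45 L125557 N_45))) (by decide +kernel)
theorem L125559 : W_45 (nat_lit 15) (nat_lit 0x10000c0002000000000000000000000000000) (nat_lit 0x0) (nat_lit 0x50007e007c001f800f00138004c01fe003f000280000000000000) := Q_45 (nat_lit 143) (C_45 L123130 (C_45 L125144 (C_45 L125354 (C_45 L125436 (C_45 L125558 N_45))))) (by decide +kernel)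
theorem L125560 : W_45 (nat_lit 2) (nat_lit 0x100018000c0003000000000000000000000000000) (nat_lit 0x0) (nat_lit 0x4000200000000000020000000000000000000000000000000) := D_45 (nat_lit 177) (nat_lit 125) (nat_lit 194) (nat_lit 4) (nat_lit 7) (nat_lit 10) (nat_lit 6) (nat_lit 7) (nat_lit 11) (by decide +kernel)
theorem L125561 : W_45 (nat_lit 3) (nat_lit 0x18000c0003000000000000000000000000000) (nat_lit 0x0) (nat_lit 0x4000200010000000020000000080000000000000000000000) := T_45 (nat_lit 160) (nat_lit 91) (nat_lit 4) (nat_lit 7) (nat_lit 9) L125560 (by decide +kernel)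
theorem L125562 : W_45 (nat_lit 5) (nat_lit 0x10000c0003000000000000000000000000000) (nat_lit 0x0) (nat_lit 0x4000200018000e0032000000018000c000000000000000000) := Q_45 (nat_lit 143) (C_45 L123249 (C_45 L123241 (C_45 L125561 N_45))) (by decide +kernel)
theorem L125563 : W_45 (nat_lit 2) (nat_lit 0x10000c0003400080004000000000000000000) (nat_lit 0x0) (nat_lit 0x10000800020000000000000000000000000000000) := D_45 (nat_lit 143) (nat_lit 160) (nat_lit 125) (nat_lit 4) (nat_lit 7) (nat_lit 9) (nat_lit 7) (nat_lit 6) (nat_lit 4) (by decide +kernel)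
theorem L125564 : W_45 (nat_lit 3) (nat_lit 0x10000c0003400080000000000000000000000) (nat_lit 0x0) (nat_lit 0x10000800020000000000004000200000000000000) := T_45 (nat_lit 74) (nat_lit 57) (nat_lit 7) (nat_lit 6) (nat_lit 3) L125563 (by decide +kernel)
theorem L125565 : W_45 (nat_lit 4) (nat_lit 0x10000c0003000080000000000000000000000) (nat_lit 0x0) (nat_lit 0x10000800020000c00000004000200000000000000) := T_45 (nat_lit 106) (nat_lit 107) (nat_lit 3) (nat_lit 4) (nat_lit 6) L125564 (by decide +kernel)
theorem L125566 : W_45 (nat_lit 2) (nat_lit 0x10000f000340008000c000000000000000000) (nat_lit 0x0) (nat_lit 0xc000200000000000000000000000000) := D_45 (nat_lit 123) (nat_lit 122) (nat_lit 105) (nat_lit 2) (nat_lit 3) (nat_lit 7) (nat_lit 0) (nat_lit 7) (nat_lit 7) (by decide +kernel)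
theorem L125567 : W_45 (nat_lit 3) (nat_lit 0x10000e000340008000c000000000000000000) (nat_lit 0x0) (nat_lit 0x20001c000200000000000000000000000000) := T_45 (nat_lit 124) (nat_lit 141) (nat_lit 5) (nat_lit 6) (nat_lit 4) L125566 (by decide +kernel)
theorem L125568 : W_45 (nat_lit 4) (nat_lit 0x10000c000340008000c000000000000000000) (nat_lit 0x0) (nat_lit 0x20003c000200000000000400000000000000) := T_45 (nat_lit 125) (nat_lit 58) (nat_lit 6) (nat_lit 6) (nat_lit 7) L125567 (by decide +kernel)
theorem L125569 : W_45 (nat_lit 5) (nat_lit 0x10000c0003400080008000000000000000000) (nat_lit 0x0) (nat_lit 0x20003c000200000004000600000000000000) := T_45 (nat_lit 74) (nat_lit 57) (nat_lit 7) (nat_lit 6) (nat_lit 3) L125568 (by decide +kernel)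
theorem L125570 : W_45 (nat_lit 6) (nat_lit 0x10000c0003000080008000000000000000000) (nat_lit 0x0) (nat_lit 0x20003c000e00000004000600000000000000) := T_45 (nat_lit 106) (nat_lit 107) (nat_lit 3) (nat_lit 4) (nat_lit 6) L125569 (by decide +kernel)
theorem L125571 : W_45 (nat_lit 7) (nat_lit 0x10000c0003000080000000000000000000000) (nat_lit 0x0) (nat_lit 0x20003c000e0010000c000600000000000000) := T_45 (nat_lit 75) (nat_lit 92) (nat_lit 7) (nat_lit 7) (nat_lit 4) L125570 (by decide +kernel)
theorem L125572 : W_45 (nat_lit 8) (nat_lit 0x10000c0003000000000000000000000000000) (nat_lit 0x0) (nat_lit 0x1e000f0003c000e0018000c000600000000000000) := Q_45 (nat_lit 91) (C_45 L123206 (C_45 L125565 (C_45 L125571 (C_45 L123204 N_45)))) (by decide +kernel)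
theorem L125573 : W_45 (nat_lit 2) (nat_lit 0x10001c0003000000000000000000000000000) (nat_lit 0x0) (nat_lit 0x20000c00000000000000000000000000) := D_45 (nat_lit 107) (nat_lit 106) (nat_lit 125) (nat_lit 3) (nat_lit 4) (nat_lit 6) (nat_lit 0) (nat_lit 9) (nat_lit 7) (by decide +kernel)
theorem L125574 : W_45 (nat_lit 3) (nat_lit 0x10000c0003000000000000000000000000000) (nat_lit 0x0) (nat_lit 0x320000c00000000000000000000000000) := T_45 (nat_lit 128) (nat_lit 129) (nat_lit 0) (nat_lit 10) (nat_lit 7) L125573 (by decide +kernel)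
theorem L125575 : W_45 (nat_lit 9) (nat_lit 0x10000c0002000000000000000000000000000) (nat_lit 0x0) (nat_lit 0x600030001e000f0033c001e0018000c000600000000000000) := Q_45 (nat_lit 108) (C_45 L125562 (C_45 L124909 (C_45 L123250 (C_45 L125572 (C_45 L125574 N_45))))) (by decide +kernel)
theorem L125576 : W_45 (nat_lit 2) (nat_lit 0x1a0018001e0002800000000000000000000000000) (nat_lit 0x0) (nat_lit 0x18000400000000000000000000000000) := D_45 (nat_lit 124) (nat_lit 123) (nat_lit 106) (nat_lit 3) (nat_lit 4) (nat_lit 7) (nat_lit 0) (nat_lit 8) (nat_lit 7) (by decide +kernel)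
theorem L125577 : W_45 (nat_lit 3) (nat_lit 0x1a0018001e0002000000000000000000000000000) (nat_lit 0x0) (nat_lit 0x18001c00000000000000000000000000) := T_45 (nat_lit 107) (nat_lit 108) (nat_lit 0) (nat_lit 9) (nat_lit 7) L125576 (by decide +kernel)
theorem L125578 : W_45 (nat_lit 4) (nat_lit 0x180018001e0002000000000000000000000000000) (nat_lit 0x0) (nat_lit 0x6000000018001c00000000000000000000000000) := T_45 (nat_lit 157) (nat_lit 158) (nat_lit 2) (nat_lit 4) (nat_lit 9) L125577 (by decide +kernel)
theorem L125579 : W_45 (nat_lit 5) (nat_lit 0x100018001e0002000000000000000000000000000) (nat_lit 0x0) (nat_lit 0x10000e000000018001c00000000000000000000000000) := T_45 (nat_lit 159) (nat_lit 176) (nat_lit 5) (nat_lit 7) (nat_lit 6) L125578 (by decide +kernel)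
theorem L125580 : W_45 (nat_lit 2) (nat_lit 0x100018001f0002000000000000000000000000000) (nat_lit 0x0) (nat_lit 0x700000000000000000000000000000000000) := D_45 (nat_lit 141) (nat_lit 142) (nat_lit 140) (nat_lit 2) (nat_lit 5) (nat_lit 8) (nat_lit 1) (nat_lit 8) (nat_lit 7) (by decide +kernel)
theorem L125581 : W_45 (nat_lit 3) (nat_lit 0x100018001e0002000000000000000000000000000) (nat_lit 0x0) (nat_lit 0x700018000000000000000000000000000000) := T_45 (nat_lit 124) (nat_lit 123) (nat_lit 3) (nat_lit 4) (nat_lit 7) L125580 (by decide +kernel)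
theorem L125582 : W_45 (nat_lit 2) (nat_lit 0x18001c001e0003000200000000000000000000000) (nat_lit 0x0) (nat_lit 0x80006000000000000000000000000000000000000000) := D_45 (nat_lit 158) (nat_lit 175) (nat_lit 157) (nat_lit 5) (nat_lit 6) (nat_lit 6) (nat_lit 2) (nat_lit 4) (nat_lit 9) (by decide +kernel)
theorem L125583 : W_45 (nat_lit 3) (nat_lit 0x10001c001e0003000200000000000000000000000) (nat_lit 0x0) (nat_lit 0x18000e000000000000000000000000000000000000000) := T_45 (nat_lit 159) (nat_lit 176) (nat_lit 6) (nat_lit 6) (nat_lit 10) L125582 (by decide +kernel)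
theorem L125584 : W_45 (nat_lit 4) (nat_lit 0x100018001e0003000200000000000000000000000) (nat_lit 0x0) (nat_lit 0x18000e000600000000000000000000000000000000000) := T_45 (nat_lit 142) (nat_lit 141) (nat_lit 2) (nat_lit 5) (nat_lit 8) L125583 (by decide +kernel)
theorem L125585 : W_45 (nat_lit 5) (nat_lit 0x100018001e0002000200000000000000000000000) (nat_lit 0x0) (nat_lit 0x18000e000600000001800000000000000000000000000) := T_45 (nat_lit 108) (nat_lit 107) (nat_lit 0) (nat_lit 9) (nat_lit 7) L125584 (by decide +kernel)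
theorem L125586 : W_45 (nat_lit 6) (nat_lit 0x100018001e0002000000000000000000000000000) (nat_lit 0x0) (nat_lit 0x18000e000600000005800200000000000000000000000) := T_45 (nat_lit 93) (nat_lit 110) (nat_lit 6) (nat_lit 7) (nat_lit 9) L125585 (by decide +kernel)
theorem L125587 : W_45 (nat_lit 7) (nat_lit 0x100018001c0002000000000000000000000000000) (nat_lit 0x0) (nat_lit 0x18000e000700038005c00200000000000000000000000) := Q_45 (nat_lit 125) (C_45 L125579 (C_45 L125581 (C_45 L125586 N_45))) (by decide +kernel)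
theorem L125588 : W_45 (nat_lit 8) (nat_lit 0x100018000c0002000000000000000000000000000) (nat_lit 0x0) (nat_lit 0x18000e000700738005c00200000000000000000000000) := Q_45 (nat_lit 128) (C_45 L122720 (C_45 L122700 (C_45 L125587 N_45))) (by decide +kernel)
theorem L125589 : W_45 (nat_lit 9) (nat_lit 0x18000c0002000000000000000000000000000) (nat_lit 0x0) (nat_lit 0x600038001e000700738005c00200000000000000000000000) := Q_45 (nat_lit 160) (C_45 L123133 (C_45 L123131 (C_45 L125588 N_45))) (by decide +kernel)
theorem L125590 : W_45 (nat_lit 10) (nat_lit 0x10000c0002000000000000000000000000000) (nat_lit 0x0) (nat_lit 0x600038001e000f00738005c00f00038000000000000000000) := Q_45 (nat_lit 143) (C_45 L125354 (C_45 L123130 (C_45 L123127 (C_45 L125589 N_45)))) (by decide +kernel)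
theorem L125591 : W_45 (nat_lit 17) (nat_lit 0x10000c0000000000000000000000000000000) (nat_lit 0x0) (nat_lit 0x50007e007c001f81cfc073e037e01ff007f007fc01fc00e000000) := Q_45 (nat_lit 109) (C_45 L124854 (C_45 L125103 (C_45 L125131 (C_45 L125132 (C_45 L125145 (C_45 L125349 (C_45 L125559 (C_45 L125575 (C_45 L125590 N_45))))))))) (by decide +kernel)
theorem L125592 : W_45 (nat_lit 2) (nat_lit 0x10000c000e000000000000000000000000000) (nat_lit 0x0) (nat_lit 0x20030000000000000000000000000000) := D_45 (nat_lit 112) (nat_lit 125) (nat_lit 113) (nat_lit 1) (nat_lit 10) (nat_lit 6) (nat_lit 1) (nat_lit 11) (nat_lit 6) (by decide +kernel)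
theorem L125593 : W_45 (nat_lit 2) (nat_lit 0x10000c001f000800008000000000000000000) (nat_lit 0x0) (nat_lit 0x700000000000000000000000000000000) := D_45 (nat_lit 129) (nat_lit 128) (nat_lit 130) (nat_lit 3) (nat_lit 6) (nat_lit 6) (nat_lit 3) (nat_lit 7) (nat_lit 6) (by decide +kernel)
theorem L125594 : W_45 (nat_lit 3) (nat_lit 0x10000c001e000800008000000000000000000) (nat_lit 0x0) (nat_lit 0x700001000400000000000000000000000) := T_45 (nat_lit 108) (nat_lit 94) (nat_lit 2) (nat_lit 6) (nat_lit 6) L125593 (by decide +kernel)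
theorem L125595 : W_45 (nat_lit 4) (nat_lit 0x10000c001e000000008000000000000000000) (nat_lit 0x0) (nat_lit 0x700001001c00000000000000000000000) := T_45 (nat_lit 95) (nat_lit 96) (nat_lit 2) (nat_lit 7) (nat_lit 6) L125594 (by decide +kernel)
theorem L125596 : W_45 (nat_lit 5) (nat_lit 0x10000c000e000000008000000000000000000) (nat_lit 0x0) (nat_lit 0x700031001c00000000000000000000000) := T_45 (nat_lit 112) (nat_lit 113) (nat_lit 1) (nat_lit 11) (nat_lit 6) L125595 (by decide +kernel)
theorem L125597 : W_45 (nat_lit 6) (nat_lit 0x10000c000e000000000000000000000000000) (nat_lit 0x0) (nat_lit 0x700031001d00008000000000000000000) := T_45 (nat_lit 75) (nat_lit 92) (nat_lit 7) (nat_lit 7) (nat_lit 4) L125596 (by decide +kernel)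
theorem L125598 : W_45 (nat_lit 2) (nat_lit 0x10000c000e000400000000000000000000000) (nat_lit 0x0) (nat_lit 0x100000000000020001000000000000000) := D_45 (nat_lit 77) (nat_lit 60) (nat_lit 128) (nat_lit 5) (nat_lit 9) (nat_lit 3) (nat_lit 5) (nat_lit 9) (nat_lit 4) (by decide +kernel)
theorem L125599 : W_45 (nat_lit 2) (nat_lit 0x10000c000e000400000000000000000000000) (nat_lit 0x0) (nat_lit 0x200020001000000000000000) := D_45 (nat_lit 77) (nat_lit 60) (nat_lit 93) (nat_lit 5) (nat_lit 9) (nat_lit 3) (nat_lit 6) (nat_lit 8) (nat_lit 8) (by decide +kernel)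
theorem L125600 : W_45 (nat_lit 2) (nat_lit 0x10000c000e000400000000000000000000000) (nat_lit 0x0) (nat_lit 0x100000000200020000000000000000000) := D_45 (nat_lit 77) (nat_lit 128) (nat_lit 93) (nat_lit 5) (nat_lit 9) (nat_lit 4) (nat_lit 6) (nat_lit 8) (nat_lit 8) (by decide +kernel)
theorem L125601 : W_45 (nat_lit 2) (nat_lit 0x10002d000f000580000000000000000000000) (nat_lit 0x0) (nat_lit 0x800000000000000004000200000000000000) := D_45 (nat_lit 74) (nat_lit 57) (nat_lit 143) (nat_lit 7) (nat_lit 6) (nat_lit 3) (nat_lit 4) (nat_lit 7) (nat_lit 8) (by decide +kernel)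
theorem L125602 : W_45 (nat_lit 3) (nat_lit 0x10002d000f000480000000000000000000000) (nat_lit 0x0) (nat_lit 0x80000000000010000c000200000000000000) := T_45 (nat_lit 92) (nat_lit 75) (nat_lit 7) (nat_lit 7) (nat_lit 4) L125601 (by decide +kernel)
theorem L125603 : W_45 (nat_lit 4) (nat_lit 0x10002d000f000400000000000000000000000) (nat_lit 0x0) (nat_lit 0x8000000000001c000c000200000000000000) := T_45 (nat_lit 91) (nat_lit 90) (nat_lit 0) (nat_lit 9) (nat_lit 6) L125602 (by decide +kernel)
theorem L125604 : W_45 (nat_lit 5) (nat_lit 0x10000d000f000400000000000000000000000) (nat_lit 0x0) (nat_lit 0x8003000000001c000c000200000000000000) := T_45 (nat_lit 129) (nat_lit 128) (nat_lit 3) (nat_lit 6) (nat_lit 6) L125603 (by decide +kernel)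
theorem L125605 : W_45 (nat_lit 6) (nat_lit 0x10000d000e000400000000000000000000000) (nat_lit 0x0) (nat_lit 0x8003000010009c000c000200000000000000) := T_45 (nat_lit 108) (nat_lit 95) (nat_lit 2) (nat_lit 6) (nat_lit 6) L125604 (by decide +kernel)
theorem L125606 : W_45 (nat_lit 7) (nat_lit 0x10000c000e000400000000000000000000000) (nat_lit 0x0) (nat_lit 0x8003300010009c000c000200000000000000) := T_45 (nat_lit 124) (nat_lit 125) (nat_lit 2) (nat_lit 5) (nat_lit 7) L125605 (by decide +kernel)
theorem L125607 : W_45 (nat_lit 8) (nat_lit 0x10000c000e000000000000000000000000000) (nat_lit 0x0) (nat_lit 0x800330001000fc002c001200000000000000) := Q_45 (nat_lit 94) (C_45 L125598 (C_45 L125599 (C_45 L125600 (C_45 L125606 N_45)))) (by decide +kernel)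
theorem L125608 : W_45 (nat_lit 9) (nat_lit 0x10000c0006000000000000000000000000000) (nat_lit 0x0) (nat_lit 0x800730039001fc002c001200000000000000) := Q_45 (nat_lit 111) (C_45 L125592 (C_45 L125597 (C_45 L125607 N_45))) (by decide +kernel)
theorem L125609 : W_45 (nat_lit 2) (nat_lit 0x18000c0006000e00000000000000000000000) (nat_lit 0x0) (nat_lit 0x1000100008000000000000000000) := D_45 (nat_lit 92) (nat_lit 75) (nat_lit 108) (nat_lit 7) (nat_lit 7) (nat_lit 4) (nat_lit 1) (nat_lit 10) (nat_lit 5) (by decide +kernel)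
theorem L125610 : W_45 (nat_lit 3) (nat_lit 0x18000c0006000600000000000000000000000) (nat_lit 0x0) (nat_lit 0x1001900008000000000000000000) := T_45 (nat_lit 95) (nat_lit 96) (nat_lit 1) (nat_lit 11) (nat_lit 5) L125609 (by decide +kernel)
theorem L125611 : W_45 (nat_lit 4) (nat_lit 0x18000c0006000200000000000000000000000) (nat_lit 0x0) (nat_lit 0x1001d00028000000000000000000) := T_45 (nat_lit 94) (nat_lit 77) (nat_lit 6) (nat_lit 8) (nat_lit 8) L125610 (by decide +kernel)
theorem L125612 : W_45 (nat_lit 5) (nat_lit 0x10000c0006000200000000000000000000000) (nat_lit 0x0) (nat_lit 0x10000800000001001d00028000000000000000000) := T_45 (nat_lit 143) (nat_lit 160) (nat_lit 6) (nat_lit 7) (nat_lit 9) L125611 (by decide +kernel)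
theorem L125613 : W_45 (nat_lit 6) (nat_lit 0x10000c0006000000000000000000000000000) (nat_lit 0x0) (nat_lit 0x10000800000001001f00038000c00000000000000) := Q_45 (nat_lit 93) (C_45 L123159 (C_45 L123144 (C_45 L125612 N_45))) (by decide +kernel)
theorem L125614 : W_45 (nat_lit 2) (nat_lit 0x10001c000f000000008000000000000000000) (nat_lit 0x0) (nat_lit 0xc00020000000000000000000) := D_45 (nat_lit 94) (nat_lit 77) (nat_lit 95) (nat_lit 5) (nat_lit 9) (nat_lit 4) (nat_lit 2) (nat_lit 6) (nat_lit 6) (by decide +kernel)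
theorem L125615 : W_45 (nat_lit 3) (nat_lit 0x10000c000f000000008000000000000000000) (nat_lit 0x0) (nat_lit 0x300000000c00020000000000000000000) := T_45 (nat_lit 128) (nat_lit 129) (nat_lit 3) (nat_lit 6) (nat_lit 6) L125614 (by decide +kernel)
theorem L125616 : W_45 (nat_lit 4) (nat_lit 0x10000c000f000000000000000000000000000) (nat_lit 0x0) (nat_lit 0x300000000d00028000000000000000000) := T_45 (nat_lit 75) (nat_lit 92) (nat_lit 7) (nat_lit 7) (nat_lit 4) L125615 (by decide +kernel)
theorem L125617 : W_45 (nat_lit 2) (nat_lit 0x10001e000f000080008000000000000000000) (nat_lit 0x0) (nat_lit 0x10000800000000000000004000000000000000000) := D_45 (nat_lit 143) (nat_lit 160) (nat_lit 74) (nat_lit 4) (nat_lit 7) (nat_lit 9) (nat_lit 7) (nat_lit 6) (nat_lit 4) (by decide +kernel)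
theorem L125618 : W_45 (nat_lit 3) (nat_lit 0x10001e000f000000008000000000000000000) (nat_lit 0x0) (nat_lit 0x100008000000000000c0004000000000000000000) := T_45 (nat_lit 91) (nat_lit 90) (nat_lit 0) (nat_lit 9) (nat_lit 6) L125617 (by decide +kernel)
theorem L125619 : W_45 (nat_lit 4) (nat_lit 0x10001e000f000000000000000000000000000) (nat_lit 0x0) (nat_lit 0x100008000000000001c000c000000000000000000) := T_45 (nat_lit 75) (nat_lit 92) (nat_lit 7) (nat_lit 7) (nat_lit 4) L125618 (by decide +kernel)
theorem L125620 : W_45 (nat_lit 5) (nat_lit 0x10001c000f000000000000000000000000000) (nat_lit 0x0) (nat_lit 0x100008000300000001c000c000000000000000000) := T_45 (nat_lit 125) (nat_lit 124) (nat_lit 2) (nat_lit 5) (nat_lit 7) L125619 (by decide +kernel)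
theorem L125621 : W_45 (nat_lit 6) (nat_lit 0x10000c000f000000000000000000000000000) (nat_lit 0x0) (nat_lit 0x100008003300000001c000c000000000000000000) := T_45 (nat_lit 128) (nat_lit 129) (nat_lit 3) (nat_lit 6) (nat_lit 6) L125620 (by decide +kernel)
theorem L125622 : W_45 (nat_lit 2) (nat_lit 0x10000c000f000480004000000000000000000) (nat_lit 0x0) (nat_lit 0x800030000000000000000000000000000000) := D_45 (nat_lit 125) (nat_lit 124) (nat_lit 143) (nat_lit 2) (nat_lit 5) (nat_lit 7) (nat_lit 7) (nat_lit 6) (nat_lit 4) (by decide +kernel)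
theorem L125623 : W_45 (nat_lit 3) (nat_lit 0x10000c000f000480000000000000000000000) (nat_lit 0x0) (nat_lit 0x800030000000000004000200000000000000) := T_45 (nat_lit 74) (nat_lit 57) (nat_lit 7) (nat_lit 6) (nat_lit 3) L125622 (by decide +kernel)
theorem L125624 : W_45 (nat_lit 4) (nat_lit 0x10000c000f000080000000000000000000000) (nat_lit 0x0) (nat_lit 0x800030000000c00004000200000000000000) := T_45 (nat_lit 94) (nat_lit 95) (nat_lit 2) (nat_lit 6) (nat_lit 6) L125623 (by decide +kernel)
theorem L125625 : W_45 (nat_lit 5) (nat_lit 0x10000c000f000000000000000000000000000) (nat_lit 0x0) (nat_lit 0x800030000000cc0004000200000000000000) := T_45 (nat_lit 91) (nat_lit 90) (nat_lit 0) (nat_lit 9) (nat_lit 6) L125624 (by decide +kernel)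
theorem L125626 : W_45 (nat_lit 7) (nat_lit 0x10000c000e000000000000000000000000000) (nat_lit 0x0) (nat_lit 0x10000800330001000dc002c000200000000000000) := Q_45 (nat_lit 108) (C_45 L125616 (C_45 L125621 (C_45 L125625 N_45))) (by decide +kernel)
theorem L125627 : W_45 (nat_lit 8) (nat_lit 0x10000c0006000000000000000000000000000) (nat_lit 0x0) (nat_lit 0x10000800730039001dc002c000200000000000000) := Q_45 (nat_lit 111) (C_45 L125597 (C_45 L125592 (C_45 L125626 N_45))) (by decide +kernel)
theorem L125628 : W_45 (nat_lit 2) (nat_lit 0x10000c001f000800000000000000000000000) (nat_lit 0x0) (nat_lit 0x700000000000000000000000000000000) := D_45 (nat_lit 129) (nat_lit 128) (nat_lit 130) (nat_lit 3) (nat_lit 6) (nat_lit 6) (nat_lit 3) (nat_lit 7) (nat_lit 6) (by decide +kernel)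
theorem L125629 : W_45 (nat_lit 3) (nat_lit 0x10000c001e000800000000000000000000000) (nat_lit 0x0) (nat_lit 0x700001000400000000000000000000000) := T_45 (nat_lit 108) (nat_lit 94) (nat_lit 2) (nat_lit 6) (nat_lit 6) L125628 (by decide +kernel)
theorem L125630 : W_45 (nat_lit 4) (nat_lit 0x10000c001e000000000000000000000000000) (nat_lit 0x0) (nat_lit 0x700001001c00000000000000000000000) := T_45 (nat_lit 95) (nat_lit 96) (nat_lit 2) (nat_lit 7) (nat_lit 6) L125629 (by decide +kernel)
theorem L125631 : W_45 (nat_lit 5) (nat_lit 0x10000c000e000000000000000000000000000) (nat_lit 0x0) (nat_lit 0x700031001c00000000000000000000000) := T_45 (nat_lit 112) (nat_lit 113) (nat_lit 1) (nat_lit 11) (nat_lit 6) L125630 (by decide +kernel)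
theorem L125632 : W_45 (nat_lit 2) (nat_lit 0x10000d000e000c00000000000000000000000) (nat_lit 0x0) (nat_lit 0x3200000000000000000000000) := D_45 (nat_lit 96) (nat_lit 97) (nat_lit 93) (nat_lit 1) (nat_lit 12) (nat_lit 5) (nat_lit 1) (nat_lit 11) (nat_lit 5) (by decide +kernel)
theorem L125633 : W_45 (nat_lit 3) (nat_lit 0x10000d000e000400000000000000000000000) (nat_lit 0x0) (nat_lit 0x1003a00000000000000000000000) := T_45 (nat_lit 95) (nat_lit 108) (nat_lit 2) (nat_lit 6) (nat_lit 6) L125632 (by decide +kernel)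
theorem L125634 : W_45 (nat_lit 4) (nat_lit 0x10000c000e000400000000000000000000000) (nat_lit 0x0) (nat_lit 0x30001003a00000000000000000000000) := T_45 (nat_lit 124) (nat_lit 125) (nat_lit 2) (nat_lit 5) (nat_lit 7) L125633 (by decide +kernel)
theorem L125635 : W_45 (nat_lit 5) (nat_lit 0x10000c000e000000000000000000000000000) (nat_lit 0x0) (nat_lit 0x130001003e00020001000000000000000) := Q_45 (nat_lit 94) (C_45 L125600 (C_45 L125598 (C_45 L125599 (C_45 L125634 N_45)))) (by decide +kernel)
theorem L125636 : W_45 (nat_lit 6) (nat_lit 0x10000c0006000000000000000000000000000) (nat_lit 0x0) (nat_lit 0x730039003e00020001000000000000000) := Q_45 (nat_lit 111) (C_45 L125592 (C_45 L125631 (C_45 L125635 N_45))) (by decide +kernel)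
theorem L125637 : W_45 (nat_lit 10) (nat_lit 0x10000c0002000000000000000000000000000) (nat_lit 0x0) (nat_lit 0x1000080073003d003fe003c001e00000000000000) := Q_45 (nat_lit 110) (C_45 L123160 (C_45 L125608 (C_45 L125613 (C_45 L125627 (C_45 L125636 N_45))))) (by decide +kernel)
theorem L125638 : W_45 (nat_lit 2) (nat_lit 0x10000c0007000200010000000000000000000) (nat_lit 0x0) (nat_lit 0x400020001000000000000000) := D_45 (nat_lit 77) (nat_lit 94) (nat_lit 60) (nat_lit 6) (nat_lit 8) (nat_lit 8) (nat_lit 6) (nat_lit 8) (nat_lit 7) (by decide +kernel)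
theorem L125639 : W_45 (nat_lit 3) (nat_lit 0x10000c0007000200000000000000000000000) (nat_lit 0x0) (nat_lit 0x400030001800000000000000) := T_45 (nat_lit 76) (nat_lit 59) (nat_lit 5) (nat_lit 8) (nat_lit 3) L125638 (by decide +kernel)
theorem L125640 : W_45 (nat_lit 2) (nat_lit 0x10000c0007000600000000000000000000000) (nat_lit 0x0) (nat_lit 0x1900000000000000000000000) := D_45 (nat_lit 95) (nat_lit 96) (nat_lit 92) (nat_lit 1) (nat_lit 11) (nat_lit 5) (nat_lit 1) (nat_lit 10) (nat_lit 5) (by decide +kernel)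
theorem L125641 : W_45 (nat_lit 3) (nat_lit 0x10000c0007000200000000000000000000000) (nat_lit 0x0) (nat_lit 0x1d00020000000000000000000) := T_45 (nat_lit 94) (nat_lit 77) (nat_lit 6) (nat_lit 8) (nat_lit 8) L125640 (by decide +kernel)
theorem L125642 : W_45 (nat_lit 4) (nat_lit 0x10000c0007000000000000000000000000000) (nat_lit 0x0) (nat_lit 0x1f00038001c00000000000000) := Q_45 (nat_lit 93) (C_45 L123191 (C_45 L125639 (C_45 L125641 N_45))) (by decide +kernel)
theorem L125643 : W_45 (nat_lit 2) (nat_lit 0x10002e000f000080008000000000000000000) (nat_lit 0x0) (nat_lit 0x4000600000000000000) := D_45 (nat_lit 74) (nat_lit 58) (nat_lit 57) (nat_lit 6) (nat_lit 6) (nat_lit 7) (nat_lit 7) (nat_lit 6) (nat_lit 3) (by decide +kernel)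
theorem L125644 : W_45 (nat_lit 3) (nat_lit 0x10002e000f000000008000000000000000000) (nat_lit 0x0) (nat_lit 0xc0004000600000000000000) := T_45 (nat_lit 91) (nat_lit 90) (nat_lit 0) (nat_lit 9) (nat_lit 6) L125643 (by decide +kernel)
theorem L125645 : W_45 (nat_lit 4) (nat_lit 0x10000e000f000000008000000000000000000) (nat_lit 0x0) (nat_lit 0x3000000000c0004000600000000000000) := T_45 (nat_lit 129) (nat_lit 128) (nat_lit 3) (nat_lit 6) (nat_lit 6) L125644 (by decide +kernel)
theorem L125646 : W_45 (nat_lit 5) (nat_lit 0x10000c000f000000008000000000000000000) (nat_lit 0x0) (nat_lit 0x3300000000c0004000600000000000000) := T_45 (nat_lit 125) (nat_lit 124) (nat_lit 2) (nat_lit 5) (nat_lit 7) L125645 (by decide +kernel)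
theorem L125647 : W_45 (nat_lit 6) (nat_lit 0x10000c000f000000000000000000000000000) (nat_lit 0x0) (nat_lit 0x3300000001c000c000600000000000000) := T_45 (nat_lit 75) (nat_lit 92) (nat_lit 7) (nat_lit 7) (nat_lit 4) L125646 (by decide +kernel)
theorem L125648 : W_45 (nat_lit 2) (nat_lit 0x10000c000f000000000000000000000000000) (nat_lit 0x0) (nat_lit 0x30010000000000000000000000000000) := D_45 (nat_lit 125) (nat_lit 124) (nat_lit 112) (nat_lit 2) (nat_lit 5) (nat_lit 7) (nat_lit 1) (nat_lit 10) (nat_lit 6) (by decide +kernel)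
theorem L125649 : W_45 (nat_lit 7) (nat_lit 0x10000c0007000000000000000000000000000) (nat_lit 0x0) (nat_lit 0x3300380001c000c000600000000000000) := Q_45 (nat_lit 111) (C_45 L123176 (C_45 L125647 (C_45 L125648 N_45))) (by decide +kernel)
theorem L125650 : W_45 (nat_lit 2) (nat_lit 0x10002e000f000400000000000000000000000) (nat_lit 0x0) (nat_lit 0x200020001000000000000000) := D_45 (nat_lit 77) (nat_lit 60) (nat_lit 93) (nat_lit 5) (nat_lit 9) (nat_lit 3) (nat_lit 6) (nat_lit 8) (nat_lit 8) (by decide +kernel)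
theorem L125651 : W_45 (nat_lit 3) (nat_lit 0x10002e000f000000000000000000000000000) (nat_lit 0x0) (nat_lit 0xe00020001000000000000000) := T_45 (nat_lit 94) (nat_lit 95) (nat_lit 2) (nat_lit 6) (nat_lit 6) L125650 (by decide +kernel)
theorem L125652 : W_45 (nat_lit 4) (nat_lit 0x10002c000f000000000000000000000000000) (nat_lit 0x0) (nat_lit 0x30000000e00020001000000000000000) := T_45 (nat_lit 125) (nat_lit 124) (nat_lit 2) (nat_lit 5) (nat_lit 7) L125651 (by decide +kernel)
theorem L125653 : W_45 (nat_lit 5) (nat_lit 0x10000c000f000000000000000000000000000) (nat_lit 0x0) (nat_lit 0x330000000e00020001000000000000000) := T_45 (nat_lit 129) (nat_lit 128) (nat_lit 3) (nat_lit 6) (nat_lit 6) L125652 (by decide +kernel)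
theorem L125654 : W_45 (nat_lit 6) (nat_lit 0x10000c0007000000000000000000000000000) (nat_lit 0x0) (nat_lit 0x330038000e00020001000000000000000) := Q_45 (nat_lit 111) (C_45 L125648 (C_45 L123179 (C_45 L125653 N_45))) (by decide +kernel)
theorem L125655 : W_45 (nat_lit 8) (nat_lit 0x10000c0003000000000000000000000000000) (nat_lit 0x0) (nat_lit 0x33003c001fc003c001e00000000000000) := Q_45 (nat_lit 110) (C_45 L123193 (C_45 L125642 (C_45 L125649 (C_45 L125654 N_45)))) (by decide +kernel)
theorem L125656 : W_45 (nat_lit 2) (nat_lit 0x10000d0007800040008000000000000000000) (nat_lit 0x0) (nat_lit 0x20008000080000000000000000000000) := D_45 (nat_lit 111) (nat_lit 91) (nat_lit 125) (nat_lit 0) (nat_lit 9) (nat_lit 6) (nat_lit 2) (nat_lit 5) (nat_lit 7) (by decide +kernel)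
theorem L125657 : W_45 (nat_lit 3) (nat_lit 0x10000c0007800040008000000000000000000) (nat_lit 0x0) (nat_lit 0x38008000080000000000000000000000) := T_45 (nat_lit 124) (nat_lit 123) (nat_lit 1) (nat_lit 8) (nat_lit 6) L125656 (by decide +kernel)
theorem L125658 : W_45 (nat_lit 4) (nat_lit 0x10000c0007800000008000000000000000000) (nat_lit 0x0) (nat_lit 0x380080000e0000000000000000000000) := T_45 (nat_lit 90) (nat_lit 89) (nat_lit 0) (nat_lit 8) (nat_lit 6) L125657 (by decide +kernel)
theorem L125659 : W_45 (nat_lit 5) (nat_lit 0x10000c0007800000000000000000000000000) (nat_lit 0x0) (nat_lit 0x380080001e0008000000000000000000) := T_45 (nat_lit 75) (nat_lit 92) (nat_lit 7) (nat_lit 7) (nat_lit 4) L125658 (by decide +kernel)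
theorem L125660 : W_45 (nat_lit 6) (nat_lit 0x10000c0007000000000000000000000000000) (nat_lit 0x0) (nat_lit 0x38008c001e0008000000000000000000) := T_45 (nat_lit 107) (nat_lit 106) (nat_lit 3) (nat_lit 4) (nat_lit 6) L125659 (by decide +kernel)
theorem L125661 : W_45 (nat_lit 2) (nat_lit 0x12000f0007800200000000800000000000000) (nat_lit 0x0) (nat_lit 0x4000000000000000080004000000000000000000) := D_45 (nat_lit 91) (nat_lit 74) (nat_lit 158) (nat_lit 5) (nat_lit 6) (nat_lit 4) (nat_lit 6) (nat_lit 5) (nat_lit 9) (by decide +kernel)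
theorem L125662 : W_45 (nat_lit 3) (nat_lit 0x10000f0007800200000000800000000000000) (nat_lit 0x0) (nat_lit 0x4000300000000000080004000000000000000000) := T_45 (nat_lit 141) (nat_lit 140) (nat_lit 1) (nat_lit 8) (nat_lit 7) L125661 (by decide +kernel)
theorem L125663 : W_45 (nat_lit 4) (nat_lit 0x10000d0007800200000000800000000000000) (nat_lit 0x0) (nat_lit 0x4000300020008000080004000000000000000000) := T_45 (nat_lit 125) (nat_lit 111) (nat_lit 2) (nat_lit 5) (nat_lit 7) L125662 (by decide +kernel)
theorem L125664 : W_45 (nat_lit 5) (nat_lit 0x10000d0007800200000000000000000000000) (nat_lit 0x0) (nat_lit 0x4000300020008000080014000800000000000000) := T_45 (nat_lit 59) (nat_lit 76) (nat_lit 5) (nat_lit 8) (nat_lit 3) L125663 (by decide +kernel)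
theorem L125665 : W_45 (nat_lit 6) (nat_lit 0x10000c0007800200000000000000000000000) (nat_lit 0x0) (nat_lit 0x4000300038008000080014000800000000000000) := T_45 (nat_lit 124) (nat_lit 123) (nat_lit 1) (nat_lit 8) (nat_lit 6) L125664 (by decide +kernel)
theorem L125666 : W_45 (nat_lit 7) (nat_lit 0x10000c0007800000000000000000000000000) (nat_lit 0x0) (nat_lit 0x4000300038008000680014000800000000000000) := T_45 (nat_lit 93) (nat_lit 94) (nat_lit 2) (nat_lit 5) (nat_lit 6) L125665 (by decide +kernel)
theorem L125667 : W_45 (nat_lit 8) (nat_lit 0x10000c0007000000000000000000000000000) (nat_lit 0x0) (nat_lit 0x4000300038008c00680014000800000000000000) := T_45 (nat_lit 107) (nat_lit 106) (nat_lit 3) (nat_lit 4) (nat_lit 6) L125666 (by decide +kernel)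
theorem L125668 : W_45 (nat_lit 9) (nat_lit 0x10000c0003000000000000000000000000000) (nat_lit 0x0) (nat_lit 0x400030003800cc01fe003c001c00000000000000) := Q_45 (nat_lit 110) (C_45 L125642 (C_45 L125660 (C_45 L125667 N_45))) (by decide +kernel)
theorem L125669 : W_45 (nat_lit 10) (nat_lit 0x10000c0002000000000000000000000000000) (nat_lit 0x0) (nat_lit 0x400030033803dc01fe003c001e00000000000000) := Q_45 (nat_lit 108) (C_45 L125655 (C_45 L123227 (C_45 L125668 (C_45 L125574 N_45)))) (by decide +kernel)
theorem L125670 : W_45 (nat_lit 2) (nat_lit 0x18000c0003000080000000000000000000000) (nat_lit 0x0) (nat_lit 0x20000000000004000200000000000000) := D_45 (nat_lit 74) (nat_lit 57) (nat_lit 125) (nat_lit 7) (nat_lit 6) (nat_lit 3) (nat_lit 7) (nat_lit 6) (nat_lit 4) (by decide +kernel)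
theorem L125671 : W_45 (nat_lit 3) (nat_lit 0x10000c0003000080000000000000000000000) (nat_lit 0x0) (nat_lit 0x10000800020000000000004000200000000000000) := T_45 (nat_lit 143) (nat_lit 160) (nat_lit 4) (nat_lit 7) (nat_lit 9) L125670 (by decide +kernel)
theorem L125672 : W_45 (nat_lit 5) (nat_lit 0x10000c0003000080004000000000000000000) (nat_lit 0x0) (nat_lit 0x20003c004000100008000400000000000000) := T_45 (nat_lit 75) (nat_lit 92) (nat_lit 7) (nat_lit 7) (nat_lit 4) L124962 (by decide +kernel)
theorem L125673 : W_45 (nat_lit 6) (nat_lit 0x10000c0003000080000000000000000000000) (nat_lit 0x0) (nat_lit 0x20003c00400010000c000600000000000000) := T_45 (nat_lit 74) (nat_lit 57) (nat_lit 7) (nat_lit 6) (nat_lit 3) L125672 (by decide +kernel)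
theorem L125674 : W_45 (nat_lit 2) (nat_lit 0x1c0018000f0003000000000000000000000000000) (nat_lit 0x0) (nat_lit 0x80000000300000000000000000000000000000000000) := D_45 (nat_lit 141) (nat_lit 140) (nat_lit 175) (nat_lit 1) (nat_lit 8) (nat_lit 7) (nat_lit 6) (nat_lit 5) (nat_lit 10) (by decide +kernel)
theorem L125675 : W_45 (nat_lit 3) (nat_lit 0x180018000f0003000000000000000000000000000) (nat_lit 0x0) (nat_lit 0x80006000300000000000000000000000000000000000) := T_45 (nat_lit 158) (nat_lit 157) (nat_lit 2) (nat_lit 4) (nat_lit 9) L125674 (by decide +kernel)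
theorem L125676 : W_45 (nat_lit 4) (nat_lit 0x100018000f0003000000000000000000000000000) (nat_lit 0x0) (nat_lit 0x18000e000300000000000000000000000000000000000) := T_45 (nat_lit 159) (nat_lit 176) (nat_lit 5) (nat_lit 7) (nat_lit 6) L125675 (by decide +kernel)
theorem L125677 : W_45 (nat_lit 2) (nat_lit 0x100018002c0003000300000000000000000000000) (nat_lit 0x0) (nat_lit 0x4000200000000000020000000000000000000000000000000) := D_45 (nat_lit 177) (nat_lit 125) (nat_lit 194) (nat_lit 4) (nat_lit 7) (nat_lit 10) (nat_lit 6) (nat_lit 7) (nat_lit 11) (by decide +kernel)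
theorem L125678 : W_45 (nat_lit 3) (nat_lit 0x18002c0003000300000000000000000000000) (nat_lit 0x0) (nat_lit 0x4000200010000000020004000000000000000000000000000) := T_45 (nat_lit 160) (nat_lit 110) (nat_lit 6) (nat_lit 7) (nat_lit 9) L125677 (by decide +kernel)
theorem L125679 : W_45 (nat_lit 2) (nat_lit 0x10002c000300008000c000000000000000000) (nat_lit 0x0) (nat_lit 0x800020000000000000000400000000000000) := D_45 (nat_lit 125) (nat_lit 58) (nat_lit 143) (nat_lit 6) (nat_lit 6) (nat_lit 7) (nat_lit 7) (nat_lit 6) (nat_lit 4) (by decide +kernel)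
theorem L125680 : W_45 (nat_lit 3) (nat_lit 0x10002c000300000000c000000000000000000) (nat_lit 0x0) (nat_lit 0x800020000000080000000600000000000000) := T_45 (nat_lit 91) (nat_lit 57) (nat_lit 7) (nat_lit 6) (nat_lit 3) L125679 (by decide +kernel)
theorem L125681 : W_45 (nat_lit 4) (nat_lit 0x10000c000300000000c000000000000000000) (nat_lit 0x0) (nat_lit 0x800320000000080000000600000000000000) := T_45 (nat_lit 129) (nat_lit 128) (nat_lit 0) (nat_lit 10) (nat_lit 7) L125680 (by decide +kernel)
theorem L125682 : W_45 (nat_lit 2) (nat_lit 0x10001f000a000000008000000000000000000) (nat_lit 0x0) (nat_lit 0x1c00000000000000000000000000) := D_45 (nat_lit 107) (nat_lit 108) (nat_lit 106) (nat_lit 0) (nat_lit 9) (nat_lit 7) (nat_lit 0) (nat_lit 8) (nat_lit 7) (by decide +kernel)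
theorem L125683 : W_45 (nat_lit 3) (nat_lit 0x10001e000a000000008000000000000000000) (nat_lit 0x0) (nat_lit 0x10005c00000000000000000000000000) := T_45 (nat_lit 124) (nat_lit 110) (nat_lit 2) (nat_lit 5) (nat_lit 7) L125682 (by decide +kernel)
theorem L125684 : W_45 (nat_lit 4) (nat_lit 0x10001e0002000000008000000000000000000) (nat_lit 0x0) (nat_lit 0x1001dc00000000000000000000000000) := T_45 (nat_lit 111) (nat_lit 112) (nat_lit 2) (nat_lit 6) (nat_lit 7) L125683 (by decide +kernel)
theorem L125685 : W_45 (nat_lit 5) (nat_lit 0x10001e0002000000000000000000000000000) (nat_lit 0x0) (nat_lit 0x1001dc00100008000000000000000000) := T_45 (nat_lit 75) (nat_lit 92) (nat_lit 7) (nat_lit 7) (nat_lit 4) L125684 (by decide +kernel)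
theorem L125686 : W_45 (nat_lit 2) (nat_lit 0x12001fc00a000000008000000000000000000) (nat_lit 0x0) (nat_lit 0x700000000000000000000000000) := D_45 (nat_lit 105) (nat_lit 106) (nat_lit 104) (nat_lit 0) (nat_lit 7) (nat_lit 7) (nat_lit 0) (nat_lit 6) (nat_lit 7) (by decide +kernel)
theorem L125687 : W_45 (nat_lit 3) (nat_lit 0x12001f800a000000008000000000000000000) (nat_lit 0x0) (nat_lit 0x4001700000000000000000000000000) := T_45 (nat_lit 122) (nat_lit 108) (nat_lit 2) (nat_lit 3) (nat_lit 7) L125686 (by decide +kernel)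
theorem L125688 : W_45 (nat_lit 4) (nat_lit 0x12001f000a000000008000000000000000000) (nat_lit 0x0) (nat_lit 0x80000c001700000000000000000000000000) := T_45 (nat_lit 123) (nat_lit 143) (nat_lit 3) (nat_lit 4) (nat_lit 7) L125687 (by decide +kernel)
theorem L125689 : W_45 (nat_lit 5) (nat_lit 0x10001f000a000000008000000000000000000) (nat_lit 0x0) (nat_lit 0xb0000c001700000000000000000000000000) := T_45 (nat_lit 141) (nat_lit 140) (nat_lit 1) (nat_lit 8) (nat_lit 7) L125688 (by decide +kernel)
theorem L125690 : W_45 (nat_lit 6) (nat_lit 0x10001e000a000000008000000000000000000) (nat_lit 0x0) (nat_lit 0xb0001c005700000000000000000000000000) := T_45 (nat_lit 124) (nat_lit 110) (nat_lit 2) (nat_lit 5) (nat_lit 7) L125689 (by decide +kernel)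
theorem L125691 : W_45 (nat_lit 7) (nat_lit 0x10001e0002000000008000000000000000000) (nat_lit 0x0) (nat_lit 0xb0001c01d700000000000000000000000000) := T_45 (nat_lit 111) (nat_lit 112) (nat_lit 2) (nat_lit 6) (nat_lit 7) L125690 (by decide +kernel)
theorem L125692 : W_45 (nat_lit 8) (nat_lit 0x10001e0002000000000000000000000000000) (nat_lit 0x0) (nat_lit 0xb0001c01d700100008000000000000000000) := T_45 (nat_lit 75) (nat_lit 92) (nat_lit 7) (nat_lit 7) (nat_lit 4) L125691 (by decide +kernel)
theorem L125693 : W_45 (nat_lit 2) (nat_lit 0x10001f0002800000008000000000000000000) (nat_lit 0x0) (nat_lit 0x800008004000000000000000000000000000) := D_45 (nat_lit 123) (nat_lit 110) (nat_lit 143) (nat_lit 2) (nat_lit 4) (nat_lit 7) (nat_lit 3) (nat_lit 4) (nat_lit 7) (by decide +kernel)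
theorem L125694 : W_45 (nat_lit 3) (nat_lit 0x10001e0002800000008000000000000000000) (nat_lit 0x0) (nat_lit 0x800018004400000000000000000000000000) := T_45 (nat_lit 124) (nat_lit 106) (nat_lit 0) (nat_lit 8) (nat_lit 7) L125693 (by decide +kernel)
theorem L125695 : W_45 (nat_lit 4) (nat_lit 0x10001e0002800000000000000000000000000) (nat_lit 0x0) (nat_lit 0x800018004400100008000000000000000000) := T_45 (nat_lit 75) (nat_lit 92) (nat_lit 7) (nat_lit 7) (nat_lit 4) L125694 (by decide +kernel)
theorem L125696 : W_45 (nat_lit 5) (nat_lit 0x10001e0002000000000000000000000000000) (nat_lit 0x0) (nat_lit 0x800018005c00100008000000000000000000) := T_45 (nat_lit 107) (nat_lit 108) (nat_lit 0) (nat_lit 9) (nat_lit 7) L125695 (by decide +kernel)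
theorem L125697 : W_45 (nat_lit 2) (nat_lit 0x100018001e000a000300000000000000000000000) (nat_lit 0x0) (nat_lit 0x200000000000000001800000000000000000000000000) := D_45 (nat_lit 108) (nat_lit 107) (nat_lit 177) (nat_lit 0) (nat_lit 9) (nat_lit 7) (nat_lit 4) (nat_lit 7) (nat_lit 10) (by decide +kernel)
theorem L125698 : W_45 (nat_lit 3) (nat_lit 0x18001e000a000300000000000000000000000) (nat_lit 0x0) (nat_lit 0x200010000000000005800000000000000000000000000) := T_45 (nat_lit 160) (nat_lit 110) (nat_lit 6) (nat_lit 7) (nat_lit 9) L125697 (by decide +kernel)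
theorem L125699 : W_45 (nat_lit 4) (nat_lit 0x18001e000a000100000000000000000000000) (nat_lit 0x0) (nat_lit 0x200010000000000005800200010000000000000000000) := T_45 (nat_lit 93) (nat_lit 76) (nat_lit 6) (nat_lit 7) (nat_lit 8) L125698 (by decide +kernel)
theorem L125700 : W_45 (nat_lit 5) (nat_lit 0x18001e0002000100000000000000000000000) (nat_lit 0x0) (nat_lit 0x20001000000000001d800200010000000000000000000) := T_45 (nat_lit 111) (nat_lit 112) (nat_lit 2) (nat_lit 6) (nat_lit 7) L125699 (by decide +kernel)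
theorem L125701 : W_45 (nat_lit 6) (nat_lit 0x18001e0002000000000000000000000000000) (nat_lit 0x0) (nat_lit 0x20001000000000001d800300018000000000000000000) := T_45 (nat_lit 92) (nat_lit 75) (nat_lit 7) (nat_lit 7) (nat_lit 4) L125700 (by decide +kernel)
theorem L125702 : W_45 (nat_lit 2) (nat_lit 0x18001e000b0003c0001000000000000000000) (nat_lit 0x0) (nat_lit 0x30000800000000000000000) := D_45 (nat_lit 89) (nat_lit 88) (nat_lit 71) (nat_lit 3) (nat_lit 3) (nat_lit 5) (nat_lit 0) (nat_lit 7) (nat_lit 5) (by decide +kernel)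
theorem L125703 : W_45 (nat_lit 3) (nat_lit 0x18001e000b0003c0000000000000000000000) (nat_lit 0x0) (nat_lit 0x30003800000000000000000) := T_45 (nat_lit 72) (nat_lit 73) (nat_lit 0) (nat_lit 8) (nat_lit 5) L125702 (by decide +kernel)
theorem L125704 : W_45 (nat_lit 4) (nat_lit 0x18001e000b0001c0000000000000000000000) (nat_lit 0x0) (nat_lit 0x230013800000000000000000) := T_45 (nat_lit 93) (nat_lit 76) (nat_lit 6) (nat_lit 7) (nat_lit 8) L125703 (by decide +kernel)
theorem L125705 : W_45 (nat_lit 5) (nat_lit 0x18001e000b000180000000000000000000000) (nat_lit 0x0) (nat_lit 0x4000270013800000000000000000) := T_45 (nat_lit 90) (nat_lit 110) (nat_lit 0) (nat_lit 9) (nat_lit 6) L125704 (by decide +kernel)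
theorem L125706 : W_45 (nat_lit 6) (nat_lit 0x18001e000b000100000000000000000000000) (nat_lit 0x0) (nat_lit 0x40002f0017800000000000000000) := T_45 (nat_lit 91) (nat_lit 74) (nat_lit 7) (nat_lit 6) (nat_lit 4) L125705 (by decide +kernel)
theorem L125707 : W_45 (nat_lit 7) (nat_lit 0x18001e000a000100000000000000000000000) (nat_lit 0x0) (nat_lit 0x58002f0017800000000000000000) := T_45 (nat_lit 108) (nat_lit 107) (nat_lit 0) (nat_lit 9) (nat_lit 7) L125706 (by decide +kernel)
theorem L125708 : W_45 (nat_lit 8) (nat_lit 0x18001e000a000000000000000000000000000) (nat_lit 0x0) (nat_lit 0x58003f001f800000000000000000) := T_45 (nat_lit 92) (nat_lit 75) (nat_lit 7) (nat_lit 7) (nat_lit 4) L125707 (by decide +kernel)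
theorem L125709 : W_45 (nat_lit 9) (nat_lit 0x18001e0002000000000000000000000000000) (nat_lit 0x0) (nat_lit 0x1d8003f001f800000000000000000) := T_45 (nat_lit 111) (nat_lit 112) (nat_lit 2) (nat_lit 6) (nat_lit 7) L125708 (by decide +kernel)
theorem L125710 : W_45 (nat_lit 2) (nat_lit 0x18001e0003000000000000000000000000000) (nat_lit 0x0) (nat_lit 0x10000000000000000080004000000000000000000) := D_45 (nat_lit 91) (nat_lit 74) (nat_lit 160) (nat_lit 7) (nat_lit 6) (nat_lit 4) (nat_lit 4) (nat_lit 7) (nat_lit 9) (by decide +kernel)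
theorem L125711 : W_45 (nat_lit 3) (nat_lit 0x18001e0002000000000000000000000000000) (nat_lit 0x0) (nat_lit 0x10000000000001800080004000000000000000000) := T_45 (nat_lit 108) (nat_lit 107) (nat_lit 0) (nat_lit 9) (nat_lit 7) L125710 (by decide +kernel)
theorem L125712 : W_45 (nat_lit 5) (nat_lit 0x18001e0002000100000000000000000000000) (nat_lit 0x0) (nat_lit 0x1000000000001c0002c0014000000000000000000) := T_45 (nat_lit 111) (nat_lit 112) (nat_lit 2) (nat_lit 6) (nat_lit 7) L122204 (by decide +kernel)
theorem L125713 : W_45 (nat_lit 6) (nat_lit 0x18001e0002000000000000000000000000000) (nat_lit 0x0) (nat_lit 0x1000000000001c0003c001c000000000000000000) := T_45 (nat_lit 92) (nat_lit 75) (nat_lit 7) (nat_lit 7) (nat_lit 4) L125712 (by decide +kernel)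
theorem L125714 : W_45 (nat_lit 10) (nat_lit 0x10001e0002000000000000000000000000000) (nat_lit 0x0) (nat_lit 0x20001000080000001d8003f001f800000000000000000) := Q_45 (nat_lit 143) (C_45 L125701 (C_45 L125709 (C_45 L125711 (C_45 L125713 N_45)))) (by decide +kernel)
theorem L125715 : W_45 (nat_lit 2) (nat_lit 0x10001f000a000000000000000000000000000) (nat_lit 0x0) (nat_lit 0x1c00000000000000000000000000) := D_45 (nat_lit 107) (nat_lit 108) (nat_lit 106) (nat_lit 0) (nat_lit 9) (nat_lit 7) (nat_lit 0) (nat_lit 8) (nat_lit 7) (by decide +kernel)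
theorem L125716 : W_45 (nat_lit 3) (nat_lit 0x10001e000a000000000000000000000000000) (nat_lit 0x0) (nat_lit 0x10005c00000000000000000000000000) := T_45 (nat_lit 124) (nat_lit 110) (nat_lit 2) (nat_lit 5) (nat_lit 7) L125715 (by decide +kernel)
theorem L125717 : W_45 (nat_lit 4) (nat_lit 0x10001e0002000000000000000000000000000) (nat_lit 0x0) (nat_lit 0x1001dc00000000000000000000000000) := T_45 (nat_lit 111) (nat_lit 112) (nat_lit 2) (nat_lit 6) (nat_lit 7) L125716 (by decide +kernel)
theorem L125718 : W_45 (nat_lit 2) (nat_lit 0x10001f800a000000008000000000000000000) (nat_lit 0x0) (nat_lit 0x380000000000000000000000000000000000) := D_45 (nat_lit 140) (nat_lit 139) (nat_lit 141) (nat_lit 1) (nat_lit 7) (nat_lit 7) (nat_lit 1) (nat_lit 8) (nat_lit 7) (by decide +kernel)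
theorem L125719 : W_45 (nat_lit 3) (nat_lit 0x10001f000a000000008000000000000000000) (nat_lit 0x0) (nat_lit 0xb80008000000000000000000000000000000) := T_45 (nat_lit 123) (nat_lit 143) (nat_lit 3) (nat_lit 4) (nat_lit 7) L125718 (by decide +kernel)
theorem L125720 : W_45 (nat_lit 4) (nat_lit 0x10001e000a000000008000000000000000000) (nat_lit 0x0) (nat_lit 0xb80018004000000000000000000000000000) := T_45 (nat_lit 124) (nat_lit 110) (nat_lit 2) (nat_lit 5) (nat_lit 7) L125719 (by decide +kernel)
theorem L125721 : W_45 (nat_lit 5) (nat_lit 0x10001e0002000000008000000000000000000) (nat_lit 0x0) (nat_lit 0xb8001801c000000000000000000000000000) := T_45 (nat_lit 111) (nat_lit 112) (nat_lit 2) (nat_lit 6) (nat_lit 7) L125720 (by decide +kernel)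
theorem L125722 : W_45 (nat_lit 6) (nat_lit 0x10001e0002000000000000000000000000000) (nat_lit 0x0) (nat_lit 0xb8001801c000100008000000000000000000) := T_45 (nat_lit 75) (nat_lit 92) (nat_lit 7) (nat_lit 7) (nat_lit 4) L125721 (by decide +kernel)
theorem L125723 : W_45 (nat_lit 2) (nat_lit 0x11001f000a800000008000000000000000000) (nat_lit 0x0) (nat_lit 0x880008000000000000000000000000000000) := D_45 (nat_lit 123) (nat_lit 143) (nat_lit 139) (nat_lit 3) (nat_lit 4) (nat_lit 7) (nat_lit 1) (nat_lit 7) (nat_lit 7) (by decide +kernel)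
theorem L125724 : W_45 (nat_lit 3) (nat_lit 0x10001f000a800000008000000000000000000) (nat_lit 0x0) (nat_lit 0xb80008000000000000000000000000000000) := T_45 (nat_lit 140) (nat_lit 141) (nat_lit 1) (nat_lit 8) (nat_lit 7) L125723 (by decide +kernel)
theorem L125725 : W_45 (nat_lit 4) (nat_lit 0x10001e000a800000008000000000000000000) (nat_lit 0x0) (nat_lit 0xb80018000400000000000000000000000000) := T_45 (nat_lit 124) (nat_lit 106) (nat_lit 0) (nat_lit 8) (nat_lit 7) L125724 (by decide +kernel)
theorem L125726 : W_45 (nat_lit 5) (nat_lit 0x10001e000a800000000000000000000000000) (nat_lit 0x0) (nat_lit 0xb80018000400100008000000000000000000) := T_45 (nat_lit 75) (nat_lit 92) (nat_lit 7) (nat_lit 7) (nat_lit 4) L125725 (by decide +kernel)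
theorem L125727 : W_45 (nat_lit 6) (nat_lit 0x10001e000a000000000000000000000000000) (nat_lit 0x0) (nat_lit 0xb80018001c00100008000000000000000000) := T_45 (nat_lit 107) (nat_lit 108) (nat_lit 0) (nat_lit 9) (nat_lit 7) L125726 (by decide +kernel)
theorem L125728 : W_45 (nat_lit 7) (nat_lit 0x10001e0002000000000000000000000000000) (nat_lit 0x0) (nat_lit 0xb80018019c00100008000000000000000000) := T_45 (nat_lit 111) (nat_lit 112) (nat_lit 2) (nat_lit 6) (nat_lit 7) L125727 (by decide +kernel)
theorem L125729 : W_45 (nat_lit 11) (nat_lit 0x10001c0002000000000000000000000000000) (nat_lit 0x0) (nat_lit 0x200010000b8003c01df003f001f800000000000000000) := Q_45 (nat_lit 125) (C_45 L125685 (C_45 L125692 (C_45 L125696 (C_45 L125714 (C_45 L125717 (C_45 L125722 (C_45 L125728 N_45))))))) (by decide +kernel)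
theorem L125730 : W_45 (nat_lit 2) (nat_lit 0x58003c0012000180000000000000000000000) (nat_lit 0x0) (nat_lit 0x2000c000000000000000000000000000) := D_45 (nat_lit 111) (nat_lit 125) (nat_lit 110) (nat_lit 2) (nat_lit 6) (nat_lit 7) (nat_lit 0) (nat_lit 10) (nat_lit 6) (by decide +kernel)
theorem L125731 : W_45 (nat_lit 3) (nat_lit 0x58003c0002000180000000000000000000000) (nat_lit 0x0) (nat_lit 0x2003c000000000000000000000000000) := T_45 (nat_lit 112) (nat_lit 113) (nat_lit 2) (nat_lit 7) (nat_lit 7) L125730 (by decide +kernel)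
theorem L125732 : W_45 (nat_lit 4) (nat_lit 0x18003c0002000180000000000000000000000) (nat_lit 0x0) (nat_lit 0xc00002003c000000000000000000000000000) := T_45 (nat_lit 146) (nat_lit 147) (nat_lit 3) (nat_lit 7) (nat_lit 7) L125731 (by decide +kernel)
theorem L125733 : W_45 (nat_lit 2) (nat_lit 0x10007e0012000000000000000000000000000) (nat_lit 0x0) (nat_lit 0x1c000000000000000000000000000000000000) := D_45 (nat_lit 147) (nat_lit 146) (nat_lit 148) (nat_lit 3) (nat_lit 7) (nat_lit 7) (nat_lit 3) (nat_lit 8) (nat_lit 7) (by decide +kernel)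
theorem L125734 : W_45 (nat_lit 3) (nat_lit 0x10003e0012000000000000000000000000000) (nat_lit 0x0) (nat_lit 0x1c800400000000000000000000000000000000) := T_45 (nat_lit 130) (nat_lit 143) (nat_lit 1) (nat_lit 11) (nat_lit 7) L125733 (by decide +kernel)
theorem L125735 : W_45 (nat_lit 4) (nat_lit 0x10001e0012000000000000000000000000000) (nat_lit 0x0) (nat_lit 0x1c800600020000000000000000000000000000) := T_45 (nat_lit 129) (nat_lit 113) (nat_lit 2) (nat_lit 7) (nat_lit 7) L125734 (by decide +kernel)
theorem L125736 : W_45 (nat_lit 5) (nat_lit 0x10001c0012000000000000000000000000000) (nat_lit 0x0) (nat_lit 0x1c800620028000000000000000000000000000) := T_45 (nat_lit 125) (nat_lit 111) (nat_lit 2) (nat_lit 6) (nat_lit 7) L125735 (by decide +kernel)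
theorem L125737 : W_45 (nat_lit 2) (nat_lit 0x10007e0012000000008000000000000000000) (nat_lit 0x0) (nat_lit 0x1c000000000000000000000000000000000000) := D_45 (nat_lit 147) (nat_lit 146) (nat_lit 148) (nat_lit 3) (nat_lit 7) (nat_lit 7) (nat_lit 3) (nat_lit 8) (nat_lit 7) (by decide +kernel)
theorem L125738 : W_45 (nat_lit 3) (nat_lit 0x18001c0002000380000000000000000000000) (nat_lit 0x0) (nat_lit 0x1000000000000c000060000000000000000000000) := T_45 (nat_lit 110) (nat_lit 160) (nat_lit 6) (nat_lit 7) (nat_lit 9) L123763 (by decide +kernel)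
theorem L125739 : W_45 (nat_lit 4) (nat_lit 0x18001c0002000180000000000000000000000) (nat_lit 0x0) (nat_lit 0x1000000000000c000260010000000000000000000) := T_45 (nat_lit 93) (nat_lit 76) (nat_lit 6) (nat_lit 7) (nat_lit 8) L125738 (by decide +kernel)
theorem L125740 : W_45 (nat_lit 5) (nat_lit 0x10001c0002000180000000000000000000000) (nat_lit 0x0) (nat_lit 0x1000080000000c000260014000000000000000000) := T_45 (nat_lit 143) (nat_lit 74) (nat_lit 4) (nat_lit 7) (nat_lit 8) L125739 (by decide +kernel)
theorem L125741 : W_45 (nat_lit 5) (nat_lit 0x18001c0002000180000000000000000000000) (nat_lit 0x0) (nat_lit 0xc00062003c000000000000000000000000000) := T_45 (nat_lit 129) (nat_lit 130) (nat_lit 1) (nat_lit 11) (nat_lit 7) L125732 (by decide +kernel)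
theorem L125742 : W_45 (nat_lit 6) (nat_lit 0x10001c0002000180000000000000000000000) (nat_lit 0x0) (nat_lit 0xc80062003c000000004000000000000000000) := T_45 (nat_lit 143) (nat_lit 74) (nat_lit 4) (nat_lit 7) (nat_lit 8) L125741 (by decide +kernel)
theorem L125743 : W_45 (nat_lit 6) (nat_lit 0x18001c0002000180000000000000000000000) (nat_lit 0x0) (nat_lit 0x6000300018000000600004000200010000000000000000000) := T_45 (nat_lit 130) (nat_lit 129) (nat_lit 1) (nat_lit 11) (nat_lit 7) L124849 (by decide +kernel)
theorem L125744 : W_45 (nat_lit 7) (nat_lit 0x10001c0002000180000000000000000000000) (nat_lit 0x0) (nat_lit 0x6000300018000800600004000200014000000000000000000) := T_45 (nat_lit 143) (nat_lit 74) (nat_lit 4) (nat_lit 7) (nat_lit 8) L125743 (by decide +kernel)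
theorem L125745 : W_45 (nat_lit 2) (nat_lit 0x18005c00024003c0001000000000000000000) (nat_lit 0x0) (nat_lit 0x200020000800000000000000000) := D_45 (nat_lit 89) (nat_lit 105) (nat_lit 71) (nat_lit 1) (nat_lit 7) (nat_lit 5) (nat_lit 0) (nat_lit 7) (nat_lit 5) (by decide +kernel)
theorem L125746 : W_45 (nat_lit 3) (nat_lit 0x18005c00024003c0000000000000000000000) (nat_lit 0x0) (nat_lit 0x200020003800000000000000000) := T_45 (nat_lit 72) (nat_lit 73) (nat_lit 0) (nat_lit 8) (nat_lit 5) L125745 (by decide +kernel)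
theorem L125747 : W_45 (nat_lit 4) (nat_lit 0x18005c00020003c0000000000000000000000) (nat_lit 0x0) (nat_lit 0xe00020003800000000000000000) := T_45 (nat_lit 106) (nat_lit 107) (nat_lit 1) (nat_lit 8) (nat_lit 5) L125746 (by decide +kernel)
theorem L125748 : W_45 (nat_lit 5) (nat_lit 0x18005c00020001c0000000000000000000000) (nat_lit 0x0) (nat_lit 0xe00220013800000000000000000) := T_45 (nat_lit 93) (nat_lit 76) (nat_lit 6) (nat_lit 7) (nat_lit 8) L125747 (by decide +kernel)
theorem L125749 : W_45 (nat_lit 6) (nat_lit 0x18001c00020001c0000000000000000000000) (nat_lit 0x0) (nat_lit 0x600000e00220013800000000000000000) := T_45 (nat_lit 130) (nat_lit 129) (nat_lit 1) (nat_lit 11) (nat_lit 7) L125748 (by decide +kernel)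
theorem L125750 : W_45 (nat_lit 7) (nat_lit 0x10001c00020001c0000000000000000000000) (nat_lit 0x0) (nat_lit 0x800600000e00220017800000000000000000) := T_45 (nat_lit 143) (nat_lit 74) (nat_lit 4) (nat_lit 7) (nat_lit 8) L125749 (by decide +kernel)
theorem L125751 : W_45 (nat_lit 2) (nat_lit 0x10001c00020003c0000000000000000000000) (nat_lit 0x0) (nat_lit 0x800000000000000030000000000000000000) := D_45 (nat_lit 76) (nat_lit 77) (nat_lit 143) (nat_lit 2) (nat_lit 5) (nat_lit 5) (nat_lit 6) (nat_lit 7) (nat_lit 8) (by decide +kernel)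
theorem L125752 : W_45 (nat_lit 2) (nat_lit 0x10001c00024003c0001000000000000000000) (nat_lit 0x0) (nat_lit 0x200020000800000000000000000) := D_45 (nat_lit 89) (nat_lit 71) (nat_lit 105) (nat_lit 0) (nat_lit 7) (nat_lit 5) (nat_lit 1) (nat_lit 7) (nat_lit 5) (by decide +kernel)
theorem L125753 : W_45 (nat_lit 3) (nat_lit 0x10001c00020003c0001000000000000000000) (nat_lit 0x0) (nat_lit 0xe00020000800000000000000000) := T_45 (nat_lit 106) (nat_lit 107) (nat_lit 1) (nat_lit 8) (nat_lit 5) L125752 (by decide +kernel)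
theorem L125754 : W_45 (nat_lit 4) (nat_lit 0x10001c00020003c0000000000000000000000) (nat_lit 0x0) (nat_lit 0xe00020003800000000000000000) := T_45 (nat_lit 72) (nat_lit 73) (nat_lit 0) (nat_lit 8) (nat_lit 5) L125753 (by decide +kernel)
theorem L125755 : W_45 (nat_lit 5) (nat_lit 0x10001c00020001c0000000000000000000000) (nat_lit 0x0) (nat_lit 0x800000000e00220033800000000000000000) := Q_45 (nat_lit 93) (C_45 L125751 (C_45 L125754 N_45)) (by decide +kernel)
theorem L125756 : W_45 (nat_lit 2) (nat_lit 0x18001c00022001e0000800000000000000000) (nat_lit 0x0) (nat_lit 0x100010000400000000000000000) := D_45 (nat_lit 88) (nat_lit 104) (nat_lit 70) (nat_lit 1) (nat_lit 6) (nat_lit 5) (nat_lit 0) (nat_lit 6) (nat_lit 5) (by decide +kernel)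
theorem L125757 : W_45 (nat_lit 3) (nat_lit 0x18001c00022001e0000000000000000000000) (nat_lit 0x0) (nat_lit 0x100010001c00000000000000000) := T_45 (nat_lit 71) (nat_lit 72) (nat_lit 0) (nat_lit 7) (nat_lit 5) L125756 (by decide +kernel)
theorem L125758 : W_45 (nat_lit 4) (nat_lit 0x18001c00020001e0000000000000000000000) (nat_lit 0x0) (nat_lit 0x700010001c00000000000000000) := T_45 (nat_lit 105) (nat_lit 106) (nat_lit 1) (nat_lit 7) (nat_lit 5) L125757 (by decide +kernel)
theorem L125759 : W_45 (nat_lit 5) (nat_lit 0x10001c00020001e0000000000000000000000) (nat_lit 0x0) (nat_lit 0x800000000700010005c00000000000000000) := T_45 (nat_lit 143) (nat_lit 74) (nat_lit 4) (nat_lit 7) (nat_lit 8) L125758 (by decide +kernel)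
theorem L125760 : W_45 (nat_lit 2) (nat_lit 0x10001c00022001e0000800000000000000000) (nat_lit 0x0) (nat_lit 0x100010000400000000000000000) := D_45 (nat_lit 88) (nat_lit 70) (nat_lit 104) (nat_lit 0) (nat_lit 6) (nat_lit 5) (nat_lit 1) (nat_lit 6) (nat_lit 5) (by decide +kernel)
theorem L125761 : W_45 (nat_lit 3) (nat_lit 0x10001c00020001e0000800000000000000000) (nat_lit 0x0) (nat_lit 0x700010000400000000000000000) := T_45 (nat_lit 105) (nat_lit 106) (nat_lit 1) (nat_lit 7) (nat_lit 5) L125760 (by decide +kernel)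
theorem L125762 : W_45 (nat_lit 4) (nat_lit 0x10001c00020001e0000000000000000000000) (nat_lit 0x0) (nat_lit 0x700010001c00000000000000000) := T_45 (nat_lit 71) (nat_lit 72) (nat_lit 0) (nat_lit 7) (nat_lit 5) L125761 (by decide +kernel)
theorem L125763 : W_45 (nat_lit 2) (nat_lit 0x58003f00120001e0001000000000000000000) (nat_lit 0x0) (nat_lit 0x300000000800000000000000000000000000) := D_45 (nat_lit 141) (nat_lit 140) (nat_lit 107) (nat_lit 1) (nat_lit 8) (nat_lit 7) (nat_lit 4) (nat_lit 5) (nat_lit 8) (by decide +kernel)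
theorem L125764 : W_45 (nat_lit 3) (nat_lit 0x58003e00120001e0001000000000000000000) (nat_lit 0x0) (nat_lit 0x300018000800000000000000000000000000) := T_45 (nat_lit 124) (nat_lit 123) (nat_lit 3) (nat_lit 4) (nat_lit 7) L125763 (by decide +kernel)
theorem L125765 : W_45 (nat_lit 4) (nat_lit 0x58003c00120001e0001000000000000000000) (nat_lit 0x0) (nat_lit 0x300038008800000000000000000000000000) := T_45 (nat_lit 125) (nat_lit 111) (nat_lit 2) (nat_lit 6) (nat_lit 7) L125764 (by decide +kernel)
theorem L125766 : W_45 (nat_lit 5) (nat_lit 0x58003c00020001e0001000000000000000000) (nat_lit 0x0) (nat_lit 0x300038038800000000000000000000000000) := T_45 (nat_lit 112) (nat_lit 113) (nat_lit 2) (nat_lit 7) (nat_lit 7) L125765 (by decide +kernel)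
theorem L125767 : W_45 (nat_lit 6) (nat_lit 0x18003c00020001e0001000000000000000000) (nat_lit 0x0) (nat_lit 0xc300038038800000000000000000000000000) := T_45 (nat_lit 146) (nat_lit 147) (nat_lit 3) (nat_lit 7) (nat_lit 7) L125766 (by decide +kernel)
theorem L125768 : W_45 (nat_lit 7) (nat_lit 0x18003c00020001e0000000000000000000000) (nat_lit 0x0) (nat_lit 0xc300038038800000001800000000000000000) := T_45 (nat_lit 72) (nat_lit 71) (nat_lit 0) (nat_lit 7) (nat_lit 5) L125767 (by decide +kernel)
theorem L125769 : W_45 (nat_lit 8) (nat_lit 0x18001c00020001e0000000000000000000000) (nat_lit 0x0) (nat_lit 0xc300638038800000001800000000000000000) := T_45 (nat_lit 129) (nat_lit 130) (nat_lit 1) (nat_lit 11) (nat_lit 7) L125768 (by decide +kernel)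
theorem L125770 : W_45 (nat_lit 9) (nat_lit 0x10001c00020001e0000000000000000000000) (nat_lit 0x0) (nat_lit 0xcb00638038800000005800000000000000000) := T_45 (nat_lit 143) (nat_lit 74) (nat_lit 4) (nat_lit 7) (nat_lit 8) L125769 (by decide +kernel)
theorem L125771 : W_45 (nat_lit 2) (nat_lit 0x18003e00124001e0000000000000000000000) (nat_lit 0x0) (nat_lit 0x18000800000000000000000000000000) := D_45 (nat_lit 124) (nat_lit 107) (nat_lit 123) (nat_lit 0) (nat_lit 8) (nat_lit 7) (nat_lit 3) (nat_lit 4) (nat_lit 7) (by decide +kernel)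
theorem L125772 : W_45 (nat_lit 3) (nat_lit 0x18003c00124001e0000000000000000000000) (nat_lit 0x0) (nat_lit 0x38008800000000000000000000000000) := T_45 (nat_lit 125) (nat_lit 111) (nat_lit 2) (nat_lit 6) (nat_lit 7) L125771 (by decide +kernel)
theorem L125773 : W_45 (nat_lit 4) (nat_lit 0x18003c00024001e0000000000000000000000) (nat_lit 0x0) (nat_lit 0x38038800000000000000000000000000) := T_45 (nat_lit 112) (nat_lit 113) (nat_lit 2) (nat_lit 7) (nat_lit 7) L125772 (by decide +kernel)
theorem L125774 : W_45 (nat_lit 5) (nat_lit 0x18001c00024001e0000000000000000000000) (nat_lit 0x0) (nat_lit 0x638038800000000000000000000000000) := T_45 (nat_lit 129) (nat_lit 130) (nat_lit 1) (nat_lit 11) (nat_lit 7) L125773 (by decide +kernel)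
theorem L125775 : W_45 (nat_lit 6) (nat_lit 0x10001c00024001e0000000000000000000000) (nat_lit 0x0) (nat_lit 0x800638038800000004000000000000000000) := T_45 (nat_lit 143) (nat_lit 74) (nat_lit 4) (nat_lit 7) (nat_lit 8) L125774 (by decide +kernel)
theorem L125776 : W_45 (nat_lit 7) (nat_lit 0x10001c00020001e0000000000000000000000) (nat_lit 0x0) (nat_lit 0x800638038e00000004000000000000000000) := T_45 (nat_lit 106) (nat_lit 105) (nat_lit 1) (nat_lit 7) (nat_lit 5) L125775 (by decide +kernel)
theorem L125777 : W_45 (nat_lit 10) (nat_lit 0x10001c00020001c0000000000000000000000) (nat_lit 0x0) (nat_lit 0xcb00638038f00030005c00000000000000000) := Q_45 (nat_lit 89) (C_45 L125759 (C_45 L125762 (C_45 L125770 (C_45 L125776 N_45)))) (by decide +kernel)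
theorem L125778 : W_45 (nat_lit 2) (nat_lit 0x10001c00024001e0001000000000000000000) (nat_lit 0x0) (nat_lit 0x800200002000000000000000000) := D_45 (nat_lit 93) (nat_lit 107) (nat_lit 73) (nat_lit 1) (nat_lit 8) (nat_lit 5) (nat_lit 0) (nat_lit 8) (nat_lit 5) (by decide +kernel)
theorem L125779 : W_45 (nat_lit 3) (nat_lit 0x10001c00024001e0000000000000000000000) (nat_lit 0x0) (nat_lit 0x800200003800000000000000000) := T_45 (nat_lit 72) (nat_lit 71) (nat_lit 0) (nat_lit 7) (nat_lit 5) L125778 (by decide +kernel)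
theorem L125780 : W_45 (nat_lit 4) (nat_lit 0x10001c00024001c0000000000000000000000) (nat_lit 0x0) (nat_lit 0xa00220003800000000000000000) := T_45 (nat_lit 89) (nat_lit 105) (nat_lit 1) (nat_lit 7) (nat_lit 5) L125779 (by decide +kernel)
theorem L125781 : W_45 (nat_lit 2) (nat_lit 0x800060012001d0002e001c0000000000000000000000) (nat_lit 0x0) (nat_lit 0x2000100008000000000000000000000000000000000000000) := D_45 (nat_lit 176) (nat_lit 159) (nat_lit 193) (nat_lit 7) (nat_lit 5) (nat_lit 6) (nat_lit 7) (nat_lit 5) (nat_lit 7) (by decide +kernel)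
theorem L125782 : W_45 (nat_lit 3) (nat_lit 0x60012001d0002e001c0000000000000000000000) (nat_lit 0x0) (nat_lit 0x2000180008000000008000000000000000000000000000000) := T_45 (nat_lit 175) (nat_lit 123) (nat_lit 4) (nat_lit 5) (nat_lit 10) L125781 (by decide +kernel)
theorem L125783 : W_45 (nat_lit 4) (nat_lit 0x20012001d0002e001c0000000000000000000000) (nat_lit 0x0) (nat_lit 0x20001c000c000000008000000000000000000000000000000) := T_45 (nat_lit 158) (nat_lit 174) (nat_lit 5) (nat_lit 5) (nat_lit 6) L125782 (by decide +kernel)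
theorem L125784 : W_45 (nat_lit 5) (nat_lit 0x12001d0002e001c0000000000000000000000) (nat_lit 0x0) (nat_lit 0x20001c000e000100008000000000000000000000000000000) := T_45 (nat_lit 157) (nat_lit 140) (nat_lit 5) (nat_lit 5) (nat_lit 5) L125783 (by decide +kernel)
theorem L125785 : W_45 (nat_lit 6) (nat_lit 0x10001d0002e001c0000000000000000000000) (nat_lit 0x0) (nat_lit 0x20001c000e000300008000000000004000000000000000000) := T_45 (nat_lit 141) (nat_lit 74) (nat_lit 6) (nat_lit 5) (nat_lit 8) L125784 (by decide +kernel)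
theorem L125786 : W_45 (nat_lit 7) (nat_lit 0x10001c0002e001c0000000000000000000000) (nat_lit 0x0) (nat_lit 0x20001c000e000300038000000000004000000000000000000) := T_45 (nat_lit 124) (nat_lit 125) (nat_lit 0) (nat_lit 8) (nat_lit 7) L125785 (by decide +kernel)
theorem L125787 : W_45 (nat_lit 8) (nat_lit 0x10001c00026001c0000000000000000000000) (nat_lit 0x0) (nat_lit 0x20001c000e000300038000900000004000000000000000000) := T_45 (nat_lit 107) (nat_lit 104) (nat_lit 2) (nat_lit 2) (nat_lit 6) L125786 (by decide +kernel)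
theorem L125788 : W_45 (nat_lit 9) (nat_lit 0x10001c00024001c0000000000000000000000) (nat_lit 0x0) (nat_lit 0x20001c000e000300038000b00020004000000000000000000) := T_45 (nat_lit 105) (nat_lit 89) (nat_lit 1) (nat_lit 7) (nat_lit 5) L125787 (by decide +kernel)
theorem L125789 : W_45 (nat_lit 2) (nat_lit 0x10001c00024001e0003000000000000000000) (nat_lit 0x0) (nat_lit 0x8000000000000000100008000000000) := D_45 (nat_lit 56) (nat_lit 39) (nat_lit 123) (nat_lit 5) (nat_lit 5) (nat_lit 2) (nat_lit 6) (nat_lit 4) (nat_lit 7) (by decide +kernel)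
theorem L125790 : W_45 (nat_lit 3) (nat_lit 0x10001c00024001e0001000000000000000000) (nat_lit 0x0) (nat_lit 0x8000000200002000100008000000000) := T_45 (nat_lit 73) (nat_lit 93) (nat_lit 0) (nat_lit 8) (nat_lit 5) L125789 (by decide +kernel)
theorem L125791 : W_45 (nat_lit 4) (nat_lit 0x10001c00024001e0000000000000000000000) (nat_lit 0x0) (nat_lit 0x8000000200003800100008000000000) := T_45 (nat_lit 72) (nat_lit 71) (nat_lit 0) (nat_lit 7) (nat_lit 5) L125790 (by decide +kernel)
theorem L125792 : W_45 (nat_lit 5) (nat_lit 0x10001c00024001c0000000000000000000000) (nat_lit 0x0) (nat_lit 0x8000200220003800100008000000000) := T_45 (nat_lit 89) (nat_lit 105) (nat_lit 1) (nat_lit 7) (nat_lit 5) L125791 (by decide +kernel)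
theorem L125793 : W_45 (nat_lit 2) (nat_lit 0x800060012001d0002d001c0000000000000000000000) (nat_lit 0x0) (nat_lit 0x2000100008000000000000000000000000000000000000000) := D_45 (nat_lit 176) (nat_lit 159) (nat_lit 193) (nat_lit 7) (nat_lit 5) (nat_lit 6) (nat_lit 7) (nat_lit 5) (nat_lit 7) (by decide +kernel)
theorem L125794 : W_45 (nat_lit 3) (nat_lit 0x60012001d0002d001c0000000000000000000000) (nat_lit 0x0) (nat_lit 0x2000180008000000008000000000000000000000000000000) := T_45 (nat_lit 175) (nat_lit 123) (nat_lit 4) (nat_lit 5) (nat_lit 10) L125793 (by decide +kernel)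
theorem L125795 : W_45 (nat_lit 4) (nat_lit 0x20012001d0002d001c0000000000000000000000) (nat_lit 0x0) (nat_lit 0x20001c000c000000008000000000000000000000000000000) := T_45 (nat_lit 158) (nat_lit 174) (nat_lit 5) (nat_lit 5) (nat_lit 6) L125794 (by decide +kernel)
theorem L125796 : W_45 (nat_lit 5) (nat_lit 0x12001d0002d001c0000000000000000000000) (nat_lit 0x0) (nat_lit 0x20001c000e000100008000000000000000000000000000000) := T_45 (nat_lit 157) (nat_lit 140) (nat_lit 5) (nat_lit 5) (nat_lit 5) L125795 (by decide +kernel)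
theorem L125797 : W_45 (nat_lit 6) (nat_lit 0x10001d0002d001c0000000000000000000000) (nat_lit 0x0) (nat_lit 0x20001c000e000300008000000000004000000000000000000) := T_45 (nat_lit 141) (nat_lit 74) (nat_lit 6) (nat_lit 5) (nat_lit 8) L125796 (by decide +kernel)
theorem L125798 : W_45 (nat_lit 7) (nat_lit 0x10001d0002c001c0000000000000000000000) (nat_lit 0x0) (nat_lit 0x20001c000e000300008000300000004000000000000000000) := T_45 (nat_lit 104) (nat_lit 105) (nat_lit 2) (nat_lit 2) (nat_lit 6) L125797 (by decide +kernel)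
theorem L125799 : W_45 (nat_lit 8) (nat_lit 0x10001c0002c001c0000000000000000000000) (nat_lit 0x0) (nat_lit 0x20001c000e000300038000300000004000000000000000000) := T_45 (nat_lit 124) (nat_lit 125) (nat_lit 0) (nat_lit 8) (nat_lit 7) L125798 (by decide +kernel)
theorem L125800 : W_45 (nat_lit 9) (nat_lit 0x10001c00024001c0000000000000000000000) (nat_lit 0x0) (nat_lit 0x20001c000e000300038000b00200004000000000000000000) := T_45 (nat_lit 107) (nat_lit 93) (nat_lit 1) (nat_lit 8) (nat_lit 5) L125799 (by decide +kernel)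
theorem L125801 : W_45 (nat_lit 2) (nat_lit 0x12001d0002c001c0000000000000000000000) (nat_lit 0x0) (nat_lit 0x4000000000000000020001000000000000000000) := D_45 (nat_lit 89) (nat_lit 72) (nat_lit 158) (nat_lit 4) (nat_lit 5) (nat_lit 8) (nat_lit 4) (nat_lit 5) (nat_lit 9) (by decide +kernel)
theorem L125802 : W_45 (nat_lit 3) (nat_lit 0x10001d0002c001c0000000000000000000000) (nat_lit 0x0) (nat_lit 0x4000200000000000020005000000000000000000) := T_45 (nat_lit 141) (nat_lit 74) (nat_lit 6) (nat_lit 5) (nat_lit 8) L125801 (by decide +kernel)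
theorem L125803 : W_45 (nat_lit 4) (nat_lit 0x10001c0002c001c0000000000000000000000) (nat_lit 0x0) (nat_lit 0x4000200030000000020005000000000000000000) := T_45 (nat_lit 124) (nat_lit 125) (nat_lit 0) (nat_lit 8) (nat_lit 7) L125802 (by decide +kernel)
theorem L125804 : W_45 (nat_lit 5) (nat_lit 0x10001c00024001c0000000000000000000000) (nat_lit 0x0) (nat_lit 0x4000200030000800220005000000000000000000) := T_45 (nat_lit 107) (nat_lit 93) (nat_lit 1) (nat_lit 8) (nat_lit 5) L125803 (by decide +kernel)
theorem L125805 : W_45 (nat_lit 10) (nat_lit 0x10001c00020001c0000000000000000000000) (nat_lit 0x0) (nat_lit 0x20001c000e000300038000f00220007800100008000000000) := Q_45 (nat_lit 106) (C_45 L125780 (C_45 L125788 (C_45 L125792 (C_45 L125800 (C_45 L125804 N_45))))) (by decide +kernel)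
theorem L125806 : W_45 (nat_lit 2) (nat_lit 0x18005c00020003e0000000000000000000000) (nat_lit 0x0) (nat_lit 0x3800000000000000000) := D_45 (nat_lit 72) (nat_lit 73) (nat_lit 71) (nat_lit 0) (nat_lit 8) (nat_lit 5) (nat_lit 0) (nat_lit 7) (nat_lit 5) (by decide +kernel)
theorem L125807 : W_45 (nat_lit 3) (nat_lit 0x18005c00020001e0000000000000000000000) (nat_lit 0x0) (nat_lit 0x200013800000000000000000) := T_45 (nat_lit 93) (nat_lit 76) (nat_lit 6) (nat_lit 7) (nat_lit 8) L125806 (by decide +kernel)
theorem L125808 : W_45 (nat_lit 4) (nat_lit 0x18001c00020001e0000000000000000000000) (nat_lit 0x0) (nat_lit 0x600000000200013800000000000000000) := T_45 (nat_lit 130) (nat_lit 129) (nat_lit 1) (nat_lit 11) (nat_lit 7) L125807 (by decide +kernel)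
theorem L125809 : W_45 (nat_lit 5) (nat_lit 0x10001c00020001e0000000000000000000000) (nat_lit 0x0) (nat_lit 0x800600000000200017800000000000000000) := T_45 (nat_lit 143) (nat_lit 74) (nat_lit 4) (nat_lit 7) (nat_lit 8) L125808 (by decide +kernel)
theorem L125810 : W_45 (nat_lit 2) (nat_lit 0x50019003e80124003e0000000000000000000000) (nat_lit 0x0) (nat_lit 0xa0002000000000000000000000000000000000000000) := D_45 (nat_lit 157) (nat_lit 173) (nat_lit 175) (nat_lit 5) (nat_lit 4) (nat_lit 6) (nat_lit 7) (nat_lit 4) (nat_lit 6) (by decide +kernel)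
theorem L125811 : W_45 (nat_lit 3) (nat_lit 0x10019003e80124003e0000000000000000000000) (nat_lit 0x0) (nat_lit 0xa0006000200000000000000000000000000000000000) := T_45 (nat_lit 158) (nat_lit 141) (nat_lit 7) (nat_lit 4) (nat_lit 5) L125810 (by decide +kernel)
theorem L125812 : W_45 (nat_lit 4) (nat_lit 0x19003e80124003e0000000000000000000000) (nat_lit 0x0) (nat_lit 0xa0007000280000000000000000000000000000000000) := T_45 (nat_lit 156) (nat_lit 139) (nat_lit 5) (nat_lit 4) (nat_lit 5) L125811 (by decide +kernel)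
theorem L125813 : W_45 (nat_lit 5) (nat_lit 0x18003e80124003e0000000000000000000000) (nat_lit 0x0) (nat_lit 0xa0007000380000000000000002000000000000000000) := T_45 (nat_lit 140) (nat_lit 73) (nat_lit 6) (nat_lit 4) (nat_lit 8) L125812 (by decide +kernel)
theorem L125814 : W_45 (nat_lit 6) (nat_lit 0x18003e00124003e0000000000000000000000) (nat_lit 0x0) (nat_lit 0xa0007000380018000000000002000000000000000000) := T_45 (nat_lit 123) (nat_lit 124) (nat_lit 3) (nat_lit 4) (nat_lit 7) L125813 (by decide +kernel)
theorem L125815 : W_45 (nat_lit 7) (nat_lit 0x18003c00124003e0000000000000000000000) (nat_lit 0x0) (nat_lit 0xa0007000380038008000000002000000000000000000) := T_45 (nat_lit 125) (nat_lit 111) (nat_lit 2) (nat_lit 6) (nat_lit 7) L125814 (by decide +kernel)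
theorem L125816 : W_45 (nat_lit 8) (nat_lit 0x18003c00024003e0000000000000000000000) (nat_lit 0x0) (nat_lit 0xa0007000380038038000000002000000000000000000) := T_45 (nat_lit 112) (nat_lit 113) (nat_lit 2) (nat_lit 7) (nat_lit 7) L125815 (by decide +kernel)
theorem L125817 : W_45 (nat_lit 9) (nat_lit 0x18003c00024001e0000000000000000000000) (nat_lit 0x0) (nat_lit 0xa0007000380038038000200012000000000000000000) := T_45 (nat_lit 93) (nat_lit 76) (nat_lit 6) (nat_lit 7) (nat_lit 8) L125816 (by decide +kernel)
theorem L125818 : W_45 (nat_lit 10) (nat_lit 0x18001c00024001e0000000000000000000000) (nat_lit 0x0) (nat_lit 0xa0007000380638038000200012000000000000000000) := T_45 (nat_lit 129) (nat_lit 130) (nat_lit 1) (nat_lit 11) (nat_lit 7) L125817 (by decide +kernel)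
theorem L125819 : W_45 (nat_lit 11) (nat_lit 0x10001c00024001e0000000000000000000000) (nat_lit 0x0) (nat_lit 0xa0007000b80638038000200016000000000000000000) := T_45 (nat_lit 143) (nat_lit 74) (nat_lit 4) (nat_lit 7) (nat_lit 8) L125818 (by decide +kernel)
theorem L125820 : W_45 (nat_lit 12) (nat_lit 0x10001c00020001e0000000000000000000000) (nat_lit 0x0) (nat_lit 0xa0007000b80638038600200016000000000000000000) := T_45 (nat_lit 106) (nat_lit 105) (nat_lit 1) (nat_lit 7) (nat_lit 5) L125819 (by decide +kernel)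
theorem L125821 : W_45 (nat_lit 13) (nat_lit 0x10001c00020001c0000000000000000000000) (nat_lit 0x0) (nat_lit 0xa0007000b80638038700230017c00000000000000000) := Q_45 (nat_lit 89) (C_45 L125762 (C_45 L125809 (C_45 L125820 N_45))) (by decide +kernel)
theorem L125822 : W_45 (nat_lit 2) (nat_lit 0x58003f00120003e0001000000000000000000) (nat_lit 0x0) (nat_lit 0x300000000800000000000000000000000000) := D_45 (nat_lit 141) (nat_lit 140) (nat_lit 107) (nat_lit 1) (nat_lit 8) (nat_lit 7) (nat_lit 4) (nat_lit 5) (nat_lit 8) (by decide +kernel)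
theorem L125823 : W_45 (nat_lit 3) (nat_lit 0x58003e00120003e0001000000000000000000) (nat_lit 0x0) (nat_lit 0x300018000800000000000000000000000000) := T_45 (nat_lit 124) (nat_lit 123) (nat_lit 3) (nat_lit 4) (nat_lit 7) L125822 (by decide +kernel)
theorem L125824 : W_45 (nat_lit 4) (nat_lit 0x58003c00120003e0001000000000000000000) (nat_lit 0x0) (nat_lit 0x300038008800000000000000000000000000) := T_45 (nat_lit 125) (nat_lit 111) (nat_lit 2) (nat_lit 6) (nat_lit 7) L125823 (by decide +kernel)
theorem L125825 : W_45 (nat_lit 5) (nat_lit 0x58003c00020003e0001000000000000000000) (nat_lit 0x0) (nat_lit 0x300038038800000000000000000000000000) := T_45 (nat_lit 112) (nat_lit 113) (nat_lit 2) (nat_lit 7) (nat_lit 7) L125824 (by decide +kernel)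
theorem L125826 : W_45 (nat_lit 6) (nat_lit 0x58003c00020003c0001000000000000000000) (nat_lit 0x0) (nat_lit 0x300038038800020000800000000000000000) := T_45 (nat_lit 89) (nat_lit 71) (nat_lit 0) (nat_lit 7) (nat_lit 5) L125825 (by decide +kernel)
theorem L125827 : W_45 (nat_lit 7) (nat_lit 0x18003c00020003c0001000000000000000000) (nat_lit 0x0) (nat_lit 0xc300038038800020000800000000000000000) := T_45 (nat_lit 146) (nat_lit 147) (nat_lit 3) (nat_lit 7) (nat_lit 7) L125826 (by decide +kernel)
theorem L125828 : W_45 (nat_lit 8) (nat_lit 0x18003c00020003c0000000000000000000000) (nat_lit 0x0) (nat_lit 0xc300038038800020003800000000000000000) := T_45 (nat_lit 72) (nat_lit 73) (nat_lit 0) (nat_lit 8) (nat_lit 5) L125827 (by decide +kernel)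
theorem L125829 : W_45 (nat_lit 9) (nat_lit 0x18003c00020001c0000000000000000000000) (nat_lit 0x0) (nat_lit 0xc300038038800220013800000000000000000) := T_45 (nat_lit 93) (nat_lit 76) (nat_lit 6) (nat_lit 7) (nat_lit 8) L125828 (by decide +kernel)
theorem L125830 : W_45 (nat_lit 10) (nat_lit 0x18001c00020001c0000000000000000000000) (nat_lit 0x0) (nat_lit 0xc300638038800220013800000000000000000) := T_45 (nat_lit 129) (nat_lit 130) (nat_lit 1) (nat_lit 11) (nat_lit 7) L125829 (by decide +kernel)
theorem L125831 : W_45 (nat_lit 11) (nat_lit 0x10001c00020001c0000000000000000000000) (nat_lit 0x0) (nat_lit 0xcb00638038800220017800000000000000000) := T_45 (nat_lit 143) (nat_lit 74) (nat_lit 4) (nat_lit 7) (nat_lit 8) L125830 (by decide +kernel)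
theorem L125832 : W_45 (nat_lit 2) (nat_lit 0x18001c00028001c0000000000000000000000) (nat_lit 0x0) (nat_lit 0x400200010000000000000000000) := D_45 (nat_lit 93) (nat_lit 106) (nat_lit 76) (nat_lit 1) (nat_lit 8) (nat_lit 5) (nat_lit 6) (nat_lit 7) (nat_lit 8) (by decide +kernel)
theorem L125833 : W_45 (nat_lit 3) (nat_lit 0x10001c00028001c0000000000000000000000) (nat_lit 0x0) (nat_lit 0x800000000400200014000000000000000000) := T_45 (nat_lit 143) (nat_lit 74) (nat_lit 4) (nat_lit 7) (nat_lit 8) L125832 (by decide +kernel)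
theorem L125834 : W_45 (nat_lit 2) (nat_lit 0x18003e00128001c0000000000000000000000) (nat_lit 0x0) (nat_lit 0x18000400000000000000000000000000) := D_45 (nat_lit 124) (nat_lit 106) (nat_lit 123) (nat_lit 0) (nat_lit 8) (nat_lit 7) (nat_lit 3) (nat_lit 4) (nat_lit 7) (by decide +kernel)
theorem L125835 : W_45 (nat_lit 3) (nat_lit 0x18003c00128001c0000000000000000000000) (nat_lit 0x0) (nat_lit 0x38008400000000000000000000000000) := T_45 (nat_lit 125) (nat_lit 111) (nat_lit 2) (nat_lit 6) (nat_lit 7) L125834 (by decide +kernel)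
theorem L125836 : W_45 (nat_lit 4) (nat_lit 0x18003c00028001c0000000000000000000000) (nat_lit 0x0) (nat_lit 0x38038400000000000000000000000000) := T_45 (nat_lit 112) (nat_lit 113) (nat_lit 2) (nat_lit 7) (nat_lit 7) L125835 (by decide +kernel)
theorem L125837 : W_45 (nat_lit 5) (nat_lit 0x18001c00028001c0000000000000000000000) (nat_lit 0x0) (nat_lit 0x638038400000000000000000000000000) := T_45 (nat_lit 129) (nat_lit 130) (nat_lit 1) (nat_lit 11) (nat_lit 7) L125836 (by decide +kernel)
theorem L125838 : W_45 (nat_lit 6) (nat_lit 0x10001c00028001c0000000000000000000000) (nat_lit 0x0) (nat_lit 0x800638038400000004000000000000000000) := T_45 (nat_lit 143) (nat_lit 74) (nat_lit 4) (nat_lit 7) (nat_lit 8) L125837 (by decide +kernel)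
theorem L125839 : W_45 (nat_lit 9) (nat_lit 0x10001c00028001c0000000000000000000000) (nat_lit 0x0) (nat_lit 0x20001c000e000300038000700200004000000000000000000) := T_45 (nat_lit 106) (nat_lit 93) (nat_lit 1) (nat_lit 8) (nat_lit 5) L125799 (by decide +kernel)
theorem L125840 : W_45 (nat_lit 2) (nat_lit 0x10001c00028003c0000000000000000000000) (nat_lit 0x0) (nat_lit 0x800000000000000030000000000000000000) := D_45 (nat_lit 76) (nat_lit 77) (nat_lit 143) (nat_lit 2) (nat_lit 5) (nat_lit 5) (nat_lit 6) (nat_lit 7) (nat_lit 8) (by decide +kernel)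
theorem L125841 : W_45 (nat_lit 3) (nat_lit 0x10001c00028001c0000000000000000000000) (nat_lit 0x0) (nat_lit 0x800000000400200030000000000000000000) := T_45 (nat_lit 93) (nat_lit 106) (nat_lit 1) (nat_lit 8) (nat_lit 5) L125840 (by decide +kernel)
theorem L125842 : W_45 (nat_lit 2) (nat_lit 0x10001c00028001c0004000200000000000000) (nat_lit 0x0) (nat_lit 0x200010000000000002000000000000000000) := D_45 (nat_lit 124) (nat_lit 141) (nat_lit 73) (nat_lit 6) (nat_lit 5) (nat_lit 8) (nat_lit 6) (nat_lit 5) (nat_lit 7) (by decide +kernel)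
theorem L125843 : W_45 (nat_lit 3) (nat_lit 0x10001c00028001c0004000000000000000000) (nat_lit 0x0) (nat_lit 0x200010000000000002000200010000000000) := T_45 (nat_lit 57) (nat_lit 40) (nat_lit 7) (nat_lit 6) (nat_lit 2) L125842 (by decide +kernel)
theorem L125844 : W_45 (nat_lit 4) (nat_lit 0x10001c00028001c0000000000000000000000) (nat_lit 0x0) (nat_lit 0xa00010000000000006000200010000000000) := T_45 (nat_lit 74) (nat_lit 143) (nat_lit 4) (nat_lit 7) (nat_lit 8) L125843 (by decide +kernel)
theorem L125845 : W_45 (nat_lit 10) (nat_lit 0x10001c00020001c0000000000000000000000) (nat_lit 0x0) (nat_lit 0x20001c000e000b00638038f00200036000200010000000000) := Q_45 (nat_lit 107) (C_45 L125833 (C_45 L125838 (C_45 L125839 (C_45 L125841 (C_45 L125844 N_45))))) (by decide +kernel)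
theorem L125846 : W_45 (nat_lit 14) (nat_lit 0x10001c0002000180000000000000000000000) (nat_lit 0x0) (nat_lit 0x20001e000f00cb80638038f00270037c00300018000000000) := Q_45 (nat_lit 90) (C_45 L125750 (C_45 L125755 (C_45 L125777 (C_45 L125805 (C_45 L125821 (C_45 L125831 (C_45 L125845 N_45))))))) (by decide +kernel)
theorem L125847 : W_45 (nat_lit 2) (nat_lit 0x10001c0012000180000000000000000000000) (nat_lit 0x0) (nat_lit 0x2000c000000000000000000000000000) := D_45 (nat_lit 111) (nat_lit 110) (nat_lit 125) (nat_lit 0) (nat_lit 10) (nat_lit 6) (nat_lit 2) (nat_lit 6) (nat_lit 7) (by decide +kernel)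
theorem L125848 : W_45 (nat_lit 2) (nat_lit 0x10001c001a000180000000000000000000000) (nat_lit 0x0) (nat_lit 0x200060000000000000000000000000000) := D_45 (nat_lit 113) (nat_lit 129) (nat_lit 114) (nat_lit 2) (nat_lit 7) (nat_lit 7) (nat_lit 1) (nat_lit 12) (nat_lit 6) (by decide +kernel)
theorem L125849 : W_45 (nat_lit 3) (nat_lit 0x10001c0012000180000000000000000000000) (nat_lit 0x0) (nat_lit 0x20006c000000000000000000000000000) := T_45 (nat_lit 111) (nat_lit 110) (nat_lit 0) (nat_lit 10) (nat_lit 6) L125848 (by decide +kernel)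
theorem L125850 : W_45 (nat_lit 2) (nat_lit 0x10007c0012000180000000000000000000000) (nat_lit 0x0) (nat_lit 0x1c000000000000000000000000000000000000) := D_45 (nat_lit 147) (nat_lit 146) (nat_lit 148) (nat_lit 3) (nat_lit 7) (nat_lit 7) (nat_lit 3) (nat_lit 8) (nat_lit 7) (by decide +kernel)
theorem L125851 : W_45 (nat_lit 3) (nat_lit 0x10003c0012000180000000000000000000000) (nat_lit 0x0) (nat_lit 0x1c000400004000000000000000000000000000) := T_45 (nat_lit 130) (nat_lit 110) (nat_lit 0) (nat_lit 11) (nat_lit 7) L125850 (by decide +kernel)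
theorem L125852 : W_45 (nat_lit 4) (nat_lit 0x10001c0012000180000000000000000000000) (nat_lit 0x0) (nat_lit 0x1c000600024000000000000000000000000000) := T_45 (nat_lit 129) (nat_lit 113) (nat_lit 2) (nat_lit 7) (nat_lit 7) L125851 (by decide +kernel)
theorem L125853 : W_45 (nat_lit 2) (nat_lit 0x10001c0032000180000000000000000000000) (nat_lit 0x0) (nat_lit 0x20048000000000000000000000000000) := D_45 (nat_lit 111) (nat_lit 125) (nat_lit 114) (nat_lit 2) (nat_lit 6) (nat_lit 7) (nat_lit 1) (nat_lit 12) (nat_lit 6) (by decide +kernel)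
theorem L125854 : W_45 (nat_lit 3) (nat_lit 0x10001c0012000180000000000000000000000) (nat_lit 0x0) (nat_lit 0x220068000000000000000000000000000) := T_45 (nat_lit 113) (nat_lit 129) (nat_lit 2) (nat_lit 7) (nat_lit 7) L125853 (by decide +kernel)
theorem L125855 : W_45 (nat_lit 5) (nat_lit 0x10001c0002000180000000000000000000000) (nat_lit 0x0) (nat_lit 0x1c00062007c000000000000000000000000000) := Q_45 (nat_lit 112) (C_45 L125847 (C_45 L125849 (C_45 L125852 (C_45 L125854 N_45)))) (by decide +kernel)
theorem L125856 : W_45 (nat_lit 15) (nat_lit 0x10001c0002000100000000000000000000000) (nat_lit 0x0) (nat_lit 0x60003e001f01cb8063807cf002f0037c00300018000000000) := Q_45 (nat_lit 91) (C_45 L125740 (C_45 L125742 (C_45 L125744 (C_45 L125846 (C_45 L125855 N_45))))) (by decide +kernel)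
theorem L125857 : W_45 (nat_lit 16) (nat_lit 0x10001c0002000000000000000000000000000) (nat_lit 0x0) (nat_lit 0x60003e001f01cb8063807cf003f003fc00300018000000000) := T_45 (nat_lit 92) (nat_lit 75) (nat_lit 7) (nat_lit 7) (nat_lit 4) L125856 (by decide +kernel)
theorem L125858 : W_45 (nat_lit 2) (nat_lit 0x10007c0002000000008000000000000000000) (nat_lit 0x0) (nat_lit 0x1c000000000000000000000000000000000000) := D_45 (nat_lit 147) (nat_lit 146) (nat_lit 148) (nat_lit 3) (nat_lit 7) (nat_lit 7) (nat_lit 3) (nat_lit 8) (nat_lit 7) (by decide +kernel)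
theorem L125859 : W_45 (nat_lit 3) (nat_lit 0x10003c0002000000008000000000000000000) (nat_lit 0x0) (nat_lit 0x1c800400000000000000000000000000000000) := T_45 (nat_lit 130) (nat_lit 143) (nat_lit 1) (nat_lit 11) (nat_lit 7) L125858 (by decide +kernel)
theorem L125860 : W_45 (nat_lit 4) (nat_lit 0x10001c0002000000008000000000000000000) (nat_lit 0x0) (nat_lit 0x1c800600001000000000000000000000000000) := T_45 (nat_lit 129) (nat_lit 108) (nat_lit 0) (nat_lit 10) (nat_lit 7) L125859 (by decide +kernel)
theorem L125861 : W_45 (nat_lit 5) (nat_lit 0x10001c0002000000000000000000000000000) (nat_lit 0x0) (nat_lit 0x1c800600001000100008000000000000000000) := T_45 (nat_lit 75) (nat_lit 92) (nat_lit 7) (nat_lit 7) (nat_lit 4) L125860 (by decide +kernel)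
theorem L125862 : W_45 (nat_lit 17) (nat_lit 0x10000c0002000000000000000000000000000) (nat_lit 0x0) (nat_lit 0x60003e001f01cb8073c07df003f003fc00300018000000000) := Q_45 (nat_lit 128) (C_45 L123143 (C_45 L123134 (C_45 L125729 (C_45 L125857 (C_45 L125861 N_45))))) (by decide +kernel)
theorem L125863 : W_45 (nat_lit 2) (nat_lit 0x100010000c000f000080008000000000000000000) (nat_lit 0x0) (nat_lit 0x30010000000000000000000000000000) := D_45 (nat_lit 125) (nat_lit 124) (nat_lit 112) (nat_lit 2) (nat_lit 5) (nat_lit 7) (nat_lit 1) (nat_lit 10) (nat_lit 6) (by decide +kernel)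
theorem L125864 : W_45 (nat_lit 3) (nat_lit 0x100010000c0007000080008000000000000000000) (nat_lit 0x0) (nat_lit 0x30018000040000000000000000000000) := T_45 (nat_lit 111) (nat_lit 90) (nat_lit 0) (nat_lit 9) (nat_lit 6) L125863 (by decide +kernel)
theorem L125865 : W_45 (nat_lit 4) (nat_lit 0x10000c0007000080008000000000000000000) (nat_lit 0x0) (nat_lit 0x10000800030018000040000000000000000000000) := T_45 (nat_lit 160) (nat_lit 143) (nat_lit 4) (nat_lit 7) (nat_lit 9) L125864 (by decide +kernel)
theorem L125866 : W_45 (nat_lit 5) (nat_lit 0x10000c0007000080000000000000000000000) (nat_lit 0x0) (nat_lit 0x10000800030018000140008000000000000000000) := T_45 (nat_lit 75) (nat_lit 92) (nat_lit 7) (nat_lit 7) (nat_lit 4) L125865 (by decide +kernel)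
theorem L125867 : W_45 (nat_lit 5) (nat_lit 0x10000c0007000080000000000000000000000) (nat_lit 0x0) (nat_lit 0x10000800000038001c40000000000000000000000) := T_45 (nat_lit 111) (nat_lit 90) (nat_lit 0) (nat_lit 9) (nat_lit 6) L123213 (by decide +kernel)
theorem L125868 : W_45 (nat_lit 2) (nat_lit 0x18002c00030001c0000000000000000000000) (nat_lit 0x0) (nat_lit 0x4000030000000000000000000000) := D_45 (nat_lit 89) (nat_lit 110) (nat_lit 88) (nat_lit 3) (nat_lit 4) (nat_lit 5) (nat_lit 3) (nat_lit 3) (nat_lit 5) (by decide +kernel)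
theorem L125869 : W_45 (nat_lit 2) (nat_lit 0x18001c0007000180000000000000000000000) (nat_lit 0x0) (nat_lit 0x8000060000000000000000000000) := D_45 (nat_lit 90) (nat_lit 89) (nat_lit 111) (nat_lit 3) (nat_lit 4) (nat_lit 5) (nat_lit 0) (nat_lit 9) (nat_lit 6) (by decide +kernel)
theorem L125870 : W_45 (nat_lit 3) (nat_lit 0x18001c0007000100000000000000000000000) (nat_lit 0x0) (nat_lit 0x80000e0004000000000000000000) := T_45 (nat_lit 91) (nat_lit 74) (nat_lit 4) (nat_lit 7) (nat_lit 8) L125869 (by decide +kernel)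
theorem L125871 : W_45 (nat_lit 2) (nat_lit 0x10000e0003000080008000000000000000000) (nat_lit 0x0) (nat_lit 0x4000600000000000000) := D_45 (nat_lit 74) (nat_lit 58) (nat_lit 57) (nat_lit 6) (nat_lit 6) (nat_lit 7) (nat_lit 7) (nat_lit 6) (nat_lit 3) (by decide +kernel)
theorem L125872 : W_45 (nat_lit 3) (nat_lit 0x10000e0003000080000000000000000000000) (nat_lit 0x0) (nat_lit 0x10000c000600000000000000) := T_45 (nat_lit 75) (nat_lit 92) (nat_lit 7) (nat_lit 7) (nat_lit 4) L125871 (by decide +kernel)
theorem L125873 : W_45 (nat_lit 2) (nat_lit 0x10000e8003000080004000000000000000000) (nat_lit 0x0) (nat_lit 0x100008000400000000000000) := D_45 (nat_lit 75) (nat_lit 92) (nat_lit 58) (nat_lit 7) (nat_lit 7) (nat_lit 4) (nat_lit 6) (nat_lit 6) (nat_lit 7) (by decide +kernel)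
theorem L125874 : W_45 (nat_lit 3) (nat_lit 0x10000e8003000080000000000000000000000) (nat_lit 0x0) (nat_lit 0x10000c000600000000000000) := T_45 (nat_lit 74) (nat_lit 57) (nat_lit 7) (nat_lit 6) (nat_lit 3) L125873 (by decide +kernel)
theorem L125875 : W_45 (nat_lit 5) (nat_lit 0x10000c0003000000004000000000000000000) (nat_lit 0x0) (nat_lit 0x800320000000180008000600000000000000) := T_45 (nat_lit 75) (nat_lit 92) (nat_lit 7) (nat_lit 7) (nat_lit 4) L125681 (by decide +kernel)
theorem L125876 : W_45 (nat_lit 3) (nat_lit 0x10000c0003000000004000000000000000000) (nat_lit 0x0) (nat_lit 0x800000000000180008000200000000000000) := T_45 (nat_lit 91) (nat_lit 57) (nat_lit 7) (nat_lit 6) (nat_lit 3) L123205 (by decide +kernel)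
theorem L125877 : W_45 (nat_lit 2) (nat_lit 0x10002c0003000080004000000000000000000) (nat_lit 0x0) (nat_lit 0x10000800020000000000000000000000000000000) := D_45 (nat_lit 143) (nat_lit 160) (nat_lit 125) (nat_lit 4) (nat_lit 7) (nat_lit 9) (nat_lit 7) (nat_lit 6) (nat_lit 4) (by decide +kernel)
theorem L125878 : W_45 (nat_lit 3) (nat_lit 0x10002c0003000000004000000000000000000) (nat_lit 0x0) (nat_lit 0x10000800020000000080000000200000000000000) := T_45 (nat_lit 91) (nat_lit 57) (nat_lit 7) (nat_lit 6) (nat_lit 3) L125877 (by decide +kernel)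
theorem L125879 : W_45 (nat_lit 4) (nat_lit 0x10000c0003000000004000000000000000000) (nat_lit 0x0) (nat_lit 0x10000800320000000080000000200000000000000) := T_45 (nat_lit 129) (nat_lit 128) (nat_lit 0) (nat_lit 10) (nat_lit 7) L125878 (by decide +kernel)
theorem L125880 : W_45 (nat_lit 2) (nat_lit 0x10002c000300080007c004200000000000000) (nat_lit 0x0) (nat_lit 0x10000000080008000000000000000) := D_45 (nat_lit 79) (nat_lit 63) (nat_lit 112) (nat_lit 2) (nat_lit 8) (nat_lit 4) (nat_lit 6) (nat_lit 10) (nat_lit 7) (by decide +kernel)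
theorem L125881 : W_45 (nat_lit 3) (nat_lit 0x10002c000300080007c000200000000000000) (nat_lit 0x0) (nat_lit 0x1000000008000e000000000000000) := T_45 (nat_lit 62) (nat_lit 61) (nat_lit 2) (nat_lit 7) (nat_lit 4) L125880 (by decide +kernel)
theorem L125882 : W_45 (nat_lit 4) (nat_lit 0x10002c000300080003c000200000000000000) (nat_lit 0x0) (nat_lit 0x100010000c000e000000000000000) := T_45 (nat_lit 78) (nat_lit 96) (nat_lit 3) (nat_lit 7) (nat_lit 4) L125881 (by decide +kernel)
theorem L125883 : W_45 (nat_lit 5) (nat_lit 0x10002c000300080003c000000000000000000) (nat_lit 0x0) (nat_lit 0x100010000c000e300000000000000) := T_45 (nat_lit 57) (nat_lit 56) (nat_lit 0) (nat_lit 9) (nat_lit 4) L125882 (by decide +kernel)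
theorem L125884 : W_45 (nat_lit 6) (nat_lit 0x10002c000300000003c000000000000000000) (nat_lit 0x0) (nat_lit 0x10001c000c000e300000000000000) := T_45 (nat_lit 95) (nat_lit 94) (nat_lit 3) (nat_lit 6) (nat_lit 4) L125883 (by decide +kernel)
theorem L125885 : W_45 (nat_lit 7) (nat_lit 0x10000c000300000003c000000000000000000) (nat_lit 0x0) (nat_lit 0x300010001c000c000e300000000000000) := T_45 (nat_lit 129) (nat_lit 128) (nat_lit 0) (nat_lit 10) (nat_lit 7) L125884 (by decide +kernel)
theorem L125886 : W_45 (nat_lit 2) (nat_lit 0x10006c00230010000fc004200000000000000) (nat_lit 0x0) (nat_lit 0x10000800040000000000000000000000000000) := D_45 (nat_lit 131) (nat_lit 114) (nat_lit 148) (nat_lit 7) (nat_lit 11) (nat_lit 3) (nat_lit 7) (nat_lit 11) (nat_lit 4) (by decide +kernel)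
theorem L125887 : W_45 (nat_lit 3) (nat_lit 0x10002c00230010000fc004200000000000000) (nat_lit 0x0) (nat_lit 0x14000c00040000000000000000000000000000) := T_45 (nat_lit 130) (nat_lit 146) (nat_lit 5) (nat_lit 11) (nat_lit 4) L125886 (by decide +kernel)
theorem L125888 : W_45 (nat_lit 4) (nat_lit 0x10002c00030010000fc004200000000000000) (nat_lit 0x0) (nat_lit 0x14000c00070000000000000000000000000000) := T_45 (nat_lit 113) (nat_lit 112) (nat_lit 5) (nat_lit 11) (nat_lit 3) L125887 (by decide +kernel)
theorem L125889 : W_45 (nat_lit 5) (nat_lit 0x10002c00030000000fc004200000000000000) (nat_lit 0x0) (nat_lit 0x14000c00070003000000000000000000000000) := T_45 (nat_lit 96) (nat_lit 97) (nat_lit 3) (nat_lit 8) (nat_lit 4) L125888 (by decide +kernel)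
theorem L125890 : W_45 (nat_lit 6) (nat_lit 0x10002c000300000007c004200000000000000) (nat_lit 0x0) (nat_lit 0x14000c00070003000080008000000000000000) := T_45 (nat_lit 79) (nat_lit 63) (nat_lit 2) (nat_lit 8) (nat_lit 4) L125889 (by decide +kernel)
theorem L125891 : W_45 (nat_lit 7) (nat_lit 0x10002c000300000007c000200000000000000) (nat_lit 0x0) (nat_lit 0x14000c0007000300008000e000000000000000) := T_45 (nat_lit 62) (nat_lit 61) (nat_lit 2) (nat_lit 7) (nat_lit 4) L125890 (by decide +kernel)
theorem L125892 : W_45 (nat_lit 8) (nat_lit 0x10002c000300000003c000200000000000000) (nat_lit 0x0) (nat_lit 0x14000c000700030000c000e400000000000000) := T_45 (nat_lit 78) (nat_lit 58) (nat_lit 0) (nat_lit 10) (nat_lit 4) L125891 (by decide +kernel)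
theorem L125893 : W_45 (nat_lit 9) (nat_lit 0x10000c000300000003c000200000000000000) (nat_lit 0x0) (nat_lit 0x14000f000700030000c000e400000000000000) := T_45 (nat_lit 129) (nat_lit 128) (nat_lit 0) (nat_lit 10) (nat_lit 7) L125892 (by decide +kernel)
theorem L125894 : W_45 (nat_lit 10) (nat_lit 0x10000c000300000003c000000000000000000) (nat_lit 0x0) (nat_lit 0x14000f000700030000c000e700000000000000) := T_45 (nat_lit 57) (nat_lit 56) (nat_lit 0) (nat_lit 9) (nat_lit 4) L125893 (by decide +kernel)
theorem L125895 : W_45 (nat_lit 2) (nat_lit 0x10001c000300040003e001000000000000000) (nat_lit 0x0) (nat_lit 0x380000000000000) := D_45 (nat_lit 56) (nat_lit 57) (nat_lit 55) (nat_lit 0) (nat_lit 9) (nat_lit 4) (nat_lit 0) (nat_lit 8) (nat_lit 4) (by decide +kernel)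
theorem L125896 : W_45 (nat_lit 3) (nat_lit 0x10001c000300040003c001000000000000000) (nat_lit 0x0) (nat_lit 0x2000b80000000000000) := T_45 (nat_lit 73) (nat_lit 59) (nat_lit 2) (nat_lit 5) (nat_lit 4) L125895 (by decide +kernel)
theorem L125897 : W_45 (nat_lit 4) (nat_lit 0x10001c000300040003c000000000000000000) (nat_lit 0x0) (nat_lit 0x2003b80000000000000) := T_45 (nat_lit 60) (nat_lit 61) (nat_lit 2) (nat_lit 6) (nat_lit 4) L125896 (by decide +kernel)
theorem L125898 : W_45 (nat_lit 5) (nat_lit 0x10001c000300040002c000000000000000000) (nat_lit 0x0) (nat_lit 0x800012003b80000000000000) := T_45 (nat_lit 76) (nat_lit 95) (nat_lit 3) (nat_lit 6) (nat_lit 4) L125897 (by decide +kernel)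
theorem L125899 : W_45 (nat_lit 6) (nat_lit 0x10001c000300000002c000000000000000000) (nat_lit 0x0) (nat_lit 0x8000c00012003b80000000000000) := T_45 (nat_lit 94) (nat_lit 111) (nat_lit 5) (nat_lit 9) (nat_lit 4) L125898 (by decide +kernel)
theorem L125900 : W_45 (nat_lit 7) (nat_lit 0x10000c000300000002c000000000000000000) (nat_lit 0x0) (nat_lit 0x300008000c00012003b80000000000000) := T_45 (nat_lit 128) (nat_lit 129) (nat_lit 0) (nat_lit 10) (nat_lit 7) L125899 (by decide +kernel)
theorem L125901 : W_45 (nat_lit 2) (nat_lit 0x10000c000300042003e001080000000000000) (nat_lit 0x0) (nat_lit 0x10001000040000000000000) := D_45 (nat_lit 72) (nat_lit 88) (nat_lit 54) (nat_lit 1) (nat_lit 7) (nat_lit 4) (nat_lit 0) (nat_lit 7) (nat_lit 4) (by decide +kernel)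
theorem L125902 : W_45 (nat_lit 3) (nat_lit 0x10000c000300042003e001000000000000000) (nat_lit 0x0) (nat_lit 0x100010001c0000000000000) := T_45 (nat_lit 55) (nat_lit 56) (nat_lit 0) (nat_lit 8) (nat_lit 4) L125901 (by decide +kernel)
theorem L125903 : W_45 (nat_lit 4) (nat_lit 0x10000c000300040003e001000000000000000) (nat_lit 0x0) (nat_lit 0x700010001c0000000000000) := T_45 (nat_lit 89) (nat_lit 90) (nat_lit 1) (nat_lit 8) (nat_lit 4) L125902 (by decide +kernel)
theorem L125904 : W_45 (nat_lit 5) (nat_lit 0x10000c000300040003c001000000000000000) (nat_lit 0x0) (nat_lit 0x700030009c0000000000000) := T_45 (nat_lit 73) (nat_lit 59) (nat_lit 2) (nat_lit 5) (nat_lit 4) L125903 (by decide +kernel)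
theorem L125905 : W_45 (nat_lit 6) (nat_lit 0x10000c000300040003c000000000000000000) (nat_lit 0x0) (nat_lit 0x700030039c0000000000000) := T_45 (nat_lit 60) (nat_lit 61) (nat_lit 2) (nat_lit 6) (nat_lit 4) L125904 (by decide +kernel)
theorem L125906 : W_45 (nat_lit 7) (nat_lit 0x10000c000300000003c000000000000000000) (nat_lit 0x0) (nat_lit 0xc700030039c0000000000000) := T_45 (nat_lit 94) (nat_lit 95) (nat_lit 3) (nat_lit 6) (nat_lit 4) L125905 (by decide +kernel)
theorem L125907 : W_45 (nat_lit 2) (nat_lit 0x10002c000300080003c001000000000000000) (nat_lit 0x0) (nat_lit 0x10001000040000000000000000000) := D_45 (nat_lit 78) (nat_lit 96) (nat_lit 112) (nat_lit 3) (nat_lit 7) (nat_lit 4) (nat_lit 4) (nat_lit 10) (nat_lit 7) (by decide +kernel)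
theorem L125908 : W_45 (nat_lit 3) (nat_lit 0x10002c000300080003c000000000000000000) (nat_lit 0x0) (nat_lit 0x10001000040003000000000000000) := T_45 (nat_lit 60) (nat_lit 61) (nat_lit 2) (nat_lit 6) (nat_lit 4) L125907 (by decide +kernel)
theorem L125909 : W_45 (nat_lit 4) (nat_lit 0x10002c000300000003c000000000000000000) (nat_lit 0x0) (nat_lit 0x10001c00040003000000000000000) := T_45 (nat_lit 95) (nat_lit 94) (nat_lit 3) (nat_lit 6) (nat_lit 4) L125908 (by decide +kernel)
theorem L125910 : W_45 (nat_lit 5) (nat_lit 0x10000c000300000003c000000000000000000) (nat_lit 0x0) (nat_lit 0x300010001c00040003000000000000000) := T_45 (nat_lit 129) (nat_lit 128) (nat_lit 0) (nat_lit 10) (nat_lit 7) L125909 (by decide +kernel)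
theorem L125911 : W_45 (nat_lit 11) (nat_lit 0x10000c000300000002c000000000000000000) (nat_lit 0x0) (nat_lit 0x14000f00070003c700d300ffc0000000000000) := Q_45 (nat_lit 76) (C_45 L125894 (C_45 L125048 (C_45 L125046 (C_45 L125885 (C_45 L125032 (C_45 L125906 (C_45 L125910 N_45))))))) (by decide +kernel)
theorem L125912 : W_45 (nat_lit 2) (nat_lit 0x10000c000300002003e001080000000000000) (nat_lit 0x0) (nat_lit 0x10001000040000000000000) := D_45 (nat_lit 72) (nat_lit 88) (nat_lit 54) (nat_lit 1) (nat_lit 7) (nat_lit 4) (nat_lit 0) (nat_lit 7) (nat_lit 4) (by decide +kernel)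
theorem L125913 : W_45 (nat_lit 3) (nat_lit 0x10000c000300002003e001000000000000000) (nat_lit 0x0) (nat_lit 0x100010001c0000000000000) := T_45 (nat_lit 55) (nat_lit 56) (nat_lit 0) (nat_lit 8) (nat_lit 4) L125912 (by decide +kernel)
theorem L125914 : W_45 (nat_lit 4) (nat_lit 0x10000c000300000003e001000000000000000) (nat_lit 0x0) (nat_lit 0x700010001c0000000000000) := T_45 (nat_lit 89) (nat_lit 90) (nat_lit 1) (nat_lit 8) (nat_lit 4) L125913 (by decide +kernel)
theorem L125915 : W_45 (nat_lit 5) (nat_lit 0x10000c000300000003c001000000000000000) (nat_lit 0x0) (nat_lit 0x700030009c0000000000000) := T_45 (nat_lit 73) (nat_lit 59) (nat_lit 2) (nat_lit 5) (nat_lit 4) L125914 (by decide +kernel)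
theorem L125916 : W_45 (nat_lit 6) (nat_lit 0x10000c000300000003c000000000000000000) (nat_lit 0x0) (nat_lit 0x700030039c0000000000000) := T_45 (nat_lit 60) (nat_lit 61) (nat_lit 2) (nat_lit 6) (nat_lit 4) L125915 (by decide +kernel)
theorem L125917 : W_45 (nat_lit 5) (nat_lit 0x10002c00030010000fc000200000000000000) (nat_lit 0x0) (nat_lit 0x14000c0007000000000000c000000000000000) := T_45 (nat_lit 62) (nat_lit 63) (nat_lit 2) (nat_lit 8) (nat_lit 4) L125888 (by decide +kernel)
theorem L125918 : W_45 (nat_lit 6) (nat_lit 0x10002c000300100007c000200000000000000) (nat_lit 0x0) (nat_lit 0x14000c0007000200008000c000000000000000) := T_45 (nat_lit 79) (nat_lit 97) (nat_lit 3) (nat_lit 8) (nat_lit 4) L125917 (by decide +kernel)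
theorem L125919 : W_45 (nat_lit 7) (nat_lit 0x10002c000300000007c000200000000000000) (nat_lit 0x0) (nat_lit 0x14000c0007000380008000c000000000000000) := T_45 (nat_lit 96) (nat_lit 95) (nat_lit 3) (nat_lit 7) (nat_lit 4) L125918 (by decide +kernel)
theorem L125920 : W_45 (nat_lit 8) (nat_lit 0x10002c000300000003c000200000000000000) (nat_lit 0x0) (nat_lit 0x14000c000700038000c000c400000000000000) := T_45 (nat_lit 78) (nat_lit 58) (nat_lit 0) (nat_lit 10) (nat_lit 4) L125919 (by decide +kernel)
theorem L125921 : W_45 (nat_lit 9) (nat_lit 0x10002c000300000003c000000000000000000) (nat_lit 0x0) (nat_lit 0x14000c000700038000c000c700000000000000) := T_45 (nat_lit 57) (nat_lit 56) (nat_lit 0) (nat_lit 9) (nat_lit 4) L125920 (by decide +kernel)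
theorem L125922 : W_45 (nat_lit 10) (nat_lit 0x10000c000300000003c000000000000000000) (nat_lit 0x0) (nat_lit 0x14000f000700038000c000c700000000000000) := T_45 (nat_lit 129) (nat_lit 128) (nat_lit 0) (nat_lit 10) (nat_lit 7) L125921 (by decide +kernel)
theorem L125923 : W_45 (nat_lit 2) (nat_lit 0x10002c000300100007c002400000000000000) (nat_lit 0x0) (nat_lit 0x2000080000800000000000000) := D_45 (nat_lit 79) (nat_lit 59) (nat_lit 97) (nat_lit 0) (nat_lit 11) (nat_lit 4) (nat_lit 3) (nat_lit 8) (nat_lit 4) (by decide +kernel)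
theorem L125924 : W_45 (nat_lit 3) (nat_lit 0x10002c000300000007c002400000000000000) (nat_lit 0x0) (nat_lit 0x3800080000800000000000000) := T_45 (nat_lit 96) (nat_lit 95) (nat_lit 3) (nat_lit 7) (nat_lit 4) L125923 (by decide +kernel)
theorem L125925 : W_45 (nat_lit 4) (nat_lit 0x10002c000300000007c002000000000000000) (nat_lit 0x0) (nat_lit 0x3800080000e00000000000000) := T_45 (nat_lit 58) (nat_lit 57) (nat_lit 0) (nat_lit 10) (nat_lit 4) L125924 (by decide +kernel)
theorem L125926 : W_45 (nat_lit 5) (nat_lit 0x10002c000300000003c002000000000000000) (nat_lit 0x0) (nat_lit 0x38000c0004e00000000000000) := T_45 (nat_lit 78) (nat_lit 62) (nat_lit 2) (nat_lit 7) (nat_lit 4) L125925 (by decide +kernel)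
theorem L125927 : W_45 (nat_lit 6) (nat_lit 0x10000c000300000003c002000000000000000) (nat_lit 0x0) (nat_lit 0x3000000038000c0004e00000000000000) := T_45 (nat_lit 129) (nat_lit 128) (nat_lit 0) (nat_lit 10) (nat_lit 7) L125926 (by decide +kernel)
theorem L125928 : W_45 (nat_lit 7) (nat_lit 0x10000c000300000003c000000000000000000) (nat_lit 0x0) (nat_lit 0x3000000038000c0007e00000000000000) := T_45 (nat_lit 61) (nat_lit 60) (nat_lit 2) (nat_lit 6) (nat_lit 4) L125927 (by decide +kernel)
theorem L125929 : W_45 (nat_lit 11) (nat_lit 0x10000c000300000002c000000000000000000) (nat_lit 0x0) (nat_lit 0x14000f000700038700d300ffc0000000000000) := Q_45 (nat_lit 76) (C_45 L125894 (C_45 L125048 (C_45 L125032 (C_45 L125916 (C_45 L125922 (C_45 L125928 N_45)))))) (by decide +kernel)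
theorem L125930 : W_45 (nat_lit 2) (nat_lit 0x10000c000300040003c001800000000000000) (nat_lit 0x0) (nat_lit 0xc000000000000000040000000000) := D_45 (nat_lit 111) (nat_lit 110) (nat_lit 42) (nat_lit 5) (nat_lit 9) (nat_lit 3) (nat_lit 4) (nat_lit 9) (nat_lit 6) (by decide +kernel)
theorem L125931 : W_45 (nat_lit 3) (nat_lit 0x10000c000300040003c001000000000000000) (nat_lit 0x0) (nat_lit 0xc000000002000800040000000000) := T_45 (nat_lit 59) (nat_lit 73) (nat_lit 2) (nat_lit 5) (nat_lit 4) L125930 (by decide +kernel)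
theorem L125932 : W_45 (nat_lit 4) (nat_lit 0x10000c000300040003c000000000000000000) (nat_lit 0x0) (nat_lit 0xc000000002003800040000000000) := T_45 (nat_lit 60) (nat_lit 61) (nat_lit 2) (nat_lit 6) (nat_lit 4) L125931 (by decide +kernel)
theorem L125933 : W_45 (nat_lit 5) (nat_lit 0x10000c000300000003c000000000000000000) (nat_lit 0x0) (nat_lit 0xc000c00002003800040000000000) := T_45 (nat_lit 94) (nat_lit 95) (nat_lit 3) (nat_lit 6) (nat_lit 4) L125932 (by decide +kernel)
theorem L125934 : W_45 (nat_lit 7) (nat_lit 0x10000c000300000002c000000000000000000) (nat_lit 0x0) (nat_lit 0xc001c70053003fc0040000000000) := Q_45 (nat_lit 76) (C_45 L125916 (C_45 L125046 (C_45 L125933 N_45))) (by decide +kernel)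
theorem L125935 : W_45 (nat_lit 2) (nat_lit 0x10001f000b00000002c000000000000000000) (nat_lit 0x0) (nat_lit 0x80000c000000000000000000000000000000) := D_45 (nat_lit 123) (nat_lit 143) (nat_lit 122) (nat_lit 3) (nat_lit 4) (nat_lit 7) (nat_lit 2) (nat_lit 3) (nat_lit 7) (by decide +kernel)
theorem L125936 : W_45 (nat_lit 3) (nat_lit 0x10001e000b00000002c000000000000000000) (nat_lit 0x0) (nat_lit 0x80001c004000000000000000000000000000) := T_45 (nat_lit 124) (nat_lit 110) (nat_lit 2) (nat_lit 5) (nat_lit 7) L125935 (by decide +kernel)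
theorem L125937 : W_45 (nat_lit 4) (nat_lit 0x10001c000b00000002c000000000000000000) (nat_lit 0x0) (nat_lit 0x80003c014000000000000000000000000000) := T_45 (nat_lit 125) (nat_lit 112) (nat_lit 2) (nat_lit 6) (nat_lit 7) L125936 (by decide +kernel)
theorem L125938 : W_45 (nat_lit 5) (nat_lit 0x10001c000300000002c000000000000000000) (nat_lit 0x0) (nat_lit 0x80003c01c000400000000000000000000000) := T_45 (nat_lit 111) (nat_lit 94) (nat_lit 5) (nat_lit 9) (nat_lit 4) L125937 (by decide +kernel)
theorem L125939 : W_45 (nat_lit 6) (nat_lit 0x10000c000300000002c000000000000000000) (nat_lit 0x0) (nat_lit 0x80033c01c000400000000000000000000000) := T_45 (nat_lit 128) (nat_lit 129) (nat_lit 0) (nat_lit 10) (nat_lit 7) L125938 (by decide +kernel)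
theorem L125940 : W_45 (nat_lit 12) (nat_lit 0x10000c000300000000c000000000000000000) (nat_lit 0x0) (nat_lit 0x14800f3c07c003c700f300ffc0040000000000) := Q_45 (nat_lit 77) (C_45 L125900 (C_45 L125911 (C_45 L125929 (C_45 L125934 (C_45 L125939 N_45))))) (by decide +kernel)
theorem L125941 : W_45 (nat_lit 13) (nat_lit 0x10000c0003000000004000000000000000000) (nat_lit 0x0) (nat_lit 0x14800f3c07c003d700fb00ffc0040000000000) := T_45 (nat_lit 75) (nat_lit 92) (nat_lit 7) (nat_lit 7) (nat_lit 4) L125940 (by decide +kernel)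
theorem L125942 : W_45 (nat_lit 2) (nat_lit 0x10000c0003000080004000000000000000000) (nat_lit 0x0) (nat_lit 0x10000800020000000000000000000000000000000) := D_45 (nat_lit 143) (nat_lit 160) (nat_lit 125) (nat_lit 4) (nat_lit 7) (nat_lit 9) (nat_lit 7) (nat_lit 6) (nat_lit 4) (by decide +kernel)
theorem L125943 : W_45 (nat_lit 6) (nat_lit 0x10000c0003000000004000000000000000000) (nat_lit 0x0) (nat_lit 0x10000a0003c004000180008000400000000000000) := Q_45 (nat_lit 91) (C_45 L125672 (C_45 L123205 (C_45 L125942 N_45))) (by decide +kernel)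
theorem L125944 : W_45 (nat_lit 14) (nat_lit 0x10000c0003000000000000000000000000000) (nat_lit 0x0) (nat_lit 0x10014a00f3c07c003df00ff00ffc0040000000000) := Q_45 (nat_lit 74) (C_45 L125875 (C_45 L125876 (C_45 L125879 (C_45 L124964 (C_45 L125941 (C_45 L125943 N_45)))))) (by decide +kernel)
theorem L125945 : W_45 (nat_lit 2) (nat_lit 0x100012000d00078000c0008000000000000000000) (nat_lit 0x0) (nat_lit 0x2000100020000000000000000000000000000000) := D_45 (nat_lit 140) (nat_lit 157) (nat_lit 125) (nat_lit 5) (nat_lit 5) (nat_lit 5) (nat_lit 1) (nat_lit 8) (nat_lit 7) (by decide +kernel)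
theorem L125946 : W_45 (nat_lit 3) (nat_lit 0x100010000d00078000c0008000000000000000000) (nat_lit 0x0) (nat_lit 0x6000300020000000000000000000000000000000) := T_45 (nat_lit 141) (nat_lit 158) (nat_lit 6) (nat_lit 5) (nat_lit 9) L125945 (by decide +kernel)
theorem L125947 : W_45 (nat_lit 4) (nat_lit 0x100010000d0007800080008000000000000000000) (nat_lit 0x0) (nat_lit 0x6000300020000000060000000000000000000000) := T_45 (nat_lit 90) (nat_lit 89) (nat_lit 0) (nat_lit 8) (nat_lit 6) L125946 (by decide +kernel)
theorem L125948 : W_45 (nat_lit 5) (nat_lit 0x100010000c0007800080008000000000000000000) (nat_lit 0x0) (nat_lit 0x6000300038000000060000000000000000000000) := T_45 (nat_lit 124) (nat_lit 123) (nat_lit 1) (nat_lit 8) (nat_lit 6) L125947 (by decide +kernel)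
theorem L125949 : W_45 (nat_lit 6) (nat_lit 0x100010000c0007000080008000000000000000000) (nat_lit 0x0) (nat_lit 0x6000300038000c00060000000000000000000000) := T_45 (nat_lit 107) (nat_lit 106) (nat_lit 3) (nat_lit 4) (nat_lit 6) L125948 (by decide +kernel)
theorem L125950 : W_45 (nat_lit 7) (nat_lit 0x10000c0007000080008000000000000000000) (nat_lit 0x0) (nat_lit 0x16000b00038000c00060000000000000000000000) := T_45 (nat_lit 160) (nat_lit 143) (nat_lit 4) (nat_lit 7) (nat_lit 9) L125949 (by decide +kernel)
theorem L125951 : W_45 (nat_lit 8) (nat_lit 0x10000c0007000080000000000000000000000) (nat_lit 0x0) (nat_lit 0x16000b00038000c00160008000000000000000000) := T_45 (nat_lit 75) (nat_lit 92) (nat_lit 7) (nat_lit 7) (nat_lit 4) L125950 (by decide +kernel)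
theorem L125952 : W_45 (nat_lit 2) (nat_lit 0x100010000f0007800080008000000000000000000) (nat_lit 0x0) (nat_lit 0x4000300000000000000000000000000000000000) := D_45 (nat_lit 141) (nat_lit 140) (nat_lit 158) (nat_lit 1) (nat_lit 8) (nat_lit 7) (nat_lit 6) (nat_lit 5) (nat_lit 9) (by decide +kernel)
theorem L125953 : W_45 (nat_lit 3) (nat_lit 0x100010000d0007800080008000000000000000000) (nat_lit 0x0) (nat_lit 0x4000300020008000000000000000000000000000) := T_45 (nat_lit 125) (nat_lit 111) (nat_lit 2) (nat_lit 5) (nat_lit 7) L125952 (by decide +kernel)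
theorem L125954 : W_45 (nat_lit 4) (nat_lit 0x10000d0007800080008000000000000000000) (nat_lit 0x0) (nat_lit 0x14000b00020008000000000000000000000000000) := T_45 (nat_lit 160) (nat_lit 143) (nat_lit 4) (nat_lit 7) (nat_lit 9) L125953 (by decide +kernel)
theorem L125955 : W_45 (nat_lit 5) (nat_lit 0x10000c0007800080008000000000000000000) (nat_lit 0x0) (nat_lit 0x14000b00038008000000000000000000000000000) := T_45 (nat_lit 124) (nat_lit 123) (nat_lit 1) (nat_lit 8) (nat_lit 6) L125954 (by decide +kernel)
theorem L125956 : W_45 (nat_lit 6) (nat_lit 0x10000c0007800080000000000000000000000) (nat_lit 0x0) (nat_lit 0x14000b00038008000100008000000000000000000) := T_45 (nat_lit 75) (nat_lit 92) (nat_lit 7) (nat_lit 7) (nat_lit 4) L125955 (by decide +kernel)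
theorem L125957 : W_45 (nat_lit 7) (nat_lit 0x10000c0007000080000000000000000000000) (nat_lit 0x0) (nat_lit 0x14000b00038008c00100008000000000000000000) := T_45 (nat_lit 107) (nat_lit 106) (nat_lit 3) (nat_lit 4) (nat_lit 6) L125956 (by decide +kernel)
theorem L125958 : W_45 (nat_lit 9) (nat_lit 0x10000c0003000080000000000000000000000) (nat_lit 0x0) (nat_lit 0x16000b0003803cc01d60008000000000000000000) := Q_45 (nat_lit 110) (C_45 L125866 (C_45 L125867 (C_45 L123210 (C_45 L125951 (C_45 L125957 N_45))))) (by decide +kernel)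
theorem L125959 : W_45 (nat_lit 10) (nat_lit 0x10000c0003000000000000000000000000000) (nat_lit 0x0) (nat_lit 0x16000b0003c03ce01df000c000600000000000000) := Q_45 (nat_lit 91) (C_45 L125671 (C_45 L125673 (C_45 L123225 (C_45 L125958 N_45)))) (by decide +kernel)
theorem L125960 : W_45 (nat_lit 15) (nat_lit 0x10000c0002000000000000000000000000000) (nat_lit 0x0) (nat_lit 0x16014b00f3c07de03df00ff00ffc0040000000000) := Q_45 (nat_lit 108) (C_45 L125574 (C_45 L125944 (C_45 L123227 (C_45 L125959 N_45)))) (by decide +kernel)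
theorem L125961 : W_45 (nat_lit 2) (nat_lit 0x10000c001f000840008000000000000000000) (nat_lit 0x0) (nat_lit 0xc00020000000000000000000000) := D_45 (nat_lit 107) (nat_lit 89) (nat_lit 106) (nat_lit 0) (nat_lit 8) (nat_lit 6) (nat_lit 3) (nat_lit 4) (nat_lit 6) (by decide +kernel)
theorem L125962 : W_45 (nat_lit 3) (nat_lit 0x10000c001f000800008000000000000000000) (nat_lit 0x0) (nat_lit 0xc000e0000000000000000000000) := T_45 (nat_lit 90) (nat_lit 91) (nat_lit 0) (nat_lit 9) (nat_lit 6) L125961 (by decide +kernel)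
theorem L125963 : W_45 (nat_lit 4) (nat_lit 0x10000c001e000800008000000000000000000) (nat_lit 0x0) (nat_lit 0x1c004e0000000000000000000000) := T_45 (nat_lit 108) (nat_lit 94) (nat_lit 2) (nat_lit 6) (nat_lit 6) L125962 (by decide +kernel)
theorem L125964 : W_45 (nat_lit 5) (nat_lit 0x10000c001e000000008000000000000000000) (nat_lit 0x0) (nat_lit 0x1c01ce0000000000000000000000) := T_45 (nat_lit 95) (nat_lit 96) (nat_lit 2) (nat_lit 7) (nat_lit 6) L125963 (by decide +kernel)
theorem L125965 : W_45 (nat_lit 6) (nat_lit 0x10000c000e000000008000000000000000000) (nat_lit 0x0) (nat_lit 0x31c01ce0000000000000000000000) := T_45 (nat_lit 112) (nat_lit 113) (nat_lit 1) (nat_lit 11) (nat_lit 6) L125964 (by decide +kernel)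
theorem L125966 : W_45 (nat_lit 7) (nat_lit 0x10000c000e000000000000000000000000000) (nat_lit 0x0) (nat_lit 0x31c01de0008000000000000000000) := T_45 (nat_lit 75) (nat_lit 92) (nat_lit 7) (nat_lit 7) (nat_lit 4) L125965 (by decide +kernel)
theorem L125967 : W_45 (nat_lit 2) (nat_lit 0x10000d000f000000000000000000000000000) (nat_lit 0x0) (nat_lit 0x8000c00000000000000000000000000) := D_45 (nat_lit 107) (nat_lit 106) (nat_lit 123) (nat_lit 3) (nat_lit 4) (nat_lit 6) (nat_lit 1) (nat_lit 8) (nat_lit 6) (by decide +kernel)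
theorem L125968 : W_45 (nat_lit 3) (nat_lit 0x10000c000f000000000000000000000000000) (nat_lit 0x0) (nat_lit 0x38000c00000000000000000000000000) := T_45 (nat_lit 124) (nat_lit 125) (nat_lit 2) (nat_lit 5) (nat_lit 7) L125967 (by decide +kernel)
theorem L125969 : W_45 (nat_lit 2) (nat_lit 0x10000c000f400480004001000000000000000) (nat_lit 0x0) (nat_lit 0x10000800000000000100000000000000000000000) := D_45 (nat_lit 143) (nat_lit 160) (nat_lit 92) (nat_lit 4) (nat_lit 7) (nat_lit 9) (nat_lit 4) (nat_lit 7) (nat_lit 8) (by decide +kernel)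
theorem L125970 : W_45 (nat_lit 3) (nat_lit 0x10000c000f400480000001000000000000000) (nat_lit 0x0) (nat_lit 0x10000800000000000100004000200000000000000) := T_45 (nat_lit 74) (nat_lit 57) (nat_lit 7) (nat_lit 6) (nat_lit 3) L125969 (by decide +kernel)
theorem L125971 : W_45 (nat_lit 4) (nat_lit 0x10000c000f400480000000000000000000000) (nat_lit 0x0) (nat_lit 0x10000800000000000100024001200000000000000) := T_45 (nat_lit 60) (nat_lit 77) (nat_lit 5) (nat_lit 9) (nat_lit 3) L125970 (by decide +kernel)
theorem L125972 : W_45 (nat_lit 5) (nat_lit 0x10000c000f400400000000000000000000000) (nat_lit 0x0) (nat_lit 0x100008000000000001c0024001200000000000000) := T_45 (nat_lit 91) (nat_lit 90) (nat_lit 0) (nat_lit 9) (nat_lit 6) L125971 (by decide +kernel)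
theorem L125973 : W_45 (nat_lit 6) (nat_lit 0x10000c000f400000000000000000000000000) (nat_lit 0x0) (nat_lit 0x10000800000000000dc0024001200000000000000) := T_45 (nat_lit 94) (nat_lit 95) (nat_lit 2) (nat_lit 6) (nat_lit 6) L125972 (by decide +kernel)
theorem L125974 : W_45 (nat_lit 7) (nat_lit 0x10000c000f000000000000000000000000000) (nat_lit 0x0) (nat_lit 0x10000800000000c00dc0024001200000000000000) := T_45 (nat_lit 106) (nat_lit 107) (nat_lit 3) (nat_lit 4) (nat_lit 6) L125973 (by decide +kernel)
theorem L125975 : W_45 (nat_lit 8) (nat_lit 0x10000c000e000000000000000000000000000) (nat_lit 0x0) (nat_lit 0x10000800038001c00dc0024001200000000000000) := Q_45 (nat_lit 108) (C_45 L125968 (C_45 L125974 (C_45 L125625 N_45))) (by decide +kernel)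
theorem L125976 : W_45 (nat_lit 9) (nat_lit 0x10000c0006000000000000000000000000000) (nat_lit 0x0) (nat_lit 0x10000800038039c01de002c001200000000000000) := Q_45 (nat_lit 111) (C_45 L125592 (C_45 L125966 (C_45 L125975 N_45))) (by decide +kernel)
theorem L125977 : W_45 (nat_lit 2) (nat_lit 0x10000c000f000400008000000000000000000) (nat_lit 0x0) (nat_lit 0xc00200000000000000000000000) := D_45 (nat_lit 107) (nat_lit 93) (nat_lit 106) (nat_lit 2) (nat_lit 5) (nat_lit 6) (nat_lit 3) (nat_lit 4) (nat_lit 6) (by decide +kernel)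
theorem L125978 : W_45 (nat_lit 3) (nat_lit 0x10000c000f000000008000000000000000000) (nat_lit 0x0) (nat_lit 0xc00e00000000000000000000000) := T_45 (nat_lit 94) (nat_lit 95) (nat_lit 2) (nat_lit 6) (nat_lit 6) L125977 (by decide +kernel)
theorem L125979 : W_45 (nat_lit 4) (nat_lit 0x10000c000f000000000000000000000000000) (nat_lit 0x0) (nat_lit 0xc00f00008000000000000000000) := T_45 (nat_lit 75) (nat_lit 92) (nat_lit 7) (nat_lit 7) (nat_lit 4) L125978 (by decide +kernel)
theorem L125980 : W_45 (nat_lit 2) (nat_lit 0x10000c000f000400000000000000000000000) (nat_lit 0x0) (nat_lit 0x200020001000000000000000) := D_45 (nat_lit 77) (nat_lit 60) (nat_lit 93) (nat_lit 5) (nat_lit 9) (nat_lit 3) (nat_lit 6) (nat_lit 8) (nat_lit 8) (by decide +kernel)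
theorem L125981 : W_45 (nat_lit 3) (nat_lit 0x10000c000f000000000000000000000000000) (nat_lit 0x0) (nat_lit 0xe00020001000000000000000) := T_45 (nat_lit 94) (nat_lit 95) (nat_lit 2) (nat_lit 6) (nat_lit 6) L125980 (by decide +kernel)
theorem L125982 : W_45 (nat_lit 5) (nat_lit 0x10000c000e000000000000000000000000000) (nat_lit 0x0) (nat_lit 0x38001c00f00028001000000000000000) := Q_45 (nat_lit 108) (C_45 L125968 (C_45 L125979 (C_45 L125981 N_45))) (by decide +kernel)
theorem L125983 : W_45 (nat_lit 8) (nat_lit 0x10000c0006000000000000000000000000000) (nat_lit 0x0) (nat_lit 0x38039c01fe0028001000000000000000) := Q_45 (nat_lit 111) (C_45 L125966 (C_45 L125592 (C_45 L125982 N_45))) (by decide +kernel)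
theorem L125984 : W_45 (nat_lit 10) (nat_lit 0x10000c0002000000000000000000000000000) (nat_lit 0x0) (nat_lit 0x1000080003803dc01fe003c001e00000000000000) := Q_45 (nat_lit 110) (C_45 L125613 (C_45 L123153 (C_45 L123160 (C_45 L125976 (C_45 L123189 (C_45 L125983 N_45)))))) (by decide +kernel)
theorem L125985 : W_45 (nat_lit 2) (nat_lit 0x10000c0006800200000000000000000000000) (nat_lit 0x0) (nat_lit 0x800000000000000010000800000000000000) := D_45 (nat_lit 76) (nat_lit 59) (nat_lit 143) (nat_lit 5) (nat_lit 8) (nat_lit 3) (nat_lit 5) (nat_lit 8) (nat_lit 4) (by decide +kernel)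
theorem L125986 : W_45 (nat_lit 2) (nat_lit 0x10000d0006800000000000000000000000000) (nat_lit 0x0) (nat_lit 0x28000400000000000000000000000000) := D_45 (nat_lit 125) (nat_lit 106) (nat_lit 123) (nat_lit 0) (nat_lit 8) (nat_lit 7) (nat_lit 2) (nat_lit 4) (nat_lit 7) (by decide +kernel)
theorem L125987 : W_45 (nat_lit 2) (nat_lit 0x18000d0006800000000000000000000000000) (nat_lit 0x0) (nat_lit 0x200010000000000000000200000000000000000000000) := D_45 (nat_lit 160) (nat_lit 177) (nat_lit 93) (nat_lit 6) (nat_lit 7) (nat_lit 10) (nat_lit 6) (nat_lit 7) (nat_lit 9) (by decide +kernel)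
theorem L125988 : W_45 (nat_lit 2) (nat_lit 0x12000d0006800200000000000000000000000) (nat_lit 0x0) (nat_lit 0x800000000000000010000800000000000000) := D_45 (nat_lit 76) (nat_lit 59) (nat_lit 143) (nat_lit 5) (nat_lit 8) (nat_lit 3) (nat_lit 5) (nat_lit 8) (nat_lit 4) (by decide +kernel)
theorem L125989 : W_45 (nat_lit 2) (nat_lit 0x13000d0006800040002000000000000000000) (nat_lit 0x0) (nat_lit 0x20001000080000000000000) := D_45 (nat_lit 72) (nat_lit 55) (nat_lit 89) (nat_lit 4) (nat_lit 5) (nat_lit 7) (nat_lit 4) (nat_lit 5) (nat_lit 8) (by decide +kernel)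
theorem L125990 : W_45 (nat_lit 3) (nat_lit 0x13000d0006800040000000000000000000000) (nat_lit 0x0) (nat_lit 0x8000000020003000080000000000000) := T_45 (nat_lit 73) (nat_lit 123) (nat_lit 5) (nat_lit 5) (nat_lit 4) L125989 (by decide +kernel)
theorem L125991 : W_45 (nat_lit 4) (nat_lit 0x12000d0006800040000000000000000000000) (nat_lit 0x0) (nat_lit 0x2000100008000000020003000080000000000000) := T_45 (nat_lit 140) (nat_lit 157) (nat_lit 5) (nat_lit 5) (nat_lit 5) L125990 (by decide +kernel)
theorem L125992 : W_45 (nat_lit 2) (nat_lit 0x12000d0006800068016000000000000000000) (nat_lit 0x0) (nat_lit 0x800000000000200000000800000000000000) := D_45 (nat_lit 93) (nat_lit 59) (nat_lit 143) (nat_lit 5) (nat_lit 8) (nat_lit 3) (nat_lit 5) (nat_lit 8) (nat_lit 4) (by decide +kernel)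
theorem L125993 : W_45 (nat_lit 3) (nat_lit 0x12000d0006800068006000000000000000000) (nat_lit 0x0) (nat_lit 0x800000000000200018000800000000000000) := T_45 (nat_lit 76) (nat_lit 75) (nat_lit 1) (nat_lit 8) (nat_lit 4) L125992 (by decide +kernel)
theorem L125994 : W_45 (nat_lit 4) (nat_lit 0x12000d0006800060006000000000000000000) (nat_lit 0x0) (nat_lit 0x800000000000218018000800000000000000) := T_45 (nat_lit 87) (nat_lit 88) (nat_lit 2) (nat_lit 2) (nat_lit 5) L125993 (by decide +kernel)
theorem L125995 : W_45 (nat_lit 5) (nat_lit 0x12000d0006800060004000000000000000000) (nat_lit 0x0) (nat_lit 0x80000000000021801a000a00000000000000) := T_45 (nat_lit 73) (nat_lit 57) (nat_lit 6) (nat_lit 5) (nat_lit 7) L125994 (by decide +kernel)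
theorem L125996 : W_45 (nat_lit 6) (nat_lit 0x12000d0006800060000000000000000000000) (nat_lit 0x0) (nat_lit 0x80000000000029801e000a00000000000000) := T_45 (nat_lit 74) (nat_lit 91) (nat_lit 6) (nat_lit 5) (nat_lit 8) L125995 (by decide +kernel)
theorem L125997 : W_45 (nat_lit 2) (nat_lit 0x10000c0006000200010000000000000000000) (nat_lit 0x0) (nat_lit 0x400020001000000000000000) := D_45 (nat_lit 77) (nat_lit 60) (nat_lit 94) (nat_lit 6) (nat_lit 8) (nat_lit 7) (nat_lit 6) (nat_lit 8) (nat_lit 8) (by decide +kernel)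
theorem L125998 : W_45 (nat_lit 2) (nat_lit 0x10000e0006000200000000000000000000000) (nat_lit 0x0) (nat_lit 0x800000000000000010000800000000000000) := D_45 (nat_lit 76) (nat_lit 59) (nat_lit 143) (nat_lit 5) (nat_lit 8) (nat_lit 3) (nat_lit 5) (nat_lit 8) (nat_lit 4) (by decide +kernel)
theorem L125999 : W_45 (nat_lit 2) (nat_lit 0x10001f800a000000000000000000000000000) (nat_lit 0x0) (nat_lit 0x380000000000000000000000000000000000) := D_45 (nat_lit 140) (nat_lit 139) (nat_lit 141) (nat_lit 1) (nat_lit 7) (nat_lit 7) (nat_lit 1) (nat_lit 8) (nat_lit 7) (by decide +kernel)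
theorem L126000 : W_45 (nat_lit 3) (nat_lit 0x10001f000a000000000000000000000000000) (nat_lit 0x0) (nat_lit 0xb80008000000000000000000000000000000) := T_45 (nat_lit 123) (nat_lit 143) (nat_lit 3) (nat_lit 4) (nat_lit 7) L125999 (by decide +kernel)
theorem L126001 : W_45 (nat_lit 4) (nat_lit 0x10001e000a000000000000000000000000000) (nat_lit 0x0) (nat_lit 0xb80018004000000000000000000000000000) := T_45 (nat_lit 124) (nat_lit 110) (nat_lit 2) (nat_lit 5) (nat_lit 7) L126000 (by decide +kernel)
theorem L126002 : W_45 (nat_lit 5) (nat_lit 0x10001e0002000000000000000000000000000) (nat_lit 0x0) (nat_lit 0xb8001801c000000000000000000000000000) := T_45 (nat_lit 111) (nat_lit 112) (nat_lit 2) (nat_lit 6) (nat_lit 7) L126001 (by decide +kernel)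
theorem L126003 : W_45 (nat_lit 2) (nat_lit 0x10001f0002800000000000000000000000000) (nat_lit 0x0) (nat_lit 0x800008004000000000000000000000000000) := D_45 (nat_lit 123) (nat_lit 110) (nat_lit 143) (nat_lit 2) (nat_lit 4) (nat_lit 7) (nat_lit 3) (nat_lit 4) (nat_lit 7) (by decide +kernel)
theorem L126004 : W_45 (nat_lit 3) (nat_lit 0x10001e0002800000000000000000000000000) (nat_lit 0x0) (nat_lit 0x800018004400000000000000000000000000) := T_45 (nat_lit 124) (nat_lit 106) (nat_lit 0) (nat_lit 8) (nat_lit 7) L126003 (by decide +kernel)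
theorem L126005 : W_45 (nat_lit 4) (nat_lit 0x10001e0002000000000000000000000000000) (nat_lit 0x0) (nat_lit 0x800018005c00000000000000000000000000) := T_45 (nat_lit 107) (nat_lit 108) (nat_lit 0) (nat_lit 9) (nat_lit 7) L126004 (by decide +kernel)
theorem L126006 : W_45 (nat_lit 4) (nat_lit 0x10001e000b000400000000000000000000000) (nat_lit 0x0) (nat_lit 0x100008000000040008c0004000000000000000000) := T_45 (nat_lit 110) (nat_lit 95) (nat_lit 2) (nat_lit 6) (nat_lit 6) L122953 (by decide +kernel)
theorem L126007 : W_45 (nat_lit 5) (nat_lit 0x10001e000b000000000000000000000000000) (nat_lit 0x0) (nat_lit 0x10000800000004000cc0024000000000000000000) := T_45 (nat_lit 94) (nat_lit 77) (nat_lit 5) (nat_lit 9) (nat_lit 4) L126006 (by decide +kernel)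
theorem L126008 : W_45 (nat_lit 6) (nat_lit 0x10001e0003000000000000000000000000000) (nat_lit 0x0) (nat_lit 0x1000080000001c000cc0024000000000000000000) := T_45 (nat_lit 111) (nat_lit 112) (nat_lit 2) (nat_lit 6) (nat_lit 7) L126007 (by decide +kernel)
theorem L126009 : W_45 (nat_lit 7) (nat_lit 0x10001e0002000000000000000000000000000) (nat_lit 0x0) (nat_lit 0x1000080000001d800cc0024000000000000000000) := T_45 (nat_lit 108) (nat_lit 107) (nat_lit 0) (nat_lit 9) (nat_lit 7) L126008 (by decide +kernel)
theorem L126010 : W_45 (nat_lit 2) (nat_lit 0x11001f000a800000020000000000000000000) (nat_lit 0x0) (nat_lit 0x880008000000000000000000000000000000) := D_45 (nat_lit 123) (nat_lit 143) (nat_lit 139) (nat_lit 3) (nat_lit 4) (nat_lit 7) (nat_lit 1) (nat_lit 7) (nat_lit 7) (by decide +kernel)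
theorem L126011 : W_45 (nat_lit 3) (nat_lit 0x10001f000a800000020000000000000000000) (nat_lit 0x0) (nat_lit 0xb80008000000000000000000000000000000) := T_45 (nat_lit 140) (nat_lit 141) (nat_lit 1) (nat_lit 8) (nat_lit 7) L126010 (by decide +kernel)
theorem L126012 : W_45 (nat_lit 4) (nat_lit 0x10001e000a800000020000000000000000000) (nat_lit 0x0) (nat_lit 0xb80018000400000000000000000000000000) := T_45 (nat_lit 124) (nat_lit 106) (nat_lit 0) (nat_lit 8) (nat_lit 7) L126011 (by decide +kernel)
theorem L126013 : W_45 (nat_lit 5) (nat_lit 0x10001e000a800000000000000000000000000) (nat_lit 0x0) (nat_lit 0xb80018000400400020000000000000000000) := T_45 (nat_lit 77) (nat_lit 94) (nat_lit 5) (nat_lit 9) (nat_lit 4) L126012 (by decide +kernel)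
theorem L126014 : W_45 (nat_lit 6) (nat_lit 0x10001e000a000000000000000000000000000) (nat_lit 0x0) (nat_lit 0xb80018001c00400020000000000000000000) := T_45 (nat_lit 107) (nat_lit 108) (nat_lit 0) (nat_lit 9) (nat_lit 7) L126013 (by decide +kernel)
theorem L126015 : W_45 (nat_lit 7) (nat_lit 0x10001e0002000000000000000000000000000) (nat_lit 0x0) (nat_lit 0xb80018019c00400020000000000000000000) := T_45 (nat_lit 111) (nat_lit 112) (nat_lit 2) (nat_lit 6) (nat_lit 7) L126014 (by decide +kernel)
theorem L126016 : W_45 (nat_lit 8) (nat_lit 0x10001c0002000000000000000000000000000) (nat_lit 0x0) (nat_lit 0x10000b8003801dc00cc0024000000000000000000) := Q_45 (nat_lit 125) (C_45 L126002 (C_45 L126005 (C_45 L126009 (C_45 L126015 (C_45 L125717 N_45))))) (by decide +kernel)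
theorem L126017 : W_45 (nat_lit 6) (nat_lit 0x10001c0002000000000000000000000000000) (nat_lit 0x0) (nat_lit 0x8000c80062003c000400020000000000000000000) := Q_45 (nat_lit 129) (C_45 L122922 (C_45 L122842 N_45)) (by decide +kernel)
theorem L126018 : W_45 (nat_lit 6) (nat_lit 0x10001c0002000000000000000000000000000) (nat_lit 0x0) (nat_lit 0x8000c000220039000400020000000000000000000) := T_45 (nat_lit 129) (nat_lit 108) (nat_lit 0) (nat_lit 10) (nat_lit 7) L122922 (by decide +kernel)
theorem L126019 : W_45 (nat_lit 9) (nat_lit 0x10000c0002000000000000000000000000000) (nat_lit 0x0) (nat_lit 0x9000cb8073803dc00cc0024000000000000000000) := Q_45 (nat_lit 128) (C_45 L123134 (C_45 L126016 (C_45 L126017 (C_45 L126018 N_45)))) (by decide +kernel)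
theorem L126020 : W_45 (nat_lit 2) (nat_lit 0x18000c000a000780000000000000000000000) (nat_lit 0x0) (nat_lit 0x100000000000060000000000000000000) := D_45 (nat_lit 77) (nat_lit 78) (nat_lit 128) (nat_lit 2) (nat_lit 6) (nat_lit 5) (nat_lit 5) (nat_lit 9) (nat_lit 4) (by decide +kernel)
theorem L126021 : W_45 (nat_lit 2) (nat_lit 0x10000c003a000000000000000000000000000) (nat_lit 0x0) (nat_lit 0x300040000000000000000000000000000) := D_45 (nat_lit 128) (nat_lit 114) (nat_lit 129) (nat_lit 1) (nat_lit 12) (nat_lit 6) (nat_lit 2) (nat_lit 7) (nat_lit 7) (by decide +kernel)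
theorem L126022 : W_45 (nat_lit 3) (nat_lit 0x10000c001a000000000000000000000000000) (nat_lit 0x0) (nat_lit 0x300064000000000000000000000000000) := T_45 (nat_lit 113) (nat_lit 110) (nat_lit 1) (nat_lit 11) (nat_lit 6) L126021 (by decide +kernel)
theorem L126023 : W_45 (nat_lit 2) (nat_lit 0x10000c001a000000000000000000000000000) (nat_lit 0x0) (nat_lit 0x20024000000000000000000000000000) := D_45 (nat_lit 110) (nat_lit 113) (nat_lit 125) (nat_lit 1) (nat_lit 11) (nat_lit 6) (nat_lit 1) (nat_lit 10) (nat_lit 6) (by decide +kernel)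
theorem L126024 : W_45 (nat_lit 2) (nat_lit 0x10001c001a000000000000000000000000000) (nat_lit 0x0) (nat_lit 0x200060000000000000000000000000000) := D_45 (nat_lit 113) (nat_lit 114) (nat_lit 129) (nat_lit 1) (nat_lit 12) (nat_lit 6) (nat_lit 2) (nat_lit 7) (nat_lit 7) (by decide +kernel)
theorem L126025 : W_45 (nat_lit 3) (nat_lit 0x10000c001a000000000000000000000000000) (nat_lit 0x0) (nat_lit 0x320060000000000000000000000000000) := T_45 (nat_lit 128) (nat_lit 125) (nat_lit 2) (nat_lit 6) (nat_lit 7) L126024 (by decide +kernel)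
theorem L126026 : W_45 (nat_lit 2) (nat_lit 0x10000c001a000000000000000000000000000) (nat_lit 0x0) (nat_lit 0x120004000000000000000000000000000) := D_45 (nat_lit 125) (nat_lit 128) (nat_lit 110) (nat_lit 2) (nat_lit 6) (nat_lit 7) (nat_lit 1) (nat_lit 10) (nat_lit 6) (by decide +kernel)
theorem L126027 : W_45 (nat_lit 2) (nat_lit 0x10000c000e000200008000000000000000000) (nat_lit 0x0) (nat_lit 0x10000c00000000000000) := D_45 (nat_lit 76) (nat_lit 59) (nat_lit 58) (nat_lit 5) (nat_lit 8) (nat_lit 3) (nat_lit 4) (nat_lit 8) (nat_lit 7) (by decide +kernel)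
theorem L126028 : W_45 (nat_lit 3) (nat_lit 0x10000c000e000200000000000000000000000) (nat_lit 0x0) (nat_lit 0x100018000c00000000000000) := T_45 (nat_lit 75) (nat_lit 92) (nat_lit 7) (nat_lit 7) (nat_lit 4) L126027 (by decide +kernel)
theorem L126029 : W_45 (nat_lit 2) (nat_lit 0x10000c000e000100000000000000000000000) (nat_lit 0x0) (nat_lit 0x30000080000000000000000000000) := D_45 (nat_lit 112) (nat_lit 113) (nat_lit 91) (nat_lit 1) (nat_lit 11) (nat_lit 6) (nat_lit 0) (nat_lit 10) (nat_lit 6) (by decide +kernel)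
theorem L126030 : W_45 (nat_lit 3) (nat_lit 0x10000c000e000000000000000000000000000) (nat_lit 0x0) (nat_lit 0x30000180008000000000000000000) := T_45 (nat_lit 92) (nat_lit 75) (nat_lit 7) (nat_lit 7) (nat_lit 4) L126029 (by decide +kernel)
theorem L126031 : W_45 (nat_lit 2) (nat_lit 0x10002c0016000a00000000000000000000000) (nat_lit 0x0) (nat_lit 0x1400020000000000000000000) := D_45 (nat_lit 94) (nat_lit 96) (nat_lit 77) (nat_lit 1) (nat_lit 11) (nat_lit 5) (nat_lit 6) (nat_lit 8) (nat_lit 8) (by decide +kernel)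
theorem L126032 : W_45 (nat_lit 2) (nat_lit 0x10002c0016000a00000000000000000000000) (nat_lit 0x0) (nat_lit 0x800000000000000010000800000000000000) := D_45 (nat_lit 76) (nat_lit 143) (nat_lit 59) (nat_lit 5) (nat_lit 8) (nat_lit 4) (nat_lit 5) (nat_lit 8) (nat_lit 3) (by decide +kernel)
theorem L126033 : W_45 (nat_lit 2) (nat_lit 0x800058002c0016001a00000000000000000000000) (nat_lit 0x0) (nat_lit 0x2000100008000000000000000000000000000000000000) := D_45 (nat_lit 164) (nat_lit 147) (nat_lit 181) (nat_lit 7) (nat_lit 10) (nat_lit 5) (nat_lit 7) (nat_lit 10) (nat_lit 6) (by decide +kernel)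
theorem L126034 : W_45 (nat_lit 3) (nat_lit 0x58002c0016001a00000000000000000000000) (nat_lit 0x0) (nat_lit 0x2000180008000000020000000000000000000000000000) := T_45 (nat_lit 163) (nat_lit 113) (nat_lit 6) (nat_lit 10) (nat_lit 9) L126033 (by decide +kernel)
theorem L126035 : W_45 (nat_lit 4) (nat_lit 0x18002c0016001a00000000000000000000000) (nat_lit 0x0) (nat_lit 0x200018000c000000020000000080000000000000000000) := T_45 (nat_lit 146) (nat_lit 79) (nat_lit 6) (nat_lit 10) (nat_lit 8) L126034 (by decide +kernel)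
theorem L126036 : W_45 (nat_lit 5) (nat_lit 0x10002c0016001a00000000000000000000000) (nat_lit 0x0) (nat_lit 0x200019000c800000020000000080000000000000000000) := T_45 (nat_lit 143) (nat_lit 160) (nat_lit 6) (nat_lit 7) (nat_lit 9) L126035 (by decide +kernel)
theorem L126037 : W_45 (nat_lit 6) (nat_lit 0x10002c0016000a00000000000000000000000) (nat_lit 0x0) (nat_lit 0x200019000c800000020001400080000000000000000000) := T_45 (nat_lit 96) (nat_lit 94) (nat_lit 1) (nat_lit 11) (nat_lit 5) L126036 (by decide +kernel)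
theorem L126038 : W_45 (nat_lit 2) (nat_lit 0x800050002c0016001a00000000800000000000000) (nat_lit 0x0) (nat_lit 0x2000100008000000000000000000000000000000000000) := D_45 (nat_lit 164) (nat_lit 147) (nat_lit 181) (nat_lit 7) (nat_lit 10) (nat_lit 5) (nat_lit 7) (nat_lit 10) (nat_lit 6) (by decide +kernel)
theorem L126039 : W_45 (nat_lit 3) (nat_lit 0x50002c0016001a00000000800000000000000) (nat_lit 0x0) (nat_lit 0x2000180008000000020000000000000000000000000000) := T_45 (nat_lit 163) (nat_lit 113) (nat_lit 6) (nat_lit 10) (nat_lit 9) L126038 (by decide +kernel)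
theorem L126040 : W_45 (nat_lit 4) (nat_lit 0x10002c0016001a00000000800000000000000) (nat_lit 0x0) (nat_lit 0x200018000c000000020000000080000000000000000000) := T_45 (nat_lit 146) (nat_lit 79) (nat_lit 6) (nat_lit 10) (nat_lit 8) L126039 (by decide +kernel)
theorem L126041 : W_45 (nat_lit 5) (nat_lit 0x10002c0016001a00000000000000000000000) (nat_lit 0x0) (nat_lit 0x200018000c000000020000000090000800000000000000) := T_45 (nat_lit 59) (nat_lit 76) (nat_lit 5) (nat_lit 8) (nat_lit 3) L126040 (by decide +kernel)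
theorem L126042 : W_45 (nat_lit 6) (nat_lit 0x10002c0016000a00000000000000000000000) (nat_lit 0x0) (nat_lit 0x200018000c000000020001400090000800000000000000) := T_45 (nat_lit 96) (nat_lit 94) (nat_lit 1) (nat_lit 11) (nat_lit 5) L126041 (by decide +kernel)
theorem L126043 : W_45 (nat_lit 2) (nat_lit 0x90006c0016000e00000000800000000000000) (nat_lit 0x0) (nat_lit 0x2000100004000000000000000000000000000000000000) := D_45 (nat_lit 164) (nat_lit 181) (nat_lit 146) (nat_lit 4) (nat_lit 11) (nat_lit 10) (nat_lit 7) (nat_lit 10) (nat_lit 5) (by decide +kernel)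
theorem L126044 : W_45 (nat_lit 3) (nat_lit 0x10006c0016000e00000000800000000000000) (nat_lit 0x0) (nat_lit 0x200010000c000000000000000040000000000000000000) := T_45 (nat_lit 147) (nat_lit 78) (nat_lit 7) (nat_lit 10) (nat_lit 4) L126043 (by decide +kernel)
theorem L126045 : W_45 (nat_lit 4) (nat_lit 0x10006c0016000e00000000000000000000000) (nat_lit 0x0) (nat_lit 0x200010000c000000000000000050000800000000000000) := T_45 (nat_lit 59) (nat_lit 76) (nat_lit 5) (nat_lit 8) (nat_lit 3) L126044 (by decide +kernel)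
theorem L126046 : W_45 (nat_lit 5) (nat_lit 0x10006c0016000600000000000000000000000) (nat_lit 0x0) (nat_lit 0x200010000c000000000001800050000800000000000000) := T_45 (nat_lit 95) (nat_lit 96) (nat_lit 1) (nat_lit 11) (nat_lit 5) L126045 (by decide +kernel)
theorem L126047 : W_45 (nat_lit 6) (nat_lit 0x10006c0016000200000000000000000000000) (nat_lit 0x0) (nat_lit 0x200010000c000000000001c00070000800000000000000) := T_45 (nat_lit 94) (nat_lit 77) (nat_lit 6) (nat_lit 8) (nat_lit 8) L126046 (by decide +kernel)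
theorem L126048 : W_45 (nat_lit 7) (nat_lit 0x10002c0016000200000000000000000000000) (nat_lit 0x0) (nat_lit 0x200010000c000500000001c00070000800000000000000) := T_45 (nat_lit 130) (nat_lit 128) (nat_lit 0) (nat_lit 11) (nat_lit 7) L126047 (by decide +kernel)
theorem L126049 : W_45 (nat_lit 2) (nat_lit 0x10002c0016000200000000000000000000000) (nat_lit 0x0) (nat_lit 0x800000000000000010000800000000000000) := D_45 (nat_lit 76) (nat_lit 59) (nat_lit 143) (nat_lit 5) (nat_lit 8) (nat_lit 3) (nat_lit 5) (nat_lit 8) (nat_lit 4) (by decide +kernel)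
theorem L126050 : W_45 (nat_lit 2) (nat_lit 0x98006c0016000e00000000000000000000000) (nat_lit 0x0) (nat_lit 0x2000100004000000000000000000000000000000000000) := D_45 (nat_lit 164) (nat_lit 181) (nat_lit 146) (nat_lit 4) (nat_lit 11) (nat_lit 10) (nat_lit 7) (nat_lit 10) (nat_lit 5) (by decide +kernel)
theorem L126051 : W_45 (nat_lit 3) (nat_lit 0x18006c0016000e00000000000000000000000) (nat_lit 0x0) (nat_lit 0x200010000c000000000000000040000000000000000000) := T_45 (nat_lit 147) (nat_lit 78) (nat_lit 7) (nat_lit 10) (nat_lit 4) L126050 (by decide +kernel)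
theorem L126052 : W_45 (nat_lit 4) (nat_lit 0x18002c0016000e00000000000000000000000) (nat_lit 0x0) (nat_lit 0x200010000c000500000000000040000000000000000000) := T_45 (nat_lit 130) (nat_lit 128) (nat_lit 1) (nat_lit 11) (nat_lit 7) L126051 (by decide +kernel)
theorem L126053 : W_45 (nat_lit 5) (nat_lit 0x10002c0016000e00000000000000000000000) (nat_lit 0x0) (nat_lit 0x200011000c800500000000000040000000000000000000) := T_45 (nat_lit 143) (nat_lit 160) (nat_lit 6) (nat_lit 7) (nat_lit 9) L126052 (by decide +kernel)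
theorem L126054 : W_45 (nat_lit 6) (nat_lit 0x10002c0016000600000000000000000000000) (nat_lit 0x0) (nat_lit 0x200011000c800500000001800040000000000000000000) := T_45 (nat_lit 95) (nat_lit 96) (nat_lit 1) (nat_lit 11) (nat_lit 5) L126053 (by decide +kernel)
theorem L126055 : W_45 (nat_lit 7) (nat_lit 0x10002c0016000200000000000000000000000) (nat_lit 0x0) (nat_lit 0x200011000c800500000001c00060000000000000000000) := T_45 (nat_lit 94) (nat_lit 77) (nat_lit 6) (nat_lit 8) (nat_lit 8) L126054 (by decide +kernel)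
theorem L126056 : W_45 (nat_lit 2) (nat_lit 0x10000c0016000200000000000000000000000) (nat_lit 0x0) (nat_lit 0x800000000000000010000800000000000000) := D_45 (nat_lit 76) (nat_lit 59) (nat_lit 143) (nat_lit 5) (nat_lit 8) (nat_lit 3) (nat_lit 5) (nat_lit 8) (nat_lit 4) (by decide +kernel)
theorem L126057 : W_45 (nat_lit 2) (nat_lit 0x10000c0016000700000000000000000000000) (nat_lit 0x0) (nat_lit 0x20001800000000000000000000000) := D_45 (nat_lit 95) (nat_lit 113) (nat_lit 96) (nat_lit 3) (nat_lit 7) (nat_lit 5) (nat_lit 1) (nat_lit 11) (nat_lit 5) (by decide +kernel)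
theorem L126058 : W_45 (nat_lit 3) (nat_lit 0x10000c0016000300000000000000000000000) (nat_lit 0x0) (nat_lit 0x20001c00020000000000000000000) := T_45 (nat_lit 94) (nat_lit 77) (nat_lit 6) (nat_lit 8) (nat_lit 8) L126057 (by decide +kernel)
theorem L126059 : W_45 (nat_lit 4) (nat_lit 0x10000c0016000200000000000000000000000) (nat_lit 0x0) (nat_lit 0x20001d00028000000000000000000) := T_45 (nat_lit 92) (nat_lit 75) (nat_lit 7) (nat_lit 7) (nat_lit 4) L126058 (by decide +kernel)
theorem L126060 : W_45 (nat_lit 5) (nat_lit 0x10000c0016000000000000000000000000000) (nat_lit 0x0) (nat_lit 0x800000020001f00038000800000000000000) := Q_45 (nat_lit 93) (C_45 L126056 (C_45 L126059 N_45)) (by decide +kernel)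
theorem L126061 : W_45 (nat_lit 4) (nat_lit 0x10002c0012000000008000000000000000000) (nat_lit 0x0) (nat_lit 0x1c000500024000000000000000000000000000) := T_45 (nat_lit 128) (nat_lit 113) (nat_lit 2) (nat_lit 7) (nat_lit 7) L123137 (by decide +kernel)
theorem L126062 : W_45 (nat_lit 5) (nat_lit 0x10002c0012000000000000000000000000000) (nat_lit 0x0) (nat_lit 0x1c000500024000100008000000000000000000) := T_45 (nat_lit 75) (nat_lit 92) (nat_lit 7) (nat_lit 7) (nat_lit 4) L126061 (by decide +kernel)
theorem L126063 : W_45 (nat_lit 4) (nat_lit 0x10002c0012000000000000000000000000000) (nat_lit 0x0) (nat_lit 0x1c000500024000000000000000000000000000) := T_45 (nat_lit 128) (nat_lit 113) (nat_lit 2) (nat_lit 7) (nat_lit 7) L122845 (by decide +kernel)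
theorem L126064 : W_45 (nat_lit 2) (nat_lit 0x2000100018002c0012000380000000000000000000000) (nat_lit 0x0) (nat_lit 0x2000100008000000000000000000000000000000000000000) := D_45 (nat_lit 176) (nat_lit 159) (nat_lit 193) (nat_lit 5) (nat_lit 7) (nat_lit 6) (nat_lit 5) (nat_lit 7) (nat_lit 7) (by decide +kernel)
theorem L126065 : W_45 (nat_lit 3) (nat_lit 0x100018002c0012000380000000000000000000000) (nat_lit 0x0) (nat_lit 0x6000300008000000000000000000000000000000000000000) := T_45 (nat_lit 177) (nat_lit 194) (nat_lit 6) (nat_lit 7) (nat_lit 11) L126064 (by decide +kernel)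
theorem L126066 : W_45 (nat_lit 4) (nat_lit 0x100018002c0012000300000000000000000000000) (nat_lit 0x0) (nat_lit 0x6000300008000000000000000080004000000000000000000) := T_45 (nat_lit 91) (nat_lit 74) (nat_lit 4) (nat_lit 7) (nat_lit 8) L126065 (by decide +kernel)
theorem L126067 : W_45 (nat_lit 5) (nat_lit 0x18002c0012000300000000000000000000000) (nat_lit 0x0) (nat_lit 0x6000300018000000000004000080004000000000000000000) := T_45 (nat_lit 160) (nat_lit 110) (nat_lit 6) (nat_lit 7) (nat_lit 9) L126066 (by decide +kernel)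
theorem L126068 : W_45 (nat_lit 2) (nat_lit 0x18002c0012000f00040000000000000000000) (nat_lit 0x0) (nat_lit 0x80024000000000000000000) := D_45 (nat_lit 91) (nat_lit 77) (nat_lit 74) (nat_lit 2) (nat_lit 6) (nat_lit 5) (nat_lit 4) (nat_lit 7) (nat_lit 8) (by decide +kernel)
theorem L126069 : W_45 (nat_lit 3) (nat_lit 0x18002c0012000f00000000000000000000000) (nat_lit 0x0) (nat_lit 0x800e4000000000000000000) := T_45 (nat_lit 78) (nat_lit 79) (nat_lit 2) (nat_lit 7) (nat_lit 5) L126068 (by decide +kernel)
theorem L126070 : W_45 (nat_lit 4) (nat_lit 0x18002c0012000b00000000000000000000000) (nat_lit 0x0) (nat_lit 0x200004800e4000000000000000000) := T_45 (nat_lit 94) (nat_lit 113) (nat_lit 3) (nat_lit 7) (nat_lit 5) L126069 (by decide +kernel)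
theorem L126071 : W_45 (nat_lit 2) (nat_lit 0x18002c0012000f00080000000000000000000) (nat_lit 0x0) (nat_lit 0x4000000000001000100000000000000000000) := D_45 (nat_lit 96) (nat_lit 80) (nat_lit 146) (nat_lit 2) (nat_lit 8) (nat_lit 5) (nat_lit 6) (nat_lit 10) (nat_lit 8) (by decide +kernel)
theorem L126072 : W_45 (nat_lit 3) (nat_lit 0x18002c0012000f00000000000000000000000) (nat_lit 0x0) (nat_lit 0x40000000000010001c0000000000000000000) := T_45 (nat_lit 79) (nat_lit 78) (nat_lit 2) (nat_lit 7) (nat_lit 5) L126071 (by decide +kernel)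
theorem L126073 : W_45 (nat_lit 4) (nat_lit 0x18002c0012000b00000000000000000000000) (nat_lit 0x0) (nat_lit 0x40000000200014001c0000000000000000000) := T_45 (nat_lit 94) (nat_lit 113) (nat_lit 3) (nat_lit 7) (nat_lit 5) L126072 (by decide +kernel)
theorem L126074 : W_45 (nat_lit 2) (nat_lit 0x1a001900058002c0012000f80000000000000000000000) (nat_lit 0x0) (nat_lit 0x2000100008000000000000000000000000000000000000000) := D_45 (nat_lit 176) (nat_lit 193) (nat_lit 159) (nat_lit 5) (nat_lit 7) (nat_lit 7) (nat_lit 5) (nat_lit 7) (nat_lit 6) (by decide +kernel)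
theorem L126075 : W_45 (nat_lit 3) (nat_lit 0x1a001800058002c0012000f80000000000000000000000) (nat_lit 0x0) (nat_lit 0x6000100018000000000000000000000000000000000000000) := T_45 (nat_lit 160) (nat_lit 194) (nat_lit 6) (nat_lit 7) (nat_lit 11) L126074 (by decide +kernel)
theorem L126076 : W_45 (nat_lit 4) (nat_lit 0x18001800058002c0012000f80000000000000000000000) (nat_lit 0x0) (nat_lit 0x6000700018000000000000000000000000000000000000000) := T_45 (nat_lit 177) (nat_lit 178) (nat_lit 2) (nat_lit 7) (nat_lit 10) L126075 (by decide +kernel)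
theorem L126077 : W_45 (nat_lit 5) (nat_lit 0x8001800058002c0012000f80000000000000000000000) (nat_lit 0x0) (nat_lit 0x16001700018000000000000000000000000000000000000000) := T_45 (nat_lit 180) (nat_lit 196) (nat_lit 5) (nat_lit 10) (nat_lit 7) L126076 (by decide +kernel)
theorem L126078 : W_45 (nat_lit 6) (nat_lit 0x1800058002c0012000f80000000000000000000000) (nat_lit 0x0) (nat_lit 0x16001f00058000000000000000000000000000000000000000) := T_45 (nat_lit 179) (nat_lit 162) (nat_lit 5) (nat_lit 10) (nat_lit 6) L126077 (by decide +kernel)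
theorem L126079 : W_45 (nat_lit 7) (nat_lit 0x1000058002c0012000f80000000000000000000000) (nat_lit 0x0) (nat_lit 0x16003f000d8000000000000000000000000000000000000000) := T_45 (nat_lit 163) (nat_lit 181) (nat_lit 7) (nat_lit 10) (nat_lit 6) L126078 (by decide +kernel)
theorem L126080 : W_45 (nat_lit 8) (nat_lit 0x58002c0012000f80000000000000000000000) (nat_lit 0x0) (nat_lit 0x16003f001d8008000000000000000000000000000000000000) := T_45 (nat_lit 164) (nat_lit 147) (nat_lit 7) (nat_lit 10) (nat_lit 5) L126079 (by decide +kernel)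
theorem L126081 : W_45 (nat_lit 9) (nat_lit 0x18002c0012000f80000000000000000000000) (nat_lit 0x0) (nat_lit 0x16003f001d800c000000000000000020000000000000000000) := T_45 (nat_lit 146) (nat_lit 77) (nat_lit 4) (nat_lit 10) (nat_lit 8) L126080 (by decide +kernel)
theorem L126082 : W_45 (nat_lit 10) (nat_lit 0x18002c0012000f00000000000000000000000) (nat_lit 0x0) (nat_lit 0x16003f001d800c000000000000080024000000000000000000) := T_45 (nat_lit 91) (nat_lit 74) (nat_lit 4) (nat_lit 7) (nat_lit 8) L126081 (by decide +kernel)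
theorem L126083 : W_45 (nat_lit 11) (nat_lit 0x18002c0012000b00000000000000000000000) (nat_lit 0x0) (nat_lit 0x16003f001d800c000000020000480024000000000000000000) := T_45 (nat_lit 94) (nat_lit 113) (nat_lit 3) (nat_lit 7) (nat_lit 5) L126082 (by decide +kernel)
theorem L126084 : W_45 (nat_lit 6) (nat_lit 0x10002c0012000300000000000000000000000) (nat_lit 0x0) (nat_lit 0x6000300018000800000004000080014000000000000000000) := T_45 (nat_lit 143) (nat_lit 76) (nat_lit 6) (nat_lit 7) (nat_lit 8) L126067 (by decide +kernel)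
theorem L126085 : W_45 (nat_lit 7) (nat_lit 0x10002c0012000200000000000000000000000) (nat_lit 0x0) (nat_lit 0x600030001800080000000400018001c000000000000000000) := T_45 (nat_lit 92) (nat_lit 75) (nat_lit 7) (nat_lit 7) (nat_lit 4) L126084 (by decide +kernel)
theorem L126086 : W_45 (nat_lit 2) (nat_lit 0x10002c0012000300010000000000000000000) (nat_lit 0x0) (nat_lit 0x4000000000000800040000000000) := D_45 (nat_lit 59) (nat_lit 110) (nat_lit 42) (nat_lit 5) (nat_lit 8) (nat_lit 3) (nat_lit 5) (nat_lit 8) (nat_lit 2) (by decide +kernel)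
theorem L126087 : W_45 (nat_lit 3) (nat_lit 0x10002c0012000300000000000000000000000) (nat_lit 0x0) (nat_lit 0x800000004000000010000800040000000000) := T_45 (nat_lit 76) (nat_lit 143) (nat_lit 6) (nat_lit 7) (nat_lit 8) L126086 (by decide +kernel)
theorem L126088 : W_45 (nat_lit 4) (nat_lit 0x10002c0012000200000000000000000000000) (nat_lit 0x0) (nat_lit 0x800000004000100018000800040000000000) := T_45 (nat_lit 92) (nat_lit 75) (nat_lit 7) (nat_lit 7) (nat_lit 4) L126087 (by decide +kernel)
theorem L126089 : W_45 (nat_lit 2) (nat_lit 0x10006c0012000a00060002000000000000000) (nat_lit 0x0) (nat_lit 0x80004000200000000000) := D_45 (nat_lit 62) (nat_lit 45) (nat_lit 79) (nat_lit 6) (nat_lit 10) (nat_lit 6) (nat_lit 6) (nat_lit 10) (nat_lit 7) (by decide +kernel)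
theorem L126090 : W_45 (nat_lit 3) (nat_lit 0x10006c0012000a00060000000000000000000) (nat_lit 0x0) (nat_lit 0x20000000080006000200000000000) := T_45 (nat_lit 61) (nat_lit 113) (nat_lit 7) (nat_lit 10) (nat_lit 3) L126089 (by decide +kernel)
theorem L126091 : W_45 (nat_lit 4) (nat_lit 0x10002c0012000a00060000000000000000000) (nat_lit 0x0) (nat_lit 0x8000400020000000080006000200000000000) := T_45 (nat_lit 130) (nat_lit 147) (nat_lit 7) (nat_lit 10) (nat_lit 4) L126090 (by decide +kernel)
theorem L126092 : W_45 (nat_lit 5) (nat_lit 0x10002c0012000a00040000000000000000000) (nat_lit 0x0) (nat_lit 0x80004000200000000a0007000200000000000) := T_45 (nat_lit 77) (nat_lit 60) (nat_lit 4) (nat_lit 10) (nat_lit 7) L126091 (by decide +kernel)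
theorem L126093 : W_45 (nat_lit 2) (nat_lit 0x10002c0012000a000e0000000000000000000) (nat_lit 0x0) (nat_lit 0x4000000000000400100000000000000000000) := D_45 (nat_lit 94) (nat_lit 80) (nat_lit 146) (nat_lit 1) (nat_lit 12) (nat_lit 4) (nat_lit 4) (nat_lit 10) (nat_lit 8) (by decide +kernel)
theorem L126094 : W_45 (nat_lit 3) (nat_lit 0x10002c0012000a000c0000000000000000000) (nat_lit 0x0) (nat_lit 0x4000000000000400120001000000000000000) := T_45 (nat_lit 77) (nat_lit 60) (nat_lit 4) (nat_lit 10) (nat_lit 7) L126093 (by decide +kernel)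
theorem L126095 : W_45 (nat_lit 4) (nat_lit 0x10002c0012000a00040000000000000000000) (nat_lit 0x0) (nat_lit 0x40000000000004001a0005000000000000000) := T_45 (nat_lit 79) (nat_lit 62) (nat_lit 6) (nat_lit 10) (nat_lit 7) L126094 (by decide +kernel)
theorem L126096 : W_45 (nat_lit 2) (nat_lit 0x10006c0012007e000d0002000000008000000) (nat_lit 0x0) (nat_lit 0x1c0000000000000000000000000000) := D_45 (nat_lit 115) (nat_lit 114) (nat_lit 116) (nat_lit 3) (nat_lit 9) (nat_lit 5) (nat_lit 3) (nat_lit 10) (nat_lit 5) (by decide +kernel)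
theorem L126097 : W_45 (nat_lit 3) (nat_lit 0x10006c0012003e000d0002000000008000000) (nat_lit 0x0) (nat_lit 0x1c000c000000000000000000000000) := T_45 (nat_lit 98) (nat_lit 99) (nat_lit 0) (nat_lit 14) (nat_lit 5) L126096 (by decide +kernel)
theorem L126098 : W_45 (nat_lit 4) (nat_lit 0x10006c0012001e000d0002000000008000000) (nat_lit 0x0) (nat_lit 0x1c000e000020000000000000000000) := T_45 (nat_lit 97) (nat_lit 77) (nat_lit 3) (nat_lit 8) (nat_lit 4) L126097 (by decide +kernel)
theorem L126099 : W_45 (nat_lit 5) (nat_lit 0x10006c0012001e000d0002000000000000000) (nat_lit 0x0) (nat_lit 0x1c000e000020000000100008000000) := T_45 (nat_lit 27) (nat_lit 44) (nat_lit 7) (nat_lit 10) (nat_lit 1) L126098 (by decide +kernel)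
theorem L126100 : W_45 (nat_lit 6) (nat_lit 0x10006c0012001e000c0002000000000000000) (nat_lit 0x0) (nat_lit 0x1c000e000038000000100008000000) := T_45 (nat_lit 76) (nat_lit 75) (nat_lit 0) (nat_lit 11) (nat_lit 5) L126099 (by decide +kernel)
theorem L126101 : W_45 (nat_lit 7) (nat_lit 0x10006c0012001a000c0002000000000000000) (nat_lit 0x0) (nat_lit 0x1c000e400138000000100008000000) := T_45 (nat_lit 94) (nat_lit 80) (nat_lit 2) (nat_lit 8) (nat_lit 5) L126100 (by decide +kernel)
theorem L126102 : W_45 (nat_lit 8) (nat_lit 0x10006c0012000a000c0002000000000000000) (nat_lit 0x0) (nat_lit 0x40000001c000f400138000000100008000000) := T_45 (nat_lit 96) (nat_lit 146) (nat_lit 6) (nat_lit 10) (nat_lit 8) L126101 (by decide +kernel)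
theorem L126103 : W_45 (nat_lit 9) (nat_lit 0x10006c0012000a000c0000000000000000000) (nat_lit 0x0) (nat_lit 0x40000001e000f400138002000100008000000) := T_45 (nat_lit 61) (nat_lit 113) (nat_lit 7) (nat_lit 10) (nat_lit 3) L126102 (by decide +kernel)
theorem L126104 : W_45 (nat_lit 10) (nat_lit 0x10002c0012000a000c0000000000000000000) (nat_lit 0x0) (nat_lit 0xc0004001e000f400138002000100008000000) := T_45 (nat_lit 130) (nat_lit 147) (nat_lit 7) (nat_lit 10) (nat_lit 4) L126103 (by decide +kernel)
theorem L126105 : W_45 (nat_lit 11) (nat_lit 0x10002c0012000a00040000000000000000000) (nat_lit 0x0) (nat_lit 0xc0004001e000f4001b8006000100008000000) := T_45 (nat_lit 79) (nat_lit 62) (nat_lit 6) (nat_lit 10) (nat_lit 7) L126104 (by decide +kernel)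
theorem L126106 : W_45 (nat_lit 2) (nat_lit 0x10006c0012000e00060002000200000000000) (nat_lit 0x0) (nat_lit 0x100018000000) := D_45 (nat_lit 44) (nat_lit 28) (nat_lit 27) (nat_lit 6) (nat_lit 10) (nat_lit 5) (nat_lit 5) (nat_lit 10) (nat_lit 1) (by decide +kernel)
theorem L126107 : W_45 (nat_lit 3) (nat_lit 0x10006c0012000a00060002000200000000000) (nat_lit 0x0) (nat_lit 0x4000000000000400000000000100018000000) := T_45 (nat_lit 94) (nat_lit 146) (nat_lit 4) (nat_lit 10) (nat_lit 8) L126106 (by decide +kernel)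
theorem L126108 : W_45 (nat_lit 4) (nat_lit 0x10006c0012000a00060002000000000000000) (nat_lit 0x0) (nat_lit 0x4000000000000400000004000300018000000) := T_45 (nat_lit 45) (nat_lit 62) (nat_lit 6) (nat_lit 10) (nat_lit 6) L126107 (by decide +kernel)
theorem L126109 : W_45 (nat_lit 5) (nat_lit 0x10006c0012000a00060000000000000000000) (nat_lit 0x0) (nat_lit 0x4000000020000400000006000300018000000) := T_45 (nat_lit 61) (nat_lit 113) (nat_lit 7) (nat_lit 10) (nat_lit 3) L126108 (by decide +kernel)
theorem L126110 : W_45 (nat_lit 6) (nat_lit 0x10002c0012000a00060000000000000000000) (nat_lit 0x0) (nat_lit 0xc000400020000400000006000300018000000) := T_45 (nat_lit 130) (nat_lit 147) (nat_lit 7) (nat_lit 10) (nat_lit 4) L126109 (by decide +kernel)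
theorem L126111 : W_45 (nat_lit 7) (nat_lit 0x10002c0012000a00040000000000000000000) (nat_lit 0x0) (nat_lit 0xc000400020000400020007000300018000000) := T_45 (nat_lit 77) (nat_lit 60) (nat_lit 4) (nat_lit 10) (nat_lit 7) L126110 (by decide +kernel)
theorem L126112 : W_45 (nat_lit 2) (nat_lit 0x10006c0012000a001c0003400000000000000) (nat_lit 0x0) (nat_lit 0x4000000000001400000000000000000000000) := D_45 (nat_lit 96) (nat_lit 146) (nat_lit 94) (nat_lit 6) (nat_lit 10) (nat_lit 8) (nat_lit 2) (nat_lit 8) (nat_lit 5) (by decide +kernel)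
theorem L126113 : W_45 (nat_lit 3) (nat_lit 0x10006c0012000a000c0003400000000000000) (nat_lit 0x0) (nat_lit 0x4000000000001400300000000000000000000) := T_45 (nat_lit 80) (nat_lit 81) (nat_lit 0) (nat_lit 13) (nat_lit 4) L126112 (by decide +kernel)
theorem L126114 : W_45 (nat_lit 4) (nat_lit 0x10006c0012000a000c0003000000000000000) (nat_lit 0x0) (nat_lit 0x4000000000001400300000c00000000000000) := T_45 (nat_lit 58) (nat_lit 59) (nat_lit 3) (nat_lit 7) (nat_lit 3) L126113 (by decide +kernel)
theorem L126115 : W_45 (nat_lit 5) (nat_lit 0x10006c0012000a000c0002000000000000000) (nat_lit 0x0) (nat_lit 0x4000000000001400300001c00080000000000) := T_45 (nat_lit 60) (nat_lit 43) (nat_lit 4) (nat_lit 10) (nat_lit 6) L126114 (by decide +kernel)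
theorem L126116 : W_45 (nat_lit 6) (nat_lit 0x10006c0012000a000c0000000000000000000) (nat_lit 0x0) (nat_lit 0x4000000020001400300003c00080000000000) := T_45 (nat_lit 61) (nat_lit 113) (nat_lit 7) (nat_lit 10) (nat_lit 3) L126115 (by decide +kernel)
theorem L126117 : W_45 (nat_lit 7) (nat_lit 0x10002c0012000a000c0000000000000000000) (nat_lit 0x0) (nat_lit 0xc000400020001400300003c00080000000000) := T_45 (nat_lit 130) (nat_lit 147) (nat_lit 7) (nat_lit 10) (nat_lit 4) L126116 (by decide +kernel)
theorem L126118 : W_45 (nat_lit 8) (nat_lit 0x10002c0012000a00040000000000000000000) (nat_lit 0x0) (nat_lit 0xc000400020001400380007c00080000000000) := T_45 (nat_lit 79) (nat_lit 62) (nat_lit 6) (nat_lit 10) (nat_lit 7) L126117 (by decide +kernel)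
theorem L126119 : W_45 (nat_lit 2) (nat_lit 0x50006c0032000a00060000000000000000000) (nat_lit 0x0) (nat_lit 0x80000000000000001000080000000000000000000) := D_45 (nat_lit 96) (nat_lit 79) (nat_lit 163) (nat_lit 6) (nat_lit 10) (nat_lit 8) (nat_lit 6) (nat_lit 10) (nat_lit 9) (by decide +kernel)
theorem L126120 : W_45 (nat_lit 3) (nat_lit 0x10006c0032000a00060000000000000000000) (nat_lit 0x0) (nat_lit 0x80004000000000001400080000000000000000000) := T_45 (nat_lit 146) (nat_lit 94) (nat_lit 4) (nat_lit 10) (nat_lit 8) L126119 (by decide +kernel)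
theorem L126121 : W_45 (nat_lit 4) (nat_lit 0x10006c0012000a00060000000000000000000) (nat_lit 0x0) (nat_lit 0x80004000000020001400080002000000000000000) := T_45 (nat_lit 113) (nat_lit 61) (nat_lit 7) (nat_lit 10) (nat_lit 3) L126120 (by decide +kernel)
theorem L126122 : W_45 (nat_lit 5) (nat_lit 0x10002c0012000a00060000000000000000000) (nat_lit 0x0) (nat_lit 0x8000c000400020001400080002000000000000000) := T_45 (nat_lit 130) (nat_lit 147) (nat_lit 7) (nat_lit 10) (nat_lit 4) L126121 (by decide +kernel)
theorem L126123 : W_45 (nat_lit 6) (nat_lit 0x10002c0012000a00040000000000000000000) (nat_lit 0x0) (nat_lit 0x8000c0004000200014000a0003000000000000000) := T_45 (nat_lit 77) (nat_lit 60) (nat_lit 4) (nat_lit 10) (nat_lit 7) L126122 (by decide +kernel)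
theorem L126124 : W_45 (nat_lit 12) (nat_lit 0x10002c0012000a00000000000000000000000) (nat_lit 0x0) (nat_lit 0x8000c0004001e000f4003f8007c00380018000000) := Q_45 (nat_lit 78) (C_45 L126092 (C_45 L126095 (C_45 L126105 (C_45 L126111 (C_45 L126118 (C_45 L126123 N_45)))))) (by decide +kernel)
theorem L126125 : W_45 (nat_lit 2) (nat_lit 0x10006c0012001a000e0000000000000000000) (nat_lit 0x0) (nat_lit 0x2000018000000000000000000) := D_45 (nat_lit 76) (nat_lit 97) (nat_lit 75) (nat_lit 3) (nat_lit 8) (nat_lit 4) (nat_lit 3) (nat_lit 7) (nat_lit 4) (by decide +kernel)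
theorem L126126 : W_45 (nat_lit 3) (nat_lit 0x10006c0012000a000e0000000000000000000) (nat_lit 0x0) (nat_lit 0x4000000000003000018000000000000000000) := T_45 (nat_lit 96) (nat_lit 146) (nat_lit 6) (nat_lit 10) (nat_lit 8) L126125 (by decide +kernel)
theorem L126127 : W_45 (nat_lit 4) (nat_lit 0x10006c0012000a00060000000000000000000) (nat_lit 0x0) (nat_lit 0x4000000000003000098004000000000000000) := T_45 (nat_lit 79) (nat_lit 62) (nat_lit 6) (nat_lit 10) (nat_lit 7) L126126 (by decide +kernel)
theorem L126128 : W_45 (nat_lit 5) (nat_lit 0x10002c0012000a00060000000000000000000) (nat_lit 0x0) (nat_lit 0xc000400000003000098004000000000000000) := T_45 (nat_lit 130) (nat_lit 147) (nat_lit 7) (nat_lit 10) (nat_lit 4) L126127 (by decide +kernel)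
theorem L126129 : W_45 (nat_lit 6) (nat_lit 0x10002c0012000a00040000000000000000000) (nat_lit 0x0) (nat_lit 0xc0004000000030000b8005000000000000000) := T_45 (nat_lit 77) (nat_lit 60) (nat_lit 4) (nat_lit 10) (nat_lit 7) L126128 (by decide +kernel)
theorem L126130 : W_45 (nat_lit 2) (nat_lit 0x10002c0012001a000e0000000000000000000) (nat_lit 0x0) (nat_lit 0x2000018000000000000000000) := D_45 (nat_lit 76) (nat_lit 97) (nat_lit 75) (nat_lit 3) (nat_lit 8) (nat_lit 4) (nat_lit 3) (nat_lit 7) (nat_lit 4) (by decide +kernel)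
theorem L126131 : W_45 (nat_lit 3) (nat_lit 0x10002c0012000a000e0000000000000000000) (nat_lit 0x0) (nat_lit 0x4000000000003000018000000000000000000) := T_45 (nat_lit 96) (nat_lit 146) (nat_lit 6) (nat_lit 10) (nat_lit 8) L126130 (by decide +kernel)
theorem L126132 : W_45 (nat_lit 4) (nat_lit 0x10002c0012000a000c0000000000000000000) (nat_lit 0x0) (nat_lit 0x4000000000003000038001000000000000000) := T_45 (nat_lit 77) (nat_lit 60) (nat_lit 4) (nat_lit 10) (nat_lit 7) L126131 (by decide +kernel)
theorem L126133 : W_45 (nat_lit 5) (nat_lit 0x10002c0012000a00040000000000000000000) (nat_lit 0x0) (nat_lit 0x40000000000030000b8005000000000000000) := T_45 (nat_lit 79) (nat_lit 62) (nat_lit 6) (nat_lit 10) (nat_lit 7) L126132 (by decide +kernel)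
theorem L126134 : W_45 (nat_lit 2) (nat_lit 0x21001ec00b2001a005c0000000000000000000) (nat_lit 0x0) (nat_lit 0xe000000000000000000000000) := D_45 (nat_lit 98) (nat_lit 97) (nat_lit 99) (nat_lit 4) (nat_lit 13) (nat_lit 8) (nat_lit 6) (nat_lit 13) (nat_lit 8) (by decide +kernel)
theorem L126135 : W_45 (nat_lit 3) (nat_lit 0x1001ec00b2001a005c0000000000000000000) (nat_lit 0x0) (nat_lit 0x6000000000000e000000000000000000000000) := T_45 (nat_lit 149) (nat_lit 150) (nat_lit 3) (nat_lit 10) (nat_lit 7) L126134 (by decide +kernel)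
theorem L126136 : W_45 (nat_lit 4) (nat_lit 0x1001ec0032001a005c0000000000000000000) (nat_lit 0x0) (nat_lit 0x6000000018000e000000000000000000000000) := T_45 (nat_lit 115) (nat_lit 116) (nat_lit 2) (nat_lit 10) (nat_lit 7) L126135 (by decide +kernel)
theorem L126137 : W_45 (nat_lit 5) (nat_lit 0x1000ec0032001a005c0000000000000000000) (nat_lit 0x0) (nat_lit 0x6000300018000e000000000000000000000000) := T_45 (nat_lit 132) (nat_lit 133) (nat_lit 0) (nat_lit 14) (nat_lit 7) L126136 (by decide +kernel)
theorem L126138 : W_45 (nat_lit 6) (nat_lit 0x10006c0032001a005c0000000000000000000) (nat_lit 0x0) (nat_lit 0x7000380018000e000000000000000000000000) := T_45 (nat_lit 131) (nat_lit 148) (nat_lit 7) (nat_lit 11) (nat_lit 4) L126137 (by decide +kernel)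
theorem L126139 : W_45 (nat_lit 7) (nat_lit 0x10006c0032001a001c0000000000000000000) (nat_lit 0x0) (nat_lit 0x7000380018000e000600000000000000000000) := T_45 (nat_lit 82) (nat_lit 81) (nat_lit 1) (nat_lit 14) (nat_lit 4) L126138 (by decide +kernel)
theorem L126140 : W_45 (nat_lit 8) (nat_lit 0x10006c0032001a000c0000000000000000000) (nat_lit 0x0) (nat_lit 0x7000380018000e000700008000000000000000) := T_45 (nat_lit 80) (nat_lit 63) (nat_lit 6) (nat_lit 11) (nat_lit 7) L126139 (by decide +kernel)
theorem L126141 : W_45 (nat_lit 9) (nat_lit 0x10006c0032000a000c0000000000000000000) (nat_lit 0x0) (nat_lit 0x7400380018000f000700008000000000000000) := T_45 (nat_lit 96) (nat_lit 146) (nat_lit 6) (nat_lit 10) (nat_lit 8) L126140 (by decide +kernel)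
theorem L126142 : W_45 (nat_lit 10) (nat_lit 0x10006c0012000a000c0000000000000000000) (nat_lit 0x0) (nat_lit 0x740038001a000f00070000a000000000000000) := T_45 (nat_lit 113) (nat_lit 61) (nat_lit 7) (nat_lit 10) (nat_lit 3) L126141 (by decide +kernel)
theorem L126143 : W_45 (nat_lit 11) (nat_lit 0x10002c0012000a000c0000000000000000000) (nat_lit 0x0) (nat_lit 0x7c003c001a000f00070000a000000000000000) := T_45 (nat_lit 130) (nat_lit 147) (nat_lit 7) (nat_lit 10) (nat_lit 4) L126142 (by decide +kernel)
theorem L126144 : W_45 (nat_lit 12) (nat_lit 0x10002c0012000a00040000000000000000000) (nat_lit 0x0) (nat_lit 0x7c003c001a000f00078000e000000000000000) := T_45 (nat_lit 79) (nat_lit 62) (nat_lit 6) (nat_lit 10) (nat_lit 7) L126143 (by decide +kernel)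
theorem L126145 : W_45 (nat_lit 2) (nat_lit 0x10006c0012000a00070006000000000000000) (nat_lit 0x0) (nat_lit 0x800000004000000000000800000000000000) := D_45 (nat_lit 110) (nat_lit 143) (nat_lit 59) (nat_lit 5) (nat_lit 8) (nat_lit 4) (nat_lit 5) (nat_lit 8) (nat_lit 3) (by decide +kernel)
theorem L126146 : W_45 (nat_lit 3) (nat_lit 0x10006c0012000a00060006000000000000000) (nat_lit 0x0) (nat_lit 0x800000004000000018000800000000000000) := T_45 (nat_lit 76) (nat_lit 75) (nat_lit 2) (nat_lit 7) (nat_lit 4) L126145 (by decide +kernel)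
theorem L126147 : W_45 (nat_lit 4) (nat_lit 0x10006c0012000a00060002000000000000000) (nat_lit 0x0) (nat_lit 0x800000004000000018004800200000000000) := T_45 (nat_lit 62) (nat_lit 45) (nat_lit 6) (nat_lit 10) (nat_lit 6) L126146 (by decide +kernel)
theorem L126148 : W_45 (nat_lit 5) (nat_lit 0x10006c0012000a00060000000000000000000) (nat_lit 0x0) (nat_lit 0x800000024000000018006800200000000000) := T_45 (nat_lit 61) (nat_lit 113) (nat_lit 7) (nat_lit 10) (nat_lit 3) L126147 (by decide +kernel)
theorem L126149 : W_45 (nat_lit 6) (nat_lit 0x10002c0012000a00060000000000000000000) (nat_lit 0x0) (nat_lit 0x8800400024000000018006800200000000000) := T_45 (nat_lit 130) (nat_lit 147) (nat_lit 7) (nat_lit 10) (nat_lit 4) L126148 (by decide +kernel)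
theorem L126150 : W_45 (nat_lit 7) (nat_lit 0x10002c0012000a00040000000000000000000) (nat_lit 0x0) (nat_lit 0x8800400024000000038007800200000000000) := T_45 (nat_lit 77) (nat_lit 60) (nat_lit 4) (nat_lit 10) (nat_lit 7) L126149 (by decide +kernel)
theorem L126151 : W_45 (nat_lit 2) (nat_lit 0x10006c0012000a00040002000000000000000) (nat_lit 0x0) (nat_lit 0x20001000080000000000) := D_45 (nat_lit 60) (nat_lit 43) (nat_lit 77) (nat_lit 4) (nat_lit 10) (nat_lit 6) (nat_lit 4) (nat_lit 10) (nat_lit 7) (by decide +kernel)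
theorem L126152 : W_45 (nat_lit 3) (nat_lit 0x10006c0012000a00040000000000000000000) (nat_lit 0x0) (nat_lit 0x20000000020003000080000000000) := T_45 (nat_lit 61) (nat_lit 113) (nat_lit 7) (nat_lit 10) (nat_lit 3) L126151 (by decide +kernel)
theorem L126153 : W_45 (nat_lit 4) (nat_lit 0x10002c0012000a00040000000000000000000) (nat_lit 0x0) (nat_lit 0x8000400020000000020003000080000000000) := T_45 (nat_lit 130) (nat_lit 147) (nat_lit 7) (nat_lit 10) (nat_lit 4) L126152 (by decide +kernel)
theorem L126154 : W_45 (nat_lit 13) (nat_lit 0x10002c0012000a00000000000000000000000) (nat_lit 0x0) (nat_lit 0x7c803c001a400f0007f800f800280000000000) := Q_45 (nat_lit 78) (C_45 L126092 (C_45 L126129 (C_45 L126133 (C_45 L126144 (C_45 L126150 (C_45 L126153 N_45)))))) (by decide +kernel)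
theorem L126155 : W_45 (nat_lit 13) (nat_lit 0x10002c0012000a00000000000000000000000) (nat_lit 0x0) (nat_lit 0x7c003c001a000f4007e000f000080000000000) := Q_45 (nat_lit 78) (C_45 L126153 (C_45 L126095 (C_45 L126144 N_45))) (by decide +kernel)
theorem L126156 : W_45 (nat_lit 3) (nat_lit 0x10002c0012000a00000000000000000000000) (nat_lit 0x0) (nat_lit 0x800000004001400030000800000000000000) := Q_45 (nat_lit 110) (C_45 L126031 (C_45 L126032 N_45)) (by decide +kernel)
theorem L126157 : W_45 (nat_lit 2) (nat_lit 0x100010006c0016000a00060004000000000000000) (nat_lit 0x0) (nat_lit 0x20000000000002000200000000000) := D_45 (nat_lit 61) (nat_lit 113) (nat_lit 45) (nat_lit 7) (nat_lit 10) (nat_lit 3) (nat_lit 6) (nat_lit 10) (nat_lit 6) (by decide +kernel)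
theorem L126158 : W_45 (nat_lit 3) (nat_lit 0x100010002c0016000a00060004000000000000000) (nat_lit 0x0) (nat_lit 0x8000400020000000000002000200000000000) := T_45 (nat_lit 130) (nat_lit 147) (nat_lit 7) (nat_lit 10) (nat_lit 4) L126157 (by decide +kernel)
theorem L126159 : W_45 (nat_lit 4) (nat_lit 0x100010002c0016000a00060000000000000000000) (nat_lit 0x0) (nat_lit 0x8000400020000000080006000200000000000) := T_45 (nat_lit 62) (nat_lit 79) (nat_lit 6) (nat_lit 10) (nat_lit 7) L126158 (by decide +kernel)
theorem L126160 : W_45 (nat_lit 5) (nat_lit 0x100010002c0016000a00020000000000000000000) (nat_lit 0x0) (nat_lit 0x80004000200000000c0007000200000000000) := T_45 (nat_lit 78) (nat_lit 60) (nat_lit 4) (nat_lit 10) (nat_lit 7) L126159 (by decide +kernel)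
theorem L126161 : W_45 (nat_lit 6) (nat_lit 0x100010002c0016000a00000000000000000000000) (nat_lit 0x0) (nat_lit 0x80004000200004000e0007000200000000000) := T_45 (nat_lit 77) (nat_lit 94) (nat_lit 6) (nat_lit 8) (nat_lit 8) L126160 (by decide +kernel)
theorem L126162 : W_45 (nat_lit 7) (nat_lit 0x10002c0016000a00000000000000000000000) (nat_lit 0x0) (nat_lit 0x100088004000200004000e0007000200000000000) := T_45 (nat_lit 160) (nat_lit 143) (nat_lit 6) (nat_lit 7) (nat_lit 9) L126161 (by decide +kernel)
theorem L126163 : W_45 (nat_lit 2) (nat_lit 0x10002c0016000a00020000000000000000000) (nat_lit 0x0) (nat_lit 0x10001800000000000000) := D_45 (nat_lit 76) (nat_lit 59) (nat_lit 60) (nat_lit 5) (nat_lit 8) (nat_lit 3) (nat_lit 6) (nat_lit 8) (nat_lit 7) (by decide +kernel)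
theorem L126164 : W_45 (nat_lit 3) (nat_lit 0x10002c0016000a00000000000000000000000) (nat_lit 0x0) (nat_lit 0x400030001800000000000000) := T_45 (nat_lit 77) (nat_lit 94) (nat_lit 6) (nat_lit 8) (nat_lit 8) L126163 (by decide +kernel)
theorem L126165 : W_45 (nat_lit 8) (nat_lit 0x10002c0012000a00000000000000000000000) (nat_lit 0x0) (nat_lit 0x100088004000240004000f0007800200000000000) := Q_45 (nat_lit 110) (C_45 L126162 (C_45 L126032 (C_45 L126164 N_45))) (by decide +kernel)
theorem L126166 : W_45 (nat_lit 7) (nat_lit 0x10002c0012000a00000000000000000000000) (nat_lit 0x0) (nat_lit 0x200019000c800000024001400090000800000000000000) := Q_45 (nat_lit 110) (C_45 L126037 (C_45 L126032 (C_45 L126042 N_45))) (by decide +kernel)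
theorem L126167 : W_45 (nat_lit 14) (nat_lit 0x10002c0012000200000000000000000000000) (nat_lit 0x0) (nat_lit 0x200019007c803c001e400fc007f800fc00380018000000) := Q_45 (nat_lit 95) (C_45 L126124 (C_45 L126154 (C_45 L126155 (C_45 L126156 (C_45 L126165 (C_45 L126166 N_45)))))) (by decide +kernel)
theorem L126168 : W_45 (nat_lit 13) (nat_lit 0x10002c0012000a00000000000000000000000) (nat_lit 0x0) (nat_lit 0x7c003c001a000f0007f800f000080000000000) := Q_45 (nat_lit 78) (C_45 L126153 (C_45 L126133 (C_45 L126144 N_45))) (by decide +kernel)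
theorem L126169 : W_45 (nat_lit 2) (nat_lit 0x10006c0012001a000c8000000000000000000) (nat_lit 0x0) (nat_lit 0x400030000000000000000000) := D_45 (nat_lit 76) (nat_lit 77) (nat_lit 94) (nat_lit 3) (nat_lit 7) (nat_lit 4) (nat_lit 0) (nat_lit 11) (nat_lit 5) (by decide +kernel)
theorem L126170 : W_45 (nat_lit 3) (nat_lit 0x10006c0012000a000c8000000000000000000) (nat_lit 0x0) (nat_lit 0x4000000000001400030000000000000000000) := T_45 (nat_lit 96) (nat_lit 146) (nat_lit 6) (nat_lit 10) (nat_lit 8) L126169 (by decide +kernel)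
theorem L126171 : W_45 (nat_lit 4) (nat_lit 0x10002c0012000a000c8000000000000000000) (nat_lit 0x0) (nat_lit 0xc000400000001400030000000000000000000) := T_45 (nat_lit 130) (nat_lit 147) (nat_lit 7) (nat_lit 10) (nat_lit 4) L126170 (by decide +kernel)
theorem L126172 : W_45 (nat_lit 5) (nat_lit 0x10002c0012000a00048000000000000000000) (nat_lit 0x0) (nat_lit 0xc0004000000014000b0004000000000000000) := T_45 (nat_lit 79) (nat_lit 62) (nat_lit 6) (nat_lit 10) (nat_lit 7) L126171 (by decide +kernel)
theorem L126173 : W_45 (nat_lit 6) (nat_lit 0x10002c0012000a00040000000000000000000) (nat_lit 0x0) (nat_lit 0xc0004000000015000b8004000000000000000) := T_45 (nat_lit 75) (nat_lit 92) (nat_lit 7) (nat_lit 7) (nat_lit 4) L126172 (by decide +kernel)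
theorem L126174 : W_45 (nat_lit 2) (nat_lit 0x10002c0012000a00078000000000000000000) (nat_lit 0x0) (nat_lit 0x4000000000000400004000000000000000000) := D_45 (nat_lit 94) (nat_lit 74) (nat_lit 146) (nat_lit 3) (nat_lit 6) (nat_lit 4) (nat_lit 4) (nat_lit 10) (nat_lit 8) (by decide +kernel)
theorem L126175 : W_45 (nat_lit 3) (nat_lit 0x10002c0012000a00068000000000000000000) (nat_lit 0x0) (nat_lit 0x4000000000001400014000000000000000000) := T_45 (nat_lit 76) (nat_lit 96) (nat_lit 3) (nat_lit 7) (nat_lit 4) L126174 (by decide +kernel)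
theorem L126176 : W_45 (nat_lit 4) (nat_lit 0x10002c0012000a00060000000000000000000) (nat_lit 0x0) (nat_lit 0x400000000000150001c000000000000000000) := T_45 (nat_lit 75) (nat_lit 92) (nat_lit 7) (nat_lit 7) (nat_lit 4) L126175 (by decide +kernel)
theorem L126177 : W_45 (nat_lit 5) (nat_lit 0x10002c0012000a00040000000000000000000) (nat_lit 0x0) (nat_lit 0x400000000000150003c001000000000000000) := T_45 (nat_lit 77) (nat_lit 60) (nat_lit 4) (nat_lit 10) (nat_lit 7) L126176 (by decide +kernel)
theorem L126178 : W_45 (nat_lit 2) (nat_lit 0x10002c0012000a000c0000000000000000000) (nat_lit 0x0) (nat_lit 0x500008000000000000000000) := D_45 (nat_lit 92) (nat_lit 94) (nat_lit 75) (nat_lit 2) (nat_lit 7) (nat_lit 5) (nat_lit 7) (nat_lit 7) (nat_lit 4) (by decide +kernel)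
theorem L126179 : W_45 (nat_lit 3) (nat_lit 0x10002c0012000a00040000000000000000000) (nat_lit 0x0) (nat_lit 0x500088004000000000000000) := T_45 (nat_lit 79) (nat_lit 62) (nat_lit 6) (nat_lit 10) (nat_lit 7) L126178 (by decide +kernel)
theorem L126180 : W_45 (nat_lit 7) (nat_lit 0x10002c0012000a00000000000000000000000) (nat_lit 0x0) (nat_lit 0xc0004000000035001fc005000000000000000) := Q_45 (nat_lit 78) (C_45 L126095 (C_45 L126133 (C_45 L126173 (C_45 L126177 (C_45 L126179 N_45))))) (by decide +kernel)
theorem L126181 : W_45 (nat_lit 12) (nat_lit 0x10002c0012000b00000000000000000000000) (nat_lit 0x0) (nat_lit 0x16003f001d800c800000020000480034000000000000000000) := T_45 (nat_lit 143) (nat_lit 76) (nat_lit 6) (nat_lit 7) (nat_lit 8) L126083 (by decide +kernel)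
theorem L126182 : W_45 (nat_lit 13) (nat_lit 0x10002c0012000a00000000000000000000000) (nat_lit 0x0) (nat_lit 0x16003f001d800c80000002000058003c000000000000000000) := T_45 (nat_lit 92) (nat_lit 75) (nat_lit 7) (nat_lit 7) (nat_lit 4) L126181 (by decide +kernel)
theorem L126183 : W_45 (nat_lit 5) (nat_lit 0x10002c0012000b00000000000000000000000) (nat_lit 0x0) (nat_lit 0x48000000200014001d0000000000000000000) := T_45 (nat_lit 143) (nat_lit 76) (nat_lit 6) (nat_lit 7) (nat_lit 8) L126073 (by decide +kernel)
theorem L126184 : W_45 (nat_lit 6) (nat_lit 0x10002c0012000a00000000000000000000000) (nat_lit 0x0) (nat_lit 0x48000000200015001d8000000000000000000) := T_45 (nat_lit 92) (nat_lit 75) (nat_lit 7) (nat_lit 7) (nat_lit 4) L126183 (by decide +kernel)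
theorem L126185 : W_45 (nat_lit 5) (nat_lit 0x10002c0012000b00000000000000000000000) (nat_lit 0x0) (nat_lit 0x8000000200004800f4000000000000000000) := T_45 (nat_lit 143) (nat_lit 76) (nat_lit 6) (nat_lit 7) (nat_lit 8) L126070 (by decide +kernel)
theorem L126186 : W_45 (nat_lit 6) (nat_lit 0x10002c0012000a00000000000000000000000) (nat_lit 0x0) (nat_lit 0x8000000200005800fc000000000000000000) := T_45 (nat_lit 92) (nat_lit 75) (nat_lit 7) (nat_lit 7) (nat_lit 4) L126185 (by decide +kernel)
theorem L126187 : W_45 (nat_lit 14) (nat_lit 0x10002c0012000200000000000000000000000) (nat_lit 0x0) (nat_lit 0x16003f001d807c803c001a000fd807fc00f000080000000000) := Q_45 (nat_lit 95) (C_45 L126155 (C_45 L126168 (C_45 L126180 (C_45 L126182 (C_45 L126184 (C_45 L126186 N_45)))))) (by decide +kernel)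
theorem L126188 : W_45 (nat_lit 2) (nat_lit 0x10006c0012000a00048005000000000000000) (nat_lit 0x0) (nat_lit 0x2000280000000000) := D_45 (nat_lit 61) (nat_lit 45) (nat_lit 43) (nat_lit 6) (nat_lit 10) (nat_lit 6) (nat_lit 4) (nat_lit 10) (nat_lit 6) (by decide +kernel)
theorem L126189 : W_45 (nat_lit 3) (nat_lit 0x10006c0012000a00048004000000000000000) (nat_lit 0x0) (nat_lit 0x20003000280000000000) := T_45 (nat_lit 60) (nat_lit 77) (nat_lit 4) (nat_lit 10) (nat_lit 7) L126188 (by decide +kernel)
theorem L126190 : W_45 (nat_lit 4) (nat_lit 0x10006c0012000a00048000000000000000000) (nat_lit 0x0) (nat_lit 0xa0007000280000000000) := T_45 (nat_lit 62) (nat_lit 79) (nat_lit 6) (nat_lit 10) (nat_lit 7) L126189 (by decide +kernel)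
theorem L126191 : W_45 (nat_lit 5) (nat_lit 0x10002c0012000a00048000000000000000000) (nat_lit 0x0) (nat_lit 0x80004000000000000a0007000280000000000) := T_45 (nat_lit 130) (nat_lit 147) (nat_lit 7) (nat_lit 10) (nat_lit 4) L126190 (by decide +kernel)
theorem L126192 : W_45 (nat_lit 6) (nat_lit 0x10002c0012000a00040000000000000000000) (nat_lit 0x0) (nat_lit 0x80004000000001000a8007000280000000000) := T_45 (nat_lit 75) (nat_lit 92) (nat_lit 7) (nat_lit 7) (nat_lit 4) L126191 (by decide +kernel)
theorem L126193 : W_45 (nat_lit 2) (nat_lit 0x10002c0012000a00048003000000000000000) (nat_lit 0x0) (nat_lit 0x80004000200000000000) := D_45 (nat_lit 62) (nat_lit 79) (nat_lit 45) (nat_lit 6) (nat_lit 10) (nat_lit 7) (nat_lit 6) (nat_lit 10) (nat_lit 6) (by decide +kernel)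
theorem L126194 : W_45 (nat_lit 3) (nat_lit 0x10002c0012000a00048001000000000000000) (nat_lit 0x0) (nat_lit 0x80006000280000000000) := T_45 (nat_lit 61) (nat_lit 43) (nat_lit 4) (nat_lit 10) (nat_lit 6) L126193 (by decide +kernel)
theorem L126195 : W_45 (nat_lit 4) (nat_lit 0x10002c0012000a00040001000000000000000) (nat_lit 0x0) (nat_lit 0x100088006000280000000000) := T_45 (nat_lit 75) (nat_lit 92) (nat_lit 7) (nat_lit 7) (nat_lit 4) L126194 (by decide +kernel)
theorem L126196 : W_45 (nat_lit 5) (nat_lit 0x10002c0012000a00040000000000000000000) (nat_lit 0x0) (nat_lit 0x1000a8007000280000000000) := T_45 (nat_lit 60) (nat_lit 77) (nat_lit 4) (nat_lit 10) (nat_lit 7) L126195 (by decide +kernel)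
theorem L126197 : W_45 (nat_lit 2) (nat_lit 0x50002c0012000a000e0000000000000000000) (nat_lit 0x0) (nat_lit 0x100008000400000000000000000000000000000000) := D_45 (nat_lit 147) (nat_lit 130) (nat_lit 164) (nat_lit 7) (nat_lit 10) (nat_lit 4) (nat_lit 7) (nat_lit 10) (nat_lit 5) (by decide +kernel)
theorem L126198 : W_45 (nat_lit 3) (nat_lit 0x10002c0012000a000e0000000000000000000) (nat_lit 0x0) (nat_lit 0x10000c000400000001000000000000000000000000) := T_45 (nat_lit 146) (nat_lit 96) (nat_lit 6) (nat_lit 10) (nat_lit 8) L126197 (by decide +kernel)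
theorem L126199 : W_45 (nat_lit 4) (nat_lit 0x10002c0012000a000c0000000000000000000) (nat_lit 0x0) (nat_lit 0x10000c000400000001000020001000000000000000) := T_45 (nat_lit 77) (nat_lit 60) (nat_lit 4) (nat_lit 10) (nat_lit 7) L126198 (by decide +kernel)
theorem L126200 : W_45 (nat_lit 5) (nat_lit 0x10002c0012000a00040000000000000000000) (nat_lit 0x0) (nat_lit 0x10000c0004000000010000a0005000000000000000) := T_45 (nat_lit 79) (nat_lit 62) (nat_lit 6) (nat_lit 10) (nat_lit 7) L126199 (by decide +kernel)
theorem L126201 : W_45 (nat_lit 13) (nat_lit 0x10002c0012000a00000000000000000000000) (nat_lit 0x0) (nat_lit 0x10007c003c001a000f1007e800f000280000000000) := Q_45 (nat_lit 78) (C_45 L126153 (C_45 L126192 (C_45 L126196 (C_45 L126144 (C_45 L126200 N_45))))) (by decide +kernel)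
theorem L126202 : W_45 (nat_lit 2) (nat_lit 0x10002c0012000a00068000000000000000000) (nat_lit 0x0) (nat_lit 0x4000000004000400000000000000000000000) := D_45 (nat_lit 94) (nat_lit 146) (nat_lit 110) (nat_lit 4) (nat_lit 10) (nat_lit 8) (nat_lit 6) (nat_lit 8) (nat_lit 8) (by decide +kernel)
theorem L126203 : W_45 (nat_lit 3) (nat_lit 0x10002c0012000a00048000000000000000000) (nat_lit 0x0) (nat_lit 0x4000000004000400020001000000000000000) := T_45 (nat_lit 77) (nat_lit 60) (nat_lit 4) (nat_lit 10) (nat_lit 7) L126202 (by decide +kernel)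
theorem L126204 : W_45 (nat_lit 4) (nat_lit 0x10002c0012000a00040000000000000000000) (nat_lit 0x0) (nat_lit 0x4000000004000500028001000000000000000) := T_45 (nat_lit 75) (nat_lit 92) (nat_lit 7) (nat_lit 7) (nat_lit 4) L126203 (by decide +kernel)
theorem L126205 : W_45 (nat_lit 6) (nat_lit 0x10002c0012000a00000000000000000000000) (nat_lit 0x0) (nat_lit 0x10000c0004000040015000e8007000280000000000) := Q_45 (nat_lit 78) (C_45 L126200 (C_45 L126196 (C_45 L126179 (C_45 L126204 N_45)))) (by decide +kernel)
theorem L126206 : W_45 (nat_lit 2) (nat_lit 0x10002c0012000f00000000000000000000000) (nat_lit 0x0) (nat_lit 0x4000000004000000020000000000000000000) := D_45 (nat_lit 77) (nat_lit 146) (nat_lit 110) (nat_lit 4) (nat_lit 10) (nat_lit 8) (nat_lit 6) (nat_lit 8) (nat_lit 8) (by decide +kernel)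
theorem L126207 : W_45 (nat_lit 3) (nat_lit 0x10002c0012000b00000000000000000000000) (nat_lit 0x0) (nat_lit 0x4000000024000400020000000000000000000) := T_45 (nat_lit 94) (nat_lit 113) (nat_lit 3) (nat_lit 7) (nat_lit 5) L126206 (by decide +kernel)
theorem L126208 : W_45 (nat_lit 4) (nat_lit 0x10002c0012000a00000000000000000000000) (nat_lit 0x0) (nat_lit 0x4000000024000500028000000000000000000) := T_45 (nat_lit 92) (nat_lit 75) (nat_lit 7) (nat_lit 7) (nat_lit 4) L126207 (by decide +kernel)
theorem L126209 : W_45 (nat_lit 2) (nat_lit 0x10002c0012000f00080000000000000000000) (nat_lit 0x0) (nat_lit 0x4001000100000000000000000000) := D_45 (nat_lit 96) (nat_lit 110) (nat_lit 80) (nat_lit 1) (nat_lit 11) (nat_lit 5) (nat_lit 2) (nat_lit 8) (nat_lit 5) (by decide +kernel)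
theorem L126210 : W_45 (nat_lit 3) (nat_lit 0x10002c0012000f00000000000000000000000) (nat_lit 0x0) (nat_lit 0x40010001c0000000000000000000) := T_45 (nat_lit 79) (nat_lit 78) (nat_lit 2) (nat_lit 7) (nat_lit 5) L126209 (by decide +kernel)
theorem L126211 : W_45 (nat_lit 4) (nat_lit 0x10002c0012000b00000000000000000000000) (nat_lit 0x0) (nat_lit 0x240014001c0000000000000000000) := T_45 (nat_lit 94) (nat_lit 113) (nat_lit 3) (nat_lit 7) (nat_lit 5) L126210 (by decide +kernel)
theorem L126212 : W_45 (nat_lit 5) (nat_lit 0x10002c0012000a00000000000000000000000) (nat_lit 0x0) (nat_lit 0x240015001c8000000000000000000) := T_45 (nat_lit 92) (nat_lit 75) (nat_lit 7) (nat_lit 7) (nat_lit 4) L126211 (by decide +kernel)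
theorem L126213 : W_45 (nat_lit 14) (nat_lit 0x10002c0012000200000000000000000000000) (nat_lit 0x0) (nat_lit 0x10007c003c001a400fd007e800f000280000000000) := Q_45 (nat_lit 95) (C_45 L126155 (C_45 L126201 (C_45 L126205 (C_45 L126208 (C_45 L126212 N_45))))) (by decide +kernel)
theorem L126214 : W_45 (nat_lit 2) (nat_lit 0x10002c0012000a000f0000000000000000000) (nat_lit 0x0) (nat_lit 0x4000000000000c00000000000000) := D_45 (nat_lit 59) (nat_lit 58) (nat_lit 110) (nat_lit 0) (nat_lit 11) (nat_lit 4) (nat_lit 5) (nat_lit 8) (nat_lit 3) (by decide +kernel)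
theorem L126215 : W_45 (nat_lit 3) (nat_lit 0x10002c0012000a000e0000000000000000000) (nat_lit 0x0) (nat_lit 0x4000100010000c00000000000000) := T_45 (nat_lit 76) (nat_lit 92) (nat_lit 1) (nat_lit 11) (nat_lit 4) L126214 (by decide +kernel)
theorem L126216 : W_45 (nat_lit 4) (nat_lit 0x10002c0012000a00060000000000000000000) (nat_lit 0x0) (nat_lit 0x4000100090004c00000000000000) := T_45 (nat_lit 79) (nat_lit 62) (nat_lit 6) (nat_lit 10) (nat_lit 7) L126215 (by decide +kernel)
theorem L126217 : W_45 (nat_lit 5) (nat_lit 0x10002c0012000a00040000000000000000000) (nat_lit 0x0) (nat_lit 0x40001000b0005c00000000000000) := T_45 (nat_lit 77) (nat_lit 60) (nat_lit 4) (nat_lit 10) (nat_lit 7) L126216 (by decide +kernel)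
theorem L126218 : W_45 (nat_lit 13) (nat_lit 0x10002c0012000a00000000000000000000000) (nat_lit 0x0) (nat_lit 0x10007c003c001a400f1007f000fc00080000000000) := Q_45 (nat_lit 78) (C_45 L126200 (C_45 L126153 (C_45 L126217 (C_45 L126144 N_45)))) (by decide +kernel)
theorem L126219 : W_45 (nat_lit 14) (nat_lit 0x10002c0012000200000000000000000000000) (nat_lit 0x0) (nat_lit 0x200019007c803c001a400fd007f000fc00280000000000) := Q_45 (nat_lit 95) (C_45 L126155 (C_45 L126166 (C_45 L126218 (C_45 L126156 (C_45 L126165 N_45))))) (by decide +kernel)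
theorem L126220 : W_45 (nat_lit 15) (nat_lit 0x10002c0012000000000000000000000000000) (nat_lit 0x0) (nat_lit 0x16003f001d807c803c001e400ff807fc00fc003c0018000000) := Q_45 (nat_lit 93) (C_45 L126085 (C_45 L126088 (C_45 L126167 (C_45 L126187 (C_45 L126213 (C_45 L126219 N_45)))))) (by decide +kernel)
theorem L126221 : W_45 (nat_lit 3) (nat_lit 0x10003c0012000000008000000000000000000) (nat_lit 0x0) (nat_lit 0x1c800400000000000000000000000000000000) := T_45 (nat_lit 130) (nat_lit 143) (nat_lit 1) (nat_lit 11) (nat_lit 7) L123136 (by decide +kernel)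
theorem L126222 : W_45 (nat_lit 4) (nat_lit 0x10002c0012000000008000000000000000000) (nat_lit 0x0) (nat_lit 0x1c800500020000000000000000000000000000) := T_45 (nat_lit 128) (nat_lit 113) (nat_lit 2) (nat_lit 7) (nat_lit 7) L126221 (by decide +kernel)
theorem L126223 : W_45 (nat_lit 5) (nat_lit 0x10002c0012000000000000000000000000000) (nat_lit 0x0) (nat_lit 0x1c800500020000100008000000000000000000) := T_45 (nat_lit 75) (nat_lit 92) (nat_lit 7) (nat_lit 7) (nat_lit 4) L126222 (by decide +kernel)
theorem L126224 : W_45 (nat_lit 8) (nat_lit 0x10002c0012000200000000000000000000000) (nat_lit 0x0) (nat_lit 0x200011000c800500004001c00070000800000000000000) := Q_45 (nat_lit 110) (C_45 L126055 (C_45 L126049 (C_45 L126048 N_45))) (by decide +kernel)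
theorem L126225 : W_45 (nat_lit 2) (nat_lit 0x90003c0012000200008000000000000000000) (nat_lit 0x0) (nat_lit 0x10800400000000000000000000000000000000) := D_45 (nat_lit 130) (nat_lit 143) (nat_lit 148) (nat_lit 1) (nat_lit 11) (nat_lit 7) (nat_lit 3) (nat_lit 8) (nat_lit 7) (by decide +kernel)
theorem L126226 : W_45 (nat_lit 3) (nat_lit 0x90002c0012000200008000000000000000000) (nat_lit 0x0) (nat_lit 0x14800500000000000000000000000000000000) := T_45 (nat_lit 128) (nat_lit 146) (nat_lit 3) (nat_lit 7) (nat_lit 7) L126225 (by decide +kernel)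
theorem L126227 : W_45 (nat_lit 4) (nat_lit 0x90002c0012000200000000000000000000000) (nat_lit 0x0) (nat_lit 0x14800500000000100008000000000000000000) := T_45 (nat_lit 75) (nat_lit 92) (nat_lit 7) (nat_lit 7) (nat_lit 4) L126226 (by decide +kernel)
theorem L126228 : W_45 (nat_lit 2) (nat_lit 0x90002c0012000a000c8000000000000000000) (nat_lit 0x0) (nat_lit 0x100004000000000001000000000000000000000000) := D_45 (nat_lit 146) (nat_lit 164) (nat_lit 96) (nat_lit 7) (nat_lit 10) (nat_lit 5) (nat_lit 6) (nat_lit 10) (nat_lit 8) (by decide +kernel)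
theorem L126229 : W_45 (nat_lit 3) (nat_lit 0x90002c0012000a00048000000000000000000) (nat_lit 0x0) (nat_lit 0x100004000000000001000080004000000000000000) := T_45 (nat_lit 79) (nat_lit 62) (nat_lit 6) (nat_lit 10) (nat_lit 7) L126228 (by decide +kernel)
theorem L126230 : W_45 (nat_lit 4) (nat_lit 0x90002c0012000200048000000000000000000) (nat_lit 0x0) (nat_lit 0x100004000400000001800080004000000000000000) := T_45 (nat_lit 95) (nat_lit 130) (nat_lit 7) (nat_lit 10) (nat_lit 4) L126229 (by decide +kernel)
theorem L126231 : W_45 (nat_lit 5) (nat_lit 0x90002c0012000200040000000000000000000) (nat_lit 0x0) (nat_lit 0x100004000400000001900088004000000000000000) := T_45 (nat_lit 75) (nat_lit 92) (nat_lit 7) (nat_lit 7) (nat_lit 4) L126230 (by decide +kernel)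
theorem L126232 : W_45 (nat_lit 2) (nat_lit 0x90002c0012000a000c0000000000000000000) (nat_lit 0x0) (nat_lit 0x100004000000000001000000000000000000000000) := D_45 (nat_lit 146) (nat_lit 164) (nat_lit 96) (nat_lit 7) (nat_lit 10) (nat_lit 5) (nat_lit 6) (nat_lit 10) (nat_lit 8) (by decide +kernel)
theorem L126233 : W_45 (nat_lit 3) (nat_lit 0x90002c0012000a00040000000000000000000) (nat_lit 0x0) (nat_lit 0x100004000000000001000080004000000000000000) := T_45 (nat_lit 79) (nat_lit 62) (nat_lit 6) (nat_lit 10) (nat_lit 7) L126232 (by decide +kernel)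
theorem L126234 : W_45 (nat_lit 4) (nat_lit 0x90002c0012000200040000000000000000000) (nat_lit 0x0) (nat_lit 0x100004000400000001800080004000000000000000) := T_45 (nat_lit 95) (nat_lit 130) (nat_lit 7) (nat_lit 10) (nat_lit 4) L126233 (by decide +kernel)
theorem L126235 : W_45 (nat_lit 2) (nat_lit 0x90002c0012000300070000000040000000000) (nat_lit 0x0) (nat_lit 0x4c0000000000000000000000) := D_45 (nat_lit 91) (nat_lit 90) (nat_lit 94) (nat_lit 2) (nat_lit 5) (nat_lit 5) (nat_lit 2) (nat_lit 6) (nat_lit 5) (by decide +kernel)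
theorem L126236 : W_45 (nat_lit 3) (nat_lit 0x90002c0012000300050000000040000000000) (nat_lit 0x0) (nat_lit 0x4c00a0000000000000000000) := T_45 (nat_lit 77) (nat_lit 79) (nat_lit 1) (nat_lit 11) (nat_lit 4) L126235 (by decide +kernel)
theorem L126237 : W_45 (nat_lit 4) (nat_lit 0x90002c0012000300050000000000000000000) (nat_lit 0x0) (nat_lit 0x4c00a0000800040000000000) := T_45 (nat_lit 42) (nat_lit 59) (nat_lit 5) (nat_lit 8) (nat_lit 2) L126236 (by decide +kernel)
theorem L126238 : W_45 (nat_lit 5) (nat_lit 0x90002c0012000300040000000000000000000) (nat_lit 0x0) (nat_lit 0x8000000000004c00b0000800040000000000) := T_45 (nat_lit 76) (nat_lit 143) (nat_lit 6) (nat_lit 7) (nat_lit 8) L126237 (by decide +kernel)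
theorem L126239 : W_45 (nat_lit 6) (nat_lit 0x90002c0012000200040000000000000000000) (nat_lit 0x0) (nat_lit 0x8000000000005c00b8000800040000000000) := T_45 (nat_lit 92) (nat_lit 75) (nat_lit 7) (nat_lit 7) (nat_lit 4) L126238 (by decide +kernel)
theorem L126240 : W_45 (nat_lit 2) (nat_lit 0x90002c0012000a00068000000000000000000) (nat_lit 0x0) (nat_lit 0x100004000000000000400000000000000000000000) := D_45 (nat_lit 146) (nat_lit 164) (nat_lit 94) (nat_lit 7) (nat_lit 10) (nat_lit 5) (nat_lit 4) (nat_lit 10) (nat_lit 8) (by decide +kernel)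
theorem L126241 : W_45 (nat_lit 3) (nat_lit 0x90002c0012000a00048000000000000000000) (nat_lit 0x0) (nat_lit 0x100004000000000000400020001000000000000000) := T_45 (nat_lit 77) (nat_lit 60) (nat_lit 4) (nat_lit 10) (nat_lit 7) L126240 (by decide +kernel)
theorem L126242 : W_45 (nat_lit 4) (nat_lit 0x90002c0012000200048000000000000000000) (nat_lit 0x0) (nat_lit 0x100004000400000000c00020001000000000000000) := T_45 (nat_lit 95) (nat_lit 130) (nat_lit 7) (nat_lit 10) (nat_lit 4) L126241 (by decide +kernel)
theorem L126243 : W_45 (nat_lit 5) (nat_lit 0x90002c0012000200040000000000000000000) (nat_lit 0x0) (nat_lit 0x100004000400000000d00028001000000000000000) := T_45 (nat_lit 75) (nat_lit 92) (nat_lit 7) (nat_lit 7) (nat_lit 4) L126242 (by decide +kernel)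
theorem L126244 : W_45 (nat_lit 7) (nat_lit 0x90002c0012000200000000000000000000000) (nat_lit 0x0) (nat_lit 0x100004800400000001dc00f8005800040000000000) := Q_45 (nat_lit 78) (C_45 L126231 (C_45 L126234 (C_45 L126239 (C_45 L126243 N_45)))) (by decide +kernel)
theorem L126245 : W_45 (nat_lit 2) (nat_lit 0x90003c0012000200000000000000000000000) (nat_lit 0x0) (nat_lit 0x10800400000000000000000000000000000000) := D_45 (nat_lit 130) (nat_lit 143) (nat_lit 148) (nat_lit 1) (nat_lit 11) (nat_lit 7) (nat_lit 3) (nat_lit 8) (nat_lit 7) (by decide +kernel)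
theorem L126246 : W_45 (nat_lit 3) (nat_lit 0x90002c0012000200000000000000000000000) (nat_lit 0x0) (nat_lit 0x14800500000000000000000000000000000000) := T_45 (nat_lit 128) (nat_lit 146) (nat_lit 3) (nat_lit 7) (nat_lit 7) L126245 (by decide +kernel)
theorem L126247 : W_45 (nat_lit 2) (nat_lit 0xd0002c0012000a00048000000000000000000) (nat_lit 0x0) (nat_lit 0x1000080004000000000000000) := D_45 (nat_lit 79) (nat_lit 62) (nat_lit 96) (nat_lit 6) (nat_lit 10) (nat_lit 7) (nat_lit 6) (nat_lit 10) (nat_lit 8) (by decide +kernel)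
theorem L126248 : W_45 (nat_lit 3) (nat_lit 0xd0002c0012000a00008000000000000000000) (nat_lit 0x0) (nat_lit 0x4000000010000c0004000000000000000) := T_45 (nat_lit 78) (nat_lit 130) (nat_lit 7) (nat_lit 10) (nat_lit 4) L126247 (by decide +kernel)
theorem L126249 : W_45 (nat_lit 4) (nat_lit 0xd0002c0012000200008000000000000000000) (nat_lit 0x0) (nat_lit 0x1000000004000000018000c0004000000000000000) := T_45 (nat_lit 95) (nat_lit 164) (nat_lit 7) (nat_lit 10) (nat_lit 5) L126248 (by decide +kernel)
theorem L126250 : W_45 (nat_lit 5) (nat_lit 0xd0002c0012000200000000000000000000000) (nat_lit 0x0) (nat_lit 0x1000000004000000019000c8004000000000000000) := T_45 (nat_lit 75) (nat_lit 92) (nat_lit 7) (nat_lit 7) (nat_lit 4) L126249 (by decide +kernel)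
theorem L126251 : W_45 (nat_lit 6) (nat_lit 0x90002c0012000200000000000000000000000) (nat_lit 0x0) (nat_lit 0x1000040005000000019000c8004000000000000000) := T_45 (nat_lit 146) (nat_lit 128) (nat_lit 3) (nat_lit 7) (nat_lit 7) L126250 (by decide +kernel)
theorem L126252 : W_45 (nat_lit 2) (nat_lit 0xd0002c0012001a00008000000000000000000) (nat_lit 0x0) (nat_lit 0x400030000000000000000000) := D_45 (nat_lit 94) (nat_lit 76) (nat_lit 77) (nat_lit 0) (nat_lit 11) (nat_lit 5) (nat_lit 4) (nat_lit 10) (nat_lit 8) (by decide +kernel)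
theorem L126253 : W_45 (nat_lit 3) (nat_lit 0xd0002c0012000a00008000000000000000000) (nat_lit 0x0) (nat_lit 0x14000b0000000000000000000) := T_45 (nat_lit 96) (nat_lit 79) (nat_lit 6) (nat_lit 10) (nat_lit 8) L126252 (by decide +kernel)
theorem L126254 : W_45 (nat_lit 4) (nat_lit 0xd0002c0012000200008000000000000000000) (nat_lit 0x0) (nat_lit 0x100000000000000001c000b0000000000000000000) := T_45 (nat_lit 95) (nat_lit 164) (nat_lit 7) (nat_lit 10) (nat_lit 5) L126253 (by decide +kernel)
theorem L126255 : W_45 (nat_lit 5) (nat_lit 0xd0002c0012000200000000000000000000000) (nat_lit 0x0) (nat_lit 0x100000000000000001d000b8000000000000000000) := T_45 (nat_lit 75) (nat_lit 92) (nat_lit 7) (nat_lit 7) (nat_lit 4) L126254 (by decide +kernel)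
theorem L126256 : W_45 (nat_lit 6) (nat_lit 0x90002c0012000200000000000000000000000) (nat_lit 0x0) (nat_lit 0x100004000100000001d000b8000000000000000000) := T_45 (nat_lit 146) (nat_lit 128) (nat_lit 3) (nat_lit 7) (nat_lit 7) L126255 (by decide +kernel)
theorem L126257 : W_45 (nat_lit 2) (nat_lit 0x90002c0012004a001e8010000000000000000) (nat_lit 0x0) (nat_lit 0x8000200020000000000000000) := D_45 (nat_lit 81) (nat_lit 99) (nat_lit 65) (nat_lit 3) (nat_lit 10) (nat_lit 4) (nat_lit 2) (nat_lit 10) (nat_lit 4) (by decide +kernel)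
theorem L126258 : W_45 (nat_lit 3) (nat_lit 0x90002c0012004a001e8000000000000000000) (nat_lit 0x0) (nat_lit 0x8000200038000000000000000) := T_45 (nat_lit 64) (nat_lit 63) (nat_lit 2) (nat_lit 9) (nat_lit 4) L126257 (by decide +kernel)
theorem L126259 : W_45 (nat_lit 4) (nat_lit 0x90002c0012000a001e8000000000000000000) (nat_lit 0x0) (nat_lit 0xe000200038000000000000000) := T_45 (nat_lit 98) (nat_lit 97) (nat_lit 3) (nat_lit 9) (nat_lit 4) L126258 (by decide +kernel)
theorem L126260 : W_45 (nat_lit 5) (nat_lit 0x90002c0012000a000e8000000000000000000) (nat_lit 0x0) (nat_lit 0xe400300038000000000000000) := T_45 (nat_lit 80) (nat_lit 94) (nat_lit 1) (nat_lit 12) (nat_lit 4) L126259 (by decide +kernel)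
theorem L126261 : W_45 (nat_lit 6) (nat_lit 0x90002c0012000a000c8000000000000000000) (nat_lit 0x0) (nat_lit 0xe400320039000000000000000) := T_45 (nat_lit 77) (nat_lit 60) (nat_lit 4) (nat_lit 10) (nat_lit 7) L126260 (by decide +kernel)
theorem L126262 : W_45 (nat_lit 7) (nat_lit 0x90002c0012000a00048000000000000000000) (nat_lit 0x0) (nat_lit 0xe4003a003d000000000000000) := T_45 (nat_lit 79) (nat_lit 62) (nat_lit 6) (nat_lit 10) (nat_lit 7) L126261 (by decide +kernel)
theorem L126263 : W_45 (nat_lit 8) (nat_lit 0x90002c0012000200048000000000000000000) (nat_lit 0x0) (nat_lit 0x40000000ec003a003d000000000000000) := T_45 (nat_lit 95) (nat_lit 130) (nat_lit 7) (nat_lit 10) (nat_lit 4) L126262 (by decide +kernel)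
theorem L126264 : W_45 (nat_lit 9) (nat_lit 0x90002c0012000200040000000000000000000) (nat_lit 0x0) (nat_lit 0x40000000ed003a803d000000000000000) := T_45 (nat_lit 75) (nat_lit 92) (nat_lit 7) (nat_lit 7) (nat_lit 4) L126263 (by decide +kernel)
theorem L126265 : W_45 (nat_lit 2) (nat_lit 0x90002c0012000a000e0000000000000000000) (nat_lit 0x0) (nat_lit 0x100018000000000000000000) := D_45 (nat_lit 92) (nat_lit 76) (nat_lit 75) (nat_lit 1) (nat_lit 11) (nat_lit 4) (nat_lit 7) (nat_lit 7) (nat_lit 4) (by decide +kernel)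
theorem L126266 : W_45 (nat_lit 3) (nat_lit 0x90002c0012000a000c0000000000000000000) (nat_lit 0x0) (nat_lit 0x100038001000000000000000) := T_45 (nat_lit 77) (nat_lit 60) (nat_lit 4) (nat_lit 10) (nat_lit 7) L126265 (by decide +kernel)
theorem L126267 : W_45 (nat_lit 4) (nat_lit 0x90002c0012000a00040000000000000000000) (nat_lit 0x0) (nat_lit 0x1000b8005000000000000000) := T_45 (nat_lit 79) (nat_lit 62) (nat_lit 6) (nat_lit 10) (nat_lit 7) L126266 (by decide +kernel)
theorem L126268 : W_45 (nat_lit 5) (nat_lit 0x90002c0012000200040000000000000000000) (nat_lit 0x0) (nat_lit 0x4000000009000b8005000000000000000) := T_45 (nat_lit 95) (nat_lit 130) (nat_lit 7) (nat_lit 10) (nat_lit 4) L126267 (by decide +kernel)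
theorem L126269 : W_45 (nat_lit 2) (nat_lit 0x90002c0012003a001e0010000000000000000) (nat_lit 0x0) (nat_lit 0x600020000000000000000) := D_45 (nat_lit 81) (nat_lit 82) (nat_lit 65) (nat_lit 1) (nat_lit 14) (nat_lit 4) (nat_lit 2) (nat_lit 10) (nat_lit 4) (by decide +kernel)
theorem L126270 : W_45 (nat_lit 3) (nat_lit 0x90002c0012003a001e0000000000000000000) (nat_lit 0x0) (nat_lit 0x600038000000000000000) := T_45 (nat_lit 64) (nat_lit 63) (nat_lit 2) (nat_lit 9) (nat_lit 4) L126269 (by decide +kernel)
theorem L126271 : W_45 (nat_lit 4) (nat_lit 0x90002c0012002a001e0000000000000000000) (nat_lit 0x0) (nat_lit 0x1000610038000000000000000) := T_45 (nat_lit 96) (nat_lit 76) (nat_lit 3) (nat_lit 8) (nat_lit 4) L126270 (by decide +kernel)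
theorem L126272 : W_45 (nat_lit 5) (nat_lit 0x90002c0012000a001e0000000000000000000) (nat_lit 0x0) (nat_lit 0x7000610038000000000000000) := T_45 (nat_lit 97) (nat_lit 98) (nat_lit 3) (nat_lit 9) (nat_lit 4) L126271 (by decide +kernel)
theorem L126273 : W_45 (nat_lit 6) (nat_lit 0x90002c0012000a000e0000000000000000000) (nat_lit 0x0) (nat_lit 0x7400710038000000000000000) := T_45 (nat_lit 80) (nat_lit 94) (nat_lit 1) (nat_lit 12) (nat_lit 4) L126272 (by decide +kernel)
theorem L126274 : W_45 (nat_lit 7) (nat_lit 0x90002c0012000a000c0000000000000000000) (nat_lit 0x0) (nat_lit 0x7400730039000000000000000) := T_45 (nat_lit 77) (nat_lit 60) (nat_lit 4) (nat_lit 10) (nat_lit 7) L126273 (by decide +kernel)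
theorem L126275 : W_45 (nat_lit 8) (nat_lit 0x90002c0012000a00040000000000000000000) (nat_lit 0x0) (nat_lit 0x74007b003d000000000000000) := T_45 (nat_lit 79) (nat_lit 62) (nat_lit 6) (nat_lit 10) (nat_lit 7) L126274 (by decide +kernel)
theorem L126276 : W_45 (nat_lit 9) (nat_lit 0x90002c0012000200040000000000000000000) (nat_lit 0x0) (nat_lit 0x400000007c007b003d000000000000000) := T_45 (nat_lit 95) (nat_lit 130) (nat_lit 7) (nat_lit 10) (nat_lit 4) L126275 (by decide +kernel)
theorem L126277 : W_45 (nat_lit 2) (nat_lit 0x90002c0012000a0007c000000000000000000) (nat_lit 0x0) (nat_lit 0x700000000000000) := D_45 (nat_lit 57) (nat_lit 58) (nat_lit 56) (nat_lit 0) (nat_lit 10) (nat_lit 4) (nat_lit 0) (nat_lit 9) (nat_lit 4) (by decide +kernel)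
theorem L126278 : W_45 (nat_lit 3) (nat_lit 0x90002c0012000a00078000000000000000000) (nat_lit 0x0) (nat_lit 0x400004000700000000000000) := T_45 (nat_lit 74) (nat_lit 94) (nat_lit 3) (nat_lit 6) (nat_lit 4) L126277 (by decide +kernel)
theorem L126279 : W_45 (nat_lit 4) (nat_lit 0x90002c0012000a00068000000000000000000) (nat_lit 0x0) (nat_lit 0x1400014000700000000000000) := T_45 (nat_lit 76) (nat_lit 96) (nat_lit 3) (nat_lit 7) (nat_lit 4) L126278 (by decide +kernel)
theorem L126280 : W_45 (nat_lit 5) (nat_lit 0x90002c0012000a00048000000000000000000) (nat_lit 0x0) (nat_lit 0x1400034001700000000000000) := T_45 (nat_lit 77) (nat_lit 60) (nat_lit 4) (nat_lit 10) (nat_lit 7) L126279 (by decide +kernel)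
theorem L126281 : W_45 (nat_lit 6) (nat_lit 0x90002c0012000200048000000000000000000) (nat_lit 0x0) (nat_lit 0x400000001c00034001700000000000000) := T_45 (nat_lit 95) (nat_lit 130) (nat_lit 7) (nat_lit 10) (nat_lit 4) L126280 (by decide +kernel)
theorem L126282 : W_45 (nat_lit 7) (nat_lit 0x90002c0012000200040000000000000000000) (nat_lit 0x0) (nat_lit 0x400000001d0003c001700000000000000) := T_45 (nat_lit 75) (nat_lit 92) (nat_lit 7) (nat_lit 7) (nat_lit 4) L126281 (by decide +kernel)
theorem L126283 : W_45 (nat_lit 2) (nat_lit 0x90002c0012000a000c0000000000000000000) (nat_lit 0x0) (nat_lit 0x500008000000000000000000) := D_45 (nat_lit 92) (nat_lit 94) (nat_lit 75) (nat_lit 2) (nat_lit 7) (nat_lit 5) (nat_lit 7) (nat_lit 7) (nat_lit 4) (by decide +kernel)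
theorem L126284 : W_45 (nat_lit 3) (nat_lit 0x90002c0012000a00040000000000000000000) (nat_lit 0x0) (nat_lit 0x500088004000000000000000) := T_45 (nat_lit 79) (nat_lit 62) (nat_lit 6) (nat_lit 10) (nat_lit 7) L126283 (by decide +kernel)
theorem L126285 : W_45 (nat_lit 4) (nat_lit 0x90002c0012000200040000000000000000000) (nat_lit 0x0) (nat_lit 0x400000000d00088004000000000000000) := T_45 (nat_lit 95) (nat_lit 130) (nat_lit 7) (nat_lit 10) (nat_lit 4) L126284 (by decide +kernel)
theorem L126286 : W_45 (nat_lit 10) (nat_lit 0x90002c0012000200000000000000000000000) (nat_lit 0x0) (nat_lit 0x80040000000fdc07fc03df00040000000000) := Q_45 (nat_lit 78) (C_45 L126264 (C_45 L126268 (C_45 L126276 (C_45 L126239 (C_45 L126282 (C_45 L126285 N_45)))))) (by decide +kernel)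
theorem L126287 : W_45 (nat_lit 11) (nat_lit 0x10002c0012000200000000000000000000000) (nat_lit 0x0) (nat_lit 0x10001c80050000000fdc07fc03df00040000000000) := Q_45 (nat_lit 147) (C_45 L126227 (C_45 L126244 (C_45 L126246 (C_45 L126251 (C_45 L126256 (C_45 L126286 N_45)))))) (by decide +kernel)
theorem L126288 : W_45 (nat_lit 2) (nat_lit 0x50002c0012000a00000000000000000000000) (nat_lit 0x0) (nat_lit 0x100008000100000000000000000000000000000000) := D_45 (nat_lit 147) (nat_lit 128) (nat_lit 164) (nat_lit 3) (nat_lit 7) (nat_lit 7) (nat_lit 7) (nat_lit 10) (nat_lit 5) (by decide +kernel)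
theorem L126289 : W_45 (nat_lit 2) (nat_lit 0xd0002c0012001a00028000000000000000000) (nat_lit 0x0) (nat_lit 0x400000000000040001000000000000000) := D_45 (nat_lit 78) (nat_lit 130) (nat_lit 60) (nat_lit 7) (nat_lit 10) (nat_lit 4) (nat_lit 4) (nat_lit 10) (nat_lit 7) (by decide +kernel)
theorem L126290 : W_45 (nat_lit 3) (nat_lit 0x50002c0012001a00028000000000000000000) (nat_lit 0x0) (nat_lit 0x100008000400000000000040001000000000000000) := T_45 (nat_lit 147) (nat_lit 164) (nat_lit 7) (nat_lit 10) (nat_lit 5) L126289 (by decide +kernel)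
theorem L126291 : W_45 (nat_lit 4) (nat_lit 0x50002c0012001a00008000000000000000000) (nat_lit 0x0) (nat_lit 0x100008000400000000400060001000000000000000) := T_45 (nat_lit 77) (nat_lit 94) (nat_lit 4) (nat_lit 10) (nat_lit 8) L126290 (by decide +kernel)
theorem L126292 : W_45 (nat_lit 5) (nat_lit 0x50002c0012000a00008000000000000000000) (nat_lit 0x0) (nat_lit 0x1000080004000000014000e0001000000000000000) := T_45 (nat_lit 96) (nat_lit 79) (nat_lit 6) (nat_lit 10) (nat_lit 8) L126291 (by decide +kernel)
theorem L126293 : W_45 (nat_lit 6) (nat_lit 0x50002c0012000a00000000000000000000000) (nat_lit 0x0) (nat_lit 0x1000080004000000015000e8001000000000000000) := T_45 (nat_lit 75) (nat_lit 92) (nat_lit 7) (nat_lit 7) (nat_lit 4) L126292 (by decide +kernel)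
theorem L126294 : W_45 (nat_lit 2) (nat_lit 0x50002c0012000a000a8000000000000000000) (nat_lit 0x0) (nat_lit 0x40005000000000000000) := D_45 (nat_lit 78) (nat_lit 62) (nat_lit 60) (nat_lit 6) (nat_lit 10) (nat_lit 7) (nat_lit 4) (nat_lit 10) (nat_lit 7) (by decide +kernel)
theorem L126295 : W_45 (nat_lit 3) (nat_lit 0x50002c0012000a00088000000000000000000) (nat_lit 0x0) (nat_lit 0x400060005000000000000000) := T_45 (nat_lit 77) (nat_lit 94) (nat_lit 4) (nat_lit 10) (nat_lit 8) L126294 (by decide +kernel)
theorem L126296 : W_45 (nat_lit 4) (nat_lit 0x50002c0012000a00008000000000000000000) (nat_lit 0x0) (nat_lit 0x14000e0005000000000000000) := T_45 (nat_lit 79) (nat_lit 96) (nat_lit 6) (nat_lit 10) (nat_lit 8) L126295 (by decide +kernel)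
theorem L126297 : W_45 (nat_lit 5) (nat_lit 0x50002c0012000a00000000000000000000000) (nat_lit 0x0) (nat_lit 0x15000e8005000000000000000) := T_45 (nat_lit 75) (nat_lit 92) (nat_lit 7) (nat_lit 7) (nat_lit 4) L126296 (by decide +kernel)
theorem L126298 : W_45 (nat_lit 7) (nat_lit 0x10002c0012000a00000000000000000000000) (nat_lit 0x0) (nat_lit 0x10000c0005000000015000e8005000000000000000) := Q_45 (nat_lit 146) (C_45 L126288 (C_45 L126293 (C_45 L126297 N_45))) (by decide +kernel)
theorem L126299 : W_45 (nat_lit 2) (nat_lit 0x1000100018002c0012000a00008000000000000000000) (nat_lit 0x0) (nat_lit 0x6000200000000000000000000000000000000000000000000) := D_45 (nat_lit 177) (nat_lit 194) (nat_lit 193) (nat_lit 6) (nat_lit 7) (nat_lit 11) (nat_lit 5) (nat_lit 7) (nat_lit 7) (by decide +kernel)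
theorem L126300 : W_45 (nat_lit 3) (nat_lit 0x100018002c0012000a00008000000000000000000) (nat_lit 0x0) (nat_lit 0x6000300008000000000000000000000000000000000000000) := T_45 (nat_lit 176) (nat_lit 159) (nat_lit 5) (nat_lit 7) (nat_lit 6) L126299 (by decide +kernel)
theorem L126301 : W_45 (nat_lit 4) (nat_lit 0x18002c0012000a00008000000000000000000) (nat_lit 0x0) (nat_lit 0x6000300018000000000004000000000000000000000000000) := T_45 (nat_lit 160) (nat_lit 110) (nat_lit 6) (nat_lit 7) (nat_lit 9) L126300 (by decide +kernel)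
theorem L126302 : W_45 (nat_lit 5) (nat_lit 0x18002c0012000a00000000000000000000000) (nat_lit 0x0) (nat_lit 0x6000300018000000000004000100008000000000000000000) := T_45 (nat_lit 75) (nat_lit 92) (nat_lit 7) (nat_lit 7) (nat_lit 4) L126301 (by decide +kernel)
theorem L126303 : W_45 (nat_lit 2) (nat_lit 0x18006c0012000a00048005000000000000000) (nat_lit 0x0) (nat_lit 0x2000280000000000) := D_45 (nat_lit 61) (nat_lit 45) (nat_lit 43) (nat_lit 6) (nat_lit 10) (nat_lit 6) (nat_lit 4) (nat_lit 10) (nat_lit 6) (by decide +kernel)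
theorem L126304 : W_45 (nat_lit 3) (nat_lit 0x18006c0012000a00048004000000000000000) (nat_lit 0x0) (nat_lit 0x20003000280000000000) := T_45 (nat_lit 60) (nat_lit 77) (nat_lit 4) (nat_lit 10) (nat_lit 7) L126303 (by decide +kernel)
theorem L126305 : W_45 (nat_lit 4) (nat_lit 0x18006c0012000a00048000000000000000000) (nat_lit 0x0) (nat_lit 0xa0007000280000000000) := T_45 (nat_lit 62) (nat_lit 79) (nat_lit 6) (nat_lit 10) (nat_lit 7) L126304 (by decide +kernel)
theorem L126306 : W_45 (nat_lit 5) (nat_lit 0x18006c0012000a00008000000000000000000) (nat_lit 0x0) (nat_lit 0x80000000000000000e0007000280000000000) := T_45 (nat_lit 78) (nat_lit 147) (nat_lit 7) (nat_lit 10) (nat_lit 4) L126305 (by decide +kernel)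
theorem L126307 : W_45 (nat_lit 6) (nat_lit 0x18002c0012000a00008000000000000000000) (nat_lit 0x0) (nat_lit 0x80005000000000000e0007000280000000000) := T_45 (nat_lit 130) (nat_lit 128) (nat_lit 1) (nat_lit 11) (nat_lit 7) L126306 (by decide +kernel)
theorem L126308 : W_45 (nat_lit 7) (nat_lit 0x18002c0012000a00000000000000000000000) (nat_lit 0x0) (nat_lit 0x80005000000001000e8007000280000000000) := T_45 (nat_lit 75) (nat_lit 92) (nat_lit 7) (nat_lit 7) (nat_lit 4) L126307 (by decide +kernel)
theorem L126309 : W_45 (nat_lit 2) (nat_lit 0x1000100058006c0012000a000e0000000000000000000) (nat_lit 0x0) (nat_lit 0x6000200000000000000000000000000000000000000000000) := D_45 (nat_lit 177) (nat_lit 194) (nat_lit 193) (nat_lit 6) (nat_lit 7) (nat_lit 11) (nat_lit 5) (nat_lit 7) (nat_lit 7) (by decide +kernel)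
theorem L126310 : W_45 (nat_lit 3) (nat_lit 0x100058006c0012000a000e0000000000000000000) (nat_lit 0x0) (nat_lit 0x6000300008000000000000000000000000000000000000000) := T_45 (nat_lit 176) (nat_lit 159) (nat_lit 5) (nat_lit 7) (nat_lit 6) L126309 (by decide +kernel)
theorem L126311 : W_45 (nat_lit 4) (nat_lit 0x58006c0012000a000e0000000000000000000) (nat_lit 0x0) (nat_lit 0x6000300018000000000004000000000000000000000000000) := T_45 (nat_lit 160) (nat_lit 110) (nat_lit 6) (nat_lit 7) (nat_lit 9) L126310 (by decide +kernel)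
theorem L126312 : W_45 (nat_lit 5) (nat_lit 0x18006c0012000a000e0000000000000000000) (nat_lit 0x0) (nat_lit 0x6000300018004000000004001000000000000000000000000) := T_45 (nat_lit 146) (nat_lit 96) (nat_lit 6) (nat_lit 10) (nat_lit 8) L126311 (by decide +kernel)
theorem L126313 : W_45 (nat_lit 6) (nat_lit 0x18006c0012000a000c0000000000000000000) (nat_lit 0x0) (nat_lit 0x6000300018004000000004001000020001000000000000000) := T_45 (nat_lit 77) (nat_lit 60) (nat_lit 4) (nat_lit 10) (nat_lit 7) L126312 (by decide +kernel)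
theorem L126314 : W_45 (nat_lit 7) (nat_lit 0x18006c0012000a00040000000000000000000) (nat_lit 0x0) (nat_lit 0x60003000180040000000040010000a0005000000000000000) := T_45 (nat_lit 79) (nat_lit 62) (nat_lit 6) (nat_lit 10) (nat_lit 7) L126313 (by decide +kernel)
theorem L126315 : W_45 (nat_lit 8) (nat_lit 0x18006c0012000a00000000000000000000000) (nat_lit 0x0) (nat_lit 0x600030001800c0000000040010000e0005000000000000000) := T_45 (nat_lit 78) (nat_lit 147) (nat_lit 7) (nat_lit 10) (nat_lit 4) L126314 (by decide +kernel)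
theorem L126316 : W_45 (nat_lit 9) (nat_lit 0x18002c0012000a00000000000000000000000) (nat_lit 0x0) (nat_lit 0x600030001800c0005000040010000e0005000000000000000) := T_45 (nat_lit 130) (nat_lit 128) (nat_lit 1) (nat_lit 11) (nat_lit 7) L126315 (by decide +kernel)
theorem L126317 : W_45 (nat_lit 10) (nat_lit 0x10002c0012000a00000000000000000000000) (nat_lit 0x0) (nat_lit 0x600030001800c8005000040011000e8007000280000000000) := Q_45 (nat_lit 143) (C_45 L126302 (C_45 L126308 (C_45 L126316 N_45))) (by decide +kernel)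
theorem L126318 : W_45 (nat_lit 2) (nat_lit 0x100010006c0016000a00040005000000000000000) (nat_lit 0x0) (nat_lit 0x2000280000000000) := D_45 (nat_lit 61) (nat_lit 45) (nat_lit 43) (nat_lit 6) (nat_lit 10) (nat_lit 6) (nat_lit 4) (nat_lit 10) (nat_lit 6) (by decide +kernel)
theorem L126319 : W_45 (nat_lit 3) (nat_lit 0x100010006c0016000a00040004000000000000000) (nat_lit 0x0) (nat_lit 0x20003000280000000000) := T_45 (nat_lit 60) (nat_lit 77) (nat_lit 4) (nat_lit 10) (nat_lit 7) L126318 (by decide +kernel)
theorem L126320 : W_45 (nat_lit 4) (nat_lit 0x100010006c0016000a00040000000000000000000) (nat_lit 0x0) (nat_lit 0xa0007000280000000000) := T_45 (nat_lit 62) (nat_lit 79) (nat_lit 6) (nat_lit 10) (nat_lit 7) L126319 (by decide +kernel)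
theorem L126321 : W_45 (nat_lit 5) (nat_lit 0x100010006c0016000a00000000000000000000000) (nat_lit 0x0) (nat_lit 0x80000000000000000e0007000280000000000) := T_45 (nat_lit 78) (nat_lit 147) (nat_lit 7) (nat_lit 10) (nat_lit 4) L126320 (by decide +kernel)
theorem L126322 : W_45 (nat_lit 6) (nat_lit 0x100010002c0016000a00000000000000000000000) (nat_lit 0x0) (nat_lit 0x80005000000000000e0007000280000000000) := T_45 (nat_lit 130) (nat_lit 128) (nat_lit 0) (nat_lit 11) (nat_lit 7) L126321 (by decide +kernel)
theorem L126323 : W_45 (nat_lit 7) (nat_lit 0x10002c0016000a00000000000000000000000) (nat_lit 0x0) (nat_lit 0x100088005000000000000e0007000280000000000) := T_45 (nat_lit 160) (nat_lit 143) (nat_lit 6) (nat_lit 7) (nat_lit 9) L126322 (by decide +kernel)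
theorem L126324 : W_45 (nat_lit 2) (nat_lit 0x10006c0016001a00040000000000000000000) (nat_lit 0x0) (nat_lit 0x4000000000000000080004000000000000000) := D_45 (nat_lit 79) (nat_lit 62) (nat_lit 146) (nat_lit 6) (nat_lit 10) (nat_lit 7) (nat_lit 6) (nat_lit 10) (nat_lit 8) (by decide +kernel)
theorem L126325 : W_45 (nat_lit 3) (nat_lit 0x10006c0016001a00000000000000000000000) (nat_lit 0x0) (nat_lit 0xc0000000000000000c0004000000000000000) := T_45 (nat_lit 78) (nat_lit 147) (nat_lit 7) (nat_lit 10) (nat_lit 4) L126324 (by decide +kernel)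
theorem L126326 : W_45 (nat_lit 4) (nat_lit 0x10006c0016000a00000000000000000000000) (nat_lit 0x0) (nat_lit 0xc0000000000014000c0004000000000000000) := T_45 (nat_lit 96) (nat_lit 94) (nat_lit 1) (nat_lit 11) (nat_lit 5) L126325 (by decide +kernel)
theorem L126327 : W_45 (nat_lit 5) (nat_lit 0x10002c0016000a00000000000000000000000) (nat_lit 0x0) (nat_lit 0xc0005000000014000c0004000000000000000) := T_45 (nat_lit 130) (nat_lit 128) (nat_lit 0) (nat_lit 11) (nat_lit 7) L126326 (by decide +kernel)
theorem L126328 : W_45 (nat_lit 8) (nat_lit 0x10002c0012000a00000000000000000000000) (nat_lit 0x0) (nat_lit 0x1000c8005000040014000e0007000280000000000) := Q_45 (nat_lit 110) (C_45 L126031 (C_45 L126323 (C_45 L126327 N_45))) (by decide +kernel)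
theorem L126329 : W_45 (nat_lit 2) (nat_lit 0x18006c0012000a000e0000000000000000000) (nat_lit 0x0) (nat_lit 0x4000000000000400100000000000000000000) := D_45 (nat_lit 94) (nat_lit 80) (nat_lit 146) (nat_lit 1) (nat_lit 12) (nat_lit 4) (nat_lit 4) (nat_lit 10) (nat_lit 8) (by decide +kernel)
theorem L126330 : W_45 (nat_lit 3) (nat_lit 0x18006c0012000a000c0000000000000000000) (nat_lit 0x0) (nat_lit 0x4000000000000400120001000000000000000) := T_45 (nat_lit 77) (nat_lit 60) (nat_lit 4) (nat_lit 10) (nat_lit 7) L126329 (by decide +kernel)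
theorem L126331 : W_45 (nat_lit 4) (nat_lit 0x18006c0012000a00040000000000000000000) (nat_lit 0x0) (nat_lit 0x40000000000004001a0005000000000000000) := T_45 (nat_lit 79) (nat_lit 62) (nat_lit 6) (nat_lit 10) (nat_lit 7) L126330 (by decide +kernel)
theorem L126332 : W_45 (nat_lit 5) (nat_lit 0x18006c0012000a00000000000000000000000) (nat_lit 0x0) (nat_lit 0xc0000000000004001e0005000000000000000) := T_45 (nat_lit 78) (nat_lit 147) (nat_lit 7) (nat_lit 10) (nat_lit 4) L126331 (by decide +kernel)
theorem L126333 : W_45 (nat_lit 6) (nat_lit 0x18002c0012000a00000000000000000000000) (nat_lit 0x0) (nat_lit 0xc0005000000004001e0005000000000000000) := T_45 (nat_lit 130) (nat_lit 128) (nat_lit 1) (nat_lit 11) (nat_lit 7) L126332 (by decide +kernel)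
theorem L126334 : W_45 (nat_lit 8) (nat_lit 0x10002c0012000a00000000000000000000000) (nat_lit 0x0) (nat_lit 0x600030001800c8005000040005001e8007000280000000000) := Q_45 (nat_lit 143) (C_45 L126302 (C_45 L126308 (C_45 L126333 N_45))) (by decide +kernel)
theorem L126335 : W_45 (nat_lit 2) (nat_lit 0x10002c0012000e00000000000000000000000) (nat_lit 0x0) (nat_lit 0x4001000020000000000000000000) := D_45 (nat_lit 110) (nat_lit 96) (nat_lit 77) (nat_lit 1) (nat_lit 11) (nat_lit 5) (nat_lit 6) (nat_lit 8) (nat_lit 8) (by decide +kernel)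
theorem L126336 : W_45 (nat_lit 2) (nat_lit 0x10002c0012000e00028000000000000000000) (nat_lit 0x0) (nat_lit 0x40001000080000000000) := D_45 (nat_lit 60) (nat_lit 78) (nat_lit 43) (nat_lit 4) (nat_lit 10) (nat_lit 7) (nat_lit 7) (nat_lit 9) (nat_lit 2) (by decide +kernel)
theorem L126337 : W_45 (nat_lit 3) (nat_lit 0x10002c0012000e00008000000000000000000) (nat_lit 0x0) (nat_lit 0x4000000000000000060001000080000000000) := T_45 (nat_lit 77) (nat_lit 146) (nat_lit 4) (nat_lit 10) (nat_lit 8) L126336 (by decide +kernel)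
theorem L126338 : W_45 (nat_lit 4) (nat_lit 0x10002c0012000e00000000000000000000000) (nat_lit 0x0) (nat_lit 0x4000000000000100068001000080000000000) := T_45 (nat_lit 75) (nat_lit 92) (nat_lit 7) (nat_lit 7) (nat_lit 4) L126337 (by decide +kernel)
theorem L126339 : W_45 (nat_lit 2) (nat_lit 0x10002c0012001e00000000000000000000000) (nat_lit 0x0) (nat_lit 0x4000000000000000180000000000000000000) := D_45 (nat_lit 79) (nat_lit 80) (nat_lit 146) (nat_lit 2) (nat_lit 8) (nat_lit 5) (nat_lit 6) (nat_lit 10) (nat_lit 8) (by decide +kernel)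
theorem L126340 : W_45 (nat_lit 3) (nat_lit 0x10002c0012000e00000000000000000000000) (nat_lit 0x0) (nat_lit 0x4000000004001000180000000000000000000) := T_45 (nat_lit 96) (nat_lit 110) (nat_lit 1) (nat_lit 11) (nat_lit 5) L126339 (by decide +kernel)
theorem L126341 : W_45 (nat_lit 5) (nat_lit 0x10002c0012000a00000000000000000000000) (nat_lit 0x0) (nat_lit 0x40000000040015001e8001000080000000000) := Q_45 (nat_lit 94) (C_45 L126335 (C_45 L126338 (C_45 L126340 N_45))) (by decide +kernel)
theorem L126342 : W_45 (nat_lit 2) (nat_lit 0x98006c0016000a00008000000000000000000) (nat_lit 0x0) (nat_lit 0x2000100004000000000000000000000000000000000000) := D_45 (nat_lit 164) (nat_lit 181) (nat_lit 146) (nat_lit 4) (nat_lit 11) (nat_lit 10) (nat_lit 7) (nat_lit 10) (nat_lit 5) (by decide +kernel)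
theorem L126343 : W_45 (nat_lit 3) (nat_lit 0x18006c0016000a00008000000000000000000) (nat_lit 0x0) (nat_lit 0x200010000c000000000000000040000000000000000000) := T_45 (nat_lit 147) (nat_lit 78) (nat_lit 7) (nat_lit 10) (nat_lit 4) L126342 (by decide +kernel)
theorem L126344 : W_45 (nat_lit 4) (nat_lit 0x18002c0016000a00008000000000000000000) (nat_lit 0x0) (nat_lit 0x200010000c000500000000000040000000000000000000) := T_45 (nat_lit 130) (nat_lit 128) (nat_lit 1) (nat_lit 11) (nat_lit 7) L126343 (by decide +kernel)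
theorem L126345 : W_45 (nat_lit 5) (nat_lit 0x10002c0016000a00008000000000000000000) (nat_lit 0x0) (nat_lit 0x200011000c800500000000000040000000000000000000) := T_45 (nat_lit 143) (nat_lit 160) (nat_lit 6) (nat_lit 7) (nat_lit 9) L126344 (by decide +kernel)
theorem L126346 : W_45 (nat_lit 6) (nat_lit 0x10002c0016000a00000000000000000000000) (nat_lit 0x0) (nat_lit 0x200011000c800500000000100048000000000000000000) := T_45 (nat_lit 75) (nat_lit 92) (nat_lit 7) (nat_lit 7) (nat_lit 4) L126345 (by decide +kernel)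
theorem L126347 : W_45 (nat_lit 7) (nat_lit 0x10002c0012000a00000000000000000000000) (nat_lit 0x0) (nat_lit 0x200011000c800500004001500068000000000000000000) := Q_45 (nat_lit 110) (C_45 L126346 (C_45 L126031 N_45)) (by decide +kernel)
theorem L126348 : W_45 (nat_lit 2) (nat_lit 0x18002c0016001a00088000000000000000000) (nat_lit 0x0) (nat_lit 0x40004000200000000000) := D_45 (nat_lit 62) (nat_lit 78) (nat_lit 45) (nat_lit 6) (nat_lit 10) (nat_lit 7) (nat_lit 5) (nat_lit 11) (nat_lit 2) (by decide +kernel)
theorem L126349 : W_45 (nat_lit 3) (nat_lit 0x18002c0016001a00008000000000000000000) (nat_lit 0x0) (nat_lit 0x40000000000000000c0004000200000000000) := T_45 (nat_lit 79) (nat_lit 146) (nat_lit 6) (nat_lit 10) (nat_lit 8) L126348 (by decide +kernel)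
theorem L126350 : W_45 (nat_lit 4) (nat_lit 0x18002c0016000a00008000000000000000000) (nat_lit 0x0) (nat_lit 0x40000000000014000c0004000200000000000) := T_45 (nat_lit 96) (nat_lit 94) (nat_lit 1) (nat_lit 11) (nat_lit 5) L126349 (by decide +kernel)
theorem L126351 : W_45 (nat_lit 5) (nat_lit 0x10002c0016000a00008000000000000000000) (nat_lit 0x0) (nat_lit 0x100048000000000014000c0004000200000000000) := T_45 (nat_lit 143) (nat_lit 160) (nat_lit 6) (nat_lit 7) (nat_lit 9) L126350 (by decide +kernel)
theorem L126352 : W_45 (nat_lit 6) (nat_lit 0x10002c0016000a00000000000000000000000) (nat_lit 0x0) (nat_lit 0x100048000000000015000c8004000200000000000) := T_45 (nat_lit 75) (nat_lit 92) (nat_lit 7) (nat_lit 7) (nat_lit 4) L126351 (by decide +kernel)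
theorem L126353 : W_45 (nat_lit 2) (nat_lit 0x100050002c0016001a00000000000000000000000) (nat_lit 0x0) (nat_lit 0x8000500000000000000000000000000000000) := D_45 (nat_lit 128) (nat_lit 147) (nat_lit 130) (nat_lit 3) (nat_lit 7) (nat_lit 7) (nat_lit 0) (nat_lit 11) (nat_lit 7) (by decide +kernel)
theorem L126354 : W_45 (nat_lit 3) (nat_lit 0x100010002c0016001a00000000000000000000000) (nat_lit 0x0) (nat_lit 0xc000500000000000080000000000000000000) := T_45 (nat_lit 146) (nat_lit 79) (nat_lit 6) (nat_lit 10) (nat_lit 8) L126353 (by decide +kernel)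
theorem L126355 : W_45 (nat_lit 4) (nat_lit 0x10002c0016001a00000000000000000000000) (nat_lit 0x0) (nat_lit 0x1000c800500000000000080000000000000000000) := T_45 (nat_lit 160) (nat_lit 143) (nat_lit 6) (nat_lit 7) (nat_lit 9) L126354 (by decide +kernel)
theorem L126356 : W_45 (nat_lit 5) (nat_lit 0x10002c0016000a00000000000000000000000) (nat_lit 0x0) (nat_lit 0x1000c800500000001400080000000000000000000) := T_45 (nat_lit 96) (nat_lit 94) (nat_lit 1) (nat_lit 11) (nat_lit 5) L126355 (by decide +kernel)
theorem L126357 : W_45 (nat_lit 2) (nat_lit 0x100010006c0016000f00000000000000000000000) (nat_lit 0x0) (nat_lit 0x80000000000000000c0000000000000000000) := D_45 (nat_lit 78) (nat_lit 79) (nat_lit 147) (nat_lit 2) (nat_lit 7) (nat_lit 5) (nat_lit 7) (nat_lit 10) (nat_lit 4) (by decide +kernel)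
theorem L126358 : W_45 (nat_lit 3) (nat_lit 0x100010002c0016000f00000000000000000000000) (nat_lit 0x0) (nat_lit 0x80005000000000000c0000000000000000000) := T_45 (nat_lit 130) (nat_lit 128) (nat_lit 0) (nat_lit 11) (nat_lit 7) L126357 (by decide +kernel)
theorem L126359 : W_45 (nat_lit 4) (nat_lit 0x10002c0016000f00000000000000000000000) (nat_lit 0x0) (nat_lit 0x100088005000000000000c0000000000000000000) := T_45 (nat_lit 160) (nat_lit 143) (nat_lit 6) (nat_lit 7) (nat_lit 9) L126358 (by decide +kernel)
theorem L126360 : W_45 (nat_lit 5) (nat_lit 0x10002c0016000e00000000000000000000000) (nat_lit 0x0) (nat_lit 0x100088005000000001000c8000000000000000000) := T_45 (nat_lit 92) (nat_lit 75) (nat_lit 7) (nat_lit 7) (nat_lit 4) L126359 (by decide +kernel)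
theorem L126361 : W_45 (nat_lit 6) (nat_lit 0x10002c0016000a00000000000000000000000) (nat_lit 0x0) (nat_lit 0x100088005000000015000c8000000000000000000) := T_45 (nat_lit 94) (nat_lit 96) (nat_lit 1) (nat_lit 11) (nat_lit 5) L126360 (by decide +kernel)
theorem L126362 : W_45 (nat_lit 7) (nat_lit 0x10002c0012000a00000000000000000000000) (nat_lit 0x0) (nat_lit 0x200011000c8005000040015000c8004000200000000000) := Q_45 (nat_lit 110) (C_45 L126346 (C_45 L126352 (C_45 L126327 (C_45 L126356 (C_45 L126361 N_45))))) (by decide +kernel)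
theorem L126363 : W_45 (nat_lit 2) (nat_lit 0x50002c0012001a00008000000000000000000) (nat_lit 0x0) (nat_lit 0x4000400020000000000000000000) := D_45 (nat_lit 94) (nat_lit 110) (nat_lit 77) (nat_lit 1) (nat_lit 11) (nat_lit 5) (nat_lit 4) (nat_lit 10) (nat_lit 8) (by decide +kernel)
theorem L126364 : W_45 (nat_lit 3) (nat_lit 0x50002c0012000a00008000000000000000000) (nat_lit 0x0) (nat_lit 0x40014000a0000000000000000000) := T_45 (nat_lit 96) (nat_lit 79) (nat_lit 6) (nat_lit 10) (nat_lit 8) L126363 (by decide +kernel)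
theorem L126365 : W_45 (nat_lit 4) (nat_lit 0x50002c0012000a00000000000000000000000) (nat_lit 0x0) (nat_lit 0x40015000a8000000000000000000) := T_45 (nat_lit 75) (nat_lit 92) (nat_lit 7) (nat_lit 7) (nat_lit 4) L126364 (by decide +kernel)
theorem L126366 : W_45 (nat_lit 5) (nat_lit 0x10002c0012000a00000000000000000000000) (nat_lit 0x0) (nat_lit 0x10000c0001000040015000a8000000000000000000) := Q_45 (nat_lit 146) (C_45 L126288 (C_45 L126365 N_45)) (by decide +kernel)
theorem L126367 : W_45 (nat_lit 8) (nat_lit 0x10002c0012000a00000000000000000000000) (nat_lit 0x0) (nat_lit 0x100088005000040015000e8007000280000000000) := Q_45 (nat_lit 110) (C_45 L126323 (C_45 L126031 (C_45 L126361 N_45))) (by decide +kernel)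
theorem L126368 : W_45 (nat_lit 11) (nat_lit 0x10002c0012000200000000000000000000000) (nat_lit 0x0) (nat_lit 0x600230011800c800500004001d001e8007000280000000000) := Q_45 (nat_lit 95) (C_45 L126298 (C_45 L126317 (C_45 L126205 (C_45 L126328 (C_45 L126334 (C_45 L126341 (C_45 L126347 (C_45 L126362 (C_45 L126366 (C_45 L126367 N_45)))))))))) (by decide +kernel)
theorem L126369 : W_45 (nat_lit 2) (nat_lit 0x90006c0016000e00008000000000000000000) (nat_lit 0x0) (nat_lit 0x2000100004000000000000000000000000000000000000) := D_45 (nat_lit 164) (nat_lit 181) (nat_lit 146) (nat_lit 4) (nat_lit 11) (nat_lit 10) (nat_lit 7) (nat_lit 10) (nat_lit 5) (by decide +kernel)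
theorem L126370 : W_45 (nat_lit 3) (nat_lit 0x10006c0016000e00008000000000000000000) (nat_lit 0x0) (nat_lit 0x200010000c000000000000000040000000000000000000) := T_45 (nat_lit 147) (nat_lit 78) (nat_lit 7) (nat_lit 10) (nat_lit 4) L126369 (by decide +kernel)
theorem L126371 : W_45 (nat_lit 4) (nat_lit 0x10002c0016000e00008000000000000000000) (nat_lit 0x0) (nat_lit 0x200010000c000500000000000040000000000000000000) := T_45 (nat_lit 130) (nat_lit 128) (nat_lit 0) (nat_lit 11) (nat_lit 7) L126370 (by decide +kernel)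
theorem L126372 : W_45 (nat_lit 5) (nat_lit 0x10002c0016000600008000000000000000000) (nat_lit 0x0) (nat_lit 0x200010000c000500000001800040000000000000000000) := T_45 (nat_lit 95) (nat_lit 96) (nat_lit 1) (nat_lit 11) (nat_lit 5) L126371 (by decide +kernel)
theorem L126373 : W_45 (nat_lit 6) (nat_lit 0x10002c0016000200008000000000000000000) (nat_lit 0x0) (nat_lit 0x200010000c000500000001c00060000000000000000000) := T_45 (nat_lit 94) (nat_lit 77) (nat_lit 6) (nat_lit 8) (nat_lit 8) L126372 (by decide +kernel)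
theorem L126374 : W_45 (nat_lit 7) (nat_lit 0x10002c0016000200000000000000000000000) (nat_lit 0x0) (nat_lit 0x200010000c000500000001d00068000000000000000000) := T_45 (nat_lit 75) (nat_lit 92) (nat_lit 7) (nat_lit 7) (nat_lit 4) L126373 (by decide +kernel)
theorem L126375 : W_45 (nat_lit 2) (nat_lit 0x10006c0016000200008000000000000000000) (nat_lit 0x0) (nat_lit 0x10000c00000000000000) := D_45 (nat_lit 76) (nat_lit 58) (nat_lit 59) (nat_lit 4) (nat_lit 8) (nat_lit 7) (nat_lit 5) (nat_lit 8) (nat_lit 3) (by decide +kernel)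
theorem L126376 : W_45 (nat_lit 3) (nat_lit 0x10006c0016000200000000000000000000000) (nat_lit 0x0) (nat_lit 0x100018000c00000000000000) := T_45 (nat_lit 75) (nat_lit 92) (nat_lit 7) (nat_lit 7) (nat_lit 4) L126375 (by decide +kernel)
theorem L126377 : W_45 (nat_lit 4) (nat_lit 0x10002c0016000200000000000000000000000) (nat_lit 0x0) (nat_lit 0x500000000100018000c00000000000000) := T_45 (nat_lit 130) (nat_lit 128) (nat_lit 0) (nat_lit 11) (nat_lit 7) L126376 (by decide +kernel)
theorem L126378 : W_45 (nat_lit 2) (nat_lit 0x10002c0016000300020000000000000000000) (nat_lit 0x0) (nat_lit 0x10001800000000000000) := D_45 (nat_lit 76) (nat_lit 59) (nat_lit 60) (nat_lit 5) (nat_lit 8) (nat_lit 3) (nat_lit 6) (nat_lit 8) (nat_lit 7) (by decide +kernel)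
theorem L126379 : W_45 (nat_lit 3) (nat_lit 0x10002c0016000300000000000000000000000) (nat_lit 0x0) (nat_lit 0x400030001800000000000000) := T_45 (nat_lit 77) (nat_lit 94) (nat_lit 6) (nat_lit 8) (nat_lit 8) L126378 (by decide +kernel)
theorem L126380 : W_45 (nat_lit 4) (nat_lit 0x10002c0016000200000000000000000000000) (nat_lit 0x0) (nat_lit 0x500038001800000000000000) := T_45 (nat_lit 92) (nat_lit 75) (nat_lit 7) (nat_lit 7) (nat_lit 4) L126379 (by decide +kernel)
theorem L126381 : W_45 (nat_lit 8) (nat_lit 0x10002c0012000200000000000000000000000) (nat_lit 0x0) (nat_lit 0x200010000c000500004001d00078001c00000000000000) := Q_45 (nat_lit 110) (C_45 L126374 (C_45 L126377 (C_45 L126380 (C_45 L126048 N_45)))) (by decide +kernel)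
theorem L126382 : W_45 (nat_lit 12) (nat_lit 0x10002c0012000000000000000000000000000) (nat_lit 0x0) (nat_lit 0x600230011801c80050000400ffc07fc03ff002c0000000000) := Q_45 (nat_lit 93) (C_45 L126088 (C_45 L126224 (C_45 L126287 (C_45 L126368 (C_45 L126381 N_45))))) (by decide +kernel)
theorem L126383 : W_45 (nat_lit 2) (nat_lit 0x10003c0012000000008000000000000000000) (nat_lit 0x0) (nat_lit 0x800400004000000000000000000000000000) := D_45 (nat_lit 130) (nat_lit 143) (nat_lit 110) (nat_lit 1) (nat_lit 11) (nat_lit 7) (nat_lit 0) (nat_lit 11) (nat_lit 7) (by decide +kernel)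
theorem L126384 : W_45 (nat_lit 3) (nat_lit 0x10002c0012000000008000000000000000000) (nat_lit 0x0) (nat_lit 0x800500024000000000000000000000000000) := T_45 (nat_lit 128) (nat_lit 113) (nat_lit 2) (nat_lit 7) (nat_lit 7) L126383 (by decide +kernel)
theorem L126385 : W_45 (nat_lit 4) (nat_lit 0x10002c0012000000000000000000000000000) (nat_lit 0x0) (nat_lit 0x800500024000100008000000000000000000) := T_45 (nat_lit 75) (nat_lit 92) (nat_lit 7) (nat_lit 7) (nat_lit 4) L126384 (by decide +kernel)
theorem L126386 : W_45 (nat_lit 2) (nat_lit 0x50002c0012000000000000000000000000000) (nat_lit 0x0) (nat_lit 0x8000100020000000000000000000000000000) := D_45 (nat_lit 128) (nat_lit 113) (nat_lit 147) (nat_lit 2) (nat_lit 7) (nat_lit 7) (nat_lit 3) (nat_lit 7) (nat_lit 7) (by decide +kernel)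
theorem L126387 : W_45 (nat_lit 2) (nat_lit 0xd0002c0012001e00008000000000000000000) (nat_lit 0x0) (nat_lit 0x80000000000060000000000000000000000000000) := D_45 (nat_lit 113) (nat_lit 163) (nat_lit 114) (nat_lit 6) (nat_lit 10) (nat_lit 9) (nat_lit 3) (nat_lit 8) (nat_lit 5) (by decide +kernel)
theorem L126388 : W_45 (nat_lit 3) (nat_lit 0xd0002c0012001c00008000000000000000000) (nat_lit 0x0) (nat_lit 0x80000000000060000200010000000000000000000) := T_45 (nat_lit 93) (nat_lit 76) (nat_lit 0) (nat_lit 11) (nat_lit 5) L126387 (by decide +kernel)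
theorem L126389 : W_45 (nat_lit 4) (nat_lit 0xd0002c0012001800008000000000000000000) (nat_lit 0x0) (nat_lit 0x80000000000060000600030000000000000000000) := T_45 (nat_lit 94) (nat_lit 77) (nat_lit 4) (nat_lit 10) (nat_lit 8) L126388 (by decide +kernel)
theorem L126390 : W_45 (nat_lit 5) (nat_lit 0xd0002c0012000800008000000000000000000) (nat_lit 0x0) (nat_lit 0x800000000000600016000b0000000000000000000) := T_45 (nat_lit 96) (nat_lit 79) (nat_lit 6) (nat_lit 10) (nat_lit 8) L126389 (by decide +kernel)
theorem L126391 : W_45 (nat_lit 6) (nat_lit 0x50002c0012000800008000000000000000000) (nat_lit 0x0) (nat_lit 0x1800080000000600016000b0000000000000000000) := T_45 (nat_lit 147) (nat_lit 164) (nat_lit 7) (nat_lit 10) (nat_lit 5) L126390 (by decide +kernel)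
theorem L126392 : W_45 (nat_lit 7) (nat_lit 0x50002c0012000800000000000000000000000) (nat_lit 0x0) (nat_lit 0x1800080000000600017000b8000000000000000000) := T_45 (nat_lit 75) (nat_lit 92) (nat_lit 7) (nat_lit 7) (nat_lit 4) L126391 (by decide +kernel)
theorem L126393 : W_45 (nat_lit 2) (nat_lit 0x800050002c0012001800008000000000000000000) (nat_lit 0x0) (nat_lit 0x2000100008000000000000000000000000000000000000) := D_45 (nat_lit 164) (nat_lit 147) (nat_lit 181) (nat_lit 7) (nat_lit 10) (nat_lit 5) (nat_lit 7) (nat_lit 10) (nat_lit 6) (by decide +kernel)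
theorem L126394 : W_45 (nat_lit 3) (nat_lit 0x50002c0012001800008000000000000000000) (nat_lit 0x0) (nat_lit 0x2000180008000000020000000000000000000000000000) := T_45 (nat_lit 163) (nat_lit 113) (nat_lit 6) (nat_lit 10) (nat_lit 9) L126393 (by decide +kernel)
theorem L126395 : W_45 (nat_lit 4) (nat_lit 0x50002c0012001800000000000000000000000) (nat_lit 0x0) (nat_lit 0x2000180008000000020000100008000000000000000000) := T_45 (nat_lit 75) (nat_lit 92) (nat_lit 7) (nat_lit 7) (nat_lit 4) L126394 (by decide +kernel)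
theorem L126396 : W_45 (nat_lit 5) (nat_lit 0x50002c0012000800000000000000000000000) (nat_lit 0x0) (nat_lit 0x2000180008000000020001100088000000000000000000) := T_45 (nat_lit 96) (nat_lit 79) (nat_lit 6) (nat_lit 10) (nat_lit 8) L126395 (by decide +kernel)
theorem L126397 : W_45 (nat_lit 2) (nat_lit 0xd0002c0032001c00000000000000000000000) (nat_lit 0x0) (nat_lit 0x44000200000000000000000000000) := D_45 (nat_lit 93) (nat_lit 114) (nat_lit 110) (nat_lit 3) (nat_lit 8) (nat_lit 5) (nat_lit 1) (nat_lit 11) (nat_lit 5) (by decide +kernel)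
theorem L126398 : W_45 (nat_lit 3) (nat_lit 0xd0002c0032001800000000000000000000000) (nat_lit 0x0) (nat_lit 0x44000600020000000000000000000) := T_45 (nat_lit 94) (nat_lit 77) (nat_lit 4) (nat_lit 10) (nat_lit 8) L126397 (by decide +kernel)
theorem L126399 : W_45 (nat_lit 4) (nat_lit 0xd0002c0012001800000000000000000000000) (nat_lit 0x0) (nat_lit 0x80000000000064000600020000000000000000000) := T_45 (nat_lit 113) (nat_lit 163) (nat_lit 6) (nat_lit 10) (nat_lit 9) L126398 (by decide +kernel)
theorem L126400 : W_45 (nat_lit 5) (nat_lit 0x50002c0012001800000000000000000000000) (nat_lit 0x0) (nat_lit 0x180008000000064000600020000000000000000000) := T_45 (nat_lit 147) (nat_lit 164) (nat_lit 7) (nat_lit 10) (nat_lit 5) L126399 (by decide +kernel)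
theorem L126401 : W_45 (nat_lit 6) (nat_lit 0x50002c0012000800000000000000000000000) (nat_lit 0x0) (nat_lit 0x1800080000000640016000a0000000000000000000) := T_45 (nat_lit 96) (nat_lit 79) (nat_lit 6) (nat_lit 10) (nat_lit 8) L126400 (by decide +kernel)
theorem L126402 : W_45 (nat_lit 2) (nat_lit 0xd0002c0012001c00008000000000000000000) (nat_lit 0x0) (nat_lit 0x4000200010000000000000000000) := D_45 (nat_lit 93) (nat_lit 110) (nat_lit 76) (nat_lit 1) (nat_lit 11) (nat_lit 5) (nat_lit 0) (nat_lit 11) (nat_lit 5) (by decide +kernel)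
theorem L126403 : W_45 (nat_lit 3) (nat_lit 0xd0002c0012000c00008000000000000000000) (nat_lit 0x0) (nat_lit 0x4001200090000000000000000000) := T_45 (nat_lit 96) (nat_lit 79) (nat_lit 6) (nat_lit 10) (nat_lit 8) L126402 (by decide +kernel)
theorem L126404 : W_45 (nat_lit 4) (nat_lit 0x50002c0012000c00008000000000000000000) (nat_lit 0x0) (nat_lit 0x100008000000004001200090000000000000000000) := T_45 (nat_lit 147) (nat_lit 164) (nat_lit 7) (nat_lit 10) (nat_lit 5) L126403 (by decide +kernel)
theorem L126405 : W_45 (nat_lit 5) (nat_lit 0x50002c0012000c00000000000000000000000) (nat_lit 0x0) (nat_lit 0x100008000000004001300098000000000000000000) := T_45 (nat_lit 75) (nat_lit 92) (nat_lit 7) (nat_lit 7) (nat_lit 4) L126404 (by decide +kernel)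
theorem L126406 : W_45 (nat_lit 6) (nat_lit 0x50002c0012000800000000000000000000000) (nat_lit 0x0) (nat_lit 0x1000080000000040017000b8000000000000000000) := T_45 (nat_lit 94) (nat_lit 77) (nat_lit 4) (nat_lit 10) (nat_lit 8) L126405 (by decide +kernel)
theorem L126407 : W_45 (nat_lit 2) (nat_lit 0x20001000d8002c0012000f80040000000000000000000) (nat_lit 0x0) (nat_lit 0x2000100008000000000000000000000000000000000000000) := D_45 (nat_lit 176) (nat_lit 159) (nat_lit 193) (nat_lit 5) (nat_lit 7) (nat_lit 6) (nat_lit 5) (nat_lit 7) (nat_lit 7) (by decide +kernel)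
theorem L126408 : W_45 (nat_lit 3) (nat_lit 0x1000d8002c0012000f80040000000000000000000) (nat_lit 0x0) (nat_lit 0x6000300008000000000000000000000000000000000000000) := T_45 (nat_lit 177) (nat_lit 194) (nat_lit 6) (nat_lit 7) (nat_lit 11) L126407 (by decide +kernel)
theorem L126409 : W_45 (nat_lit 4) (nat_lit 0x1000d8002c0012000f00040000000000000000000) (nat_lit 0x0) (nat_lit 0x6000300008000000000000000080004000000000000000000) := T_45 (nat_lit 91) (nat_lit 74) (nat_lit 4) (nat_lit 7) (nat_lit 8) L126408 (by decide +kernel)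
theorem L126410 : W_45 (nat_lit 5) (nat_lit 0xd8002c0012000f00040000000000000000000) (nat_lit 0x0) (nat_lit 0x6000300018000000000004000080004000000000000000000) := T_45 (nat_lit 160) (nat_lit 110) (nat_lit 6) (nat_lit 7) (nat_lit 9) L126409 (by decide +kernel)
theorem L126411 : W_45 (nat_lit 6) (nat_lit 0xd0002c0012000f00040000000000000000000) (nat_lit 0x0) (nat_lit 0x6000300018000800000004000080014000000000000000000) := T_45 (nat_lit 143) (nat_lit 76) (nat_lit 6) (nat_lit 7) (nat_lit 8) L126410 (by decide +kernel)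
theorem L126412 : W_45 (nat_lit 7) (nat_lit 0xd0002c0012000f00000000000000000000000) (nat_lit 0x0) (nat_lit 0x60003000180008000000040000800d4000000000000000000) := T_45 (nat_lit 78) (nat_lit 79) (nat_lit 2) (nat_lit 7) (nat_lit 5) L126411 (by decide +kernel)
theorem L126413 : W_45 (nat_lit 8) (nat_lit 0xd0002c0012000d00000000000000000000000) (nat_lit 0x0) (nat_lit 0x60003000180008000000240002800d4000000000000000000) := T_45 (nat_lit 93) (nat_lit 113) (nat_lit 3) (nat_lit 7) (nat_lit 5) L126412 (by decide +kernel)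
theorem L126414 : W_45 (nat_lit 9) (nat_lit 0x50002c0012000d00000000000000000000000) (nat_lit 0x0) (nat_lit 0x60003001180088000000240002800d4000000000000000000) := T_45 (nat_lit 147) (nat_lit 164) (nat_lit 7) (nat_lit 10) (nat_lit 5) L126413 (by decide +kernel)
theorem L126415 : W_45 (nat_lit 10) (nat_lit 0x50002c0012000c00000000000000000000000) (nat_lit 0x0) (nat_lit 0x60003001180088000000240003800dc000000000000000000) := T_45 (nat_lit 92) (nat_lit 75) (nat_lit 7) (nat_lit 7) (nat_lit 4) L126414 (by decide +kernel)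
theorem L126416 : W_45 (nat_lit 11) (nat_lit 0x50002c0012000800000000000000000000000) (nat_lit 0x0) (nat_lit 0x60003001180088000000240007800fc000000000000000000) := T_45 (nat_lit 94) (nat_lit 77) (nat_lit 4) (nat_lit 10) (nat_lit 8) L126415 (by decide +kernel)
theorem L126417 : W_45 (nat_lit 2) (nat_lit 0x50002c0012001e00000000000000000000000) (nat_lit 0x0) (nat_lit 0x100018000000000000000000) := D_45 (nat_lit 75) (nat_lit 76) (nat_lit 92) (nat_lit 0) (nat_lit 11) (nat_lit 5) (nat_lit 7) (nat_lit 7) (nat_lit 4) (by decide +kernel)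
theorem L126418 : W_45 (nat_lit 3) (nat_lit 0x50002c0012001c00000000000000000000000) (nat_lit 0x0) (nat_lit 0x4000300018000000000000000000) := T_45 (nat_lit 93) (nat_lit 110) (nat_lit 1) (nat_lit 11) (nat_lit 5) L126417 (by decide +kernel)
theorem L126419 : W_45 (nat_lit 4) (nat_lit 0x50002c0012001800000000000000000000000) (nat_lit 0x0) (nat_lit 0x4000700038000000000000000000) := T_45 (nat_lit 94) (nat_lit 77) (nat_lit 4) (nat_lit 10) (nat_lit 8) L126418 (by decide +kernel)
theorem L126420 : W_45 (nat_lit 5) (nat_lit 0x50002c0012000800000000000000000000000) (nat_lit 0x0) (nat_lit 0x40017000b8000000000000000000) := T_45 (nat_lit 96) (nat_lit 79) (nat_lit 6) (nat_lit 10) (nat_lit 8) L126419 (by decide +kernel)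
theorem L126421 : W_45 (nat_lit 2) (nat_lit 0xd0002c0016000f00000000000000000000000) (nat_lit 0x0) (nat_lit 0x10000800000000000000010000000000000000000) := D_45 (nat_lit 143) (nat_lit 76) (nat_lit 160) (nat_lit 6) (nat_lit 7) (nat_lit 8) (nat_lit 6) (nat_lit 7) (nat_lit 9) (by decide +kernel)
theorem L126422 : W_45 (nat_lit 3) (nat_lit 0xd0002c0012000f00000000000000000000000) (nat_lit 0x0) (nat_lit 0x10000800000004001000010000000000000000000) := T_45 (nat_lit 110) (nat_lit 96) (nat_lit 1) (nat_lit 11) (nat_lit 5) L126421 (by decide +kernel)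
theorem L126423 : W_45 (nat_lit 4) (nat_lit 0xd0002c0012000d00000000000000000000000) (nat_lit 0x0) (nat_lit 0x10000800000024001200010000000000000000000) := T_45 (nat_lit 93) (nat_lit 113) (nat_lit 3) (nat_lit 7) (nat_lit 5) L126422 (by decide +kernel)
theorem L126424 : W_45 (nat_lit 5) (nat_lit 0xd0002c0012000c00000000000000000000000) (nat_lit 0x0) (nat_lit 0x10000800000024001300018000000000000000000) := T_45 (nat_lit 92) (nat_lit 75) (nat_lit 7) (nat_lit 7) (nat_lit 4) L126423 (by decide +kernel)
theorem L126425 : W_45 (nat_lit 6) (nat_lit 0xd0002c0012000800000000000000000000000) (nat_lit 0x0) (nat_lit 0x10000800000024001700038000000000000000000) := T_45 (nat_lit 94) (nat_lit 77) (nat_lit 4) (nat_lit 10) (nat_lit 8) L126424 (by decide +kernel)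
theorem L126426 : W_45 (nat_lit 7) (nat_lit 0x50002c0012000800000000000000000000000) (nat_lit 0x0) (nat_lit 0x110008800000024001700038000000000000000000) := T_45 (nat_lit 147) (nat_lit 164) (nat_lit 7) (nat_lit 10) (nat_lit 5) L126425 (by decide +kernel)
theorem L126427 : W_45 (nat_lit 12) (nat_lit 0x50002c0012000000000000000000000000000) (nat_lit 0x0) (nat_lit 0x6002300198008800000064001f800fc000000000000000000) := Q_45 (nat_lit 95) (C_45 L126392 (C_45 L126396 (C_45 L126401 (C_45 L126406 (C_45 L126416 (C_45 L126420 (C_45 L126426 N_45))))))) (by decide +kernel)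
theorem L126428 : W_45 (nat_lit 3) (nat_lit 0xd0002c0012001800008000000000000000000) (nat_lit 0x0) (nat_lit 0x4000600030000000000000000000) := T_45 (nat_lit 94) (nat_lit 77) (nat_lit 4) (nat_lit 10) (nat_lit 8) L126402 (by decide +kernel)
theorem L126429 : W_45 (nat_lit 4) (nat_lit 0xd0002c0012000800008000000000000000000) (nat_lit 0x0) (nat_lit 0x40016000b0000000000000000000) := T_45 (nat_lit 96) (nat_lit 79) (nat_lit 6) (nat_lit 10) (nat_lit 8) L126428 (by decide +kernel)
theorem L126430 : W_45 (nat_lit 5) (nat_lit 0xd0002c0012000000008000000000000000000) (nat_lit 0x0) (nat_lit 0x100000000000004001e000b0000000000000000000) := T_45 (nat_lit 95) (nat_lit 164) (nat_lit 7) (nat_lit 10) (nat_lit 5) L126429 (by decide +kernel)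
theorem L126431 : W_45 (nat_lit 6) (nat_lit 0x50002c0012000000008000000000000000000) (nat_lit 0x0) (nat_lit 0x100008000100004001e000b0000000000000000000) := T_45 (nat_lit 147) (nat_lit 128) (nat_lit 3) (nat_lit 7) (nat_lit 7) L126430 (by decide +kernel)
theorem L126432 : W_45 (nat_lit 7) (nat_lit 0x50002c0012000000000000000000000000000) (nat_lit 0x0) (nat_lit 0x100008000100004001f000b8000000000000000000) := T_45 (nat_lit 75) (nat_lit 92) (nat_lit 7) (nat_lit 7) (nat_lit 4) L126431 (by decide +kernel)
theorem L126433 : W_45 (nat_lit 2) (nat_lit 0x28000800050002c0032000000008000000000000000000) (nat_lit 0x0) (nat_lit 0x50001000000000000000000000000000000000000000000000) := D_45 (nat_lit 180) (nat_lit 196) (nat_lit 198) (nat_lit 5) (nat_lit 10) (nat_lit 7) (nat_lit 7) (nat_lit 10) (nat_lit 7) (by decide +kernel)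
theorem L126434 : W_45 (nat_lit 3) (nat_lit 0x8000800050002c0032000000008000000000000000000) (nat_lit 0x0) (nat_lit 0x50003000100000000000000000000000000000000000000000) := T_45 (nat_lit 181) (nat_lit 164) (nat_lit 7) (nat_lit 10) (nat_lit 6) L126433 (by decide +kernel)
theorem L126435 : W_45 (nat_lit 4) (nat_lit 0x800050002c0032000000008000000000000000000) (nat_lit 0x0) (nat_lit 0x50003800140000000000000000000000000000000000000000) := T_45 (nat_lit 179) (nat_lit 162) (nat_lit 5) (nat_lit 10) (nat_lit 6) L126434 (by decide +kernel)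
theorem L126436 : W_45 (nat_lit 5) (nat_lit 0x50002c0032000000008000000000000000000) (nat_lit 0x0) (nat_lit 0x500038001c0000000000000001000000000000000000000000) := T_45 (nat_lit 163) (nat_lit 96) (nat_lit 6) (nat_lit 10) (nat_lit 9) L126435 (by decide +kernel)
theorem L126437 : W_45 (nat_lit 6) (nat_lit 0x50002c0032000000000000000000000000000) (nat_lit 0x0) (nat_lit 0x500038001c0000000000000001100008000000000000000000) := T_45 (nat_lit 75) (nat_lit 92) (nat_lit 7) (nat_lit 7) (nat_lit 4) L126436 (by decide +kernel)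
theorem L126438 : W_45 (nat_lit 7) (nat_lit 0x50002c0012000000000000000000000000000) (nat_lit 0x0) (nat_lit 0x500038001c0000000100020001100008000000000000000000) := T_45 (nat_lit 113) (nat_lit 128) (nat_lit 2) (nat_lit 7) (nat_lit 7) L126437 (by decide +kernel)
theorem L126439 : W_45 (nat_lit 13) (nat_lit 0x10002c0012000000000000000000000000000) (nat_lit 0x0) (nat_lit 0x56003b001d800c800100064001f800fc000000000000000000) := Q_45 (nat_lit 146) (C_45 L126386 (C_45 L126427 (C_45 L126432 (C_45 L126438 N_45)))) (by decide +kernel)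
theorem L126440 : W_45 (nat_lit 16) (nat_lit 0x10000c0012000000000000000000000000000) (nat_lit 0x0) (nat_lit 0x56003f001d807c803f001e400ffc07fc03ff003c0018000000) := Q_45 (nat_lit 129) (C_45 L126062 (C_45 L126063 (C_45 L126220 (C_45 L126223 (C_45 L126382 (C_45 L126385 (C_45 L126439 N_45))))))) (by decide +kernel)
theorem L126441 : W_45 (nat_lit 4) (nat_lit 0x10001c0012000000008000000000000000000) (nat_lit 0x0) (nat_lit 0x1c800600020000000000000000000000000000) := T_45 (nat_lit 129) (nat_lit 113) (nat_lit 2) (nat_lit 7) (nat_lit 7) L126221 (by decide +kernel)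
theorem L126442 : W_45 (nat_lit 5) (nat_lit 0x10001c0012000000000000000000000000000) (nat_lit 0x0) (nat_lit 0x1c800600020000100008000000000000000000) := T_45 (nat_lit 75) (nat_lit 92) (nat_lit 7) (nat_lit 7) (nat_lit 4) L126441 (by decide +kernel)
theorem L126443 : W_45 (nat_lit 2) (nat_lit 0x10001c003a000500000000000000000000000) (nat_lit 0x0) (nat_lit 0xa80000000000000000000000) := D_45 (nat_lit 93) (nat_lit 91) (nat_lit 95) (nat_lit 3) (nat_lit 6) (nat_lit 5) (nat_lit 3) (nat_lit 7) (nat_lit 5) (by decide +kernel)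
theorem L126444 : W_45 (nat_lit 3) (nat_lit 0x10001c001a000500000000000000000000000) (nat_lit 0x0) (nat_lit 0x60000a80000000000000000000000) := T_45 (nat_lit 113) (nat_lit 114) (nat_lit 1) (nat_lit 12) (nat_lit 6) L126443 (by decide +kernel)
theorem L126445 : W_45 (nat_lit 4) (nat_lit 0x10001c001a000100000000000000000000000) (nat_lit 0x0) (nat_lit 0x60000e80020000000000000000000) := T_45 (nat_lit 94) (nat_lit 77) (nat_lit 5) (nat_lit 9) (nat_lit 4) L126444 (by decide +kernel)
theorem L126446 : W_45 (nat_lit 5) (nat_lit 0x10001c001a000000000000000000000000000) (nat_lit 0x0) (nat_lit 0x60000f80028000000000000000000) := T_45 (nat_lit 92) (nat_lit 75) (nat_lit 7) (nat_lit 7) (nat_lit 4) L126445 (by decide +kernel)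
theorem L126447 : W_45 (nat_lit 6) (nat_lit 0x10001c0012000000000000000000000000000) (nat_lit 0x0) (nat_lit 0x20068000f80028000000000000000000) := T_45 (nat_lit 111) (nat_lit 125) (nat_lit 2) (nat_lit 6) (nat_lit 7) L126446 (by decide +kernel)
theorem L126448 : W_45 (nat_lit 2) (nat_lit 0x18003c001a000580000000000000000000000) (nat_lit 0x0) (nat_lit 0x8000c000000000000000000000000000000000000) := D_45 (nat_lit 146) (nat_lit 147) (nat_lit 163) (nat_lit 3) (nat_lit 7) (nat_lit 7) (nat_lit 4) (nat_lit 10) (nat_lit 9) (by decide +kernel)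
theorem L126449 : W_45 (nat_lit 3) (nat_lit 0x18001c001a000580000000000000000000000) (nat_lit 0x0) (nat_lit 0x8000c000600000000000000000000000000000000) := T_45 (nat_lit 129) (nat_lit 130) (nat_lit 1) (nat_lit 11) (nat_lit 7) L126448 (by decide +kernel)
theorem L126450 : W_45 (nat_lit 4) (nat_lit 0x10001c001a000580000000000000000000000) (nat_lit 0x0) (nat_lit 0x8000c800600000000000004000000000000000000) := T_45 (nat_lit 143) (nat_lit 74) (nat_lit 4) (nat_lit 7) (nat_lit 8) L126449 (by decide +kernel)
theorem L126451 : W_45 (nat_lit 5) (nat_lit 0x10001c001a000500000000000000000000000) (nat_lit 0x0) (nat_lit 0x8000c800600000000280004000000000000000000) := T_45 (nat_lit 91) (nat_lit 93) (nat_lit 3) (nat_lit 6) (nat_lit 5) L126450 (by decide +kernel)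
theorem L126452 : W_45 (nat_lit 6) (nat_lit 0x10001c001a000100000000000000000000000) (nat_lit 0x0) (nat_lit 0x8000c800600000000680024000000000000000000) := T_45 (nat_lit 94) (nat_lit 77) (nat_lit 5) (nat_lit 9) (nat_lit 4) L126451 (by decide +kernel)
theorem L126453 : W_45 (nat_lit 7) (nat_lit 0x10001c0012000100000000000000000000000) (nat_lit 0x0) (nat_lit 0x8000c800620008000680024000000000000000000) := T_45 (nat_lit 111) (nat_lit 125) (nat_lit 2) (nat_lit 6) (nat_lit 7) L126452 (by decide +kernel)
theorem L126454 : W_45 (nat_lit 8) (nat_lit 0x10001c0012000000000000000000000000000) (nat_lit 0x0) (nat_lit 0x8000c80062000800078002c000000000000000000) := T_45 (nat_lit 92) (nat_lit 75) (nat_lit 7) (nat_lit 7) (nat_lit 4) L126453 (by decide +kernel)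
theorem L126455 : W_45 (nat_lit 9) (nat_lit 0x10000c0012000000000000000000000000000) (nat_lit 0x0) (nat_lit 0x8001c800720068000f8002c000000000000000000) := Q_45 (nat_lit 128) (C_45 L125736 (C_45 L126442 (C_45 L126447 (C_45 L126454 N_45)))) (by decide +kernel)
theorem L126456 : W_45 (nat_lit 4) (nat_lit 0x10000c0012000000000000000000000000000) (nat_lit 0x0) (nat_lit 0x32006c000000000000000000000000000) := Q_45 (nat_lit 111) (C_45 L126026 (C_45 L126022 (C_45 L126023 (C_45 L126025 N_45)))) (by decide +kernel)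
theorem L126457 : W_45 (nat_lit 2) (nat_lit 0x10000c0016000000000000000000000000000) (nat_lit 0x0) (nat_lit 0x20028000000000000000000000000000) := D_45 (nat_lit 111) (nat_lit 125) (nat_lit 113) (nat_lit 1) (nat_lit 10) (nat_lit 6) (nat_lit 1) (nat_lit 11) (nat_lit 6) (by decide +kernel)
theorem L126458 : W_45 (nat_lit 2) (nat_lit 0x10000c0016000100000000000000000000000) (nat_lit 0x0) (nat_lit 0x20008000080000000000000000000000) := D_45 (nat_lit 111) (nat_lit 125) (nat_lit 91) (nat_lit 1) (nat_lit 10) (nat_lit 6) (nat_lit 0) (nat_lit 10) (nat_lit 6) (by decide +kernel)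
theorem L126459 : W_45 (nat_lit 3) (nat_lit 0x10000c0016000000000000000000000000000) (nat_lit 0x0) (nat_lit 0x20008000180008000000000000000000) := T_45 (nat_lit 92) (nat_lit 75) (nat_lit 7) (nat_lit 7) (nat_lit 4) L126458 (by decide +kernel)
theorem L126460 : W_45 (nat_lit 6) (nat_lit 0x10000c0012000000000000000000000000000) (nat_lit 0x0) (nat_lit 0x80002002c001f80038000800000000000000) := Q_45 (nat_lit 110) (C_45 L126457 (C_45 L126060 (C_45 L126459 N_45))) (by decide +kernel)
theorem L126461 : W_45 (nat_lit 2) (nat_lit 0x10000c001a000380000000000000000000000) (nat_lit 0x0) (nat_lit 0x800000000000000014000000000000000000) := D_45 (nat_lit 143) (nat_lit 74) (nat_lit 76) (nat_lit 4) (nat_lit 7) (nat_lit 8) (nat_lit 6) (nat_lit 7) (nat_lit 8) (by decide +kernel)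
theorem L126462 : W_45 (nat_lit 3) (nat_lit 0x10000c001a000180000000000000000000000) (nat_lit 0x0) (nat_lit 0x800000000000600014000000000000000000) := T_45 (nat_lit 93) (nat_lit 94) (nat_lit 3) (nat_lit 6) (nat_lit 5) L126461 (by decide +kernel)
theorem L126463 : W_45 (nat_lit 4) (nat_lit 0x10000c001a000100000000000000000000000) (nat_lit 0x0) (nat_lit 0x800000004000680014000000000000000000) := T_45 (nat_lit 91) (nat_lit 110) (nat_lit 0) (nat_lit 10) (nat_lit 6) L126462 (by decide +kernel)
theorem L126464 : W_45 (nat_lit 5) (nat_lit 0x10000c001a000000000000000000000000000) (nat_lit 0x0) (nat_lit 0x80000000400078001c000000000000000000) := T_45 (nat_lit 92) (nat_lit 75) (nat_lit 7) (nat_lit 7) (nat_lit 4) L126463 (by decide +kernel)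
theorem L126465 : W_45 (nat_lit 7) (nat_lit 0x10000c001a000100000000000000000000000) (nat_lit 0x0) (nat_lit 0x8000c800720000000680024000000000000000000) := T_45 (nat_lit 128) (nat_lit 125) (nat_lit 2) (nat_lit 6) (nat_lit 7) L126452 (by decide +kernel)
theorem L126466 : W_45 (nat_lit 8) (nat_lit 0x10000c001a000000000000000000000000000) (nat_lit 0x0) (nat_lit 0x8000c80072000000078002c000000000000000000) := T_45 (nat_lit 92) (nat_lit 75) (nat_lit 7) (nat_lit 7) (nat_lit 4) L126465 (by decide +kernel)
theorem L126467 : W_45 (nat_lit 9) (nat_lit 0x10000c0012000000000000000000000000000) (nat_lit 0x0) (nat_lit 0x8000c80072000c00078003c000000000000000000) := Q_45 (nat_lit 111) (C_45 L126026 (C_45 L126464 (C_45 L126466 N_45))) (by decide +kernel)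
theorem L126468 : W_45 (nat_lit 17) (nat_lit 0x10000c0002000000000000000000000000000) (nat_lit 0x0) (nat_lit 0x56003f001d807c803f201fc00ffc07fc03ff003c0018000000) := Q_45 (nat_lit 112) (C_45 L126440 (C_45 L126455 (C_45 L126456 (C_45 L126460 (C_45 L126467 N_45))))) (by decide +kernel)
theorem L126469 : W_45 (nat_lit 2) (nat_lit 0x18001c0003400780000000000000000000000) (nat_lit 0x0) (nat_lit 0x8000000060000000000000000000) := D_45 (nat_lit 77) (nat_lit 78) (nat_lit 111) (nat_lit 2) (nat_lit 6) (nat_lit 5) (nat_lit 5) (nat_lit 9) (nat_lit 4) (by decide +kernel)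
theorem L126470 : W_45 (nat_lit 3) (nat_lit 0x18001c0003400380000000000000000000000) (nat_lit 0x0) (nat_lit 0x8000c00060000000000000000000) := T_45 (nat_lit 94) (nat_lit 95) (nat_lit 1) (nat_lit 10) (nat_lit 5) L126469 (by decide +kernel)
theorem L126471 : W_45 (nat_lit 4) (nat_lit 0x18001c0003400180000000000000000000000) (nat_lit 0x0) (nat_lit 0x8000e00070000000000000000000) := T_45 (nat_lit 93) (nat_lit 76) (nat_lit 6) (nat_lit 7) (nat_lit 8) L126470 (by decide +kernel)
theorem L126472 : W_45 (nat_lit 5) (nat_lit 0x18000c0003400180000000000000000000000) (nat_lit 0x0) (nat_lit 0x300008000e00070000000000000000000) := T_45 (nat_lit 128) (nat_lit 129) (nat_lit 0) (nat_lit 10) (nat_lit 7) L126471 (by decide +kernel)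
theorem L126473 : W_45 (nat_lit 6) (nat_lit 0x10000c0003400180000000000000000000000) (nat_lit 0x0) (nat_lit 0x10000800300008000e00070000000000000000000) := T_45 (nat_lit 143) (nat_lit 160) (nat_lit 4) (nat_lit 7) (nat_lit 9) L126472 (by decide +kernel)
theorem L126474 : W_45 (nat_lit 7) (nat_lit 0x10000c0003000180000000000000000000000) (nat_lit 0x0) (nat_lit 0x10000800300008c00e00070000000000000000000) := T_45 (nat_lit 106) (nat_lit 107) (nat_lit 3) (nat_lit 4) (nat_lit 6) L126473 (by decide +kernel)
theorem L126475 : W_45 (nat_lit 2) (nat_lit 0x10000c0003000180000000000000000000000) (nat_lit 0x0) (nat_lit 0x800000000000000004000200000000000000) := D_45 (nat_lit 74) (nat_lit 57) (nat_lit 143) (nat_lit 7) (nat_lit 6) (nat_lit 3) (nat_lit 4) (nat_lit 7) (nat_lit 8) (by decide +kernel)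
theorem L126476 : W_45 (nat_lit 2) (nat_lit 0x10002c00038003d0002000200000000000000) (nat_lit 0x0) (nat_lit 0x100018000000000) := D_45 (nat_lit 56) (nat_lit 40) (nat_lit 39) (nat_lit 6) (nat_lit 5) (nat_lit 6) (nat_lit 7) (nat_lit 5) (nat_lit 2) (by decide +kernel)
theorem L126477 : W_45 (nat_lit 3) (nat_lit 0x10002c00038003d0000000200000000000000) (nat_lit 0x0) (nat_lit 0x3000100018000000000) := T_45 (nat_lit 73) (nat_lit 72) (nat_lit 0) (nat_lit 8) (nat_lit 5) L126476 (by decide +kernel)
theorem L126478 : W_45 (nat_lit 4) (nat_lit 0x10002c00038001d0000000200000000000000) (nat_lit 0x0) (nat_lit 0x600003000100018000000000) := T_45 (nat_lit 93) (nat_lit 94) (nat_lit 1) (nat_lit 9) (nat_lit 5) L126477 (by decide +kernel)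
theorem L126479 : W_45 (nat_lit 5) (nat_lit 0x10000c00038001d0000000200000000000000) (nat_lit 0x0) (nat_lit 0x300000000600003000100018000000000) := T_45 (nat_lit 129) (nat_lit 128) (nat_lit 0) (nat_lit 10) (nat_lit 7) L126478 (by decide +kernel)
theorem L126480 : W_45 (nat_lit 6) (nat_lit 0x10000c00030001d0000000200000000000000) (nat_lit 0x0) (nat_lit 0x300000c00600003000100018000000000) := T_45 (nat_lit 107) (nat_lit 106) (nat_lit 3) (nat_lit 4) (nat_lit 6) L126479 (by decide +kernel)
theorem L126481 : W_45 (nat_lit 7) (nat_lit 0x10000c00030001c0000000200000000000000) (nat_lit 0x0) (nat_lit 0x300000c00630003000100018000000000) := T_45 (nat_lit 88) (nat_lit 89) (nat_lit 3) (nat_lit 3) (nat_lit 5) L126480 (by decide +kernel)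
theorem L126482 : W_45 (nat_lit 8) (nat_lit 0x10000c00030001c0000000000000000000000) (nat_lit 0x0) (nat_lit 0x300000c00630007000300018000000000) := T_45 (nat_lit 57) (nat_lit 74) (nat_lit 7) (nat_lit 6) (nat_lit 3) L126481 (by decide +kernel)
theorem L126483 : W_45 (nat_lit 2) (nat_lit 0x10002c00030001e0000000200000000000000) (nat_lit 0x0) (nat_lit 0xe00000000000000000000000000) := D_45 (nat_lit 106) (nat_lit 107) (nat_lit 105) (nat_lit 3) (nat_lit 4) (nat_lit 6) (nat_lit 1) (nat_lit 7) (nat_lit 5) (by decide +kernel)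
theorem L126484 : W_45 (nat_lit 3) (nat_lit 0x10002c00030001c0000000200000000000000) (nat_lit 0x0) (nat_lit 0xe00030000000000000000000000) := T_45 (nat_lit 89) (nat_lit 88) (nat_lit 3) (nat_lit 3) (nat_lit 5) L126483 (by decide +kernel)
theorem L126485 : W_45 (nat_lit 4) (nat_lit 0x10002c00030001c0000000000000000000000) (nat_lit 0x0) (nat_lit 0xe00030004000200000000000000) := T_45 (nat_lit 57) (nat_lit 74) (nat_lit 7) (nat_lit 6) (nat_lit 3) L126484 (by decide +kernel)
theorem L126486 : W_45 (nat_lit 5) (nat_lit 0x10000c00030001c0000000000000000000000) (nat_lit 0x0) (nat_lit 0x300000e00030004000200000000000000) := T_45 (nat_lit 129) (nat_lit 128) (nat_lit 0) (nat_lit 10) (nat_lit 7) L126485 (by decide +kernel)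
theorem L126487 : W_45 (nat_lit 2) (nat_lit 0x10000c00034001c0000000000000000000000) (nat_lit 0x0) (nat_lit 0x200030000000000000000000000) := D_45 (nat_lit 89) (nat_lit 105) (nat_lit 88) (nat_lit 1) (nat_lit 7) (nat_lit 5) (nat_lit 3) (nat_lit 3) (nat_lit 5) (by decide +kernel)
theorem L126488 : W_45 (nat_lit 3) (nat_lit 0x10000c00030001c0000000000000000000000) (nat_lit 0x0) (nat_lit 0xe00030000000000000000000000) := T_45 (nat_lit 106) (nat_lit 107) (nat_lit 3) (nat_lit 4) (nat_lit 6) L126487 (by decide +kernel)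
theorem L126489 : W_45 (nat_lit 2) (nat_lit 0x10002c00034007e0001000200000000000000) (nat_lit 0x0) (nat_lit 0x70000000000000000000) := D_45 (nat_lit 77) (nat_lit 76) (nat_lit 78) (nat_lit 2) (nat_lit 5) (nat_lit 5) (nat_lit 2) (nat_lit 6) (nat_lit 5) (by decide +kernel)
theorem L126490 : W_45 (nat_lit 3) (nat_lit 0x10002c00034003e0001000200000000000000) (nat_lit 0x0) (nat_lit 0xc00070000000000000000000) := T_45 (nat_lit 94) (nat_lit 95) (nat_lit 1) (nat_lit 10) (nat_lit 5) L126489 (by decide +kernel)
theorem L126491 : W_45 (nat_lit 4) (nat_lit 0x10002c00034001e0001000200000000000000) (nat_lit 0x0) (nat_lit 0xe00072000000000000000000) := T_45 (nat_lit 93) (nat_lit 73) (nat_lit 0) (nat_lit 8) (nat_lit 5) L126490 (by decide +kernel)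
theorem L126492 : W_45 (nat_lit 5) (nat_lit 0x10002c00034001e0000000200000000000000) (nat_lit 0x0) (nat_lit 0xe00073800000000000000000) := T_45 (nat_lit 72) (nat_lit 71) (nat_lit 0) (nat_lit 7) (nat_lit 5) L126491 (by decide +kernel)
theorem L126493 : W_45 (nat_lit 6) (nat_lit 0x10002c00030001e0000000200000000000000) (nat_lit 0x0) (nat_lit 0x600e00073800000000000000000) := T_45 (nat_lit 106) (nat_lit 105) (nat_lit 1) (nat_lit 7) (nat_lit 5) L126492 (by decide +kernel)
theorem L126494 : W_45 (nat_lit 7) (nat_lit 0x10002c00030001c0000000200000000000000) (nat_lit 0x0) (nat_lit 0x600e30073800000000000000000) := T_45 (nat_lit 89) (nat_lit 88) (nat_lit 3) (nat_lit 3) (nat_lit 5) L126493 (by decide +kernel)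
theorem L126495 : W_45 (nat_lit 8) (nat_lit 0x10000c00030001c0000000200000000000000) (nat_lit 0x0) (nat_lit 0x300000600e30073800000000000000000) := T_45 (nat_lit 129) (nat_lit 128) (nat_lit 0) (nat_lit 10) (nat_lit 7) L126494 (by decide +kernel)
theorem L126496 : W_45 (nat_lit 9) (nat_lit 0x10000c00030001c0000000000000000000000) (nat_lit 0x0) (nat_lit 0x300000600e30077800200000000000000) := T_45 (nat_lit 57) (nat_lit 74) (nat_lit 7) (nat_lit 6) (nat_lit 3) L126495 (by decide +kernel)
theorem L126497 : W_45 (nat_lit 2) (nat_lit 0x10002c00030003e0001000200000000000000) (nat_lit 0x0) (nat_lit 0x800c00000000000000000000000) := D_45 (nat_lit 94) (nat_lit 107) (nat_lit 95) (nat_lit 1) (nat_lit 9) (nat_lit 5) (nat_lit 1) (nat_lit 10) (nat_lit 5) (by decide +kernel)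
theorem L126498 : W_45 (nat_lit 3) (nat_lit 0x10002c00030001e0001000200000000000000) (nat_lit 0x0) (nat_lit 0x800e00002000000000000000000) := T_45 (nat_lit 93) (nat_lit 73) (nat_lit 0) (nat_lit 8) (nat_lit 5) L126497 (by decide +kernel)
theorem L126499 : W_45 (nat_lit 4) (nat_lit 0x10000c00030001e0001000200000000000000) (nat_lit 0x0) (nat_lit 0x300000800e00002000000000000000000) := T_45 (nat_lit 129) (nat_lit 128) (nat_lit 0) (nat_lit 10) (nat_lit 7) L126498 (by decide +kernel)
theorem L126500 : W_45 (nat_lit 5) (nat_lit 0x10000c00030001e0000000200000000000000) (nat_lit 0x0) (nat_lit 0x300000800e00003800000000000000000) := T_45 (nat_lit 72) (nat_lit 71) (nat_lit 0) (nat_lit 7) (nat_lit 5) L126499 (by decide +kernel)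
theorem L126501 : W_45 (nat_lit 6) (nat_lit 0x10000c00030001e0000000000000000000000) (nat_lit 0x0) (nat_lit 0x300000800e00007800200000000000000) := T_45 (nat_lit 57) (nat_lit 74) (nat_lit 7) (nat_lit 6) (nat_lit 3) L126500 (by decide +kernel)
theorem L126502 : W_45 (nat_lit 7) (nat_lit 0x10000c00030001c0000000000000000000000) (nat_lit 0x0) (nat_lit 0x300000800e30007800200000000000000) := T_45 (nat_lit 89) (nat_lit 88) (nat_lit 3) (nat_lit 3) (nat_lit 5) L126501 (by decide +kernel)
theorem L126503 : W_45 (nat_lit 2) (nat_lit 0x10002c00038003c0002000200000000000000) (nat_lit 0x0) (nat_lit 0x100018000000000) := D_45 (nat_lit 56) (nat_lit 40) (nat_lit 39) (nat_lit 6) (nat_lit 5) (nat_lit 6) (nat_lit 7) (nat_lit 5) (nat_lit 2) (by decide +kernel)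
theorem L126504 : W_45 (nat_lit 3) (nat_lit 0x10002c00038003c0000000200000000000000) (nat_lit 0x0) (nat_lit 0x3000100018000000000) := T_45 (nat_lit 73) (nat_lit 72) (nat_lit 0) (nat_lit 8) (nat_lit 5) L126503 (by decide +kernel)
theorem L126505 : W_45 (nat_lit 4) (nat_lit 0x10002c00038001c0000000200000000000000) (nat_lit 0x0) (nat_lit 0x600003000100018000000000) := T_45 (nat_lit 93) (nat_lit 94) (nat_lit 1) (nat_lit 9) (nat_lit 5) L126504 (by decide +kernel)
theorem L126506 : W_45 (nat_lit 5) (nat_lit 0x10000c00038001c0000000200000000000000) (nat_lit 0x0) (nat_lit 0x300000000600003000100018000000000) := T_45 (nat_lit 129) (nat_lit 128) (nat_lit 0) (nat_lit 10) (nat_lit 7) L126505 (by decide +kernel)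
theorem L126507 : W_45 (nat_lit 6) (nat_lit 0x10000c00030001c0000000200000000000000) (nat_lit 0x0) (nat_lit 0x300000c00600003000100018000000000) := T_45 (nat_lit 107) (nat_lit 106) (nat_lit 3) (nat_lit 4) (nat_lit 6) L126506 (by decide +kernel)
theorem L126508 : W_45 (nat_lit 7) (nat_lit 0x10000c00030001c0000000000000000000000) (nat_lit 0x0) (nat_lit 0x300000c00600007000300018000000000) := T_45 (nat_lit 57) (nat_lit 74) (nat_lit 7) (nat_lit 6) (nat_lit 3) L126507 (by decide +kernel)
theorem L126509 : W_45 (nat_lit 10) (nat_lit 0x10000c0003000180000000000000000000000) (nat_lit 0x0) (nat_lit 0x300000e00e70077800300018000000000) := Q_45 (nat_lit 90) (C_45 L126482 (C_45 L126486 (C_45 L126488 (C_45 L126496 (C_45 L126502 (C_45 L126508 N_45)))))) (by decide +kernel)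
theorem L126510 : W_45 (nat_lit 11) (nat_lit 0x10000c0003000100000000000000000000000) (nat_lit 0x0) (nat_lit 0x10000800300008e00ef0077800300018000000000) := Q_45 (nat_lit 91) (C_45 L126474 (C_45 L126475 (C_45 L126509 N_45))) (by decide +kernel)
theorem L126511 : W_45 (nat_lit 12) (nat_lit 0x10000c0003000000000000000000000000000) (nat_lit 0x0) (nat_lit 0x10000800300008e00ff007f800300018000000000) := T_45 (nat_lit 92) (nat_lit 75) (nat_lit 7) (nat_lit 7) (nat_lit 4) L126510 (by decide +kernel)
theorem L126512 : W_45 (nat_lit 2) (nat_lit 0x18000c0003800180000000000000000000000) (nat_lit 0x0) (nat_lit 0x600010000000000000000000) := D_45 (nat_lit 93) (nat_lit 76) (nat_lit 94) (nat_lit 6) (nat_lit 7) (nat_lit 8) (nat_lit 1) (nat_lit 9) (nat_lit 5) (by decide +kernel)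
theorem L126513 : W_45 (nat_lit 3) (nat_lit 0x18000c0003000180000000000000000000000) (nat_lit 0x0) (nat_lit 0xc00600010000000000000000000) := T_45 (nat_lit 107) (nat_lit 106) (nat_lit 3) (nat_lit 4) (nat_lit 6) L126512 (by decide +kernel)
theorem L126514 : W_45 (nat_lit 4) (nat_lit 0x18000c0003000080000000000000000000000) (nat_lit 0x0) (nat_lit 0xc00700018000000000000000000) := T_45 (nat_lit 92) (nat_lit 75) (nat_lit 7) (nat_lit 7) (nat_lit 4) L126513 (by decide +kernel)
theorem L126515 : W_45 (nat_lit 5) (nat_lit 0x10000c0003000080000000000000000000000) (nat_lit 0x0) (nat_lit 0x10000800000000c00700018000000000000000000) := T_45 (nat_lit 143) (nat_lit 160) (nat_lit 4) (nat_lit 7) (nat_lit 9) L126514 (by decide +kernel)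
theorem L126516 : W_45 (nat_lit 8) (nat_lit 0x10000c0003000000000000000000000000000) (nat_lit 0x0) (nat_lit 0x10000a0003c000e0078001c000600000000000000) := Q_45 (nat_lit 91) (C_45 L125671 (C_45 L125571 (C_45 L123206 (C_45 L126515 N_45)))) (by decide +kernel)
theorem L126517 : W_45 (nat_lit 2) (nat_lit 0x11002f80034000a000e000000000000000000) (nat_lit 0x0) (nat_lit 0x10001800000000000000000) := D_45 (nat_lit 88) (nat_lit 71) (nat_lit 72) (nat_lit 4) (nat_lit 4) (nat_lit 8) (nat_lit 1) (nat_lit 7) (nat_lit 4) (by decide +kernel)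
theorem L126518 : W_45 (nat_lit 3) (nat_lit 0x11002f800340008000e000000000000000000) (nat_lit 0x0) (nat_lit 0x70001800000000000000000) := T_45 (nat_lit 89) (nat_lit 90) (nat_lit 6) (nat_lit 4) (nat_lit 8) L126517 (by decide +kernel)
theorem L126519 : W_45 (nat_lit 4) (nat_lit 0x10002f800340008000e000000000000000000) (nat_lit 0x0) (nat_lit 0x180000000000070001800000000000000000) := T_45 (nat_lit 140) (nat_lit 139) (nat_lit 1) (nat_lit 7) (nat_lit 7) L126518 (by decide +kernel)
theorem L126520 : W_45 (nat_lit 5) (nat_lit 0x10002f800300008000e000000000000000000) (nat_lit 0x0) (nat_lit 0x180000000600070001800000000000000000) := T_45 (nat_lit 106) (nat_lit 105) (nat_lit 0) (nat_lit 7) (nat_lit 7) L126519 (by decide +kernel)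
theorem L126521 : W_45 (nat_lit 6) (nat_lit 0x10002f800300008000c000000000000000000) (nat_lit 0x0) (nat_lit 0x180000000600070003800100000000000000) := T_45 (nat_lit 73) (nat_lit 56) (nat_lit 4) (nat_lit 6) (nat_lit 7) L126520 (by decide +kernel)
theorem L126522 : W_45 (nat_lit 7) (nat_lit 0x10002f000300008000c000000000000000000) (nat_lit 0x0) (nat_lit 0x18000c000600070003800100000000000000) := T_45 (nat_lit 123) (nat_lit 122) (nat_lit 2) (nat_lit 3) (nat_lit 7) L126521 (by decide +kernel)
theorem L126523 : W_45 (nat_lit 8) (nat_lit 0x10002e000300008000c000000000000000000) (nat_lit 0x0) (nat_lit 0x38001c000600070003800100000000000000) := T_45 (nat_lit 124) (nat_lit 141) (nat_lit 5) (nat_lit 6) (nat_lit 4) L126522 (by decide +kernel)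
theorem L126524 : W_45 (nat_lit 9) (nat_lit 0x10002c000300008000c000000000000000000) (nat_lit 0x0) (nat_lit 0x38003c000600070003800500000000000000) := T_45 (nat_lit 125) (nat_lit 58) (nat_lit 6) (nat_lit 6) (nat_lit 7) L126523 (by decide +kernel)
theorem L126525 : W_45 (nat_lit 10) (nat_lit 0x10002c0003000080008000000000000000000) (nat_lit 0x0) (nat_lit 0x38003c000600070007800700000000000000) := T_45 (nat_lit 74) (nat_lit 57) (nat_lit 7) (nat_lit 6) (nat_lit 3) L126524 (by decide +kernel)
theorem L126526 : W_45 (nat_lit 11) (nat_lit 0x10002c0003000080000000000000000000000) (nat_lit 0x0) (nat_lit 0x38003c00060017000f800700000000000000) := T_45 (nat_lit 75) (nat_lit 92) (nat_lit 7) (nat_lit 7) (nat_lit 4) L126525 (by decide +kernel)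
theorem L126527 : W_45 (nat_lit 12) (nat_lit 0x10000c0003000080000000000000000000000) (nat_lit 0x0) (nat_lit 0x38033c00060017000f800700000000000000) := T_45 (nat_lit 129) (nat_lit 128) (nat_lit 0) (nat_lit 10) (nat_lit 7) L126526 (by decide +kernel)
theorem L126528 : W_45 (nat_lit 2) (nat_lit 0x18001c0003000780000000000000000000000) (nat_lit 0x0) (nat_lit 0x8000000060000000000000000000) := D_45 (nat_lit 77) (nat_lit 78) (nat_lit 111) (nat_lit 2) (nat_lit 6) (nat_lit 5) (nat_lit 5) (nat_lit 9) (nat_lit 4) (by decide +kernel)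
theorem L126529 : W_45 (nat_lit 3) (nat_lit 0x18001c0003000380000000000000000000000) (nat_lit 0x0) (nat_lit 0x8000c00060000000000000000000) := T_45 (nat_lit 94) (nat_lit 95) (nat_lit 1) (nat_lit 10) (nat_lit 5) L126528 (by decide +kernel)
theorem L126530 : W_45 (nat_lit 4) (nat_lit 0x18001c0003000180000000000000000000000) (nat_lit 0x0) (nat_lit 0x8000e00070000000000000000000) := T_45 (nat_lit 93) (nat_lit 76) (nat_lit 6) (nat_lit 7) (nat_lit 8) L126529 (by decide +kernel)
theorem L126531 : W_45 (nat_lit 5) (nat_lit 0x18001c0003000080000000000000000000000) (nat_lit 0x0) (nat_lit 0x8000f00078000000000000000000) := T_45 (nat_lit 92) (nat_lit 75) (nat_lit 7) (nat_lit 7) (nat_lit 4) L126530 (by decide +kernel)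
theorem L126532 : W_45 (nat_lit 6) (nat_lit 0x18000c0003000080000000000000000000000) (nat_lit 0x0) (nat_lit 0x300008000f00078000000000000000000) := T_45 (nat_lit 128) (nat_lit 129) (nat_lit 0) (nat_lit 10) (nat_lit 7) L126531 (by decide +kernel)
theorem L126533 : W_45 (nat_lit 7) (nat_lit 0x10000c0003000080000000000000000000000) (nat_lit 0x0) (nat_lit 0x10000800300008000f00078000000000000000000) := T_45 (nat_lit 143) (nat_lit 160) (nat_lit 4) (nat_lit 7) (nat_lit 9) L126532 (by decide +kernel)
theorem L126534 : W_45 (nat_lit 13) (nat_lit 0x10000c0003000000000000000000000000000) (nat_lit 0x0) (nat_lit 0x10000b8033c008600ff007f800700000000000000) := Q_45 (nat_lit 91) (C_45 L125671 (C_45 L123206 (C_45 L126527 (C_45 L126533 N_45)))) (by decide +kernel)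
theorem L126535 : W_45 (nat_lit 2) (nat_lit 0x18001e000b000700000000000000000000000) (nat_lit 0x0) (nat_lit 0x200010000000000000000080000000000000000000000) := D_45 (nat_lit 160) (nat_lit 177) (nat_lit 91) (nat_lit 4) (nat_lit 7) (nat_lit 10) (nat_lit 4) (nat_lit 7) (nat_lit 9) (by decide +kernel)
theorem L126536 : W_45 (nat_lit 3) (nat_lit 0x10001e000b000700000000000000000000000) (nat_lit 0x0) (nat_lit 0x200010000800000000000080010000000000000000000) := T_45 (nat_lit 143) (nat_lit 76) (nat_lit 6) (nat_lit 7) (nat_lit 8) L126535 (by decide +kernel)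
theorem L126537 : W_45 (nat_lit 4) (nat_lit 0x10001e000b000500000000000000000000000) (nat_lit 0x0) (nat_lit 0x200010000800000000000a80010000000000000000000) := T_45 (nat_lit 93) (nat_lit 95) (nat_lit 1) (nat_lit 10) (nat_lit 5) L126536 (by decide +kernel)
theorem L126538 : W_45 (nat_lit 5) (nat_lit 0x10001e000b000100000000000000000000000) (nat_lit 0x0) (nat_lit 0x200010000800000000000e80030000000000000000000) := T_45 (nat_lit 94) (nat_lit 77) (nat_lit 5) (nat_lit 9) (nat_lit 4) L126537 (by decide +kernel)
theorem L126539 : W_45 (nat_lit 6) (nat_lit 0x10001e0003000100000000000000000000000) (nat_lit 0x0) (nat_lit 0x200010000800000018000e80030000000000000000000) := T_45 (nat_lit 111) (nat_lit 112) (nat_lit 2) (nat_lit 6) (nat_lit 7) L126538 (by decide +kernel)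
theorem L126540 : W_45 (nat_lit 7) (nat_lit 0x10001c0003000100000000000000000000000) (nat_lit 0x0) (nat_lit 0x200010000800020018800e80030000000000000000000) := T_45 (nat_lit 125) (nat_lit 107) (nat_lit 0) (nat_lit 9) (nat_lit 7) L126539 (by decide +kernel)
theorem L126541 : W_45 (nat_lit 8) (nat_lit 0x10000c0003000100000000000000000000000) (nat_lit 0x0) (nat_lit 0x200010000800320018800e80030000000000000000000) := T_45 (nat_lit 128) (nat_lit 129) (nat_lit 0) (nat_lit 10) (nat_lit 7) L126540 (by decide +kernel)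
theorem L126542 : W_45 (nat_lit 9) (nat_lit 0x10000c0003000000000000000000000000000) (nat_lit 0x0) (nat_lit 0x200010000800320018800f80038000000000000000000) := T_45 (nat_lit 92) (nat_lit 75) (nat_lit 7) (nat_lit 7) (nat_lit 4) L126541 (by decide +kernel)
theorem L126543 : W_45 (nat_lit 14) (nat_lit 0x10000c0002000000000000000000000000000) (nat_lit 0x0) (nat_lit 0x200010000b8033c019e00ff007f800700018000000000) := Q_45 (nat_lit 108) (C_45 L125574 (C_45 L126511 (C_45 L126516 (C_45 L126534 (C_45 L126542 N_45))))) (by decide +kernel)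
theorem L126544 : W_45 (nat_lit 2) (nat_lit 0x10001e000b000500000000000000000000000) (nat_lit 0x0) (nat_lit 0x4000a00000000000000000000000) := D_45 (nat_lit 95) (nat_lit 93) (nat_lit 110) (nat_lit 1) (nat_lit 10) (nat_lit 5) (nat_lit 2) (nat_lit 6) (nat_lit 6) (by decide +kernel)
theorem L126545 : W_45 (nat_lit 3) (nat_lit 0x10001e000a000500000000000000000000000) (nat_lit 0x0) (nat_lit 0x5800a00000000000000000000000) := T_45 (nat_lit 108) (nat_lit 107) (nat_lit 0) (nat_lit 9) (nat_lit 7) L126544 (by decide +kernel)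
theorem L126546 : W_45 (nat_lit 4) (nat_lit 0x10001e000a000100000000000000000000000) (nat_lit 0x0) (nat_lit 0x5800e00020000000000000000000) := T_45 (nat_lit 94) (nat_lit 77) (nat_lit 5) (nat_lit 9) (nat_lit 4) L126545 (by decide +kernel)
theorem L126547 : W_45 (nat_lit 5) (nat_lit 0x10001e0002000100000000000000000000000) (nat_lit 0x0) (nat_lit 0x1d800e00020000000000000000000) := T_45 (nat_lit 111) (nat_lit 112) (nat_lit 2) (nat_lit 6) (nat_lit 7) L126546 (by decide +kernel)
theorem L126548 : W_45 (nat_lit 6) (nat_lit 0x10001e0002000000000000000000000000000) (nat_lit 0x0) (nat_lit 0x1d800f00028000000000000000000) := T_45 (nat_lit 92) (nat_lit 75) (nat_lit 7) (nat_lit 7) (nat_lit 4) L126547 (by decide +kernel)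
theorem L126549 : W_45 (nat_lit 8) (nat_lit 0x10001c0002000000000000000000000000000) (nat_lit 0x0) (nat_lit 0xb8003801dc00f00028000000000000000000) := Q_45 (nat_lit 125) (C_45 L126015 (C_45 L126005 (C_45 L126548 (C_45 L126002 N_45)))) (by decide +kernel)
theorem L126550 : W_45 (nat_lit 9) (nat_lit 0x10000c0002000000000000000000000000000) (nat_lit 0x0) (nat_lit 0x8001cb8073803dc00f00028000000000000000000) := Q_45 (nat_lit 128) (C_45 L125861 (C_45 L126018 (C_45 L126549 (C_45 L126017 N_45)))) (by decide +kernel)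
theorem L126551 : W_45 (nat_lit 2) (nat_lit 0x18002c000b0007e0000000000000000000000) (nat_lit 0x0) (nat_lit 0x3800000000000000000) := D_45 (nat_lit 72) (nat_lit 73) (nat_lit 71) (nat_lit 0) (nat_lit 8) (nat_lit 5) (nat_lit 0) (nat_lit 7) (nat_lit 5) (by decide +kernel)
theorem L126552 : W_45 (nat_lit 3) (nat_lit 0x18002c000b0007c0000000000000000000000) (nat_lit 0x0) (nat_lit 0x30003800000000000000000) := T_45 (nat_lit 89) (nat_lit 88) (nat_lit 3) (nat_lit 3) (nat_lit 5) L126551 (by decide +kernel)
theorem L126553 : W_45 (nat_lit 4) (nat_lit 0x18002c000b000780000000000000000000000) (nat_lit 0x0) (nat_lit 0x4000070003800000000000000000) := T_45 (nat_lit 90) (nat_lit 110) (nat_lit 3) (nat_lit 5) (nat_lit 5) L126552 (by decide +kernel)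
theorem L126554 : W_45 (nat_lit 5) (nat_lit 0x18002c0003000780000000000000000000000) (nat_lit 0x0) (nat_lit 0x1c000070003800000000000000000) := T_45 (nat_lit 111) (nat_lit 112) (nat_lit 3) (nat_lit 6) (nat_lit 5) L126553 (by decide +kernel)
theorem L126555 : W_45 (nat_lit 6) (nat_lit 0x18002c0003000380000000000000000000000) (nat_lit 0x0) (nat_lit 0x1c000c70003800000000000000000) := T_45 (nat_lit 94) (nat_lit 95) (nat_lit 1) (nat_lit 10) (nat_lit 5) L126554 (by decide +kernel)
theorem L126556 : W_45 (nat_lit 7) (nat_lit 0x18002c0003000180000000000000000000000) (nat_lit 0x0) (nat_lit 0x1c000e70013800000000000000000) := T_45 (nat_lit 93) (nat_lit 76) (nat_lit 6) (nat_lit 7) (nat_lit 8) L126555 (by decide +kernel)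
theorem L126557 : W_45 (nat_lit 8) (nat_lit 0x18002c0003000100000000000000000000000) (nat_lit 0x0) (nat_lit 0x1c000ef0017800000000000000000) := T_45 (nat_lit 91) (nat_lit 74) (nat_lit 4) (nat_lit 7) (nat_lit 8) L126556 (by decide +kernel)
theorem L126558 : W_45 (nat_lit 9) (nat_lit 0x18000c0003000100000000000000000000000) (nat_lit 0x0) (nat_lit 0x30001c000ef0017800000000000000000) := T_45 (nat_lit 129) (nat_lit 128) (nat_lit 0) (nat_lit 10) (nat_lit 7) L126557 (by decide +kernel)
theorem L126559 : W_45 (nat_lit 10) (nat_lit 0x18000c0003000000000000000000000000000) (nat_lit 0x0) (nat_lit 0x30001c000ff001f800000000000000000) := T_45 (nat_lit 92) (nat_lit 75) (nat_lit 7) (nat_lit 7) (nat_lit 4) L126558 (by decide +kernel)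
theorem L126560 : W_45 (nat_lit 4) (nat_lit 0x18002c0003000100000000000000000000000) (nat_lit 0x0) (nat_lit 0x4000200010000000020004000200010000000000000000000) := T_45 (nat_lit 93) (nat_lit 76) (nat_lit 6) (nat_lit 7) (nat_lit 8) L125678 (by decide +kernel)
theorem L126561 : W_45 (nat_lit 5) (nat_lit 0x18002c0003000000000000000000000000000) (nat_lit 0x0) (nat_lit 0x4000200010000000020004000300018000000000000000000) := T_45 (nat_lit 92) (nat_lit 75) (nat_lit 7) (nat_lit 7) (nat_lit 4) L126560 (by decide +kernel)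
theorem L126562 : W_45 (nat_lit 6) (nat_lit 0x18000c0003000000000000000000000000000) (nat_lit 0x0) (nat_lit 0x4000200010000000320004000300018000000000000000000) := T_45 (nat_lit 129) (nat_lit 128) (nat_lit 0) (nat_lit 10) (nat_lit 7) L126561 (by decide +kernel)
theorem L126563 : W_45 (nat_lit 11) (nat_lit 0x10000c0003000000000000000000000000000) (nat_lit 0x0) (nat_lit 0x400020001000080032001c000ff001f800000000000000000) := Q_45 (nat_lit 143) (C_45 L125561 (C_45 L126559 (C_45 L126562 N_45))) (by decide +kernel)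
theorem L126564 : W_45 (nat_lit 12) (nat_lit 0x10000c0002000000000000000000000000000) (nat_lit 0x0) (nat_lit 0x4000200010000a0033c01de00ff001f800600000000000000) := Q_45 (nat_lit 108) (C_45 L126516 (C_45 L125574 (C_45 L123227 (C_45 L126563 N_45)))) (by decide +kernel)
theorem L126565 : W_45 (nat_lit 18) (nat_lit 0x10000c0000000000000000000000000000000) (nat_lit 0x0) (nat_lit 0x56003fe01df07cb83f3c1fff0fff07ffc3ffc03d8018000000) := Q_45 (nat_lit 109) (C_45 L125637 (C_45 L125669 (C_45 L123195 (C_45 L125131 (C_45 L125862 (C_45 L125960 (C_45 L125984 (C_45 L126019 (C_45 L126468 (C_45 L126543 (C_45 L126550 (C_45 L126564 N_45)))))))))))) (by decide +kernel)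
theorem L126566 : W_45 (nat_lit 2) (nat_lit 0x1c001c001e0007000000000000000000000000000) (nat_lit 0x0) (nat_lit 0x18008000000000000000000000000000) := D_45 (nat_lit 124) (nat_lit 123) (nat_lit 111) (nat_lit 3) (nat_lit 4) (nat_lit 7) (nat_lit 2) (nat_lit 5) (nat_lit 7) (by decide +kernel)
theorem L126567 : W_45 (nat_lit 3) (nat_lit 0x1c001c001c0007000000000000000000000000000) (nat_lit 0x0) (nat_lit 0x80000000000038008000000000000000000000000000) := T_45 (nat_lit 125) (nat_lit 175) (nat_lit 5) (nat_lit 6) (nat_lit 6) L126566 (by decide +kernel)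
theorem L126568 : W_45 (nat_lit 4) (nat_lit 0x1c0018001c0007000000000000000000000000000) (nat_lit 0x0) (nat_lit 0x80000000600038008000000000000000000000000000) := T_45 (nat_lit 142) (nat_lit 141) (nat_lit 2) (nat_lit 5) (nat_lit 8) L126567 (by decide +kernel)
theorem L126569 : W_45 (nat_lit 5) (nat_lit 0x1c0018000c0007000000000000000000000000000) (nat_lit 0x0) (nat_lit 0x80000000600338008000000000000000000000000000) := T_45 (nat_lit 128) (nat_lit 129) (nat_lit 0) (nat_lit 10) (nat_lit 7) L126568 (by decide +kernel)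
theorem L126570 : W_45 (nat_lit 6) (nat_lit 0x1c0018000c0006000000000000000000000000000) (nat_lit 0x0) (nat_lit 0x80000000600338009000080000000000000000000000) := T_45 (nat_lit 108) (nat_lit 91) (nat_lit 4) (nat_lit 7) (nat_lit 9) L126569 (by decide +kernel)
theorem L126571 : W_45 (nat_lit 7) (nat_lit 0x180018000c0006000000000000000000000000000) (nat_lit 0x0) (nat_lit 0x80006000600338009000080000000000000000000000) := T_45 (nat_lit 158) (nat_lit 157) (nat_lit 2) (nat_lit 4) (nat_lit 9) L126570 (by decide +kernel)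
theorem L126572 : W_45 (nat_lit 8) (nat_lit 0x100018000c0006000000000000000000000000000) (nat_lit 0x0) (nat_lit 0x18000e000600338009000080000000000000000000000) := T_45 (nat_lit 159) (nat_lit 176) (nat_lit 5) (nat_lit 7) (nat_lit 6) L126571 (by decide +kernel)
theorem L126573 : W_45 (nat_lit 9) (nat_lit 0x100018000c0002000000000000000000000000000) (nat_lit 0x0) (nat_lit 0x18000e00060033800d000280000000000000000000000) := T_45 (nat_lit 110) (nat_lit 93) (nat_lit 6) (nat_lit 7) (nat_lit 9) L126572 (by decide +kernel)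
theorem L126574 : W_45 (nat_lit 2) (nat_lit 0x100018002c0003000100000000000000000000000) (nat_lit 0x0) (nat_lit 0x100008000400000000000000000000000000000000000) := D_45 (nat_lit 159) (nat_lit 176) (nat_lit 142) (nat_lit 5) (nat_lit 7) (nat_lit 6) (nat_lit 5) (nat_lit 7) (nat_lit 5) (by decide +kernel)
theorem L126575 : W_45 (nat_lit 3) (nat_lit 0x100018002c0003000000000000000000000000000) (nat_lit 0x0) (nat_lit 0x100008000400000000000100008000000000000000000) := T_45 (nat_lit 92) (nat_lit 75) (nat_lit 7) (nat_lit 7) (nat_lit 4) L126574 (by decide +kernel)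
theorem L126576 : W_45 (nat_lit 4) (nat_lit 0x100018000c0003000000000000000000000000000) (nat_lit 0x0) (nat_lit 0x100008000400300000000100008000000000000000000) := T_45 (nat_lit 129) (nat_lit 128) (nat_lit 0) (nat_lit 10) (nat_lit 7) L126575 (by decide +kernel)
theorem L126577 : W_45 (nat_lit 5) (nat_lit 0x100018000c0002000000000000000000000000000) (nat_lit 0x0) (nat_lit 0x100008000400300001000180008000000000000000000) := T_45 (nat_lit 108) (nat_lit 91) (nat_lit 4) (nat_lit 7) (nat_lit 9) L126576 (by decide +kernel)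
theorem L126578 : W_45 (nat_lit 10) (nat_lit 0x100018000c0000000000000000000000000000000) (nat_lit 0x0) (nat_lit 0x18000e00060033800f000380018000000000000000000) := Q_45 (nat_lit 109) (C_45 L123056 (C_45 L126573 (C_45 L126577 N_45))) (by decide +kernel)
theorem L126579 : W_45 (nat_lit 11) (nat_lit 0x18000c0000000000000000000000000000000) (nat_lit 0x0) (nat_lit 0xe000f8001e00060033800f000380018000000000000000000) := Q_45 (nat_lit 160) (C_45 L122699 (C_45 L122435 (C_45 L126578 N_45))) (by decide +kernel)
theorem L126580 : W_45 (nat_lit 2) (nat_lit 0x1c000c0002000000000000000000000000000) (nat_lit 0x0) (nat_lit 0x8000000000000000100008000000000000000000) := D_45 (nat_lit 92) (nat_lit 159) (nat_lit 75) (nat_lit 5) (nat_lit 7) (nat_lit 5) (nat_lit 7) (nat_lit 7) (nat_lit 4) (by decide +kernel)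
theorem L126581 : W_45 (nat_lit 2) (nat_lit 0x8001c002f0006800000010000000000000000000) (nat_lit 0x0) (nat_lit 0x1000040002000000000000000000) := D_45 (nat_lit 90) (nat_lit 73) (nat_lit 108) (nat_lit 7) (nat_lit 5) (nat_lit 4) (nat_lit 4) (nat_lit 6) (nat_lit 9) (by decide +kernel)
theorem L126582 : W_45 (nat_lit 3) (nat_lit 0x8001c002f0006000000010000000000000000000) (nat_lit 0x0) (nat_lit 0x1c00040002000000000000000000) := T_45 (nat_lit 107) (nat_lit 106) (nat_lit 0) (nat_lit 8) (nat_lit 7) L126581 (by decide +kernel)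
theorem L126583 : W_45 (nat_lit 4) (nat_lit 0x8001c002f0006000000000000000000000000000) (nat_lit 0x0) (nat_lit 0x1c00240012000000000000000000) := T_45 (nat_lit 76) (nat_lit 93) (nat_lit 5) (nat_lit 8) (nat_lit 4) L126582 (by decide +kernel)
theorem L126584 : W_45 (nat_lit 5) (nat_lit 0x8001c002f0002000000000000000000000000000) (nat_lit 0x0) (nat_lit 0xdc00240012000000000000000000) := T_45 (nat_lit 110) (nat_lit 111) (nat_lit 2) (nat_lit 5) (nat_lit 7) L126583 (by decide +kernel)
theorem L126585 : W_45 (nat_lit 6) (nat_lit 0x8001c002e0002000000000000000000000000000) (nat_lit 0x0) (nat_lit 0x1800dc00240012000000000000000000) := T_45 (nat_lit 124) (nat_lit 123) (nat_lit 3) (nat_lit 4) (nat_lit 7) L126584 (by decide +kernel)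
theorem L126586 : W_45 (nat_lit 7) (nat_lit 0x1c002e0002000000000000000000000000000) (nat_lit 0x0) (nat_lit 0x10000800000001800dc00240012000000000000000000) := T_45 (nat_lit 159) (nat_lit 176) (nat_lit 6) (nat_lit 6) (nat_lit 10) L126585 (by decide +kernel)
theorem L126587 : W_45 (nat_lit 8) (nat_lit 0x1c000e0002000000000000000000000000000) (nat_lit 0x0) (nat_lit 0x10000800000031800dc00240012000000000000000000) := T_45 (nat_lit 129) (nat_lit 128) (nat_lit 1) (nat_lit 10) (nat_lit 7) L126586 (by decide +kernel)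
theorem L126588 : W_45 (nat_lit 2) (nat_lit 0x100000001c001e800b000080000000000000000000000) (nat_lit 0x0) (nat_lit 0x4000040002000000000000000000) := D_45 (nat_lit 90) (nat_lit 73) (nat_lit 110) (nat_lit 4) (nat_lit 6) (nat_lit 8) (nat_lit 0) (nat_lit 9) (nat_lit 6) (by decide +kernel)
theorem L126589 : W_45 (nat_lit 3) (nat_lit 0x100000001c001e800b000000000000000000000000000) (nat_lit 0x0) (nat_lit 0x40000c0006000000000000000000) := T_45 (nat_lit 91) (nat_lit 74) (nat_lit 7) (nat_lit 6) (nat_lit 4) L126588 (by decide +kernel)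
theorem L126590 : W_45 (nat_lit 4) (nat_lit 0x100000001c001e8003000000000000000000000000000) (nat_lit 0x0) (nat_lit 0x1c0000c0006000000000000000000) := T_45 (nat_lit 111) (nat_lit 112) (nat_lit 2) (nat_lit 6) (nat_lit 7) L126589 (by decide +kernel)
theorem L126591 : W_45 (nat_lit 5) (nat_lit 0x100000001c001e8002000000000000000000000000000) (nat_lit 0x0) (nat_lit 0x1d8000c0006000000000000000000) := T_45 (nat_lit 108) (nat_lit 107) (nat_lit 0) (nat_lit 9) (nat_lit 7) L126590 (by decide +kernel)
theorem L126592 : W_45 (nat_lit 6) (nat_lit 0x1c001e8002000000000000000000000000000) (nat_lit 0x0) (nat_lit 0x10000800000000001d8000c0006000000000000000000) := T_45 (nat_lit 176) (nat_lit 159) (nat_lit 6) (nat_lit 6) (nat_lit 10) L126591 (by decide +kernel)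
theorem L126593 : W_45 (nat_lit 7) (nat_lit 0x1c000e8002000000000000000000000000000) (nat_lit 0x0) (nat_lit 0x10000800000030001d8000c0006000000000000000000) := T_45 (nat_lit 128) (nat_lit 129) (nat_lit 1) (nat_lit 10) (nat_lit 7) L126592 (by decide +kernel)
theorem L126594 : W_45 (nat_lit 8) (nat_lit 0x1c000e0002000000000000000000000000000) (nat_lit 0x0) (nat_lit 0x10000800000031801d8000c0006000000000000000000) := T_45 (nat_lit 123) (nat_lit 124) (nat_lit 3) (nat_lit 4) (nat_lit 7) L126593 (by decide +kernel)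
theorem L126595 : W_45 (nat_lit 2) (nat_lit 0x8001c002f0002800000000000000000000000000) (nat_lit 0x0) (nat_lit 0x1000040002000000000000000000) := D_45 (nat_lit 90) (nat_lit 73) (nat_lit 108) (nat_lit 7) (nat_lit 5) (nat_lit 4) (nat_lit 4) (nat_lit 6) (nat_lit 9) (by decide +kernel)
theorem L126596 : W_45 (nat_lit 3) (nat_lit 0x8001c002f0002000000000000000000000000000) (nat_lit 0x0) (nat_lit 0x1c00040002000000000000000000) := T_45 (nat_lit 107) (nat_lit 106) (nat_lit 0) (nat_lit 8) (nat_lit 7) L126595 (by decide +kernel)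
theorem L126597 : W_45 (nat_lit 4) (nat_lit 0x1c002f0002000000000000000000000000000) (nat_lit 0x0) (nat_lit 0x100008000000000001c00040002000000000000000000) := T_45 (nat_lit 159) (nat_lit 176) (nat_lit 6) (nat_lit 6) (nat_lit 10) L126596 (by decide +kernel)
theorem L126598 : W_45 (nat_lit 5) (nat_lit 0x1c002e0002000000000000000000000000000) (nat_lit 0x0) (nat_lit 0x100008000000018001c00040002000000000000000000) := T_45 (nat_lit 124) (nat_lit 123) (nat_lit 3) (nat_lit 4) (nat_lit 7) L126597 (by decide +kernel)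
theorem L126599 : W_45 (nat_lit 6) (nat_lit 0x1c000e0002000000000000000000000000000) (nat_lit 0x0) (nat_lit 0x100008000000318001c00040002000000000000000000) := T_45 (nat_lit 129) (nat_lit 128) (nat_lit 1) (nat_lit 10) (nat_lit 7) L126598 (by decide +kernel)
theorem L126600 : W_45 (nat_lit 2) (nat_lit 0x1c001e800b000080000000000000000000000) (nat_lit 0x0) (nat_lit 0x4000040002000000000000000000) := D_45 (nat_lit 90) (nat_lit 73) (nat_lit 110) (nat_lit 4) (nat_lit 6) (nat_lit 8) (nat_lit 0) (nat_lit 9) (nat_lit 6) (by decide +kernel)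
theorem L126601 : W_45 (nat_lit 3) (nat_lit 0x1c001e800b000000000000000000000000000) (nat_lit 0x0) (nat_lit 0x40000c0006000000000000000000) := T_45 (nat_lit 91) (nat_lit 74) (nat_lit 7) (nat_lit 6) (nat_lit 4) L126600 (by decide +kernel)
theorem L126602 : W_45 (nat_lit 4) (nat_lit 0x1c001e8003000000000000000000000000000) (nat_lit 0x0) (nat_lit 0x1c0000c0006000000000000000000) := T_45 (nat_lit 111) (nat_lit 112) (nat_lit 2) (nat_lit 6) (nat_lit 7) L126601 (by decide +kernel)
theorem L126603 : W_45 (nat_lit 5) (nat_lit 0x1c001e8002000000000000000000000000000) (nat_lit 0x0) (nat_lit 0x1d8000c0006000000000000000000) := T_45 (nat_lit 108) (nat_lit 107) (nat_lit 0) (nat_lit 9) (nat_lit 7) L126602 (by decide +kernel)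
theorem L126604 : W_45 (nat_lit 6) (nat_lit 0x1c001e0002000000000000000000000000000) (nat_lit 0x0) (nat_lit 0x1801d8000c0006000000000000000000) := T_45 (nat_lit 123) (nat_lit 124) (nat_lit 3) (nat_lit 4) (nat_lit 7) L126603 (by decide +kernel)
theorem L126605 : W_45 (nat_lit 7) (nat_lit 0x1c000e0002000000000000000000000000000) (nat_lit 0x0) (nat_lit 0x31801d8000c0006000000000000000000) := T_45 (nat_lit 128) (nat_lit 129) (nat_lit 1) (nat_lit 10) (nat_lit 7) L126604 (by decide +kernel)
theorem L126606 : W_45 (nat_lit 2) (nat_lit 0x100000001c001e000b000080000000000000000000000) (nat_lit 0x0) (nat_lit 0x4000040002000000000000000000) := D_45 (nat_lit 90) (nat_lit 73) (nat_lit 110) (nat_lit 4) (nat_lit 6) (nat_lit 8) (nat_lit 0) (nat_lit 9) (nat_lit 6) (by decide +kernel)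
theorem L126607 : W_45 (nat_lit 3) (nat_lit 0x100000001c001e000b000000000000000000000000000) (nat_lit 0x0) (nat_lit 0x40000c0006000000000000000000) := T_45 (nat_lit 91) (nat_lit 74) (nat_lit 7) (nat_lit 6) (nat_lit 4) L126606 (by decide +kernel)
theorem L126608 : W_45 (nat_lit 4) (nat_lit 0x100000001c001e0003000000000000000000000000000) (nat_lit 0x0) (nat_lit 0x1c0000c0006000000000000000000) := T_45 (nat_lit 111) (nat_lit 112) (nat_lit 2) (nat_lit 6) (nat_lit 7) L126607 (by decide +kernel)
theorem L126609 : W_45 (nat_lit 5) (nat_lit 0x100000001c001e0002000000000000000000000000000) (nat_lit 0x0) (nat_lit 0x1d8000c0006000000000000000000) := T_45 (nat_lit 108) (nat_lit 107) (nat_lit 0) (nat_lit 9) (nat_lit 7) L126608 (by decide +kernel)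
theorem L126610 : W_45 (nat_lit 6) (nat_lit 0x1c001e0002000000000000000000000000000) (nat_lit 0x0) (nat_lit 0x10000800000000001d8000c0006000000000000000000) := T_45 (nat_lit 176) (nat_lit 159) (nat_lit 6) (nat_lit 6) (nat_lit 10) L126609 (by decide +kernel)
theorem L126611 : W_45 (nat_lit 7) (nat_lit 0x1c000e0002000000000000000000000000000) (nat_lit 0x0) (nat_lit 0x10000800000030001d8000c0006000000000000000000) := T_45 (nat_lit 128) (nat_lit 129) (nat_lit 1) (nat_lit 10) (nat_lit 7) L126610 (by decide +kernel)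
theorem L126612 : W_45 (nat_lit 2) (nat_lit 0x8001c000f0002800000000000000000000000000) (nat_lit 0x0) (nat_lit 0x1000040002000000000000000000) := D_45 (nat_lit 90) (nat_lit 73) (nat_lit 108) (nat_lit 7) (nat_lit 5) (nat_lit 4) (nat_lit 4) (nat_lit 6) (nat_lit 9) (by decide +kernel)
theorem L126613 : W_45 (nat_lit 3) (nat_lit 0x8001c000f0002000000000000000000000000000) (nat_lit 0x0) (nat_lit 0x1c00040002000000000000000000) := T_45 (nat_lit 107) (nat_lit 106) (nat_lit 0) (nat_lit 8) (nat_lit 7) L126612 (by decide +kernel)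
theorem L126614 : W_45 (nat_lit 4) (nat_lit 0x1c000f0002000000000000000000000000000) (nat_lit 0x0) (nat_lit 0x100008000000000001c00040002000000000000000000) := T_45 (nat_lit 159) (nat_lit 176) (nat_lit 6) (nat_lit 6) (nat_lit 10) L126613 (by decide +kernel)
theorem L126615 : W_45 (nat_lit 5) (nat_lit 0x1c000e0002000000000000000000000000000) (nat_lit 0x0) (nat_lit 0x100008000000018001c00040002000000000000000000) := T_45 (nat_lit 124) (nat_lit 123) (nat_lit 3) (nat_lit 4) (nat_lit 7) L126614 (by decide +kernel)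
theorem L126616 : W_45 (nat_lit 2) (nat_lit 0x100000001c001f0002000000000000000000000000000) (nat_lit 0x0) (nat_lit 0x1c000000000000000000000000000) := D_45 (nat_lit 111) (nat_lit 112) (nat_lit 110) (nat_lit 2) (nat_lit 6) (nat_lit 7) (nat_lit 2) (nat_lit 5) (nat_lit 7) (by decide +kernel)
theorem L126617 : W_45 (nat_lit 3) (nat_lit 0x100000001c001e0002000000000000000000000000000) (nat_lit 0x0) (nat_lit 0x1801c000000000000000000000000000) := T_45 (nat_lit 124) (nat_lit 123) (nat_lit 3) (nat_lit 4) (nat_lit 7) L126616 (by decide +kernel)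
theorem L126618 : W_45 (nat_lit 4) (nat_lit 0x100000001c000e0002000000000000000000000000000) (nat_lit 0x0) (nat_lit 0x31801c000000000000000000000000000) := T_45 (nat_lit 128) (nat_lit 129) (nat_lit 1) (nat_lit 10) (nat_lit 7) L126617 (by decide +kernel)
theorem L126619 : W_45 (nat_lit 5) (nat_lit 0x1c000e0002000000000000000000000000000) (nat_lit 0x0) (nat_lit 0x10000800000031801c000000000000000000000000000) := T_45 (nat_lit 176) (nat_lit 159) (nat_lit 6) (nat_lit 6) (nat_lit 10) L126618 (by decide +kernel)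
theorem L126620 : W_45 (nat_lit 9) (nat_lit 0x1c000c0002000000000000000000000000000) (nat_lit 0x0) (nat_lit 0x10000800000033801dc002c0016000000000000000000) := Q_45 (nat_lit 125) (C_45 L126587 (C_45 L126594 (C_45 L126599 (C_45 L126605 (C_45 L126611 (C_45 L126615 (C_45 L126619 N_45))))))) (by decide +kernel)
theorem L126621 : W_45 (nat_lit 2) (nat_lit 0x1c001e000a000000008000000000000000000) (nat_lit 0x0) (nat_lit 0x18004000000000000000000000000000) := D_45 (nat_lit 124) (nat_lit 110) (nat_lit 123) (nat_lit 2) (nat_lit 5) (nat_lit 7) (nat_lit 3) (nat_lit 4) (nat_lit 7) (by decide +kernel)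
theorem L126622 : W_45 (nat_lit 3) (nat_lit 0x1c001e0002000000008000000000000000000) (nat_lit 0x0) (nat_lit 0x1801c000000000000000000000000000) := T_45 (nat_lit 111) (nat_lit 112) (nat_lit 2) (nat_lit 6) (nat_lit 7) L126621 (by decide +kernel)
theorem L126623 : W_45 (nat_lit 4) (nat_lit 0x1c001e0002000000000000000000000000000) (nat_lit 0x0) (nat_lit 0x1801c000100008000000000000000000) := T_45 (nat_lit 75) (nat_lit 92) (nat_lit 7) (nat_lit 7) (nat_lit 4) L126622 (by decide +kernel)
theorem L126624 : W_45 (nat_lit 5) (nat_lit 0x1c000e0002000000000000000000000000000) (nat_lit 0x0) (nat_lit 0x31801c000100008000000000000000000) := T_45 (nat_lit 128) (nat_lit 129) (nat_lit 1) (nat_lit 10) (nat_lit 7) L126623 (by decide +kernel)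
theorem L126625 : W_45 (nat_lit 2) (nat_lit 0x1c001e80030003c0000000000000000000000) (nat_lit 0x0) (nat_lit 0x4000030000000000000000000000) := D_45 (nat_lit 89) (nat_lit 110) (nat_lit 88) (nat_lit 3) (nat_lit 4) (nat_lit 5) (nat_lit 3) (nat_lit 3) (nat_lit 5) (by decide +kernel)
theorem L126626 : W_45 (nat_lit 3) (nat_lit 0x1c001e8003000380000000000000000000000) (nat_lit 0x0) (nat_lit 0x4000070002000000000000000000) := T_45 (nat_lit 90) (nat_lit 73) (nat_lit 4) (nat_lit 6) (nat_lit 8) L126625 (by decide +kernel)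
theorem L126627 : W_45 (nat_lit 4) (nat_lit 0x1c001e8003000300000000000000000000000) (nat_lit 0x0) (nat_lit 0x40000f0006000000000000000000) := T_45 (nat_lit 91) (nat_lit 74) (nat_lit 7) (nat_lit 6) (nat_lit 4) L126626 (by decide +kernel)
theorem L126628 : W_45 (nat_lit 5) (nat_lit 0x1c001e8002000300000000000000000000000) (nat_lit 0x0) (nat_lit 0x58000f0006000000000000000000) := T_45 (nat_lit 108) (nat_lit 107) (nat_lit 0) (nat_lit 9) (nat_lit 7) L126627 (by decide +kernel)
theorem L126629 : W_45 (nat_lit 6) (nat_lit 0x1c001e8002000100000000000000000000000) (nat_lit 0x0) (nat_lit 0x58002f0016000000000000000000) := T_45 (nat_lit 93) (nat_lit 76) (nat_lit 6) (nat_lit 7) (nat_lit 8) L126628 (by decide +kernel)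
theorem L126630 : W_45 (nat_lit 7) (nat_lit 0x1c000e8002000100000000000000000000000) (nat_lit 0x0) (nat_lit 0x3000058002f0016000000000000000000) := T_45 (nat_lit 128) (nat_lit 129) (nat_lit 1) (nat_lit 10) (nat_lit 7) L126629 (by decide +kernel)
theorem L126631 : W_45 (nat_lit 8) (nat_lit 0x1c000e8002000000000000000000000000000) (nat_lit 0x0) (nat_lit 0x3000058003f001e000000000000000000) := T_45 (nat_lit 92) (nat_lit 75) (nat_lit 7) (nat_lit 7) (nat_lit 4) L126630 (by decide +kernel)
theorem L126632 : W_45 (nat_lit 9) (nat_lit 0x1c000e0002000000000000000000000000000) (nat_lit 0x0) (nat_lit 0x3180058003f001e000000000000000000) := T_45 (nat_lit 123) (nat_lit 124) (nat_lit 3) (nat_lit 4) (nat_lit 7) L126631 (by decide +kernel)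
theorem L126633 : W_45 (nat_lit 2) (nat_lit 0x1c001e000b000080008000000000000000000) (nat_lit 0x0) (nat_lit 0x4000040002000000000000000000) := D_45 (nat_lit 90) (nat_lit 73) (nat_lit 110) (nat_lit 4) (nat_lit 6) (nat_lit 8) (nat_lit 0) (nat_lit 9) (nat_lit 6) (by decide +kernel)
theorem L126634 : W_45 (nat_lit 3) (nat_lit 0x1c001e000b000000008000000000000000000) (nat_lit 0x0) (nat_lit 0x40000c0006000000000000000000) := T_45 (nat_lit 91) (nat_lit 74) (nat_lit 7) (nat_lit 6) (nat_lit 4) L126633 (by decide +kernel)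
theorem L126635 : W_45 (nat_lit 4) (nat_lit 0x1c001e000a000000008000000000000000000) (nat_lit 0x0) (nat_lit 0x58000c0006000000000000000000) := T_45 (nat_lit 108) (nat_lit 107) (nat_lit 0) (nat_lit 9) (nat_lit 7) L126634 (by decide +kernel)
theorem L126636 : W_45 (nat_lit 5) (nat_lit 0x1c001e0002000000008000000000000000000) (nat_lit 0x0) (nat_lit 0x1d8000c0006000000000000000000) := T_45 (nat_lit 111) (nat_lit 112) (nat_lit 2) (nat_lit 6) (nat_lit 7) L126635 (by decide +kernel)
theorem L126637 : W_45 (nat_lit 6) (nat_lit 0x1c000e0002000000008000000000000000000) (nat_lit 0x0) (nat_lit 0x30001d8000c0006000000000000000000) := T_45 (nat_lit 128) (nat_lit 129) (nat_lit 1) (nat_lit 10) (nat_lit 7) L126636 (by decide +kernel)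
theorem L126638 : W_45 (nat_lit 7) (nat_lit 0x1c000e0002000000000000000000000000000) (nat_lit 0x0) (nat_lit 0x30001d8001c000e000000000000000000) := T_45 (nat_lit 75) (nat_lit 92) (nat_lit 7) (nat_lit 7) (nat_lit 4) L126637 (by decide +kernel)
theorem L126639 : W_45 (nat_lit 2) (nat_lit 0x1c000f00060001c0010000000000000000000) (nat_lit 0x0) (nat_lit 0xc00000002000000000000000000) := D_45 (nat_lit 107) (nat_lit 106) (nat_lit 73) (nat_lit 0) (nat_lit 8) (nat_lit 7) (nat_lit 7) (nat_lit 5) (nat_lit 4) (by decide +kernel)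
theorem L126640 : W_45 (nat_lit 3) (nat_lit 0x1c000f0006000180010000000000000000000) (nat_lit 0x0) (nat_lit 0xc00060002000000000000000000) := T_45 (nat_lit 90) (nat_lit 89) (nat_lit 3) (nat_lit 4) (nat_lit 5) L126639 (by decide +kernel)
theorem L126641 : W_45 (nat_lit 4) (nat_lit 0x1c000f0006000100010000000000000000000) (nat_lit 0x0) (nat_lit 0xc000e0006000000000000000000) := T_45 (nat_lit 91) (nat_lit 74) (nat_lit 4) (nat_lit 7) (nat_lit 8) L126640 (by decide +kernel)
theorem L126642 : W_45 (nat_lit 5) (nat_lit 0x1c000f0006000100000000000000000000000) (nat_lit 0x0) (nat_lit 0xc002e0016000000000000000000) := T_45 (nat_lit 76) (nat_lit 93) (nat_lit 6) (nat_lit 7) (nat_lit 8) L126641 (by decide +kernel)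
theorem L126643 : W_45 (nat_lit 6) (nat_lit 0x1c000f0002000100000000000000000000000) (nat_lit 0x0) (nat_lit 0xcc002e0016000000000000000000) := T_45 (nat_lit 110) (nat_lit 111) (nat_lit 2) (nat_lit 5) (nat_lit 7) L126642 (by decide +kernel)
theorem L126644 : W_45 (nat_lit 7) (nat_lit 0x1c000f0002000000000000000000000000000) (nat_lit 0x0) (nat_lit 0xcc003e001e000000000000000000) := T_45 (nat_lit 92) (nat_lit 75) (nat_lit 7) (nat_lit 7) (nat_lit 4) L126643 (by decide +kernel)
theorem L126645 : W_45 (nat_lit 8) (nat_lit 0x1c000e0002000000000000000000000000000) (nat_lit 0x0) (nat_lit 0x1800cc003e001e000000000000000000) := T_45 (nat_lit 124) (nat_lit 123) (nat_lit 3) (nat_lit 4) (nat_lit 7) L126644 (by decide +kernel)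
theorem L126646 : W_45 (nat_lit 2) (nat_lit 0x1c001f0002000000000000000000000000000) (nat_lit 0x0) (nat_lit 0x1c00000000000000000000000000) := D_45 (nat_lit 107) (nat_lit 106) (nat_lit 108) (nat_lit 0) (nat_lit 8) (nat_lit 7) (nat_lit 0) (nat_lit 9) (nat_lit 7) (by decide +kernel)
theorem L126647 : W_45 (nat_lit 3) (nat_lit 0x1c000f0002000000000000000000000000000) (nat_lit 0x0) (nat_lit 0x300001c00000000000000000000000000) := T_45 (nat_lit 128) (nat_lit 129) (nat_lit 1) (nat_lit 10) (nat_lit 7) L126646 (by decide +kernel)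
theorem L126648 : W_45 (nat_lit 4) (nat_lit 0x1c000e0002000000000000000000000000000) (nat_lit 0x0) (nat_lit 0x318001c00000000000000000000000000) := T_45 (nat_lit 124) (nat_lit 123) (nat_lit 3) (nat_lit 4) (nat_lit 7) L126647 (by decide +kernel)
theorem L126649 : W_45 (nat_lit 10) (nat_lit 0x1c000c0002000000000000000000000000000) (nat_lit 0x0) (nat_lit 0x33801dc003f001e000000000000000000) := Q_45 (nat_lit 125) (C_45 L126624 (C_45 L126632 (C_45 L126638 (C_45 L126645 (C_45 L126605 (C_45 L126648 N_45)))))) (by decide +kernel)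
theorem L126650 : W_45 (nat_lit 11) (nat_lit 0x1c000c0000000000000000000000000000000) (nat_lit 0x0) (nat_lit 0x10000800000033801fc003f001e000000000000000000) := Q_45 (nat_lit 109) (C_45 L126580 (C_45 L126620 (C_45 L126649 N_45))) (by decide +kernel)
theorem L126651 : W_45 (nat_lit 12) (nat_lit 0x18000c0000000000000000000000000000000) (nat_lit 0x0) (nat_lit 0x18000e00070033801fc003f001e000000000000000000) := Q_45 (nat_lit 142) (C_45 L122492 (C_45 L122520 (C_45 L126650 N_45))) (by decide +kernel)
theorem L126652 : W_45 (nat_lit 2) (nat_lit 0x700010001c002f0000000000000000000000000000000) (nat_lit 0x0) (nat_lit 0x8000000000000c00000000000000000000000000) := D_45 (nat_lit 107) (nat_lit 159) (nat_lit 106) (nat_lit 4) (nat_lit 6) (nat_lit 10) (nat_lit 0) (nat_lit 8) (nat_lit 7) (by decide +kernel)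
theorem L126653 : W_45 (nat_lit 3) (nat_lit 0x700010001c002e0000000000000000000000000000000) (nat_lit 0x0) (nat_lit 0x8000000018000c00000000000000000000000000) := T_45 (nat_lit 124) (nat_lit 123) (nat_lit 3) (nat_lit 4) (nat_lit 7) L126652 (by decide +kernel)
theorem L126654 : W_45 (nat_lit 4) (nat_lit 0x700010001c002c0000000000000000000000000000000) (nat_lit 0x0) (nat_lit 0x8000000038001c00000000000000000000000000) := T_45 (nat_lit 125) (nat_lit 108) (nat_lit 4) (nat_lit 7) (nat_lit 10) L126653 (by decide +kernel)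
theorem L126655 : W_45 (nat_lit 5) (nat_lit 0x300010001c002c0000000000000000000000000000000) (nat_lit 0x0) (nat_lit 0x8000400008000000038001c00000000000000000000000000) := T_45 (nat_lit 178) (nat_lit 195) (nat_lit 7) (nat_lit 7) (nat_lit 7) L126654 (by decide +kernel)
theorem L126656 : W_45 (nat_lit 6) (nat_lit 0x200010001c002c0000000000000000000000000000000) (nat_lit 0x0) (nat_lit 0xa000500008000000038001c00000000000000000000000000) := T_45 (nat_lit 176) (nat_lit 193) (nat_lit 5) (nat_lit 7) (nat_lit 7) L126655 (by decide +kernel)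
theorem L126657 : W_45 (nat_lit 7) (nat_lit 0x10001c002c0000000000000000000000000000000) (nat_lit 0x0) (nat_lit 0xe000700008000000038001c00000000000000000000000000) := T_45 (nat_lit 177) (nat_lit 194) (nat_lit 6) (nat_lit 7) (nat_lit 11) L126656 (by decide +kernel)
theorem L126658 : W_45 (nat_lit 8) (nat_lit 0x10001c000c0000000000000000000000000000000) (nat_lit 0x0) (nat_lit 0xe000700008000000338001c00000000000000000000000000) := T_45 (nat_lit 129) (nat_lit 128) (nat_lit 1) (nat_lit 10) (nat_lit 7) L126657 (by decide +kernel)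
theorem L126659 : W_45 (nat_lit 2) (nat_lit 0x18001c002f0000800200000000000000000000000) (nat_lit 0x0) (nat_lit 0x1000040002000000000000000000) := D_45 (nat_lit 90) (nat_lit 73) (nat_lit 108) (nat_lit 7) (nat_lit 5) (nat_lit 4) (nat_lit 4) (nat_lit 6) (nat_lit 9) (by decide +kernel)
theorem L126660 : W_45 (nat_lit 3) (nat_lit 0x10001c002f0000800200000000000000000000000) (nat_lit 0x0) (nat_lit 0x100008000000000001000040002000000000000000000) := T_45 (nat_lit 159) (nat_lit 176) (nat_lit 4) (nat_lit 6) (nat_lit 10) L126659 (by decide +kernel)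
theorem L126661 : W_45 (nat_lit 4) (nat_lit 0x10001c002f0000000200000000000000000000000) (nat_lit 0x0) (nat_lit 0x100008000000000001c00040002000000000000000000) := T_45 (nat_lit 107) (nat_lit 106) (nat_lit 0) (nat_lit 8) (nat_lit 7) L126660 (by decide +kernel)
theorem L126662 : W_45 (nat_lit 5) (nat_lit 0x10001c000f0000000200000000000000000000000) (nat_lit 0x0) (nat_lit 0x100008000000300001c00040002000000000000000000) := T_45 (nat_lit 129) (nat_lit 128) (nat_lit 1) (nat_lit 10) (nat_lit 7) L126661 (by decide +kernel)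
theorem L126663 : W_45 (nat_lit 6) (nat_lit 0x10001c000e0000000200000000000000000000000) (nat_lit 0x0) (nat_lit 0x100008000000318001c00040002000000000000000000) := T_45 (nat_lit 124) (nat_lit 123) (nat_lit 3) (nat_lit 4) (nat_lit 7) L126662 (by decide +kernel)
theorem L126664 : W_45 (nat_lit 7) (nat_lit 0x10001c000e0000000000000000000000000000000) (nat_lit 0x0) (nat_lit 0x100008000000318005c00240002000000000000000000) := T_45 (nat_lit 93) (nat_lit 110) (nat_lit 5) (nat_lit 8) (nat_lit 5) L126663 (by decide +kernel)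
theorem L126665 : W_45 (nat_lit 2) (nat_lit 0x10001c002f0005800000000000000000000000000) (nat_lit 0x0) (nat_lit 0x8000000000000000040002000000000000000000) := D_45 (nat_lit 90) (nat_lit 73) (nat_lit 159) (nat_lit 7) (nat_lit 5) (nat_lit 4) (nat_lit 4) (nat_lit 6) (nat_lit 9) (by decide +kernel)
theorem L126666 : W_45 (nat_lit 3) (nat_lit 0x10001c002f0005000000000000000000000000000) (nat_lit 0x0) (nat_lit 0x8000000000000c00040002000000000000000000) := T_45 (nat_lit 107) (nat_lit 106) (nat_lit 0) (nat_lit 8) (nat_lit 7) L126665 (by decide +kernel)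
theorem L126667 : W_45 (nat_lit 4) (nat_lit 0x10001c002f0001000000000000000000000000000) (nat_lit 0x0) (nat_lit 0x800000000000cc00040002000000000000000000) := T_45 (nat_lit 110) (nat_lit 111) (nat_lit 2) (nat_lit 5) (nat_lit 7) L126666 (by decide +kernel)
theorem L126668 : W_45 (nat_lit 5) (nat_lit 0x10001c002e0001000000000000000000000000000) (nat_lit 0x0) (nat_lit 0x800000001800cc00040002000000000000000000) := T_45 (nat_lit 124) (nat_lit 123) (nat_lit 3) (nat_lit 4) (nat_lit 7) L126667 (by decide +kernel)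
theorem L126669 : W_45 (nat_lit 6) (nat_lit 0x10001c002e0000000000000000000000000000000) (nat_lit 0x0) (nat_lit 0x800000001800dc000c0002000000000000000000) := T_45 (nat_lit 108) (nat_lit 91) (nat_lit 7) (nat_lit 6) (nat_lit 5) L126668 (by decide +kernel)
theorem L126670 : W_45 (nat_lit 7) (nat_lit 0x10001c000e0000000000000000000000000000000) (nat_lit 0x0) (nat_lit 0x800000031800dc000c0002000000000000000000) := T_45 (nat_lit 129) (nat_lit 128) (nat_lit 1) (nat_lit 10) (nat_lit 7) L126669 (by decide +kernel)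
theorem L126671 : W_45 (nat_lit 2) (nat_lit 0x10001c001e8000000200000000000000000000000) (nat_lit 0x0) (nat_lit 0x1800080000000000000000000000) := D_45 (nat_lit 108) (nat_lit 91) (nat_lit 107) (nat_lit 7) (nat_lit 6) (nat_lit 5) (nat_lit 0) (nat_lit 9) (nat_lit 7) (by decide +kernel)
theorem L126672 : W_45 (nat_lit 3) (nat_lit 0x10001c000e8000000200000000000000000000000) (nat_lit 0x0) (nat_lit 0x300001800080000000000000000000000) := T_45 (nat_lit 128) (nat_lit 129) (nat_lit 1) (nat_lit 10) (nat_lit 7) L126671 (by decide +kernel)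
theorem L126673 : W_45 (nat_lit 4) (nat_lit 0x10001c000e8000000000000000000000000000000) (nat_lit 0x0) (nat_lit 0x300005800280000000000000000000000) := T_45 (nat_lit 93) (nat_lit 110) (nat_lit 5) (nat_lit 8) (nat_lit 5) L126672 (by decide +kernel)
theorem L126674 : W_45 (nat_lit 5) (nat_lit 0x10001c000e0000000000000000000000000000000) (nat_lit 0x0) (nat_lit 0x318005800280000000000000000000000) := T_45 (nat_lit 123) (nat_lit 124) (nat_lit 3) (nat_lit 4) (nat_lit 7) L126673 (by decide +kernel)
theorem L126675 : W_45 (nat_lit 2) (nat_lit 0x10001c000e0001000000000000000000000000000) (nat_lit 0x0) (nat_lit 0x300000800000000000000000000000000) := D_45 (nat_lit 128) (nat_lit 129) (nat_lit 107) (nat_lit 1) (nat_lit 10) (nat_lit 7) (nat_lit 0) (nat_lit 9) (nat_lit 7) (by decide +kernel)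
theorem L126676 : W_45 (nat_lit 3) (nat_lit 0x10001c000e0000000000000000000000000000000) (nat_lit 0x0) (nat_lit 0x300001800080000000000000000000000) := T_45 (nat_lit 108) (nat_lit 91) (nat_lit 7) (nat_lit 6) (nat_lit 5) L126675 (by decide +kernel)
theorem L126677 : W_45 (nat_lit 2) (nat_lit 0x10001c000e0004000000000000000000000000000) (nat_lit 0x0) (nat_lit 0x18008000000000000000000000000000) := D_45 (nat_lit 124) (nat_lit 123) (nat_lit 111) (nat_lit 3) (nat_lit 4) (nat_lit 7) (nat_lit 2) (nat_lit 5) (nat_lit 7) (by decide +kernel)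
theorem L126678 : W_45 (nat_lit 3) (nat_lit 0x10001c000e0000000000000000000000000000000) (nat_lit 0x0) (nat_lit 0x1800c000200000000000000000000000) := T_45 (nat_lit 110) (nat_lit 93) (nat_lit 5) (nat_lit 8) (nat_lit 5) L126677 (by decide +kernel)
theorem L126679 : W_45 (nat_lit 8) (nat_lit 0x10001c000c0000000000000000000000000000000) (nat_lit 0x0) (nat_lit 0x10000800000033800dc002c0002000000000000000000) := Q_45 (nat_lit 125) (C_45 L126664 (C_45 L126670 (C_45 L126674 (C_45 L126676 (C_45 L122441 (C_45 L126678 N_45)))))) (by decide +kernel)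
theorem L126680 : W_45 (nat_lit 9) (nat_lit 0x1c000c0000000000000000000000000000000) (nat_lit 0x0) (nat_lit 0xe00070001800000033800dc002c0002000000000000000000) := Q_45 (nat_lit 160) (C_45 L122819 (C_45 L126658 (C_45 L126679 N_45))) (by decide +kernel)
theorem L126681 : W_45 (nat_lit 11) (nat_lit 0x18000c0000000000000000000000000000000) (nat_lit 0x0) (nat_lit 0xe00078001e00070033800dc002c0012000000000000000000) := Q_45 (nat_lit 142) (C_45 L122492 (C_45 L122520 (C_45 L126680 N_45))) (by decide +kernel)
theorem L126682 : W_45 (nat_lit 2) (nat_lit 0x1a0018000c0003800000008000000000000000000) (nat_lit 0x0) (nat_lit 0x320000000000000000000000000000000) := D_45 (nat_lit 128) (nat_lit 129) (nat_lit 125) (nat_lit 0) (nat_lit 10) (nat_lit 7) (nat_lit 0) (nat_lit 9) (nat_lit 7) (by decide +kernel)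
theorem L126683 : W_45 (nat_lit 3) (nat_lit 0x1a0018000c0003000000008000000000000000000) (nat_lit 0x0) (nat_lit 0x320000c00000000000000000000000000) := T_45 (nat_lit 107) (nat_lit 106) (nat_lit 3) (nat_lit 4) (nat_lit 6) L126682 (by decide +kernel)
theorem L126684 : W_45 (nat_lit 4) (nat_lit 0x1a0018000c0002000000008000000000000000000) (nat_lit 0x0) (nat_lit 0x320001c00080000000000000000000000) := T_45 (nat_lit 108) (nat_lit 91) (nat_lit 4) (nat_lit 7) (nat_lit 9) L126683 (by decide +kernel)
theorem L126685 : W_45 (nat_lit 5) (nat_lit 0x180018000c0002000000008000000000000000000) (nat_lit 0x0) (nat_lit 0x6000000320001c00080000000000000000000000) := T_45 (nat_lit 157) (nat_lit 158) (nat_lit 2) (nat_lit 4) (nat_lit 9) L126684 (by decide +kernel)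
theorem L126686 : W_45 (nat_lit 6) (nat_lit 0x100018000c0002000000008000000000000000000) (nat_lit 0x0) (nat_lit 0x10000e000000320001c00080000000000000000000000) := T_45 (nat_lit 159) (nat_lit 176) (nat_lit 5) (nat_lit 7) (nat_lit 6) L126685 (by decide +kernel)
theorem L126687 : W_45 (nat_lit 7) (nat_lit 0x100018000c0002000000000000000000000000000) (nat_lit 0x0) (nat_lit 0x10000e000000320001c00180008000000000000000000) := T_45 (nat_lit 75) (nat_lit 92) (nat_lit 7) (nat_lit 7) (nat_lit 4) L126686 (by decide +kernel)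
theorem L126688 : W_45 (nat_lit 8) (nat_lit 0x100018000c0000000000000000000000000000000) (nat_lit 0x0) (nat_lit 0x10000e000000320007c00380018000000000000000000) := Q_45 (nat_lit 109) (C_45 L123056 (C_45 L122711 (C_45 L126687 N_45))) (by decide +kernel)
theorem L126689 : W_45 (nat_lit 9) (nat_lit 0x18000c0000000000000000000000000000000) (nat_lit 0x0) (nat_lit 0xe000f0001e000000320007c00380018000000000000000000) := Q_45 (nat_lit 160) (C_45 L122699 (C_45 L122435 (C_45 L126688 N_45))) (by decide +kernel)
theorem L126690 : W_45 (nat_lit 2) (nat_lit 0x58003c001a000100000000000000000000000) (nat_lit 0x0) (nat_lit 0x4000080004000000000000000000) := D_45 (nat_lit 91) (nat_lit 74) (nat_lit 110) (nat_lit 4) (nat_lit 7) (nat_lit 8) (nat_lit 0) (nat_lit 10) (nat_lit 6) (by decide +kernel)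
theorem L126691 : W_45 (nat_lit 3) (nat_lit 0x58003c0012000100000000000000000000000) (nat_lit 0x0) (nat_lit 0x2000c000080004000000000000000000) := T_45 (nat_lit 111) (nat_lit 125) (nat_lit 2) (nat_lit 6) (nat_lit 7) L126690 (by decide +kernel)
theorem L126692 : W_45 (nat_lit 4) (nat_lit 0x58003c0002000100000000000000000000000) (nat_lit 0x0) (nat_lit 0x2003c000080004000000000000000000) := T_45 (nat_lit 112) (nat_lit 113) (nat_lit 2) (nat_lit 7) (nat_lit 7) L126691 (by decide +kernel)
theorem L126693 : W_45 (nat_lit 5) (nat_lit 0x58003c0002000000000000000000000000000) (nat_lit 0x0) (nat_lit 0x2003c00018000c000000000000000000) := T_45 (nat_lit 92) (nat_lit 75) (nat_lit 7) (nat_lit 7) (nat_lit 4) L126692 (by decide +kernel)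
theorem L126694 : W_45 (nat_lit 6) (nat_lit 0x18003c0002000000000000000000000000000) (nat_lit 0x0) (nat_lit 0xc00002003c00018000c000000000000000000) := T_45 (nat_lit 146) (nat_lit 147) (nat_lit 3) (nat_lit 7) (nat_lit 7) L126693 (by decide +kernel)
theorem L126695 : W_45 (nat_lit 7) (nat_lit 0x18003c0000000000000000000000000000000) (nat_lit 0x0) (nat_lit 0xc00002003f00018000c000000000000000000) := T_45 (nat_lit 109) (nat_lit 108) (nat_lit 0) (nat_lit 10) (nat_lit 7) L126694 (by decide +kernel)
theorem L126696 : W_45 (nat_lit 8) (nat_lit 0x18001c0000000000000000000000000000000) (nat_lit 0x0) (nat_lit 0xc00062003f00018000c000000000000000000) := T_45 (nat_lit 129) (nat_lit 130) (nat_lit 1) (nat_lit 11) (nat_lit 7) L126695 (by decide +kernel)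
theorem L126697 : W_45 (nat_lit 5) (nat_lit 0x18001c0000000000000000000000000000000) (nat_lit 0x0) (nat_lit 0x1000060003801d800080004000000000000000000) := Q_45 (nat_lit 125) (C_45 L122459 (C_45 L122463 N_45)) (by decide +kernel)
theorem L126698 : W_45 (nat_lit 9) (nat_lit 0x18000c0000000000000000000000000000000) (nat_lit 0x0) (nat_lit 0x1000c60073803f80018000c000000000000000000) := Q_45 (nat_lit 128) (C_45 L122442 (C_45 L126696 (C_45 L126697 N_45))) (by decide +kernel)
theorem L126699 : W_45 (nat_lit 2) (nat_lit 0x100018000c0002000100000000000000000000000) (nat_lit 0x0) (nat_lit 0x100008000400000000000000000000000000000000000) := D_45 (nat_lit 159) (nat_lit 176) (nat_lit 142) (nat_lit 5) (nat_lit 7) (nat_lit 6) (nat_lit 5) (nat_lit 7) (nat_lit 5) (by decide +kernel)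
theorem L126700 : W_45 (nat_lit 3) (nat_lit 0x100018000c0002000000000000000000000000000) (nat_lit 0x0) (nat_lit 0x100008000400000000000100008000000000000000000) := T_45 (nat_lit 92) (nat_lit 75) (nat_lit 7) (nat_lit 7) (nat_lit 4) L126699 (by decide +kernel)
theorem L126701 : W_45 (nat_lit 10) (nat_lit 0x100018000c0000000000000000000000000000000) (nat_lit 0x0) (nat_lit 0x10000e000700018007c003e0018000000000000000000) := Q_45 (nat_lit 109) (C_45 L123056 (C_45 L122719 (C_45 L126700 N_45))) (by decide +kernel)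
theorem L126702 : W_45 (nat_lit 11) (nat_lit 0x18000c0000000000000000000000000000000) (nat_lit 0x0) (nat_lit 0xe000f0001e000700018007c003e0018000000000000000000) := Q_45 (nat_lit 160) (C_45 L122699 (C_45 L122435 (C_45 L126701 N_45))) (by decide +kernel)
theorem L126703 : W_45 (nat_lit 2) (nat_lit 0x14001e000f0004800000000000000000000000000) (nat_lit 0x0) (nat_lit 0x100008000000000000000040000000000000000000000) := D_45 (nat_lit 159) (nat_lit 176) (nat_lit 90) (nat_lit 7) (nat_lit 5) (nat_lit 6) (nat_lit 7) (nat_lit 5) (nat_lit 5) (by decide +kernel)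
theorem L126704 : W_45 (nat_lit 3) (nat_lit 0x14001e000f0004000000000000000000000000000) (nat_lit 0x0) (nat_lit 0x100008000000000000c00040000000000000000000000) := T_45 (nat_lit 107) (nat_lit 106) (nat_lit 0) (nat_lit 8) (nat_lit 7) L126703 (by decide +kernel)
theorem L126705 : W_45 (nat_lit 4) (nat_lit 0x14001e000d0004000000000000000000000000000) (nat_lit 0x0) (nat_lit 0x100008000000020008c00040000000000000000000000) := T_45 (nat_lit 125) (nat_lit 111) (nat_lit 2) (nat_lit 5) (nat_lit 7) L126704 (by decide +kernel)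
theorem L126706 : W_45 (nat_lit 5) (nat_lit 0x14001e000c0004000000000000000000000000000) (nat_lit 0x0) (nat_lit 0x100008000000038008c00040000000000000000000000) := T_45 (nat_lit 124) (nat_lit 123) (nat_lit 0) (nat_lit 8) (nat_lit 8) L126705 (by decide +kernel)
theorem L126707 : W_45 (nat_lit 6) (nat_lit 0x10001e000c0004000000000000000000000000000) (nat_lit 0x0) (nat_lit 0x10000e000000038008c00040000000000000000000000) := T_45 (nat_lit 158) (nat_lit 157) (nat_lit 1) (nat_lit 8) (nat_lit 8) L126706 (by decide +kernel)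
theorem L126708 : W_45 (nat_lit 2) (nat_lit 0x100018000d0006000000000000000000000000000) (nat_lit 0x0) (nat_lit 0x28008000000000000000000000000000) := D_45 (nat_lit 125) (nat_lit 111) (nat_lit 123) (nat_lit 2) (nat_lit 5) (nat_lit 7) (nat_lit 3) (nat_lit 4) (nat_lit 7) (by decide +kernel)
theorem L126709 : W_45 (nat_lit 3) (nat_lit 0x100018000d0002000000000000000000000000000) (nat_lit 0x0) (nat_lit 0x2800c000200000000000000000000000) := T_45 (nat_lit 110) (nat_lit 93) (nat_lit 6) (nat_lit 7) (nat_lit 9) L126708 (by decide +kernel)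
theorem L126710 : W_45 (nat_lit 2) (nat_lit 0x10001a000d0000000000000000000000000000000) (nat_lit 0x0) (nat_lit 0x100028000000000000000000000000000000) := D_45 (nat_lit 125) (nat_lit 140) (nat_lit 123) (nat_lit 1) (nat_lit 8) (nat_lit 7) (nat_lit 3) (nat_lit 4) (nat_lit 7) (by decide +kernel)
theorem L126711 : W_45 (nat_lit 11) (nat_lit 0x10001a000d0000000000000000000000000000000) (nat_lit 0x0) (nat_lit 0x400070003c001f800fc00100008004c00260001000000000000000000) := Q_45 (nat_lit 158) (C_45 L122772 (C_45 L122739 (C_45 L122758 (C_45 L122768 (C_45 L122766 N_45))))) (by decide +kernel)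
theorem L126712 : W_45 (nat_lit 2) (nat_lit 0x10001a000d0004000000000000000000000000000) (nat_lit 0x0) (nat_lit 0x28008000000000000000000000000000) := D_45 (nat_lit 125) (nat_lit 123) (nat_lit 111) (nat_lit 3) (nat_lit 4) (nat_lit 7) (nat_lit 2) (nat_lit 5) (nat_lit 7) (by decide +kernel)
theorem L126713 : W_45 (nat_lit 3) (nat_lit 0x10001a000d0000000000000000000000000000000) (nat_lit 0x0) (nat_lit 0x2800c000200000000000000000000000) := T_45 (nat_lit 110) (nat_lit 93) (nat_lit 5) (nat_lit 8) (nat_lit 5) L126712 (by decide +kernel)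
theorem L126714 : W_45 (nat_lit 2) (nat_lit 0x10001a000f0000000000000000000000000000000) (nat_lit 0x0) (nat_lit 0xc000200000000000000000000000) := D_45 (nat_lit 110) (nat_lit 93) (nat_lit 111) (nat_lit 5) (nat_lit 8) (nat_lit 5) (nat_lit 2) (nat_lit 5) (nat_lit 7) (by decide +kernel)
theorem L126715 : W_45 (nat_lit 3) (nat_lit 0x10001a000d0000000000000000000000000000000) (nat_lit 0x0) (nat_lit 0x10002000c000200000000000000000000000) := T_45 (nat_lit 125) (nat_lit 140) (nat_lit 1) (nat_lit 8) (nat_lit 7) L126714 (by decide +kernel)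
theorem L126716 : W_45 (nat_lit 12) (nat_lit 0x10001a000c0000000000000000000000000000000) (nat_lit 0x0) (nat_lit 0x400070003c001f800fc0010003800cc00260001000000000000000000) := Q_45 (nat_lit 124) (C_45 L126710 (C_45 L126711 (C_45 L126713 (C_45 L126715 N_45)))) (by decide +kernel)
theorem L126717 : W_45 (nat_lit 7) (nat_lit 0x10001a000c0004000000000000000000000000000) (nat_lit 0x0) (nat_lit 0x10000e000400138008c00040000000000000000000000) := T_45 (nat_lit 142) (nat_lit 128) (nat_lit 2) (nat_lit 5) (nat_lit 8) L126707 (by decide +kernel)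
theorem L126718 : W_45 (nat_lit 8) (nat_lit 0x10001a000c0000000000000000000000000000000) (nat_lit 0x0) (nat_lit 0x10000e00040013800cc00240000000000000000000000) := T_45 (nat_lit 110) (nat_lit 93) (nat_lit 5) (nat_lit 8) (nat_lit 5) L126717 (by decide +kernel)
theorem L126719 : W_45 (nat_lit 13) (nat_lit 0x100018000c0000000000000000000000000000000) (nat_lit 0x0) (nat_lit 0x400070003c001f800fc0070013800cc00260001000000000000000000) := Q_45 (nat_lit 141) (C_45 L126716 (C_45 L122721 (C_45 L126718 N_45))) (by decide +kernel)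
theorem L126720 : W_45 (nat_lit 14) (nat_lit 0x18000c0000000000000000000000000000000) (nat_lit 0x0) (nat_lit 0x40007000fc00ff801fc0070013800ec00260001000000000000000000) := Q_45 (nat_lit 160) (C_45 L122699 (C_45 L122435 (C_45 L126719 N_45))) (by decide +kernel)
theorem L126721 : W_45 (nat_lit 2) (nat_lit 0x1c001c0003000380000000000000000000000) (nat_lit 0x0) (nat_lit 0x20000c00000000000000000000000000) := D_45 (nat_lit 107) (nat_lit 106) (nat_lit 125) (nat_lit 3) (nat_lit 4) (nat_lit 6) (nat_lit 0) (nat_lit 9) (nat_lit 7) (by decide +kernel)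
theorem L126722 : W_45 (nat_lit 3) (nat_lit 0x1c001c0002000380000000000000000000000) (nat_lit 0x0) (nat_lit 0x10000000020001c00000000000000000000000000) := T_45 (nat_lit 108) (nat_lit 160) (nat_lit 4) (nat_lit 7) (nat_lit 9) L126721 (by decide +kernel)
theorem L126723 : W_45 (nat_lit 4) (nat_lit 0x1c001c0002000300000000000000000000000) (nat_lit 0x0) (nat_lit 0x10000000020001c00080004000000000000000000) := T_45 (nat_lit 91) (nat_lit 74) (nat_lit 4) (nat_lit 7) (nat_lit 8) L126722 (by decide +kernel)
theorem L126724 : W_45 (nat_lit 5) (nat_lit 0x1c001c0002000100000000000000000000000) (nat_lit 0x0) (nat_lit 0x10000000020001c00280014000000000000000000) := T_45 (nat_lit 93) (nat_lit 76) (nat_lit 6) (nat_lit 7) (nat_lit 8) L126723 (by decide +kernel)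
theorem L126725 : W_45 (nat_lit 6) (nat_lit 0x1c001c0002000000000000000000000000000) (nat_lit 0x0) (nat_lit 0x10000000020001c0038001c000000000000000000) := T_45 (nat_lit 92) (nat_lit 75) (nat_lit 7) (nat_lit 7) (nat_lit 4) L126724 (by decide +kernel)
theorem L126726 : W_45 (nat_lit 7) (nat_lit 0x1c000c0002000000000000000000000000000) (nat_lit 0x0) (nat_lit 0x10000000320001c0038001c000000000000000000) := T_45 (nat_lit 128) (nat_lit 129) (nat_lit 1) (nat_lit 10) (nat_lit 7) L126725 (by decide +kernel)
theorem L126727 : W_45 (nat_lit 2) (nat_lit 0x10001c002c0003400000000000000000000000000) (nat_lit 0x0) (nat_lit 0x4000200000000000020000000000000000000000000000000) := D_45 (nat_lit 177) (nat_lit 125) (nat_lit 194) (nat_lit 4) (nat_lit 7) (nat_lit 10) (nat_lit 6) (nat_lit 7) (nat_lit 11) (by decide +kernel)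
theorem L126728 : W_45 (nat_lit 3) (nat_lit 0x1c002c0003400000000000000000000000000) (nat_lit 0x0) (nat_lit 0x4000200010000000020000000080000000000000000000000) := T_45 (nat_lit 160) (nat_lit 91) (nat_lit 4) (nat_lit 7) (nat_lit 9) L126727 (by decide +kernel)
theorem L126729 : W_45 (nat_lit 4) (nat_lit 0x1c002c0003000000000000000000000000000) (nat_lit 0x0) (nat_lit 0x4000200010000000020000c00080000000000000000000000) := T_45 (nat_lit 106) (nat_lit 107) (nat_lit 3) (nat_lit 4) (nat_lit 6) L126728 (by decide +kernel)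
theorem L126730 : W_45 (nat_lit 5) (nat_lit 0x1c000c0003000000000000000000000000000) (nat_lit 0x0) (nat_lit 0x4000200010000000320000c00080000000000000000000000) := T_45 (nat_lit 129) (nat_lit 128) (nat_lit 1) (nat_lit 10) (nat_lit 7) L126729 (by decide +kernel)
theorem L126731 : W_45 (nat_lit 2) (nat_lit 0x1c001c0003000000000000000000000000000) (nat_lit 0x0) (nat_lit 0x20000c00000000000000000000000000) := D_45 (nat_lit 107) (nat_lit 106) (nat_lit 125) (nat_lit 3) (nat_lit 4) (nat_lit 6) (nat_lit 0) (nat_lit 9) (nat_lit 7) (by decide +kernel)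
theorem L126732 : W_45 (nat_lit 3) (nat_lit 0x1c000c0003000000000000000000000000000) (nat_lit 0x0) (nat_lit 0x320000c00000000000000000000000000) := T_45 (nat_lit 128) (nat_lit 129) (nat_lit 1) (nat_lit 10) (nat_lit 7) L126731 (by decide +kernel)
theorem L126733 : W_45 (nat_lit 2) (nat_lit 0x200010001c002c0003400000000000000000000000000) (nat_lit 0x0) (nat_lit 0x2000100008000000000000000000000000000000000000000) := D_45 (nat_lit 176) (nat_lit 159) (nat_lit 193) (nat_lit 5) (nat_lit 7) (nat_lit 6) (nat_lit 5) (nat_lit 7) (nat_lit 7) (by decide +kernel)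
theorem L126734 : W_45 (nat_lit 3) (nat_lit 0x10001c002c0003400000000000000000000000000) (nat_lit 0x0) (nat_lit 0x6000300008000000000000000000000000000000000000000) := T_45 (nat_lit 177) (nat_lit 194) (nat_lit 6) (nat_lit 7) (nat_lit 11) L126733 (by decide +kernel)
theorem L126735 : W_45 (nat_lit 4) (nat_lit 0x10001c000c0003400000000000000000000000000) (nat_lit 0x0) (nat_lit 0x6000300008000000300000000000000000000000000000000) := T_45 (nat_lit 129) (nat_lit 128) (nat_lit 1) (nat_lit 10) (nat_lit 7) L126734 (by decide +kernel)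
theorem L126736 : W_45 (nat_lit 5) (nat_lit 0x1c000c0003400000000000000000000000000) (nat_lit 0x0) (nat_lit 0x6000300018000000300000000080000000000000000000000) := T_45 (nat_lit 160) (nat_lit 91) (nat_lit 4) (nat_lit 7) (nat_lit 9) L126735 (by decide +kernel)
theorem L126737 : W_45 (nat_lit 6) (nat_lit 0x1c000c0003000000000000000000000000000) (nat_lit 0x0) (nat_lit 0x6000300018000000300000c00080000000000000000000000) := T_45 (nat_lit 106) (nat_lit 107) (nat_lit 3) (nat_lit 4) (nat_lit 6) L126736 (by decide +kernel)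
theorem L126738 : W_45 (nat_lit 3) (nat_lit 0x1c000c0003000000000000000000000000000) (nat_lit 0x0) (nat_lit 0x4000200010000000020000000080000000000000000000000) := T_45 (nat_lit 160) (nat_lit 91) (nat_lit 4) (nat_lit 7) (nat_lit 9) L124842 (by decide +kernel)
theorem L126739 : W_45 (nat_lit 7) (nat_lit 0x1c000c0002000000000000000000000000000) (nat_lit 0x0) (nat_lit 0x6000300018000000320001c00080000000000000000000000) := Q_45 (nat_lit 108) (C_45 L126730 (C_45 L126732 (C_45 L126737 (C_45 L126738 N_45)))) (by decide +kernel)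
theorem L126740 : W_45 (nat_lit 8) (nat_lit 0x1c000c0000000000000000000000000000000) (nat_lit 0x0) (nat_lit 0x6000300018000000320003c0038001c000000000000000000) := Q_45 (nat_lit 109) (C_45 L126580 (C_45 L126726 (C_45 L126739 N_45))) (by decide +kernel)
theorem L126741 : W_45 (nat_lit 2) (nat_lit 0x100008001d000c0000000000000000000000000000000) (nat_lit 0x0) (nat_lit 0x20002000100000000000000000000000) := D_45 (nat_lit 109) (nat_lit 92) (nat_lit 125) (nat_lit 5) (nat_lit 7) (nat_lit 5) (nat_lit 6) (nat_lit 6) (nat_lit 10) (by decide +kernel)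
theorem L126742 : W_45 (nat_lit 3) (nat_lit 0x8001d000c0000000000000000000000000000000) (nat_lit 0x0) (nat_lit 0x2000100000000000020002000100000000000000000000000) := T_45 (nat_lit 176) (nat_lit 193) (nat_lit 6) (nat_lit 6) (nat_lit 11) L126741 (by decide +kernel)
theorem L126743 : W_45 (nat_lit 4) (nat_lit 0x8001c000c0000000000000000000000000000000) (nat_lit 0x0) (nat_lit 0x2000100000000300020002000100000000000000000000000) := T_45 (nat_lit 140) (nat_lit 141) (nat_lit 2) (nat_lit 4) (nat_lit 8) L126742 (by decide +kernel)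
theorem L126744 : W_45 (nat_lit 2) (nat_lit 0x100008001e000d0000000100000000000000000000000) (nat_lit 0x0) (nat_lit 0x6000000000000800000000000000000000000000) := D_45 (nat_lit 158) (nat_lit 157) (nat_lit 107) (nat_lit 1) (nat_lit 8) (nat_lit 8) (nat_lit 7) (nat_lit 5) (nat_lit 6) (by decide +kernel)
theorem L126745 : W_45 (nat_lit 3) (nat_lit 0x100008001e000c0000000100000000000000000000000) (nat_lit 0x0) (nat_lit 0x6000000018000800000000000000000000000000) := T_45 (nat_lit 124) (nat_lit 123) (nat_lit 0) (nat_lit 8) (nat_lit 8) L126744 (by decide +kernel)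
theorem L126746 : W_45 (nat_lit 4) (nat_lit 0x8001e000c0000000100000000000000000000000) (nat_lit 0x0) (nat_lit 0x2000100006000000018000800000000000000000000000000) := T_45 (nat_lit 176) (nat_lit 193) (nat_lit 6) (nat_lit 6) (nat_lit 11) L126745 (by decide +kernel)
theorem L126747 : W_45 (nat_lit 5) (nat_lit 0x8001c000c0000000100000000000000000000000) (nat_lit 0x0) (nat_lit 0x2000100006000300018000800000000000000000000000000) := T_45 (nat_lit 141) (nat_lit 140) (nat_lit 2) (nat_lit 4) (nat_lit 8) L126746 (by decide +kernel)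
theorem L126748 : W_45 (nat_lit 6) (nat_lit 0x8001c000c0000000000000000000000000000000) (nat_lit 0x0) (nat_lit 0x2000100006000300018002800100000000000000000000000) := T_45 (nat_lit 92) (nat_lit 109) (nat_lit 5) (nat_lit 7) (nat_lit 5) L126747 (by decide +kernel)
theorem L126749 : W_45 (nat_lit 2) (nat_lit 0x200000000c001e000d0000800000000000000000000000000) (nat_lit 0x0) (nat_lit 0x20000400020000000000000000000000) := D_45 (nat_lit 106) (nat_lit 125) (nat_lit 89) (nat_lit 0) (nat_lit 8) (nat_lit 7) (nat_lit 4) (nat_lit 5) (nat_lit 9) (by decide +kernel)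
theorem L126750 : W_45 (nat_lit 3) (nat_lit 0x200000000c001e000d0000000000000000000000000000000) (nat_lit 0x0) (nat_lit 0x20000c00060000000000000000000000) := T_45 (nat_lit 107) (nat_lit 90) (nat_lit 7) (nat_lit 5) (nat_lit 5) L126749 (by decide +kernel)
theorem L126751 : W_45 (nat_lit 4) (nat_lit 0x200000000c001e000c0000000000000000000000000000000) (nat_lit 0x0) (nat_lit 0x38000c00060000000000000000000000) := T_45 (nat_lit 124) (nat_lit 123) (nat_lit 0) (nat_lit 8) (nat_lit 8) L126750 (by decide +kernel)
theorem L126752 : W_45 (nat_lit 5) (nat_lit 0x2000000008001e000c0000000000000000000000000000000) (nat_lit 0x0) (nat_lit 0x6000000038000c00060000000000000000000000) := T_45 (nat_lit 158) (nat_lit 157) (nat_lit 1) (nat_lit 8) (nat_lit 8) L126751 (by decide +kernel)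
theorem L126753 : W_45 (nat_lit 6) (nat_lit 0x2000000008001c000c0000000000000000000000000000000) (nat_lit 0x0) (nat_lit 0x6000300038000c00060000000000000000000000) := T_45 (nat_lit 141) (nat_lit 140) (nat_lit 2) (nat_lit 4) (nat_lit 8) L126752 (by decide +kernel)
theorem L126754 : W_45 (nat_lit 7) (nat_lit 0x8001c000c0000000000000000000000000000000) (nat_lit 0x0) (nat_lit 0x2000100006000300038000c00060000000000000000000000) := T_45 (nat_lit 193) (nat_lit 176) (nat_lit 6) (nat_lit 6) (nat_lit 11) L126753 (by decide +kernel)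
theorem L126755 : W_45 (nat_lit 3) (nat_lit 0x8001c000c0000000000000000000000000000000) (nat_lit 0x0) (nat_lit 0x2000100010000000000002000100000000000000000000000) := T_45 (nat_lit 109) (nat_lit 92) (nat_lit 5) (nat_lit 7) (nat_lit 5) L125443 (by decide +kernel)
theorem L126756 : W_45 (nat_lit 2) (nat_lit 0xc001e000d0000800100000000000000000000000) (nat_lit 0x0) (nat_lit 0x20000400020000000000000000000000) := D_45 (nat_lit 106) (nat_lit 125) (nat_lit 89) (nat_lit 0) (nat_lit 8) (nat_lit 7) (nat_lit 4) (nat_lit 5) (nat_lit 9) (by decide +kernel)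
theorem L126757 : W_45 (nat_lit 3) (nat_lit 0xc001e000d0000000100000000000000000000000) (nat_lit 0x0) (nat_lit 0x20000c00060000000000000000000000) := T_45 (nat_lit 107) (nat_lit 90) (nat_lit 7) (nat_lit 5) (nat_lit 5) L126756 (by decide +kernel)
theorem L126758 : W_45 (nat_lit 4) (nat_lit 0x8001e000d0000000100000000000000000000000) (nat_lit 0x0) (nat_lit 0x6000000020000c00060000000000000000000000) := T_45 (nat_lit 158) (nat_lit 157) (nat_lit 1) (nat_lit 8) (nat_lit 8) L126757 (by decide +kernel)
theorem L126759 : W_45 (nat_lit 5) (nat_lit 0x8001e000c0000000100000000000000000000000) (nat_lit 0x0) (nat_lit 0x6000000038000c00060000000000000000000000) := T_45 (nat_lit 124) (nat_lit 123) (nat_lit 0) (nat_lit 8) (nat_lit 8) L126758 (by decide +kernel)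
theorem L126760 : W_45 (nat_lit 6) (nat_lit 0x8001e000c0000000000000000000000000000000) (nat_lit 0x0) (nat_lit 0x6000000038002c00160000000000000000000000) := T_45 (nat_lit 92) (nat_lit 109) (nat_lit 5) (nat_lit 7) (nat_lit 5) L126759 (by decide +kernel)
theorem L126761 : W_45 (nat_lit 7) (nat_lit 0x8001c000c0000000000000000000000000000000) (nat_lit 0x0) (nat_lit 0x6000300038002c00160000000000000000000000) := T_45 (nat_lit 141) (nat_lit 140) (nat_lit 2) (nat_lit 4) (nat_lit 8) L126760 (by decide +kernel)
theorem L126762 : W_45 (nat_lit 8) (nat_lit 0x1c000c0000000000000000000000000000000) (nat_lit 0x0) (nat_lit 0x200010001e000300038002c00160000000000000000000000) := Q_45 (nat_lit 159) (C_45 L126743 (C_45 L126748 (C_45 L126754 (C_45 L126755 (C_45 L126761 N_45))))) (by decide +kernel)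
theorem L126763 : W_45 (nat_lit 9) (nat_lit 0x18000c0000000000000000000000000000000) (nat_lit 0x0) (nat_lit 0x600030001e000700338003c003e001c000000000000000000) := Q_45 (nat_lit 142) (C_45 L126740 (C_45 L122492 (C_45 L126762 N_45))) (by decide +kernel)
theorem L126764 : W_45 (nat_lit 15) (nat_lit 0x10000c0000000000000000000000000000000) (nat_lit 0x0) (nat_lit 0x40007000fc00ff801fc0cf0073803fc003f001f000000000000000000) := Q_45 (nat_lit 143) (C_45 L126579 (C_45 L126651 (C_45 L123063 (C_45 L126681 (C_45 L126689 (C_45 L126698 (C_45 L126702 (C_45 L126720 (C_45 L126763 N_45))))))))) (by decide +kernel)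
theorem L126765 : W_45 (nat_lit 18) (nat_lit 0x10000c0000000000000000000000000000000) (nat_lit 0x0) (nat_lit 0x120009001cf8073807fc0ffe07ff03ff803f8007c00000) := Q_45 (nat_lit 128) (C_45 L124370 (C_45 L124532 (C_45 L124391 (C_45 L124442 (C_45 L124246 N_45))))) (by decide +kernel)
theorem L126766 : W_45 (nat_lit 11) (nat_lit 0x10001e0000000000000000000000000000000) (nat_lit 0x0) (nat_lit 0x100018000e0000001f800dc002c000600000000000000) := Q_45 (nat_lit 109) (C_45 L122118 (C_45 L126009 (C_45 L123051 N_45))) (by decide +kernel)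
theorem L126767 : W_45 (nat_lit 12) (nat_lit 0x10001c0000000000000000000000000000000) (nat_lit 0x0) (nat_lit 0x100018000f0003001fc00dc002c000600000000000000) := Q_45 (nat_lit 125) (C_45 L122944 (C_45 L124424 (C_45 L126766 (C_45 L123002 N_45)))) (by decide +kernel)
theorem L126768 : W_45 (nat_lit 13) (nat_lit 0x10000c0000000000000000000000000000000) (nat_lit 0x0) (nat_lit 0x110009801cf8073807fc00dc002c000600000000000000) := Q_45 (nat_lit 128) (C_45 L123750 (C_45 L123023 (C_45 L124399 (C_45 L124391 (C_45 L123037 (C_45 L126767 (C_45 L123016 N_45))))))) (by decide +kernel)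
theorem L126769 : W_45 (nat_lit 2) (nat_lit 0x10001c0018000000000000000000000000000) (nat_lit 0x0) (nat_lit 0x64000000000000000000000000000) := D_45 (nat_lit 113) (nat_lit 114) (nat_lit 110) (nat_lit 1) (nat_lit 12) (nat_lit 6) (nat_lit 1) (nat_lit 11) (nat_lit 6) (by decide +kernel)
theorem L126770 : W_45 (nat_lit 3) (nat_lit 0x10001c0008000000000000000000000000000) (nat_lit 0x0) (nat_lit 0x20074000000000000000000000000000) := T_45 (nat_lit 112) (nat_lit 125) (nat_lit 2) (nat_lit 6) (nat_lit 7) L126769 (by decide +kernel)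
theorem L126771 : W_45 (nat_lit 2) (nat_lit 0x10001c0008000780008000000000000000000) (nat_lit 0x0) (nat_lit 0x800006000000000000000000) := D_45 (nat_lit 74) (nat_lit 73) (nat_lit 95) (nat_lit 0) (nat_lit 9) (nat_lit 5) (nat_lit 0) (nat_lit 10) (nat_lit 5) (by decide +kernel)
theorem L126772 : W_45 (nat_lit 3) (nat_lit 0x10001c0008000700008000000000000000000) (nat_lit 0x0) (nat_lit 0x10000880006000000000000000000) := T_45 (nat_lit 91) (nat_lit 112) (nat_lit 3) (nat_lit 6) (nat_lit 5) L126771 (by decide +kernel)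
theorem L126773 : W_45 (nat_lit 4) (nat_lit 0x10001c0008000500008000000000000000000) (nat_lit 0x0) (nat_lit 0x14000a80006000000000000000000) := T_45 (nat_lit 93) (nat_lit 110) (nat_lit 4) (nat_lit 8) (nat_lit 8) L126772 (by decide +kernel)
theorem L126774 : W_45 (nat_lit 5) (nat_lit 0x10001c0008000500000000000000000000000) (nat_lit 0x0) (nat_lit 0x16000a8000e000000000000000000) := T_45 (nat_lit 75) (nat_lit 109) (nat_lit 7) (nat_lit 7) (nat_lit 4) L126773 (by decide +kernel)
theorem L126775 : W_45 (nat_lit 6) (nat_lit 0x10001c0008000100000000000000000000000) (nat_lit 0x0) (nat_lit 0x16000e8002e000000000000000000) := T_45 (nat_lit 94) (nat_lit 77) (nat_lit 5) (nat_lit 9) (nat_lit 4) L126774 (by decide +kernel)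
theorem L126776 : W_45 (nat_lit 2) (nat_lit 0x10001c000c000300020000000000000000000) (nat_lit 0x0) (nat_lit 0x800000000000000010001000000000000000) := D_45 (nat_lit 76) (nat_lit 143) (nat_lit 60) (nat_lit 5) (nat_lit 8) (nat_lit 4) (nat_lit 6) (nat_lit 8) (nat_lit 7) (by decide +kernel)
theorem L126777 : W_45 (nat_lit 2) (nat_lit 0x10001c000c000300000000000000000000000) (nat_lit 0x0) (nat_lit 0x800000000000000010000800000000000000) := D_45 (nat_lit 76) (nat_lit 143) (nat_lit 59) (nat_lit 5) (nat_lit 8) (nat_lit 4) (nat_lit 7) (nat_lit 8) (nat_lit 3) (by decide +kernel)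
theorem L126778 : W_45 (nat_lit 3) (nat_lit 0x10001c000c000100000000000000000000000) (nat_lit 0x0) (nat_lit 0x800000000000200018000800000000000000) := T_45 (nat_lit 93) (nat_lit 75) (nat_lit 4) (nat_lit 8) (nat_lit 8) L126777 (by decide +kernel)
theorem L126779 : W_45 (nat_lit 3) (nat_lit 0x10001c0008000300020000000000000000000) (nat_lit 0x0) (nat_lit 0x800000004000000018001000000000000000) := T_45 (nat_lit 110) (nat_lit 75) (nat_lit 4) (nat_lit 8) (nat_lit 8) L126776 (by decide +kernel)
theorem L126780 : W_45 (nat_lit 4) (nat_lit 0x10001c0008000300000000000000000000000) (nat_lit 0x0) (nat_lit 0x800000004000400038001000000000000000) := T_45 (nat_lit 77) (nat_lit 94) (nat_lit 5) (nat_lit 9) (nat_lit 4) L126779 (by decide +kernel)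
theorem L126781 : W_45 (nat_lit 3) (nat_lit 0x10001c0008000300000000000000000000000) (nat_lit 0x0) (nat_lit 0x800000004000000018000800000000000000) := T_45 (nat_lit 110) (nat_lit 75) (nat_lit 4) (nat_lit 8) (nat_lit 8) L126777 (by decide +kernel)
theorem L126782 : W_45 (nat_lit 8) (nat_lit 0x10001c0008000300000000000000000000000) (nat_lit 0x0) (nat_lit 0x11c00cf003e000000000000000000) := T_45 (nat_lit 94) (nat_lit 77) (nat_lit 5) (nat_lit 9) (nat_lit 4) L123861 (by decide +kernel)
theorem L126783 : W_45 (nat_lit 2) (nat_lit 0x10001c000c000700000000000000000000000) (nat_lit 0x0) (nat_lit 0x100000c0000000000000000000000) := D_45 (nat_lit 91) (nat_lit 90) (nat_lit 112) (nat_lit 3) (nat_lit 5) (nat_lit 5) (nat_lit 3) (nat_lit 6) (nat_lit 5) (by decide +kernel)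
theorem L126784 : W_45 (nat_lit 3) (nat_lit 0x10001c0008000700000000000000000000000) (nat_lit 0x0) (nat_lit 0x140000c0008000000000000000000) := T_45 (nat_lit 110) (nat_lit 75) (nat_lit 4) (nat_lit 8) (nat_lit 8) L126783 (by decide +kernel)
theorem L126785 : W_45 (nat_lit 4) (nat_lit 0x10001c0008000300000000000000000000000) (nat_lit 0x0) (nat_lit 0x140004c0028000000000000000000) := T_45 (nat_lit 94) (nat_lit 77) (nat_lit 5) (nat_lit 9) (nat_lit 4) L126784 (by decide +kernel)
theorem L126786 : W_45 (nat_lit 4) (nat_lit 0x10001c0008000700000000000000000000000) (nat_lit 0x0) (nat_lit 0x15c000c0000000000000000000000) := T_45 (nat_lit 91) (nat_lit 112) (nat_lit 3) (nat_lit 6) (nat_lit 5) L124157 (by decide +kernel)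
theorem L126787 : W_45 (nat_lit 5) (nat_lit 0x10001c0008000300000000000000000000000) (nat_lit 0x0) (nat_lit 0x15c004c0020000000000000000000) := T_45 (nat_lit 94) (nat_lit 77) (nat_lit 5) (nat_lit 9) (nat_lit 4) L126786 (by decide +kernel)
theorem L126788 : W_45 (nat_lit 9) (nat_lit 0x10001c0008000100000000000000000000000) (nat_lit 0x0) (nat_lit 0x800000015c00ef003e001800000000000000) := Q_45 (nat_lit 93) (C_45 L126780 (C_45 L126781 (C_45 L126782 (C_45 L126785 (C_45 L126787 N_45))))) (by decide +kernel)
theorem L126789 : W_45 (nat_lit 3) (nat_lit 0x10001c000c000100000000000000000000000) (nat_lit 0x0) (nat_lit 0x32000080008000000000000000000) := T_45 (nat_lit 109) (nat_lit 75) (nat_lit 7) (nat_lit 7) (nat_lit 4) L123135 (by decide +kernel)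
theorem L126790 : W_45 (nat_lit 2) (nat_lit 0x10001c001c000380000000000000000000000) (nat_lit 0x0) (nat_lit 0x800000000000000010000800000000000000) := D_45 (nat_lit 76) (nat_lit 143) (nat_lit 59) (nat_lit 5) (nat_lit 8) (nat_lit 4) (nat_lit 7) (nat_lit 8) (nat_lit 3) (by decide +kernel)
theorem L126791 : W_45 (nat_lit 3) (nat_lit 0x10001c001c000180000000000000000000000) (nat_lit 0x0) (nat_lit 0x800000000000240010000800000000000000) := T_45 (nat_lit 93) (nat_lit 90) (nat_lit 3) (nat_lit 5) (nat_lit 5) L126790 (by decide +kernel)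
theorem L126792 : W_45 (nat_lit 4) (nat_lit 0x10001c001c000100000000000000000000000) (nat_lit 0x0) (nat_lit 0x8000000020002c0010000800000000000000) := T_45 (nat_lit 91) (nat_lit 109) (nat_lit 0) (nat_lit 10) (nat_lit 6) L126791 (by decide +kernel)
theorem L126793 : W_45 (nat_lit 5) (nat_lit 0x10001c000c000100000000000000000000000) (nat_lit 0x0) (nat_lit 0x8000000320002c0010000800000000000000) := T_45 (nat_lit 112) (nat_lit 113) (nat_lit 1) (nat_lit 11) (nat_lit 6) L126792 (by decide +kernel)
theorem L126794 : W_45 (nat_lit 6) (nat_lit 0x10001c0008000100000000000000000000000) (nat_lit 0x0) (nat_lit 0x8000000360002c0018000800000000000000) := Q_45 (nat_lit 110) (C_45 L126789 (C_45 L126778 (C_45 L126793 N_45))) (by decide +kernel)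
theorem L126795 : W_45 (nat_lit 2) (nat_lit 0x18001c000a000100020000000000000000000) (nat_lit 0x0) (nat_lit 0x8000600000000000000000000000000000000000) := D_45 (nat_lit 142) (nat_lit 141) (nat_lit 159) (nat_lit 2) (nat_lit 5) (nat_lit 8) (nat_lit 5) (nat_lit 7) (nat_lit 5) (by decide +kernel)
theorem L126796 : W_45 (nat_lit 2) (nat_lit 0x2000100018001c005a000180020000000000000000000) (nat_lit 0x0) (nat_lit 0x2000100008000000000000000000000000000000000000000) := D_45 (nat_lit 176) (nat_lit 159) (nat_lit 193) (nat_lit 5) (nat_lit 7) (nat_lit 6) (nat_lit 5) (nat_lit 7) (nat_lit 7) (by decide +kernel)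
theorem L126797 : W_45 (nat_lit 3) (nat_lit 0x100018001c005a000180020000000000000000000) (nat_lit 0x0) (nat_lit 0x6000300008000000000000000000000000000000000000000) := T_45 (nat_lit 177) (nat_lit 194) (nat_lit 6) (nat_lit 7) (nat_lit 11) L126796 (by decide +kernel)
theorem L126798 : W_45 (nat_lit 4) (nat_lit 0x100018001c001a000180020000000000000000000) (nat_lit 0x0) (nat_lit 0x6000300008000000000060000000000000000000000000000) := T_45 (nat_lit 114) (nat_lit 113) (nat_lit 1) (nat_lit 12) (nat_lit 6) L126797 (by decide +kernel)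
theorem L126799 : W_45 (nat_lit 5) (nat_lit 0x18001c001a000180020000000000000000000) (nat_lit 0x0) (nat_lit 0x6000300018000000000061000000000000000000000000000) := T_45 (nat_lit 160) (nat_lit 108) (nat_lit 4) (nat_lit 7) (nat_lit 9) L126798 (by decide +kernel)
theorem L126800 : W_45 (nat_lit 6) (nat_lit 0x18001c000a000180020000000000000000000) (nat_lit 0x0) (nat_lit 0x6000300018000000000075000000000000000000000000000) := T_45 (nat_lit 112) (nat_lit 110) (nat_lit 0) (nat_lit 10) (nat_lit 6) L126799 (by decide +kernel)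
theorem L126801 : W_45 (nat_lit 7) (nat_lit 0x18001c000a000100020000000000000000000) (nat_lit 0x0) (nat_lit 0x6000300018000000000075000080004000000000000000000) := T_45 (nat_lit 91) (nat_lit 74) (nat_lit 4) (nat_lit 7) (nat_lit 8) L126800 (by decide +kernel)
theorem L126802 : W_45 (nat_lit 2) (nat_lit 0x18001c000e000180020000000000000000000) (nat_lit 0x0) (nat_lit 0x200010000000000001000000000000000000000000000) := D_45 (nat_lit 160) (nat_lit 108) (nat_lit 177) (nat_lit 4) (nat_lit 7) (nat_lit 9) (nat_lit 6) (nat_lit 7) (nat_lit 10) (by decide +kernel)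
theorem L126803 : W_45 (nat_lit 3) (nat_lit 0x18001c000a000180020000000000000000000) (nat_lit 0x0) (nat_lit 0x200010000000000015000000000000000000000000000) := T_45 (nat_lit 110) (nat_lit 112) (nat_lit 0) (nat_lit 10) (nat_lit 6) L126802 (by decide +kernel)
theorem L126804 : W_45 (nat_lit 4) (nat_lit 0x18001c000a000100020000000000000000000) (nat_lit 0x0) (nat_lit 0x200010000000000015000080004000000000000000000) := T_45 (nat_lit 91) (nat_lit 74) (nat_lit 4) (nat_lit 7) (nat_lit 8) L126803 (by decide +kernel)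
theorem L126805 : W_45 (nat_lit 8) (nat_lit 0x10001c000a000100020000000000000000000) (nat_lit 0x0) (nat_lit 0x6000300018000e00000075000080004000000000000000000) := Q_45 (nat_lit 143) (C_45 L126795 (C_45 L126801 (C_45 L126804 N_45))) (by decide +kernel)
theorem L126806 : W_45 (nat_lit 9) (nat_lit 0x10001c0008000100020000000000000000000) (nat_lit 0x0) (nat_lit 0x6000300018000e0000007700008000c000000000000000000) := T_45 (nat_lit 109) (nat_lit 75) (nat_lit 7) (nat_lit 7) (nat_lit 4) L126805 (by decide +kernel)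
theorem L126807 : W_45 (nat_lit 10) (nat_lit 0x10001c0008000100000000000000000000000) (nat_lit 0x0) (nat_lit 0x6000300018000e0000007700048002c000000000000000000) := T_45 (nat_lit 77) (nat_lit 94) (nat_lit 5) (nat_lit 9) (nat_lit 4) L126806 (by decide +kernel)
theorem L126808 : W_45 (nat_lit 2) (nat_lit 0x10001c0008001f00008000000000000000000) (nat_lit 0x0) (nat_lit 0x1c0000000000000000000) := D_45 (nat_lit 79) (nat_lit 78) (nat_lit 80) (nat_lit 2) (nat_lit 7) (nat_lit 5) (nat_lit 2) (nat_lit 8) (nat_lit 5) (by decide +kernel)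
theorem L126809 : W_45 (nat_lit 3) (nat_lit 0x10001c0008000f00008000000000000000000) (nat_lit 0x0) (nat_lit 0x10001d0000000000000000000) := T_45 (nat_lit 96) (nat_lit 76) (nat_lit 0) (nat_lit 11) (nat_lit 5) L126808 (by decide +kernel)
theorem L126810 : W_45 (nat_lit 4) (nat_lit 0x10001c0008000700008000000000000000000) (nat_lit 0x0) (nat_lit 0x18001d4000000000000000000) := T_45 (nat_lit 95) (nat_lit 74) (nat_lit 0) (nat_lit 10) (nat_lit 5) L126809 (by decide +kernel)
theorem L126811 : W_45 (nat_lit 5) (nat_lit 0x10001c0008000300008000000000000000000) (nat_lit 0x0) (nat_lit 0x1c001f4000000000000000000) := T_45 (nat_lit 94) (nat_lit 77) (nat_lit 5) (nat_lit 9) (nat_lit 4) L126810 (by decide +kernel)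
theorem L126812 : W_45 (nat_lit 6) (nat_lit 0x10001c0008000100008000000000000000000) (nat_lit 0x0) (nat_lit 0x4001e001f4000000000000000000) := T_45 (nat_lit 93) (nat_lit 110) (nat_lit 4) (nat_lit 8) (nat_lit 8) L126811 (by decide +kernel)
theorem L126813 : W_45 (nat_lit 7) (nat_lit 0x10001c0008000100000000000000000000000) (nat_lit 0x0) (nat_lit 0x6001e001fc000000000000000000) := T_45 (nat_lit 75) (nat_lit 109) (nat_lit 7) (nat_lit 7) (nat_lit 4) L126812 (by decide +kernel)
theorem L126814 : W_45 (nat_lit 2) (nat_lit 0x10001c0038000500000000000000000000000) (nat_lit 0x0) (nat_lit 0xa80000000000000000000000) := D_45 (nat_lit 93) (nat_lit 91) (nat_lit 95) (nat_lit 3) (nat_lit 6) (nat_lit 5) (nat_lit 3) (nat_lit 7) (nat_lit 5) (by decide +kernel)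
theorem L126815 : W_45 (nat_lit 3) (nat_lit 0x10001c0018000500000000000000000000000) (nat_lit 0x0) (nat_lit 0x60000a80000000000000000000000) := T_45 (nat_lit 113) (nat_lit 114) (nat_lit 1) (nat_lit 12) (nat_lit 6) L126814 (by decide +kernel)
theorem L126816 : W_45 (nat_lit 4) (nat_lit 0x10001c0018000100000000000000000000000) (nat_lit 0x0) (nat_lit 0x60000e80020000000000000000000) := T_45 (nat_lit 94) (nat_lit 77) (nat_lit 5) (nat_lit 9) (nat_lit 4) L126815 (by decide +kernel)
theorem L126817 : W_45 (nat_lit 7) (nat_lit 0x10001c0008000580000000000000000000000) (nat_lit 0x0) (nat_lit 0x11c00a7001e000000000000000000) := T_45 (nat_lit 93) (nat_lit 112) (nat_lit 3) (nat_lit 6) (nat_lit 5) L123860 (by decide +kernel)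
theorem L126818 : W_45 (nat_lit 8) (nat_lit 0x10001c0008000180000000000000000000000) (nat_lit 0x0) (nat_lit 0x11c00e7003e000000000000000000) := T_45 (nat_lit 94) (nat_lit 77) (nat_lit 5) (nat_lit 9) (nat_lit 4) L126817 (by decide +kernel)
theorem L126819 : W_45 (nat_lit 2) (nat_lit 0x10001c0008000180038000000000000000000) (nat_lit 0x0) (nat_lit 0x60004000000000000000000) := D_45 (nat_lit 90) (nat_lit 74) (nat_lit 89) (nat_lit 1) (nat_lit 9) (nat_lit 4) (nat_lit 2) (nat_lit 4) (nat_lit 5) (by decide +kernel)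
theorem L126820 : W_45 (nat_lit 3) (nat_lit 0x10001c0008000180028000000000000000000) (nat_lit 0x0) (nat_lit 0x60054000000000000000000) := T_45 (nat_lit 76) (nat_lit 78) (nat_lit 1) (nat_lit 10) (nat_lit 4) L126819 (by decide +kernel)
theorem L126821 : W_45 (nat_lit 4) (nat_lit 0x10001c0008000180020000000000000000000) (nat_lit 0x0) (nat_lit 0x200006005c000000000000000000) := T_45 (nat_lit 75) (nat_lit 109) (nat_lit 7) (nat_lit 7) (nat_lit 4) L126820 (by decide +kernel)
theorem L126822 : W_45 (nat_lit 5) (nat_lit 0x10001c0008000180000000000000000000000) (nat_lit 0x0) (nat_lit 0x200046007c000000000000000000) := T_45 (nat_lit 77) (nat_lit 94) (nat_lit 5) (nat_lit 9) (nat_lit 4) L126821 (by decide +kernel)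
theorem L126823 : W_45 (nat_lit 2) (nat_lit 0x18001c000a000180000000000000000000000) (nat_lit 0x0) (nat_lit 0x8000600000000000000000000000000000000000) := D_45 (nat_lit 142) (nat_lit 141) (nat_lit 159) (nat_lit 2) (nat_lit 5) (nat_lit 8) (nat_lit 5) (nat_lit 7) (nat_lit 5) (by decide +kernel)
theorem L126824 : W_45 (nat_lit 3) (nat_lit 0x10001c000a000180000000000000000000000) (nat_lit 0x0) (nat_lit 0x8000e00000000000000004000000000000000000) := T_45 (nat_lit 143) (nat_lit 74) (nat_lit 4) (nat_lit 7) (nat_lit 8) L126823 (by decide +kernel)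
theorem L126825 : W_45 (nat_lit 4) (nat_lit 0x10001c0008000180000000000000000000000) (nat_lit 0x0) (nat_lit 0x8000e0000000200000000c000000000000000000) := T_45 (nat_lit 109) (nat_lit 75) (nat_lit 7) (nat_lit 7) (nat_lit 4) L126824 (by decide +kernel)
theorem L126826 : W_45 (nat_lit 2) (nat_lit 0x10001c0008000180038000000000000000000) (nat_lit 0x0) (nat_lit 0x260000000000000000000000) := D_45 (nat_lit 90) (nat_lit 89) (nat_lit 93) (nat_lit 2) (nat_lit 4) (nat_lit 5) (nat_lit 2) (nat_lit 5) (nat_lit 5) (by decide +kernel)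
theorem L126827 : W_45 (nat_lit 3) (nat_lit 0x10001c0008000180028000000000000000000) (nat_lit 0x0) (nat_lit 0x260050000000000000000000) := T_45 (nat_lit 76) (nat_lit 78) (nat_lit 1) (nat_lit 10) (nat_lit 4) L126826 (by decide +kernel)
theorem L126828 : W_45 (nat_lit 4) (nat_lit 0x10001c0008000180008000000000000000000) (nat_lit 0x0) (nat_lit 0x660070000000000000000000) := T_45 (nat_lit 77) (nat_lit 94) (nat_lit 5) (nat_lit 9) (nat_lit 4) L126827 (by decide +kernel)
theorem L126829 : W_45 (nat_lit 5) (nat_lit 0x10001c0008000180000000000000000000000) (nat_lit 0x0) (nat_lit 0x2000660078000000000000000000) := T_45 (nat_lit 75) (nat_lit 109) (nat_lit 7) (nat_lit 7) (nat_lit 4) L126828 (by decide +kernel)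
theorem L126830 : W_45 (nat_lit 5) (nat_lit 0x10001c0008000580000000000000000000000) (nat_lit 0x0) (nat_lit 0x800000013800a00006000000000000000000) := T_45 (nat_lit 93) (nat_lit 112) (nat_lit 3) (nat_lit 6) (nat_lit 5) L124098 (by decide +kernel)
theorem L126831 : W_45 (nat_lit 6) (nat_lit 0x10001c0008000180000000000000000000000) (nat_lit 0x0) (nat_lit 0x800000013800e00026000000000000000000) := T_45 (nat_lit 94) (nat_lit 77) (nat_lit 5) (nat_lit 9) (nat_lit 4) L126830 (by decide +kernel)
theorem L126832 : W_45 (nat_lit 9) (nat_lit 0x10001c0008000100000000000000000000000) (nat_lit 0x0) (nat_lit 0x8000e00000013c00ef007e000000000000000000) := Q_45 (nat_lit 91) (C_45 L126818 (C_45 L126822 (C_45 L126825 (C_45 L126829 (C_45 L126831 N_45))))) (by decide +kernel)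
theorem L126833 : W_45 (nat_lit 2) (nat_lit 0x10001c0018000100000000000000000000000) (nat_lit 0x0) (nat_lit 0x64000000000000000000000000000) := D_45 (nat_lit 113) (nat_lit 110) (nat_lit 114) (nat_lit 1) (nat_lit 11) (nat_lit 6) (nat_lit 1) (nat_lit 12) (nat_lit 6) (by decide +kernel)
theorem L126834 : W_45 (nat_lit 2) (nat_lit 0x18001c001a000580000000000000000000000) (nat_lit 0x0) (nat_lit 0x8000600000000000000000000000000000000000) := D_45 (nat_lit 142) (nat_lit 141) (nat_lit 159) (nat_lit 2) (nat_lit 5) (nat_lit 8) (nat_lit 5) (nat_lit 7) (nat_lit 5) (by decide +kernel)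
theorem L126835 : W_45 (nat_lit 3) (nat_lit 0x10001c001a000580000000000000000000000) (nat_lit 0x0) (nat_lit 0x8000e00000000000000004000000000000000000) := T_45 (nat_lit 143) (nat_lit 74) (nat_lit 4) (nat_lit 7) (nat_lit 8) L126834 (by decide +kernel)
theorem L126836 : W_45 (nat_lit 4) (nat_lit 0x10001c0018000580000000000000000000000) (nat_lit 0x0) (nat_lit 0x8000e00000006000000004000000000000000000) := T_45 (nat_lit 109) (nat_lit 110) (nat_lit 0) (nat_lit 10) (nat_lit 6) L126835 (by decide +kernel)
theorem L126837 : W_45 (nat_lit 5) (nat_lit 0x10001c0018000500000000000000000000000) (nat_lit 0x0) (nat_lit 0x8000e00000006000280004000000000000000000) := T_45 (nat_lit 91) (nat_lit 93) (nat_lit 3) (nat_lit 6) (nat_lit 5) L126836 (by decide +kernel)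
theorem L126838 : W_45 (nat_lit 6) (nat_lit 0x10001c0018000100000000000000000000000) (nat_lit 0x0) (nat_lit 0x8000e00000006000680024000000000000000000) := T_45 (nat_lit 94) (nat_lit 77) (nat_lit 5) (nat_lit 9) (nat_lit 4) L126837 (by decide +kernel)
theorem L126839 : W_45 (nat_lit 7) (nat_lit 0x10001c0008000100000000000000000000000) (nat_lit 0x0) (nat_lit 0x8000e00000076000e80024000000000000000000) := Q_45 (nat_lit 112) (C_45 L126816 (C_45 L126833 (C_45 L126838 N_45))) (by decide +kernel)
theorem L126840 : W_45 (nat_lit 11) (nat_lit 0x10001c0008000000000000000000000000000) (nat_lit 0x0) (nat_lit 0x6000300018000e00000077c01ff01fe001800000000000000) := Q_45 (nat_lit 92) (C_45 L126775 (C_45 L126788 (C_45 L126794 (C_45 L126807 (C_45 L126813 (C_45 L126832 (C_45 L126839 N_45))))))) (by decide +kernel)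
theorem L126841 : W_45 (nat_lit 2) (nat_lit 0x14001c0008000000000000000000000000000) (nat_lit 0x0) (nat_lit 0xa00020000000000000000000000000000000) := D_45 (nat_lit 141) (nat_lit 125) (nat_lit 143) (nat_lit 1) (nat_lit 9) (nat_lit 7) (nat_lit 2) (nat_lit 5) (nat_lit 8) (by decide +kernel)
theorem L126842 : W_45 (nat_lit 2) (nat_lit 0x1c001c000a000000000000000000000000000) (nat_lit 0x0) (nat_lit 0x8000000000000000100008000000000000000000) := D_45 (nat_lit 92) (nat_lit 75) (nat_lit 159) (nat_lit 7) (nat_lit 7) (nat_lit 4) (nat_lit 5) (nat_lit 7) (nat_lit 5) (by decide +kernel)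
theorem L126843 : W_45 (nat_lit 2) (nat_lit 0x1c001c000a000380020000000000000000000) (nat_lit 0x0) (nat_lit 0x10000000000004000040000000000000000000000) := D_45 (nat_lit 110) (nat_lit 160) (nat_lit 90) (nat_lit 6) (nat_lit 7) (nat_lit 9) (nat_lit 3) (nat_lit 5) (nat_lit 5) (by decide +kernel)
theorem L126844 : W_45 (nat_lit 3) (nat_lit 0x1c001c000a000180020000000000000000000) (nat_lit 0x0) (nat_lit 0x10000000000004000240010000000000000000000) := T_45 (nat_lit 93) (nat_lit 76) (nat_lit 6) (nat_lit 7) (nat_lit 8) L126843 (by decide +kernel)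
theorem L126845 : W_45 (nat_lit 4) (nat_lit 0x1c001c000a000100020000000000000000000) (nat_lit 0x0) (nat_lit 0x100000000000040002c0014000000000000000000) := T_45 (nat_lit 91) (nat_lit 74) (nat_lit 4) (nat_lit 7) (nat_lit 8) L126844 (by decide +kernel)
theorem L126846 : W_45 (nat_lit 5) (nat_lit 0x1c001c000a000100000000000000000000000) (nat_lit 0x0) (nat_lit 0x100000000000040006c0034000000000000000000) := T_45 (nat_lit 77) (nat_lit 94) (nat_lit 5) (nat_lit 9) (nat_lit 4) L126845 (by decide +kernel)
theorem L126847 : W_45 (nat_lit 6) (nat_lit 0x1c001c000a000000000000000000000000000) (nat_lit 0x0) (nat_lit 0x100000000000040007c003c000000000000000000) := T_45 (nat_lit 92) (nat_lit 75) (nat_lit 7) (nat_lit 7) (nat_lit 4) L126846 (by decide +kernel)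
theorem L126848 : W_45 (nat_lit 2) (nat_lit 0x10001c001c000a000000000000000000000000000) (nat_lit 0x0) (nat_lit 0x4000200000000000000004000000000000000000000000000) := D_45 (nat_lit 177) (nat_lit 194) (nat_lit 110) (nat_lit 6) (nat_lit 7) (nat_lit 11) (nat_lit 6) (nat_lit 7) (nat_lit 10) (by decide +kernel)
theorem L126849 : W_45 (nat_lit 2) (nat_lit 0x200010001c001c000a000000000000000000000000000) (nat_lit 0x0) (nat_lit 0x2000100008000000000000000000000000000000000000000) := D_45 (nat_lit 176) (nat_lit 159) (nat_lit 193) (nat_lit 5) (nat_lit 7) (nat_lit 6) (nat_lit 5) (nat_lit 7) (nat_lit 7) (by decide +kernel)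
theorem L126850 : W_45 (nat_lit 3) (nat_lit 0x10001c001c000a000000000000000000000000000) (nat_lit 0x0) (nat_lit 0x6000300008000000000000000000000000000000000000000) := T_45 (nat_lit 177) (nat_lit 194) (nat_lit 6) (nat_lit 7) (nat_lit 11) L126849 (by decide +kernel)
theorem L126851 : W_45 (nat_lit 2) (nat_lit 0x1a001c001c000e000000000000000000000000000) (nat_lit 0x0) (nat_lit 0x1800080000000000000000000000) := D_45 (nat_lit 108) (nat_lit 91) (nat_lit 107) (nat_lit 4) (nat_lit 7) (nat_lit 9) (nat_lit 3) (nat_lit 5) (nat_lit 6) (by decide +kernel)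
theorem L126852 : W_45 (nat_lit 3) (nat_lit 0x1a001c001c000a000000000000000000000000000) (nat_lit 0x0) (nat_lit 0x5800280000000000000000000000) := T_45 (nat_lit 110) (nat_lit 93) (nat_lit 6) (nat_lit 7) (nat_lit 9) L126851 (by decide +kernel)
theorem L126853 : W_45 (nat_lit 4) (nat_lit 0x18001c001c000a000000000000000000000000000) (nat_lit 0x0) (nat_lit 0x6000000000005800280000000000000000000000) := T_45 (nat_lit 157) (nat_lit 158) (nat_lit 2) (nat_lit 4) (nat_lit 9) L126852 (by decide +kernel)
theorem L126854 : W_45 (nat_lit 5) (nat_lit 0x10001c001c000a000000000000000000000000000) (nat_lit 0x0) (nat_lit 0x10000e000000000005800280000000000000000000000) := T_45 (nat_lit 159) (nat_lit 176) (nat_lit 5) (nat_lit 7) (nat_lit 6) L126853 (by decide +kernel)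
theorem L126855 : W_45 (nat_lit 6) (nat_lit 0x1c001c000a000000000000000000000000000) (nat_lit 0x0) (nat_lit 0x600030001e000000000005800280000000000000000000000) := Q_45 (nat_lit 160) (C_45 L126848 (C_45 L126850 (C_45 L126854 N_45))) (by decide +kernel)
theorem L126856 : W_45 (nat_lit 7) (nat_lit 0x1c001c0008000000000000000000000000000) (nat_lit 0x0) (nat_lit 0x600030001e0000000000078007c003c000000000000000000) := Q_45 (nat_lit 109) (C_45 L126842 (C_45 L126847 (C_45 L126855 N_45))) (by decide +kernel)
theorem L126857 : W_45 (nat_lit 8) (nat_lit 0x14001c0008000000000000000000000000000) (nat_lit 0x0) (nat_lit 0x600030001e000a000000078007c003c000000000000000000) := T_45 (nat_lit 143) (nat_lit 141) (nat_lit 2) (nat_lit 5) (nat_lit 8) L126856 (by decide +kernel)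
theorem L126858 : W_45 (nat_lit 2) (nat_lit 0x14001c0009000000000000000000000000000) (nat_lit 0x0) (nat_lit 0x200020000800000000000000000000000000) := D_45 (nat_lit 125) (nat_lit 141) (nat_lit 107) (nat_lit 1) (nat_lit 9) (nat_lit 7) (nat_lit 0) (nat_lit 9) (nat_lit 7) (by decide +kernel)
theorem L126859 : W_45 (nat_lit 2) (nat_lit 0x14001c000b000000000000000000000000000) (nat_lit 0x0) (nat_lit 0x4c00000000000000000000000000) := D_45 (nat_lit 107) (nat_lit 106) (nat_lit 110) (nat_lit 3) (nat_lit 4) (nat_lit 6) (nat_lit 3) (nat_lit 5) (nat_lit 6) (by decide +kernel)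
theorem L126860 : W_45 (nat_lit 2) (nat_lit 0x14001c000b800500000000000000000000000) (nat_lit 0x0) (nat_lit 0xa80000000000000000000000) := D_45 (nat_lit 93) (nat_lit 95) (nat_lit 91) (nat_lit 1) (nat_lit 10) (nat_lit 5) (nat_lit 1) (nat_lit 9) (nat_lit 5) (by decide +kernel)
theorem L126861 : W_45 (nat_lit 3) (nat_lit 0x14001c000b000500000000000000000000000) (nat_lit 0x0) (nat_lit 0xc00a80000000000000000000000) := T_45 (nat_lit 107) (nat_lit 106) (nat_lit 3) (nat_lit 4) (nat_lit 6) L126860 (by decide +kernel)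
theorem L126862 : W_45 (nat_lit 4) (nat_lit 0x14001c000b000100000000000000000000000) (nat_lit 0x0) (nat_lit 0xc00e80020000000000000000000) := T_45 (nat_lit 94) (nat_lit 77) (nat_lit 5) (nat_lit 9) (nat_lit 4) L126861 (by decide +kernel)
theorem L126863 : W_45 (nat_lit 5) (nat_lit 0x14001c000b000000000000000000000000000) (nat_lit 0x0) (nat_lit 0xc00f80028000000000000000000) := T_45 (nat_lit 92) (nat_lit 75) (nat_lit 7) (nat_lit 7) (nat_lit 4) L126862 (by decide +kernel)
theorem L126864 : W_45 (nat_lit 2) (nat_lit 0x14001c000b000500000000000000000000000) (nat_lit 0x0) (nat_lit 0x4000a00000000000000000000000) := D_45 (nat_lit 95) (nat_lit 110) (nat_lit 93) (nat_lit 2) (nat_lit 6) (nat_lit 6) (nat_lit 1) (nat_lit 10) (nat_lit 5) (by decide +kernel)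
theorem L126865 : W_45 (nat_lit 3) (nat_lit 0x14001c000b000100000000000000000000000) (nat_lit 0x0) (nat_lit 0x4000e00020000000000000000000) := T_45 (nat_lit 94) (nat_lit 77) (nat_lit 5) (nat_lit 9) (nat_lit 4) L126864 (by decide +kernel)
theorem L126866 : W_45 (nat_lit 4) (nat_lit 0x14001c000b000000000000000000000000000) (nat_lit 0x0) (nat_lit 0x4000f00028000000000000000000) := T_45 (nat_lit 92) (nat_lit 75) (nat_lit 7) (nat_lit 7) (nat_lit 4) L126865 (by decide +kernel)
theorem L126867 : W_45 (nat_lit 6) (nat_lit 0x14001c0009000000000000000000000000000) (nat_lit 0x0) (nat_lit 0x6c00f80028000000000000000000) := Q_45 (nat_lit 109) (C_45 L126859 (C_45 L126863 (C_45 L126866 N_45))) (by decide +kernel)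
theorem L126868 : W_45 (nat_lit 2) (nat_lit 0x14001c0009000100008000000000000000000) (nat_lit 0x0) (nat_lit 0x200020000000080000000000000000000000) := D_45 (nat_lit 125) (nat_lit 91) (nat_lit 141) (nat_lit 6) (nat_lit 6) (nat_lit 8) (nat_lit 1) (nat_lit 9) (nat_lit 7) (by decide +kernel)
theorem L126869 : W_45 (nat_lit 3) (nat_lit 0x14001c0009000100000000000000000000000) (nat_lit 0x0) (nat_lit 0x200020002000080008000000000000000000) := T_45 (nat_lit 75) (nat_lit 109) (nat_lit 7) (nat_lit 7) (nat_lit 4) L126868 (by decide +kernel)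
theorem L126870 : W_45 (nat_lit 6) (nat_lit 0x14001c0009000100000000000000000000000) (nat_lit 0x0) (nat_lit 0x2000200040006c003a000000000000000000) := T_45 (nat_lit 125) (nat_lit 141) (nat_lit 1) (nat_lit 9) (nat_lit 7) L124421 (by decide +kernel)
theorem L126871 : W_45 (nat_lit 2) (nat_lit 0x14001c0009001f00008000000000000000000) (nat_lit 0x0) (nat_lit 0x1c0000000000000000000) := D_45 (nat_lit 79) (nat_lit 78) (nat_lit 80) (nat_lit 2) (nat_lit 7) (nat_lit 5) (nat_lit 2) (nat_lit 8) (nat_lit 5) (by decide +kernel)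
theorem L126872 : W_45 (nat_lit 3) (nat_lit 0x14001c0009000f00008000000000000000000) (nat_lit 0x0) (nat_lit 0x10001d0000000000000000000) := T_45 (nat_lit 96) (nat_lit 76) (nat_lit 0) (nat_lit 11) (nat_lit 5) L126871 (by decide +kernel)
theorem L126873 : W_45 (nat_lit 4) (nat_lit 0x14001c0009000700008000000000000000000) (nat_lit 0x0) (nat_lit 0x18001d4000000000000000000) := T_45 (nat_lit 95) (nat_lit 74) (nat_lit 0) (nat_lit 10) (nat_lit 5) L126872 (by decide +kernel)
theorem L126874 : W_45 (nat_lit 5) (nat_lit 0x14001c0009000500008000000000000000000) (nat_lit 0x0) (nat_lit 0x4001a001d4000000000000000000) := T_45 (nat_lit 93) (nat_lit 110) (nat_lit 4) (nat_lit 8) (nat_lit 8) L126873 (by decide +kernel)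
theorem L126875 : W_45 (nat_lit 6) (nat_lit 0x14001c0009000500000000000000000000000) (nat_lit 0x0) (nat_lit 0x6001a001dc000000000000000000) := T_45 (nat_lit 75) (nat_lit 109) (nat_lit 7) (nat_lit 7) (nat_lit 4) L126874 (by decide +kernel)
theorem L126876 : W_45 (nat_lit 7) (nat_lit 0x14001c0009000100000000000000000000000) (nat_lit 0x0) (nat_lit 0x6001e001fc000000000000000000) := T_45 (nat_lit 94) (nat_lit 77) (nat_lit 5) (nat_lit 9) (nat_lit 4) L126875 (by decide +kernel)
theorem L126877 : W_45 (nat_lit 2) (nat_lit 0x2800080014001e0009000100020000000000000000000) (nat_lit 0x0) (nat_lit 0x5000100000000000000000000000000000000000000000000) := D_45 (nat_lit 176) (nat_lit 192) (nat_lit 194) (nat_lit 5) (nat_lit 6) (nat_lit 7) (nat_lit 7) (nat_lit 6) (nat_lit 7) (by decide +kernel)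
theorem L126878 : W_45 (nat_lit 3) (nat_lit 0x800080014001e0009000100020000000000000000000) (nat_lit 0x0) (nat_lit 0x5000300010000000000000000000000000000000000000000) := T_45 (nat_lit 177) (nat_lit 160) (nat_lit 7) (nat_lit 6) (nat_lit 6) L126877 (by decide +kernel)
theorem L126879 : W_45 (nat_lit 4) (nat_lit 0x80014001e0009000100020000000000000000000) (nat_lit 0x0) (nat_lit 0x5000380014000000000000000000000000000000000000000) := T_45 (nat_lit 175) (nat_lit 158) (nat_lit 5) (nat_lit 6) (nat_lit 6) L126878 (by decide +kernel)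
theorem L126880 : W_45 (nat_lit 5) (nat_lit 0x14001e0009000100020000000000000000000) (nat_lit 0x0) (nat_lit 0x500038001c000000000002000000000000000000000000000) := T_45 (nat_lit 159) (nat_lit 109) (nat_lit 6) (nat_lit 6) (nat_lit 9) L126879 (by decide +kernel)
theorem L126881 : W_45 (nat_lit 6) (nat_lit 0x14001e0009000100000000000000000000000) (nat_lit 0x0) (nat_lit 0x500038001c000000000002000400020000000000000000000) := T_45 (nat_lit 77) (nat_lit 94) (nat_lit 5) (nat_lit 9) (nat_lit 4) L126880 (by decide +kernel)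
theorem L126882 : W_45 (nat_lit 7) (nat_lit 0x14001c0009000100000000000000000000000) (nat_lit 0x0) (nat_lit 0x500038001c000200020002000400020000000000000000000) := T_45 (nat_lit 125) (nat_lit 141) (nat_lit 1) (nat_lit 9) (nat_lit 7) L126881 (by decide +kernel)
theorem L126883 : W_45 (nat_lit 8) (nat_lit 0x14001c0009000000000000000000000000000) (nat_lit 0x0) (nat_lit 0x500038001c000200020006001fc01fe000000000000000000) := Q_45 (nat_lit 92) (C_45 L126869 (C_45 L126870 (C_45 L126876 (C_45 L126882 N_45)))) (by decide +kernel)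
theorem L126884 : W_45 (nat_lit 9) (nat_lit 0x14001c0008000000000000000000000000000) (nat_lit 0x0) (nat_lit 0x500038001c000200020007c01fc01fe000000000000000000) := Q_45 (nat_lit 108) (C_45 L126858 (C_45 L126867 (C_45 L126883 N_45))) (by decide +kernel)
theorem L126885 : W_45 (nat_lit 2) (nat_lit 0x10001c001c000a000180020000000000000000000) (nat_lit 0x0) (nat_lit 0x4000200000000000000004000000000000000000000000000) := D_45 (nat_lit 177) (nat_lit 110) (nat_lit 194) (nat_lit 6) (nat_lit 7) (nat_lit 10) (nat_lit 6) (nat_lit 7) (nat_lit 11) (by decide +kernel)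
theorem L126886 : W_45 (nat_lit 3) (nat_lit 0x1c001c000a000180020000000000000000000) (nat_lit 0x0) (nat_lit 0x4000200010000000000005000000000000000000000000000) := T_45 (nat_lit 160) (nat_lit 108) (nat_lit 4) (nat_lit 7) (nat_lit 9) L126885 (by decide +kernel)
theorem L126887 : W_45 (nat_lit 4) (nat_lit 0x1c001c000a000100020000000000000000000) (nat_lit 0x0) (nat_lit 0x4000200010000000000005000080004000000000000000000) := T_45 (nat_lit 91) (nat_lit 74) (nat_lit 4) (nat_lit 7) (nat_lit 8) L126886 (by decide +kernel)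
theorem L126888 : W_45 (nat_lit 5) (nat_lit 0x14001c000a000100020000000000000000000) (nat_lit 0x0) (nat_lit 0x4000200018000800000005000080004000000000000000000) := T_45 (nat_lit 143) (nat_lit 159) (nat_lit 5) (nat_lit 7) (nat_lit 5) L126887 (by decide +kernel)
theorem L126889 : W_45 (nat_lit 6) (nat_lit 0x14001c000a000000020000000000000000000) (nat_lit 0x0) (nat_lit 0x400020001800080000000500018000c000000000000000000) := T_45 (nat_lit 92) (nat_lit 75) (nat_lit 7) (nat_lit 7) (nat_lit 4) L126888 (by decide +kernel)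
theorem L126890 : W_45 (nat_lit 7) (nat_lit 0x14001c000a000000000000000000000000000) (nat_lit 0x0) (nat_lit 0x400020001800080000000500058002c000000000000000000) := T_45 (nat_lit 77) (nat_lit 94) (nat_lit 5) (nat_lit 9) (nat_lit 4) L126889 (by decide +kernel)
theorem L126891 : W_45 (nat_lit 2) (nat_lit 0x1c001c000b8003c0021000000000000000000) (nat_lit 0x0) (nat_lit 0x30000800000000000000000) := D_45 (nat_lit 89) (nat_lit 88) (nat_lit 71) (nat_lit 3) (nat_lit 3) (nat_lit 5) (nat_lit 0) (nat_lit 7) (nat_lit 5) (by decide +kernel)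
theorem L126892 : W_45 (nat_lit 3) (nat_lit 0x1c001c000b8003c0020000000000000000000) (nat_lit 0x0) (nat_lit 0x30003800000000000000000) := T_45 (nat_lit 72) (nat_lit 73) (nat_lit 0) (nat_lit 8) (nat_lit 5) L126891 (by decide +kernel)
theorem L126893 : W_45 (nat_lit 4) (nat_lit 0x1c001c000a8003c0020000000000000000000) (nat_lit 0x0) (nat_lit 0x20001000030003800000000000000000) := T_45 (nat_lit 108) (nat_lit 125) (nat_lit 0) (nat_lit 9) (nat_lit 7) L126892 (by decide +kernel)
theorem L126894 : W_45 (nat_lit 5) (nat_lit 0x1c001c000a0003c0020000000000000000000) (nat_lit 0x0) (nat_lit 0x20001c00030003800000000000000000) := T_45 (nat_lit 107) (nat_lit 106) (nat_lit 1) (nat_lit 8) (nat_lit 5) L126893 (by decide +kernel)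
theorem L126895 : W_45 (nat_lit 6) (nat_lit 0x1c001c000a000380020000000000000000000) (nat_lit 0x0) (nat_lit 0x20005c00070003800000000000000000) := T_45 (nat_lit 90) (nat_lit 110) (nat_lit 3) (nat_lit 5) (nat_lit 5) L126894 (by decide +kernel)
theorem L126896 : W_45 (nat_lit 7) (nat_lit 0x1c001c000a000180020000000000000000000) (nat_lit 0x0) (nat_lit 0x20005c00270013800000000000000000) := T_45 (nat_lit 93) (nat_lit 76) (nat_lit 6) (nat_lit 7) (nat_lit 8) L126895 (by decide +kernel)
theorem L126897 : W_45 (nat_lit 8) (nat_lit 0x1c001c000a000100020000000000000000000) (nat_lit 0x0) (nat_lit 0x20005c002f0017800000000000000000) := T_45 (nat_lit 91) (nat_lit 74) (nat_lit 4) (nat_lit 7) (nat_lit 8) L126896 (by decide +kernel)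
theorem L126898 : W_45 (nat_lit 9) (nat_lit 0x14001c000a000100020000000000000000000) (nat_lit 0x0) (nat_lit 0x8000800020005c002f0017800000000000000000) := T_45 (nat_lit 143) (nat_lit 159) (nat_lit 5) (nat_lit 7) (nat_lit 5) L126897 (by decide +kernel)
theorem L126899 : W_45 (nat_lit 10) (nat_lit 0x14001c000a000100000000000000000000000) (nat_lit 0x0) (nat_lit 0x8000800020005c006f0037800000000000000000) := T_45 (nat_lit 77) (nat_lit 94) (nat_lit 5) (nat_lit 9) (nat_lit 4) L126898 (by decide +kernel)
theorem L126900 : W_45 (nat_lit 11) (nat_lit 0x14001c000a000000000000000000000000000) (nat_lit 0x0) (nat_lit 0x8000800020005c007f003f800000000000000000) := T_45 (nat_lit 92) (nat_lit 75) (nat_lit 7) (nat_lit 7) (nat_lit 4) L126899 (by decide +kernel)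
theorem L126901 : W_45 (nat_lit 2) (nat_lit 0x1c001c000a000380000000000000000000000) (nat_lit 0x0) (nat_lit 0x10000000000004000040000000000000000000000) := D_45 (nat_lit 110) (nat_lit 160) (nat_lit 90) (nat_lit 6) (nat_lit 7) (nat_lit 9) (nat_lit 3) (nat_lit 5) (nat_lit 5) (by decide +kernel)
theorem L126902 : W_45 (nat_lit 3) (nat_lit 0x1c001c000a000180000000000000000000000) (nat_lit 0x0) (nat_lit 0x10000000000004000240010000000000000000000) := T_45 (nat_lit 93) (nat_lit 76) (nat_lit 6) (nat_lit 7) (nat_lit 8) L126901 (by decide +kernel)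
theorem L126903 : W_45 (nat_lit 4) (nat_lit 0x1c001c000a000100000000000000000000000) (nat_lit 0x0) (nat_lit 0x100000000000040002c0014000000000000000000) := T_45 (nat_lit 91) (nat_lit 74) (nat_lit 4) (nat_lit 7) (nat_lit 8) L126902 (by decide +kernel)
theorem L126904 : W_45 (nat_lit 5) (nat_lit 0x14001c000a000100000000000000000000000) (nat_lit 0x0) (nat_lit 0x180008000000040002c0014000000000000000000) := T_45 (nat_lit 143) (nat_lit 159) (nat_lit 5) (nat_lit 7) (nat_lit 5) L126903 (by decide +kernel)
theorem L126905 : W_45 (nat_lit 6) (nat_lit 0x14001c000a000000000000000000000000000) (nat_lit 0x0) (nat_lit 0x180008000000040003c001c000000000000000000) := T_45 (nat_lit 92) (nat_lit 75) (nat_lit 7) (nat_lit 7) (nat_lit 4) L126904 (by decide +kernel)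
theorem L126906 : W_45 (nat_lit 6) (nat_lit 0x14001c000a000000000000000000000000000) (nat_lit 0x0) (nat_lit 0x5c00f80028000000000000000000) := Q_45 (nat_lit 108) (C_45 L126859 (C_45 L126866 (C_45 L126863 N_45))) (by decide +kernel)
theorem L126907 : W_45 (nat_lit 2) (nat_lit 0x14001c000b000000000000000000000000000) (nat_lit 0x0) (nat_lit 0x20000c00000000000000000000000000) := D_45 (nat_lit 107) (nat_lit 125) (nat_lit 106) (nat_lit 0) (nat_lit 9) (nat_lit 7) (nat_lit 3) (nat_lit 4) (nat_lit 6) (by decide +kernel)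
theorem L126908 : W_45 (nat_lit 2) (nat_lit 0x1c001c000f000480000000000000000000000) (nat_lit 0x0) (nat_lit 0x20000000000004000200000000000000) := D_45 (nat_lit 74) (nat_lit 57) (nat_lit 125) (nat_lit 7) (nat_lit 6) (nat_lit 3) (nat_lit 7) (nat_lit 6) (nat_lit 4) (by decide +kernel)
theorem L126909 : W_45 (nat_lit 3) (nat_lit 0x14001c000f000480000000000000000000000) (nat_lit 0x0) (nat_lit 0x10000800020000000000004000200000000000000) := T_45 (nat_lit 143) (nat_lit 160) (nat_lit 4) (nat_lit 7) (nat_lit 9) L126908 (by decide +kernel)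
theorem L126910 : W_45 (nat_lit 4) (nat_lit 0x14001c000f000400000000000000000000000) (nat_lit 0x0) (nat_lit 0x100008000200000000c0004000200000000000000) := T_45 (nat_lit 91) (nat_lit 90) (nat_lit 0) (nat_lit 9) (nat_lit 6) L126909 (by decide +kernel)
theorem L126911 : W_45 (nat_lit 5) (nat_lit 0x14001c000b000400000000000000000000000) (nat_lit 0x0) (nat_lit 0x100008000200040008c0004000200000000000000) := T_45 (nat_lit 110) (nat_lit 95) (nat_lit 2) (nat_lit 6) (nat_lit 6) L126910 (by decide +kernel)
theorem L126912 : W_45 (nat_lit 6) (nat_lit 0x14001c000b000000000000000000000000000) (nat_lit 0x0) (nat_lit 0x10000800020004000cc0024000200000000000000) := T_45 (nat_lit 94) (nat_lit 77) (nat_lit 5) (nat_lit 9) (nat_lit 4) L126911 (by decide +kernel)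
theorem L126913 : W_45 (nat_lit 7) (nat_lit 0x14001c000a000000000000000000000000000) (nat_lit 0x0) (nat_lit 0x10000800020005c00cc0024000200000000000000) := Q_45 (nat_lit 108) (C_45 L126859 (C_45 L126907 (C_45 L126912 N_45))) (by decide +kernel)
theorem L126914 : W_45 (nat_lit 2) (nat_lit 0x1c001c000b000380020000000000000000000) (nat_lit 0x0) (nat_lit 0x20000c00000000000000000000000000) := D_45 (nat_lit 107) (nat_lit 106) (nat_lit 125) (nat_lit 3) (nat_lit 4) (nat_lit 6) (nat_lit 0) (nat_lit 9) (nat_lit 7) (by decide +kernel)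
theorem L126915 : W_45 (nat_lit 3) (nat_lit 0x1c001c000a000380020000000000000000000) (nat_lit 0x0) (nat_lit 0x10000000020001c00000000000000000000000000) := T_45 (nat_lit 108) (nat_lit 160) (nat_lit 4) (nat_lit 7) (nat_lit 9) L126914 (by decide +kernel)
theorem L126916 : W_45 (nat_lit 4) (nat_lit 0x1c001c000a000180020000000000000000000) (nat_lit 0x0) (nat_lit 0x10000000020001c00200010000000000000000000) := T_45 (nat_lit 93) (nat_lit 76) (nat_lit 6) (nat_lit 7) (nat_lit 8) L126915 (by decide +kernel)
theorem L126917 : W_45 (nat_lit 5) (nat_lit 0x1c001c000a000100020000000000000000000) (nat_lit 0x0) (nat_lit 0x10000000020001c00280014000000000000000000) := T_45 (nat_lit 91) (nat_lit 74) (nat_lit 4) (nat_lit 7) (nat_lit 8) L126916 (by decide +kernel)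
theorem L126918 : W_45 (nat_lit 6) (nat_lit 0x14001c000a000100020000000000000000000) (nat_lit 0x0) (nat_lit 0x18000800020001c00280014000000000000000000) := T_45 (nat_lit 143) (nat_lit 159) (nat_lit 5) (nat_lit 7) (nat_lit 5) L126917 (by decide +kernel)
theorem L126919 : W_45 (nat_lit 7) (nat_lit 0x14001c000a000000020000000000000000000) (nat_lit 0x0) (nat_lit 0x18000800020001c0038001c000000000000000000) := T_45 (nat_lit 92) (nat_lit 75) (nat_lit 7) (nat_lit 7) (nat_lit 4) L126918 (by decide +kernel)
theorem L126920 : W_45 (nat_lit 8) (nat_lit 0x14001c000a000000000000000000000000000) (nat_lit 0x0) (nat_lit 0x18000800020001c0078003c000000000000000000) := T_45 (nat_lit 77) (nat_lit 94) (nat_lit 5) (nat_lit 9) (nat_lit 4) L126919 (by decide +kernel)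
theorem L126921 : W_45 (nat_lit 2) (nat_lit 0x80014001c000a000100020000000000000000000) (nat_lit 0x0) (nat_lit 0x100000000000020001000000000000000000000000000) := D_45 (nat_lit 125) (nat_lit 108) (nat_lit 176) (nat_lit 6) (nat_lit 6) (nat_lit 9) (nat_lit 6) (nat_lit 6) (nat_lit 10) (by decide +kernel)
theorem L126922 : W_45 (nat_lit 3) (nat_lit 0x14001c000a000100020000000000000000000) (nat_lit 0x0) (nat_lit 0x100008000800020001000000000000000000000000000) := T_45 (nat_lit 159) (nat_lit 143) (nat_lit 5) (nat_lit 7) (nat_lit 5) L126921 (by decide +kernel)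
theorem L126923 : W_45 (nat_lit 4) (nat_lit 0x14001c000a000100000000000000000000000) (nat_lit 0x0) (nat_lit 0x100008000800020001000400020000000000000000000) := T_45 (nat_lit 77) (nat_lit 94) (nat_lit 5) (nat_lit 9) (nat_lit 4) L126922 (by decide +kernel)
theorem L126924 : W_45 (nat_lit 5) (nat_lit 0x14001c000a000000000000000000000000000) (nat_lit 0x0) (nat_lit 0x100008000800020001000500028000000000000000000) := T_45 (nat_lit 92) (nat_lit 75) (nat_lit 7) (nat_lit 7) (nat_lit 4) L126923 (by decide +kernel)
theorem L126925 : W_45 (nat_lit 12) (nat_lit 0x14001c0008000000000000000000000000000) (nat_lit 0x0) (nat_lit 0x4000300018000800020007c00ff003f800200000000000000) := Q_45 (nat_lit 109) (C_45 L126890 (C_45 L126900 (C_45 L126905 (C_45 L126906 (C_45 L126913 (C_45 L126920 (C_45 L126924 N_45))))))) (by decide +kernel)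
theorem L126926 : W_45 (nat_lit 13) (nat_lit 0x10001c0008000000000000000000000000000) (nat_lit 0x0) (nat_lit 0x700038001e000e00020007c01ff01ff800200000000000000) := Q_45 (nat_lit 142) (C_45 L126841 (C_45 L126857 (C_45 L126884 (C_45 L126925 N_45)))) (by decide +kernel)
theorem L126927 : W_45 (nat_lit 4) (nat_lit 0x10001c000a000100020000000000000000000) (nat_lit 0x0) (nat_lit 0x100008000e00020010000000000000000000000000000) := T_45 (nat_lit 125) (nat_lit 112) (nat_lit 2) (nat_lit 6) (nat_lit 7) L122115 (by decide +kernel)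
theorem L126928 : W_45 (nat_lit 5) (nat_lit 0x10001c000a000000020000000000000000000) (nat_lit 0x0) (nat_lit 0x100008000e00020010000100008000000000000000000) := T_45 (nat_lit 92) (nat_lit 75) (nat_lit 7) (nat_lit 7) (nat_lit 4) L126927 (by decide +kernel)
theorem L126929 : W_45 (nat_lit 6) (nat_lit 0x10001c000a000000000000000000000000000) (nat_lit 0x0) (nat_lit 0x100008000e00020010000500028000000000000000000) := T_45 (nat_lit 77) (nat_lit 94) (nat_lit 5) (nat_lit 9) (nat_lit 4) L126928 (by decide +kernel)
theorem L126930 : W_45 (nat_lit 5) (nat_lit 0x10001e000b000400000000000000000000000) (nat_lit 0x0) (nat_lit 0x200010000800000000000b80018000000000000000000) := T_45 (nat_lit 92) (nat_lit 75) (nat_lit 7) (nat_lit 7) (nat_lit 4) L126537 (by decide +kernel)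
theorem L126931 : W_45 (nat_lit 6) (nat_lit 0x10001e000b000000000000000000000000000) (nat_lit 0x0) (nat_lit 0x200010000800000000000f80038000000000000000000) := T_45 (nat_lit 94) (nat_lit 77) (nat_lit 5) (nat_lit 9) (nat_lit 4) L126930 (by decide +kernel)
theorem L126932 : W_45 (nat_lit 7) (nat_lit 0x10001e000a000000000000000000000000000) (nat_lit 0x0) (nat_lit 0x200010000800000001800f80038000000000000000000) := T_45 (nat_lit 108) (nat_lit 107) (nat_lit 0) (nat_lit 9) (nat_lit 7) L126931 (by decide +kernel)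
theorem L126933 : W_45 (nat_lit 8) (nat_lit 0x10001c000a000000000000000000000000000) (nat_lit 0x0) (nat_lit 0x200010000800020011800f80038000000000000000000) := T_45 (nat_lit 125) (nat_lit 112) (nat_lit 2) (nat_lit 6) (nat_lit 7) L126932 (by decide +kernel)
theorem L126934 : W_45 (nat_lit 2) (nat_lit 0x18001c000a000100000000000000000000000) (nat_lit 0x0) (nat_lit 0x8000600000000000000000000000000000000000) := D_45 (nat_lit 142) (nat_lit 141) (nat_lit 159) (nat_lit 2) (nat_lit 5) (nat_lit 8) (nat_lit 5) (nat_lit 7) (nat_lit 5) (by decide +kernel)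
theorem L126935 : W_45 (nat_lit 2) (nat_lit 0x18001c000a000380000000000000000000000) (nat_lit 0x0) (nat_lit 0x10000400020000000000000000000) := D_45 (nat_lit 94) (nat_lit 112) (nat_lit 77) (nat_lit 3) (nat_lit 6) (nat_lit 5) (nat_lit 5) (nat_lit 9) (nat_lit 4) (by decide +kernel)
theorem L126936 : W_45 (nat_lit 3) (nat_lit 0x18001c000a000300000000000000000000000) (nat_lit 0x0) (nat_lit 0x10000480024000000000000000000) := T_45 (nat_lit 91) (nat_lit 74) (nat_lit 4) (nat_lit 7) (nat_lit 8) L126935 (by decide +kernel)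
theorem L126937 : W_45 (nat_lit 4) (nat_lit 0x18001c000a000100000000000000000000000) (nat_lit 0x0) (nat_lit 0x10000680034000000000000000000) := T_45 (nat_lit 93) (nat_lit 76) (nat_lit 6) (nat_lit 7) (nat_lit 8) L126936 (by decide +kernel)
theorem L126938 : W_45 (nat_lit 5) (nat_lit 0x10001c000a000100000000000000000000000) (nat_lit 0x0) (nat_lit 0x8000e00000010000680034000000000000000000) := Q_45 (nat_lit 143) (C_45 L126934 (C_45 L126937 N_45)) (by decide +kernel)
theorem L126939 : W_45 (nat_lit 6) (nat_lit 0x10001c000a000000000000000000000000000) (nat_lit 0x0) (nat_lit 0x8000e0000001000078003c000000000000000000) := T_45 (nat_lit 92) (nat_lit 75) (nat_lit 7) (nat_lit 7) (nat_lit 4) L126938 (by decide +kernel)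
theorem L126940 : W_45 (nat_lit 5) (nat_lit 0x10001c000a000000000000000000000000000) (nat_lit 0x0) (nat_lit 0x100008000e00020010000100008000000000000000000) := T_45 (nat_lit 125) (nat_lit 112) (nat_lit 2) (nat_lit 6) (nat_lit 7) L122213 (by decide +kernel)
theorem L126941 : W_45 (nat_lit 2) (nat_lit 0x14001c000a000100000000000000000000000) (nat_lit 0x0) (nat_lit 0x8000a00000000000000000000000000000000000) := D_45 (nat_lit 143) (nat_lit 141) (nat_lit 159) (nat_lit 2) (nat_lit 5) (nat_lit 8) (nat_lit 5) (nat_lit 7) (nat_lit 5) (by decide +kernel)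
theorem L126942 : W_45 (nat_lit 3) (nat_lit 0x14001c000a000000000000000000000000000) (nat_lit 0x0) (nat_lit 0x8000a00000000000100008000000000000000000) := T_45 (nat_lit 92) (nat_lit 75) (nat_lit 7) (nat_lit 7) (nat_lit 4) L126941 (by decide +kernel)
theorem L126943 : W_45 (nat_lit 2) (nat_lit 0x14001c000a000000000000000000000000000) (nat_lit 0x0) (nat_lit 0xa00020000000000000000000000000000000) := D_45 (nat_lit 141) (nat_lit 143) (nat_lit 125) (nat_lit 2) (nat_lit 5) (nat_lit 8) (nat_lit 1) (nat_lit 9) (nat_lit 7) (by decide +kernel)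
theorem L126944 : W_45 (nat_lit 2) (nat_lit 0x14001e000b000000000000000000000000000) (nat_lit 0x0) (nat_lit 0x100008000000000000000100000000000000000000000) := D_45 (nat_lit 159) (nat_lit 176) (nat_lit 92) (nat_lit 6) (nat_lit 6) (nat_lit 10) (nat_lit 6) (nat_lit 6) (nat_lit 9) (by decide +kernel)
theorem L126945 : W_45 (nat_lit 3) (nat_lit 0x14001e000a000000000000000000000000000) (nat_lit 0x0) (nat_lit 0x100008000000000001800100000000000000000000000) := T_45 (nat_lit 108) (nat_lit 107) (nat_lit 0) (nat_lit 9) (nat_lit 7) L126944 (by decide +kernel)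
theorem L126946 : W_45 (nat_lit 4) (nat_lit 0x14001c000a000000000000000000000000000) (nat_lit 0x0) (nat_lit 0x100008000200020001800100000000000000000000000) := T_45 (nat_lit 125) (nat_lit 141) (nat_lit 1) (nat_lit 9) (nat_lit 7) L126945 (by decide +kernel)
theorem L126947 : W_45 (nat_lit 6) (nat_lit 0x10001c000a000000000000000000000000000) (nat_lit 0x0) (nat_lit 0x100008000e00020001800500028000000000000000000) := Q_45 (nat_lit 142) (C_45 L126924 (C_45 L126942 (C_45 L126943 (C_45 L126946 N_45)))) (by decide +kernel)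
theorem L126948 : W_45 (nat_lit 2) (nat_lit 0x180014001e000b000080024000000000000000000) (nat_lit 0x0) (nat_lit 0x40002000100000000000000) := D_45 (nat_lit 73) (nat_lit 90) (nat_lit 56) (nat_lit 4) (nat_lit 6) (nat_lit 8) (nat_lit 4) (nat_lit 6) (nat_lit 7) (by decide +kernel)
theorem L126949 : W_45 (nat_lit 3) (nat_lit 0x180014001e000b000080020000000000000000000) (nat_lit 0x0) (nat_lit 0x40006000300000000000000) := T_45 (nat_lit 74) (nat_lit 57) (nat_lit 7) (nat_lit 6) (nat_lit 3) L126948 (by decide +kernel)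
theorem L126950 : W_45 (nat_lit 4) (nat_lit 0x180014001e000b000000020000000000000000000) (nat_lit 0x0) (nat_lit 0x8000000000000c0006000300000000000000) := T_45 (nat_lit 91) (nat_lit 143) (nat_lit 7) (nat_lit 6) (nat_lit 5) L126949 (by decide +kernel)
theorem L126951 : W_45 (nat_lit 5) (nat_lit 0x80014001e000b000000020000000000000000000) (nat_lit 0x0) (nat_lit 0x2000100008000000000000c0006000300000000000000) := T_45 (nat_lit 160) (nat_lit 177) (nat_lit 7) (nat_lit 6) (nat_lit 6) L126950 (by decide +kernel)
theorem L126952 : W_45 (nat_lit 6) (nat_lit 0x80014001e000b000000000000000000000000000) (nat_lit 0x0) (nat_lit 0x2000100008000000000004c0026000300000000000000) := T_45 (nat_lit 77) (nat_lit 94) (nat_lit 5) (nat_lit 9) (nat_lit 4) L126951 (by decide +kernel)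
theorem L126953 : W_45 (nat_lit 7) (nat_lit 0x14001e000b000000000000000000000000000) (nat_lit 0x0) (nat_lit 0x3000180008000000000004c0026000300000000000000) := T_45 (nat_lit 159) (nat_lit 176) (nat_lit 6) (nat_lit 6) (nat_lit 10) L126952 (by decide +kernel)
theorem L126954 : W_45 (nat_lit 8) (nat_lit 0x14001e000a000000000000000000000000000) (nat_lit 0x0) (nat_lit 0x3000180008000000018004c0026000300000000000000) := T_45 (nat_lit 108) (nat_lit 107) (nat_lit 0) (nat_lit 9) (nat_lit 7) L126953 (by decide +kernel)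
theorem L126955 : W_45 (nat_lit 9) (nat_lit 0x10001e000a000000000000000000000000000) (nat_lit 0x0) (nat_lit 0x300018000e000000018004c0026000300000000000000) := T_45 (nat_lit 142) (nat_lit 141) (nat_lit 1) (nat_lit 9) (nat_lit 7) L126954 (by decide +kernel)
theorem L126956 : W_45 (nat_lit 10) (nat_lit 0x10001c000a000000000000000000000000000) (nat_lit 0x0) (nat_lit 0x300018000e000200118004c0026000300000000000000) := T_45 (nat_lit 125) (nat_lit 112) (nat_lit 2) (nat_lit 6) (nat_lit 7) L126955 (by decide +kernel)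
theorem L126957 : W_45 (nat_lit 2) (nat_lit 0x14001e000a000100020000000000000000000) (nat_lit 0x0) (nat_lit 0x8000000000001800000000000000000000000000) := D_45 (nat_lit 108) (nat_lit 107) (nat_lit 159) (nat_lit 0) (nat_lit 9) (nat_lit 7) (nat_lit 6) (nat_lit 6) (nat_lit 9) (by decide +kernel)
theorem L126958 : W_45 (nat_lit 3) (nat_lit 0x10001e000a000100020000000000000000000) (nat_lit 0x0) (nat_lit 0x8000600000001800000000000000000000000000) := T_45 (nat_lit 142) (nat_lit 141) (nat_lit 1) (nat_lit 9) (nat_lit 7) L126957 (by decide +kernel)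
theorem L126959 : W_45 (nat_lit 4) (nat_lit 0x10001c000a000100020000000000000000000) (nat_lit 0x0) (nat_lit 0x8000600020011800000000000000000000000000) := T_45 (nat_lit 125) (nat_lit 112) (nat_lit 2) (nat_lit 6) (nat_lit 7) L126958 (by decide +kernel)
theorem L126960 : W_45 (nat_lit 5) (nat_lit 0x10001c000a000000020000000000000000000) (nat_lit 0x0) (nat_lit 0x8000600020011800100008000000000000000000) := T_45 (nat_lit 92) (nat_lit 75) (nat_lit 7) (nat_lit 7) (nat_lit 4) L126959 (by decide +kernel)
theorem L126961 : W_45 (nat_lit 6) (nat_lit 0x10001c000a000000000000000000000000000) (nat_lit 0x0) (nat_lit 0x8000600020011800500028000000000000000000) := T_45 (nat_lit 77) (nat_lit 94) (nat_lit 5) (nat_lit 9) (nat_lit 4) L126960 (by decide +kernel)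
theorem L126962 : W_45 (nat_lit 11) (nat_lit 0x10001c0008000000000000000000000000000) (nat_lit 0x0) (nat_lit 0x300018000e00020013800fc003e000300000000000000) := Q_45 (nat_lit 109) (C_45 L126929 (C_45 L126933 (C_45 L126939 (C_45 L126940 (C_45 L126947 (C_45 L126956 (C_45 L126961 N_45))))))) (by decide +kernel)
theorem L126963 : W_45 (nat_lit 14) (nat_lit 0x10001c0000000000000000000000000000000) (nat_lit 0x0) (nat_lit 0x700038001e000e0002007fc01ff01ff801b00000000000000) := Q_45 (nat_lit 111) (C_45 L126770 (C_45 L126840 (C_45 L126926 (C_45 L126962 N_45)))) (by decide +kernel)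
theorem L126964 : W_45 (nat_lit 18) (nat_lit 0x10000c0000000000000000000000000000000) (nat_lit 0x0) (nat_lit 0x57003f801de01ce0072007fc0fff07ff83ff803f8007c00000) := Q_45 (nat_lit 128) (C_45 L124370 (C_45 L123682 (C_45 L123692 (C_45 L123750 (C_45 L123761 (C_45 L123037 (C_45 L126963 (C_45 L124246 (C_45 L124256 N_45))))))))) (by decide +kernel)
theorem L126965 : W_45 (nat_lit 2) (nat_lit 0x1c000c0003400780000000000000000000000) (nat_lit 0x0) (nat_lit 0x4000000060000000000000000000) := D_45 (nat_lit 77) (nat_lit 78) (nat_lit 110) (nat_lit 2) (nat_lit 6) (nat_lit 5) (nat_lit 6) (nat_lit 8) (nat_lit 8) (by decide +kernel)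
theorem L126966 : W_45 (nat_lit 3) (nat_lit 0x1c000c0003400700000000000000000000000) (nat_lit 0x0) (nat_lit 0x4000080064000000000000000000) := T_45 (nat_lit 91) (nat_lit 74) (nat_lit 4) (nat_lit 7) (nat_lit 8) L126965 (by decide +kernel)
theorem L126967 : W_45 (nat_lit 4) (nat_lit 0x1c000c0003400300000000000000000000000) (nat_lit 0x0) (nat_lit 0x4000c80064000000000000000000) := T_45 (nat_lit 94) (nat_lit 95) (nat_lit 1) (nat_lit 10) (nat_lit 5) L126966 (by decide +kernel)
theorem L126968 : W_45 (nat_lit 5) (nat_lit 0x1c000c0003400100000000000000000000000) (nat_lit 0x0) (nat_lit 0x4000e80074000000000000000000) := T_45 (nat_lit 93) (nat_lit 76) (nat_lit 6) (nat_lit 7) (nat_lit 8) L126967 (by decide +kernel)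
theorem L126969 : W_45 (nat_lit 6) (nat_lit 0x1c000c0003400000000000000000000000000) (nat_lit 0x0) (nat_lit 0x4000f8007c000000000000000000) := T_45 (nat_lit 92) (nat_lit 75) (nat_lit 7) (nat_lit 7) (nat_lit 4) L126968 (by decide +kernel)
theorem L126970 : W_45 (nat_lit 7) (nat_lit 0x1c000c0003000000000000000000000000000) (nat_lit 0x0) (nat_lit 0x4c00f8007c000000000000000000) := T_45 (nat_lit 106) (nat_lit 107) (nat_lit 3) (nat_lit 4) (nat_lit 6) L126969 (by decide +kernel)
theorem L126971 : W_45 (nat_lit 2) (nat_lit 0x1c002c0003000780000000000000000000000) (nat_lit 0x0) (nat_lit 0x4000000060000000000000000000) := D_45 (nat_lit 77) (nat_lit 78) (nat_lit 110) (nat_lit 2) (nat_lit 6) (nat_lit 5) (nat_lit 6) (nat_lit 8) (nat_lit 8) (by decide +kernel)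
theorem L126972 : W_45 (nat_lit 3) (nat_lit 0x1c002c0003000700000000000000000000000) (nat_lit 0x0) (nat_lit 0x4000080064000000000000000000) := T_45 (nat_lit 91) (nat_lit 74) (nat_lit 4) (nat_lit 7) (nat_lit 8) L126971 (by decide +kernel)
theorem L126973 : W_45 (nat_lit 4) (nat_lit 0x1c002c0003000300000000000000000000000) (nat_lit 0x0) (nat_lit 0x4000c80064000000000000000000) := T_45 (nat_lit 94) (nat_lit 95) (nat_lit 1) (nat_lit 10) (nat_lit 5) L126972 (by decide +kernel)
theorem L126974 : W_45 (nat_lit 5) (nat_lit 0x1c002c0003000100000000000000000000000) (nat_lit 0x0) (nat_lit 0x4000e80074000000000000000000) := T_45 (nat_lit 93) (nat_lit 76) (nat_lit 6) (nat_lit 7) (nat_lit 8) L126973 (by decide +kernel)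
theorem L126975 : W_45 (nat_lit 6) (nat_lit 0x1c000c0003000100000000000000000000000) (nat_lit 0x0) (nat_lit 0x300004000e80074000000000000000000) := T_45 (nat_lit 129) (nat_lit 128) (nat_lit 1) (nat_lit 10) (nat_lit 7) L126974 (by decide +kernel)
theorem L126976 : W_45 (nat_lit 7) (nat_lit 0x1c000c0003000000000000000000000000000) (nat_lit 0x0) (nat_lit 0x300004000f8007c000000000000000000) := T_45 (nat_lit 92) (nat_lit 75) (nat_lit 7) (nat_lit 7) (nat_lit 4) L126975 (by decide +kernel)
theorem L126977 : W_45 (nat_lit 8) (nat_lit 0x1c000c0002000000000000000000000000000) (nat_lit 0x0) (nat_lit 0x320005c00f8007c000000000000000000) := Q_45 (nat_lit 108) (C_45 L126732 (C_45 L122524 (C_45 L126970 (C_45 L126976 N_45)))) (by decide +kernel)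
theorem L126978 : W_45 (nat_lit 2) (nat_lit 0x1c000c0000000100000000000000000000000) (nat_lit 0x0) (nat_lit 0x8000000000002000000008000000000000000000) := D_45 (nat_lit 109) (nat_lit 159) (nat_lit 75) (nat_lit 5) (nat_lit 7) (nat_lit 5) (nat_lit 7) (nat_lit 7) (nat_lit 4) (by decide +kernel)
theorem L126979 : W_45 (nat_lit 2) (nat_lit 0x1c000c0000000300000000000000000000000) (nat_lit 0x0) (nat_lit 0x4000000018000000000000000000) := D_45 (nat_lit 110) (nat_lit 75) (nat_lit 76) (nat_lit 4) (nat_lit 8) (nat_lit 8) (nat_lit 5) (nat_lit 8) (nat_lit 4) (by decide +kernel)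
theorem L126980 : W_45 (nat_lit 2) (nat_lit 0x1c002c00000003e0010000000000000000000) (nat_lit 0x0) (nat_lit 0xe00000000000000000000000000) := D_45 (nat_lit 106) (nat_lit 105) (nat_lit 107) (nat_lit 1) (nat_lit 7) (nat_lit 5) (nat_lit 1) (nat_lit 8) (nat_lit 5) (by decide +kernel)
theorem L126981 : W_45 (nat_lit 3) (nat_lit 0x1c002c00000003c0010000000000000000000) (nat_lit 0x0) (nat_lit 0xe00020008000000000000000000) := T_45 (nat_lit 89) (nat_lit 75) (nat_lit 2) (nat_lit 4) (nat_lit 5) L126980 (by decide +kernel)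
theorem L126982 : W_45 (nat_lit 4) (nat_lit 0x1c002c00000003c0000000000000000000000) (nat_lit 0x0) (nat_lit 0xe00020038000000000000000000) := T_45 (nat_lit 76) (nat_lit 77) (nat_lit 2) (nat_lit 5) (nat_lit 5) L126981 (by decide +kernel)
theorem L126983 : W_45 (nat_lit 5) (nat_lit 0x1c000c00000003c0000000000000000000000) (nat_lit 0x0) (nat_lit 0x300000e00020038000000000000000000) := T_45 (nat_lit 129) (nat_lit 128) (nat_lit 1) (nat_lit 10) (nat_lit 7) L126982 (by decide +kernel)
theorem L126984 : W_45 (nat_lit 2) (nat_lit 0x1c000c00008003e0010000000000000000000) (nat_lit 0x0) (nat_lit 0x3800000000000000000) := D_45 (nat_lit 72) (nat_lit 71) (nat_lit 73) (nat_lit 0) (nat_lit 7) (nat_lit 5) (nat_lit 0) (nat_lit 8) (nat_lit 5) (by decide +kernel)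
theorem L126985 : W_45 (nat_lit 3) (nat_lit 0x1c000c00008003c0010000000000000000000) (nat_lit 0x0) (nat_lit 0x2000b800000000000000000) := T_45 (nat_lit 89) (nat_lit 75) (nat_lit 2) (nat_lit 4) (nat_lit 5) L126984 (by decide +kernel)
theorem L126986 : W_45 (nat_lit 4) (nat_lit 0x1c000c00008003c0000000000000000000000) (nat_lit 0x0) (nat_lit 0x2003b800000000000000000) := T_45 (nat_lit 76) (nat_lit 77) (nat_lit 2) (nat_lit 5) (nat_lit 5) L126985 (by decide +kernel)
theorem L126987 : W_45 (nat_lit 5) (nat_lit 0x1c000c00000003c0000000000000000000000) (nat_lit 0x0) (nat_lit 0xc0002003b800000000000000000) := T_45 (nat_lit 107) (nat_lit 106) (nat_lit 1) (nat_lit 8) (nat_lit 5) L126986 (by decide +kernel)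
theorem L126988 : W_45 (nat_lit 2) (nat_lit 0x1c000d80008007c0022000000000000000000) (nat_lit 0x0) (nat_lit 0x300008000000000000000000000000000) := D_45 (nat_lit 128) (nat_lit 129) (nat_lit 111) (nat_lit 1) (nat_lit 10) (nat_lit 7) (nat_lit 5) (nat_lit 9) (nat_lit 4) (by decide +kernel)
theorem L126989 : W_45 (nat_lit 3) (nat_lit 0x1c000d80008007c0002000000000000000000) (nat_lit 0x0) (nat_lit 0x300008000000060000000000000000000) := T_45 (nat_lit 77) (nat_lit 78) (nat_lit 2) (nat_lit 6) (nat_lit 5) L126988 (by decide +kernel)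
theorem L126990 : W_45 (nat_lit 4) (nat_lit 0x1c000d00008007c0002000000000000000000) (nat_lit 0x0) (nat_lit 0x100308008000000060000000000000000000) := T_45 (nat_lit 123) (nat_lit 140) (nat_lit 5) (nat_lit 5) (nat_lit 4) L126989 (by decide +kernel)
theorem L126991 : W_45 (nat_lit 5) (nat_lit 0x1c000c00008007c0002000000000000000000) (nat_lit 0x0) (nat_lit 0x100338008000000060000000000000000000) := T_45 (nat_lit 124) (nat_lit 125) (nat_lit 7) (nat_lit 5) (nat_lit 4) L126990 (by decide +kernel)
theorem L126992 : W_45 (nat_lit 6) (nat_lit 0x1c000c00008003c0002000000000000000000) (nat_lit 0x0) (nat_lit 0x100338008000400064000000000000000000) := T_45 (nat_lit 94) (nat_lit 74) (nat_lit 0) (nat_lit 9) (nat_lit 5) L126991 (by decide +kernel)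
theorem L126993 : W_45 (nat_lit 7) (nat_lit 0x1c000c00000003c0002000000000000000000) (nat_lit 0x0) (nat_lit 0x100338008c00400064000000000000000000) := T_45 (nat_lit 107) (nat_lit 106) (nat_lit 1) (nat_lit 8) (nat_lit 5) L126992 (by decide +kernel)
theorem L126994 : W_45 (nat_lit 8) (nat_lit 0x1c000c00000003c0000000000000000000000) (nat_lit 0x0) (nat_lit 0x100338008c00400067000000000000000000) := T_45 (nat_lit 73) (nat_lit 72) (nat_lit 0) (nat_lit 8) (nat_lit 5) L126993 (by decide +kernel)
theorem L126995 : W_45 (nat_lit 2) (nat_lit 0x1c002c00000003e0010000000000000000000) (nat_lit 0x0) (nat_lit 0x3800000000000000000) := D_45 (nat_lit 72) (nat_lit 73) (nat_lit 71) (nat_lit 0) (nat_lit 8) (nat_lit 5) (nat_lit 0) (nat_lit 7) (nat_lit 5) (by decide +kernel)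
theorem L126996 : W_45 (nat_lit 3) (nat_lit 0x1c002c00000003c0010000000000000000000) (nat_lit 0x0) (nat_lit 0x2000b800000000000000000) := T_45 (nat_lit 89) (nat_lit 75) (nat_lit 2) (nat_lit 4) (nat_lit 5) L126995 (by decide +kernel)
theorem L126997 : W_45 (nat_lit 4) (nat_lit 0x1c002c00000003c0000000000000000000000) (nat_lit 0x0) (nat_lit 0x2003b800000000000000000) := T_45 (nat_lit 76) (nat_lit 77) (nat_lit 2) (nat_lit 5) (nat_lit 5) L126996 (by decide +kernel)
theorem L126998 : W_45 (nat_lit 5) (nat_lit 0x1c000c00000003c0000000000000000000000) (nat_lit 0x0) (nat_lit 0x30000000002003b800000000000000000) := T_45 (nat_lit 129) (nat_lit 128) (nat_lit 1) (nat_lit 10) (nat_lit 7) L126997 (by decide +kernel)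
theorem L126999 : W_45 (nat_lit 2) (nat_lit 0x1c002c00008003c0006000000000000000000) (nat_lit 0x0) (nat_lit 0x10000000000000000200010000000000) := D_45 (nat_lit 57) (nat_lit 40) (nat_lit 124) (nat_lit 5) (nat_lit 6) (nat_lit 2) (nat_lit 6) (nat_lit 5) (nat_lit 7) (by decide +kernel)
theorem L127000 : W_45 (nat_lit 3) (nat_lit 0x1c002c00000003c0006000000000000000000) (nat_lit 0x0) (nat_lit 0x10000c00000000000200010000000000) := T_45 (nat_lit 107) (nat_lit 106) (nat_lit 1) (nat_lit 8) (nat_lit 5) L126999 (by decide +kernel)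
theorem L127001 : W_45 (nat_lit 4) (nat_lit 0x1c002c00000003c0002000000000000000000) (nat_lit 0x0) (nat_lit 0x10000c00400004000200010000000000) := T_45 (nat_lit 74) (nat_lit 94) (nat_lit 0) (nat_lit 9) (nat_lit 5) L127000 (by decide +kernel)
theorem L127002 : W_45 (nat_lit 5) (nat_lit 0x1c000c00000003c0002000000000000000000) (nat_lit 0x0) (nat_lit 0x310000c00400004000200010000000000) := T_45 (nat_lit 129) (nat_lit 128) (nat_lit 1) (nat_lit 10) (nat_lit 7) L127001 (by decide +kernel)
theorem L127003 : W_45 (nat_lit 6) (nat_lit 0x1c000c00000003c0000000000000000000000) (nat_lit 0x0) (nat_lit 0x310000c00400007000200010000000000) := T_45 (nat_lit 73) (nat_lit 72) (nat_lit 0) (nat_lit 8) (nat_lit 5) L127002 (by decide +kernel)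
theorem L127004 : W_45 (nat_lit 9) (nat_lit 0x1c000c0000000380000000000000000000000) (nat_lit 0x0) (nat_lit 0x100338008e0046007f800200010000000000) := Q_45 (nat_lit 90) (C_45 L126983 (C_45 L126987 (C_45 L126994 (C_45 L126998 (C_45 L127003 N_45))))) (by decide +kernel)
theorem L127005 : W_45 (nat_lit 2) (nat_lit 0x1c002c00008003c0002000000000000000000) (nat_lit 0x0) (nat_lit 0x30001000000000000000000000000000) := D_45 (nat_lit 125) (nat_lit 108) (nat_lit 124) (nat_lit 4) (nat_lit 6) (nat_lit 8) (nat_lit 7) (nat_lit 5) (nat_lit 4) (by decide +kernel)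
theorem L127006 : W_45 (nat_lit 3) (nat_lit 0x1c002c00008003c0000000000000000000000) (nat_lit 0x0) (nat_lit 0x30001000000003000000000000000000) := T_45 (nat_lit 73) (nat_lit 72) (nat_lit 0) (nat_lit 8) (nat_lit 5) L127005 (by decide +kernel)
theorem L127007 : W_45 (nat_lit 4) (nat_lit 0x1c002c00000003c0000000000000000000000) (nat_lit 0x0) (nat_lit 0x30001c00000003000000000000000000) := T_45 (nat_lit 107) (nat_lit 106) (nat_lit 1) (nat_lit 8) (nat_lit 5) L127006 (by decide +kernel)
theorem L127008 : W_45 (nat_lit 5) (nat_lit 0x1c000c00000003c0000000000000000000000) (nat_lit 0x0) (nat_lit 0x330001c00000003000000000000000000) := T_45 (nat_lit 129) (nat_lit 128) (nat_lit 1) (nat_lit 10) (nat_lit 7) L127007 (by decide +kernel)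
theorem L127009 : W_45 (nat_lit 6) (nat_lit 0x1c000c0000000380000000000000000000000) (nat_lit 0x0) (nat_lit 0x330001e0006003b800000000000000000) := Q_45 (nat_lit 90) (C_45 L126998 (C_45 L126987 (C_45 L127008 (C_45 L126983 N_45)))) (by decide +kernel)
theorem L127010 : W_45 (nat_lit 7) (nat_lit 0x1c000c0000000380000000000000000000000) (nat_lit 0x0) (nat_lit 0x310000e0046003f800200010000000000) := Q_45 (nat_lit 90) (C_45 L126998 (C_45 L127003 (C_45 L126987 (C_45 L126983 N_45)))) (by decide +kernel)
theorem L127011 : W_45 (nat_lit 2) (nat_lit 0x1c000c0001000380000000000000000000000) (nat_lit 0x0) (nat_lit 0x2000000000000c000000000000000000) := D_45 (nat_lit 125) (nat_lit 74) (nat_lit 75) (nat_lit 7) (nat_lit 6) (nat_lit 4) (nat_lit 6) (nat_lit 6) (nat_lit 8) (by decide +kernel)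
theorem L127012 : W_45 (nat_lit 2) (nat_lit 0x1c002c000100078003c000200020000000000) (nat_lit 0x0) (nat_lit 0x10001800000) := D_45 (nat_lit 40) (nat_lit 24) (nat_lit 23) (nat_lit 6) (nat_lit 6) (nat_lit 5) (nat_lit 7) (nat_lit 6) (nat_lit 1) (by decide +kernel)
theorem L127013 : W_45 (nat_lit 3) (nat_lit 0x1c002c000100078003c000200000000000000) (nat_lit 0x0) (nat_lit 0x400030001800000) := T_45 (nat_lit 41) (nat_lit 58) (nat_lit 6) (nat_lit 6) (nat_lit 6) L127012 (by decide +kernel)
theorem L127014 : W_45 (nat_lit 4) (nat_lit 0x1c002c000100078003c000000000000000000) (nat_lit 0x0) (nat_lit 0x700030001800000) := T_45 (nat_lit 57) (nat_lit 56) (nat_lit 0) (nat_lit 9) (nat_lit 4) L127013 (by decide +kernel)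
theorem L127015 : W_45 (nat_lit 5) (nat_lit 0x1c002c0001000780034000000000000000000) (nat_lit 0x0) (nat_lit 0x800008000700030001800000) := T_45 (nat_lit 75) (nat_lit 95) (nat_lit 3) (nat_lit 6) (nat_lit 4) L127014 (by decide +kernel)
theorem L127016 : W_45 (nat_lit 6) (nat_lit 0x1c002c0001000780024000000000000000000) (nat_lit 0x0) (nat_lit 0x840018000700030001800000) := T_45 (nat_lit 76) (nat_lit 90) (nat_lit 2) (nat_lit 5) (nat_lit 5) L127015 (by decide +kernel)
theorem L127017 : W_45 (nat_lit 7) (nat_lit 0x1c002c0001000780004000000000000000000) (nat_lit 0x0) (nat_lit 0x840078000700030001800000) := T_45 (nat_lit 77) (nat_lit 78) (nat_lit 2) (nat_lit 6) (nat_lit 5) L127016 (by decide +kernel)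
theorem L127018 : W_45 (nat_lit 8) (nat_lit 0x1c002c0001000780000000000000000000000) (nat_lit 0x0) (nat_lit 0x84007e000700030001800000) := T_45 (nat_lit 74) (nat_lit 73) (nat_lit 0) (nat_lit 9) (nat_lit 5) L127017 (by decide +kernel)
theorem L127019 : W_45 (nat_lit 9) (nat_lit 0x1c002c0001000380000000000000000000000) (nat_lit 0x0) (nat_lit 0x800c4007e000700030001800000) := T_45 (nat_lit 94) (nat_lit 107) (nat_lit 1) (nat_lit 9) (nat_lit 5) L127018 (by decide +kernel)
theorem L127020 : W_45 (nat_lit 10) (nat_lit 0x1c000c0001000380000000000000000000000) (nat_lit 0x0) (nat_lit 0x300000800c4007e000700030001800000) := T_45 (nat_lit 129) (nat_lit 128) (nat_lit 1) (nat_lit 10) (nat_lit 7) L127019 (by decide +kernel)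
theorem L127021 : W_45 (nat_lit 2) (nat_lit 0x1c000e00010007c0000000000000000000000) (nat_lit 0x0) (nat_lit 0x70000000000000000000) := D_45 (nat_lit 77) (nat_lit 76) (nat_lit 78) (nat_lit 2) (nat_lit 5) (nat_lit 5) (nat_lit 2) (nat_lit 6) (nat_lit 5) (by decide +kernel)
theorem L127022 : W_45 (nat_lit 3) (nat_lit 0x1c000e0001000780000000000000000000000) (nat_lit 0x0) (nat_lit 0x40072000000000000000000) := T_45 (nat_lit 90) (nat_lit 73) (nat_lit 4) (nat_lit 6) (nat_lit 8) L127021 (by decide +kernel)
theorem L127023 : W_45 (nat_lit 4) (nat_lit 0x1c000c0001000780000000000000000000000) (nat_lit 0x0) (nat_lit 0x2000000004007a000000000000000000) := T_45 (nat_lit 125) (nat_lit 75) (nat_lit 6) (nat_lit 6) (nat_lit 8) L127022 (by decide +kernel)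
theorem L127024 : W_45 (nat_lit 5) (nat_lit 0x1c000c0001000380000000000000000000000) (nat_lit 0x0) (nat_lit 0x2000080044007a000000000000000000) := T_45 (nat_lit 94) (nat_lit 107) (nat_lit 1) (nat_lit 9) (nat_lit 5) L127023 (by decide +kernel)
theorem L127025 : W_45 (nat_lit 2) (nat_lit 0x1c000c0001000780000000000000000000000) (nat_lit 0x0) (nat_lit 0x20000000000006000000000000000000) := D_45 (nat_lit 74) (nat_lit 73) (nat_lit 125) (nat_lit 0) (nat_lit 9) (nat_lit 5) (nat_lit 7) (nat_lit 6) (nat_lit 4) (by decide +kernel)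
theorem L127026 : W_45 (nat_lit 3) (nat_lit 0x1c000c0001000380000000000000000000000) (nat_lit 0x0) (nat_lit 0x20000800400006000000000000000000) := T_45 (nat_lit 94) (nat_lit 107) (nat_lit 1) (nat_lit 9) (nat_lit 5) L127025 (by decide +kernel)
theorem L127027 : W_45 (nat_lit 11) (nat_lit 0x1c000c0000000380000000000000000000000) (nat_lit 0x0) (nat_lit 0x320001800c4007e000700030001800000) := Q_45 (nat_lit 108) (C_45 L127011 (C_45 L127020 (C_45 L127024 (C_45 L127026 N_45)))) (by decide +kernel)
theorem L127028 : W_45 (nat_lit 2) (nat_lit 0x1c000c00008003c0002000000000000000000) (nat_lit 0x0) (nat_lit 0x30001000000000000000000000000000) := D_45 (nat_lit 125) (nat_lit 108) (nat_lit 124) (nat_lit 4) (nat_lit 6) (nat_lit 8) (nat_lit 7) (nat_lit 5) (nat_lit 4) (by decide +kernel)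
theorem L127029 : W_45 (nat_lit 3) (nat_lit 0x1c000c00000003c0002000000000000000000) (nat_lit 0x0) (nat_lit 0x30001c00000000000000000000000000) := T_45 (nat_lit 107) (nat_lit 106) (nat_lit 1) (nat_lit 8) (nat_lit 5) L127028 (by decide +kernel)
theorem L127030 : W_45 (nat_lit 4) (nat_lit 0x1c000c00000003c0000000000000000000000) (nat_lit 0x0) (nat_lit 0x30001c00000003000000000000000000) := T_45 (nat_lit 73) (nat_lit 72) (nat_lit 0) (nat_lit 8) (nat_lit 5) L127029 (by decide +kernel)
theorem L127031 : W_45 (nat_lit 2) (nat_lit 0x1c000c00000003e0010000000000000000000) (nat_lit 0x0) (nat_lit 0x3800000000000000000) := D_45 (nat_lit 72) (nat_lit 73) (nat_lit 71) (nat_lit 0) (nat_lit 8) (nat_lit 5) (nat_lit 0) (nat_lit 7) (nat_lit 5) (by decide +kernel)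
theorem L127032 : W_45 (nat_lit 3) (nat_lit 0x1c000c00000003c0010000000000000000000) (nat_lit 0x0) (nat_lit 0x2000b800000000000000000) := T_45 (nat_lit 89) (nat_lit 75) (nat_lit 2) (nat_lit 4) (nat_lit 5) L127031 (by decide +kernel)
theorem L127033 : W_45 (nat_lit 4) (nat_lit 0x1c000c00000003c0000000000000000000000) (nat_lit 0x0) (nat_lit 0x2003b800000000000000000) := T_45 (nat_lit 76) (nat_lit 77) (nat_lit 2) (nat_lit 5) (nat_lit 5) L127032 (by decide +kernel)
theorem L127034 : W_45 (nat_lit 2) (nat_lit 0x1c000c00018003e0011000000000000000000) (nat_lit 0x0) (nat_lit 0x8000000020000000000004000000000000000000) := D_45 (nat_lit 125) (nat_lit 159) (nat_lit 74) (nat_lit 4) (nat_lit 6) (nat_lit 9) (nat_lit 7) (nat_lit 6) (nat_lit 4) (by decide +kernel)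
theorem L127035 : W_45 (nat_lit 3) (nat_lit 0x1c000c00008003e0011000000000000000000) (nat_lit 0x0) (nat_lit 0x8000000020001000400004000000000000000000) := T_45 (nat_lit 108) (nat_lit 94) (nat_lit 1) (nat_lit 9) (nat_lit 5) L127034 (by decide +kernel)
theorem L127036 : W_45 (nat_lit 4) (nat_lit 0x1c000c00008003e0010000000000000000000) (nat_lit 0x0) (nat_lit 0x8000000020001000400005800000000000000000) := T_45 (nat_lit 72) (nat_lit 71) (nat_lit 0) (nat_lit 7) (nat_lit 5) L127035 (by decide +kernel)
end Crest.Agent.Helper32.Snaky.R1_0
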