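import Crest.Agent.Helper32.Snaky.Gen.R1_0_p45
set_option autoImplicit false
set_option maxRecDepth 100000
set_option linter.all false
set_option Elab.async false
namespace Crest.Agent.Helper32.Snaky.R1_0
@[reducible] def W_46 (d M Bz Z : Nat) : Prop := Crest.Agent.Helper32.Snaky.Wins (nat_lit 17) d M Bz Z
theorem D_46 {d M Bz Z : Nat} (m t1 t2 o1 x1 y1 o2 x2 y2 : Nat) (h : Crest.Agent.Helper32.Snaky.chkDoubleC (nat_lit 17) d M Bz Z m t1 t2 o1 x1 y1 o2 x2 y2 = true) : W_46 d M Bz Z := Crest.Agent.Helper32.Snaky.doubleC m t1 t2 o1 x1 y1 o2 x2 y2 h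
theorem T_46 {d M Bz Z cd cM cBz cZ : Nat} (m t o x y : Nat) (child : W_46 cd cM cBz cZ) (h : Crest.Agent.Helper32.Snaky.chkThreatC (nat_lit 17) d M Bz Z cd cM cBz cZ m t o x y = true) : W_46 d M Bz Z := Crest.Agent.Helper32.Snaky.threatC m t o x y child h
theorem Q_46 {d M Bz Z : Nat} (m : Nat) {l : List Crest.Agent.Helper32.Snaky.Spec} (kids : Crest.Agent.Helper32.Snaky.AllWins (nat_lit 17) l) (h : Crest.Agent.Helper32.Snaky.chkQuiet d M Bz Z m l = true) : W_46 d M Bz Z := Crest.Agent.Helper32.Snaky.quiet m kids h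
theorem C_46 {cd cM cBz cZ : Nat} {l : List Crest.Agent.Helper32.Snaky.Spec} (h : W_46 cd cM cBz cZ) (hl : Crest.Agent.Helper32.Snaky.AllWins (nat_lit 17) l) : Crest.Agent.Helper32.Snaky.AllWins (nat_lit 17) ((cd, cM, cBz, cZ) :: l) := Crest.Agent.Helper32.Snaky.AllWins.cons h hl
theorem N_46 : Crest.Agent.Helper32.Snaky.AllWins (nat_lit 17) [] := Crest.Agent.Helper32.Snaky.AllWins.nil
theorem L127037 : W_46 (nat_lit 5) (nat_lit 0x1c000c00008003c0010000000000000000000) (nat_lit 0x0) (nat_lit 0x800000002000100042000d800000000000000000) := T_46 (nat_lit 89) (nat_lit 75) (nat_lit 2) (nat_lit 4) (nat_lit 5) L127036 (by decide +kernel)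
theorem L127038 : W_46 (nat_lit 6) (nat_lit 0x1c000c00008003c0000000000000000000000) (nat_lit 0x0) (nat_lit 0x800000002000100042003d800000000000000000) := T_46 (nat_lit 76) (nat_lit 77) (nat_lit 2) (nat_lit 5) (nat_lit 5) L127037 (by decide +kernel)
theorem L127039 : W_46 (nat_lit 7) (nat_lit 0x1c000c00000003c0000000000000000000000) (nat_lit 0x0) (nat_lit 0x8000000020001c0042003d800000000000000000) := T_46 (nat_lit 107) (nat_lit 106) (nat_lit 1) (nat_lit 8) (nat_lit 5) L127038 (by decide +kernel)
theorem L127040 : W_46 (nat_lit 2) (nat_lit 0x1c000c00018003e0010000000000000000000) (nat_lit 0x0) (nat_lit 0x8000000020000000000002000000000000000000) := D_46 (nat_lit 125) (nat_lit 73) (nat_lit 159) (nat_lit 4) (nat_lit 6) (nat_lit 8) (nat_lit 4) (nat_lit 6) (nat_lit 9) (by decide +kernel)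
theorem L127041 : W_46 (nat_lit 3) (nat_lit 0x1c000c00008003e0010000000000000000000) (nat_lit 0x0) (nat_lit 0x8000000020001000400002000000000000000000) := T_46 (nat_lit 108) (nat_lit 94) (nat_lit 1) (nat_lit 9) (nat_lit 5) L127040 (by decide +kernel)
theorem L127042 : W_46 (nat_lit 4) (nat_lit 0x1c000c00008003c0010000000000000000000) (nat_lit 0x0) (nat_lit 0x800000002000100042000a000000000000000000) := T_46 (nat_lit 89) (nat_lit 75) (nat_lit 2) (nat_lit 4) (nat_lit 5) L127041 (by decide +kernel)
theorem L127043 : W_46 (nat_lit 5) (nat_lit 0x1c000c00008003c0000000000000000000000) (nat_lit 0x0) (nat_lit 0x800000002000100042003a000000000000000000) := T_46 (nat_lit 76) (nat_lit 77) (nat_lit 2) (nat_lit 5) (nat_lit 5) L127042 (by decide +kernel)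
theorem L127044 : W_46 (nat_lit 6) (nat_lit 0x1c000c00000003c0000000000000000000000) (nat_lit 0x0) (nat_lit 0x8000000020001c0042003a000000000000000000) := T_46 (nat_lit 107) (nat_lit 106) (nat_lit 1) (nat_lit 8) (nat_lit 5) L127043 (by decide +kernel)
theorem L127045 : W_46 (nat_lit 8) (nat_lit 0x1c000c0000000380000000000000000000000) (nat_lit 0x0) (nat_lit 0x8000000030001c0046003f800000000000000000) := Q_46 (nat_lit 90) (C_46 L126987 (C_46 L127030 (C_46 L127033 (C_46 L127039 (C_46 L127044 N_46))))) (by decide +kernel)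
theorem L127046 : W_46 (nat_lit 2) (nat_lit 0x1c002c0001000780044000000000000000000) (nat_lit 0x0) (nat_lit 0x800088000000000000000000) := D_46 (nat_lit 95) (nat_lit 75) (nat_lit 79) (nat_lit 0) (nat_lit 10) (nat_lit 5) (nat_lit 2) (nat_lit 7) (nat_lit 5) (by decide +kernel)
theorem L127047 : W_46 (nat_lit 3) (nat_lit 0x1c002c0001000780004000000000000000000) (nat_lit 0x0) (nat_lit 0x8000e8000000000000000000) := T_46 (nat_lit 78) (nat_lit 77) (nat_lit 2) (nat_lit 6) (nat_lit 5) L127046 (by decide +kernel)
theorem L127048 : W_46 (nat_lit 4) (nat_lit 0x1c002c0001000780000000000000000000000) (nat_lit 0x0) (nat_lit 0x8000ee000000000000000000) := T_46 (nat_lit 74) (nat_lit 73) (nat_lit 0) (nat_lit 9) (nat_lit 5) L127047 (by decide +kernel)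
theorem L127049 : W_46 (nat_lit 5) (nat_lit 0x1c002c0001000380000000000000000000000) (nat_lit 0x0) (nat_lit 0x800c000ee000000000000000000) := T_46 (nat_lit 94) (nat_lit 107) (nat_lit 1) (nat_lit 9) (nat_lit 5) L127048 (by decide +kernel)
theorem L127050 : W_46 (nat_lit 6) (nat_lit 0x1c000c0001000380000000000000000000000) (nat_lit 0x0) (nat_lit 0x300000800c000ee000000000000000000) := T_46 (nat_lit 129) (nat_lit 128) (nat_lit 1) (nat_lit 10) (nat_lit 7) L127049 (by decide +kernel)
theorem L127051 : W_46 (nat_lit 2) (nat_lit 0x1c000e80010007c0020000000000000000000) (nat_lit 0x0) (nat_lit 0x300008000000000000000000000000000) := D_46 (nat_lit 128) (nat_lit 129) (nat_lit 111) (nat_lit 1) (nat_lit 10) (nat_lit 7) (nat_lit 5) (nat_lit 9) (nat_lit 4) (by decide +kernel)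
theorem L127052 : W_46 (nat_lit 3) (nat_lit 0x1c000e80010007c0000000000000000000000) (nat_lit 0x0) (nat_lit 0x300008000000060000000000000000000) := T_46 (nat_lit 77) (nat_lit 78) (nat_lit 2) (nat_lit 6) (nat_lit 5) L127051 (by decide +kernel)
theorem L127053 : W_46 (nat_lit 4) (nat_lit 0x1c000e00010007c0000000000000000000000) (nat_lit 0x0) (nat_lit 0x318008000000060000000000000000000) := T_46 (nat_lit 123) (nat_lit 124) (nat_lit 3) (nat_lit 4) (nat_lit 7) L127052 (by decide +kernel)
theorem L127054 : W_46 (nat_lit 5) (nat_lit 0x1c000e0001000780000000000000000000000) (nat_lit 0x0) (nat_lit 0x318008000040062000000000000000000) := T_46 (nat_lit 90) (nat_lit 73) (nat_lit 4) (nat_lit 6) (nat_lit 8) L127053 (by decide +kernel)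
theorem L127055 : W_46 (nat_lit 6) (nat_lit 0x1c000c0001000780000000000000000000000) (nat_lit 0x0) (nat_lit 0x33800800004006a000000000000000000) := T_46 (nat_lit 125) (nat_lit 75) (nat_lit 6) (nat_lit 6) (nat_lit 8) L127054 (by decide +kernel)
theorem L127056 : W_46 (nat_lit 7) (nat_lit 0x1c000c0001000380000000000000000000000) (nat_lit 0x0) (nat_lit 0x33800880044006a000000000000000000) := T_46 (nat_lit 94) (nat_lit 107) (nat_lit 1) (nat_lit 9) (nat_lit 5) L127055 (by decide +kernel)
theorem L127057 : W_46 (nat_lit 8) (nat_lit 0x1c000c0000000380000000000000000000000) (nat_lit 0x0) (nat_lit 0x338009800c400ee000000000000000000) := Q_46 (nat_lit 108) (C_46 L127011 (C_46 L127026 (C_46 L127050 (C_46 L127056 N_46)))) (by decide +kernel)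
theorem L127058 : W_46 (nat_lit 2) (nat_lit 0x1c001c00000007c0002000000000000000000) (nat_lit 0x0) (nat_lit 0x8000000060000000000000000000) := D_46 (nat_lit 77) (nat_lit 78) (nat_lit 111) (nat_lit 2) (nat_lit 6) (nat_lit 5) (nat_lit 5) (nat_lit 9) (nat_lit 4) (by decide +kernel)
theorem L127059 : W_46 (nat_lit 3) (nat_lit 0x1c001c00000003c0002000000000000000000) (nat_lit 0x0) (nat_lit 0x8000400064000000000000000000) := T_46 (nat_lit 94) (nat_lit 74) (nat_lit 0) (nat_lit 9) (nat_lit 5) L127058 (by decide +kernel)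
theorem L127060 : W_46 (nat_lit 4) (nat_lit 0x1c001c00000003c0000000000000000000000) (nat_lit 0x0) (nat_lit 0x8000400067000000000000000000) := T_46 (nat_lit 73) (nat_lit 72) (nat_lit 0) (nat_lit 8) (nat_lit 5) L127059 (by decide +kernel)
theorem L127061 : W_46 (nat_lit 5) (nat_lit 0x1c000c00000003c0000000000000000000000) (nat_lit 0x0) (nat_lit 0x300008000400067000000000000000000) := T_46 (nat_lit 128) (nat_lit 129) (nat_lit 1) (nat_lit 10) (nat_lit 7) L127060 (by decide +kernel)
theorem L127062 : W_46 (nat_lit 2) (nat_lit 0x1c002c00002003e0009000000000000000000) (nat_lit 0x0) (nat_lit 0x100010004000000000000000000) := D_46 (nat_lit 88) (nat_lit 74) (nat_lit 104) (nat_lit 2) (nat_lit 3) (nat_lit 5) (nat_lit 1) (nat_lit 6) (nat_lit 5) (by decide +kernel)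
theorem L127063 : W_46 (nat_lit 3) (nat_lit 0x1c002c00002003e0001000000000000000000) (nat_lit 0x0) (nat_lit 0x10001001c000000000000000000) := T_46 (nat_lit 75) (nat_lit 76) (nat_lit 2) (nat_lit 4) (nat_lit 5) L127062 (by decide +kernel)
theorem L127064 : W_46 (nat_lit 4) (nat_lit 0x1c002c00000003e0001000000000000000000) (nat_lit 0x0) (nat_lit 0x70001001c000000000000000000) := T_46 (nat_lit 105) (nat_lit 106) (nat_lit 1) (nat_lit 7) (nat_lit 5) L127063 (by decide +kernel)
theorem L127065 : W_46 (nat_lit 5) (nat_lit 0x1c002c00000003c0001000000000000000000) (nat_lit 0x0) (nat_lit 0x70003001c800000000000000000) := T_46 (nat_lit 89) (nat_lit 71) (nat_lit 0) (nat_lit 7) (nat_lit 5) L127064 (by decide +kernel)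
theorem L127066 : W_46 (nat_lit 6) (nat_lit 0x1c000c00000003c0001000000000000000000) (nat_lit 0x0) (nat_lit 0x30000070003001c800000000000000000) := T_46 (nat_lit 129) (nat_lit 128) (nat_lit 1) (nat_lit 10) (nat_lit 7) L127065 (by decide +kernel)
theorem L127067 : W_46 (nat_lit 7) (nat_lit 0x1c000c00000003c0000000000000000000000) (nat_lit 0x0) (nat_lit 0x30000070003001f800000000000000000) := T_46 (nat_lit 72) (nat_lit 73) (nat_lit 0) (nat_lit 8) (nat_lit 5) L127066 (by decide +kernel)
theorem L127068 : W_46 (nat_lit 2) (nat_lit 0x1c002c00002003e0010800000000000000000) (nat_lit 0x0) (nat_lit 0x100010000400000000000000000) := D_46 (nat_lit 88) (nat_lit 104) (nat_lit 70) (nat_lit 1) (nat_lit 6) (nat_lit 5) (nat_lit 0) (nat_lit 6) (nat_lit 5) (by decide +kernel)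
theorem L127069 : W_46 (nat_lit 3) (nat_lit 0x1c002c00002003e0010000000000000000000) (nat_lit 0x0) (nat_lit 0x100010001c00000000000000000) := T_46 (nat_lit 71) (nat_lit 72) (nat_lit 0) (nat_lit 7) (nat_lit 5) L127068 (by decide +kernel)
theorem L127070 : W_46 (nat_lit 4) (nat_lit 0x1c002c00000003e0010000000000000000000) (nat_lit 0x0) (nat_lit 0x700010001c00000000000000000) := T_46 (nat_lit 105) (nat_lit 106) (nat_lit 1) (nat_lit 7) (nat_lit 5) L127069 (by decide +kernel)
theorem L127071 : W_46 (nat_lit 5) (nat_lit 0x1c002c00000003c0010000000000000000000) (nat_lit 0x0) (nat_lit 0x700030009c00000000000000000) := T_46 (nat_lit 89) (nat_lit 75) (nat_lit 2) (nat_lit 4) (nat_lit 5) L127070 (by decide +kernel)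
theorem L127072 : W_46 (nat_lit 6) (nat_lit 0x1c002c00000003c0000000000000000000000) (nat_lit 0x0) (nat_lit 0x700030039c00000000000000000) := T_46 (nat_lit 76) (nat_lit 77) (nat_lit 2) (nat_lit 5) (nat_lit 5) L127071 (by decide +kernel)
theorem L127073 : W_46 (nat_lit 7) (nat_lit 0x1c000c00000003c0000000000000000000000) (nat_lit 0x0) (nat_lit 0x300000700030039c00000000000000000) := T_46 (nat_lit 129) (nat_lit 128) (nat_lit 1) (nat_lit 10) (nat_lit 7) L127072 (by decide +kernel)
theorem L127074 : W_46 (nat_lit 2) (nat_lit 0x1c001c00000003c0020000000000000000000) (nat_lit 0x0) (nat_lit 0x8000400040000000000000000000) := D_46 (nat_lit 94) (nat_lit 78) (nat_lit 111) (nat_lit 2) (nat_lit 6) (nat_lit 5) (nat_lit 5) (nat_lit 9) (nat_lit 4) (by decide +kernel)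
theorem L127075 : W_46 (nat_lit 3) (nat_lit 0x1c000c00000003c0020000000000000000000) (nat_lit 0x0) (nat_lit 0x300008000400040000000000000000000) := T_46 (nat_lit 128) (nat_lit 129) (nat_lit 1) (nat_lit 10) (nat_lit 7) L127074 (by decide +kernel)
theorem L127076 : W_46 (nat_lit 4) (nat_lit 0x1c000c00000003c0000000000000000000000) (nat_lit 0x0) (nat_lit 0x300008000400070000000000000000000) := T_46 (nat_lit 77) (nat_lit 76) (nat_lit 2) (nat_lit 5) (nat_lit 5) L127075 (by decide +kernel)
theorem L127077 : W_46 (nat_lit 8) (nat_lit 0x1c000c0000000380000000000000000000000) (nat_lit 0x0) (nat_lit 0x30000870047007fc00000000000000000) := Q_46 (nat_lit 90) (C_46 L127033 (C_46 L127061 (C_46 L127067 (C_46 L127073 (C_46 L127076 N_46))))) (by decide +kernel)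
theorem L127078 : W_46 (nat_lit 2) (nat_lit 0x1c002c0000000780044000000000000000000) (nat_lit 0x0) (nat_lit 0x800088000000000000000000) := D_46 (nat_lit 95) (nat_lit 79) (nat_lit 75) (nat_lit 2) (nat_lit 7) (nat_lit 5) (nat_lit 0) (nat_lit 10) (nat_lit 5) (by decide +kernel)
theorem L127079 : W_46 (nat_lit 3) (nat_lit 0x1c002c0000000780040000000000000000000) (nat_lit 0x0) (nat_lit 0x80008e000000000000000000) := T_46 (nat_lit 74) (nat_lit 73) (nat_lit 0) (nat_lit 9) (nat_lit 5) L127078 (by decide +kernel)
theorem L127080 : W_46 (nat_lit 4) (nat_lit 0x1c002c0000000780000000000000000000000) (nat_lit 0x0) (nat_lit 0x8000ee000000000000000000) := T_46 (nat_lit 78) (nat_lit 77) (nat_lit 2) (nat_lit 6) (nat_lit 5) L127079 (by decide +kernel)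
theorem L127081 : W_46 (nat_lit 5) (nat_lit 0x1c000c0000000780000000000000000000000) (nat_lit 0x0) (nat_lit 0x3000000008000ee000000000000000000) := T_46 (nat_lit 129) (nat_lit 128) (nat_lit 1) (nat_lit 10) (nat_lit 7) L127080 (by decide +kernel)
theorem L127082 : W_46 (nat_lit 2) (nat_lit 0x1c000c0001000780020000000000000000000) (nat_lit 0x0) (nat_lit 0x20000000000006000000000000000000) := D_46 (nat_lit 74) (nat_lit 73) (nat_lit 125) (nat_lit 0) (nat_lit 9) (nat_lit 5) (nat_lit 7) (nat_lit 6) (nat_lit 4) (by decide +kernel)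
theorem L127083 : W_46 (nat_lit 3) (nat_lit 0x1c000c0000000780020000000000000000000) (nat_lit 0x0) (nat_lit 0x20001800000006000000000000000000) := T_46 (nat_lit 108) (nat_lit 107) (nat_lit 1) (nat_lit 9) (nat_lit 5) L127082 (by decide +kernel)
theorem L127084 : W_46 (nat_lit 4) (nat_lit 0x1c000c0000000780000000000000000000000) (nat_lit 0x0) (nat_lit 0x20001800000066000000000000000000) := T_46 (nat_lit 77) (nat_lit 78) (nat_lit 2) (nat_lit 6) (nat_lit 5) L127083 (by decide +kernel)
theorem L127085 : W_46 (nat_lit 2) (nat_lit 0x1c001c0000000780000000000000000000000) (nat_lit 0x0) (nat_lit 0x8000000060000000000000000000) := D_46 (nat_lit 77) (nat_lit 78) (nat_lit 111) (nat_lit 2) (nat_lit 6) (nat_lit 5) (nat_lit 5) (nat_lit 9) (nat_lit 4) (by decide +kernel)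
theorem L127086 : W_46 (nat_lit 3) (nat_lit 0x1c000c0000000780000000000000000000000) (nat_lit 0x0) (nat_lit 0x300008000000060000000000000000000) := T_46 (nat_lit 128) (nat_lit 129) (nat_lit 1) (nat_lit 10) (nat_lit 7) L127085 (by decide +kernel)
theorem L127087 : W_46 (nat_lit 2) (nat_lit 0x1c000c0000000780004000000000000000000) (nat_lit 0x0) (nat_lit 0x20001800000000000000000000000000) := D_46 (nat_lit 108) (nat_lit 107) (nat_lit 125) (nat_lit 1) (nat_lit 9) (nat_lit 5) (nat_lit 7) (nat_lit 6) (nat_lit 4) (by decide +kernel)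
theorem L127088 : W_46 (nat_lit 3) (nat_lit 0x1c000c0000000780000000000000000000000) (nat_lit 0x0) (nat_lit 0x20001800000006000000000000000000) := T_46 (nat_lit 74) (nat_lit 73) (nat_lit 0) (nat_lit 9) (nat_lit 5) L127087 (by decide +kernel)
theorem L127089 : W_46 (nat_lit 6) (nat_lit 0x1c000c0000000380000000000000000000000) (nat_lit 0x0) (nat_lit 0x320009800c000ee000000000000000000) := Q_46 (nat_lit 94) (C_46 L127081 (C_46 L127084 (C_46 L127086 (C_46 L127088 N_46)))) (by decide +kernel)
theorem L127090 : W_46 (nat_lit 2) (nat_lit 0x1c002c0001800380000000000000000000000) (nat_lit 0x0) (nat_lit 0x600040000000000000000000000) := D_46 (nat_lit 106) (nat_lit 90) (nat_lit 105) (nat_lit 1) (nat_lit 8) (nat_lit 5) (nat_lit 2) (nat_lit 3) (nat_lit 6) (by decide +kernel)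
theorem L127091 : W_46 (nat_lit 3) (nat_lit 0x1c002c0001000380000000000000000000000) (nat_lit 0x0) (nat_lit 0xe00440000000000000000000000) := T_46 (nat_lit 107) (nat_lit 94) (nat_lit 1) (nat_lit 9) (nat_lit 5) L127090 (by decide +kernel)
theorem L127092 : W_46 (nat_lit 4) (nat_lit 0x1c000c0001000380000000000000000000000) (nat_lit 0x0) (nat_lit 0x300000e00440000000000000000000000) := T_46 (nat_lit 129) (nat_lit 128) (nat_lit 1) (nat_lit 10) (nat_lit 7) L127091 (by decide +kernel)
theorem L127093 : W_46 (nat_lit 5) (nat_lit 0x1c000c0000000380000000000000000000000) (nat_lit 0x0) (nat_lit 0x320001e0044000e000000000000000000) := Q_46 (nat_lit 108) (C_46 L127011 (C_46 L127026 (C_46 L127092 N_46))) (by decide +kernel)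
theorem L127094 : W_46 (nat_lit 5) (nat_lit 0x1c000c0000000380000000000000000000000) (nat_lit 0x0) (nat_lit 0x330009c00440073000000000000000000) := Q_46 (nat_lit 90) (C_46 L127030 (C_46 L127076 N_46)) (by decide +kernel)
theorem L127095 : W_46 (nat_lit 5) (nat_lit 0x1c000c0000000380000000000000000000000) (nat_lit 0x0) (nat_lit 0x320001e0044000c000000000000000000) := Q_46 (nat_lit 108) (C_46 L127011 (C_46 L127092 N_46)) (by decide +kernel)
theorem L127096 : W_46 (nat_lit 12) (nat_lit 0x1c000c0000000300000000000000000000000) (nat_lit 0x0) (nat_lit 0x8000100338009f00cf00ffc00700030001800000) := Q_46 (nat_lit 91) (C_46 L127004 (C_46 L127009 (C_46 L127010 (C_46 L127027 (C_46 L127045 (C_46 L127057 (C_46 L127077 (C_46 L127089 (C_46 L127093 (C_46 L127094 (C_46 L127095 N_46))))))))))) (by decide +kernel)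
theorem L127097 : W_46 (nat_lit 2) (nat_lit 0x1c002f0000000300000000000000000000000) (nat_lit 0x0) (nat_lit 0xc000000008000000000000000000) := D_46 (nat_lit 110) (nat_lit 75) (nat_lit 111) (nat_lit 4) (nat_lit 8) (nat_lit 8) (nat_lit 2) (nat_lit 5) (nat_lit 7) (by decide +kernel)
theorem L127098 : W_46 (nat_lit 3) (nat_lit 0x1c002e0000000300000000000000000000000) (nat_lit 0x0) (nat_lit 0x1800c000000008000000000000000000) := T_46 (nat_lit 124) (nat_lit 123) (nat_lit 3) (nat_lit 4) (nat_lit 7) L127097 (by decide +kernel)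
theorem L127099 : W_46 (nat_lit 4) (nat_lit 0x1c000e0000000300000000000000000000000) (nat_lit 0x0) (nat_lit 0x31800c000000008000000000000000000) := T_46 (nat_lit 129) (nat_lit 128) (nat_lit 1) (nat_lit 10) (nat_lit 7) L127098 (by decide +kernel)
theorem L127100 : W_46 (nat_lit 2) (nat_lit 0x1c002f0004800780000000000000000000000) (nat_lit 0x0) (nat_lit 0x40006000000000000000000) := D_46 (nat_lit 73) (nat_lit 74) (nat_lit 90) (nat_lit 0) (nat_lit 9) (nat_lit 5) (nat_lit 7) (nat_lit 5) (nat_lit 4) (by decide +kernel)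
theorem L127101 : W_46 (nat_lit 3) (nat_lit 0x1c002f0004800700000000000000000000000) (nat_lit 0x0) (nat_lit 0x10000c0006000000000000000000) := T_46 (nat_lit 91) (nat_lit 108) (nat_lit 1) (nat_lit 9) (nat_lit 5) L127100 (by decide +kernel)
theorem L127102 : W_46 (nat_lit 4) (nat_lit 0x1c002f0004000700000000000000000000000) (nat_lit 0x0) (nat_lit 0x1c000c0006000000000000000000) := T_46 (nat_lit 107) (nat_lit 106) (nat_lit 0) (nat_lit 8) (nat_lit 7) L127101 (by decide +kernel)
theorem L127103 : W_46 (nat_lit 5) (nat_lit 0x1c002e0004000700000000000000000000000) (nat_lit 0x0) (nat_lit 0x18001c000c0006000000000000000000) := T_46 (nat_lit 124) (nat_lit 123) (nat_lit 3) (nat_lit 4) (nat_lit 7) L127102 (by decide +kernel)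
theorem L127104 : W_46 (nat_lit 6) (nat_lit 0x1c002e0004000300000000000000000000000) (nat_lit 0x0) (nat_lit 0x18001c004c0026000000000000000000) := T_46 (nat_lit 94) (nat_lit 77) (nat_lit 6) (nat_lit 8) (nat_lit 8) L127103 (by decide +kernel)
theorem L127105 : W_46 (nat_lit 7) (nat_lit 0x1c000e0004000300000000000000000000000) (nat_lit 0x0) (nat_lit 0x318001c004c0026000000000000000000) := T_46 (nat_lit 129) (nat_lit 128) (nat_lit 1) (nat_lit 10) (nat_lit 7) L127104 (by decide +kernel)
theorem L127106 : W_46 (nat_lit 8) (nat_lit 0x1c000e0000000300000000000000000000000) (nat_lit 0x0) (nat_lit 0x318005c004c002e000000000000000000) := T_46 (nat_lit 110) (nat_lit 75) (nat_lit 4) (nat_lit 8) (nat_lit 8) L127105 (by decide +kernel)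
theorem L127107 : W_46 (nat_lit 2) (nat_lit 0x1c001e0005000780000000000000000000000) (nat_lit 0x0) (nat_lit 0x8000040002000000000000000000) := D_46 (nat_lit 90) (nat_lit 73) (nat_lit 111) (nat_lit 4) (nat_lit 6) (nat_lit 8) (nat_lit 3) (nat_lit 5) (nat_lit 5) (by decide +kernel)
theorem L127108 : W_46 (nat_lit 3) (nat_lit 0x1c001e0005000700000000000000000000000) (nat_lit 0x0) (nat_lit 0x80000c0006000000000000000000) := T_46 (nat_lit 91) (nat_lit 74) (nat_lit 7) (nat_lit 6) (nat_lit 4) L127107 (by decide +kernel)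
theorem L127109 : W_46 (nat_lit 4) (nat_lit 0x1c001e0005000300000000000000000000000) (nat_lit 0x0) (nat_lit 0x80004c0026000000000000000000) := T_46 (nat_lit 94) (nat_lit 77) (nat_lit 6) (nat_lit 8) (nat_lit 8) L127108 (by decide +kernel)
theorem L127110 : W_46 (nat_lit 5) (nat_lit 0x1c001e0004000300000000000000000000000) (nat_lit 0x0) (nat_lit 0x98004c0026000000000000000000) := T_46 (nat_lit 108) (nat_lit 107) (nat_lit 0) (nat_lit 9) (nat_lit 7) L127109 (by decide +kernel)
theorem L127111 : W_46 (nat_lit 6) (nat_lit 0x1c001e0000000300000000000000000000000) (nat_lit 0x0) (nat_lit 0xd8004c002e000000000000000000) := T_46 (nat_lit 110) (nat_lit 75) (nat_lit 4) (nat_lit 8) (nat_lit 8) L127110 (by decide +kernel)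
theorem L127112 : W_46 (nat_lit 7) (nat_lit 0x1c000e0000000300000000000000000000000) (nat_lit 0x0) (nat_lit 0x30000d8004c002e000000000000000000) := T_46 (nat_lit 128) (nat_lit 129) (nat_lit 1) (nat_lit 10) (nat_lit 7) L127111 (by decide +kernel)
theorem L127113 : W_46 (nat_lit 2) (nat_lit 0x1c000f0000000300000000000000000000000) (nat_lit 0x0) (nat_lit 0xc000000008000000000000000000) := D_46 (nat_lit 110) (nat_lit 75) (nat_lit 111) (nat_lit 4) (nat_lit 8) (nat_lit 8) (nat_lit 2) (nat_lit 5) (nat_lit 7) (by decide +kernel)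
theorem L127114 : W_46 (nat_lit 3) (nat_lit 0x1c000e0000000300000000000000000000000) (nat_lit 0x0) (nat_lit 0x1800c000000008000000000000000000) := T_46 (nat_lit 124) (nat_lit 123) (nat_lit 3) (nat_lit 4) (nat_lit 7) L127113 (by decide +kernel)
theorem L127115 : W_46 (nat_lit 2) (nat_lit 0x8001c002f0000800300000000000000000000000) (nat_lit 0x0) (nat_lit 0x1000040002000000000000000000) := D_46 (nat_lit 90) (nat_lit 73) (nat_lit 108) (nat_lit 7) (nat_lit 5) (nat_lit 4) (nat_lit 4) (nat_lit 6) (nat_lit 9) (by decide +kernel)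
theorem L127116 : W_46 (nat_lit 3) (nat_lit 0x1c002f0000800300000000000000000000000) (nat_lit 0x0) (nat_lit 0x100008000000000001000040002000000000000000000) := T_46 (nat_lit 159) (nat_lit 176) (nat_lit 4) (nat_lit 6) (nat_lit 10) L127115 (by decide +kernel)
theorem L127117 : W_46 (nat_lit 4) (nat_lit 0x1c002f0000000300000000000000000000000) (nat_lit 0x0) (nat_lit 0x100008000000000001c00040002000000000000000000) := T_46 (nat_lit 107) (nat_lit 106) (nat_lit 0) (nat_lit 8) (nat_lit 7) L127116 (by decide +kernel)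
theorem L127118 : W_46 (nat_lit 5) (nat_lit 0x1c002e0000000300000000000000000000000) (nat_lit 0x0) (nat_lit 0x100008000000018001c00040002000000000000000000) := T_46 (nat_lit 124) (nat_lit 123) (nat_lit 3) (nat_lit 4) (nat_lit 7) L127117 (by decide +kernel)
theorem L127119 : W_46 (nat_lit 6) (nat_lit 0x1c000e0000000300000000000000000000000) (nat_lit 0x0) (nat_lit 0x100008000000318001c00040002000000000000000000) := T_46 (nat_lit 129) (nat_lit 128) (nat_lit 1) (nat_lit 10) (nat_lit 7) L127118 (by decide +kernel)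
theorem L127120 : W_46 (nat_lit 9) (nat_lit 0x1c000c0000000300000000000000000000000) (nat_lit 0x0) (nat_lit 0x10000800000033800dc004c002e000000000000000000) := Q_46 (nat_lit 125) (C_46 L127099 (C_46 L127106 (C_46 L127112 (C_46 L127114 (C_46 L127119 N_46))))) (by decide +kernel)
theorem L127121 : W_46 (nat_lit 2) (nat_lit 0x1c000e0004000300000000000000000000000) (nat_lit 0x0) (nat_lit 0x18008000000000000000000000000000) := D_46 (nat_lit 124) (nat_lit 123) (nat_lit 111) (nat_lit 3) (nat_lit 4) (nat_lit 7) (nat_lit 2) (nat_lit 5) (nat_lit 7) (by decide +kernel)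
theorem L127122 : W_46 (nat_lit 3) (nat_lit 0x1c000e0000000300000000000000000000000) (nat_lit 0x0) (nat_lit 0x1800c000000010000000000000000000) := T_46 (nat_lit 110) (nat_lit 76) (nat_lit 5) (nat_lit 8) (nat_lit 4) L127121 (by decide +kernel)
theorem L127123 : W_46 (nat_lit 2) (nat_lit 0x1c001e0001000380010000000000000000000) (nat_lit 0x0) (nat_lit 0x40022000000000000000000) := D_46 (nat_lit 90) (nat_lit 73) (nat_lit 77) (nat_lit 4) (nat_lit 6) (nat_lit 8) (nat_lit 2) (nat_lit 5) (nat_lit 5) (by decide +kernel)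
theorem L127124 : W_46 (nat_lit 3) (nat_lit 0x1c001e0001000300010000000000000000000) (nat_lit 0x0) (nat_lit 0xc0026000000000000000000) := T_46 (nat_lit 91) (nat_lit 74) (nat_lit 7) (nat_lit 6) (nat_lit 4) L127123 (by decide +kernel)
theorem L127125 : W_46 (nat_lit 4) (nat_lit 0x1c001e0000000300010000000000000000000) (nat_lit 0x0) (nat_lit 0x18000c0026000000000000000000) := T_46 (nat_lit 108) (nat_lit 107) (nat_lit 0) (nat_lit 9) (nat_lit 7) L127124 (by decide +kernel)
theorem L127126 : W_46 (nat_lit 5) (nat_lit 0x1c000e0000000300010000000000000000000) (nat_lit 0x0) (nat_lit 0x3000018000c0026000000000000000000) := T_46 (nat_lit 128) (nat_lit 129) (nat_lit 1) (nat_lit 10) (nat_lit 7) L127125 (by decide +kernel)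
theorem L127127 : W_46 (nat_lit 6) (nat_lit 0x1c000e0000000300000000000000000000000) (nat_lit 0x0) (nat_lit 0x3000058000c0036000000000000000000) := T_46 (nat_lit 76) (nat_lit 110) (nat_lit 5) (nat_lit 8) (nat_lit 4) L127126 (by decide +kernel)
theorem L127128 : W_46 (nat_lit 7) (nat_lit 0x1c000c0000000300000000000000000000000) (nat_lit 0x0) (nat_lit 0x10000800000033800dc000c0036000000000000000000) := Q_46 (nat_lit 125) (C_46 L127122 (C_46 L127119 (C_46 L127127 N_46))) (by decide +kernel)
theorem L127129 : W_46 (nat_lit 13) (nat_lit 0x1c000c0000000100000000000000000000000) (nat_lit 0x0) (nat_lit 0x10000800010033800df00ef00ffc00700030001800000) := Q_46 (nat_lit 93) (C_46 L126979 (C_46 L127096 (C_46 L127120 (C_46 L127128 N_46)))) (by decide +kernel)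
theorem L127130 : W_46 (nat_lit 2) (nat_lit 0x1c000c0000000300000000000000000000000) (nat_lit 0x0) (nat_lit 0x2000000018000000000000000000) := D_46 (nat_lit 109) (nat_lit 76) (nat_lit 75) (nat_lit 6) (nat_lit 7) (nat_lit 8) (nat_lit 7) (nat_lit 7) (nat_lit 4) (by decide +kernel)
theorem L127131 : W_46 (nat_lit 2) (nat_lit 0x1c000c0000000300000000000000000000000) (nat_lit 0x0) (nat_lit 0x6000000008000000000000000000) := D_46 (nat_lit 75) (nat_lit 110) (nat_lit 109) (nat_lit 4) (nat_lit 8) (nat_lit 8) (nat_lit 7) (nat_lit 7) (nat_lit 4) (by decide +kernel)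
theorem L127132 : W_46 (nat_lit 2) (nat_lit 0x1c000c0000000300000000000000000000000) (nat_lit 0x0) (nat_lit 0x6000000010000000000000000000) := D_46 (nat_lit 76) (nat_lit 109) (nat_lit 110) (nat_lit 6) (nat_lit 7) (nat_lit 8) (nat_lit 5) (nat_lit 8) (nat_lit 4) (by decide +kernel)
theorem L127133 : W_46 (nat_lit 3) (nat_lit 0x1c000c0000000100000000000000000000000) (nat_lit 0x0) (nat_lit 0x6000200018000000000000000000) := Q_46 (nat_lit 93) (C_46 L126979 (C_46 L127130 (C_46 L127131 (C_46 L127132 N_46)))) (by decide +kernel)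
theorem L127134 : W_46 (nat_lit 2) (nat_lit 0x1c002f0004800140010000000000000000000) (nat_lit 0x0) (nat_lit 0x100008000000000001000000000000000000000000000) := D_46 (nat_lit 159) (nat_lit 176) (nat_lit 108) (nat_lit 4) (nat_lit 6) (nat_lit 10) (nat_lit 4) (nat_lit 6) (nat_lit 9) (by decide +kernel)
theorem L127135 : W_46 (nat_lit 3) (nat_lit 0x1c002f0004800100010000000000000000000) (nat_lit 0x0) (nat_lit 0x100008000000000001000040002000000000000000000) := T_46 (nat_lit 90) (nat_lit 73) (nat_lit 7) (nat_lit 5) (nat_lit 4) L127134 (by decide +kernel)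
theorem L127136 : W_46 (nat_lit 4) (nat_lit 0x1c002f0004800100000000000000000000000) (nat_lit 0x0) (nat_lit 0x100008000000000001000240012000000000000000000) := T_46 (nat_lit 76) (nat_lit 93) (nat_lit 5) (nat_lit 8) (nat_lit 4) L127135 (by decide +kernel)
theorem L127137 : W_46 (nat_lit 5) (nat_lit 0x1c002f0004000100000000000000000000000) (nat_lit 0x0) (nat_lit 0x100008000000000001c00240012000000000000000000) := T_46 (nat_lit 107) (nat_lit 106) (nat_lit 0) (nat_lit 8) (nat_lit 7) L127136 (by decide +kernel)
theorem L127138 : W_46 (nat_lit 6) (nat_lit 0x1c002f0000000100000000000000000000000) (nat_lit 0x0) (nat_lit 0x10000800000000000dc00240012000000000000000000) := T_46 (nat_lit 110) (nat_lit 111) (nat_lit 2) (nat_lit 5) (nat_lit 7) L127137 (by decide +kernel)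
theorem L127139 : W_46 (nat_lit 7) (nat_lit 0x1c002e0000000100000000000000000000000) (nat_lit 0x0) (nat_lit 0x10000800000001800dc00240012000000000000000000) := T_46 (nat_lit 124) (nat_lit 123) (nat_lit 3) (nat_lit 4) (nat_lit 7) L127138 (by decide +kernel)
theorem L127140 : W_46 (nat_lit 8) (nat_lit 0x1c000e0000000100000000000000000000000) (nat_lit 0x0) (nat_lit 0x10000800000031800dc00240012000000000000000000) := T_46 (nat_lit 129) (nat_lit 128) (nat_lit 1) (nat_lit 10) (nat_lit 7) L127139 (by decide +kernel)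
theorem L127141 : W_46 (nat_lit 2) (nat_lit 0x1c001e80030001c0000000000000000000000) (nat_lit 0x0) (nat_lit 0x4000030000000000000000000000) := D_46 (nat_lit 89) (nat_lit 110) (nat_lit 88) (nat_lit 3) (nat_lit 4) (nat_lit 5) (nat_lit 3) (nat_lit 3) (nat_lit 5) (by decide +kernel)
theorem L127142 : W_46 (nat_lit 3) (nat_lit 0x1c001e8003000180000000000000000000000) (nat_lit 0x0) (nat_lit 0x4000070002000000000000000000) := T_46 (nat_lit 90) (nat_lit 73) (nat_lit 4) (nat_lit 6) (nat_lit 8) L127141 (by decide +kernel)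
theorem L127143 : W_46 (nat_lit 4) (nat_lit 0x1c001e8002000180000000000000000000000) (nat_lit 0x0) (nat_lit 0x5800070002000000000000000000) := T_46 (nat_lit 108) (nat_lit 107) (nat_lit 0) (nat_lit 9) (nat_lit 7) L127142 (by decide +kernel)
theorem L127144 : W_46 (nat_lit 5) (nat_lit 0x1c000e8002000180000000000000000000000) (nat_lit 0x0) (nat_lit 0x300005800070002000000000000000000) := T_46 (nat_lit 128) (nat_lit 129) (nat_lit 1) (nat_lit 10) (nat_lit 7) L127143 (by decide +kernel)
theorem L127145 : W_46 (nat_lit 6) (nat_lit 0x1c000e8002000100000000000000000000000) (nat_lit 0x0) (nat_lit 0x3000058000f0006000000000000000000) := T_46 (nat_lit 91) (nat_lit 74) (nat_lit 4) (nat_lit 7) (nat_lit 8) L127144 (by decide +kernel)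
theorem L127146 : W_46 (nat_lit 7) (nat_lit 0x1c000e8000000100000000000000000000000) (nat_lit 0x0) (nat_lit 0x80000003000078000f0006000000000000000000) := T_46 (nat_lit 109) (nat_lit 159) (nat_lit 5) (nat_lit 7) (nat_lit 5) L127145 (by decide +kernel)
theorem L127147 : W_46 (nat_lit 8) (nat_lit 0x1c000e0000000100000000000000000000000) (nat_lit 0x0) (nat_lit 0x80000003180078000f0006000000000000000000) := T_46 (nat_lit 123) (nat_lit 124) (nat_lit 3) (nat_lit 4) (nat_lit 7) L127146 (by decide +kernel)
theorem L127148 : W_46 (nat_lit 2) (nat_lit 0x1c002f0004800700002000000000000000000) (nat_lit 0x0) (nat_lit 0x3000080000000000000000000000) := D_46 (nat_lit 108) (nat_lit 109) (nat_lit 91) (nat_lit 2) (nat_lit 5) (nat_lit 6) (nat_lit 1) (nat_lit 9) (nat_lit 5) (by decide +kernel)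
theorem L127149 : W_46 (nat_lit 3) (nat_lit 0x1c002f0004800300002000000000000000000) (nat_lit 0x0) (nat_lit 0x3000480020000000000000000000) := T_46 (nat_lit 94) (nat_lit 77) (nat_lit 6) (nat_lit 8) (nat_lit 8) L127148 (by decide +kernel)
theorem L127150 : W_46 (nat_lit 4) (nat_lit 0x1c002f0004800300000000000000000000000) (nat_lit 0x0) (nat_lit 0x30004c0022000000000000000000) := T_46 (nat_lit 73) (nat_lit 90) (nat_lit 7) (nat_lit 5) (nat_lit 4) L127149 (by decide +kernel)
theorem L127151 : W_46 (nat_lit 5) (nat_lit 0x1c002f0004800100000000000000000000000) (nat_lit 0x0) (nat_lit 0x30006c0032000000000000000000) := T_46 (nat_lit 93) (nat_lit 76) (nat_lit 5) (nat_lit 8) (nat_lit 4) L127150 (by decide +kernel)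
theorem L127152 : W_46 (nat_lit 6) (nat_lit 0x1c002f0004000100000000000000000000000) (nat_lit 0x0) (nat_lit 0x3c006c0032000000000000000000) := T_46 (nat_lit 107) (nat_lit 106) (nat_lit 0) (nat_lit 8) (nat_lit 7) L127151 (by decide +kernel)
theorem L127153 : W_46 (nat_lit 7) (nat_lit 0x1c002f0000000100000000000000000000000) (nat_lit 0x0) (nat_lit 0xfc006c0032000000000000000000) := T_46 (nat_lit 110) (nat_lit 111) (nat_lit 2) (nat_lit 5) (nat_lit 7) L127152 (by decide +kernel)
theorem L127154 : W_46 (nat_lit 8) (nat_lit 0x1c002e0000000100000000000000000000000) (nat_lit 0x0) (nat_lit 0x1800fc006c0032000000000000000000) := T_46 (nat_lit 124) (nat_lit 123) (nat_lit 3) (nat_lit 4) (nat_lit 7) L127153 (by decide +kernel)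
theorem L127155 : W_46 (nat_lit 9) (nat_lit 0x1c000e0000000100000000000000000000000) (nat_lit 0x0) (nat_lit 0x31800fc006c0032000000000000000000) := T_46 (nat_lit 129) (nat_lit 128) (nat_lit 1) (nat_lit 10) (nat_lit 7) L127154 (by decide +kernel)
theorem L127156 : W_46 (nat_lit 2) (nat_lit 0x1c001e00030003c0000000000000000000000) (nat_lit 0x0) (nat_lit 0xc000020000000000000000000000) := D_46 (nat_lit 110) (nat_lit 111) (nat_lit 89) (nat_lit 3) (nat_lit 5) (nat_lit 5) (nat_lit 3) (nat_lit 4) (nat_lit 5) (by decide +kernel)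
theorem L127157 : W_46 (nat_lit 3) (nat_lit 0x1c001e0003000380000000000000000000000) (nat_lit 0x0) (nat_lit 0xc000060002000000000000000000) := T_46 (nat_lit 90) (nat_lit 73) (nat_lit 4) (nat_lit 6) (nat_lit 8) L127156 (by decide +kernel)
theorem L127158 : W_46 (nat_lit 4) (nat_lit 0x1c001e0002000380000000000000000000000) (nat_lit 0x0) (nat_lit 0xd800060002000000000000000000) := T_46 (nat_lit 108) (nat_lit 107) (nat_lit 0) (nat_lit 9) (nat_lit 7) L127157 (by decide +kernel)
theorem L127159 : W_46 (nat_lit 5) (nat_lit 0x1c000e0002000380000000000000000000000) (nat_lit 0x0) (nat_lit 0x30000d800060002000000000000000000) := T_46 (nat_lit 128) (nat_lit 129) (nat_lit 1) (nat_lit 10) (nat_lit 7) L127158 (by decide +kernel)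
theorem L127160 : W_46 (nat_lit 6) (nat_lit 0x1c000e0002000180000000000000000000000) (nat_lit 0x0) (nat_lit 0x30000d800260012000000000000000000) := T_46 (nat_lit 93) (nat_lit 76) (nat_lit 6) (nat_lit 7) (nat_lit 8) L127159 (by decide +kernel)
theorem L127161 : W_46 (nat_lit 7) (nat_lit 0x1c000e0002000100000000000000000000000) (nat_lit 0x0) (nat_lit 0x30000d8002e0016000000000000000000) := T_46 (nat_lit 91) (nat_lit 74) (nat_lit 4) (nat_lit 7) (nat_lit 8) L127160 (by decide +kernel)
theorem L127162 : W_46 (nat_lit 8) (nat_lit 0x1c000e0000000100000000000000000000000) (nat_lit 0x0) (nat_lit 0x800000030000f8002e0016000000000000000000) := T_46 (nat_lit 109) (nat_lit 159) (nat_lit 5) (nat_lit 7) (nat_lit 5) L127161 (by decide +kernel)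
theorem L127163 : W_46 (nat_lit 2) (nat_lit 0x180008001c000e8001000140000000000000000000000) (nat_lit 0x0) (nat_lit 0x80006000000000000000000) := D_46 (nat_lit 91) (nat_lit 74) (nat_lit 73) (nat_lit 7) (nat_lit 6) (nat_lit 4) (nat_lit 4) (nat_lit 6) (nat_lit 8) (by decide +kernel)
theorem L127164 : W_46 (nat_lit 3) (nat_lit 0x180008001c000e8001000100000000000000000000000) (nat_lit 0x0) (nat_lit 0x8000c0006000000000000000000) := T_46 (nat_lit 90) (nat_lit 107) (nat_lit 4) (nat_lit 6) (nat_lit 9) L127163 (by decide +kernel)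
theorem L127165 : W_46 (nat_lit 4) (nat_lit 0x180008001c000e8000000100000000000000000000000) (nat_lit 0x0) (nat_lit 0x40000000000018000c0006000000000000000000) := T_46 (nat_lit 108) (nat_lit 158) (nat_lit 5) (nat_lit 6) (nat_lit 6) L127164 (by decide +kernel)
theorem L127166 : W_46 (nat_lit 5) (nat_lit 0x100008001c000e8000000100000000000000000000000) (nat_lit 0x0) (nat_lit 0x10000800040000000000018000c0006000000000000000000) := T_46 (nat_lit 175) (nat_lit 192) (nat_lit 5) (nat_lit 6) (nat_lit 7) L127165 (by decide +kernel)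
theorem L127167 : W_46 (nat_lit 6) (nat_lit 0x8001c000e8000000100000000000000000000000) (nat_lit 0x0) (nat_lit 0x30001800040000000000018000c0006000000000000000000) := T_46 (nat_lit 176) (nat_lit 193) (nat_lit 6) (nat_lit 6) (nat_lit 11) L127166 (by decide +kernel)
theorem L127168 : W_46 (nat_lit 7) (nat_lit 0x1c000e8000000100000000000000000000000) (nat_lit 0x0) (nat_lit 0x300018000c0000000000038000c0006000000000000000000) := T_46 (nat_lit 159) (nat_lit 109) (nat_lit 5) (nat_lit 7) (nat_lit 5) L127167 (by decide +kernel)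
theorem L127169 : W_46 (nat_lit 8) (nat_lit 0x1c000e0000000100000000000000000000000) (nat_lit 0x0) (nat_lit 0x300018000c0000000180038000c0006000000000000000000) := T_46 (nat_lit 123) (nat_lit 124) (nat_lit 3) (nat_lit 4) (nat_lit 7) L127168 (by decide +kernel)
theorem L127170 : W_46 (nat_lit 2) (nat_lit 0x1c002f0006800380000000000000000000000) (nat_lit 0x0) (nat_lit 0x60002000000000000000000) := D_46 (nat_lit 90) (nat_lit 89) (nat_lit 73) (nat_lit 3) (nat_lit 4) (nat_lit 5) (nat_lit 7) (nat_lit 5) (nat_lit 4) (by decide +kernel)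
theorem L127171 : W_46 (nat_lit 3) (nat_lit 0x1c002f0006000380000000000000000000000) (nat_lit 0x0) (nat_lit 0xc00060002000000000000000000) := T_46 (nat_lit 107) (nat_lit 106) (nat_lit 0) (nat_lit 8) (nat_lit 7) L127170 (by decide +kernel)
theorem L127172 : W_46 (nat_lit 4) (nat_lit 0x1c002f0002000380000000000000000000000) (nat_lit 0x0) (nat_lit 0xcc00060002000000000000000000) := T_46 (nat_lit 110) (nat_lit 111) (nat_lit 2) (nat_lit 5) (nat_lit 7) L127171 (by decide +kernel)
theorem L127173 : W_46 (nat_lit 5) (nat_lit 0x1c002e0002000380000000000000000000000) (nat_lit 0x0) (nat_lit 0x1800cc00060002000000000000000000) := T_46 (nat_lit 124) (nat_lit 123) (nat_lit 3) (nat_lit 4) (nat_lit 7) L127172 (by decide +kernel)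
theorem L127174 : W_46 (nat_lit 6) (nat_lit 0x1c000e0002000380000000000000000000000) (nat_lit 0x0) (nat_lit 0x31800cc00060002000000000000000000) := T_46 (nat_lit 129) (nat_lit 128) (nat_lit 1) (nat_lit 10) (nat_lit 7) L127173 (by decide +kernel)
theorem L127175 : W_46 (nat_lit 7) (nat_lit 0x1c000e0002000180000000000000000000000) (nat_lit 0x0) (nat_lit 0x31800cc00260012000000000000000000) := T_46 (nat_lit 93) (nat_lit 76) (nat_lit 6) (nat_lit 7) (nat_lit 8) L127174 (by decide +kernel)
theorem L127176 : W_46 (nat_lit 8) (nat_lit 0x1c000e0002000100000000000000000000000) (nat_lit 0x0) (nat_lit 0x31800cc002e0016000000000000000000) := T_46 (nat_lit 91) (nat_lit 74) (nat_lit 4) (nat_lit 7) (nat_lit 8) L127175 (by decide +kernel)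
theorem L127177 : W_46 (nat_lit 9) (nat_lit 0x1c000e0000000100000000000000000000000) (nat_lit 0x0) (nat_lit 0x800000031800ec002e0016000000000000000000) := T_46 (nat_lit 109) (nat_lit 159) (nat_lit 5) (nat_lit 7) (nat_lit 5) L127176 (by decide +kernel)
theorem L127178 : W_46 (nat_lit 2) (nat_lit 0x38000c001c002e8000000100000000000000000000000) (nat_lit 0x0) (nat_lit 0x400003000000000000000000000000000000000000000) := D_46 (nat_lit 157) (nat_lit 156) (nat_lit 178) (nat_lit 3) (nat_lit 3) (nat_lit 9) (nat_lit 0) (nat_lit 8) (nat_lit 10) (by decide +kernel)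
theorem L127179 : W_46 (nat_lit 3) (nat_lit 0x18000c001c002e8000000100000000000000000000000) (nat_lit 0x0) (nat_lit 0x4000600003000000000000000000000000000000000000000) := T_46 (nat_lit 177) (nat_lit 194) (nat_lit 7) (nat_lit 6) (nat_lit 7) L127178 (by decide +kernel)
theorem L127180 : W_46 (nat_lit 4) (nat_lit 0x180008001c002e8000000100000000000000000000000) (nat_lit 0x0) (nat_lit 0x4000600007000000000001000000000000000000000000000) := T_46 (nat_lit 158) (nat_lit 108) (nat_lit 5) (nat_lit 6) (nat_lit 6) L127179 (by decide +kernel)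
theorem L127181 : W_46 (nat_lit 5) (nat_lit 0x100008001c002e8000000100000000000000000000000) (nat_lit 0x0) (nat_lit 0x5000680007000000000001000000000000000000000000000) := T_46 (nat_lit 175) (nat_lit 192) (nat_lit 5) (nat_lit 6) (nat_lit 7) L127180 (by decide +kernel)
theorem L127182 : W_46 (nat_lit 6) (nat_lit 0x8001c002e8000000100000000000000000000000) (nat_lit 0x0) (nat_lit 0x7000780007000000000001000000000000000000000000000) := T_46 (nat_lit 176) (nat_lit 193) (nat_lit 6) (nat_lit 6) (nat_lit 11) L127181 (by decide +kernel)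
theorem L127183 : W_46 (nat_lit 7) (nat_lit 0x8001c000e8000000100000000000000000000000) (nat_lit 0x0) (nat_lit 0x7000780007000000300001000000000000000000000000000) := T_46 (nat_lit 129) (nat_lit 128) (nat_lit 1) (nat_lit 10) (nat_lit 7) L127182 (by decide +kernel)
theorem L127184 : W_46 (nat_lit 8) (nat_lit 0x1c000e8000000100000000000000000000000) (nat_lit 0x0) (nat_lit 0x700078000f000000300003000000000000000000000000000) := T_46 (nat_lit 159) (nat_lit 109) (nat_lit 5) (nat_lit 7) (nat_lit 5) L127183 (by decide +kernel)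
theorem L127185 : W_46 (nat_lit 9) (nat_lit 0x1c000e0000000100000000000000000000000) (nat_lit 0x0) (nat_lit 0x700078000f000000318003000000000000000000000000000) := T_46 (nat_lit 123) (nat_lit 124) (nat_lit 3) (nat_lit 4) (nat_lit 7) L127184 (by decide +kernel)
theorem L127186 : W_46 (nat_lit 10) (nat_lit 0x1c000c0000000100000000000000000000000) (nat_lit 0x0) (nat_lit 0x700078000f00000033800fc006f0036000000000000000000) := Q_46 (nat_lit 125) (C_46 L127140 (C_46 L127147 (C_46 L127155 (C_46 L127162 (C_46 L127169 (C_46 L127177 (C_46 L127185 N_46))))))) (by decide +kernel)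
theorem L127187 : W_46 (nat_lit 14) (nat_lit 0x1c000c0000000000000000000000000000000) (nat_lit 0x0) (nat_lit 0x700078000f00010033800ff00ff00ffc00700030001800000) := Q_46 (nat_lit 92) (C_46 L126978 (C_46 L127129 (C_46 L127133 (C_46 L127186 N_46)))) (by decide +kernel)
theorem L127188 : W_46 (nat_lit 2) (nat_lit 0x1c000c0000000000000000000000000000000) (nat_lit 0x0) (nat_lit 0x200300000000000000000000000000000000) := D_46 (nat_lit 128) (nat_lit 129) (nat_lit 141) (nat_lit 1) (nat_lit 10) (nat_lit 7) (nat_lit 2) (nat_lit 5) (nat_lit 8) (by decide +kernel)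
theorem L127189 : W_46 (nat_lit 15) (nat_lit 0x18000c0000000000000000000000000000000) (nat_lit 0x0) (nat_lit 0x700078000f00070033800ff00ff00ffc00700030001800000) := Q_46 (nat_lit 142) (C_46 L122520 (C_46 L122492 (C_46 L127187 (C_46 L127188 N_46)))) (by decide +kernel)
theorem L127190 : W_46 (nat_lit 2) (nat_lit 0x18000c0004000000000000000000000000000) (nat_lit 0x0) (nat_lit 0x10000000000000000200010000000000000000000) := D_46 (nat_lit 93) (nat_lit 76) (nat_lit 160) (nat_lit 5) (nat_lit 8) (nat_lit 4) (nat_lit 5) (nat_lit 8) (nat_lit 5) (by decide +kernel)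
theorem L127191 : W_46 (nat_lit 2) (nat_lit 0x18001c0004000000000000000000000000000) (nat_lit 0x0) (nat_lit 0x400600000000000000000000000000000000) := D_46 (nat_lit 129) (nat_lit 142) (nat_lit 130) (nat_lit 1) (nat_lit 10) (nat_lit 7) (nat_lit 1) (nat_lit 11) (nat_lit 7) (by decide +kernel)
theorem L127192 : W_46 (nat_lit 4) (nat_lit 0x18001c0006000100000000000000000000000) (nat_lit 0x0) (nat_lit 0x98000e0004000000000000000000) := T_46 (nat_lit 108) (nat_lit 107) (nat_lit 3) (nat_lit 5) (nat_lit 6) L125870 (by decide +kernel)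
theorem L127193 : W_46 (nat_lit 5) (nat_lit 0x18001c0006000000000000000000000000000) (nat_lit 0x0) (nat_lit 0x98001e000c000000000000000000) := T_46 (nat_lit 92) (nat_lit 75) (nat_lit 7) (nat_lit 7) (nat_lit 4) L127192 (by decide +kernel)
theorem L127194 : W_46 (nat_lit 4) (nat_lit 0x18001c0007000200000000000000000000000) (nat_lit 0x0) (nat_lit 0x600000008001c00020000000000000000000) := T_46 (nat_lit 141) (nat_lit 142) (nat_lit 2) (nat_lit 5) (nat_lit 8) L122818 (by decide +kernel)
theorem L127195 : W_46 (nat_lit 5) (nat_lit 0x18001c0007000000000000000000000000000) (nat_lit 0x0) (nat_lit 0x600000008001e00030000000000000000000) := T_46 (nat_lit 93) (nat_lit 76) (nat_lit 5) (nat_lit 8) (nat_lit 4) L127194 (by decide +kernel)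
theorem L127196 : W_46 (nat_lit 6) (nat_lit 0x18001c0006000000000000000000000000000) (nat_lit 0x0) (nat_lit 0x600000009801e00030000000000000000000) := T_46 (nat_lit 108) (nat_lit 107) (nat_lit 3) (nat_lit 5) (nat_lit 6) L127195 (by decide +kernel)
theorem L127197 : W_46 (nat_lit 5) (nat_lit 0x18001c0006000000000000000000000000000) (nat_lit 0x0) (nat_lit 0x80003e001c000000000000000000) := T_46 (nat_lit 93) (nat_lit 76) (nat_lit 5) (nat_lit 8) (nat_lit 4) L123765 (by decide +kernel)
theorem L127198 : W_46 (nat_lit 12) (nat_lit 0x18001c0004000000000000000000000000000) (nat_lit 0x0) (nat_lit 0x8000600070003800bc01fe003f000000000000000000) := Q_46 (nat_lit 109) (C_46 L127193 (C_46 L125389 (C_46 L127196 (C_46 L127197 N_46)))) (by decide +kernel)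
theorem L127199 : W_46 (nat_lit 13) (nat_lit 0x18000c0004000000000000000000000000000) (nat_lit 0x0) (nat_lit 0x8000600070073800bc01fe003f000000000000000000) := Q_46 (nat_lit 128) (C_46 L127191 (C_46 L124414 (C_46 L127198 N_46))) (by decide +kernel)
theorem L127200 : W_46 (nat_lit 2) (nat_lit 0x2000000058003e0005000000000000000000000000000) (nat_lit 0x0) (nat_lit 0x18008000000000000000000000000000) := D_46 (nat_lit 124) (nat_lit 111) (nat_lit 123) (nat_lit 2) (nat_lit 5) (nat_lit 7) (nat_lit 3) (nat_lit 4) (nat_lit 7) (by decide +kernel)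
theorem L127201 : W_46 (nat_lit 3) (nat_lit 0x2000000058003c0005000000000000000000000000000) (nat_lit 0x0) (nat_lit 0x38008800000000000000000000000000) := T_46 (nat_lit 125) (nat_lit 107) (nat_lit 0) (nat_lit 9) (nat_lit 7) L127200 (by decide +kernel)
theorem L127202 : W_46 (nat_lit 4) (nat_lit 0x2000000058003c0004000000000000000000000000000) (nat_lit 0x0) (nat_lit 0x3800b800000000000000000000000000) := T_46 (nat_lit 108) (nat_lit 109) (nat_lit 0) (nat_lit 10) (nat_lit 7) L127201 (by decide +kernel)
theorem L127203 : W_46 (nat_lit 5) (nat_lit 0x2000000018003c0004000000000000000000000000000) (nat_lit 0x0) (nat_lit 0xc00003800b800000000000000000000000000) := T_46 (nat_lit 146) (nat_lit 147) (nat_lit 3) (nat_lit 7) (nat_lit 7) L127202 (by decide +kernel)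
theorem L127204 : W_46 (nat_lit 6) (nat_lit 0x2000000018001c0004000000000000000000000000000) (nat_lit 0x0) (nat_lit 0xc00063800b800000000000000000000000000) := T_46 (nat_lit 129) (nat_lit 130) (nat_lit 1) (nat_lit 11) (nat_lit 7) L127203 (by decide +kernel)
theorem L127205 : W_46 (nat_lit 7) (nat_lit 0x18001c0004000000000000000000000000000) (nat_lit 0x0) (nat_lit 0x20001000c00063800b800000000000000000000000000) := T_46 (nat_lit 177) (nat_lit 160) (nat_lit 6) (nat_lit 7) (nat_lit 10) L127204 (by decide +kernel)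
theorem L127206 : W_46 (nat_lit 2) (nat_lit 0x10001a001e0005000000000000000000000000000) (nat_lit 0x0) (nat_lit 0x2000080004000000000000000000) := D_46 (nat_lit 91) (nat_lit 74) (nat_lit 109) (nat_lit 7) (nat_lit 6) (nat_lit 4) (nat_lit 4) (nat_lit 7) (nat_lit 9) (by decide +kernel)
theorem L127207 : W_46 (nat_lit 3) (nat_lit 0x1a001e0005000000000000000000000000000) (nat_lit 0x0) (nat_lit 0x200010000000000002000080004000000000000000000) := T_46 (nat_lit 160) (nat_lit 177) (nat_lit 6) (nat_lit 7) (nat_lit 10) L127206 (by decide +kernel)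
theorem L127208 : W_46 (nat_lit 4) (nat_lit 0x1a001e0004000000000000000000000000000) (nat_lit 0x0) (nat_lit 0x200010000000000003800080004000000000000000000) := T_46 (nat_lit 108) (nat_lit 107) (nat_lit 0) (nat_lit 9) (nat_lit 7) L127207 (by decide +kernel)
theorem L127209 : W_46 (nat_lit 5) (nat_lit 0x18001e0004000000000000000000000000000) (nat_lit 0x0) (nat_lit 0x200010000600000003800080004000000000000000000) := T_46 (nat_lit 141) (nat_lit 142) (nat_lit 2) (nat_lit 5) (nat_lit 8) L127208 (by decide +kernel)
theorem L127210 : W_46 (nat_lit 6) (nat_lit 0x18001c0004000000000000000000000000000) (nat_lit 0x0) (nat_lit 0x20001000060003800bc00080004000000000000000000) := Q_46 (nat_lit 125) (C_46 L124413 (C_46 L124373 (C_46 L127209 N_46))) (by decide +kernel)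
theorem L127211 : W_46 (nat_lit 8) (nat_lit 0x18000c0004000000000000000000000000000) (nat_lit 0x0) (nat_lit 0x20001000c60073800bc00080004000000000000000000) := Q_46 (nat_lit 128) (C_46 L127191 (C_46 L127205 (C_46 L127210 N_46))) (by decide +kernel)
theorem L127212 : W_46 (nat_lit 14) (nat_lit 0x18000c0000000000000000000000000000000) (nat_lit 0x0) (nat_lit 0x28001600c70073800fc01fe003f000000000000000000) := Q_46 (nat_lit 110) (C_46 L127190 (C_46 L127199 (C_46 L127211 N_46))) (by decide +kernel)
theorem L127213 : W_46 (nat_lit 2) (nat_lit 0x10001c002c0002000180000000000000000000000) (nat_lit 0x0) (nat_lit 0x4000200000000000000004000000000000000000000000000) := D_46 (nat_lit 177) (nat_lit 110) (nat_lit 194) (nat_lit 6) (nat_lit 7) (nat_lit 10) (nat_lit 6) (nat_lit 7) (nat_lit 11) (by decide +kernel)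
theorem L127214 : W_46 (nat_lit 3) (nat_lit 0x1c002c0002000180000000000000000000000) (nat_lit 0x0) (nat_lit 0x4000200010000000000005000000000000000000000000000) := T_46 (nat_lit 160) (nat_lit 108) (nat_lit 4) (nat_lit 7) (nat_lit 9) L127213 (by decide +kernel)
theorem L127215 : W_46 (nat_lit 4) (nat_lit 0x1c002c0002000100000000000000000000000) (nat_lit 0x0) (nat_lit 0x4000200010000000000005000080004000000000000000000) := T_46 (nat_lit 91) (nat_lit 74) (nat_lit 4) (nat_lit 7) (nat_lit 8) L127214 (by decide +kernel)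
theorem L127216 : W_46 (nat_lit 5) (nat_lit 0x1c002c0002000000000000000000000000000) (nat_lit 0x0) (nat_lit 0x400020001000000000000500018000c000000000000000000) := T_46 (nat_lit 92) (nat_lit 75) (nat_lit 7) (nat_lit 7) (nat_lit 4) L127215 (by decide +kernel)
theorem L127217 : W_46 (nat_lit 6) (nat_lit 0x1c000c0002000000000000000000000000000) (nat_lit 0x0) (nat_lit 0x400020001000000030000500018000c000000000000000000) := T_46 (nat_lit 129) (nat_lit 128) (nat_lit 1) (nat_lit 10) (nat_lit 7) L127216 (by decide +kernel)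
theorem L127218 : W_46 (nat_lit 8) (nat_lit 0x1c000c0000000000000000000000000000000) (nat_lit 0x0) (nat_lit 0x6000300018000000320007c0018000c000000000000000000) := Q_46 (nat_lit 109) (C_46 L126580 (C_46 L126739 (C_46 L127217 N_46))) (by decide +kernel)
theorem L127219 : W_46 (nat_lit 9) (nat_lit 0x18000c0000000000000000000000000000000) (nat_lit 0x0) (nat_lit 0x600030001e000700338007c001e000c000000000000000000) := Q_46 (nat_lit 142) (C_46 L127188 (C_46 L126762 (C_46 L127218 N_46))) (by decide +kernel)
theorem L127220 : W_46 (nat_lit 2) (nat_lit 0x1c001c000e0007400000000000000000000000000) (nat_lit 0x0) (nat_lit 0x18008000000000000000000000000000) := D_46 (nat_lit 124) (nat_lit 123) (nat_lit 111) (nat_lit 3) (nat_lit 4) (nat_lit 7) (nat_lit 2) (nat_lit 5) (nat_lit 7) (by decide +kernel)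
theorem L127221 : W_46 (nat_lit 3) (nat_lit 0x1c001c000c0007400000000000000000000000000) (nat_lit 0x0) (nat_lit 0x80000000000038008000000000000000000000000000) := T_46 (nat_lit 125) (nat_lit 175) (nat_lit 5) (nat_lit 6) (nat_lit 6) L127220 (by decide +kernel)
theorem L127222 : W_46 (nat_lit 4) (nat_lit 0x18001c000c0007400000000000000000000000000) (nat_lit 0x0) (nat_lit 0x80006000000038008000000000000000000000000000) := T_46 (nat_lit 158) (nat_lit 157) (nat_lit 2) (nat_lit 4) (nat_lit 9) L127221 (by decide +kernel)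
theorem L127223 : W_46 (nat_lit 5) (nat_lit 0x10001c000c0007400000000000000000000000000) (nat_lit 0x0) (nat_lit 0x18000e000000038008000000000000000000000000000) := T_46 (nat_lit 159) (nat_lit 176) (nat_lit 5) (nat_lit 7) (nat_lit 6) L127222 (by decide +kernel)
theorem L127224 : W_46 (nat_lit 6) (nat_lit 0x10001c000c0003400000000000000000000000000) (nat_lit 0x0) (nat_lit 0x18000e00000003800c000200000000000000000000000) := T_46 (nat_lit 110) (nat_lit 93) (nat_lit 6) (nat_lit 7) (nat_lit 9) L127223 (by decide +kernel)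
theorem L127225 : W_46 (nat_lit 7) (nat_lit 0x1c000c0003400000000000000000000000000) (nat_lit 0x0) (nat_lit 0x18001e00000003800c000280000000000000000000000) := T_46 (nat_lit 160) (nat_lit 91) (nat_lit 4) (nat_lit 7) (nat_lit 9) L127224 (by decide +kernel)
theorem L127226 : W_46 (nat_lit 8) (nat_lit 0x1c000c0003000000000000000000000000000) (nat_lit 0x0) (nat_lit 0x18001e00000003800cc00280000000000000000000000) := T_46 (nat_lit 106) (nat_lit 107) (nat_lit 3) (nat_lit 4) (nat_lit 6) L127225 (by decide +kernel)
theorem L127227 : W_46 (nat_lit 2) (nat_lit 0x1c001c002e0007000000000000000000000000000) (nat_lit 0x0) (nat_lit 0x18008000000000000000000000000000) := D_46 (nat_lit 124) (nat_lit 123) (nat_lit 111) (nat_lit 3) (nat_lit 4) (nat_lit 7) (nat_lit 2) (nat_lit 5) (nat_lit 7) (by decide +kernel)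
theorem L127228 : W_46 (nat_lit 3) (nat_lit 0x1c001c002c0007000000000000000000000000000) (nat_lit 0x0) (nat_lit 0x80000000000038008000000000000000000000000000) := T_46 (nat_lit 125) (nat_lit 175) (nat_lit 5) (nat_lit 6) (nat_lit 6) L127227 (by decide +kernel)
theorem L127229 : W_46 (nat_lit 4) (nat_lit 0x18001c002c0007000000000000000000000000000) (nat_lit 0x0) (nat_lit 0x80006000000038008000000000000000000000000000) := T_46 (nat_lit 158) (nat_lit 157) (nat_lit 2) (nat_lit 4) (nat_lit 9) L127228 (by decide +kernel)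
theorem L127230 : W_46 (nat_lit 5) (nat_lit 0x10001c002c0007000000000000000000000000000) (nat_lit 0x0) (nat_lit 0x18000e000000038008000000000000000000000000000) := T_46 (nat_lit 159) (nat_lit 176) (nat_lit 5) (nat_lit 7) (nat_lit 6) L127229 (by decide +kernel)
theorem L127231 : W_46 (nat_lit 6) (nat_lit 0x10001c002c0003000000000000000000000000000) (nat_lit 0x0) (nat_lit 0x18000e00000003800c000200000000000000000000000) := T_46 (nat_lit 110) (nat_lit 93) (nat_lit 6) (nat_lit 7) (nat_lit 9) L127230 (by decide +kernel)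
theorem L127232 : W_46 (nat_lit 7) (nat_lit 0x10001c000c0003000000000000000000000000000) (nat_lit 0x0) (nat_lit 0x18000e00000033800c000200000000000000000000000) := T_46 (nat_lit 129) (nat_lit 128) (nat_lit 1) (nat_lit 10) (nat_lit 7) L127231 (by decide +kernel)
theorem L127233 : W_46 (nat_lit 8) (nat_lit 0x1c000c0003000000000000000000000000000) (nat_lit 0x0) (nat_lit 0x18001e00000033800c000280000000000000000000000) := T_46 (nat_lit 160) (nat_lit 91) (nat_lit 4) (nat_lit 7) (nat_lit 9) L127232 (by decide +kernel)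
theorem L127234 : W_46 (nat_lit 9) (nat_lit 0x1c000c0002000000000000000000000000000) (nat_lit 0x0) (nat_lit 0x18001e00000033800dc00280000000000000000000000) := Q_46 (nat_lit 108) (C_46 L126732 (C_46 L122524 (C_46 L127226 (C_46 L127233 N_46)))) (by decide +kernel)
theorem L127235 : W_46 (nat_lit 10) (nat_lit 0x1c000c0000000000000000000000000000000) (nat_lit 0x0) (nat_lit 0x18001e00000033800fc00f8007c000000000000000000) := Q_46 (nat_lit 109) (C_46 L126580 (C_46 L127234 (C_46 L126977 N_46))) (by decide +kernel)
theorem L127236 : W_46 (nat_lit 11) (nat_lit 0x18000c0000000000000000000000000000000) (nat_lit 0x0) (nat_lit 0x200018001e00070033800fc00fe007c000000000000000000) := Q_46 (nat_lit 142) (C_46 L127188 (C_46 L126762 (C_46 L127235 N_46))) (by decide +kernel)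
theorem L127237 : W_46 (nat_lit 8) (nat_lit 0x18000c0000000000000000000000000000000) (nat_lit 0x0) (nat_lit 0x6000300018000400320007c00380018000000000000000000) := Q_46 (nat_lit 160) (C_46 L122435 (C_46 L123062 (C_46 L122436 N_46))) (by decide +kernel)
theorem L127238 : W_46 (nat_lit 16) (nat_lit 0x10000c0000000000000000000000000000000) (nat_lit 0x0) (nat_lit 0x40007000fc00ff801fc0cf0073800ff01ff00ffc00700030001800000) := Q_46 (nat_lit 143) (C_46 L126579 (C_46 L126763 (C_46 L127189 (C_46 L126702 (C_46 L126681 (C_46 L126689 (C_46 L127212 (C_46 L127219 (C_46 L126720 (C_46 L127236 (C_46 L127237 N_46))))))))))) (by decide +kernel)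
theorem L127239 : W_46 (nat_lit 2) (nat_lit 0xc001e000d0002800000000000000000000000000) (nat_lit 0x0) (nat_lit 0x20000400020000000000000000000000) := D_46 (nat_lit 106) (nat_lit 89) (nat_lit 125) (nat_lit 4) (nat_lit 5) (nat_lit 9) (nat_lit 0) (nat_lit 8) (nat_lit 7) (by decide +kernel)
theorem L127240 : W_46 (nat_lit 3) (nat_lit 0xc001e000d0002000000000000000000000000000) (nat_lit 0x0) (nat_lit 0x20000c00060000000000000000000000) := T_46 (nat_lit 107) (nat_lit 90) (nat_lit 7) (nat_lit 5) (nat_lit 5) L127239 (by decide +kernel)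
theorem L127241 : W_46 (nat_lit 4) (nat_lit 0xc001e000c0002000000000000000000000000000) (nat_lit 0x0) (nat_lit 0x38000c00060000000000000000000000) := T_46 (nat_lit 124) (nat_lit 123) (nat_lit 0) (nat_lit 8) (nat_lit 8) L127240 (by decide +kernel)
theorem L127242 : W_46 (nat_lit 5) (nat_lit 0x8001e000c0002000000000000000000000000000) (nat_lit 0x0) (nat_lit 0x6000000038000c00060000000000000000000000) := T_46 (nat_lit 158) (nat_lit 157) (nat_lit 1) (nat_lit 8) (nat_lit 8) L127241 (by decide +kernel)
theorem L127243 : W_46 (nat_lit 6) (nat_lit 0x8001c000c0002000000000000000000000000000) (nat_lit 0x0) (nat_lit 0x6000300038000c00060000000000000000000000) := T_46 (nat_lit 141) (nat_lit 140) (nat_lit 2) (nat_lit 4) (nat_lit 8) L127242 (by decide +kernel)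
theorem L127244 : W_46 (nat_lit 6) (nat_lit 0x4001a000d0002000000000000000000000000000) (nat_lit 0x0) (nat_lit 0x400038003c0003800100008000c00020000000000000000000000) := Q_46 (nat_lit 175) (C_46 L125462 (C_46 L125488 (C_46 L125478 N_46))) (by decide +kernel)
theorem L127245 : W_46 (nat_lit 2) (nat_lit 0x2000600010000c0004001a000d8002000000008000000000000000000) (nat_lit 0x0) (nat_lit 0x4000400000000000000002000000000000000000000000000000000000000) := D_46 (nat_lit 226) (nat_lit 157) (nat_lit 242) (nat_lit 4) (nat_lit 5) (nat_lit 13) (nat_lit 5) (nat_lit 5) (nat_lit 10) (by decide +kernel)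
theorem L127246 : W_46 (nat_lit 3) (nat_lit 0x600010000c0004001a000d8002000000008000000000000000000) (nat_lit 0x0) (nat_lit 0x4000600010000000000002000000000000000000000000000000000000000) := T_46 (nat_lit 225) (nat_lit 208) (nat_lit 5) (nat_lit 5) (nat_lit 9) L127245 (by decide +kernel)
theorem L127247 : W_46 (nat_lit 4) (nat_lit 0x400010000c0004001a000d8002000000008000000000000000000) (nat_lit 0x0) (nat_lit 0x4000e00030000000000002000000000000000000000000000000000000000) := T_46 (nat_lit 209) (nat_lit 227) (nat_lit 7) (nat_lit 5) (nat_lit 9) L127246 (by decide +kernel)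
theorem L127248 : W_46 (nat_lit 5) (nat_lit 0x10000c0004001a000d8002000000008000000000000000000) (nat_lit 0x0) (nat_lit 0x4000e00070002000000002000000000000000000000000000000000000000) := T_46 (nat_lit 210) (nat_lit 193) (nat_lit 7) (nat_lit 5) (nat_lit 8) L127247 (by decide +kernel)
theorem L127249 : W_46 (nat_lit 6) (nat_lit 0xc0004001a000d8002000000008000000000000000000) (nat_lit 0x0) (nat_lit 0x4000e00070003000000002000100000000000000000000000000000000000) := T_46 (nat_lit 192) (nat_lit 140) (nat_lit 4) (nat_lit 5) (nat_lit 11) L127248 (by decide +kernel)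
theorem L127250 : W_46 (nat_lit 7) (nat_lit 0xc0004001a000d0002000000008000000000000000000) (nat_lit 0x0) (nat_lit 0x4000e00070003000000002000100008000400000000000000000000000000) := T_46 (nat_lit 123) (nat_lit 106) (nat_lit 4) (nat_lit 5) (nat_lit 10) L127249 (by decide +kernel)
theorem L127251 : W_46 (nat_lit 8) (nat_lit 0x80004001a000d0002000000008000000000000000000) (nat_lit 0x0) (nat_lit 0x4000e00070003800040002000100008000400000000000000000000000000) := T_46 (nat_lit 174) (nat_lit 191) (nat_lit 5) (nat_lit 5) (nat_lit 7) L127250 (by decide +kernel)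
theorem L127252 : W_46 (nat_lit 9) (nat_lit 0x80004001a000d0002000000000000000000000000000) (nat_lit 0x0) (nat_lit 0x4000e00070003800040002000100008000400100008000000000000000000) := T_46 (nat_lit 75) (nat_lit 92) (nat_lit 7) (nat_lit 7) (nat_lit 4) L127251 (by decide +kernel)
theorem L127253 : W_46 (nat_lit 2) (nat_lit 0xc0004001a000d000280006000c000000000000000000) (nat_lit 0x0) (nat_lit 0x12000200000000000000) := D_46 (nat_lit 73) (nat_lit 57) (nat_lit 76) (nat_lit 6) (nat_lit 5) (nat_lit 7) (nat_lit 1) (nat_lit 8) (nat_lit 4) (by decide +kernel)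
theorem L127254 : W_46 (nat_lit 3) (nat_lit 0xc0004001a000d0002800060008000000000000000000) (nat_lit 0x0) (nat_lit 0x80016000200000000000000) := T_46 (nat_lit 74) (nat_lit 91) (nat_lit 6) (nat_lit 5) (nat_lit 8) L127253 (by decide +kernel)
theorem L127255 : W_46 (nat_lit 4) (nat_lit 0xc0004001a000d0002800020008000000000000000000) (nat_lit 0x0) (nat_lit 0xc0017000200000000000000) := T_46 (nat_lit 90) (nat_lit 72) (nat_lit 4) (nat_lit 5) (nat_lit 8) L127254 (by decide +kernel)
theorem L127256 : W_46 (nat_lit 5) (nat_lit 0xc0004001a000d0002800000008000000000000000000) (nat_lit 0x0) (nat_lit 0x4000e0017000200000000000000) := T_46 (nat_lit 89) (nat_lit 106) (nat_lit 4) (nat_lit 5) (nat_lit 9) L127255 (by decide +kernel)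
theorem L127257 : W_46 (nat_lit 6) (nat_lit 0xc0004001a000d0002000000008000000000000000000) (nat_lit 0x0) (nat_lit 0x2000000000000c000e0017000200000000000000) := T_46 (nat_lit 107) (nat_lit 157) (nat_lit 5) (nat_lit 5) (nat_lit 6) L127256 (by decide +kernel)
theorem L127258 : W_46 (nat_lit 7) (nat_lit 0x80004001a000d0002000000008000000000000000000) (nat_lit 0x0) (nat_lit 0x800040002000000000000c000e0017000200000000000000) := T_46 (nat_lit 174) (nat_lit 191) (nat_lit 5) (nat_lit 5) (nat_lit 7) L127257 (by decide +kernel)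
theorem L127259 : W_46 (nat_lit 8) (nat_lit 0x80004001a000d0002000000000000000000000000000) (nat_lit 0x0) (nat_lit 0x800040002000000000000c001e001f000200000000000000) := T_46 (nat_lit 75) (nat_lit 92) (nat_lit 7) (nat_lit 7) (nat_lit 4) L127258 (by decide +kernel)
theorem L127260 : W_46 (nat_lit 2) (nat_lit 0x40001800080004001b000d0002000000008000000000000000000) (nat_lit 0x0) (nat_lit 0x800020000000000002000000000000000000000000000000000000000) := D_46 (nat_lit 209) (nat_lit 157) (nat_lit 227) (nat_lit 4) (nat_lit 5) (nat_lit 12) (nat_lit 7) (nat_lit 5) (nat_lit 9) (by decide +kernel)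
theorem L127261 : W_46 (nat_lit 3) (nat_lit 0x1800080004001b000d0002000000008000000000000000000) (nat_lit 0x0) (nat_lit 0x800060002000000002000000000000000000000000000000000000000) := T_46 (nat_lit 210) (nat_lit 193) (nat_lit 7) (nat_lit 5) (nat_lit 8) L127260 (by decide +kernel)
theorem L127262 : W_46 (nat_lit 4) (nat_lit 0x1800080004001a000d0002000000008000000000000000000) (nat_lit 0x0) (nat_lit 0x800060002000000002000100008000000000000000000000000000000) := T_46 (nat_lit 140) (nat_lit 123) (nat_lit 4) (nat_lit 5) (nat_lit 11) L127261 (by decide +kernel)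
theorem L127263 : W_46 (nat_lit 5) (nat_lit 0x800080004001a000d0002000000008000000000000000000) (nat_lit 0x0) (nat_lit 0x800070003000000002000100008000000000000000000000000000000) := T_46 (nat_lit 192) (nat_lit 208) (nat_lit 5) (nat_lit 5) (nat_lit 8) L127262 (by decide +kernel)
theorem L127264 : W_46 (nat_lit 6) (nat_lit 0x800080004001a000d0002000000000000000000000000000) (nat_lit 0x0) (nat_lit 0x800070003000000002000100008000000100008000000000000000000) := T_46 (nat_lit 75) (nat_lit 92) (nat_lit 7) (nat_lit 7) (nat_lit 4) L127263 (by decide +kernel)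
theorem L127265 : W_46 (nat_lit 7) (nat_lit 0x80004001a000d0002000000000000000000000000000) (nat_lit 0x0) (nat_lit 0x800070003800040002000100008000000100008000000000000000000) := T_46 (nat_lit 191) (nat_lit 174) (nat_lit 5) (nat_lit 5) (nat_lit 7) L127264 (by decide +kernel)
theorem L127266 : W_46 (nat_lit 2) (nat_lit 0xc0004001a000d0002c00180000000000000000000000) (nat_lit 0x0) (nat_lit 0x240010000000000000000000) := D_46 (nat_lit 93) (nat_lit 90) (nat_lit 76) (nat_lit 1) (nat_lit 8) (nat_lit 5) (nat_lit 6) (nat_lit 7) (nat_lit 8) (by decide +kernel)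
theorem L127267 : W_46 (nat_lit 3) (nat_lit 0xc0004001a000d0002c00100000000000000000000000) (nat_lit 0x0) (nat_lit 0x2c0014000000000000000000) := T_46 (nat_lit 91) (nat_lit 74) (nat_lit 4) (nat_lit 7) (nat_lit 8) L127266 (by decide +kernel)
theorem L127268 : W_46 (nat_lit 4) (nat_lit 0xc0004001a000d0002400100000000000000000000000) (nat_lit 0x0) (nat_lit 0x8002e0014000000000000000000) := T_46 (nat_lit 107) (nat_lit 89) (nat_lit 4) (nat_lit 5) (nat_lit 9) L127267 (by decide +kernel)
theorem L127269 : W_46 (nat_lit 5) (nat_lit 0xc0004001a000d0002400000000000000000000000000) (nat_lit 0x0) (nat_lit 0x8003e001c000000000000000000) := T_46 (nat_lit 92) (nat_lit 75) (nat_lit 7) (nat_lit 7) (nat_lit 4) L127268 (by decide +kernel)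
theorem L127270 : W_46 (nat_lit 6) (nat_lit 0xc0004001a000d0002000000000000000000000000000) (nat_lit 0x0) (nat_lit 0x8000c003e001c000000000000000000) := T_46 (nat_lit 106) (nat_lit 123) (nat_lit 4) (nat_lit 5) (nat_lit 10) L127269 (by decide +kernel)
theorem L127271 : W_46 (nat_lit 7) (nat_lit 0x80004001a000d0002000000000000000000000000000) (nat_lit 0x0) (nat_lit 0x800040000000000008000c003e001c000000000000000000) := T_46 (nat_lit 174) (nat_lit 191) (nat_lit 5) (nat_lit 5) (nat_lit 7) L127270 (by decide +kernel)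
theorem L127272 : W_46 (nat_lit 2) (nat_lit 0x50001000080004001a000d8002000000008000000000000000000) (nat_lit 0x0) (nat_lit 0xa00020000000000000000000000000000000000000000000000000000) := D_46 (nat_lit 209) (nat_lit 225) (nat_lit 227) (nat_lit 5) (nat_lit 5) (nat_lit 9) (nat_lit 7) (nat_lit 5) (nat_lit 9) (by decide +kernel)
theorem L127273 : W_46 (nat_lit 3) (nat_lit 0x10001000080004001a000d8002000000008000000000000000000) (nat_lit 0x0) (nat_lit 0xa00060002000000000000000000000000000000000000000000000000) := T_46 (nat_lit 210) (nat_lit 193) (nat_lit 7) (nat_lit 5) (nat_lit 8) L127272 (by decide +kernel)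
theorem L127274 : W_46 (nat_lit 4) (nat_lit 0x1000080004001a000d8002000000008000000000000000000) (nat_lit 0x0) (nat_lit 0xa00070002800000000000000000000000000000000000000000000000) := T_46 (nat_lit 208) (nat_lit 191) (nat_lit 5) (nat_lit 5) (nat_lit 8) L127273 (by decide +kernel)
theorem L127275 : W_46 (nat_lit 5) (nat_lit 0x80004001a000d8002000000008000000000000000000) (nat_lit 0x0) (nat_lit 0xa00070003800000000000100000000000000000000000000000000000) := T_46 (nat_lit 192) (nat_lit 140) (nat_lit 4) (nat_lit 5) (nat_lit 11) L127274 (by decide +kernel)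
theorem L127276 : W_46 (nat_lit 6) (nat_lit 0x80004001a000d0002000000008000000000000000000) (nat_lit 0x0) (nat_lit 0xa00070003800000000000100008000400000000000000000000000000) := T_46 (nat_lit 123) (nat_lit 106) (nat_lit 4) (nat_lit 5) (nat_lit 10) L127275 (by decide +kernel)
theorem L127277 : W_46 (nat_lit 7) (nat_lit 0x80004001a000d0002000000000000000000000000000) (nat_lit 0x0) (nat_lit 0xa00070003800000000000100008000400100008000000000000000000) := T_46 (nat_lit 75) (nat_lit 92) (nat_lit 7) (nat_lit 7) (nat_lit 4) L127276 (by decide +kernel)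
theorem L127278 : W_46 (nat_lit 2) (nat_lit 0x8000e001a000d0002c0004000e000080000000000000) (nat_lit 0x0) (nat_lit 0x10000100004000000000) := D_46 (nat_lit 56) (nat_lit 38) (nat_lit 76) (nat_lit 4) (nat_lit 5) (nat_lit 6) (nat_lit 0) (nat_lit 8) (nat_lit 4) (by decide +kernel)
theorem L127279 : W_46 (nat_lit 3) (nat_lit 0x8000e001a000d0002c0004000e000000000000000000) (nat_lit 0x0) (nat_lit 0x11000180004000000000) := T_46 (nat_lit 55) (nat_lit 72) (nat_lit 4) (nat_lit 5) (nat_lit 7) L127278 (by decide +kernel)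
theorem L127280 : W_46 (nat_lit 4) (nat_lit 0x8000e001a000d0002c0004000c000000000000000000) (nat_lit 0x0) (nat_lit 0x13000380004000000000) := T_46 (nat_lit 73) (nat_lit 57) (nat_lit 6) (nat_lit 5) (nat_lit 7) L127279 (by decide +kernel)
theorem L127281 : W_46 (nat_lit 5) (nat_lit 0x8000e001a000d0002c00040008000000000000000000) (nat_lit 0x0) (nat_lit 0x80017000380004000000000) := T_46 (nat_lit 74) (nat_lit 91) (nat_lit 6) (nat_lit 5) (nat_lit 8) L127280 (by decide +kernel)
theorem L127282 : W_46 (nat_lit 6) (nat_lit 0x80006001a000d0002c00040008000000000000000000) (nat_lit 0x0) (nat_lit 0x18000000000000000080017000380004000000000) := T_46 (nat_lit 159) (nat_lit 160) (nat_lit 2) (nat_lit 4) (nat_lit 9) L127281 (by decide +kernel)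
theorem L127283 : W_46 (nat_lit 7) (nat_lit 0x80006001a000d0002c00000008000000000000000000) (nat_lit 0x0) (nat_lit 0x180001000000000000c0017000380004000000000) := T_46 (nat_lit 90) (nat_lit 140) (nat_lit 5) (nat_lit 5) (nat_lit 5) L127282 (by decide +kernel)
theorem L127284 : W_46 (nat_lit 8) (nat_lit 0x80004001a000d0002c00000008000000000000000000) (nat_lit 0x0) (nat_lit 0x4001a0001000000000000c0017000380004000000000) := T_46 (nat_lit 157) (nat_lit 174) (nat_lit 5) (nat_lit 5) (nat_lit 6) L127283 (by decide +kernel)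
theorem L127285 : W_46 (nat_lit 9) (nat_lit 0x80004001a000d0002400000008000000000000000000) (nat_lit 0x0) (nat_lit 0x4001a0001000000008000e0017000380004000000000) := T_46 (nat_lit 107) (nat_lit 89) (nat_lit 4) (nat_lit 5) (nat_lit 9) L127284 (by decide +kernel)
theorem L127286 : W_46 (nat_lit 10) (nat_lit 0x80004001a000d0002400000000000000000000000000) (nat_lit 0x0) (nat_lit 0x4001a0001000000008001e001f000380004000000000) := T_46 (nat_lit 75) (nat_lit 92) (nat_lit 7) (nat_lit 7) (nat_lit 4) L127285 (by decide +kernel)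
theorem L127287 : W_46 (nat_lit 11) (nat_lit 0x80004001a000d0002000000000000000000000000000) (nat_lit 0x0) (nat_lit 0x4001a000100008000c001e001f000380004000000000) := T_46 (nat_lit 106) (nat_lit 123) (nat_lit 4) (nat_lit 5) (nat_lit 10) L127286 (by decide +kernel)
theorem L127288 : W_46 (nat_lit 12) (nat_lit 0x4001a000d0002000000000000000000000000000) (nat_lit 0x0) (nat_lit 0x4000e000700038000c001a000100008000c003e001f000380004000000000) := Q_46 (nat_lit 175) (C_46 L127252 (C_46 L125462 (C_46 L127259 (C_46 L127265 (C_46 L127271 (C_46 L127277 (C_46 L127287 N_46))))))) (by decide +kernel)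
theorem L127289 : W_46 (nat_lit 2) (nat_lit 0x380014001a000d0002000000000000000000000000000) (nat_lit 0x0) (nat_lit 0x8000400002000000000000000000000000000000000000000) := D_46 (nat_lit 178) (nat_lit 157) (nat_lit 195) (nat_lit 0) (nat_lit 8) (nat_lit 10) (nat_lit 7) (nat_lit 7) (nat_lit 7) (by decide +kernel)
theorem L127290 : W_46 (nat_lit 3) (nat_lit 0x180014001a000d0002000000000000000000000000000) (nat_lit 0x0) (nat_lit 0xc000600002000000000000000000000000000000000000000) := T_46 (nat_lit 177) (nat_lit 194) (nat_lit 6) (nat_lit 7) (nat_lit 11) L127289 (by decide +kernel)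
theorem L127291 : W_46 (nat_lit 4) (nat_lit 0x180004001a000d0002000000000000000000000000000) (nat_lit 0x0) (nat_lit 0xc00060001a000000000000000000000000000000000000000) := T_46 (nat_lit 160) (nat_lit 159) (nat_lit 5) (nat_lit 7) (nat_lit 6) L127290 (by decide +kernel)
theorem L127292 : W_46 (nat_lit 5) (nat_lit 0x80004001a000d0002000000000000000000000000000) (nat_lit 0x0) (nat_lit 0xe00070001a000000000000000000000000000000000000000) := T_46 (nat_lit 176) (nat_lit 193) (nat_lit 7) (nat_lit 5) (nat_lit 7) L127291 (by decide +kernel)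
theorem L127293 : W_46 (nat_lit 2) (nat_lit 0x800080004001a000d8002000000008000000000000000000) (nat_lit 0x0) (nat_lit 0x10001000000000000100000000000000000000000000000000000) := D_46 (nat_lit 192) (nat_lit 208) (nat_lit 140) (nat_lit 5) (nat_lit 5) (nat_lit 8) (nat_lit 4) (nat_lit 5) (nat_lit 11) (by decide +kernel)
theorem L127294 : W_46 (nat_lit 3) (nat_lit 0x800080004001a000d0002000000008000000000000000000) (nat_lit 0x0) (nat_lit 0x10001000000000000100008000400000000000000000000000000) := T_46 (nat_lit 123) (nat_lit 106) (nat_lit 4) (nat_lit 5) (nat_lit 10) L127293 (by decide +kernel)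
theorem L127295 : W_46 (nat_lit 4) (nat_lit 0x80004001a000d0002000000008000000000000000000) (nat_lit 0x0) (nat_lit 0x10001800040000000100008000400000000000000000000000000) := T_46 (nat_lit 191) (nat_lit 174) (nat_lit 5) (nat_lit 5) (nat_lit 7) L127294 (by decide +kernel)
theorem L127296 : W_46 (nat_lit 5) (nat_lit 0x80004001a000d0002000000000000000000000000000) (nat_lit 0x0) (nat_lit 0x10001800040000000100008000400100008000000000000000000) := T_46 (nat_lit 75) (nat_lit 92) (nat_lit 7) (nat_lit 7) (nat_lit 4) L127295 (by decide +kernel)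
theorem L127297 : W_46 (nat_lit 8) (nat_lit 0x4001a000d0002000000000000000000000000000) (nat_lit 0x0) (nat_lit 0xa0007000f8007c001a000100008000400100008000000000000000000) := Q_46 (nat_lit 175) (C_46 L127277 (C_46 L125488 (C_46 L127292 (C_46 L127296 N_46)))) (by decide +kernel)
theorem L127298 : W_46 (nat_lit 2) (nat_lit 0x6001a000d0002800040008000000000000000000) (nat_lit 0x0) (nat_lit 0x400020001000000000000000000) := D_46 (nat_lit 89) (nat_lit 72) (nat_lit 106) (nat_lit 4) (nat_lit 5) (nat_lit 8) (nat_lit 4) (nat_lit 5) (nat_lit 9) (by decide +kernel)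
theorem L127299 : W_46 (nat_lit 3) (nat_lit 0x6001a000d0002800000008000000000000000000) (nat_lit 0x0) (nat_lit 0x100000000400060001000000000000000000) := T_46 (nat_lit 90) (nat_lit 140) (nat_lit 5) (nat_lit 5) (nat_lit 5) L127298 (by decide +kernel)
theorem L127300 : W_46 (nat_lit 4) (nat_lit 0x4001a000d0002800000008000000000000000000) (nat_lit 0x0) (nat_lit 0x40002000100000000400060001000000000000000000) := T_46 (nat_lit 157) (nat_lit 174) (nat_lit 5) (nat_lit 5) (nat_lit 6) L127299 (by decide +kernel)
theorem L127301 : W_46 (nat_lit 5) (nat_lit 0x4001a000d0002800000000000000000000000000) (nat_lit 0x0) (nat_lit 0x40002000100000000400160009000000000000000000) := T_46 (nat_lit 75) (nat_lit 92) (nat_lit 7) (nat_lit 7) (nat_lit 4) L127300 (by decide +kernel)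
theorem L127302 : W_46 (nat_lit 2) (nat_lit 0xc001a000d0002c00300000000000000000000000) (nat_lit 0x0) (nat_lit 0xc0004000000000000000000) := D_46 (nat_lit 91) (nat_lit 90) (nat_lit 74) (nat_lit 1) (nat_lit 8) (nat_lit 5) (nat_lit 4) (nat_lit 7) (nat_lit 8) (by decide +kernel)
theorem L127303 : W_46 (nat_lit 3) (nat_lit 0xc001a000d0002c00100000000000000000000000) (nat_lit 0x0) (nat_lit 0x2c0014000000000000000000) := T_46 (nat_lit 93) (nat_lit 76) (nat_lit 6) (nat_lit 7) (nat_lit 8) L127302 (by decide +kernel)
theorem L127304 : W_46 (nat_lit 4) (nat_lit 0xc001a000d0002c00000000000000000000000000) (nat_lit 0x0) (nat_lit 0x3c001c000000000000000000) := T_46 (nat_lit 92) (nat_lit 75) (nat_lit 7) (nat_lit 7) (nat_lit 4) L127303 (by decide +kernel)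
theorem L127305 : W_46 (nat_lit 5) (nat_lit 0x4001a000d0002c00000000000000000000000000) (nat_lit 0x0) (nat_lit 0x1000080000000000000003c001c000000000000000000) := T_46 (nat_lit 159) (nat_lit 176) (nat_lit 7) (nat_lit 5) (nat_lit 6) L127304 (by decide +kernel)
theorem L127306 : W_46 (nat_lit 6) (nat_lit 0x4001a000d0002800000000000000000000000000) (nat_lit 0x0) (nat_lit 0x1000080000000000004003e001c000000000000000000) := T_46 (nat_lit 106) (nat_lit 89) (nat_lit 4) (nat_lit 5) (nat_lit 9) L127305 (by decide +kernel)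
theorem L127307 : W_46 (nat_lit 7) (nat_lit 0x4001a000d0002000000000000000000000000000) (nat_lit 0x0) (nat_lit 0x14001a000100000000c003e001d000000000000000000) := Q_46 (nat_lit 107) (C_46 L127301 (C_46 L125220 (C_46 L127306 N_46))) (by decide +kernel)
theorem L127308 : W_46 (nat_lit 8) (nat_lit 0x4001a000d0002000000000000000000000000000) (nat_lit 0x0) (nat_lit 0xe8007c001a000000008000c003e001c000000000000000000) := Q_46 (nat_lit 175) (C_46 L127292 (C_46 L127271 N_46)) (by decide +kernel)
theorem L127309 : W_46 (nat_lit 2) (nat_lit 0x3c0014001a000d0002000000008000000000000000000) (nat_lit 0x0) (nat_lit 0x8000400002000000000000000000000000000000000000000) := D_46 (nat_lit 178) (nat_lit 195) (nat_lit 157) (nat_lit 7) (nat_lit 7) (nat_lit 7) (nat_lit 0) (nat_lit 8) (nat_lit 10) (by decide +kernel)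
theorem L127310 : W_46 (nat_lit 3) (nat_lit 0x1c0014001a000d0002000000008000000000000000000) (nat_lit 0x0) (nat_lit 0xc000600002000000000000000000000000000000000000000) := T_46 (nat_lit 177) (nat_lit 194) (nat_lit 6) (nat_lit 7) (nat_lit 11) L127309 (by decide +kernel)
theorem L127311 : W_46 (nat_lit 4) (nat_lit 0x1c0004001a000d0002000000008000000000000000000) (nat_lit 0x0) (nat_lit 0xc00060001a000000000000000000000000000000000000000) := T_46 (nat_lit 160) (nat_lit 159) (nat_lit 5) (nat_lit 7) (nat_lit 6) L127310 (by decide +kernel)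
theorem L127312 : W_46 (nat_lit 5) (nat_lit 0x180004001a000d0002000000008000000000000000000) (nat_lit 0x0) (nat_lit 0xc80064001a000000000000000000000000000000000000000) := T_46 (nat_lit 174) (nat_lit 191) (nat_lit 5) (nat_lit 5) (nat_lit 7) L127311 (by decide +kernel)
theorem L127313 : W_46 (nat_lit 6) (nat_lit 0x100004001a000d0002000000008000000000000000000) (nat_lit 0x0) (nat_lit 0xe8006c001a000000000000000000000000000000000000000) := T_46 (nat_lit 175) (nat_lit 193) (nat_lit 7) (nat_lit 5) (nat_lit 7) L127312 (by decide +kernel)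
theorem L127314 : W_46 (nat_lit 7) (nat_lit 0x100004001a000d0002000000000000000000000000000) (nat_lit 0x0) (nat_lit 0xe8006c001a000000000000000100008000000000000000000) := T_46 (nat_lit 75) (nat_lit 92) (nat_lit 7) (nat_lit 7) (nat_lit 4) L127313 (by decide +kernel)
theorem L127315 : W_46 (nat_lit 2) (nat_lit 0x100006001a000d000280006000c000000000000000000) (nat_lit 0x0) (nat_lit 0x12000200000000000000) := D_46 (nat_lit 73) (nat_lit 76) (nat_lit 57) (nat_lit 1) (nat_lit 8) (nat_lit 4) (nat_lit 6) (nat_lit 5) (nat_lit 7) (by decide +kernel)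
theorem L127316 : W_46 (nat_lit 3) (nat_lit 0x100006001a000d0002800060004000000000000000000) (nat_lit 0x0) (nat_lit 0x10001a000200000000000000) := T_46 (nat_lit 75) (nat_lit 92) (nat_lit 7) (nat_lit 7) (nat_lit 4) L127315 (by decide +kernel)
theorem L127317 : W_46 (nat_lit 4) (nat_lit 0x100006001a000d0002800060000000000000000000000) (nat_lit 0x0) (nat_lit 0x18001e000200000000000000) := T_46 (nat_lit 74) (nat_lit 91) (nat_lit 6) (nat_lit 5) (nat_lit 8) L127316 (by decide +kernel)
theorem L127318 : W_46 (nat_lit 5) (nat_lit 0x100006001a000d0002800040000000000000000000000) (nat_lit 0x0) (nat_lit 0x1a001f000200000000000000) := T_46 (nat_lit 89) (nat_lit 72) (nat_lit 4) (nat_lit 5) (nat_lit 8) L127317 (by decide +kernel)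
theorem L127319 : W_46 (nat_lit 6) (nat_lit 0x100006001a000d0002800000000000000000000000000) (nat_lit 0x0) (nat_lit 0x1000000000001e001f000200000000000000) := T_46 (nat_lit 90) (nat_lit 140) (nat_lit 5) (nat_lit 5) (nat_lit 5) L127318 (by decide +kernel)
theorem L127320 : W_46 (nat_lit 7) (nat_lit 0x100004001a000d0002800000000000000000000000000) (nat_lit 0x0) (nat_lit 0x400020001000000000001e001f000200000000000000) := T_46 (nat_lit 157) (nat_lit 174) (nat_lit 5) (nat_lit 5) (nat_lit 6) L127319 (by decide +kernel)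
theorem L127321 : W_46 (nat_lit 8) (nat_lit 0x100004001a000d0002000000000000000000000000000) (nat_lit 0x0) (nat_lit 0x4000a0001000000008001e001f000200000000000000) := T_46 (nat_lit 107) (nat_lit 159) (nat_lit 7) (nat_lit 5) (nat_lit 6) L127320 (by decide +kernel)
theorem L127322 : W_46 (nat_lit 2) (nat_lit 0x1c0006001a000d0002000000008000000000000000000) (nat_lit 0x0) (nat_lit 0x200001800000000000000000000000000000000000000) := D_46 (nat_lit 156) (nat_lit 155) (nat_lit 177) (nat_lit 3) (nat_lit 2) (nat_lit 9) (nat_lit 0) (nat_lit 7) (nat_lit 10) (by decide +kernel)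
theorem L127323 : W_46 (nat_lit 3) (nat_lit 0x1c0004001a000d0002000000008000000000000000000) (nat_lit 0x0) (nat_lit 0x200003800000000000800000000000000000000000000) := T_46 (nat_lit 157) (nat_lit 107) (nat_lit 5) (nat_lit 5) (nat_lit 6) L127322 (by decide +kernel)
theorem L127324 : W_46 (nat_lit 4) (nat_lit 0x180004001a000d0002000000008000000000000000000) (nat_lit 0x0) (nat_lit 0x800240003800000000000800000000000000000000000000) := T_46 (nat_lit 174) (nat_lit 191) (nat_lit 5) (nat_lit 5) (nat_lit 7) L127323 (by decide +kernel)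
theorem L127325 : W_46 (nat_lit 5) (nat_lit 0x100004001a000d0002000000008000000000000000000) (nat_lit 0x0) (nat_lit 0x28002c0003800000000000800000000000000000000000000) := T_46 (nat_lit 175) (nat_lit 193) (nat_lit 7) (nat_lit 5) (nat_lit 7) L127324 (by decide +kernel)
theorem L127326 : W_46 (nat_lit 6) (nat_lit 0x100004001a000d0002000000000000000000000000000) (nat_lit 0x0) (nat_lit 0x28002c0003800000000000800100008000000000000000000) := T_46 (nat_lit 75) (nat_lit 92) (nat_lit 7) (nat_lit 7) (nat_lit 4) L127325 (by decide +kernel)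
theorem L127327 : W_46 (nat_lit 2) (nat_lit 0x100004001a000d0002000000000000000000000000000) (nat_lit 0x0) (nat_lit 0x18000000000000800000000000000000000000000) := D_46 (nat_lit 159) (nat_lit 107) (nat_lit 160) (nat_lit 7) (nat_lit 5) (nat_lit 6) (nat_lit 5) (nat_lit 7) (nat_lit 6) (by decide +kernel)
theorem L127328 : W_46 (nat_lit 9) (nat_lit 0x4001a000d0002000000000000000000000000000) (nat_lit 0x0) (nat_lit 0xe8007c001b8001000000008001e001f000200000000000000) := Q_46 (nat_lit 176) (C_46 L127314 (C_46 L127321 (C_46 L127326 (C_46 L127327 N_46)))) (by decide +kernel)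
theorem L127329 : W_46 (nat_lit 8) (nat_lit 0x4001a000d0002000000000000000000000000000) (nat_lit 0x0) (nat_lit 0x500038001c0018000100008000c003e001c000000000000000000) := Q_46 (nat_lit 175) (C_46 L127296 (C_46 L125488 (C_46 L127271 (C_46 L125464 N_46)))) (by decide +kernel)
theorem L127330 : W_46 (nat_lit 2) (nat_lit 0x380014001a000d8002000000008000000000000000000) (nat_lit 0x0) (nat_lit 0x8000400002000000000000000000000000000000000000000) := D_46 (nat_lit 178) (nat_lit 157) (nat_lit 195) (nat_lit 0) (nat_lit 8) (nat_lit 10) (nat_lit 7) (nat_lit 7) (nat_lit 7) (by decide +kernel)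
theorem L127331 : W_46 (nat_lit 3) (nat_lit 0x180014001a000d8002000000008000000000000000000) (nat_lit 0x0) (nat_lit 0xc000600002000000000000000000000000000000000000000) := T_46 (nat_lit 177) (nat_lit 194) (nat_lit 6) (nat_lit 7) (nat_lit 11) L127330 (by decide +kernel)
theorem L127332 : W_46 (nat_lit 4) (nat_lit 0x180004001a000d8002000000008000000000000000000) (nat_lit 0x0) (nat_lit 0xc00060001a000000000000000000000000000000000000000) := T_46 (nat_lit 160) (nat_lit 159) (nat_lit 5) (nat_lit 7) (nat_lit 6) L127331 (by decide +kernel)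
theorem L127333 : W_46 (nat_lit 5) (nat_lit 0x180004001a000d0002000000008000000000000000000) (nat_lit 0x0) (nat_lit 0xc00060001a000000008000400000000000000000000000000) := T_46 (nat_lit 123) (nat_lit 106) (nat_lit 4) (nat_lit 5) (nat_lit 10) L127332 (by decide +kernel)
theorem L127334 : W_46 (nat_lit 6) (nat_lit 0x100004001a000d0002000000008000000000000000000) (nat_lit 0x0) (nat_lit 0xe00068001a000000008000400000000000000000000000000) := T_46 (nat_lit 175) (nat_lit 193) (nat_lit 7) (nat_lit 5) (nat_lit 7) L127333 (by decide +kernel)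
theorem L127335 : W_46 (nat_lit 7) (nat_lit 0x100004001a000d0002000000000000000000000000000) (nat_lit 0x0) (nat_lit 0xe00068001a000000008000400100008000000000000000000) := T_46 (nat_lit 75) (nat_lit 92) (nat_lit 7) (nat_lit 7) (nat_lit 4) L127334 (by decide +kernel)
theorem L127336 : W_46 (nat_lit 4) (nat_lit 0x100004001a000d0002000000000000000000000000000) (nat_lit 0x0) (nat_lit 0x2000080008000000008000c00020000000000000000000000) := T_46 (nat_lit 107) (nat_lit 159) (nat_lit 7) (nat_lit 5) (nat_lit 6) L125222 (by decide +kernel)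
theorem L127337 : W_46 (nat_lit 2) (nat_lit 0x180004001a000d0002c00180000000000000000000000) (nat_lit 0x0) (nat_lit 0x240010000000000000000000) := D_46 (nat_lit 93) (nat_lit 90) (nat_lit 76) (nat_lit 1) (nat_lit 8) (nat_lit 5) (nat_lit 6) (nat_lit 7) (nat_lit 8) (by decide +kernel)
theorem L127338 : W_46 (nat_lit 3) (nat_lit 0x180004001a000d0002400180000000000000000000000) (nat_lit 0x0) (nat_lit 0x800260010000000000000000000) := T_46 (nat_lit 107) (nat_lit 89) (nat_lit 4) (nat_lit 5) (nat_lit 9) L127337 (by decide +kernel)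
theorem L127339 : W_46 (nat_lit 4) (nat_lit 0x180004001a000d0002400100000000000000000000000) (nat_lit 0x0) (nat_lit 0x8002e0014000000000000000000) := T_46 (nat_lit 91) (nat_lit 74) (nat_lit 4) (nat_lit 7) (nat_lit 8) L127338 (by decide +kernel)
theorem L127340 : W_46 (nat_lit 5) (nat_lit 0x180004001a000d0002000100000000000000000000000) (nat_lit 0x0) (nat_lit 0x8000c002e0014000000000000000000) := T_46 (nat_lit 106) (nat_lit 123) (nat_lit 4) (nat_lit 5) (nat_lit 10) L127339 (by decide +kernel)
theorem L127341 : W_46 (nat_lit 6) (nat_lit 0x100004001a000d0002000100000000000000000000000) (nat_lit 0x0) (nat_lit 0x2000080000000000008000c002e0014000000000000000000) := T_46 (nat_lit 175) (nat_lit 193) (nat_lit 7) (nat_lit 5) (nat_lit 7) L127340 (by decide +kernel)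
theorem L127342 : W_46 (nat_lit 7) (nat_lit 0x100004001a000d0002000000000000000000000000000) (nat_lit 0x0) (nat_lit 0x2000080000000000008000c003e001c000000000000000000) := T_46 (nat_lit 92) (nat_lit 75) (nat_lit 7) (nat_lit 7) (nat_lit 4) L127341 (by decide +kernel)
theorem L127343 : W_46 (nat_lit 8) (nat_lit 0x4001a000d0002000000000000000000000000000) (nat_lit 0x0) (nat_lit 0xe00078001a000000008000c003e001c000000000000000000) := Q_46 (nat_lit 176) (C_46 L127335 (C_46 L127336 (C_46 L127342 (C_46 L127327 N_46)))) (by decide +kernel)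
theorem L127344 : W_46 (nat_lit 13) (nat_lit 0x1a000d0002000000000000000000000000000) (nat_lit 0x0) (nat_lit 0x4000e0007000f8007c001f800100008000c003e001f000380004000000000) := Q_46 (nat_lit 158) (C_46 L127244 (C_46 L125474 (C_46 L127288 (C_46 L127297 (C_46 L127307 (C_46 L127308 (C_46 L127328 (C_46 L127329 (C_46 L127343 N_46))))))))) (by decide +kernel)
theorem L127345 : W_46 (nat_lit 2) (nat_lit 0x1c0006001a000d8002000000008000000000000000000) (nat_lit 0x0) (nat_lit 0x200001800000000000000000000000000000000000000) := D_46 (nat_lit 156) (nat_lit 155) (nat_lit 177) (nat_lit 3) (nat_lit 2) (nat_lit 9) (nat_lit 0) (nat_lit 7) (nat_lit 10) (by decide +kernel)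
theorem L127346 : W_46 (nat_lit 3) (nat_lit 0xc0006001a000d8002000000008000000000000000000) (nat_lit 0x0) (nat_lit 0x2000300001800000000000000000000000000000000000000) := T_46 (nat_lit 176) (nat_lit 193) (nat_lit 7) (nat_lit 5) (nat_lit 7) L127345 (by decide +kernel)
theorem L127347 : W_46 (nat_lit 4) (nat_lit 0xc0004001a000d8002000000008000000000000000000) (nat_lit 0x0) (nat_lit 0x2000300003800000000000800000000000000000000000000) := T_46 (nat_lit 157) (nat_lit 107) (nat_lit 5) (nat_lit 5) (nat_lit 6) L127346 (by decide +kernel)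
theorem L127348 : W_46 (nat_lit 5) (nat_lit 0x80004001a000d8002000000008000000000000000000) (nat_lit 0x0) (nat_lit 0x2800340003800000000000800000000000000000000000000) := T_46 (nat_lit 174) (nat_lit 191) (nat_lit 5) (nat_lit 5) (nat_lit 7) L127347 (by decide +kernel)
theorem L127349 : W_46 (nat_lit 6) (nat_lit 0x4001a000d8002000000008000000000000000000) (nat_lit 0x0) (nat_lit 0x28003c0003800000000000c00000000000000000000000000) := T_46 (nat_lit 175) (nat_lit 106) (nat_lit 4) (nat_lit 5) (nat_lit 10) L127348 (by decide +kernel)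
theorem L127350 : W_46 (nat_lit 7) (nat_lit 0x4001a000d0002000000008000000000000000000) (nat_lit 0x0) (nat_lit 0x28003c0003800000028000c00000000000000000000000000) := T_46 (nat_lit 123) (nat_lit 125) (nat_lit 3) (nat_lit 4) (nat_lit 7) L127349 (by decide +kernel)
theorem L127351 : W_46 (nat_lit 8) (nat_lit 0x4001a000d0002000000000000000000000000000) (nat_lit 0x0) (nat_lit 0x28003c0003800000028000c00100008000000000000000000) := T_46 (nat_lit 75) (nat_lit 92) (nat_lit 7) (nat_lit 7) (nat_lit 4) L127350 (by decide +kernel)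
theorem L127352 : W_46 (nat_lit 2) (nat_lit 0x3c0014001a000d8002000000008000000000000000000) (nat_lit 0x0) (nat_lit 0x8000400002000000000000000000000000000000000000000) := D_46 (nat_lit 178) (nat_lit 195) (nat_lit 157) (nat_lit 7) (nat_lit 7) (nat_lit 7) (nat_lit 0) (nat_lit 8) (nat_lit 10) (by decide +kernel)
theorem L127353 : W_46 (nat_lit 3) (nat_lit 0x1c0014001a000d8002000000008000000000000000000) (nat_lit 0x0) (nat_lit 0xc000600002000000000000000000000000000000000000000) := T_46 (nat_lit 177) (nat_lit 194) (nat_lit 6) (nat_lit 7) (nat_lit 11) L127352 (by decide +kernel)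
theorem L127354 : W_46 (nat_lit 4) (nat_lit 0x1c0004001a000d8002000000008000000000000000000) (nat_lit 0x0) (nat_lit 0xc00060001a000000000000000000000000000000000000000) := T_46 (nat_lit 160) (nat_lit 159) (nat_lit 5) (nat_lit 7) (nat_lit 6) L127353 (by decide +kernel)
theorem L127355 : W_46 (nat_lit 5) (nat_lit 0xc0004001a000d8002000000008000000000000000000) (nat_lit 0x0) (nat_lit 0xe00070001a000000000000000000000000000000000000000) := T_46 (nat_lit 176) (nat_lit 193) (nat_lit 7) (nat_lit 5) (nat_lit 7) L127354 (by decide +kernel)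
theorem L127356 : W_46 (nat_lit 6) (nat_lit 0x80004001a000d8002000000008000000000000000000) (nat_lit 0x0) (nat_lit 0xe80074001a000000000000000000000000000000000000000) := T_46 (nat_lit 174) (nat_lit 191) (nat_lit 5) (nat_lit 5) (nat_lit 7) L127355 (by decide +kernel)
theorem L127357 : W_46 (nat_lit 7) (nat_lit 0x4001a000d8002000000008000000000000000000) (nat_lit 0x0) (nat_lit 0xe8007c001a000000000000400000000000000000000000000) := T_46 (nat_lit 175) (nat_lit 106) (nat_lit 4) (nat_lit 5) (nat_lit 10) L127356 (by decide +kernel)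
theorem L127358 : W_46 (nat_lit 8) (nat_lit 0x4001a000d8002000000000000000000000000000) (nat_lit 0x0) (nat_lit 0xe8007c001a000000000000400100008000000000000000000) := T_46 (nat_lit 75) (nat_lit 92) (nat_lit 7) (nat_lit 7) (nat_lit 4) L127357 (by decide +kernel)
theorem L127359 : W_46 (nat_lit 9) (nat_lit 0x4001a000d0002000000000000000000000000000) (nat_lit 0x0) (nat_lit 0xe8007c001a000000028000400100008000000000000000000) := T_46 (nat_lit 123) (nat_lit 125) (nat_lit 3) (nat_lit 4) (nat_lit 7) L127358 (by decide +kernel)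
theorem L127360 : W_46 (nat_lit 5) (nat_lit 0x4001a000d8002000000000000000000000000000) (nat_lit 0x0) (nat_lit 0x28001c000a000000000000c00000000000000000000000000) := T_46 (nat_lit 175) (nat_lit 106) (nat_lit 4) (nat_lit 5) (nat_lit 10) L125454 (by decide +kernel)
theorem L127361 : W_46 (nat_lit 6) (nat_lit 0x4001a000d0002000000000000000000000000000) (nat_lit 0x0) (nat_lit 0x28001c000a000000028000c00000000000000000000000000) := T_46 (nat_lit 123) (nat_lit 125) (nat_lit 3) (nat_lit 4) (nat_lit 7) L127360 (by decide +kernel)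
theorem L127362 : W_46 (nat_lit 2) (nat_lit 0x4001a000d8002400000008000000000000000000) (nat_lit 0x0) (nat_lit 0x800020001000000000000000000) := D_46 (nat_lit 89) (nat_lit 107) (nat_lit 72) (nat_lit 4) (nat_lit 5) (nat_lit 9) (nat_lit 7) (nat_lit 4) (nat_lit 4) (by decide +kernel)
theorem L127363 : W_46 (nat_lit 3) (nat_lit 0x4001a000d8002000000008000000000000000000) (nat_lit 0x0) (nat_lit 0x80000000000000000c00020001000000000000000000) := T_46 (nat_lit 106) (nat_lit 175) (nat_lit 4) (nat_lit 5) (nat_lit 10) L127362 (by decide +kernel)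
theorem L127364 : W_46 (nat_lit 4) (nat_lit 0x4001a000d8002000000000000000000000000000) (nat_lit 0x0) (nat_lit 0x80000000000000000c00120009000000000000000000) := T_46 (nat_lit 75) (nat_lit 92) (nat_lit 7) (nat_lit 7) (nat_lit 4) L127363 (by decide +kernel)
theorem L127365 : W_46 (nat_lit 5) (nat_lit 0x4001a000d0002000000000000000000000000000) (nat_lit 0x0) (nat_lit 0x80000000000028000c00120009000000000000000000) := T_46 (nat_lit 123) (nat_lit 125) (nat_lit 3) (nat_lit 4) (nat_lit 7) L127364 (by decide +kernel)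
theorem L127366 : W_46 (nat_lit 2) (nat_lit 0xc001a000f0002800000008000000000000000000) (nat_lit 0x0) (nat_lit 0x40012000000000000000000000000000000000000000) := D_46 (nat_lit 157) (nat_lit 160) (nat_lit 174) (nat_lit 2) (nat_lit 4) (nat_lit 9) (nat_lit 5) (nat_lit 5) (nat_lit 6) (by decide +kernel)
theorem L127367 : W_46 (nat_lit 3) (nat_lit 0x4001a000f0002800000008000000000000000000) (nat_lit 0x0) (nat_lit 0x14001a000000000000000000000000000000000000000) := T_46 (nat_lit 159) (nat_lit 176) (nat_lit 7) (nat_lit 5) (nat_lit 6) L127366 (by decide +kernel)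
theorem L127368 : W_46 (nat_lit 4) (nat_lit 0x4001a000f0002000000008000000000000000000) (nat_lit 0x0) (nat_lit 0x14001a000000000000c00000000000000000000000000) := T_46 (nat_lit 107) (nat_lit 106) (nat_lit 0) (nat_lit 8) (nat_lit 7) L127367 (by decide +kernel)
theorem L127369 : W_46 (nat_lit 5) (nat_lit 0x4001a000f0002000000000000000000000000000) (nat_lit 0x0) (nat_lit 0x14001a000000000000c00100008000000000000000000) := T_46 (nat_lit 75) (nat_lit 92) (nat_lit 7) (nat_lit 7) (nat_lit 4) L127368 (by decide +kernel)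
theorem L127370 : W_46 (nat_lit 6) (nat_lit 0x4001a000d0002000000000000000000000000000) (nat_lit 0x0) (nat_lit 0x14001a000000028000c00100008000000000000000000) := T_46 (nat_lit 125) (nat_lit 123) (nat_lit 3) (nat_lit 4) (nat_lit 7) L127369 (by decide +kernel)
theorem L127371 : W_46 (nat_lit 2) (nat_lit 0x4001a000d0002800000000000000000000000000) (nat_lit 0x0) (nat_lit 0x20000400020000000000000000000000) := D_46 (nat_lit 106) (nat_lit 125) (nat_lit 89) (nat_lit 0) (nat_lit 8) (nat_lit 7) (nat_lit 4) (nat_lit 5) (nat_lit 9) (by decide +kernel)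
theorem L127372 : W_46 (nat_lit 7) (nat_lit 0x4001a000d0002000000000000000000000000000) (nat_lit 0x0) (nat_lit 0x14001a000000020000c003e001c000000000000000000) := Q_46 (nat_lit 107) (C_46 L127371 (C_46 L127306 (C_46 L125220 N_46))) (by decide +kernel)
theorem L127373 : W_46 (nat_lit 8) (nat_lit 0x4001a000d0002000000000000000000000000000) (nat_lit 0x0) (nat_lit 0xe8007c001b800000000000800100008000000000000000000) := Q_46 (nat_lit 176) (C_46 L127314 (C_46 L127327 (C_46 L127326 N_46))) (by decide +kernel)
theorem L127374 : W_46 (nat_lit 10) (nat_lit 0x1a000d0002000000000000000000000000000) (nat_lit 0x0) (nat_lit 0xe8007c001f800000028000c003e001d000000000000000000) := Q_46 (nat_lit 158) (C_46 L127351 (C_46 L127359 (C_46 L127343 (C_46 L127361 (C_46 L127365 (C_46 L127370 (C_46 L127372 (C_46 L127373 N_46)))))))) (by decide +kernel)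
theorem L127375 : W_46 (nat_lit 2) (nat_lit 0x4000000010001a000d00028003c0000000000000000000000) (nat_lit 0x0) (nat_lit 0x20003000000000000000000) := D_46 (nat_lit 72) (nat_lit 73) (nat_lit 89) (nat_lit 0) (nat_lit 8) (nat_lit 5) (nat_lit 4) (nat_lit 5) (nat_lit 8) (by decide +kernel)
theorem L127376 : W_46 (nat_lit 3) (nat_lit 0x4000000010001a000d0002800380000000000000000000000) (nat_lit 0x0) (nat_lit 0x400060003000000000000000000) := T_46 (nat_lit 90) (nat_lit 106) (nat_lit 1) (nat_lit 8) (nat_lit 5) L127375 (by decide +kernel)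
theorem L127377 : W_46 (nat_lit 4) (nat_lit 0x4000000010001a000d0002800300000000000000000000000) (nat_lit 0x0) (nat_lit 0x4000e0007000000000000000000) := T_46 (nat_lit 91) (nat_lit 74) (nat_lit 4) (nat_lit 7) (nat_lit 8) L127376 (by decide +kernel)
theorem L127378 : W_46 (nat_lit 5) (nat_lit 0x4000000010001a000d0002800100000000000000000000000) (nat_lit 0x0) (nat_lit 0x4002e0017000000000000000000) := T_46 (nat_lit 93) (nat_lit 76) (nat_lit 6) (nat_lit 7) (nat_lit 8) L127377 (by decide +kernel)
theorem L127379 : W_46 (nat_lit 6) (nat_lit 0x4000000010001a000d0002800000000000000000000000000) (nat_lit 0x0) (nat_lit 0x4003e001f000000000000000000) := T_46 (nat_lit 92) (nat_lit 75) (nat_lit 7) (nat_lit 7) (nat_lit 4) L127378 (by decide +kernel)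
theorem L127380 : W_46 (nat_lit 7) (nat_lit 0x10001a000d0002800000000000000000000000000) (nat_lit 0x0) (nat_lit 0x40002000000000000000004003e001f000000000000000000) := T_46 (nat_lit 194) (nat_lit 177) (nat_lit 6) (nat_lit 7) (nat_lit 11) L127379 (by decide +kernel)
theorem L127381 : W_46 (nat_lit 2) (nat_lit 0x4000000010001b000d000280006000c000000000000000000) (nat_lit 0x0) (nat_lit 0x12000200000000000000) := D_46 (nat_lit 73) (nat_lit 57) (nat_lit 76) (nat_lit 6) (nat_lit 5) (nat_lit 7) (nat_lit 1) (nat_lit 8) (nat_lit 4) (by decide +kernel)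
theorem L127382 : W_46 (nat_lit 3) (nat_lit 0x4000000010001b000d0002800060008000000000000000000) (nat_lit 0x0) (nat_lit 0x80016000200000000000000) := T_46 (nat_lit 74) (nat_lit 91) (nat_lit 6) (nat_lit 5) (nat_lit 8) L127381 (by decide +kernel)
theorem L127383 : W_46 (nat_lit 4) (nat_lit 0x4000000010001b000d0002800040008000000000000000000) (nat_lit 0x0) (nat_lit 0xa0017000200000000000000) := T_46 (nat_lit 89) (nat_lit 72) (nat_lit 4) (nat_lit 5) (nat_lit 8) L127382 (by decide +kernel)
theorem L127384 : W_46 (nat_lit 5) (nat_lit 0x4000000010001b000d0002800000008000000000000000000) (nat_lit 0x0) (nat_lit 0x20000000000000000e0017000200000000000000) := T_46 (nat_lit 90) (nat_lit 157) (nat_lit 5) (nat_lit 5) (nat_lit 5) L127383 (by decide +kernel)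
theorem L127385 : W_46 (nat_lit 6) (nat_lit 0x10001b000d0002800000008000000000000000000) (nat_lit 0x0) (nat_lit 0x40002000020000000000000000e0017000200000000000000) := T_46 (nat_lit 194) (nat_lit 177) (nat_lit 6) (nat_lit 7) (nat_lit 11) L127384 (by decide +kernel)
theorem L127386 : W_46 (nat_lit 7) (nat_lit 0x10001a000d0002800000008000000000000000000) (nat_lit 0x0) (nat_lit 0x40002000020001000200000000e0017000200000000000000) := T_46 (nat_lit 140) (nat_lit 125) (nat_lit 1) (nat_lit 8) (nat_lit 7) L127385 (by decide +kernel)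
theorem L127387 : W_46 (nat_lit 8) (nat_lit 0x10001a000d0002800000000000000000000000000) (nat_lit 0x0) (nat_lit 0x40002000020001000200000001e001f000200000000000000) := T_46 (nat_lit 75) (nat_lit 92) (nat_lit 7) (nat_lit 7) (nat_lit 4) L127386 (by decide +kernel)
theorem L127388 : W_46 (nat_lit 9) (nat_lit 0x10001a000d0002000000000000000000000000000) (nat_lit 0x0) (nat_lit 0x4000200002000100020000c003e001f000200000000000000) := Q_46 (nat_lit 107) (C_46 L125538 (C_46 L127380 (C_46 L127387 N_46))) (by decide +kernel)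
theorem L127389 : W_46 (nat_lit 2) (nat_lit 0x100010001a000f0002000000000000000000000000000) (nat_lit 0x0) (nat_lit 0x6000200000000000000000000000000000000000000000000) := D_46 (nat_lit 177) (nat_lit 194) (nat_lit 193) (nat_lit 6) (nat_lit 7) (nat_lit 11) (nat_lit 5) (nat_lit 7) (nat_lit 7) (by decide +kernel)
theorem L127390 : W_46 (nat_lit 3) (nat_lit 0x10001a000f0002000000000000000000000000000) (nat_lit 0x0) (nat_lit 0x6000300008000000000000000000000000000000000000000) := T_46 (nat_lit 176) (nat_lit 159) (nat_lit 5) (nat_lit 7) (nat_lit 6) L127389 (by decide +kernel)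
theorem L127391 : W_46 (nat_lit 4) (nat_lit 0x10001a000d0002000000000000000000000000000) (nat_lit 0x0) (nat_lit 0x6000300008000100020000000000000000000000000000000) := T_46 (nat_lit 125) (nat_lit 140) (nat_lit 1) (nat_lit 8) (nat_lit 7) L127390 (by decide +kernel)
theorem L127392 : W_46 (nat_lit 2) (nat_lit 0x200010001a000d0002000000000000000000000000000) (nat_lit 0x0) (nat_lit 0x2000100008000000000000000000000000000000000000000) := D_46 (nat_lit 176) (nat_lit 159) (nat_lit 193) (nat_lit 5) (nat_lit 7) (nat_lit 6) (nat_lit 5) (nat_lit 7) (nat_lit 7) (by decide +kernel)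
theorem L127393 : W_46 (nat_lit 3) (nat_lit 0x10001a000d0002000000000000000000000000000) (nat_lit 0x0) (nat_lit 0x6000300008000000000000000000000000000000000000000) := T_46 (nat_lit 177) (nat_lit 194) (nat_lit 6) (nat_lit 7) (nat_lit 11) L127392 (by decide +kernel)
theorem L127394 : W_46 (nat_lit 2) (nat_lit 0x1a001a000d000280006000c000000000000000000) (nat_lit 0x0) (nat_lit 0x12000200000000000000) := D_46 (nat_lit 73) (nat_lit 57) (nat_lit 76) (nat_lit 6) (nat_lit 5) (nat_lit 7) (nat_lit 1) (nat_lit 8) (nat_lit 4) (by decide +kernel)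
theorem L127395 : W_46 (nat_lit 3) (nat_lit 0x1a001a000d0002800060008000000000000000000) (nat_lit 0x0) (nat_lit 0x80016000200000000000000) := T_46 (nat_lit 74) (nat_lit 91) (nat_lit 6) (nat_lit 5) (nat_lit 8) L127394 (by decide +kernel)
theorem L127396 : W_46 (nat_lit 4) (nat_lit 0x1a001a000d0002800040008000000000000000000) (nat_lit 0x0) (nat_lit 0xa0017000200000000000000) := T_46 (nat_lit 89) (nat_lit 72) (nat_lit 4) (nat_lit 5) (nat_lit 8) L127395 (by decide +kernel)
theorem L127397 : W_46 (nat_lit 5) (nat_lit 0x1a001a000d0002800000008000000000000000000) (nat_lit 0x0) (nat_lit 0x1000000000000e0017000200000000000000) := T_46 (nat_lit 90) (nat_lit 140) (nat_lit 5) (nat_lit 5) (nat_lit 5) L127396 (by decide +kernel)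
theorem L127398 : W_46 (nat_lit 6) (nat_lit 0x18001a000d0002800000008000000000000000000) (nat_lit 0x0) (nat_lit 0x60001000000000000e0017000200000000000000) := T_46 (nat_lit 157) (nat_lit 158) (nat_lit 2) (nat_lit 4) (nat_lit 9) L127397 (by decide +kernel)
theorem L127399 : W_46 (nat_lit 7) (nat_lit 0x10001a000d0002800000008000000000000000000) (nat_lit 0x0) (nat_lit 0x10000e0001000000000000e0017000200000000000000) := T_46 (nat_lit 159) (nat_lit 176) (nat_lit 5) (nat_lit 7) (nat_lit 6) L127398 (by decide +kernel)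
theorem L127400 : W_46 (nat_lit 8) (nat_lit 0x10001a000d0002800000000000000000000000000) (nat_lit 0x0) (nat_lit 0x10000e0001000000000001e001f000200000000000000) := T_46 (nat_lit 75) (nat_lit 92) (nat_lit 7) (nat_lit 7) (nat_lit 4) L127399 (by decide +kernel)
theorem L127401 : W_46 (nat_lit 9) (nat_lit 0x10001a000d0002000000000000000000000000000) (nat_lit 0x0) (nat_lit 0x10000e000100020000c001e001f000200000000000000) := Q_46 (nat_lit 107) (C_46 L125538 (C_46 L125548 (C_46 L127400 N_46))) (by decide +kernel)
theorem L127402 : W_46 (nat_lit 10) (nat_lit 0x1a000d0002000000000000000000000000000) (nat_lit 0x0) (nat_lit 0x600030001e000100020000c003e001f000200000000000000) := Q_46 (nat_lit 160) (C_46 L127388 (C_46 L127391 (C_46 L127393 (C_46 L127401 N_46)))) (by decide +kernel)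
theorem L127403 : W_46 (nat_lit 14) (nat_lit 0x1a000c0002000000000000000000000000000) (nat_lit 0x0) (nat_lit 0x4000e0007000f8007c001f800100038000c003e001f000380004000000000) := Q_46 (nat_lit 124) (C_46 L125448 (C_46 L127344 (C_46 L127374 (C_46 L127402 N_46)))) (by decide +kernel)
theorem L127404 : W_46 (nat_lit 2) (nat_lit 0x1a000d0002000000000000000000000000000) (nat_lit 0x0) (nat_lit 0x500008000000000000000000000000000000) := D_46 (nat_lit 142) (nat_lit 140) (nat_lit 123) (nat_lit 2) (nat_lit 4) (nat_lit 8) (nat_lit 0) (nat_lit 8) (nat_lit 8) (by decide +kernel)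
theorem L127405 : W_46 (nat_lit 2) (nat_lit 0x1a000d0002000000000000000000000000000) (nat_lit 0x0) (nat_lit 0x400028000000000000000000000000000000) := D_46 (nat_lit 123) (nat_lit 125) (nat_lit 142) (nat_lit 3) (nat_lit 4) (nat_lit 7) (nat_lit 0) (nat_lit 8) (nat_lit 8) (by decide +kernel)
theorem L127406 : W_46 (nat_lit 2) (nat_lit 0x1a000d0002000000000000000000000000000) (nat_lit 0x0) (nat_lit 0x500020000000000000000000000000000000) := D_46 (nat_lit 140) (nat_lit 125) (nat_lit 142) (nat_lit 1) (nat_lit 8) (nat_lit 7) (nat_lit 2) (nat_lit 4) (nat_lit 8) (by decide +kernel)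
theorem L127407 : W_46 (nat_lit 3) (nat_lit 0x1a000c0002000000000000000000000000000) (nat_lit 0x0) (nat_lit 0x500038000000000000000000000000000000) := Q_46 (nat_lit 124) (C_46 L125448 (C_46 L127404 (C_46 L127405 (C_46 L127406 N_46)))) (by decide +kernel)
theorem L127408 : W_46 (nat_lit 2) (nat_lit 0x1a000c0002000100000000000000000000000) (nat_lit 0x0) (nat_lit 0x8000500000000000000000000000000000000000) := D_46 (nat_lit 142) (nat_lit 140) (nat_lit 159) (nat_lit 2) (nat_lit 4) (nat_lit 8) (nat_lit 5) (nat_lit 7) (nat_lit 5) (by decide +kernel)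
theorem L127409 : W_46 (nat_lit 3) (nat_lit 0x1a000c0002000000000000000000000000000) (nat_lit 0x0) (nat_lit 0x8000500000000000100008000000000000000000) := T_46 (nat_lit 92) (nat_lit 75) (nat_lit 7) (nat_lit 7) (nat_lit 4) L127408 (by decide +kernel)
theorem L127410 : W_46 (nat_lit 2) (nat_lit 0x1a000d0002000100000000000000000000000) (nat_lit 0x0) (nat_lit 0x8000400008000000000000000000000000000000) := D_46 (nat_lit 142) (nat_lit 123) (nat_lit 159) (nat_lit 0) (nat_lit 8) (nat_lit 8) (nat_lit 5) (nat_lit 7) (nat_lit 5) (by decide +kernel)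
theorem L127411 : W_46 (nat_lit 3) (nat_lit 0x1a000d0002000000000000000000000000000) (nat_lit 0x0) (nat_lit 0x8000400008000000100008000000000000000000) := T_46 (nat_lit 92) (nat_lit 75) (nat_lit 7) (nat_lit 7) (nat_lit 4) L127410 (by decide +kernel)
theorem L127412 : W_46 (nat_lit 2) (nat_lit 0x100008001a000d0002800380000000000000000000000) (nat_lit 0x0) (nat_lit 0x20000400040000000000000000000000) := D_46 (nat_lit 106) (nat_lit 90) (nat_lit 125) (nat_lit 1) (nat_lit 8) (nat_lit 5) (nat_lit 0) (nat_lit 8) (nat_lit 7) (by decide +kernel)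
theorem L127413 : W_46 (nat_lit 3) (nat_lit 0x100008001a000d0002000380000000000000000000000) (nat_lit 0x0) (nat_lit 0x4000000020000c00040000000000000000000000) := T_46 (nat_lit 107) (nat_lit 158) (nat_lit 7) (nat_lit 5) (nat_lit 6) L127412 (by decide +kernel)
theorem L127414 : W_46 (nat_lit 4) (nat_lit 0x8001a000d0002000380000000000000000000000) (nat_lit 0x0) (nat_lit 0x100014000000020000c00040000000000000000000000) := T_46 (nat_lit 176) (nat_lit 160) (nat_lit 5) (nat_lit 7) (nat_lit 6) L127413 (by decide +kernel)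
theorem L127415 : W_46 (nat_lit 5) (nat_lit 0x8001a000d0002000300000000000000000000000) (nat_lit 0x0) (nat_lit 0x100014000000020000c000c0004000000000000000000) := T_46 (nat_lit 91) (nat_lit 74) (nat_lit 4) (nat_lit 7) (nat_lit 8) L127414 (by decide +kernel)
theorem L127416 : W_46 (nat_lit 6) (nat_lit 0x1a000d0002000300000000000000000000000) (nat_lit 0x0) (nat_lit 0x10001c000400020000c000c0004000000000000000000) := T_46 (nat_lit 159) (nat_lit 142) (nat_lit 5) (nat_lit 7) (nat_lit 5) L127415 (by decide +kernel)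
theorem L127417 : W_46 (nat_lit 7) (nat_lit 0x1a000d0002000100000000000000000000000) (nat_lit 0x0) (nat_lit 0x10001c000400020000c002c0014000000000000000000) := T_46 (nat_lit 93) (nat_lit 76) (nat_lit 6) (nat_lit 7) (nat_lit 8) L127416 (by decide +kernel)
theorem L127418 : W_46 (nat_lit 8) (nat_lit 0x1a000d0002000000000000000000000000000) (nat_lit 0x0) (nat_lit 0x10001c000400020000c003c001c000000000000000000) := T_46 (nat_lit 92) (nat_lit 75) (nat_lit 7) (nat_lit 7) (nat_lit 4) L127417 (by decide +kernel)
theorem L127419 : W_46 (nat_lit 11) (nat_lit 0x1a000c0002000000000000000000000000000) (nat_lit 0x0) (nat_lit 0xe8007c001f800400038000c003e001d000000000000000000) := Q_46 (nat_lit 124) (C_46 L127405 (C_46 L127411 (C_46 L127374 (C_46 L127418 N_46)))) (by decide +kernel)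
theorem L127420 : W_46 (nat_lit 15) (nat_lit 0x18000c0002000000000000000000000000000) (nat_lit 0x0) (nat_lit 0x4000e0007000f8007c001f800700038000c003e001f000380004000000000) := Q_46 (nat_lit 141) (C_46 L127403 (C_46 L127407 (C_46 L127409 (C_46 L127419 N_46)))) (by decide +kernel)
theorem L127421 : W_46 (nat_lit 2) (nat_lit 0x1000100018000c0002000380000000000000000000000) (nat_lit 0x0) (nat_lit 0x6000200000000000000000000000000000000000000000000) := D_46 (nat_lit 177) (nat_lit 194) (nat_lit 193) (nat_lit 6) (nat_lit 7) (nat_lit 11) (nat_lit 5) (nat_lit 7) (nat_lit 7) (by decide +kernel)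
theorem L127422 : W_46 (nat_lit 3) (nat_lit 0x100018000c0002000380000000000000000000000) (nat_lit 0x0) (nat_lit 0x6000300008000000000000000000000000000000000000000) := T_46 (nat_lit 176) (nat_lit 159) (nat_lit 5) (nat_lit 7) (nat_lit 6) L127421 (by decide +kernel)
theorem L127423 : W_46 (nat_lit 4) (nat_lit 0x18000c0002000380000000000000000000000) (nat_lit 0x0) (nat_lit 0x6000300018000000000001000000000000000000000000000) := T_46 (nat_lit 160) (nat_lit 108) (nat_lit 4) (nat_lit 7) (nat_lit 9) L127422 (by decide +kernel)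
theorem L127424 : W_46 (nat_lit 5) (nat_lit 0x18000c0002000300000000000000000000000) (nat_lit 0x0) (nat_lit 0x6000300018000000000001000080004000000000000000000) := T_46 (nat_lit 91) (nat_lit 74) (nat_lit 4) (nat_lit 7) (nat_lit 8) L127423 (by decide +kernel)
theorem L127425 : W_46 (nat_lit 6) (nat_lit 0x18000c0002000100000000000000000000000) (nat_lit 0x0) (nat_lit 0x6000300018000000000001000280014000000000000000000) := T_46 (nat_lit 93) (nat_lit 76) (nat_lit 6) (nat_lit 7) (nat_lit 8) L127424 (by decide +kernel)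
theorem L127426 : W_46 (nat_lit 7) (nat_lit 0x18000c0002000000000000000000000000000) (nat_lit 0x0) (nat_lit 0x600030001800000000000100038001c000000000000000000) := T_46 (nat_lit 92) (nat_lit 75) (nat_lit 7) (nat_lit 7) (nat_lit 4) L127425 (by decide +kernel)
theorem L127427 : W_46 (nat_lit 2) (nat_lit 0x18000c0003000380000000000000000000000) (nat_lit 0x0) (nat_lit 0xc00400000000000000000000000) := D_46 (nat_lit 107) (nat_lit 106) (nat_lit 94) (nat_lit 3) (nat_lit 4) (nat_lit 6) (nat_lit 1) (nat_lit 9) (nat_lit 5) (by decide +kernel)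
theorem L127428 : W_46 (nat_lit 3) (nat_lit 0x18000c0002000380000000000000000000000) (nat_lit 0x0) (nat_lit 0x10000000000001c00400000000000000000000000) := T_46 (nat_lit 108) (nat_lit 160) (nat_lit 4) (nat_lit 7) (nat_lit 9) L127427 (by decide +kernel)
theorem L127429 : W_46 (nat_lit 4) (nat_lit 0x18000c0002000300000000000000000000000) (nat_lit 0x0) (nat_lit 0x10000000000001c00480004000000000000000000) := T_46 (nat_lit 91) (nat_lit 74) (nat_lit 4) (nat_lit 7) (nat_lit 8) L127428 (by decide +kernel)
theorem L127430 : W_46 (nat_lit 5) (nat_lit 0x18000c0002000100000000000000000000000) (nat_lit 0x0) (nat_lit 0x10000000000001c00680014000000000000000000) := T_46 (nat_lit 93) (nat_lit 76) (nat_lit 6) (nat_lit 7) (nat_lit 8) L127429 (by decide +kernel)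
theorem L127431 : W_46 (nat_lit 6) (nat_lit 0x18000c0002000000000000000000000000000) (nat_lit 0x0) (nat_lit 0x10000000000001c0078001c000000000000000000) := T_46 (nat_lit 92) (nat_lit 75) (nat_lit 7) (nat_lit 7) (nat_lit 4) L127430 (by decide +kernel)
theorem L127432 : W_46 (nat_lit 2) (nat_lit 0x1e000d0003000180000000000000000000000) (nat_lit 0x0) (nat_lit 0x6000000020000000000000000000000000000000) := D_46 (nat_lit 158) (nat_lit 157) (nat_lit 125) (nat_lit 1) (nat_lit 8) (nat_lit 8) (nat_lit 5) (nat_lit 6) (nat_lit 5) (by decide +kernel)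
theorem L127433 : W_46 (nat_lit 3) (nat_lit 0x1e000d0002000180000000000000000000000) (nat_lit 0x0) (nat_lit 0x16000000020001000000000000000000000000000) := T_46 (nat_lit 108) (nat_lit 160) (nat_lit 4) (nat_lit 7) (nat_lit 9) L127432 (by decide +kernel)
theorem L127434 : W_46 (nat_lit 4) (nat_lit 0x1e000c0002000180000000000000000000000) (nat_lit 0x0) (nat_lit 0x16000000038001000000000000000000000000000) := T_46 (nat_lit 124) (nat_lit 123) (nat_lit 0) (nat_lit 8) (nat_lit 8) L127433 (by decide +kernel)
theorem L127435 : W_46 (nat_lit 5) (nat_lit 0x1e000c0002000100000000000000000000000) (nat_lit 0x0) (nat_lit 0x16000000038001000080004000000000000000000) := T_46 (nat_lit 91) (nat_lit 74) (nat_lit 4) (nat_lit 7) (nat_lit 8) L127434 (by decide +kernel)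
theorem L127436 : W_46 (nat_lit 6) (nat_lit 0x1c000c0002000100000000000000000000000) (nat_lit 0x0) (nat_lit 0x16000300038001000080004000000000000000000) := T_46 (nat_lit 141) (nat_lit 140) (nat_lit 2) (nat_lit 4) (nat_lit 8) L127435 (by decide +kernel)
theorem L127437 : W_46 (nat_lit 7) (nat_lit 0x18000c0002000100000000000000000000000) (nat_lit 0x0) (nat_lit 0x1e000700038001000080004000000000000000000) := T_46 (nat_lit 142) (nat_lit 159) (nat_lit 5) (nat_lit 7) (nat_lit 5) L127436 (by decide +kernel)
theorem L127438 : W_46 (nat_lit 8) (nat_lit 0x18000c0002000000000000000000000000000) (nat_lit 0x0) (nat_lit 0x1e00070003800100018000c000000000000000000) := T_46 (nat_lit 92) (nat_lit 75) (nat_lit 7) (nat_lit 7) (nat_lit 4) L127437 (by decide +kernel)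
theorem L127439 : W_46 (nat_lit 3) (nat_lit 0x100018000c0002000000000000000000000000000) (nat_lit 0x0) (nat_lit 0x4000200000000000020001000080000000000000000000000) := T_46 (nat_lit 108) (nat_lit 91) (nat_lit 4) (nat_lit 7) (nat_lit 9) L125560 (by decide +kernel)
theorem L127440 : W_46 (nat_lit 2) (nat_lit 0x1c0018000f0003400000000000000000000000000) (nat_lit 0x0) (nat_lit 0x80000000300000000000000000000000000000000000) := D_46 (nat_lit 141) (nat_lit 140) (nat_lit 175) (nat_lit 1) (nat_lit 8) (nat_lit 7) (nat_lit 6) (nat_lit 5) (nat_lit 10) (by decide +kernel)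
theorem L127441 : W_46 (nat_lit 3) (nat_lit 0x180018000f0003400000000000000000000000000) (nat_lit 0x0) (nat_lit 0x80006000300000000000000000000000000000000000) := T_46 (nat_lit 158) (nat_lit 157) (nat_lit 2) (nat_lit 4) (nat_lit 9) L127440 (by decide +kernel)
theorem L127442 : W_46 (nat_lit 4) (nat_lit 0x100018000f0003400000000000000000000000000) (nat_lit 0x0) (nat_lit 0x18000e000300000000000000000000000000000000000) := T_46 (nat_lit 159) (nat_lit 176) (nat_lit 5) (nat_lit 7) (nat_lit 6) L127441 (by decide +kernel)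
theorem L127443 : W_46 (nat_lit 5) (nat_lit 0x100018000e0003400000000000000000000000000) (nat_lit 0x0) (nat_lit 0x18000e000300018000000000000000000000000000000) := T_46 (nat_lit 124) (nat_lit 123) (nat_lit 3) (nat_lit 4) (nat_lit 7) L127442 (by decide +kernel)
theorem L127444 : W_46 (nat_lit 6) (nat_lit 0x100018000e0003000000000000000000000000000) (nat_lit 0x0) (nat_lit 0x18000e000300018000c00000000000000000000000000) := T_46 (nat_lit 106) (nat_lit 107) (nat_lit 3) (nat_lit 4) (nat_lit 6) L127443 (by decide +kernel)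
theorem L127445 : W_46 (nat_lit 7) (nat_lit 0x100018000e0002000000000000000000000000000) (nat_lit 0x0) (nat_lit 0x18000e000300018001c00080000000000000000000000) := T_46 (nat_lit 108) (nat_lit 91) (nat_lit 4) (nat_lit 7) (nat_lit 9) L127444 (by decide +kernel)
theorem L127446 : W_46 (nat_lit 2) (nat_lit 0x14001a000f0003800000000000000000000000000) (nat_lit 0x0) (nat_lit 0x40002000400000000000000000000000000000000000) := D_46 (nat_lit 157) (nat_lit 174) (nat_lit 142) (nat_lit 5) (nat_lit 5) (nat_lit 6) (nat_lit 1) (nat_lit 8) (nat_lit 8) (by decide +kernel)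
theorem L127447 : W_46 (nat_lit 3) (nat_lit 0x10001a000f0003800000000000000000000000000) (nat_lit 0x0) (nat_lit 0xc0006000400000000000000000000000000000000000) := T_46 (nat_lit 158) (nat_lit 175) (nat_lit 6) (nat_lit 5) (nat_lit 10) L127446 (by decide +kernel)
theorem L127448 : W_46 (nat_lit 4) (nat_lit 0x100018000f0003800000000000000000000000000) (nat_lit 0x0) (nat_lit 0xc0006000700000000000000000000000000000000000) := T_46 (nat_lit 141) (nat_lit 140) (nat_lit 1) (nat_lit 8) (nat_lit 7) L127447 (by decide +kernel)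
theorem L127449 : W_46 (nat_lit 5) (nat_lit 0x100018000e0003800000000000000000000000000) (nat_lit 0x0) (nat_lit 0xc0006000700018000000000000000000000000000000) := T_46 (nat_lit 124) (nat_lit 123) (nat_lit 3) (nat_lit 4) (nat_lit 7) L127448 (by decide +kernel)
theorem L127450 : W_46 (nat_lit 6) (nat_lit 0x100018000e0003000000000000000000000000000) (nat_lit 0x0) (nat_lit 0xc0006000700018000c00000000000000000000000000) := T_46 (nat_lit 107) (nat_lit 106) (nat_lit 3) (nat_lit 4) (nat_lit 6) L127449 (by decide +kernel)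
theorem L127451 : W_46 (nat_lit 7) (nat_lit 0x100018000e0002000000000000000000000000000) (nat_lit 0x0) (nat_lit 0xc0006000700018001c00080000000000000000000000) := T_46 (nat_lit 108) (nat_lit 91) (nat_lit 4) (nat_lit 7) (nat_lit 9) L127450 (by decide +kernel)
theorem L127452 : W_46 (nat_lit 2) (nat_lit 0x1c0018000e0003800000000000000000000000000) (nat_lit 0x0) (nat_lit 0x80000000400000000000040000000000000000000000) := D_46 (nat_lit 142) (nat_lit 175) (nat_lit 90) (nat_lit 5) (nat_lit 6) (nat_lit 6) (nat_lit 4) (nat_lit 6) (nat_lit 9) (by decide +kernel)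
theorem L127453 : W_46 (nat_lit 3) (nat_lit 0x1c0018000e0003000000000000000000000000000) (nat_lit 0x0) (nat_lit 0x80000000400000000c00040000000000000000000000) := T_46 (nat_lit 107) (nat_lit 106) (nat_lit 3) (nat_lit 4) (nat_lit 6) L127452 (by decide +kernel)
theorem L127454 : W_46 (nat_lit 4) (nat_lit 0x1c0018000e0002000000000000000000000000000) (nat_lit 0x0) (nat_lit 0x80000000400000001c000c0000000000000000000000) := T_46 (nat_lit 108) (nat_lit 91) (nat_lit 4) (nat_lit 7) (nat_lit 9) L127453 (by decide +kernel)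
theorem L127455 : W_46 (nat_lit 5) (nat_lit 0x180018000e0002000000000000000000000000000) (nat_lit 0x0) (nat_lit 0x80006000400000001c000c0000000000000000000000) := T_46 (nat_lit 158) (nat_lit 157) (nat_lit 2) (nat_lit 4) (nat_lit 9) L127454 (by decide +kernel)
theorem L127456 : W_46 (nat_lit 6) (nat_lit 0x100018000e0002000000000000000000000000000) (nat_lit 0x0) (nat_lit 0x18000e000400000001c000c0000000000000000000000) := T_46 (nat_lit 159) (nat_lit 176) (nat_lit 5) (nat_lit 7) (nat_lit 6) L127455 (by decide +kernel)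
theorem L127457 : W_46 (nat_lit 2) (nat_lit 0x1a001a000f0002800040005000000000000000000) (nat_lit 0x0) (nat_lit 0x2000280000000000000) := D_46 (nat_lit 73) (nat_lit 57) (nat_lit 55) (nat_lit 6) (nat_lit 5) (nat_lit 7) (nat_lit 4) (nat_lit 5) (nat_lit 7) (by decide +kernel)
theorem L127458 : W_46 (nat_lit 3) (nat_lit 0x1a001a000f0002800040004000000000000000000) (nat_lit 0x0) (nat_lit 0x20003000280000000000000) := T_46 (nat_lit 72) (nat_lit 89) (nat_lit 4) (nat_lit 5) (nat_lit 8) L127457 (by decide +kernel)
theorem L127459 : W_46 (nat_lit 4) (nat_lit 0x1a001a000f0002800040000000000000000000000) (nat_lit 0x0) (nat_lit 0xa0007000280000000000000) := T_46 (nat_lit 74) (nat_lit 91) (nat_lit 6) (nat_lit 5) (nat_lit 8) L127458 (by decide +kernel)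
theorem L127460 : W_46 (nat_lit 5) (nat_lit 0x1a001a000f0002800000000000000000000000000) (nat_lit 0x0) (nat_lit 0x4000000000000e0007000280000000000000) := T_46 (nat_lit 90) (nat_lit 142) (nat_lit 7) (nat_lit 5) (nat_lit 5) L127459 (by decide +kernel)
theorem L127461 : W_46 (nat_lit 6) (nat_lit 0x1a0018000f0002800000000000000000000000000) (nat_lit 0x0) (nat_lit 0x7000000000000e0007000280000000000000) := T_46 (nat_lit 141) (nat_lit 140) (nat_lit 1) (nat_lit 8) (nat_lit 7) L127460 (by decide +kernel)
theorem L127462 : W_46 (nat_lit 7) (nat_lit 0x1a0018000f0002000000000000000000000000000) (nat_lit 0x0) (nat_lit 0x700000000c000e0007000280000000000000) := T_46 (nat_lit 107) (nat_lit 106) (nat_lit 0) (nat_lit 8) (nat_lit 7) L127461 (by decide +kernel)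
theorem L127463 : W_46 (nat_lit 8) (nat_lit 0x180018000f0002000000000000000000000000000) (nat_lit 0x0) (nat_lit 0x6000700000000c000e0007000280000000000000) := T_46 (nat_lit 157) (nat_lit 158) (nat_lit 2) (nat_lit 4) (nat_lit 9) L127462 (by decide +kernel)
theorem L127464 : W_46 (nat_lit 9) (nat_lit 0x100018000f0002000000000000000000000000000) (nat_lit 0x0) (nat_lit 0x10000e000700000000c000e0007000280000000000000) := T_46 (nat_lit 159) (nat_lit 176) (nat_lit 5) (nat_lit 7) (nat_lit 6) L127463 (by decide +kernel)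
theorem L127465 : W_46 (nat_lit 10) (nat_lit 0x100018000e0002000000000000000000000000000) (nat_lit 0x0) (nat_lit 0x10000e000700018000c000e0007000280000000000000) := T_46 (nat_lit 124) (nat_lit 123) (nat_lit 3) (nat_lit 4) (nat_lit 7) L127464 (by decide +kernel)
theorem L127466 : W_46 (nat_lit 2) (nat_lit 0x1a001a000f0002800040003000200000000000000) (nat_lit 0x0) (nat_lit 0x1000000000000100010000000000) := D_46 (nat_lit 56) (nat_lit 108) (nat_lit 40) (nat_lit 7) (nat_lit 5) (nat_lit 3) (nat_lit 6) (nat_lit 5) (nat_lit 6) (by decide +kernel)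
theorem L127467 : W_46 (nat_lit 3) (nat_lit 0x1a001a000f0002800040003000000000000000000) (nat_lit 0x0) (nat_lit 0x1000000004000300010000000000) := T_46 (nat_lit 57) (nat_lit 74) (nat_lit 6) (nat_lit 5) (nat_lit 7) L127466 (by decide +kernel)
theorem L127468 : W_46 (nat_lit 4) (nat_lit 0x1a001a000f0002800040001000000000000000000) (nat_lit 0x0) (nat_lit 0x1000000006000380010000000000) := T_46 (nat_lit 73) (nat_lit 55) (nat_lit 4) (nat_lit 5) (nat_lit 7) L127467 (by decide +kernel)
theorem L127469 : W_46 (nat_lit 5) (nat_lit 0x1a001a000f0002800040000000000000000000000) (nat_lit 0x0) (nat_lit 0x1000020007000380010000000000) := T_46 (nat_lit 72) (nat_lit 89) (nat_lit 4) (nat_lit 5) (nat_lit 8) L127468 (by decide +kernel)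
theorem L127470 : W_46 (nat_lit 6) (nat_lit 0x1a001a000f0002800000000000000000000000000) (nat_lit 0x0) (nat_lit 0x400000001000060007000380010000000000) := T_46 (nat_lit 90) (nat_lit 142) (nat_lit 7) (nat_lit 5) (nat_lit 5) L127469 (by decide +kernel)
theorem L127471 : W_46 (nat_lit 7) (nat_lit 0x1a001a000f0002000000000000000000000000000) (nat_lit 0x0) (nat_lit 0x400000001c00060007000380010000000000) := T_46 (nat_lit 107) (nat_lit 106) (nat_lit 0) (nat_lit 8) (nat_lit 7) L127470 (by decide +kernel)
theorem L127472 : W_46 (nat_lit 8) (nat_lit 0x1a0018000f0002000000000000000000000000000) (nat_lit 0x0) (nat_lit 0x700000001c00060007000380010000000000) := T_46 (nat_lit 141) (nat_lit 140) (nat_lit 1) (nat_lit 8) (nat_lit 7) L127471 (by decide +kernel)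
theorem L127473 : W_46 (nat_lit 9) (nat_lit 0x1a0018000e0002000000000000000000000000000) (nat_lit 0x0) (nat_lit 0x700018001c00060007000380010000000000) := T_46 (nat_lit 124) (nat_lit 123) (nat_lit 3) (nat_lit 4) (nat_lit 7) L127472 (by decide +kernel)
theorem L127474 : W_46 (nat_lit 10) (nat_lit 0x180018000e0002000000000000000000000000000) (nat_lit 0x0) (nat_lit 0x6000700018001c00060007000380010000000000) := T_46 (nat_lit 157) (nat_lit 158) (nat_lit 2) (nat_lit 4) (nat_lit 9) L127473 (by decide +kernel)
theorem L127475 : W_46 (nat_lit 11) (nat_lit 0x100018000e0002000000000000000000000000000) (nat_lit 0x0) (nat_lit 0x10000e000700018001c00060007000380010000000000) := T_46 (nat_lit 159) (nat_lit 176) (nat_lit 5) (nat_lit 7) (nat_lit 6) L127474 (by decide +kernel)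
theorem L127476 : W_46 (nat_lit 5) (nat_lit 0x100018000f0002000000000000000000000000000) (nat_lit 0x0) (nat_lit 0x18000e000300000001000080000000000000000000000) := T_46 (nat_lit 108) (nat_lit 91) (nat_lit 4) (nat_lit 7) (nat_lit 9) L125676 (by decide +kernel)
theorem L127477 : W_46 (nat_lit 6) (nat_lit 0x100018000e0002000000000000000000000000000) (nat_lit 0x0) (nat_lit 0x18000e000300018001000080000000000000000000000) := T_46 (nat_lit 124) (nat_lit 123) (nat_lit 3) (nat_lit 4) (nat_lit 7) L127476 (by decide +kernel)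
theorem L127478 : W_46 (nat_lit 2) (nat_lit 0x18001a000f0003800040002000000000000000000) (nat_lit 0x0) (nat_lit 0x20001000080000000000000) := D_46 (nat_lit 72) (nat_lit 89) (nat_lit 55) (nat_lit 4) (nat_lit 5) (nat_lit 8) (nat_lit 4) (nat_lit 5) (nat_lit 7) (by decide +kernel)
theorem L127479 : W_46 (nat_lit 3) (nat_lit 0x18001a000f0003800040000000000000000000000) (nat_lit 0x0) (nat_lit 0x20003000180000000000000) := T_46 (nat_lit 73) (nat_lit 56) (nat_lit 7) (nat_lit 5) (nat_lit 3) L127478 (by decide +kernel)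
theorem L127480 : W_46 (nat_lit 4) (nat_lit 0x180018000f0003800040000000000000000000000) (nat_lit 0x0) (nat_lit 0x300000000000020003000180000000000000) := T_46 (nat_lit 141) (nat_lit 140) (nat_lit 1) (nat_lit 8) (nat_lit 7) L127479 (by decide +kernel)
theorem L127481 : W_46 (nat_lit 5) (nat_lit 0x180018000f0003800000000000000000000000000) (nat_lit 0x0) (nat_lit 0x700000000000060003000180000000000000) := T_46 (nat_lit 90) (nat_lit 142) (nat_lit 4) (nat_lit 6) (nat_lit 9) L127480 (by decide +kernel)
theorem L127482 : W_46 (nat_lit 6) (nat_lit 0x100018000f0003800000000000000000000000000) (nat_lit 0x0) (nat_lit 0x100008000700000000000060003000180000000000000) := T_46 (nat_lit 159) (nat_lit 176) (nat_lit 5) (nat_lit 7) (nat_lit 6) L127481 (by decide +kernel)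
theorem L127483 : W_46 (nat_lit 7) (nat_lit 0x100018000e0003800000000000000000000000000) (nat_lit 0x0) (nat_lit 0x100008000700018000000060003000180000000000000) := T_46 (nat_lit 124) (nat_lit 123) (nat_lit 3) (nat_lit 4) (nat_lit 7) L127482 (by decide +kernel)
theorem L127484 : W_46 (nat_lit 8) (nat_lit 0x100018000e0003000000000000000000000000000) (nat_lit 0x0) (nat_lit 0x100008000700018000c00060003000180000000000000) := T_46 (nat_lit 107) (nat_lit 106) (nat_lit 3) (nat_lit 4) (nat_lit 6) L127483 (by decide +kernel)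
theorem L127485 : W_46 (nat_lit 9) (nat_lit 0x100018000e0002000000000000000000000000000) (nat_lit 0x0) (nat_lit 0x100008000700018001c000e0003000180000000000000) := T_46 (nat_lit 108) (nat_lit 91) (nat_lit 4) (nat_lit 7) (nat_lit 9) L127484 (by decide +kernel)
theorem L127486 : W_46 (nat_lit 12) (nat_lit 0x100018000c0002000000000000000000000000000) (nat_lit 0x0) (nat_lit 0x1c000e000700038001c000e0007000380010000000000) := Q_46 (nat_lit 125) (C_46 L127445 (C_46 L127451 (C_46 L127456 (C_46 L127465 (C_46 L127475 (C_46 L127477 (C_46 L127485 N_46))))))) (by decide +kernel)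
theorem L127487 : W_46 (nat_lit 13) (nat_lit 0x18000c0002000000000000000000000000000) (nat_lit 0x0) (nat_lit 0x60003c001e000700038001c000e0007000380010000000000) := Q_46 (nat_lit 160) (C_46 L123133 (C_46 L127439 (C_46 L127486 N_46))) (by decide +kernel)
theorem L127488 : W_46 (nat_lit 2) (nat_lit 0x100018000e0002000000000000000000000000000) (nat_lit 0x0) (nat_lit 0x4000200000000000000001000000000000000000000000000) := D_46 (nat_lit 177) (nat_lit 108) (nat_lit 194) (nat_lit 4) (nat_lit 7) (nat_lit 10) (nat_lit 6) (nat_lit 7) (nat_lit 11) (by decide +kernel)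
theorem L127489 : W_46 (nat_lit 2) (nat_lit 0x2000100018000e0002000000008000000000000000000) (nat_lit 0x0) (nat_lit 0x2000100008000000000000000000000000000000000000000) := D_46 (nat_lit 176) (nat_lit 159) (nat_lit 193) (nat_lit 5) (nat_lit 7) (nat_lit 6) (nat_lit 5) (nat_lit 7) (nat_lit 7) (by decide +kernel)
theorem L127490 : W_46 (nat_lit 3) (nat_lit 0x100018000e0002000000008000000000000000000) (nat_lit 0x0) (nat_lit 0x6000300008000000000000000000000000000000000000000) := T_46 (nat_lit 177) (nat_lit 194) (nat_lit 6) (nat_lit 7) (nat_lit 11) L127489 (by decide +kernel)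
theorem L127491 : W_46 (nat_lit 4) (nat_lit 0x100018000e0002000000000000000000000000000) (nat_lit 0x0) (nat_lit 0x6000300008000000000000000100008000000000000000000) := T_46 (nat_lit 75) (nat_lit 92) (nat_lit 7) (nat_lit 7) (nat_lit 4) L127490 (by decide +kernel)
theorem L127492 : W_46 (nat_lit 2) (nat_lit 0x100018000e0002000000010000000000000000000) (nat_lit 0x0) (nat_lit 0x300008000000000000000000) := D_46 (nat_lit 92) (nat_lit 75) (nat_lit 93) (nat_lit 7) (nat_lit 7) (nat_lit 4) (nat_lit 6) (nat_lit 7) (nat_lit 8) (by decide +kernel)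
theorem L127493 : W_46 (nat_lit 2) (nat_lit 0x140018000e0002000000010000000000000000000) (nat_lit 0x0) (nat_lit 0x10000a000000000000000000000000000000000000000) := D_46 (nat_lit 159) (nat_lit 176) (nat_lit 157) (nat_lit 5) (nat_lit 7) (nat_lit 6) (nat_lit 2) (nat_lit 4) (nat_lit 9) (by decide +kernel)
theorem L127494 : W_46 (nat_lit 2) (nat_lit 0x80014001a000f0002800000010000000000000000000) (nat_lit 0x0) (nat_lit 0x800040002000000000000000000000000000000000000000) := D_46 (nat_lit 174) (nat_lit 191) (nat_lit 157) (nat_lit 5) (nat_lit 5) (nat_lit 7) (nat_lit 5) (nat_lit 5) (nat_lit 6) (by decide +kernel)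
theorem L127495 : W_46 (nat_lit 3) (nat_lit 0x14001a000f0002800000010000000000000000000) (nat_lit 0x0) (nat_lit 0x8000c0002000000000001000000000000000000000000000) := T_46 (nat_lit 175) (nat_lit 108) (nat_lit 6) (nat_lit 5) (nat_lit 10) L127494 (by decide +kernel)
theorem L127496 : W_46 (nat_lit 4) (nat_lit 0x14001a000f0002000000010000000000000000000) (nat_lit 0x0) (nat_lit 0x8000c0002000000000001c00000000000000000000000000) := T_46 (nat_lit 107) (nat_lit 106) (nat_lit 0) (nat_lit 8) (nat_lit 7) L127495 (by decide +kernel)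
theorem L127497 : W_46 (nat_lit 5) (nat_lit 0x140018000f0002000000010000000000000000000) (nat_lit 0x0) (nat_lit 0x8000c0002000300000001c00000000000000000000000000) := T_46 (nat_lit 141) (nat_lit 140) (nat_lit 1) (nat_lit 8) (nat_lit 7) L127496 (by decide +kernel)
theorem L127498 : W_46 (nat_lit 6) (nat_lit 0x140018000e0002000000010000000000000000000) (nat_lit 0x0) (nat_lit 0x8000c0002000300018001c00000000000000000000000000) := T_46 (nat_lit 124) (nat_lit 123) (nat_lit 3) (nat_lit 4) (nat_lit 7) L127497 (by decide +kernel)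
theorem L127499 : W_46 (nat_lit 2) (nat_lit 0x100014001a000f0002800000010000000000000000000) (nat_lit 0x0) (nat_lit 0x2000080000000000000001000000000000000000000000000) := D_46 (nat_lit 175) (nat_lit 108) (nat_lit 193) (nat_lit 6) (nat_lit 5) (nat_lit 10) (nat_lit 7) (nat_lit 5) (nat_lit 7) (by decide +kernel)
theorem L127500 : W_46 (nat_lit 3) (nat_lit 0x1000140018000f0002800000010000000000000000000) (nat_lit 0x0) (nat_lit 0x2000080000000300000001000000000000000000000000000) := T_46 (nat_lit 141) (nat_lit 140) (nat_lit 1) (nat_lit 8) (nat_lit 7) L127499 (by decide +kernel)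
theorem L127501 : W_46 (nat_lit 4) (nat_lit 0x1000140018000f0002000000010000000000000000000) (nat_lit 0x0) (nat_lit 0x2000080000000300000001c00000000000000000000000000) := T_46 (nat_lit 107) (nat_lit 106) (nat_lit 0) (nat_lit 8) (nat_lit 7) L127500 (by decide +kernel)
theorem L127502 : W_46 (nat_lit 5) (nat_lit 0x140018000f0002000000010000000000000000000) (nat_lit 0x0) (nat_lit 0x2000180008000300000001c00000000000000000000000000) := T_46 (nat_lit 176) (nat_lit 159) (nat_lit 5) (nat_lit 7) (nat_lit 6) L127501 (by decide +kernel)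
theorem L127503 : W_46 (nat_lit 6) (nat_lit 0x140018000e0002000000010000000000000000000) (nat_lit 0x0) (nat_lit 0x2000180008000300018001c00000000000000000000000000) := T_46 (nat_lit 124) (nat_lit 123) (nat_lit 3) (nat_lit 4) (nat_lit 7) L127502 (by decide +kernel)
theorem L127504 : W_46 (nat_lit 7) (nat_lit 0x100018000e0002000000010000000000000000000) (nat_lit 0x0) (nat_lit 0x28001c000e000300018001c00000000000000000000000000) := Q_46 (nat_lit 158) (C_46 L127493 (C_46 L127498 (C_46 L127503 N_46))) (by decide +kernel)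
theorem L127505 : W_46 (nat_lit 8) (nat_lit 0x100018000e0002000000000000000000000000000) (nat_lit 0x0) (nat_lit 0x28001c000e000300018001c00300018000000000000000000) := Q_46 (nat_lit 76) (C_46 L127492 (C_46 L127504 N_46)) (by decide +kernel)
theorem L127506 : W_46 (nat_lit 9) (nat_lit 0x18000e0002000000000000000000000000000) (nat_lit 0x0) (nat_lit 0x68003c001e000300018001c00300018000000000000000000) := Q_46 (nat_lit 160) (C_46 L127488 (C_46 L127491 (C_46 L127505 N_46))) (by decide +kernel)
theorem L127507 : W_46 (nat_lit 2) (nat_lit 0x4001a000f0002800000000000000000000000000) (nat_lit 0x0) (nat_lit 0x40002000400000000000000000000000000000000000) := D_46 (nat_lit 157) (nat_lit 142) (nat_lit 174) (nat_lit 1) (nat_lit 8) (nat_lit 8) (nat_lit 5) (nat_lit 5) (nat_lit 6) (by decide +kernel)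
theorem L127508 : W_46 (nat_lit 3) (nat_lit 0x4001a000f0002000000000000000000000000000) (nat_lit 0x0) (nat_lit 0x40002000400000000c00000000000000000000000000) := T_46 (nat_lit 107) (nat_lit 106) (nat_lit 0) (nat_lit 8) (nat_lit 7) L127507 (by decide +kernel)
theorem L127509 : W_46 (nat_lit 2) (nat_lit 0xc0004001a000f0002000000000000000000000000000) (nat_lit 0x0) (nat_lit 0x2000000000000c00000000000000000000000000) := D_46 (nat_lit 107) (nat_lit 157) (nat_lit 106) (nat_lit 5) (nat_lit 5) (nat_lit 6) (nat_lit 0) (nat_lit 8) (nat_lit 7) (by decide +kernel)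
theorem L127510 : W_46 (nat_lit 3) (nat_lit 0x80004001a000f0002000000000000000000000000000) (nat_lit 0x0) (nat_lit 0x800040002000000000000c00000000000000000000000000) := T_46 (nat_lit 174) (nat_lit 191) (nat_lit 5) (nat_lit 5) (nat_lit 7) L127509 (by decide +kernel)
theorem L127511 : W_46 (nat_lit 4) (nat_lit 0x4001a000f0002000000000000000000000000000) (nat_lit 0x0) (nat_lit 0x8000c0002000000000001c00000000000000000000000000) := T_46 (nat_lit 175) (nat_lit 108) (nat_lit 6) (nat_lit 5) (nat_lit 10) L127510 (by decide +kernel)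
theorem L127512 : W_46 (nat_lit 2) (nat_lit 0x80004001a000f0002000000000000000000000000000) (nat_lit 0x0) (nat_lit 0x1000000002000400000000000000000000000000000000000) := D_46 (nat_lit 142) (nat_lit 157) (nat_lit 192) (nat_lit 1) (nat_lit 8) (nat_lit 8) (nat_lit 6) (nat_lit 5) (nat_lit 11) (by decide +kernel)
theorem L127513 : W_46 (nat_lit 3) (nat_lit 0x4001a000f0002000000000000000000000000000) (nat_lit 0x0) (nat_lit 0x1000080002000400000001000000000000000000000000000) := T_46 (nat_lit 175) (nat_lit 108) (nat_lit 6) (nat_lit 5) (nat_lit 10) L127512 (by decide +kernel)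
theorem L127514 : W_46 (nat_lit 2) (nat_lit 0x20000c0004001a000f0002000000000000000000000000000) (nat_lit 0x0) (nat_lit 0x40001000000000000400000000000000000000000000000000000) := D_46 (nat_lit 192) (nat_lit 142) (nat_lit 210) (nat_lit 6) (nat_lit 5) (nat_lit 11) (nat_lit 7) (nat_lit 5) (nat_lit 8) (by decide +kernel)
theorem L127515 : W_46 (nat_lit 3) (nat_lit 0xc0004001a000f0002000000000000000000000000000) (nat_lit 0x0) (nat_lit 0x40003000100000000400000000000000000000000000000000000) := T_46 (nat_lit 193) (nat_lit 176) (nat_lit 7) (nat_lit 5) (nat_lit 7) L127514 (by decide +kernel)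
theorem L127516 : W_46 (nat_lit 4) (nat_lit 0x80004001a000f0002000000000000000000000000000) (nat_lit 0x0) (nat_lit 0x40003800140000000400000000000000000000000000000000000) := T_46 (nat_lit 174) (nat_lit 191) (nat_lit 5) (nat_lit 5) (nat_lit 7) L127515 (by decide +kernel)
theorem L127517 : W_46 (nat_lit 5) (nat_lit 0x4001a000f0002000000000000000000000000000) (nat_lit 0x0) (nat_lit 0x400038001c0000000400000001000000000000000000000000000) := T_46 (nat_lit 175) (nat_lit 108) (nat_lit 6) (nat_lit 5) (nat_lit 10) L127516 (by decide +kernel)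
theorem L127518 : W_46 (nat_lit 6) (nat_lit 0x1a000f0002000000000000000000000000000) (nat_lit 0x0) (nat_lit 0x400038001c0006000400000001c00000000000000000000000000) := Q_46 (nat_lit 158) (C_46 L127508 (C_46 L127511 (C_46 L127513 (C_46 L127517 N_46)))) (by decide +kernel)
theorem L127519 : W_46 (nat_lit 7) (nat_lit 0x18000f0002000000000000000000000000000) (nat_lit 0x0) (nat_lit 0x400038001c0006000700000001c00000000000000000000000000) := T_46 (nat_lit 141) (nat_lit 140) (nat_lit 1) (nat_lit 8) (nat_lit 7) L127518 (by decide +kernel)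
theorem L127520 : W_46 (nat_lit 8) (nat_lit 0x18000e0002000000000000000000000000000) (nat_lit 0x0) (nat_lit 0x400038001c0006000700018001c00000000000000000000000000) := T_46 (nat_lit 124) (nat_lit 123) (nat_lit 3) (nat_lit 4) (nat_lit 7) L127519 (by decide +kernel)
theorem L127521 : W_46 (nat_lit 2) (nat_lit 0x180018000e0002000300000000000000000000000) (nat_lit 0x0) (nat_lit 0x4000200000000000000001000000000000000000000000000) := D_46 (nat_lit 177) (nat_lit 108) (nat_lit 194) (nat_lit 4) (nat_lit 7) (nat_lit 10) (nat_lit 6) (nat_lit 7) (nat_lit 11) (by decide +kernel)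
theorem L127522 : W_46 (nat_lit 3) (nat_lit 0x80018000e0002000300000000000000000000000) (nat_lit 0x0) (nat_lit 0x4000300010000000000001000000000000000000000000000) := T_46 (nat_lit 160) (nat_lit 176) (nat_lit 5) (nat_lit 7) (nat_lit 6) L127521 (by decide +kernel)
theorem L127523 : W_46 (nat_lit 4) (nat_lit 0x18000e0002000300000000000000000000000) (nat_lit 0x0) (nat_lit 0x4000300018000400000001000000000000000000000000000) := T_46 (nat_lit 159) (nat_lit 142) (nat_lit 5) (nat_lit 7) (nat_lit 5) L127522 (by decide +kernel)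
theorem L127524 : W_46 (nat_lit 5) (nat_lit 0x18000e0002000100000000000000000000000) (nat_lit 0x0) (nat_lit 0x4000300018000400000001000200010000000000000000000) := T_46 (nat_lit 93) (nat_lit 76) (nat_lit 6) (nat_lit 7) (nat_lit 8) L127523 (by decide +kernel)
theorem L127525 : W_46 (nat_lit 6) (nat_lit 0x18000e0002000000000000000000000000000) (nat_lit 0x0) (nat_lit 0x4000300018000400000001000300018000000000000000000) := T_46 (nat_lit 92) (nat_lit 75) (nat_lit 7) (nat_lit 7) (nat_lit 4) L127524 (by decide +kernel)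
theorem L127526 : W_46 (nat_lit 2) (nat_lit 0x1000080018000f0002800100000000000000000000000) (nat_lit 0x0) (nat_lit 0x4000300000000000000000000000000000000000) := D_46 (nat_lit 141) (nat_lit 140) (nat_lit 158) (nat_lit 1) (nat_lit 8) (nat_lit 7) (nat_lit 7) (nat_lit 5) (nat_lit 6) (by decide +kernel)
theorem L127527 : W_46 (nat_lit 3) (nat_lit 0x80018000f0002800100000000000000000000000) (nat_lit 0x0) (nat_lit 0x100014000300000000000000000000000000000000000) := T_46 (nat_lit 176) (nat_lit 160) (nat_lit 5) (nat_lit 7) (nat_lit 6) L127526 (by decide +kernel)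
theorem L127528 : W_46 (nat_lit 4) (nat_lit 0x80018000f0002000100000000000000000000000) (nat_lit 0x0) (nat_lit 0x100014000300000000c00000000000000000000000000) := T_46 (nat_lit 107) (nat_lit 106) (nat_lit 0) (nat_lit 8) (nat_lit 7) L127527 (by decide +kernel)
theorem L127529 : W_46 (nat_lit 5) (nat_lit 0x18000f0002000100000000000000000000000) (nat_lit 0x0) (nat_lit 0x10001c000700000000c00000000000000000000000000) := T_46 (nat_lit 159) (nat_lit 142) (nat_lit 5) (nat_lit 7) (nat_lit 5) L127528 (by decide +kernel)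
theorem L127530 : W_46 (nat_lit 6) (nat_lit 0x18000e0002000100000000000000000000000) (nat_lit 0x0) (nat_lit 0x10001c000700018000c00000000000000000000000000) := T_46 (nat_lit 124) (nat_lit 123) (nat_lit 3) (nat_lit 4) (nat_lit 7) L127529 (by decide +kernel)
theorem L127531 : W_46 (nat_lit 7) (nat_lit 0x18000e0002000000000000000000000000000) (nat_lit 0x0) (nat_lit 0x10001c000700018000c00100008000000000000000000) := T_46 (nat_lit 92) (nat_lit 75) (nat_lit 7) (nat_lit 7) (nat_lit 4) L127530 (by decide +kernel)
theorem L127532 : W_46 (nat_lit 2) (nat_lit 0x4001e000f0002800300000000000000000000000) (nat_lit 0x0) (nat_lit 0x1000080000000000000001000000000000000000000000000) := D_46 (nat_lit 175) (nat_lit 192) (nat_lit 108) (nat_lit 6) (nat_lit 5) (nat_lit 11) (nat_lit 6) (nat_lit 5) (nat_lit 10) (by decide +kernel)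
theorem L127533 : W_46 (nat_lit 3) (nat_lit 0x1e000f0002800300000000000000000000000) (nat_lit 0x0) (nat_lit 0x1000080006000000000001000000000000000000000000000) := T_46 (nat_lit 158) (nat_lit 157) (nat_lit 1) (nat_lit 8) (nat_lit 8) L127532 (by decide +kernel)
theorem L127534 : W_46 (nat_lit 4) (nat_lit 0x1e000f0002800100000000000000000000000) (nat_lit 0x0) (nat_lit 0x1000080006000000000001000200010000000000000000000) := T_46 (nat_lit 93) (nat_lit 76) (nat_lit 6) (nat_lit 7) (nat_lit 8) L127533 (by decide +kernel)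
theorem L127535 : W_46 (nat_lit 5) (nat_lit 0x1c000f0002800100000000000000000000000) (nat_lit 0x0) (nat_lit 0x1000080006000300000001000200010000000000000000000) := T_46 (nat_lit 141) (nat_lit 140) (nat_lit 2) (nat_lit 4) (nat_lit 8) L127534 (by decide +kernel)
theorem L127536 : W_46 (nat_lit 6) (nat_lit 0x18000f0002800100000000000000000000000) (nat_lit 0x0) (nat_lit 0x100008000e000700000001000200010000000000000000000) := T_46 (nat_lit 142) (nat_lit 159) (nat_lit 5) (nat_lit 7) (nat_lit 5) L127535 (by decide +kernel)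
theorem L127537 : W_46 (nat_lit 7) (nat_lit 0x18000f0002000100000000000000000000000) (nat_lit 0x0) (nat_lit 0x100008000e000700000001c00200010000000000000000000) := T_46 (nat_lit 107) (nat_lit 106) (nat_lit 0) (nat_lit 8) (nat_lit 7) L127536 (by decide +kernel)
theorem L127538 : W_46 (nat_lit 8) (nat_lit 0x18000f0002000000000000000000000000000) (nat_lit 0x0) (nat_lit 0x100008000e000700000001c00300018000000000000000000) := T_46 (nat_lit 92) (nat_lit 75) (nat_lit 7) (nat_lit 7) (nat_lit 4) L127537 (by decide +kernel)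
theorem L127539 : W_46 (nat_lit 9) (nat_lit 0x18000e0002000000000000000000000000000) (nat_lit 0x0) (nat_lit 0x100008000e000700018001c00300018000000000000000000) := T_46 (nat_lit 124) (nat_lit 123) (nat_lit 3) (nat_lit 4) (nat_lit 7) L127538 (by decide +kernel)
theorem L127540 : W_46 (nat_lit 10) (nat_lit 0x18000c0002000000000000000000000000000) (nat_lit 0x0) (nat_lit 0x400078003c001e000700038001c00300018000000000000000000) := Q_46 (nat_lit 125) (C_46 L127506 (C_46 L127520 (C_46 L127525 (C_46 L127531 (C_46 L127539 N_46))))) (by decide +kernel)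
theorem L127541 : W_46 (nat_lit 16) (nat_lit 0x10000c0002000000000000000000000000000) (nat_lit 0x0) (nat_lit 0x4000e0007000f8007c001f800f00038001c007e001f000380014000000000) := Q_46 (nat_lit 143) (C_46 L127420 (C_46 L123263 (C_46 L127426 (C_46 L127431 (C_46 L127438 (C_46 L127487 (C_46 L127540 N_46))))))) (by decide +kernel)
theorem L127542 : W_46 (nat_lit 2) (nat_lit 0x10000f0002000000000000000000000000000) (nat_lit 0x0) (nat_lit 0x800008004000000000000000000000000000) := D_46 (nat_lit 123) (nat_lit 110) (nat_lit 143) (nat_lit 2) (nat_lit 4) (nat_lit 7) (nat_lit 3) (nat_lit 4) (nat_lit 7) (by decide +kernel)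
theorem L127543 : W_46 (nat_lit 2) (nat_lit 0x10000f8002000000008000000000000000000) (nat_lit 0x0) (nat_lit 0x380000000000000000000000000000000000) := D_46 (nat_lit 140) (nat_lit 139) (nat_lit 141) (nat_lit 1) (nat_lit 7) (nat_lit 7) (nat_lit 1) (nat_lit 8) (nat_lit 7) (by decide +kernel)
theorem L127544 : W_46 (nat_lit 3) (nat_lit 0x10000f0002000000008000000000000000000) (nat_lit 0x0) (nat_lit 0xb80008000000000000000000000000000000) := T_46 (nat_lit 123) (nat_lit 143) (nat_lit 3) (nat_lit 4) (nat_lit 7) L127543 (by decide +kernel)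
theorem L127545 : W_46 (nat_lit 4) (nat_lit 0x10000f0002000000000000000000000000000) (nat_lit 0x0) (nat_lit 0xb80008000000100008000000000000000000) := T_46 (nat_lit 75) (nat_lit 92) (nat_lit 7) (nat_lit 7) (nat_lit 4) L127544 (by decide +kernel)
theorem L127546 : W_46 (nat_lit 2) (nat_lit 0x10000f0002000000000000000000000000000) (nat_lit 0x0) (nat_lit 0x800c000000000000000000000000000) := D_46 (nat_lit 110) (nat_lit 111) (nat_lit 123) (nat_lit 2) (nat_lit 5) (nat_lit 7) (nat_lit 2) (nat_lit 4) (nat_lit 7) (by decide +kernel)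
theorem L127547 : W_46 (nat_lit 2) (nat_lit 0x1000000016000f0006800140000000000000000000000) (nat_lit 0x0) (nat_lit 0xa0004000000000000000000) := D_46 (nat_lit 91) (nat_lit 74) (nat_lit 89) (nat_lit 6) (nat_lit 5) (nat_lit 8) (nat_lit 3) (nat_lit 4) (nat_lit 5) (by decide +kernel)
theorem L127548 : W_46 (nat_lit 3) (nat_lit 0x1000000016000f0006800100000000000000000000000) (nat_lit 0x0) (nat_lit 0xe0006000000000000000000) := T_46 (nat_lit 90) (nat_lit 73) (nat_lit 7) (nat_lit 5) (nat_lit 4) L127547 (by decide +kernel)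
theorem L127549 : W_46 (nat_lit 4) (nat_lit 0x1000000014000f0006800100000000000000000000000) (nat_lit 0x0) (nat_lit 0x3000000000000e0006000000000000000000) := T_46 (nat_lit 141) (nat_lit 140) (nat_lit 1) (nat_lit 8) (nat_lit 7) L127548 (by decide +kernel)
theorem L127550 : W_46 (nat_lit 5) (nat_lit 0x1000000014000f0006000100000000000000000000000) (nat_lit 0x0) (nat_lit 0x300000000c000e0006000000000000000000) := T_46 (nat_lit 107) (nat_lit 106) (nat_lit 0) (nat_lit 8) (nat_lit 7) L127549 (by decide +kernel)
theorem L127551 : W_46 (nat_lit 6) (nat_lit 0x1000000014000f0006000000000000000000000000000) (nat_lit 0x0) (nat_lit 0x300000000c001e000e000000000000000000) := T_46 (nat_lit 92) (nat_lit 75) (nat_lit 7) (nat_lit 7) (nat_lit 4) L127550 (by decide +kernel)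
theorem L127552 : W_46 (nat_lit 7) (nat_lit 0x14000f0006000000000000000000000000000) (nat_lit 0x0) (nat_lit 0x100008000300000000c001e000e000000000000000000) := T_46 (nat_lit 176) (nat_lit 159) (nat_lit 6) (nat_lit 6) (nat_lit 10) L127551 (by decide +kernel)
theorem L127553 : W_46 (nat_lit 8) (nat_lit 0x14000f0002000000000000000000000000000) (nat_lit 0x0) (nat_lit 0x10000800030000000cc001e000e000000000000000000) := T_46 (nat_lit 110) (nat_lit 111) (nat_lit 2) (nat_lit 5) (nat_lit 7) L127552 (by decide +kernel)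
theorem L127554 : W_46 (nat_lit 2) (nat_lit 0x1000000016000f00028001c0000000000000000000000) (nat_lit 0x0) (nat_lit 0x4000020001000000000000000000) := D_46 (nat_lit 89) (nat_lit 110) (nat_lit 72) (nat_lit 3) (nat_lit 4) (nat_lit 5) (nat_lit 4) (nat_lit 5) (nat_lit 8) (by decide +kernel)
theorem L127555 : W_46 (nat_lit 3) (nat_lit 0x1000000016000f0002800140000000000000000000000) (nat_lit 0x0) (nat_lit 0x40000a0005000000000000000000) := T_46 (nat_lit 91) (nat_lit 74) (nat_lit 6) (nat_lit 5) (nat_lit 8) L127554 (by decide +kernel)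
theorem L127556 : W_46 (nat_lit 4) (nat_lit 0x1000000014000f0002800140000000000000000000000) (nat_lit 0x0) (nat_lit 0x3000000040000a0005000000000000000000) := T_46 (nat_lit 141) (nat_lit 140) (nat_lit 1) (nat_lit 8) (nat_lit 7) L127555 (by decide +kernel)
theorem L127557 : W_46 (nat_lit 5) (nat_lit 0x1000000014000f0002800040000000000000000000000) (nat_lit 0x0) (nat_lit 0x3000000040001a000d000000000000000000) := T_46 (nat_lit 92) (nat_lit 75) (nat_lit 7) (nat_lit 7) (nat_lit 4) L127556 (by decide +kernel)
theorem L127558 : W_46 (nat_lit 6) (nat_lit 0x1000000014000f0002800000000000000000000000000) (nat_lit 0x0) (nat_lit 0x3000000040001e000f000000000000000000) := T_46 (nat_lit 90) (nat_lit 73) (nat_lit 7) (nat_lit 5) (nat_lit 4) L127557 (by decide +kernel)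
theorem L127559 : W_46 (nat_lit 7) (nat_lit 0x14000f0002800000000000000000000000000) (nat_lit 0x0) (nat_lit 0x1000080003000000040001e000f000000000000000000) := T_46 (nat_lit 176) (nat_lit 159) (nat_lit 6) (nat_lit 6) (nat_lit 10) L127558 (by decide +kernel)
theorem L127560 : W_46 (nat_lit 8) (nat_lit 0x14000f0002000000000000000000000000000) (nat_lit 0x0) (nat_lit 0x100008000300000004c001e000f000000000000000000) := T_46 (nat_lit 107) (nat_lit 106) (nat_lit 0) (nat_lit 8) (nat_lit 7) L127559 (by decide +kernel)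
theorem L127561 : W_46 (nat_lit 2) (nat_lit 0x16000f0006800140000000000000000000000) (nat_lit 0x0) (nat_lit 0xa0001000000000000000000) := D_46 (nat_lit 89) (nat_lit 72) (nat_lit 91) (nat_lit 4) (nat_lit 5) (nat_lit 8) (nat_lit 3) (nat_lit 4) (nat_lit 5) (by decide +kernel)
theorem L127562 : W_46 (nat_lit 3) (nat_lit 0x16000f0006800040000000000000000000000) (nat_lit 0x0) (nat_lit 0x1a0009000000000000000000) := T_46 (nat_lit 92) (nat_lit 75) (nat_lit 7) (nat_lit 7) (nat_lit 4) L127561 (by decide +kernel)
theorem L127563 : W_46 (nat_lit 4) (nat_lit 0x16000f0006800000000000000000000000000) (nat_lit 0x0) (nat_lit 0x1e000b000000000000000000) := T_46 (nat_lit 90) (nat_lit 73) (nat_lit 7) (nat_lit 5) (nat_lit 4) L127562 (by decide +kernel)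
theorem L127564 : W_46 (nat_lit 5) (nat_lit 0x16000f0002800000000000000000000000000) (nat_lit 0x0) (nat_lit 0xc0001e000b000000000000000000) := T_46 (nat_lit 110) (nat_lit 111) (nat_lit 2) (nat_lit 5) (nat_lit 7) L127563 (by decide +kernel)
theorem L127565 : W_46 (nat_lit 6) (nat_lit 0x16000f0002000000000000000000000000000) (nat_lit 0x0) (nat_lit 0xcc001e000b000000000000000000) := T_46 (nat_lit 107) (nat_lit 106) (nat_lit 0) (nat_lit 8) (nat_lit 7) L127564 (by decide +kernel)
theorem L127566 : W_46 (nat_lit 7) (nat_lit 0x14000f0002000000000000000000000000000) (nat_lit 0x0) (nat_lit 0x30000000cc001e000b000000000000000000) := T_46 (nat_lit 141) (nat_lit 140) (nat_lit 1) (nat_lit 8) (nat_lit 7) L127565 (by decide +kernel)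
theorem L127567 : W_46 (nat_lit 2) (nat_lit 0x16000f0006800000000000000000000000000) (nat_lit 0x0) (nat_lit 0x100008000000000000000040000000000000000000000) := D_46 (nat_lit 159) (nat_lit 176) (nat_lit 90) (nat_lit 6) (nat_lit 6) (nat_lit 10) (nat_lit 7) (nat_lit 5) (nat_lit 5) (by decide +kernel)
theorem L127568 : W_46 (nat_lit 3) (nat_lit 0x16000f0006000000000000000000000000000) (nat_lit 0x0) (nat_lit 0x100008000000000000c00040000000000000000000000) := T_46 (nat_lit 107) (nat_lit 106) (nat_lit 0) (nat_lit 8) (nat_lit 7) L127567 (by decide +kernel)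
theorem L127569 : W_46 (nat_lit 4) (nat_lit 0x16000f0002000000000000000000000000000) (nat_lit 0x0) (nat_lit 0x10000800000000000cc00040000000000000000000000) := T_46 (nat_lit 110) (nat_lit 111) (nat_lit 2) (nat_lit 5) (nat_lit 7) L127568 (by decide +kernel)
theorem L127570 : W_46 (nat_lit 5) (nat_lit 0x14000f0002000000000000000000000000000) (nat_lit 0x0) (nat_lit 0x10000800030000000cc00040000000000000000000000) := T_46 (nat_lit 141) (nat_lit 140) (nat_lit 1) (nat_lit 8) (nat_lit 7) L127569 (by decide +kernel)
theorem L127571 : W_46 (nat_lit 2) (nat_lit 0x80014000f0002000000000000000000000000000) (nat_lit 0x0) (nat_lit 0x800000000000100008000000000000000000) := D_46 (nat_lit 92) (nat_lit 75) (nat_lit 143) (nat_lit 7) (nat_lit 7) (nat_lit 4) (nat_lit 5) (nat_lit 7) (nat_lit 5) (by decide +kernel)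
theorem L127572 : W_46 (nat_lit 3) (nat_lit 0x14000f0002000000000000000000000000000) (nat_lit 0x0) (nat_lit 0x100008000800000000000100008000000000000000000) := T_46 (nat_lit 159) (nat_lit 176) (nat_lit 6) (nat_lit 6) (nat_lit 10) L127571 (by decide +kernel)
theorem L127573 : W_46 (nat_lit 9) (nat_lit 0x10000f0002000000000000000000000000000) (nat_lit 0x0) (nat_lit 0x100008000f0000000cc001e000f000000000000000000) := Q_46 (nat_lit 142) (C_46 L127553 (C_46 L127560 (C_46 L127566 (C_46 L127570 (C_46 L127572 N_46))))) (by decide +kernel)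
theorem L127574 : W_46 (nat_lit 10) (nat_lit 0x10000e0002000000000000000000000000000) (nat_lit 0x0) (nat_lit 0x100008000f8001800cc001e000f000000000000000000) := Q_46 (nat_lit 124) (C_46 L127542 (C_46 L127545 (C_46 L127546 (C_46 L127573 N_46)))) (by decide +kernel)
theorem L127575 : W_46 (nat_lit 3) (nat_lit 0x10000f0002000000008000000000000000000) (nat_lit 0x0) (nat_lit 0x380008004000000000000000000000000000) := T_46 (nat_lit 123) (nat_lit 110) (nat_lit 2) (nat_lit 4) (nat_lit 7) L127543 (by decide +kernel)
theorem L127576 : W_46 (nat_lit 4) (nat_lit 0x10000f0002000000000000000000000000000) (nat_lit 0x0) (nat_lit 0x380008004000100008000000000000000000) := T_46 (nat_lit 75) (nat_lit 92) (nat_lit 7) (nat_lit 7) (nat_lit 4) L127575 (by decide +kernel)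
theorem L127577 : W_46 (nat_lit 2) (nat_lit 0x16000f00038000c0008000000000000000000) (nat_lit 0x0) (nat_lit 0x30001000000000000000000) := D_46 (nat_lit 89) (nat_lit 72) (nat_lit 88) (nat_lit 4) (nat_lit 5) (nat_lit 8) (nat_lit 3) (nat_lit 3) (nat_lit 5) (by decide +kernel)
theorem L127578 : W_46 (nat_lit 3) (nat_lit 0x16000f00028000c0008000000000000000000) (nat_lit 0x0) (nat_lit 0x4000000000001000030001000000000000000000) := T_46 (nat_lit 108) (nat_lit 158) (nat_lit 6) (nat_lit 5) (nat_lit 9) L127577 (by decide +kernel)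
theorem L127579 : W_46 (nat_lit 4) (nat_lit 0x16000f0002800040008000000000000000000) (nat_lit 0x0) (nat_lit 0x40000000000010000b0005000000000000000000) := T_46 (nat_lit 91) (nat_lit 74) (nat_lit 6) (nat_lit 5) (nat_lit 8) L127578 (by decide +kernel)
theorem L127580 : W_46 (nat_lit 5) (nat_lit 0x14000f0002800040008000000000000000000) (nat_lit 0x0) (nat_lit 0x40003000000010000b0005000000000000000000) := T_46 (nat_lit 141) (nat_lit 140) (nat_lit 1) (nat_lit 8) (nat_lit 7) L127579 (by decide +kernel)
theorem L127581 : W_46 (nat_lit 6) (nat_lit 0x14000f0002800000008000000000000000000) (nat_lit 0x0) (nat_lit 0x40003000000010000f0007000000000000000000) := T_46 (nat_lit 90) (nat_lit 73) (nat_lit 7) (nat_lit 5) (nat_lit 4) L127580 (by decide +kernel)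
theorem L127582 : W_46 (nat_lit 7) (nat_lit 0x14000f0002800000000000000000000000000) (nat_lit 0x0) (nat_lit 0x40003000000010001f000f000000000000000000) := T_46 (nat_lit 75) (nat_lit 92) (nat_lit 7) (nat_lit 7) (nat_lit 4) L127581 (by decide +kernel)
theorem L127583 : W_46 (nat_lit 8) (nat_lit 0x14000f0002000000000000000000000000000) (nat_lit 0x0) (nat_lit 0x4000300000001c001f000f000000000000000000) := T_46 (nat_lit 107) (nat_lit 106) (nat_lit 0) (nat_lit 8) (nat_lit 7) L127582 (by decide +kernel)
theorem L127584 : W_46 (nat_lit 2) (nat_lit 0x1000000016000f00038000c0000000000000000000000) (nat_lit 0x0) (nat_lit 0x30001000000000000000000) := D_46 (nat_lit 89) (nat_lit 72) (nat_lit 88) (nat_lit 4) (nat_lit 5) (nat_lit 8) (nat_lit 3) (nat_lit 3) (nat_lit 5) (by decide +kernel)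
theorem L127585 : W_46 (nat_lit 3) (nat_lit 0x1000000016000f00028000c0000000000000000000000) (nat_lit 0x0) (nat_lit 0x4000000000001000030001000000000000000000) := T_46 (nat_lit 108) (nat_lit 158) (nat_lit 6) (nat_lit 5) (nat_lit 9) L127584 (by decide +kernel)
theorem L127586 : W_46 (nat_lit 4) (nat_lit 0x1000000016000f0002800040000000000000000000000) (nat_lit 0x0) (nat_lit 0x40000000000010000b0005000000000000000000) := T_46 (nat_lit 91) (nat_lit 74) (nat_lit 6) (nat_lit 5) (nat_lit 8) L127585 (by decide +kernel)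
theorem L127587 : W_46 (nat_lit 5) (nat_lit 0x1000000016000f0002800000000000000000000000000) (nat_lit 0x0) (nat_lit 0x40000000000010000f0007000000000000000000) := T_46 (nat_lit 90) (nat_lit 73) (nat_lit 7) (nat_lit 5) (nat_lit 4) L127586 (by decide +kernel)
theorem L127588 : W_46 (nat_lit 6) (nat_lit 0x1000000016000f0002000000000000000000000000000) (nat_lit 0x0) (nat_lit 0x4000000000001c000f0007000000000000000000) := T_46 (nat_lit 107) (nat_lit 106) (nat_lit 0) (nat_lit 8) (nat_lit 7) L127587 (by decide +kernel)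
theorem L127589 : W_46 (nat_lit 7) (nat_lit 0x16000f0002000000000000000000000000000) (nat_lit 0x0) (nat_lit 0x10000c000000000001c000f0007000000000000000000) := T_46 (nat_lit 176) (nat_lit 159) (nat_lit 6) (nat_lit 6) (nat_lit 10) L127588 (by decide +kernel)
theorem L127590 : W_46 (nat_lit 8) (nat_lit 0x14000f0002000000000000000000000000000) (nat_lit 0x0) (nat_lit 0x10000c000300000001c000f0007000000000000000000) := T_46 (nat_lit 141) (nat_lit 140) (nat_lit 1) (nat_lit 8) (nat_lit 7) L127589 (by decide +kernel)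
theorem L127591 : W_46 (nat_lit 9) (nat_lit 0x10000f0002000000000000000000000000000) (nat_lit 0x0) (nat_lit 0x10000c000f00000001c001f000f000000000000000000) := Q_46 (nat_lit 142) (C_46 L127572 (C_46 L127583 (C_46 L127590 N_46))) (by decide +kernel)
theorem L127592 : W_46 (nat_lit 10) (nat_lit 0x10000e0002000000000000000000000000000) (nat_lit 0x0) (nat_lit 0x10000c000f80018005c001f000f000000000000000000) := Q_46 (nat_lit 124) (C_46 L127545 (C_46 L127542 (C_46 L127576 (C_46 L127591 N_46)))) (by decide +kernel)
theorem L127593 : W_46 (nat_lit 2) (nat_lit 0x10000f000780004000e000000000000000000) (nat_lit 0x0) (nat_lit 0x800000000000080000000400000000000000) := D_46 (nat_lit 91) (nat_lit 143) (nat_lit 58) (nat_lit 7) (nat_lit 6) (nat_lit 4) (nat_lit 6) (nat_lit 6) (nat_lit 7) (by decide +kernel)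
theorem L127594 : W_46 (nat_lit 3) (nat_lit 0x10000f000780004000a000000000000000000) (nat_lit 0x0) (nat_lit 0x800000000000080004000600000000000000) := T_46 (nat_lit 74) (nat_lit 57) (nat_lit 6) (nat_lit 5) (nat_lit 7) L127593 (by decide +kernel)
theorem L127595 : W_46 (nat_lit 4) (nat_lit 0x10000f0007800040008000000000000000000) (nat_lit 0x0) (nat_lit 0x800000000000080006000700000000000000) := T_46 (nat_lit 73) (nat_lit 56) (nat_lit 7) (nat_lit 5) (nat_lit 3) L127594 (by decide +kernel)
theorem L127596 : W_46 (nat_lit 5) (nat_lit 0x10000f0007800000008000000000000000000) (nat_lit 0x0) (nat_lit 0x8000000000000e0006000700000000000000) := T_46 (nat_lit 90) (nat_lit 89) (nat_lit 0) (nat_lit 8) (nat_lit 6) L127595 (by decide +kernel)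
theorem L127597 : W_46 (nat_lit 6) (nat_lit 0x10000f0007000000008000000000000000000) (nat_lit 0x0) (nat_lit 0x800000000c000e0006000700000000000000) := T_46 (nat_lit 107) (nat_lit 106) (nat_lit 3) (nat_lit 4) (nat_lit 6) L127596 (by decide +kernel)
theorem L127598 : W_46 (nat_lit 7) (nat_lit 0x10000f0007000000000000000000000000000) (nat_lit 0x0) (nat_lit 0x800000000c001e000e000700000000000000) := T_46 (nat_lit 75) (nat_lit 92) (nat_lit 7) (nat_lit 7) (nat_lit 4) L127597 (by decide +kernel)
theorem L127599 : W_46 (nat_lit 8) (nat_lit 0x10000f0003000000000000000000000000000) (nat_lit 0x0) (nat_lit 0x80000000cc001e000e000700000000000000) := T_46 (nat_lit 110) (nat_lit 111) (nat_lit 2) (nat_lit 5) (nat_lit 7) L127598 (by decide +kernel)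
theorem L127600 : W_46 (nat_lit 2) (nat_lit 0x12000f0006800080008000000000000000000) (nat_lit 0x0) (nat_lit 0x1000040004000000000000000000) := D_46 (nat_lit 74) (nat_lit 108) (nat_lit 90) (nat_lit 5) (nat_lit 6) (nat_lit 4) (nat_lit 6) (nat_lit 5) (nat_lit 8) (by decide +kernel)
theorem L127601 : W_46 (nat_lit 3) (nat_lit 0x10000f0006800080008000000000000000000) (nat_lit 0x0) (nat_lit 0x300000001000040004000000000000000000) := T_46 (nat_lit 141) (nat_lit 140) (nat_lit 1) (nat_lit 8) (nat_lit 7) L127600 (by decide +kernel)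
theorem L127602 : W_46 (nat_lit 4) (nat_lit 0x10000f0002800080008000000000000000000) (nat_lit 0x0) (nat_lit 0x30000000d000040004000000000000000000) := T_46 (nat_lit 110) (nat_lit 111) (nat_lit 2) (nat_lit 5) (nat_lit 7) L127601 (by decide +kernel)
theorem L127603 : W_46 (nat_lit 5) (nat_lit 0x10000f0002000080008000000000000000000) (nat_lit 0x0) (nat_lit 0x30000000dc00040004000000000000000000) := T_46 (nat_lit 107) (nat_lit 106) (nat_lit 0) (nat_lit 8) (nat_lit 7) L127602 (by decide +kernel)
theorem L127604 : W_46 (nat_lit 6) (nat_lit 0x10000f0002000080000000000000000000000) (nat_lit 0x0) (nat_lit 0x30000000dc0014000c000000000000000000) := T_46 (nat_lit 75) (nat_lit 92) (nat_lit 7) (nat_lit 7) (nat_lit 4) L127603 (by decide +kernel)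
theorem L127605 : W_46 (nat_lit 2) (nat_lit 0x12000f0002800080000000000000000000000) (nat_lit 0x0) (nat_lit 0x1000040004000000000000000000) := D_46 (nat_lit 74) (nat_lit 108) (nat_lit 90) (nat_lit 5) (nat_lit 6) (nat_lit 4) (nat_lit 6) (nat_lit 5) (nat_lit 8) (by decide +kernel)
theorem L127606 : W_46 (nat_lit 3) (nat_lit 0x12000f0002000080000000000000000000000) (nat_lit 0x0) (nat_lit 0x1c00040004000000000000000000) := T_46 (nat_lit 107) (nat_lit 106) (nat_lit 0) (nat_lit 8) (nat_lit 7) L127605 (by decide +kernel)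
theorem L127607 : W_46 (nat_lit 4) (nat_lit 0x10000f0002000080000000000000000000000) (nat_lit 0x0) (nat_lit 0x300000001c00040004000000000000000000) := T_46 (nat_lit 141) (nat_lit 140) (nat_lit 1) (nat_lit 8) (nat_lit 7) L127606 (by decide +kernel)
theorem L127608 : W_46 (nat_lit 2) (nat_lit 0x12000f0006800180000000000000000000000) (nat_lit 0x0) (nat_lit 0x60004000000000000000000) := D_46 (nat_lit 90) (nat_lit 74) (nat_lit 89) (nat_lit 6) (nat_lit 5) (nat_lit 8) (nat_lit 3) (nat_lit 4) (nat_lit 5) (by decide +kernel)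
theorem L127609 : W_46 (nat_lit 3) (nat_lit 0x12000f0006800080000000000000000000000) (nat_lit 0x0) (nat_lit 0x16000c000000000000000000) := T_46 (nat_lit 92) (nat_lit 75) (nat_lit 7) (nat_lit 7) (nat_lit 4) L127608 (by decide +kernel)
theorem L127610 : W_46 (nat_lit 4) (nat_lit 0x12000f0006000080000000000000000000000) (nat_lit 0x0) (nat_lit 0xc0016000c000000000000000000) := T_46 (nat_lit 107) (nat_lit 106) (nat_lit 0) (nat_lit 8) (nat_lit 7) L127609 (by decide +kernel)
theorem L127611 : W_46 (nat_lit 5) (nat_lit 0x12000f0002000080000000000000000000000) (nat_lit 0x0) (nat_lit 0xcc0016000c000000000000000000) := T_46 (nat_lit 110) (nat_lit 111) (nat_lit 2) (nat_lit 5) (nat_lit 7) L127610 (by decide +kernel)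
theorem L127612 : W_46 (nat_lit 6) (nat_lit 0x10000f0002000080000000000000000000000) (nat_lit 0x0) (nat_lit 0x30000000cc0016000c000000000000000000) := T_46 (nat_lit 141) (nat_lit 140) (nat_lit 1) (nat_lit 8) (nat_lit 7) L127611 (by decide +kernel)
theorem L127613 : W_46 (nat_lit 2) (nat_lit 0x18000f0006800180000000000000000000000) (nat_lit 0x0) (nat_lit 0x200010000000000001000000000000000000000000000) := D_46 (nat_lit 160) (nat_lit 108) (nat_lit 177) (nat_lit 4) (nat_lit 7) (nat_lit 9) (nat_lit 6) (nat_lit 7) (nat_lit 10) (by decide +kernel)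
theorem L127614 : W_46 (nat_lit 3) (nat_lit 0x10000f0006800180000000000000000000000) (nat_lit 0x0) (nat_lit 0x200010000800000001000000004000000000000000000) := T_46 (nat_lit 143) (nat_lit 74) (nat_lit 4) (nat_lit 7) (nat_lit 8) L127613 (by decide +kernel)
theorem L127615 : W_46 (nat_lit 4) (nat_lit 0x10000f0006800080000000000000000000000) (nat_lit 0x0) (nat_lit 0x20001000080000000100010000c000000000000000000) := T_46 (nat_lit 92) (nat_lit 75) (nat_lit 7) (nat_lit 7) (nat_lit 4) L127614 (by decide +kernel)
theorem L127616 : W_46 (nat_lit 5) (nat_lit 0x10000f0002800080000000000000000000000) (nat_lit 0x0) (nat_lit 0x20001000080000000d00010000c000000000000000000) := T_46 (nat_lit 110) (nat_lit 111) (nat_lit 2) (nat_lit 5) (nat_lit 7) L127615 (by decide +kernel)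
theorem L127617 : W_46 (nat_lit 6) (nat_lit 0x10000f0002000080000000000000000000000) (nat_lit 0x0) (nat_lit 0x20001000080000000dc0010000c000000000000000000) := T_46 (nat_lit 107) (nat_lit 106) (nat_lit 0) (nat_lit 8) (nat_lit 7) L127616 (by decide +kernel)
theorem L127618 : W_46 (nat_lit 2) (nat_lit 0x12000f0002000180000000000000000000000) (nat_lit 0x0) (nat_lit 0x800000001000000004000000000000000000) := D_46 (nat_lit 74) (nat_lit 143) (nat_lit 108) (nat_lit 4) (nat_lit 7) (nat_lit 8) (nat_lit 5) (nat_lit 6) (nat_lit 4) (by decide +kernel)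
theorem L127619 : W_46 (nat_lit 3) (nat_lit 0x10000f0002000180000000000000000000000) (nat_lit 0x0) (nat_lit 0xb00000001000000004000000000000000000) := T_46 (nat_lit 141) (nat_lit 140) (nat_lit 1) (nat_lit 8) (nat_lit 7) L127618 (by decide +kernel)
theorem L127620 : W_46 (nat_lit 4) (nat_lit 0x10000f0002000080000000000000000000000) (nat_lit 0x0) (nat_lit 0xb0000000100010000c000000000000000000) := T_46 (nat_lit 92) (nat_lit 75) (nat_lit 7) (nat_lit 7) (nat_lit 4) L127619 (by decide +kernel)
theorem L127621 : W_46 (nat_lit 2) (nat_lit 0x1400040012000f0002800080008000000000000000000) (nat_lit 0x0) (nat_lit 0x2800080000000000000000000000000000000000000000000) := D_46 (nat_lit 175) (nat_lit 191) (nat_lit 193) (nat_lit 5) (nat_lit 5) (nat_lit 7) (nat_lit 7) (nat_lit 5) (nat_lit 7) (by decide +kernel)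
theorem L127622 : W_46 (nat_lit 3) (nat_lit 0x400040012000f0002800080008000000000000000000) (nat_lit 0x0) (nat_lit 0x2800180008000000000000000000000000000000000000000) := T_46 (nat_lit 176) (nat_lit 159) (nat_lit 7) (nat_lit 5) (nat_lit 6) L127621 (by decide +kernel)
theorem L127623 : W_46 (nat_lit 4) (nat_lit 0x40012000f0002800080008000000000000000000) (nat_lit 0x0) (nat_lit 0x28001c000a000000000000000000000000000000000000000) := T_46 (nat_lit 174) (nat_lit 157) (nat_lit 5) (nat_lit 5) (nat_lit 6) L127622 (by decide +kernel)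
theorem L127624 : W_46 (nat_lit 5) (nat_lit 0x12000f0002800080008000000000000000000) (nat_lit 0x0) (nat_lit 0x28001c000e000000000001000000000000000000000000000) := T_46 (nat_lit 158) (nat_lit 108) (nat_lit 6) (nat_lit 5) (nat_lit 9) L127623 (by decide +kernel)
theorem L127625 : W_46 (nat_lit 6) (nat_lit 0x12000f0002800080000000000000000000000) (nat_lit 0x0) (nat_lit 0x28001c000e000000000001000100008000000000000000000) := T_46 (nat_lit 75) (nat_lit 92) (nat_lit 7) (nat_lit 7) (nat_lit 4) L127624 (by decide +kernel)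
theorem L127626 : W_46 (nat_lit 7) (nat_lit 0x12000f0002000080000000000000000000000) (nat_lit 0x0) (nat_lit 0x28001c000e000000000001c00100008000000000000000000) := T_46 (nat_lit 107) (nat_lit 106) (nat_lit 0) (nat_lit 8) (nat_lit 7) L127625 (by decide +kernel)
theorem L127627 : W_46 (nat_lit 8) (nat_lit 0x10000f0002000080000000000000000000000) (nat_lit 0x0) (nat_lit 0x28001c000e000300000001c00100008000000000000000000) := T_46 (nat_lit 141) (nat_lit 140) (nat_lit 1) (nat_lit 8) (nat_lit 7) L127626 (by decide +kernel)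
theorem L127628 : W_46 (nat_lit 9) (nat_lit 0x10000f0002000000000000000000000000000) (nat_lit 0x0) (nat_lit 0x28003c001e000b0000000dc001e000c000000000000000000) := Q_46 (nat_lit 91) (C_46 L127604 (C_46 L127607 (C_46 L127612 (C_46 L127617 (C_46 L127620 (C_46 L127627 N_46)))))) (by decide +kernel)
theorem L127629 : W_46 (nat_lit 10) (nat_lit 0x10000e0002000000000000000000000000000) (nat_lit 0x0) (nat_lit 0x28003c001e000b8001800dc001e000c000000000000000000) := Q_46 (nat_lit 124) (C_46 L127576 (C_46 L127546 (C_46 L127545 (C_46 L127628 N_46)))) (by decide +kernel)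
theorem L127630 : W_46 (nat_lit 2) (nat_lit 0x12000f0007800040000000000000000000000) (nat_lit 0x0) (nat_lit 0x400000000000000002000100000000000000) := D_46 (nat_lit 73) (nat_lit 142) (nat_lit 56) (nat_lit 7) (nat_lit 5) (nat_lit 4) (nat_lit 7) (nat_lit 5) (nat_lit 3) (by decide +kernel)
theorem L127631 : W_46 (nat_lit 3) (nat_lit 0x12000f0007800000000000000000000000000) (nat_lit 0x0) (nat_lit 0x400000000000060002000100000000000000) := T_46 (nat_lit 90) (nat_lit 89) (nat_lit 0) (nat_lit 8) (nat_lit 6) L127630 (by decide +kernel)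
theorem L127632 : W_46 (nat_lit 4) (nat_lit 0x10000f0007800000000000000000000000000) (nat_lit 0x0) (nat_lit 0x700000000000060002000100000000000000) := T_46 (nat_lit 141) (nat_lit 140) (nat_lit 1) (nat_lit 8) (nat_lit 7) L127631 (by decide +kernel)
theorem L127633 : W_46 (nat_lit 5) (nat_lit 0x10000f0007000000000000000000000000000) (nat_lit 0x0) (nat_lit 0x700000000c00060002000100000000000000) := T_46 (nat_lit 107) (nat_lit 106) (nat_lit 3) (nat_lit 4) (nat_lit 6) L127632 (by decide +kernel)
theorem L127634 : W_46 (nat_lit 6) (nat_lit 0x10000f0003000000000000000000000000000) (nat_lit 0x0) (nat_lit 0x70000000cc00060002000100000000000000) := T_46 (nat_lit 110) (nat_lit 111) (nat_lit 2) (nat_lit 5) (nat_lit 7) L127633 (by decide +kernel)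
theorem L127635 : W_46 (nat_lit 2) (nat_lit 0x40012000f0007000000008000000000000000000) (nat_lit 0x0) (nat_lit 0x400000000000080004000000000000000000) := D_46 (nat_lit 91) (nat_lit 74) (nat_lit 142) (nat_lit 5) (nat_lit 6) (nat_lit 4) (nat_lit 5) (nat_lit 6) (nat_lit 5) (by decide +kernel)
theorem L127636 : W_46 (nat_lit 3) (nat_lit 0x12000f0007000000008000000000000000000) (nat_lit 0x0) (nat_lit 0x80004000400000000000080004000000000000000000) := T_46 (nat_lit 158) (nat_lit 175) (nat_lit 6) (nat_lit 5) (nat_lit 10) L127635 (by decide +kernel)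
theorem L127637 : W_46 (nat_lit 4) (nat_lit 0x12000f0007000000000000000000000000000) (nat_lit 0x0) (nat_lit 0x8000400040000000000018000c000000000000000000) := T_46 (nat_lit 75) (nat_lit 92) (nat_lit 7) (nat_lit 7) (nat_lit 4) L127636 (by decide +kernel)
theorem L127638 : W_46 (nat_lit 5) (nat_lit 0x10000f0007000000000000000000000000000) (nat_lit 0x0) (nat_lit 0x8000400070000000000018000c000000000000000000) := T_46 (nat_lit 141) (nat_lit 140) (nat_lit 1) (nat_lit 8) (nat_lit 7) L127637 (by decide +kernel)
theorem L127639 : W_46 (nat_lit 6) (nat_lit 0x10000f0003000000000000000000000000000) (nat_lit 0x0) (nat_lit 0x8000400070000000c00018000c000000000000000000) := T_46 (nat_lit 110) (nat_lit 111) (nat_lit 2) (nat_lit 5) (nat_lit 7) L127638 (by decide +kernel)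
theorem L127640 : W_46 (nat_lit 9) (nat_lit 0x10000f0002000000000000000000000000000) (nat_lit 0x0) (nat_lit 0x80004000f0000000dc001e000e000700000000000000) := Q_46 (nat_lit 108) (C_46 L127634 (C_46 L124873 (C_46 L127599 (C_46 L127639 N_46)))) (by decide +kernel)
theorem L127641 : W_46 (nat_lit 10) (nat_lit 0x10000e0002000000000000000000000000000) (nat_lit 0x0) (nat_lit 0x80004000f8001800dc001e000e000700000000000000) := Q_46 (nat_lit 124) (C_46 L127576 (C_46 L127546 (C_46 L127545 (C_46 L127640 N_46)))) (by decide +kernel)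
theorem L127642 : W_46 (nat_lit 2) (nat_lit 0x100018000e0002000180000000000000000000000) (nat_lit 0x0) (nat_lit 0x4000200000000000000004000000000000000000000000000) := D_46 (nat_lit 177) (nat_lit 194) (nat_lit 110) (nat_lit 6) (nat_lit 7) (nat_lit 11) (nat_lit 6) (nat_lit 7) (nat_lit 10) (by decide +kernel)
theorem L127643 : W_46 (nat_lit 3) (nat_lit 0x18000e0002000180000000000000000000000) (nat_lit 0x0) (nat_lit 0x4000200010000000000005000000000000000000000000000) := T_46 (nat_lit 160) (nat_lit 108) (nat_lit 4) (nat_lit 7) (nat_lit 9) L127642 (by decide +kernel)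
theorem L127644 : W_46 (nat_lit 4) (nat_lit 0x18000e0002000100000000000000000000000) (nat_lit 0x0) (nat_lit 0x4000200010000000000005000080004000000000000000000) := T_46 (nat_lit 91) (nat_lit 74) (nat_lit 4) (nat_lit 7) (nat_lit 8) L127643 (by decide +kernel)
theorem L127645 : W_46 (nat_lit 5) (nat_lit 0x18000e0002000000000000000000000000000) (nat_lit 0x0) (nat_lit 0x400020001000000000000500018000c000000000000000000) := T_46 (nat_lit 92) (nat_lit 75) (nat_lit 7) (nat_lit 7) (nat_lit 4) L127644 (by decide +kernel)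
theorem L127646 : W_46 (nat_lit 2) (nat_lit 0x1e000e0002000180000000000000000000000) (nat_lit 0x0) (nat_lit 0x6000000000001000000000000000000000000000) := D_46 (nat_lit 158) (nat_lit 157) (nat_lit 108) (nat_lit 1) (nat_lit 8) (nat_lit 8) (nat_lit 5) (nat_lit 6) (nat_lit 5) (by decide +kernel)
theorem L127647 : W_46 (nat_lit 3) (nat_lit 0x1e000e0002000100000000000000000000000) (nat_lit 0x0) (nat_lit 0x6000000000001000080004000000000000000000) := T_46 (nat_lit 91) (nat_lit 74) (nat_lit 4) (nat_lit 7) (nat_lit 8) L127646 (by decide +kernel)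
theorem L127648 : W_46 (nat_lit 4) (nat_lit 0x1c000e0002000100000000000000000000000) (nat_lit 0x0) (nat_lit 0x6000300000001000080004000000000000000000) := T_46 (nat_lit 141) (nat_lit 140) (nat_lit 2) (nat_lit 4) (nat_lit 8) L127647 (by decide +kernel)
theorem L127649 : W_46 (nat_lit 5) (nat_lit 0x18000e0002000100000000000000000000000) (nat_lit 0x0) (nat_lit 0xe000700000001000080004000000000000000000) := T_46 (nat_lit 142) (nat_lit 159) (nat_lit 5) (nat_lit 7) (nat_lit 5) L127648 (by decide +kernel)
theorem L127650 : W_46 (nat_lit 6) (nat_lit 0x18000e0002000000000000000000000000000) (nat_lit 0x0) (nat_lit 0xe00070000000100018000c000000000000000000) := T_46 (nat_lit 92) (nat_lit 75) (nat_lit 7) (nat_lit 7) (nat_lit 4) L127649 (by decide +kernel)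
theorem L127651 : W_46 (nat_lit 2) (nat_lit 0x100018000e0002000000000000000000000000000) (nat_lit 0x0) (nat_lit 0x4000200000000000000004000000000000000000000000000) := D_46 (nat_lit 177) (nat_lit 194) (nat_lit 110) (nat_lit 6) (nat_lit 7) (nat_lit 11) (nat_lit 6) (nat_lit 7) (nat_lit 10) (by decide +kernel)
theorem L127652 : W_46 (nat_lit 7) (nat_lit 0x18000e0002000000000000000000000000000) (nat_lit 0x0) (nat_lit 0x400038001e000400000005c000c0000000000000000000000) := Q_46 (nat_lit 160) (C_46 L127488 (C_46 L127651 (C_46 L127456 N_46))) (by decide +kernel)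
theorem L127653 : W_46 (nat_lit 2) (nat_lit 0x180018000e0002000180000000000000000000000) (nat_lit 0x0) (nat_lit 0x4000200000000000000004000000000000000000000000000) := D_46 (nat_lit 177) (nat_lit 110) (nat_lit 194) (nat_lit 6) (nat_lit 7) (nat_lit 10) (nat_lit 6) (nat_lit 7) (nat_lit 11) (by decide +kernel)
theorem L127654 : W_46 (nat_lit 3) (nat_lit 0x80018000e0002000180000000000000000000000) (nat_lit 0x0) (nat_lit 0x4000300010000000000004000000000000000000000000000) := T_46 (nat_lit 160) (nat_lit 176) (nat_lit 5) (nat_lit 7) (nat_lit 6) L127653 (by decide +kernel)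
theorem L127655 : W_46 (nat_lit 4) (nat_lit 0x80018000e0002000100000000000000000000000) (nat_lit 0x0) (nat_lit 0x4000300010000000000004000080004000000000000000000) := T_46 (nat_lit 91) (nat_lit 74) (nat_lit 4) (nat_lit 7) (nat_lit 8) L127654 (by decide +kernel)
theorem L127656 : W_46 (nat_lit 5) (nat_lit 0x18000e0002000100000000000000000000000) (nat_lit 0x0) (nat_lit 0x4000300018000400000004000080004000000000000000000) := T_46 (nat_lit 159) (nat_lit 142) (nat_lit 5) (nat_lit 7) (nat_lit 5) L127655 (by decide +kernel)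
theorem L127657 : W_46 (nat_lit 6) (nat_lit 0x18000e0002000000000000000000000000000) (nat_lit 0x0) (nat_lit 0x400030001800040000000400018000c000000000000000000) := T_46 (nat_lit 92) (nat_lit 75) (nat_lit 7) (nat_lit 7) (nat_lit 4) L127656 (by decide +kernel)
theorem L127658 : W_46 (nat_lit 2) (nat_lit 0x180018000e0002000100000000000000000000000) (nat_lit 0x0) (nat_lit 0x200000000000000005000000000000000000000000000) := D_46 (nat_lit 177) (nat_lit 108) (nat_lit 110) (nat_lit 4) (nat_lit 7) (nat_lit 10) (nat_lit 6) (nat_lit 7) (nat_lit 10) (by decide +kernel)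
theorem L127659 : W_46 (nat_lit 3) (nat_lit 0x80018000e0002000100000000000000000000000) (nat_lit 0x0) (nat_lit 0x300010000000000005000000000000000000000000000) := T_46 (nat_lit 160) (nat_lit 176) (nat_lit 5) (nat_lit 7) (nat_lit 6) L127658 (by decide +kernel)
theorem L127660 : W_46 (nat_lit 4) (nat_lit 0x18000e0002000100000000000000000000000) (nat_lit 0x0) (nat_lit 0x300018000400000005000000000000000000000000000) := T_46 (nat_lit 159) (nat_lit 142) (nat_lit 5) (nat_lit 7) (nat_lit 5) L127659 (by decide +kernel)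
theorem L127661 : W_46 (nat_lit 5) (nat_lit 0x18000e0002000000000000000000000000000) (nat_lit 0x0) (nat_lit 0x300018000400000005000100008000000000000000000) := T_46 (nat_lit 92) (nat_lit 75) (nat_lit 7) (nat_lit 7) (nat_lit 4) L127660 (by decide +kernel)
theorem L127662 : W_46 (nat_lit 8) (nat_lit 0x10000e0002000000000000000000000000000) (nat_lit 0x0) (nat_lit 0x400038001e000f00000005c001c000c000000000000000000) := Q_46 (nat_lit 143) (C_46 L127645 (C_46 L127650 (C_46 L127652 (C_46 L127657 (C_46 L127661 N_46))))) (by decide +kernel)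
theorem L127663 : W_46 (nat_lit 3) (nat_lit 0x10000f0002800000000000000000000000000) (nat_lit 0x0) (nat_lit 0xb80008000000000000000000000000000000) := T_46 (nat_lit 123) (nat_lit 143) (nat_lit 3) (nat_lit 4) (nat_lit 7) L125325 (by decide +kernel)
theorem L127664 : W_46 (nat_lit 4) (nat_lit 0x10000f0002000000000000000000000000000) (nat_lit 0x0) (nat_lit 0xb80008000c00000000000000000000000000) := T_46 (nat_lit 107) (nat_lit 106) (nat_lit 0) (nat_lit 8) (nat_lit 7) L127663 (by decide +kernel)
theorem L127665 : W_46 (nat_lit 3) (nat_lit 0x10000f0007800000000000000000000000000) (nat_lit 0x0) (nat_lit 0x8000400000000000060002000000000000000000) := T_46 (nat_lit 90) (nat_lit 89) (nat_lit 0) (nat_lit 8) (nat_lit 6) L125341 (by decide +kernel)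
theorem L127666 : W_46 (nat_lit 4) (nat_lit 0x10000f0007000000000000000000000000000) (nat_lit 0x0) (nat_lit 0x8000400000000c00060002000000000000000000) := T_46 (nat_lit 107) (nat_lit 106) (nat_lit 3) (nat_lit 4) (nat_lit 6) L127665 (by decide +kernel)
theorem L127667 : W_46 (nat_lit 5) (nat_lit 0x10000f0003000000000000000000000000000) (nat_lit 0x0) (nat_lit 0x800040000000cc00060002000000000000000000) := T_46 (nat_lit 110) (nat_lit 111) (nat_lit 2) (nat_lit 5) (nat_lit 7) L127666 (by decide +kernel)
theorem L127668 : W_46 (nat_lit 2) (nat_lit 0x40012000f000b000000000000000000000000000) (nat_lit 0x0) (nat_lit 0x400000000000080004000000000000000000) := D_46 (nat_lit 91) (nat_lit 74) (nat_lit 142) (nat_lit 5) (nat_lit 6) (nat_lit 4) (nat_lit 5) (nat_lit 6) (nat_lit 5) (by decide +kernel)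
theorem L127669 : W_46 (nat_lit 3) (nat_lit 0x12000f000b000000000000000000000000000) (nat_lit 0x0) (nat_lit 0x80004000400000000000080004000000000000000000) := T_46 (nat_lit 158) (nat_lit 175) (nat_lit 6) (nat_lit 5) (nat_lit 10) L127668 (by decide +kernel)
theorem L127670 : W_46 (nat_lit 4) (nat_lit 0x12000f0003000000000000000000000000000) (nat_lit 0x0) (nat_lit 0x8000400040000000c000080004000000000000000000) := T_46 (nat_lit 111) (nat_lit 110) (nat_lit 2) (nat_lit 5) (nat_lit 7) L127669 (by decide +kernel)
theorem L127671 : W_46 (nat_lit 5) (nat_lit 0x10000f0003000000000000000000000000000) (nat_lit 0x0) (nat_lit 0x8000400070000000c000080004000000000000000000) := T_46 (nat_lit 141) (nat_lit 140) (nat_lit 1) (nat_lit 8) (nat_lit 7) L127670 (by decide +kernel)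
theorem L127672 : W_46 (nat_lit 7) (nat_lit 0x10000f0002000000000000000000000000000) (nat_lit 0x0) (nat_lit 0x8000c00070000000dc000e0006000100000000000000) := Q_46 (nat_lit 108) (C_46 L127634 (C_46 L124873 (C_46 L127667 (C_46 L127671 N_46)))) (by decide +kernel)
theorem L127673 : W_46 (nat_lit 8) (nat_lit 0x10000e0002000000000000000000000000000) (nat_lit 0x0) (nat_lit 0x8000c000f8001800dc000e0006000100000000000000) := Q_46 (nat_lit 124) (C_46 L127546 (C_46 L127542 (C_46 L127664 (C_46 L127672 N_46)))) (by decide +kernel)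
theorem L127674 : W_46 (nat_lit 2) (nat_lit 0x12400fc002400000008000000000000000000) (nat_lit 0x0) (nat_lit 0x420002000000000000000000000000000000) := D_46 (nat_lit 121) (nat_lit 137) (nat_lit 142) (nat_lit 1) (nat_lit 5) (nat_lit 7) (nat_lit 3) (nat_lit 2) (nat_lit 7) (by decide +kernel)
theorem L127675 : W_46 (nat_lit 3) (nat_lit 0x12000fc002400000008000000000000000000) (nat_lit 0x0) (nat_lit 0x4e0002000000000000000000000000000000) := T_46 (nat_lit 138) (nat_lit 139) (nat_lit 1) (nat_lit 6) (nat_lit 7) L127674 (by decide +kernel)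
theorem L127676 : W_46 (nat_lit 4) (nat_lit 0x12000f8002400000008000000000000000000) (nat_lit 0x0) (nat_lit 0x4e0006001000000000000000000000000000) := T_46 (nat_lit 122) (nat_lit 108) (nat_lit 2) (nat_lit 3) (nat_lit 7) L127675 (by decide +kernel)
theorem L127677 : W_46 (nat_lit 5) (nat_lit 0x12000f0002400000008000000000000000000) (nat_lit 0x0) (nat_lit 0x4e000e001200000000000000000000000000) := T_46 (nat_lit 123) (nat_lit 105) (nat_lit 0) (nat_lit 7) (nat_lit 7) L127676 (by decide +kernel)
theorem L127678 : W_46 (nat_lit 6) (nat_lit 0x12000f0002000000008000000000000000000) (nat_lit 0x0) (nat_lit 0x4e000e001e00000000000000000000000000) := T_46 (nat_lit 106) (nat_lit 107) (nat_lit 0) (nat_lit 8) (nat_lit 7) L127677 (by decide +kernel)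
theorem L127679 : W_46 (nat_lit 7) (nat_lit 0x10000f0002000000008000000000000000000) (nat_lit 0x0) (nat_lit 0x7e000e001e00000000000000000000000000) := T_46 (nat_lit 141) (nat_lit 140) (nat_lit 1) (nat_lit 8) (nat_lit 7) L127678 (by decide +kernel)
theorem L127680 : W_46 (nat_lit 8) (nat_lit 0x10000f0002000000000000000000000000000) (nat_lit 0x0) (nat_lit 0x7e000e001e00100008000000000000000000) := T_46 (nat_lit 75) (nat_lit 92) (nat_lit 7) (nat_lit 7) (nat_lit 4) L127679 (by decide +kernel)
theorem L127681 : W_46 (nat_lit 2) (nat_lit 0x10000fc002800000008000000000000000000) (nat_lit 0x0) (nat_lit 0x1c0000000000000000000000000000000000) := D_46 (nat_lit 139) (nat_lit 138) (nat_lit 140) (nat_lit 1) (nat_lit 6) (nat_lit 7) (nat_lit 1) (nat_lit 7) (nat_lit 7) (by decide +kernel)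
theorem L127682 : W_46 (nat_lit 3) (nat_lit 0x10000f8002800000008000000000000000000) (nat_lit 0x0) (nat_lit 0x1c0004001000000000000000000000000000) := T_46 (nat_lit 122) (nat_lit 108) (nat_lit 2) (nat_lit 3) (nat_lit 7) L127681 (by decide +kernel)
theorem L127683 : W_46 (nat_lit 4) (nat_lit 0x10000f0002800000008000000000000000000) (nat_lit 0x0) (nat_lit 0x9c000c001000000000000000000000000000) := T_46 (nat_lit 123) (nat_lit 143) (nat_lit 3) (nat_lit 4) (nat_lit 7) L127682 (by decide +kernel)
theorem L127684 : W_46 (nat_lit 5) (nat_lit 0x10000f0002800000000000000000000000000) (nat_lit 0x0) (nat_lit 0x9c000c001000100008000000000000000000) := T_46 (nat_lit 75) (nat_lit 92) (nat_lit 7) (nat_lit 7) (nat_lit 4) L127683 (by decide +kernel)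
theorem L127685 : W_46 (nat_lit 6) (nat_lit 0x10000f0002000000000000000000000000000) (nat_lit 0x0) (nat_lit 0x9c000c001c00100008000000000000000000) := T_46 (nat_lit 107) (nat_lit 106) (nat_lit 0) (nat_lit 8) (nat_lit 7) L127684 (by decide +kernel)
theorem L127686 : W_46 (nat_lit 2) (nat_lit 0x10000f8002000000000000000000000000000) (nat_lit 0x0) (nat_lit 0xe00000000000000000000000000) := D_46 (nat_lit 106) (nat_lit 107) (nat_lit 105) (nat_lit 0) (nat_lit 8) (nat_lit 7) (nat_lit 0) (nat_lit 7) (nat_lit 7) (by decide +kernel)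
theorem L127687 : W_46 (nat_lit 3) (nat_lit 0x10000f0002000000000000000000000000000) (nat_lit 0x0) (nat_lit 0x800008000e00000000000000000000000000) := T_46 (nat_lit 123) (nat_lit 143) (nat_lit 3) (nat_lit 4) (nat_lit 7) L127686 (by decide +kernel)
theorem L127688 : W_46 (nat_lit 10) (nat_lit 0x10000e0002000000000000000000000000000) (nat_lit 0x0) (nat_lit 0x10000c000fe001e001e001f000f000000000000000000) := Q_46 (nat_lit 124) (C_46 L127664 (C_46 L127680 (C_46 L127685 (C_46 L127545 (C_46 L127687 (C_46 L127591 N_46)))))) (by decide +kernel)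
theorem L127689 : W_46 (nat_lit 9) (nat_lit 0x10000e0002000000000000000000000000000) (nat_lit 0x0) (nat_lit 0x8000c0007e001e00de001e000e000100000000000000) := Q_46 (nat_lit 124) (C_46 L127576 (C_46 L127680 (C_46 L127672 (C_46 L127546 N_46)))) (by decide +kernel)
theorem L127690 : W_46 (nat_lit 2) (nat_lit 0x14000f0006800140000000000000000000000) (nat_lit 0x0) (nat_lit 0x10000a0000000000000000000000) := D_46 (nat_lit 89) (nat_lit 91) (nat_lit 108) (nat_lit 3) (nat_lit 4) (nat_lit 5) (nat_lit 0) (nat_lit 8) (nat_lit 6) (by decide +kernel)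
theorem L127691 : W_46 (nat_lit 3) (nat_lit 0x14000f0006800100000000000000000000000) (nat_lit 0x0) (nat_lit 0x10000e0002000000000000000000) := T_46 (nat_lit 90) (nat_lit 73) (nat_lit 7) (nat_lit 5) (nat_lit 4) L127690 (by decide +kernel)
theorem L127692 : W_46 (nat_lit 4) (nat_lit 0x14000f0006000100000000000000000000000) (nat_lit 0x0) (nat_lit 0x1c000e0002000000000000000000) := T_46 (nat_lit 107) (nat_lit 106) (nat_lit 0) (nat_lit 8) (nat_lit 7) L127691 (by decide +kernel)
theorem L127693 : W_46 (nat_lit 5) (nat_lit 0x14000f0006000000000000000000000000000) (nat_lit 0x0) (nat_lit 0x1c001e000a000000000000000000) := T_46 (nat_lit 92) (nat_lit 75) (nat_lit 7) (nat_lit 7) (nat_lit 4) L127692 (by decide +kernel)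
theorem L127694 : W_46 (nat_lit 6) (nat_lit 0x14000f0002000000000000000000000000000) (nat_lit 0x0) (nat_lit 0xdc001e000a000000000000000000) := T_46 (nat_lit 110) (nat_lit 111) (nat_lit 2) (nat_lit 5) (nat_lit 7) L127693 (by decide +kernel)
theorem L127695 : W_46 (nat_lit 2) (nat_lit 0x80014000f0006800000000000000000000000000) (nat_lit 0x0) (nat_lit 0x1000040002000000000000000000) := D_46 (nat_lit 90) (nat_lit 73) (nat_lit 108) (nat_lit 7) (nat_lit 5) (nat_lit 4) (nat_lit 4) (nat_lit 6) (nat_lit 9) (by decide +kernel)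
theorem L127696 : W_46 (nat_lit 3) (nat_lit 0x14000f0006800000000000000000000000000) (nat_lit 0x0) (nat_lit 0x100008000000000001000040002000000000000000000) := T_46 (nat_lit 159) (nat_lit 176) (nat_lit 6) (nat_lit 6) (nat_lit 10) L127695 (by decide +kernel)
theorem L127697 : W_46 (nat_lit 4) (nat_lit 0x14000f0002800000000000000000000000000) (nat_lit 0x0) (nat_lit 0x10000800000000000d000040002000000000000000000) := T_46 (nat_lit 110) (nat_lit 111) (nat_lit 2) (nat_lit 5) (nat_lit 7) L127696 (by decide +kernel)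
theorem L127698 : W_46 (nat_lit 5) (nat_lit 0x14000f0002000000000000000000000000000) (nat_lit 0x0) (nat_lit 0x10000800000000000dc00040002000000000000000000) := T_46 (nat_lit 107) (nat_lit 106) (nat_lit 0) (nat_lit 8) (nat_lit 7) L127697 (by decide +kernel)
theorem L127699 : W_46 (nat_lit 7) (nat_lit 0x10000f0002000000000000000000000000000) (nat_lit 0x0) (nat_lit 0x100008000c0000000dc001e000a000000000000000000) := Q_46 (nat_lit 142) (C_46 L127572 (C_46 L127694 (C_46 L127698 N_46))) (by decide +kernel)
theorem L127700 : W_46 (nat_lit 8) (nat_lit 0x10000e0002000000000000000000000000000) (nat_lit 0x0) (nat_lit 0x100008000c0001800de001e000a000000000000000000) := Q_46 (nat_lit 124) (C_46 L127687 (C_46 L127546 (C_46 L127699 N_46))) (by decide +kernel)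
theorem L127701 : W_46 (nat_lit 2) (nat_lit 0x16000f0006800040008000000000000000000) (nat_lit 0x0) (nat_lit 0x1000020001000000000000000000) := D_46 (nat_lit 89) (nat_lit 72) (nat_lit 108) (nat_lit 4) (nat_lit 5) (nat_lit 8) (nat_lit 0) (nat_lit 8) (nat_lit 6) (by decide +kernel)
theorem L127702 : W_46 (nat_lit 3) (nat_lit 0x16000f0006800000008000000000000000000) (nat_lit 0x0) (nat_lit 0x1000060003000000000000000000) := T_46 (nat_lit 90) (nat_lit 73) (nat_lit 7) (nat_lit 5) (nat_lit 4) L127701 (by decide +kernel)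
theorem L127703 : W_46 (nat_lit 4) (nat_lit 0x16000f0002800000008000000000000000000) (nat_lit 0x0) (nat_lit 0xd000060003000000000000000000) := T_46 (nat_lit 110) (nat_lit 111) (nat_lit 2) (nat_lit 5) (nat_lit 7) L127702 (by decide +kernel)
theorem L127704 : W_46 (nat_lit 5) (nat_lit 0x16000f0002000000008000000000000000000) (nat_lit 0x0) (nat_lit 0xdc00060003000000000000000000) := T_46 (nat_lit 107) (nat_lit 106) (nat_lit 0) (nat_lit 8) (nat_lit 7) L127703 (by decide +kernel)
theorem L127705 : W_46 (nat_lit 6) (nat_lit 0x16000f0002000000000000000000000000000) (nat_lit 0x0) (nat_lit 0xdc0016000b000000000000000000) := T_46 (nat_lit 75) (nat_lit 92) (nat_lit 7) (nat_lit 7) (nat_lit 4) L127704 (by decide +kernel)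
theorem L127706 : W_46 (nat_lit 7) (nat_lit 0x14000f0002000000000000000000000000000) (nat_lit 0x0) (nat_lit 0x30000000dc0016000b000000000000000000) := T_46 (nat_lit 141) (nat_lit 140) (nat_lit 1) (nat_lit 8) (nat_lit 7) L127705 (by decide +kernel)
theorem L127707 : W_46 (nat_lit 8) (nat_lit 0x10000f0002000000000000000000000000000) (nat_lit 0x0) (nat_lit 0x100008000f0000000dc0016000b000000000000000000) := Q_46 (nat_lit 142) (C_46 L127572 (C_46 L127698 (C_46 L127706 N_46))) (by decide +kernel)
theorem L127708 : W_46 (nat_lit 9) (nat_lit 0x10000e0002000000000000000000000000000) (nat_lit 0x0) (nat_lit 0x100008000fe001e00de0016000b000000000000000000) := Q_46 (nat_lit 124) (C_46 L127687 (C_46 L127680 (C_46 L127576 (C_46 L127707 N_46)))) (by decide +kernel)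
theorem L127709 : W_46 (nat_lit 2) (nat_lit 0x16000f0003000000000000000000000000000) (nat_lit 0x0) (nat_lit 0x80004000000000000000080000000000000000000000) := D_46 (nat_lit 158) (nat_lit 175) (nat_lit 91) (nat_lit 6) (nat_lit 5) (nat_lit 10) (nat_lit 5) (nat_lit 6) (nat_lit 5) (by decide +kernel)
theorem L127710 : W_46 (nat_lit 3) (nat_lit 0x14000f0003000000000000000000000000000) (nat_lit 0x0) (nat_lit 0x80004000300000000000080000000000000000000000) := T_46 (nat_lit 141) (nat_lit 140) (nat_lit 1) (nat_lit 8) (nat_lit 7) L127709 (by decide +kernel)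
theorem L127711 : W_46 (nat_lit 2) (nat_lit 0x1800070016000f0006000000008000000000000000000) (nat_lit 0x0) (nat_lit 0x640000000000000000000000000000000000000000000) := D_46 (nat_lit 177) (nat_lit 178) (nat_lit 174) (nat_lit 0) (nat_lit 8) (nat_lit 10) (nat_lit 0) (nat_lit 7) (nat_lit 10) (by decide +kernel)
theorem L127712 : W_46 (nat_lit 3) (nat_lit 0x1800060016000f0006000000008000000000000000000) (nat_lit 0x0) (nat_lit 0x640001800000000000000000000000000000000000000) := T_46 (nat_lit 156) (nat_lit 155) (nat_lit 3) (nat_lit 2) (nat_lit 9) L127711 (by decide +kernel)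
theorem L127713 : W_46 (nat_lit 4) (nat_lit 0x800060016000f0006000000008000000000000000000) (nat_lit 0x0) (nat_lit 0x2000740001800000000000000000000000000000000000000) := T_46 (nat_lit 176) (nat_lit 193) (nat_lit 7) (nat_lit 5) (nat_lit 7) L127712 (by decide +kernel)
theorem L127714 : W_46 (nat_lit 5) (nat_lit 0x800040016000f0006000000008000000000000000000) (nat_lit 0x0) (nat_lit 0x2000740003800800000000000000000000000000000000000) := T_46 (nat_lit 157) (nat_lit 143) (nat_lit 1) (nat_lit 8) (nat_lit 8) L127713 (by decide +kernel)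
theorem L127715 : W_46 (nat_lit 6) (nat_lit 0x40016000f0006000000008000000000000000000) (nat_lit 0x0) (nat_lit 0x30007c0003800800000000000000000000000000000000000) := T_46 (nat_lit 175) (nat_lit 192) (nat_lit 6) (nat_lit 5) (nat_lit 11) L127714 (by decide +kernel)
theorem L127716 : W_46 (nat_lit 7) (nat_lit 0x40016000f0002000000008000000000000000000) (nat_lit 0x0) (nat_lit 0x30007c000380080000000c000000000000000000000000000) := T_46 (nat_lit 110) (nat_lit 111) (nat_lit 2) (nat_lit 5) (nat_lit 7) L127715 (by decide +kernel)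
theorem L127717 : W_46 (nat_lit 2) (nat_lit 0x40016000f0002000000000000000000000000000) (nat_lit 0x0) (nat_lit 0x1000080000000000000001000000000000000000000000000) := D_46 (nat_lit 175) (nat_lit 192) (nat_lit 108) (nat_lit 6) (nat_lit 5) (nat_lit 11) (nat_lit 6) (nat_lit 5) (nat_lit 10) (by decide +kernel)
theorem L127718 : W_46 (nat_lit 8) (nat_lit 0x40016000f0002000000000000000000000000000) (nat_lit 0x0) (nat_lit 0x30007c000380080000000c000100008000000000000000000) := T_46 (nat_lit 75) (nat_lit 92) (nat_lit 7) (nat_lit 7) (nat_lit 4) L127716 (by decide +kernel)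
theorem L127719 : W_46 (nat_lit 2) (nat_lit 0x40016000f0002000180000000000000000000000) (nat_lit 0x0) (nat_lit 0x2000800000000000000004000000000000000000) := D_46 (nat_lit 143) (nat_lit 157) (nat_lit 74) (nat_lit 1) (nat_lit 8) (nat_lit 8) (nat_lit 4) (nat_lit 7) (nat_lit 8) (by decide +kernel)
theorem L127720 : W_46 (nat_lit 3) (nat_lit 0x40016000f0002000080000000000000000000000) (nat_lit 0x0) (nat_lit 0x200080000000000010000c000000000000000000) := T_46 (nat_lit 92) (nat_lit 75) (nat_lit 7) (nat_lit 7) (nat_lit 4) L127719 (by decide +kernel)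
theorem L127721 : W_46 (nat_lit 4) (nat_lit 0x40016000f0002000000000000000000000000000) (nat_lit 0x0) (nat_lit 0x200080000000100018000c000000000000000000) := T_46 (nat_lit 91) (nat_lit 108) (nat_lit 5) (nat_lit 6) (nat_lit 5) L127720 (by decide +kernel)
theorem L127722 : W_46 (nat_lit 9) (nat_lit 0x16000f0002000000000000000000000000000) (nat_lit 0x0) (nat_lit 0x30007c000780080000000d00018000c000000000000000000) := Q_46 (nat_lit 158) (C_46 L127717 (C_46 L127718 (C_46 L127721 N_46))) (by decide +kernel)
theorem L127723 : W_46 (nat_lit 10) (nat_lit 0x14000f0002000000000000000000000000000) (nat_lit 0x0) (nat_lit 0x30007c0007800b0000000d00018000c000000000000000000) := T_46 (nat_lit 141) (nat_lit 140) (nat_lit 1) (nat_lit 8) (nat_lit 7) L127722 (by decide +kernel)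
theorem L127724 : W_46 (nat_lit 2) (nat_lit 0x1c0014000f000b000000000000000000000000000) (nat_lit 0x0) (nat_lit 0x2000800000000000080000000000000000000000) := D_46 (nat_lit 143) (nat_lit 91) (nat_lit 157) (nat_lit 7) (nat_lit 6) (nat_lit 5) (nat_lit 2) (nat_lit 4) (nat_lit 9) (by decide +kernel)
theorem L127725 : W_46 (nat_lit 3) (nat_lit 0xc0014000f000b000000000000000000000000000) (nat_lit 0x0) (nat_lit 0x200012000800000000000080000000000000000000000) := T_46 (nat_lit 160) (nat_lit 177) (nat_lit 7) (nat_lit 6) (nat_lit 6) L127724 (by decide +kernel)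
theorem L127726 : W_46 (nat_lit 4) (nat_lit 0x80014000f000b000000000000000000000000000) (nat_lit 0x0) (nat_lit 0x280016000800000000000080000000000000000000000) := T_46 (nat_lit 158) (nat_lit 175) (nat_lit 5) (nat_lit 6) (nat_lit 6) L127725 (by decide +kernel)
theorem L127727 : W_46 (nat_lit 5) (nat_lit 0x14000f000b000000000000000000000000000) (nat_lit 0x0) (nat_lit 0x38001e000800000000000080000000000000000000000) := T_46 (nat_lit 159) (nat_lit 176) (nat_lit 6) (nat_lit 6) (nat_lit 10) L127726 (by decide +kernel)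
theorem L127728 : W_46 (nat_lit 6) (nat_lit 0x14000f0003000000000000000000000000000) (nat_lit 0x0) (nat_lit 0x38001e00080000000c000080000000000000000000000) := T_46 (nat_lit 111) (nat_lit 110) (nat_lit 2) (nat_lit 5) (nat_lit 7) L127727 (by decide +kernel)
theorem L127729 : W_46 (nat_lit 2) (nat_lit 0x1f0016000f000b000000000000000000000000000) (nat_lit 0x0) (nat_lit 0x70000000000000000000000000000000000000000000) := D_46 (nat_lit 173) (nat_lit 174) (nat_lit 172) (nat_lit 1) (nat_lit 7) (nat_lit 9) (nat_lit 1) (nat_lit 6) (nat_lit 9) (by decide +kernel)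
theorem L127730 : W_46 (nat_lit 3) (nat_lit 0x1e0016000f000b000000000000000000000000000) (nat_lit 0x0) (nat_lit 0x70001800000000000000000000000000000000000000) := T_46 (nat_lit 156) (nat_lit 155) (nat_lit 2) (nat_lit 2) (nat_lit 9) L127729 (by decide +kernel)
theorem L127731 : W_46 (nat_lit 4) (nat_lit 0x1c0016000f000b000000000000000000000000000) (nat_lit 0x0) (nat_lit 0x70003800800000000000000000000000000000000000) := T_46 (nat_lit 157) (nat_lit 143) (nat_lit 2) (nat_lit 4) (nat_lit 9) L127730 (by decide +kernel)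
theorem L127732 : W_46 (nat_lit 5) (nat_lit 0x1c0016000f0003000000000000000000000000000) (nat_lit 0x0) (nat_lit 0x7000380080000000c000000000000000000000000000) := T_46 (nat_lit 111) (nat_lit 110) (nat_lit 2) (nat_lit 5) (nat_lit 7) L127731 (by decide +kernel)
theorem L127733 : W_46 (nat_lit 6) (nat_lit 0x180016000f0003000000000000000000000000000) (nat_lit 0x0) (nat_lit 0xf000780080000000c000000000000000000000000000) := T_46 (nat_lit 158) (nat_lit 175) (nat_lit 6) (nat_lit 5) (nat_lit 10) L127732 (by decide +kernel)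
theorem L127734 : W_46 (nat_lit 7) (nat_lit 0x80016000f0003000000000000000000000000000) (nat_lit 0x0) (nat_lit 0x2f001780080000000c000000000000000000000000000) := T_46 (nat_lit 160) (nat_lit 177) (nat_lit 7) (nat_lit 6) (nat_lit 6) L127733 (by decide +kernel)
theorem L127735 : W_46 (nat_lit 8) (nat_lit 0x80014000f0003000000000000000000000000000) (nat_lit 0x0) (nat_lit 0x2f0017800b0000000c000000000000000000000000000) := T_46 (nat_lit 141) (nat_lit 140) (nat_lit 1) (nat_lit 8) (nat_lit 7) L127734 (by decide +kernel)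
theorem L127736 : W_46 (nat_lit 9) (nat_lit 0x14000f0003000000000000000000000000000) (nat_lit 0x0) (nat_lit 0x3f001f800b0000000c000000000000000000000000000) := T_46 (nat_lit 159) (nat_lit 176) (nat_lit 6) (nat_lit 6) (nat_lit 10) L127735 (by decide +kernel)
theorem L127737 : W_46 (nat_lit 2) (nat_lit 0x80016000f0003000080000000000000000000000) (nat_lit 0x0) (nat_lit 0x200010000800000000000000000000000000000000000) := D_46 (nat_lit 160) (nat_lit 177) (nat_lit 143) (nat_lit 7) (nat_lit 6) (nat_lit 6) (nat_lit 7) (nat_lit 6) (nat_lit 5) (by decide +kernel)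
theorem L127738 : W_46 (nat_lit 3) (nat_lit 0x80016000f0003000000000000000000000000000) (nat_lit 0x0) (nat_lit 0x200010000800000000000080004000000000000000000) := T_46 (nat_lit 91) (nat_lit 74) (nat_lit 5) (nat_lit 6) (nat_lit 4) L127737 (by decide +kernel)
theorem L127739 : W_46 (nat_lit 4) (nat_lit 0x16000f0003000000000000000000000000000) (nat_lit 0x0) (nat_lit 0x300018000800000000000080004000000000000000000) := T_46 (nat_lit 159) (nat_lit 176) (nat_lit 6) (nat_lit 6) (nat_lit 10) L127738 (by decide +kernel)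
theorem L127740 : W_46 (nat_lit 5) (nat_lit 0x14000f0003000000000000000000000000000) (nat_lit 0x0) (nat_lit 0x300018000b00000000000080004000000000000000000) := T_46 (nat_lit 141) (nat_lit 140) (nat_lit 1) (nat_lit 8) (nat_lit 7) L127739 (by decide +kernel)
theorem L127741 : W_46 (nat_lit 10) (nat_lit 0x14000f0002000000000000000000000000000) (nat_lit 0x0) (nat_lit 0x3f001f800b0000000d000080004000000000000000000) := Q_46 (nat_lit 108) (C_46 L127728 (C_46 L127710 (C_46 L127736 (C_46 L127740 N_46)))) (by decide +kernel)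
theorem L127742 : W_46 (nat_lit 2) (nat_lit 0x80014000f0002000000000000000000000000000) (nat_lit 0x0) (nat_lit 0x1000100008000000000000000000) := D_46 (nat_lit 92) (nat_lit 75) (nat_lit 108) (nat_lit 7) (nat_lit 7) (nat_lit 4) (nat_lit 6) (nat_lit 6) (nat_lit 9) (by decide +kernel)
theorem L127743 : W_46 (nat_lit 3) (nat_lit 0x14000f0002000000000000000000000000000) (nat_lit 0x0) (nat_lit 0x100008000000000001000100008000000000000000000) := T_46 (nat_lit 159) (nat_lit 176) (nat_lit 6) (nat_lit 6) (nat_lit 10) L127742 (by decide +kernel)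
theorem L127744 : W_46 (nat_lit 2) (nat_lit 0x16000f0006000100000000000000000000000) (nat_lit 0x0) (nat_lit 0x8000800000001000000000000000000000000000) := D_46 (nat_lit 159) (nat_lit 108) (nat_lit 143) (nat_lit 6) (nat_lit 6) (nat_lit 9) (nat_lit 5) (nat_lit 7) (nat_lit 5) (by decide +kernel)
theorem L127745 : W_46 (nat_lit 3) (nat_lit 0x16000f0006000000000000000000000000000) (nat_lit 0x0) (nat_lit 0x8000800000001000100008000000000000000000) := T_46 (nat_lit 92) (nat_lit 75) (nat_lit 7) (nat_lit 7) (nat_lit 4) L127744 (by decide +kernel)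
theorem L127746 : W_46 (nat_lit 4) (nat_lit 0x16000f0002000000000000000000000000000) (nat_lit 0x0) (nat_lit 0x800080000000d000100008000000000000000000) := T_46 (nat_lit 110) (nat_lit 111) (nat_lit 2) (nat_lit 5) (nat_lit 7) L127745 (by decide +kernel)
theorem L127747 : W_46 (nat_lit 5) (nat_lit 0x14000f0002000000000000000000000000000) (nat_lit 0x0) (nat_lit 0x8000b0000000d000100008000000000000000000) := T_46 (nat_lit 141) (nat_lit 140) (nat_lit 1) (nat_lit 8) (nat_lit 7) L127746 (by decide +kernel)
theorem L127748 : W_46 (nat_lit 11) (nat_lit 0x10000f0002000000000000000000000000000) (nat_lit 0x0) (nat_lit 0x30007f001f800f0000000d00018000c000000000000000000) := Q_46 (nat_lit 142) (C_46 L127572 (C_46 L127723 (C_46 L127741 (C_46 L127743 (C_46 L127747 N_46))))) (by decide +kernel)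
theorem L127749 : W_46 (nat_lit 12) (nat_lit 0x10000e0002000000000000000000000000000) (nat_lit 0x0) (nat_lit 0x30007f001f800f8001800d00018000c000000000000000000) := Q_46 (nat_lit 124) (C_46 L127576 (C_46 L127546 (C_46 L127545 (C_46 L127748 N_46)))) (by decide +kernel)
theorem L127750 : W_46 (nat_lit 13) (nat_lit 0x10000c0002000000000000000000000000000) (nat_lit 0x0) (nat_lit 0x78007f001f800fe003e00de001f000f000700000000000000) := Q_46 (nat_lit 125) (C_46 L127574 (C_46 L127592 (C_46 L127629 (C_46 L127641 (C_46 L127662 (C_46 L127673 (C_46 L127688 (C_46 L127689 (C_46 L127700 (C_46 L127708 (C_46 L127749 N_46))))))))))) (by decide +kernel)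
theorem L127751 : W_46 (nat_lit 2) (nat_lit 0x10000c0006000700000000000000000000000) (nat_lit 0x0) (nat_lit 0x1001800000000000000000000000) := D_46 (nat_lit 95) (nat_lit 96) (nat_lit 108) (nat_lit 1) (nat_lit 11) (nat_lit 5) (nat_lit 1) (nat_lit 10) (nat_lit 5) (by decide +kernel)
theorem L127752 : W_46 (nat_lit 3) (nat_lit 0x10000c0006000300000000000000000000000) (nat_lit 0x0) (nat_lit 0x1001c00020000000000000000000) := T_46 (nat_lit 94) (nat_lit 77) (nat_lit 6) (nat_lit 8) (nat_lit 8) L127751 (by decide +kernel)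
theorem L127753 : W_46 (nat_lit 4) (nat_lit 0x10000c0006000200000000000000000000000) (nat_lit 0x0) (nat_lit 0x1001d00028000000000000000000) := T_46 (nat_lit 92) (nat_lit 75) (nat_lit 7) (nat_lit 7) (nat_lit 4) L127752 (by decide +kernel)
theorem L127754 : W_46 (nat_lit 5) (nat_lit 0x10000c0006000000000000000000000000000) (nat_lit 0x0) (nat_lit 0x800000001001f00038000c00000000000000) := Q_46 (nat_lit 93) (C_46 L123159 (C_46 L123144 (C_46 L127753 N_46))) (by decide +kernel)
theorem L127755 : W_46 (nat_lit 2) (nat_lit 0x10000e000f000080000000000000000000000) (nat_lit 0x0) (nat_lit 0x10000800000000000000004000000000000000000) := D_46 (nat_lit 143) (nat_lit 160) (nat_lit 74) (nat_lit 4) (nat_lit 7) (nat_lit 9) (nat_lit 7) (nat_lit 6) (nat_lit 4) (by decide +kernel)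
theorem L127756 : W_46 (nat_lit 3) (nat_lit 0x10000e000e000080000000000000000000000) (nat_lit 0x0) (nat_lit 0x10000800000001000040004000000000000000000) := T_46 (nat_lit 108) (nat_lit 90) (nat_lit 0) (nat_lit 9) (nat_lit 6) L127755 (by decide +kernel)
theorem L127757 : W_46 (nat_lit 4) (nat_lit 0x10000c000e000080000000000000000000000) (nat_lit 0x0) (nat_lit 0x10000800030001000040004000000000000000000) := T_46 (nat_lit 125) (nat_lit 124) (nat_lit 2) (nat_lit 5) (nat_lit 7) L127756 (by decide +kernel)
theorem L127758 : W_46 (nat_lit 5) (nat_lit 0x10000c000e000080000000000000000000000) (nat_lit 0x0) (nat_lit 0x800030001000c40004000200000000000000) := T_46 (nat_lit 108) (nat_lit 90) (nat_lit 0) (nat_lit 9) (nat_lit 6) L125624 (by decide +kernel)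
theorem L127759 : W_46 (nat_lit 2) (nat_lit 0x10000c000e000180000000000000000000000) (nat_lit 0x0) (nat_lit 0x1000060000000000000000000000) := D_46 (nat_lit 90) (nat_lit 108) (nat_lit 89) (nat_lit 0) (nat_lit 9) (nat_lit 6) (nat_lit 3) (nat_lit 4) (nat_lit 5) (by decide +kernel)
theorem L127760 : W_46 (nat_lit 3) (nat_lit 0x10000c000e000080000000000000000000000) (nat_lit 0x0) (nat_lit 0x1000160008000000000000000000) := T_46 (nat_lit 92) (nat_lit 75) (nat_lit 7) (nat_lit 7) (nat_lit 4) L127759 (by decide +kernel)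
theorem L127761 : W_46 (nat_lit 2) (nat_lit 0x200000001c000d000e0001a0000000000000000000000) (nat_lit 0x0) (nat_lit 0x300008000000000000000000000000000000) := D_46 (nat_lit 141) (nat_lit 140) (nat_lit 123) (nat_lit 2) (nat_lit 4) (nat_lit 8) (nat_lit 0) (nat_lit 8) (nat_lit 8) (by decide +kernel)
theorem L127762 : W_46 (nat_lit 3) (nat_lit 0x2000000018000d000e0001a0000000000000000000000) (nat_lit 0x0) (nat_lit 0x8000700008000000000000000000000000000000) := T_46 (nat_lit 142) (nat_lit 159) (nat_lit 5) (nat_lit 7) (nat_lit 5) L127761 (by decide +kernel)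
theorem L127763 : W_46 (nat_lit 4) (nat_lit 0x18000d000e0001a0000000000000000000000) (nat_lit 0x0) (nat_lit 0x200018000700008000000000000000000000000000000) := T_46 (nat_lit 177) (nat_lit 160) (nat_lit 6) (nat_lit 7) (nat_lit 10) L127762 (by decide +kernel)
theorem L127764 : W_46 (nat_lit 5) (nat_lit 0x18000d000e000180000000000000000000000) (nat_lit 0x0) (nat_lit 0x200018000700008000000060000000000000000000000) := T_46 (nat_lit 89) (nat_lit 90) (nat_lit 3) (nat_lit 4) (nat_lit 5) L127763 (by decide +kernel)
theorem L127765 : W_46 (nat_lit 6) (nat_lit 0x10000d000e000180000000000000000000000) (nat_lit 0x0) (nat_lit 0x200018000f00008000000060004000000000000000000) := T_46 (nat_lit 143) (nat_lit 74) (nat_lit 4) (nat_lit 7) (nat_lit 8) L127764 (by decide +kernel)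
theorem L127766 : W_46 (nat_lit 7) (nat_lit 0x10000d000e000080000000000000000000000) (nat_lit 0x0) (nat_lit 0x200018000f0000800000016000c000000000000000000) := T_46 (nat_lit 92) (nat_lit 75) (nat_lit 7) (nat_lit 7) (nat_lit 4) L127765 (by decide +kernel)
theorem L127767 : W_46 (nat_lit 8) (nat_lit 0x10000c000e000080000000000000000000000) (nat_lit 0x0) (nat_lit 0x200018000f0003800000016000c000000000000000000) := T_46 (nat_lit 124) (nat_lit 125) (nat_lit 2) (nat_lit 5) (nat_lit 7) L127766 (by decide +kernel)
theorem L127768 : W_46 (nat_lit 2) (nat_lit 0x18000d000e000180000000000000000000000) (nat_lit 0x0) (nat_lit 0x200010000000000001000000000000000000000000000) := D_46 (nat_lit 160) (nat_lit 108) (nat_lit 177) (nat_lit 4) (nat_lit 7) (nat_lit 9) (nat_lit 6) (nat_lit 7) (nat_lit 10) (by decide +kernel)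
theorem L127769 : W_46 (nat_lit 3) (nat_lit 0x10000d000e000180000000000000000000000) (nat_lit 0x0) (nat_lit 0x200010000800000001000000004000000000000000000) := T_46 (nat_lit 143) (nat_lit 74) (nat_lit 4) (nat_lit 7) (nat_lit 8) L127768 (by decide +kernel)
theorem L127770 : W_46 (nat_lit 4) (nat_lit 0x10000c000e000180000000000000000000000) (nat_lit 0x0) (nat_lit 0x200010000800030001000000004000000000000000000) := T_46 (nat_lit 124) (nat_lit 125) (nat_lit 2) (nat_lit 5) (nat_lit 7) L127769 (by decide +kernel)
theorem L127771 : W_46 (nat_lit 5) (nat_lit 0x10000c000e000080000000000000000000000) (nat_lit 0x0) (nat_lit 0x20001000080003000100010000c000000000000000000) := T_46 (nat_lit 92) (nat_lit 75) (nat_lit 7) (nat_lit 7) (nat_lit 4) L127770 (by decide +kernel)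
theorem L127772 : W_46 (nat_lit 9) (nat_lit 0x10000c000e000000000000000000000000000) (nat_lit 0x0) (nat_lit 0x200018000f00038001000de000c000200000000000000) := Q_46 (nat_lit 91) (C_46 L127757 (C_46 L127758 (C_46 L127760 (C_46 L127767 (C_46 L127771 N_46))))) (by decide +kernel)
theorem L127773 : W_46 (nat_lit 10) (nat_lit 0x10000c0006000000000000000000000000000) (nat_lit 0x0) (nat_lit 0x200018000f00038039000de000c000200000000000000) := Q_46 (nat_lit 111) (C_46 L126030 (C_46 L127772 (C_46 L125592 N_46))) (by decide +kernel)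
theorem L127774 : W_46 (nat_lit 2) (nat_lit 0x100010000c000e000e00000000000000000000000) (nat_lit 0x0) (nat_lit 0x20030000000000000000000000000000) := D_46 (nat_lit 112) (nat_lit 113) (nat_lit 125) (nat_lit 1) (nat_lit 11) (nat_lit 6) (nat_lit 1) (nat_lit 10) (nat_lit 6) (by decide +kernel)
theorem L127775 : W_46 (nat_lit 3) (nat_lit 0x100010000c0006000e00000000000000000000000) (nat_lit 0x0) (nat_lit 0x20039000000000000000000000000000) := T_46 (nat_lit 111) (nat_lit 108) (nat_lit 2) (nat_lit 6) (nat_lit 6) L127774 (by decide +kernel)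
theorem L127776 : W_46 (nat_lit 4) (nat_lit 0x100010000c0006000600000000000000000000000) (nat_lit 0x0) (nat_lit 0x20039001800000000000000000000000) := T_46 (nat_lit 95) (nat_lit 96) (nat_lit 1) (nat_lit 11) (nat_lit 5) L127775 (by decide +kernel)
theorem L127777 : W_46 (nat_lit 5) (nat_lit 0x100010000c0006000200000000000000000000000) (nat_lit 0x0) (nat_lit 0x20039001c00020000000000000000000) := T_46 (nat_lit 94) (nat_lit 77) (nat_lit 6) (nat_lit 8) (nat_lit 8) L127776 (by decide +kernel)
theorem L127778 : W_46 (nat_lit 6) (nat_lit 0x10000c0006000200000000000000000000000) (nat_lit 0x0) (nat_lit 0x10000800020039001c00020000000000000000000) := T_46 (nat_lit 160) (nat_lit 143) (nat_lit 6) (nat_lit 7) (nat_lit 9) L127777 (by decide +kernel)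
theorem L127779 : W_46 (nat_lit 2) (nat_lit 0x10000c000e000e00000000800000000000000) (nat_lit 0x0) (nat_lit 0x20030000000000000000000000000000) := D_46 (nat_lit 112) (nat_lit 113) (nat_lit 125) (nat_lit 1) (nat_lit 11) (nat_lit 6) (nat_lit 1) (nat_lit 10) (nat_lit 6) (by decide +kernel)
theorem L127780 : W_46 (nat_lit 3) (nat_lit 0x10000c0006000e00000000800000000000000) (nat_lit 0x0) (nat_lit 0x20039000000000000000000000000000) := T_46 (nat_lit 111) (nat_lit 108) (nat_lit 2) (nat_lit 6) (nat_lit 6) L127779 (by decide +kernel)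
theorem L127781 : W_46 (nat_lit 4) (nat_lit 0x10000c0006000e00000000000000000000000) (nat_lit 0x0) (nat_lit 0x20039000000010000800000000000000) := T_46 (nat_lit 59) (nat_lit 76) (nat_lit 5) (nat_lit 8) (nat_lit 3) L127780 (by decide +kernel)
theorem L127782 : W_46 (nat_lit 5) (nat_lit 0x10000c0006000600000000000000000000000) (nat_lit 0x0) (nat_lit 0x20039001800010000800000000000000) := T_46 (nat_lit 95) (nat_lit 96) (nat_lit 1) (nat_lit 11) (nat_lit 5) L127781 (by decide +kernel)
theorem L127783 : W_46 (nat_lit 6) (nat_lit 0x10000c0006000200000000000000000000000) (nat_lit 0x0) (nat_lit 0x20039001c00030000800000000000000) := T_46 (nat_lit 94) (nat_lit 77) (nat_lit 6) (nat_lit 8) (nat_lit 8) L127782 (by decide +kernel)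
theorem L127784 : W_46 (nat_lit 7) (nat_lit 0x10000c0006000000000000000000000000000) (nat_lit 0x0) (nat_lit 0x10000800020039001e00030000800000000000000) := Q_46 (nat_lit 93) (C_46 L123144 (C_46 L127778 (C_46 L127783 N_46))) (by decide +kernel)
theorem L127785 : W_46 (nat_lit 2) (nat_lit 0x10000c000e000600000000800000000000000) (nat_lit 0x0) (nat_lit 0x1001800000000000000000000000) := D_46 (nat_lit 95) (nat_lit 108) (nat_lit 96) (nat_lit 2) (nat_lit 6) (nat_lit 6) (nat_lit 1) (nat_lit 11) (nat_lit 5) (by decide +kernel)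
theorem L127786 : W_46 (nat_lit 3) (nat_lit 0x10000c000e000200000000800000000000000) (nat_lit 0x0) (nat_lit 0x1001c00020000000000000000000) := T_46 (nat_lit 94) (nat_lit 77) (nat_lit 6) (nat_lit 8) (nat_lit 8) L127785 (by decide +kernel)
theorem L127787 : W_46 (nat_lit 4) (nat_lit 0x10000c000e000200000000000000000000000) (nat_lit 0x0) (nat_lit 0x1001c00030000800000000000000) := T_46 (nat_lit 59) (nat_lit 76) (nat_lit 5) (nat_lit 8) (nat_lit 3) L127786 (by decide +kernel)
theorem L127788 : W_46 (nat_lit 2) (nat_lit 0x10000d000e000740000000000000000000000) (nat_lit 0x0) (nat_lit 0x1001800000000000000000000000) := D_46 (nat_lit 95) (nat_lit 108) (nat_lit 96) (nat_lit 2) (nat_lit 6) (nat_lit 6) (nat_lit 1) (nat_lit 11) (nat_lit 5) (by decide +kernel)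
theorem L127789 : W_46 (nat_lit 3) (nat_lit 0x10000d000e000340000000000000000000000) (nat_lit 0x0) (nat_lit 0x1001c00020000000000000000000) := T_46 (nat_lit 94) (nat_lit 77) (nat_lit 6) (nat_lit 8) (nat_lit 8) L127788 (by decide +kernel)
theorem L127790 : W_46 (nat_lit 4) (nat_lit 0x10000d000e000300000000000000000000000) (nat_lit 0x0) (nat_lit 0x1001cc0020000000000000000000) := T_46 (nat_lit 90) (nat_lit 91) (nat_lit 3) (nat_lit 5) (nat_lit 5) L127789 (by decide +kernel)
theorem L127791 : W_46 (nat_lit 5) (nat_lit 0x10000d000e000200000000000000000000000) (nat_lit 0x0) (nat_lit 0x1001dc0028000000000000000000) := T_46 (nat_lit 92) (nat_lit 75) (nat_lit 7) (nat_lit 7) (nat_lit 4) L127790 (by decide +kernel)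
theorem L127792 : W_46 (nat_lit 6) (nat_lit 0x10000c000e000200000000000000000000000) (nat_lit 0x0) (nat_lit 0x30001001dc0028000000000000000000) := T_46 (nat_lit 124) (nat_lit 125) (nat_lit 2) (nat_lit 5) (nat_lit 7) L127791 (by decide +kernel)
theorem L127793 : W_46 (nat_lit 7) (nat_lit 0x10000c000e000000000000000000000000000) (nat_lit 0x0) (nat_lit 0x30001001fc0038000c00000000000000) := Q_46 (nat_lit 93) (C_46 L127787 (C_46 L126028 (C_46 L127792 N_46))) (by decide +kernel)
theorem L127794 : W_46 (nat_lit 8) (nat_lit 0x10000c0006000000000000000000000000000) (nat_lit 0x0) (nat_lit 0x30039001fc0038000c00000000000000) := Q_46 (nat_lit 111) (C_46 L126030 (C_46 L127793 (C_46 L125592 N_46))) (by decide +kernel)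
theorem L127795 : W_46 (nat_lit 11) (nat_lit 0x10000c0002000000000000000000000000000) (nat_lit 0x0) (nat_lit 0x200018000f0003803d001fe003c000e00000000000000) := Q_46 (nat_lit 110) (C_46 L123160 (C_46 L125613 (C_46 L127754 (C_46 L127773 (C_46 L127784 (C_46 L127794 N_46)))))) (by decide +kernel)
theorem L127796 : W_46 (nat_lit 2) (nat_lit 0x10000c0016000f00040000000000000000000) (nat_lit 0x0) (nat_lit 0x20008000080000000000000000000000) := D_46 (nat_lit 111) (nat_lit 91) (nat_lit 125) (nat_lit 3) (nat_lit 6) (nat_lit 5) (nat_lit 1) (nat_lit 10) (nat_lit 6) (by decide +kernel)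
theorem L127797 : W_46 (nat_lit 3) (nat_lit 0x10000c0006000f00040000000000000000000) (nat_lit 0x0) (nat_lit 0x20038000080000000000000000000000) := T_46 (nat_lit 112) (nat_lit 113) (nat_lit 3) (nat_lit 7) (nat_lit 5) L127796 (by decide +kernel)
theorem L127798 : W_46 (nat_lit 4) (nat_lit 0x10000c0006000f00000000000000000000000) (nat_lit 0x0) (nat_lit 0x200380000800c0000000000000000000) := T_46 (nat_lit 78) (nat_lit 79) (nat_lit 2) (nat_lit 7) (nat_lit 5) L127797 (by decide +kernel)
theorem L127799 : W_46 (nat_lit 5) (nat_lit 0x10000c0006000700000000000000000000000) (nat_lit 0x0) (nat_lit 0x200380018800c0000000000000000000) := T_46 (nat_lit 95) (nat_lit 96) (nat_lit 1) (nat_lit 11) (nat_lit 5) L127798 (by decide +kernel)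
theorem L127800 : W_46 (nat_lit 6) (nat_lit 0x10000c0006000300000000000000000000000) (nat_lit 0x0) (nat_lit 0x20038001c800e0000000000000000000) := T_46 (nat_lit 94) (nat_lit 77) (nat_lit 6) (nat_lit 8) (nat_lit 8) L127799 (by decide +kernel)
theorem L127801 : W_46 (nat_lit 7) (nat_lit 0x10000c0006000200000000000000000000000) (nat_lit 0x0) (nat_lit 0x20038001d800e8000000000000000000) := T_46 (nat_lit 92) (nat_lit 75) (nat_lit 7) (nat_lit 7) (nat_lit 4) L127800 (by decide +kernel)
theorem L127802 : W_46 (nat_lit 8) (nat_lit 0x10000c0006000000000000000000000000000) (nat_lit 0x0) (nat_lit 0x800020038001f800f8000c00000000000000) := Q_46 (nat_lit 93) (C_46 L123159 (C_46 L123144 (C_46 L127801 N_46))) (by decide +kernel)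
theorem L127803 : W_46 (nat_lit 2) (nat_lit 0x10000e0006000000000000000000000000000) (nat_lit 0x0) (nat_lit 0x10018000000000000000000000000000) := D_46 (nat_lit 111) (nat_lit 112) (nat_lit 124) (nat_lit 1) (nat_lit 10) (nat_lit 6) (nat_lit 2) (nat_lit 5) (nat_lit 7) (by decide +kernel)
theorem L127804 : W_46 (nat_lit 2) (nat_lit 0x80010000e80078003c0002000000000000000000) (nat_lit 0x0) (nat_lit 0x800000000000000004000200000000000000) := D_46 (nat_lit 74) (nat_lit 143) (nat_lit 57) (nat_lit 7) (nat_lit 6) (nat_lit 4) (nat_lit 7) (nat_lit 6) (nat_lit 3) (by decide +kernel)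
theorem L127805 : W_46 (nat_lit 3) (nat_lit 0x80010000e8007800340002000000000000000000) (nat_lit 0x0) (nat_lit 0x800000000000080005000200000000000000) := T_46 (nat_lit 91) (nat_lit 72) (nat_lit 0) (nat_lit 8) (nat_lit 5) L127804 (by decide +kernel)
theorem L127806 : W_46 (nat_lit 4) (nat_lit 0x80010000e8007800340000000000000000000000) (nat_lit 0x0) (nat_lit 0x800000000000080007000300000000000000) := T_46 (nat_lit 73) (nat_lit 56) (nat_lit 7) (nat_lit 5) (nat_lit 3) L127805 (by decide +kernel)
theorem L127807 : W_46 (nat_lit 5) (nat_lit 0x10000e8007800340000000000000000000000) (nat_lit 0x0) (nat_lit 0x8000c00000000000080007000300000000000000) := T_46 (nat_lit 159) (nat_lit 142) (nat_lit 6) (nat_lit 6) (nat_lit 9) L127806 (by decide +kernel)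
theorem L127808 : W_46 (nat_lit 6) (nat_lit 0x10000e8007800300000000000000000000000) (nat_lit 0x0) (nat_lit 0x8000c000000000000e0007000300000000000000) := T_46 (nat_lit 90) (nat_lit 89) (nat_lit 0) (nat_lit 8) (nat_lit 6) L127807 (by decide +kernel)
theorem L127809 : W_46 (nat_lit 7) (nat_lit 0x10000e8007800200000000000000000000000) (nat_lit 0x0) (nat_lit 0x8000c000000000001e000f000300000000000000) := T_46 (nat_lit 92) (nat_lit 75) (nat_lit 7) (nat_lit 7) (nat_lit 4) L127808 (by decide +kernel)
theorem L127810 : W_46 (nat_lit 8) (nat_lit 0x10000e8007000200000000000000000000000) (nat_lit 0x0) (nat_lit 0x8000c00000000c001e000f000300000000000000) := T_46 (nat_lit 107) (nat_lit 106) (nat_lit 3) (nat_lit 4) (nat_lit 6) L127809 (by decide +kernel)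
theorem L127811 : W_46 (nat_lit 9) (nat_lit 0x10000e0007000200000000000000000000000) (nat_lit 0x0) (nat_lit 0x8000c00018000c001e000f000300000000000000) := T_46 (nat_lit 123) (nat_lit 124) (nat_lit 2) (nat_lit 4) (nat_lit 7) L127810 (by decide +kernel)
theorem L127812 : W_46 (nat_lit 2) (nat_lit 0x10000e80078003c0002000000000000000000) (nat_lit 0x0) (nat_lit 0x800000000000000004000200000000000000) := D_46 (nat_lit 74) (nat_lit 143) (nat_lit 57) (nat_lit 7) (nat_lit 6) (nat_lit 4) (nat_lit 7) (nat_lit 6) (nat_lit 3) (by decide +kernel)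
theorem L127813 : W_46 (nat_lit 3) (nat_lit 0x10000e8007800340002000000000000000000) (nat_lit 0x0) (nat_lit 0x800000000000080005000200000000000000) := T_46 (nat_lit 91) (nat_lit 72) (nat_lit 0) (nat_lit 8) (nat_lit 5) L127812 (by decide +kernel)
theorem L127814 : W_46 (nat_lit 4) (nat_lit 0x10000e8007800340000000000000000000000) (nat_lit 0x0) (nat_lit 0x800000000000080007000300000000000000) := T_46 (nat_lit 73) (nat_lit 56) (nat_lit 7) (nat_lit 5) (nat_lit 3) L127813 (by decide +kernel)
theorem L127815 : W_46 (nat_lit 5) (nat_lit 0x10000e8007800300000000000000000000000) (nat_lit 0x0) (nat_lit 0x8000000000000e0007000300000000000000) := T_46 (nat_lit 90) (nat_lit 89) (nat_lit 0) (nat_lit 8) (nat_lit 6) L127814 (by decide +kernel)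
theorem L127816 : W_46 (nat_lit 6) (nat_lit 0x10000e0007800300000000000000000000000) (nat_lit 0x0) (nat_lit 0x8000180000000e0007000300000000000000) := T_46 (nat_lit 123) (nat_lit 124) (nat_lit 2) (nat_lit 4) (nat_lit 7) L127815 (by decide +kernel)
theorem L127817 : W_46 (nat_lit 7) (nat_lit 0x10000e0007000300000000000000000000000) (nat_lit 0x0) (nat_lit 0x800018000c000e0007000300000000000000) := T_46 (nat_lit 107) (nat_lit 106) (nat_lit 3) (nat_lit 4) (nat_lit 6) L127816 (by decide +kernel)
theorem L127818 : W_46 (nat_lit 8) (nat_lit 0x10000e0007000200000000000000000000000) (nat_lit 0x0) (nat_lit 0x800018000c001e000f000300000000000000) := T_46 (nat_lit 92) (nat_lit 75) (nat_lit 7) (nat_lit 7) (nat_lit 4) L127817 (by decide +kernel)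
theorem L127819 : W_46 (nat_lit 2) (nat_lit 0x80010000e00078003c0002000000000000000000) (nat_lit 0x0) (nat_lit 0x800000000000000004000200000000000000) := D_46 (nat_lit 74) (nat_lit 143) (nat_lit 57) (nat_lit 7) (nat_lit 6) (nat_lit 4) (nat_lit 7) (nat_lit 6) (nat_lit 3) (by decide +kernel)
theorem L127820 : W_46 (nat_lit 3) (nat_lit 0x80010000e0007800340002000000000000000000) (nat_lit 0x0) (nat_lit 0x800000000000080005000200000000000000) := T_46 (nat_lit 91) (nat_lit 72) (nat_lit 0) (nat_lit 8) (nat_lit 5) L127819 (by decide +kernel)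
theorem L127821 : W_46 (nat_lit 4) (nat_lit 0x80010000e0007800340000000000000000000000) (nat_lit 0x0) (nat_lit 0x800000000000080007000300000000000000) := T_46 (nat_lit 73) (nat_lit 56) (nat_lit 7) (nat_lit 5) (nat_lit 3) L127820 (by decide +kernel)
theorem L127822 : W_46 (nat_lit 5) (nat_lit 0x80010000e0007800300000000000000000000000) (nat_lit 0x0) (nat_lit 0x8000000000000e0007000300000000000000) := T_46 (nat_lit 90) (nat_lit 89) (nat_lit 0) (nat_lit 8) (nat_lit 6) L127821 (by decide +kernel)
theorem L127823 : W_46 (nat_lit 6) (nat_lit 0x10000e0007800300000000000000000000000) (nat_lit 0x0) (nat_lit 0x8000c000000000000e0007000300000000000000) := T_46 (nat_lit 159) (nat_lit 142) (nat_lit 6) (nat_lit 6) (nat_lit 9) L127822 (by decide +kernel)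
theorem L127824 : W_46 (nat_lit 7) (nat_lit 0x10000e0007000300000000000000000000000) (nat_lit 0x0) (nat_lit 0x8000c00000000c000e0007000300000000000000) := T_46 (nat_lit 107) (nat_lit 106) (nat_lit 3) (nat_lit 4) (nat_lit 6) L127823 (by decide +kernel)
theorem L127825 : W_46 (nat_lit 8) (nat_lit 0x10000e0007000200000000000000000000000) (nat_lit 0x0) (nat_lit 0x8000c00000000c001e000f000300000000000000) := T_46 (nat_lit 92) (nat_lit 75) (nat_lit 7) (nat_lit 7) (nat_lit 4) L127824 (by decide +kernel)
theorem L127826 : W_46 (nat_lit 2) (nat_lit 0x12000f0007400280000000000000000000000) (nat_lit 0x0) (nat_lit 0x80004000400000000000000000000000000000000000) := D_46 (nat_lit 158) (nat_lit 175) (nat_lit 142) (nat_lit 6) (nat_lit 5) (nat_lit 10) (nat_lit 5) (nat_lit 6) (nat_lit 5) (by decide +kernel)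
theorem L127827 : W_46 (nat_lit 3) (nat_lit 0x12000f0007400200000000000000000000000) (nat_lit 0x0) (nat_lit 0x80004000400000000000080004000000000000000000) := T_46 (nat_lit 91) (nat_lit 74) (nat_lit 5) (nat_lit 6) (nat_lit 4) L127826 (by decide +kernel)
theorem L127828 : W_46 (nat_lit 4) (nat_lit 0x10000f0007400200000000000000000000000) (nat_lit 0x0) (nat_lit 0x80004000700000000000080004000000000000000000) := T_46 (nat_lit 141) (nat_lit 140) (nat_lit 1) (nat_lit 8) (nat_lit 7) L127827 (by decide +kernel)
theorem L127829 : W_46 (nat_lit 5) (nat_lit 0x10000e0007400200000000000000000000000) (nat_lit 0x0) (nat_lit 0x80004000700018000000080004000000000000000000) := T_46 (nat_lit 124) (nat_lit 123) (nat_lit 2) (nat_lit 4) (nat_lit 7) L127828 (by decide +kernel)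
theorem L127830 : W_46 (nat_lit 6) (nat_lit 0x10000e0007000200000000000000000000000) (nat_lit 0x0) (nat_lit 0x80004000700018000c00080004000000000000000000) := T_46 (nat_lit 106) (nat_lit 107) (nat_lit 3) (nat_lit 4) (nat_lit 6) L127829 (by decide +kernel)
theorem L127831 : W_46 (nat_lit 2) (nat_lit 0x12000f0007800340000000000000000000000) (nat_lit 0x0) (nat_lit 0x8000400000000000000002000000000000000000) := D_46 (nat_lit 142) (nat_lit 159) (nat_lit 73) (nat_lit 7) (nat_lit 5) (nat_lit 5) (nat_lit 7) (nat_lit 5) (nat_lit 4) (by decide +kernel)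
theorem L127832 : W_46 (nat_lit 3) (nat_lit 0x12000f0007800300000000000000000000000) (nat_lit 0x0) (nat_lit 0x8000400000000000060002000000000000000000) := T_46 (nat_lit 90) (nat_lit 89) (nat_lit 0) (nat_lit 8) (nat_lit 6) L127831 (by decide +kernel)
theorem L127833 : W_46 (nat_lit 4) (nat_lit 0x10000f0007800300000000000000000000000) (nat_lit 0x0) (nat_lit 0x8000700000000000060002000000000000000000) := T_46 (nat_lit 141) (nat_lit 140) (nat_lit 1) (nat_lit 8) (nat_lit 7) L127832 (by decide +kernel)
theorem L127834 : W_46 (nat_lit 5) (nat_lit 0x10000f0007000300000000000000000000000) (nat_lit 0x0) (nat_lit 0x8000700000000c00060002000000000000000000) := T_46 (nat_lit 107) (nat_lit 106) (nat_lit 3) (nat_lit 4) (nat_lit 6) L127833 (by decide +kernel)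
theorem L127835 : W_46 (nat_lit 6) (nat_lit 0x10000f0007000200000000000000000000000) (nat_lit 0x0) (nat_lit 0x8000700000000c0016000a000000000000000000) := T_46 (nat_lit 92) (nat_lit 75) (nat_lit 7) (nat_lit 7) (nat_lit 4) L127834 (by decide +kernel)
theorem L127836 : W_46 (nat_lit 7) (nat_lit 0x10000e0007000200000000000000000000000) (nat_lit 0x0) (nat_lit 0x8000700018000c0016000a000000000000000000) := T_46 (nat_lit 124) (nat_lit 123) (nat_lit 2) (nat_lit 4) (nat_lit 7) L127835 (by decide +kernel)
theorem L127837 : W_46 (nat_lit 2) (nat_lit 0x12000f0007000280008000000000000000000) (nat_lit 0x0) (nat_lit 0x80004000400000000000000000000000000000000000) := D_46 (nat_lit 158) (nat_lit 175) (nat_lit 142) (nat_lit 6) (nat_lit 5) (nat_lit 10) (nat_lit 5) (nat_lit 6) (nat_lit 5) (by decide +kernel)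
theorem L127838 : W_46 (nat_lit 3) (nat_lit 0x12000f0007000200008000000000000000000) (nat_lit 0x0) (nat_lit 0x80004000400000000000080004000000000000000000) := T_46 (nat_lit 91) (nat_lit 74) (nat_lit 5) (nat_lit 6) (nat_lit 4) L127837 (by decide +kernel)
theorem L127839 : W_46 (nat_lit 4) (nat_lit 0x10000f0007000200008000000000000000000) (nat_lit 0x0) (nat_lit 0x80004000700000000000080004000000000000000000) := T_46 (nat_lit 141) (nat_lit 140) (nat_lit 1) (nat_lit 8) (nat_lit 7) L127838 (by decide +kernel)
theorem L127840 : W_46 (nat_lit 5) (nat_lit 0x10000e0007000200008000000000000000000) (nat_lit 0x0) (nat_lit 0x80004000700018000000080004000000000000000000) := T_46 (nat_lit 124) (nat_lit 123) (nat_lit 2) (nat_lit 4) (nat_lit 7) L127839 (by decide +kernel)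
theorem L127841 : W_46 (nat_lit 6) (nat_lit 0x10000e0007000200000000000000000000000) (nat_lit 0x0) (nat_lit 0x8000400070001800000018000c000000000000000000) := T_46 (nat_lit 75) (nat_lit 92) (nat_lit 7) (nat_lit 7) (nat_lit 4) L127840 (by decide +kernel)
theorem L127842 : W_46 (nat_lit 10) (nat_lit 0x10000e0006000200000000000000000000000) (nat_lit 0x0) (nat_lit 0x8000c000f00018001c001e000f000300000000000000) := Q_46 (nat_lit 108) (C_46 L127811 (C_46 L127818 (C_46 L127825 (C_46 L127830 (C_46 L127836 (C_46 L127841 N_46)))))) (by decide +kernel)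
theorem L127843 : W_46 (nat_lit 2) (nat_lit 0x10000e8006000200010000000000000000000) (nat_lit 0x0) (nat_lit 0x100008000400000000000000) := D_46 (nat_lit 75) (nat_lit 92) (nat_lit 58) (nat_lit 7) (nat_lit 7) (nat_lit 4) (nat_lit 4) (nat_lit 8) (nat_lit 7) (by decide +kernel)
theorem L127844 : W_46 (nat_lit 3) (nat_lit 0x10000e8006000200000000000000000000000) (nat_lit 0x0) (nat_lit 0x100018000c00000000000000) := T_46 (nat_lit 76) (nat_lit 59) (nat_lit 5) (nat_lit 8) (nat_lit 3) L127843 (by decide +kernel)
theorem L127845 : W_46 (nat_lit 4) (nat_lit 0x10000e0006000200000000000000000000000) (nat_lit 0x0) (nat_lit 0x18000000100018000c00000000000000) := T_46 (nat_lit 123) (nat_lit 124) (nat_lit 2) (nat_lit 4) (nat_lit 7) L127844 (by decide +kernel)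
theorem L127846 : W_46 (nat_lit 11) (nat_lit 0x10000e0006000000000000000000000000000) (nat_lit 0x0) (nat_lit 0x8000c000f00018001c003e001f000f00000000000000) := Q_46 (nat_lit 93) (C_46 L125998 (C_46 L127842 (C_46 L127845 N_46))) (by decide +kernel)
theorem L127847 : W_46 (nat_lit 2) (nat_lit 0x1e000e000e000380000000000000000000000) (nat_lit 0x0) (nat_lit 0x6000000000001000000000000000000000000000) := D_46 (nat_lit 158) (nat_lit 108) (nat_lit 157) (nat_lit 5) (nat_lit 6) (nat_lit 5) (nat_lit 1) (nat_lit 8) (nat_lit 8) (by decide +kernel)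
theorem L127848 : W_46 (nat_lit 3) (nat_lit 0x1c000e000e000380000000000000000000000) (nat_lit 0x0) (nat_lit 0x6000300000001000000000000000000000000000) := T_46 (nat_lit 141) (nat_lit 140) (nat_lit 2) (nat_lit 4) (nat_lit 8) L127847 (by decide +kernel)
theorem L127849 : W_46 (nat_lit 4) (nat_lit 0x18000e000e000380000000000000000000000) (nat_lit 0x0) (nat_lit 0xe000700000001000000000000000000000000000) := T_46 (nat_lit 142) (nat_lit 159) (nat_lit 5) (nat_lit 7) (nat_lit 5) L127848 (by decide +kernel)
theorem L127850 : W_46 (nat_lit 5) (nat_lit 0x10000e000e000380000000000000000000000) (nat_lit 0x0) (nat_lit 0xe000f00000001000000004000000000000000000) := T_46 (nat_lit 143) (nat_lit 74) (nat_lit 4) (nat_lit 7) (nat_lit 8) L127849 (by decide +kernel)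
theorem L127851 : W_46 (nat_lit 6) (nat_lit 0x10000e000e000300000000000000000000000) (nat_lit 0x0) (nat_lit 0xe000f000000010000c0004000000000000000000) := T_46 (nat_lit 91) (nat_lit 90) (nat_lit 3) (nat_lit 5) (nat_lit 5) L127850 (by decide +kernel)
theorem L127852 : W_46 (nat_lit 7) (nat_lit 0x10000e000e000200000000000000000000000) (nat_lit 0x0) (nat_lit 0xe000f000000010001c000c000000000000000000) := T_46 (nat_lit 92) (nat_lit 75) (nat_lit 7) (nat_lit 7) (nat_lit 4) L127851 (by decide +kernel)
theorem L127853 : W_46 (nat_lit 8) (nat_lit 0x10000e0006000200000000000000000000000) (nat_lit 0x0) (nat_lit 0xe000f000000190001c000c000000000000000000) := T_46 (nat_lit 111) (nat_lit 112) (nat_lit 1) (nat_lit 10) (nat_lit 6) L127852 (by decide +kernel)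
theorem L127854 : W_46 (nat_lit 2) (nat_lit 0x10000e0006000200008000000000000000000) (nat_lit 0x0) (nat_lit 0x10000c00000000000000) := D_46 (nat_lit 76) (nat_lit 59) (nat_lit 58) (nat_lit 5) (nat_lit 8) (nat_lit 3) (nat_lit 4) (nat_lit 8) (nat_lit 7) (by decide +kernel)
theorem L127855 : W_46 (nat_lit 3) (nat_lit 0x10000e0006000200000000000000000000000) (nat_lit 0x0) (nat_lit 0x100018000c00000000000000) := T_46 (nat_lit 75) (nat_lit 92) (nat_lit 7) (nat_lit 7) (nat_lit 4) L127854 (by decide +kernel)
theorem L127856 : W_46 (nat_lit 9) (nat_lit 0x10000e0006000000000000000000000000000) (nat_lit 0x0) (nat_lit 0xe000f000000190003c001c000c00000000000000) := Q_46 (nat_lit 93) (C_46 L125998 (C_46 L127853 (C_46 L127855 N_46))) (by decide +kernel)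
theorem L127857 : W_46 (nat_lit 12) (nat_lit 0x10000c0006000000000000000000000000000) (nat_lit 0x0) (nat_lit 0x8000e000f00038019c003e001f000f00000000000000) := Q_46 (nat_lit 125) (C_46 L127803 (C_46 L127846 (C_46 L127856 N_46))) (by decide +kernel)
theorem L127858 : W_46 (nat_lit 2) (nat_lit 0x14000e0017800040000000000000000000000) (nat_lit 0x0) (nat_lit 0x80002000100000000000000) := D_46 (nat_lit 73) (nat_lit 56) (nat_lit 91) (nat_lit 7) (nat_lit 5) (nat_lit 3) (nat_lit 4) (nat_lit 6) (nat_lit 8) (by decide +kernel)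
theorem L127859 : W_46 (nat_lit 3) (nat_lit 0x10000e0017800040000000000000000000000) (nat_lit 0x0) (nat_lit 0x8000400000000000080002000100000000000000) := T_46 (nat_lit 142) (nat_lit 159) (nat_lit 4) (nat_lit 6) (nat_lit 9) L127858 (by decide +kernel)
theorem L127860 : W_46 (nat_lit 4) (nat_lit 0x10000e0017800000000000000000000000000) (nat_lit 0x0) (nat_lit 0x80004000000000000e0002000100000000000000) := T_46 (nat_lit 90) (nat_lit 89) (nat_lit 0) (nat_lit 8) (nat_lit 6) L127859 (by decide +kernel)
theorem L127861 : W_46 (nat_lit 5) (nat_lit 0x10000e0017000000000000000000000000000) (nat_lit 0x0) (nat_lit 0x8000400000000c000e0002000100000000000000) := T_46 (nat_lit 107) (nat_lit 106) (nat_lit 3) (nat_lit 4) (nat_lit 6) L127860 (by decide +kernel)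
theorem L127862 : W_46 (nat_lit 6) (nat_lit 0x10000e0007000000000000000000000000000) (nat_lit 0x0) (nat_lit 0x8000400000018c000e0002000100000000000000) := T_46 (nat_lit 112) (nat_lit 111) (nat_lit 1) (nat_lit 10) (nat_lit 6) L127861 (by decide +kernel)
theorem L127863 : W_46 (nat_lit 2) (nat_lit 0x10000c000f800000008000000000000000000) (nat_lit 0x0) (nat_lit 0xe0000000000000000000000) := D_46 (nat_lit 90) (nat_lit 91) (nat_lit 89) (nat_lit 0) (nat_lit 9) (nat_lit 6) (nat_lit 0) (nat_lit 8) (nat_lit 6) (by decide +kernel)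
theorem L127864 : W_46 (nat_lit 3) (nat_lit 0x10000c000f000000008000000000000000000) (nat_lit 0x0) (nat_lit 0xc000e0000000000000000000000) := T_46 (nat_lit 107) (nat_lit 106) (nat_lit 3) (nat_lit 4) (nat_lit 6) L127863 (by decide +kernel)
theorem L127865 : W_46 (nat_lit 4) (nat_lit 0x10000c000f000000000000000000000000000) (nat_lit 0x0) (nat_lit 0xc001e0008000000000000000000) := T_46 (nat_lit 75) (nat_lit 92) (nat_lit 7) (nat_lit 7) (nat_lit 4) L127864 (by decide +kernel)
theorem L127866 : W_46 (nat_lit 6) (nat_lit 0x10000c000e000000000000000000000000000) (nat_lit 0x0) (nat_lit 0x800038001c00de000c000200000000000000) := Q_46 (nat_lit 108) (C_46 L125968 (C_46 L127865 (C_46 L125625 N_46))) (by decide +kernel)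
theorem L127867 : W_46 (nat_lit 7) (nat_lit 0x10000c0006000000000000000000000000000) (nat_lit 0x0) (nat_lit 0x800038039c00de000c000200000000000000) := Q_46 (nat_lit 111) (C_46 L126030 (C_46 L127866 (C_46 L125592 N_46))) (by decide +kernel)
theorem L127868 : W_46 (nat_lit 2) (nat_lit 0x10000e000e000600000000000000000000000) (nat_lit 0x0) (nat_lit 0x1800800000000000000000000000) := D_46 (nat_lit 108) (nat_lit 95) (nat_lit 107) (nat_lit 2) (nat_lit 6) (nat_lit 6) (nat_lit 2) (nat_lit 5) (nat_lit 6) (by decide +kernel)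
theorem L127869 : W_46 (nat_lit 3) (nat_lit 0x10000e000e000200000000000000000000000) (nat_lit 0x0) (nat_lit 0x1800c00020000000000000000000) := T_46 (nat_lit 94) (nat_lit 77) (nat_lit 6) (nat_lit 8) (nat_lit 8) L127868 (by decide +kernel)
theorem L127870 : W_46 (nat_lit 4) (nat_lit 0x10000e0006000200000000000000000000000) (nat_lit 0x0) (nat_lit 0x19800c00020000000000000000000) := T_46 (nat_lit 111) (nat_lit 112) (nat_lit 1) (nat_lit 10) (nat_lit 6) L127869 (by decide +kernel)
theorem L127871 : W_46 (nat_lit 5) (nat_lit 0x10000e0006000000000000000000000000000) (nat_lit 0x0) (nat_lit 0x800000019800e00030000800000000000000) := Q_46 (nat_lit 93) (C_46 L125998 (C_46 L127870 N_46)) (by decide +kernel)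
theorem L127872 : W_46 (nat_lit 2) (nat_lit 0x10000f0006000600000000000000000000000) (nat_lit 0x0) (nat_lit 0x1c00000000000000000000000000) := D_46 (nat_lit 107) (nat_lit 108) (nat_lit 106) (nat_lit 2) (nat_lit 5) (nat_lit 6) (nat_lit 0) (nat_lit 8) (nat_lit 7) (by decide +kernel)
theorem L127873 : W_46 (nat_lit 3) (nat_lit 0x10000f0006000200000000000000000000000) (nat_lit 0x0) (nat_lit 0x1c00400020000000000000000000) := T_46 (nat_lit 94) (nat_lit 77) (nat_lit 6) (nat_lit 8) (nat_lit 8) L127872 (by decide +kernel)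
theorem L127874 : W_46 (nat_lit 4) (nat_lit 0x10000e0006000200000000000000000000000) (nat_lit 0x0) (nat_lit 0x18001c00400020000000000000000000) := T_46 (nat_lit 124) (nat_lit 123) (nat_lit 2) (nat_lit 4) (nat_lit 7) L127873 (by decide +kernel)
theorem L127875 : W_46 (nat_lit 5) (nat_lit 0x10000e0006000000000000000000000000000) (nat_lit 0x0) (nat_lit 0x800018001c00600030000800000000000000) := Q_46 (nat_lit 93) (C_46 L125998 (C_46 L127874 N_46)) (by decide +kernel)
theorem L127876 : W_46 (nat_lit 6) (nat_lit 0x10000c0006000000000000000000000000000) (nat_lit 0x0) (nat_lit 0x800038019c00e00030000800000000000000) := Q_46 (nat_lit 125) (C_46 L127871 (C_46 L127875 (C_46 L127803 N_46))) (by decide +kernel)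
theorem L127877 : W_46 (nat_lit 13) (nat_lit 0x10000c0002000000000000000000000000000) (nat_lit 0x0) (nat_lit 0x8000e000f0003803dc01fe00ff000f00000000000000) := Q_46 (nat_lit 110) (C_46 L127802 (C_46 L127754 (C_46 L127857 (C_46 L127867 (C_46 L127876 (C_46 L127794 N_46)))))) (by decide +kernel)
theorem L127878 : W_46 (nat_lit 2) (nat_lit 0x10000c000f000480004000000000000000000) (nat_lit 0x0) (nat_lit 0x10000800020000000000000000000000000000000) := D_46 (nat_lit 143) (nat_lit 160) (nat_lit 125) (nat_lit 4) (nat_lit 7) (nat_lit 9) (nat_lit 7) (nat_lit 6) (nat_lit 4) (by decide +kernel)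
theorem L127879 : W_46 (nat_lit 3) (nat_lit 0x10000c000f000480000000000000000000000) (nat_lit 0x0) (nat_lit 0x10000800020000000000004000200000000000000) := T_46 (nat_lit 74) (nat_lit 57) (nat_lit 7) (nat_lit 6) (nat_lit 3) L127878 (by decide +kernel)
theorem L127880 : W_46 (nat_lit 4) (nat_lit 0x10000c000f000080000000000000000000000) (nat_lit 0x0) (nat_lit 0x10000800020000000c00004000200000000000000) := T_46 (nat_lit 94) (nat_lit 95) (nat_lit 2) (nat_lit 6) (nat_lit 6) L127879 (by decide +kernel)
theorem L127881 : W_46 (nat_lit 5) (nat_lit 0x10000c000e000080000000000000000000000) (nat_lit 0x0) (nat_lit 0x10000800020001000c40004000200000000000000) := T_46 (nat_lit 108) (nat_lit 90) (nat_lit 0) (nat_lit 9) (nat_lit 6) L127880 (by decide +kernel)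
theorem L127882 : W_46 (nat_lit 2) (nat_lit 0x100018000c000e0001a0000000000000000000000) (nat_lit 0x0) (nat_lit 0x100008000400000000000000000000000000000000000) := D_46 (nat_lit 159) (nat_lit 142) (nat_lit 176) (nat_lit 5) (nat_lit 7) (nat_lit 5) (nat_lit 5) (nat_lit 7) (nat_lit 6) (by decide +kernel)
theorem L127883 : W_46 (nat_lit 3) (nat_lit 0x18000c000e0001a0000000000000000000000) (nat_lit 0x0) (nat_lit 0x300018000400000000000000000000000000000000000) := T_46 (nat_lit 160) (nat_lit 177) (nat_lit 6) (nat_lit 7) (nat_lit 10) L127882 (by decide +kernel)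
theorem L127884 : W_46 (nat_lit 4) (nat_lit 0x18000c000e000180000000000000000000000) (nat_lit 0x0) (nat_lit 0x300018000400000000000060000000000000000000000) := T_46 (nat_lit 89) (nat_lit 90) (nat_lit 3) (nat_lit 4) (nat_lit 5) L127883 (by decide +kernel)
theorem L127885 : W_46 (nat_lit 5) (nat_lit 0x10000c000e000180000000000000000000000) (nat_lit 0x0) (nat_lit 0x300018000c00000000000060004000000000000000000) := T_46 (nat_lit 143) (nat_lit 74) (nat_lit 4) (nat_lit 7) (nat_lit 8) L127884 (by decide +kernel)
theorem L127886 : W_46 (nat_lit 6) (nat_lit 0x10000c000e000080000000000000000000000) (nat_lit 0x0) (nat_lit 0x300018000c0000000000016000c000000000000000000) := T_46 (nat_lit 92) (nat_lit 75) (nat_lit 7) (nat_lit 7) (nat_lit 4) L127885 (by decide +kernel)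
theorem L127887 : W_46 (nat_lit 2) (nat_lit 0x18000c000e000180000000000000000000000) (nat_lit 0x0) (nat_lit 0x200010000000000001000000000000000000000000000) := D_46 (nat_lit 160) (nat_lit 108) (nat_lit 177) (nat_lit 4) (nat_lit 7) (nat_lit 9) (nat_lit 6) (nat_lit 7) (nat_lit 10) (by decide +kernel)
theorem L127888 : W_46 (nat_lit 3) (nat_lit 0x10000c000e000180000000000000000000000) (nat_lit 0x0) (nat_lit 0x200010000800000001000000004000000000000000000) := T_46 (nat_lit 143) (nat_lit 74) (nat_lit 4) (nat_lit 7) (nat_lit 8) L127887 (by decide +kernel)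
theorem L127889 : W_46 (nat_lit 4) (nat_lit 0x10000c000e000080000000000000000000000) (nat_lit 0x0) (nat_lit 0x20001000080000000100010000c000000000000000000) := T_46 (nat_lit 92) (nat_lit 75) (nat_lit 7) (nat_lit 7) (nat_lit 4) L127888 (by decide +kernel)
theorem L127890 : W_46 (nat_lit 7) (nat_lit 0x10000c000e000000000000000000000000000) (nat_lit 0x0) (nat_lit 0x300018000c00020001000de000c000200000000000000) := Q_46 (nat_lit 91) (C_46 L127881 (C_46 L127760 (C_46 L127886 (C_46 L127889 N_46)))) (by decide +kernel)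
theorem L127891 : W_46 (nat_lit 8) (nat_lit 0x10000c0006000000000000000000000000000) (nat_lit 0x0) (nat_lit 0x300018000c00020039000de000c000200000000000000) := Q_46 (nat_lit 111) (C_46 L126030 (C_46 L127890 (C_46 L125592 N_46))) (by decide +kernel)
theorem L127892 : W_46 (nat_lit 8) (nat_lit 0x10000c0006000000000000000000000000000) (nat_lit 0x0) (nat_lit 0x20039001f800f8000c00000000000000) := Q_46 (nat_lit 93) (C_46 L127801 (C_46 L127753 (C_46 L123159 (C_46 L127783 N_46)))) (by decide +kernel)
theorem L127893 : W_46 (nat_lit 9) (nat_lit 0x10000c0002000000000000000000000000000) (nat_lit 0x0) (nat_lit 0x300018000c0002003d001fe00fc000e00000000000000) := Q_46 (nat_lit 110) (C_46 L127802 (C_46 L127754 (C_46 L123160 (C_46 L127891 (C_46 L127784 (C_46 L127892 N_46)))))) (by decide +kernel)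
theorem L127894 : W_46 (nat_lit 4) (nat_lit 0x10000c0006800000000000000000000000000) (nat_lit 0x0) (nat_lit 0x800000001400600010000800000000000000) := T_46 (nat_lit 108) (nat_lit 106) (nat_lit 3) (nat_lit 4) (nat_lit 6) L125346 (by decide +kernel)
theorem L127895 : W_46 (nat_lit 2) (nat_lit 0x10000c000f800040000000000000000000000) (nat_lit 0x0) (nat_lit 0x20030000000000000000000000000000) := D_46 (nat_lit 112) (nat_lit 125) (nat_lit 113) (nat_lit 1) (nat_lit 10) (nat_lit 6) (nat_lit 1) (nat_lit 11) (nat_lit 6) (by decide +kernel)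
theorem L127896 : W_46 (nat_lit 3) (nat_lit 0x10000c0007800040000000000000000000000) (nat_lit 0x0) (nat_lit 0x20038000080000000000000000000000) := T_46 (nat_lit 111) (nat_lit 91) (nat_lit 0) (nat_lit 9) (nat_lit 6) L127895 (by decide +kernel)
theorem L127897 : W_46 (nat_lit 4) (nat_lit 0x10000c0007800000000000000000000000000) (nat_lit 0x0) (nat_lit 0x200380000e0000000000000000000000) := T_46 (nat_lit 90) (nat_lit 89) (nat_lit 0) (nat_lit 8) (nat_lit 6) L127896 (by decide +kernel)
theorem L127898 : W_46 (nat_lit 2) (nat_lit 0x10000c0006800200010000000000000000000) (nat_lit 0x0) (nat_lit 0x400020001000000000000000) := D_46 (nat_lit 77) (nat_lit 94) (nat_lit 60) (nat_lit 6) (nat_lit 8) (nat_lit 8) (nat_lit 6) (nat_lit 8) (nat_lit 7) (by decide +kernel)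
theorem L127899 : W_46 (nat_lit 3) (nat_lit 0x10000c0006800200000000000000000000000) (nat_lit 0x0) (nat_lit 0x400030001800000000000000) := T_46 (nat_lit 76) (nat_lit 59) (nat_lit 5) (nat_lit 8) (nat_lit 3) L127898 (by decide +kernel)
theorem L127900 : W_46 (nat_lit 5) (nat_lit 0x10000c0003800000000000000000000000000) (nat_lit 0x0) (nat_lit 0x80002003c0006e0010000800000000000000) := Q_46 (nat_lit 110) (C_46 L127897 (C_46 L125346 N_46)) (by decide +kernel)
theorem L127901 : W_46 (nat_lit 6) (nat_lit 0x10000c0002800000000000000000000000000) (nat_lit 0x0) (nat_lit 0x80002003d4006e0010000800000000000000) := T_46 (nat_lit 108) (nat_lit 106) (nat_lit 3) (nat_lit 4) (nat_lit 6) L127900 (by decide +kernel)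
theorem L127902 : W_46 (nat_lit 2) (nat_lit 0x1e000d0002800040003000000000000000000) (nat_lit 0x0) (nat_lit 0x80004000200000000000000) := D_46 (nat_lit 74) (nat_lit 91) (nat_lit 57) (nat_lit 6) (nat_lit 5) (nat_lit 8) (nat_lit 6) (nat_lit 5) (nat_lit 7) (by decide +kernel)
theorem L127903 : W_46 (nat_lit 3) (nat_lit 0x1e000d0002800040001000000000000000000) (nat_lit 0x0) (nat_lit 0x80006000280000000000000) := T_46 (nat_lit 73) (nat_lit 55) (nat_lit 4) (nat_lit 5) (nat_lit 7) L127902 (by decide +kernel)
theorem L127904 : W_46 (nat_lit 4) (nat_lit 0x16000d0002800040001000000000000000000) (nat_lit 0x0) (nat_lit 0x800008000000080006000280000000000000) := T_46 (nat_lit 143) (nat_lit 123) (nat_lit 0) (nat_lit 8) (nat_lit 8) L127903 (by decide +kernel)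
theorem L127905 : W_46 (nat_lit 5) (nat_lit 0x12000d0002800040001000000000000000000) (nat_lit 0x0) (nat_lit 0x8000c00008000000080006000280000000000000) := T_46 (nat_lit 142) (nat_lit 159) (nat_lit 7) (nat_lit 5) (nat_lit 5) L127904 (by decide +kernel)
theorem L127906 : W_46 (nat_lit 6) (nat_lit 0x12000d0002800040000000000000000000000) (nat_lit 0x0) (nat_lit 0x8000c000080000000a0007000280000000000000) := T_46 (nat_lit 72) (nat_lit 89) (nat_lit 4) (nat_lit 5) (nat_lit 8) L127905 (by decide +kernel)
theorem L127907 : W_46 (nat_lit 7) (nat_lit 0x12000d0002800000000000000000000000000) (nat_lit 0x0) (nat_lit 0xa000d000080000000e0007000280000000000000) := Q_46 (nat_lit 90) (C_46 L125183 (C_46 L125169 (C_46 L127906 (C_46 L125155 N_46)))) (by decide +kernel)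
theorem L127908 : W_46 (nat_lit 2) (nat_lit 0x2000180008000c0012000d0002c00000000000000000000000000) (nat_lit 0x0) (nat_lit 0x800040002000000000000000000000000000000000000000000000000) := D_46 (nat_lit 210) (nat_lit 193) (nat_lit 227) (nat_lit 7) (nat_lit 5) (nat_lit 8) (nat_lit 7) (nat_lit 5) (nat_lit 9) (by decide +kernel)
theorem L127909 : W_46 (nat_lit 3) (nat_lit 0x180008000c0012000d0002c00000000000000000000000000) (nat_lit 0x0) (nat_lit 0x800060002000000000000400000000000000000000000000000000000) := T_46 (nat_lit 209) (nat_lit 142) (nat_lit 6) (nat_lit 5) (nat_lit 12) L127908 (by decide +kernel)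
theorem L127910 : W_46 (nat_lit 4) (nat_lit 0x80008000c0012000d0002c00000000000000000000000000) (nat_lit 0x0) (nat_lit 0x800070003000000000000400000000000000000000000000000000000) := T_46 (nat_lit 192) (nat_lit 208) (nat_lit 5) (nat_lit 5) (nat_lit 8) L127909 (by decide +kernel)
theorem L127911 : W_46 (nat_lit 5) (nat_lit 0x8000c0012000d0002c00000000000000000000000000) (nat_lit 0x0) (nat_lit 0x800070003800040000000400000000000000000000000000000000000) := T_46 (nat_lit 191) (nat_lit 174) (nat_lit 5) (nat_lit 5) (nat_lit 7) L127910 (by decide +kernel)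
theorem L127912 : W_46 (nat_lit 6) (nat_lit 0xc0012000d0002c00000000000000000000000000) (nat_lit 0x0) (nat_lit 0x8000700038000c0000000400008000000000000000000000000000000) := T_46 (nat_lit 175) (nat_lit 123) (nat_lit 4) (nat_lit 5) (nat_lit 10) L127911 (by decide +kernel)
theorem L127913 : W_46 (nat_lit 7) (nat_lit 0x40012000d0002c00000000000000000000000000) (nat_lit 0x0) (nat_lit 0x8000700038001c0008000400008000000000000000000000000000000) := T_46 (nat_lit 159) (nat_lit 176) (nat_lit 7) (nat_lit 5) (nat_lit 6) L127912 (by decide +kernel)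
theorem L127914 : W_46 (nat_lit 8) (nat_lit 0x40012000d0002800000000000000000000000000) (nat_lit 0x0) (nat_lit 0x8000700038001c0008000400008000400020000000000000000000000) := T_46 (nat_lit 106) (nat_lit 89) (nat_lit 4) (nat_lit 5) (nat_lit 9) L127913 (by decide +kernel)
theorem L127915 : W_46 (nat_lit 2) (nat_lit 0x1c001a000d8002c00000000000000000000000000) (nat_lit 0x0) (nat_lit 0x200000000000000004000200000000000000000000000) := D_46 (nat_lit 110) (nat_lit 93) (nat_lit 177) (nat_lit 6) (nat_lit 7) (nat_lit 9) (nat_lit 6) (nat_lit 7) (nat_lit 10) (by decide +kernel)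
theorem L127916 : W_46 (nat_lit 3) (nat_lit 0xc001a000d8002c00000000000000000000000000) (nat_lit 0x0) (nat_lit 0x200012000000000004000200000000000000000000000) := T_46 (nat_lit 160) (nat_lit 157) (nat_lit 2) (nat_lit 4) (nat_lit 9) L127915 (by decide +kernel)
theorem L127917 : W_46 (nat_lit 4) (nat_lit 0xc0012000d8002c00000000000000000000000000) (nat_lit 0x0) (nat_lit 0x200012000c00000004000200000000000000000000000) := T_46 (nat_lit 143) (nat_lit 142) (nat_lit 0) (nat_lit 8) (nat_lit 8) L127916 (by decide +kernel)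
theorem L127918 : W_46 (nat_lit 5) (nat_lit 0xc0012000d0002c00000000000000000000000000) (nat_lit 0x0) (nat_lit 0x280012000c00008004000200000000000000000000000) := T_46 (nat_lit 123) (nat_lit 175) (nat_lit 4) (nat_lit 5) (nat_lit 10) L127917 (by decide +kernel)
theorem L127919 : W_46 (nat_lit 6) (nat_lit 0x40012000d0002c00000000000000000000000000) (nat_lit 0x0) (nat_lit 0x38001a000c00008004000200000000000000000000000) := T_46 (nat_lit 159) (nat_lit 176) (nat_lit 7) (nat_lit 5) (nat_lit 6) L127918 (by decide +kernel)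
theorem L127920 : W_46 (nat_lit 7) (nat_lit 0x40012000d0002800000000000000000000000000) (nat_lit 0x0) (nat_lit 0x38001a000c00008004400220000000000000000000000) := T_46 (nat_lit 106) (nat_lit 89) (nat_lit 4) (nat_lit 5) (nat_lit 9) L127919 (by decide +kernel)
theorem L127921 : W_46 (nat_lit 10) (nat_lit 0x12000d0002800000000000000000000000000) (nat_lit 0x0) (nat_lit 0x8000700078007c001f800c00008004400220000000000000000000000) := Q_46 (nat_lit 158) (C_46 L125246 (C_46 L125198 (C_46 L125234 (C_46 L125239 (C_46 L127914 (C_46 L127920 N_46)))))) (by decide +kernel)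
theorem L127922 : W_46 (nat_lit 2) (nat_lit 0x80012000d0002800060000000000000000000000) (nat_lit 0x0) (nat_lit 0x100004000000000000400000000000000000000000000) := D_46 (nat_lit 158) (nat_lit 106) (nat_lit 176) (nat_lit 4) (nat_lit 5) (nat_lit 9) (nat_lit 7) (nat_lit 5) (nat_lit 6) (by decide +kernel)
theorem L127923 : W_46 (nat_lit 3) (nat_lit 0x12000d0002800060000000000000000000000) (nat_lit 0x0) (nat_lit 0x10000c000400000000400000000000000000000000000) := T_46 (nat_lit 159) (nat_lit 142) (nat_lit 7) (nat_lit 5) (nat_lit 5) L127922 (by decide +kernel)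
theorem L127924 : W_46 (nat_lit 4) (nat_lit 0x12000d0002800040000000000000000000000) (nat_lit 0x0) (nat_lit 0x10000c000400000000400020001000000000000000000) := T_46 (nat_lit 89) (nat_lit 72) (nat_lit 4) (nat_lit 5) (nat_lit 8) L127923 (by decide +kernel)
theorem L127925 : W_46 (nat_lit 8) (nat_lit 0x12000d0002800000000000000000000000000) (nat_lit 0x0) (nat_lit 0x28001c000e000d000000004000e0005000000000000000000) := Q_46 (nat_lit 90) (C_46 L125175 (C_46 L125153 (C_46 L125155 (C_46 L127924 N_46)))) (by decide +kernel)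
theorem L127926 : W_46 (nat_lit 2) (nat_lit 0x16000d0002800040000000000000000000000) (nat_lit 0x0) (nat_lit 0x900008000000000000000000000000000000) := D_46 (nat_lit 143) (nat_lit 140) (nat_lit 123) (nat_lit 2) (nat_lit 4) (nat_lit 8) (nat_lit 0) (nat_lit 8) (nat_lit 8) (by decide +kernel)
theorem L127927 : W_46 (nat_lit 3) (nat_lit 0x12000d0002800040000000000000000000000) (nat_lit 0x0) (nat_lit 0x8000d00008000000000000000000000000000000) := T_46 (nat_lit 142) (nat_lit 159) (nat_lit 7) (nat_lit 5) (nat_lit 5) L127926 (by decide +kernel)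
theorem L127928 : W_46 (nat_lit 7) (nat_lit 0x12000d0002800000000000000000000000000) (nat_lit 0x0) (nat_lit 0x10000c000d000080004000e0007000380008000000000) := Q_46 (nat_lit 90) (C_46 L127924 (C_46 L125189 (C_46 L127906 (C_46 L127927 N_46)))) (by decide +kernel)
theorem L127929 : W_46 (nat_lit 2) (nat_lit 0x16000d0002800000000000000000000000000) (nat_lit 0x0) (nat_lit 0x900008000000000000000000000000000000) := D_46 (nat_lit 143) (nat_lit 123) (nat_lit 140) (nat_lit 0) (nat_lit 8) (nat_lit 8) (nat_lit 2) (nat_lit 4) (nat_lit 8) (by decide +kernel)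
theorem L127930 : W_46 (nat_lit 2) (nat_lit 0x17000d0002800040004000000000000000000) (nat_lit 0x0) (nat_lit 0x8000000000002000200000000000000) := D_46 (nat_lit 73) (nat_lit 123) (nat_lit 57) (nat_lit 5) (nat_lit 5) (nat_lit 4) (nat_lit 6) (nat_lit 5) (nat_lit 7) (by decide +kernel)
theorem L127931 : W_46 (nat_lit 3) (nat_lit 0x16000d0002800040004000000000000000000) (nat_lit 0x0) (nat_lit 0x2000100008000000000002000200000000000000) := T_46 (nat_lit 140) (nat_lit 157) (nat_lit 5) (nat_lit 5) (nat_lit 5) L127930 (by decide +kernel)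
theorem L127932 : W_46 (nat_lit 4) (nat_lit 0x16000d0002800040000000000000000000000) (nat_lit 0x0) (nat_lit 0x2000100008000000080006000200000000000000) := T_46 (nat_lit 74) (nat_lit 91) (nat_lit 6) (nat_lit 5) (nat_lit 8) L127931 (by decide +kernel)
theorem L127933 : W_46 (nat_lit 5) (nat_lit 0x16000d0002800000000000000000000000000) (nat_lit 0x0) (nat_lit 0xa0001000080000000c0006000200000000000000) := T_46 (nat_lit 90) (nat_lit 159) (nat_lit 7) (nat_lit 5) (nat_lit 5) L127932 (by decide +kernel)
theorem L127934 : W_46 (nat_lit 2) (nat_lit 0x16000d8002800040006000100000000000000) (nat_lit 0x0) (nat_lit 0x1000080004000000000) := D_46 (nat_lit 55) (nat_lit 38) (nat_lit 72) (nat_lit 4) (nat_lit 5) (nat_lit 6) (nat_lit 4) (nat_lit 5) (nat_lit 7) (by decide +kernel)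
theorem L127935 : W_46 (nat_lit 3) (nat_lit 0x16000d8002800040006000000000000000000) (nat_lit 0x0) (nat_lit 0x400000001000180004000000000) := T_46 (nat_lit 56) (nat_lit 106) (nat_lit 5) (nat_lit 5) (nat_lit 3) L127934 (by decide +kernel)
theorem L127936 : W_46 (nat_lit 4) (nat_lit 0x16000d8002800040004000000000000000000) (nat_lit 0x0) (nat_lit 0x400000003000380004000000000) := T_46 (nat_lit 73) (nat_lit 57) (nat_lit 6) (nat_lit 5) (nat_lit 7) L127935 (by decide +kernel)
theorem L127937 : W_46 (nat_lit 5) (nat_lit 0x16000d0002800040004000000000000000000) (nat_lit 0x0) (nat_lit 0x800008000400000003000380004000000000) := T_46 (nat_lit 123) (nat_lit 143) (nat_lit 0) (nat_lit 8) (nat_lit 8) L127936 (by decide +kernel)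
theorem L127938 : W_46 (nat_lit 6) (nat_lit 0x16000d0002800040000000000000000000000) (nat_lit 0x0) (nat_lit 0x800008000400080007000380004000000000) := T_46 (nat_lit 74) (nat_lit 91) (nat_lit 6) (nat_lit 5) (nat_lit 8) L127937 (by decide +kernel)
theorem L127939 : W_46 (nat_lit 7) (nat_lit 0x16000d0002800000000000000000000000000) (nat_lit 0x0) (nat_lit 0x80008000080004000c0007000380004000000000) := T_46 (nat_lit 90) (nat_lit 159) (nat_lit 7) (nat_lit 5) (nat_lit 5) L127938 (by decide +kernel)
theorem L127940 : W_46 (nat_lit 2) (nat_lit 0x17000d0002800000000000000000000000000) (nat_lit 0x0) (nat_lit 0xa000000000000000040000000000000000000000) := D_46 (nat_lit 90) (nat_lit 159) (nat_lit 157) (nat_lit 7) (nat_lit 5) (nat_lit 5) (nat_lit 5) (nat_lit 5) (nat_lit 5) (by decide +kernel)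
theorem L127941 : W_46 (nat_lit 3) (nat_lit 0x16000d0002800000000000000000000000000) (nat_lit 0x0) (nat_lit 0xa000900000000000040000000000000000000000) := T_46 (nat_lit 140) (nat_lit 143) (nat_lit 2) (nat_lit 4) (nat_lit 8) L127940 (by decide +kernel)
theorem L127942 : W_46 (nat_lit 8) (nat_lit 0x12000d0002800000000000000000000000000) (nat_lit 0x0) (nat_lit 0xa000d000080004000c0007000380004000000000) := Q_46 (nat_lit 142) (C_46 L127929 (C_46 L127933 (C_46 L127939 (C_46 L127941 N_46)))) (by decide +kernel)
theorem L127943 : W_46 (nat_lit 11) (nat_lit 0x10000d0002800000000000000000000000000) (nat_lit 0x0) (nat_lit 0x8000700078007c001f800f000080044002e000700038000c000000000) := Q_46 (nat_lit 141) (C_46 L125210 (C_46 L127907 (C_46 L125190 (C_46 L127921 (C_46 L127925 (C_46 L127928 (C_46 L127942 N_46))))))) (by decide +kernel)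
theorem L127944 : W_46 (nat_lit 2) (nat_lit 0x10000d001f800040000000000000000000000) (nat_lit 0x0) (nat_lit 0x1c00000000000000000000000) := D_46 (nat_lit 95) (nat_lit 94) (nat_lit 96) (nat_lit 2) (nat_lit 6) (nat_lit 6) (nat_lit 2) (nat_lit 7) (nat_lit 6) (by decide +kernel)
theorem L127945 : W_46 (nat_lit 3) (nat_lit 0x10000d000f800040000000000000000000000) (nat_lit 0x0) (nat_lit 0x30001c00000000000000000000000) := T_46 (nat_lit 112) (nat_lit 113) (nat_lit 1) (nat_lit 11) (nat_lit 6) L127944 (by decide +kernel)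
theorem L127946 : W_46 (nat_lit 4) (nat_lit 0x10000d0007800040000000000000000000000) (nat_lit 0x0) (nat_lit 0x38001c80000000000000000000000) := T_46 (nat_lit 111) (nat_lit 91) (nat_lit 0) (nat_lit 9) (nat_lit 6) L127945 (by decide +kernel)
theorem L127947 : W_46 (nat_lit 5) (nat_lit 0x10000d0007800000000000000000000000000) (nat_lit 0x0) (nat_lit 0x38001ce0000000000000000000000) := T_46 (nat_lit 90) (nat_lit 89) (nat_lit 0) (nat_lit 8) (nat_lit 6) L127946 (by decide +kernel)
theorem L127948 : W_46 (nat_lit 6) (nat_lit 0x10000d0003800000000000000000000000000) (nat_lit 0x0) (nat_lit 0x803c001ce0000000000000000000000) := T_46 (nat_lit 110) (nat_lit 123) (nat_lit 1) (nat_lit 8) (nat_lit 6) L127947 (by decide +kernel)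
theorem L127949 : W_46 (nat_lit 7) (nat_lit 0x10000d0002800000000000000000000000000) (nat_lit 0x0) (nat_lit 0x803d401ce0000000000000000000000) := T_46 (nat_lit 108) (nat_lit 106) (nat_lit 3) (nat_lit 4) (nat_lit 6) L127948 (by decide +kernel)
theorem L127950 : W_46 (nat_lit 8) (nat_lit 0x12000d0002c00000000000000000000000000) (nat_lit 0x0) (nat_lit 0x8000700038001c000c000400008000000020000000000000000000000) := T_46 (nat_lit 158) (nat_lit 89) (nat_lit 4) (nat_lit 5) (nat_lit 9) L127913 (by decide +kernel)
theorem L127951 : W_46 (nat_lit 9) (nat_lit 0x12000d0002800000000000000000000000000) (nat_lit 0x0) (nat_lit 0x8000700038001c000c000400008001400020000000000000000000000) := T_46 (nat_lit 106) (nat_lit 108) (nat_lit 3) (nat_lit 4) (nat_lit 6) L127950 (by decide +kernel)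
theorem L127952 : W_46 (nat_lit 10) (nat_lit 0x10000d0002800000000000000000000000000) (nat_lit 0x0) (nat_lit 0x8000700038001c000e000f000080014000e000700038000c000000000) := Q_46 (nat_lit 141) (C_46 L127942 (C_46 L125190 (C_46 L125210 (C_46 L127951 (C_46 L127925 (C_46 L127907 N_46)))))) (by decide +kernel)
theorem L127953 : W_46 (nat_lit 2) (nat_lit 0x10000d0007800200000000000000000000000) (nat_lit 0x0) (nat_lit 0x800000000000000010000800000000000000) := D_46 (nat_lit 76) (nat_lit 59) (nat_lit 143) (nat_lit 5) (nat_lit 8) (nat_lit 3) (nat_lit 5) (nat_lit 8) (nat_lit 4) (by decide +kernel)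
theorem L127954 : W_46 (nat_lit 3) (nat_lit 0x10000d0007800000000000000000000000000) (nat_lit 0x0) (nat_lit 0x800000000000600010000800000000000000) := T_46 (nat_lit 93) (nat_lit 94) (nat_lit 2) (nat_lit 5) (nat_lit 6) L127953 (by decide +kernel)
theorem L127955 : W_46 (nat_lit 4) (nat_lit 0x10000d0003800000000000000000000000000) (nat_lit 0x0) (nat_lit 0x800008004000600010000800000000000000) := T_46 (nat_lit 110) (nat_lit 123) (nat_lit 1) (nat_lit 8) (nat_lit 6) L127954 (by decide +kernel)
theorem L127956 : W_46 (nat_lit 5) (nat_lit 0x10000d0002800000000000000000000000000) (nat_lit 0x0) (nat_lit 0x800008005400600010000800000000000000) := T_46 (nat_lit 108) (nat_lit 106) (nat_lit 3) (nat_lit 4) (nat_lit 6) L127955 (by decide +kernel)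
theorem L127957 : W_46 (nat_lit 2) (nat_lit 0xe0013000d0002c00000000000000000000000000) (nat_lit 0x0) (nat_lit 0x100000c0000000000000000000000000000000000) := D_46 (nat_lit 139) (nat_lit 138) (nat_lit 160) (nat_lit 3) (nat_lit 2) (nat_lit 8) (nat_lit 0) (nat_lit 7) (nat_lit 9) (by decide +kernel)
theorem L127958 : W_46 (nat_lit 3) (nat_lit 0x60013000d0002c00000000000000000000000000) (nat_lit 0x0) (nat_lit 0x1000180000c0000000000000000000000000000000000) := T_46 (nat_lit 159) (nat_lit 176) (nat_lit 7) (nat_lit 5) (nat_lit 6) L127957 (by decide +kernel)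
theorem L127959 : W_46 (nat_lit 4) (nat_lit 0x60012000d0002c00000000000000000000000000) (nat_lit 0x0) (nat_lit 0x1000180001c0000000000040000000000000000000000) := T_46 (nat_lit 140) (nat_lit 90) (nat_lit 5) (nat_lit 5) (nat_lit 5) L127958 (by decide +kernel)
theorem L127960 : W_46 (nat_lit 5) (nat_lit 0x40012000d0002c00000000000000000000000000) (nat_lit 0x0) (nat_lit 0x14001a0001c0000000000040000000000000000000000) := T_46 (nat_lit 157) (nat_lit 174) (nat_lit 5) (nat_lit 5) (nat_lit 6) L127959 (by decide +kernel)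
theorem L127961 : W_46 (nat_lit 6) (nat_lit 0x12000d0002c00000000000000000000000000) (nat_lit 0x0) (nat_lit 0x14001e0001c0000000000060000000000000000000000) := T_46 (nat_lit 158) (nat_lit 89) (nat_lit 4) (nat_lit 5) (nat_lit 9) L127960 (by decide +kernel)
theorem L127962 : W_46 (nat_lit 7) (nat_lit 0x12000d0002800000000000000000000000000) (nat_lit 0x0) (nat_lit 0x14001e0001c0000001400060000000000000000000000) := T_46 (nat_lit 106) (nat_lit 108) (nat_lit 3) (nat_lit 4) (nat_lit 6) L127961 (by decide +kernel)
theorem L127963 : W_46 (nat_lit 2) (nat_lit 0x12000d0002c00020000000000000000000000) (nat_lit 0x0) (nat_lit 0x40001000080000000000000) := D_46 (nat_lit 72) (nat_lit 90) (nat_lit 55) (nat_lit 4) (nat_lit 5) (nat_lit 8) (nat_lit 7) (nat_lit 4) (nat_lit 3) (by decide +kernel)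
theorem L127964 : W_46 (nat_lit 3) (nat_lit 0x12000d0002c00000000000000000000000000) (nat_lit 0x0) (nat_lit 0x4000000000000000060001000080000000000000) := T_46 (nat_lit 89) (nat_lit 158) (nat_lit 4) (nat_lit 5) (nat_lit 9) L127963 (by decide +kernel)
theorem L127965 : W_46 (nat_lit 4) (nat_lit 0x12000d0002800000000000000000000000000) (nat_lit 0x0) (nat_lit 0x4000000000001400060001000080000000000000) := T_46 (nat_lit 106) (nat_lit 108) (nat_lit 3) (nat_lit 4) (nat_lit 6) L127964 (by decide +kernel)
theorem L127966 : W_46 (nat_lit 2) (nat_lit 0x12000d0002c00040005000000000000000000) (nat_lit 0x0) (nat_lit 0x2000280000000000000) := D_46 (nat_lit 73) (nat_lit 57) (nat_lit 55) (nat_lit 6) (nat_lit 5) (nat_lit 7) (nat_lit 4) (nat_lit 5) (nat_lit 7) (by decide +kernel)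
theorem L127967 : W_46 (nat_lit 3) (nat_lit 0x12000d0002c00040004000000000000000000) (nat_lit 0x0) (nat_lit 0x20003000280000000000000) := T_46 (nat_lit 72) (nat_lit 89) (nat_lit 4) (nat_lit 5) (nat_lit 8) L127966 (by decide +kernel)
theorem L127968 : W_46 (nat_lit 4) (nat_lit 0x12000d0002c00040000000000000000000000) (nat_lit 0x0) (nat_lit 0xa0007000280000000000000) := T_46 (nat_lit 74) (nat_lit 91) (nat_lit 6) (nat_lit 5) (nat_lit 8) L127967 (by decide +kernel)
theorem L127969 : W_46 (nat_lit 5) (nat_lit 0x12000d0002800040000000000000000000000) (nat_lit 0x0) (nat_lit 0x14000a0007000280000000000000) := T_46 (nat_lit 106) (nat_lit 108) (nat_lit 3) (nat_lit 4) (nat_lit 6) L127968 (by decide +kernel)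
theorem L127970 : W_46 (nat_lit 6) (nat_lit 0x12000d0002800000000000000000000000000) (nat_lit 0x0) (nat_lit 0xa000d000000014000e0007000280000000000000) := Q_46 (nat_lit 90) (C_46 L125155 (C_46 L127969 N_46)) (by decide +kernel)
theorem L127971 : W_46 (nat_lit 6) (nat_lit 0x12000d0002c00000000000000000000000000) (nat_lit 0x0) (nat_lit 0x24001e000c00000004000220000000000000000000000) := T_46 (nat_lit 158) (nat_lit 89) (nat_lit 4) (nat_lit 5) (nat_lit 9) L125238 (by decide +kernel)
theorem L127972 : W_46 (nat_lit 7) (nat_lit 0x12000d0002800000000000000000000000000) (nat_lit 0x0) (nat_lit 0x24001e000c00000005400220000000000000000000000) := T_46 (nat_lit 106) (nat_lit 108) (nat_lit 3) (nat_lit 4) (nat_lit 6) L127971 (by decide +kernel)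
theorem L127973 : W_46 (nat_lit 7) (nat_lit 0x12000d0002800060000000000000000000000) (nat_lit 0x0) (nat_lit 0x80000000500029801e000a00000000000000) := T_46 (nat_lit 110) (nat_lit 108) (nat_lit 0) (nat_lit 8) (nat_lit 6) L125996 (by decide +kernel)
theorem L127974 : W_46 (nat_lit 8) (nat_lit 0x12000d0002800040000000000000000000000) (nat_lit 0x0) (nat_lit 0x8000000050002b801f000a00000000000000) := T_46 (nat_lit 89) (nat_lit 72) (nat_lit 4) (nat_lit 5) (nat_lit 8) L127973 (by decide +kernel)
theorem L127975 : W_46 (nat_lit 2) (nat_lit 0x40016000d00028000c0000000000000000000000) (nat_lit 0x0) (nat_lit 0x40002000100000000000000000000000000000000000) := D_46 (nat_lit 157) (nat_lit 174) (nat_lit 140) (nat_lit 5) (nat_lit 5) (nat_lit 6) (nat_lit 5) (nat_lit 5) (nat_lit 5) (by decide +kernel)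
theorem L127976 : W_46 (nat_lit 3) (nat_lit 0x16000d00028000c0000000000000000000000) (nat_lit 0x0) (nat_lit 0x40006000100000001000000000000000000000000000) := T_46 (nat_lit 158) (nat_lit 108) (nat_lit 6) (nat_lit 5) (nat_lit 9) L127975 (by decide +kernel)
theorem L127977 : W_46 (nat_lit 4) (nat_lit 0x12000d00028000c0000000000000000000000) (nat_lit 0x0) (nat_lit 0x4000e000500000001000000000000000000000000000) := T_46 (nat_lit 142) (nat_lit 159) (nat_lit 7) (nat_lit 5) (nat_lit 5) L127976 (by decide +kernel)
theorem L127978 : W_46 (nat_lit 5) (nat_lit 0x12000d0002800040000000000000000000000) (nat_lit 0x0) (nat_lit 0x4000e000500000001000080004000000000000000000) := T_46 (nat_lit 91) (nat_lit 74) (nat_lit 6) (nat_lit 5) (nat_lit 8) L127977 (by decide +kernel)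
theorem L127979 : W_46 (nat_lit 9) (nat_lit 0x12000d0002800000000000000000000000000) (nat_lit 0x0) (nat_lit 0x4000e000d000000050002f801f000a00000000000000) := Q_46 (nat_lit 90) (C_46 L125155 (C_46 L127974 (C_46 L127978 N_46))) (by decide +kernel)
theorem L127980 : W_46 (nat_lit 2) (nat_lit 0x60012000d0003800040000000000000000000000) (nat_lit 0x0) (nat_lit 0x8000c00000000000000000000000000000000000) := D_46 (nat_lit 142) (nat_lit 143) (nat_lit 159) (nat_lit 1) (nat_lit 8) (nat_lit 8) (nat_lit 7) (nat_lit 5) (nat_lit 5) (by decide +kernel)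
theorem L127981 : W_46 (nat_lit 3) (nat_lit 0x60012000d0003800000000000000000000000000) (nat_lit 0x0) (nat_lit 0x8000d00000000000040000000000000000000000) := T_46 (nat_lit 90) (nat_lit 140) (nat_lit 5) (nat_lit 5) (nat_lit 5) L127980 (by decide +kernel)
theorem L127982 : W_46 (nat_lit 4) (nat_lit 0x40012000d0003800000000000000000000000000) (nat_lit 0x0) (nat_lit 0x4000a000d00000000000040000000000000000000000) := T_46 (nat_lit 157) (nat_lit 174) (nat_lit 5) (nat_lit 5) (nat_lit 6) L127981 (by decide +kernel)
theorem L127983 : W_46 (nat_lit 5) (nat_lit 0x12000d0003800000000000000000000000000) (nat_lit 0x0) (nat_lit 0x4000e000d000000000000c0000000000000000000000) := T_46 (nat_lit 158) (nat_lit 91) (nat_lit 6) (nat_lit 5) (nat_lit 9) L127982 (by decide +kernel)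
theorem L127984 : W_46 (nat_lit 6) (nat_lit 0x12000d0002800000000000000000000000000) (nat_lit 0x0) (nat_lit 0x4000e000d000000014000c0000000000000000000000) := T_46 (nat_lit 108) (nat_lit 106) (nat_lit 3) (nat_lit 4) (nat_lit 6) L127983 (by decide +kernel)
theorem L127985 : W_46 (nat_lit 10) (nat_lit 0x10000d0002800000000000000000000000000) (nat_lit 0x0) (nat_lit 0x28003c001e000fc00000054002f801f000a80000000000000) := Q_46 (nat_lit 141) (C_46 L127925 (C_46 L127962 (C_46 L127965 (C_46 L127970 (C_46 L127972 (C_46 L127979 (C_46 L127984 N_46))))))) (by decide +kernel)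
theorem L127986 : W_46 (nat_lit 2) (nat_lit 0x1a000d0006800000000000000000000000000) (nat_lit 0x0) (nat_lit 0x500008000000000000000000000000000000) := D_46 (nat_lit 142) (nat_lit 140) (nat_lit 123) (nat_lit 2) (nat_lit 4) (nat_lit 8) (nat_lit 0) (nat_lit 8) (nat_lit 8) (by decide +kernel)
theorem L127987 : W_46 (nat_lit 2) (nat_lit 0x10000d8006800040002000280000000000000) (nat_lit 0x0) (nat_lit 0x100014000000000) := D_46 (nat_lit 56) (nat_lit 38) (nat_lit 40) (nat_lit 4) (nat_lit 5) (nat_lit 6) (nat_lit 6) (nat_lit 5) (nat_lit 6) (by decide +kernel)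
theorem L127988 : W_46 (nat_lit 3) (nat_lit 0x10000d8006800040002000080000000000000) (nat_lit 0x0) (nat_lit 0x4000300014000000000) := T_46 (nat_lit 57) (nat_lit 74) (nat_lit 6) (nat_lit 5) (nat_lit 7) L127987 (by decide +kernel)
theorem L127989 : W_46 (nat_lit 4) (nat_lit 0x10000d8006800040002000000000000000000) (nat_lit 0x0) (nat_lit 0x5000380014000000000) := T_46 (nat_lit 55) (nat_lit 72) (nat_lit 4) (nat_lit 5) (nat_lit 7) L127988 (by decide +kernel)
theorem L127990 : W_46 (nat_lit 5) (nat_lit 0x10000d0006800040002000000000000000000) (nat_lit 0x0) (nat_lit 0x100008000000000005000380014000000000) := T_46 (nat_lit 123) (nat_lit 140) (nat_lit 5) (nat_lit 5) (nat_lit 4) L127989 (by decide +kernel)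
theorem L127991 : W_46 (nat_lit 2) (nat_lit 0xe0013000d0003800000000000000000000000000) (nat_lit 0x0) (nat_lit 0x100000c0000000000000000000000000000000000) := D_46 (nat_lit 139) (nat_lit 138) (nat_lit 160) (nat_lit 3) (nat_lit 2) (nat_lit 8) (nat_lit 0) (nat_lit 7) (nat_lit 9) (by decide +kernel)
theorem L127992 : W_46 (nat_lit 3) (nat_lit 0x60013000d0003800000000000000000000000000) (nat_lit 0x0) (nat_lit 0x1000180000c0000000000000000000000000000000000) := T_46 (nat_lit 159) (nat_lit 176) (nat_lit 7) (nat_lit 5) (nat_lit 6) L127991 (by decide +kernel)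
theorem L127993 : W_46 (nat_lit 4) (nat_lit 0x60012000d0003800000000000000000000000000) (nat_lit 0x0) (nat_lit 0x1000180001c0000000000040000000000000000000000) := T_46 (nat_lit 140) (nat_lit 90) (nat_lit 5) (nat_lit 5) (nat_lit 5) L127992 (by decide +kernel)
theorem L127994 : W_46 (nat_lit 5) (nat_lit 0x40012000d0003800000000000000000000000000) (nat_lit 0x0) (nat_lit 0x14001a0001c0000000000040000000000000000000000) := T_46 (nat_lit 157) (nat_lit 174) (nat_lit 5) (nat_lit 5) (nat_lit 6) L127993 (by decide +kernel)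
theorem L127995 : W_46 (nat_lit 6) (nat_lit 0x12000d0003800000000000000000000000000) (nat_lit 0x0) (nat_lit 0x14001e0001c00000000000c0000000000000000000000) := T_46 (nat_lit 158) (nat_lit 91) (nat_lit 6) (nat_lit 5) (nat_lit 9) L127994 (by decide +kernel)
theorem L127996 : W_46 (nat_lit 2) (nat_lit 0x12000d0003800080000000000000000000000) (nat_lit 0x0) (nat_lit 0x40004000200000000000000) := D_46 (nat_lit 74) (nat_lit 90) (nat_lit 57) (nat_lit 6) (nat_lit 5) (nat_lit 8) (nat_lit 7) (nat_lit 6) (nat_lit 3) (by decide +kernel)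
theorem L127997 : W_46 (nat_lit 3) (nat_lit 0x12000d0003800000000000000000000000000) (nat_lit 0x0) (nat_lit 0x40000000000000000c0004000200000000000000) := T_46 (nat_lit 91) (nat_lit 158) (nat_lit 6) (nat_lit 5) (nat_lit 9) L127996 (by decide +kernel)
theorem L127998 : W_46 (nat_lit 2) (nat_lit 0x16000d0003800000000000000000000000000) (nat_lit 0x0) (nat_lit 0x900008000000000000000000000000000000) := D_46 (nat_lit 143) (nat_lit 123) (nat_lit 140) (nat_lit 0) (nat_lit 8) (nat_lit 8) (nat_lit 2) (nat_lit 4) (nat_lit 8) (by decide +kernel)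
theorem L127999 : W_46 (nat_lit 2) (nat_lit 0x17000d0003800040002000000000000000000) (nat_lit 0x0) (nat_lit 0x20001000080000000000000) := D_46 (nat_lit 72) (nat_lit 55) (nat_lit 89) (nat_lit 4) (nat_lit 5) (nat_lit 7) (nat_lit 4) (nat_lit 5) (nat_lit 8) (by decide +kernel)
theorem L128000 : W_46 (nat_lit 3) (nat_lit 0x17000d0003800040000000000000000000000) (nat_lit 0x0) (nat_lit 0x8000000020003000080000000000000) := T_46 (nat_lit 73) (nat_lit 123) (nat_lit 5) (nat_lit 5) (nat_lit 4) L127999 (by decide +kernel)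
theorem L128001 : W_46 (nat_lit 4) (nat_lit 0x16000d0003800040000000000000000000000) (nat_lit 0x0) (nat_lit 0x2000100008000000020003000080000000000000) := T_46 (nat_lit 140) (nat_lit 157) (nat_lit 5) (nat_lit 5) (nat_lit 5) L128000 (by decide +kernel)
theorem L128002 : W_46 (nat_lit 5) (nat_lit 0x16000d0003800000000000000000000000000) (nat_lit 0x0) (nat_lit 0xa000100008000000060003000080000000000000) := T_46 (nat_lit 90) (nat_lit 159) (nat_lit 7) (nat_lit 5) (nat_lit 5) L128001 (by decide +kernel)
theorem L128003 : W_46 (nat_lit 2) (nat_lit 0x80016000d0003800000000000000000000000000) (nat_lit 0x0) (nat_lit 0x2000100004000000000000000000000000000000000000000) := D_46 (nat_lit 176) (nat_lit 193) (nat_lit 158) (nat_lit 4) (nat_lit 6) (nat_lit 11) (nat_lit 7) (nat_lit 5) (nat_lit 6) (by decide +kernel)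
theorem L128004 : W_46 (nat_lit 3) (nat_lit 0x16000d0003800000000000000000000000000) (nat_lit 0x0) (nat_lit 0x200010000c000000000000000040000000000000000000000) := T_46 (nat_lit 159) (nat_lit 90) (nat_lit 7) (nat_lit 5) (nat_lit 5) L128003 (by decide +kernel)
theorem L128005 : W_46 (nat_lit 6) (nat_lit 0x12000d0003800000000000000000000000000) (nat_lit 0x0) (nat_lit 0x200010000e000d00008000000060003000080000000000000) := Q_46 (nat_lit 142) (C_46 L127998 (C_46 L128002 (C_46 L128004 N_46))) (by decide +kernel)
theorem L128006 : W_46 (nat_lit 2) (nat_lit 0x12000d0003800060000000000000000000000) (nat_lit 0x0) (nat_lit 0x98000000000000000000000) := D_46 (nat_lit 88) (nat_lit 91) (nat_lit 87) (nat_lit 3) (nat_lit 3) (nat_lit 5) (nat_lit 3) (nat_lit 2) (nat_lit 5) (by decide +kernel)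
theorem L128007 : W_46 (nat_lit 3) (nat_lit 0x12000d0003800040000000000000000000000) (nat_lit 0x0) (nat_lit 0xb8001000000000000000000) := T_46 (nat_lit 89) (nat_lit 72) (nat_lit 4) (nat_lit 5) (nat_lit 8) L128006 (by decide +kernel)
theorem L128008 : W_46 (nat_lit 5) (nat_lit 0x12000d0003800040000000000000000000000) (nat_lit 0x0) (nat_lit 0xa000500008000000020003000080000000000000) := T_46 (nat_lit 142) (nat_lit 159) (nat_lit 7) (nat_lit 5) (nat_lit 5) L128001 (by decide +kernel)
theorem L128009 : W_46 (nat_lit 2) (nat_lit 0x100017000d00038000c0002000080000000000000) (nat_lit 0x0) (nat_lit 0x10000c000000000) := D_46 (nat_lit 56) (nat_lit 39) (nat_lit 38) (nat_lit 7) (nat_lit 5) (nat_lit 2) (nat_lit 4) (nat_lit 5) (nat_lit 6) (by decide +kernel)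
theorem L128010 : W_46 (nat_lit 3) (nat_lit 0x100017000d00038000c0002000000000000000000) (nat_lit 0x0) (nat_lit 0x100018000c000000000) := T_46 (nat_lit 55) (nat_lit 72) (nat_lit 4) (nat_lit 5) (nat_lit 7) L128009 (by decide +kernel)
theorem L128011 : W_46 (nat_lit 4) (nat_lit 0x100017000d00038000c0000000000000000000000) (nat_lit 0x0) (nat_lit 0x800000000000300018000c000000000) := T_46 (nat_lit 73) (nat_lit 123) (nat_lit 5) (nat_lit 5) (nat_lit 4) L128010 (by decide +kernel)
theorem L128012 : W_46 (nat_lit 5) (nat_lit 0x100016000d00038000c0000000000000000000000) (nat_lit 0x0) (nat_lit 0x200010000800000000000300018000c000000000) := T_46 (nat_lit 140) (nat_lit 157) (nat_lit 5) (nat_lit 5) (nat_lit 5) L128011 (by decide +kernel)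
theorem L128013 : W_46 (nat_lit 6) (nat_lit 0x100012000d00038000c0000000000000000000000) (nat_lit 0x0) (nat_lit 0xa00050000800000000000300018000c000000000) := T_46 (nat_lit 142) (nat_lit 159) (nat_lit 7) (nat_lit 5) (nat_lit 5) L128012 (by decide +kernel)
theorem L128014 : W_46 (nat_lit 7) (nat_lit 0x12000d00038000c0000000000000000000000) (nat_lit 0x0) (nat_lit 0x1a000d0000800000000000300018000c000000000) := T_46 (nat_lit 160) (nat_lit 143) (nat_lit 4) (nat_lit 7) (nat_lit 9) L128013 (by decide +kernel)
theorem L128015 : W_46 (nat_lit 8) (nat_lit 0x12000d0003800040000000000000000000000) (nat_lit 0x0) (nat_lit 0x1a000d0000800000008000700018000c000000000) := T_46 (nat_lit 91) (nat_lit 74) (nat_lit 6) (nat_lit 5) (nat_lit 8) L128014 (by decide +kernel)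
theorem L128016 : W_46 (nat_lit 2) (nat_lit 0x13000d0003800040000000000000000000000) (nat_lit 0x0) (nat_lit 0x8000c00000000000000000000000000000000000) := D_46 (nat_lit 142) (nat_lit 159) (nat_lit 143) (nat_lit 7) (nat_lit 5) (nat_lit 5) (nat_lit 2) (nat_lit 4) (nat_lit 8) (by decide +kernel)
theorem L128017 : W_46 (nat_lit 3) (nat_lit 0x12000d0003800040000000000000000000000) (nat_lit 0x0) (nat_lit 0xa000d00000000000000000000000000000000000) := T_46 (nat_lit 140) (nat_lit 157) (nat_lit 5) (nat_lit 5) (nat_lit 5) L128016 (by decide +kernel)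
theorem L128018 : W_46 (nat_lit 9) (nat_lit 0x12000d0003800000000000000000000000000) (nat_lit 0x0) (nat_lit 0x1a000d000080000000f800700018000c000000000) := Q_46 (nat_lit 90) (C_46 L128007 (C_46 L128008 (C_46 L128015 (C_46 L128017 N_46)))) (by decide +kernel)
theorem L128019 : W_46 (nat_lit 2) (nat_lit 0x6001a000d0003800000000000000000000000000) (nat_lit 0x0) (nat_lit 0x100018000000000000000000000000000000000000000) := D_46 (nat_lit 159) (nat_lit 160) (nat_lit 176) (nat_lit 2) (nat_lit 4) (nat_lit 9) (nat_lit 7) (nat_lit 5) (nat_lit 6) (by decide +kernel)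
theorem L128020 : W_46 (nat_lit 3) (nat_lit 0x60012000d0003800000000000000000000000000) (nat_lit 0x0) (nat_lit 0x100018000c00000000000000000000000000000000000) := T_46 (nat_lit 143) (nat_lit 142) (nat_lit 1) (nat_lit 8) (nat_lit 8) L128019 (by decide +kernel)
theorem L128021 : W_46 (nat_lit 4) (nat_lit 0x40012000d0003800000000000000000000000000) (nat_lit 0x0) (nat_lit 0x14001a000c00000000000000000000000000000000000) := T_46 (nat_lit 157) (nat_lit 174) (nat_lit 5) (nat_lit 5) (nat_lit 6) L128020 (by decide +kernel)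
theorem L128022 : W_46 (nat_lit 5) (nat_lit 0x12000d0003800000000000000000000000000) (nat_lit 0x0) (nat_lit 0x14001e000c00000000000080000000000000000000000) := T_46 (nat_lit 158) (nat_lit 91) (nat_lit 6) (nat_lit 5) (nat_lit 9) L128021 (by decide +kernel)
theorem L128023 : W_46 (nat_lit 10) (nat_lit 0x10000d0003800000000000000000000000000) (nat_lit 0x0) (nat_lit 0x200014001e000fc00080000000f800700038000c000000000) := Q_46 (nat_lit 141) (C_46 L127983 (C_46 L127995 (C_46 L127997 (C_46 L128005 (C_46 L128018 (C_46 L128022 N_46)))))) (by decide +kernel)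
theorem L128024 : W_46 (nat_lit 2) (nat_lit 0x10000d00078000c0000000000000000000000) (nat_lit 0x0) (nat_lit 0x200000000000000004000200000000000000) := D_46 (nat_lit 74) (nat_lit 57) (nat_lit 141) (nat_lit 7) (nat_lit 6) (nat_lit 3) (nat_lit 6) (nat_lit 5) (nat_lit 8) (by decide +kernel)
theorem L128025 : W_46 (nat_lit 3) (nat_lit 0x10000d0007800040000000000000000000000) (nat_lit 0x0) (nat_lit 0x200000008000080004000200000000000000) := T_46 (nat_lit 91) (nat_lit 111) (nat_lit 0) (nat_lit 9) (nat_lit 6) L128024 (by decide +kernel)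
theorem L128026 : W_46 (nat_lit 4) (nat_lit 0x10000d0007800000000000000000000000000) (nat_lit 0x0) (nat_lit 0x2000000080000e0004000200000000000000) := T_46 (nat_lit 90) (nat_lit 89) (nat_lit 0) (nat_lit 8) (nat_lit 6) L128025 (by decide +kernel)
theorem L128027 : W_46 (nat_lit 6) (nat_lit 0x10000d0003800000000000000000000000000) (nat_lit 0x0) (nat_lit 0xa0000003c001ee0014000a00000000000000) := Q_46 (nat_lit 110) (C_46 L127947 (C_46 L128026 (C_46 L127954 N_46))) (by decide +kernel)
theorem L128028 : W_46 (nat_lit 11) (nat_lit 0x10000d0002800000000000000000000000000) (nat_lit 0x0) (nat_lit 0x200014001e000fc000803d001ef8017000b8000c000000000) := Q_46 (nat_lit 108) (C_46 L128023 (C_46 L127955 (C_46 L127948 (C_46 L128027 N_46)))) (by decide +kernel)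
theorem L128029 : W_46 (nat_lit 12) (nat_lit 0x10000c0002800000000000000000000000000) (nat_lit 0x0) (nat_lit 0x8000700078007c001f800fc001803d401ef801f000b8000c000000000) := Q_46 (nat_lit 124) (C_46 L127943 (C_46 L125303 (C_46 L127949 (C_46 L127952 (C_46 L127956 (C_46 L127985 (C_46 L128028 N_46))))))) (by decide +kernel)
theorem L128030 : W_46 (nat_lit 12) (nat_lit 0x10000c0002800000000000000000000000000) (nat_lit 0x0) (nat_lit 0x8000700078007c001f800fc003e0054002f801f000b8000c000000000) := Q_46 (nat_lit 124) (C_46 L127943 (C_46 L125304 (C_46 L127985 (C_46 L125327 N_46)))) (by decide +kernel)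
theorem L128031 : W_46 (nat_lit 2) (nat_lit 0x10000f0002800000000000000000000000000) (nat_lit 0x0) (nat_lit 0x800c000000000000000000000000000) := D_46 (nat_lit 110) (nat_lit 123) (nat_lit 111) (nat_lit 2) (nat_lit 4) (nat_lit 7) (nat_lit 2) (nat_lit 5) (nat_lit 7) (by decide +kernel)
theorem L128032 : W_46 (nat_lit 2) (nat_lit 0x12000f0002800040000000000000000000000) (nat_lit 0x0) (nat_lit 0x8000400000000000000002000000000000000000) := D_46 (nat_lit 142) (nat_lit 73) (nat_lit 159) (nat_lit 7) (nat_lit 5) (nat_lit 4) (nat_lit 7) (nat_lit 5) (nat_lit 5) (by decide +kernel)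
theorem L128033 : W_46 (nat_lit 3) (nat_lit 0x10000f0002800040000000000000000000000) (nat_lit 0x0) (nat_lit 0x8000700000000000000002000000000000000000) := T_46 (nat_lit 141) (nat_lit 140) (nat_lit 1) (nat_lit 8) (nat_lit 7) L128032 (by decide +kernel)
theorem L128034 : W_46 (nat_lit 2) (nat_lit 0x12000f0006800040000000000000000000000) (nat_lit 0x0) (nat_lit 0x1000020001000000000000000000) := D_46 (nat_lit 89) (nat_lit 108) (nat_lit 72) (nat_lit 0) (nat_lit 8) (nat_lit 6) (nat_lit 4) (nat_lit 5) (nat_lit 8) (by decide +kernel)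
theorem L128035 : W_46 (nat_lit 3) (nat_lit 0x12000f0002800040000000000000000000000) (nat_lit 0x0) (nat_lit 0xd000020001000000000000000000) := T_46 (nat_lit 110) (nat_lit 111) (nat_lit 2) (nat_lit 5) (nat_lit 7) L128034 (by decide +kernel)
theorem L128036 : W_46 (nat_lit 4) (nat_lit 0x10000f0002800040000000000000000000000) (nat_lit 0x0) (nat_lit 0x30000000d000020001000000000000000000) := T_46 (nat_lit 141) (nat_lit 140) (nat_lit 1) (nat_lit 8) (nat_lit 7) L128035 (by decide +kernel)
theorem L128037 : W_46 (nat_lit 3) (nat_lit 0x10000f0006800040000000000000000000000) (nat_lit 0x0) (nat_lit 0x8000400000001000020002000000000000000000) := T_46 (nat_lit 108) (nat_lit 89) (nat_lit 0) (nat_lit 8) (nat_lit 6) L125341 (by decide +kernel)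
theorem L128038 : W_46 (nat_lit 4) (nat_lit 0x10000f0002800040000000000000000000000) (nat_lit 0x0) (nat_lit 0x800040000000d000020002000000000000000000) := T_46 (nat_lit 110) (nat_lit 111) (nat_lit 2) (nat_lit 5) (nat_lit 7) L128037 (by decide +kernel)
theorem L128039 : W_46 (nat_lit 5) (nat_lit 0x10000f0002800000000000000000000000000) (nat_lit 0x0) (nat_lit 0x800070000000d000060003000000000000000000) := Q_46 (nat_lit 90) (C_46 L128033 (C_46 L128036 (C_46 L128038 N_46))) (by decide +kernel)
theorem L128040 : W_46 (nat_lit 6) (nat_lit 0x10000d0002800000000000000000000000000) (nat_lit 0x0) (nat_lit 0x8000f8002800d000060003000000000000000000) := Q_46 (nat_lit 125) (C_46 L127663 (C_46 L128031 (C_46 L128039 N_46))) (by decide +kernel)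
theorem L128041 : W_46 (nat_lit 11) (nat_lit 0x10000c0002800000000000000000000000000) (nat_lit 0x0) (nat_lit 0x8000700038001c000e000f8003803d401ce000700038000c000000000) := Q_46 (nat_lit 124) (C_46 L125285 (C_46 L127952 (C_46 L127949 (C_46 L125304 (C_46 L128040 N_46))))) (by decide +kernel)
theorem L128042 : W_46 (nat_lit 4) (nat_lit 0x10000d0002800000000000000000000000000) (nat_lit 0x0) (nat_lit 0xb80028000400000000000000000000000000) := T_46 (nat_lit 125) (nat_lit 106) (nat_lit 0) (nat_lit 8) (nat_lit 7) L127663 (by decide +kernel)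
theorem L128043 : W_46 (nat_lit 3) (nat_lit 0x10000d0002800000000000000000000000000) (nat_lit 0x0) (nat_lit 0x2800c400000000000000000000000000) := T_46 (nat_lit 125) (nat_lit 106) (nat_lit 0) (nat_lit 8) (nat_lit 7) L128031 (by decide +kernel)
theorem L128044 : W_46 (nat_lit 2) (nat_lit 0x12000d0002800000000000000000000000000) (nat_lit 0x0) (nat_lit 0x100020000400000000000000000000000000) := D_46 (nat_lit 125) (nat_lit 106) (nat_lit 140) (nat_lit 0) (nat_lit 8) (nat_lit 7) (nat_lit 1) (nat_lit 8) (nat_lit 7) (by decide +kernel)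
theorem L128045 : W_46 (nat_lit 7) (nat_lit 0x12000d0002800000000000000000000000000) (nat_lit 0x0) (nat_lit 0x24001e000c00020004400220000000000000000000000) := T_46 (nat_lit 106) (nat_lit 125) (nat_lit 0) (nat_lit 8) (nat_lit 7) L127971 (by decide +kernel)
theorem L128046 : W_46 (nat_lit 3) (nat_lit 0x13000d0002800000000000000000000000000) (nat_lit 0x0) (nat_lit 0xa000c00000000000040000000000000000000000) := T_46 (nat_lit 142) (nat_lit 143) (nat_lit 2) (nat_lit 4) (nat_lit 8) L127940 (by decide +kernel)
theorem L128047 : W_46 (nat_lit 4) (nat_lit 0x12000d0002800000000000000000000000000) (nat_lit 0x0) (nat_lit 0xa000d00020000000040000000000000000000000) := T_46 (nat_lit 140) (nat_lit 125) (nat_lit 1) (nat_lit 8) (nat_lit 7) L128046 (by decide +kernel)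
theorem L128048 : W_46 (nat_lit 9) (nat_lit 0x10000d0002800000000000000000000000000) (nat_lit 0x0) (nat_lit 0x28003c001e000f000200044002e0005000000000000000000) := Q_46 (nat_lit 141) (C_46 L127925 (C_46 L128044 (C_46 L128045 (C_46 L128047 N_46)))) (by decide +kernel)
theorem L128049 : W_46 (nat_lit 3) (nat_lit 0x14000f0002800000000000000000000000000) (nat_lit 0x0) (nat_lit 0x8000300000000000040002000000000000000000) := T_46 (nat_lit 141) (nat_lit 140) (nat_lit 1) (nat_lit 8) (nat_lit 7) L125292 (by decide +kernel)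
theorem L128050 : W_46 (nat_lit 2) (nat_lit 0xc0012000f0006800068016000000000000000000) (nat_lit 0x0) (nat_lit 0x800000000000200000000800000000000000) := D_46 (nat_lit 93) (nat_lit 59) (nat_lit 143) (nat_lit 5) (nat_lit 8) (nat_lit 3) (nat_lit 5) (nat_lit 8) (nat_lit 4) (by decide +kernel)
theorem L128051 : W_46 (nat_lit 3) (nat_lit 0xc0012000f0006800068006000000000000000000) (nat_lit 0x0) (nat_lit 0x800000000000200018000800000000000000) := T_46 (nat_lit 76) (nat_lit 75) (nat_lit 1) (nat_lit 8) (nat_lit 4) L128050 (by decide +kernel)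
theorem L128052 : W_46 (nat_lit 4) (nat_lit 0xc0012000f0006800060006000000000000000000) (nat_lit 0x0) (nat_lit 0x800000000000218018000800000000000000) := T_46 (nat_lit 87) (nat_lit 88) (nat_lit 2) (nat_lit 2) (nat_lit 5) L128051 (by decide +kernel)
theorem L128053 : W_46 (nat_lit 5) (nat_lit 0xc0012000f0006800060004000000000000000000) (nat_lit 0x0) (nat_lit 0x80000000000021801a000a00000000000000) := T_46 (nat_lit 73) (nat_lit 57) (nat_lit 6) (nat_lit 5) (nat_lit 7) L128052 (by decide +kernel)
theorem L128054 : W_46 (nat_lit 6) (nat_lit 0xc0012000f0006800040004000000000000000000) (nat_lit 0x0) (nat_lit 0x80000000000023801b000a00000000000000) := T_46 (nat_lit 89) (nat_lit 72) (nat_lit 4) (nat_lit 5) (nat_lit 8) L128053 (by decide +kernel)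
theorem L128055 : W_46 (nat_lit 7) (nat_lit 0xc0012000f0006800040000000000000000000000) (nat_lit 0x0) (nat_lit 0x8000000000002b801f000a00000000000000) := T_46 (nat_lit 74) (nat_lit 91) (nat_lit 6) (nat_lit 5) (nat_lit 8) L128054 (by decide +kernel)
theorem L128056 : W_46 (nat_lit 8) (nat_lit 0xc0012000f0006800000000000000000000000000) (nat_lit 0x0) (nat_lit 0xc000000000002f801f000a00000000000000) := T_46 (nat_lit 90) (nat_lit 142) (nat_lit 7) (nat_lit 5) (nat_lit 5) L128055 (by decide +kernel)
theorem L128057 : W_46 (nat_lit 9) (nat_lit 0x40012000f0006800000000000000000000000000) (nat_lit 0x0) (nat_lit 0x100008000c000000000002f801f000a00000000000000) := T_46 (nat_lit 159) (nat_lit 176) (nat_lit 7) (nat_lit 5) (nat_lit 6) L128056 (by decide +kernel)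
theorem L128058 : W_46 (nat_lit 10) (nat_lit 0x40012000f0002800000000000000000000000000) (nat_lit 0x0) (nat_lit 0x100008000c0000000c0002f801f000a00000000000000) := T_46 (nat_lit 110) (nat_lit 111) (nat_lit 2) (nat_lit 5) (nat_lit 7) L128057 (by decide +kernel)
theorem L128059 : W_46 (nat_lit 2) (nat_lit 0xc00040012000f0006800000000000000000000000000) (nat_lit 0x0) (nat_lit 0x2000100008000000000000000000000000000000000000000) := D_46 (nat_lit 176) (nat_lit 159) (nat_lit 193) (nat_lit 7) (nat_lit 5) (nat_lit 6) (nat_lit 7) (nat_lit 5) (nat_lit 7) (by decide +kernel)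
theorem L128060 : W_46 (nat_lit 3) (nat_lit 0x400040012000f0006800000000000000000000000000) (nat_lit 0x0) (nat_lit 0x2800180008000000000000000000000000000000000000000) := T_46 (nat_lit 175) (nat_lit 191) (nat_lit 5) (nat_lit 5) (nat_lit 7) L128059 (by decide +kernel)
theorem L128061 : W_46 (nat_lit 4) (nat_lit 0x400040012000f0002800000000000000000000000000) (nat_lit 0x0) (nat_lit 0x280018000800000000000c000000000000000000000000000) := T_46 (nat_lit 110) (nat_lit 111) (nat_lit 2) (nat_lit 5) (nat_lit 7) L128060 (by decide +kernel)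
theorem L128062 : W_46 (nat_lit 5) (nat_lit 0x40012000f0002800000000000000000000000000) (nat_lit 0x0) (nat_lit 0x28001c000a00000000000c000000000000000000000000000) := T_46 (nat_lit 174) (nat_lit 157) (nat_lit 5) (nat_lit 5) (nat_lit 6) L128061 (by decide +kernel)
theorem L128063 : W_46 (nat_lit 2) (nat_lit 0xc0012000f0002800040005000000000000000000) (nat_lit 0x0) (nat_lit 0x2000280000000000000) := D_46 (nat_lit 73) (nat_lit 57) (nat_lit 55) (nat_lit 6) (nat_lit 5) (nat_lit 7) (nat_lit 4) (nat_lit 5) (nat_lit 7) (by decide +kernel)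
theorem L128064 : W_46 (nat_lit 3) (nat_lit 0xc0012000f0002800040004000000000000000000) (nat_lit 0x0) (nat_lit 0x20003000280000000000000) := T_46 (nat_lit 72) (nat_lit 89) (nat_lit 4) (nat_lit 5) (nat_lit 8) L128063 (by decide +kernel)
theorem L128065 : W_46 (nat_lit 4) (nat_lit 0xc0012000f0002800040000000000000000000000) (nat_lit 0x0) (nat_lit 0xa0007000280000000000000) := T_46 (nat_lit 74) (nat_lit 91) (nat_lit 6) (nat_lit 5) (nat_lit 8) L128064 (by decide +kernel)
theorem L128066 : W_46 (nat_lit 5) (nat_lit 0xc0012000f0002800000000000000000000000000) (nat_lit 0x0) (nat_lit 0x4000000000000e0007000280000000000000) := T_46 (nat_lit 90) (nat_lit 142) (nat_lit 7) (nat_lit 5) (nat_lit 5) L128065 (by decide +kernel)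
theorem L128067 : W_46 (nat_lit 6) (nat_lit 0x40012000f0002800000000000000000000000000) (nat_lit 0x0) (nat_lit 0x1000080004000000000000e0007000280000000000000) := T_46 (nat_lit 159) (nat_lit 176) (nat_lit 7) (nat_lit 5) (nat_lit 6) L128066 (by decide +kernel)
theorem L128068 : W_46 (nat_lit 2) (nat_lit 0x6001a000f0006800000000000000000000000000) (nat_lit 0x0) (nat_lit 0x200010000000000000000200000000000000000000000) := D_46 (nat_lit 160) (nat_lit 177) (nat_lit 93) (nat_lit 6) (nat_lit 7) (nat_lit 10) (nat_lit 6) (nat_lit 7) (nat_lit 9) (by decide +kernel)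
theorem L128069 : W_46 (nat_lit 3) (nat_lit 0x6001a000f0002800000000000000000000000000) (nat_lit 0x0) (nat_lit 0x20001000000000000c000200000000000000000000000) := T_46 (nat_lit 110) (nat_lit 111) (nat_lit 2) (nat_lit 5) (nat_lit 7) L128068 (by decide +kernel)
theorem L128070 : W_46 (nat_lit 4) (nat_lit 0x60012000f0002800000000000000000000000000) (nat_lit 0x0) (nat_lit 0x200010000c0000000c000200000000000000000000000) := T_46 (nat_lit 143) (nat_lit 142) (nat_lit 1) (nat_lit 8) (nat_lit 8) L128069 (by decide +kernel)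
theorem L128071 : W_46 (nat_lit 5) (nat_lit 0x40012000f0002800000000000000000000000000) (nat_lit 0x0) (nat_lit 0x240012000c0000000c000200000000000000000000000) := T_46 (nat_lit 157) (nat_lit 174) (nat_lit 5) (nat_lit 5) (nat_lit 6) L128070 (by decide +kernel)
theorem L128072 : W_46 (nat_lit 11) (nat_lit 0x12000f0002800000000000000000000000000) (nat_lit 0x0) (nat_lit 0x28003c001e000c0000000c0002f801f000a80000000000000) := Q_46 (nat_lit 158) (C_46 L128058 (C_46 L128062 (C_46 L128067 (C_46 L128071 N_46)))) (by decide +kernel)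
theorem L128073 : W_46 (nat_lit 12) (nat_lit 0x10000f0002800000000000000000000000000) (nat_lit 0x0) (nat_lit 0x28003c001e000f0000000c0002f801f000a80000000000000) := T_46 (nat_lit 141) (nat_lit 140) (nat_lit 1) (nat_lit 8) (nat_lit 7) L128072 (by decide +kernel)
theorem L128074 : W_46 (nat_lit 13) (nat_lit 0x10000d0002800000000000000000000000000) (nat_lit 0x0) (nat_lit 0x28003c001e000f8002800c0002f801f000a80000000000000) := Q_46 (nat_lit 125) (C_46 L127663 (C_46 L128031 (C_46 L128073 N_46))) (by decide +kernel)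
theorem L128075 : W_46 (nat_lit 14) (nat_lit 0x10000c0002800000000000000000000000000) (nat_lit 0x0) (nat_lit 0x8000700078007c001f800f8003800c4002f801f000b8000c000000000) := Q_46 (nat_lit 124) (C_46 L125285 (C_46 L127943 (C_46 L128042 (C_46 L128043 (C_46 L128048 (C_46 L128074 N_46)))))) (by decide +kernel)
theorem L128076 : W_46 (nat_lit 2) (nat_lit 0x12400fc002900000000000000000000000000) (nat_lit 0x0) (nat_lit 0x20002000080000000000000000000000000) := D_46 (nat_lit 121) (nat_lit 137) (nat_lit 103) (nat_lit 1) (nat_lit 5) (nat_lit 7) (nat_lit 0) (nat_lit 5) (nat_lit 7) (by decide +kernel)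
theorem L128077 : W_46 (nat_lit 3) (nat_lit 0x12400fc002800000000000000000000000000) (nat_lit 0x0) (nat_lit 0x20002000380000000000000000000000000) := T_46 (nat_lit 104) (nat_lit 105) (nat_lit 0) (nat_lit 6) (nat_lit 7) L128076 (by decide +kernel)
theorem L128078 : W_46 (nat_lit 4) (nat_lit 0x12000fc002800000000000000000000000000) (nat_lit 0x0) (nat_lit 0xe0002000380000000000000000000000000) := T_46 (nat_lit 138) (nat_lit 139) (nat_lit 1) (nat_lit 6) (nat_lit 7) L128077 (by decide +kernel)
theorem L128079 : W_46 (nat_lit 5) (nat_lit 0x12000f8002800000000000000000000000000) (nat_lit 0x0) (nat_lit 0xe0006001380000000000000000000000000) := T_46 (nat_lit 122) (nat_lit 108) (nat_lit 2) (nat_lit 3) (nat_lit 7) L128078 (by decide +kernel)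
theorem L128080 : W_46 (nat_lit 6) (nat_lit 0x12000f0002800000000000000000000000000) (nat_lit 0x0) (nat_lit 0x8e000e001380000000000000000000000000) := T_46 (nat_lit 123) (nat_lit 143) (nat_lit 3) (nat_lit 4) (nat_lit 7) L128079 (by decide +kernel)
theorem L128081 : W_46 (nat_lit 7) (nat_lit 0x12000d0002800000000000000000000000000) (nat_lit 0x0) (nat_lit 0x9e002e001380000000000000000000000000) := T_46 (nat_lit 125) (nat_lit 140) (nat_lit 1) (nat_lit 8) (nat_lit 7) L128080 (by decide +kernel)
theorem L128082 : W_46 (nat_lit 4) (nat_lit 0x13000d0002800000000000000000000000000) (nat_lit 0x0) (nat_lit 0x20000000080000000c0006000200000000000000) := T_46 (nat_lit 90) (nat_lit 157) (nat_lit 5) (nat_lit 5) (nat_lit 5) L125182 (by decide +kernel)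
theorem L128083 : W_46 (nat_lit 5) (nat_lit 0x12000d0002800000000000000000000000000) (nat_lit 0x0) (nat_lit 0x20001000280000000c0006000200000000000000) := T_46 (nat_lit 140) (nat_lit 125) (nat_lit 1) (nat_lit 8) (nat_lit 7) L128082 (by decide +kernel)
theorem L128084 : W_46 (nat_lit 2) (nat_lit 0xe001a000d0003800000000000000000000000000) (nat_lit 0x0) (nat_lit 0x80000000000028000000000000000000000000000000) := D_46 (nat_lit 125) (nat_lit 123) (nat_lit 175) (nat_lit 3) (nat_lit 4) (nat_lit 7) (nat_lit 6) (nat_lit 5) (nat_lit 10) (by decide +kernel)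
theorem L128085 : W_46 (nat_lit 3) (nat_lit 0xe001a000d0002800000000000000000000000000) (nat_lit 0x0) (nat_lit 0x80000000000028001000080000000000000000000000) := T_46 (nat_lit 108) (nat_lit 91) (nat_lit 6) (nat_lit 5) (nat_lit 9) L128084 (by decide +kernel)
theorem L128086 : W_46 (nat_lit 4) (nat_lit 0xe0012000d0002800000000000000000000000000) (nat_lit 0x0) (nat_lit 0x80010000800028001000080000000000000000000000) := T_46 (nat_lit 143) (nat_lit 160) (nat_lit 2) (nat_lit 4) (nat_lit 9) L128085 (by decide +kernel)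
theorem L128087 : W_46 (nat_lit 5) (nat_lit 0x60012000d0002800000000000000000000000000) (nat_lit 0x0) (nat_lit 0x180018000800028001000080000000000000000000000) := T_46 (nat_lit 159) (nat_lit 176) (nat_lit 7) (nat_lit 5) (nat_lit 6) L128086 (by decide +kernel)
theorem L128088 : W_46 (nat_lit 6) (nat_lit 0x40012000d0002800000000000000000000000000) (nat_lit 0x0) (nat_lit 0x1c001a000800028001000080000000000000000000000) := T_46 (nat_lit 157) (nat_lit 174) (nat_lit 5) (nat_lit 5) (nat_lit 6) L128087 (by decide +kernel)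
theorem L128089 : W_46 (nat_lit 2) (nat_lit 0x6001a000d0003800000000000000000000000000) (nat_lit 0x0) (nat_lit 0x80000000000028000000000000000000000000000000) := D_46 (nat_lit 125) (nat_lit 123) (nat_lit 175) (nat_lit 3) (nat_lit 4) (nat_lit 7) (nat_lit 6) (nat_lit 5) (nat_lit 10) (by decide +kernel)
theorem L128090 : W_46 (nat_lit 3) (nat_lit 0x60012000d0003800000000000000000000000000) (nat_lit 0x0) (nat_lit 0x80000000c00028000000000000000000000000000000) := T_46 (nat_lit 143) (nat_lit 142) (nat_lit 1) (nat_lit 8) (nat_lit 8) L128089 (by decide +kernel)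
theorem L128091 : W_46 (nat_lit 4) (nat_lit 0x40012000d0003800000000000000000000000000) (nat_lit 0x0) (nat_lit 0xc0002000c00028000000000000000000000000000000) := T_46 (nat_lit 157) (nat_lit 174) (nat_lit 5) (nat_lit 5) (nat_lit 6) L128090 (by decide +kernel)
theorem L128092 : W_46 (nat_lit 5) (nat_lit 0x40012000d0002800000000000000000000000000) (nat_lit 0x0) (nat_lit 0xc0002000c00028001000080000000000000000000000) := T_46 (nat_lit 108) (nat_lit 91) (nat_lit 6) (nat_lit 5) (nat_lit 9) L128091 (by decide +kernel)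
theorem L128093 : W_46 (nat_lit 7) (nat_lit 0x12000d0002800000000000000000000000000) (nat_lit 0x0) (nat_lit 0x1c001e000c000280010000e0007000280000000000000) := Q_46 (nat_lit 158) (C_46 L125244 (C_46 L125246 (C_46 L128088 (C_46 L128092 N_46)))) (by decide +kernel)
theorem L128094 : W_46 (nat_lit 8) (nat_lit 0x10000d0002800000000000000000000000000) (nat_lit 0x0) (nat_lit 0x1c001e000fe002e0013800e0007000280000000000000) := Q_46 (nat_lit 141) (C_46 L128047 (C_46 L127907 (C_46 L128081 (C_46 L128083 (C_46 L128093 N_46))))) (by decide +kernel)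
theorem L128095 : W_46 (nat_lit 11) (nat_lit 0x10000c0002800000000000000000000000000) (nat_lit 0x0) (nat_lit 0x8000700038001c001e000fe003e0017800e000700038000c000000000) := Q_46 (nat_lit 124) (C_46 L128042 (C_46 L127952 (C_46 L125304 (C_46 L128094 N_46)))) (by decide +kernel)
theorem L128096 : W_46 (nat_lit 2) (nat_lit 0x16000f00038000c0000000000000000000000) (nat_lit 0x0) (nat_lit 0x30001000000000000000000) := D_46 (nat_lit 89) (nat_lit 88) (nat_lit 72) (nat_lit 3) (nat_lit 3) (nat_lit 5) (nat_lit 4) (nat_lit 5) (nat_lit 8) (by decide +kernel)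
theorem L128097 : W_46 (nat_lit 3) (nat_lit 0x16000f00028000c0000000000000000000000) (nat_lit 0x0) (nat_lit 0x4000000000001000030001000000000000000000) := T_46 (nat_lit 108) (nat_lit 158) (nat_lit 6) (nat_lit 5) (nat_lit 9) L128096 (by decide +kernel)
theorem L128098 : W_46 (nat_lit 4) (nat_lit 0x16000f0002800040000000000000000000000) (nat_lit 0x0) (nat_lit 0x40000000000010000b0005000000000000000000) := T_46 (nat_lit 91) (nat_lit 74) (nat_lit 6) (nat_lit 5) (nat_lit 8) L128097 (by decide +kernel)
theorem L128099 : W_46 (nat_lit 5) (nat_lit 0x16000f0002800000000000000000000000000) (nat_lit 0x0) (nat_lit 0x40000000000010000f0007000000000000000000) := T_46 (nat_lit 90) (nat_lit 73) (nat_lit 7) (nat_lit 5) (nat_lit 4) L128098 (by decide +kernel)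
theorem L128100 : W_46 (nat_lit 6) (nat_lit 0x14000f0002800000000000000000000000000) (nat_lit 0x0) (nat_lit 0x40003000000010000f0007000000000000000000) := T_46 (nat_lit 141) (nat_lit 140) (nat_lit 1) (nat_lit 8) (nat_lit 7) L128099 (by decide +kernel)
theorem L128101 : W_46 (nat_lit 2) (nat_lit 0x14000f0002800040000000000000000000000) (nat_lit 0x0) (nat_lit 0x100008000000000001000000000000000000000000000) := D_46 (nat_lit 159) (nat_lit 176) (nat_lit 108) (nat_lit 6) (nat_lit 6) (nat_lit 10) (nat_lit 4) (nat_lit 6) (nat_lit 9) (by decide +kernel)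
theorem L128102 : W_46 (nat_lit 3) (nat_lit 0x14000f0002800000000000000000000000000) (nat_lit 0x0) (nat_lit 0x100008000000000001000040002000000000000000000) := T_46 (nat_lit 90) (nat_lit 73) (nat_lit 7) (nat_lit 5) (nat_lit 4) L128101 (by decide +kernel)
theorem L128103 : W_46 (nat_lit 2) (nat_lit 0x14000f8002800000000000000000000000000) (nat_lit 0x0) (nat_lit 0x380000000000000000000000000000000000) := D_46 (nat_lit 140) (nat_lit 141) (nat_lit 139) (nat_lit 1) (nat_lit 8) (nat_lit 7) (nat_lit 1) (nat_lit 7) (nat_lit 7) (by decide +kernel)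
theorem L128104 : W_46 (nat_lit 2) (nat_lit 0x1000000014000fc002800000000000000000000000000) (nat_lit 0x0) (nat_lit 0x1c0000000000000000000000000000000000) := D_46 (nat_lit 139) (nat_lit 138) (nat_lit 140) (nat_lit 1) (nat_lit 6) (nat_lit 7) (nat_lit 1) (nat_lit 7) (nat_lit 7) (by decide +kernel)
theorem L128105 : W_46 (nat_lit 3) (nat_lit 0x1000000014000f8002800000000000000000000000000) (nat_lit 0x0) (nat_lit 0x1c0004001000000000000000000000000000) := T_46 (nat_lit 122) (nat_lit 108) (nat_lit 2) (nat_lit 3) (nat_lit 7) L128104 (by decide +kernel)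
theorem L128106 : W_46 (nat_lit 4) (nat_lit 0x14000f8002800000000000000000000000000) (nat_lit 0x0) (nat_lit 0x1000080001c0004001000000000000000000000000000) := T_46 (nat_lit 176) (nat_lit 159) (nat_lit 6) (nat_lit 6) (nat_lit 10) L128105 (by decide +kernel)
theorem L128107 : W_46 (nat_lit 2) (nat_lit 0x1000000014000fe002800000000000000000000000000) (nat_lit 0x0) (nat_lit 0xe0000000000000000000000000000000000) := D_46 (nat_lit 138) (nat_lit 137) (nat_lit 139) (nat_lit 1) (nat_lit 5) (nat_lit 7) (nat_lit 1) (nat_lit 6) (nat_lit 7) (by decide +kernel)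
theorem L128108 : W_46 (nat_lit 3) (nat_lit 0x1000000014000fc002800000000000000000000000000) (nat_lit 0x0) (nat_lit 0x2e0002000000000000000000000000000000) := T_46 (nat_lit 121) (nat_lit 141) (nat_lit 3) (nat_lit 2) (nat_lit 7) L128107 (by decide +kernel)
theorem L128109 : W_46 (nat_lit 4) (nat_lit 0x1000000014000f8002800000000000000000000000000) (nat_lit 0x0) (nat_lit 0x2e0006001000000000000000000000000000) := T_46 (nat_lit 122) (nat_lit 108) (nat_lit 2) (nat_lit 3) (nat_lit 7) L128108 (by decide +kernel)
theorem L128110 : W_46 (nat_lit 5) (nat_lit 0x14000f8002800000000000000000000000000) (nat_lit 0x0) (nat_lit 0x1000080002e0006001000000000000000000000000000) := T_46 (nat_lit 176) (nat_lit 159) (nat_lit 6) (nat_lit 6) (nat_lit 10) L128109 (by decide +kernel)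
theorem L128111 : W_46 (nat_lit 2) (nat_lit 0x14000fc002800000000000000000000000000) (nat_lit 0x0) (nat_lit 0x300002000000000000000000000000000000) := D_46 (nat_lit 141) (nat_lit 121) (nat_lit 140) (nat_lit 3) (nat_lit 2) (nat_lit 7) (nat_lit 1) (nat_lit 8) (nat_lit 7) (by decide +kernel)
theorem L128112 : W_46 (nat_lit 3) (nat_lit 0x14000f8002800000000000000000000000000) (nat_lit 0x0) (nat_lit 0x300006001000000000000000000000000000) := T_46 (nat_lit 122) (nat_lit 108) (nat_lit 2) (nat_lit 3) (nat_lit 7) L128111 (by decide +kernel)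
theorem L128113 : W_46 (nat_lit 6) (nat_lit 0x14000f0002800000000000000000000000000) (nat_lit 0x0) (nat_lit 0x1000080003e000e001000000000000000000000000000) := Q_46 (nat_lit 123) (C_46 L128103 (C_46 L128106 (C_46 L128110 (C_46 L128112 N_46)))) (by decide +kernel)
theorem L128114 : W_46 (nat_lit 7) (nat_lit 0x10000f0002800000000000000000000000000) (nat_lit 0x0) (nat_lit 0x10000c0007e000e0010000f0007000000000000000000) := Q_46 (nat_lit 142) (C_46 L128049 (C_46 L128100 (C_46 L128102 (C_46 L128113 N_46)))) (by decide +kernel)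
theorem L128115 : W_46 (nat_lit 8) (nat_lit 0x10000d0002800000000000000000000000000) (nat_lit 0x0) (nat_lit 0x10000c0007e002e00d0000f0007000000000000000000) := Q_46 (nat_lit 125) (C_46 L128031 (C_46 L128114 (C_46 L128039 N_46))) (by decide +kernel)
theorem L128116 : W_46 (nat_lit 9) (nat_lit 0x10000c0002800000000000000000000000000) (nat_lit 0x0) (nat_lit 0x10000c0007e003e03d401cf0007000000000000000000) := Q_46 (nat_lit 124) (C_46 L128043 (C_46 L127949 (C_46 L125304 (C_46 L128115 N_46)))) (by decide +kernel)
theorem L128117 : W_46 (nat_lit 2) (nat_lit 0xc0012000d0006c00040000000000000000000000) (nat_lit 0x0) (nat_lit 0x40002000100000000000000000000000000000000000) := D_46 (nat_lit 157) (nat_lit 140) (nat_lit 174) (nat_lit 5) (nat_lit 5) (nat_lit 5) (nat_lit 5) (nat_lit 5) (nat_lit 6) (by decide +kernel)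
theorem L128118 : W_46 (nat_lit 3) (nat_lit 0xc0012000d0006c00000000000000000000000000) (nat_lit 0x0) (nat_lit 0x40002000500000000000040000000000000000000000) := T_46 (nat_lit 90) (nat_lit 142) (nat_lit 7) (nat_lit 5) (nat_lit 5) L128117 (by decide +kernel)
theorem L128119 : W_46 (nat_lit 4) (nat_lit 0x40012000d0006c00000000000000000000000000) (nat_lit 0x0) (nat_lit 0x14000a000500000000000040000000000000000000000) := T_46 (nat_lit 159) (nat_lit 176) (nat_lit 7) (nat_lit 5) (nat_lit 6) L128118 (by decide +kernel)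
theorem L128120 : W_46 (nat_lit 5) (nat_lit 0x40012000d0006800000000000000000000000000) (nat_lit 0x0) (nat_lit 0x14000a000500000000400060000000000000000000000) := T_46 (nat_lit 106) (nat_lit 89) (nat_lit 4) (nat_lit 5) (nat_lit 9) L128119 (by decide +kernel)
theorem L128121 : W_46 (nat_lit 2) (nat_lit 0x8000c0012000d0006c00000000000000000000000000) (nat_lit 0x0) (nat_lit 0x800040002000000000000000000000000000000000000000) := D_46 (nat_lit 174) (nat_lit 157) (nat_lit 191) (nat_lit 5) (nat_lit 5) (nat_lit 6) (nat_lit 5) (nat_lit 5) (nat_lit 7) (by decide +kernel)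
theorem L128122 : W_46 (nat_lit 3) (nat_lit 0xc0012000d0006c00000000000000000000000000) (nat_lit 0x0) (nat_lit 0x8000c0002000000008000000000000000000000000000000) := T_46 (nat_lit 175) (nat_lit 123) (nat_lit 4) (nat_lit 5) (nat_lit 10) L128121 (by decide +kernel)
theorem L128123 : W_46 (nat_lit 4) (nat_lit 0x40012000d0006c00000000000000000000000000) (nat_lit 0x0) (nat_lit 0x8001c000a000000008000000000000000000000000000000) := T_46 (nat_lit 159) (nat_lit 176) (nat_lit 7) (nat_lit 5) (nat_lit 6) L128122 (by decide +kernel)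
theorem L128124 : W_46 (nat_lit 5) (nat_lit 0x40012000d0006800000000000000000000000000) (nat_lit 0x0) (nat_lit 0x8001c000a000000008000400020000000000000000000000) := T_46 (nat_lit 106) (nat_lit 89) (nat_lit 4) (nat_lit 5) (nat_lit 9) L128123 (by decide +kernel)
theorem L128125 : W_46 (nat_lit 2) (nat_lit 0x60012000d0006800040000000000000000000000) (nat_lit 0x0) (nat_lit 0x400020001000000000000000000) := D_46 (nat_lit 89) (nat_lit 72) (nat_lit 106) (nat_lit 4) (nat_lit 5) (nat_lit 8) (nat_lit 4) (nat_lit 5) (nat_lit 9) (by decide +kernel)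
theorem L128126 : W_46 (nat_lit 3) (nat_lit 0x60012000d0006800000000000000000000000000) (nat_lit 0x0) (nat_lit 0x100000000400060001000000000000000000) := T_46 (nat_lit 90) (nat_lit 140) (nat_lit 5) (nat_lit 5) (nat_lit 5) L128125 (by decide +kernel)
theorem L128127 : W_46 (nat_lit 4) (nat_lit 0x40012000d0006800000000000000000000000000) (nat_lit 0x0) (nat_lit 0x40002000100000000400060001000000000000000000) := T_46 (nat_lit 157) (nat_lit 174) (nat_lit 5) (nat_lit 5) (nat_lit 6) L128126 (by decide +kernel)
theorem L128128 : W_46 (nat_lit 2) (nat_lit 0xc0012000d0006800040000000000000000000000) (nat_lit 0x0) (nat_lit 0x40002000100000000000000000000000000000000000) := D_46 (nat_lit 157) (nat_lit 140) (nat_lit 174) (nat_lit 5) (nat_lit 5) (nat_lit 5) (nat_lit 5) (nat_lit 5) (nat_lit 6) (by decide +kernel)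
theorem L128129 : W_46 (nat_lit 3) (nat_lit 0xc0012000d0006800000000000000000000000000) (nat_lit 0x0) (nat_lit 0x40002000500000000000040000000000000000000000) := T_46 (nat_lit 90) (nat_lit 142) (nat_lit 7) (nat_lit 5) (nat_lit 5) L128128 (by decide +kernel)
theorem L128130 : W_46 (nat_lit 4) (nat_lit 0x40012000d0006800000000000000000000000000) (nat_lit 0x0) (nat_lit 0x14000a000500000000000040000000000000000000000) := T_46 (nat_lit 159) (nat_lit 176) (nat_lit 7) (nat_lit 5) (nat_lit 6) L128129 (by decide +kernel)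
theorem L128131 : W_46 (nat_lit 2) (nat_lit 0xc0012000d8006c00040000000000000000000000) (nat_lit 0x0) (nat_lit 0x100000000000000002000100000000000000) := D_46 (nat_lit 73) (nat_lit 56) (nat_lit 140) (nat_lit 5) (nat_lit 5) (nat_lit 3) (nat_lit 5) (nat_lit 5) (nat_lit 4) (by decide +kernel)
theorem L128132 : W_46 (nat_lit 3) (nat_lit 0xc0012000d0006c00040000000000000000000000) (nat_lit 0x0) (nat_lit 0x80000000100008000000000002000100000000000000) := T_46 (nat_lit 123) (nat_lit 175) (nat_lit 4) (nat_lit 5) (nat_lit 10) L128131 (by decide +kernel)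
theorem L128133 : W_46 (nat_lit 4) (nat_lit 0xc0012000d0006c00000000000000000000000000) (nat_lit 0x0) (nat_lit 0x80000000500008000000040002000100000000000000) := T_46 (nat_lit 90) (nat_lit 142) (nat_lit 7) (nat_lit 5) (nat_lit 5) L128132 (by decide +kernel)
theorem L128134 : W_46 (nat_lit 5) (nat_lit 0x40012000d0006c00000000000000000000000000) (nat_lit 0x0) (nat_lit 0x180008000500008000000040002000100000000000000) := T_46 (nat_lit 159) (nat_lit 176) (nat_lit 7) (nat_lit 5) (nat_lit 6) L128133 (by decide +kernel)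
theorem L128135 : W_46 (nat_lit 6) (nat_lit 0x40012000d0006800000000000000000000000000) (nat_lit 0x0) (nat_lit 0x180008000500008000400060002000100000000000000) := T_46 (nat_lit 106) (nat_lit 89) (nat_lit 4) (nat_lit 5) (nat_lit 9) L128134 (by decide +kernel)
theorem L128136 : W_46 (nat_lit 7) (nat_lit 0x12000d0006800000000000000000000000000) (nat_lit 0x0) (nat_lit 0x8001c000e000500008000400060003000100000000000000) := Q_46 (nat_lit 158) (C_46 L128120 (C_46 L128124 (C_46 L128127 (C_46 L128130 (C_46 L128135 N_46))))) (by decide +kernel)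
theorem L128137 : W_46 (nat_lit 2) (nat_lit 0xe0013000d0006800000000000000000000000000) (nat_lit 0x0) (nat_lit 0x10000880000000000000000000000000000000000) := D_46 (nat_lit 160) (nat_lit 143) (nat_lit 139) (nat_lit 2) (nat_lit 4) (nat_lit 9) (nat_lit 0) (nat_lit 7) (nat_lit 9) (by decide +kernel)
theorem L128138 : W_46 (nat_lit 3) (nat_lit 0xe0012000d0006800000000000000000000000000) (nat_lit 0x0) (nat_lit 0x10000980000000000040000000000000000000000) := T_46 (nat_lit 140) (nat_lit 90) (nat_lit 5) (nat_lit 5) (nat_lit 5) L128137 (by decide +kernel)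
theorem L128139 : W_46 (nat_lit 4) (nat_lit 0xc0012000d0006800000000000000000000000000) (nat_lit 0x0) (nat_lit 0x40012000980000000000040000000000000000000000) := T_46 (nat_lit 157) (nat_lit 174) (nat_lit 5) (nat_lit 5) (nat_lit 6) L128138 (by decide +kernel)
theorem L128140 : W_46 (nat_lit 5) (nat_lit 0x40012000d0006800000000000000000000000000) (nat_lit 0x0) (nat_lit 0x14001a000980000000000040000000000000000000000) := T_46 (nat_lit 159) (nat_lit 176) (nat_lit 7) (nat_lit 5) (nat_lit 6) L128139 (by decide +kernel)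
theorem L128141 : W_46 (nat_lit 2) (nat_lit 0x1000040012000d0006c00000000000000000000000000) (nat_lit 0x0) (nat_lit 0x2000080000000000008000000000000000000000000000000) := D_46 (nat_lit 175) (nat_lit 123) (nat_lit 193) (nat_lit 4) (nat_lit 5) (nat_lit 10) (nat_lit 7) (nat_lit 5) (nat_lit 7) (by decide +kernel)
theorem L128142 : W_46 (nat_lit 3) (nat_lit 0x40012000d0006c00000000000000000000000000) (nat_lit 0x0) (nat_lit 0x2000180008000000008000000000000000000000000000000) := T_46 (nat_lit 176) (nat_lit 159) (nat_lit 7) (nat_lit 5) (nat_lit 6) L128141 (by decide +kernel)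
theorem L128143 : W_46 (nat_lit 4) (nat_lit 0x40012000d0006800000000000000000000000000) (nat_lit 0x0) (nat_lit 0x2000180008000000008000400020000000000000000000000) := T_46 (nat_lit 106) (nat_lit 89) (nat_lit 4) (nat_lit 5) (nat_lit 9) L128142 (by decide +kernel)
theorem L128144 : W_46 (nat_lit 6) (nat_lit 0x12000d0006800000000000000000000000000) (nat_lit 0x0) (nat_lit 0x28001c001e000980008000400060001000000000000000000) := Q_46 (nat_lit 158) (C_46 L128127 (C_46 L128124 (C_46 L128140 (C_46 L128143 N_46)))) (by decide +kernel)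
theorem L128145 : W_46 (nat_lit 3) (nat_lit 0x12000d0006800000000000000000000000000) (nat_lit 0x0) (nat_lit 0x10000d00008000000200010000000000000000000) := Q_46 (nat_lit 143) (C_46 L127986 (C_46 L125216 N_46)) (by decide +kernel)
theorem L128146 : W_46 (nat_lit 2) (nat_lit 0x4001e000d0006801600000000000000000000000) (nat_lit 0x0) (nat_lit 0x100008000000000000000040000000000000000000000) := D_46 (nat_lit 159) (nat_lit 90) (nat_lit 176) (nat_lit 7) (nat_lit 5) (nat_lit 5) (nat_lit 7) (nat_lit 5) (nat_lit 6) (by decide +kernel)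
theorem L128147 : W_46 (nat_lit 3) (nat_lit 0x1e000d0006801600000000000000000000000) (nat_lit 0x0) (nat_lit 0x10000e000000000000000040000000000000000000000) := T_46 (nat_lit 158) (nat_lit 157) (nat_lit 1) (nat_lit 8) (nat_lit 8) L128146 (by decide +kernel)
theorem L128148 : W_46 (nat_lit 4) (nat_lit 0x1a000d0006801600000000000000000000000) (nat_lit 0x0) (nat_lit 0x10000e000400008000000040000000000000000000000) := T_46 (nat_lit 142) (nat_lit 123) (nat_lit 0) (nat_lit 8) (nat_lit 8) L128147 (by decide +kernel)
theorem L128149 : W_46 (nat_lit 5) (nat_lit 0x1a000d0006800600000000000000000000000) (nat_lit 0x0) (nat_lit 0x10000e000400008000001840000000000000000000000) := T_46 (nat_lit 96) (nat_lit 95) (nat_lit 1) (nat_lit 11) (nat_lit 5) L128148 (by decide +kernel)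
theorem L128150 : W_46 (nat_lit 6) (nat_lit 0x1a000d0006800200000000000000000000000) (nat_lit 0x0) (nat_lit 0x10000e000400008000001c40020000000000000000000) := T_46 (nat_lit 94) (nat_lit 77) (nat_lit 6) (nat_lit 8) (nat_lit 8) L128149 (by decide +kernel)
theorem L128151 : W_46 (nat_lit 7) (nat_lit 0x12000d0006800200000000000000000000000) (nat_lit 0x0) (nat_lit 0x10001e000c00008000001c40020000000000000000000) := T_46 (nat_lit 143) (nat_lit 160) (nat_lit 6) (nat_lit 7) (nat_lit 9) L128150 (by decide +kernel)
theorem L128152 : W_46 (nat_lit 2) (nat_lit 0x12000d0006800200010000000000000000000) (nat_lit 0x0) (nat_lit 0x400020001000000000000000) := D_46 (nat_lit 77) (nat_lit 94) (nat_lit 60) (nat_lit 6) (nat_lit 8) (nat_lit 8) (nat_lit 6) (nat_lit 8) (nat_lit 7) (by decide +kernel)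
theorem L128153 : W_46 (nat_lit 3) (nat_lit 0x12000d0006800200000000000000000000000) (nat_lit 0x0) (nat_lit 0x400030001800000000000000) := T_46 (nat_lit 76) (nat_lit 59) (nat_lit 5) (nat_lit 8) (nat_lit 3) L128152 (by decide +kernel)
theorem L128154 : W_46 (nat_lit 8) (nat_lit 0x12000d0006800000000000000000000000000) (nat_lit 0x0) (nat_lit 0x10001e000c00008000001e40030001800000000000000) := Q_46 (nat_lit 93) (C_46 L125988 (C_46 L128151 (C_46 L128153 N_46))) (by decide +kernel)
theorem L128155 : W_46 (nat_lit 2) (nat_lit 0x2001b000d0006800000010000000000000000000) (nat_lit 0x0) (nat_lit 0x800040004000000000000000000000000000000000000000) := D_46 (nat_lit 174) (nat_lit 158) (nat_lit 191) (nat_lit 5) (nat_lit 5) (nat_lit 6) (nat_lit 6) (nat_lit 4) (nat_lit 11) (by decide +kernel)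
theorem L128156 : W_46 (nat_lit 3) (nat_lit 0x1b000d0006800000010000000000000000000) (nat_lit 0x0) (nat_lit 0x800040006000000000000000040000000000000000000000) := T_46 (nat_lit 157) (nat_lit 90) (nat_lit 5) (nat_lit 5) (nat_lit 5) L128155 (by decide +kernel)
theorem L128157 : W_46 (nat_lit 4) (nat_lit 0x1b000d0006800000000000000000000000000) (nat_lit 0x0) (nat_lit 0x800040006000000000000000240010000000000000000000) := T_46 (nat_lit 76) (nat_lit 93) (nat_lit 5) (nat_lit 8) (nat_lit 4) L128156 (by decide +kernel)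
theorem L128158 : W_46 (nat_lit 5) (nat_lit 0x1a000d0006800000000000000000000000000) (nat_lit 0x0) (nat_lit 0x800040006000500000000000240010000000000000000000) := T_46 (nat_lit 140) (nat_lit 142) (nat_lit 2) (nat_lit 4) (nat_lit 8) L128157 (by decide +kernel)
theorem L128159 : W_46 (nat_lit 2) (nat_lit 0x1a000d0006800000000000000000000000000) (nat_lit 0x0) (nat_lit 0x200010000000000000000200000000000000000000000) := D_46 (nat_lit 160) (nat_lit 177) (nat_lit 93) (nat_lit 6) (nat_lit 7) (nat_lit 10) (nat_lit 6) (nat_lit 7) (nat_lit 9) (by decide +kernel)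
theorem L128160 : W_46 (nat_lit 2) (nat_lit 0x800380004001b000d0006800060000000000000000000000) (nat_lit 0x0) (nat_lit 0x10001000400000000000000000000000000000000000000000000) := D_46 (nat_lit 192) (nat_lit 178) (nat_lit 208) (nat_lit 1) (nat_lit 8) (nat_lit 10) (nat_lit 5) (nat_lit 5) (nat_lit 8) (by decide +kernel)
theorem L128161 : W_46 (nat_lit 3) (nat_lit 0x380004001b000d0006800060000000000000000000000) (nat_lit 0x0) (nat_lit 0x10001800440000000000000000000000000000000000000000000) := T_46 (nat_lit 191) (nat_lit 174) (nat_lit 5) (nat_lit 5) (nat_lit 7) L128160 (by decide +kernel)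
theorem L128162 : W_46 (nat_lit 4) (nat_lit 0x300004001b000d0006800060000000000000000000000) (nat_lit 0x0) (nat_lit 0x100038004c0000000000000000000000000000000000000000000) := T_46 (nat_lit 175) (nat_lit 193) (nat_lit 7) (nat_lit 5) (nat_lit 7) L128161 (by decide +kernel)
theorem L128163 : W_46 (nat_lit 5) (nat_lit 0x200004001b000d0006800060000000000000000000000) (nat_lit 0x0) (nat_lit 0x100038005c0008000000000000000000000000000000000000000) := T_46 (nat_lit 176) (nat_lit 159) (nat_lit 7) (nat_lit 5) (nat_lit 6) L128162 (by decide +kernel)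
theorem L128164 : W_46 (nat_lit 6) (nat_lit 0x200000001b000d0006800060000000000000000000000) (nat_lit 0x0) (nat_lit 0x100038005c000c000000000000400000000000000000000000000) := T_46 (nat_lit 158) (nat_lit 106) (nat_lit 4) (nat_lit 5) (nat_lit 9) L128163 (by decide +kernel)
theorem L128165 : W_46 (nat_lit 7) (nat_lit 0x200000001b000d0006800040000000000000000000000) (nat_lit 0x0) (nat_lit 0x100038005c000c000000000000400020001000000000000000000) := T_46 (nat_lit 89) (nat_lit 72) (nat_lit 4) (nat_lit 5) (nat_lit 8) L128164 (by decide +kernel)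
theorem L128166 : W_46 (nat_lit 8) (nat_lit 0x200000001b000d0006800000000000000000000000000) (nat_lit 0x0) (nat_lit 0x100038005c000e000000000000400060001000000000000000000) := T_46 (nat_lit 90) (nat_lit 157) (nat_lit 5) (nat_lit 5) (nat_lit 5) L128165 (by decide +kernel)
theorem L128167 : W_46 (nat_lit 9) (nat_lit 0x1b000d0006800000000000000000000000000) (nat_lit 0x0) (nat_lit 0x100038007c001e000000000000400060001000000000000000000) := T_46 (nat_lit 177) (nat_lit 160) (nat_lit 6) (nat_lit 7) (nat_lit 10) L128166 (by decide +kernel)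
theorem L128168 : W_46 (nat_lit 10) (nat_lit 0x1a000d0006800000000000000000000000000) (nat_lit 0x0) (nat_lit 0x100038007c001e000500000000400060001000000000000000000) := T_46 (nat_lit 140) (nat_lit 142) (nat_lit 2) (nat_lit 4) (nat_lit 8) L128167 (by decide +kernel)
theorem L128169 : W_46 (nat_lit 11) (nat_lit 0x12000d0006800000000000000000000000000) (nat_lit 0x0) (nat_lit 0x100038007c001e000d00000000400260011000000000000000000) := Q_46 (nat_lit 143) (C_46 L128158 (C_46 L128159 (C_46 L128168 N_46))) (by decide +kernel)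
theorem L128170 : W_46 (nat_lit 12) (nat_lit 0x10000d0006800000000000000000000000000) (nat_lit 0x0) (nat_lit 0x100038007c001e000f80008000401e60033001900000000000000) := Q_46 (nat_lit 141) (C_46 L128136 (C_46 L128144 (C_46 L128145 (C_46 L128154 (C_46 L128169 N_46))))) (by decide +kernel)
theorem L128171 : W_46 (nat_lit 2) (nat_lit 0x10000d0006800000000000000000000000000) (nat_lit 0x0) (nat_lit 0x20008400000000000000000000000000) := D_46 (nat_lit 125) (nat_lit 106) (nat_lit 111) (nat_lit 0) (nat_lit 8) (nat_lit 7) (nat_lit 2) (nat_lit 5) (nat_lit 7) (by decide +kernel)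
theorem L128172 : W_46 (nat_lit 2) (nat_lit 0x10000d0006800000000000000000000000000) (nat_lit 0x0) (nat_lit 0x28008000000000000000000000000000) := D_46 (nat_lit 125) (nat_lit 123) (nat_lit 111) (nat_lit 2) (nat_lit 4) (nat_lit 7) (nat_lit 2) (nat_lit 5) (nat_lit 7) (by decide +kernel)
theorem L128173 : W_46 (nat_lit 13) (nat_lit 0x10000c0006800000000000000000000000000) (nat_lit 0x0) (nat_lit 0x100038007c001e000f80038008401e60033001900000000000000) := Q_46 (nat_lit 124) (C_46 L125986 (C_46 L128170 (C_46 L128171 (C_46 L128172 N_46)))) (by decide +kernel)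
theorem L128174 : W_46 (nat_lit 3) (nat_lit 0x10000d0007800040000000000000000000000) (nat_lit 0x0) (nat_lit 0x8000400020008000000002000000000000000000) := T_46 (nat_lit 125) (nat_lit 111) (nat_lit 2) (nat_lit 5) (nat_lit 7) L125341 (by decide +kernel)
theorem L128175 : W_46 (nat_lit 4) (nat_lit 0x10000d0007800000000000000000000000000) (nat_lit 0x0) (nat_lit 0x8000400020008000060002000000000000000000) := T_46 (nat_lit 90) (nat_lit 89) (nat_lit 0) (nat_lit 8) (nat_lit 6) L128174 (by decide +kernel)
theorem L128176 : W_46 (nat_lit 5) (nat_lit 0x10000c0007800000000000000000000000000) (nat_lit 0x0) (nat_lit 0x8000400038008000060002000000000000000000) := T_46 (nat_lit 124) (nat_lit 123) (nat_lit 1) (nat_lit 8) (nat_lit 6) L128175 (by decide +kernel)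
theorem L128177 : W_46 (nat_lit 6) (nat_lit 0x10000c0006800000000000000000000000000) (nat_lit 0x0) (nat_lit 0x8000400038009400060002000000000000000000) := T_46 (nat_lit 108) (nat_lit 106) (nat_lit 3) (nat_lit 4) (nat_lit 6) L128176 (by decide +kernel)
theorem L128178 : W_46 (nat_lit 2) (nat_lit 0x10000c0006800200000000000000000000000) (nat_lit 0x0) (nat_lit 0x1000400020000000000000000000) := D_46 (nat_lit 94) (nat_lit 77) (nat_lit 108) (nat_lit 6) (nat_lit 8) (nat_lit 8) (nat_lit 2) (nat_lit 5) (nat_lit 6) (by decide +kernel)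
theorem L128179 : W_46 (nat_lit 4) (nat_lit 0x10000c0006800000000000000000000000000) (nat_lit 0x0) (nat_lit 0x800000001000600030001800000000000000) := Q_46 (nat_lit 93) (C_46 L127899 (C_46 L125985 (C_46 L128178 N_46))) (by decide +kernel)
theorem L128180 : W_46 (nat_lit 14) (nat_lit 0x10000c0002800000000000000000000000000) (nat_lit 0x0) (nat_lit 0x100038007c001e000f8003800d401e60033001900000000000000) := Q_46 (nat_lit 110) (C_46 L128173 (C_46 L127894 (C_46 L128177 (C_46 L128179 N_46)))) (by decide +kernel)
theorem L128181 : W_46 (nat_lit 2) (nat_lit 0x10000f0007800200000000000000000000000) (nat_lit 0x0) (nat_lit 0x800000000000000010000800000000000000) := D_46 (nat_lit 76) (nat_lit 59) (nat_lit 143) (nat_lit 5) (nat_lit 8) (nat_lit 3) (nat_lit 5) (nat_lit 8) (nat_lit 4) (by decide +kernel)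
theorem L128182 : W_46 (nat_lit 3) (nat_lit 0x10000f0007800000000000000000000000000) (nat_lit 0x0) (nat_lit 0x800000000000600010000800000000000000) := T_46 (nat_lit 93) (nat_lit 94) (nat_lit 2) (nat_lit 5) (nat_lit 6) L128181 (by decide +kernel)
theorem L128183 : W_46 (nat_lit 4) (nat_lit 0x10000f0003800000000000000000000000000) (nat_lit 0x0) (nat_lit 0x80000000c000600010000800000000000000) := T_46 (nat_lit 110) (nat_lit 111) (nat_lit 2) (nat_lit 5) (nat_lit 7) L128182 (by decide +kernel)
theorem L128184 : W_46 (nat_lit 5) (nat_lit 0x10000f0002800000000000000000000000000) (nat_lit 0x0) (nat_lit 0x4000b0000000d000680014000800000000000000) := Q_46 (nat_lit 108) (C_46 L124872 (C_46 L128183 N_46)) (by decide +kernel)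
theorem L128185 : W_46 (nat_lit 6) (nat_lit 0x10000d0002800000000000000000000000000) (nat_lit 0x0) (nat_lit 0x4000b8002800d000680014000800000000000000) := Q_46 (nat_lit 125) (C_46 L128031 (C_46 L127663 (C_46 L128184 N_46))) (by decide +kernel)
theorem L128186 : W_46 (nat_lit 7) (nat_lit 0x10000c0002800000000000000000000000000) (nat_lit 0x0) (nat_lit 0x4000b8003800d400680014000800000000000000) := Q_46 (nat_lit 124) (C_46 L128043 (C_46 L127956 (C_46 L128042 (C_46 L125304 (C_46 L128185 N_46))))) (by decide +kernel)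
theorem L128187 : W_46 (nat_lit 4) (nat_lit 0x10000d0006800000000000000000000000000) (nat_lit 0x0) (nat_lit 0x800008001000600010000800000000000000) := T_46 (nat_lit 108) (nat_lit 123) (nat_lit 1) (nat_lit 8) (nat_lit 6) L127954 (by decide +kernel)
theorem L128188 : W_46 (nat_lit 2) (nat_lit 0x10000d001f800800000000000000000000000) (nat_lit 0x0) (nat_lit 0xe0000000000000000000000) := D_46 (nat_lit 90) (nat_lit 91) (nat_lit 89) (nat_lit 0) (nat_lit 9) (nat_lit 6) (nat_lit 0) (nat_lit 8) (nat_lit 6) (by decide +kernel)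
theorem L128189 : W_46 (nat_lit 3) (nat_lit 0x10000d001e800800000000000000000000000) (nat_lit 0x0) (nat_lit 0x10004e0000000000000000000000) := T_46 (nat_lit 108) (nat_lit 94) (nat_lit 2) (nat_lit 6) (nat_lit 6) L128188 (by decide +kernel)
theorem L128190 : W_46 (nat_lit 4) (nat_lit 0x10000d001e800000000000000000000000000) (nat_lit 0x0) (nat_lit 0x1001ce0000000000000000000000) := T_46 (nat_lit 95) (nat_lit 96) (nat_lit 2) (nat_lit 7) (nat_lit 6) L128189 (by decide +kernel)
theorem L128191 : W_46 (nat_lit 5) (nat_lit 0x10000d000e800000000000000000000000000) (nat_lit 0x0) (nat_lit 0x31001ce0000000000000000000000) := T_46 (nat_lit 112) (nat_lit 113) (nat_lit 1) (nat_lit 11) (nat_lit 6) L128190 (by decide +kernel)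
theorem L128192 : W_46 (nat_lit 6) (nat_lit 0x10000d0006800000000000000000000000000) (nat_lit 0x0) (nat_lit 0x20039001ce0000000000000000000000) := T_46 (nat_lit 111) (nat_lit 125) (nat_lit 2) (nat_lit 5) (nat_lit 7) L128191 (by decide +kernel)
theorem L128193 : W_46 (nat_lit 7) (nat_lit 0x10000d0002800000000000000000000000000) (nat_lit 0x0) (nat_lit 0x80002803d001ee0010000800000000000000) := Q_46 (nat_lit 110) (C_46 L128172 (C_46 L128187 (C_46 L128192 N_46))) (by decide +kernel)
theorem L128194 : W_46 (nat_lit 2) (nat_lit 0x18001a000f0006800040005000000000000000000) (nat_lit 0x0) (nat_lit 0x2000280000000000000) := D_46 (nat_lit 73) (nat_lit 57) (nat_lit 55) (nat_lit 6) (nat_lit 5) (nat_lit 7) (nat_lit 4) (nat_lit 5) (nat_lit 7) (by decide +kernel)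
theorem L128195 : W_46 (nat_lit 3) (nat_lit 0x18001a000f0006800040004000000000000000000) (nat_lit 0x0) (nat_lit 0x20003000280000000000000) := T_46 (nat_lit 72) (nat_lit 89) (nat_lit 4) (nat_lit 5) (nat_lit 8) L128194 (by decide +kernel)
theorem L128196 : W_46 (nat_lit 4) (nat_lit 0x18001a000f0006800040000000000000000000000) (nat_lit 0x0) (nat_lit 0xa0007000280000000000000) := T_46 (nat_lit 74) (nat_lit 91) (nat_lit 6) (nat_lit 5) (nat_lit 8) L128195 (by decide +kernel)
theorem L128197 : W_46 (nat_lit 5) (nat_lit 0x18001a000f0006800000000000000000000000000) (nat_lit 0x0) (nat_lit 0x4000000000000e0007000280000000000000) := T_46 (nat_lit 90) (nat_lit 142) (nat_lit 7) (nat_lit 5) (nat_lit 5) L128196 (by decide +kernel)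
theorem L128198 : W_46 (nat_lit 6) (nat_lit 0x10001a000f0006800000000000000000000000000) (nat_lit 0x0) (nat_lit 0x1000080004000000000000e0007000280000000000000) := T_46 (nat_lit 159) (nat_lit 176) (nat_lit 5) (nat_lit 7) (nat_lit 6) L128197 (by decide +kernel)
theorem L128199 : W_46 (nat_lit 7) (nat_lit 0x1a000f0006800000000000000000000000000) (nat_lit 0x0) (nat_lit 0x3000180004000000000000e0007000280000000000000) := T_46 (nat_lit 160) (nat_lit 177) (nat_lit 6) (nat_lit 7) (nat_lit 10) L128198 (by decide +kernel)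
theorem L128200 : W_46 (nat_lit 8) (nat_lit 0x18000f0006800000000000000000000000000) (nat_lit 0x0) (nat_lit 0x3000180007000000000000e0007000280000000000000) := T_46 (nat_lit 141) (nat_lit 140) (nat_lit 1) (nat_lit 8) (nat_lit 7) L128199 (by decide +kernel)
theorem L128201 : W_46 (nat_lit 9) (nat_lit 0x18000d0006800000000000000000000000000) (nat_lit 0x0) (nat_lit 0x3000180007000200080000e0007000280000000000000) := T_46 (nat_lit 125) (nat_lit 111) (nat_lit 2) (nat_lit 5) (nat_lit 7) L128200 (by decide +kernel)
theorem L128202 : W_46 (nat_lit 2) (nat_lit 0x18000d0006800400020000000000000000000) (nat_lit 0x0) (nat_lit 0x20008000000000001000000000000000) := D_46 (nat_lit 111) (nat_lit 125) (nat_lit 60) (nat_lit 2) (nat_lit 5) (nat_lit 7) (nat_lit 5) (nat_lit 9) (nat_lit 3) (by decide +kernel)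
theorem L128203 : W_46 (nat_lit 3) (nat_lit 0x18000d0006800000020000000000000000000) (nat_lit 0x0) (nat_lit 0x20008000600000001000000000000000) := T_46 (nat_lit 94) (nat_lit 93) (nat_lit 6) (nat_lit 8) (nat_lit 8) L128202 (by decide +kernel)
theorem L128204 : W_46 (nat_lit 2) (nat_lit 0x18000d0006800000020000000000000000000) (nat_lit 0x0) (nat_lit 0x600010000000000000000000) := D_46 (nat_lit 93) (nat_lit 76) (nat_lit 94) (nat_lit 5) (nat_lit 8) (nat_lit 4) (nat_lit 6) (nat_lit 8) (nat_lit 8) (by decide +kernel)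
theorem L128205 : W_46 (nat_lit 2) (nat_lit 0x18002d001e800800070004000000000000000) (nat_lit 0x0) (nat_lit 0x8002000200000000000) := D_46 (nat_lit 61) (nat_lit 45) (nat_lit 75) (nat_lit 6) (nat_lit 10) (nat_lit 6) (nat_lit 2) (nat_lit 7) (nat_lit 4) (by decide +kernel)
theorem L128206 : W_46 (nat_lit 3) (nat_lit 0x18002d001e800800070000000000000000000) (nat_lit 0x0) (nat_lit 0x88006000200000000000) := T_46 (nat_lit 62) (nat_lit 79) (nat_lit 6) (nat_lit 10) (nat_lit 7) L128205 (by decide +kernel)
theorem L128207 : W_46 (nat_lit 4) (nat_lit 0x18002d001e800800030000000000000000000) (nat_lit 0x0) (nat_lit 0xc8007000200000000000) := T_46 (nat_lit 78) (nat_lit 60) (nat_lit 4) (nat_lit 10) (nat_lit 7) L128206 (by decide +kernel)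
theorem L128208 : W_46 (nat_lit 5) (nat_lit 0x18000d001e800800030000000000000000000) (nat_lit 0x0) (nat_lit 0x6000000000000c8007000200000000000) := T_46 (nat_lit 129) (nat_lit 130) (nat_lit 3) (nat_lit 7) (nat_lit 6) L128207 (by decide +kernel)
theorem L128209 : W_46 (nat_lit 6) (nat_lit 0x18000d001e800000030000000000000000000) (nat_lit 0x0) (nat_lit 0x6000000018000c8007000200000000000) := T_46 (nat_lit 95) (nat_lit 96) (nat_lit 2) (nat_lit 7) (nat_lit 6) L128208 (by decide +kernel)
theorem L128210 : W_46 (nat_lit 7) (nat_lit 0x18000d000e800000030000000000000000000) (nat_lit 0x0) (nat_lit 0x6000300018000c8007000200000000000) := T_46 (nat_lit 112) (nat_lit 113) (nat_lit 1) (nat_lit 11) (nat_lit 6) L128209 (by decide +kernel)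
theorem L128211 : W_46 (nat_lit 8) (nat_lit 0x18000d0006800000030000000000000000000) (nat_lit 0x0) (nat_lit 0x6200380018000c8007000200000000000) := T_46 (nat_lit 111) (nat_lit 125) (nat_lit 2) (nat_lit 5) (nat_lit 7) L128210 (by decide +kernel)
theorem L128212 : W_46 (nat_lit 9) (nat_lit 0x18000d0006800000020000000000000000000) (nat_lit 0x0) (nat_lit 0x620038001a000d8007000200000000000) := T_46 (nat_lit 76) (nat_lit 93) (nat_lit 5) (nat_lit 8) (nat_lit 4) L128211 (by decide +kernel)
theorem L128213 : W_46 (nat_lit 2) (nat_lit 0x18002d001e800000020001000000000000000) (nat_lit 0x0) (nat_lit 0x1800040000000000000000000) := D_46 (nat_lit 95) (nat_lit 96) (nat_lit 78) (nat_lit 2) (nat_lit 7) (nat_lit 6) (nat_lit 4) (nat_lit 10) (nat_lit 7) (by decide +kernel)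
theorem L128214 : W_46 (nat_lit 3) (nat_lit 0x18000d001e800000020001000000000000000) (nat_lit 0x0) (nat_lit 0x600000001800040000000000000000000) := T_46 (nat_lit 129) (nat_lit 130) (nat_lit 3) (nat_lit 7) (nat_lit 6) L128213 (by decide +kernel)
theorem L128215 : W_46 (nat_lit 4) (nat_lit 0x18000d001e800000020000000000000000000) (nat_lit 0x0) (nat_lit 0x600000001c00040001000000000000000) := T_46 (nat_lit 60) (nat_lit 94) (nat_lit 5) (nat_lit 9) (nat_lit 3) L128214 (by decide +kernel)
theorem L128216 : W_46 (nat_lit 5) (nat_lit 0x18000d000e800000020000000000000000000) (nat_lit 0x0) (nat_lit 0x600030001c00040001000000000000000) := T_46 (nat_lit 112) (nat_lit 113) (nat_lit 1) (nat_lit 11) (nat_lit 6) L128215 (by decide +kernel)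
theorem L128217 : W_46 (nat_lit 6) (nat_lit 0x18000d0006800000020000000000000000000) (nat_lit 0x0) (nat_lit 0x620038001c00040001000000000000000) := T_46 (nat_lit 111) (nat_lit 125) (nat_lit 2) (nat_lit 5) (nat_lit 7) L128216 (by decide +kernel)
theorem L128218 : W_46 (nat_lit 10) (nat_lit 0x18000d0006800000000000000000000000000) (nat_lit 0x0) (nat_lit 0x620038001e000f8007000200000000000) := Q_46 (nat_lit 77) (C_46 L128203 (C_46 L128204 (C_46 L128212 (C_46 L128217 N_46)))) (by decide +kernel)
theorem L128219 : W_46 (nat_lit 11) (nat_lit 0x10000d0006800000000000000000000000000) (nat_lit 0x0) (nat_lit 0x300018000f00620038001ee00ff007280200000000000) := Q_46 (nat_lit 143) (C_46 L125987 (C_46 L128201 (C_46 L128218 N_46))) (by decide +kernel)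
theorem L128220 : W_46 (nat_lit 2) (nat_lit 0x10000d0006800200000000000000000000000) (nat_lit 0x0) (nat_lit 0x1000400020000000000000000000) := D_46 (nat_lit 94) (nat_lit 108) (nat_lit 77) (nat_lit 2) (nat_lit 5) (nat_lit 6) (nat_lit 6) (nat_lit 8) (nat_lit 8) (by decide +kernel)
theorem L128221 : W_46 (nat_lit 2) (nat_lit 0x10000d0006800200000000000000000000000) (nat_lit 0x0) (nat_lit 0x800000000000000010000800000000000000) := D_46 (nat_lit 76) (nat_lit 143) (nat_lit 59) (nat_lit 5) (nat_lit 8) (nat_lit 4) (nat_lit 5) (nat_lit 8) (nat_lit 3) (by decide +kernel)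
theorem L128222 : W_46 (nat_lit 3) (nat_lit 0x10000d0006800000000000000000000000000) (nat_lit 0x0) (nat_lit 0x800000001000600030000800000000000000) := Q_46 (nat_lit 93) (C_46 L128220 (C_46 L128221 N_46)) (by decide +kernel)
theorem L128223 : W_46 (nat_lit 2) (nat_lit 0x1a000f0006800040000000000000000000000) (nat_lit 0x0) (nat_lit 0x8000400000000000000002000000000000000000) := D_46 (nat_lit 142) (nat_lit 73) (nat_lit 159) (nat_lit 7) (nat_lit 5) (nat_lit 4) (nat_lit 7) (nat_lit 5) (nat_lit 5) (by decide +kernel)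
theorem L128224 : W_46 (nat_lit 3) (nat_lit 0x18000f0006800040000000000000000000000) (nat_lit 0x0) (nat_lit 0x8000700000000000000002000000000000000000) := T_46 (nat_lit 141) (nat_lit 140) (nat_lit 1) (nat_lit 8) (nat_lit 7) L128223 (by decide +kernel)
theorem L128225 : W_46 (nat_lit 4) (nat_lit 0x18000d0006800040000000000000000000000) (nat_lit 0x0) (nat_lit 0x8000700020008000000002000000000000000000) := T_46 (nat_lit 125) (nat_lit 111) (nat_lit 2) (nat_lit 5) (nat_lit 7) L128224 (by decide +kernel)
theorem L128226 : W_46 (nat_lit 2) (nat_lit 0x18000d00078000c0010000000000000000000) (nat_lit 0x0) (nat_lit 0x200000000000000004000200000000000000) := D_46 (nat_lit 74) (nat_lit 57) (nat_lit 141) (nat_lit 7) (nat_lit 6) (nat_lit 3) (nat_lit 6) (nat_lit 5) (nat_lit 8) (by decide +kernel)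
theorem L128227 : W_46 (nat_lit 3) (nat_lit 0x18000d0007800040010000000000000000000) (nat_lit 0x0) (nat_lit 0x200000008000080004000200000000000000) := T_46 (nat_lit 91) (nat_lit 111) (nat_lit 0) (nat_lit 9) (nat_lit 6) L128226 (by decide +kernel)
theorem L128228 : W_46 (nat_lit 4) (nat_lit 0x18000d0006800040010000000000000000000) (nat_lit 0x0) (nat_lit 0x2000000090000a0004000200000000000000) := T_46 (nat_lit 108) (nat_lit 89) (nat_lit 0) (nat_lit 8) (nat_lit 6) L128227 (by decide +kernel)
theorem L128229 : W_46 (nat_lit 5) (nat_lit 0x18000d0006800040000000000000000000000) (nat_lit 0x0) (nat_lit 0x2000000090002a0014000200000000000000) := T_46 (nat_lit 76) (nat_lit 93) (nat_lit 5) (nat_lit 8) (nat_lit 4) L128228 (by decide +kernel)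
theorem L128230 : W_46 (nat_lit 2) (nat_lit 0x1a000d0006800060010000000000000000000) (nat_lit 0x0) (nat_lit 0x500020000000000000000000000000000000) := D_46 (nat_lit 140) (nat_lit 142) (nat_lit 125) (nat_lit 2) (nat_lit 4) (nat_lit 8) (nat_lit 1) (nat_lit 8) (nat_lit 7) (by decide +kernel)
theorem L128231 : W_46 (nat_lit 3) (nat_lit 0x18000d0006800060010000000000000000000) (nat_lit 0x0) (nat_lit 0x700020000000000001000000000000000000) := T_46 (nat_lit 141) (nat_lit 72) (nat_lit 4) (nat_lit 5) (nat_lit 8) L128230 (by decide +kernel)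
theorem L128232 : W_46 (nat_lit 4) (nat_lit 0x18000d0006800060000000000000000000000) (nat_lit 0x0) (nat_lit 0x700020000000200011000000000000000000) := T_46 (nat_lit 76) (nat_lit 93) (nat_lit 5) (nat_lit 8) (nat_lit 4) L128231 (by decide +kernel)
theorem L128233 : W_46 (nat_lit 5) (nat_lit 0x18000d0006800040000000000000000000000) (nat_lit 0x0) (nat_lit 0x700020001000220011000000000000000000) := T_46 (nat_lit 89) (nat_lit 108) (nat_lit 0) (nat_lit 8) (nat_lit 6) L128232 (by decide +kernel)
theorem L128234 : W_46 (nat_lit 2) (nat_lit 0x18000d0007800040000000000000000000000) (nat_lit 0x0) (nat_lit 0x20008000080000000000000000000000) := D_46 (nat_lit 111) (nat_lit 125) (nat_lit 91) (nat_lit 2) (nat_lit 5) (nat_lit 7) (nat_lit 0) (nat_lit 9) (nat_lit 6) (by decide +kernel)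
theorem L128235 : W_46 (nat_lit 3) (nat_lit 0x18000d0006800040000000000000000000000) (nat_lit 0x0) (nat_lit 0x200090000a0000000000000000000000) := T_46 (nat_lit 108) (nat_lit 89) (nat_lit 0) (nat_lit 8) (nat_lit 6) L128234 (by decide +kernel)
theorem L128236 : W_46 (nat_lit 6) (nat_lit 0x18000d0006800000000000000000000000000) (nat_lit 0x0) (nat_lit 0x80007000200090002e0017000200000000000000) := Q_46 (nat_lit 90) (C_46 L128225 (C_46 L128229 (C_46 L128233 (C_46 L128235 N_46)))) (by decide +kernel)
theorem L128237 : W_46 (nat_lit 10) (nat_lit 0x10000d0006800000000000000000000000000) (nat_lit 0x0) (nat_lit 0x300018000f000200090002e0017000280000000000000) := Q_46 (nat_lit 143) (C_46 L128201 (C_46 L128236 (C_46 L125987 N_46))) (by decide +kernel)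
theorem L128238 : W_46 (nat_lit 12) (nat_lit 0x10000d0002800000000000000000000000000) (nat_lit 0x0) (nat_lit 0x300018000f0062003d001ee00ff007a80200000000000) := Q_46 (nat_lit 110) (C_46 L128219 (C_46 L128192 (C_46 L128222 (C_46 L128237 N_46)))) (by decide +kernel)
theorem L128239 : W_46 (nat_lit 14) (nat_lit 0x10000c0002800000000000000000000000000) (nat_lit 0x0) (nat_lit 0x28003c001e000fe063e03d381ef80ff007b8020c000000000) := Q_46 (nat_lit 124) (C_46 L128074 (C_46 L128185 (C_46 L128028 (C_46 L128094 (C_46 L128115 (C_46 L128193 (C_46 L128040 (C_46 L128238 N_46)))))))) (by decide +kernel)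
theorem L128240 : W_46 (nat_lit 15) (nat_lit 0x10000c0002000000000000000000000000000) (nat_lit 0x0) (nat_lit 0x8000700078007c001f800fe063e03df81ef80ff007b8020c000000000) := Q_46 (nat_lit 107) (C_46 L127901 (C_46 L128029 (C_46 L125328 (C_46 L128030 (C_46 L128041 (C_46 L128075 (C_46 L128095 (C_46 L128116 (C_46 L128180 (C_46 L128186 (C_46 L128239 N_46))))))))))) (by decide +kernel)
theorem L128241 : W_46 (nat_lit 2) (nat_lit 0x180018000c0002000180000000000000000000000) (nat_lit 0x0) (nat_lit 0x4000200000000000000004000000000000000000000000000) := D_46 (nat_lit 177) (nat_lit 110) (nat_lit 194) (nat_lit 6) (nat_lit 7) (nat_lit 10) (nat_lit 6) (nat_lit 7) (nat_lit 11) (by decide +kernel)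
theorem L128242 : W_46 (nat_lit 3) (nat_lit 0x80018000c0002000180000000000000000000000) (nat_lit 0x0) (nat_lit 0x4000300010000000000004000000000000000000000000000) := T_46 (nat_lit 160) (nat_lit 176) (nat_lit 5) (nat_lit 7) (nat_lit 6) L128241 (by decide +kernel)
theorem L128243 : W_46 (nat_lit 4) (nat_lit 0x80018000c0002000100000000000000000000000) (nat_lit 0x0) (nat_lit 0x4000300010000000000004000080004000000000000000000) := T_46 (nat_lit 91) (nat_lit 74) (nat_lit 4) (nat_lit 7) (nat_lit 8) L128242 (by decide +kernel)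
theorem L128244 : W_46 (nat_lit 5) (nat_lit 0x18000c0002000100000000000000000000000) (nat_lit 0x0) (nat_lit 0x4000300018000400000004000080004000000000000000000) := T_46 (nat_lit 159) (nat_lit 142) (nat_lit 5) (nat_lit 7) (nat_lit 5) L128243 (by decide +kernel)
theorem L128245 : W_46 (nat_lit 6) (nat_lit 0x18000c0002000000000000000000000000000) (nat_lit 0x0) (nat_lit 0x400030001800040000000400018000c000000000000000000) := T_46 (nat_lit 92) (nat_lit 75) (nat_lit 7) (nat_lit 7) (nat_lit 4) L128244 (by decide +kernel)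
theorem L128246 : W_46 (nat_lit 2) (nat_lit 0x1c000d0006000000020000000000000000000) (nat_lit 0x0) (nat_lit 0x600010000000000000000000) := D_46 (nat_lit 93) (nat_lit 76) (nat_lit 94) (nat_lit 5) (nat_lit 8) (nat_lit 4) (nat_lit 6) (nat_lit 8) (nat_lit 8) (by decide +kernel)
theorem L128247 : W_46 (nat_lit 2) (nat_lit 0x1d002d001e000800070004000000000000000) (nat_lit 0x0) (nat_lit 0x8002000200000000000) := D_46 (nat_lit 61) (nat_lit 45) (nat_lit 75) (nat_lit 6) (nat_lit 10) (nat_lit 6) (nat_lit 2) (nat_lit 7) (nat_lit 4) (by decide +kernel)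
theorem L128248 : W_46 (nat_lit 3) (nat_lit 0x1d002d001e000800070000000000000000000) (nat_lit 0x0) (nat_lit 0x88006000200000000000) := T_46 (nat_lit 62) (nat_lit 79) (nat_lit 6) (nat_lit 10) (nat_lit 7) L128247 (by decide +kernel)
theorem L128249 : W_46 (nat_lit 4) (nat_lit 0x1d002d001e000800030000000000000000000) (nat_lit 0x0) (nat_lit 0xc8007000200000000000) := T_46 (nat_lit 78) (nat_lit 60) (nat_lit 4) (nat_lit 10) (nat_lit 7) L128248 (by decide +kernel)
theorem L128250 : W_46 (nat_lit 5) (nat_lit 0x1d000d001e000800030000000000000000000) (nat_lit 0x0) (nat_lit 0x6000000000000c8007000200000000000) := T_46 (nat_lit 129) (nat_lit 130) (nat_lit 3) (nat_lit 7) (nat_lit 6) L128249 (by decide +kernel)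
theorem L128251 : W_46 (nat_lit 6) (nat_lit 0x1d000d001e000000030000000000000000000) (nat_lit 0x0) (nat_lit 0x6000000018000c8007000200000000000) := T_46 (nat_lit 95) (nat_lit 96) (nat_lit 2) (nat_lit 7) (nat_lit 6) L128250 (by decide +kernel)
theorem L128252 : W_46 (nat_lit 7) (nat_lit 0x1d000d000e000000030000000000000000000) (nat_lit 0x0) (nat_lit 0x6000300018000c8007000200000000000) := T_46 (nat_lit 112) (nat_lit 113) (nat_lit 1) (nat_lit 11) (nat_lit 6) L128251 (by decide +kernel)
theorem L128253 : W_46 (nat_lit 8) (nat_lit 0x1d000d000e000000020000000000000000000) (nat_lit 0x0) (nat_lit 0x600030001a000d8007000200000000000) := T_46 (nat_lit 76) (nat_lit 93) (nat_lit 5) (nat_lit 8) (nat_lit 4) L128252 (by decide +kernel)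
theorem L128254 : W_46 (nat_lit 9) (nat_lit 0x1d000d0006000000020000000000000000000) (nat_lit 0x0) (nat_lit 0x620038001a000d8007000200000000000) := T_46 (nat_lit 111) (nat_lit 125) (nat_lit 2) (nat_lit 5) (nat_lit 7) L128253 (by decide +kernel)
theorem L128255 : W_46 (nat_lit 10) (nat_lit 0x1c000d0006000000020000000000000000000) (nat_lit 0x0) (nat_lit 0x300620038001a000d8007000200000000000) := T_46 (nat_lit 140) (nat_lit 141) (nat_lit 2) (nat_lit 4) (nat_lit 8) L128254 (by decide +kernel)
theorem L128256 : W_46 (nat_lit 2) (nat_lit 0x1d002d001e000000020001000000000000000) (nat_lit 0x0) (nat_lit 0x1800040000000000000000000) := D_46 (nat_lit 95) (nat_lit 96) (nat_lit 78) (nat_lit 2) (nat_lit 7) (nat_lit 6) (nat_lit 4) (nat_lit 10) (nat_lit 7) (by decide +kernel)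
theorem L128257 : W_46 (nat_lit 3) (nat_lit 0x1d000d001e000000020001000000000000000) (nat_lit 0x0) (nat_lit 0x600000001800040000000000000000000) := T_46 (nat_lit 129) (nat_lit 130) (nat_lit 3) (nat_lit 7) (nat_lit 6) L128256 (by decide +kernel)
theorem L128258 : W_46 (nat_lit 4) (nat_lit 0x1d000d001e000000020000000000000000000) (nat_lit 0x0) (nat_lit 0x600000001c00040001000000000000000) := T_46 (nat_lit 60) (nat_lit 94) (nat_lit 5) (nat_lit 9) (nat_lit 3) L128257 (by decide +kernel)
theorem L128259 : W_46 (nat_lit 5) (nat_lit 0x1d000d000e000000020000000000000000000) (nat_lit 0x0) (nat_lit 0x600030001c00040001000000000000000) := T_46 (nat_lit 112) (nat_lit 113) (nat_lit 1) (nat_lit 11) (nat_lit 6) L128258 (by decide +kernel)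
theorem L128260 : W_46 (nat_lit 6) (nat_lit 0x1d000d0006000000020000000000000000000) (nat_lit 0x0) (nat_lit 0x620038001c00040001000000000000000) := T_46 (nat_lit 111) (nat_lit 125) (nat_lit 2) (nat_lit 5) (nat_lit 7) L128259 (by decide +kernel)
theorem L128261 : W_46 (nat_lit 7) (nat_lit 0x1c000d0006000000020000000000000000000) (nat_lit 0x0) (nat_lit 0x300620038001c00040001000000000000000) := T_46 (nat_lit 140) (nat_lit 141) (nat_lit 2) (nat_lit 4) (nat_lit 8) L128260 (by decide +kernel)
theorem L128262 : W_46 (nat_lit 11) (nat_lit 0x1c000d0006000000000000000000000000000) (nat_lit 0x0) (nat_lit 0x300620038001e000f8007000200000000000) := Q_46 (nat_lit 77) (C_46 L128246 (C_46 L128255 (C_46 L128261 N_46))) (by decide +kernel)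
theorem L128263 : W_46 (nat_lit 6) (nat_lit 0x1c000f0006000000000000000000000000000) (nat_lit 0x0) (nat_lit 0xc003e001e000000000000000000) := T_46 (nat_lit 92) (nat_lit 75) (nat_lit 7) (nat_lit 7) (nat_lit 4) L126642 (by decide +kernel)
theorem L128264 : W_46 (nat_lit 7) (nat_lit 0x1c000d0006000000000000000000000000000) (nat_lit 0x0) (nat_lit 0x20008c003e001e000000000000000000) := T_46 (nat_lit 125) (nat_lit 111) (nat_lit 2) (nat_lit 5) (nat_lit 7) L128263 (by decide +kernel)
theorem L128265 : W_46 (nat_lit 2) (nat_lit 0x1d000d00160007a0000000000000000000000) (nat_lit 0x0) (nat_lit 0x20001800000000000000000000000) := D_46 (nat_lit 95) (nat_lit 113) (nat_lit 96) (nat_lit 3) (nat_lit 7) (nat_lit 5) (nat_lit 1) (nat_lit 11) (nat_lit 5) (by decide +kernel)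
theorem L128266 : W_46 (nat_lit 3) (nat_lit 0x1d000d00160003a0000000000000000000000) (nat_lit 0x0) (nat_lit 0x20001c00020000000000000000000) := T_46 (nat_lit 94) (nat_lit 77) (nat_lit 6) (nat_lit 8) (nat_lit 8) L128265 (by decide +kernel)
theorem L128267 : W_46 (nat_lit 4) (nat_lit 0x1d000d00160001a0000000000000000000000) (nat_lit 0x0) (nat_lit 0x20001e00030000000000000000000) := T_46 (nat_lit 93) (nat_lit 76) (nat_lit 6) (nat_lit 7) (nat_lit 8) L128266 (by decide +kernel)
theorem L128268 : W_46 (nat_lit 5) (nat_lit 0x1d000d00060001a0000000000000000000000) (nat_lit 0x0) (nat_lit 0x38001e00030000000000000000000) := T_46 (nat_lit 112) (nat_lit 111) (nat_lit 0) (nat_lit 10) (nat_lit 6) L128267 (by decide +kernel)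
theorem L128269 : W_46 (nat_lit 6) (nat_lit 0x1d000d0006000180000000000000000000000) (nat_lit 0x0) (nat_lit 0x38001e60030000000000000000000) := T_46 (nat_lit 89) (nat_lit 90) (nat_lit 3) (nat_lit 4) (nat_lit 5) L128268 (by decide +kernel)
theorem L128270 : W_46 (nat_lit 7) (nat_lit 0x1d000d0006000100000000000000000000000) (nat_lit 0x0) (nat_lit 0x38001ee0034000000000000000000) := T_46 (nat_lit 91) (nat_lit 74) (nat_lit 4) (nat_lit 7) (nat_lit 8) L128269 (by decide +kernel)
theorem L128271 : W_46 (nat_lit 8) (nat_lit 0x1c000d0006000100000000000000000000000) (nat_lit 0x0) (nat_lit 0x300000038001ee0034000000000000000000) := T_46 (nat_lit 140) (nat_lit 141) (nat_lit 2) (nat_lit 4) (nat_lit 8) L128270 (by decide +kernel)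
theorem L128272 : W_46 (nat_lit 9) (nat_lit 0x1c000d0006000000000000000000000000000) (nat_lit 0x0) (nat_lit 0x300000038001fe003c000000000000000000) := T_46 (nat_lit 92) (nat_lit 75) (nat_lit 7) (nat_lit 7) (nat_lit 4) L128271 (by decide +kernel)
theorem L128273 : W_46 (nat_lit 2) (nat_lit 0x1d000d00060017c0002000000000000000000) (nat_lit 0x0) (nat_lit 0x20000c00000000000000000000000000) := D_46 (nat_lit 107) (nat_lit 106) (nat_lit 125) (nat_lit 1) (nat_lit 8) (nat_lit 5) (nat_lit 7) (nat_lit 5) (nat_lit 4) (by decide +kernel)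
theorem L128274 : W_46 (nat_lit 3) (nat_lit 0x1d000d00060017c0000000000000000000000) (nat_lit 0x0) (nat_lit 0x20000c00000003000000000000000000) := T_46 (nat_lit 73) (nat_lit 72) (nat_lit 0) (nat_lit 8) (nat_lit 5) L128273 (by decide +kernel)
theorem L128275 : W_46 (nat_lit 4) (nat_lit 0x1d000d00060007c0000000000000000000000) (nat_lit 0x0) (nat_lit 0x20000c01800003000000000000000000) := T_46 (nat_lit 96) (nat_lit 95) (nat_lit 1) (nat_lit 11) (nat_lit 5) L128274 (by decide +kernel)
theorem L128276 : W_46 (nat_lit 5) (nat_lit 0x1d000d00060003c0000000000000000000000) (nat_lit 0x0) (nat_lit 0x20000c01c00023000000000000000000) := T_46 (nat_lit 94) (nat_lit 77) (nat_lit 6) (nat_lit 8) (nat_lit 8) L128275 (by decide +kernel)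
theorem L128277 : W_46 (nat_lit 6) (nat_lit 0x1d000d0006000380000000000000000000000) (nat_lit 0x0) (nat_lit 0x20000c01c60023000000000000000000) := T_46 (nat_lit 90) (nat_lit 89) (nat_lit 3) (nat_lit 4) (nat_lit 5) L128276 (by decide +kernel)
theorem L128278 : W_46 (nat_lit 7) (nat_lit 0x1d000d0006000300000000000000000000000) (nat_lit 0x0) (nat_lit 0x20000c01ce0027000000000000000000) := T_46 (nat_lit 91) (nat_lit 74) (nat_lit 4) (nat_lit 7) (nat_lit 8) L128277 (by decide +kernel)
theorem L128279 : W_46 (nat_lit 8) (nat_lit 0x1d000d0006000100000000000000000000000) (nat_lit 0x0) (nat_lit 0x20000c01ee0037000000000000000000) := T_46 (nat_lit 93) (nat_lit 76) (nat_lit 6) (nat_lit 7) (nat_lit 8) L128278 (by decide +kernel)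
theorem L128280 : W_46 (nat_lit 9) (nat_lit 0x1d000d0006000000000000000000000000000) (nat_lit 0x0) (nat_lit 0x20000c01fe003f000000000000000000) := T_46 (nat_lit 92) (nat_lit 75) (nat_lit 7) (nat_lit 7) (nat_lit 4) L128279 (by decide +kernel)
theorem L128281 : W_46 (nat_lit 10) (nat_lit 0x1c000d0006000000000000000000000000000) (nat_lit 0x0) (nat_lit 0x300020000c01fe003f000000000000000000) := T_46 (nat_lit 140) (nat_lit 141) (nat_lit 2) (nat_lit 4) (nat_lit 8) L128280 (by decide +kernel)
theorem L128282 : W_46 (nat_lit 2) (nat_lit 0x1e000f0006800180000000000000000000000) (nat_lit 0x0) (nat_lit 0x60002000000000000000000) := D_46 (nat_lit 90) (nat_lit 89) (nat_lit 73) (nat_lit 3) (nat_lit 4) (nat_lit 5) (nat_lit 7) (nat_lit 5) (nat_lit 4) (by decide +kernel)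
theorem L128283 : W_46 (nat_lit 3) (nat_lit 0x1e000f0006800100000000000000000000000) (nat_lit 0x0) (nat_lit 0xe0006000000000000000000) := T_46 (nat_lit 91) (nat_lit 74) (nat_lit 4) (nat_lit 7) (nat_lit 8) L128282 (by decide +kernel)
theorem L128284 : W_46 (nat_lit 4) (nat_lit 0x1e000f0006000100000000000000000000000) (nat_lit 0x0) (nat_lit 0xc000e0006000000000000000000) := T_46 (nat_lit 107) (nat_lit 106) (nat_lit 0) (nat_lit 8) (nat_lit 7) L128283 (by decide +kernel)
theorem L128285 : W_46 (nat_lit 5) (nat_lit 0x1e000f0006000000000000000000000000000) (nat_lit 0x0) (nat_lit 0xc001e000e000000000000000000) := T_46 (nat_lit 92) (nat_lit 75) (nat_lit 7) (nat_lit 7) (nat_lit 4) L128284 (by decide +kernel)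
theorem L128286 : W_46 (nat_lit 6) (nat_lit 0x1c000f0006000000000000000000000000000) (nat_lit 0x0) (nat_lit 0x300000000c001e000e000000000000000000) := T_46 (nat_lit 141) (nat_lit 140) (nat_lit 2) (nat_lit 4) (nat_lit 8) L128285 (by decide +kernel)
theorem L128287 : W_46 (nat_lit 7) (nat_lit 0x1c000d0006000000000000000000000000000) (nat_lit 0x0) (nat_lit 0x300020008c001e000e000000000000000000) := T_46 (nat_lit 125) (nat_lit 111) (nat_lit 2) (nat_lit 5) (nat_lit 7) L128286 (by decide +kernel)
theorem L128288 : W_46 (nat_lit 2) (nat_lit 0x1000000004001e000f0006800060000000000000000000000) (nat_lit 0x0) (nat_lit 0x180004000000000000000000) := D_46 (nat_lit 91) (nat_lit 92) (nat_lit 74) (nat_lit 3) (nat_lit 4) (nat_lit 5) (nat_lit 6) (nat_lit 5) (nat_lit 8) (by decide +kernel)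
theorem L128289 : W_46 (nat_lit 3) (nat_lit 0x1000000004001e000f0006800040000000000000000000000) (nat_lit 0x0) (nat_lit 0x1a0005000000000000000000) := T_46 (nat_lit 89) (nat_lit 72) (nat_lit 4) (nat_lit 5) (nat_lit 8) L128288 (by decide +kernel)
theorem L128290 : W_46 (nat_lit 4) (nat_lit 0x4001e000f0006800040000000000000000000000) (nat_lit 0x0) (nat_lit 0x10000800000000000000000001a0005000000000000000000) := T_46 (nat_lit 192) (nat_lit 175) (nat_lit 6) (nat_lit 5) (nat_lit 11) L128289 (by decide +kernel)
theorem L128291 : W_46 (nat_lit 5) (nat_lit 0x4001e000f0006800000000000000000000000000) (nat_lit 0x0) (nat_lit 0x10000800000000000000000001e0007000000000000000000) := T_46 (nat_lit 90) (nat_lit 73) (nat_lit 7) (nat_lit 5) (nat_lit 4) L128290 (by decide +kernel)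
theorem L128292 : W_46 (nat_lit 6) (nat_lit 0x1e000f0006800000000000000000000000000) (nat_lit 0x0) (nat_lit 0x10000800060000000000000001e0007000000000000000000) := T_46 (nat_lit 158) (nat_lit 157) (nat_lit 1) (nat_lit 8) (nat_lit 8) L128291 (by decide +kernel)
theorem L128293 : W_46 (nat_lit 7) (nat_lit 0x1e000f0006000000000000000000000000000) (nat_lit 0x0) (nat_lit 0x1000080006000000000000c001e0007000000000000000000) := T_46 (nat_lit 107) (nat_lit 106) (nat_lit 0) (nat_lit 8) (nat_lit 7) L128292 (by decide +kernel)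
theorem L128294 : W_46 (nat_lit 8) (nat_lit 0x1c000f0006000000000000000000000000000) (nat_lit 0x0) (nat_lit 0x1000080006000300000000c001e0007000000000000000000) := T_46 (nat_lit 141) (nat_lit 140) (nat_lit 2) (nat_lit 4) (nat_lit 8) L128293 (by decide +kernel)
theorem L128295 : W_46 (nat_lit 9) (nat_lit 0x1c000d0006000000000000000000000000000) (nat_lit 0x0) (nat_lit 0x1000080006000300020008c001e0007000000000000000000) := T_46 (nat_lit 125) (nat_lit 111) (nat_lit 2) (nat_lit 5) (nat_lit 7) L128294 (by decide +kernel)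
theorem L128296 : W_46 (nat_lit 12) (nat_lit 0x1c000d0002000000000000000000000000000) (nat_lit 0x0) (nat_lit 0x100008000600030062003cc01fe00ff007000200000000000) := Q_46 (nat_lit 110) (C_46 L128262 (C_46 L128264 (C_46 L128272 (C_46 L128281 (C_46 L128287 (C_46 L128295 N_46)))))) (by decide +kernel)
theorem L128297 : W_46 (nat_lit 2) (nat_lit 0x1c000d0002000000000000000000000000000) (nat_lit 0x0) (nat_lit 0x300008000000000000000000000000000000) := D_46 (nat_lit 141) (nat_lit 140) (nat_lit 123) (nat_lit 2) (nat_lit 4) (nat_lit 8) (nat_lit 0) (nat_lit 8) (nat_lit 8) (by decide +kernel)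
theorem L128298 : W_46 (nat_lit 8) (nat_lit 0x1c000d0002000000000000000000000000000) (nat_lit 0x0) (nat_lit 0x2800cc003e001e000000000000000000) := T_46 (nat_lit 125) (nat_lit 123) (nat_lit 3) (nat_lit 4) (nat_lit 7) L126644 (by decide +kernel)
theorem L128299 : W_46 (nat_lit 13) (nat_lit 0x1c000c0002000000000000000000000000000) (nat_lit 0x0) (nat_lit 0x100008000600030063803cc01fe00ff007000200000000000) := Q_46 (nat_lit 124) (C_46 L128296 (C_46 L128297 (C_46 L128298 N_46))) (by decide +kernel)
theorem L128300 : W_46 (nat_lit 2) (nat_lit 0x100008001e000d0002000000000000000000000000000) (nat_lit 0x0) (nat_lit 0x6000000000000800000000000000000000000000) := D_46 (nat_lit 158) (nat_lit 157) (nat_lit 107) (nat_lit 1) (nat_lit 8) (nat_lit 8) (nat_lit 7) (nat_lit 5) (nat_lit 6) (by decide +kernel)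
theorem L128301 : W_46 (nat_lit 3) (nat_lit 0x100008001e000c0002000000000000000000000000000) (nat_lit 0x0) (nat_lit 0x6000000018000800000000000000000000000000) := T_46 (nat_lit 124) (nat_lit 123) (nat_lit 0) (nat_lit 8) (nat_lit 8) L128300 (by decide +kernel)
theorem L128302 : W_46 (nat_lit 4) (nat_lit 0x8001e000c0002000000000000000000000000000) (nat_lit 0x0) (nat_lit 0x2000100006000000018000800000000000000000000000000) := T_46 (nat_lit 176) (nat_lit 193) (nat_lit 6) (nat_lit 6) (nat_lit 11) L128301 (by decide +kernel)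
theorem L128303 : W_46 (nat_lit 5) (nat_lit 0x8001c000c0002000000000000000000000000000) (nat_lit 0x0) (nat_lit 0x2000100006000300018000800000000000000000000000000) := T_46 (nat_lit 141) (nat_lit 140) (nat_lit 2) (nat_lit 4) (nat_lit 8) L128302 (by decide +kernel)
theorem L128304 : W_46 (nat_lit 7) (nat_lit 0x1c000c0002000000000000000000000000000) (nat_lit 0x0) (nat_lit 0x200010000e000300038000c00060000000000000000000000) := Q_46 (nat_lit 159) (C_46 L128303 (C_46 L125442 (C_46 L127243 N_46))) (by decide +kernel)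
theorem L128305 : W_46 (nat_lit 14) (nat_lit 0x18000c0002000000000000000000000000000) (nat_lit 0x0) (nat_lit 0x300018000e00070063803cc01fe00ff007000200000000000) := Q_46 (nat_lit 142) (C_46 L126580 (C_46 L128299 (C_46 L128304 N_46))) (by decide +kernel)
theorem L128306 : W_46 (nat_lit 3) (nat_lit 0x18000d0002000000000000000000000000000) (nat_lit 0x0) (nat_lit 0x700028000000000000000000000000000000) := Q_46 (nat_lit 141) (C_46 L127406 (C_46 L127404 (C_46 L125448 (C_46 L127405 N_46)))) (by decide +kernel)
theorem L128307 : W_46 (nat_lit 2) (nat_lit 0x1c001a000d8002400200000000000000000000000) (nat_lit 0x0) (nat_lit 0x800020001000000000000000000) := D_46 (nat_lit 89) (nat_lit 107) (nat_lit 72) (nat_lit 4) (nat_lit 5) (nat_lit 9) (nat_lit 7) (nat_lit 4) (nat_lit 4) (by decide +kernel)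
theorem L128308 : W_46 (nat_lit 3) (nat_lit 0x1c001a000d8002000200000000000000000000000) (nat_lit 0x0) (nat_lit 0x80000000000000000c00020001000000000000000000) := T_46 (nat_lit 106) (nat_lit 175) (nat_lit 4) (nat_lit 5) (nat_lit 10) L128307 (by decide +kernel)
theorem L128309 : W_46 (nat_lit 4) (nat_lit 0x18001a000d8002000200000000000000000000000) (nat_lit 0x0) (nat_lit 0x80006000000000000c00020001000000000000000000) := T_46 (nat_lit 158) (nat_lit 157) (nat_lit 2) (nat_lit 4) (nat_lit 9) L128308 (by decide +kernel)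
theorem L128310 : W_46 (nat_lit 5) (nat_lit 0x10001a000d8002000200000000000000000000000) (nat_lit 0x0) (nat_lit 0x18000e000000000000c00020001000000000000000000) := T_46 (nat_lit 159) (nat_lit 176) (nat_lit 5) (nat_lit 7) (nat_lit 6) L128309 (by decide +kernel)
theorem L128311 : W_46 (nat_lit 6) (nat_lit 0x10001a000d8002000000000000000000000000000) (nat_lit 0x0) (nat_lit 0x18000e000000000004c00220001000000000000000000) := T_46 (nat_lit 93) (nat_lit 110) (nat_lit 6) (nat_lit 7) (nat_lit 9) L128310 (by decide +kernel)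
theorem L128312 : W_46 (nat_lit 7) (nat_lit 0x10001a000d0002000000000000000000000000000) (nat_lit 0x0) (nat_lit 0x18000e000400008004c00220001000000000000000000) := T_46 (nat_lit 123) (nat_lit 142) (nat_lit 0) (nat_lit 8) (nat_lit 8) L128311 (by decide +kernel)
theorem L128313 : W_46 (nat_lit 8) (nat_lit 0x1a000d0002000000000000000000000000000) (nat_lit 0x0) (nat_lit 0x600038001e000400008004c00220001000000000000000000) := Q_46 (nat_lit 160) (C_46 L127393 (C_46 L125520 (C_46 L128312 N_46))) (by decide +kernel)
theorem L128314 : W_46 (nat_lit 2) (nat_lit 0x4001a000d0002000000000000000000000000000) (nat_lit 0x0) (nat_lit 0x2000500000000000000000000000000000000000) := D_46 (nat_lit 142) (nat_lit 140) (nat_lit 157) (nat_lit 2) (nat_lit 4) (nat_lit 8) (nat_lit 1) (nat_lit 8) (nat_lit 8) (by decide +kernel)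
theorem L128315 : W_46 (nat_lit 2) (nat_lit 0x10000c001b000d0002000000000000000000000000000) (nat_lit 0x0) (nat_lit 0x40002000080000000000000000000000000000000000000000000) := D_46 (nat_lit 193) (nat_lit 175) (nat_lit 210) (nat_lit 7) (nat_lit 5) (nat_lit 7) (nat_lit 4) (nat_lit 6) (nat_lit 12) (by decide +kernel)
theorem L128316 : W_46 (nat_lit 3) (nat_lit 0x100004001b000d0002000000000000000000000000000) (nat_lit 0x0) (nat_lit 0x40002000080008000000000000800000000000000000000000000) := T_46 (nat_lit 159) (nat_lit 107) (nat_lit 7) (nat_lit 5) (nat_lit 6) L128315 (by decide +kernel)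
theorem L128317 : W_46 (nat_lit 4) (nat_lit 0x100004001a000d0002000000000000000000000000000) (nat_lit 0x0) (nat_lit 0x40002000080008000500000000800000000000000000000000000) := T_46 (nat_lit 140) (nat_lit 142) (nat_lit 2) (nat_lit 4) (nat_lit 8) L128316 (by decide +kernel)
theorem L128318 : W_46 (nat_lit 2) (nat_lit 0x1a00380004001b000d0002000000000000000000000000000) (nat_lit 0x0) (nat_lit 0x4000000010000000000004000000000000000000000000000) := D_46 (nat_lit 160) (nat_lit 110) (nat_lit 194) (nat_lit 6) (nat_lit 7) (nat_lit 10) (nat_lit 6) (nat_lit 7) (nat_lit 11) (by decide +kernel)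
theorem L128319 : W_46 (nat_lit 3) (nat_lit 0x1a00180004001b000d0002000000000000000000000000000) (nat_lit 0x0) (nat_lit 0x4000600010000000000004000000000000000000000000000) := T_46 (nat_lit 177) (nat_lit 178) (nat_lit 1) (nat_lit 8) (nat_lit 10) L128318 (by decide +kernel)
theorem L128320 : W_46 (nat_lit 4) (nat_lit 0x1800180004001b000d0002000000000000000000000000000) (nat_lit 0x0) (nat_lit 0x4600600010000000000004000000000000000000000000000) := T_46 (nat_lit 189) (nat_lit 190) (nat_lit 2) (nat_lit 2) (nat_lit 11) L128319 (by decide +kernel)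
theorem L128321 : W_46 (nat_lit 5) (nat_lit 0x800180004001b000d0002000000000000000000000000000) (nat_lit 0x0) (nat_lit 0x10005600600010000000000004000000000000000000000000000) := T_46 (nat_lit 192) (nat_lit 208) (nat_lit 5) (nat_lit 5) (nat_lit 8) L128320 (by decide +kernel)
theorem L128322 : W_46 (nat_lit 6) (nat_lit 0x800180004001a000d0002000000000000000000000000000) (nat_lit 0x0) (nat_lit 0x10005600600010000500000004000000000000000000000000000) := T_46 (nat_lit 140) (nat_lit 142) (nat_lit 2) (nat_lit 4) (nat_lit 8) L128321 (by decide +kernel)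
theorem L128323 : W_46 (nat_lit 7) (nat_lit 0x180004001a000d0002000000000000000000000000000) (nat_lit 0x0) (nat_lit 0x10005e00640010000500000004000000000000000000000000000) := T_46 (nat_lit 191) (nat_lit 174) (nat_lit 5) (nat_lit 5) (nat_lit 7) L128322 (by decide +kernel)
theorem L128324 : W_46 (nat_lit 8) (nat_lit 0x100004001a000d0002000000000000000000000000000) (nat_lit 0x0) (nat_lit 0x10007e006c0010000500000004000000000000000000000000000) := T_46 (nat_lit 175) (nat_lit 193) (nat_lit 7) (nat_lit 5) (nat_lit 7) L128323 (by decide +kernel)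
theorem L128325 : W_46 (nat_lit 9) (nat_lit 0x4001a000d0002000000000000000000000000000) (nat_lit 0x0) (nat_lit 0x50007e007c0018000500000004800000000000000000000000000) := Q_46 (nat_lit 176) (C_46 L128317 (C_46 L127327 (C_46 L128324 N_46))) (by decide +kernel)
theorem L128326 : W_46 (nat_lit 10) (nat_lit 0x1a000d0002000000000000000000000000000) (nat_lit 0x0) (nat_lit 0x50007e007c001e000500000004800000000000000000000000000) := Q_46 (nat_lit 158) (C_46 L128314 (C_46 L125504 (C_46 L128325 N_46))) (by decide +kernel)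
theorem L128327 : W_46 (nat_lit 11) (nat_lit 0x18000d0002000000000000000000000000000) (nat_lit 0x0) (nat_lit 0x50007e007c001f800700008004c00260003000000000000000000) := Q_46 (nat_lit 141) (C_46 L127404 (C_46 L125518 (C_46 L128313 (C_46 L128326 N_46)))) (by decide +kernel)
theorem L128328 : W_46 (nat_lit 2) (nat_lit 0x18000f0006000000000000000000000000000) (nat_lit 0x0) (nat_lit 0x200010000000000000000200000000000000000000000) := D_46 (nat_lit 160) (nat_lit 177) (nat_lit 93) (nat_lit 6) (nat_lit 7) (nat_lit 10) (nat_lit 6) (nat_lit 7) (nat_lit 9) (by decide +kernel)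
theorem L128329 : W_46 (nat_lit 3) (nat_lit 0x18000f0002000000000000000000000000000) (nat_lit 0x0) (nat_lit 0x20001000000000000c000200000000000000000000000) := T_46 (nat_lit 110) (nat_lit 111) (nat_lit 2) (nat_lit 5) (nat_lit 7) L128328 (by decide +kernel)
theorem L128330 : W_46 (nat_lit 4) (nat_lit 0x18000d0002000000000000000000000000000) (nat_lit 0x0) (nat_lit 0x20001000000002800c000200000000000000000000000) := T_46 (nat_lit 125) (nat_lit 123) (nat_lit 3) (nat_lit 4) (nat_lit 7) L128329 (by decide +kernel)
theorem L128331 : W_46 (nat_lit 2) (nat_lit 0x18000d0006000000000000000000000000000) (nat_lit 0x0) (nat_lit 0x200010000000000000000200000000000000000000000) := D_46 (nat_lit 160) (nat_lit 177) (nat_lit 93) (nat_lit 6) (nat_lit 7) (nat_lit 10) (nat_lit 6) (nat_lit 7) (nat_lit 9) (by decide +kernel)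
theorem L128332 : W_46 (nat_lit 2) (nat_lit 0x18002d001e000800070004000000000000000) (nat_lit 0x0) (nat_lit 0x8002000200000000000) := D_46 (nat_lit 61) (nat_lit 45) (nat_lit 75) (nat_lit 6) (nat_lit 10) (nat_lit 6) (nat_lit 2) (nat_lit 7) (nat_lit 4) (by decide +kernel)
theorem L128333 : W_46 (nat_lit 3) (nat_lit 0x18002d001e000800070000000000000000000) (nat_lit 0x0) (nat_lit 0x88006000200000000000) := T_46 (nat_lit 62) (nat_lit 79) (nat_lit 6) (nat_lit 10) (nat_lit 7) L128332 (by decide +kernel)
theorem L128334 : W_46 (nat_lit 4) (nat_lit 0x18002d001e000800030000000000000000000) (nat_lit 0x0) (nat_lit 0xc8007000200000000000) := T_46 (nat_lit 78) (nat_lit 60) (nat_lit 4) (nat_lit 10) (nat_lit 7) L128333 (by decide +kernel)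
theorem L128335 : W_46 (nat_lit 5) (nat_lit 0x18000d001e000800030000000000000000000) (nat_lit 0x0) (nat_lit 0x6000000000000c8007000200000000000) := T_46 (nat_lit 129) (nat_lit 130) (nat_lit 3) (nat_lit 7) (nat_lit 6) L128334 (by decide +kernel)
theorem L128336 : W_46 (nat_lit 6) (nat_lit 0x18000d001e000000030000000000000000000) (nat_lit 0x0) (nat_lit 0x6000000018000c8007000200000000000) := T_46 (nat_lit 95) (nat_lit 96) (nat_lit 2) (nat_lit 7) (nat_lit 6) L128335 (by decide +kernel)
theorem L128337 : W_46 (nat_lit 2) (nat_lit 0x18000d001e000800020001000000000000000) (nat_lit 0x0) (nat_lit 0x600000000000040000000000000000000) := D_46 (nat_lit 129) (nat_lit 78) (nat_lit 130) (nat_lit 4) (nat_lit 10) (nat_lit 7) (nat_lit 3) (nat_lit 7) (nat_lit 6) (by decide +kernel)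
theorem L128338 : W_46 (nat_lit 3) (nat_lit 0x18000d001e000800020000000000000000000) (nat_lit 0x0) (nat_lit 0x600000000400040001000000000000000) := T_46 (nat_lit 60) (nat_lit 94) (nat_lit 5) (nat_lit 9) (nat_lit 3) L128337 (by decide +kernel)
theorem L128339 : W_46 (nat_lit 4) (nat_lit 0x18000d001e000000020000000000000000000) (nat_lit 0x0) (nat_lit 0x600000001c00040001000000000000000) := T_46 (nat_lit 95) (nat_lit 96) (nat_lit 2) (nat_lit 7) (nat_lit 6) L128338 (by decide +kernel)
theorem L128340 : W_46 (nat_lit 2) (nat_lit 0x18000d0006000000020000000000000000000) (nat_lit 0x0) (nat_lit 0x600010000000000000000000) := D_46 (nat_lit 93) (nat_lit 76) (nat_lit 94) (nat_lit 5) (nat_lit 8) (nat_lit 4) (nat_lit 6) (nat_lit 8) (nat_lit 8) (by decide +kernel)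
theorem L128341 : W_46 (nat_lit 7) (nat_lit 0x18000d000e000000030000000000000000000) (nat_lit 0x0) (nat_lit 0x6000300018000c8007000200000000000) := T_46 (nat_lit 112) (nat_lit 113) (nat_lit 1) (nat_lit 11) (nat_lit 6) L128336 (by decide +kernel)
theorem L128342 : W_46 (nat_lit 8) (nat_lit 0x18000d0006000000030000000000000000000) (nat_lit 0x0) (nat_lit 0x6200380018000c8007000200000000000) := T_46 (nat_lit 111) (nat_lit 125) (nat_lit 2) (nat_lit 5) (nat_lit 7) L128341 (by decide +kernel)
theorem L128343 : W_46 (nat_lit 9) (nat_lit 0x18000d0006000000020000000000000000000) (nat_lit 0x0) (nat_lit 0x620038001a000d8007000200000000000) := T_46 (nat_lit 76) (nat_lit 93) (nat_lit 5) (nat_lit 8) (nat_lit 4) L128342 (by decide +kernel)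
theorem L128344 : W_46 (nat_lit 5) (nat_lit 0x18000d000e000000020000000000000000000) (nat_lit 0x0) (nat_lit 0x600030001c00040001000000000000000) := T_46 (nat_lit 112) (nat_lit 113) (nat_lit 1) (nat_lit 11) (nat_lit 6) L128339 (by decide +kernel)
theorem L128345 : W_46 (nat_lit 6) (nat_lit 0x18000d0006000000020000000000000000000) (nat_lit 0x0) (nat_lit 0x620038001c00040001000000000000000) := T_46 (nat_lit 111) (nat_lit 125) (nat_lit 2) (nat_lit 5) (nat_lit 7) L128344 (by decide +kernel)
theorem L128346 : W_46 (nat_lit 10) (nat_lit 0x18000d0006000000000000000000000000000) (nat_lit 0x0) (nat_lit 0x620038001e000f8007000200000000000) := Q_46 (nat_lit 77) (C_46 L128340 (C_46 L128343 (C_46 L128345 N_46))) (by decide +kernel)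
theorem L128347 : W_46 (nat_lit 8) (nat_lit 0x1a000f0006000000000000000000000000000) (nat_lit 0x0) (nat_lit 0x300018000400000000c000e0007000280000000000000) := T_46 (nat_lit 107) (nat_lit 106) (nat_lit 0) (nat_lit 8) (nat_lit 7) L128199 (by decide +kernel)
theorem L128348 : W_46 (nat_lit 9) (nat_lit 0x18000f0006000000000000000000000000000) (nat_lit 0x0) (nat_lit 0x300018000700000000c000e0007000280000000000000) := T_46 (nat_lit 141) (nat_lit 140) (nat_lit 1) (nat_lit 8) (nat_lit 7) L128347 (by decide +kernel)
theorem L128349 : W_46 (nat_lit 10) (nat_lit 0x18000d0006000000000000000000000000000) (nat_lit 0x0) (nat_lit 0x300018000700020008c000e0007000280000000000000) := T_46 (nat_lit 125) (nat_lit 111) (nat_lit 2) (nat_lit 5) (nat_lit 7) L128348 (by decide +kernel)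
theorem L128350 : W_46 (nat_lit 11) (nat_lit 0x18000d0002000000000000000000000000000) (nat_lit 0x0) (nat_lit 0x30001800070062003cc01ee00ff007280200000000000) := Q_46 (nat_lit 110) (C_46 L128331 (C_46 L128346 (C_46 L128349 N_46))) (by decide +kernel)
theorem L128351 : W_46 (nat_lit 12) (nat_lit 0x18000c0002000000000000000000000000000) (nat_lit 0x0) (nat_lit 0x50007e007c001f80070063803cc01ee00ff007280200000000000) := Q_46 (nat_lit 124) (C_46 L128306 (C_46 L128327 (C_46 L128330 (C_46 L128350 N_46)))) (by decide +kernel)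
theorem L128352 : W_46 (nat_lit 2) (nat_lit 0x100018000c0002000300000000000000000000000) (nat_lit 0x0) (nat_lit 0x100008000400000000000000000000000000000000000) := D_46 (nat_lit 159) (nat_lit 142) (nat_lit 176) (nat_lit 5) (nat_lit 7) (nat_lit 5) (nat_lit 5) (nat_lit 7) (nat_lit 6) (by decide +kernel)
theorem L128353 : W_46 (nat_lit 3) (nat_lit 0x100018000c0002000200000000000000000000000) (nat_lit 0x0) (nat_lit 0x100008000400000000000100010000000000000000000) := T_46 (nat_lit 92) (nat_lit 76) (nat_lit 6) (nat_lit 7) (nat_lit 8) L128352 (by decide +kernel)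
theorem L128354 : W_46 (nat_lit 4) (nat_lit 0x100018000c0002000000000000000000000000000) (nat_lit 0x0) (nat_lit 0x100008000400000004000300010000000000000000000) := T_46 (nat_lit 93) (nat_lit 110) (nat_lit 6) (nat_lit 7) (nat_lit 9) L128353 (by decide +kernel)
theorem L128355 : W_46 (nat_lit 5) (nat_lit 0x18000c0002000000000000000000000000000) (nat_lit 0x0) (nat_lit 0x6000300018000400000004000300010000000000000000000) := Q_46 (nat_lit 160) (C_46 L123133 (C_46 L123131 (C_46 L128354 N_46))) (by decide +kernel)
theorem L128356 : W_46 (nat_lit 16) (nat_lit 0x10000c0002000000000000000000000000000) (nat_lit 0x0) (nat_lit 0x4000e0007000fe007c001f800f0063803cc01fe00ff007380204000000000) := Q_46 (nat_lit 143) (C_46 L128245 (C_46 L128305 (C_46 L125354 (C_46 L123198 (C_46 L128351 (C_46 L127420 (C_46 L128355 N_46))))))) (by decide +kernel)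
theorem L128357 : W_46 (nat_lit 2) (nat_lit 0x10000e000f000480008001000000000000000) (nat_lit 0x0) (nat_lit 0x4000600000000000000) := D_46 (nat_lit 74) (nat_lit 58) (nat_lit 57) (nat_lit 6) (nat_lit 6) (nat_lit 7) (nat_lit 7) (nat_lit 6) (nat_lit 3) (by decide +kernel)
theorem L128358 : W_46 (nat_lit 3) (nat_lit 0x10000e000f000400008001000000000000000) (nat_lit 0x0) (nat_lit 0xc0004000600000000000000) := T_46 (nat_lit 91) (nat_lit 90) (nat_lit 0) (nat_lit 9) (nat_lit 6) L128357 (by decide +kernel)
theorem L128359 : W_46 (nat_lit 4) (nat_lit 0x10000e000f000400008000000000000000000) (nat_lit 0x0) (nat_lit 0xc0024001600000000000000) := T_46 (nat_lit 60) (nat_lit 77) (nat_lit 5) (nat_lit 9) (nat_lit 3) L128358 (by decide +kernel)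
theorem L128360 : W_46 (nat_lit 5) (nat_lit 0x10000c000f000400008000000000000000000) (nat_lit 0x0) (nat_lit 0x300000000c0024001600000000000000) := T_46 (nat_lit 125) (nat_lit 124) (nat_lit 2) (nat_lit 5) (nat_lit 7) L128359 (by decide +kernel)
theorem L128361 : W_46 (nat_lit 6) (nat_lit 0x10000c000f000000008000000000000000000) (nat_lit 0x0) (nat_lit 0x30000000cc0024001600000000000000) := T_46 (nat_lit 94) (nat_lit 95) (nat_lit 2) (nat_lit 6) (nat_lit 6) L128360 (by decide +kernel)
theorem L128362 : W_46 (nat_lit 7) (nat_lit 0x10000c000f000000000000000000000000000) (nat_lit 0x0) (nat_lit 0x30000000dc002c001600000000000000) := T_46 (nat_lit 75) (nat_lit 92) (nat_lit 7) (nat_lit 7) (nat_lit 4) L128361 (by decide +kernel)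
theorem L128363 : W_46 (nat_lit 8) (nat_lit 0x10000c000e000000000000000000000000000) (nat_lit 0x0) (nat_lit 0x38001c00de002c001600000000000000) := Q_46 (nat_lit 108) (C_46 L127865 (C_46 L125968 (C_46 L128362 N_46))) (by decide +kernel)
theorem L128364 : W_46 (nat_lit 9) (nat_lit 0x10000c0006000000000000000000000000000) (nat_lit 0x0) (nat_lit 0x38039c00de002c001600000000000000) := Q_46 (nat_lit 111) (C_46 L126030 (C_46 L128363 (C_46 L125592 N_46))) (by decide +kernel)
theorem L128365 : W_46 (nat_lit 5) (nat_lit 0x10000c0006000000000000000000000000000) (nat_lit 0x0) (nat_lit 0x9801f00038000c00000000000000) := Q_46 (nat_lit 93) (C_46 L127753 (C_46 L123159 (C_46 L123188 N_46))) (by decide +kernel)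
theorem L128366 : W_46 (nat_lit 3) (nat_lit 0x10000c0006000200000000000000000000000) (nat_lit 0x0) (nat_lit 0x400030001800000000000000) := T_46 (nat_lit 76) (nat_lit 59) (nat_lit 5) (nat_lit 8) (nat_lit 3) L125997 (by decide +kernel)
theorem L128367 : W_46 (nat_lit 5) (nat_lit 0x10000c0006000000000000000000000000000) (nat_lit 0x0) (nat_lit 0x1001f00038001c00000000000000) := Q_46 (nat_lit 93) (C_46 L127753 (C_46 L123159 (C_46 L128366 N_46))) (by decide +kernel)
theorem L128368 : W_46 (nat_lit 2) (nat_lit 0x10000e000f000080008000000000000000000) (nat_lit 0x0) (nat_lit 0x4000600000000000000) := D_46 (nat_lit 74) (nat_lit 58) (nat_lit 57) (nat_lit 6) (nat_lit 6) (nat_lit 7) (nat_lit 7) (nat_lit 6) (nat_lit 3) (by decide +kernel)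
theorem L128369 : W_46 (nat_lit 3) (nat_lit 0x10000e000f000000008000000000000000000) (nat_lit 0x0) (nat_lit 0xc0004000600000000000000) := T_46 (nat_lit 91) (nat_lit 90) (nat_lit 0) (nat_lit 9) (nat_lit 6) L128368 (by decide +kernel)
theorem L128370 : W_46 (nat_lit 4) (nat_lit 0x10000c000f000000008000000000000000000) (nat_lit 0x0) (nat_lit 0x300000000c0004000600000000000000) := T_46 (nat_lit 125) (nat_lit 124) (nat_lit 2) (nat_lit 5) (nat_lit 7) L128369 (by decide +kernel)
theorem L128371 : W_46 (nat_lit 5) (nat_lit 0x10000c000f000000000000000000000000000) (nat_lit 0x0) (nat_lit 0x300000001c000c000600000000000000) := T_46 (nat_lit 75) (nat_lit 92) (nat_lit 7) (nat_lit 7) (nat_lit 4) L128370 (by decide +kernel)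
theorem L128372 : W_46 (nat_lit 6) (nat_lit 0x10000c000e000000000000000000000000000) (nat_lit 0x0) (nat_lit 0x38001c001e000c000600000000000000) := Q_46 (nat_lit 108) (C_46 L127865 (C_46 L125968 (C_46 L128371 N_46))) (by decide +kernel)
theorem L128373 : W_46 (nat_lit 7) (nat_lit 0x10000c0006000000000000000000000000000) (nat_lit 0x0) (nat_lit 0x38039c001e000c000600000000000000) := Q_46 (nat_lit 111) (C_46 L126030 (C_46 L128372 (C_46 L125592 N_46))) (by decide +kernel)
theorem L128374 : W_46 (nat_lit 2) (nat_lit 0x10000c001f000840000000000000000000000) (nat_lit 0x0) (nat_lit 0xc00020000000000000000000000) := D_46 (nat_lit 107) (nat_lit 106) (nat_lit 89) (nat_lit 3) (nat_lit 4) (nat_lit 6) (nat_lit 0) (nat_lit 8) (nat_lit 6) (by decide +kernel)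
theorem L128375 : W_46 (nat_lit 3) (nat_lit 0x10000c001f000800000000000000000000000) (nat_lit 0x0) (nat_lit 0xc000e0000000000000000000000) := T_46 (nat_lit 90) (nat_lit 91) (nat_lit 0) (nat_lit 9) (nat_lit 6) L128374 (by decide +kernel)
theorem L128376 : W_46 (nat_lit 4) (nat_lit 0x10000c001e000800000000000000000000000) (nat_lit 0x0) (nat_lit 0x1c004e0000000000000000000000) := T_46 (nat_lit 108) (nat_lit 94) (nat_lit 2) (nat_lit 6) (nat_lit 6) L128375 (by decide +kernel)
theorem L128377 : W_46 (nat_lit 5) (nat_lit 0x10000c001e000000000000000000000000000) (nat_lit 0x0) (nat_lit 0x1c01ce0000000000000000000000) := T_46 (nat_lit 95) (nat_lit 96) (nat_lit 2) (nat_lit 7) (nat_lit 6) L128376 (by decide +kernel)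
theorem L128378 : W_46 (nat_lit 6) (nat_lit 0x10000c000e000000000000000000000000000) (nat_lit 0x0) (nat_lit 0x31c01ce0000000000000000000000) := T_46 (nat_lit 112) (nat_lit 113) (nat_lit 1) (nat_lit 11) (nat_lit 6) L128377 (by decide +kernel)
theorem L128379 : W_46 (nat_lit 4) (nat_lit 0x10000c000e000000000000000000000000000) (nat_lit 0x0) (nat_lit 0x38001c00e00020001000000000000000) := Q_46 (nat_lit 108) (C_46 L125981 (C_46 L125968 N_46)) (by decide +kernel)
theorem L128380 : W_46 (nat_lit 7) (nat_lit 0x10000c0006000000000000000000000000000) (nat_lit 0x0) (nat_lit 0x38039c01ee0020001000000000000000) := Q_46 (nat_lit 111) (C_46 L125592 (C_46 L128378 (C_46 L128379 N_46))) (by decide +kernel)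
theorem L128381 : W_46 (nat_lit 8) (nat_lit 0x10000c0006000000000000000000000000000) (nat_lit 0x0) (nat_lit 0x20038001f800f8001c00000000000000) := Q_46 (nat_lit 93) (C_46 L128366 (C_46 L123159 (C_46 L127801 N_46))) (by decide +kernel)
theorem L128382 : W_46 (nat_lit 10) (nat_lit 0x10000c0002000000000000000000000000000) (nat_lit 0x0) (nat_lit 0x3803dc01fe00fc001e00000000000000) := Q_46 (nat_lit 110) (C_46 L128364 (C_46 L127892 (C_46 L128365 (C_46 L128367 (C_46 L128373 (C_46 L128380 (C_46 L128381 N_46))))))) (by decide +kernel)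
theorem L128383 : W_46 (nat_lit 2) (nat_lit 0x10000d0006000000000000000000000000000) (nat_lit 0x0) (nat_lit 0x28008000000000000000000000000000) := D_46 (nat_lit 125) (nat_lit 123) (nat_lit 111) (nat_lit 2) (nat_lit 4) (nat_lit 7) (nat_lit 2) (nat_lit 5) (nat_lit 7) (by decide +kernel)
theorem L128384 : W_46 (nat_lit 2) (nat_lit 0x10000d0006800000000000000000000000000) (nat_lit 0x0) (nat_lit 0x8001400000000000000000000000000) := D_46 (nat_lit 108) (nat_lit 123) (nat_lit 106) (nat_lit 1) (nat_lit 8) (nat_lit 6) (nat_lit 3) (nat_lit 4) (nat_lit 6) (by decide +kernel)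
theorem L128385 : W_46 (nat_lit 2) (nat_lit 0x10000d800680004000a000100000000000000) (nat_lit 0x0) (nat_lit 0x1000080004000000000) := D_46 (nat_lit 55) (nat_lit 38) (nat_lit 72) (nat_lit 4) (nat_lit 5) (nat_lit 6) (nat_lit 4) (nat_lit 5) (nat_lit 7) (by decide +kernel)
theorem L128386 : W_46 (nat_lit 3) (nat_lit 0x10000d800680004000a000000000000000000) (nat_lit 0x0) (nat_lit 0x400000001000180004000000000) := T_46 (nat_lit 56) (nat_lit 106) (nat_lit 5) (nat_lit 5) (nat_lit 3) L128385 (by decide +kernel)
theorem L128387 : W_46 (nat_lit 4) (nat_lit 0x10000d000680004000a000000000000000000) (nat_lit 0x0) (nat_lit 0x100008000400000001000180004000000000) := T_46 (nat_lit 123) (nat_lit 140) (nat_lit 5) (nat_lit 5) (nat_lit 4) L128386 (by decide +kernel)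
theorem L128388 : W_46 (nat_lit 5) (nat_lit 0x10000d0006800040002000000000000000000) (nat_lit 0x0) (nat_lit 0x100008000400100009000180004000000000) := T_46 (nat_lit 75) (nat_lit 92) (nat_lit 7) (nat_lit 7) (nat_lit 4) L128387 (by decide +kernel)
theorem L128389 : W_46 (nat_lit 2) (nat_lit 0x16000d800680004000b000200000000000000) (nat_lit 0x0) (nat_lit 0x400000000000100010000000000) := D_46 (nat_lit 56) (nat_lit 40) (nat_lit 106) (nat_lit 6) (nat_lit 5) (nat_lit 6) (nat_lit 5) (nat_lit 5) (nat_lit 3) (by decide +kernel)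
theorem L128390 : W_46 (nat_lit 3) (nat_lit 0x16000d000680004000b000200000000000000) (nat_lit 0x0) (nat_lit 0x800008000400000000000100010000000000) := T_46 (nat_lit 123) (nat_lit 143) (nat_lit 0) (nat_lit 8) (nat_lit 8) L128389 (by decide +kernel)
theorem L128391 : W_46 (nat_lit 4) (nat_lit 0x12000d000680004000b000200000000000000) (nat_lit 0x0) (nat_lit 0x8000c00008000400000000000100010000000000) := T_46 (nat_lit 142) (nat_lit 159) (nat_lit 7) (nat_lit 5) (nat_lit 5) L128390 (by decide +kernel)
theorem L128392 : W_46 (nat_lit 5) (nat_lit 0x12000d000680004000b000000000000000000) (nat_lit 0x0) (nat_lit 0x8000c00008000400000004000300010000000000) := T_46 (nat_lit 57) (nat_lit 74) (nat_lit 6) (nat_lit 5) (nat_lit 7) L128391 (by decide +kernel)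
theorem L128393 : W_46 (nat_lit 6) (nat_lit 0x10000d000680004000b000000000000000000) (nat_lit 0x0) (nat_lit 0x8000e00008000400020004000300010000000000) := T_46 (nat_lit 141) (nat_lit 89) (nat_lit 4) (nat_lit 5) (nat_lit 8) L128392 (by decide +kernel)
theorem L128394 : W_46 (nat_lit 7) (nat_lit 0x10000d0006800040003000000000000000000) (nat_lit 0x0) (nat_lit 0x8000e0000800040012000c000300010000000000) := T_46 (nat_lit 75) (nat_lit 92) (nat_lit 7) (nat_lit 7) (nat_lit 4) L128393 (by decide +kernel)
theorem L128395 : W_46 (nat_lit 8) (nat_lit 0x10000d0006800040002000000000000000000) (nat_lit 0x0) (nat_lit 0x8000e0000800040012000d000380010000000000) := T_46 (nat_lit 72) (nat_lit 55) (nat_lit 4) (nat_lit 5) (nat_lit 7) L128394 (by decide +kernel)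
theorem L128396 : W_46 (nat_lit 2) (nat_lit 0x16000d000680004000f000400000000000000) (nat_lit 0x0) (nat_lit 0x2000900000000000000000000000000000000000) := D_46 (nat_lit 140) (nat_lit 143) (nat_lit 157) (nat_lit 2) (nat_lit 4) (nat_lit 8) (nat_lit 5) (nat_lit 5) (nat_lit 5) (by decide +kernel)
theorem L128397 : W_46 (nat_lit 3) (nat_lit 0x12000d000680004000f000400000000000000) (nat_lit 0x0) (nat_lit 0xa000d00000000000000000000000000000000000) := T_46 (nat_lit 142) (nat_lit 159) (nat_lit 7) (nat_lit 5) (nat_lit 5) L128396 (by decide +kernel)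
theorem L128398 : W_46 (nat_lit 4) (nat_lit 0x12000d000680004000f000000000000000000) (nat_lit 0x0) (nat_lit 0xa000d00000000000000000000c00000000000000) := T_46 (nat_lit 58) (nat_lit 59) (nat_lit 2) (nat_lit 4) (nat_lit 4) L128397 (by decide +kernel)
theorem L128399 : W_46 (nat_lit 5) (nat_lit 0x12000d000680004000b000000000000000000) (nat_lit 0x0) (nat_lit 0xa000d00000000000000004000e00000000000000) := T_46 (nat_lit 74) (nat_lit 57) (nat_lit 6) (nat_lit 5) (nat_lit 7) L128398 (by decide +kernel)
theorem L128400 : W_46 (nat_lit 6) (nat_lit 0x10000d000680004000b000000000000000000) (nat_lit 0x0) (nat_lit 0xa000f00000000000020004000e00000000000000) := T_46 (nat_lit 141) (nat_lit 89) (nat_lit 4) (nat_lit 5) (nat_lit 8) L128399 (by decide +kernel)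
theorem L128401 : W_46 (nat_lit 7) (nat_lit 0x10000d0006800040003000000000000000000) (nat_lit 0x0) (nat_lit 0xa000f0000000000012000c000e00000000000000) := T_46 (nat_lit 75) (nat_lit 92) (nat_lit 7) (nat_lit 7) (nat_lit 4) L128400 (by decide +kernel)
theorem L128402 : W_46 (nat_lit 8) (nat_lit 0x10000d0006800040002000000000000000000) (nat_lit 0x0) (nat_lit 0xa000f0000000000012000d000e80000000000000) := T_46 (nat_lit 72) (nat_lit 55) (nat_lit 4) (nat_lit 5) (nat_lit 7) L128401 (by decide +kernel)
theorem L128403 : W_46 (nat_lit 2) (nat_lit 0x10000d8006800040002000100000000000000) (nat_lit 0x0) (nat_lit 0x4000200010000000000) := D_46 (nat_lit 57) (nat_lit 74) (nat_lit 40) (nat_lit 6) (nat_lit 5) (nat_lit 7) (nat_lit 6) (nat_lit 5) (nat_lit 6) (by decide +kernel)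
theorem L128404 : W_46 (nat_lit 3) (nat_lit 0x10000d8006800040002000000000000000000) (nat_lit 0x0) (nat_lit 0x400000004000300010000000000) := T_46 (nat_lit 56) (nat_lit 106) (nat_lit 5) (nat_lit 5) (nat_lit 3) L128403 (by decide +kernel)
theorem L128405 : W_46 (nat_lit 4) (nat_lit 0x10000d0006800040002000000000000000000) (nat_lit 0x0) (nat_lit 0x100008000400000004000300010000000000) := T_46 (nat_lit 123) (nat_lit 140) (nat_lit 5) (nat_lit 5) (nat_lit 4) L128404 (by decide +kernel)
theorem L128406 : W_46 (nat_lit 9) (nat_lit 0x10000d0006800040000000000000000000000) (nat_lit 0x0) (nat_lit 0xa000f0000800040012000f000f80014000000000) := Q_46 (nat_lit 73) (C_46 L127990 (C_46 L128388 (C_46 L128395 (C_46 L128402 (C_46 L128405 N_46))))) (by decide +kernel)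
theorem L128407 : W_46 (nat_lit 2) (nat_lit 0x10000d000680004001e000000000000000000) (nat_lit 0x0) (nat_lit 0x1000180000000000000) := D_46 (nat_lit 55) (nat_lit 56) (nat_lit 72) (nat_lit 0) (nat_lit 8) (nat_lit 4) (nat_lit 4) (nat_lit 5) (nat_lit 7) (by decide +kernel)
theorem L128408 : W_46 (nat_lit 3) (nat_lit 0x10000d000680004000e000000000000000000) (nat_lit 0x0) (nat_lit 0x20011000180000000000000) := T_46 (nat_lit 76) (nat_lit 89) (nat_lit 1) (nat_lit 8) (nat_lit 4) L128407 (by decide +kernel)
theorem L128409 : W_46 (nat_lit 4) (nat_lit 0x10000d000680004000a000000000000000000) (nat_lit 0x0) (nat_lit 0x20015000380000000000000) := T_46 (nat_lit 74) (nat_lit 57) (nat_lit 6) (nat_lit 5) (nat_lit 7) L128408 (by decide +kernel)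
theorem L128410 : W_46 (nat_lit 5) (nat_lit 0x10000d0006800040002000000000000000000) (nat_lit 0x0) (nat_lit 0x12001d000380000000000000) := T_46 (nat_lit 75) (nat_lit 92) (nat_lit 7) (nat_lit 7) (nat_lit 4) L128409 (by decide +kernel)
theorem L128411 : W_46 (nat_lit 2) (nat_lit 0x10000d800680006000b000000000000000000) (nat_lit 0x0) (nat_lit 0x14000200000000000000) := D_46 (nat_lit 74) (nat_lit 76) (nat_lit 57) (nat_lit 1) (nat_lit 8) (nat_lit 4) (nat_lit 6) (nat_lit 5) (nat_lit 7) (by decide +kernel)
theorem L128412 : W_46 (nat_lit 3) (nat_lit 0x10000d8006800060003000000000000000000) (nat_lit 0x0) (nat_lit 0x10001c000200000000000000) := T_46 (nat_lit 75) (nat_lit 92) (nat_lit 7) (nat_lit 7) (nat_lit 4) L128411 (by decide +kernel)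
theorem L128413 : W_46 (nat_lit 4) (nat_lit 0x10000d8006800040003000000000000000000) (nat_lit 0x0) (nat_lit 0x20000000000012001c000200000000000000) := T_46 (nat_lit 89) (nat_lit 141) (nat_lit 4) (nat_lit 5) (nat_lit 8) L128412 (by decide +kernel)
theorem L128414 : W_46 (nat_lit 5) (nat_lit 0x10000d0006800040003000000000000000000) (nat_lit 0x0) (nat_lit 0x30000800000012001c000200000000000000) := T_46 (nat_lit 123) (nat_lit 140) (nat_lit 5) (nat_lit 5) (nat_lit 4) L128413 (by decide +kernel)
theorem L128415 : W_46 (nat_lit 6) (nat_lit 0x10000d0006800040002000000000000000000) (nat_lit 0x0) (nat_lit 0x30000800000012001d000280000000000000) := T_46 (nat_lit 72) (nat_lit 55) (nat_lit 4) (nat_lit 5) (nat_lit 7) L128414 (by decide +kernel)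
theorem L128416 : W_46 (nat_lit 7) (nat_lit 0x10000d0006800040000000000000000000000) (nat_lit 0x0) (nat_lit 0x30000800040012001f000380014000000000) := Q_46 (nat_lit 73) (C_46 L128405 (C_46 L128388 (C_46 L128410 (C_46 L128415 N_46)))) (by decide +kernel)
theorem L128417 : W_46 (nat_lit 2) (nat_lit 0x12000d8006800040003000100000000000000) (nat_lit 0x0) (nat_lit 0x8000c00000000000000000000000000000000000) := D_46 (nat_lit 142) (nat_lit 143) (nat_lit 159) (nat_lit 0) (nat_lit 8) (nat_lit 8) (nat_lit 7) (nat_lit 5) (nat_lit 5) (by decide +kernel)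
theorem L128418 : W_46 (nat_lit 3) (nat_lit 0x10000d8006800040003000100000000000000) (nat_lit 0x0) (nat_lit 0x8000e00000000000020000000000000000000000) := T_46 (nat_lit 141) (nat_lit 89) (nat_lit 4) (nat_lit 5) (nat_lit 8) L128417 (by decide +kernel)
theorem L128419 : W_46 (nat_lit 4) (nat_lit 0x10000d8006800040003000000000000000000) (nat_lit 0x0) (nat_lit 0x8000e00000000400020000000100000000000000) := T_46 (nat_lit 56) (nat_lit 106) (nat_lit 5) (nat_lit 5) (nat_lit 3) L128418 (by decide +kernel)
theorem L128420 : W_46 (nat_lit 5) (nat_lit 0x10000d0006800040003000000000000000000) (nat_lit 0x0) (nat_lit 0x8000f00008000400020000000100000000000000) := T_46 (nat_lit 123) (nat_lit 140) (nat_lit 5) (nat_lit 5) (nat_lit 4) L128419 (by decide +kernel)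
theorem L128421 : W_46 (nat_lit 6) (nat_lit 0x10000d0006800040002000000000000000000) (nat_lit 0x0) (nat_lit 0x8000f00008000400020001000180000000000000) := T_46 (nat_lit 72) (nat_lit 55) (nat_lit 4) (nat_lit 5) (nat_lit 7) L128420 (by decide +kernel)
theorem L128422 : W_46 (nat_lit 2) (nat_lit 0x10000d0006800060007000000000000000000) (nat_lit 0x0) (nat_lit 0x18008000000000000000000) := D_46 (nat_lit 88) (nat_lit 87) (nat_lit 75) (nat_lit 2) (nat_lit 2) (nat_lit 5) (nat_lit 1) (nat_lit 7) (nat_lit 4) (by decide +kernel)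
theorem L128423 : W_46 (nat_lit 3) (nat_lit 0x10000d0006800040007000000000000000000) (nat_lit 0x0) (nat_lit 0x200000000000038008000000000000000000) := T_46 (nat_lit 89) (nat_lit 141) (nat_lit 4) (nat_lit 5) (nat_lit 8) L128422 (by decide +kernel)
theorem L128424 : W_46 (nat_lit 4) (nat_lit 0x10000d0006800040003000000000000000000) (nat_lit 0x0) (nat_lit 0x20000000000003800c000200000000000000) := T_46 (nat_lit 74) (nat_lit 57) (nat_lit 6) (nat_lit 5) (nat_lit 7) L128423 (by decide +kernel)
theorem L128425 : W_46 (nat_lit 5) (nat_lit 0x10000d0006800040002000000000000000000) (nat_lit 0x0) (nat_lit 0x20000000000003800d000280000000000000) := T_46 (nat_lit 72) (nat_lit 55) (nat_lit 4) (nat_lit 5) (nat_lit 7) L128424 (by decide +kernel)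
theorem L128426 : W_46 (nat_lit 7) (nat_lit 0x10000d0006800040000000000000000000000) (nat_lit 0x0) (nat_lit 0x8000f0000800040003800f000380010000000000) := Q_46 (nat_lit 73) (C_46 L128405 (C_46 L128421 (C_46 L128425 N_46))) (by decide +kernel)
theorem L128427 : W_46 (nat_lit 2) (nat_lit 0x10000d800680004001e000800000000000000) (nat_lit 0x0) (nat_lit 0x1000480000000000000) := D_46 (nat_lit 72) (nat_lit 58) (nat_lit 55) (nat_lit 2) (nat_lit 4) (nat_lit 4) (nat_lit 4) (nat_lit 5) (nat_lit 7) (by decide +kernel)
theorem L128428 : W_46 (nat_lit 3) (nat_lit 0x10000d800680004001e000000000000000000) (nat_lit 0x0) (nat_lit 0x1001c80000000000000) := T_46 (nat_lit 59) (nat_lit 60) (nat_lit 2) (nat_lit 5) (nat_lit 4) L128427 (by decide +kernel)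
theorem L128429 : W_46 (nat_lit 4) (nat_lit 0x10000d000680004001e000000000000000000) (nat_lit 0x0) (nat_lit 0x100008000000000001001c80000000000000) := T_46 (nat_lit 123) (nat_lit 140) (nat_lit 5) (nat_lit 5) (nat_lit 4) L128428 (by decide +kernel)
theorem L128430 : W_46 (nat_lit 5) (nat_lit 0x10000d000680004000e000000000000000000) (nat_lit 0x0) (nat_lit 0x100008000000020011001c80000000000000) := T_46 (nat_lit 76) (nat_lit 89) (nat_lit 1) (nat_lit 8) (nat_lit 4) L128429 (by decide +kernel)
theorem L128431 : W_46 (nat_lit 6) (nat_lit 0x10000d000680004000a000000000000000000) (nat_lit 0x0) (nat_lit 0x100008000000020015001e80000000000000) := T_46 (nat_lit 74) (nat_lit 57) (nat_lit 6) (nat_lit 5) (nat_lit 7) L128430 (by decide +kernel)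
theorem L128432 : W_46 (nat_lit 7) (nat_lit 0x10000d0006800040002000000000000000000) (nat_lit 0x0) (nat_lit 0x10000800000012001d001e80000000000000) := T_46 (nat_lit 75) (nat_lit 92) (nat_lit 7) (nat_lit 7) (nat_lit 4) L128431 (by decide +kernel)
theorem L128433 : W_46 (nat_lit 8) (nat_lit 0x10000d0006800040000000000000000000000) (nat_lit 0x0) (nat_lit 0x10000800040012001f001f80014000000000) := Q_46 (nat_lit 73) (C_46 L128410 (C_46 L128405 (C_46 L128388 (C_46 L128432 N_46)))) (by decide +kernel)
theorem L128434 : W_46 (nat_lit 2) (nat_lit 0x1e000d0006800060008000000000000000000) (nat_lit 0x0) (nat_lit 0x6000000000000400000000000000000000000000) := D_46 (nat_lit 158) (nat_lit 157) (nat_lit 106) (nat_lit 1) (nat_lit 8) (nat_lit 8) (nat_lit 4) (nat_lit 5) (nat_lit 9) (by decide +kernel)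
theorem L128435 : W_46 (nat_lit 3) (nat_lit 0x1e000d0006800040008000000000000000000) (nat_lit 0x0) (nat_lit 0x6000000000000400020001000000000000000000) := T_46 (nat_lit 89) (nat_lit 72) (nat_lit 4) (nat_lit 5) (nat_lit 8) L128434 (by decide +kernel)
theorem L128436 : W_46 (nat_lit 4) (nat_lit 0x16000d0006800040008000000000000000000) (nat_lit 0x0) (nat_lit 0x6000800008000400020001000000000000000000) := T_46 (nat_lit 143) (nat_lit 123) (nat_lit 0) (nat_lit 8) (nat_lit 8) L128435 (by decide +kernel)
theorem L128437 : W_46 (nat_lit 5) (nat_lit 0x12000d0006800040008000000000000000000) (nat_lit 0x0) (nat_lit 0xe000c00008000400020001000000000000000000) := T_46 (nat_lit 142) (nat_lit 159) (nat_lit 7) (nat_lit 5) (nat_lit 5) L128436 (by decide +kernel)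
theorem L128438 : W_46 (nat_lit 6) (nat_lit 0x12000d0006800040000000000000000000000) (nat_lit 0x0) (nat_lit 0xe000c00008000400120009000000000000000000) := T_46 (nat_lit 75) (nat_lit 92) (nat_lit 7) (nat_lit 7) (nat_lit 4) L128437 (by decide +kernel)
theorem L128439 : W_46 (nat_lit 2) (nat_lit 0x13000d0006800060000000000000000000000) (nat_lit 0x0) (nat_lit 0x8000c00000000000000000000000000000000000) := D_46 (nat_lit 142) (nat_lit 143) (nat_lit 159) (nat_lit 2) (nat_lit 4) (nat_lit 8) (nat_lit 7) (nat_lit 5) (nat_lit 5) (by decide +kernel)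
theorem L128440 : W_46 (nat_lit 3) (nat_lit 0x12000d0006800060000000000000000000000) (nat_lit 0x0) (nat_lit 0xa000d00000000000000000000000000000000000) := T_46 (nat_lit 140) (nat_lit 157) (nat_lit 5) (nat_lit 5) (nat_lit 5) L128439 (by decide +kernel)
theorem L128441 : W_46 (nat_lit 4) (nat_lit 0x12000d0006800040000000000000000000000) (nat_lit 0x0) (nat_lit 0xa000d00000000000020001000000000000000000) := T_46 (nat_lit 89) (nat_lit 72) (nat_lit 4) (nat_lit 5) (nat_lit 8) L128440 (by decide +kernel)
theorem L128442 : W_46 (nat_lit 2) (nat_lit 0x40012000d0006800060008000000000000000000) (nat_lit 0x0) (nat_lit 0x100008000400000000000000000000000000000000000) := D_46 (nat_lit 159) (nat_lit 142) (nat_lit 176) (nat_lit 7) (nat_lit 5) (nat_lit 5) (nat_lit 7) (nat_lit 5) (nat_lit 6) (by decide +kernel)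
theorem L128443 : W_46 (nat_lit 3) (nat_lit 0x12000d0006800060008000000000000000000) (nat_lit 0x0) (nat_lit 0x10000c000400000000400000000000000000000000000) := T_46 (nat_lit 158) (nat_lit 106) (nat_lit 4) (nat_lit 5) (nat_lit 9) L128442 (by decide +kernel)
theorem L128444 : W_46 (nat_lit 4) (nat_lit 0x12000d0006800060000000000000000000000) (nat_lit 0x0) (nat_lit 0x10000c000400000000400100008000000000000000000) := T_46 (nat_lit 75) (nat_lit 92) (nat_lit 7) (nat_lit 7) (nat_lit 4) L128443 (by decide +kernel)
theorem L128445 : W_46 (nat_lit 5) (nat_lit 0x12000d0006800040000000000000000000000) (nat_lit 0x0) (nat_lit 0x10000c000400000000400120009000000000000000000) := T_46 (nat_lit 89) (nat_lit 72) (nat_lit 4) (nat_lit 5) (nat_lit 8) L128444 (by decide +kernel)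
theorem L128446 : W_46 (nat_lit 2) (nat_lit 0x16000d0006800040000000000000000000000) (nat_lit 0x0) (nat_lit 0x2000900000000000000000000000000000000000) := D_46 (nat_lit 140) (nat_lit 143) (nat_lit 157) (nat_lit 2) (nat_lit 4) (nat_lit 8) (nat_lit 5) (nat_lit 5) (nat_lit 5) (by decide +kernel)
theorem L128447 : W_46 (nat_lit 3) (nat_lit 0x12000d0006800040000000000000000000000) (nat_lit 0x0) (nat_lit 0xa000d00000000000000000000000000000000000) := T_46 (nat_lit 142) (nat_lit 159) (nat_lit 7) (nat_lit 5) (nat_lit 5) L128446 (by decide +kernel)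
theorem L128448 : W_46 (nat_lit 7) (nat_lit 0x10000d0006800040000000000000000000000) (nat_lit 0x0) (nat_lit 0x10000e000f0000800040012000b000080000000000000) := Q_46 (nat_lit 141) (C_46 L125991 (C_46 L128438 (C_46 L128441 (C_46 L128445 (C_46 L128447 N_46))))) (by decide +kernel)
theorem L128449 : W_46 (nat_lit 2) (nat_lit 0x10000d0006c0004000a000180008000000000) (nat_lit 0x0) (nat_lit 0x200010000800000) := D_46 (nat_lit 40) (nat_lit 57) (nat_lit 23) (nat_lit 6) (nat_lit 5) (nat_lit 6) (nat_lit 6) (nat_lit 5) (nat_lit 5) (by decide +kernel)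
theorem L128450 : W_46 (nat_lit 3) (nat_lit 0x10000d0006c0004000a000180000000000000) (nat_lit 0x0) (nat_lit 0x20000000200018000800000) := T_46 (nat_lit 39) (nat_lit 89) (nat_lit 5) (nat_lit 5) (nat_lit 2) L128449 (by decide +kernel)
theorem L128451 : W_46 (nat_lit 4) (nat_lit 0x10000d000680004000a000180000000000000) (nat_lit 0x0) (nat_lit 0x8000400020000000200018000800000) := T_46 (nat_lit 106) (nat_lit 123) (nat_lit 5) (nat_lit 5) (nat_lit 3) L128450 (by decide +kernel)
theorem L128452 : W_46 (nat_lit 5) (nat_lit 0x10000d000680004000a000080000000000000) (nat_lit 0x0) (nat_lit 0x800040002000000030001c000800000) := T_46 (nat_lit 56) (nat_lit 38) (nat_lit 4) (nat_lit 5) (nat_lit 6) L128451 (by decide +kernel)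
theorem L128453 : W_46 (nat_lit 6) (nat_lit 0x10000d000680004000a000000000000000000) (nat_lit 0x0) (nat_lit 0x800040002000100038001c000800000) := T_46 (nat_lit 55) (nat_lit 72) (nat_lit 4) (nat_lit 5) (nat_lit 7) L128452 (by decide +kernel)
theorem L128454 : W_46 (nat_lit 7) (nat_lit 0x10000d0006800040002000000000000000000) (nat_lit 0x0) (nat_lit 0x800040012000900038001c000800000) := T_46 (nat_lit 75) (nat_lit 92) (nat_lit 7) (nat_lit 7) (nat_lit 4) L128453 (by decide +kernel)
theorem L128455 : W_46 (nat_lit 2) (nat_lit 0x12000d8006800040003000300000000000000) (nat_lit 0x0) (nat_lit 0x8000c00000000000000000000000000000000000) := D_46 (nat_lit 142) (nat_lit 159) (nat_lit 143) (nat_lit 7) (nat_lit 5) (nat_lit 5) (nat_lit 0) (nat_lit 8) (nat_lit 8) (by decide +kernel)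
theorem L128456 : W_46 (nat_lit 3) (nat_lit 0x12000d0006800040003000300000000000000) (nat_lit 0x0) (nat_lit 0x8000c00008000400000000000000000000000000) := T_46 (nat_lit 123) (nat_lit 106) (nat_lit 5) (nat_lit 5) (nat_lit 3) L128455 (by decide +kernel)
theorem L128457 : W_46 (nat_lit 4) (nat_lit 0x12000d0006800040003000200000000000000) (nat_lit 0x0) (nat_lit 0x8000c00008000400000000000100010000000000) := T_46 (nat_lit 56) (nat_lit 40) (nat_lit 6) (nat_lit 5) (nat_lit 6) L128456 (by decide +kernel)
theorem L128458 : W_46 (nat_lit 5) (nat_lit 0x10000d0006800040003000200000000000000) (nat_lit 0x0) (nat_lit 0x8000e00008000400020000000100010000000000) := T_46 (nat_lit 141) (nat_lit 89) (nat_lit 4) (nat_lit 5) (nat_lit 8) L128457 (by decide +kernel)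
theorem L128459 : W_46 (nat_lit 6) (nat_lit 0x10000d0006800040003000000000000000000) (nat_lit 0x0) (nat_lit 0x8000e00008000400020004000300010000000000) := T_46 (nat_lit 57) (nat_lit 74) (nat_lit 6) (nat_lit 5) (nat_lit 7) L128458 (by decide +kernel)
theorem L128460 : W_46 (nat_lit 7) (nat_lit 0x10000d0006800040002000000000000000000) (nat_lit 0x0) (nat_lit 0x8000e00008000400020005000380010000000000) := T_46 (nat_lit 72) (nat_lit 55) (nat_lit 4) (nat_lit 5) (nat_lit 7) L128459 (by decide +kernel)
theorem L128461 : W_46 (nat_lit 2) (nat_lit 0x10000d000680004000a000180000000000000) (nat_lit 0x0) (nat_lit 0x14000200000000000000) := D_46 (nat_lit 74) (nat_lit 76) (nat_lit 57) (nat_lit 0) (nat_lit 8) (nat_lit 4) (nat_lit 6) (nat_lit 5) (nat_lit 7) (by decide +kernel)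
theorem L128462 : W_46 (nat_lit 3) (nat_lit 0x10000d000680004000a000080000000000000) (nat_lit 0x0) (nat_lit 0x14000300004000000000) := T_46 (nat_lit 56) (nat_lit 38) (nat_lit 4) (nat_lit 5) (nat_lit 6) L128461 (by decide +kernel)
theorem L128463 : W_46 (nat_lit 4) (nat_lit 0x10000d0006800040002000080000000000000) (nat_lit 0x0) (nat_lit 0x10001c000300004000000000) := T_46 (nat_lit 75) (nat_lit 92) (nat_lit 7) (nat_lit 7) (nat_lit 4) L128462 (by decide +kernel)
theorem L128464 : W_46 (nat_lit 5) (nat_lit 0x10000d0006800040002000000000000000000) (nat_lit 0x0) (nat_lit 0x10001d000380004000000000) := T_46 (nat_lit 55) (nat_lit 72) (nat_lit 4) (nat_lit 5) (nat_lit 7) L128463 (by decide +kernel)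
theorem L128465 : W_46 (nat_lit 2) (nat_lit 0x10000d0006c0004003e001100000000000000) (nat_lit 0x0) (nat_lit 0x8000c00000000000000000000000) := D_46 (nat_lit 94) (nat_lit 95) (nat_lit 111) (nat_lit 3) (nat_lit 6) (nat_lit 4) (nat_lit 5) (nat_lit 9) (nat_lit 3) (by decide +kernel)
theorem L128466 : W_46 (nat_lit 3) (nat_lit 0x10000d0006c0004001e001100000000000000) (nat_lit 0x0) (nat_lit 0x8000c00020002000000000000000) := T_46 (nat_lit 77) (nat_lit 61) (nat_lit 2) (nat_lit 6) (nat_lit 4) L128465 (by decide +kernel)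
theorem L128467 : W_46 (nat_lit 4) (nat_lit 0x10000d000680004001e001100000000000000) (nat_lit 0x0) (nat_lit 0x8008400c00020002000000000000000) := T_46 (nat_lit 106) (nat_lit 123) (nat_lit 5) (nat_lit 5) (nat_lit 3) L128466 (by decide +kernel)
theorem L128468 : W_46 (nat_lit 5) (nat_lit 0x10000d000680004001e000100000000000000) (nat_lit 0x0) (nat_lit 0x8008400c00020003800000000000000) := T_46 (nat_lit 60) (nat_lit 59) (nat_lit 2) (nat_lit 5) (nat_lit 4) L128467 (by decide +kernel)
theorem L128469 : W_46 (nat_lit 6) (nat_lit 0x10000d000680004001e000000000000000000) (nat_lit 0x0) (nat_lit 0x8008400c00020003980000000000000) := T_46 (nat_lit 56) (nat_lit 55) (nat_lit 0) (nat_lit 8) (nat_lit 4) L128468 (by decide +kernel)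
theorem L128470 : W_46 (nat_lit 7) (nat_lit 0x10000d000680004000e000000000000000000) (nat_lit 0x0) (nat_lit 0x8008400c20030003980000000000000) := T_46 (nat_lit 76) (nat_lit 89) (nat_lit 1) (nat_lit 8) (nat_lit 4) L128469 (by decide +kernel)
theorem L128471 : W_46 (nat_lit 8) (nat_lit 0x10000d000680004000a000000000000000000) (nat_lit 0x0) (nat_lit 0x8008400c20034003b80000000000000) := T_46 (nat_lit 74) (nat_lit 57) (nat_lit 6) (nat_lit 5) (nat_lit 7) L128470 (by decide +kernel)
theorem L128472 : W_46 (nat_lit 9) (nat_lit 0x10000d0006800040002000000000000000000) (nat_lit 0x0) (nat_lit 0x8008400d2003c003b80000000000000) := T_46 (nat_lit 75) (nat_lit 92) (nat_lit 7) (nat_lit 7) (nat_lit 4) L128471 (by decide +kernel)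
theorem L128473 : W_46 (nat_lit 2) (nat_lit 0x10000d000680006000b000000000000000000) (nat_lit 0x0) (nat_lit 0x10014000000000000000000) := D_46 (nat_lit 74) (nat_lit 76) (nat_lit 88) (nat_lit 1) (nat_lit 8) (nat_lit 4) (nat_lit 1) (nat_lit 7) (nat_lit 4) (by decide +kernel)
theorem L128474 : W_46 (nat_lit 3) (nat_lit 0x10000d000680004000b000000000000000000) (nat_lit 0x0) (nat_lit 0x200000000000030014000000000000000000) := T_46 (nat_lit 89) (nat_lit 141) (nat_lit 4) (nat_lit 5) (nat_lit 8) L128473 (by decide +kernel)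
theorem L128475 : W_46 (nat_lit 4) (nat_lit 0x10000d0006800040003000000000000000000) (nat_lit 0x0) (nat_lit 0x20000000000013001c000000000000000000) := T_46 (nat_lit 75) (nat_lit 92) (nat_lit 7) (nat_lit 7) (nat_lit 4) L128474 (by decide +kernel)
theorem L128476 : W_46 (nat_lit 5) (nat_lit 0x10000d0006800040002000000000000000000) (nat_lit 0x0) (nat_lit 0x20000000000013001d000080000000000000) := T_46 (nat_lit 72) (nat_lit 55) (nat_lit 4) (nat_lit 5) (nat_lit 7) L128475 (by decide +kernel)
theorem L128477 : W_46 (nat_lit 2) (nat_lit 0x10000d000680004003e001000000000000000) (nat_lit 0x0) (nat_lit 0x8000c00000000000000000000000) := D_46 (nat_lit 94) (nat_lit 95) (nat_lit 111) (nat_lit 3) (nat_lit 6) (nat_lit 4) (nat_lit 5) (nat_lit 9) (nat_lit 3) (by decide +kernel)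
theorem L128478 : W_46 (nat_lit 3) (nat_lit 0x10000d000680004001e001000000000000000) (nat_lit 0x0) (nat_lit 0x8000c00020002000000000000000) := T_46 (nat_lit 77) (nat_lit 61) (nat_lit 2) (nat_lit 6) (nat_lit 4) L128477 (by decide +kernel)
theorem L128479 : W_46 (nat_lit 4) (nat_lit 0x10000d000680004001e000000000000000000) (nat_lit 0x0) (nat_lit 0x8000c00020003800000000000000) := T_46 (nat_lit 60) (nat_lit 59) (nat_lit 2) (nat_lit 5) (nat_lit 4) L128478 (by decide +kernel)
theorem L128480 : W_46 (nat_lit 5) (nat_lit 0x10000d000680004000e000000000000000000) (nat_lit 0x0) (nat_lit 0x8000c20030003800000000000000) := T_46 (nat_lit 76) (nat_lit 89) (nat_lit 1) (nat_lit 8) (nat_lit 4) L128479 (by decide +kernel)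
theorem L128481 : W_46 (nat_lit 6) (nat_lit 0x10000d0006800040006000000000000000000) (nat_lit 0x0) (nat_lit 0x8000d20038003800000000000000) := T_46 (nat_lit 75) (nat_lit 92) (nat_lit 7) (nat_lit 7) (nat_lit 4) L128480 (by decide +kernel)
theorem L128482 : W_46 (nat_lit 7) (nat_lit 0x10000d0006800040002000000000000000000) (nat_lit 0x0) (nat_lit 0x8000d2003c003a00000000000000) := T_46 (nat_lit 74) (nat_lit 57) (nat_lit 6) (nat_lit 5) (nat_lit 7) L128481 (by decide +kernel)
theorem L128483 : W_46 (nat_lit 10) (nat_lit 0x10000d0006800040000000000000000000000) (nat_lit 0x0) (nat_lit 0x8000e00008008400d3803f003b8001c000800000) := Q_46 (nat_lit 73) (C_46 L128410 (C_46 L128425 (C_46 L128454 (C_46 L128460 (C_46 L128464 (C_46 L128472 (C_46 L128476 (C_46 L128482 N_46)))))))) (by decide +kernel)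
theorem L128484 : W_46 (nat_lit 2) (nat_lit 0x13000d0006800040007000000000000000000) (nat_lit 0x0) (nat_lit 0x8000c00000000000000000000000000000000000) := D_46 (nat_lit 142) (nat_lit 143) (nat_lit 159) (nat_lit 2) (nat_lit 4) (nat_lit 8) (nat_lit 7) (nat_lit 5) (nat_lit 5) (by decide +kernel)
theorem L128485 : W_46 (nat_lit 3) (nat_lit 0x12000d0006800040007000000000000000000) (nat_lit 0x0) (nat_lit 0xa000d00000000000000000000000000000000000) := T_46 (nat_lit 140) (nat_lit 157) (nat_lit 5) (nat_lit 5) (nat_lit 5) L128484 (by decide +kernel)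
theorem L128486 : W_46 (nat_lit 4) (nat_lit 0x10000d0006800040007000000000000000000) (nat_lit 0x0) (nat_lit 0xa000f00000000000020000000000000000000000) := T_46 (nat_lit 141) (nat_lit 89) (nat_lit 4) (nat_lit 5) (nat_lit 8) L128485 (by decide +kernel)
theorem L128487 : W_46 (nat_lit 5) (nat_lit 0x10000d0006800040003000000000000000000) (nat_lit 0x0) (nat_lit 0xa000f00000000000020004000200000000000000) := T_46 (nat_lit 74) (nat_lit 57) (nat_lit 6) (nat_lit 5) (nat_lit 7) L128486 (by decide +kernel)
theorem L128488 : W_46 (nat_lit 6) (nat_lit 0x10000d0006800040002000000000000000000) (nat_lit 0x0) (nat_lit 0xa000f00000000000020005000280000000000000) := T_46 (nat_lit 72) (nat_lit 55) (nat_lit 4) (nat_lit 5) (nat_lit 7) L128487 (by decide +kernel)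
theorem L128489 : W_46 (nat_lit 8) (nat_lit 0x10000d0006800040000000000000000000000) (nat_lit 0x0) (nat_lit 0xa000f00008000400020007000380010000000000) := Q_46 (nat_lit 73) (C_46 L128405 (C_46 L128460 (C_46 L128421 (C_46 L128488 N_46)))) (by decide +kernel)
theorem L128490 : W_46 (nat_lit 2) (nat_lit 0x20012000d0006800060008000000000000000000) (nat_lit 0x0) (nat_lit 0x40004000000000000400000000000000000000000000) := D_46 (nat_lit 158) (nat_lit 174) (nat_lit 106) (nat_lit 5) (nat_lit 5) (nat_lit 6) (nat_lit 4) (nat_lit 5) (nat_lit 9) (by decide +kernel)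
theorem L128491 : W_46 (nat_lit 3) (nat_lit 0x20012000d0006800040008000000000000000000) (nat_lit 0x0) (nat_lit 0x40004000000000000400020001000000000000000000) := T_46 (nat_lit 89) (nat_lit 72) (nat_lit 4) (nat_lit 5) (nat_lit 8) L128490 (by decide +kernel)
theorem L128492 : W_46 (nat_lit 4) (nat_lit 0x12000d0006800040008000000000000000000) (nat_lit 0x0) (nat_lit 0x40006000100000000400020001000000000000000000) := T_46 (nat_lit 157) (nat_lit 140) (nat_lit 5) (nat_lit 5) (nat_lit 5) L128491 (by decide +kernel)
theorem L128493 : W_46 (nat_lit 5) (nat_lit 0x12000d0006800040000000000000000000000) (nat_lit 0x0) (nat_lit 0x40006000100000000400120009000000000000000000) := T_46 (nat_lit 75) (nat_lit 92) (nat_lit 7) (nat_lit 7) (nat_lit 4) L128492 (by decide +kernel)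
theorem L128494 : W_46 (nat_lit 6) (nat_lit 0x10000d0006800040000000000000000000000) (nat_lit 0x0) (nat_lit 0x14000e000f00000000400120009000000000000000000) := Q_46 (nat_lit 141) (C_46 L128447 (C_46 L128493 (C_46 L128445 N_46))) (by decide +kernel)
theorem L128495 : W_46 (nat_lit 2) (nat_lit 0x12000d800680004000b000000000000000000) (nat_lit 0x0) (nat_lit 0x8000c00000000000000000000000000000000000) := D_46 (nat_lit 142) (nat_lit 143) (nat_lit 159) (nat_lit 0) (nat_lit 8) (nat_lit 8) (nat_lit 7) (nat_lit 5) (nat_lit 5) (by decide +kernel)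
theorem L128496 : W_46 (nat_lit 3) (nat_lit 0x10000d800680004000b000000000000000000) (nat_lit 0x0) (nat_lit 0x8000e00000000000020000000000000000000000) := T_46 (nat_lit 141) (nat_lit 89) (nat_lit 4) (nat_lit 5) (nat_lit 8) L128495 (by decide +kernel)
theorem L128497 : W_46 (nat_lit 4) (nat_lit 0x10000d800680004000a000000000000000000) (nat_lit 0x0) (nat_lit 0x8000e00000000000020001000080000000000000) := T_46 (nat_lit 72) (nat_lit 55) (nat_lit 4) (nat_lit 5) (nat_lit 7) L128496 (by decide +kernel)
theorem L128498 : W_46 (nat_lit 5) (nat_lit 0x10000d000680004000a000000000000000000) (nat_lit 0x0) (nat_lit 0x8000f00008000000020001000080000000000000) := T_46 (nat_lit 123) (nat_lit 140) (nat_lit 5) (nat_lit 5) (nat_lit 4) L128497 (by decide +kernel)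
theorem L128499 : W_46 (nat_lit 6) (nat_lit 0x10000d0006800040002000000000000000000) (nat_lit 0x0) (nat_lit 0x8000f00008000000120009000080000000000000) := T_46 (nat_lit 75) (nat_lit 92) (nat_lit 7) (nat_lit 7) (nat_lit 4) L128498 (by decide +kernel)
theorem L128500 : W_46 (nat_lit 8) (nat_lit 0x10000d0006800040000000000000000000000) (nat_lit 0x0) (nat_lit 0xa000f00008008000d2003f003b80004000000000) := Q_46 (nat_lit 73) (C_46 L128482 (C_46 L128488 (C_46 L128499 (C_46 L128464 N_46)))) (by decide +kernel)
theorem L128501 : W_46 (nat_lit 2) (nat_lit 0x13000d0006800040006000000000000000000) (nat_lit 0x0) (nat_lit 0x8000c00000000000000000000000000000000000) := D_46 (nat_lit 142) (nat_lit 143) (nat_lit 159) (nat_lit 2) (nat_lit 4) (nat_lit 8) (nat_lit 7) (nat_lit 5) (nat_lit 5) (by decide +kernel)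
theorem L128502 : W_46 (nat_lit 3) (nat_lit 0x11000d0006800040006000000000000000000) (nat_lit 0x0) (nat_lit 0xa000e00000000000000000000000000000000000) := T_46 (nat_lit 141) (nat_lit 157) (nat_lit 5) (nat_lit 5) (nat_lit 5) L128501 (by decide +kernel)
theorem L128503 : W_46 (nat_lit 4) (nat_lit 0x11000d0006800040002000000000000000000) (nat_lit 0x0) (nat_lit 0xa000e00000000000000004000200000000000000) := T_46 (nat_lit 74) (nat_lit 57) (nat_lit 6) (nat_lit 5) (nat_lit 7) L128502 (by decide +kernel)
theorem L128504 : W_46 (nat_lit 5) (nat_lit 0x10000d0006800040002000000000000000000) (nat_lit 0x0) (nat_lit 0xa000f00008000000000004000200000000000000) := T_46 (nat_lit 140) (nat_lit 123) (nat_lit 5) (nat_lit 5) (nat_lit 4) L128503 (by decide +kernel)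
theorem L128505 : W_46 (nat_lit 6) (nat_lit 0x10000d0006800040000000000000000000000) (nat_lit 0x0) (nat_lit 0xa000f0000800040010001f000380014000000000) := Q_46 (nat_lit 73) (C_46 L128464 (C_46 L128405 (C_46 L128388 (C_46 L128504 N_46)))) (by decide +kernel)
theorem L128506 : W_46 (nat_lit 2) (nat_lit 0x4000c0012000d0006c00040008000000000000000000) (nat_lit 0x0) (nat_lit 0x800080000000000008000000000000000000000000000000) := D_46 (nat_lit 175) (nat_lit 191) (nat_lit 123) (nat_lit 5) (nat_lit 5) (nat_lit 7) (nat_lit 4) (nat_lit 5) (nat_lit 10) (by decide +kernel)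
theorem L128507 : W_46 (nat_lit 3) (nat_lit 0x4000c0012000d0006800040008000000000000000000) (nat_lit 0x0) (nat_lit 0x800080000000000008000400020000000000000000000000) := T_46 (nat_lit 106) (nat_lit 89) (nat_lit 4) (nat_lit 5) (nat_lit 9) L128506 (by decide +kernel)
theorem L128508 : W_46 (nat_lit 4) (nat_lit 0xc0012000d0006800040008000000000000000000) (nat_lit 0x0) (nat_lit 0x8000c0002000000008000400020000000000000000000000) := T_46 (nat_lit 174) (nat_lit 157) (nat_lit 5) (nat_lit 5) (nat_lit 6) L128507 (by decide +kernel)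
theorem L128509 : W_46 (nat_lit 5) (nat_lit 0x80012000d0006800040008000000000000000000) (nat_lit 0x0) (nat_lit 0x8001c0006000000008000400020000000000000000000000) := T_46 (nat_lit 158) (nat_lit 176) (nat_lit 7) (nat_lit 5) (nat_lit 6) L128508 (by decide +kernel)
theorem L128510 : W_46 (nat_lit 6) (nat_lit 0x12000d0006800040008000000000000000000) (nat_lit 0x0) (nat_lit 0x8001c000e000400008000400020000000000000000000000) := T_46 (nat_lit 159) (nat_lit 142) (nat_lit 7) (nat_lit 5) (nat_lit 5) L128509 (by decide +kernel)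
theorem L128511 : W_46 (nat_lit 7) (nat_lit 0x12000d0006800040000000000000000000000) (nat_lit 0x0) (nat_lit 0x8001c000e000400008000400120008000000000000000000) := T_46 (nat_lit 75) (nat_lit 92) (nat_lit 7) (nat_lit 7) (nat_lit 4) L128510 (by decide +kernel)
theorem L128512 : W_46 (nat_lit 2) (nat_lit 0x13000d000680004003e001100000000000000) (nat_lit 0x0) (nat_lit 0x8000c00000000000000000000000) := D_46 (nat_lit 94) (nat_lit 95) (nat_lit 111) (nat_lit 3) (nat_lit 6) (nat_lit 4) (nat_lit 5) (nat_lit 9) (nat_lit 3) (by decide +kernel)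
theorem L128513 : W_46 (nat_lit 3) (nat_lit 0x13000d000680004001e001100000000000000) (nat_lit 0x0) (nat_lit 0x8000c00020002000000000000000) := T_46 (nat_lit 77) (nat_lit 61) (nat_lit 2) (nat_lit 6) (nat_lit 4) L128512 (by decide +kernel)
theorem L128514 : W_46 (nat_lit 4) (nat_lit 0x13000d000680004001e000100000000000000) (nat_lit 0x0) (nat_lit 0x8000c00020003800000000000000) := T_46 (nat_lit 60) (nat_lit 59) (nat_lit 2) (nat_lit 5) (nat_lit 4) L128513 (by decide +kernel)
theorem L128515 : W_46 (nat_lit 5) (nat_lit 0x13000d000680004001e000000000000000000) (nat_lit 0x0) (nat_lit 0x8000c00020003980000000000000) := T_46 (nat_lit 56) (nat_lit 55) (nat_lit 0) (nat_lit 8) (nat_lit 4) L128514 (by decide +kernel)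
theorem L128516 : W_46 (nat_lit 6) (nat_lit 0x13000d000680004000e000000000000000000) (nat_lit 0x0) (nat_lit 0x8000c20030003980000000000000) := T_46 (nat_lit 76) (nat_lit 89) (nat_lit 1) (nat_lit 8) (nat_lit 4) L128515 (by decide +kernel)
theorem L128517 : W_46 (nat_lit 7) (nat_lit 0x13000d000680004000a000000000000000000) (nat_lit 0x0) (nat_lit 0x8000c20034003b80000000000000) := T_46 (nat_lit 74) (nat_lit 57) (nat_lit 6) (nat_lit 5) (nat_lit 7) L128516 (by decide +kernel)
theorem L128518 : W_46 (nat_lit 8) (nat_lit 0x13000d0006800040002000000000000000000) (nat_lit 0x0) (nat_lit 0x8000d2003c003b80000000000000) := T_46 (nat_lit 75) (nat_lit 92) (nat_lit 7) (nat_lit 7) (nat_lit 4) L128517 (by decide +kernel)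
theorem L128519 : W_46 (nat_lit 9) (nat_lit 0x13000d0006800040000000000000000000000) (nat_lit 0x0) (nat_lit 0x8008000d2003e003b80000000000000) := T_46 (nat_lit 73) (nat_lit 123) (nat_lit 5) (nat_lit 5) (nat_lit 4) L128518 (by decide +kernel)
theorem L128520 : W_46 (nat_lit 10) (nat_lit 0x12000d0006800040000000000000000000000) (nat_lit 0x0) (nat_lit 0x2000100008008000d2003e003b80000000000000) := T_46 (nat_lit 140) (nat_lit 157) (nat_lit 5) (nat_lit 5) (nat_lit 5) L128519 (by decide +kernel)
theorem L128521 : W_46 (nat_lit 2) (nat_lit 0x16000d0006800040000000000000000000000) (nat_lit 0x0) (nat_lit 0x900008000000000000000000000000000000) := D_46 (nat_lit 143) (nat_lit 140) (nat_lit 123) (nat_lit 2) (nat_lit 4) (nat_lit 8) (nat_lit 0) (nat_lit 8) (nat_lit 8) (by decide +kernel)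
theorem L128522 : W_46 (nat_lit 3) (nat_lit 0x12000d0006800040000000000000000000000) (nat_lit 0x0) (nat_lit 0x8000d00008000000000000000000000000000000) := T_46 (nat_lit 142) (nat_lit 159) (nat_lit 7) (nat_lit 5) (nat_lit 5) L128521 (by decide +kernel)
theorem L128523 : W_46 (nat_lit 11) (nat_lit 0x10000d0006800040000000000000000000000) (nat_lit 0x0) (nat_lit 0x8001c000e000f00008008400d2003e003b80000000000000) := Q_46 (nat_lit 141) (C_46 L128511 (C_46 L128520 (C_46 L128447 (C_46 L128522 N_46)))) (by decide +kernel)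
theorem L128524 : W_46 (nat_lit 12) (nat_lit 0x10000d0006800000000000000000000000000) (nat_lit 0x0) (nat_lit 0x8001c000e000f00008008400d7803f003f8001c000800000) := Q_46 (nat_lit 90) (C_46 L128406 (C_46 L128416 (C_46 L128426 (C_46 L128433 (C_46 L128448 (C_46 L128483 (C_46 L128489 (C_46 L128494 (C_46 L128500 (C_46 L128505 (C_46 L128523 N_46))))))))))) (by decide +kernel)
theorem L128525 : W_46 (nat_lit 2) (nat_lit 0x60012000d0006c00040008000000000000000000) (nat_lit 0x0) (nat_lit 0x8000c00000000000000000000000000000000000) := D_46 (nat_lit 142) (nat_lit 143) (nat_lit 159) (nat_lit 1) (nat_lit 8) (nat_lit 8) (nat_lit 7) (nat_lit 5) (nat_lit 5) (by decide +kernel)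
theorem L128526 : W_46 (nat_lit 3) (nat_lit 0x60012000d0006c00000008000000000000000000) (nat_lit 0x0) (nat_lit 0x8000d00000000000040000000000000000000000) := T_46 (nat_lit 90) (nat_lit 140) (nat_lit 5) (nat_lit 5) (nat_lit 5) L128525 (by decide +kernel)
theorem L128527 : W_46 (nat_lit 4) (nat_lit 0x40012000d0006c00000008000000000000000000) (nat_lit 0x0) (nat_lit 0x4000a000d00000000000040000000000000000000000) := T_46 (nat_lit 157) (nat_lit 174) (nat_lit 5) (nat_lit 5) (nat_lit 6) L128526 (by decide +kernel)
theorem L128528 : W_46 (nat_lit 5) (nat_lit 0x12000d0006c00000008000000000000000000) (nat_lit 0x0) (nat_lit 0x4000e000d00000000000060000000000000000000000) := T_46 (nat_lit 158) (nat_lit 89) (nat_lit 4) (nat_lit 5) (nat_lit 9) L128527 (by decide +kernel)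
theorem L128529 : W_46 (nat_lit 6) (nat_lit 0x12000d0006800000008000000000000000000) (nat_lit 0x0) (nat_lit 0x4000e000d00000001400060000000000000000000000) := T_46 (nat_lit 106) (nat_lit 108) (nat_lit 3) (nat_lit 4) (nat_lit 6) L128528 (by decide +kernel)
theorem L128530 : W_46 (nat_lit 7) (nat_lit 0x12000d0006800000000000000000000000000) (nat_lit 0x0) (nat_lit 0x4000e000d00000001400160008000000000000000000) := T_46 (nat_lit 75) (nat_lit 92) (nat_lit 7) (nat_lit 7) (nat_lit 4) L128529 (by decide +kernel)
theorem L128531 : W_46 (nat_lit 2) (nat_lit 0xe0013000d0006c00000008000000000000000000) (nat_lit 0x0) (nat_lit 0x100000c0000000000000000000000000000000000) := D_46 (nat_lit 139) (nat_lit 138) (nat_lit 160) (nat_lit 3) (nat_lit 2) (nat_lit 8) (nat_lit 0) (nat_lit 7) (nat_lit 9) (by decide +kernel)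
theorem L128532 : W_46 (nat_lit 3) (nat_lit 0x60013000d0006c00000008000000000000000000) (nat_lit 0x0) (nat_lit 0x1000180000c0000000000000000000000000000000000) := T_46 (nat_lit 159) (nat_lit 176) (nat_lit 7) (nat_lit 5) (nat_lit 6) L128531 (by decide +kernel)
theorem L128533 : W_46 (nat_lit 4) (nat_lit 0x60012000d0006c00000008000000000000000000) (nat_lit 0x0) (nat_lit 0x1000180001c0000000000040000000000000000000000) := T_46 (nat_lit 140) (nat_lit 90) (nat_lit 5) (nat_lit 5) (nat_lit 5) L128532 (by decide +kernel)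
theorem L128534 : W_46 (nat_lit 5) (nat_lit 0x40012000d0006c00000008000000000000000000) (nat_lit 0x0) (nat_lit 0x14001a0001c0000000000040000000000000000000000) := T_46 (nat_lit 157) (nat_lit 174) (nat_lit 5) (nat_lit 5) (nat_lit 6) L128533 (by decide +kernel)
theorem L128535 : W_46 (nat_lit 6) (nat_lit 0x12000d0006c00000008000000000000000000) (nat_lit 0x0) (nat_lit 0x14001e0001c0000000000060000000000000000000000) := T_46 (nat_lit 158) (nat_lit 89) (nat_lit 4) (nat_lit 5) (nat_lit 9) L128534 (by decide +kernel)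
theorem L128536 : W_46 (nat_lit 7) (nat_lit 0x12000d0006c00000000000000000000000000) (nat_lit 0x0) (nat_lit 0x14001e0001c0000000000160008000000000000000000) := T_46 (nat_lit 75) (nat_lit 92) (nat_lit 7) (nat_lit 7) (nat_lit 4) L128535 (by decide +kernel)
theorem L128537 : W_46 (nat_lit 8) (nat_lit 0x12000d0006800000000000000000000000000) (nat_lit 0x0) (nat_lit 0x14001e0001c0000001400160008000000000000000000) := T_46 (nat_lit 106) (nat_lit 108) (nat_lit 3) (nat_lit 4) (nat_lit 6) L128536 (by decide +kernel)
theorem L128538 : W_46 (nat_lit 2) (nat_lit 0x12000d0006c00020008000000000000000000) (nat_lit 0x0) (nat_lit 0x40001000080000000000000) := D_46 (nat_lit 72) (nat_lit 90) (nat_lit 55) (nat_lit 4) (nat_lit 5) (nat_lit 8) (nat_lit 7) (nat_lit 4) (nat_lit 3) (by decide +kernel)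
theorem L128539 : W_46 (nat_lit 3) (nat_lit 0x12000d0006c00000008000000000000000000) (nat_lit 0x0) (nat_lit 0x4000000000000000060001000080000000000000) := T_46 (nat_lit 89) (nat_lit 158) (nat_lit 4) (nat_lit 5) (nat_lit 9) L128538 (by decide +kernel)
theorem L128540 : W_46 (nat_lit 4) (nat_lit 0x12000d0006c00000000000000000000000000) (nat_lit 0x0) (nat_lit 0x4000000000000000160009000080000000000000) := T_46 (nat_lit 75) (nat_lit 92) (nat_lit 7) (nat_lit 7) (nat_lit 4) L128539 (by decide +kernel)
theorem L128541 : W_46 (nat_lit 5) (nat_lit 0x12000d0006800000000000000000000000000) (nat_lit 0x0) (nat_lit 0x4000000000001400160009000080000000000000) := T_46 (nat_lit 106) (nat_lit 108) (nat_lit 3) (nat_lit 4) (nat_lit 6) L128540 (by decide +kernel)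
theorem L128542 : W_46 (nat_lit 5) (nat_lit 0x12000d0006c00000000000000000000000000) (nat_lit 0x0) (nat_lit 0x14000e000500000000000060000000000000000000000) := T_46 (nat_lit 158) (nat_lit 89) (nat_lit 4) (nat_lit 5) (nat_lit 9) L128119 (by decide +kernel)
theorem L128543 : W_46 (nat_lit 6) (nat_lit 0x12000d0006800000000000000000000000000) (nat_lit 0x0) (nat_lit 0x14000e000500000001400060000000000000000000000) := T_46 (nat_lit 106) (nat_lit 108) (nat_lit 3) (nat_lit 4) (nat_lit 6) L128542 (by decide +kernel)
theorem L128544 : W_46 (nat_lit 2) (nat_lit 0xc0012000d0006800040008000000000000000000) (nat_lit 0x0) (nat_lit 0x400020001000000000000000000) := D_46 (nat_lit 89) (nat_lit 72) (nat_lit 106) (nat_lit 4) (nat_lit 5) (nat_lit 8) (nat_lit 4) (nat_lit 5) (nat_lit 9) (by decide +kernel)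
theorem L128545 : W_46 (nat_lit 3) (nat_lit 0xc0012000d0006800000008000000000000000000) (nat_lit 0x0) (nat_lit 0x400000000400060001000000000000000000) := T_46 (nat_lit 90) (nat_lit 142) (nat_lit 7) (nat_lit 5) (nat_lit 5) L128544 (by decide +kernel)
theorem L128546 : W_46 (nat_lit 4) (nat_lit 0x40012000d0006800000008000000000000000000) (nat_lit 0x0) (nat_lit 0x100008000400000000400060001000000000000000000) := T_46 (nat_lit 159) (nat_lit 176) (nat_lit 7) (nat_lit 5) (nat_lit 6) L128545 (by decide +kernel)
theorem L128547 : W_46 (nat_lit 5) (nat_lit 0x40012000d0006800000000000000000000000000) (nat_lit 0x0) (nat_lit 0x100008000400000000400160009000000000000000000) := T_46 (nat_lit 75) (nat_lit 92) (nat_lit 7) (nat_lit 7) (nat_lit 4) L128546 (by decide +kernel)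
theorem L128548 : W_46 (nat_lit 2) (nat_lit 0x6001a000d0006800000000000000000000000000) (nat_lit 0x0) (nat_lit 0x100018000000000000000000000000000000000000000) := D_46 (nat_lit 159) (nat_lit 176) (nat_lit 160) (nat_lit 7) (nat_lit 5) (nat_lit 6) (nat_lit 2) (nat_lit 4) (nat_lit 9) (by decide +kernel)
theorem L128549 : W_46 (nat_lit 3) (nat_lit 0x60012000d0006800000000000000000000000000) (nat_lit 0x0) (nat_lit 0x100018000c00000000000000000000000000000000000) := T_46 (nat_lit 143) (nat_lit 142) (nat_lit 1) (nat_lit 8) (nat_lit 8) L128548 (by decide +kernel)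
theorem L128550 : W_46 (nat_lit 4) (nat_lit 0x40012000d0006800000000000000000000000000) (nat_lit 0x0) (nat_lit 0x14001a000c00000000000000000000000000000000000) := T_46 (nat_lit 157) (nat_lit 174) (nat_lit 5) (nat_lit 5) (nat_lit 6) L128549 (by decide +kernel)
theorem L128551 : W_46 (nat_lit 6) (nat_lit 0x12000d0006800000000000000000000000000) (nat_lit 0x0) (nat_lit 0x14001e000d80000000400160009000000000000000000) := Q_46 (nat_lit 158) (C_46 L128547 (C_46 L128140 (C_46 L128127 (C_46 L128550 N_46)))) (by decide +kernel)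
theorem L128552 : W_46 (nat_lit 2) (nat_lit 0x16000d0007800040008000000000000000000) (nat_lit 0x0) (nat_lit 0x2000900000000000000000000000000000000000) := D_46 (nat_lit 140) (nat_lit 143) (nat_lit 157) (nat_lit 2) (nat_lit 4) (nat_lit 8) (nat_lit 5) (nat_lit 5) (nat_lit 5) (by decide +kernel)
theorem L128553 : W_46 (nat_lit 3) (nat_lit 0x12000d0007800040008000000000000000000) (nat_lit 0x0) (nat_lit 0xa000d00000000000000000000000000000000000) := T_46 (nat_lit 142) (nat_lit 159) (nat_lit 7) (nat_lit 5) (nat_lit 5) L128552 (by decide +kernel)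
theorem L128554 : W_46 (nat_lit 4) (nat_lit 0x12000d0007800000008000000000000000000) (nat_lit 0x0) (nat_lit 0xa000d00000000000060000000000000000000000) := T_46 (nat_lit 90) (nat_lit 89) (nat_lit 0) (nat_lit 8) (nat_lit 6) L128553 (by decide +kernel)
theorem L128555 : W_46 (nat_lit 5) (nat_lit 0x12000d0006800000008000000000000000000) (nat_lit 0x0) (nat_lit 0xa000d00000001400060000000000000000000000) := T_46 (nat_lit 108) (nat_lit 106) (nat_lit 3) (nat_lit 4) (nat_lit 6) L128554 (by decide +kernel)
theorem L128556 : W_46 (nat_lit 6) (nat_lit 0x12000d0006800000000000000000000000000) (nat_lit 0x0) (nat_lit 0xa000d00000001400160008000000000000000000) := T_46 (nat_lit 75) (nat_lit 92) (nat_lit 7) (nat_lit 7) (nat_lit 4) L128555 (by decide +kernel)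
theorem L128557 : W_46 (nat_lit 2) (nat_lit 0x6001a000d0006c00000008000000000000000000) (nat_lit 0x0) (nat_lit 0x100018000000000000000000000000000000000000000) := D_46 (nat_lit 159) (nat_lit 176) (nat_lit 160) (nat_lit 7) (nat_lit 5) (nat_lit 6) (nat_lit 2) (nat_lit 4) (nat_lit 9) (by decide +kernel)
theorem L128558 : W_46 (nat_lit 3) (nat_lit 0x60012000d0006c00000008000000000000000000) (nat_lit 0x0) (nat_lit 0x100018000c00000000000000000000000000000000000) := T_46 (nat_lit 143) (nat_lit 142) (nat_lit 1) (nat_lit 8) (nat_lit 8) L128557 (by decide +kernel)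
theorem L128559 : W_46 (nat_lit 4) (nat_lit 0x40012000d0006c00000008000000000000000000) (nat_lit 0x0) (nat_lit 0x14001a000c00000000000000000000000000000000000) := T_46 (nat_lit 157) (nat_lit 174) (nat_lit 5) (nat_lit 5) (nat_lit 6) L128558 (by decide +kernel)
theorem L128560 : W_46 (nat_lit 5) (nat_lit 0x12000d0006c00000008000000000000000000) (nat_lit 0x0) (nat_lit 0x14001e000c00000000000020000000000000000000000) := T_46 (nat_lit 158) (nat_lit 89) (nat_lit 4) (nat_lit 5) (nat_lit 9) L128559 (by decide +kernel)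
theorem L128561 : W_46 (nat_lit 6) (nat_lit 0x12000d0006c00000000000000000000000000) (nat_lit 0x0) (nat_lit 0x14001e000c00000000000120008000000000000000000) := T_46 (nat_lit 75) (nat_lit 92) (nat_lit 7) (nat_lit 7) (nat_lit 4) L128560 (by decide +kernel)
theorem L128562 : W_46 (nat_lit 7) (nat_lit 0x12000d0006800000000000000000000000000) (nat_lit 0x0) (nat_lit 0x14001e000c00000001400120008000000000000000000) := T_46 (nat_lit 106) (nat_lit 108) (nat_lit 3) (nat_lit 4) (nat_lit 6) L128561 (by decide +kernel)
theorem L128563 : W_46 (nat_lit 2) (nat_lit 0x12000d0006800040000000000000000000000) (nat_lit 0x0) (nat_lit 0x1000020001000000000000000000) := D_46 (nat_lit 89) (nat_lit 108) (nat_lit 72) (nat_lit 0) (nat_lit 8) (nat_lit 6) (nat_lit 4) (nat_lit 5) (nat_lit 8) (by decide +kernel)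
theorem L128564 : W_46 (nat_lit 4) (nat_lit 0x12000d0006800000000000000000000000000) (nat_lit 0x0) (nat_lit 0xa000d00000001000060001000000000000000000) := Q_46 (nat_lit 90) (C_46 L128563 (C_46 L128447 N_46)) (by decide +kernel)
theorem L128565 : W_46 (nat_lit 2) (nat_lit 0xe0013000d0006800000008000000000000000000) (nat_lit 0x0) (nat_lit 0x10000880000000000000000000000000000000000) := D_46 (nat_lit 160) (nat_lit 143) (nat_lit 139) (nat_lit 2) (nat_lit 4) (nat_lit 9) (nat_lit 0) (nat_lit 7) (nat_lit 9) (by decide +kernel)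
theorem L128566 : W_46 (nat_lit 3) (nat_lit 0xe0012000d0006800000008000000000000000000) (nat_lit 0x0) (nat_lit 0x10000980000000000040000000000000000000000) := T_46 (nat_lit 140) (nat_lit 90) (nat_lit 5) (nat_lit 5) (nat_lit 5) L128565 (by decide +kernel)
theorem L128567 : W_46 (nat_lit 4) (nat_lit 0xc0012000d0006800000008000000000000000000) (nat_lit 0x0) (nat_lit 0x40012000980000000000040000000000000000000000) := T_46 (nat_lit 157) (nat_lit 174) (nat_lit 5) (nat_lit 5) (nat_lit 6) L128566 (by decide +kernel)
theorem L128568 : W_46 (nat_lit 5) (nat_lit 0x80012000d0006800000008000000000000000000) (nat_lit 0x0) (nat_lit 0x140016000980000000000040000000000000000000000) := T_46 (nat_lit 158) (nat_lit 176) (nat_lit 7) (nat_lit 5) (nat_lit 6) L128567 (by decide +kernel)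
theorem L128569 : W_46 (nat_lit 6) (nat_lit 0x80012000d0006800000000000000000000000000) (nat_lit 0x0) (nat_lit 0x140016000980000000000140008000000000000000000) := T_46 (nat_lit 75) (nat_lit 92) (nat_lit 7) (nat_lit 7) (nat_lit 4) L128568 (by decide +kernel)
theorem L128570 : W_46 (nat_lit 2) (nat_lit 0xa0012000d0006c00040000000000000000000000) (nat_lit 0x0) (nat_lit 0x140004000000000000000000000000000000000000000) := D_46 (nat_lit 158) (nat_lit 176) (nat_lit 174) (nat_lit 7) (nat_lit 5) (nat_lit 6) (nat_lit 5) (nat_lit 5) (nat_lit 6) (by decide +kernel)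
theorem L128571 : W_46 (nat_lit 3) (nat_lit 0x80012000d0006c00040000000000000000000000) (nat_lit 0x0) (nat_lit 0x140006000100000000000000000000000000000000000) := T_46 (nat_lit 157) (nat_lit 140) (nat_lit 5) (nat_lit 5) (nat_lit 5) L128570 (by decide +kernel)
theorem L128572 : W_46 (nat_lit 4) (nat_lit 0x80012000d0006c00000000000000000000000000) (nat_lit 0x0) (nat_lit 0x140006000500000000000040000000000000000000000) := T_46 (nat_lit 90) (nat_lit 142) (nat_lit 7) (nat_lit 5) (nat_lit 5) L128571 (by decide +kernel)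
theorem L128573 : W_46 (nat_lit 5) (nat_lit 0x80012000d0006800000000000000000000000000) (nat_lit 0x0) (nat_lit 0x140006000500000001400040000000000000000000000) := T_46 (nat_lit 106) (nat_lit 108) (nat_lit 3) (nat_lit 4) (nat_lit 6) L128572 (by decide +kernel)
theorem L128574 : W_46 (nat_lit 2) (nat_lit 0x80017c00d0006c00000008000000000000000000) (nat_lit 0x0) (nat_lit 0x1c00000000000000000000000000000000000000) := D_46 (nat_lit 155) (nat_lit 154) (nat_lit 156) (nat_lit 1) (nat_lit 5) (nat_lit 8) (nat_lit 1) (nat_lit 6) (nat_lit 8) (by decide +kernel)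
theorem L128575 : W_46 (nat_lit 3) (nat_lit 0x80017800d0006c00000008000000000000000000) (nat_lit 0x0) (nat_lit 0x5c00040000000000000000000000000000000000) := T_46 (nat_lit 138) (nat_lit 158) (nat_lit 3) (nat_lit 2) (nat_lit 8) L128574 (by decide +kernel)
theorem L128576 : W_46 (nat_lit 4) (nat_lit 0x80017000d0006c00000008000000000000000000) (nat_lit 0x0) (nat_lit 0x15c000c0000000000000000000000000000000000) := T_46 (nat_lit 139) (nat_lit 160) (nat_lit 3) (nat_lit 3) (nat_lit 8) L128575 (by decide +kernel)
theorem L128577 : W_46 (nat_lit 5) (nat_lit 0x80016000d0006c00000008000000000000000000) (nat_lit 0x0) (nat_lit 0x15c009c0000000000000000000000000000000000) := T_46 (nat_lit 140) (nat_lit 143) (nat_lit 2) (nat_lit 4) (nat_lit 8) L128576 (by decide +kernel)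
theorem L128578 : W_46 (nat_lit 6) (nat_lit 0x80016000d0006800000008000000000000000000) (nat_lit 0x0) (nat_lit 0x15c009c0000001400000000000000000000000000) := T_46 (nat_lit 106) (nat_lit 108) (nat_lit 3) (nat_lit 4) (nat_lit 6) L128577 (by decide +kernel)
theorem L128579 : W_46 (nat_lit 7) (nat_lit 0x80012000d0006800000008000000000000000000) (nat_lit 0x0) (nat_lit 0x15c00dc0000001400040000000000000000000000) := T_46 (nat_lit 142) (nat_lit 90) (nat_lit 7) (nat_lit 5) (nat_lit 5) L128578 (by decide +kernel)
theorem L128580 : W_46 (nat_lit 8) (nat_lit 0x80012000d0006800000000000000000000000000) (nat_lit 0x0) (nat_lit 0x15c00dc0000001400140008000000000000000000) := T_46 (nat_lit 75) (nat_lit 92) (nat_lit 7) (nat_lit 7) (nat_lit 4) L128579 (by decide +kernel)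
theorem L128581 : W_46 (nat_lit 2) (nat_lit 0x20000000088017800d2006c00000008000000000000000000) (nat_lit 0x0) (nat_lit 0x400040001000000000000000000000000000000) := D_46 (nat_lit 138) (nat_lit 154) (nat_lit 120) (nat_lit 1) (nat_lit 5) (nat_lit 8) (nat_lit 0) (nat_lit 5) (nat_lit 8) (by decide +kernel)
theorem L128582 : W_46 (nat_lit 3) (nat_lit 0x20000000088017800d0006c00000008000000000000000000) (nat_lit 0x0) (nat_lit 0x400040007000000000000000000000000000000) := T_46 (nat_lit 121) (nat_lit 122) (nat_lit 0) (nat_lit 6) (nat_lit 8) L128581 (by decide +kernel)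
theorem L128583 : W_46 (nat_lit 4) (nat_lit 0x20000000080017800d0006c00000008000000000000000000) (nat_lit 0x0) (nat_lit 0x1c00040007000000000000000000000000000000) := T_46 (nat_lit 155) (nat_lit 156) (nat_lit 1) (nat_lit 6) (nat_lit 8) L128582 (by decide +kernel)
theorem L128584 : W_46 (nat_lit 5) (nat_lit 0x20000000080017000d0006c00000008000000000000000000) (nat_lit 0x0) (nat_lit 0x11c000c0007000000000000000000000000000000) := T_46 (nat_lit 139) (nat_lit 160) (nat_lit 3) (nat_lit 3) (nat_lit 8) L128583 (by decide +kernel)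
theorem L128585 : W_46 (nat_lit 6) (nat_lit 0x20000000080016000d0006c00000008000000000000000000) (nat_lit 0x0) (nat_lit 0x11c009c0007000000000000000000000000000000) := T_46 (nat_lit 140) (nat_lit 143) (nat_lit 2) (nat_lit 4) (nat_lit 8) L128584 (by decide +kernel)
theorem L128586 : W_46 (nat_lit 7) (nat_lit 0x80016000d0006c00000008000000000000000000) (nat_lit 0x0) (nat_lit 0x2000100011c009c0007000000000000000000000000000000) := T_46 (nat_lit 193) (nat_lit 176) (nat_lit 4) (nat_lit 6) (nat_lit 11) L128585 (by decide +kernel)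
theorem L128587 : W_46 (nat_lit 8) (nat_lit 0x80012000d0006c00000008000000000000000000) (nat_lit 0x0) (nat_lit 0x2000100011c00dc0007000000040000000000000000000000) := T_46 (nat_lit 142) (nat_lit 90) (nat_lit 7) (nat_lit 5) (nat_lit 5) L128586 (by decide +kernel)
theorem L128588 : W_46 (nat_lit 9) (nat_lit 0x80012000d0006c00000000000000000000000000) (nat_lit 0x0) (nat_lit 0x2000100011c00dc0007000000140008000000000000000000) := T_46 (nat_lit 75) (nat_lit 92) (nat_lit 7) (nat_lit 7) (nat_lit 4) L128587 (by decide +kernel)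
theorem L128589 : W_46 (nat_lit 10) (nat_lit 0x80012000d0006800000000000000000000000000) (nat_lit 0x0) (nat_lit 0x2000100011c00dc0007001400140008000000000000000000) := T_46 (nat_lit 106) (nat_lit 108) (nat_lit 3) (nat_lit 4) (nat_lit 6) L128588 (by decide +kernel)
theorem L128590 : W_46 (nat_lit 2) (nat_lit 0xe0012000d0006800000000000000000000000000) (nat_lit 0x0) (nat_lit 0x10000c00000000000000000000000000000000000) := D_46 (nat_lit 143) (nat_lit 160) (nat_lit 142) (nat_lit 2) (nat_lit 4) (nat_lit 9) (nat_lit 1) (nat_lit 8) (nat_lit 8) (by decide +kernel)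
theorem L128591 : W_46 (nat_lit 3) (nat_lit 0xc0012000d0006800000000000000000000000000) (nat_lit 0x0) (nat_lit 0x40012000c00000000000000000000000000000000000) := T_46 (nat_lit 157) (nat_lit 174) (nat_lit 5) (nat_lit 5) (nat_lit 6) L128590 (by decide +kernel)
theorem L128592 : W_46 (nat_lit 4) (nat_lit 0x80012000d0006800000000000000000000000000) (nat_lit 0x0) (nat_lit 0x140016000c00000000000000000000000000000000000) := T_46 (nat_lit 158) (nat_lit 176) (nat_lit 7) (nat_lit 5) (nat_lit 6) L128591 (by decide +kernel)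
theorem L128593 : W_46 (nat_lit 11) (nat_lit 0x12000d0006800000000000000000000000000) (nat_lit 0x0) (nat_lit 0x200014001fc00dc0007001400140008000000000000000000) := Q_46 (nat_lit 159) (C_46 L128569 (C_46 L128573 (C_46 L128580 (C_46 L128589 (C_46 L128592 N_46))))) (by decide +kernel)
theorem L128594 : W_46 (nat_lit 12) (nat_lit 0x10000d0006800000000000000000000000000) (nat_lit 0x0) (nat_lit 0x200014001fc00fc0007001400160009000080000000000000) := Q_46 (nat_lit 141) (C_46 L128530 (C_46 L128537 (C_46 L128541 (C_46 L128543 (C_46 L128551 (C_46 L128556 (C_46 L128562 (C_46 L128564 (C_46 L128593 N_46))))))))) (by decide +kernel)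
theorem L128595 : W_46 (nat_lit 2) (nat_lit 0x10000d0006800040000000000000000000000) (nat_lit 0x0) (nat_lit 0x8001000020000000000000000000000) := D_46 (nat_lit 108) (nat_lit 123) (nat_lit 89) (nat_lit 1) (nat_lit 8) (nat_lit 6) (nat_lit 0) (nat_lit 8) (nat_lit 6) (by decide +kernel)
theorem L128596 : W_46 (nat_lit 2) (nat_lit 0x13000d0006800060008000000000000000000) (nat_lit 0x0) (nat_lit 0x8000c00000000000000000000000000000000000) := D_46 (nat_lit 142) (nat_lit 143) (nat_lit 159) (nat_lit 2) (nat_lit 4) (nat_lit 8) (nat_lit 7) (nat_lit 5) (nat_lit 5) (by decide +kernel)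
theorem L128597 : W_46 (nat_lit 3) (nat_lit 0x12000d0006800060008000000000000000000) (nat_lit 0x0) (nat_lit 0xa000d00000000000000000000000000000000000) := T_46 (nat_lit 140) (nat_lit 157) (nat_lit 5) (nat_lit 5) (nat_lit 5) L128596 (by decide +kernel)
theorem L128598 : W_46 (nat_lit 4) (nat_lit 0x10000d0006800060008000000000000000000) (nat_lit 0x0) (nat_lit 0xa000f00000000000000001000000000000000000) := T_46 (nat_lit 141) (nat_lit 72) (nat_lit 4) (nat_lit 5) (nat_lit 8) L128597 (by decide +kernel)
theorem L128599 : W_46 (nat_lit 5) (nat_lit 0x10000d0006800040008000000000000000000) (nat_lit 0x0) (nat_lit 0xa000f00000001000020001000000000000000000) := T_46 (nat_lit 89) (nat_lit 108) (nat_lit 0) (nat_lit 8) (nat_lit 6) L128598 (by decide +kernel)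
theorem L128600 : W_46 (nat_lit 6) (nat_lit 0x10000d0006800040000000000000000000000) (nat_lit 0x0) (nat_lit 0xa000f00000001000120009000000000000000000) := T_46 (nat_lit 75) (nat_lit 92) (nat_lit 7) (nat_lit 7) (nat_lit 4) L128599 (by decide +kernel)
theorem L128601 : W_46 (nat_lit 2) (nat_lit 0x10000d800680004000e000080000000000000) (nat_lit 0x0) (nat_lit 0x10000100004000000000) := D_46 (nat_lit 56) (nat_lit 76) (nat_lit 38) (nat_lit 0) (nat_lit 8) (nat_lit 4) (nat_lit 4) (nat_lit 5) (nat_lit 6) (by decide +kernel)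
theorem L128602 : W_46 (nat_lit 3) (nat_lit 0x10000d800680004000a000080000000000000) (nat_lit 0x0) (nat_lit 0x14000300004000000000) := T_46 (nat_lit 74) (nat_lit 57) (nat_lit 6) (nat_lit 5) (nat_lit 7) L128601 (by decide +kernel)
theorem L128603 : W_46 (nat_lit 4) (nat_lit 0x10000d800680004000a000000000000000000) (nat_lit 0x0) (nat_lit 0x15000380004000000000) := T_46 (nat_lit 55) (nat_lit 72) (nat_lit 4) (nat_lit 5) (nat_lit 7) L128602 (by decide +kernel)
theorem L128604 : W_46 (nat_lit 5) (nat_lit 0x10000d8006800040008000000000000000000) (nat_lit 0x0) (nat_lit 0x100000000000000017000380004000000000) := T_46 (nat_lit 73) (nat_lit 140) (nat_lit 5) (nat_lit 5) (nat_lit 4) L128603 (by decide +kernel)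
theorem L128605 : W_46 (nat_lit 6) (nat_lit 0x10000d8006800040000000000000000000000) (nat_lit 0x0) (nat_lit 0x10000000000010001f000380004000000000) := T_46 (nat_lit 75) (nat_lit 92) (nat_lit 7) (nat_lit 7) (nat_lit 4) L128604 (by decide +kernel)
theorem L128606 : W_46 (nat_lit 7) (nat_lit 0x10000d0006800040000000000000000000000) (nat_lit 0x0) (nat_lit 0x10000800100010001f000380004000000000) := T_46 (nat_lit 123) (nat_lit 108) (nat_lit 1) (nat_lit 8) (nat_lit 6) L128605 (by decide +kernel)
theorem L128607 : W_46 (nat_lit 9) (nat_lit 0x10000d0006800000000000000000000000000) (nat_lit 0x0) (nat_lit 0xa000f00008009000d6003f003b80004000000000) := Q_46 (nat_lit 90) (C_46 L128595 (C_46 L128500 (C_46 L128600 (C_46 L128606 N_46)))) (by decide +kernel)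
theorem L128608 : W_46 (nat_lit 13) (nat_lit 0x10000d0006000000000000000000000000000) (nat_lit 0x0) (nat_lit 0x28001c001fc00fc000f009c00d7803f003f8001c000800000) := Q_46 (nat_lit 107) (C_46 L128384 (C_46 L128524 (C_46 L128594 (C_46 L128607 N_46)))) (by decide +kernel)
theorem L128609 : W_46 (nat_lit 2) (nat_lit 0x10000d0006800000000000000000000000000) (nat_lit 0x0) (nat_lit 0x28001000000000000000000000000000) := D_46 (nat_lit 123) (nat_lit 125) (nat_lit 108) (nat_lit 2) (nat_lit 4) (nat_lit 7) (nat_lit 1) (nat_lit 8) (nat_lit 6) (by decide +kernel)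
theorem L128610 : W_46 (nat_lit 13) (nat_lit 0x10000d0006000000000000000000000000000) (nat_lit 0x0) (nat_lit 0x200014001fc00fc002f001c00160009000080000000000000) := Q_46 (nat_lit 107) (C_46 L128594 (C_46 L128384 (C_46 L125986 (C_46 L128609 N_46)))) (by decide +kernel)
theorem L128611 : W_46 (nat_lit 2) (nat_lit 0x10002d001e000c00008000000000000000000) (nat_lit 0x0) (nat_lit 0x4000000000000000020001000000000000000) := D_46 (nat_lit 77) (nat_lit 60) (nat_lit 146) (nat_lit 7) (nat_lit 9) (nat_lit 3) (nat_lit 4) (nat_lit 10) (nat_lit 8) (by decide +kernel)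
theorem L128612 : W_46 (nat_lit 3) (nat_lit 0x10000d001e000c00008000000000000000000) (nat_lit 0x0) (nat_lit 0x4000600000000000020001000000000000000) := T_46 (nat_lit 129) (nat_lit 130) (nat_lit 3) (nat_lit 7) (nat_lit 6) L128611 (by decide +kernel)
theorem L128613 : W_46 (nat_lit 4) (nat_lit 0x10000d001e000800008000000000000000000) (nat_lit 0x0) (nat_lit 0x4000600001000400020001000000000000000) := T_46 (nat_lit 94) (nat_lit 108) (nat_lit 2) (nat_lit 6) (nat_lit 6) L128612 (by decide +kernel)
theorem L128614 : W_46 (nat_lit 5) (nat_lit 0x10000d001e000000008000000000000000000) (nat_lit 0x0) (nat_lit 0x4000600001001c00020001000000000000000) := T_46 (nat_lit 95) (nat_lit 96) (nat_lit 2) (nat_lit 7) (nat_lit 6) L128613 (by decide +kernel)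
theorem L128615 : W_46 (nat_lit 6) (nat_lit 0x10000d000e000000008000000000000000000) (nat_lit 0x0) (nat_lit 0x4000600031001c00020001000000000000000) := T_46 (nat_lit 112) (nat_lit 113) (nat_lit 1) (nat_lit 11) (nat_lit 6) L128614 (by decide +kernel)
theorem L128616 : W_46 (nat_lit 7) (nat_lit 0x10000d000e000000000000000000000000000) (nat_lit 0x0) (nat_lit 0x4000600031001d00028001000000000000000) := T_46 (nat_lit 75) (nat_lit 92) (nat_lit 7) (nat_lit 7) (nat_lit 4) L128615 (by decide +kernel)
theorem L128617 : W_46 (nat_lit 8) (nat_lit 0x10000d0006000000000000000000000000000) (nat_lit 0x0) (nat_lit 0x4000620039001d00028001000000000000000) := T_46 (nat_lit 111) (nat_lit 125) (nat_lit 2) (nat_lit 5) (nat_lit 7) L128616 (by decide +kernel)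
theorem L128618 : W_46 (nat_lit 14) (nat_lit 0x10000c0006000000000000000000000000000) (nat_lit 0x0) (nat_lit 0x28001c001fc04fc063f039c01d7803f003f8001c000800000) := Q_46 (nat_lit 124) (C_46 L128383 (C_46 L128608 (C_46 L128610 (C_46 L128617 N_46)))) (by decide +kernel)
theorem L128619 : W_46 (nat_lit 2) (nat_lit 0x4001e000f0006000300000000000000000000000) (nat_lit 0x0) (nat_lit 0x1000080000000000000001000000000000000000000000000) := D_46 (nat_lit 175) (nat_lit 108) (nat_lit 192) (nat_lit 6) (nat_lit 5) (nat_lit 10) (nat_lit 6) (nat_lit 5) (nat_lit 11) (by decide +kernel)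
theorem L128620 : W_46 (nat_lit 3) (nat_lit 0x4001e000d0006000300000000000000000000000) (nat_lit 0x0) (nat_lit 0x1000080000000000020009000000000000000000000000000) := T_46 (nat_lit 125) (nat_lit 111) (nat_lit 2) (nat_lit 5) (nat_lit 7) L128619 (by decide +kernel)
theorem L128621 : W_46 (nat_lit 4) (nat_lit 0x4001e000c0006000300000000000000000000000) (nat_lit 0x0) (nat_lit 0x1000080000000000038009000000000000000000000000000) := T_46 (nat_lit 124) (nat_lit 123) (nat_lit 0) (nat_lit 8) (nat_lit 8) L128620 (by decide +kernel)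
theorem L128622 : W_46 (nat_lit 5) (nat_lit 0x1e000c0006000300000000000000000000000) (nat_lit 0x0) (nat_lit 0x1000080006000000038009000000000000000000000000000) := T_46 (nat_lit 158) (nat_lit 157) (nat_lit 1) (nat_lit 8) (nat_lit 8) L128621 (by decide +kernel)
theorem L128623 : W_46 (nat_lit 6) (nat_lit 0x1c000c0006000300000000000000000000000) (nat_lit 0x0) (nat_lit 0x1000080006000300038009000000000000000000000000000) := T_46 (nat_lit 141) (nat_lit 140) (nat_lit 2) (nat_lit 4) (nat_lit 8) L128622 (by decide +kernel)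
theorem L128624 : W_46 (nat_lit 7) (nat_lit 0x18000c0006000300000000000000000000000) (nat_lit 0x0) (nat_lit 0x100008000e000700038009000000000000000000000000000) := T_46 (nat_lit 142) (nat_lit 159) (nat_lit 5) (nat_lit 7) (nat_lit 5) L128623 (by decide +kernel)
theorem L128625 : W_46 (nat_lit 8) (nat_lit 0x18000c0006000200000000000000000000000) (nat_lit 0x0) (nat_lit 0x100008000e000700038009000100008000000000000000000) := T_46 (nat_lit 92) (nat_lit 75) (nat_lit 7) (nat_lit 7) (nat_lit 4) L128624 (by decide +kernel)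
theorem L128626 : W_46 (nat_lit 9) (nat_lit 0x10000c0006000200000000000000000000000) (nat_lit 0x0) (nat_lit 0x100008001e000f00038009000100008000000000000000000) := T_46 (nat_lit 143) (nat_lit 160) (nat_lit 6) (nat_lit 7) (nat_lit 9) L128625 (by decide +kernel)
theorem L128627 : W_46 (nat_lit 10) (nat_lit 0x10000c0006000000000000000000000000000) (nat_lit 0x0) (nat_lit 0x100008001e000f00038009000300018000c00000000000000) := Q_46 (nat_lit 93) (C_46 L123159 (C_46 L123144 (C_46 L128626 N_46))) (by decide +kernel)
theorem L128628 : W_46 (nat_lit 2) (nat_lit 0x10000e0006000200000000000000000000000) (nat_lit 0x0) (nat_lit 0x10018000000000000000000000000000) := D_46 (nat_lit 111) (nat_lit 112) (nat_lit 124) (nat_lit 1) (nat_lit 10) (nat_lit 6) (nat_lit 2) (nat_lit 5) (nat_lit 7) (by decide +kernel)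
theorem L128629 : W_46 (nat_lit 2) (nat_lit 0x12000e0006000200000000000000000000000) (nat_lit 0x0) (nat_lit 0x100018000000000000000000000000000000) := D_46 (nat_lit 124) (nat_lit 123) (nat_lit 140) (nat_lit 2) (nat_lit 4) (nat_lit 7) (nat_lit 1) (nat_lit 8) (nat_lit 7) (by decide +kernel)
theorem L128630 : W_46 (nat_lit 2) (nat_lit 0x1a000e0006000300000000000000000000000) (nat_lit 0x0) (nat_lit 0x8000500000000000000000000000000000000000) := D_46 (nat_lit 142) (nat_lit 140) (nat_lit 159) (nat_lit 2) (nat_lit 4) (nat_lit 8) (nat_lit 5) (nat_lit 7) (nat_lit 5) (by decide +kernel)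
theorem L128631 : W_46 (nat_lit 3) (nat_lit 0x12000e0006000300000000000000000000000) (nat_lit 0x0) (nat_lit 0x18000d00000000000000000000000000000000000) := T_46 (nat_lit 143) (nat_lit 160) (nat_lit 6) (nat_lit 7) (nat_lit 9) L128630 (by decide +kernel)
theorem L128632 : W_46 (nat_lit 4) (nat_lit 0x12000e0006000200000000000000000000000) (nat_lit 0x0) (nat_lit 0x18000d00000000000100008000000000000000000) := T_46 (nat_lit 92) (nat_lit 75) (nat_lit 7) (nat_lit 7) (nat_lit 4) L128631 (by decide +kernel)
theorem L128633 : W_46 (nat_lit 2) (nat_lit 0x1400140012000f0006801700000000000000000000000) (nat_lit 0x0) (nat_lit 0x2800080000000000000000000000000000000000000000000) := D_46 (nat_lit 175) (nat_lit 193) (nat_lit 191) (nat_lit 7) (nat_lit 5) (nat_lit 7) (nat_lit 5) (nat_lit 5) (nat_lit 7) (by decide +kernel)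
theorem L128634 : W_46 (nat_lit 3) (nat_lit 0x1000140012000f0006801700000000000000000000000) (nat_lit 0x0) (nat_lit 0x28000c0002000000000000000000000000000000000000000) := T_46 (nat_lit 174) (nat_lit 157) (nat_lit 5) (nat_lit 5) (nat_lit 6) L128633 (by decide +kernel)
theorem L128635 : W_46 (nat_lit 4) (nat_lit 0x140012000f0006801700000000000000000000000) (nat_lit 0x0) (nat_lit 0x28001c000a000000000000000000000000000000000000000) := T_46 (nat_lit 176) (nat_lit 159) (nat_lit 7) (nat_lit 5) (nat_lit 6) L128634 (by decide +kernel)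
theorem L128636 : W_46 (nat_lit 5) (nat_lit 0x40012000f0006801700000000000000000000000) (nat_lit 0x0) (nat_lit 0x28001c001a000800000000000000000000000000000000000) := T_46 (nat_lit 160) (nat_lit 143) (nat_lit 6) (nat_lit 7) (nat_lit 9) L128635 (by decide +kernel)
theorem L128637 : W_46 (nat_lit 6) (nat_lit 0x40012000f0006001700000000000000000000000) (nat_lit 0x0) (nat_lit 0x28001c001a000800000000c00000000000000000000000000) := T_46 (nat_lit 107) (nat_lit 106) (nat_lit 0) (nat_lit 8) (nat_lit 7) L128636 (by decide +kernel)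
theorem L128638 : W_46 (nat_lit 7) (nat_lit 0x40012000f0006001600000000000000000000000) (nat_lit 0x0) (nat_lit 0x28001c001a000800000000c00100008000000000000000000) := T_46 (nat_lit 92) (nat_lit 75) (nat_lit 7) (nat_lit 7) (nat_lit 4) L128637 (by decide +kernel)
theorem L128639 : W_46 (nat_lit 8) (nat_lit 0x40012000e0006001600000000000000000000000) (nat_lit 0x0) (nat_lit 0x28001c001a000800018000c00100008000000000000000000) := T_46 (nat_lit 124) (nat_lit 123) (nat_lit 2) (nat_lit 4) (nat_lit 7) L128638 (by decide +kernel)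
theorem L128640 : W_46 (nat_lit 9) (nat_lit 0x40012000e0006000600000000000000000000000) (nat_lit 0x0) (nat_lit 0x28001c001a000800018000c01900008000000000000000000) := T_46 (nat_lit 96) (nat_lit 95) (nat_lit 1) (nat_lit 11) (nat_lit 5) L128639 (by decide +kernel)
theorem L128641 : W_46 (nat_lit 10) (nat_lit 0x40012000e0006000200000000000000000000000) (nat_lit 0x0) (nat_lit 0x28001c001a000800018000c01d00028000000000000000000) := T_46 (nat_lit 94) (nat_lit 77) (nat_lit 6) (nat_lit 8) (nat_lit 8) L128640 (by decide +kernel)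
theorem L128642 : W_46 (nat_lit 2) (nat_lit 0x4001a000f0006801600000000000000000000000) (nat_lit 0x0) (nat_lit 0x40002000400000000000000000000000000000000000) := D_46 (nat_lit 157) (nat_lit 142) (nat_lit 174) (nat_lit 1) (nat_lit 8) (nat_lit 8) (nat_lit 5) (nat_lit 5) (nat_lit 6) (by decide +kernel)
theorem L128643 : W_46 (nat_lit 3) (nat_lit 0x4001a000f0006001600000000000000000000000) (nat_lit 0x0) (nat_lit 0x40002000400000000c00000000000000000000000000) := T_46 (nat_lit 107) (nat_lit 106) (nat_lit 0) (nat_lit 8) (nat_lit 7) L128642 (by decide +kernel)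
theorem L128644 : W_46 (nat_lit 4) (nat_lit 0x4001a000f0006000600000000000000000000000) (nat_lit 0x0) (nat_lit 0x40002000400000000c01800000000000000000000000) := T_46 (nat_lit 96) (nat_lit 95) (nat_lit 1) (nat_lit 11) (nat_lit 5) L128643 (by decide +kernel)
theorem L128645 : W_46 (nat_lit 5) (nat_lit 0x4001a000f0006000200000000000000000000000) (nat_lit 0x0) (nat_lit 0x40002000400000000c01c00020000000000000000000) := T_46 (nat_lit 94) (nat_lit 77) (nat_lit 6) (nat_lit 8) (nat_lit 8) L128644 (by decide +kernel)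
theorem L128646 : W_46 (nat_lit 6) (nat_lit 0x4001a000e0006000200000000000000000000000) (nat_lit 0x0) (nat_lit 0x40002000400018000c01c00020000000000000000000) := T_46 (nat_lit 124) (nat_lit 123) (nat_lit 3) (nat_lit 4) (nat_lit 7) L128645 (by decide +kernel)
theorem L128647 : W_46 (nat_lit 7) (nat_lit 0x40012000e0006000200000000000000000000000) (nat_lit 0x0) (nat_lit 0x40012000c00018000c01c00020000000000000000000) := T_46 (nat_lit 143) (nat_lit 160) (nat_lit 6) (nat_lit 7) (nat_lit 9) L128646 (by decide +kernel)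
theorem L128648 : W_46 (nat_lit 2) (nat_lit 0xc0012000f0006801700000000000000000000000) (nat_lit 0x0) (nat_lit 0xc00000000000040000000000000000000000) := D_46 (nat_lit 142) (nat_lit 90) (nat_lit 143) (nat_lit 7) (nat_lit 5) (nat_lit 5) (nat_lit 5) (nat_lit 7) (nat_lit 5) (by decide +kernel)
theorem L128649 : W_46 (nat_lit 3) (nat_lit 0x40012000f0006801700000000000000000000000) (nat_lit 0x0) (nat_lit 0x100008000c00000000000040000000000000000000000) := T_46 (nat_lit 159) (nat_lit 176) (nat_lit 7) (nat_lit 5) (nat_lit 6) L128648 (by decide +kernel)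
theorem L128650 : W_46 (nat_lit 4) (nat_lit 0x40012000f0006001700000000000000000000000) (nat_lit 0x0) (nat_lit 0x100008000c00000000c00040000000000000000000000) := T_46 (nat_lit 107) (nat_lit 106) (nat_lit 0) (nat_lit 8) (nat_lit 7) L128649 (by decide +kernel)
theorem L128651 : W_46 (nat_lit 5) (nat_lit 0x40012000e0006001700000000000000000000000) (nat_lit 0x0) (nat_lit 0x100008000c00018000c00040000000000000000000000) := T_46 (nat_lit 124) (nat_lit 123) (nat_lit 2) (nat_lit 4) (nat_lit 7) L128650 (by decide +kernel)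
theorem L128652 : W_46 (nat_lit 6) (nat_lit 0x40012000e0006000700000000000000000000000) (nat_lit 0x0) (nat_lit 0x100008000c00018000c01840000000000000000000000) := T_46 (nat_lit 96) (nat_lit 95) (nat_lit 1) (nat_lit 11) (nat_lit 5) L128651 (by decide +kernel)
theorem L128653 : W_46 (nat_lit 7) (nat_lit 0x40012000e0006000300000000000000000000000) (nat_lit 0x0) (nat_lit 0x100008000c00018000c01c40020000000000000000000) := T_46 (nat_lit 94) (nat_lit 77) (nat_lit 6) (nat_lit 8) (nat_lit 8) L128652 (by decide +kernel)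
theorem L128654 : W_46 (nat_lit 8) (nat_lit 0x40012000e0006000200000000000000000000000) (nat_lit 0x0) (nat_lit 0x100008000c00018000c01d40028000000000000000000) := T_46 (nat_lit 92) (nat_lit 75) (nat_lit 7) (nat_lit 7) (nat_lit 4) L128653 (by decide +kernel)
theorem L128655 : W_46 (nat_lit 2) (nat_lit 0x4001e000e8006000200000000000000000000000) (nat_lit 0x0) (nat_lit 0x8000000000000000100008000000000000000000) := D_46 (nat_lit 92) (nat_lit 75) (nat_lit 159) (nat_lit 7) (nat_lit 7) (nat_lit 4) (nat_lit 5) (nat_lit 7) (nat_lit 5) (by decide +kernel)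
theorem L128656 : W_46 (nat_lit 3) (nat_lit 0x4001a000e8006000200000000000000000000000) (nat_lit 0x0) (nat_lit 0xa000400000000000100008000000000000000000) := T_46 (nat_lit 142) (nat_lit 157) (nat_lit 1) (nat_lit 8) (nat_lit 8) L128655 (by decide +kernel)
theorem L128657 : W_46 (nat_lit 4) (nat_lit 0x40012000e8006000200000000000000000000000) (nat_lit 0x0) (nat_lit 0x1a000c00000000000100008000000000000000000) := T_46 (nat_lit 143) (nat_lit 160) (nat_lit 6) (nat_lit 7) (nat_lit 9) L128656 (by decide +kernel)
theorem L128658 : W_46 (nat_lit 5) (nat_lit 0x40012000e0006000200000000000000000000000) (nat_lit 0x0) (nat_lit 0x1a000c00018000000100008000000000000000000) := T_46 (nat_lit 123) (nat_lit 124) (nat_lit 2) (nat_lit 4) (nat_lit 7) L128657 (by decide +kernel)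
theorem L128659 : W_46 (nat_lit 2) (nat_lit 0x4001a000e0006001700000000000000000000000) (nat_lit 0x0) (nat_lit 0xa000400000000000000000000000000000000000) := D_46 (nat_lit 142) (nat_lit 157) (nat_lit 159) (nat_lit 1) (nat_lit 8) (nat_lit 8) (nat_lit 5) (nat_lit 7) (nat_lit 5) (by decide +kernel)
theorem L128660 : W_46 (nat_lit 3) (nat_lit 0x40012000e0006001700000000000000000000000) (nat_lit 0x0) (nat_lit 0x1a000c00000000000000000000000000000000000) := T_46 (nat_lit 143) (nat_lit 160) (nat_lit 6) (nat_lit 7) (nat_lit 9) L128659 (by decide +kernel)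
theorem L128661 : W_46 (nat_lit 4) (nat_lit 0x40012000e0006000700000000000000000000000) (nat_lit 0x0) (nat_lit 0x1a000c00000000001800000000000000000000000) := T_46 (nat_lit 96) (nat_lit 95) (nat_lit 1) (nat_lit 11) (nat_lit 5) L128660 (by decide +kernel)
theorem L128662 : W_46 (nat_lit 5) (nat_lit 0x40012000e0006000300000000000000000000000) (nat_lit 0x0) (nat_lit 0x1a000c00000000001c00020000000000000000000) := T_46 (nat_lit 94) (nat_lit 77) (nat_lit 6) (nat_lit 8) (nat_lit 8) L128661 (by decide +kernel)
theorem L128663 : W_46 (nat_lit 6) (nat_lit 0x40012000e0006000200000000000000000000000) (nat_lit 0x0) (nat_lit 0x1a000c00000000001d00028000000000000000000) := T_46 (nat_lit 92) (nat_lit 75) (nat_lit 7) (nat_lit 7) (nat_lit 4) L128662 (by decide +kernel)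
theorem L128664 : W_46 (nat_lit 2) (nat_lit 0x4000c0016000f0006801600008000000000000000000) (nat_lit 0x0) (nat_lit 0x1800080000000000000000000000000000000000000000000) := D_46 (nat_lit 175) (nat_lit 192) (nat_lit 191) (nat_lit 6) (nat_lit 5) (nat_lit 11) (nat_lit 5) (nat_lit 5) (nat_lit 7) (by decide +kernel)
theorem L128665 : W_46 (nat_lit 3) (nat_lit 0xc0016000f0006801600008000000000000000000) (nat_lit 0x0) (nat_lit 0x18000c0002000000000000000000000000000000000000000) := T_46 (nat_lit 174) (nat_lit 157) (nat_lit 5) (nat_lit 5) (nat_lit 6) L128664 (by decide +kernel)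
theorem L128666 : W_46 (nat_lit 4) (nat_lit 0xc0012000f0006801600008000000000000000000) (nat_lit 0x0) (nat_lit 0x18000c0002000400000000000040000000000000000000000) := T_46 (nat_lit 142) (nat_lit 90) (nat_lit 7) (nat_lit 5) (nat_lit 5) L128665 (by decide +kernel)
theorem L128667 : W_46 (nat_lit 5) (nat_lit 0x40012000f0006801600008000000000000000000) (nat_lit 0x0) (nat_lit 0x18001c000a000400000000000040000000000000000000000) := T_46 (nat_lit 159) (nat_lit 176) (nat_lit 7) (nat_lit 5) (nat_lit 6) L128666 (by decide +kernel)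
theorem L128668 : W_46 (nat_lit 6) (nat_lit 0x40012000f0006001600008000000000000000000) (nat_lit 0x0) (nat_lit 0x18001c000a000400000000c00040000000000000000000000) := T_46 (nat_lit 107) (nat_lit 106) (nat_lit 0) (nat_lit 8) (nat_lit 7) L128667 (by decide +kernel)
theorem L128669 : W_46 (nat_lit 7) (nat_lit 0x40012000e0006001600008000000000000000000) (nat_lit 0x0) (nat_lit 0x18001c000a000400018000c00040000000000000000000000) := T_46 (nat_lit 124) (nat_lit 123) (nat_lit 2) (nat_lit 4) (nat_lit 7) L128668 (by decide +kernel)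
theorem L128670 : W_46 (nat_lit 8) (nat_lit 0x40012000e0006000600008000000000000000000) (nat_lit 0x0) (nat_lit 0x18001c000a000400018000c01840000000000000000000000) := T_46 (nat_lit 96) (nat_lit 95) (nat_lit 1) (nat_lit 11) (nat_lit 5) L128669 (by decide +kernel)
theorem L128671 : W_46 (nat_lit 9) (nat_lit 0x40012000e0006000200008000000000000000000) (nat_lit 0x0) (nat_lit 0x18001c000a000400018000c01c40020000000000000000000) := T_46 (nat_lit 94) (nat_lit 77) (nat_lit 6) (nat_lit 8) (nat_lit 8) L128670 (by decide +kernel)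
theorem L128672 : W_46 (nat_lit 10) (nat_lit 0x40012000e0006000200000000000000000000000) (nat_lit 0x0) (nat_lit 0x18001c000a000400018000c01d40028000000000000000000) := T_46 (nat_lit 75) (nat_lit 92) (nat_lit 7) (nat_lit 7) (nat_lit 4) L128671 (by decide +kernel)
theorem L128673 : W_46 (nat_lit 11) (nat_lit 0x12000e0006000200000000000000000000000) (nat_lit 0x0) (nat_lit 0x38001c001e000c00018000c01d40028000000000000000000) := Q_46 (nat_lit 158) (C_46 L128641 (C_46 L128647 (C_46 L128654 (C_46 L128658 (C_46 L128663 (C_46 L128672 N_46)))))) (by decide +kernel)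
theorem L128674 : W_46 (nat_lit 12) (nat_lit 0x10000e0006000200000000000000000000000) (nat_lit 0x0) (nat_lit 0x38001c001e000f00018000c01d40028000000000000000000) := Q_46 (nat_lit 141) (C_46 L128629 (C_46 L128632 (C_46 L128673 N_46))) (by decide +kernel)
theorem L128675 : W_46 (nat_lit 2) (nat_lit 0x100010000e0016000700000000000000000000000) (nat_lit 0x0) (nat_lit 0x20001800000000000000000000000) := D_46 (nat_lit 95) (nat_lit 113) (nat_lit 96) (nat_lit 3) (nat_lit 7) (nat_lit 5) (nat_lit 1) (nat_lit 11) (nat_lit 5) (by decide +kernel)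
theorem L128676 : W_46 (nat_lit 3) (nat_lit 0x100010000e0016000300000000000000000000000) (nat_lit 0x0) (nat_lit 0x20001c00020000000000000000000) := T_46 (nat_lit 94) (nat_lit 77) (nat_lit 6) (nat_lit 8) (nat_lit 8) L128675 (by decide +kernel)
theorem L128677 : W_46 (nat_lit 4) (nat_lit 0x100010000e0016000200000000000000000000000) (nat_lit 0x0) (nat_lit 0x20001d00028000000000000000000) := T_46 (nat_lit 92) (nat_lit 75) (nat_lit 7) (nat_lit 7) (nat_lit 4) L128676 (by decide +kernel)
theorem L128678 : W_46 (nat_lit 5) (nat_lit 0x10000e0016000200000000000000000000000) (nat_lit 0x0) (nat_lit 0x10000800000020001d00028000000000000000000) := T_46 (nat_lit 160) (nat_lit 143) (nat_lit 6) (nat_lit 7) (nat_lit 9) L128677 (by decide +kernel)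
theorem L128679 : W_46 (nat_lit 6) (nat_lit 0x10000e0006000200000000000000000000000) (nat_lit 0x0) (nat_lit 0x10000800000038001d00028000000000000000000) := T_46 (nat_lit 112) (nat_lit 111) (nat_lit 1) (nat_lit 10) (nat_lit 6) L128678 (by decide +kernel)
theorem L128680 : W_46 (nat_lit 13) (nat_lit 0x10000c0006000200000000000000000000000) (nat_lit 0x0) (nat_lit 0x38001c001e000f00038038c01d40028000000000000000000) := Q_46 (nat_lit 125) (C_46 L128628 (C_46 L128674 (C_46 L128679 N_46))) (by decide +kernel)
theorem L128681 : W_46 (nat_lit 14) (nat_lit 0x10000c0006000000000000000000000000000) (nat_lit 0x0) (nat_lit 0x38001c001e000f00038038c01f40038001c00000000000000) := Q_46 (nat_lit 93) (C_46 L128366 (C_46 L123159 (C_46 L128680 N_46))) (by decide +kernel)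
theorem L128682 : W_46 (nat_lit 14) (nat_lit 0x10000c0006000000000000000000000000000) (nat_lit 0x0) (nat_lit 0x38001c001e000f00038039c01f40028000000000000000000) := Q_46 (nat_lit 93) (C_46 L127778 (C_46 L128626 (C_46 L128680 (C_46 L127753 N_46)))) (by decide +kernel)
theorem L128683 : W_46 (nat_lit 15) (nat_lit 0x10000c0002000000000000000000000000000) (nat_lit 0x0) (nat_lit 0x38001c001fc04fc063f03dc01f7803f003f8001c000800000) := Q_46 (nat_lit 110) (C_46 L128618 (C_46 L128367 (C_46 L128627 (C_46 L127876 (C_46 L128681 (C_46 L128682 N_46)))))) (by decide +kernel)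
theorem L128684 : W_46 (nat_lit 3) (nat_lit 0x1e000e0016000100000000000000000000000) (nat_lit 0x0) (nat_lit 0x6000000000001000080004000000000000000000) := T_46 (nat_lit 91) (nat_lit 74) (nat_lit 4) (nat_lit 7) (nat_lit 8) L122280 (by decide +kernel)
theorem L128685 : W_46 (nat_lit 4) (nat_lit 0x1c000e0016000100000000000000000000000) (nat_lit 0x0) (nat_lit 0x6000300000001000080004000000000000000000) := T_46 (nat_lit 141) (nat_lit 140) (nat_lit 2) (nat_lit 4) (nat_lit 8) L128684 (by decide +kernel)
theorem L128686 : W_46 (nat_lit 2) (nat_lit 0x100018000e0016000100000000000000000000000) (nat_lit 0x0) (nat_lit 0x1000080004000000000000000000) := D_46 (nat_lit 91) (nat_lit 108) (nat_lit 74) (nat_lit 4) (nat_lit 7) (nat_lit 9) (nat_lit 4) (nat_lit 7) (nat_lit 8) (by decide +kernel)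
theorem L128687 : W_46 (nat_lit 5) (nat_lit 0x18000e0016000100000000000000000000000) (nat_lit 0x0) (nat_lit 0xe000700000001000080004000000000000000000) := T_46 (nat_lit 142) (nat_lit 159) (nat_lit 5) (nat_lit 7) (nat_lit 5) L128685 (by decide +kernel)
theorem L128688 : W_46 (nat_lit 2) (nat_lit 0x200000001e000e0006000180000000000000000000000) (nat_lit 0x0) (nat_lit 0x6000000000001000000000000000000000000000) := D_46 (nat_lit 158) (nat_lit 108) (nat_lit 157) (nat_lit 5) (nat_lit 6) (nat_lit 5) (nat_lit 1) (nat_lit 8) (nat_lit 8) (by decide +kernel)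
theorem L128689 : W_46 (nat_lit 3) (nat_lit 0x200000001c000e0006000180000000000000000000000) (nat_lit 0x0) (nat_lit 0x6000300000001000000000000000000000000000) := T_46 (nat_lit 141) (nat_lit 140) (nat_lit 2) (nat_lit 4) (nat_lit 8) L128688 (by decide +kernel)
theorem L128690 : W_46 (nat_lit 4) (nat_lit 0x2000000018000e0006000180000000000000000000000) (nat_lit 0x0) (nat_lit 0xe000700000001000000000000000000000000000) := T_46 (nat_lit 142) (nat_lit 159) (nat_lit 5) (nat_lit 7) (nat_lit 5) L128689 (by decide +kernel)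
theorem L128691 : W_46 (nat_lit 5) (nat_lit 0x2000000018000e0006000100000000000000000000000) (nat_lit 0x0) (nat_lit 0xe000700000001000080004000000000000000000) := T_46 (nat_lit 91) (nat_lit 74) (nat_lit 4) (nat_lit 7) (nat_lit 8) L128690 (by decide +kernel)
theorem L128692 : W_46 (nat_lit 6) (nat_lit 0x18000e0006000100000000000000000000000) (nat_lit 0x0) (nat_lit 0x20001e000700000001000080004000000000000000000) := T_46 (nat_lit 177) (nat_lit 160) (nat_lit 6) (nat_lit 7) (nat_lit 10) L128691 (by decide +kernel)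
theorem L128693 : W_46 (nat_lit 7) (nat_lit 0x18000e0006000000000000000000000000000) (nat_lit 0x0) (nat_lit 0x20001e00070000000100018000c000000000000000000) := T_46 (nat_lit 92) (nat_lit 75) (nat_lit 7) (nat_lit 7) (nat_lit 4) L128692 (by decide +kernel)
theorem L128694 : W_46 (nat_lit 6) (nat_lit 0x18000e0006000100000000000000000000000) (nat_lit 0x0) (nat_lit 0xe000700000019000080004000000000000000000) := T_46 (nat_lit 112) (nat_lit 111) (nat_lit 1) (nat_lit 10) (nat_lit 6) L128687 (by decide +kernel)
theorem L128695 : W_46 (nat_lit 3) (nat_lit 0x18000e0016000100000000000000000000000) (nat_lit 0x0) (nat_lit 0x200010000000000001000080004000000000000000000) := T_46 (nat_lit 160) (nat_lit 177) (nat_lit 6) (nat_lit 7) (nat_lit 10) L128686 (by decide +kernel)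
theorem L128696 : W_46 (nat_lit 4) (nat_lit 0x18000e0006000100000000000000000000000) (nat_lit 0x0) (nat_lit 0x200010000000000019000080004000000000000000000) := T_46 (nat_lit 112) (nat_lit 111) (nat_lit 1) (nat_lit 10) (nat_lit 6) L128695 (by decide +kernel)
theorem L128697 : W_46 (nat_lit 2) (nat_lit 0x80018000e0016000180000000000000000000000) (nat_lit 0x0) (nat_lit 0x300010000000000000000000000000000000000000000) := D_46 (nat_lit 160) (nat_lit 177) (nat_lit 176) (nat_lit 6) (nat_lit 7) (nat_lit 10) (nat_lit 5) (nat_lit 7) (nat_lit 6) (by decide +kernel)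
theorem L128698 : W_46 (nat_lit 3) (nat_lit 0x18000e0016000180000000000000000000000) (nat_lit 0x0) (nat_lit 0x300018000400000000000000000000000000000000000) := T_46 (nat_lit 159) (nat_lit 142) (nat_lit 5) (nat_lit 7) (nat_lit 5) L128697 (by decide +kernel)
theorem L128699 : W_46 (nat_lit 4) (nat_lit 0x18000e0006000180000000000000000000000) (nat_lit 0x0) (nat_lit 0x300018000400000018000000000000000000000000000) := T_46 (nat_lit 112) (nat_lit 111) (nat_lit 1) (nat_lit 10) (nat_lit 6) L128698 (by decide +kernel)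
theorem L128700 : W_46 (nat_lit 5) (nat_lit 0x18000e0006000100000000000000000000000) (nat_lit 0x0) (nat_lit 0x300018000400000018000080004000000000000000000) := T_46 (nat_lit 91) (nat_lit 74) (nat_lit 4) (nat_lit 7) (nat_lit 8) L128699 (by decide +kernel)
theorem L128701 : W_46 (nat_lit 2) (nat_lit 0x100018000e0006000100000000000000000000000) (nat_lit 0x0) (nat_lit 0x100008000400000000000000000000000000000000000) := D_46 (nat_lit 159) (nat_lit 142) (nat_lit 176) (nat_lit 5) (nat_lit 7) (nat_lit 5) (nat_lit 5) (nat_lit 7) (nat_lit 6) (by decide +kernel)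
theorem L128702 : W_46 (nat_lit 3) (nat_lit 0x18000e0006000100000000000000000000000) (nat_lit 0x0) (nat_lit 0x300018000400000000000000000000000000000000000) := T_46 (nat_lit 160) (nat_lit 177) (nat_lit 6) (nat_lit 7) (nat_lit 10) L128701 (by decide +kernel)
theorem L128703 : W_46 (nat_lit 7) (nat_lit 0x10000e0006000100000000000000000000000) (nat_lit 0x0) (nat_lit 0x30001e000f00000019000080004000000000000000000) := Q_46 (nat_lit 143) (C_46 L128694 (C_46 L128692 (C_46 L128696 (C_46 L128700 (C_46 L128702 N_46))))) (by decide +kernel)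
theorem L128704 : W_46 (nat_lit 8) (nat_lit 0x10000e0006000000000000000000000000000) (nat_lit 0x0) (nat_lit 0x30001e000f0000001900018000c000000000000000000) := T_46 (nat_lit 92) (nat_lit 75) (nat_lit 7) (nat_lit 7) (nat_lit 4) L128703 (by decide +kernel)
theorem L128705 : W_46 (nat_lit 2) (nat_lit 0x10000e0006000000000000000000000000000) (nat_lit 0x0) (nat_lit 0x18008000000000000000000000000000) := D_46 (nat_lit 124) (nat_lit 111) (nat_lit 123) (nat_lit 2) (nat_lit 5) (nat_lit 7) (nat_lit 2) (nat_lit 4) (nat_lit 7) (by decide +kernel)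
theorem L128706 : W_46 (nat_lit 2) (nat_lit 0x1c0018000f0007800000000000000000000000000) (nat_lit 0x0) (nat_lit 0x80000000300000000000000000000000000000000000) := D_46 (nat_lit 141) (nat_lit 140) (nat_lit 175) (nat_lit 1) (nat_lit 8) (nat_lit 7) (nat_lit 6) (nat_lit 5) (nat_lit 10) (by decide +kernel)
theorem L128707 : W_46 (nat_lit 3) (nat_lit 0x180018000f0007800000000000000000000000000) (nat_lit 0x0) (nat_lit 0x80006000300000000000000000000000000000000000) := T_46 (nat_lit 158) (nat_lit 157) (nat_lit 2) (nat_lit 4) (nat_lit 9) L128706 (by decide +kernel)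
theorem L128708 : W_46 (nat_lit 4) (nat_lit 0x100018000f0007800000000000000000000000000) (nat_lit 0x0) (nat_lit 0x18000e000300000000000000000000000000000000000) := T_46 (nat_lit 159) (nat_lit 176) (nat_lit 5) (nat_lit 7) (nat_lit 6) L128707 (by decide +kernel)
theorem L128709 : W_46 (nat_lit 5) (nat_lit 0x100018000f0006800000000000000000000000000) (nat_lit 0x0) (nat_lit 0x18000e000300000001000080000000000000000000000) := T_46 (nat_lit 108) (nat_lit 91) (nat_lit 4) (nat_lit 7) (nat_lit 9) L128708 (by decide +kernel)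
theorem L128710 : W_46 (nat_lit 6) (nat_lit 0x100018000f0006000000000000000000000000000) (nat_lit 0x0) (nat_lit 0x18000e000300000001c00080000000000000000000000) := T_46 (nat_lit 107) (nat_lit 106) (nat_lit 0) (nat_lit 8) (nat_lit 7) L128709 (by decide +kernel)
theorem L128711 : W_46 (nat_lit 7) (nat_lit 0x18000f0006000000000000000000000000000) (nat_lit 0x0) (nat_lit 0x38001e000300000001c00080000000000000000000000) := T_46 (nat_lit 160) (nat_lit 177) (nat_lit 6) (nat_lit 7) (nat_lit 10) L128710 (by decide +kernel)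
theorem L128712 : W_46 (nat_lit 8) (nat_lit 0x18000e0006000000000000000000000000000) (nat_lit 0x0) (nat_lit 0x38001e000300018001c00080000000000000000000000) := T_46 (nat_lit 124) (nat_lit 123) (nat_lit 3) (nat_lit 4) (nat_lit 7) L128711 (by decide +kernel)
theorem L128713 : W_46 (nat_lit 2) (nat_lit 0x200004001a000f0006800180000000000000000000000) (nat_lit 0x0) (nat_lit 0x40002000400000000000000000000000000000000000) := D_46 (nat_lit 157) (nat_lit 174) (nat_lit 142) (nat_lit 5) (nat_lit 5) (nat_lit 6) (nat_lit 1) (nat_lit 8) (nat_lit 8) (by decide +kernel)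
theorem L128714 : W_46 (nat_lit 3) (nat_lit 0x200000001a000f0006800180000000000000000000000) (nat_lit 0x0) (nat_lit 0x40006000400000001000000000000000000000000000) := T_46 (nat_lit 158) (nat_lit 108) (nat_lit 6) (nat_lit 5) (nat_lit 9) L128713 (by decide +kernel)
theorem L128715 : W_46 (nat_lit 4) (nat_lit 0x2000000018000f0006800180000000000000000000000) (nat_lit 0x0) (nat_lit 0x40006000700000001000000000000000000000000000) := T_46 (nat_lit 141) (nat_lit 140) (nat_lit 1) (nat_lit 8) (nat_lit 7) L128714 (by decide +kernel)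
theorem L128716 : W_46 (nat_lit 5) (nat_lit 0x2000000018000f0006000180000000000000000000000) (nat_lit 0x0) (nat_lit 0x40006000700000001c00000000000000000000000000) := T_46 (nat_lit 107) (nat_lit 106) (nat_lit 0) (nat_lit 8) (nat_lit 7) L128715 (by decide +kernel)
theorem L128717 : W_46 (nat_lit 6) (nat_lit 0x2000000018000f0006000100000000000000000000000) (nat_lit 0x0) (nat_lit 0x40006000700000001c00080004000000000000000000) := T_46 (nat_lit 91) (nat_lit 74) (nat_lit 4) (nat_lit 7) (nat_lit 8) L128716 (by decide +kernel)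
theorem L128718 : W_46 (nat_lit 7) (nat_lit 0x2000000018000e0006000100000000000000000000000) (nat_lit 0x0) (nat_lit 0x40006000700018001c00080004000000000000000000) := T_46 (nat_lit 124) (nat_lit 123) (nat_lit 3) (nat_lit 4) (nat_lit 7) L128717 (by decide +kernel)
theorem L128719 : W_46 (nat_lit 8) (nat_lit 0x2000000018000e0006000000000000000000000000000) (nat_lit 0x0) (nat_lit 0x40006000700018001c0018000c000000000000000000) := T_46 (nat_lit 92) (nat_lit 75) (nat_lit 7) (nat_lit 7) (nat_lit 4) L128718 (by decide +kernel)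
theorem L128720 : W_46 (nat_lit 9) (nat_lit 0x18000e0006000000000000000000000000000) (nat_lit 0x0) (nat_lit 0x240016000700018001c0018000c000000000000000000) := T_46 (nat_lit 177) (nat_lit 160) (nat_lit 6) (nat_lit 7) (nat_lit 10) L128719 (by decide +kernel)
theorem L128721 : W_46 (nat_lit 2) (nat_lit 0x1e000e8006000180000000000000000000000) (nat_lit 0x0) (nat_lit 0x6000000000001000000000000000000000000000) := D_46 (nat_lit 158) (nat_lit 157) (nat_lit 108) (nat_lit 1) (nat_lit 8) (nat_lit 8) (nat_lit 5) (nat_lit 6) (nat_lit 5) (by decide +kernel)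
theorem L128722 : W_46 (nat_lit 3) (nat_lit 0x1e000e8006000100000000000000000000000) (nat_lit 0x0) (nat_lit 0x6000000000001000080004000000000000000000) := T_46 (nat_lit 91) (nat_lit 74) (nat_lit 4) (nat_lit 7) (nat_lit 8) L128721 (by decide +kernel)
theorem L128723 : W_46 (nat_lit 4) (nat_lit 0x1c000e8006000100000000000000000000000) (nat_lit 0x0) (nat_lit 0x6000300000001000080004000000000000000000) := T_46 (nat_lit 141) (nat_lit 140) (nat_lit 2) (nat_lit 4) (nat_lit 8) L128722 (by decide +kernel)
theorem L128724 : W_46 (nat_lit 5) (nat_lit 0x18000e8006000100000000000000000000000) (nat_lit 0x0) (nat_lit 0xe000700000001000080004000000000000000000) := T_46 (nat_lit 142) (nat_lit 159) (nat_lit 5) (nat_lit 7) (nat_lit 5) L128723 (by decide +kernel)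
theorem L128725 : W_46 (nat_lit 6) (nat_lit 0x18000e8006000000000000000000000000000) (nat_lit 0x0) (nat_lit 0xe00070000000100018000c000000000000000000) := T_46 (nat_lit 92) (nat_lit 75) (nat_lit 7) (nat_lit 7) (nat_lit 4) L128724 (by decide +kernel)
theorem L128726 : W_46 (nat_lit 7) (nat_lit 0x18000e0006000000000000000000000000000) (nat_lit 0x0) (nat_lit 0xe00070001800100018000c000000000000000000) := T_46 (nat_lit 123) (nat_lit 124) (nat_lit 3) (nat_lit 4) (nat_lit 7) L128725 (by decide +kernel)
theorem L128727 : W_46 (nat_lit 4) (nat_lit 0x18000e0006000000000000000000000000000) (nat_lit 0x0) (nat_lit 0x300018000400000000000100008000000000000000000) := T_46 (nat_lit 92) (nat_lit 75) (nat_lit 7) (nat_lit 7) (nat_lit 4) L128702 (by decide +kernel)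
theorem L128728 : W_46 (nat_lit 10) (nat_lit 0x10000e0006000000000000000000000000000) (nat_lit 0x0) (nat_lit 0x3c001e000f00018001c0018000c000000000000000000) := Q_46 (nat_lit 143) (C_46 L128712 (C_46 L128720 (C_46 L128726 (C_46 L128693 (C_46 L128727 N_46))))) (by decide +kernel)
theorem L128729 : W_46 (nat_lit 11) (nat_lit 0x10000c0006000000000000000000000000000) (nat_lit 0x0) (nat_lit 0x3c001e000f00038019c0018000c000000000000000000) := Q_46 (nat_lit 125) (C_46 L128704 (C_46 L128705 (C_46 L128728 N_46))) (by decide +kernel)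
theorem L128730 : W_46 (nat_lit 12) (nat_lit 0x10000c0002000000000000000000000000000) (nat_lit 0x0) (nat_lit 0x10003c001e000f0003803dc01f800fc001c00000000000000) := Q_46 (nat_lit 110) (C_46 L128729 (C_46 L128627 (C_46 L128381 (C_46 L128367 (C_46 L127876 N_46))))) (by decide +kernel)
theorem L128731 : W_46 (nat_lit 2) (nat_lit 0x1c000e000f000580000001000000000000000) (nat_lit 0x0) (nat_lit 0x4000300000000000000000000000000000000000) := D_46 (nat_lit 141) (nat_lit 158) (nat_lit 140) (nat_lit 5) (nat_lit 6) (nat_lit 5) (nat_lit 2) (nat_lit 4) (nat_lit 8) (by decide +kernel)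
theorem L128732 : W_46 (nat_lit 3) (nat_lit 0x18000e000f000580000001000000000000000) (nat_lit 0x0) (nat_lit 0xc000700000000000000000000000000000000000) := T_46 (nat_lit 142) (nat_lit 159) (nat_lit 6) (nat_lit 6) (nat_lit 9) L128731 (by decide +kernel)
theorem L128733 : W_46 (nat_lit 4) (nat_lit 0x18000c000f000580000001000000000000000) (nat_lit 0x0) (nat_lit 0xc000700030000000000000000000000000000000) := T_46 (nat_lit 125) (nat_lit 124) (nat_lit 2) (nat_lit 5) (nat_lit 7) L128732 (by decide +kernel)
theorem L128734 : W_46 (nat_lit 5) (nat_lit 0x10000c000f000580000001000000000000000) (nat_lit 0x0) (nat_lit 0x1c000f00030000000000000000000000000000000) := T_46 (nat_lit 143) (nat_lit 160) (nat_lit 4) (nat_lit 7) (nat_lit 9) L128733 (by decide +kernel)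
theorem L128735 : W_46 (nat_lit 6) (nat_lit 0x10000c000f000580000000000000000000000) (nat_lit 0x0) (nat_lit 0x1c000f00030000000000020001000000000000000) := T_46 (nat_lit 60) (nat_lit 77) (nat_lit 5) (nat_lit 9) (nat_lit 3) L128734 (by decide +kernel)
theorem L128736 : W_46 (nat_lit 7) (nat_lit 0x10000c000f000500000000000000000000000) (nat_lit 0x0) (nat_lit 0x1c000f000300000000c0020001000000000000000) := T_46 (nat_lit 91) (nat_lit 90) (nat_lit 0) (nat_lit 9) (nat_lit 6) L128735 (by decide +kernel)
theorem L128737 : W_46 (nat_lit 8) (nat_lit 0x10000c000f000100000000000000000000000) (nat_lit 0x0) (nat_lit 0x1c000f00030000000cc0020001000000000000000) := T_46 (nat_lit 94) (nat_lit 95) (nat_lit 2) (nat_lit 6) (nat_lit 6) L128736 (by decide +kernel)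
theorem L128738 : W_46 (nat_lit 9) (nat_lit 0x10000c000f000000000000000000000000000) (nat_lit 0x0) (nat_lit 0x1c000f00030000000dc0028001000000000000000) := T_46 (nat_lit 92) (nat_lit 75) (nat_lit 7) (nat_lit 7) (nat_lit 4) L128737 (by decide +kernel)
theorem L128739 : W_46 (nat_lit 10) (nat_lit 0x10000c000e000000000000000000000000000) (nat_lit 0x0) (nat_lit 0x1c000f00038001c00de0028001000000000000000) := Q_46 (nat_lit 108) (C_46 L125968 (C_46 L127865 (C_46 L128738 N_46))) (by decide +kernel)
theorem L128740 : W_46 (nat_lit 11) (nat_lit 0x10000c0006000000000000000000000000000) (nat_lit 0x0) (nat_lit 0x1c000f00038039c01de0028001000000000000000) := Q_46 (nat_lit 111) (C_46 L128378 (C_46 L128739 (C_46 L126030 (C_46 L125592 N_46)))) (by decide +kernel)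
theorem L128741 : W_46 (nat_lit 12) (nat_lit 0x10000c0002000000000000000000000000000) (nat_lit 0x0) (nat_lit 0x100008001e000f0003803dc01fe00f8001c00000000000000) := Q_46 (nat_lit 110) (C_46 L128740 (C_46 L128627 (C_46 L128381 (C_46 L128367 (C_46 L128380 N_46))))) (by decide +kernel)
theorem L128742 : W_46 (nat_lit 2) (nat_lit 0x4001e000c0003000380000000000000000000000) (nat_lit 0x0) (nat_lit 0xc00400000000000000000000000) := D_46 (nat_lit 107) (nat_lit 106) (nat_lit 94) (nat_lit 3) (nat_lit 4) (nat_lit 6) (nat_lit 1) (nat_lit 9) (nat_lit 5) (by decide +kernel)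
theorem L128743 : W_46 (nat_lit 3) (nat_lit 0x4001e000c0002000380000000000000000000000) (nat_lit 0x0) (nat_lit 0x20001c00400000000000000000000000) := T_46 (nat_lit 108) (nat_lit 125) (nat_lit 5) (nat_lit 6) (nat_lit 5) L128742 (by decide +kernel)
theorem L128744 : W_46 (nat_lit 4) (nat_lit 0x1e000c0002000380000000000000000000000) (nat_lit 0x0) (nat_lit 0x6000000020001c00400000000000000000000000) := T_46 (nat_lit 158) (nat_lit 157) (nat_lit 1) (nat_lit 8) (nat_lit 8) L128743 (by decide +kernel)
theorem L128745 : W_46 (nat_lit 5) (nat_lit 0x1c000c0002000380000000000000000000000) (nat_lit 0x0) (nat_lit 0x6000300020001c00400000000000000000000000) := T_46 (nat_lit 141) (nat_lit 140) (nat_lit 2) (nat_lit 4) (nat_lit 8) L128744 (by decide +kernel)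
theorem L128746 : W_46 (nat_lit 6) (nat_lit 0x18000c0002000380000000000000000000000) (nat_lit 0x0) (nat_lit 0xe000700020001c00400000000000000000000000) := T_46 (nat_lit 142) (nat_lit 159) (nat_lit 5) (nat_lit 7) (nat_lit 5) L128745 (by decide +kernel)
theorem L128747 : W_46 (nat_lit 7) (nat_lit 0x18000c0002000180000000000000000000000) (nat_lit 0x0) (nat_lit 0xe000700020001c00600010000000000000000000) := T_46 (nat_lit 93) (nat_lit 76) (nat_lit 6) (nat_lit 7) (nat_lit 8) L128746 (by decide +kernel)
theorem L128748 : W_46 (nat_lit 8) (nat_lit 0x18000c0002000100000000000000000000000) (nat_lit 0x0) (nat_lit 0xe000700020001c00680014000000000000000000) := T_46 (nat_lit 91) (nat_lit 74) (nat_lit 4) (nat_lit 7) (nat_lit 8) L128747 (by decide +kernel)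
theorem L128749 : W_46 (nat_lit 2) (nat_lit 0x18000c00160007a0000000000000000000000) (nat_lit 0x0) (nat_lit 0x21000800000000000000000000000) := D_46 (nat_lit 95) (nat_lit 113) (nat_lit 108) (nat_lit 3) (nat_lit 7) (nat_lit 5) (nat_lit 1) (nat_lit 10) (nat_lit 5) (by decide +kernel)
theorem L128750 : W_46 (nat_lit 3) (nat_lit 0x18000c00160003a0000000000000000000000) (nat_lit 0x0) (nat_lit 0x21000c00020000000000000000000) := T_46 (nat_lit 94) (nat_lit 77) (nat_lit 6) (nat_lit 8) (nat_lit 8) L128749 (by decide +kernel)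
theorem L128751 : W_46 (nat_lit 4) (nat_lit 0x18000c00160001a0000000000000000000000) (nat_lit 0x0) (nat_lit 0x21000e00030000000000000000000) := T_46 (nat_lit 93) (nat_lit 76) (nat_lit 6) (nat_lit 7) (nat_lit 8) L128750 (by decide +kernel)
theorem L128752 : W_46 (nat_lit 5) (nat_lit 0x18000c00060001a0000000000000000000000) (nat_lit 0x0) (nat_lit 0x39000e00030000000000000000000) := T_46 (nat_lit 112) (nat_lit 111) (nat_lit 0) (nat_lit 10) (nat_lit 6) L128751 (by decide +kernel)
theorem L128753 : W_46 (nat_lit 6) (nat_lit 0x18000c0006000180000000000000000000000) (nat_lit 0x0) (nat_lit 0x39000e60030000000000000000000) := T_46 (nat_lit 89) (nat_lit 90) (nat_lit 3) (nat_lit 4) (nat_lit 5) L128752 (by decide +kernel)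
theorem L128754 : W_46 (nat_lit 7) (nat_lit 0x18000c0006000100000000000000000000000) (nat_lit 0x0) (nat_lit 0x39000ee0034000000000000000000) := T_46 (nat_lit 91) (nat_lit 74) (nat_lit 4) (nat_lit 7) (nat_lit 8) L128753 (by decide +kernel)
theorem L128755 : W_46 (nat_lit 4) (nat_lit 0x18000c0006000100000000000000000000000) (nat_lit 0x0) (nat_lit 0x1800e00030000000000000000000) := T_46 (nat_lit 93) (nat_lit 76) (nat_lit 6) (nat_lit 7) (nat_lit 8) L123124 (by decide +kernel)
theorem L128756 : W_46 (nat_lit 2) (nat_lit 0x18000c00060001c0000000000000000000000) (nat_lit 0x0) (nat_lit 0x19000000000000000000000000000) := D_46 (nat_lit 111) (nat_lit 112) (nat_lit 108) (nat_lit 0) (nat_lit 10) (nat_lit 6) (nat_lit 0) (nat_lit 9) (nat_lit 6) (by decide +kernel)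
theorem L128757 : W_46 (nat_lit 3) (nat_lit 0x18000c0006000180000000000000000000000) (nat_lit 0x0) (nat_lit 0x19000060000000000000000000000) := T_46 (nat_lit 90) (nat_lit 89) (nat_lit 3) (nat_lit 4) (nat_lit 5) L128756 (by decide +kernel)
theorem L128758 : W_46 (nat_lit 4) (nat_lit 0x18000c0006000100000000000000000000000) (nat_lit 0x0) (nat_lit 0x190000e0004000000000000000000) := T_46 (nat_lit 91) (nat_lit 74) (nat_lit 4) (nat_lit 7) (nat_lit 8) L128757 (by decide +kernel)
theorem L128759 : W_46 (nat_lit 4) (nat_lit 0x18000c0006000100000000000000000000000) (nat_lit 0x0) (nat_lit 0x80002e0014000000000000000000) := T_46 (nat_lit 93) (nat_lit 76) (nat_lit 6) (nat_lit 7) (nat_lit 8) L123155 (by decide +kernel)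
theorem L128760 : W_46 (nat_lit 8) (nat_lit 0x18000c0002000100000000000000000000000) (nat_lit 0x0) (nat_lit 0x3d800ee0034000000000000000000) := Q_46 (nat_lit 110) (C_46 L128754 (C_46 L128755 (C_46 L128758 (C_46 L128759 N_46)))) (by decide +kernel)
theorem L128761 : W_46 (nat_lit 2) (nat_lit 0x4001e000d0002000180000000000000000000000) (nat_lit 0x0) (nat_lit 0x20001800000000000000000000000000) := D_46 (nat_lit 108) (nat_lit 125) (nat_lit 107) (nat_lit 5) (nat_lit 6) (nat_lit 5) (nat_lit 6) (nat_lit 5) (nat_lit 9) (by decide +kernel)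
theorem L128762 : W_46 (nat_lit 3) (nat_lit 0x4001e000c0002000180000000000000000000000) (nat_lit 0x0) (nat_lit 0x38001800000000000000000000000000) := T_46 (nat_lit 124) (nat_lit 123) (nat_lit 0) (nat_lit 8) (nat_lit 8) L128761 (by decide +kernel)
theorem L128763 : W_46 (nat_lit 4) (nat_lit 0x1e000c0002000180000000000000000000000) (nat_lit 0x0) (nat_lit 0x6000000038001800000000000000000000000000) := T_46 (nat_lit 158) (nat_lit 157) (nat_lit 1) (nat_lit 8) (nat_lit 8) L128762 (by decide +kernel)
theorem L128764 : W_46 (nat_lit 5) (nat_lit 0x1c000c0002000180000000000000000000000) (nat_lit 0x0) (nat_lit 0x6000300038001800000000000000000000000000) := T_46 (nat_lit 141) (nat_lit 140) (nat_lit 2) (nat_lit 4) (nat_lit 8) L128763 (by decide +kernel)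
theorem L128765 : W_46 (nat_lit 6) (nat_lit 0x18000c0002000180000000000000000000000) (nat_lit 0x0) (nat_lit 0xe000700038001800000000000000000000000000) := T_46 (nat_lit 142) (nat_lit 159) (nat_lit 5) (nat_lit 7) (nat_lit 5) L128764 (by decide +kernel)
theorem L128766 : W_46 (nat_lit 7) (nat_lit 0x18000c0002000100000000000000000000000) (nat_lit 0x0) (nat_lit 0xe000700038001800080004000000000000000000) := T_46 (nat_lit 91) (nat_lit 74) (nat_lit 4) (nat_lit 7) (nat_lit 8) L128765 (by decide +kernel)
theorem L128767 : W_46 (nat_lit 7) (nat_lit 0x1c000c0006000180000000000000000000000) (nat_lit 0x0) (nat_lit 0x300038000c00260013000000000000000000) := T_46 (nat_lit 140) (nat_lit 141) (nat_lit 2) (nat_lit 4) (nat_lit 8) L125394 (by decide +kernel)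
theorem L128768 : W_46 (nat_lit 8) (nat_lit 0x18000c0006000180000000000000000000000) (nat_lit 0x0) (nat_lit 0x8000700038000c00260013000000000000000000) := T_46 (nat_lit 142) (nat_lit 159) (nat_lit 5) (nat_lit 7) (nat_lit 5) L128767 (by decide +kernel)
theorem L128769 : W_46 (nat_lit 3) (nat_lit 0x18000c0006000180000000000000000000000) (nat_lit 0x0) (nat_lit 0x8000260010000000000000000000) := T_46 (nat_lit 93) (nat_lit 76) (nat_lit 6) (nat_lit 7) (nat_lit 8) L123154 (by decide +kernel)
theorem L128770 : W_46 (nat_lit 2) (nat_lit 0x1e000c000e000180000000000000000000000) (nat_lit 0x0) (nat_lit 0x38000000000000000000000000000000) := D_46 (nat_lit 124) (nat_lit 123) (nat_lit 125) (nat_lit 0) (nat_lit 8) (nat_lit 8) (nat_lit 2) (nat_lit 5) (nat_lit 7) (by decide +kernel)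
theorem L128771 : W_46 (nat_lit 3) (nat_lit 0x1e000c0006000180000000000000000000000) (nat_lit 0x0) (nat_lit 0x38018000000000000000000000000000) := T_46 (nat_lit 111) (nat_lit 112) (nat_lit 0) (nat_lit 10) (nat_lit 6) L128770 (by decide +kernel)
theorem L128772 : W_46 (nat_lit 4) (nat_lit 0x1c000c0006000180000000000000000000000) (nat_lit 0x0) (nat_lit 0x300038018000000000000000000000000000) := T_46 (nat_lit 141) (nat_lit 140) (nat_lit 2) (nat_lit 4) (nat_lit 8) L128771 (by decide +kernel)
theorem L128773 : W_46 (nat_lit 5) (nat_lit 0x18000c0006000180000000000000000000000) (nat_lit 0x0) (nat_lit 0x8000700038018000000000000000000000000000) := T_46 (nat_lit 142) (nat_lit 159) (nat_lit 5) (nat_lit 7) (nat_lit 5) L128772 (by decide +kernel)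
theorem L128774 : W_46 (nat_lit 9) (nat_lit 0x18000c0002000180000000000000000000000) (nat_lit 0x0) (nat_lit 0x800070003801cc00260013000000000000000000) := Q_46 (nat_lit 110) (C_46 L128768 (C_46 L128769 (C_46 L128773 N_46))) (by decide +kernel)
theorem L128775 : W_46 (nat_lit 10) (nat_lit 0x18000c0002000100000000000000000000000) (nat_lit 0x0) (nat_lit 0x800070003801cc002e0017000000000000000000) := T_46 (nat_lit 91) (nat_lit 74) (nat_lit 4) (nat_lit 7) (nat_lit 8) L128774 (by decide +kernel)
theorem L128776 : W_46 (nat_lit 2) (nat_lit 0x1a000f0006800300000000000000000000000) (nat_lit 0x0) (nat_lit 0x1000400020000000000000000000) := D_46 (nat_lit 94) (nat_lit 108) (nat_lit 77) (nat_lit 2) (nat_lit 5) (nat_lit 6) (nat_lit 6) (nat_lit 8) (nat_lit 8) (by decide +kernel)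
theorem L128777 : W_46 (nat_lit 3) (nat_lit 0x1a000f0002800300000000000000000000000) (nat_lit 0x0) (nat_lit 0xd000400020000000000000000000) := T_46 (nat_lit 110) (nat_lit 111) (nat_lit 2) (nat_lit 5) (nat_lit 7) L128776 (by decide +kernel)
theorem L128778 : W_46 (nat_lit 4) (nat_lit 0x1a000f0002000300000000000000000000000) (nat_lit 0x0) (nat_lit 0xdc00400020000000000000000000) := T_46 (nat_lit 107) (nat_lit 106) (nat_lit 0) (nat_lit 8) (nat_lit 7) L128777 (by decide +kernel)
theorem L128779 : W_46 (nat_lit 5) (nat_lit 0x18000f0002000300000000000000000000000) (nat_lit 0x0) (nat_lit 0x30000000dc00400020000000000000000000) := T_46 (nat_lit 141) (nat_lit 140) (nat_lit 1) (nat_lit 8) (nat_lit 7) L128778 (by decide +kernel)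
theorem L128780 : W_46 (nat_lit 6) (nat_lit 0x18000f0002000100000000000000000000000) (nat_lit 0x0) (nat_lit 0x30000000dc00600030000000000000000000) := T_46 (nat_lit 93) (nat_lit 76) (nat_lit 6) (nat_lit 7) (nat_lit 8) L128779 (by decide +kernel)
theorem L128781 : W_46 (nat_lit 7) (nat_lit 0x18000d0002000100000000000000000000000) (nat_lit 0x0) (nat_lit 0x30002800dc00600030000000000000000000) := T_46 (nat_lit 125) (nat_lit 123) (nat_lit 3) (nat_lit 4) (nat_lit 7) L128780 (by decide +kernel)
theorem L128782 : W_46 (nat_lit 2) (nat_lit 0x1c000d0002000300000000000000000000000) (nat_lit 0x0) (nat_lit 0x300008000000000000000000000000000000) := D_46 (nat_lit 141) (nat_lit 140) (nat_lit 123) (nat_lit 2) (nat_lit 4) (nat_lit 8) (nat_lit 0) (nat_lit 8) (nat_lit 8) (by decide +kernel)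
theorem L128783 : W_46 (nat_lit 3) (nat_lit 0x18000d0002000300000000000000000000000) (nat_lit 0x0) (nat_lit 0x8000700008000000000000000000000000000000) := T_46 (nat_lit 142) (nat_lit 159) (nat_lit 5) (nat_lit 7) (nat_lit 5) L128782 (by decide +kernel)
theorem L128784 : W_46 (nat_lit 4) (nat_lit 0x18000d0002000100000000000000000000000) (nat_lit 0x0) (nat_lit 0x8000700008000000200010000000000000000000) := T_46 (nat_lit 93) (nat_lit 76) (nat_lit 6) (nat_lit 7) (nat_lit 8) L128783 (by decide +kernel)
theorem L128785 : W_46 (nat_lit 2) (nat_lit 0x1c000d0002000100000000000000000000000) (nat_lit 0x0) (nat_lit 0x300008000000000000000000000000000000) := D_46 (nat_lit 141) (nat_lit 140) (nat_lit 123) (nat_lit 2) (nat_lit 4) (nat_lit 8) (nat_lit 0) (nat_lit 8) (nat_lit 8) (by decide +kernel)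
theorem L128786 : W_46 (nat_lit 3) (nat_lit 0x18000d0002000100000000000000000000000) (nat_lit 0x0) (nat_lit 0x8000700008000000000000000000000000000000) := T_46 (nat_lit 142) (nat_lit 159) (nat_lit 5) (nat_lit 7) (nat_lit 5) L128785 (by decide +kernel)
theorem L128787 : W_46 (nat_lit 2) (nat_lit 0x18000f0006800300000000000000000000000) (nat_lit 0x0) (nat_lit 0x1000400020000000000000000000) := D_46 (nat_lit 94) (nat_lit 108) (nat_lit 77) (nat_lit 2) (nat_lit 5) (nat_lit 6) (nat_lit 6) (nat_lit 8) (nat_lit 8) (by decide +kernel)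
theorem L128788 : W_46 (nat_lit 3) (nat_lit 0x18000f0002800300000000000000000000000) (nat_lit 0x0) (nat_lit 0xd000400020000000000000000000) := T_46 (nat_lit 110) (nat_lit 111) (nat_lit 2) (nat_lit 5) (nat_lit 7) L128787 (by decide +kernel)
theorem L128789 : W_46 (nat_lit 4) (nat_lit 0x18000f0002000300000000000000000000000) (nat_lit 0x0) (nat_lit 0xdc00400020000000000000000000) := T_46 (nat_lit 107) (nat_lit 106) (nat_lit 0) (nat_lit 8) (nat_lit 7) L128788 (by decide +kernel)
theorem L128790 : W_46 (nat_lit 5) (nat_lit 0x18000f0002000100000000000000000000000) (nat_lit 0x0) (nat_lit 0xdc00600030000000000000000000) := T_46 (nat_lit 93) (nat_lit 76) (nat_lit 6) (nat_lit 7) (nat_lit 8) L128789 (by decide +kernel)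
theorem L128791 : W_46 (nat_lit 6) (nat_lit 0x18000d0002000100000000000000000000000) (nat_lit 0x0) (nat_lit 0x2800dc00600030000000000000000000) := T_46 (nat_lit 125) (nat_lit 123) (nat_lit 3) (nat_lit 4) (nat_lit 7) L128790 (by decide +kernel)
theorem L128792 : W_46 (nat_lit 2) (nat_lit 0x2800080004001e000d0003400b00000000000000000000000) (nat_lit 0x0) (nat_lit 0x50001000000000000000000000000000000000000000000000000) := D_46 (nat_lit 192) (nat_lit 208) (nat_lit 210) (nat_lit 5) (nat_lit 5) (nat_lit 8) (nat_lit 7) (nat_lit 5) (nat_lit 8) (by decide +kernel)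
theorem L128793 : W_46 (nat_lit 3) (nat_lit 0x800080004001e000d0003400b00000000000000000000000) (nat_lit 0x0) (nat_lit 0x50003000100000000000000000000000000000000000000000000) := T_46 (nat_lit 193) (nat_lit 176) (nat_lit 7) (nat_lit 5) (nat_lit 7) L128792 (by decide +kernel)
theorem L128794 : W_46 (nat_lit 4) (nat_lit 0x80004001e000d0003400b00000000000000000000000) (nat_lit 0x0) (nat_lit 0x50003800140000000000000000000000000000000000000000000) := T_46 (nat_lit 191) (nat_lit 174) (nat_lit 5) (nat_lit 5) (nat_lit 7) L128793 (by decide +kernel)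
theorem L128795 : W_46 (nat_lit 5) (nat_lit 0x4001e000d0003400b00000000000000000000000) (nat_lit 0x0) (nat_lit 0x500038001c0000000000020000000000000000000000000000000) := T_46 (nat_lit 175) (nat_lit 125) (nat_lit 6) (nat_lit 5) (nat_lit 10) L128794 (by decide +kernel)
theorem L128796 : W_46 (nat_lit 6) (nat_lit 0x1e000d0003400b00000000000000000000000) (nat_lit 0x0) (nat_lit 0x500038001c0006000000020000000000000000000000000000000) := T_46 (nat_lit 158) (nat_lit 157) (nat_lit 1) (nat_lit 8) (nat_lit 8) L128795 (by decide +kernel)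
theorem L128797 : W_46 (nat_lit 7) (nat_lit 0x1c000d0003400b00000000000000000000000) (nat_lit 0x0) (nat_lit 0x500038001c0006000300020000000000000000000000000000000) := T_46 (nat_lit 141) (nat_lit 140) (nat_lit 2) (nat_lit 4) (nat_lit 8) L128796 (by decide +kernel)
theorem L128798 : W_46 (nat_lit 8) (nat_lit 0x18000d0003400b00000000000000000000000) (nat_lit 0x0) (nat_lit 0x500038001c000e000700020000000000000000000000000000000) := T_46 (nat_lit 142) (nat_lit 159) (nat_lit 5) (nat_lit 7) (nat_lit 5) L128797 (by decide +kernel)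
theorem L128799 : W_46 (nat_lit 9) (nat_lit 0x18000d0003400300000000000000000000000) (nat_lit 0x0) (nat_lit 0x500038001c000e000700020000000c00000000000000000000000) := T_46 (nat_lit 95) (nat_lit 94) (nat_lit 1) (nat_lit 10) (nat_lit 5) L128798 (by decide +kernel)
theorem L128800 : W_46 (nat_lit 10) (nat_lit 0x18000d0003000300000000000000000000000) (nat_lit 0x0) (nat_lit 0x500038001c000e000700020000c00c00000000000000000000000) := T_46 (nat_lit 106) (nat_lit 107) (nat_lit 3) (nat_lit 4) (nat_lit 6) L128799 (by decide +kernel)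
theorem L128801 : W_46 (nat_lit 11) (nat_lit 0x18000d0003000100000000000000000000000) (nat_lit 0x0) (nat_lit 0x500038001c000e000700020000c00e00010000000000000000000) := T_46 (nat_lit 93) (nat_lit 76) (nat_lit 6) (nat_lit 7) (nat_lit 8) L128800 (by decide +kernel)
theorem L128802 : W_46 (nat_lit 2) (nat_lit 0x1d000d0003800300000000000000000000000) (nat_lit 0x0) (nat_lit 0x4000c00000000000000000000000) := D_46 (nat_lit 94) (nat_lit 95) (nat_lit 110) (nat_lit 1) (nat_lit 10) (nat_lit 5) (nat_lit 2) (nat_lit 5) (nat_lit 6) (by decide +kernel)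
theorem L128803 : W_46 (nat_lit 3) (nat_lit 0x1d000d0003000300000000000000000000000) (nat_lit 0x0) (nat_lit 0x4c00c00000000000000000000000) := T_46 (nat_lit 107) (nat_lit 106) (nat_lit 3) (nat_lit 4) (nat_lit 6) L128802 (by decide +kernel)
theorem L128804 : W_46 (nat_lit 4) (nat_lit 0x1d000d0003000100000000000000000000000) (nat_lit 0x0) (nat_lit 0x4c00e00010000000000000000000) := T_46 (nat_lit 93) (nat_lit 76) (nat_lit 6) (nat_lit 7) (nat_lit 8) L128803 (by decide +kernel)
theorem L128805 : W_46 (nat_lit 5) (nat_lit 0x1c000d0003000100000000000000000000000) (nat_lit 0x0) (nat_lit 0x300000004c00e00010000000000000000000) := T_46 (nat_lit 140) (nat_lit 141) (nat_lit 2) (nat_lit 4) (nat_lit 8) L128804 (by decide +kernel)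
theorem L128806 : W_46 (nat_lit 6) (nat_lit 0x18000d0003000100000000000000000000000) (nat_lit 0x0) (nat_lit 0x8000700000004c00e00010000000000000000000) := T_46 (nat_lit 142) (nat_lit 159) (nat_lit 5) (nat_lit 7) (nat_lit 5) L128805 (by decide +kernel)
theorem L128807 : W_46 (nat_lit 2) (nat_lit 0x18000d0003800300000000000000000000000) (nat_lit 0x0) (nat_lit 0x4000c00000000000000000000000) := D_46 (nat_lit 94) (nat_lit 110) (nat_lit 95) (nat_lit 2) (nat_lit 5) (nat_lit 6) (nat_lit 1) (nat_lit 10) (nat_lit 5) (by decide +kernel)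
theorem L128808 : W_46 (nat_lit 3) (nat_lit 0x18000d0003800100000000000000000000000) (nat_lit 0x0) (nat_lit 0x4000e00010000000000000000000) := T_46 (nat_lit 93) (nat_lit 76) (nat_lit 6) (nat_lit 7) (nat_lit 8) L128807 (by decide +kernel)
theorem L128809 : W_46 (nat_lit 4) (nat_lit 0x18000d0003000100000000000000000000000) (nat_lit 0x0) (nat_lit 0x4c00e00010000000000000000000) := T_46 (nat_lit 107) (nat_lit 106) (nat_lit 3) (nat_lit 4) (nat_lit 6) L128808 (by decide +kernel)
theorem L128810 : W_46 (nat_lit 2) (nat_lit 0x2800080004001e000d0003400300000000000000000000000) (nat_lit 0x0) (nat_lit 0x50001000000000000000000000000000000000000000000000000) := D_46 (nat_lit 192) (nat_lit 208) (nat_lit 210) (nat_lit 5) (nat_lit 5) (nat_lit 8) (nat_lit 7) (nat_lit 5) (nat_lit 8) (by decide +kernel)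
theorem L128811 : W_46 (nat_lit 3) (nat_lit 0x800080004001e000d0003400300000000000000000000000) (nat_lit 0x0) (nat_lit 0x50003000100000000000000000000000000000000000000000000) := T_46 (nat_lit 193) (nat_lit 176) (nat_lit 7) (nat_lit 5) (nat_lit 7) L128810 (by decide +kernel)
theorem L128812 : W_46 (nat_lit 4) (nat_lit 0x80004001e000d0003400300000000000000000000000) (nat_lit 0x0) (nat_lit 0x50003800140000000000000000000000000000000000000000000) := T_46 (nat_lit 191) (nat_lit 174) (nat_lit 5) (nat_lit 5) (nat_lit 7) L128811 (by decide +kernel)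
theorem L128813 : W_46 (nat_lit 5) (nat_lit 0x4001e000d0003400300000000000000000000000) (nat_lit 0x0) (nat_lit 0x500038001c0000000000020000000000000000000000000000000) := T_46 (nat_lit 175) (nat_lit 125) (nat_lit 6) (nat_lit 5) (nat_lit 10) L128812 (by decide +kernel)
theorem L128814 : W_46 (nat_lit 6) (nat_lit 0x1e000d0003400300000000000000000000000) (nat_lit 0x0) (nat_lit 0x500038001c0006000000020000000000000000000000000000000) := T_46 (nat_lit 158) (nat_lit 157) (nat_lit 1) (nat_lit 8) (nat_lit 8) L128813 (by decide +kernel)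
theorem L128815 : W_46 (nat_lit 7) (nat_lit 0x1c000d0003400300000000000000000000000) (nat_lit 0x0) (nat_lit 0x500038001c0006000300020000000000000000000000000000000) := T_46 (nat_lit 141) (nat_lit 140) (nat_lit 2) (nat_lit 4) (nat_lit 8) L128814 (by decide +kernel)
theorem L128816 : W_46 (nat_lit 8) (nat_lit 0x18000d0003400300000000000000000000000) (nat_lit 0x0) (nat_lit 0x500038001c000e000700020000000000000000000000000000000) := T_46 (nat_lit 142) (nat_lit 159) (nat_lit 5) (nat_lit 7) (nat_lit 5) L128815 (by decide +kernel)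
theorem L128817 : W_46 (nat_lit 9) (nat_lit 0x18000d0003000300000000000000000000000) (nat_lit 0x0) (nat_lit 0x500038001c000e000700020000c00000000000000000000000000) := T_46 (nat_lit 106) (nat_lit 107) (nat_lit 3) (nat_lit 4) (nat_lit 6) L128816 (by decide +kernel)
theorem L128818 : W_46 (nat_lit 10) (nat_lit 0x18000d0003000100000000000000000000000) (nat_lit 0x0) (nat_lit 0x500038001c000e000700020000c00200010000000000000000000) := T_46 (nat_lit 93) (nat_lit 76) (nat_lit 6) (nat_lit 7) (nat_lit 8) L128817 (by decide +kernel)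
theorem L128819 : W_46 (nat_lit 2) (nat_lit 0x2800080004001e000d0003400100000000000000000000000) (nat_lit 0x0) (nat_lit 0x50001000000000000000000000000000000000000000000000000) := D_46 (nat_lit 192) (nat_lit 208) (nat_lit 210) (nat_lit 5) (nat_lit 5) (nat_lit 8) (nat_lit 7) (nat_lit 5) (nat_lit 8) (by decide +kernel)
theorem L128820 : W_46 (nat_lit 3) (nat_lit 0x800080004001e000d0003400100000000000000000000000) (nat_lit 0x0) (nat_lit 0x50003000100000000000000000000000000000000000000000000) := T_46 (nat_lit 193) (nat_lit 176) (nat_lit 7) (nat_lit 5) (nat_lit 7) L128819 (by decide +kernel)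
theorem L128821 : W_46 (nat_lit 4) (nat_lit 0x80004001e000d0003400100000000000000000000000) (nat_lit 0x0) (nat_lit 0x50003800140000000000000000000000000000000000000000000) := T_46 (nat_lit 191) (nat_lit 174) (nat_lit 5) (nat_lit 5) (nat_lit 7) L128820 (by decide +kernel)
theorem L128822 : W_46 (nat_lit 5) (nat_lit 0x4001e000d0003400100000000000000000000000) (nat_lit 0x0) (nat_lit 0x500038001c0000000000020000000000000000000000000000000) := T_46 (nat_lit 175) (nat_lit 125) (nat_lit 6) (nat_lit 5) (nat_lit 10) L128821 (by decide +kernel)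
theorem L128823 : W_46 (nat_lit 6) (nat_lit 0x1e000d0003400100000000000000000000000) (nat_lit 0x0) (nat_lit 0x500038001c0006000000020000000000000000000000000000000) := T_46 (nat_lit 158) (nat_lit 157) (nat_lit 1) (nat_lit 8) (nat_lit 8) L128822 (by decide +kernel)
theorem L128824 : W_46 (nat_lit 7) (nat_lit 0x1e000d0003000100000000000000000000000) (nat_lit 0x0) (nat_lit 0x500038001c0006000000020000c00000000000000000000000000) := T_46 (nat_lit 106) (nat_lit 107) (nat_lit 3) (nat_lit 4) (nat_lit 6) L128823 (by decide +kernel)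
theorem L128825 : W_46 (nat_lit 8) (nat_lit 0x1c000d0003000100000000000000000000000) (nat_lit 0x0) (nat_lit 0x500038001c0006000300020000c00000000000000000000000000) := T_46 (nat_lit 141) (nat_lit 140) (nat_lit 2) (nat_lit 4) (nat_lit 8) L128824 (by decide +kernel)
theorem L128826 : W_46 (nat_lit 9) (nat_lit 0x18000d0003000100000000000000000000000) (nat_lit 0x0) (nat_lit 0x500038001c000e000700020000c00000000000000000000000000) := T_46 (nat_lit 142) (nat_lit 159) (nat_lit 5) (nat_lit 7) (nat_lit 5) L128825 (by decide +kernel)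
theorem L128827 : W_46 (nat_lit 2) (nat_lit 0x2800080004001e000d0003000b00000000000000000000000) (nat_lit 0x0) (nat_lit 0x50001000000000000000000000000000000000000000000000000) := D_46 (nat_lit 192) (nat_lit 208) (nat_lit 210) (nat_lit 5) (nat_lit 5) (nat_lit 8) (nat_lit 7) (nat_lit 5) (nat_lit 8) (by decide +kernel)
theorem L128828 : W_46 (nat_lit 3) (nat_lit 0x800080004001e000d0003000b00000000000000000000000) (nat_lit 0x0) (nat_lit 0x50003000100000000000000000000000000000000000000000000) := T_46 (nat_lit 193) (nat_lit 176) (nat_lit 7) (nat_lit 5) (nat_lit 7) L128827 (by decide +kernel)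
theorem L128829 : W_46 (nat_lit 4) (nat_lit 0x80004001e000d0003000b00000000000000000000000) (nat_lit 0x0) (nat_lit 0x50003800140000000000000000000000000000000000000000000) := T_46 (nat_lit 191) (nat_lit 174) (nat_lit 5) (nat_lit 5) (nat_lit 7) L128828 (by decide +kernel)
theorem L128830 : W_46 (nat_lit 5) (nat_lit 0x4001e000d0003000b00000000000000000000000) (nat_lit 0x0) (nat_lit 0x500038001c0000000000020000000000000000000000000000000) := T_46 (nat_lit 175) (nat_lit 125) (nat_lit 6) (nat_lit 5) (nat_lit 10) L128829 (by decide +kernel)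
theorem L128831 : W_46 (nat_lit 6) (nat_lit 0x1e000d0003000b00000000000000000000000) (nat_lit 0x0) (nat_lit 0x500038001c0006000000020000000000000000000000000000000) := T_46 (nat_lit 158) (nat_lit 157) (nat_lit 1) (nat_lit 8) (nat_lit 8) L128830 (by decide +kernel)
theorem L128832 : W_46 (nat_lit 7) (nat_lit 0x1c000d0003000b00000000000000000000000) (nat_lit 0x0) (nat_lit 0x500038001c0006000300020000000000000000000000000000000) := T_46 (nat_lit 141) (nat_lit 140) (nat_lit 2) (nat_lit 4) (nat_lit 8) L128831 (by decide +kernel)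
theorem L128833 : W_46 (nat_lit 8) (nat_lit 0x18000d0003000b00000000000000000000000) (nat_lit 0x0) (nat_lit 0x500038001c000e000700020000000000000000000000000000000) := T_46 (nat_lit 142) (nat_lit 159) (nat_lit 5) (nat_lit 7) (nat_lit 5) L128832 (by decide +kernel)
theorem L128834 : W_46 (nat_lit 9) (nat_lit 0x18000d0003000300000000000000000000000) (nat_lit 0x0) (nat_lit 0x500038001c000e000700020000000c00000000000000000000000) := T_46 (nat_lit 95) (nat_lit 94) (nat_lit 1) (nat_lit 10) (nat_lit 5) L128833 (by decide +kernel)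
theorem L128835 : W_46 (nat_lit 10) (nat_lit 0x18000d0003000100000000000000000000000) (nat_lit 0x0) (nat_lit 0x500038001c000e000700020000000e00010000000000000000000) := T_46 (nat_lit 93) (nat_lit 76) (nat_lit 6) (nat_lit 7) (nat_lit 8) L128834 (by decide +kernel)
theorem L128836 : W_46 (nat_lit 12) (nat_lit 0x18000d0002000100000000000000000000000) (nat_lit 0x0) (nat_lit 0x500038001c000e000700020005c00e00010000000000000000000) := Q_46 (nat_lit 108) (C_46 L128801 (C_46 L128806 (C_46 L128809 (C_46 L128818 (C_46 L128826 (C_46 L128835 N_46)))))) (by decide +kernel)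
theorem L128837 : W_46 (nat_lit 13) (nat_lit 0x18000c0002000100000000000000000000000) (nat_lit 0x0) (nat_lit 0x500038001c000e00070003800dc00e00030000000000000000000) := Q_46 (nat_lit 124) (C_46 L128781 (C_46 L128784 (C_46 L128786 (C_46 L128791 (C_46 L128836 N_46))))) (by decide +kernel)
theorem L128838 : W_46 (nat_lit 2) (nat_lit 0x4001e000d0003000780000000000000000000000) (nat_lit 0x0) (nat_lit 0x4000000060000000000000000000) := D_46 (nat_lit 77) (nat_lit 78) (nat_lit 110) (nat_lit 2) (nat_lit 6) (nat_lit 5) (nat_lit 6) (nat_lit 8) (nat_lit 8) (by decide +kernel)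
theorem L128839 : W_46 (nat_lit 3) (nat_lit 0x4001e000d0003000380000000000000000000000) (nat_lit 0x0) (nat_lit 0x4000c00060000000000000000000) := T_46 (nat_lit 94) (nat_lit 95) (nat_lit 1) (nat_lit 10) (nat_lit 5) L128838 (by decide +kernel)
theorem L128840 : W_46 (nat_lit 4) (nat_lit 0x4001e000d0002000380000000000000000000000) (nat_lit 0x0) (nat_lit 0x20005000c00060000000000000000000) := T_46 (nat_lit 108) (nat_lit 125) (nat_lit 5) (nat_lit 6) (nat_lit 5) L128839 (by decide +kernel)
theorem L128841 : W_46 (nat_lit 5) (nat_lit 0x4001e000d0002000180000000000000000000000) (nat_lit 0x0) (nat_lit 0x20005000e00070000000000000000000) := T_46 (nat_lit 93) (nat_lit 76) (nat_lit 6) (nat_lit 7) (nat_lit 8) L128840 (by decide +kernel)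
theorem L128842 : W_46 (nat_lit 6) (nat_lit 0x1e000d0002000180000000000000000000000) (nat_lit 0x0) (nat_lit 0x6000000020005000e00070000000000000000000) := T_46 (nat_lit 158) (nat_lit 157) (nat_lit 1) (nat_lit 8) (nat_lit 8) L128841 (by decide +kernel)
theorem L128843 : W_46 (nat_lit 7) (nat_lit 0x1e000c0002000180000000000000000000000) (nat_lit 0x0) (nat_lit 0x6000000038005000e00070000000000000000000) := T_46 (nat_lit 124) (nat_lit 123) (nat_lit 0) (nat_lit 8) (nat_lit 8) L128842 (by decide +kernel)
theorem L128844 : W_46 (nat_lit 8) (nat_lit 0x1e000c0002000100000000000000000000000) (nat_lit 0x0) (nat_lit 0x6000000038005000e80074000000000000000000) := T_46 (nat_lit 91) (nat_lit 74) (nat_lit 4) (nat_lit 7) (nat_lit 8) L128843 (by decide +kernel)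
theorem L128845 : W_46 (nat_lit 9) (nat_lit 0x1c000c0002000100000000000000000000000) (nat_lit 0x0) (nat_lit 0x6000300038005000e80074000000000000000000) := T_46 (nat_lit 141) (nat_lit 140) (nat_lit 2) (nat_lit 4) (nat_lit 8) L128844 (by decide +kernel)
theorem L128846 : W_46 (nat_lit 10) (nat_lit 0x18000c0002000100000000000000000000000) (nat_lit 0x0) (nat_lit 0xe000700038005000e80074000000000000000000) := T_46 (nat_lit 142) (nat_lit 159) (nat_lit 5) (nat_lit 7) (nat_lit 5) L128845 (by decide +kernel)
theorem L128847 : W_46 (nat_lit 14) (nat_lit 0x18000c0002000000000000000000000000000) (nat_lit 0x0) (nat_lit 0x500038001c000e00070003803dc00fe0077000000000000000000) := Q_46 (nat_lit 92) (C_46 L128748 (C_46 L123262 (C_46 L128760 (C_46 L128766 (C_46 L128775 (C_46 L128837 (C_46 L128846 N_46))))))) (by decide +kernel)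
theorem L128848 : W_46 (nat_lit 2) (nat_lit 0x1a001a000d001f800040000000000000000000000) (nat_lit 0x0) (nat_lit 0x1c00000000000000000000000) := D_46 (nat_lit 95) (nat_lit 94) (nat_lit 96) (nat_lit 2) (nat_lit 6) (nat_lit 6) (nat_lit 2) (nat_lit 7) (nat_lit 6) (by decide +kernel)
theorem L128849 : W_46 (nat_lit 3) (nat_lit 0x1a001a000d000f800040000000000000000000000) (nat_lit 0x0) (nat_lit 0x30001c00000000000000000000000) := T_46 (nat_lit 112) (nat_lit 113) (nat_lit 1) (nat_lit 11) (nat_lit 6) L128848 (by decide +kernel)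
theorem L128850 : W_46 (nat_lit 4) (nat_lit 0x1a0018000d000f800040000000000000000000000) (nat_lit 0x0) (nat_lit 0x300000030001c00000000000000000000000) := T_46 (nat_lit 141) (nat_lit 140) (nat_lit 5) (nat_lit 5) (nat_lit 5) L128849 (by decide +kernel)
theorem L128851 : W_46 (nat_lit 5) (nat_lit 0x1a0018000d0007800040000000000000000000000) (nat_lit 0x0) (nat_lit 0x300020038001c00000000000000000000000) := T_46 (nat_lit 111) (nat_lit 125) (nat_lit 2) (nat_lit 5) (nat_lit 7) L128850 (by decide +kernel)
theorem L128852 : W_46 (nat_lit 6) (nat_lit 0x1a0018000d0007800000000000000000000000000) (nat_lit 0x0) (nat_lit 0x300020038001c60000000000000000000000) := T_46 (nat_lit 90) (nat_lit 89) (nat_lit 0) (nat_lit 8) (nat_lit 6) L128851 (by decide +kernel)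
theorem L128853 : W_46 (nat_lit 7) (nat_lit 0x1a0018000c0007800000000000000000000000000) (nat_lit 0x0) (nat_lit 0x300038038001c60000000000000000000000) := T_46 (nat_lit 124) (nat_lit 123) (nat_lit 1) (nat_lit 8) (nat_lit 6) L128852 (by decide +kernel)
theorem L128854 : W_46 (nat_lit 8) (nat_lit 0x180018000c0007800000000000000000000000000) (nat_lit 0x0) (nat_lit 0x6000300038038001c60000000000000000000000) := T_46 (nat_lit 157) (nat_lit 158) (nat_lit 2) (nat_lit 4) (nat_lit 9) L128853 (by decide +kernel)
theorem L128855 : W_46 (nat_lit 9) (nat_lit 0x100018000c0007800000000000000000000000000) (nat_lit 0x0) (nat_lit 0x10000e000300038038001c60000000000000000000000) := T_46 (nat_lit 159) (nat_lit 176) (nat_lit 5) (nat_lit 7) (nat_lit 6) L128854 (by decide +kernel)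
theorem L128856 : W_46 (nat_lit 10) (nat_lit 0x100018000c0003800000000000000000000000000) (nat_lit 0x0) (nat_lit 0x10000e00030003803c001e60000000000000000000000) := T_46 (nat_lit 110) (nat_lit 93) (nat_lit 6) (nat_lit 7) (nat_lit 9) L128855 (by decide +kernel)
theorem L128857 : W_46 (nat_lit 11) (nat_lit 0x100018000c0003000000000000000000000000000) (nat_lit 0x0) (nat_lit 0x10000e00030003803cc01e60000000000000000000000) := T_46 (nat_lit 107) (nat_lit 106) (nat_lit 3) (nat_lit 4) (nat_lit 6) L128856 (by decide +kernel)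
theorem L128858 : W_46 (nat_lit 12) (nat_lit 0x100018000c0002000000000000000000000000000) (nat_lit 0x0) (nat_lit 0x10000e00030003803dc01ee0000000000000000000000) := T_46 (nat_lit 108) (nat_lit 91) (nat_lit 4) (nat_lit 7) (nat_lit 9) L128857 (by decide +kernel)
theorem L128859 : W_46 (nat_lit 13) (nat_lit 0x18000c0002000000000000000000000000000) (nat_lit 0x0) (nat_lit 0x600030001e00030003803dc01ee0000000000000000000000) := Q_46 (nat_lit 160) (C_46 L127439 (C_46 L123133 (C_46 L128858 N_46))) (by decide +kernel)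
theorem L128860 : W_46 (nat_lit 2) (nat_lit 0x18000c0007000600000000000000000000000) (nat_lit 0x0) (nat_lit 0x1900000000000000000000000) := D_46 (nat_lit 95) (nat_lit 96) (nat_lit 92) (nat_lit 1) (nat_lit 11) (nat_lit 5) (nat_lit 1) (nat_lit 10) (nat_lit 5) (by decide +kernel)
theorem L128861 : W_46 (nat_lit 3) (nat_lit 0x18000c0006000600000000000000000000000) (nat_lit 0x0) (nat_lit 0x1801900000000000000000000000) := T_46 (nat_lit 108) (nat_lit 107) (nat_lit 2) (nat_lit 5) (nat_lit 6) L128860 (by decide +kernel)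
theorem L128862 : W_46 (nat_lit 4) (nat_lit 0x18000c0006000200000000000000000000000) (nat_lit 0x0) (nat_lit 0x1801d00020000000000000000000) := T_46 (nat_lit 94) (nat_lit 77) (nat_lit 6) (nat_lit 8) (nat_lit 8) L128861 (by decide +kernel)
theorem L128863 : W_46 (nat_lit 5) (nat_lit 0x18000c0006000000000000000000000000000) (nat_lit 0x0) (nat_lit 0x1801f00030000000000000000000) := T_46 (nat_lit 93) (nat_lit 76) (nat_lit 5) (nat_lit 8) (nat_lit 4) L128862 (by decide +kernel)
theorem L128864 : W_46 (nat_lit 2) (nat_lit 0x100018000f0007800040000000000000000000000) (nat_lit 0x0) (nat_lit 0x400000000000000002000100000000000000) := D_46 (nat_lit 73) (nat_lit 142) (nat_lit 56) (nat_lit 7) (nat_lit 5) (nat_lit 4) (nat_lit 7) (nat_lit 5) (nat_lit 3) (by decide +kernel)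
theorem L128865 : W_46 (nat_lit 3) (nat_lit 0x100018000d0007800040000000000000000000000) (nat_lit 0x0) (nat_lit 0x400020008000000002000100000000000000) := T_46 (nat_lit 125) (nat_lit 111) (nat_lit 2) (nat_lit 5) (nat_lit 7) L128864 (by decide +kernel)
theorem L128866 : W_46 (nat_lit 4) (nat_lit 0x100018000d0007800000000000000000000000000) (nat_lit 0x0) (nat_lit 0x400020008000060002000100000000000000) := T_46 (nat_lit 90) (nat_lit 89) (nat_lit 0) (nat_lit 8) (nat_lit 6) L128865 (by decide +kernel)
theorem L128867 : W_46 (nat_lit 5) (nat_lit 0x100018000c0007800000000000000000000000000) (nat_lit 0x0) (nat_lit 0x400038008000060002000100000000000000) := T_46 (nat_lit 124) (nat_lit 123) (nat_lit 1) (nat_lit 8) (nat_lit 6) L128866 (by decide +kernel)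
theorem L128868 : W_46 (nat_lit 6) (nat_lit 0x100018000c0007000000000000000000000000000) (nat_lit 0x0) (nat_lit 0x400038008c00060002000100000000000000) := T_46 (nat_lit 107) (nat_lit 106) (nat_lit 3) (nat_lit 4) (nat_lit 6) L128867 (by decide +kernel)
theorem L128869 : W_46 (nat_lit 7) (nat_lit 0x100018000c0006000000000000000000000000000) (nat_lit 0x0) (nat_lit 0x400038009c000e0002000100000000000000) := T_46 (nat_lit 108) (nat_lit 91) (nat_lit 4) (nat_lit 7) (nat_lit 9) L128868 (by decide +kernel)
theorem L128870 : W_46 (nat_lit 8) (nat_lit 0x18000c0006000000000000000000000000000) (nat_lit 0x0) (nat_lit 0x200010000400038009c000e0002000100000000000000) := T_46 (nat_lit 160) (nat_lit 177) (nat_lit 6) (nat_lit 7) (nat_lit 10) L128869 (by decide +kernel)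
theorem L128871 : W_46 (nat_lit 9) (nat_lit 0x18000c0002000000000000000000000000000) (nat_lit 0x0) (nat_lit 0x20001000040003800dc01fe0032000100000000000000) := Q_46 (nat_lit 110) (C_46 L124832 (C_46 L128863 (C_46 L128870 N_46))) (by decide +kernel)
theorem L128872 : W_46 (nat_lit 15) (nat_lit 0x10000c0002000000000000000000000000000) (nat_lit 0x0) (nat_lit 0x500078003c001e000f0003803dc01fe0077000380010000000000) := Q_46 (nat_lit 143) (C_46 L127487 (C_46 L128355 (C_46 L128847 (C_46 L128859 (C_46 L128871 N_46))))) (by decide +kernel)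
theorem L128873 : W_46 (nat_lit 17) (nat_lit 0x10000c0000000000000000000000000000000) (nat_lit 0x0) (nat_lit 0x4000e0007000fe007f001fc04fe063f03ff81ff80ff007f8021c000800000) := Q_46 (nat_lit 109) (C_46 L127541 (C_46 L127750 (C_46 L127795 (C_46 L127877 (C_46 L123271 (C_46 L125984 (C_46 L127893 (C_46 L128240 (C_46 L128356 (C_46 L128382 (C_46 L128683 (C_46 L128730 (C_46 L128741 (C_46 L128872 N_46)))))))))))))) (by decide +kernel)
theorem L128874 : W_46 (nat_lit 2) (nat_lit 0x58003c0018000000000000000000000000000) (nat_lit 0x0) (nat_lit 0x80000000000000000400020000000000000000000) := D_46 (nat_lit 94) (nat_lit 77) (nat_lit 163) (nat_lit 7) (nat_lit 9) (nat_lit 4) (nat_lit 4) (nat_lit 10) (nat_lit 9) (by decide +kernel)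
theorem L128875 : W_46 (nat_lit 3) (nat_lit 0x18003c0018000000000000000000000000000) (nat_lit 0x0) (nat_lit 0x8000c000000000000400020000000000000000000) := T_46 (nat_lit 146) (nat_lit 147) (nat_lit 3) (nat_lit 7) (nat_lit 7) L128874 (by decide +kernel)
theorem L128876 : W_46 (nat_lit 4) (nat_lit 0x18003c0010000000000000000000000000000) (nat_lit 0x0) (nat_lit 0x8000c000020008000400020000000000000000000) := T_46 (nat_lit 111) (nat_lit 125) (nat_lit 2) (nat_lit 6) (nat_lit 7) L128875 (by decide +kernel)
theorem L128877 : W_46 (nat_lit 5) (nat_lit 0x18003c0000000000000000000000000000000) (nat_lit 0x0) (nat_lit 0x8000c000020038000400020000000000000000000) := T_46 (nat_lit 112) (nat_lit 113) (nat_lit 2) (nat_lit 7) (nat_lit 7) L128876 (by decide +kernel)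
theorem L128878 : W_46 (nat_lit 6) (nat_lit 0x18001c0000000000000000000000000000000) (nat_lit 0x0) (nat_lit 0x8000c000620038000400020000000000000000000) := T_46 (nat_lit 129) (nat_lit 130) (nat_lit 1) (nat_lit 11) (nat_lit 7) L128877 (by decide +kernel)
theorem L128879 : W_46 (nat_lit 3) (nat_lit 0x18001d0000000000000000000000000000000) (nat_lit 0x0) (nat_lit 0x700028000000000000000000000000000000) := T_46 (nat_lit 141) (nat_lit 142) (nat_lit 2) (nat_lit 5) (nat_lit 8) L122491 (by decide +kernel)
theorem L128880 : W_46 (nat_lit 2) (nat_lit 0x1c0006001a001d8000000000000000000000000000000) (nat_lit 0x0) (nat_lit 0x200001800000000000000000000000000000000000000) := D_46 (nat_lit 156) (nat_lit 155) (nat_lit 177) (nat_lit 3) (nat_lit 2) (nat_lit 9) (nat_lit 0) (nat_lit 7) (nat_lit 10) (by decide +kernel)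
theorem L128881 : W_46 (nat_lit 3) (nat_lit 0x1c0004001a001d8000000000000000000000000000000) (nat_lit 0x0) (nat_lit 0x200003800000000000800000000000000000000000000) := T_46 (nat_lit 157) (nat_lit 107) (nat_lit 5) (nat_lit 5) (nat_lit 6) L128880 (by decide +kernel)
theorem L128882 : W_46 (nat_lit 4) (nat_lit 0x180004001a001d8000000000000000000000000000000) (nat_lit 0x0) (nat_lit 0x800240003800000000000800000000000000000000000000) := T_46 (nat_lit 174) (nat_lit 191) (nat_lit 5) (nat_lit 5) (nat_lit 7) L128881 (by decide +kernel)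
theorem L128883 : W_46 (nat_lit 5) (nat_lit 0x80004001a001d8000000000000000000000000000000) (nat_lit 0x0) (nat_lit 0x2800340003800000000000800000000000000000000000000) := T_46 (nat_lit 176) (nat_lit 193) (nat_lit 7) (nat_lit 5) (nat_lit 7) L128882 (by decide +kernel)
theorem L128884 : W_46 (nat_lit 6) (nat_lit 0x80004001a001d0000000000000000000000000000000) (nat_lit 0x0) (nat_lit 0x2800340003800000008000c00000000000000000000000000) := T_46 (nat_lit 123) (nat_lit 106) (nat_lit 4) (nat_lit 5) (nat_lit 10) L128883 (by decide +kernel)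
theorem L128885 : W_46 (nat_lit 2) (nat_lit 0x1c0006001a001d0000000000000000000000000000000) (nat_lit 0x0) (nat_lit 0x200001800000000000000000000000000000000000000) := D_46 (nat_lit 156) (nat_lit 155) (nat_lit 177) (nat_lit 3) (nat_lit 2) (nat_lit 9) (nat_lit 0) (nat_lit 7) (nat_lit 10) (by decide +kernel)
theorem L128886 : W_46 (nat_lit 3) (nat_lit 0xc0006001a001d0000000000000000000000000000000) (nat_lit 0x0) (nat_lit 0x2000300001800000000000000000000000000000000000000) := T_46 (nat_lit 176) (nat_lit 193) (nat_lit 7) (nat_lit 5) (nat_lit 7) L128885 (by decide +kernel)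
theorem L128887 : W_46 (nat_lit 4) (nat_lit 0xc0004001a001d0000000000000000000000000000000) (nat_lit 0x0) (nat_lit 0x2000300003800000000000800000000000000000000000000) := T_46 (nat_lit 157) (nat_lit 107) (nat_lit 5) (nat_lit 5) (nat_lit 6) L128886 (by decide +kernel)
theorem L128888 : W_46 (nat_lit 5) (nat_lit 0x80004001a001d0000000000000000000000000000000) (nat_lit 0x0) (nat_lit 0x2800340003800000000000800000000000000000000000000) := T_46 (nat_lit 174) (nat_lit 191) (nat_lit 5) (nat_lit 5) (nat_lit 7) L128887 (by decide +kernel)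
theorem L128889 : W_46 (nat_lit 4) (nat_lit 0x80004001a001d0000000000000000000000000000000) (nat_lit 0x0) (nat_lit 0x10001800040000000100008000400000000000000000000000000) := T_46 (nat_lit 123) (nat_lit 106) (nat_lit 4) (nat_lit 5) (nat_lit 10) L122467 (by decide +kernel)
theorem L128890 : W_46 (nat_lit 9) (nat_lit 0x4001a001d0000000000000000000000000000000) (nat_lit 0x0) (nat_lit 0x4000e000700038003c0003800100008000c00000000000000000000000000) := Q_46 (nat_lit 175) (C_46 L122490 (C_46 L128884 (C_46 L128888 (C_46 L128889 (C_46 L122483 N_46))))) (by decide +kernel)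
theorem L128891 : W_46 (nat_lit 6) (nat_lit 0xe001a001d0000000000000000000000000000000) (nat_lit 0x0) (nat_lit 0x400000001000000008000e0007000280000000000000) := T_46 (nat_lit 107) (nat_lit 174) (nat_lit 5) (nat_lit 5) (nat_lit 6) L122474 (by decide +kernel)
theorem L128892 : W_46 (nat_lit 7) (nat_lit 0x6001a001d0000000000000000000000000000000) (nat_lit 0x0) (nat_lit 0x400180001000000008000e0007000280000000000000) := T_46 (nat_lit 159) (nat_lit 160) (nat_lit 2) (nat_lit 4) (nat_lit 9) L128891 (by decide +kernel)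
theorem L128893 : W_46 (nat_lit 4) (nat_lit 0x6001a001d0000000000000000000000000000000) (nat_lit 0x0) (nat_lit 0x40000000100000000c00060001000000000000000000) := T_46 (nat_lit 107) (nat_lit 174) (nat_lit 5) (nat_lit 5) (nat_lit 6) L122469 (by decide +kernel)
theorem L128894 : W_46 (nat_lit 2) (nat_lit 0x16001a001d0000000000000000000000000000000) (nat_lit 0x0) (nat_lit 0x4000200000000000000004000000000000000000000000000) := D_46 (nat_lit 177) (nat_lit 110) (nat_lit 194) (nat_lit 6) (nat_lit 7) (nat_lit 10) (nat_lit 6) (nat_lit 7) (nat_lit 11) (by decide +kernel)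
theorem L128895 : W_46 (nat_lit 3) (nat_lit 0x6001a001d0000000000000000000000000000000) (nat_lit 0x0) (nat_lit 0x4000200018000000000004000000000000000000000000000) := T_46 (nat_lit 160) (nat_lit 159) (nat_lit 2) (nat_lit 4) (nat_lit 9) L128894 (by decide +kernel)
theorem L128896 : W_46 (nat_lit 8) (nat_lit 0x4001a001d0000000000000000000000000000000) (nat_lit 0x0) (nat_lit 0x400024001a000100000004c000e0007000280000000000000) := Q_46 (nat_lit 157) (C_46 L128892 (C_46 L128893 (C_46 L128895 N_46))) (by decide +kernel)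
theorem L128897 : W_46 (nat_lit 2) (nat_lit 0x14001a001d0000000000000000000000000000000) (nat_lit 0x0) (nat_lit 0x4000200000000000000004000000000000000000000000000) := D_46 (nat_lit 177) (nat_lit 110) (nat_lit 194) (nat_lit 6) (nat_lit 7) (nat_lit 10) (nat_lit 6) (nat_lit 7) (nat_lit 11) (by decide +kernel)
theorem L128898 : W_46 (nat_lit 2) (nat_lit 0x300016001a001d0000000000000000000000000000000) (nat_lit 0x0) (nat_lit 0x8000480000000000000000000000000000000000000000000) := D_46 (nat_lit 178) (nat_lit 175) (nat_lit 195) (nat_lit 0) (nat_lit 8) (nat_lit 10) (nat_lit 7) (nat_lit 7) (nat_lit 7) (by decide +kernel)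
theorem L128899 : W_46 (nat_lit 3) (nat_lit 0x200016001a001d0000000000000000000000000000000) (nat_lit 0x0) (nat_lit 0xa000580000000000000000000000000000000000000000000) := T_46 (nat_lit 176) (nat_lit 193) (nat_lit 5) (nat_lit 7) (nat_lit 7) L128898 (by decide +kernel)
theorem L128900 : W_46 (nat_lit 4) (nat_lit 0x16001a001d0000000000000000000000000000000) (nat_lit 0x0) (nat_lit 0xe000780000000000000000000000000000000000000000000) := T_46 (nat_lit 177) (nat_lit 194) (nat_lit 6) (nat_lit 7) (nat_lit 11) L128899 (by decide +kernel)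
theorem L128901 : W_46 (nat_lit 5) (nat_lit 0x14001a001d0000000000000000000000000000000) (nat_lit 0x0) (nat_lit 0xe00078000a000000000000000000000000000000000000000) := T_46 (nat_lit 157) (nat_lit 159) (nat_lit 2) (nat_lit 4) (nat_lit 9) L128900 (by decide +kernel)
theorem L128902 : W_46 (nat_lit 2) (nat_lit 0x10001c001a001d0000000000000000000000000000000) (nat_lit 0x0) (nat_lit 0x40002000080000000000000000000000000000000000000000000) := D_46 (nat_lit 193) (nat_lit 210) (nat_lit 175) (nat_lit 6) (nat_lit 6) (nat_lit 12) (nat_lit 7) (nat_lit 5) (nat_lit 7) (by decide +kernel)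
theorem L128903 : W_46 (nat_lit 3) (nat_lit 0x1c001a001d0000000000000000000000000000000) (nat_lit 0x0) (nat_lit 0x40002000180000000000000002000000000000000000000000000) := T_46 (nat_lit 176) (nat_lit 109) (nat_lit 5) (nat_lit 7) (nat_lit 6) L128902 (by decide +kernel)
theorem L128904 : W_46 (nat_lit 4) (nat_lit 0x14001a001d0000000000000000000000000000000) (nat_lit 0x0) (nat_lit 0x4000200018000a000000000002000000000000000000000000000) := T_46 (nat_lit 159) (nat_lit 157) (nat_lit 2) (nat_lit 4) (nat_lit 9) L128903 (by decide +kernel)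
theorem L128905 : W_46 (nat_lit 6) (nat_lit 0x4001a001d0000000000000000000000000000000) (nat_lit 0x0) (nat_lit 0x4000e00078001a000000000006000000000000000000000000000) := Q_46 (nat_lit 160) (C_46 L128897 (C_46 L128901 (C_46 L128904 N_46))) (by decide +kernel)
theorem L128906 : W_46 (nat_lit 2) (nat_lit 0x1c000c001a001d8000000000000000000000000000000) (nat_lit 0x0) (nat_lit 0x30010000000000000000000000000000000000000000) := D_46 (nat_lit 173) (nat_lit 160) (nat_lit 172) (nat_lit 2) (nat_lit 3) (nat_lit 10) (nat_lit 2) (nat_lit 2) (nat_lit 10) (by decide +kernel)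
theorem L128907 : W_46 (nat_lit 3) (nat_lit 0x18000c001a001d8000000000000000000000000000000) (nat_lit 0x0) (nat_lit 0x800070010000000000000000000000000000000000000000) := T_46 (nat_lit 174) (nat_lit 191) (nat_lit 5) (nat_lit 5) (nat_lit 7) L128906 (by decide +kernel)
theorem L128908 : W_46 (nat_lit 4) (nat_lit 0x180004001a001d8000000000000000000000000000000) (nat_lit 0x0) (nat_lit 0x800070018000000000000800000000000000000000000000) := T_46 (nat_lit 159) (nat_lit 107) (nat_lit 7) (nat_lit 5) (nat_lit 6) L128907 (by decide +kernel)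
theorem L128909 : W_46 (nat_lit 5) (nat_lit 0x80004001a001d8000000000000000000000000000000) (nat_lit 0x0) (nat_lit 0x2800170018000000000000800000000000000000000000000) := T_46 (nat_lit 176) (nat_lit 193) (nat_lit 7) (nat_lit 5) (nat_lit 7) L128908 (by decide +kernel)
theorem L128910 : W_46 (nat_lit 6) (nat_lit 0x80004001a001d0000000000000000000000000000000) (nat_lit 0x0) (nat_lit 0x2800170018000000008000c00000000000000000000000000) := T_46 (nat_lit 123) (nat_lit 106) (nat_lit 4) (nat_lit 5) (nat_lit 10) L128909 (by decide +kernel)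
theorem L128911 : W_46 (nat_lit 2) (nat_lit 0x1c000c001a001d0000000000000000000000000000000) (nat_lit 0x0) (nat_lit 0x20010000000000002000000000000000000000000000) := D_46 (nat_lit 160) (nat_lit 109) (nat_lit 173) (nat_lit 5) (nat_lit 7) (nat_lit 6) (nat_lit 2) (nat_lit 3) (nat_lit 10) (by decide +kernel)
theorem L128912 : W_46 (nat_lit 3) (nat_lit 0x1c0004001a001d0000000000000000000000000000000) (nat_lit 0x0) (nat_lit 0x20018000000000002800000000000000000000000000) := T_46 (nat_lit 159) (nat_lit 107) (nat_lit 7) (nat_lit 5) (nat_lit 6) L128911 (by decide +kernel)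
theorem L128913 : W_46 (nat_lit 4) (nat_lit 0xc0004001a001d0000000000000000000000000000000) (nat_lit 0x0) (nat_lit 0x2000120018000000000002800000000000000000000000000) := T_46 (nat_lit 176) (nat_lit 193) (nat_lit 7) (nat_lit 5) (nat_lit 7) L128912 (by decide +kernel)
theorem L128914 : W_46 (nat_lit 5) (nat_lit 0x80004001a001d0000000000000000000000000000000) (nat_lit 0x0) (nat_lit 0x2800160018000000000002800000000000000000000000000) := T_46 (nat_lit 174) (nat_lit 191) (nat_lit 5) (nat_lit 5) (nat_lit 7) L128913 (by decide +kernel)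
theorem L128915 : W_46 (nat_lit 7) (nat_lit 0x4001a001d0000000000000000000000000000000) (nat_lit 0x0) (nat_lit 0x500038001f0018000100008002c00000000000000000000000000) := Q_46 (nat_lit 175) (C_46 L128910 (C_46 L128889 (C_46 L128914 (C_46 L122483 N_46)))) (by decide +kernel)
theorem L128916 : W_46 (nat_lit 10) (nat_lit 0x1a001d0000000000000000000000000000000) (nat_lit 0x0) (nat_lit 0x4000e0007000f8007f001f800100008006c000e0007000280000000000000) := Q_46 (nat_lit 158) (C_46 L123118 (C_46 L128890 (C_46 L128896 (C_46 L128905 (C_46 L128915 N_46))))) (by decide +kernel)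
theorem L128917 : W_46 (nat_lit 11) (nat_lit 0x18001d0000000000000000000000000000000) (nat_lit 0x0) (nat_lit 0x4000e0007000f8007f001f800700008006c000e0007000280000000000000) := T_46 (nat_lit 141) (nat_lit 142) (nat_lit 2) (nat_lit 5) (nat_lit 8) L128916 (by decide +kernel)
theorem L128918 : W_46 (nat_lit 3) (nat_lit 0x18001d0000000000000000000000000000000) (nat_lit 0x0) (nat_lit 0x2801c000000000000000000000000000) := T_46 (nat_lit 125) (nat_lit 123) (nat_lit 3) (nat_lit 4) (nat_lit 7) L122462 (by decide +kernel)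
theorem L128919 : W_46 (nat_lit 2) (nat_lit 0x1a001f0000000000000000000000000000000) (nat_lit 0x0) (nat_lit 0x1c000000000000000000000000000) := D_46 (nat_lit 111) (nat_lit 110) (nat_lit 112) (nat_lit 2) (nat_lit 5) (nat_lit 7) (nat_lit 2) (nat_lit 6) (nat_lit 7) (by decide +kernel)
theorem L128920 : W_46 (nat_lit 3) (nat_lit 0x1a001d0000000000000000000000000000000) (nat_lit 0x0) (nat_lit 0x10002001c000000000000000000000000000) := T_46 (nat_lit 125) (nat_lit 140) (nat_lit 1) (nat_lit 8) (nat_lit 7) L128919 (by decide +kernel)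
theorem L128921 : W_46 (nat_lit 4) (nat_lit 0x18001d0000000000000000000000000000000) (nat_lit 0x0) (nat_lit 0x70002001c000000000000000000000000000) := T_46 (nat_lit 141) (nat_lit 142) (nat_lit 2) (nat_lit 5) (nat_lit 8) L128920 (by decide +kernel)
theorem L128922 : W_46 (nat_lit 12) (nat_lit 0x18001c0000000000000000000000000000000) (nat_lit 0x0) (nat_lit 0x4000e0007000f8007f001f80070003801ec000e0007000280000000000000) := Q_46 (nat_lit 124) (C_46 L128879 (C_46 L128917 (C_46 L128918 (C_46 L128921 N_46)))) (by decide +kernel)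
theorem L128923 : W_46 (nat_lit 13) (nat_lit 0x18000c0000000000000000000000000000000) (nat_lit 0x0) (nat_lit 0x4000e0007000f8007f009f80c70073803ec004e0027000280000000000000) := Q_46 (nat_lit 128) (C_46 L122442 (C_46 L128878 (C_46 L128922 N_46))) (by decide +kernel)
theorem L128924 : W_46 (nat_lit 2) (nat_lit 0x1c000c0000000200000000000000000000000) (nat_lit 0x0) (nat_lit 0x10000000000004000000010000000000000000000) := D_46 (nat_lit 110) (nat_lit 76) (nat_lit 160) (nat_lit 5) (nat_lit 8) (nat_lit 4) (nat_lit 5) (nat_lit 8) (nat_lit 5) (by decide +kernel)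
theorem L128925 : W_46 (nat_lit 2) (nat_lit 0x1c002c0006000780000000000000000000000) (nat_lit 0x0) (nat_lit 0x18000040000000000000000000000) := D_46 (nat_lit 111) (nat_lit 112) (nat_lit 90) (nat_lit 3) (nat_lit 6) (nat_lit 5) (nat_lit 3) (nat_lit 5) (nat_lit 5) (by decide +kernel)
theorem L128926 : W_46 (nat_lit 3) (nat_lit 0x1c002c0006000700000000000000000000000) (nat_lit 0x0) (nat_lit 0x180000c0004000000000000000000) := T_46 (nat_lit 91) (nat_lit 74) (nat_lit 4) (nat_lit 7) (nat_lit 8) L128925 (by decide +kernel)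
theorem L128927 : W_46 (nat_lit 4) (nat_lit 0x1c002c0004000700000000000000000000000) (nat_lit 0x0) (nat_lit 0x800000000001a0000c0004000000000000000000) := T_46 (nat_lit 109) (nat_lit 159) (nat_lit 5) (nat_lit 7) (nat_lit 5) L128926 (by decide +kernel)
theorem L128928 : W_46 (nat_lit 5) (nat_lit 0x1c002c0004000300000000000000000000000) (nat_lit 0x0) (nat_lit 0x800000000001a0004c0024000000000000000000) := T_46 (nat_lit 94) (nat_lit 77) (nat_lit 6) (nat_lit 8) (nat_lit 8) L128927 (by decide +kernel)
theorem L128929 : W_46 (nat_lit 6) (nat_lit 0x1c002c0004000200000000000000000000000) (nat_lit 0x0) (nat_lit 0x800000000001a0005c002c000000000000000000) := T_46 (nat_lit 92) (nat_lit 75) (nat_lit 4) (nat_lit 8) (nat_lit 8) L128928 (by decide +kernel)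
theorem L128930 : W_46 (nat_lit 7) (nat_lit 0x1c002c0000000200000000000000000000000) (nat_lit 0x0) (nat_lit 0x800000000001e0005c003c000000000000000000) := T_46 (nat_lit 110) (nat_lit 76) (nat_lit 5) (nat_lit 8) (nat_lit 4) L128929 (by decide +kernel)
theorem L128931 : W_46 (nat_lit 8) (nat_lit 0x1c000c0000000200000000000000000000000) (nat_lit 0x0) (nat_lit 0x800000030001e0005c003c000000000000000000) := T_46 (nat_lit 129) (nat_lit 128) (nat_lit 1) (nat_lit 10) (nat_lit 7) L128930 (by decide +kernel)
theorem L128932 : W_46 (nat_lit 2) (nat_lit 0x1c002c0010000f00040000000000000000000) (nat_lit 0x0) (nat_lit 0x4000000000000080020000000000000000000) := D_46 (nat_lit 77) (nat_lit 91) (nat_lit 146) (nat_lit 2) (nat_lit 6) (nat_lit 5) (nat_lit 4) (nat_lit 10) (nat_lit 8) (by decide +kernel)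
theorem L128933 : W_46 (nat_lit 3) (nat_lit 0x1c002c0010000f00000000000000000000000) (nat_lit 0x0) (nat_lit 0x40000000000000800e0000000000000000000) := T_46 (nat_lit 78) (nat_lit 79) (nat_lit 2) (nat_lit 7) (nat_lit 5) L128932 (by decide +kernel)
theorem L128934 : W_46 (nat_lit 4) (nat_lit 0x1c002c0000000f00000000000000000000000) (nat_lit 0x0) (nat_lit 0x40000000300000800e0000000000000000000) := T_46 (nat_lit 112) (nat_lit 113) (nat_lit 3) (nat_lit 7) (nat_lit 5) L128933 (by decide +kernel)
theorem L128935 : W_46 (nat_lit 5) (nat_lit 0x1c000c0000000f00000000000000000000000) (nat_lit 0x0) (nat_lit 0x40003000300000800e0000000000000000000) := T_46 (nat_lit 129) (nat_lit 128) (nat_lit 1) (nat_lit 10) (nat_lit 7) L128934 (by decide +kernel)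
theorem L128936 : W_46 (nat_lit 2) (nat_lit 0x1c000c0000000f80040000000000000000000) (nat_lit 0x0) (nat_lit 0xe000000000000000000) := D_46 (nat_lit 74) (nat_lit 73) (nat_lit 75) (nat_lit 0) (nat_lit 9) (nat_lit 5) (nat_lit 0) (nat_lit 10) (nat_lit 5) (by decide +kernel)
theorem L128937 : W_46 (nat_lit 3) (nat_lit 0x1c000c0000000f00040000000000000000000) (nat_lit 0x0) (nat_lit 0x8002e000000000000000000) := T_46 (nat_lit 91) (nat_lit 77) (nat_lit 2) (nat_lit 6) (nat_lit 5) L128936 (by decide +kernel)
theorem L128938 : W_46 (nat_lit 4) (nat_lit 0x1c000c0000000f00000000000000000000000) (nat_lit 0x0) (nat_lit 0x800ee000000000000000000) := T_46 (nat_lit 78) (nat_lit 79) (nat_lit 2) (nat_lit 7) (nat_lit 5) L128937 (by decide +kernel)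
theorem L128939 : W_46 (nat_lit 2) (nat_lit 0x1c002c0010000f00040000000000000000000) (nat_lit 0x0) (nat_lit 0x4000000000000000020001000000000000000) := D_46 (nat_lit 77) (nat_lit 146) (nat_lit 60) (nat_lit 4) (nat_lit 10) (nat_lit 8) (nat_lit 4) (nat_lit 10) (nat_lit 7) (by decide +kernel)
theorem L128940 : W_46 (nat_lit 3) (nat_lit 0x1c002c0010000f00000000000000000000000) (nat_lit 0x0) (nat_lit 0x40000000000000000e0001000000000000000) := T_46 (nat_lit 78) (nat_lit 79) (nat_lit 2) (nat_lit 7) (nat_lit 5) L128939 (by decide +kernel)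
theorem L128941 : W_46 (nat_lit 4) (nat_lit 0x1c002c0000000f00000000000000000000000) (nat_lit 0x0) (nat_lit 0x40000000300000000e0001000000000000000) := T_46 (nat_lit 112) (nat_lit 113) (nat_lit 3) (nat_lit 7) (nat_lit 5) L128940 (by decide +kernel)
theorem L128942 : W_46 (nat_lit 5) (nat_lit 0x1c000c0000000f00000000000000000000000) (nat_lit 0x0) (nat_lit 0x40003000300000000e0001000000000000000) := T_46 (nat_lit 129) (nat_lit 128) (nat_lit 1) (nat_lit 10) (nat_lit 7) L128941 (by decide +kernel)
theorem L128943 : W_46 (nat_lit 2) (nat_lit 0x1c002c0010000f00028000000000000000000) (nat_lit 0x0) (nat_lit 0x80040001000000000000000) := D_46 (nat_lit 78) (nat_lit 60) (nat_lit 91) (nat_lit 4) (nat_lit 10) (nat_lit 7) (nat_lit 2) (nat_lit 6) (nat_lit 5) (by decide +kernel)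
theorem L128944 : W_46 (nat_lit 3) (nat_lit 0x1c002c0010000f00008000000000000000000) (nat_lit 0x0) (nat_lit 0x4000000000000080060001000000000000000) := T_46 (nat_lit 77) (nat_lit 146) (nat_lit 4) (nat_lit 10) (nat_lit 8) L128943 (by decide +kernel)
theorem L128945 : W_46 (nat_lit 4) (nat_lit 0x1c002c0010000f00000000000000000000000) (nat_lit 0x0) (nat_lit 0x400000000000008006c001000000000000000) := T_46 (nat_lit 75) (nat_lit 74) (nat_lit 0) (nat_lit 10) (nat_lit 5) L128944 (by decide +kernel)
theorem L128946 : W_46 (nat_lit 5) (nat_lit 0x1c000c0010000f00000000000000000000000) (nat_lit 0x0) (nat_lit 0x400030000000008006c001000000000000000) := T_46 (nat_lit 129) (nat_lit 128) (nat_lit 1) (nat_lit 10) (nat_lit 7) L128945 (by decide +kernel)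
theorem L128947 : W_46 (nat_lit 6) (nat_lit 0x1c000c0000000f00000000000000000000000) (nat_lit 0x0) (nat_lit 0x400030003000008006c001000000000000000) := T_46 (nat_lit 112) (nat_lit 113) (nat_lit 3) (nat_lit 7) (nat_lit 5) L128946 (by decide +kernel)
theorem L128948 : W_46 (nat_lit 2) (nat_lit 0x1c000c0000001f00048000000000000000000) (nat_lit 0x0) (nat_lit 0x70000000000000000000000000000) := D_46 (nat_lit 113) (nat_lit 112) (nat_lit 114) (nat_lit 3) (nat_lit 7) (nat_lit 5) (nat_lit 3) (nat_lit 8) (nat_lit 5) (by decide +kernel)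
theorem L128949 : W_46 (nat_lit 3) (nat_lit 0x1c000c0000000f00048000000000000000000) (nat_lit 0x0) (nat_lit 0x70001000010000000000000000000) := T_46 (nat_lit 96) (nat_lit 76) (nat_lit 0) (nat_lit 11) (nat_lit 5) L128948 (by decide +kernel)
theorem L128950 : W_46 (nat_lit 4) (nat_lit 0x1c000c0000000f00008000000000000000000) (nat_lit 0x0) (nat_lit 0x700010000d0000000000000000000) := T_46 (nat_lit 78) (nat_lit 79) (nat_lit 2) (nat_lit 7) (nat_lit 5) L128949 (by decide +kernel)
theorem L128951 : W_46 (nat_lit 5) (nat_lit 0x1c000c0000000f00000000000000000000000) (nat_lit 0x0) (nat_lit 0x700010000dc000000000000000000) := T_46 (nat_lit 75) (nat_lit 74) (nat_lit 0) (nat_lit 10) (nat_lit 5) L128950 (by decide +kernel)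
theorem L128952 : W_46 (nat_lit 2) (nat_lit 0x1c002c0010001f00008000000000000000000) (nat_lit 0x0) (nat_lit 0x40000000000000000a0000000000000000000) := D_46 (nat_lit 146) (nat_lit 77) (nat_lit 79) (nat_lit 4) (nat_lit 10) (nat_lit 8) (nat_lit 6) (nat_lit 10) (nat_lit 8) (by decide +kernel)
theorem L128953 : W_46 (nat_lit 3) (nat_lit 0x1c002c0010000f00008000000000000000000) (nat_lit 0x0) (nat_lit 0x40000000000010000b0000000000000000000) := T_46 (nat_lit 96) (nat_lit 76) (nat_lit 0) (nat_lit 11) (nat_lit 5) L128952 (by decide +kernel)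
theorem L128954 : W_46 (nat_lit 4) (nat_lit 0x1c000c0010000f00008000000000000000000) (nat_lit 0x0) (nat_lit 0x40003000000010000b0000000000000000000) := T_46 (nat_lit 129) (nat_lit 128) (nat_lit 1) (nat_lit 10) (nat_lit 7) L128953 (by decide +kernel)
theorem L128955 : W_46 (nat_lit 5) (nat_lit 0x1c000c0010000f00000000000000000000000) (nat_lit 0x0) (nat_lit 0x40003000000010000bc000000000000000000) := T_46 (nat_lit 75) (nat_lit 74) (nat_lit 0) (nat_lit 10) (nat_lit 5) L128954 (by decide +kernel)
theorem L128956 : W_46 (nat_lit 6) (nat_lit 0x1c000c0000000f00000000000000000000000) (nat_lit 0x0) (nat_lit 0x40003000300010000bc000000000000000000) := T_46 (nat_lit 112) (nat_lit 113) (nat_lit 3) (nat_lit 7) (nat_lit 5) L128955 (by decide +kernel)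
theorem L128957 : W_46 (nat_lit 7) (nat_lit 0x1c000c0000000700000000000000000000000) (nat_lit 0x0) (nat_lit 0x40003000700018800fe001000000000000000) := Q_46 (nat_lit 95) (C_46 L128935 (C_46 L128938 (C_46 L128942 (C_46 L128947 (C_46 L128951 (C_46 L128956 N_46)))))) (by decide +kernel)
theorem L128958 : W_46 (nat_lit 2) (nat_lit 0x1c001c00000007c0020000000000000000000) (nat_lit 0x0) (nat_lit 0x7000000000000000000) := D_46 (nat_lit 73) (nat_lit 72) (nat_lit 74) (nat_lit 0) (nat_lit 8) (nat_lit 5) (nat_lit 0) (nat_lit 9) (nat_lit 5) (by decide +kernel)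
theorem L128959 : W_46 (nat_lit 3) (nat_lit 0x1c001c0000000780020000000000000000000) (nat_lit 0x0) (nat_lit 0x40017000000000000000000) := T_46 (nat_lit 90) (nat_lit 76) (nat_lit 2) (nat_lit 5) (nat_lit 5) L128958 (by decide +kernel)
theorem L128960 : W_46 (nat_lit 4) (nat_lit 0x1c001c0000000700020000000000000000000) (nat_lit 0x0) (nat_lit 0xc0057000000000000000000) := T_46 (nat_lit 91) (nat_lit 78) (nat_lit 2) (nat_lit 6) (nat_lit 5) L128959 (by decide +kernel)
theorem L128961 : W_46 (nat_lit 5) (nat_lit 0x1c001c0000000700000000000000000000000) (nat_lit 0x0) (nat_lit 0x80000c0077000000000000000000) := T_46 (nat_lit 77) (nat_lit 111) (nat_lit 5) (nat_lit 9) (nat_lit 4) L128960 (by decide +kernel)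
theorem L128962 : W_46 (nat_lit 6) (nat_lit 0x1c000c0000000700000000000000000000000) (nat_lit 0x0) (nat_lit 0x3000080000c0077000000000000000000) := T_46 (nat_lit 128) (nat_lit 129) (nat_lit 1) (nat_lit 10) (nat_lit 7) L128961 (by decide +kernel)
theorem L128963 : W_46 (nat_lit 2) (nat_lit 0x1c000c0010000f80000000000000000000000) (nat_lit 0x0) (nat_lit 0xe0000000000000000000) := D_46 (nat_lit 78) (nat_lit 77) (nat_lit 79) (nat_lit 2) (nat_lit 6) (nat_lit 5) (nat_lit 2) (nat_lit 7) (nat_lit 5) (by decide +kernel)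
theorem L128964 : W_46 (nat_lit 3) (nat_lit 0x1c000c0010000f00000000000000000000000) (nat_lit 0x0) (nat_lit 0x80000800e0000000000000000000) := T_46 (nat_lit 91) (nat_lit 111) (nat_lit 3) (nat_lit 6) (nat_lit 5) L128963 (by decide +kernel)
theorem L128965 : W_46 (nat_lit 4) (nat_lit 0x1c000c0000000f00000000000000000000000) (nat_lit 0x0) (nat_lit 0x380000800e0000000000000000000) := T_46 (nat_lit 112) (nat_lit 113) (nat_lit 3) (nat_lit 7) (nat_lit 5) L128964 (by decide +kernel)
theorem L128966 : W_46 (nat_lit 2) (nat_lit 0x1c000c0010000f80028000000000000000000) (nat_lit 0x0) (nat_lit 0x1040010000000000000000000) := D_46 (nat_lit 76) (nat_lit 90) (nat_lit 96) (nat_lit 2) (nat_lit 5) (nat_lit 5) (nat_lit 0) (nat_lit 11) (nat_lit 5) (by decide +kernel)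
theorem L128967 : W_46 (nat_lit 3) (nat_lit 0x1c000c0010000f80008000000000000000000) (nat_lit 0x0) (nat_lit 0x1040070000000000000000000) := T_46 (nat_lit 77) (nat_lit 78) (nat_lit 2) (nat_lit 6) (nat_lit 5) L128966 (by decide +kernel)
theorem L128968 : W_46 (nat_lit 4) (nat_lit 0x1c000c0010000f00008000000000000000000) (nat_lit 0x0) (nat_lit 0x80010c0070000000000000000000) := T_46 (nat_lit 91) (nat_lit 111) (nat_lit 3) (nat_lit 6) (nat_lit 5) L128967 (by decide +kernel)
theorem L128969 : W_46 (nat_lit 5) (nat_lit 0x1c000c0000000f00008000000000000000000) (nat_lit 0x0) (nat_lit 0x380010c0070000000000000000000) := T_46 (nat_lit 112) (nat_lit 113) (nat_lit 3) (nat_lit 7) (nat_lit 5) L128968 (by decide +kernel)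
theorem L128970 : W_46 (nat_lit 6) (nat_lit 0x1c000c0000000f00000000000000000000000) (nat_lit 0x0) (nat_lit 0x380010c007c000000000000000000) := T_46 (nat_lit 75) (nat_lit 74) (nat_lit 0) (nat_lit 10) (nat_lit 5) L128969 (by decide +kernel)
theorem L128971 : W_46 (nat_lit 2) (nat_lit 0x1c000c0010000f80018000000000000000000) (nat_lit 0x0) (nat_lit 0x60020000000000000000000) := D_46 (nat_lit 90) (nat_lit 89) (nat_lit 77) (nat_lit 2) (nat_lit 4) (nat_lit 5) (nat_lit 2) (nat_lit 5) (nat_lit 5) (by decide +kernel)
theorem L128972 : W_46 (nat_lit 3) (nat_lit 0x1c000c0010000f80008000000000000000000) (nat_lit 0x0) (nat_lit 0x1060030000000000000000000) := T_46 (nat_lit 76) (nat_lit 96) (nat_lit 0) (nat_lit 11) (nat_lit 5) L128971 (by decide +kernel)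
theorem L128973 : W_46 (nat_lit 4) (nat_lit 0x1c000c0010000f00008000000000000000000) (nat_lit 0x0) (nat_lit 0x80010e0030000000000000000000) := T_46 (nat_lit 91) (nat_lit 111) (nat_lit 3) (nat_lit 6) (nat_lit 5) L128972 (by decide +kernel)
theorem L128974 : W_46 (nat_lit 5) (nat_lit 0x1c000c0000000f00008000000000000000000) (nat_lit 0x0) (nat_lit 0x380010e0030000000000000000000) := T_46 (nat_lit 112) (nat_lit 113) (nat_lit 3) (nat_lit 7) (nat_lit 5) L128973 (by decide +kernel)
theorem L128975 : W_46 (nat_lit 6) (nat_lit 0x1c000c0000000f00000000000000000000000) (nat_lit 0x0) (nat_lit 0x380010e003c000000000000000000) := T_46 (nat_lit 75) (nat_lit 74) (nat_lit 0) (nat_lit 10) (nat_lit 5) L128974 (by decide +kernel)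
theorem L128976 : W_46 (nat_lit 7) (nat_lit 0x1c000c0000000700000000000000000000000) (nat_lit 0x0) (nat_lit 0x780018e00fe000000000000000000) := Q_46 (nat_lit 95) (C_46 L128951 (C_46 L128938 (C_46 L128965 (C_46 L128970 (C_46 L128975 N_46))))) (by decide +kernel)
theorem L128977 : W_46 (nat_lit 3) (nat_lit 0x1c001c0000000700020000000000000000000) (nat_lit 0x0) (nat_lit 0x8801c0000000000000000000) := T_46 (nat_lit 78) (nat_lit 91) (nat_lit 2) (nat_lit 6) (nat_lit 5) L123117 (by decide +kernel)
theorem L128978 : W_46 (nat_lit 4) (nat_lit 0x1c001c0000000700000000000000000000000) (nat_lit 0x0) (nat_lit 0x80008801e0000000000000000000) := T_46 (nat_lit 77) (nat_lit 111) (nat_lit 5) (nat_lit 9) (nat_lit 4) L128977 (by decide +kernel)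
theorem L128979 : W_46 (nat_lit 5) (nat_lit 0x1c000c0000000700000000000000000000000) (nat_lit 0x0) (nat_lit 0x3000080008801e0000000000000000000) := T_46 (nat_lit 128) (nat_lit 129) (nat_lit 1) (nat_lit 10) (nat_lit 7) L128978 (by decide +kernel)
theorem L128980 : W_46 (nat_lit 2) (nat_lit 0x1c001c0018000700000000000000000000000) (nat_lit 0x0) (nat_lit 0x60000800000000000000000000000) := D_46 (nat_lit 113) (nat_lit 114) (nat_lit 95) (nat_lit 1) (nat_lit 12) (nat_lit 6) (nat_lit 3) (nat_lit 7) (nat_lit 5) (by decide +kernel)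
theorem L128981 : W_46 (nat_lit 3) (nat_lit 0x1c001c0008000700000000000000000000000) (nat_lit 0x0) (nat_lit 0x20070000800000000000000000000000) := T_46 (nat_lit 112) (nat_lit 125) (nat_lit 2) (nat_lit 6) (nat_lit 7) L128980 (by decide +kernel)
theorem L128982 : W_46 (nat_lit 4) (nat_lit 0x1c001c0000000700000000000000000000000) (nat_lit 0x0) (nat_lit 0x20078000800020000000000000000000) := T_46 (nat_lit 111) (nat_lit 77) (nat_lit 5) (nat_lit 9) (nat_lit 4) L128981 (by decide +kernel)
theorem L128983 : W_46 (nat_lit 5) (nat_lit 0x1c000c0000000700000000000000000000000) (nat_lit 0x0) (nat_lit 0x320078000800020000000000000000000) := T_46 (nat_lit 128) (nat_lit 129) (nat_lit 1) (nat_lit 10) (nat_lit 7) L128982 (by decide +kernel)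
theorem L128984 : W_46 (nat_lit 2) (nat_lit 0x1c002c0000000f00088000000000000000000) (nat_lit 0x0) (nat_lit 0x1000110000000000000000000) := D_46 (nat_lit 96) (nat_lit 80) (nat_lit 76) (nat_lit 2) (nat_lit 8) (nat_lit 5) (nat_lit 0) (nat_lit 11) (nat_lit 5) (by decide +kernel)
theorem L128985 : W_46 (nat_lit 3) (nat_lit 0x1c002c0000000f00080000000000000000000) (nat_lit 0x0) (nat_lit 0x100011c000000000000000000) := T_46 (nat_lit 75) (nat_lit 74) (nat_lit 0) (nat_lit 10) (nat_lit 5) L128984 (by decide +kernel)
theorem L128986 : W_46 (nat_lit 4) (nat_lit 0x1c002c0000000f00000000000000000000000) (nat_lit 0x0) (nat_lit 0x10001dc000000000000000000) := T_46 (nat_lit 79) (nat_lit 78) (nat_lit 2) (nat_lit 7) (nat_lit 5) L128985 (by decide +kernel)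
theorem L128987 : W_46 (nat_lit 5) (nat_lit 0x1c000c0000000f00000000000000000000000) (nat_lit 0x0) (nat_lit 0x3000000010001dc000000000000000000) := T_46 (nat_lit 129) (nat_lit 128) (nat_lit 1) (nat_lit 10) (nat_lit 7) L128986 (by decide +kernel)
theorem L128988 : W_46 (nat_lit 2) (nat_lit 0x1c000c0010000f80040000000000000000000) (nat_lit 0x0) (nat_lit 0xe000000000000000000) := D_46 (nat_lit 74) (nat_lit 73) (nat_lit 75) (nat_lit 0) (nat_lit 9) (nat_lit 5) (nat_lit 0) (nat_lit 10) (nat_lit 5) (by decide +kernel)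
theorem L128989 : W_46 (nat_lit 3) (nat_lit 0x1c000c0010000f00040000000000000000000) (nat_lit 0x0) (nat_lit 0x800008000e000000000000000000) := T_46 (nat_lit 91) (nat_lit 111) (nat_lit 3) (nat_lit 6) (nat_lit 5) L128988 (by decide +kernel)
theorem L128990 : W_46 (nat_lit 4) (nat_lit 0x1c000c0000000f00040000000000000000000) (nat_lit 0x0) (nat_lit 0x3800008000e000000000000000000) := T_46 (nat_lit 112) (nat_lit 113) (nat_lit 3) (nat_lit 7) (nat_lit 5) L128989 (by decide +kernel)
theorem L128991 : W_46 (nat_lit 5) (nat_lit 0x1c000c0000000f00000000000000000000000) (nat_lit 0x0) (nat_lit 0x380000800ce000000000000000000) := T_46 (nat_lit 78) (nat_lit 79) (nat_lit 2) (nat_lit 7) (nat_lit 5) L128990 (by decide +kernel)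
theorem L128992 : W_46 (nat_lit 2) (nat_lit 0x1c002c0010000f80080000000000000000000) (nat_lit 0x0) (nat_lit 0x4000000000001000100000000000000000000) := D_46 (nat_lit 96) (nat_lit 80) (nat_lit 146) (nat_lit 2) (nat_lit 8) (nat_lit 5) (nat_lit 6) (nat_lit 10) (nat_lit 8) (by decide +kernel)
theorem L128993 : W_46 (nat_lit 3) (nat_lit 0x1c002c0010000f80000000000000000000000) (nat_lit 0x0) (nat_lit 0x40000000000010001c0000000000000000000) := T_46 (nat_lit 79) (nat_lit 78) (nat_lit 2) (nat_lit 7) (nat_lit 5) L128992 (by decide +kernel)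
theorem L128994 : W_46 (nat_lit 4) (nat_lit 0x1c002c0010000f00000000000000000000000) (nat_lit 0x0) (nat_lit 0x40000000080010801c0000000000000000000) := T_46 (nat_lit 91) (nat_lit 111) (nat_lit 3) (nat_lit 6) (nat_lit 5) L128993 (by decide +kernel)
theorem L128995 : W_46 (nat_lit 5) (nat_lit 0x1c002c0000000f00000000000000000000000) (nat_lit 0x0) (nat_lit 0x40000000380010801c0000000000000000000) := T_46 (nat_lit 112) (nat_lit 113) (nat_lit 3) (nat_lit 7) (nat_lit 5) L128994 (by decide +kernel)
theorem L128996 : W_46 (nat_lit 6) (nat_lit 0x1c000c0000000f00000000000000000000000) (nat_lit 0x0) (nat_lit 0x40003000380010801c0000000000000000000) := T_46 (nat_lit 129) (nat_lit 128) (nat_lit 1) (nat_lit 10) (nat_lit 7) L128995 (by decide +kernel)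
theorem L128997 : W_46 (nat_lit 2) (nat_lit 0x1c002c0000001f00008000000000000000000) (nat_lit 0x0) (nat_lit 0x70000000000000000000000000000) := D_46 (nat_lit 113) (nat_lit 112) (nat_lit 114) (nat_lit 3) (nat_lit 7) (nat_lit 5) (nat_lit 3) (nat_lit 8) (nat_lit 5) (by decide +kernel)
theorem L128998 : W_46 (nat_lit 3) (nat_lit 0x1c002c0000000f00008000000000000000000) (nat_lit 0x0) (nat_lit 0x70001000010000000000000000000) := T_46 (nat_lit 96) (nat_lit 76) (nat_lit 0) (nat_lit 11) (nat_lit 5) L128997 (by decide +kernel)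
theorem L128999 : W_46 (nat_lit 4) (nat_lit 0x1c000c0000000f00008000000000000000000) (nat_lit 0x0) (nat_lit 0x300070001000010000000000000000000) := T_46 (nat_lit 129) (nat_lit 128) (nat_lit 1) (nat_lit 10) (nat_lit 7) L128998 (by decide +kernel)
theorem L129000 : W_46 (nat_lit 5) (nat_lit 0x1c000c0000000f00000000000000000000000) (nat_lit 0x0) (nat_lit 0x30007000100001c000000000000000000) := T_46 (nat_lit 75) (nat_lit 74) (nat_lit 0) (nat_lit 10) (nat_lit 5) L128999 (by decide +kernel)
theorem L129001 : W_46 (nat_lit 7) (nat_lit 0x1c000c0000000700000000000000000000000) (nat_lit 0x0) (nat_lit 0x40003000780018801de000000000000000000) := Q_46 (nat_lit 95) (C_46 L128951 (C_46 L128987 (C_46 L128991 (C_46 L128996 (C_46 L129000 N_46))))) (by decide +kernel)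
theorem L129002 : W_46 (nat_lit 8) (nat_lit 0x1c000c0000000300000000000000000000000) (nat_lit 0x0) (nat_lit 0x4000320078001ce01ff001000000000000000) := Q_46 (nat_lit 94) (C_46 L128957 (C_46 L128962 (C_46 L128976 (C_46 L128979 (C_46 L128983 (C_46 L129001 N_46)))))) (by decide +kernel)
theorem L129003 : W_46 (nat_lit 2) (nat_lit 0x1c000c0000000300000000000000000000000) (nat_lit 0x0) (nat_lit 0x8000000000002000000008000000000000000000) := D_46 (nat_lit 109) (nat_lit 159) (nat_lit 75) (nat_lit 5) (nat_lit 7) (nat_lit 5) (nat_lit 7) (nat_lit 7) (nat_lit 4) (by decide +kernel)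
theorem L129004 : W_46 (nat_lit 2) (nat_lit 0x1c000c0000000300000000000000000000000) (nat_lit 0x0) (nat_lit 0x8000000000002000000010000000000000000000) := D_46 (nat_lit 109) (nat_lit 159) (nat_lit 76) (nat_lit 5) (nat_lit 7) (nat_lit 5) (nat_lit 6) (nat_lit 7) (nat_lit 8) (by decide +kernel)
theorem L129005 : W_46 (nat_lit 9) (nat_lit 0x1c000c0000000200000000000000000000000) (nat_lit 0x0) (nat_lit 0x800400032007a001de01ff001000000000000000) := Q_46 (nat_lit 92) (C_46 L129002 (C_46 L127130 (C_46 L129003 (C_46 L129004 N_46)))) (by decide +kernel)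
theorem L129006 : W_46 (nat_lit 7) (nat_lit 0x1c002c0000000200000000000000000000000) (nat_lit 0x0) (nat_lit 0x1800000000001e0005c002c000000000000000000) := T_46 (nat_lit 110) (nat_lit 160) (nat_lit 5) (nat_lit 8) (nat_lit 5) L128929 (by decide +kernel)
theorem L129007 : W_46 (nat_lit 8) (nat_lit 0x1c000c0000000200000000000000000000000) (nat_lit 0x0) (nat_lit 0x1800000030001e0005c002c000000000000000000) := T_46 (nat_lit 129) (nat_lit 128) (nat_lit 1) (nat_lit 10) (nat_lit 7) L129006 (by decide +kernel)
theorem L129008 : W_46 (nat_lit 10) (nat_lit 0x1c000c0000000000000000000000000000000) (nat_lit 0x0) (nat_lit 0x1800400032007e001fe01ff001000000000000000) := Q_46 (nat_lit 93) (C_46 L128924 (C_46 L128931 (C_46 L129005 (C_46 L129007 N_46)))) (by decide +kernel)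
theorem L129009 : W_46 (nat_lit 2) (nat_lit 0x1c0014001e000f0004000000000000000000000000000) (nat_lit 0x0) (nat_lit 0x20008000000000002000000000000000000000000000) := D_46 (nat_lit 159) (nat_lit 109) (nat_lit 173) (nat_lit 6) (nat_lit 6) (nat_lit 10) (nat_lit 2) (nat_lit 3) (nat_lit 10) (by decide +kernel)
theorem L129010 : W_46 (nat_lit 3) (nat_lit 0xc0014001e000f0004000000000000000000000000000) (nat_lit 0x0) (nat_lit 0x2000120008000000000002000000000000000000000000000) := T_46 (nat_lit 176) (nat_lit 193) (nat_lit 7) (nat_lit 5) (nat_lit 7) L129009 (by decide +kernel)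
theorem L129011 : W_46 (nat_lit 4) (nat_lit 0x80014001e000f0004000000000000000000000000000) (nat_lit 0x0) (nat_lit 0x2800160008000000000002000000000000000000000000000) := T_46 (nat_lit 174) (nat_lit 191) (nat_lit 5) (nat_lit 5) (nat_lit 7) L129010 (by decide +kernel)
theorem L129012 : W_46 (nat_lit 5) (nat_lit 0x14001e000f0004000000000000000000000000000) (nat_lit 0x0) (nat_lit 0x38001e0008000000000002000000000000000000000000000) := T_46 (nat_lit 175) (nat_lit 192) (nat_lit 6) (nat_lit 5) (nat_lit 11) L129011 (by decide +kernel)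
theorem L129013 : W_46 (nat_lit 6) (nat_lit 0x14001e000d0004000000000000000000000000000) (nat_lit 0x0) (nat_lit 0x38001e000800000002000a000000000000000000000000000) := T_46 (nat_lit 125) (nat_lit 111) (nat_lit 2) (nat_lit 5) (nat_lit 7) L129012 (by decide +kernel)
theorem L129014 : W_46 (nat_lit 7) (nat_lit 0x10001e000d0004000000000000000000000000000) (nat_lit 0x0) (nat_lit 0x38001e000e00000002000a000000000000000000000000000) := T_46 (nat_lit 158) (nat_lit 157) (nat_lit 1) (nat_lit 8) (nat_lit 8) L129013 (by decide +kernel)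
theorem L129015 : W_46 (nat_lit 8) (nat_lit 0x10001e000c0004000000000000000000000000000) (nat_lit 0x0) (nat_lit 0x38001e000e00000003800a000000000000000000000000000) := T_46 (nat_lit 124) (nat_lit 123) (nat_lit 0) (nat_lit 8) (nat_lit 8) L129014 (by decide +kernel)
theorem L129016 : W_46 (nat_lit 9) (nat_lit 0x10001e000c0000000000000000000000000000000) (nat_lit 0x0) (nat_lit 0x38001e000e00000003800e000200000000000000000000000) := T_46 (nat_lit 110) (nat_lit 93) (nat_lit 5) (nat_lit 8) (nat_lit 5) L129015 (by decide +kernel)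
theorem L129017 : W_46 (nat_lit 10) (nat_lit 0x10001c000c0000000000000000000000000000000) (nat_lit 0x0) (nat_lit 0x38001e000e00030003800e000200000000000000000000000) := T_46 (nat_lit 141) (nat_lit 140) (nat_lit 2) (nat_lit 4) (nat_lit 8) L129016 (by decide +kernel)
theorem L129018 : W_46 (nat_lit 11) (nat_lit 0x1c000c0000000000000000000000000000000) (nat_lit 0x0) (nat_lit 0xf800fe001e00030003800e000200000000000000000000000) := Q_46 (nat_lit 160) (C_46 L122825 (C_46 L129017 (C_46 L122819 N_46))) (by decide +kernel)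
theorem L129019 : W_46 (nat_lit 12) (nat_lit 0x18000c0000000000000000000000000000000) (nat_lit 0x0) (nat_lit 0xf800fe001e00470033807e001fe01ff001000000000000000) := Q_46 (nat_lit 142) (C_46 L127188 (C_46 L129008 (C_46 L129018 N_46))) (by decide +kernel)
theorem L129020 : W_46 (nat_lit 2) (nat_lit 0x1c000c0000000700000000000000000000000) (nat_lit 0x0) (nat_lit 0x4000000028000000000000000000) := D_46 (nat_lit 110) (nat_lit 75) (nat_lit 77) (nat_lit 4) (nat_lit 8) (nat_lit 8) (nat_lit 6) (nat_lit 8) (nat_lit 8) (by decide +kernel)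
theorem L129021 : W_46 (nat_lit 2) (nat_lit 0x9c002c0018000f00048000000000000000000) (nat_lit 0x0) (nat_lit 0x180004000000000000000000000000000000000000) := D_46 (nat_lit 146) (nat_lit 163) (nat_lit 164) (nat_lit 4) (nat_lit 10) (nat_lit 9) (nat_lit 7) (nat_lit 10) (nat_lit 5) (by decide +kernel)
theorem L129022 : W_46 (nat_lit 3) (nat_lit 0x1c002c0018000f00048000000000000000000) (nat_lit 0x0) (nat_lit 0x18000c000400000000000000000000000000000000) := T_46 (nat_lit 147) (nat_lit 130) (nat_lit 7) (nat_lit 10) (nat_lit 4) L129021 (by decide +kernel)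
theorem L129023 : W_46 (nat_lit 4) (nat_lit 0x1c002c0010000f00048000000000000000000) (nat_lit 0x0) (nat_lit 0x18000c000400008000080000000000000000000000) := T_46 (nat_lit 111) (nat_lit 91) (nat_lit 3) (nat_lit 6) (nat_lit 5) L129022 (by decide +kernel)
theorem L129024 : W_46 (nat_lit 5) (nat_lit 0x1c002c0000000f00048000000000000000000) (nat_lit 0x0) (nat_lit 0x18000c000400038000080000000000000000000000) := T_46 (nat_lit 112) (nat_lit 113) (nat_lit 3) (nat_lit 7) (nat_lit 5) L129023 (by decide +kernel)
theorem L129025 : W_46 (nat_lit 6) (nat_lit 0x1c002c0000000f00008000000000000000000) (nat_lit 0x0) (nat_lit 0x18000c0004000380000800c0000000000000000000) := T_46 (nat_lit 78) (nat_lit 79) (nat_lit 2) (nat_lit 7) (nat_lit 5) L129024 (by decide +kernel)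
theorem L129026 : W_46 (nat_lit 7) (nat_lit 0x1c002c0000000700008000000000000000000) (nat_lit 0x0) (nat_lit 0x18000c0004000380008800c4000000000000000000) := T_46 (nat_lit 95) (nat_lit 74) (nat_lit 0) (nat_lit 10) (nat_lit 5) L129025 (by decide +kernel)
theorem L129027 : W_46 (nat_lit 8) (nat_lit 0x1c002c0000000700000000000000000000000) (nat_lit 0x0) (nat_lit 0x18000c00040003c0008800cc000000000000000000) := T_46 (nat_lit 75) (nat_lit 110) (nat_lit 4) (nat_lit 8) (nat_lit 8) L129026 (by decide +kernel)
theorem L129028 : W_46 (nat_lit 9) (nat_lit 0x1c000c0000000700000000000000000000000) (nat_lit 0x0) (nat_lit 0x18000c00070003c0008800cc000000000000000000) := T_46 (nat_lit 129) (nat_lit 128) (nat_lit 1) (nat_lit 10) (nat_lit 7) L129027 (by decide +kernel)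
theorem L129029 : W_46 (nat_lit 10) (nat_lit 0x1c000c0000000300000000000000000000000) (nat_lit 0x0) (nat_lit 0x18000c00072007c000c800ec000000000000000000) := Q_46 (nat_lit 94) (C_46 L129020 (C_46 L128983 (C_46 L129028 N_46))) (by decide +kernel)
theorem L129030 : W_46 (nat_lit 2) (nat_lit 0x1c000c0000000700000000000000000000000) (nat_lit 0x0) (nat_lit 0x4000000030000000000000000000) := D_46 (nat_lit 110) (nat_lit 76) (nat_lit 77) (nat_lit 5) (nat_lit 8) (nat_lit 4) (nat_lit 6) (nat_lit 8) (nat_lit 8) (by decide +kernel)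
theorem L129031 : W_46 (nat_lit 5) (nat_lit 0x1c002c0010000700000000000000000000000) (nat_lit 0x0) (nat_lit 0x40000000280018801c0000000000000000000) := T_46 (nat_lit 95) (nat_lit 113) (nat_lit 3) (nat_lit 7) (nat_lit 5) L128994 (by decide +kernel)
theorem L129032 : W_46 (nat_lit 6) (nat_lit 0x1c000c0010000700000000000000000000000) (nat_lit 0x0) (nat_lit 0x40003000280018801c0000000000000000000) := T_46 (nat_lit 129) (nat_lit 128) (nat_lit 1) (nat_lit 10) (nat_lit 7) L129031 (by decide +kernel)
theorem L129033 : W_46 (nat_lit 2) (nat_lit 0x1c002c0010000f00080000000000000000000) (nat_lit 0x0) (nat_lit 0x4000000000001000100000000000000000000) := D_46 (nat_lit 96) (nat_lit 80) (nat_lit 146) (nat_lit 2) (nat_lit 8) (nat_lit 5) (nat_lit 6) (nat_lit 10) (nat_lit 8) (by decide +kernel)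
theorem L129034 : W_46 (nat_lit 3) (nat_lit 0x1c002c0010000f00000000000000000000000) (nat_lit 0x0) (nat_lit 0x40000000000010001c0000000000000000000) := T_46 (nat_lit 79) (nat_lit 78) (nat_lit 2) (nat_lit 7) (nat_lit 5) L129033 (by decide +kernel)
theorem L129035 : W_46 (nat_lit 4) (nat_lit 0x1c002c0010000700000000000000000000000) (nat_lit 0x0) (nat_lit 0x40000000200018001c0000000000000000000) := T_46 (nat_lit 95) (nat_lit 113) (nat_lit 3) (nat_lit 7) (nat_lit 5) L129034 (by decide +kernel)
theorem L129036 : W_46 (nat_lit 5) (nat_lit 0x1c000c0010000700000000000000000000000) (nat_lit 0x0) (nat_lit 0x40003000200018001c0000000000000000000) := T_46 (nat_lit 129) (nat_lit 128) (nat_lit 1) (nat_lit 10) (nat_lit 7) L129035 (by decide +kernel)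
theorem L129037 : W_46 (nat_lit 2) (nat_lit 0x1c000c0018000700010000000000000000000) (nat_lit 0x0) (nat_lit 0x60000800000000000000000000000) := D_46 (nat_lit 113) (nat_lit 95) (nat_lit 114) (nat_lit 3) (nat_lit 7) (nat_lit 5) (nat_lit 0) (nat_lit 12) (nat_lit 6) (by decide +kernel)
theorem L129038 : W_46 (nat_lit 3) (nat_lit 0x1c000c0010000700010000000000000000000) (nat_lit 0x0) (nat_lit 0x68000880000000000000000000000) := T_46 (nat_lit 111) (nat_lit 91) (nat_lit 3) (nat_lit 6) (nat_lit 5) L129037 (by decide +kernel)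
theorem L129039 : W_46 (nat_lit 4) (nat_lit 0x1c000c0010000700000000000000000000000) (nat_lit 0x0) (nat_lit 0x6c000880010000000000000000000) := T_46 (nat_lit 76) (nat_lit 110) (nat_lit 5) (nat_lit 8) (nat_lit 4) L129038 (by decide +kernel)
theorem L129040 : W_46 (nat_lit 2) (nat_lit 0x1c002c0014000700000000000000000000000) (nat_lit 0x0) (nat_lit 0x28000080000000000000000000000) := D_46 (nat_lit 111) (nat_lit 91) (nat_lit 113) (nat_lit 3) (nat_lit 6) (nat_lit 5) (nat_lit 1) (nat_lit 11) (nat_lit 6) (by decide +kernel)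
theorem L129041 : W_46 (nat_lit 3) (nat_lit 0x1c002c0010000700000000000000000000000) (nat_lit 0x0) (nat_lit 0x2c000080010000000000000000000) := T_46 (nat_lit 110) (nat_lit 76) (nat_lit 5) (nat_lit 8) (nat_lit 4) L129040 (by decide +kernel)
theorem L129042 : W_46 (nat_lit 4) (nat_lit 0x1c000c0010000700000000000000000000000) (nat_lit 0x0) (nat_lit 0x30002c000080010000000000000000000) := T_46 (nat_lit 129) (nat_lit 128) (nat_lit 1) (nat_lit 10) (nat_lit 7) L129041 (by decide +kernel)
theorem L129043 : W_46 (nat_lit 2) (nat_lit 0x1c000c0018000700000000000000000000000) (nat_lit 0x0) (nat_lit 0x320000000000000000000000000000000) := D_46 (nat_lit 128) (nat_lit 129) (nat_lit 125) (nat_lit 1) (nat_lit 10) (nat_lit 7) (nat_lit 2) (nat_lit 6) (nat_lit 7) (by decide +kernel)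
theorem L129044 : W_46 (nat_lit 3) (nat_lit 0x1c000c0010000700000000000000000000000) (nat_lit 0x0) (nat_lit 0x320008000080000000000000000000000) := T_46 (nat_lit 111) (nat_lit 91) (nat_lit 3) (nat_lit 6) (nat_lit 5) L129043 (by decide +kernel)
theorem L129045 : W_46 (nat_lit 7) (nat_lit 0x1c000c0000000700000000000000000000000) (nat_lit 0x0) (nat_lit 0x400032007c0018801d0000000000000000000) := Q_46 (nat_lit 112) (C_46 L129032 (C_46 L129036 (C_46 L129039 (C_46 L129042 (C_46 L129044 N_46))))) (by decide +kernel)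
theorem L129046 : W_46 (nat_lit 8) (nat_lit 0x1c000c0000000300000000000000000000000) (nat_lit 0x0) (nat_lit 0x400032007c001c801f0000000000000000000) := Q_46 (nat_lit 94) (C_46 L129030 (C_46 L128983 (C_46 L129045 N_46))) (by decide +kernel)
theorem L129047 : W_46 (nat_lit 11) (nat_lit 0x1c000c0000000100000000000000000000000) (nat_lit 0x0) (nat_lit 0x18000c00072007c001ee01ff001000000000000000) := Q_46 (nat_lit 93) (C_46 L126979 (C_46 L129002 (C_46 L129029 (C_46 L129046 N_46)))) (by decide +kernel)
theorem L129048 : W_46 (nat_lit 2) (nat_lit 0x1c002c0002000700020000000000000000000) (nat_lit 0x0) (nat_lit 0x80044000000000000000000) := D_46 (nat_lit 91) (nat_lit 74) (nat_lit 78) (nat_lit 4) (nat_lit 7) (nat_lit 8) (nat_lit 2) (nat_lit 6) (nat_lit 5) (by decide +kernel)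
theorem L129049 : W_46 (nat_lit 3) (nat_lit 0x1c002c0000000700020000000000000000000) (nat_lit 0x0) (nat_lit 0x8000000000002000080044000000000000000000) := T_46 (nat_lit 109) (nat_lit 159) (nat_lit 5) (nat_lit 7) (nat_lit 5) L129048 (by decide +kernel)
theorem L129050 : W_46 (nat_lit 4) (nat_lit 0x1c002c0000000700000000000000000000000) (nat_lit 0x0) (nat_lit 0x8000000000006000080064000000000000000000) := T_46 (nat_lit 77) (nat_lit 110) (nat_lit 6) (nat_lit 8) (nat_lit 8) L129049 (by decide +kernel)
theorem L129051 : W_46 (nat_lit 5) (nat_lit 0x1c000c0000000700000000000000000000000) (nat_lit 0x0) (nat_lit 0x8000000300006000080064000000000000000000) := T_46 (nat_lit 129) (nat_lit 128) (nat_lit 1) (nat_lit 10) (nat_lit 7) L129050 (by decide +kernel)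
theorem L129052 : W_46 (nat_lit 2) (nat_lit 0x1c000c0002000780000000000000000000000) (nat_lit 0x0) (nat_lit 0x4000000060000000000000000000) := D_46 (nat_lit 77) (nat_lit 110) (nat_lit 78) (nat_lit 6) (nat_lit 8) (nat_lit 8) (nat_lit 2) (nat_lit 6) (nat_lit 5) (by decide +kernel)
theorem L129053 : W_46 (nat_lit 3) (nat_lit 0x1c000c0002000700000000000000000000000) (nat_lit 0x0) (nat_lit 0x4000080064000000000000000000) := T_46 (nat_lit 91) (nat_lit 74) (nat_lit 4) (nat_lit 7) (nat_lit 8) L129052 (by decide +kernel)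
theorem L129054 : W_46 (nat_lit 4) (nat_lit 0x1c000c0000000700000000000000000000000) (nat_lit 0x0) (nat_lit 0x8000000000006000080064000000000000000000) := T_46 (nat_lit 109) (nat_lit 159) (nat_lit 5) (nat_lit 7) (nat_lit 5) L129053 (by decide +kernel)
theorem L129055 : W_46 (nat_lit 2) (nat_lit 0x1c002c000a4007c0001000000000000000000) (nat_lit 0x0) (nat_lit 0x200020000800000000000000000) := D_46 (nat_lit 89) (nat_lit 105) (nat_lit 71) (nat_lit 1) (nat_lit 7) (nat_lit 5) (nat_lit 0) (nat_lit 7) (nat_lit 5) (by decide +kernel)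
theorem L129056 : W_46 (nat_lit 3) (nat_lit 0x1c002c000a4007c0000000000000000000000) (nat_lit 0x0) (nat_lit 0x200020003800000000000000000) := T_46 (nat_lit 72) (nat_lit 73) (nat_lit 0) (nat_lit 8) (nat_lit 5) L129055 (by decide +kernel)
theorem L129057 : W_46 (nat_lit 4) (nat_lit 0x1c002c000a0007c0000000000000000000000) (nat_lit 0x0) (nat_lit 0xe00020003800000000000000000) := T_46 (nat_lit 106) (nat_lit 107) (nat_lit 1) (nat_lit 8) (nat_lit 5) L129056 (by decide +kernel)
theorem L129058 : W_46 (nat_lit 5) (nat_lit 0x1c002c000a000780000000000000000000000) (nat_lit 0x0) (nat_lit 0x4e00060003800000000000000000) := T_46 (nat_lit 90) (nat_lit 110) (nat_lit 3) (nat_lit 5) (nat_lit 5) L129057 (by decide +kernel)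
theorem L129059 : W_46 (nat_lit 6) (nat_lit 0x1c002c0002000780000000000000000000000) (nat_lit 0x0) (nat_lit 0x1ce00060003800000000000000000) := T_46 (nat_lit 111) (nat_lit 112) (nat_lit 3) (nat_lit 6) (nat_lit 5) L129058 (by decide +kernel)
theorem L129060 : W_46 (nat_lit 7) (nat_lit 0x1c002c0002000700000000000000000000000) (nat_lit 0x0) (nat_lit 0x1ce000e0007800000000000000000) := T_46 (nat_lit 91) (nat_lit 74) (nat_lit 4) (nat_lit 7) (nat_lit 8) L129059 (by decide +kernel)
theorem L129061 : W_46 (nat_lit 8) (nat_lit 0x1c002c0000000700000000000000000000000) (nat_lit 0x0) (nat_lit 0x800000000001ee000e0007800000000000000000) := T_46 (nat_lit 109) (nat_lit 159) (nat_lit 5) (nat_lit 7) (nat_lit 5) L129060 (by decide +kernel)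
theorem L129062 : W_46 (nat_lit 9) (nat_lit 0x1c000c0000000700000000000000000000000) (nat_lit 0x0) (nat_lit 0x800000030001ee000e0007800000000000000000) := T_46 (nat_lit 129) (nat_lit 128) (nat_lit 1) (nat_lit 10) (nat_lit 7) L129061 (by decide +kernel)
theorem L129063 : W_46 (nat_lit 10) (nat_lit 0x1c000c0000000300000000000000000000000) (nat_lit 0x0) (nat_lit 0x800000032007ee00ce0067800000000000000000) := Q_46 (nat_lit 94) (C_46 L129051 (C_46 L128983 (C_46 L129054 (C_46 L129062 N_46)))) (by decide +kernel)
theorem L129064 : W_46 (nat_lit 11) (nat_lit 0x1c000c0000000100000000000000000000000) (nat_lit 0x0) (nat_lit 0x800400032007ee01ee01f7800000000000000000) := Q_46 (nat_lit 93) (C_46 L129046 (C_46 L129004 (C_46 L129063 N_46))) (by decide +kernel)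
theorem L129065 : W_46 (nat_lit 12) (nat_lit 0x1c000c0000000000000000000000000000000) (nat_lit 0x0) (nat_lit 0x18800c00072007ee01fe01ff801000000000000000) := Q_46 (nat_lit 92) (C_46 L127133 (C_46 L129047 (C_46 L126978 (C_46 L129064 N_46)))) (by decide +kernel)
theorem L129066 : W_46 (nat_lit 2) (nat_lit 0x1c000f0004800700002000000000000000000) (nat_lit 0x0) (nat_lit 0x100008000000000002000000000000000000000000000) := D_46 (nat_lit 159) (nat_lit 176) (nat_lit 109) (nat_lit 4) (nat_lit 6) (nat_lit 10) (nat_lit 5) (nat_lit 7) (nat_lit 5) (by decide +kernel)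
theorem L129067 : W_46 (nat_lit 3) (nat_lit 0x1c000f0004800600002000000000000000000) (nat_lit 0x0) (nat_lit 0x100008000000000002000100008000000000000000000) := T_46 (nat_lit 92) (nat_lit 75) (nat_lit 4) (nat_lit 8) (nat_lit 8) L129066 (by decide +kernel)
theorem L129068 : W_46 (nat_lit 4) (nat_lit 0x1c000f0004800200002000000000000000000) (nat_lit 0x0) (nat_lit 0x100008000000000002000500028000000000000000000) := T_46 (nat_lit 94) (nat_lit 77) (nat_lit 6) (nat_lit 8) (nat_lit 8) L129067 (by decide +kernel)
theorem L129069 : W_46 (nat_lit 5) (nat_lit 0x1c000f0004800200000000000000000000000) (nat_lit 0x0) (nat_lit 0x10000800000000000200054002a000000000000000000) := T_46 (nat_lit 73) (nat_lit 90) (nat_lit 7) (nat_lit 5) (nat_lit 4) L129068 (by decide +kernel)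
theorem L129070 : W_46 (nat_lit 6) (nat_lit 0x1c000f0004800000000000000000000000000) (nat_lit 0x0) (nat_lit 0x10000800000000000200074003a000000000000000000) := T_46 (nat_lit 93) (nat_lit 76) (nat_lit 5) (nat_lit 8) (nat_lit 4) L129069 (by decide +kernel)
theorem L129071 : W_46 (nat_lit 7) (nat_lit 0x1c000f0004000000000000000000000000000) (nat_lit 0x0) (nat_lit 0x100008000000000002c0074003a000000000000000000) := T_46 (nat_lit 107) (nat_lit 106) (nat_lit 0) (nat_lit 8) (nat_lit 7) L129070 (by decide +kernel)
theorem L129072 : W_46 (nat_lit 8) (nat_lit 0x1c000f0000000000000000000000000000000) (nat_lit 0x0) (nat_lit 0x10000800000000000ec0074003a000000000000000000) := T_46 (nat_lit 110) (nat_lit 111) (nat_lit 2) (nat_lit 5) (nat_lit 7) L129071 (by decide +kernel)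
theorem L129073 : W_46 (nat_lit 9) (nat_lit 0x1c000d0000000000000000000000000000000) (nat_lit 0x0) (nat_lit 0x10000800000002800ec0074003a000000000000000000) := T_46 (nat_lit 125) (nat_lit 123) (nat_lit 3) (nat_lit 4) (nat_lit 7) L129072 (by decide +kernel)
theorem L129074 : W_46 (nat_lit 3) (nat_lit 0x2000000008001e000d0000800000000000000000000000000) (nat_lit 0x0) (nat_lit 0x6000000020000400020000000000000000000000) := T_46 (nat_lit 158) (nat_lit 157) (nat_lit 1) (nat_lit 8) (nat_lit 8) L126749 (by decide +kernel)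
theorem L129075 : W_46 (nat_lit 4) (nat_lit 0x2000000008001e000d0000000000000000000000000000000) (nat_lit 0x0) (nat_lit 0x6000000020000c00060000000000000000000000) := T_46 (nat_lit 107) (nat_lit 90) (nat_lit 7) (nat_lit 5) (nat_lit 5) L129074 (by decide +kernel)
theorem L129076 : W_46 (nat_lit 5) (nat_lit 0x8001e000d0000000000000000000000000000000) (nat_lit 0x0) (nat_lit 0x2000100006000000020000c00060000000000000000000000) := T_46 (nat_lit 193) (nat_lit 176) (nat_lit 6) (nat_lit 6) (nat_lit 11) L129075 (by decide +kernel)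
theorem L129077 : W_46 (nat_lit 6) (nat_lit 0x8001c000d0000000000000000000000000000000) (nat_lit 0x0) (nat_lit 0x2000100006000300020000c00060000000000000000000000) := T_46 (nat_lit 141) (nat_lit 140) (nat_lit 2) (nat_lit 4) (nat_lit 8) L129076 (by decide +kernel)
theorem L129078 : W_46 (nat_lit 2) (nat_lit 0x100008001e000d0000000000000000000000000000000) (nat_lit 0x0) (nat_lit 0x6000000000000800000000000000000000000000) := D_46 (nat_lit 158) (nat_lit 157) (nat_lit 107) (nat_lit 1) (nat_lit 8) (nat_lit 8) (nat_lit 7) (nat_lit 5) (nat_lit 6) (by decide +kernel)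
theorem L129079 : W_46 (nat_lit 3) (nat_lit 0x100008001c000d0000000000000000000000000000000) (nat_lit 0x0) (nat_lit 0x6000300000000800000000000000000000000000) := T_46 (nat_lit 141) (nat_lit 140) (nat_lit 2) (nat_lit 4) (nat_lit 8) L129078 (by decide +kernel)
theorem L129080 : W_46 (nat_lit 4) (nat_lit 0x8001c000d0000000000000000000000000000000) (nat_lit 0x0) (nat_lit 0x2000100006000300000000800000000000000000000000000) := T_46 (nat_lit 176) (nat_lit 193) (nat_lit 6) (nat_lit 6) (nat_lit 11) L129079 (by decide +kernel)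
theorem L129081 : W_46 (nat_lit 2) (nat_lit 0x100008001c000f0004000100000000000000000000000) (nat_lit 0x0) (nat_lit 0x200018000000000000000000) := D_46 (nat_lit 93) (nat_lit 75) (nat_lit 76) (nat_lit 4) (nat_lit 8) (nat_lit 8) (nat_lit 5) (nat_lit 8) (nat_lit 4) (by decide +kernel)
theorem L129082 : W_46 (nat_lit 3) (nat_lit 0x100008001c000f0000000100000000000000000000000) (nat_lit 0x0) (nat_lit 0xc000200018000000000000000000) := T_46 (nat_lit 110) (nat_lit 111) (nat_lit 2) (nat_lit 5) (nat_lit 7) L129081 (by decide +kernel)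
theorem L129083 : W_46 (nat_lit 4) (nat_lit 0x100008001c000d0000000100000000000000000000000) (nat_lit 0x0) (nat_lit 0x2000c800200018000000000000000000) := T_46 (nat_lit 125) (nat_lit 107) (nat_lit 4) (nat_lit 6) (nat_lit 10) L129082 (by decide +kernel)
theorem L129084 : W_46 (nat_lit 5) (nat_lit 0x8001c000d0000000100000000000000000000000) (nat_lit 0x0) (nat_lit 0x200010000000000002000c800200018000000000000000000) := T_46 (nat_lit 176) (nat_lit 193) (nat_lit 6) (nat_lit 6) (nat_lit 11) L129083 (by decide +kernel)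
theorem L129085 : W_46 (nat_lit 6) (nat_lit 0x8001c000d0000000000000000000000000000000) (nat_lit 0x0) (nat_lit 0x200010000000000002000e800300018000000000000000000) := T_46 (nat_lit 92) (nat_lit 109) (nat_lit 5) (nat_lit 7) (nat_lit 5) L129084 (by decide +kernel)
theorem L129086 : W_46 (nat_lit 5) (nat_lit 0x8001e000d0000000000000000000000000000000) (nat_lit 0x0) (nat_lit 0x6000000020002c00160000000000000000000000) := T_46 (nat_lit 92) (nat_lit 109) (nat_lit 5) (nat_lit 7) (nat_lit 5) L126758 (by decide +kernel)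
theorem L129087 : W_46 (nat_lit 6) (nat_lit 0x8001c000d0000000000000000000000000000000) (nat_lit 0x0) (nat_lit 0x6000300020002c00160000000000000000000000) := T_46 (nat_lit 141) (nat_lit 140) (nat_lit 2) (nat_lit 4) (nat_lit 8) L129086 (by decide +kernel)
theorem L129088 : W_46 (nat_lit 2) (nat_lit 0x100008001d000d0000000000000000000000000000000) (nat_lit 0x0) (nat_lit 0x20002000100000000000000000000000) := D_46 (nat_lit 109) (nat_lit 92) (nat_lit 125) (nat_lit 5) (nat_lit 7) (nat_lit 5) (nat_lit 6) (nat_lit 6) (nat_lit 10) (by decide +kernel)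
theorem L129089 : W_46 (nat_lit 3) (nat_lit 0x8001d000d0000000000000000000000000000000) (nat_lit 0x0) (nat_lit 0x2000100000000000020002000100000000000000000000000) := T_46 (nat_lit 176) (nat_lit 193) (nat_lit 6) (nat_lit 6) (nat_lit 11) L129088 (by decide +kernel)
theorem L129090 : W_46 (nat_lit 4) (nat_lit 0x8001c000d0000000000000000000000000000000) (nat_lit 0x0) (nat_lit 0x2000100000000300020002000100000000000000000000000) := T_46 (nat_lit 140) (nat_lit 141) (nat_lit 2) (nat_lit 4) (nat_lit 8) L129089 (by decide +kernel)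
theorem L129091 : W_46 (nat_lit 7) (nat_lit 0x1c000d0000000000000000000000000000000) (nat_lit 0x0) (nat_lit 0x200010000e00030002000ec00360018000000000000000000) := Q_46 (nat_lit 159) (C_46 L129077 (C_46 L129080 (C_46 L129085 (C_46 L129087 (C_46 L129090 N_46))))) (by decide +kernel)
theorem L129092 : W_46 (nat_lit 10) (nat_lit 0x1c000c0000000000000000000000000000000) (nat_lit 0x0) (nat_lit 0x200010000e00030003800ec0076003a000000000000000000) := Q_46 (nat_lit 124) (C_46 L122493 (C_46 L129073 (C_46 L129091 N_46))) (by decide +kernel)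
theorem L129093 : W_46 (nat_lit 13) (nat_lit 0x18000c0000000000000000000000000000000) (nat_lit 0x0) (nat_lit 0x200010018e00c70073807ee01fe01ff801000000000000000) := Q_46 (nat_lit 142) (C_46 L127188 (C_46 L129065 (C_46 L129092 N_46))) (by decide +kernel)
theorem L129094 : W_46 (nat_lit 2) (nat_lit 0x800380004001a000d0004000000000000000000000000000) (nat_lit 0x0) (nat_lit 0x10001000400000000000000000000000000000000000000000000) := D_46 (nat_lit 192) (nat_lit 178) (nat_lit 208) (nat_lit 1) (nat_lit 8) (nat_lit 10) (nat_lit 5) (nat_lit 5) (nat_lit 8) (by decide +kernel)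
theorem L129095 : W_46 (nat_lit 3) (nat_lit 0x380004001a000d0004000000000000000000000000000) (nat_lit 0x0) (nat_lit 0x10001800440000000000000000000000000000000000000000000) := T_46 (nat_lit 191) (nat_lit 174) (nat_lit 5) (nat_lit 5) (nat_lit 7) L129094 (by decide +kernel)
theorem L129096 : W_46 (nat_lit 4) (nat_lit 0x300004001a000d0004000000000000000000000000000) (nat_lit 0x0) (nat_lit 0x100038004c0000000000000000000000000000000000000000000) := T_46 (nat_lit 175) (nat_lit 193) (nat_lit 7) (nat_lit 5) (nat_lit 7) L129095 (by decide +kernel)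
theorem L129097 : W_46 (nat_lit 5) (nat_lit 0x100004001a000d0004000000000000000000000000000) (nat_lit 0x0) (nat_lit 0x100038006c0010000000000000000000000000000000000000000) := T_46 (nat_lit 177) (nat_lit 160) (nat_lit 6) (nat_lit 7) (nat_lit 10) L129096 (by decide +kernel)
theorem L129098 : W_46 (nat_lit 2) (nat_lit 0x1e000c001b800d8004000000000000000000000000000) (nat_lit 0x0) (nat_lit 0x600000001000000000000000000000000000000000000000) := D_46 (nat_lit 190) (nat_lit 189) (nat_lit 156) (nat_lit 1) (nat_lit 6) (nat_lit 10) (nat_lit 6) (nat_lit 3) (nat_lit 11) (by decide +kernel)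
theorem L129099 : W_46 (nat_lit 3) (nat_lit 0x1c000c001b800d8004000000000000000000000000000) (nat_lit 0x0) (nat_lit 0x600030001000000000000000000000000000000000000000) := T_46 (nat_lit 173) (nat_lit 172) (nat_lit 2) (nat_lit 2) (nat_lit 10) L129098 (by decide +kernel)
theorem L129100 : W_46 (nat_lit 4) (nat_lit 0x1c000c001b000d8004000000000000000000000000000) (nat_lit 0x0) (nat_lit 0x6000300010000c0000000000000000000000000000000000) := T_46 (nat_lit 139) (nat_lit 138) (nat_lit 3) (nat_lit 2) (nat_lit 8) L129099 (by decide +kernel)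
theorem L129101 : W_46 (nat_lit 5) (nat_lit 0x1c000c001a000d8004000000000000000000000000000) (nat_lit 0x0) (nat_lit 0x16000300010001c0000000000000000000000000000000000) := T_46 (nat_lit 140) (nat_lit 192) (nat_lit 4) (nat_lit 5) (nat_lit 11) L129100 (by decide +kernel)
theorem L129102 : W_46 (nat_lit 6) (nat_lit 0x1c0004001a000d8004000000000000000000000000000) (nat_lit 0x0) (nat_lit 0x16000300090001c0000000800000000000000000000000000) := T_46 (nat_lit 159) (nat_lit 107) (nat_lit 7) (nat_lit 5) (nat_lit 6) L129101 (by decide +kernel)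
theorem L129103 : W_46 (nat_lit 7) (nat_lit 0x1c0004001a000d0004000000000000000000000000000) (nat_lit 0x0) (nat_lit 0x16000300090001c0008000c00000000000000000000000000) := T_46 (nat_lit 123) (nat_lit 106) (nat_lit 4) (nat_lit 5) (nat_lit 10) L129102 (by decide +kernel)
theorem L129104 : W_46 (nat_lit 8) (nat_lit 0x180004001a000d0004000000000000000000000000000) (nat_lit 0x0) (nat_lit 0x1e000700090001c0008000c00000000000000000000000000) := T_46 (nat_lit 174) (nat_lit 191) (nat_lit 5) (nat_lit 5) (nat_lit 7) L129103 (by decide +kernel)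
theorem L129105 : W_46 (nat_lit 9) (nat_lit 0x100004001a000d0004000000000000000000000000000) (nat_lit 0x0) (nat_lit 0x3e000f00090001c0008000c00000000000000000000000000) := T_46 (nat_lit 175) (nat_lit 193) (nat_lit 7) (nat_lit 5) (nat_lit 7) L129104 (by decide +kernel)
theorem L129106 : W_46 (nat_lit 2) (nat_lit 0x10000c001a000d0004000000000000000000000000000) (nat_lit 0x0) (nat_lit 0x200010000000000002000000000000000000000000000) := D_46 (nat_lit 160) (nat_lit 177) (nat_lit 109) (nat_lit 6) (nat_lit 7) (nat_lit 10) (nat_lit 5) (nat_lit 7) (nat_lit 6) (by decide +kernel)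
theorem L129107 : W_46 (nat_lit 3) (nat_lit 0x100004001a000d0004000000000000000000000000000) (nat_lit 0x0) (nat_lit 0x200018000000000002800000000000000000000000000) := T_46 (nat_lit 159) (nat_lit 107) (nat_lit 7) (nat_lit 5) (nat_lit 6) L129106 (by decide +kernel)
theorem L129108 : W_46 (nat_lit 2) (nat_lit 0x80003c000c001a000d8004000000000000000000000000000) (nat_lit 0x0) (nat_lit 0x10000c00000000000000000000000000000000000000000000) := D_46 (nat_lit 178) (nat_lit 179) (nat_lit 196) (nat_lit 0) (nat_lit 9) (nat_lit 10) (nat_lit 3) (nat_lit 5) (nat_lit 10) (by decide +kernel)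
theorem L129109 : W_46 (nat_lit 3) (nat_lit 0x3c000c001a000d8004000000000000000000000000000) (nat_lit 0x0) (nat_lit 0x1c000c00000000000000000000000000000000000000000000) := T_46 (nat_lit 195) (nat_lit 194) (nat_lit 3) (nat_lit 4) (nat_lit 10) L129108 (by decide +kernel)
theorem L129110 : W_46 (nat_lit 4) (nat_lit 0x3c0004001a000d8004000000000000000000000000000) (nat_lit 0x0) (nat_lit 0x1c000c00008000000000000800000000000000000000000000) := T_46 (nat_lit 159) (nat_lit 107) (nat_lit 7) (nat_lit 5) (nat_lit 6) L129109 (by decide +kernel)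
theorem L129111 : W_46 (nat_lit 5) (nat_lit 0x2c0004001a000d8004000000000000000000000000000) (nat_lit 0x0) (nat_lit 0x1e000d00008000000000000800000000000000000000000000) := T_46 (nat_lit 176) (nat_lit 193) (nat_lit 7) (nat_lit 5) (nat_lit 7) L129110 (by decide +kernel)
theorem L129112 : W_46 (nat_lit 6) (nat_lit 0x280004001a000d8004000000000000000000000000000) (nat_lit 0x0) (nat_lit 0x1e800d40008000000000000800000000000000000000000000) := T_46 (nat_lit 174) (nat_lit 191) (nat_lit 5) (nat_lit 5) (nat_lit 7) L129111 (by decide +kernel)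
theorem L129113 : W_46 (nat_lit 7) (nat_lit 0x200004001a000d8004000000000000000000000000000) (nat_lit 0x0) (nat_lit 0x1e800dc0008000000000000c00000000000000000000000000) := T_46 (nat_lit 175) (nat_lit 106) (nat_lit 4) (nat_lit 5) (nat_lit 10) L129112 (by decide +kernel)
theorem L129114 : W_46 (nat_lit 8) (nat_lit 0x200004001a000d0004000000000000000000000000000) (nat_lit 0x0) (nat_lit 0x1e800dc0008000400008000c00000000000000000000000000) := T_46 (nat_lit 123) (nat_lit 142) (nat_lit 0) (nat_lit 8) (nat_lit 8) L129113 (by decide +kernel)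
theorem L129115 : W_46 (nat_lit 9) (nat_lit 0x4001a000d0004000000000000000000000000000) (nat_lit 0x0) (nat_lit 0x1e800fc0018000400008000c00000000000000000000000000) := T_46 (nat_lit 177) (nat_lit 160) (nat_lit 6) (nat_lit 7) (nat_lit 10) L129114 (by decide +kernel)
theorem L129116 : W_46 (nat_lit 2) (nat_lit 0x2000100004001b000d0004000000000000000000000000000) (nat_lit 0x0) (nat_lit 0x40000000000008000000000000800000000000000000000000000) := D_46 (nat_lit 159) (nat_lit 107) (nat_lit 210) (nat_lit 7) (nat_lit 5) (nat_lit 6) (nat_lit 4) (nat_lit 6) (nat_lit 12) (by decide +kernel)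
theorem L129117 : W_46 (nat_lit 3) (nat_lit 0x100004001b000d0004000000000000000000000000000) (nat_lit 0x0) (nat_lit 0x40002000080008000000000000800000000000000000000000000) := T_46 (nat_lit 193) (nat_lit 175) (nat_lit 7) (nat_lit 5) (nat_lit 7) L129116 (by decide +kernel)
theorem L129118 : W_46 (nat_lit 4) (nat_lit 0x100004001a000d0004000000000000000000000000000) (nat_lit 0x0) (nat_lit 0x40002000080008000500000000800000000000000000000000000) := T_46 (nat_lit 140) (nat_lit 142) (nat_lit 2) (nat_lit 4) (nat_lit 8) L129117 (by decide +kernel)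
theorem L129119 : W_46 (nat_lit 6) (nat_lit 0x4001a000d0004000000000000000000000000000) (nat_lit 0x0) (nat_lit 0x500038007c0018000500000002800000000000000000000000000) := Q_46 (nat_lit 176) (C_46 L129097 (C_46 L129107 (C_46 L129118 N_46))) (by decide +kernel)
theorem L129120 : W_46 (nat_lit 2) (nat_lit 0x1a000c0004000000000000000000000000000) (nat_lit 0x0) (nat_lit 0x500100000000000000000000000000000000) := D_46 (nat_lit 142) (nat_lit 128) (nat_lit 140) (nat_lit 2) (nat_lit 5) (nat_lit 8) (nat_lit 2) (nat_lit 4) (nat_lit 8) (by decide +kernel)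
theorem L129121 : W_46 (nat_lit 2) (nat_lit 0x1d000c0006000780000000000000000000000) (nat_lit 0x0) (nat_lit 0x18000040000000000000000000000) := D_46 (nat_lit 111) (nat_lit 112) (nat_lit 90) (nat_lit 3) (nat_lit 6) (nat_lit 5) (nat_lit 3) (nat_lit 5) (nat_lit 5) (by decide +kernel)
theorem L129122 : W_46 (nat_lit 3) (nat_lit 0x1d000c0006000700000000000000000000000) (nat_lit 0x0) (nat_lit 0x180000c0004000000000000000000) := T_46 (nat_lit 91) (nat_lit 74) (nat_lit 4) (nat_lit 7) (nat_lit 8) L129121 (by decide +kernel)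
theorem L129123 : W_46 (nat_lit 4) (nat_lit 0x1d000c0004000700000000000000000000000) (nat_lit 0x0) (nat_lit 0x800000000001a0000c0004000000000000000000) := T_46 (nat_lit 109) (nat_lit 159) (nat_lit 5) (nat_lit 7) (nat_lit 5) L129122 (by decide +kernel)
theorem L129124 : W_46 (nat_lit 5) (nat_lit 0x1d000c0004000300000000000000000000000) (nat_lit 0x0) (nat_lit 0x800000000001a0004c0024000000000000000000) := T_46 (nat_lit 94) (nat_lit 77) (nat_lit 6) (nat_lit 8) (nat_lit 8) L129123 (by decide +kernel)
theorem L129125 : W_46 (nat_lit 6) (nat_lit 0x1d000c0004000200000000000000000000000) (nat_lit 0x0) (nat_lit 0x800000000001a0005c002c000000000000000000) := T_46 (nat_lit 92) (nat_lit 75) (nat_lit 4) (nat_lit 8) (nat_lit 8) L129124 (by decide +kernel)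
theorem L129126 : W_46 (nat_lit 7) (nat_lit 0x1d000c0004000000000000000000000000000) (nat_lit 0x0) (nat_lit 0x800000000001a0007c003c000000000000000000) := T_46 (nat_lit 93) (nat_lit 76) (nat_lit 5) (nat_lit 8) (nat_lit 4) L129125 (by decide +kernel)
theorem L129127 : W_46 (nat_lit 8) (nat_lit 0x1c000c0004000000000000000000000000000) (nat_lit 0x0) (nat_lit 0x800030000001a0007c003c000000000000000000) := T_46 (nat_lit 140) (nat_lit 141) (nat_lit 2) (nat_lit 4) (nat_lit 8) L129126 (by decide +kernel)
theorem L129128 : W_46 (nat_lit 3) (nat_lit 0x100000001c000c0004000000000000000000000000000) (nat_lit 0x0) (nat_lit 0x2000200018000000000002000000000000000000000000000) := T_46 (nat_lit 160) (nat_lit 177) (nat_lit 6) (nat_lit 7) (nat_lit 10) L122708 (by decide +kernel)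
theorem L129129 : W_46 (nat_lit 2) (nat_lit 0x800380004001e000d0004000000000000000000000000000) (nat_lit 0x0) (nat_lit 0x10001000400000000000000000000000000000000000000000000) := D_46 (nat_lit 192) (nat_lit 178) (nat_lit 208) (nat_lit 1) (nat_lit 8) (nat_lit 10) (nat_lit 5) (nat_lit 5) (nat_lit 8) (by decide +kernel)
theorem L129130 : W_46 (nat_lit 3) (nat_lit 0x380004001e000d0004000000000000000000000000000) (nat_lit 0x0) (nat_lit 0x10001800440000000000000000000000000000000000000000000) := T_46 (nat_lit 191) (nat_lit 174) (nat_lit 5) (nat_lit 5) (nat_lit 7) L129129 (by decide +kernel)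
theorem L129131 : W_46 (nat_lit 4) (nat_lit 0x300004001e000d0004000000000000000000000000000) (nat_lit 0x0) (nat_lit 0x100038004c0000000000000000000000000000000000000000000) := T_46 (nat_lit 175) (nat_lit 193) (nat_lit 7) (nat_lit 5) (nat_lit 7) L129130 (by decide +kernel)
theorem L129132 : W_46 (nat_lit 5) (nat_lit 0x300004001e000c0004000000000000000000000000000) (nat_lit 0x0) (nat_lit 0x100038004c0000000000018000000000000000000000000000000) := T_46 (nat_lit 124) (nat_lit 123) (nat_lit 0) (nat_lit 8) (nat_lit 8) L129131 (by decide +kernel)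
theorem L129133 : W_46 (nat_lit 6) (nat_lit 0x300000001e000c0004000000000000000000000000000) (nat_lit 0x0) (nat_lit 0x100038004c0006000000018000000000000000000000000000000) := T_46 (nat_lit 158) (nat_lit 157) (nat_lit 1) (nat_lit 8) (nat_lit 8) L129132 (by decide +kernel)
theorem L129134 : W_46 (nat_lit 7) (nat_lit 0x300000001c000c0004000000000000000000000000000) (nat_lit 0x0) (nat_lit 0x100038004c0006000300018000000000000000000000000000000) := T_46 (nat_lit 141) (nat_lit 140) (nat_lit 2) (nat_lit 4) (nat_lit 8) L129133 (by decide +kernel)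
theorem L129135 : W_46 (nat_lit 8) (nat_lit 0x100000001c000c0004000000000000000000000000000) (nat_lit 0x0) (nat_lit 0x100038006c0016000300018000000000000000000000000000000) := T_46 (nat_lit 177) (nat_lit 160) (nat_lit 6) (nat_lit 7) (nat_lit 10) L129134 (by decide +kernel)
theorem L129136 : W_46 (nat_lit 4) (nat_lit 0x100000001e000c0004000000000000000000000000000) (nat_lit 0x0) (nat_lit 0x200008000e000000018000000000000000000000000000000) := T_46 (nat_lit 193) (nat_lit 159) (nat_lit 6) (nat_lit 6) (nat_lit 11) L123122 (by decide +kernel)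
theorem L129137 : W_46 (nat_lit 5) (nat_lit 0x100000001c000c0004000000000000000000000000000) (nat_lit 0x0) (nat_lit 0x200008000e000300018000000000000000000000000000000) := T_46 (nat_lit 141) (nat_lit 140) (nat_lit 2) (nat_lit 4) (nat_lit 8) L129136 (by decide +kernel)
theorem L129138 : W_46 (nat_lit 2) (nat_lit 0x10001c001e000c0004000000000000000000000000000) (nat_lit 0x0) (nat_lit 0x18000800000000000000000000000000) := D_46 (nat_lit 124) (nat_lit 123) (nat_lit 107) (nat_lit 0) (nat_lit 8) (nat_lit 8) (nat_lit 7) (nat_lit 5) (nat_lit 6) (by decide +kernel)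
theorem L129139 : W_46 (nat_lit 3) (nat_lit 0x100018001e000c0004000000000000000000000000000) (nat_lit 0x0) (nat_lit 0x6000000018000800000000000000000000000000) := T_46 (nat_lit 158) (nat_lit 157) (nat_lit 2) (nat_lit 4) (nat_lit 9) L129138 (by decide +kernel)
theorem L129140 : W_46 (nat_lit 4) (nat_lit 0x100010001e000c0004000000000000000000000000000) (nat_lit 0x0) (nat_lit 0xe000000018002800000000000000000000000000) := T_46 (nat_lit 159) (nat_lit 109) (nat_lit 5) (nat_lit 7) (nat_lit 6) L129139 (by decide +kernel)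
theorem L129141 : W_46 (nat_lit 5) (nat_lit 0x100010001c000c0004000000000000000000000000000) (nat_lit 0x0) (nat_lit 0xe000300018002800000000000000000000000000) := T_46 (nat_lit 141) (nat_lit 140) (nat_lit 2) (nat_lit 4) (nat_lit 8) L129140 (by decide +kernel)
theorem L129142 : W_46 (nat_lit 6) (nat_lit 0x100000001c000c0004000000000000000000000000000) (nat_lit 0x0) (nat_lit 0x20001e000300018002800000000000000000000000000) := T_46 (nat_lit 160) (nat_lit 177) (nat_lit 6) (nat_lit 7) (nat_lit 10) L129141 (by decide +kernel)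
theorem L129143 : W_46 (nat_lit 9) (nat_lit 0x1c000c0004000000000000000000000000000) (nat_lit 0x0) (nat_lit 0x100038007c001e000300018002800000000000000000000000000) := Q_46 (nat_lit 176) (C_46 L129128 (C_46 L129135 (C_46 L129137 (C_46 L129142 N_46)))) (by decide +kernel)
theorem L129144 : W_46 (nat_lit 10) (nat_lit 0x1c000c0000000000000000000000000000000) (nat_lit 0x0) (nat_lit 0x100038007c001e00030001801e8007c003c000000000000000000) := Q_46 (nat_lit 110) (C_46 L122826 (C_46 L129127 (C_46 L129143 N_46))) (by decide +kernel)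
theorem L129145 : W_46 (nat_lit 6) (nat_lit 0x1c000c0000000700000000000000000000000) (nat_lit 0x0) (nat_lit 0x40003000700018001fc001000000000000000) := Q_46 (nat_lit 95) (C_46 L129000 (C_46 L128987 (C_46 L128951 (C_46 L128942 N_46)))) (by decide +kernel)
theorem L129146 : W_46 (nat_lit 3) (nat_lit 0x1c001c0008000700000000000000000000000) (nat_lit 0x0) (nat_lit 0x70000880000000000000000000000) := T_46 (nat_lit 112) (nat_lit 91) (nat_lit 3) (nat_lit 6) (nat_lit 5) L128980 (by decide +kernel)
theorem L129147 : W_46 (nat_lit 4) (nat_lit 0x1c001c0000000700000000000000000000000) (nat_lit 0x0) (nat_lit 0x78000880020000000000000000000) := T_46 (nat_lit 111) (nat_lit 77) (nat_lit 5) (nat_lit 9) (nat_lit 4) L129146 (by decide +kernel)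
theorem L129148 : W_46 (nat_lit 5) (nat_lit 0x1c000c0000000700000000000000000000000) (nat_lit 0x0) (nat_lit 0x300078000880020000000000000000000) := T_46 (nat_lit 128) (nat_lit 129) (nat_lit 1) (nat_lit 10) (nat_lit 7) L129147 (by decide +kernel)
theorem L129149 : W_46 (nat_lit 8) (nat_lit 0x1c000c0000000300000000000000000000000) (nat_lit 0x0) (nat_lit 0x4000300078001ce01ff001000000000000000) := Q_46 (nat_lit 94) (C_46 L129001 (C_46 L128957 (C_46 L128979 (C_46 L128976 (C_46 L128962 (C_46 L129145 (C_46 L129148 N_46))))))) (by decide +kernel)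
theorem L129150 : W_46 (nat_lit 9) (nat_lit 0x1c000c0000000200000000000000000000000) (nat_lit 0x0) (nat_lit 0x800400030007a001de01ff001000000000000000) := Q_46 (nat_lit 92) (C_46 L129004 (C_46 L127130 (C_46 L129149 (C_46 L129003 N_46)))) (by decide +kernel)
theorem L129151 : W_46 (nat_lit 10) (nat_lit 0x1c000c0000000000000000000000000000000) (nat_lit 0x0) (nat_lit 0x1800400030007e001fe01ff001000000000000000) := Q_46 (nat_lit 93) (C_46 L129150 (C_46 L128924 (C_46 L129007 N_46))) (by decide +kernel)
theorem L129152 : W_46 (nat_lit 11) (nat_lit 0x18000c0000000000000000000000000000000) (nat_lit 0x0) (nat_lit 0x100038007c001e00470031807e801fe01ff001000000000000000) := Q_46 (nat_lit 142) (C_46 L127188 (C_46 L129144 (C_46 L129151 N_46))) (by decide +kernel)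
theorem L129153 : W_46 (nat_lit 2) (nat_lit 0x700014001e000d0000000000000000000000000000000) (nat_lit 0x0) (nat_lit 0x800008000000000000800000000000000000000000000) := D_46 (nat_lit 159) (nat_lit 179) (nat_lit 107) (nat_lit 0) (nat_lit 9) (nat_lit 10) (nat_lit 7) (nat_lit 5) (nat_lit 6) (by decide +kernel)
theorem L129154 : W_46 (nat_lit 3) (nat_lit 0x700010001e000d0000000000000000000000000000000) (nat_lit 0x0) (nat_lit 0x80000e000000000000800000000000000000000000000) := T_46 (nat_lit 158) (nat_lit 157) (nat_lit 1) (nat_lit 8) (nat_lit 8) L129153 (by decide +kernel)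
theorem L129155 : W_46 (nat_lit 4) (nat_lit 0x600010001e000d0000000000000000000000000000000) (nat_lit 0x0) (nat_lit 0x200090000e000000000000800000000000000000000000000) := T_46 (nat_lit 176) (nat_lit 193) (nat_lit 5) (nat_lit 7) (nat_lit 7) L129154 (by decide +kernel)
theorem L129156 : W_46 (nat_lit 5) (nat_lit 0x200010001e000d0000000000000000000000000000000) (nat_lit 0x0) (nat_lit 0xa000d0000e000000000000800000000000000000000000000) := T_46 (nat_lit 178) (nat_lit 195) (nat_lit 7) (nat_lit 7) (nat_lit 7) L129155 (by decide +kernel)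
theorem L129157 : W_46 (nat_lit 6) (nat_lit 0x200010001e000c0000000000000000000000000000000) (nat_lit 0x0) (nat_lit 0xa000d0000e000000018000800000000000000000000000000) := T_46 (nat_lit 124) (nat_lit 123) (nat_lit 0) (nat_lit 8) (nat_lit 8) L129156 (by decide +kernel)
theorem L129158 : W_46 (nat_lit 7) (nat_lit 0x10001e000c0000000000000000000000000000000) (nat_lit 0x0) (nat_lit 0xe000f0000e000000018000800000000000000000000000000) := T_46 (nat_lit 177) (nat_lit 194) (nat_lit 6) (nat_lit 7) (nat_lit 11) L129157 (by decide +kernel)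
theorem L129159 : W_46 (nat_lit 8) (nat_lit 0x10001c000c0000000000000000000000000000000) (nat_lit 0x0) (nat_lit 0xe000f0000e000300018000800000000000000000000000000) := T_46 (nat_lit 141) (nat_lit 140) (nat_lit 2) (nat_lit 4) (nat_lit 8) L129158 (by decide +kernel)
theorem L129160 : W_46 (nat_lit 2) (nat_lit 0x1c000c0004000000000000000000000000000) (nat_lit 0x0) (nat_lit 0x300100000000000000000000000000000000) := D_46 (nat_lit 141) (nat_lit 128) (nat_lit 140) (nat_lit 2) (nat_lit 5) (nat_lit 8) (nat_lit 2) (nat_lit 4) (nat_lit 8) (by decide +kernel)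
theorem L129161 : W_46 (nat_lit 2) (nat_lit 0x4001e000f0004800000010000000000000000000) (nat_lit 0x0) (nat_lit 0x100008000000000000000040000000000000000000000) := D_46 (nat_lit 159) (nat_lit 176) (nat_lit 90) (nat_lit 7) (nat_lit 5) (nat_lit 6) (nat_lit 7) (nat_lit 5) (nat_lit 5) (by decide +kernel)
theorem L129162 : W_46 (nat_lit 3) (nat_lit 0x4001e000f0004000000010000000000000000000) (nat_lit 0x0) (nat_lit 0x100008000000000000c00040000000000000000000000) := T_46 (nat_lit 107) (nat_lit 106) (nat_lit 0) (nat_lit 8) (nat_lit 7) L129161 (by decide +kernel)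
theorem L129163 : W_46 (nat_lit 4) (nat_lit 0x4001e000d0004000000010000000000000000000) (nat_lit 0x0) (nat_lit 0x100008000000020008c00040000000000000000000000) := T_46 (nat_lit 125) (nat_lit 111) (nat_lit 2) (nat_lit 5) (nat_lit 7) L129162 (by decide +kernel)
theorem L129164 : W_46 (nat_lit 5) (nat_lit 0x4001e000c0004000000010000000000000000000) (nat_lit 0x0) (nat_lit 0x100008000000038008c00040000000000000000000000) := T_46 (nat_lit 124) (nat_lit 123) (nat_lit 0) (nat_lit 8) (nat_lit 8) L129163 (by decide +kernel)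
theorem L129165 : W_46 (nat_lit 6) (nat_lit 0x1e000c0004000000010000000000000000000) (nat_lit 0x0) (nat_lit 0x10000e000000038008c00040000000000000000000000) := T_46 (nat_lit 158) (nat_lit 157) (nat_lit 1) (nat_lit 8) (nat_lit 8) L129164 (by decide +kernel)
theorem L129166 : W_46 (nat_lit 7) (nat_lit 0x1c000c0004000000010000000000000000000) (nat_lit 0x0) (nat_lit 0x10000e000300038008c00040000000000000000000000) := T_46 (nat_lit 141) (nat_lit 140) (nat_lit 2) (nat_lit 4) (nat_lit 8) L129165 (by decide +kernel)
theorem L129167 : W_46 (nat_lit 8) (nat_lit 0x1c000c0004000000000000000000000000000) (nat_lit 0x0) (nat_lit 0x10000e000300038008c00240010000000000000000000) := T_46 (nat_lit 76) (nat_lit 93) (nat_lit 5) (nat_lit 8) (nat_lit 4) L129166 (by decide +kernel)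
theorem L129168 : W_46 (nat_lit 2) (nat_lit 0x1c002c0014000f00080000000000000000000) (nat_lit 0x0) (nat_lit 0x4000000000001000100000000000000000000) := D_46 (nat_lit 96) (nat_lit 80) (nat_lit 146) (nat_lit 2) (nat_lit 8) (nat_lit 5) (nat_lit 6) (nat_lit 10) (nat_lit 8) (by decide +kernel)
theorem L129169 : W_46 (nat_lit 3) (nat_lit 0x1c002c0014000f00000000000000000000000) (nat_lit 0x0) (nat_lit 0x40000000000010001c0000000000000000000) := T_46 (nat_lit 79) (nat_lit 78) (nat_lit 2) (nat_lit 7) (nat_lit 5) L129168 (by decide +kernel)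
theorem L129170 : W_46 (nat_lit 4) (nat_lit 0x1c002c0014000700000000000000000000000) (nat_lit 0x0) (nat_lit 0x40000000200018001c0000000000000000000) := T_46 (nat_lit 95) (nat_lit 113) (nat_lit 3) (nat_lit 7) (nat_lit 5) L129169 (by decide +kernel)
theorem L129171 : W_46 (nat_lit 5) (nat_lit 0x1c002c0014000600000000000000000000000) (nat_lit 0x0) (nat_lit 0x40000000200019001c8000000000000000000) := T_46 (nat_lit 92) (nat_lit 75) (nat_lit 4) (nat_lit 8) (nat_lit 8) L129170 (by decide +kernel)
theorem L129172 : W_46 (nat_lit 6) (nat_lit 0x1c002c0014000200000000000000000000000) (nat_lit 0x0) (nat_lit 0x4000000020001d001e8000000000000000000) := T_46 (nat_lit 94) (nat_lit 77) (nat_lit 6) (nat_lit 8) (nat_lit 8) L129171 (by decide +kernel)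
theorem L129173 : W_46 (nat_lit 7) (nat_lit 0x1c000c0014000200000000000000000000000) (nat_lit 0x0) (nat_lit 0x4000300020001d001e8000000000000000000) := T_46 (nat_lit 129) (nat_lit 128) (nat_lit 1) (nat_lit 10) (nat_lit 7) L129172 (by decide +kernel)
theorem L129174 : W_46 (nat_lit 8) (nat_lit 0x1c000c0014000000000000000000000000000) (nat_lit 0x0) (nat_lit 0x4000300020001f001f8000000000000000000) := T_46 (nat_lit 93) (nat_lit 76) (nat_lit 5) (nat_lit 8) (nat_lit 4) L129173 (by decide +kernel)
theorem L129175 : W_46 (nat_lit 4) (nat_lit 0x1c000c0034000000000000000000000000000) (nat_lit 0x0) (nat_lit 0xf00038000000000000000000) := T_46 (nat_lit 93) (nat_lit 76) (nat_lit 5) (nat_lit 8) (nat_lit 4) L123120 (by decide +kernel)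
theorem L129176 : W_46 (nat_lit 5) (nat_lit 0x1c000c0014000000000000000000000000000) (nat_lit 0x0) (nat_lit 0x28000f00038000000000000000000) := T_46 (nat_lit 113) (nat_lit 111) (nat_lit 1) (nat_lit 11) (nat_lit 6) L129175 (by decide +kernel)
theorem L129177 : W_46 (nat_lit 2) (nat_lit 0x1c001c001c000600000000000000000000000) (nat_lit 0x0) (nat_lit 0x180008000000000000000000) := D_46 (nat_lit 92) (nat_lit 91) (nat_lit 75) (nat_lit 3) (nat_lit 6) (nat_lit 5) (nat_lit 4) (nat_lit 8) (nat_lit 8) (by decide +kernel)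
theorem L129178 : W_46 (nat_lit 3) (nat_lit 0x1c001c0014000600000000000000000000000) (nat_lit 0x0) (nat_lit 0x20008000180008000000000000000000) := T_46 (nat_lit 111) (nat_lit 125) (nat_lit 2) (nat_lit 6) (nat_lit 7) L129177 (by decide +kernel)
theorem L129179 : W_46 (nat_lit 4) (nat_lit 0x1c001c0014000200000000000000000000000) (nat_lit 0x0) (nat_lit 0x20008000580028000000000000000000) := T_46 (nat_lit 94) (nat_lit 77) (nat_lit 6) (nat_lit 8) (nat_lit 8) L129178 (by decide +kernel)
theorem L129180 : W_46 (nat_lit 5) (nat_lit 0x1c000c0014000200000000000000000000000) (nat_lit 0x0) (nat_lit 0x320008000580028000000000000000000) := T_46 (nat_lit 128) (nat_lit 129) (nat_lit 1) (nat_lit 10) (nat_lit 7) L129179 (by decide +kernel)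
theorem L129181 : W_46 (nat_lit 6) (nat_lit 0x1c000c0014000000000000000000000000000) (nat_lit 0x0) (nat_lit 0x320008000780038000000000000000000) := T_46 (nat_lit 93) (nat_lit 76) (nat_lit 5) (nat_lit 8) (nat_lit 4) L129180 (by decide +kernel)
theorem L129182 : W_46 (nat_lit 9) (nat_lit 0x1c000c0004000000000000000000000000000) (nat_lit 0x0) (nat_lit 0x4000320038001f801f8000000000000000000) := Q_46 (nat_lit 112) (C_46 L122522 (C_46 L129174 (C_46 L129176 (C_46 L129181 N_46)))) (by decide +kernel)
theorem L129183 : W_46 (nat_lit 10) (nat_lit 0x18000c0004000000000000000000000000000) (nat_lit 0x0) (nat_lit 0x10000e004700338038c01fc01f8000000000000000000) := Q_46 (nat_lit 142) (C_46 L129160 (C_46 L129167 (C_46 L129182 N_46))) (by decide +kernel)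
theorem L129184 : W_46 (nat_lit 5) (nat_lit 0x14001a000d0004000000000000000000000000000) (nat_lit 0x0) (nat_lit 0x4000a000100000000c00060001000000000000000000) := T_46 (nat_lit 157) (nat_lit 159) (nat_lit 2) (nat_lit 4) (nat_lit 9) L122775 (by decide +kernel)
theorem L129185 : W_46 (nat_lit 6) (nat_lit 0x4001a000d0004000000000000000000000000000) (nat_lit 0x0) (nat_lit 0x24001a000100000000c00060001000000000000000000) := T_46 (nat_lit 160) (nat_lit 177) (nat_lit 6) (nat_lit 7) (nat_lit 10) L129184 (by decide +kernel)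
theorem L129186 : W_46 (nat_lit 2) (nat_lit 0x1c0004001a000d0004800000000000000000000000000) (nat_lit 0x0) (nat_lit 0x8000400020000000000000000000000) := D_46 (nat_lit 106) (nat_lit 89) (nat_lit 123) (nat_lit 4) (nat_lit 5) (nat_lit 9) (nat_lit 4) (nat_lit 5) (nat_lit 10) (by decide +kernel)
theorem L129187 : W_46 (nat_lit 3) (nat_lit 0x1c0004001a000d0004000000000000000000000000000) (nat_lit 0x0) (nat_lit 0x2000000008000c00020000000000000000000000) := T_46 (nat_lit 107) (nat_lit 157) (nat_lit 5) (nat_lit 5) (nat_lit 6) L129186 (by decide +kernel)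
theorem L129188 : W_46 (nat_lit 4) (nat_lit 0x180004001a000d0004000000000000000000000000000) (nat_lit 0x0) (nat_lit 0x800040002000000008000c00020000000000000000000000) := T_46 (nat_lit 174) (nat_lit 191) (nat_lit 5) (nat_lit 5) (nat_lit 7) L129187 (by decide +kernel)
theorem L129189 : W_46 (nat_lit 5) (nat_lit 0x100004001a000d0004000000000000000000000000000) (nat_lit 0x0) (nat_lit 0x28000c0002000000008000c00020000000000000000000000) := T_46 (nat_lit 175) (nat_lit 193) (nat_lit 7) (nat_lit 5) (nat_lit 7) L129188 (by decide +kernel)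
theorem L129190 : W_46 (nat_lit 2) (nat_lit 0x800180004001a000d8004000000000000000000000000000) (nat_lit 0x0) (nat_lit 0x10001000000000000100000000000000000000000000000000000) := D_46 (nat_lit 192) (nat_lit 208) (nat_lit 140) (nat_lit 5) (nat_lit 5) (nat_lit 8) (nat_lit 4) (nat_lit 5) (nat_lit 11) (by decide +kernel)
theorem L129191 : W_46 (nat_lit 3) (nat_lit 0x800180004001a000d0004000000000000000000000000000) (nat_lit 0x0) (nat_lit 0x10001000000000000100008000400000000000000000000000000) := T_46 (nat_lit 123) (nat_lit 106) (nat_lit 4) (nat_lit 5) (nat_lit 10) L129190 (by decide +kernel)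
theorem L129192 : W_46 (nat_lit 4) (nat_lit 0x180004001a000d0004000000000000000000000000000) (nat_lit 0x0) (nat_lit 0x10001800040000000100008000400000000000000000000000000) := T_46 (nat_lit 191) (nat_lit 174) (nat_lit 5) (nat_lit 5) (nat_lit 7) L129191 (by decide +kernel)
theorem L129193 : W_46 (nat_lit 5) (nat_lit 0x100004001a000d0004000000000000000000000000000) (nat_lit 0x0) (nat_lit 0x100038000c0000000100008000400000000000000000000000000) := T_46 (nat_lit 175) (nat_lit 193) (nat_lit 7) (nat_lit 5) (nat_lit 7) L129192 (by decide +kernel)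
theorem L129194 : W_46 (nat_lit 2) (nat_lit 0x100006001a000d0004800040000000000000000000000) (nat_lit 0x0) (nat_lit 0x400020001000000000000000000) := D_46 (nat_lit 89) (nat_lit 72) (nat_lit 106) (nat_lit 4) (nat_lit 5) (nat_lit 8) (nat_lit 4) (nat_lit 5) (nat_lit 9) (by decide +kernel)
theorem L129195 : W_46 (nat_lit 3) (nat_lit 0x100006001a000d0004800000000000000000000000000) (nat_lit 0x0) (nat_lit 0x100000000400060001000000000000000000) := T_46 (nat_lit 90) (nat_lit 140) (nat_lit 5) (nat_lit 5) (nat_lit 5) L129194 (by decide +kernel)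
theorem L129196 : W_46 (nat_lit 4) (nat_lit 0x100004001a000d0004800000000000000000000000000) (nat_lit 0x0) (nat_lit 0x40002000100000000400060001000000000000000000) := T_46 (nat_lit 157) (nat_lit 174) (nat_lit 5) (nat_lit 5) (nat_lit 6) L129195 (by decide +kernel)
theorem L129197 : W_46 (nat_lit 5) (nat_lit 0x100004001a000d0004000000000000000000000000000) (nat_lit 0x0) (nat_lit 0x4000a000100000000c00060001000000000000000000) := T_46 (nat_lit 107) (nat_lit 159) (nat_lit 7) (nat_lit 5) (nat_lit 6) L129196 (by decide +kernel)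
theorem L129198 : W_46 (nat_lit 2) (nat_lit 0x100006001a000d0004800040005000000000000000000) (nat_lit 0x0) (nat_lit 0x2000280000000000000) := D_46 (nat_lit 73) (nat_lit 55) (nat_lit 57) (nat_lit 4) (nat_lit 5) (nat_lit 7) (nat_lit 6) (nat_lit 5) (nat_lit 7) (by decide +kernel)
theorem L129199 : W_46 (nat_lit 3) (nat_lit 0x100006001a000d0004800040001000000000000000000) (nat_lit 0x0) (nat_lit 0x80006000280000000000000) := T_46 (nat_lit 74) (nat_lit 91) (nat_lit 6) (nat_lit 5) (nat_lit 8) L129198 (by decide +kernel)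
theorem L129200 : W_46 (nat_lit 4) (nat_lit 0x100006001a000d0004800040000000000000000000000) (nat_lit 0x0) (nat_lit 0xa0007000280000000000000) := T_46 (nat_lit 72) (nat_lit 89) (nat_lit 4) (nat_lit 5) (nat_lit 8) L129199 (by decide +kernel)
theorem L129201 : W_46 (nat_lit 5) (nat_lit 0x100006001a000d0004800000000000000000000000000) (nat_lit 0x0) (nat_lit 0x1000000000000e0007000280000000000000) := T_46 (nat_lit 90) (nat_lit 140) (nat_lit 5) (nat_lit 5) (nat_lit 5) L129200 (by decide +kernel)
theorem L129202 : W_46 (nat_lit 6) (nat_lit 0x100004001a000d0004800000000000000000000000000) (nat_lit 0x0) (nat_lit 0x400020001000000000000e0007000280000000000000) := T_46 (nat_lit 157) (nat_lit 174) (nat_lit 5) (nat_lit 5) (nat_lit 6) L129201 (by decide +kernel)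
theorem L129203 : W_46 (nat_lit 7) (nat_lit 0x100004001a000d0004000000000000000000000000000) (nat_lit 0x0) (nat_lit 0x4000a0001000000008000e0007000280000000000000) := T_46 (nat_lit 107) (nat_lit 159) (nat_lit 7) (nat_lit 5) (nat_lit 6) L129202 (by decide +kernel)
theorem L129204 : W_46 (nat_lit 2) (nat_lit 0x180004001b000d8004800000000000000000000000000) (nat_lit 0x0) (nat_lit 0x2000000000000000040002000000000000000000) := D_46 (nat_lit 90) (nat_lit 73) (nat_lit 157) (nat_lit 5) (nat_lit 5) (nat_lit 4) (nat_lit 5) (nat_lit 5) (nat_lit 5) (by decide +kernel)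
theorem L129205 : W_46 (nat_lit 3) (nat_lit 0x180004001a000d8004800000000000000000000000000) (nat_lit 0x0) (nat_lit 0x1000000002000100000000000040002000000000000000000) := T_46 (nat_lit 140) (nat_lit 192) (nat_lit 4) (nat_lit 5) (nat_lit 11) L129204 (by decide +kernel)
theorem L129206 : W_46 (nat_lit 4) (nat_lit 0x180004001a000d8004000000000000000000000000000) (nat_lit 0x0) (nat_lit 0x100000000a000100000000800040002000000000000000000) := T_46 (nat_lit 107) (nat_lit 159) (nat_lit 7) (nat_lit 5) (nat_lit 6) L129205 (by decide +kernel)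
theorem L129207 : W_46 (nat_lit 5) (nat_lit 0x180004001a000d0004000000000000000000000000000) (nat_lit 0x0) (nat_lit 0x100000000a000100008000c00040002000000000000000000) := T_46 (nat_lit 123) (nat_lit 106) (nat_lit 4) (nat_lit 5) (nat_lit 10) L129206 (by decide +kernel)
theorem L129208 : W_46 (nat_lit 6) (nat_lit 0x100004001a000d0004000000000000000000000000000) (nat_lit 0x0) (nat_lit 0x300008000a000100008000c00040002000000000000000000) := T_46 (nat_lit 175) (nat_lit 193) (nat_lit 7) (nat_lit 5) (nat_lit 7) L129207 (by decide +kernel)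
theorem L129209 : W_46 (nat_lit 10) (nat_lit 0x4001a000d0004000000000000000000000000000) (nat_lit 0x0) (nat_lit 0x10003e001f000b0001c0008000c000e0007000280000000000000) := Q_46 (nat_lit 176) (C_46 L129105 (C_46 L129189 (C_46 L129193 (C_46 L129197 (C_46 L129203 (C_46 L129208 N_46)))))) (by decide +kernel)
theorem L129210 : W_46 (nat_lit 4) (nat_lit 0x280004001a000d0004000000000000000000000000000) (nat_lit 0x0) (nat_lit 0x10003800540000000000000000000000000000000000000000000) := T_46 (nat_lit 176) (nat_lit 193) (nat_lit 7) (nat_lit 5) (nat_lit 7) L129095 (by decide +kernel)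
theorem L129211 : W_46 (nat_lit 5) (nat_lit 0x80004001a000d0004000000000000000000000000000) (nat_lit 0x0) (nat_lit 0x10003800740010000000000000000000000000000000000000000) := T_46 (nat_lit 177) (nat_lit 160) (nat_lit 6) (nat_lit 7) (nat_lit 10) L129210 (by decide +kernel)
theorem L129212 : W_46 (nat_lit 2) (nat_lit 0xc0004001a000d0004800000000000000000000000000) (nat_lit 0x0) (nat_lit 0x8000400020000000000000000000000) := D_46 (nat_lit 106) (nat_lit 89) (nat_lit 123) (nat_lit 4) (nat_lit 5) (nat_lit 9) (nat_lit 4) (nat_lit 5) (nat_lit 10) (by decide +kernel)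
theorem L129213 : W_46 (nat_lit 3) (nat_lit 0xc0004001a000d0004000000000000000000000000000) (nat_lit 0x0) (nat_lit 0x2000000008000c00020000000000000000000000) := T_46 (nat_lit 107) (nat_lit 157) (nat_lit 5) (nat_lit 5) (nat_lit 6) L129212 (by decide +kernel)
theorem L129214 : W_46 (nat_lit 4) (nat_lit 0x80004001a000d0004000000000000000000000000000) (nat_lit 0x0) (nat_lit 0x800040002000000008000c00020000000000000000000000) := T_46 (nat_lit 174) (nat_lit 191) (nat_lit 5) (nat_lit 5) (nat_lit 7) L129213 (by decide +kernel)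
theorem L129215 : W_46 (nat_lit 2) (nat_lit 0x780004001a000d8004000000000000000000000000000) (nat_lit 0x0) (nat_lit 0x1800000000000100000000000000000000000000000000000) := D_46 (nat_lit 192) (nat_lit 191) (nat_lit 140) (nat_lit 1) (nat_lit 8) (nat_lit 10) (nat_lit 4) (nat_lit 5) (nat_lit 11) (by decide +kernel)
theorem L129216 : W_46 (nat_lit 3) (nat_lit 0x780004001a000d0004000000000000000000000000000) (nat_lit 0x0) (nat_lit 0x1800000000000100008000400000000000000000000000000) := T_46 (nat_lit 123) (nat_lit 106) (nat_lit 4) (nat_lit 5) (nat_lit 10) L129215 (by decide +kernel)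
theorem L129217 : W_46 (nat_lit 4) (nat_lit 0x380004001a000d0004000000000000000000000000000) (nat_lit 0x0) (nat_lit 0x1800400002000100008000400000000000000000000000000) := T_46 (nat_lit 178) (nat_lit 157) (nat_lit 0) (nat_lit 8) (nat_lit 10) L129216 (by decide +kernel)
theorem L129218 : W_46 (nat_lit 5) (nat_lit 0x180004001a000d0004000000000000000000000000000) (nat_lit 0x0) (nat_lit 0x1800600012000100008000400000000000000000000000000) := T_46 (nat_lit 177) (nat_lit 160) (nat_lit 6) (nat_lit 7) (nat_lit 10) L129217 (by decide +kernel)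
theorem L129219 : W_46 (nat_lit 6) (nat_lit 0x80004001a000d0004000000000000000000000000000) (nat_lit 0x0) (nat_lit 0x3800700012000100008000400000000000000000000000000) := T_46 (nat_lit 176) (nat_lit 193) (nat_lit 7) (nat_lit 5) (nat_lit 7) L129218 (by decide +kernel)
theorem L129220 : W_46 (nat_lit 2) (nat_lit 0x1000380006001a000d8004000000000000000000000000000) (nat_lit 0x0) (nat_lit 0x40001000000000000800000000000000000000000000) := D_46 (nat_lit 174) (nat_lit 156) (nat_lit 107) (nat_lit 0) (nat_lit 7) (nat_lit 10) (nat_lit 5) (nat_lit 5) (nat_lit 6) (by decide +kernel)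
theorem L129221 : W_46 (nat_lit 3) (nat_lit 0x1000380004001a000d8004000000000000000000000000000) (nat_lit 0x0) (nat_lit 0x440003000000000000800000000000000000000000000) := T_46 (nat_lit 157) (nat_lit 178) (nat_lit 0) (nat_lit 8) (nat_lit 10) L129220 (by decide +kernel)
theorem L129222 : W_46 (nat_lit 4) (nat_lit 0x1000180004001a000d8004000000000000000000000000000) (nat_lit 0x0) (nat_lit 0x640013000000000000800000000000000000000000000) := T_46 (nat_lit 177) (nat_lit 160) (nat_lit 6) (nat_lit 7) (nat_lit 10) L129221 (by decide +kernel)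
theorem L129223 : W_46 (nat_lit 5) (nat_lit 0x180004001a000d8004000000000000000000000000000) (nat_lit 0x0) (nat_lit 0x1000640013000100000000800000000000000000000000000) := T_46 (nat_lit 192) (nat_lit 140) (nat_lit 4) (nat_lit 5) (nat_lit 11) L129222 (by decide +kernel)
theorem L129224 : W_46 (nat_lit 6) (nat_lit 0x80004001a000d8004000000000000000000000000000) (nat_lit 0x0) (nat_lit 0x3000740013000100000000800000000000000000000000000) := T_46 (nat_lit 176) (nat_lit 193) (nat_lit 7) (nat_lit 5) (nat_lit 7) L129223 (by decide +kernel)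
theorem L129225 : W_46 (nat_lit 7) (nat_lit 0x80004001a000d0004000000000000000000000000000) (nat_lit 0x0) (nat_lit 0x3000740013000100008000c00000000000000000000000000) := T_46 (nat_lit 123) (nat_lit 106) (nat_lit 4) (nat_lit 5) (nat_lit 10) L129224 (by decide +kernel)
theorem L129226 : W_46 (nat_lit 8) (nat_lit 0x4001a000d0004000000000000000000000000000) (nat_lit 0x0) (nat_lit 0x100038007c0013000100008000c00020000000000000000000000) := Q_46 (nat_lit 175) (C_46 L129211 (C_46 L129214 (C_46 L129219 (C_46 L129225 N_46)))) (by decide +kernel)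
theorem L129227 : W_46 (nat_lit 5) (nat_lit 0x80004001a000d0004000000000000000000000000000) (nat_lit 0x0) (nat_lit 0x10003800140000000100008000400000000000000000000000000) := T_46 (nat_lit 176) (nat_lit 193) (nat_lit 7) (nat_lit 5) (nat_lit 7) L129192 (by decide +kernel)
theorem L129228 : W_46 (nat_lit 2) (nat_lit 0x2000600010002c0004001a000d8004000000000000000000000000000) (nat_lit 0x0) (nat_lit 0x4000400000000000000002000000000000000000000000000000000000000) := D_46 (nat_lit 226) (nat_lit 157) (nat_lit 242) (nat_lit 4) (nat_lit 5) (nat_lit 13) (nat_lit 5) (nat_lit 5) (nat_lit 10) (by decide +kernel)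
theorem L129229 : W_46 (nat_lit 3) (nat_lit 0x600010002c0004001a000d8004000000000000000000000000000) (nat_lit 0x0) (nat_lit 0x4000600010000000000002000000000000000000000000000000000000000) := T_46 (nat_lit 225) (nat_lit 208) (nat_lit 5) (nat_lit 5) (nat_lit 9) L129228 (by decide +kernel)
theorem L129230 : W_46 (nat_lit 4) (nat_lit 0x400010002c0004001a000d8004000000000000000000000000000) (nat_lit 0x0) (nat_lit 0x4000e00030000000000002000000000000000000000000000000000000000) := T_46 (nat_lit 209) (nat_lit 227) (nat_lit 7) (nat_lit 5) (nat_lit 9) L129229 (by decide +kernel)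
theorem L129231 : W_46 (nat_lit 5) (nat_lit 0x10002c0004001a000d8004000000000000000000000000000) (nat_lit 0x0) (nat_lit 0x4000e00070002000000002000000000000000000000000000000000000000) := T_46 (nat_lit 210) (nat_lit 193) (nat_lit 7) (nat_lit 5) (nat_lit 8) L129230 (by decide +kernel)
theorem L129232 : W_46 (nat_lit 6) (nat_lit 0x2c0004001a000d8004000000000000000000000000000) (nat_lit 0x0) (nat_lit 0x4000e00070003000000002000100000000000000000000000000000000000) := T_46 (nat_lit 192) (nat_lit 140) (nat_lit 4) (nat_lit 5) (nat_lit 11) L129231 (by decide +kernel)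
theorem L129233 : W_46 (nat_lit 7) (nat_lit 0x2c0004001a000d0004000000000000000000000000000) (nat_lit 0x0) (nat_lit 0x4000e00070003000000002000100008000400000000000000000000000000) := T_46 (nat_lit 123) (nat_lit 106) (nat_lit 4) (nat_lit 5) (nat_lit 10) L129232 (by decide +kernel)
theorem L129234 : W_46 (nat_lit 8) (nat_lit 0xc0004001a000d0004000000000000000000000000000) (nat_lit 0x0) (nat_lit 0x4000e00070003000200012000100008000400000000000000000000000000) := T_46 (nat_lit 177) (nat_lit 160) (nat_lit 6) (nat_lit 7) (nat_lit 10) L129233 (by decide +kernel)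
theorem L129235 : W_46 (nat_lit 9) (nat_lit 0x80004001a000d0004000000000000000000000000000) (nat_lit 0x0) (nat_lit 0x4000e00070003800240012000100008000400000000000000000000000000) := T_46 (nat_lit 174) (nat_lit 191) (nat_lit 5) (nat_lit 5) (nat_lit 7) L129234 (by decide +kernel)
theorem L129236 : W_46 (nat_lit 2) (nat_lit 0x3c0004001a000d8004000000000000000000000000000) (nat_lit 0x0) (nat_lit 0x400003000000000000000000000000000000000000000) := D_46 (nat_lit 157) (nat_lit 156) (nat_lit 178) (nat_lit 0) (nat_lit 7) (nat_lit 10) (nat_lit 0) (nat_lit 8) (nat_lit 10) (by decide +kernel)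
theorem L129237 : W_46 (nat_lit 3) (nat_lit 0x1c0004001a000d8004000000000000000000000000000) (nat_lit 0x0) (nat_lit 0x600013000000000000000000000000000000000000000) := T_46 (nat_lit 177) (nat_lit 160) (nat_lit 6) (nat_lit 7) (nat_lit 10) L129236 (by decide +kernel)
theorem L129238 : W_46 (nat_lit 4) (nat_lit 0x180004001a000d8004000000000000000000000000000) (nat_lit 0x0) (nat_lit 0x800640013000000000000000000000000000000000000000) := T_46 (nat_lit 174) (nat_lit 191) (nat_lit 5) (nat_lit 5) (nat_lit 7) L129237 (by decide +kernel)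
theorem L129239 : W_46 (nat_lit 5) (nat_lit 0x80004001a000d8004000000000000000000000000000) (nat_lit 0x0) (nat_lit 0x2800740013000000000000000000000000000000000000000) := T_46 (nat_lit 176) (nat_lit 193) (nat_lit 7) (nat_lit 5) (nat_lit 7) L129238 (by decide +kernel)
theorem L129240 : W_46 (nat_lit 6) (nat_lit 0x80004001a000d0004000000000000000000000000000) (nat_lit 0x0) (nat_lit 0x2800740013000000008000400000000000000000000000000) := T_46 (nat_lit 123) (nat_lit 106) (nat_lit 4) (nat_lit 5) (nat_lit 10) L129239 (by decide +kernel)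
theorem L129241 : W_46 (nat_lit 2) (nat_lit 0x800280004001a000d8004000000000000000000000000000) (nat_lit 0x0) (nat_lit 0x10001000000000000100000000000000000000000000000000000) := D_46 (nat_lit 192) (nat_lit 140) (nat_lit 208) (nat_lit 4) (nat_lit 5) (nat_lit 11) (nat_lit 5) (nat_lit 5) (nat_lit 8) (by decide +kernel)
theorem L129242 : W_46 (nat_lit 3) (nat_lit 0x280004001a000d8004000000000000000000000000000) (nat_lit 0x0) (nat_lit 0x10001800040000000100000000000000000000000000000000000) := T_46 (nat_lit 191) (nat_lit 174) (nat_lit 5) (nat_lit 5) (nat_lit 7) L129241 (by decide +kernel)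
theorem L129243 : W_46 (nat_lit 4) (nat_lit 0x280004001a000d0004000000000000000000000000000) (nat_lit 0x0) (nat_lit 0x10001800040000000100008000400000000000000000000000000) := T_46 (nat_lit 123) (nat_lit 106) (nat_lit 4) (nat_lit 5) (nat_lit 10) L129242 (by decide +kernel)
theorem L129244 : W_46 (nat_lit 5) (nat_lit 0x80004001a000d0004000000000000000000000000000) (nat_lit 0x0) (nat_lit 0x10001800240010000100008000400000000000000000000000000) := T_46 (nat_lit 177) (nat_lit 160) (nat_lit 6) (nat_lit 7) (nat_lit 10) L129243 (by decide +kernel)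
theorem L129245 : W_46 (nat_lit 2) (nat_lit 0x1000280004001a000d8004000000000000000000000000000) (nat_lit 0x0) (nat_lit 0x40002000100000000000000000000000000000000000000000000) := D_46 (nat_lit 193) (nat_lit 176) (nat_lit 210) (nat_lit 7) (nat_lit 5) (nat_lit 7) (nat_lit 7) (nat_lit 5) (nat_lit 8) (by decide +kernel)
theorem L129246 : W_46 (nat_lit 3) (nat_lit 0x280004001a000d8004000000000000000000000000000) (nat_lit 0x0) (nat_lit 0x40003000100000000100000000000000000000000000000000000) := T_46 (nat_lit 192) (nat_lit 140) (nat_lit 4) (nat_lit 5) (nat_lit 11) L129245 (by decide +kernel)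
theorem L129247 : W_46 (nat_lit 4) (nat_lit 0x80004001a000d8004000000000000000000000000000) (nat_lit 0x0) (nat_lit 0x40003000300010000100000000000000000000000000000000000) := T_46 (nat_lit 177) (nat_lit 160) (nat_lit 6) (nat_lit 7) (nat_lit 10) L129246 (by decide +kernel)
theorem L129248 : W_46 (nat_lit 5) (nat_lit 0x80004001a000d0004000000000000000000000000000) (nat_lit 0x0) (nat_lit 0x40003000300010000100008000400000000000000000000000000) := T_46 (nat_lit 123) (nat_lit 106) (nat_lit 4) (nat_lit 5) (nat_lit 10) L129247 (by decide +kernel)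
theorem L129249 : W_46 (nat_lit 10) (nat_lit 0x4001a000d0004000000000000000000000000000) (nat_lit 0x0) (nat_lit 0x4000e000700038007c0013000100008000400000000000000000000000000) := Q_46 (nat_lit 175) (C_46 L129219 (C_46 L129227 (C_46 L129235 (C_46 L129240 (C_46 L129211 (C_46 L129244 (C_46 L129248 N_46))))))) (by decide +kernel)
theorem L129250 : W_46 (nat_lit 2) (nat_lit 0x40016001a000d0004000000000000000000000000000) (nat_lit 0x0) (nat_lit 0x10000800080000000000000000000000000000000000000000000) := D_46 (nat_lit 191) (nat_lit 175) (nat_lit 208) (nat_lit 5) (nat_lit 5) (nat_lit 7) (nat_lit 6) (nat_lit 4) (nat_lit 12) (by decide +kernel)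
theorem L129251 : W_46 (nat_lit 3) (nat_lit 0x16001a000d0004000000000000000000000000000) (nat_lit 0x0) (nat_lit 0x100008000c0000000000000000800000000000000000000000000) := T_46 (nat_lit 174) (nat_lit 107) (nat_lit 5) (nat_lit 5) (nat_lit 6) L129250 (by decide +kernel)
theorem L129252 : W_46 (nat_lit 4) (nat_lit 0x14001a000d0004000000000000000000000000000) (nat_lit 0x0) (nat_lit 0x100008000c000a000000000000800000000000000000000000000) := T_46 (nat_lit 157) (nat_lit 159) (nat_lit 2) (nat_lit 4) (nat_lit 9) L129251 (by decide +kernel)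
theorem L129253 : W_46 (nat_lit 5) (nat_lit 0x4001a000d0004000000000000000000000000000) (nat_lit 0x0) (nat_lit 0x100008002c001a000000000000800000000000000000000000000) := T_46 (nat_lit 160) (nat_lit 177) (nat_lit 6) (nat_lit 7) (nat_lit 10) L129252 (by decide +kernel)
theorem L129254 : W_46 (nat_lit 2) (nat_lit 0x380004001a000d0004800000000000000000000000000) (nat_lit 0x0) (nat_lit 0x8000400020000000000000000000000) := D_46 (nat_lit 106) (nat_lit 89) (nat_lit 123) (nat_lit 4) (nat_lit 5) (nat_lit 9) (nat_lit 4) (nat_lit 5) (nat_lit 10) (by decide +kernel)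
theorem L129255 : W_46 (nat_lit 3) (nat_lit 0x380004001a000d0004000000000000000000000000000) (nat_lit 0x0) (nat_lit 0x8000000008000c00020000000000000000000000) := T_46 (nat_lit 107) (nat_lit 159) (nat_lit 7) (nat_lit 5) (nat_lit 6) L129254 (by decide +kernel)
theorem L129256 : W_46 (nat_lit 4) (nat_lit 0x280004001a000d0004000000000000000000000000000) (nat_lit 0x0) (nat_lit 0x2000100008000000008000c00020000000000000000000000) := T_46 (nat_lit 176) (nat_lit 193) (nat_lit 7) (nat_lit 5) (nat_lit 7) L129255 (by decide +kernel)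
theorem L129257 : W_46 (nat_lit 5) (nat_lit 0x80004001a000d0004000000000000000000000000000) (nat_lit 0x0) (nat_lit 0x2000300018000000008000c00020000000000000000000000) := T_46 (nat_lit 177) (nat_lit 160) (nat_lit 6) (nat_lit 7) (nat_lit 10) L129256 (by decide +kernel)
theorem L129258 : W_46 (nat_lit 6) (nat_lit 0x4001a000d0004000000000000000000000000000) (nat_lit 0x0) (nat_lit 0x500038007c0018000100008000c00020000000000000000000000) := Q_46 (nat_lit 175) (C_46 L129248 (C_46 L129227 (C_46 L129244 (C_46 L129257 (C_46 L129211 N_46))))) (by decide +kernel)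
theorem L129259 : W_46 (nat_lit 2) (nat_lit 0x10001c001a000d0004000000000000000000000000000) (nat_lit 0x0) (nat_lit 0x40002000080000000000000000000000000000000000000000000) := D_46 (nat_lit 193) (nat_lit 210) (nat_lit 175) (nat_lit 6) (nat_lit 6) (nat_lit 12) (nat_lit 7) (nat_lit 5) (nat_lit 7) (by decide +kernel)
theorem L129260 : W_46 (nat_lit 3) (nat_lit 0x1c001a000d0004000000000000000000000000000) (nat_lit 0x0) (nat_lit 0x40002000180000000000000000800000000000000000000000000) := T_46 (nat_lit 176) (nat_lit 107) (nat_lit 7) (nat_lit 5) (nat_lit 6) L129259 (by decide +kernel)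
theorem L129261 : W_46 (nat_lit 4) (nat_lit 0x14001a000d0004000000000000000000000000000) (nat_lit 0x0) (nat_lit 0x4000200018000a000000000000800000000000000000000000000) := T_46 (nat_lit 159) (nat_lit 157) (nat_lit 2) (nat_lit 4) (nat_lit 9) L129260 (by decide +kernel)
theorem L129262 : W_46 (nat_lit 5) (nat_lit 0x4001a000d0004000000000000000000000000000) (nat_lit 0x0) (nat_lit 0x4000200038001a000000000000800000000000000000000000000) := T_46 (nat_lit 160) (nat_lit 177) (nat_lit 6) (nat_lit 7) (nat_lit 10) L129261 (by decide +kernel)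
theorem L129263 : W_46 (nat_lit 11) (nat_lit 0x1a000d0004000000000000000000000000000) (nat_lit 0x0) (nat_lit 0x4000e00070003e007f001f0001c0008000c000e0007000280000000000000) := Q_46 (nat_lit 158) (C_46 L129185 (C_46 L129209 (C_46 L129226 (C_46 L129249 (C_46 L129253 (C_46 L129258 (C_46 L129262 N_46))))))) (by decide +kernel)
theorem L129264 : W_46 (nat_lit 2) (nat_lit 0x1a000d0004000000000000000000000000000) (nat_lit 0x0) (nat_lit 0x100028000000000000000000000000000000) := D_46 (nat_lit 125) (nat_lit 123) (nat_lit 140) (nat_lit 3) (nat_lit 4) (nat_lit 7) (nat_lit 1) (nat_lit 8) (nat_lit 7) (by decide +kernel)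
theorem L129265 : W_46 (nat_lit 2) (nat_lit 0x1a000d0004000000000000000000000000000) (nat_lit 0x0) (nat_lit 0x28008000000000000000000000000000) := D_46 (nat_lit 125) (nat_lit 123) (nat_lit 111) (nat_lit 3) (nat_lit 4) (nat_lit 7) (nat_lit 2) (nat_lit 5) (nat_lit 7) (by decide +kernel)
theorem L129266 : W_46 (nat_lit 2) (nat_lit 0x1a000d0004000000000000000000000000000) (nat_lit 0x0) (nat_lit 0x100020008000000000000000000000000000) := D_46 (nat_lit 125) (nat_lit 140) (nat_lit 111) (nat_lit 1) (nat_lit 8) (nat_lit 7) (nat_lit 2) (nat_lit 5) (nat_lit 7) (by decide +kernel)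
theorem L129267 : W_46 (nat_lit 12) (nat_lit 0x1a000c0004000000000000000000000000000) (nat_lit 0x0) (nat_lit 0x4000e00070003e007f001f0001c0038008c000e0007000280000000000000) := Q_46 (nat_lit 124) (C_46 L129263 (C_46 L129264 (C_46 L129265 (C_46 L129266 N_46)))) (by decide +kernel)
theorem L129268 : W_46 (nat_lit 2) (nat_lit 0x200004001e000f0004800000000000000000000000000) (nat_lit 0x0) (nat_lit 0x100008000000000000000040000000000000000000000) := D_46 (nat_lit 159) (nat_lit 176) (nat_lit 90) (nat_lit 7) (nat_lit 5) (nat_lit 6) (nat_lit 7) (nat_lit 5) (nat_lit 5) (by decide +kernel)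
theorem L129269 : W_46 (nat_lit 3) (nat_lit 0x200004001e000f0004000000000000000000000000000) (nat_lit 0x0) (nat_lit 0x100008000000000000c00040000000000000000000000) := T_46 (nat_lit 107) (nat_lit 106) (nat_lit 0) (nat_lit 8) (nat_lit 7) L129268 (by decide +kernel)
theorem L129270 : W_46 (nat_lit 4) (nat_lit 0x200004001e000d0004000000000000000000000000000) (nat_lit 0x0) (nat_lit 0x100008000000020008c00040000000000000000000000) := T_46 (nat_lit 125) (nat_lit 111) (nat_lit 2) (nat_lit 5) (nat_lit 7) L129269 (by decide +kernel)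
theorem L129271 : W_46 (nat_lit 5) (nat_lit 0x200004001e000c0004000000000000000000000000000) (nat_lit 0x0) (nat_lit 0x100008000000038008c00040000000000000000000000) := T_46 (nat_lit 124) (nat_lit 123) (nat_lit 0) (nat_lit 8) (nat_lit 8) L129270 (by decide +kernel)
theorem L129272 : W_46 (nat_lit 6) (nat_lit 0x200000001e000c0004000000000000000000000000000) (nat_lit 0x0) (nat_lit 0x10000e000000038008c00040000000000000000000000) := T_46 (nat_lit 158) (nat_lit 157) (nat_lit 1) (nat_lit 8) (nat_lit 8) L129271 (by decide +kernel)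
theorem L129273 : W_46 (nat_lit 7) (nat_lit 0x200000001a000c0004000000000000000000000000000) (nat_lit 0x0) (nat_lit 0x10000e000400138008c00040000000000000000000000) := T_46 (nat_lit 142) (nat_lit 128) (nat_lit 2) (nat_lit 5) (nat_lit 8) L129272 (by decide +kernel)
theorem L129274 : W_46 (nat_lit 8) (nat_lit 0x1a000c0004000000000000000000000000000) (nat_lit 0x0) (nat_lit 0x30001e000400138008c00040000000000000000000000) := T_46 (nat_lit 177) (nat_lit 160) (nat_lit 6) (nat_lit 7) (nat_lit 10) L129273 (by decide +kernel)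
theorem L129275 : W_46 (nat_lit 13) (nat_lit 0x18000c0004000000000000000000000000000) (nat_lit 0x0) (nat_lit 0x4000e00070003e007f001f0007c0138008c000e0007000280000000000000) := Q_46 (nat_lit 141) (C_46 L129120 (C_46 L129267 (C_46 L129274 N_46))) (by decide +kernel)
theorem L129276 : W_46 (nat_lit 14) (nat_lit 0x18000c0000000000000000000000000000000) (nat_lit 0x0) (nat_lit 0x4000e00070003e007f001f0047c033803cc01fe01ff000280000000000000) := Q_46 (nat_lit 110) (C_46 L127190 (C_46 L129183 (C_46 L129275 N_46))) (by decide +kernel)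
theorem L129277 : W_46 (nat_lit 2) (nat_lit 0x2800080014001a000d8000000200000000000000000000000) (nat_lit 0x0) (nat_lit 0x50001000000000000000000000000000000000000000000000000) := D_46 (nat_lit 192) (nat_lit 208) (nat_lit 210) (nat_lit 5) (nat_lit 5) (nat_lit 8) (nat_lit 7) (nat_lit 5) (nat_lit 8) (by decide +kernel)
theorem L129278 : W_46 (nat_lit 3) (nat_lit 0x800080014001a000d8000000200000000000000000000000) (nat_lit 0x0) (nat_lit 0x50003000100000000000000000000000000000000000000000000) := T_46 (nat_lit 193) (nat_lit 176) (nat_lit 7) (nat_lit 5) (nat_lit 7) L129277 (by decide +kernel)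
theorem L129279 : W_46 (nat_lit 4) (nat_lit 0x80014001a000d8000000200000000000000000000000) (nat_lit 0x0) (nat_lit 0x50003800140000000000000000000000000000000000000000000) := T_46 (nat_lit 191) (nat_lit 174) (nat_lit 5) (nat_lit 5) (nat_lit 7) L129278 (by decide +kernel)
theorem L129280 : W_46 (nat_lit 5) (nat_lit 0x14001a000d8000000200000000000000000000000) (nat_lit 0x0) (nat_lit 0x500038001c0000000000000000400000000000000000000000000) := T_46 (nat_lit 175) (nat_lit 106) (nat_lit 4) (nat_lit 5) (nat_lit 10) L129279 (by decide +kernel)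
theorem L129281 : W_46 (nat_lit 6) (nat_lit 0x14001a000d0000000200000000000000000000000) (nat_lit 0x0) (nat_lit 0x500038001c0000000000028000400000000000000000000000000) := T_46 (nat_lit 123) (nat_lit 125) (nat_lit 3) (nat_lit 4) (nat_lit 7) L129280 (by decide +kernel)
theorem L129282 : W_46 (nat_lit 7) (nat_lit 0x14001a000d0000000000000000000000000000000) (nat_lit 0x0) (nat_lit 0x500038001c0000000000028004400200000000000000000000000) := T_46 (nat_lit 93) (nat_lit 110) (nat_lit 5) (nat_lit 8) (nat_lit 5) L129281 (by decide +kernel)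
theorem L129283 : W_46 (nat_lit 2) (nat_lit 0x80016001a000d8000000000000000000000000000000) (nat_lit 0x0) (nat_lit 0x800040000000000000000800000000000000000000000000) := D_46 (nat_lit 174) (nat_lit 107) (nat_lit 191) (nat_lit 5) (nat_lit 5) (nat_lit 6) (nat_lit 5) (nat_lit 5) (nat_lit 7) (by decide +kernel)
theorem L129284 : W_46 (nat_lit 3) (nat_lit 0x16001a000d8000000000000000000000000000000) (nat_lit 0x0) (nat_lit 0x8000c0000000000000000c00000000000000000000000000) := T_46 (nat_lit 175) (nat_lit 106) (nat_lit 4) (nat_lit 5) (nat_lit 10) L129283 (by decide +kernel)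
theorem L129285 : W_46 (nat_lit 4) (nat_lit 0x14001a000d8000000000000000000000000000000) (nat_lit 0x0) (nat_lit 0x8000c000a000000000000c00000000000000000000000000) := T_46 (nat_lit 157) (nat_lit 159) (nat_lit 2) (nat_lit 4) (nat_lit 9) L129284 (by decide +kernel)
theorem L129286 : W_46 (nat_lit 5) (nat_lit 0x14001a000d0000000000000000000000000000000) (nat_lit 0x0) (nat_lit 0x8000c000a000000028000c00000000000000000000000000) := T_46 (nat_lit 123) (nat_lit 125) (nat_lit 3) (nat_lit 4) (nat_lit 7) L129285 (by decide +kernel)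
theorem L129287 : W_46 (nat_lit 2) (nat_lit 0x16001a000d0000800200000000000000000000000) (nat_lit 0x0) (nat_lit 0x20000400020000000000000000000000) := D_46 (nat_lit 106) (nat_lit 89) (nat_lit 125) (nat_lit 4) (nat_lit 5) (nat_lit 9) (nat_lit 0) (nat_lit 8) (nat_lit 7) (by decide +kernel)
theorem L129288 : W_46 (nat_lit 3) (nat_lit 0x16001a000d0000000200000000000000000000000) (nat_lit 0x0) (nat_lit 0x40000000000020000c00020000000000000000000000) := T_46 (nat_lit 107) (nat_lit 174) (nat_lit 5) (nat_lit 5) (nat_lit 6) L129287 (by decide +kernel)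
theorem L129289 : W_46 (nat_lit 4) (nat_lit 0x16001a000d0000000000000000000000000000000) (nat_lit 0x0) (nat_lit 0x40000000000020004c00220000000000000000000000) := T_46 (nat_lit 93) (nat_lit 110) (nat_lit 5) (nat_lit 8) (nat_lit 5) L129288 (by decide +kernel)
theorem L129290 : W_46 (nat_lit 5) (nat_lit 0x14001a000d0000000000000000000000000000000) (nat_lit 0x0) (nat_lit 0x4000a000000020004c00220000000000000000000000) := T_46 (nat_lit 157) (nat_lit 159) (nat_lit 2) (nat_lit 4) (nat_lit 9) L129289 (by decide +kernel)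
theorem L129291 : W_46 (nat_lit 8) (nat_lit 0x10001a000d0000000000000000000000000000000) (nat_lit 0x0) (nat_lit 0x500038001c000e000000028004c00220000000000000000000000) := Q_46 (nat_lit 158) (C_46 L122768 (C_46 L129282 (C_46 L129286 (C_46 L129290 N_46)))) (by decide +kernel)
theorem L129292 : W_46 (nat_lit 2) (nat_lit 0x10001a000d00008003c0000000000000000000000) (nat_lit 0x0) (nat_lit 0x20003000000000000000000) := D_46 (nat_lit 72) (nat_lit 73) (nat_lit 89) (nat_lit 0) (nat_lit 8) (nat_lit 5) (nat_lit 4) (nat_lit 5) (nat_lit 8) (by decide +kernel)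
theorem L129293 : W_46 (nat_lit 3) (nat_lit 0x10001a000d00008002c0000000000000000000000) (nat_lit 0x0) (nat_lit 0x400120003000000000000000000) := T_46 (nat_lit 92) (nat_lit 106) (nat_lit 1) (nat_lit 8) (nat_lit 5) L129292 (by decide +kernel)
theorem L129294 : W_46 (nat_lit 4) (nat_lit 0x10001a000d0000800240000000000000000000000) (nat_lit 0x0) (nat_lit 0x4001a0007000000000000000000) := T_46 (nat_lit 91) (nat_lit 74) (nat_lit 6) (nat_lit 5) (nat_lit 8) L129293 (by decide +kernel)
theorem L129295 : W_46 (nat_lit 5) (nat_lit 0x10001a000d0000800040000000000000000000000) (nat_lit 0x0) (nat_lit 0x44003a0007000000000000000000) := T_46 (nat_lit 93) (nat_lit 110) (nat_lit 5) (nat_lit 8) (nat_lit 5) L129294 (by decide +kernel)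
theorem L129296 : W_46 (nat_lit 2) (nat_lit 0x10001b000d0000c000e0000000000000000000000) (nat_lit 0x0) (nat_lit 0x300100000000000000000000000) := D_46 (nat_lit 105) (nat_lit 104) (nat_lit 92) (nat_lit 2) (nat_lit 2) (nat_lit 6) (nat_lit 1) (nat_lit 7) (nat_lit 5) (by decide +kernel)
theorem L129297 : W_46 (nat_lit 3) (nat_lit 0x10001b000d0000c00060000000000000000000000) (nat_lit 0x0) (nat_lit 0x300180004000000000000000000) := T_46 (nat_lit 91) (nat_lit 74) (nat_lit 6) (nat_lit 5) (nat_lit 8) L129296 (by decide +kernel)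
theorem L129298 : W_46 (nat_lit 4) (nat_lit 0x10001b000d0000800060000000000000000000000) (nat_lit 0x0) (nat_lit 0x4000000000000700180004000000000000000000) := T_46 (nat_lit 106) (nat_lit 158) (nat_lit 4) (nat_lit 5) (nat_lit 9) L129297 (by decide +kernel)
theorem L129299 : W_46 (nat_lit 5) (nat_lit 0x10001a000d0000800060000000000000000000000) (nat_lit 0x0) (nat_lit 0x6000100000000700180004000000000000000000) := T_46 (nat_lit 140) (nat_lit 157) (nat_lit 5) (nat_lit 5) (nat_lit 5) L129298 (by decide +kernel)
theorem L129300 : W_46 (nat_lit 6) (nat_lit 0x10001a000d0000800040000000000000000000000) (nat_lit 0x0) (nat_lit 0x60001000000007001a0005000000000000000000) := T_46 (nat_lit 89) (nat_lit 72) (nat_lit 4) (nat_lit 5) (nat_lit 8) L129299 (by decide +kernel)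
theorem L129301 : W_46 (nat_lit 2) (nat_lit 0x12001a000d00008002c0000000000000000000000) (nat_lit 0x0) (nat_lit 0x4000c000000000000000000000000000000000000000) := D_46 (nat_lit 158) (nat_lit 159) (nat_lit 174) (nat_lit 2) (nat_lit 4) (nat_lit 9) (nat_lit 5) (nat_lit 5) (nat_lit 6) (by decide +kernel)
theorem L129302 : W_46 (nat_lit 3) (nat_lit 0x10001a000d00008002c0000000000000000000000) (nat_lit 0x0) (nat_lit 0x4000e000100000000000000000000000000000000000) := T_46 (nat_lit 157) (nat_lit 140) (nat_lit 5) (nat_lit 5) (nat_lit 5) L129301 (by decide +kernel)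
theorem L129303 : W_46 (nat_lit 4) (nat_lit 0x10001a000d00008000c0000000000000000000000) (nat_lit 0x0) (nat_lit 0x4000e000100000004000200000000000000000000000) := T_46 (nat_lit 93) (nat_lit 110) (nat_lit 5) (nat_lit 8) (nat_lit 5) L129302 (by decide +kernel)
theorem L129304 : W_46 (nat_lit 5) (nat_lit 0x10001a000d0000800040000000000000000000000) (nat_lit 0x0) (nat_lit 0x4000e000100000004000280004000000000000000000) := T_46 (nat_lit 91) (nat_lit 74) (nat_lit 6) (nat_lit 5) (nat_lit 8) L129303 (by decide +kernel)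
theorem L129305 : W_46 (nat_lit 2) (nat_lit 0x14001a000d0000800260000000000000000000000) (nat_lit 0x0) (nat_lit 0xa000100000000000000000000000000000000000) := D_46 (nat_lit 157) (nat_lit 159) (nat_lit 140) (nat_lit 2) (nat_lit 4) (nat_lit 9) (nat_lit 5) (nat_lit 5) (nat_lit 5) (by decide +kernel)
theorem L129306 : W_46 (nat_lit 3) (nat_lit 0x10001a000d0000800260000000000000000000000) (nat_lit 0x0) (nat_lit 0xe000100000000400000000000000000000000000) := T_46 (nat_lit 158) (nat_lit 106) (nat_lit 4) (nat_lit 5) (nat_lit 9) L129305 (by decide +kernel)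
theorem L129307 : W_46 (nat_lit 4) (nat_lit 0x10001a000d0000800060000000000000000000000) (nat_lit 0x0) (nat_lit 0xe000100000004400200000000000000000000000) := T_46 (nat_lit 93) (nat_lit 110) (nat_lit 5) (nat_lit 8) (nat_lit 5) L129306 (by decide +kernel)
theorem L129308 : W_46 (nat_lit 5) (nat_lit 0x10001a000d0000800040000000000000000000000) (nat_lit 0x0) (nat_lit 0xe000100000004400220001000000000000000000) := T_46 (nat_lit 89) (nat_lit 72) (nat_lit 4) (nat_lit 5) (nat_lit 8) L129307 (by decide +kernel)
theorem L129309 : W_46 (nat_lit 7) (nat_lit 0x10001a000d0000800000000000000000000000000) (nat_lit 0x0) (nat_lit 0x4000e0001000000047003e0007000000000000000000) := Q_46 (nat_lit 90) (C_46 L129295 (C_46 L129300 (C_46 L129304 (C_46 L129308 N_46)))) (by decide +kernel)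
theorem L129310 : W_46 (nat_lit 2) (nat_lit 0x10001a000d0000800000000000000000000000000) (nat_lit 0x0) (nat_lit 0x100020000400000000000000000000000000) := D_46 (nat_lit 125) (nat_lit 106) (nat_lit 140) (nat_lit 0) (nat_lit 8) (nat_lit 7) (nat_lit 1) (nat_lit 8) (nat_lit 7) (by decide +kernel)
theorem L129311 : W_46 (nat_lit 2) (nat_lit 0x14001a000d0000c00200000000000000000000000) (nat_lit 0x0) (nat_lit 0x4000a000000000000000000000000000000000000000) := D_46 (nat_lit 157) (nat_lit 159) (nat_lit 174) (nat_lit 2) (nat_lit 4) (nat_lit 9) (nat_lit 5) (nat_lit 5) (nat_lit 6) (by decide +kernel)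
theorem L129312 : W_46 (nat_lit 3) (nat_lit 0x10001a000d0000c00200000000000000000000000) (nat_lit 0x0) (nat_lit 0x4000e000000000000000020000000000000000000000) := T_46 (nat_lit 158) (nat_lit 89) (nat_lit 4) (nat_lit 5) (nat_lit 9) L129311 (by decide +kernel)
theorem L129313 : W_46 (nat_lit 4) (nat_lit 0x10001a000d0000800200000000000000000000000) (nat_lit 0x0) (nat_lit 0x4000e000000020000400020000000000000000000000) := T_46 (nat_lit 106) (nat_lit 125) (nat_lit 0) (nat_lit 8) (nat_lit 7) L129312 (by decide +kernel)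
theorem L129314 : W_46 (nat_lit 5) (nat_lit 0x10001a000d0000800000000000000000000000000) (nat_lit 0x0) (nat_lit 0x4000e000000020004400220000000000000000000000) := T_46 (nat_lit 93) (nat_lit 110) (nat_lit 5) (nat_lit 8) (nat_lit 5) L129313 (by decide +kernel)
theorem L129315 : W_46 (nat_lit 2) (nat_lit 0x10001b000d00008002c0001000000000000000000) (nat_lit 0x0) (nat_lit 0x100002000080000000000000) := D_46 (nat_lit 73) (nat_lit 92) (nat_lit 55) (nat_lit 0) (nat_lit 8) (nat_lit 5) (nat_lit 4) (nat_lit 5) (nat_lit 7) (by decide +kernel)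
theorem L129316 : W_46 (nat_lit 3) (nat_lit 0x10001b000d0000800240001000000000000000000) (nat_lit 0x0) (nat_lit 0x180006000080000000000000) := T_46 (nat_lit 91) (nat_lit 74) (nat_lit 6) (nat_lit 5) (nat_lit 8) L129315 (by decide +kernel)
theorem L129317 : W_46 (nat_lit 4) (nat_lit 0x10001b000d0000800240000000000000000000000) (nat_lit 0x0) (nat_lit 0x1a0007000080000000000000) := T_46 (nat_lit 72) (nat_lit 89) (nat_lit 4) (nat_lit 5) (nat_lit 8) L129316 (by decide +kernel)
theorem L129318 : W_46 (nat_lit 5) (nat_lit 0x10001b000d0000800200000000000000000000000) (nat_lit 0x0) (nat_lit 0x20000000000000001e0007000080000000000000) := T_46 (nat_lit 90) (nat_lit 157) (nat_lit 5) (nat_lit 5) (nat_lit 5) L129317 (by decide +kernel)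
theorem L129319 : W_46 (nat_lit 6) (nat_lit 0x10001b000d0000800000000000000000000000000) (nat_lit 0x0) (nat_lit 0x20000000000040003e0007000080000000000000) := T_46 (nat_lit 93) (nat_lit 110) (nat_lit 5) (nat_lit 8) (nat_lit 5) L129318 (by decide +kernel)
theorem L129320 : W_46 (nat_lit 7) (nat_lit 0x10001a000d0000800000000000000000000000000) (nat_lit 0x0) (nat_lit 0x20001000200040003e0007000080000000000000) := T_46 (nat_lit 140) (nat_lit 125) (nat_lit 1) (nat_lit 8) (nat_lit 7) L129319 (by decide +kernel)
theorem L129321 : W_46 (nat_lit 8) (nat_lit 0x10001a000d0000000000000000000000000000000) (nat_lit 0x0) (nat_lit 0x4000e000100020004f003e0007000080000000000000) := Q_46 (nat_lit 107) (C_46 L129309 (C_46 L129310 (C_46 L129314 (C_46 L129320 N_46)))) (by decide +kernel)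
theorem L129322 : W_46 (nat_lit 12) (nat_lit 0x10001a000c0000000000000000000000000000000) (nat_lit 0x0) (nat_lit 0x400070003c001f800fc00100038004f003e0007000080000000000000) := Q_46 (nat_lit 124) (C_46 L126711 (C_46 L126710 (C_46 L129291 (C_46 L129321 N_46)))) (by decide +kernel)
theorem L129323 : W_46 (nat_lit 2) (nat_lit 0x10001a000c0002000200000000000000000000000) (nat_lit 0x0) (nat_lit 0x100018000000000000000000) := D_46 (nat_lit 92) (nat_lit 75) (nat_lit 76) (nat_lit 7) (nat_lit 7) (nat_lit 4) (nat_lit 6) (nat_lit 7) (nat_lit 8) (by decide +kernel)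
theorem L129324 : W_46 (nat_lit 3) (nat_lit 0x10001a000c0002000000000000000000000000000) (nat_lit 0x0) (nat_lit 0x4000300018000000000000000000) := T_46 (nat_lit 93) (nat_lit 110) (nat_lit 6) (nat_lit 7) (nat_lit 9) L129323 (by decide +kernel)
theorem L129325 : W_46 (nat_lit 2) (nat_lit 0x1c001e000d0002800000008000000000000000000) (nat_lit 0x0) (nat_lit 0x20000400020000000000000000000000) := D_46 (nat_lit 106) (nat_lit 89) (nat_lit 125) (nat_lit 4) (nat_lit 5) (nat_lit 9) (nat_lit 0) (nat_lit 8) (nat_lit 7) (by decide +kernel)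
theorem L129326 : W_46 (nat_lit 3) (nat_lit 0x1c001e000d0002000000008000000000000000000) (nat_lit 0x0) (nat_lit 0x20000c00060000000000000000000000) := T_46 (nat_lit 107) (nat_lit 90) (nat_lit 7) (nat_lit 5) (nat_lit 5) L129325 (by decide +kernel)
theorem L129327 : W_46 (nat_lit 4) (nat_lit 0x1c001e000c0002000000008000000000000000000) (nat_lit 0x0) (nat_lit 0x38000c00060000000000000000000000) := T_46 (nat_lit 124) (nat_lit 123) (nat_lit 0) (nat_lit 8) (nat_lit 8) L129326 (by decide +kernel)
theorem L129328 : W_46 (nat_lit 5) (nat_lit 0x1c001a000c0002000000008000000000000000000) (nat_lit 0x0) (nat_lit 0x400138000c00060000000000000000000000) := T_46 (nat_lit 142) (nat_lit 128) (nat_lit 2) (nat_lit 5) (nat_lit 8) L129327 (by decide +kernel)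
theorem L129329 : W_46 (nat_lit 6) (nat_lit 0x18001a000c0002000000008000000000000000000) (nat_lit 0x0) (nat_lit 0x6000400138000c00060000000000000000000000) := T_46 (nat_lit 158) (nat_lit 157) (nat_lit 2) (nat_lit 4) (nat_lit 9) L129328 (by decide +kernel)
theorem L129330 : W_46 (nat_lit 7) (nat_lit 0x10001a000c0002000000008000000000000000000) (nat_lit 0x0) (nat_lit 0x10000e000400138000c00060000000000000000000000) := T_46 (nat_lit 159) (nat_lit 176) (nat_lit 5) (nat_lit 7) (nat_lit 6) L129329 (by decide +kernel)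
theorem L129331 : W_46 (nat_lit 8) (nat_lit 0x10001a000c0002000000000000000000000000000) (nat_lit 0x0) (nat_lit 0x10000e000400138000c00160008000000000000000000) := T_46 (nat_lit 75) (nat_lit 92) (nat_lit 7) (nat_lit 7) (nat_lit 4) L129330 (by decide +kernel)
theorem L129332 : W_46 (nat_lit 9) (nat_lit 0x10001a000c0000000000000000000000000000000) (nat_lit 0x0) (nat_lit 0x10000e000400138006c00360018000000000000000000) := Q_46 (nat_lit 109) (C_46 L129324 (C_46 L129331 (C_46 L125556 N_46))) (by decide +kernel)
theorem L129333 : W_46 (nat_lit 13) (nat_lit 0x100018000c0000000000000000000000000000000) (nat_lit 0x0) (nat_lit 0x400070003c001f800fc00700138006f003e001f000080000000000000) := Q_46 (nat_lit 141) (C_46 L129322 (C_46 L122721 (C_46 L129332 N_46))) (by decide +kernel)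
theorem L129334 : W_46 (nat_lit 14) (nat_lit 0x18000c0000000000000000000000000000000) (nat_lit 0x0) (nat_lit 0x40007000fc00ff801fc00700138006f003e001f000080000000000000) := Q_46 (nat_lit 160) (C_46 L122699 (C_46 L122435 (C_46 L129333 N_46))) (by decide +kernel)
theorem L129335 : W_46 (nat_lit 2) (nat_lit 0x18000e000c000000010000000000000000000) (nat_lit 0x0) (nat_lit 0x32000000000000000000000000000) := D_46 (nat_lit 112) (nat_lit 113) (nat_lit 109) (nat_lit 1) (nat_lit 11) (nat_lit 6) (nat_lit 1) (nat_lit 10) (nat_lit 6) (by decide +kernel)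
theorem L129336 : W_46 (nat_lit 3) (nat_lit 0x18000c000c000000010000000000000000000) (nat_lit 0x0) (nat_lit 0x30032000000000000000000000000000) := T_46 (nat_lit 125) (nat_lit 124) (nat_lit 2) (nat_lit 5) (nat_lit 7) L129335 (by decide +kernel)
theorem L129337 : W_46 (nat_lit 4) (nat_lit 0x18000c000c000000000000000000000000000) (nat_lit 0x0) (nat_lit 0x30032000200010000000000000000000) := T_46 (nat_lit 76) (nat_lit 93) (nat_lit 5) (nat_lit 8) (nat_lit 4) L129336 (by decide +kernel)
theorem L129338 : W_46 (nat_lit 2) (nat_lit 0x18000c002c000780000000000000000000000) (nat_lit 0x0) (nat_lit 0x2000000006000000000000000000) := D_46 (nat_lit 74) (nat_lit 73) (nat_lit 109) (nat_lit 0) (nat_lit 9) (nat_lit 5) (nat_lit 4) (nat_lit 7) (nat_lit 8) (by decide +kernel)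
theorem L129339 : W_46 (nat_lit 3) (nat_lit 0x18000c002c000380000000000000000000000) (nat_lit 0x0) (nat_lit 0x2000400026000000000000000000) := T_46 (nat_lit 94) (nat_lit 77) (nat_lit 6) (nat_lit 8) (nat_lit 8) L129338 (by decide +kernel)
theorem L129340 : W_46 (nat_lit 4) (nat_lit 0x18000c002c000300000000000000000000000) (nat_lit 0x0) (nat_lit 0x20004c0026000000000000000000) := T_46 (nat_lit 91) (nat_lit 90) (nat_lit 3) (nat_lit 5) (nat_lit 5) L129339 (by decide +kernel)
theorem L129341 : W_46 (nat_lit 5) (nat_lit 0x18000c002c000200000000000000000000000) (nat_lit 0x0) (nat_lit 0x20005c002e000000000000000000) := T_46 (nat_lit 92) (nat_lit 75) (nat_lit 4) (nat_lit 8) (nat_lit 8) L129340 (by decide +kernel)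
theorem L129342 : W_46 (nat_lit 6) (nat_lit 0x18000c002c000000000000000000000000000) (nat_lit 0x0) (nat_lit 0x20007c003e000000000000000000) := T_46 (nat_lit 93) (nat_lit 76) (nat_lit 5) (nat_lit 8) (nat_lit 4) L129341 (by decide +kernel)
theorem L129343 : W_46 (nat_lit 7) (nat_lit 0x18000c000c000000000000000000000000000) (nat_lit 0x0) (nat_lit 0x320007c003e000000000000000000) := T_46 (nat_lit 113) (nat_lit 112) (nat_lit 1) (nat_lit 11) (nat_lit 6) L129342 (by decide +kernel)
theorem L129344 : W_46 (nat_lit 2) (nat_lit 0x18000e000c000000010000000000000000000) (nat_lit 0x0) (nat_lit 0x100030000000000000000000000000000) := D_46 (nat_lit 112) (nat_lit 113) (nat_lit 128) (nat_lit 1) (nat_lit 11) (nat_lit 6) (nat_lit 2) (nat_lit 6) (nat_lit 7) (by decide +kernel)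
theorem L129345 : W_46 (nat_lit 3) (nat_lit 0x18000c000c000000010000000000000000000) (nat_lit 0x0) (nat_lit 0x130030000000000000000000000000000) := T_46 (nat_lit 125) (nat_lit 124) (nat_lit 2) (nat_lit 5) (nat_lit 7) L129344 (by decide +kernel)
theorem L129346 : W_46 (nat_lit 4) (nat_lit 0x18000c000c000000000000000000000000000) (nat_lit 0x0) (nat_lit 0x130030000200010000000000000000000) := T_46 (nat_lit 76) (nat_lit 93) (nat_lit 5) (nat_lit 8) (nat_lit 4) L129345 (by decide +kernel)
theorem L129347 : W_46 (nat_lit 2) (nat_lit 0x18000c001c000000000000000000000000000) (nat_lit 0x0) (nat_lit 0x30002000000000000000000000000000) := D_46 (nat_lit 125) (nat_lit 124) (nat_lit 109) (nat_lit 2) (nat_lit 5) (nat_lit 7) (nat_lit 1) (nat_lit 10) (nat_lit 6) (by decide +kernel)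
theorem L129348 : W_46 (nat_lit 3) (nat_lit 0x18000c000c000000000000000000000000000) (nat_lit 0x0) (nat_lit 0x30032000000000000000000000000000) := T_46 (nat_lit 112) (nat_lit 113) (nat_lit 1) (nat_lit 11) (nat_lit 6) L129347 (by decide +kernel)
theorem L129349 : W_46 (nat_lit 2) (nat_lit 0x18000d000c000780000000000000000000000) (nat_lit 0x0) (nat_lit 0x2000000006000000000000000000) := D_46 (nat_lit 74) (nat_lit 73) (nat_lit 109) (nat_lit 0) (nat_lit 9) (nat_lit 5) (nat_lit 4) (nat_lit 7) (nat_lit 8) (by decide +kernel)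
theorem L129350 : W_46 (nat_lit 3) (nat_lit 0x18000d000c000380000000000000000000000) (nat_lit 0x0) (nat_lit 0x2000400026000000000000000000) := T_46 (nat_lit 94) (nat_lit 77) (nat_lit 6) (nat_lit 8) (nat_lit 8) L129349 (by decide +kernel)
theorem L129351 : W_46 (nat_lit 4) (nat_lit 0x18000d000c000300000000000000000000000) (nat_lit 0x0) (nat_lit 0x20004c0026000000000000000000) := T_46 (nat_lit 91) (nat_lit 90) (nat_lit 3) (nat_lit 5) (nat_lit 5) L129350 (by decide +kernel)
theorem L129352 : W_46 (nat_lit 5) (nat_lit 0x18000d000c000200000000000000000000000) (nat_lit 0x0) (nat_lit 0x20005c002e000000000000000000) := T_46 (nat_lit 92) (nat_lit 75) (nat_lit 4) (nat_lit 8) (nat_lit 8) L129351 (by decide +kernel)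
theorem L129353 : W_46 (nat_lit 6) (nat_lit 0x18000d000c000000000000000000000000000) (nat_lit 0x0) (nat_lit 0x20007c003e000000000000000000) := T_46 (nat_lit 93) (nat_lit 76) (nat_lit 5) (nat_lit 8) (nat_lit 4) L129352 (by decide +kernel)
theorem L129354 : W_46 (nat_lit 7) (nat_lit 0x18000c000c000000000000000000000000000) (nat_lit 0x0) (nat_lit 0x300020007c003e000000000000000000) := T_46 (nat_lit 124) (nat_lit 125) (nat_lit 2) (nat_lit 5) (nat_lit 7) L129353 (by decide +kernel)
theorem L129355 : W_46 (nat_lit 8) (nat_lit 0x18000c0004000000000000000000000000000) (nat_lit 0x0) (nat_lit 0x13003a0007c003e000000000000000000) := Q_46 (nat_lit 111) (C_46 L129337 (C_46 L129343 (C_46 L129346 (C_46 L129348 (C_46 L129354 N_46))))) (by decide +kernel)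
theorem L129356 : W_46 (nat_lit 2) (nat_lit 0x18000c0000000200000000000000000000000) (nat_lit 0x0) (nat_lit 0x10000000000004000000010000000000000000000) := D_46 (nat_lit 110) (nat_lit 76) (nat_lit 160) (nat_lit 5) (nat_lit 8) (nat_lit 4) (nat_lit 5) (nat_lit 8) (nat_lit 5) (by decide +kernel)
theorem L129357 : W_46 (nat_lit 2) (nat_lit 0x18000c0000000300000000000000000000000) (nat_lit 0x0) (nat_lit 0x6000000010000000000000000000) := D_46 (nat_lit 76) (nat_lit 110) (nat_lit 109) (nat_lit 5) (nat_lit 8) (nat_lit 4) (nat_lit 6) (nat_lit 7) (nat_lit 8) (by decide +kernel)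
theorem L129358 : W_46 (nat_lit 2) (nat_lit 0x18000c0000000300000000000000000000000) (nat_lit 0x0) (nat_lit 0x4000000018000000000000000000) := D_46 (nat_lit 110) (nat_lit 76) (nat_lit 75) (nat_lit 5) (nat_lit 8) (nat_lit 4) (nat_lit 4) (nat_lit 8) (nat_lit 8) (by decide +kernel)
theorem L129359 : W_46 (nat_lit 2) (nat_lit 0x18000c0000000300000000000000000000000) (nat_lit 0x0) (nat_lit 0x2000000018000000000000000000) := D_46 (nat_lit 109) (nat_lit 76) (nat_lit 75) (nat_lit 6) (nat_lit 7) (nat_lit 8) (nat_lit 7) (nat_lit 7) (nat_lit 4) (by decide +kernel)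
theorem L129360 : W_46 (nat_lit 2) (nat_lit 0x18000c0000000300000000000000000000000) (nat_lit 0x0) (nat_lit 0x6000000008000000000000000000) := D_46 (nat_lit 75) (nat_lit 110) (nat_lit 109) (nat_lit 4) (nat_lit 8) (nat_lit 8) (nat_lit 7) (nat_lit 7) (nat_lit 4) (by decide +kernel)
theorem L129361 : W_46 (nat_lit 3) (nat_lit 0x18000c0000000200000000000000000000000) (nat_lit 0x0) (nat_lit 0x6000100018000000000000000000) := Q_46 (nat_lit 92) (C_46 L129357 (C_46 L129358 (C_46 L129359 (C_46 L129360 N_46)))) (by decide +kernel)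
theorem L129362 : W_46 (nat_lit 2) (nat_lit 0x18001c0020005f00068000000000000000000) (nat_lit 0x0) (nat_lit 0x8000600000000000000000000000000000000) := D_46 (nat_lit 130) (nat_lit 129) (nat_lit 147) (nat_lit 1) (nat_lit 11) (nat_lit 7) (nat_lit 4) (nat_lit 11) (nat_lit 8) (by decide +kernel)
theorem L129363 : W_46 (nat_lit 3) (nat_lit 0x18000c0020005f00068000000000000000000) (nat_lit 0x0) (nat_lit 0x8000700008000000000000000000000000000) := T_46 (nat_lit 128) (nat_lit 111) (nat_lit 5) (nat_lit 9) (nat_lit 4) L129362 (by decide +kernel)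
theorem L129364 : W_46 (nat_lit 4) (nat_lit 0x18000c0000005f00068000000000000000000) (nat_lit 0x0) (nat_lit 0x8000700068000000000000000000000000000) := T_46 (nat_lit 113) (nat_lit 114) (nat_lit 3) (nat_lit 8) (nat_lit 5) L129363 (by decide +kernel)
theorem L129365 : W_46 (nat_lit 5) (nat_lit 0x18000c0000001f00068000000000000000000) (nat_lit 0x0) (nat_lit 0x8000700068006000000000000000000000000) := T_46 (nat_lit 98) (nat_lit 97) (nat_lit 0) (nat_lit 13) (nat_lit 5) L129364 (by decide +kernel)
theorem L129366 : W_46 (nat_lit 6) (nat_lit 0x18000c0000000f00068000000000000000000) (nat_lit 0x0) (nat_lit 0x8000700068007000010000000000000000000) := T_46 (nat_lit 96) (nat_lit 76) (nat_lit 3) (nat_lit 7) (nat_lit 4) L129365 (by decide +kernel)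
theorem L129367 : W_46 (nat_lit 7) (nat_lit 0x18000c0000000f00048000000000000000000) (nat_lit 0x0) (nat_lit 0x8000700068007080030000000000000000000) := T_46 (nat_lit 77) (nat_lit 91) (nat_lit 2) (nat_lit 6) (nat_lit 5) L129366 (by decide +kernel)
theorem L129368 : W_46 (nat_lit 8) (nat_lit 0x18000c0000000f00008000000000000000000) (nat_lit 0x0) (nat_lit 0x80007000680070800f0000000000000000000) := T_46 (nat_lit 78) (nat_lit 79) (nat_lit 2) (nat_lit 7) (nat_lit 5) L129367 (by decide +kernel)
theorem L129369 : W_46 (nat_lit 9) (nat_lit 0x18000c0000000f00000000000000000000000) (nat_lit 0x0) (nat_lit 0x80007000680070800fc000000000000000000) := T_46 (nat_lit 75) (nat_lit 74) (nat_lit 0) (nat_lit 10) (nat_lit 5) L129368 (by decide +kernel)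
theorem L129370 : W_46 (nat_lit 2) (nat_lit 0x18000c0010001f00008000000000000000000) (nat_lit 0x0) (nat_lit 0x1c0000000000000000000) := D_46 (nat_lit 79) (nat_lit 78) (nat_lit 80) (nat_lit 2) (nat_lit 7) (nat_lit 5) (nat_lit 2) (nat_lit 8) (nat_lit 5) (by decide +kernel)
theorem L129371 : W_46 (nat_lit 3) (nat_lit 0x18000c0010000f00008000000000000000000) (nat_lit 0x0) (nat_lit 0x10001d0000000000000000000) := T_46 (nat_lit 96) (nat_lit 76) (nat_lit 0) (nat_lit 11) (nat_lit 5) L129370 (by decide +kernel)
theorem L129372 : W_46 (nat_lit 4) (nat_lit 0x18000c0000000f00008000000000000000000) (nat_lit 0x0) (nat_lit 0x300010001d0000000000000000000) := T_46 (nat_lit 112) (nat_lit 113) (nat_lit 3) (nat_lit 7) (nat_lit 5) L129371 (by decide +kernel)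
theorem L129373 : W_46 (nat_lit 5) (nat_lit 0x18000c0000000f00000000000000000000000) (nat_lit 0x0) (nat_lit 0x300010001dc000000000000000000) := T_46 (nat_lit 75) (nat_lit 74) (nat_lit 0) (nat_lit 10) (nat_lit 5) L129372 (by decide +kernel)
theorem L129374 : W_46 (nat_lit 2) (nat_lit 0x18000c0000000f80040000000000000000000) (nat_lit 0x0) (nat_lit 0xe000000000000000000) := D_46 (nat_lit 74) (nat_lit 73) (nat_lit 75) (nat_lit 0) (nat_lit 9) (nat_lit 5) (nat_lit 0) (nat_lit 10) (nat_lit 5) (by decide +kernel)
theorem L129375 : W_46 (nat_lit 3) (nat_lit 0x18000c0000000f00040000000000000000000) (nat_lit 0x0) (nat_lit 0x8002e000000000000000000) := T_46 (nat_lit 91) (nat_lit 77) (nat_lit 2) (nat_lit 6) (nat_lit 5) L129374 (by decide +kernel)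
theorem L129376 : W_46 (nat_lit 4) (nat_lit 0x18000c0000000f00000000000000000000000) (nat_lit 0x0) (nat_lit 0x800ee000000000000000000) := T_46 (nat_lit 78) (nat_lit 79) (nat_lit 2) (nat_lit 7) (nat_lit 5) L129375 (by decide +kernel)
theorem L129377 : W_46 (nat_lit 2) (nat_lit 0x18000c0010000f80000000000000000000000) (nat_lit 0x0) (nat_lit 0xe0000000000000000000) := D_46 (nat_lit 78) (nat_lit 77) (nat_lit 79) (nat_lit 2) (nat_lit 6) (nat_lit 5) (nat_lit 2) (nat_lit 7) (nat_lit 5) (by decide +kernel)
theorem L129378 : W_46 (nat_lit 3) (nat_lit 0x18000c0010000f00000000000000000000000) (nat_lit 0x0) (nat_lit 0x80000800e0000000000000000000) := T_46 (nat_lit 91) (nat_lit 111) (nat_lit 3) (nat_lit 6) (nat_lit 5) L129377 (by decide +kernel)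
theorem L129379 : W_46 (nat_lit 4) (nat_lit 0x18000c0000000f00000000000000000000000) (nat_lit 0x0) (nat_lit 0x380000800e0000000000000000000) := T_46 (nat_lit 112) (nat_lit 113) (nat_lit 3) (nat_lit 7) (nat_lit 5) L129378 (by decide +kernel)
theorem L129380 : W_46 (nat_lit 2) (nat_lit 0x18000c0010000f80028000000000000000000) (nat_lit 0x0) (nat_lit 0x1040010000000000000000000) := D_46 (nat_lit 76) (nat_lit 90) (nat_lit 96) (nat_lit 2) (nat_lit 5) (nat_lit 5) (nat_lit 0) (nat_lit 11) (nat_lit 5) (by decide +kernel)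
theorem L129381 : W_46 (nat_lit 3) (nat_lit 0x18000c0010000f80008000000000000000000) (nat_lit 0x0) (nat_lit 0x1040070000000000000000000) := T_46 (nat_lit 77) (nat_lit 78) (nat_lit 2) (nat_lit 6) (nat_lit 5) L129380 (by decide +kernel)
theorem L129382 : W_46 (nat_lit 4) (nat_lit 0x18000c0010000f00008000000000000000000) (nat_lit 0x0) (nat_lit 0x80010c0070000000000000000000) := T_46 (nat_lit 91) (nat_lit 111) (nat_lit 3) (nat_lit 6) (nat_lit 5) L129381 (by decide +kernel)
theorem L129383 : W_46 (nat_lit 5) (nat_lit 0x18000c0000000f00008000000000000000000) (nat_lit 0x0) (nat_lit 0x380010c0070000000000000000000) := T_46 (nat_lit 112) (nat_lit 113) (nat_lit 3) (nat_lit 7) (nat_lit 5) L129382 (by decide +kernel)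
theorem L129384 : W_46 (nat_lit 6) (nat_lit 0x18000c0000000f00000000000000000000000) (nat_lit 0x0) (nat_lit 0x380010c007c000000000000000000) := T_46 (nat_lit 75) (nat_lit 74) (nat_lit 0) (nat_lit 10) (nat_lit 5) L129383 (by decide +kernel)
theorem L129385 : W_46 (nat_lit 2) (nat_lit 0x18000c0010000f80018000000000000000000) (nat_lit 0x0) (nat_lit 0x60020000000000000000000) := D_46 (nat_lit 90) (nat_lit 89) (nat_lit 77) (nat_lit 2) (nat_lit 4) (nat_lit 5) (nat_lit 2) (nat_lit 5) (nat_lit 5) (by decide +kernel)
theorem L129386 : W_46 (nat_lit 3) (nat_lit 0x18000c0010000f80008000000000000000000) (nat_lit 0x0) (nat_lit 0x1060030000000000000000000) := T_46 (nat_lit 76) (nat_lit 96) (nat_lit 0) (nat_lit 11) (nat_lit 5) L129385 (by decide +kernel)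
theorem L129387 : W_46 (nat_lit 4) (nat_lit 0x18000c0010000f00008000000000000000000) (nat_lit 0x0) (nat_lit 0x80010e0030000000000000000000) := T_46 (nat_lit 91) (nat_lit 111) (nat_lit 3) (nat_lit 6) (nat_lit 5) L129386 (by decide +kernel)
theorem L129388 : W_46 (nat_lit 5) (nat_lit 0x18000c0000000f00008000000000000000000) (nat_lit 0x0) (nat_lit 0x380010e0030000000000000000000) := T_46 (nat_lit 112) (nat_lit 113) (nat_lit 3) (nat_lit 7) (nat_lit 5) L129387 (by decide +kernel)
theorem L129389 : W_46 (nat_lit 6) (nat_lit 0x18000c0000000f00000000000000000000000) (nat_lit 0x0) (nat_lit 0x380010e003c000000000000000000) := T_46 (nat_lit 75) (nat_lit 74) (nat_lit 0) (nat_lit 10) (nat_lit 5) L129388 (by decide +kernel)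
theorem L129390 : W_46 (nat_lit 10) (nat_lit 0x18000c0000000700000000000000000000000) (nat_lit 0x0) (nat_lit 0x80007000780078e01fe000000000000000000) := Q_46 (nat_lit 95) (C_46 L129369 (C_46 L129373 (C_46 L129376 (C_46 L129379 (C_46 L129384 (C_46 L129389 N_46)))))) (by decide +kernel)
theorem L129391 : W_46 (nat_lit 2) (nat_lit 0x18000c0010000f00060000000000000000000) (nat_lit 0x0) (nat_lit 0x4000200000000000000001000000000000000) := D_46 (nat_lit 129) (nat_lit 60) (nat_lit 146) (nat_lit 4) (nat_lit 10) (nat_lit 7) (nat_lit 4) (nat_lit 10) (nat_lit 8) (by decide +kernel)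
theorem L129392 : W_46 (nat_lit 3) (nat_lit 0x18000c0010000f00040000000000000000000) (nat_lit 0x0) (nat_lit 0x4000200000000080020001000000000000000) := T_46 (nat_lit 77) (nat_lit 91) (nat_lit 2) (nat_lit 6) (nat_lit 5) L129391 (by decide +kernel)
theorem L129393 : W_46 (nat_lit 4) (nat_lit 0x18000c0010000f00000000000000000000000) (nat_lit 0x0) (nat_lit 0x40002000000000800e0001000000000000000) := T_46 (nat_lit 78) (nat_lit 79) (nat_lit 2) (nat_lit 7) (nat_lit 5) L129392 (by decide +kernel)
theorem L129394 : W_46 (nat_lit 5) (nat_lit 0x18000c0000000f00000000000000000000000) (nat_lit 0x0) (nat_lit 0x40002000300000800e0001000000000000000) := T_46 (nat_lit 112) (nat_lit 113) (nat_lit 3) (nat_lit 7) (nat_lit 5) L129393 (by decide +kernel)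
theorem L129395 : W_46 (nat_lit 2) (nat_lit 0x18000c0020000f00008000000000000000000) (nat_lit 0x0) (nat_lit 0x40001000010000000000000000000) := D_46 (nat_lit 96) (nat_lit 76) (nat_lit 114) (nat_lit 0) (nat_lit 11) (nat_lit 5) (nat_lit 3) (nat_lit 8) (nat_lit 5) (by decide +kernel)
theorem L129396 : W_46 (nat_lit 3) (nat_lit 0x18000c0000000f00008000000000000000000) (nat_lit 0x0) (nat_lit 0x70001000010000000000000000000) := T_46 (nat_lit 113) (nat_lit 112) (nat_lit 3) (nat_lit 7) (nat_lit 5) L129395 (by decide +kernel)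
theorem L129397 : W_46 (nat_lit 4) (nat_lit 0x18000c0000000f00000000000000000000000) (nat_lit 0x0) (nat_lit 0x7000100001c000000000000000000) := T_46 (nat_lit 75) (nat_lit 74) (nat_lit 0) (nat_lit 10) (nat_lit 5) L129396 (by decide +kernel)
theorem L129398 : W_46 (nat_lit 6) (nat_lit 0x18000c0000000700000000000000000000000) (nat_lit 0x0) (nat_lit 0x40002000700018801fe001000000000000000) := Q_46 (nat_lit 95) (C_46 L129376 (C_46 L129373 (C_46 L129394 (C_46 L129397 N_46)))) (by decide +kernel)
theorem L129399 : W_46 (nat_lit 2) (nat_lit 0x18000c0040003f00248000000000000000000) (nat_lit 0x0) (nat_lit 0x4000420000000000000000000) := D_46 (nat_lit 98) (nat_lit 77) (nat_lit 82) (nat_lit 0) (nat_lit 13) (nat_lit 5) (nat_lit 2) (nat_lit 10) (nat_lit 5) (by decide +kernel)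
theorem L129400 : W_46 (nat_lit 3) (nat_lit 0x18000c0040003f00048000000000000000000) (nat_lit 0x0) (nat_lit 0x4000720000000000000000000) := T_46 (nat_lit 81) (nat_lit 80) (nat_lit 2) (nat_lit 9) (nat_lit 5) L129399 (by decide +kernel)
theorem L129401 : W_46 (nat_lit 4) (nat_lit 0x18000c0040001f00048000000000000000000) (nat_lit 0x0) (nat_lit 0x80006000720000000000000000000) := T_46 (nat_lit 97) (nat_lit 115) (nat_lit 3) (nat_lit 9) (nat_lit 5) L129400 (by decide +kernel)
theorem L129402 : W_46 (nat_lit 5) (nat_lit 0x18000c0000001f00048000000000000000000) (nat_lit 0x0) (nat_lit 0xe0006000720000000000000000000) := T_46 (nat_lit 114) (nat_lit 113) (nat_lit 3) (nat_lit 8) (nat_lit 5) L129401 (by decide +kernel)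
theorem L129403 : W_46 (nat_lit 6) (nat_lit 0x18000c0000000f00048000000000000000000) (nat_lit 0x0) (nat_lit 0xe0007000730000000000000000000) := T_46 (nat_lit 96) (nat_lit 76) (nat_lit 0) (nat_lit 11) (nat_lit 5) L129402 (by decide +kernel)
theorem L129404 : W_46 (nat_lit 7) (nat_lit 0x18000c0000000f00008000000000000000000) (nat_lit 0x0) (nat_lit 0xe00070007f0000000000000000000) := T_46 (nat_lit 78) (nat_lit 79) (nat_lit 2) (nat_lit 7) (nat_lit 5) L129403 (by decide +kernel)
theorem L129405 : W_46 (nat_lit 8) (nat_lit 0x18000c0000000f00000000000000000000000) (nat_lit 0x0) (nat_lit 0xe00070007fc000000000000000000) := T_46 (nat_lit 75) (nat_lit 74) (nat_lit 0) (nat_lit 10) (nat_lit 5) L129404 (by decide +kernel)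
theorem L129406 : W_46 (nat_lit 2) (nat_lit 0x18000c0040001f00090000000000000000000) (nat_lit 0x0) (nat_lit 0x80002000020000000000000000000) := D_46 (nat_lit 97) (nat_lit 77) (nat_lit 115) (nat_lit 0) (nat_lit 12) (nat_lit 5) (nat_lit 3) (nat_lit 9) (nat_lit 5) (by decide +kernel)
theorem L129407 : W_46 (nat_lit 3) (nat_lit 0x18000c0000001f00090000000000000000000) (nat_lit 0x0) (nat_lit 0xe0002000020000000000000000000) := T_46 (nat_lit 114) (nat_lit 113) (nat_lit 3) (nat_lit 8) (nat_lit 5) L129406 (by decide +kernel)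
theorem L129408 : W_46 (nat_lit 4) (nat_lit 0x18000c0000001f00080000000000000000000) (nat_lit 0x0) (nat_lit 0xe0002000038000000000000000000) := T_46 (nat_lit 76) (nat_lit 75) (nat_lit 0) (nat_lit 11) (nat_lit 5) L129407 (by decide +kernel)
theorem L129409 : W_46 (nat_lit 5) (nat_lit 0x18000c0000000f00080000000000000000000) (nat_lit 0x0) (nat_lit 0xe0003000138000000000000000000) := T_46 (nat_lit 96) (nat_lit 80) (nat_lit 2) (nat_lit 8) (nat_lit 5) L129408 (by decide +kernel)
theorem L129410 : W_46 (nat_lit 6) (nat_lit 0x18000c0000000f00000000000000000000000) (nat_lit 0x0) (nat_lit 0xe00030001f8000000000000000000) := T_46 (nat_lit 79) (nat_lit 78) (nat_lit 2) (nat_lit 7) (nat_lit 5) L129409 (by decide +kernel)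
theorem L129411 : W_46 (nat_lit 2) (nat_lit 0x18000c0000000f80000000000000000000000) (nat_lit 0x0) (nat_lit 0xe000000000000000000) := D_46 (nat_lit 74) (nat_lit 75) (nat_lit 73) (nat_lit 0) (nat_lit 10) (nat_lit 5) (nat_lit 0) (nat_lit 9) (nat_lit 5) (by decide +kernel)
theorem L129412 : W_46 (nat_lit 2) (nat_lit 0x18000c0000400fc0021000000000000000000) (nat_lit 0x0) (nat_lit 0x200020000800000000000000000) := D_46 (nat_lit 89) (nat_lit 105) (nat_lit 71) (nat_lit 1) (nat_lit 7) (nat_lit 5) (nat_lit 0) (nat_lit 7) (nat_lit 5) (by decide +kernel)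
theorem L129413 : W_46 (nat_lit 3) (nat_lit 0x18000c0000400fc0020000000000000000000) (nat_lit 0x0) (nat_lit 0x200020003800000000000000000) := T_46 (nat_lit 72) (nat_lit 73) (nat_lit 0) (nat_lit 8) (nat_lit 5) L129412 (by decide +kernel)
theorem L129414 : W_46 (nat_lit 4) (nat_lit 0x18000c0000000fc0020000000000000000000) (nat_lit 0x0) (nat_lit 0xe00020003800000000000000000) := T_46 (nat_lit 106) (nat_lit 107) (nat_lit 1) (nat_lit 8) (nat_lit 5) L129413 (by decide +kernel)
theorem L129415 : W_46 (nat_lit 5) (nat_lit 0x18000c0000000f80020000000000000000000) (nat_lit 0x0) (nat_lit 0xe00060013800000000000000000) := T_46 (nat_lit 90) (nat_lit 76) (nat_lit 2) (nat_lit 5) (nat_lit 5) L129414 (by decide +kernel)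
theorem L129416 : W_46 (nat_lit 6) (nat_lit 0x18000c0000000f80000000000000000000000) (nat_lit 0x0) (nat_lit 0xe00060073800000000000000000) := T_46 (nat_lit 77) (nat_lit 78) (nat_lit 2) (nat_lit 6) (nat_lit 5) L129415 (by decide +kernel)
theorem L129417 : W_46 (nat_lit 2) (nat_lit 0x18000c0000000f80030000000000000000000) (nat_lit 0x0) (nat_lit 0x100000c000000000000000000) := D_46 (nat_lit 75) (nat_lit 74) (nat_lit 96) (nat_lit 3) (nat_lit 6) (nat_lit 4) (nat_lit 0) (nat_lit 11) (nat_lit 5) (by decide +kernel)
theorem L129418 : W_46 (nat_lit 3) (nat_lit 0x18000c0000000f80020000000000000000000) (nat_lit 0x0) (nat_lit 0x104001c000000000000000000) := T_46 (nat_lit 76) (nat_lit 90) (nat_lit 2) (nat_lit 5) (nat_lit 5) L129417 (by decide +kernel)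
theorem L129419 : W_46 (nat_lit 4) (nat_lit 0x18000c0000000f80000000000000000000000) (nat_lit 0x0) (nat_lit 0x104007c000000000000000000) := T_46 (nat_lit 77) (nat_lit 78) (nat_lit 2) (nat_lit 6) (nat_lit 5) L129418 (by decide +kernel)
theorem L129420 : W_46 (nat_lit 7) (nat_lit 0x18000c0000000f00000000000000000000000) (nat_lit 0x0) (nat_lit 0xe010e007f800000000000000000) := Q_46 (nat_lit 91) (C_46 L129411 (C_46 L129416 (C_46 L129419 N_46))) (by decide +kernel)
theorem L129421 : W_46 (nat_lit 2) (nat_lit 0x18000c0000000f00088000000000000000000) (nat_lit 0x0) (nat_lit 0x1000110000000000000000000) := D_46 (nat_lit 96) (nat_lit 76) (nat_lit 80) (nat_lit 0) (nat_lit 11) (nat_lit 5) (nat_lit 2) (nat_lit 8) (nat_lit 5) (by decide +kernel)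
theorem L129422 : W_46 (nat_lit 3) (nat_lit 0x18000c0000000f00008000000000000000000) (nat_lit 0x0) (nat_lit 0x10001d0000000000000000000) := T_46 (nat_lit 79) (nat_lit 78) (nat_lit 2) (nat_lit 7) (nat_lit 5) L129421 (by decide +kernel)
theorem L129423 : W_46 (nat_lit 4) (nat_lit 0x18000c0000000f00000000000000000000000) (nat_lit 0x0) (nat_lit 0x10001dc000000000000000000) := T_46 (nat_lit 75) (nat_lit 74) (nat_lit 0) (nat_lit 10) (nat_lit 5) L129422 (by decide +kernel)
theorem L129424 : W_46 (nat_lit 2) (nat_lit 0x18000c0000001f00000000000000000000000) (nat_lit 0x0) (nat_lit 0x1c0000000000000000000) := D_46 (nat_lit 79) (nat_lit 78) (nat_lit 80) (nat_lit 2) (nat_lit 7) (nat_lit 5) (nat_lit 2) (nat_lit 8) (nat_lit 5) (by decide +kernel)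
theorem L129425 : W_46 (nat_lit 2) (nat_lit 0x18004c0020003f00120000000000000000000) (nat_lit 0x0) (nat_lit 0x300008000000000000000000000000000) := D_46 (nat_lit 128) (nat_lit 111) (nat_lit 129) (nat_lit 5) (nat_lit 9) (nat_lit 4) (nat_lit 1) (nat_lit 11) (nat_lit 7) (by decide +kernel)
theorem L129426 : W_46 (nat_lit 3) (nat_lit 0x18000c0020003f00120000000000000000000) (nat_lit 0x0) (nat_lit 0x8000700008000000000000000000000000000) := T_46 (nat_lit 130) (nat_lit 147) (nat_lit 6) (nat_lit 11) (nat_lit 8) L129425 (by decide +kernel)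
theorem L129427 : W_46 (nat_lit 4) (nat_lit 0x18000c0020003f00100000000000000000000) (nat_lit 0x0) (nat_lit 0x8000700008000000030000000000000000000) := T_46 (nat_lit 77) (nat_lit 76) (nat_lit 0) (nat_lit 12) (nat_lit 5) L129426 (by decide +kernel)
theorem L129428 : W_46 (nat_lit 5) (nat_lit 0x18000c0020001f00100000000000000000000) (nat_lit 0x0) (nat_lit 0x8000700008002000230000000000000000000) := T_46 (nat_lit 97) (nat_lit 81) (nat_lit 2) (nat_lit 9) (nat_lit 5) L129427 (by decide +kernel)
theorem L129429 : W_46 (nat_lit 6) (nat_lit 0x18000c0020001f00000000000000000000000) (nat_lit 0x0) (nat_lit 0x80007000080020003b0000000000000000000) := T_46 (nat_lit 80) (nat_lit 79) (nat_lit 2) (nat_lit 8) (nat_lit 5) L129428 (by decide +kernel)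
theorem L129430 : W_46 (nat_lit 7) (nat_lit 0x18000c0000001f00000000000000000000000) (nat_lit 0x0) (nat_lit 0x80007000680020003b0000000000000000000) := T_46 (nat_lit 113) (nat_lit 114) (nat_lit 3) (nat_lit 8) (nat_lit 5) L129429 (by decide +kernel)
theorem L129431 : W_46 (nat_lit 2) (nat_lit 0x18000c0040003f00120000000000000000000) (nat_lit 0x0) (nat_lit 0x4080040000000000000000000) := D_46 (nat_lit 78) (nat_lit 98) (nat_lit 91) (nat_lit 0) (nat_lit 13) (nat_lit 5) (nat_lit 2) (nat_lit 6) (nat_lit 5) (by decide +kernel)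
theorem L129432 : W_46 (nat_lit 3) (nat_lit 0x18000c0040003f00100000000000000000000) (nat_lit 0x0) (nat_lit 0x4080070000000000000000000) := T_46 (nat_lit 77) (nat_lit 76) (nat_lit 0) (nat_lit 12) (nat_lit 5) L129431 (by decide +kernel)
theorem L129433 : W_46 (nat_lit 4) (nat_lit 0x18000c0040003f00000000000000000000000) (nat_lit 0x0) (nat_lit 0x4080370000000000000000000) := T_46 (nat_lit 80) (nat_lit 81) (nat_lit 2) (nat_lit 9) (nat_lit 5) L129432 (by decide +kernel)
theorem L129434 : W_46 (nat_lit 5) (nat_lit 0x18000c0040001f00000000000000000000000) (nat_lit 0x0) (nat_lit 0x80006080370000000000000000000) := T_46 (nat_lit 97) (nat_lit 115) (nat_lit 3) (nat_lit 9) (nat_lit 5) L129433 (by decide +kernel)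
theorem L129435 : W_46 (nat_lit 6) (nat_lit 0x18000c0000001f00000000000000000000000) (nat_lit 0x0) (nat_lit 0xe0006080370000000000000000000) := T_46 (nat_lit 114) (nat_lit 113) (nat_lit 3) (nat_lit 8) (nat_lit 5) L129434 (by decide +kernel)
theorem L129436 : W_46 (nat_lit 2) (nat_lit 0x18000c0020001f00060000000000000000000) (nat_lit 0x0) (nat_lit 0x6000010000000000000000000) := D_46 (nat_lit 97) (nat_lit 98) (nat_lit 76) (nat_lit 0) (nat_lit 13) (nat_lit 5) (nat_lit 0) (nat_lit 12) (nat_lit 5) (by decide +kernel)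
theorem L129437 : W_46 (nat_lit 3) (nat_lit 0x18000c0020001f00040000000000000000000) (nat_lit 0x0) (nat_lit 0x6080030000000000000000000) := T_46 (nat_lit 77) (nat_lit 91) (nat_lit 2) (nat_lit 6) (nat_lit 5) L129436 (by decide +kernel)
theorem L129438 : W_46 (nat_lit 4) (nat_lit 0x18000c0020001f00000000000000000000000) (nat_lit 0x0) (nat_lit 0x60800f0000000000000000000) := T_46 (nat_lit 78) (nat_lit 79) (nat_lit 2) (nat_lit 7) (nat_lit 5) L129437 (by decide +kernel)
theorem L129439 : W_46 (nat_lit 5) (nat_lit 0x18000c0000001f00000000000000000000000) (nat_lit 0x0) (nat_lit 0x600060800f0000000000000000000) := T_46 (nat_lit 113) (nat_lit 114) (nat_lit 3) (nat_lit 8) (nat_lit 5) L129438 (by decide +kernel)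
theorem L129440 : W_46 (nat_lit 8) (nat_lit 0x18000c0000000f00000000000000000000000) (nat_lit 0x0) (nat_lit 0x80007000e80070803f0000000000000000000) := Q_46 (nat_lit 96) (C_46 L129424 (C_46 L129430 (C_46 L129435 (C_46 L129439 N_46)))) (by decide +kernel)
theorem L129441 : W_46 (nat_lit 2) (nat_lit 0x18000c0040001f00108000000000000000000) (nat_lit 0x0) (nat_lit 0x80002000200000000000000000000) := D_46 (nat_lit 97) (nat_lit 81) (nat_lit 115) (nat_lit 2) (nat_lit 9) (nat_lit 5) (nat_lit 3) (nat_lit 9) (nat_lit 5) (by decide +kernel)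
theorem L129442 : W_46 (nat_lit 3) (nat_lit 0x18000c0000001f00108000000000000000000) (nat_lit 0x0) (nat_lit 0xe0002000200000000000000000000) := T_46 (nat_lit 114) (nat_lit 113) (nat_lit 3) (nat_lit 8) (nat_lit 5) L129441 (by decide +kernel)
theorem L129443 : W_46 (nat_lit 4) (nat_lit 0x18000c0000001f00008000000000000000000) (nat_lit 0x0) (nat_lit 0xe0002000380000000000000000000) := T_46 (nat_lit 80) (nat_lit 79) (nat_lit 2) (nat_lit 8) (nat_lit 5) L129442 (by decide +kernel)
theorem L129444 : W_46 (nat_lit 5) (nat_lit 0x18000c0000000f00008000000000000000000) (nat_lit 0x0) (nat_lit 0xe0003000390000000000000000000) := T_46 (nat_lit 96) (nat_lit 76) (nat_lit 0) (nat_lit 11) (nat_lit 5) L129443 (by decide +kernel)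
theorem L129445 : W_46 (nat_lit 6) (nat_lit 0x18000c0000000f00000000000000000000000) (nat_lit 0x0) (nat_lit 0xe000300039c000000000000000000) := T_46 (nat_lit 75) (nat_lit 74) (nat_lit 0) (nat_lit 10) (nat_lit 5) L129444 (by decide +kernel)
theorem L129446 : W_46 (nat_lit 9) (nat_lit 0x18000c0000000700000000000000000000000) (nat_lit 0x0) (nat_lit 0x80007000e8e078e07ff800000000000000000) := Q_46 (nat_lit 95) (C_46 L129405 (C_46 L129376 (C_46 L129410 (C_46 L129420 (C_46 L129423 (C_46 L129440 (C_46 L129445 N_46))))))) (by decide +kernel)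
theorem L129447 : W_46 (nat_lit 8) (nat_lit 0x18000c0000000700000000000000000000000) (nat_lit 0x0) (nat_lit 0xf8e038e03ff800000000000000000) := Q_46 (nat_lit 95) (C_46 L129445 (C_46 L129379 (C_46 L129423 (C_46 L129420 N_46)))) (by decide +kernel)
theorem L129448 : W_46 (nat_lit 2) (nat_lit 0x18003c0010001f00088000000200000000000) (nat_lit 0x0) (nat_lit 0x20008000000020000000000000000000) := D_46 (nat_lit 111) (nat_lit 125) (nat_lit 77) (nat_lit 2) (nat_lit 6) (nat_lit 7) (nat_lit 5) (nat_lit 9) (nat_lit 4) (by decide +kernel)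
theorem L129449 : W_46 (nat_lit 3) (nat_lit 0x18002c0010001f00088000000200000000000) (nat_lit 0x0) (nat_lit 0x520008000000020000000000000000000) := T_46 (nat_lit 128) (nat_lit 130) (nat_lit 1) (nat_lit 11) (nat_lit 7) L129448 (by decide +kernel)
theorem L129450 : W_46 (nat_lit 4) (nat_lit 0x18000c0010001f00088000000200000000000) (nat_lit 0x0) (nat_lit 0x4000720008000000020000000000000000000) := T_46 (nat_lit 129) (nat_lit 146) (nat_lit 6) (nat_lit 10) (nat_lit 8) L129449 (by decide +kernel)
theorem L129451 : W_46 (nat_lit 5) (nat_lit 0x18000c0010001f00088000000000000000000) (nat_lit 0x0) (nat_lit 0x4000720008000000020004000200000000000) := T_46 (nat_lit 45) (nat_lit 62) (nat_lit 5) (nat_lit 11) (nat_lit 2) L129450 (by decide +kernel)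
theorem L129452 : W_46 (nat_lit 6) (nat_lit 0x18000c0010000f00088000000000000000000) (nat_lit 0x0) (nat_lit 0x4000720008001000120004000200000000000) := T_46 (nat_lit 96) (nat_lit 80) (nat_lit 2) (nat_lit 8) (nat_lit 5) L129451 (by decide +kernel)
theorem L129453 : W_46 (nat_lit 7) (nat_lit 0x18000c0010000f00008000000000000000000) (nat_lit 0x0) (nat_lit 0x40007200080010001e0004000200000000000) := T_46 (nat_lit 79) (nat_lit 78) (nat_lit 2) (nat_lit 7) (nat_lit 5) L129452 (by decide +kernel)
theorem L129454 : W_46 (nat_lit 8) (nat_lit 0x18000c0000000f00008000000000000000000) (nat_lit 0x0) (nat_lit 0x40007200380010001e0004000200000000000) := T_46 (nat_lit 112) (nat_lit 113) (nat_lit 3) (nat_lit 7) (nat_lit 5) L129453 (by decide +kernel)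
theorem L129455 : W_46 (nat_lit 9) (nat_lit 0x18000c0000000f00000000000000000000000) (nat_lit 0x0) (nat_lit 0x40007200380010001ec004000200000000000) := T_46 (nat_lit 75) (nat_lit 74) (nat_lit 0) (nat_lit 10) (nat_lit 5) L129454 (by decide +kernel)
theorem L129456 : W_46 (nat_lit 2) (nat_lit 0x18000c0018000f00008000000000000000000) (nat_lit 0x0) (nat_lit 0x120000000000020000000000000000000) := D_46 (nat_lit 128) (nat_lit 125) (nat_lit 77) (nat_lit 2) (nat_lit 6) (nat_lit 7) (nat_lit 5) (nat_lit 9) (nat_lit 4) (by decide +kernel)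
theorem L129457 : W_46 (nat_lit 3) (nat_lit 0x18000c0010000f00008000000000000000000) (nat_lit 0x0) (nat_lit 0x120008000080020000000000000000000) := T_46 (nat_lit 111) (nat_lit 91) (nat_lit 3) (nat_lit 6) (nat_lit 5) L129456 (by decide +kernel)
theorem L129458 : W_46 (nat_lit 4) (nat_lit 0x18000c0000000f00008000000000000000000) (nat_lit 0x0) (nat_lit 0x120038000080020000000000000000000) := T_46 (nat_lit 112) (nat_lit 113) (nat_lit 3) (nat_lit 7) (nat_lit 5) L129457 (by decide +kernel)
theorem L129459 : W_46 (nat_lit 5) (nat_lit 0x18000c0000000f00000000000000000000000) (nat_lit 0x0) (nat_lit 0x12003800008002c000000000000000000) := T_46 (nat_lit 75) (nat_lit 74) (nat_lit 0) (nat_lit 10) (nat_lit 5) L129458 (by decide +kernel)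
theorem L129460 : W_46 (nat_lit 2) (nat_lit 0x18000c0010000f80000000000000000000000) (nat_lit 0x0) (nat_lit 0xe000000000000000000) := D_46 (nat_lit 74) (nat_lit 73) (nat_lit 75) (nat_lit 0) (nat_lit 9) (nat_lit 5) (nat_lit 0) (nat_lit 10) (nat_lit 5) (by decide +kernel)
theorem L129461 : W_46 (nat_lit 3) (nat_lit 0x18000c0010000f00000000000000000000000) (nat_lit 0x0) (nat_lit 0x800008000e000000000000000000) := T_46 (nat_lit 91) (nat_lit 111) (nat_lit 3) (nat_lit 6) (nat_lit 5) L129460 (by decide +kernel)
theorem L129462 : W_46 (nat_lit 4) (nat_lit 0x18000c0000000f00000000000000000000000) (nat_lit 0x0) (nat_lit 0x3800008000e000000000000000000) := T_46 (nat_lit 112) (nat_lit 113) (nat_lit 3) (nat_lit 7) (nat_lit 5) L129461 (by decide +kernel)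
theorem L129463 : W_46 (nat_lit 10) (nat_lit 0x18000c0000000700000000000000000000000) (nat_lit 0x0) (nat_lit 0x40007200380018801ee005000200000000000) := Q_46 (nat_lit 95) (C_46 L129455 (C_46 L129376 (C_46 L129394 (C_46 L129459 (C_46 L129462 N_46))))) (by decide +kernel)
theorem L129464 : W_46 (nat_lit 2) (nat_lit 0x18000c00084007e0024800000000000000000) (nat_lit 0x0) (nat_lit 0x10008400000000000000000) := D_46 (nat_lit 88) (nat_lit 75) (nat_lit 70) (nat_lit 2) (nat_lit 3) (nat_lit 5) (nat_lit 0) (nat_lit 6) (nat_lit 5) (by decide +kernel)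
theorem L129465 : W_46 (nat_lit 3) (nat_lit 0x18000c00084007e0024000000000000000000) (nat_lit 0x0) (nat_lit 0x10009c00000000000000000) := T_46 (nat_lit 71) (nat_lit 72) (nat_lit 0) (nat_lit 7) (nat_lit 5) L129464 (by decide +kernel)
theorem L129466 : W_46 (nat_lit 4) (nat_lit 0x18000c00084007c0024000000000000000000) (nat_lit 0x0) (nat_lit 0x200030009c00000000000000000) := T_46 (nat_lit 89) (nat_lit 105) (nat_lit 1) (nat_lit 7) (nat_lit 5) L129465 (by decide +kernel)
theorem L129467 : W_46 (nat_lit 5) (nat_lit 0x18000c00004007c0024000000000000000000) (nat_lit 0x0) (nat_lit 0x100008200030009c00000000000000000) := T_46 (nat_lit 111) (nat_lit 128) (nat_lit 5) (nat_lit 9) (nat_lit 4) L129466 (by decide +kernel)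
theorem L129468 : W_46 (nat_lit 6) (nat_lit 0x18000c00000007c0024000000000000000000) (nat_lit 0x0) (nat_lit 0x100008e00030009c00000000000000000) := T_46 (nat_lit 106) (nat_lit 107) (nat_lit 1) (nat_lit 8) (nat_lit 5) L129467 (by decide +kernel)
theorem L129469 : W_46 (nat_lit 7) (nat_lit 0x18000c0000000780024000000000000000000) (nat_lit 0x0) (nat_lit 0x100008e00070019c00000000000000000) := T_46 (nat_lit 90) (nat_lit 76) (nat_lit 2) (nat_lit 5) (nat_lit 5) L129468 (by decide +kernel)
theorem L129470 : W_46 (nat_lit 8) (nat_lit 0x18000c0000000780004000000000000000000) (nat_lit 0x0) (nat_lit 0x100008e00070079c00000000000000000) := T_46 (nat_lit 77) (nat_lit 78) (nat_lit 2) (nat_lit 6) (nat_lit 5) L129469 (by decide +kernel)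
theorem L129471 : W_46 (nat_lit 9) (nat_lit 0x18000c0000000780000000000000000000000) (nat_lit 0x0) (nat_lit 0x100008e0007007fc00000000000000000) := T_46 (nat_lit 74) (nat_lit 73) (nat_lit 0) (nat_lit 9) (nat_lit 5) L129470 (by decide +kernel)
theorem L129472 : W_46 (nat_lit 2) (nat_lit 0x18000c00000007c0020000000000000000000) (nat_lit 0x0) (nat_lit 0x7000000000000000000) := D_46 (nat_lit 73) (nat_lit 74) (nat_lit 72) (nat_lit 0) (nat_lit 9) (nat_lit 5) (nat_lit 0) (nat_lit 8) (nat_lit 5) (by decide +kernel)
theorem L129473 : W_46 (nat_lit 3) (nat_lit 0x18000c0000000780020000000000000000000) (nat_lit 0x0) (nat_lit 0x40017000000000000000000) := T_46 (nat_lit 90) (nat_lit 76) (nat_lit 2) (nat_lit 5) (nat_lit 5) L129472 (by decide +kernel)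
theorem L129474 : W_46 (nat_lit 4) (nat_lit 0x18000c0000000780000000000000000000000) (nat_lit 0x0) (nat_lit 0x40077000000000000000000) := T_46 (nat_lit 77) (nat_lit 78) (nat_lit 2) (nat_lit 6) (nat_lit 5) L129473 (by decide +kernel)
theorem L129475 : W_46 (nat_lit 2) (nat_lit 0x18000c0008000780004000000000000000000) (nat_lit 0x0) (nat_lit 0x100000000000060000000000000000000) := D_46 (nat_lit 77) (nat_lit 78) (nat_lit 128) (nat_lit 2) (nat_lit 6) (nat_lit 5) (nat_lit 5) (nat_lit 9) (nat_lit 4) (by decide +kernel)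
theorem L129476 : W_46 (nat_lit 3) (nat_lit 0x18000c0000000780004000000000000000000) (nat_lit 0x0) (nat_lit 0x100018000000060000000000000000000) := T_46 (nat_lit 111) (nat_lit 112) (nat_lit 3) (nat_lit 6) (nat_lit 5) L129475 (by decide +kernel)
theorem L129477 : W_46 (nat_lit 4) (nat_lit 0x18000c0000000780000000000000000000000) (nat_lit 0x0) (nat_lit 0x100018000000066000000000000000000) := T_46 (nat_lit 74) (nat_lit 73) (nat_lit 0) (nat_lit 9) (nat_lit 5) L129476 (by decide +kernel)
theorem L129478 : W_46 (nat_lit 2) (nat_lit 0x18000c0000000780020000000000000000000) (nat_lit 0x0) (nat_lit 0x100018000000000000000000000000000) := D_46 (nat_lit 111) (nat_lit 112) (nat_lit 128) (nat_lit 3) (nat_lit 6) (nat_lit 5) (nat_lit 5) (nat_lit 9) (nat_lit 4) (by decide +kernel)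
theorem L129479 : W_46 (nat_lit 3) (nat_lit 0x18000c0000000780000000000000000000000) (nat_lit 0x0) (nat_lit 0x100018000000060000000000000000000) := T_46 (nat_lit 77) (nat_lit 78) (nat_lit 2) (nat_lit 6) (nat_lit 5) L129478 (by decide +kernel)
theorem L129480 : W_46 (nat_lit 2) (nat_lit 0x18000c00000007c0000000000000000000000) (nat_lit 0x0) (nat_lit 0x7000000000000000000) := D_46 (nat_lit 73) (nat_lit 74) (nat_lit 72) (nat_lit 0) (nat_lit 9) (nat_lit 5) (nat_lit 0) (nat_lit 8) (nat_lit 5) (by decide +kernel)
theorem L129481 : W_46 (nat_lit 2) (nat_lit 0x18000c00084007c0001000000000000000000) (nat_lit 0x0) (nat_lit 0x200020000800000000000000000) := D_46 (nat_lit 89) (nat_lit 71) (nat_lit 105) (nat_lit 0) (nat_lit 7) (nat_lit 5) (nat_lit 1) (nat_lit 7) (nat_lit 5) (by decide +kernel)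
theorem L129482 : W_46 (nat_lit 3) (nat_lit 0x18000c00080007c0001000000000000000000) (nat_lit 0x0) (nat_lit 0xe00020000800000000000000000) := T_46 (nat_lit 106) (nat_lit 107) (nat_lit 1) (nat_lit 8) (nat_lit 5) L129481 (by decide +kernel)
theorem L129483 : W_46 (nat_lit 4) (nat_lit 0x18000c00080007c0000000000000000000000) (nat_lit 0x0) (nat_lit 0xe00020003800000000000000000) := T_46 (nat_lit 72) (nat_lit 73) (nat_lit 0) (nat_lit 8) (nat_lit 5) L129482 (by decide +kernel)
theorem L129484 : W_46 (nat_lit 5) (nat_lit 0x18000c00000007c0000000000000000000000) (nat_lit 0x0) (nat_lit 0x18e00020003800000000000000000) := T_46 (nat_lit 111) (nat_lit 112) (nat_lit 3) (nat_lit 6) (nat_lit 5) L129483 (by decide +kernel)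
theorem L129485 : W_46 (nat_lit 2) (nat_lit 0x18000c00084007e0008800000000000000000) (nat_lit 0x0) (nat_lit 0x10004400000000000000000) := D_46 (nat_lit 88) (nat_lit 74) (nat_lit 70) (nat_lit 2) (nat_lit 3) (nat_lit 5) (nat_lit 0) (nat_lit 6) (nat_lit 5) (by decide +kernel)
theorem L129486 : W_46 (nat_lit 3) (nat_lit 0x18000c00084007e0000800000000000000000) (nat_lit 0x0) (nat_lit 0x1001c400000000000000000) := T_46 (nat_lit 75) (nat_lit 76) (nat_lit 2) (nat_lit 4) (nat_lit 5) L129485 (by decide +kernel)
theorem L129487 : W_46 (nat_lit 4) (nat_lit 0x18000c00084007e0000000000000000000000) (nat_lit 0x0) (nat_lit 0x1001dc00000000000000000) := T_46 (nat_lit 71) (nat_lit 72) (nat_lit 0) (nat_lit 7) (nat_lit 5) L129486 (by decide +kernel)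
theorem L129488 : W_46 (nat_lit 5) (nat_lit 0x18000c00084007c0000000000000000000000) (nat_lit 0x0) (nat_lit 0x20003001dc00000000000000000) := T_46 (nat_lit 89) (nat_lit 105) (nat_lit 1) (nat_lit 7) (nat_lit 5) L129487 (by decide +kernel)
theorem L129489 : W_46 (nat_lit 6) (nat_lit 0x18000c00004007c0000000000000000000000) (nat_lit 0x0) (nat_lit 0x1820003001dc00000000000000000) := T_46 (nat_lit 111) (nat_lit 112) (nat_lit 3) (nat_lit 6) (nat_lit 5) L129488 (by decide +kernel)
theorem L129490 : W_46 (nat_lit 7) (nat_lit 0x18000c00000007c0000000000000000000000) (nat_lit 0x0) (nat_lit 0x18e0003001dc00000000000000000) := T_46 (nat_lit 106) (nat_lit 107) (nat_lit 1) (nat_lit 8) (nat_lit 5) L129489 (by decide +kernel)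
theorem L129491 : W_46 (nat_lit 2) (nat_lit 0x18000c00084007e0004000000000000000000) (nat_lit 0x0) (nat_lit 0x10018000000000000000000) := D_46 (nat_lit 75) (nat_lit 88) (nat_lit 76) (nat_lit 2) (nat_lit 3) (nat_lit 5) (nat_lit 2) (nat_lit 4) (nat_lit 5) (by decide +kernel)
theorem L129492 : W_46 (nat_lit 3) (nat_lit 0x18000c00084007c0004000000000000000000) (nat_lit 0x0) (nat_lit 0x200030018000000000000000000) := T_46 (nat_lit 89) (nat_lit 105) (nat_lit 1) (nat_lit 7) (nat_lit 5) L129491 (by decide +kernel)
theorem L129493 : W_46 (nat_lit 4) (nat_lit 0x18000c00080007c0004000000000000000000) (nat_lit 0x0) (nat_lit 0xe00030018000000000000000000) := T_46 (nat_lit 106) (nat_lit 107) (nat_lit 1) (nat_lit 8) (nat_lit 5) L129492 (by decide +kernel)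
theorem L129494 : W_46 (nat_lit 5) (nat_lit 0x18000c00080007c0000000000000000000000) (nat_lit 0x0) (nat_lit 0xe0003001e000000000000000000) := T_46 (nat_lit 74) (nat_lit 73) (nat_lit 0) (nat_lit 9) (nat_lit 5) L129493 (by decide +kernel)
theorem L129495 : W_46 (nat_lit 6) (nat_lit 0x18000c00000007c0000000000000000000000) (nat_lit 0x0) (nat_lit 0x18e0003001e000000000000000000) := T_46 (nat_lit 111) (nat_lit 112) (nat_lit 3) (nat_lit 6) (nat_lit 5) L129494 (by decide +kernel)
theorem L129496 : W_46 (nat_lit 8) (nat_lit 0x18000c0000000780000000000000000000000) (nat_lit 0x0) (nat_lit 0x18e0007001fc00000000000000000) := Q_46 (nat_lit 90) (C_46 L129480 (C_46 L129484 (C_46 L129490 (C_46 L129495 N_46)))) (by decide +kernel)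
theorem L129497 : W_46 (nat_lit 10) (nat_lit 0x18000c0000000700000000000000000000000) (nat_lit 0x0) (nat_lit 0x100018e000f007fc00000000000000000) := Q_46 (nat_lit 91) (C_46 L129471 (C_46 L129474 (C_46 L129477 (C_46 L129479 (C_46 L129496 N_46))))) (by decide +kernel)
theorem L129498 : W_46 (nat_lit 2) (nat_lit 0x18000c0010000f00068000000000000000000) (nat_lit 0x0) (nat_lit 0x4000200000000000000001000000000000000) := D_46 (nat_lit 129) (nat_lit 60) (nat_lit 146) (nat_lit 4) (nat_lit 10) (nat_lit 7) (nat_lit 4) (nat_lit 10) (nat_lit 8) (by decide +kernel)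
theorem L129499 : W_46 (nat_lit 3) (nat_lit 0x18000c0010000f00028000000000000000000) (nat_lit 0x0) (nat_lit 0x40002000000000000c0001000000000000000) := T_46 (nat_lit 78) (nat_lit 79) (nat_lit 2) (nat_lit 7) (nat_lit 5) L129498 (by decide +kernel)
theorem L129500 : W_46 (nat_lit 4) (nat_lit 0x18000c0000000f00028000000000000000000) (nat_lit 0x0) (nat_lit 0x40002000300000000c0001000000000000000) := T_46 (nat_lit 112) (nat_lit 113) (nat_lit 3) (nat_lit 7) (nat_lit 5) L129499 (by decide +kernel)
theorem L129501 : W_46 (nat_lit 5) (nat_lit 0x18000c0000000f00020000000000000000000) (nat_lit 0x0) (nat_lit 0x40002000300000000cc001000000000000000) := T_46 (nat_lit 75) (nat_lit 74) (nat_lit 0) (nat_lit 10) (nat_lit 5) L129500 (by decide +kernel)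
theorem L129502 : W_46 (nat_lit 2) (nat_lit 0x18000c0018000f00028000000000000000000) (nat_lit 0x0) (nat_lit 0x200000000000000001000080000000000) := D_46 (nat_lit 60) (nat_lit 129) (nat_lit 43) (nat_lit 7) (nat_lit 9) (nat_lit 3) (nat_lit 7) (nat_lit 9) (nat_lit 2) (by decide +kernel)
theorem L129503 : W_46 (nat_lit 3) (nat_lit 0x18000c0008000f00028000000000000000000) (nat_lit 0x0) (nat_lit 0x200030000000000001000080000000000) := T_46 (nat_lit 112) (nat_lit 113) (nat_lit 3) (nat_lit 7) (nat_lit 5) L129502 (by decide +kernel)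
theorem L129504 : W_46 (nat_lit 4) (nat_lit 0x18000c0008000f00020000000000000000000) (nat_lit 0x0) (nat_lit 0x20003000000000c001000080000000000) := T_46 (nat_lit 75) (nat_lit 74) (nat_lit 0) (nat_lit 10) (nat_lit 5) L129503 (by decide +kernel)
theorem L129505 : W_46 (nat_lit 5) (nat_lit 0x18000c0000000f00020000000000000000000) (nat_lit 0x0) (nat_lit 0x30003800000000c001000080000000000) := T_46 (nat_lit 111) (nat_lit 128) (nat_lit 5) (nat_lit 9) (nat_lit 4) L129504 (by decide +kernel)
theorem L129506 : W_46 (nat_lit 2) (nat_lit 0x18000c0008000f00078002400040000000000) (nat_lit 0x0) (nat_lit 0x20003000000) := D_46 (nat_lit 41) (nat_lit 25) (nat_lit 24) (nat_lit 6) (nat_lit 7) (nat_lit 5) (nat_lit 7) (nat_lit 7) (nat_lit 1) (by decide +kernel)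
theorem L129507 : W_46 (nat_lit 3) (nat_lit 0x18000c0008000f00078002400000000000000) (nat_lit 0x0) (nat_lit 0x800060003000000) := T_46 (nat_lit 42) (nat_lit 59) (nat_lit 7) (nat_lit 8) (nat_lit 2) L129506 (by decide +kernel)
theorem L129508 : W_46 (nat_lit 4) (nat_lit 0x18000c0008000f00078002000000000000000) (nat_lit 0x0) (nat_lit 0xe00060003000000) := T_46 (nat_lit 58) (nat_lit 57) (nat_lit 0) (nat_lit 10) (nat_lit 4) L129507 (by decide +kernel)
theorem L129509 : W_46 (nat_lit 5) (nat_lit 0x18000c0008000f00068002000000000000000) (nat_lit 0x0) (nat_lit 0x10004e00060003000000) := T_46 (nat_lit 76) (nat_lit 62) (nat_lit 2) (nat_lit 7) (nat_lit 4) L129508 (by decide +kernel)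
theorem L129510 : W_46 (nat_lit 6) (nat_lit 0x18000c0008000f00060002000000000000000) (nat_lit 0x0) (nat_lit 0x1c004e00060003000000) := T_46 (nat_lit 75) (nat_lit 74) (nat_lit 0) (nat_lit 10) (nat_lit 5) L129509 (by decide +kernel)
theorem L129511 : W_46 (nat_lit 7) (nat_lit 0x18000c0008000f00060000000000000000000) (nat_lit 0x0) (nat_lit 0x1c006e00160003000000) := T_46 (nat_lit 61) (nat_lit 44) (nat_lit 5) (nat_lit 10) (nat_lit 2) L129510 (by decide +kernel)
theorem L129512 : W_46 (nat_lit 8) (nat_lit 0x18000c0000000f00060000000000000000000) (nat_lit 0x0) (nat_lit 0x10000800000001c006e00160003000000) := T_46 (nat_lit 111) (nat_lit 128) (nat_lit 5) (nat_lit 9) (nat_lit 4) L129511 (by decide +kernel)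
theorem L129513 : W_46 (nat_lit 9) (nat_lit 0x18000c0000000f00020000000000000000000) (nat_lit 0x0) (nat_lit 0x1000080000000dc006e00160003000000) := T_46 (nat_lit 78) (nat_lit 79) (nat_lit 2) (nat_lit 7) (nat_lit 5) L129512 (by decide +kernel)
theorem L129514 : W_46 (nat_lit 3) (nat_lit 0x18000c0010000f00020000000000000000000) (nat_lit 0x0) (nat_lit 0x40002000000000000c0001000000000000000) := T_46 (nat_lit 78) (nat_lit 79) (nat_lit 2) (nat_lit 7) (nat_lit 5) L129391 (by decide +kernel)
theorem L129515 : W_46 (nat_lit 4) (nat_lit 0x18000c0000000f00020000000000000000000) (nat_lit 0x0) (nat_lit 0x40002000300000000c0001000000000000000) := T_46 (nat_lit 112) (nat_lit 113) (nat_lit 3) (nat_lit 7) (nat_lit 5) L129514 (by decide +kernel)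
theorem L129516 : W_46 (nat_lit 10) (nat_lit 0x18000c0000000f00000000000000000000000) (nat_lit 0x0) (nat_lit 0x40003000380000000fc007e001e0003000000) := Q_46 (nat_lit 77) (C_46 L129501 (C_46 L129505 (C_46 L129513 (C_46 L129515 N_46)))) (by decide +kernel)
theorem L129517 : W_46 (nat_lit 2) (nat_lit 0x18005c0020001f00060000000100000000000) (nat_lit 0x0) (nat_lit 0x6000010000000000000000000) := D_46 (nat_lit 97) (nat_lit 98) (nat_lit 76) (nat_lit 0) (nat_lit 13) (nat_lit 5) (nat_lit 0) (nat_lit 12) (nat_lit 5) (by decide +kernel)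
theorem L129518 : W_46 (nat_lit 3) (nat_lit 0x18005c0020001f00040000000100000000000) (nat_lit 0x0) (nat_lit 0x8006000030000000000000000000) := T_46 (nat_lit 77) (nat_lit 111) (nat_lit 5) (nat_lit 9) (nat_lit 4) L129517 (by decide +kernel)
theorem L129519 : W_46 (nat_lit 4) (nat_lit 0x18004c0020001f00040000000100000000000) (nat_lit 0x0) (nat_lit 0x300008006000030000000000000000000) := T_46 (nat_lit 128) (nat_lit 129) (nat_lit 1) (nat_lit 11) (nat_lit 7) L129518 (by decide +kernel)
theorem L129520 : W_46 (nat_lit 5) (nat_lit 0x18004c0020001f00040000000000000000000) (nat_lit 0x0) (nat_lit 0x300008006000030002000100000000000) := T_46 (nat_lit 44) (nat_lit 61) (nat_lit 7) (nat_lit 10) (nat_lit 2) L129519 (by decide +kernel)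
theorem L129521 : W_46 (nat_lit 6) (nat_lit 0x18000c0020001f00040000000000000000000) (nat_lit 0x0) (nat_lit 0x8000700008006000030002000100000000000) := T_46 (nat_lit 130) (nat_lit 147) (nat_lit 4) (nat_lit 11) (nat_lit 8) L129520 (by decide +kernel)
theorem L129522 : W_46 (nat_lit 7) (nat_lit 0x18000c0020000f00040000000000000000000) (nat_lit 0x0) (nat_lit 0x8000700048007000030002000100000000000) := T_46 (nat_lit 96) (nat_lit 114) (nat_lit 3) (nat_lit 8) (nat_lit 5) L129521 (by decide +kernel)
theorem L129523 : W_46 (nat_lit 8) (nat_lit 0x18000c0000000f00040000000000000000000) (nat_lit 0x0) (nat_lit 0x8000700078007000030002000100000000000) := T_46 (nat_lit 113) (nat_lit 112) (nat_lit 3) (nat_lit 7) (nat_lit 5) L129522 (by decide +kernel)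
theorem L129524 : W_46 (nat_lit 9) (nat_lit 0x18000c0000000f00000000000000000000000) (nat_lit 0x0) (nat_lit 0x80007000780070000f0002000100000000000) := T_46 (nat_lit 78) (nat_lit 79) (nat_lit 2) (nat_lit 7) (nat_lit 5) L129523 (by decide +kernel)
theorem L129525 : W_46 (nat_lit 11) (nat_lit 0x18000c0000000700000000000000000000000) (nat_lit 0x0) (nat_lit 0xc0007200f80078003fc007e003e0003000000) := Q_46 (nat_lit 95) (C_46 L129445 (C_46 L129455 (C_46 L129423 (C_46 L129516 (C_46 L129410 (C_46 L129397 (C_46 L129524 N_46))))))) (by decide +kernel)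
theorem L129526 : W_46 (nat_lit 2) (nat_lit 0x18003c0010000700020000000000000000000) (nat_lit 0x0) (nat_lit 0xc000000000000800000000000000000000000) := D_46 (nat_lit 146) (nat_lit 147) (nat_lit 95) (nat_lit 3) (nat_lit 7) (nat_lit 7) (nat_lit 4) (nat_lit 10) (nat_lit 8) (by decide +kernel)
theorem L129527 : W_46 (nat_lit 3) (nat_lit 0x18003c0000000700020000000000000000000) (nat_lit 0x0) (nat_lit 0xc000000030000800000000000000000000000) := T_46 (nat_lit 112) (nat_lit 113) (nat_lit 2) (nat_lit 7) (nat_lit 7) L129526 (by decide +kernel)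
theorem L129528 : W_46 (nat_lit 4) (nat_lit 0x18001c0000000700020000000000000000000) (nat_lit 0x0) (nat_lit 0xc000600030000800000000000000000000000) := T_46 (nat_lit 129) (nat_lit 130) (nat_lit 1) (nat_lit 11) (nat_lit 7) L129527 (by decide +kernel)
theorem L129529 : W_46 (nat_lit 5) (nat_lit 0x18000c0000000700020000000000000000000) (nat_lit 0x0) (nat_lit 0xc000700038000800000000000000000000000) := T_46 (nat_lit 128) (nat_lit 111) (nat_lit 5) (nat_lit 9) (nat_lit 4) L129528 (by decide +kernel)
theorem L129530 : W_46 (nat_lit 2) (nat_lit 0x18000c00084007c0021000000000000000000) (nat_lit 0x0) (nat_lit 0x200020000800000000000000000) := D_46 (nat_lit 89) (nat_lit 105) (nat_lit 71) (nat_lit 1) (nat_lit 7) (nat_lit 5) (nat_lit 0) (nat_lit 7) (nat_lit 5) (by decide +kernel)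
theorem L129531 : W_46 (nat_lit 3) (nat_lit 0x18000c00084007c0020000000000000000000) (nat_lit 0x0) (nat_lit 0x200020003800000000000000000) := T_46 (nat_lit 72) (nat_lit 73) (nat_lit 0) (nat_lit 8) (nat_lit 5) L129530 (by decide +kernel)
theorem L129532 : W_46 (nat_lit 4) (nat_lit 0x18000c00080007c0020000000000000000000) (nat_lit 0x0) (nat_lit 0xe00020003800000000000000000) := T_46 (nat_lit 106) (nat_lit 107) (nat_lit 1) (nat_lit 8) (nat_lit 5) L129531 (by decide +kernel)
theorem L129533 : W_46 (nat_lit 5) (nat_lit 0x18000c0008000780020000000000000000000) (nat_lit 0x0) (nat_lit 0xe00060013800000000000000000) := T_46 (nat_lit 90) (nat_lit 76) (nat_lit 2) (nat_lit 5) (nat_lit 5) L129532 (by decide +kernel)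
theorem L129534 : W_46 (nat_lit 6) (nat_lit 0x18000c0008000700020000000000000000000) (nat_lit 0x0) (nat_lit 0xe000e0053800000000000000000) := T_46 (nat_lit 91) (nat_lit 78) (nat_lit 2) (nat_lit 6) (nat_lit 5) L129533 (by decide +kernel)
theorem L129535 : W_46 (nat_lit 7) (nat_lit 0x18000c0000000700020000000000000000000) (nat_lit 0x0) (nat_lit 0x100008e000e0053800000000000000000) := T_46 (nat_lit 111) (nat_lit 128) (nat_lit 5) (nat_lit 9) (nat_lit 4) L129534 (by decide +kernel)
theorem L129536 : W_46 (nat_lit 2) (nat_lit 0x18000c00004007c0021000000000000000000) (nat_lit 0x0) (nat_lit 0x200020000800000000000000000) := D_46 (nat_lit 89) (nat_lit 105) (nat_lit 71) (nat_lit 1) (nat_lit 7) (nat_lit 5) (nat_lit 0) (nat_lit 7) (nat_lit 5) (by decide +kernel)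
theorem L129537 : W_46 (nat_lit 3) (nat_lit 0x18000c00004007c0020000000000000000000) (nat_lit 0x0) (nat_lit 0x200020003800000000000000000) := T_46 (nat_lit 72) (nat_lit 73) (nat_lit 0) (nat_lit 8) (nat_lit 5) L129536 (by decide +kernel)
theorem L129538 : W_46 (nat_lit 4) (nat_lit 0x18000c00000007c0020000000000000000000) (nat_lit 0x0) (nat_lit 0xe00020003800000000000000000) := T_46 (nat_lit 106) (nat_lit 107) (nat_lit 1) (nat_lit 8) (nat_lit 5) L129537 (by decide +kernel)
theorem L129539 : W_46 (nat_lit 5) (nat_lit 0x18000c0000000780020000000000000000000) (nat_lit 0x0) (nat_lit 0xe00060013800000000000000000) := T_46 (nat_lit 90) (nat_lit 76) (nat_lit 2) (nat_lit 5) (nat_lit 5) L129538 (by decide +kernel)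
theorem L129540 : W_46 (nat_lit 6) (nat_lit 0x18000c0000000700020000000000000000000) (nat_lit 0x0) (nat_lit 0xe000e0053800000000000000000) := T_46 (nat_lit 91) (nat_lit 78) (nat_lit 2) (nat_lit 6) (nat_lit 5) L129539 (by decide +kernel)
theorem L129541 : W_46 (nat_lit 8) (nat_lit 0x18000c0000000700000000000000000000000) (nat_lit 0x0) (nat_lit 0xc000700038e008e0073800000000000000000) := Q_46 (nat_lit 77) (C_46 L129529 (C_46 L129535 (C_46 L129540 N_46))) (by decide +kernel)
theorem L129542 : W_46 (nat_lit 2) (nat_lit 0x18000c0018000f00040000000000000000000) (nat_lit 0x0) (nat_lit 0x120000000000000002000000000000000) := D_46 (nat_lit 128) (nat_lit 125) (nat_lit 61) (nat_lit 2) (nat_lit 6) (nat_lit 7) (nat_lit 5) (nat_lit 10) (nat_lit 3) (by decide +kernel)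
theorem L129543 : W_46 (nat_lit 3) (nat_lit 0x18000c0018000f00000000000000000000000) (nat_lit 0x0) (nat_lit 0x1200000000000c0002000000000000000) := T_46 (nat_lit 78) (nat_lit 79) (nat_lit 2) (nat_lit 7) (nat_lit 5) L129542 (by decide +kernel)
theorem L129544 : W_46 (nat_lit 4) (nat_lit 0x18000c0010000f00000000000000000000000) (nat_lit 0x0) (nat_lit 0x1200080000800c0002000000000000000) := T_46 (nat_lit 111) (nat_lit 91) (nat_lit 3) (nat_lit 6) (nat_lit 5) L129543 (by decide +kernel)
theorem L129545 : W_46 (nat_lit 5) (nat_lit 0x18000c0000000f00000000000000000000000) (nat_lit 0x0) (nat_lit 0x1200380000800c0002000000000000000) := T_46 (nat_lit 112) (nat_lit 113) (nat_lit 3) (nat_lit 7) (nat_lit 5) L129544 (by decide +kernel)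
theorem L129546 : W_46 (nat_lit 7) (nat_lit 0x18000c0000000700000000000000000000000) (nat_lit 0x0) (nat_lit 0x1200f80038803de002000000000000000) := Q_46 (nat_lit 95) (C_46 L129445 (C_46 L129462 (C_46 L129423 (C_46 L129545 N_46)))) (by decide +kernel)
theorem L129547 : W_46 (nat_lit 6) (nat_lit 0x18000c0010001f00008000000000000000000) (nat_lit 0x0) (nat_lit 0x40007200080000001a0004000200000000000) := T_46 (nat_lit 79) (nat_lit 80) (nat_lit 2) (nat_lit 8) (nat_lit 5) L129451 (by decide +kernel)
theorem L129548 : W_46 (nat_lit 7) (nat_lit 0x18000c0010000f00008000000000000000000) (nat_lit 0x0) (nat_lit 0x40007200080010001b0004000200000000000) := T_46 (nat_lit 96) (nat_lit 76) (nat_lit 0) (nat_lit 11) (nat_lit 5) L129547 (by decide +kernel)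
theorem L129549 : W_46 (nat_lit 8) (nat_lit 0x18000c0010000f00000000000000000000000) (nat_lit 0x0) (nat_lit 0x40007200080010001bc004000200000000000) := T_46 (nat_lit 75) (nat_lit 74) (nat_lit 0) (nat_lit 10) (nat_lit 5) L129548 (by decide +kernel)
theorem L129550 : W_46 (nat_lit 9) (nat_lit 0x18000c0010000700000000000000000000000) (nat_lit 0x0) (nat_lit 0x40007200280018001bc004000200000000000) := T_46 (nat_lit 95) (nat_lit 113) (nat_lit 3) (nat_lit 7) (nat_lit 5) L129549 (by decide +kernel)
theorem L129551 : W_46 (nat_lit 4) (nat_lit 0x18000c0010000700000000000000000000000) (nat_lit 0x0) (nat_lit 0x2800088000e000000000000000000) := T_46 (nat_lit 95) (nat_lit 113) (nat_lit 3) (nat_lit 7) (nat_lit 5) L129461 (by decide +kernel)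
theorem L129552 : W_46 (nat_lit 2) (nat_lit 0x18002c0010000700000000000000000000000) (nat_lit 0x0) (nat_lit 0x100020000800000000000000000000000) := D_46 (nat_lit 113) (nat_lit 95) (nat_lit 128) (nat_lit 3) (nat_lit 7) (nat_lit 5) (nat_lit 2) (nat_lit 7) (nat_lit 7) (by decide +kernel)
theorem L129553 : W_46 (nat_lit 2) (nat_lit 0x58002c0010000f00008000000000000000000) (nat_lit 0x0) (nat_lit 0x1000090000000000000000000) := D_46 (nat_lit 96) (nat_lit 76) (nat_lit 79) (nat_lit 0) (nat_lit 11) (nat_lit 5) (nat_lit 6) (nat_lit 10) (nat_lit 8) (by decide +kernel)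
theorem L129554 : W_46 (nat_lit 3) (nat_lit 0x18002c0010000f00008000000000000000000) (nat_lit 0x0) (nat_lit 0x40000000000010000b0000000000000000000) := T_46 (nat_lit 146) (nat_lit 77) (nat_lit 4) (nat_lit 10) (nat_lit 8) L129553 (by decide +kernel)
theorem L129555 : W_46 (nat_lit 4) (nat_lit 0x18002c0010000f00000000000000000000000) (nat_lit 0x0) (nat_lit 0x40000000000010000bc000000000000000000) := T_46 (nat_lit 75) (nat_lit 74) (nat_lit 0) (nat_lit 10) (nat_lit 5) L129554 (by decide +kernel)
theorem L129556 : W_46 (nat_lit 5) (nat_lit 0x18002c0010000700000000000000000000000) (nat_lit 0x0) (nat_lit 0x40000000200018000bc000000000000000000) := T_46 (nat_lit 95) (nat_lit 113) (nat_lit 3) (nat_lit 7) (nat_lit 5) L129555 (by decide +kernel)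
theorem L129557 : W_46 (nat_lit 2) (nat_lit 0x18002c0010000700000000000000000000000) (nat_lit 0x0) (nat_lit 0x500020000000000000000000000000000) := D_46 (nat_lit 128) (nat_lit 113) (nat_lit 130) (nat_lit 2) (nat_lit 7) (nat_lit 7) (nat_lit 1) (nat_lit 11) (nat_lit 7) (by decide +kernel)
theorem L129558 : W_46 (nat_lit 2) (nat_lit 0x58003c0010000f00008000000000000000000) (nat_lit 0x0) (nat_lit 0x1000090000000000000000000) := D_46 (nat_lit 96) (nat_lit 79) (nat_lit 76) (nat_lit 6) (nat_lit 10) (nat_lit 8) (nat_lit 0) (nat_lit 11) (nat_lit 5) (by decide +kernel)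
theorem L129559 : W_46 (nat_lit 3) (nat_lit 0x58003c0010000f00000000000000000000000) (nat_lit 0x0) (nat_lit 0x100009c000000000000000000) := T_46 (nat_lit 75) (nat_lit 74) (nat_lit 0) (nat_lit 10) (nat_lit 5) L129558 (by decide +kernel)
theorem L129560 : W_46 (nat_lit 4) (nat_lit 0x58003c0010000700000000000000000000000) (nat_lit 0x0) (nat_lit 0x18000bc000000000000000000) := T_46 (nat_lit 95) (nat_lit 77) (nat_lit 4) (nat_lit 10) (nat_lit 8) L129559 (by decide +kernel)
theorem L129561 : W_46 (nat_lit 5) (nat_lit 0x18003c0010000700000000000000000000000) (nat_lit 0x0) (nat_lit 0xc0000000000018000bc000000000000000000) := T_46 (nat_lit 146) (nat_lit 147) (nat_lit 3) (nat_lit 7) (nat_lit 7) L129560 (by decide +kernel)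
theorem L129562 : W_46 (nat_lit 6) (nat_lit 0x18002c0010000700000000000000000000000) (nat_lit 0x0) (nat_lit 0xc0005000000018000bc000000000000000000) := T_46 (nat_lit 128) (nat_lit 130) (nat_lit 1) (nat_lit 11) (nat_lit 7) L129561 (by decide +kernel)
theorem L129563 : W_46 (nat_lit 7) (nat_lit 0x18000c0010000700000000000000000000000) (nat_lit 0x0) (nat_lit 0xc0007000200018000bc000000000000000000) := Q_46 (nat_lit 129) (C_46 L129552 (C_46 L129556 (C_46 L129557 (C_46 L129562 N_46)))) (by decide +kernel)
theorem L129564 : W_46 (nat_lit 2) (nat_lit 0x18000c00104007c0012000000000000000000) (nat_lit 0x0) (nat_lit 0x200020008000000000000000000) := D_46 (nat_lit 89) (nat_lit 75) (nat_lit 105) (nat_lit 2) (nat_lit 4) (nat_lit 5) (nat_lit 1) (nat_lit 7) (nat_lit 5) (by decide +kernel)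
theorem L129565 : W_46 (nat_lit 3) (nat_lit 0x18000c00104007c0002000000000000000000) (nat_lit 0x0) (nat_lit 0x200020038000000000000000000) := T_46 (nat_lit 76) (nat_lit 77) (nat_lit 2) (nat_lit 5) (nat_lit 5) L129564 (by decide +kernel)
theorem L129566 : W_46 (nat_lit 4) (nat_lit 0x18000c00100007c0002000000000000000000) (nat_lit 0x0) (nat_lit 0xe00020038000000000000000000) := T_46 (nat_lit 106) (nat_lit 107) (nat_lit 1) (nat_lit 8) (nat_lit 5) L129565 (by decide +kernel)
theorem L129567 : W_46 (nat_lit 5) (nat_lit 0x18000c0010000780002000000000000000000) (nat_lit 0x0) (nat_lit 0xe00060039000000000000000000) := T_46 (nat_lit 90) (nat_lit 72) (nat_lit 0) (nat_lit 8) (nat_lit 5) L129566 (by decide +kernel)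
theorem L129568 : W_46 (nat_lit 6) (nat_lit 0x18000c0010000780000000000000000000000) (nat_lit 0x0) (nat_lit 0xe0006003f000000000000000000) := T_46 (nat_lit 73) (nat_lit 74) (nat_lit 0) (nat_lit 9) (nat_lit 5) L129567 (by decide +kernel)
theorem L129569 : W_46 (nat_lit 7) (nat_lit 0x18000c0010000700000000000000000000000) (nat_lit 0x0) (nat_lit 0x8e000e003f000000000000000000) := T_46 (nat_lit 91) (nat_lit 111) (nat_lit 3) (nat_lit 6) (nat_lit 5) L129568 (by decide +kernel)
theorem L129570 : W_46 (nat_lit 2) (nat_lit 0x18000c0018000700000000000000000000000) (nat_lit 0x0) (nat_lit 0x60000800000000000000000000000) := D_46 (nat_lit 113) (nat_lit 95) (nat_lit 114) (nat_lit 3) (nat_lit 7) (nat_lit 5) (nat_lit 0) (nat_lit 12) (nat_lit 6) (by decide +kernel)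
theorem L129571 : W_46 (nat_lit 3) (nat_lit 0x18000c0010000700000000000000000000000) (nat_lit 0x0) (nat_lit 0x68000880000000000000000000000) := T_46 (nat_lit 111) (nat_lit 91) (nat_lit 3) (nat_lit 6) (nat_lit 5) L129570 (by decide +kernel)
theorem L129572 : W_46 (nat_lit 10) (nat_lit 0x18000c0000000700000000000000000000000) (nat_lit 0x0) (nat_lit 0xc000720078e018e01bf004000200000000000) := Q_46 (nat_lit 112) (C_46 L129550 (C_46 L129551 (C_46 L129563 (C_46 L129569 (C_46 L129571 N_46))))) (by decide +kernel)
theorem L129573 : W_46 (nat_lit 12) (nat_lit 0x18000c0000000300000000000000000000000) (nat_lit 0x0) (nat_lit 0xc0007200f8e07cf07ffc07e003e0003000000) := Q_46 (nat_lit 94) (C_46 L129390 (C_46 L129398 (C_46 L129446 (C_46 L129447 (C_46 L129463 (C_46 L129497 (C_46 L129525 (C_46 L129541 (C_46 L129546 (C_46 L129572 N_46)))))))))) (by decide +kernel)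
theorem L129574 : W_46 (nat_lit 3) (nat_lit 0x18000c0000000f00068000000000000000000) (nat_lit 0x0) (nat_lit 0x4000200030000000000001000000000000000) := T_46 (nat_lit 112) (nat_lit 113) (nat_lit 3) (nat_lit 7) (nat_lit 5) L129498 (by decide +kernel)
theorem L129575 : W_46 (nat_lit 4) (nat_lit 0x18000c0000000f00048000000000000000000) (nat_lit 0x0) (nat_lit 0x4000200030000080020001000000000000000) := T_46 (nat_lit 77) (nat_lit 91) (nat_lit 2) (nat_lit 6) (nat_lit 5) L129574 (by decide +kernel)
theorem L129576 : W_46 (nat_lit 5) (nat_lit 0x18000c0000000f00008000000000000000000) (nat_lit 0x0) (nat_lit 0x40002000300000800e0001000000000000000) := T_46 (nat_lit 78) (nat_lit 79) (nat_lit 2) (nat_lit 7) (nat_lit 5) L129575 (by decide +kernel)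
theorem L129577 : W_46 (nat_lit 6) (nat_lit 0x18000c0000000700008000000000000000000) (nat_lit 0x0) (nat_lit 0x40002000300008800e4001000000000000000) := T_46 (nat_lit 95) (nat_lit 74) (nat_lit 0) (nat_lit 10) (nat_lit 5) L129576 (by decide +kernel)
theorem L129578 : W_46 (nat_lit 7) (nat_lit 0x18000c0000000700000000000000000000000) (nat_lit 0x0) (nat_lit 0x40002000320008800ec001000000000000000) := T_46 (nat_lit 75) (nat_lit 109) (nat_lit 7) (nat_lit 7) (nat_lit 4) L129577 (by decide +kernel)
theorem L129579 : W_46 (nat_lit 2) (nat_lit 0x18000c000000070000c000000000000000000) (nat_lit 0x0) (nat_lit 0x80003000000000000000000) := D_46 (nat_lit 73) (nat_lit 91) (nat_lit 72) (nat_lit 0) (nat_lit 9) (nat_lit 5) (nat_lit 3) (nat_lit 4) (nat_lit 4) (by decide +kernel)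
theorem L129580 : W_46 (nat_lit 3) (nat_lit 0x18000c0000000700008000000000000000000) (nat_lit 0x0) (nat_lit 0x880007000000000000000000) := T_46 (nat_lit 74) (nat_lit 95) (nat_lit 0) (nat_lit 10) (nat_lit 5) L129579 (by decide +kernel)
theorem L129581 : W_46 (nat_lit 4) (nat_lit 0x18000c0000000700000000000000000000000) (nat_lit 0x0) (nat_lit 0x200088000f000000000000000000) := T_46 (nat_lit 75) (nat_lit 109) (nat_lit 7) (nat_lit 7) (nat_lit 4) L129580 (by decide +kernel)
theorem L129582 : W_46 (nat_lit 3) (nat_lit 0x18000c0002000780000000000000000000000) (nat_lit 0x0) (nat_lit 0x100018000000060000000000000000000) := T_46 (nat_lit 111) (nat_lit 112) (nat_lit 3) (nat_lit 6) (nat_lit 5) L126020 (by decide +kernel)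
theorem L129583 : W_46 (nat_lit 4) (nat_lit 0x18000c0002000700000000000000000000000) (nat_lit 0x0) (nat_lit 0x100018000080064000000000000000000) := T_46 (nat_lit 91) (nat_lit 74) (nat_lit 4) (nat_lit 7) (nat_lit 8) L129582 (by decide +kernel)
theorem L129584 : W_46 (nat_lit 5) (nat_lit 0x18000c0000000700000000000000000000000) (nat_lit 0x0) (nat_lit 0x10001a00008006c000000000000000000) := T_46 (nat_lit 109) (nat_lit 75) (nat_lit 7) (nat_lit 7) (nat_lit 4) L129583 (by decide +kernel)
theorem L129585 : W_46 (nat_lit 9) (nat_lit 0x18000c0000000700008000000000000000000) (nat_lit 0x0) (nat_lit 0x40007200380018001e4004000200000000000) := T_46 (nat_lit 95) (nat_lit 74) (nat_lit 0) (nat_lit 10) (nat_lit 5) L129454 (by decide +kernel)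
theorem L129586 : W_46 (nat_lit 10) (nat_lit 0x18000c0000000700000000000000000000000) (nat_lit 0x0) (nat_lit 0x400072003a0018001ec004000200000000000) := T_46 (nat_lit 75) (nat_lit 109) (nat_lit 7) (nat_lit 7) (nat_lit 4) L129585 (by decide +kernel)
theorem L129587 : W_46 (nat_lit 8) (nat_lit 0x18000c0010000700008000000000000000000) (nat_lit 0x0) (nat_lit 0x40007200280018001e0004000200000000000) := T_46 (nat_lit 95) (nat_lit 113) (nat_lit 3) (nat_lit 7) (nat_lit 5) L129453 (by decide +kernel)
theorem L129588 : W_46 (nat_lit 9) (nat_lit 0x18000c0010000700000000000000000000000) (nat_lit 0x0) (nat_lit 0x400072002a0018001e8004000200000000000) := T_46 (nat_lit 75) (nat_lit 109) (nat_lit 7) (nat_lit 7) (nat_lit 4) L129587 (by decide +kernel)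
theorem L129589 : W_46 (nat_lit 5) (nat_lit 0x18000c0010000700000000000000000000000) (nat_lit 0x0) (nat_lit 0x40002000200008800e0001000000000000000) := T_46 (nat_lit 95) (nat_lit 113) (nat_lit 3) (nat_lit 7) (nat_lit 5) L129393 (by decide +kernel)
theorem L129590 : W_46 (nat_lit 2) (nat_lit 0x18000c0018000700008000000000000000000) (nat_lit 0x0) (nat_lit 0x120000000000020000000000000000000) := D_46 (nat_lit 128) (nat_lit 125) (nat_lit 77) (nat_lit 2) (nat_lit 6) (nat_lit 7) (nat_lit 5) (nat_lit 9) (nat_lit 4) (by decide +kernel)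
theorem L129591 : W_46 (nat_lit 3) (nat_lit 0x18000c0010000700008000000000000000000) (nat_lit 0x0) (nat_lit 0x120008000080020000000000000000000) := T_46 (nat_lit 111) (nat_lit 91) (nat_lit 3) (nat_lit 6) (nat_lit 5) L129590 (by decide +kernel)
theorem L129592 : W_46 (nat_lit 4) (nat_lit 0x18000c0010000700000000000000000000000) (nat_lit 0x0) (nat_lit 0x12000a000080028000000000000000000) := T_46 (nat_lit 75) (nat_lit 109) (nat_lit 7) (nat_lit 7) (nat_lit 4) L129591 (by decide +kernel)
theorem L129593 : W_46 (nat_lit 10) (nat_lit 0x18000c0000000700000000000000000000000) (nat_lit 0x0) (nat_lit 0x400072007a0018801e8005000200000000000) := Q_46 (nat_lit 112) (C_46 L129588 (C_46 L129571 (C_46 L129589 (C_46 L129592 N_46)))) (by decide +kernel)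
theorem L129594 : W_46 (nat_lit 2) (nat_lit 0x18000c0000000780000000000000000000000) (nat_lit 0x0) (nat_lit 0x2000000006000000000000000000) := D_46 (nat_lit 74) (nat_lit 73) (nat_lit 109) (nat_lit 0) (nat_lit 9) (nat_lit 5) (nat_lit 4) (nat_lit 7) (nat_lit 8) (by decide +kernel)
theorem L129595 : W_46 (nat_lit 4) (nat_lit 0x18000c0000000700000000000000000000000) (nat_lit 0x0) (nat_lit 0x10001a000080066000000000000000000) := Q_46 (nat_lit 91) (C_46 L129594 (C_46 L129479 N_46)) (by decide +kernel)
theorem L129596 : W_46 (nat_lit 11) (nat_lit 0x18000c0000000300000000000000000000000) (nat_lit 0x0) (nat_lit 0x400072007a001c801ef005000200000000000) := Q_46 (nat_lit 94) (C_46 L129463 (C_46 L129578 (C_46 L129581 (C_46 L129584 (C_46 L129586 (C_46 L129593 (C_46 L129595 N_46))))))) (by decide +kernel)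
theorem L129597 : W_46 (nat_lit 2) (nat_lit 0x18000c0000000380000000000000000000000) (nat_lit 0x0) (nat_lit 0x2000000014000000000000000000) := D_46 (nat_lit 109) (nat_lit 76) (nat_lit 74) (nat_lit 6) (nat_lit 7) (nat_lit 8) (nat_lit 4) (nat_lit 7) (nat_lit 8) (by decide +kernel)
theorem L129598 : W_46 (nat_lit 2) (nat_lit 0x18000c00008003c0016000000000000000000) (nat_lit 0x0) (nat_lit 0x10000000000000000200010000000000) := D_46 (nat_lit 57) (nat_lit 40) (nat_lit 124) (nat_lit 5) (nat_lit 6) (nat_lit 2) (nat_lit 6) (nat_lit 5) (nat_lit 7) (by decide +kernel)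
theorem L129599 : W_46 (nat_lit 3) (nat_lit 0x18000c00000003c0016000000000000000000) (nat_lit 0x0) (nat_lit 0x10000c00000000000200010000000000) := T_46 (nat_lit 107) (nat_lit 106) (nat_lit 1) (nat_lit 8) (nat_lit 5) L129598 (by decide +kernel)
theorem L129600 : W_46 (nat_lit 4) (nat_lit 0x18000c00000003c0012000000000000000000) (nat_lit 0x0) (nat_lit 0x10000c00400004000200010000000000) := T_46 (nat_lit 74) (nat_lit 94) (nat_lit 0) (nat_lit 9) (nat_lit 5) L129599 (by decide +kernel)
theorem L129601 : W_46 (nat_lit 5) (nat_lit 0x18000c00000003c0002000000000000000000) (nat_lit 0x0) (nat_lit 0x10000c00400034000200010000000000) := T_46 (nat_lit 76) (nat_lit 77) (nat_lit 2) (nat_lit 5) (nat_lit 5) L129600 (by decide +kernel)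
theorem L129602 : W_46 (nat_lit 6) (nat_lit 0x18000c00000003c0000000000000000000000) (nat_lit 0x0) (nat_lit 0x10000c00400037000200010000000000) := T_46 (nat_lit 73) (nat_lit 72) (nat_lit 0) (nat_lit 8) (nat_lit 5) L129601 (by decide +kernel)
theorem L129603 : W_46 (nat_lit 2) (nat_lit 0x18000c00004003e0010000000000000000000) (nat_lit 0x0) (nat_lit 0x3800000000000000000) := D_46 (nat_lit 72) (nat_lit 71) (nat_lit 73) (nat_lit 0) (nat_lit 7) (nat_lit 5) (nat_lit 0) (nat_lit 8) (nat_lit 5) (by decide +kernel)
theorem L129604 : W_46 (nat_lit 3) (nat_lit 0x18000c00004003c0010000000000000000000) (nat_lit 0x0) (nat_lit 0x200020003800000000000000000) := T_46 (nat_lit 89) (nat_lit 105) (nat_lit 1) (nat_lit 7) (nat_lit 5) L129603 (by decide +kernel)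
theorem L129605 : W_46 (nat_lit 4) (nat_lit 0x18000c00004003c0000000000000000000000) (nat_lit 0x0) (nat_lit 0x200020033800000000000000000) := T_46 (nat_lit 76) (nat_lit 77) (nat_lit 2) (nat_lit 5) (nat_lit 5) L129604 (by decide +kernel)
theorem L129606 : W_46 (nat_lit 5) (nat_lit 0x18000c00000003c0000000000000000000000) (nat_lit 0x0) (nat_lit 0xe00020033800000000000000000) := T_46 (nat_lit 106) (nat_lit 107) (nat_lit 1) (nat_lit 8) (nat_lit 5) L129605 (by decide +kernel)
theorem L129607 : W_46 (nat_lit 2) (nat_lit 0x18000c00008007c0022000000000000000000) (nat_lit 0x0) (nat_lit 0x100018000000000000000000000000000) := D_46 (nat_lit 111) (nat_lit 112) (nat_lit 128) (nat_lit 3) (nat_lit 6) (nat_lit 5) (nat_lit 5) (nat_lit 9) (nat_lit 4) (by decide +kernel)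
theorem L129608 : W_46 (nat_lit 3) (nat_lit 0x18000c00008007c0002000000000000000000) (nat_lit 0x0) (nat_lit 0x100018000000060000000000000000000) := T_46 (nat_lit 77) (nat_lit 78) (nat_lit 2) (nat_lit 6) (nat_lit 5) L129607 (by decide +kernel)
theorem L129609 : W_46 (nat_lit 4) (nat_lit 0x18000c00008003c0002000000000000000000) (nat_lit 0x0) (nat_lit 0x100018000400064000000000000000000) := T_46 (nat_lit 94) (nat_lit 74) (nat_lit 0) (nat_lit 9) (nat_lit 5) L129608 (by decide +kernel)
theorem L129610 : W_46 (nat_lit 5) (nat_lit 0x18000c00000003c0002000000000000000000) (nat_lit 0x0) (nat_lit 0x100018c00400064000000000000000000) := T_46 (nat_lit 107) (nat_lit 106) (nat_lit 1) (nat_lit 8) (nat_lit 5) L129609 (by decide +kernel)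
theorem L129611 : W_46 (nat_lit 6) (nat_lit 0x18000c00000003c0000000000000000000000) (nat_lit 0x0) (nat_lit 0x100018c00400067000000000000000000) := T_46 (nat_lit 73) (nat_lit 72) (nat_lit 0) (nat_lit 8) (nat_lit 5) L129610 (by decide +kernel)
theorem L129612 : W_46 (nat_lit 2) (nat_lit 0x18000c00000003c0022000000000000000000) (nat_lit 0x0) (nat_lit 0x400044000000000000000000) := D_46 (nat_lit 94) (nat_lit 74) (nat_lit 78) (nat_lit 0) (nat_lit 9) (nat_lit 5) (nat_lit 2) (nat_lit 6) (nat_lit 5) (by decide +kernel)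
theorem L129613 : W_46 (nat_lit 3) (nat_lit 0x18000c00000003c0002000000000000000000) (nat_lit 0x0) (nat_lit 0x400074000000000000000000) := T_46 (nat_lit 77) (nat_lit 76) (nat_lit 2) (nat_lit 5) (nat_lit 5) L129612 (by decide +kernel)
theorem L129614 : W_46 (nat_lit 4) (nat_lit 0x18000c00000003c0000000000000000000000) (nat_lit 0x0) (nat_lit 0x400077000000000000000000) := T_46 (nat_lit 73) (nat_lit 72) (nat_lit 0) (nat_lit 8) (nat_lit 5) L129613 (by decide +kernel)
theorem L129615 : W_46 (nat_lit 2) (nat_lit 0x18000c00008003c0006000000000000000000) (nat_lit 0x0) (nat_lit 0x10000000000000000200010000000000) := D_46 (nat_lit 57) (nat_lit 40) (nat_lit 124) (nat_lit 5) (nat_lit 6) (nat_lit 2) (nat_lit 6) (nat_lit 5) (nat_lit 7) (by decide +kernel)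
theorem L129616 : W_46 (nat_lit 3) (nat_lit 0x18000c00008003c0002000000000000000000) (nat_lit 0x0) (nat_lit 0x10000000400004000200010000000000) := T_46 (nat_lit 74) (nat_lit 94) (nat_lit 0) (nat_lit 9) (nat_lit 5) L129615 (by decide +kernel)
theorem L129617 : W_46 (nat_lit 4) (nat_lit 0x18000c00000003c0002000000000000000000) (nat_lit 0x0) (nat_lit 0x10000c00400004000200010000000000) := T_46 (nat_lit 107) (nat_lit 106) (nat_lit 1) (nat_lit 8) (nat_lit 5) L129616 (by decide +kernel)
theorem L129618 : W_46 (nat_lit 5) (nat_lit 0x18000c00000003c0000000000000000000000) (nat_lit 0x0) (nat_lit 0x10000c00400007000200010000000000) := T_46 (nat_lit 73) (nat_lit 72) (nat_lit 0) (nat_lit 8) (nat_lit 5) L129617 (by decide +kernel)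
theorem L129619 : W_46 (nat_lit 2) (nat_lit 0x18000c00008007c0020000000000000000000) (nat_lit 0x0) (nat_lit 0x100018000000000000000000000000000) := D_46 (nat_lit 111) (nat_lit 112) (nat_lit 128) (nat_lit 3) (nat_lit 6) (nat_lit 5) (nat_lit 5) (nat_lit 9) (nat_lit 4) (by decide +kernel)
theorem L129620 : W_46 (nat_lit 3) (nat_lit 0x18000c00008003c0020000000000000000000) (nat_lit 0x0) (nat_lit 0x100018000400040000000000000000000) := T_46 (nat_lit 94) (nat_lit 78) (nat_lit 2) (nat_lit 6) (nat_lit 5) L129619 (by decide +kernel)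
theorem L129621 : W_46 (nat_lit 4) (nat_lit 0x18000c00000003c0020000000000000000000) (nat_lit 0x0) (nat_lit 0x100018c00400040000000000000000000) := T_46 (nat_lit 107) (nat_lit 106) (nat_lit 1) (nat_lit 8) (nat_lit 5) L129620 (by decide +kernel)
theorem L129622 : W_46 (nat_lit 5) (nat_lit 0x18000c00000003c0000000000000000000000) (nat_lit 0x0) (nat_lit 0x100018c00400070000000000000000000) := T_46 (nat_lit 77) (nat_lit 76) (nat_lit 2) (nat_lit 5) (nat_lit 5) L129621 (by decide +kernel)
theorem L129623 : W_46 (nat_lit 7) (nat_lit 0x18000c0000000380000000000000000000000) (nat_lit 0x0) (nat_lit 0x110018e00460077800200010000000000) := Q_46 (nat_lit 90) (C_46 L129602 (C_46 L129606 (C_46 L129611 (C_46 L129614 (C_46 L129618 (C_46 L129622 N_46)))))) (by decide +kernel)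
theorem L129624 : W_46 (nat_lit 4) (nat_lit 0x18000c0000000380004000000000000000000) (nat_lit 0x0) (nat_lit 0x100018000400062000000000000000000) := T_46 (nat_lit 94) (nat_lit 73) (nat_lit 0) (nat_lit 9) (nat_lit 5) L129476 (by decide +kernel)
theorem L129625 : W_46 (nat_lit 5) (nat_lit 0x18000c0000000380000000000000000000000) (nat_lit 0x0) (nat_lit 0x10001a000400066000000000000000000) := T_46 (nat_lit 74) (nat_lit 109) (nat_lit 4) (nat_lit 7) (nat_lit 8) L129624 (by decide +kernel)
theorem L129626 : W_46 (nat_lit 4) (nat_lit 0x18000c00000003c0010000000000000000000) (nat_lit 0x0) (nat_lit 0xe00020003800000000000000000) := T_46 (nat_lit 106) (nat_lit 107) (nat_lit 1) (nat_lit 8) (nat_lit 5) L129604 (by decide +kernel)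
theorem L129627 : W_46 (nat_lit 5) (nat_lit 0x18000c0000000380010000000000000000000) (nat_lit 0x0) (nat_lit 0xe00060023800000000000000000) := T_46 (nat_lit 90) (nat_lit 77) (nat_lit 2) (nat_lit 5) (nat_lit 5) L129626 (by decide +kernel)
theorem L129628 : W_46 (nat_lit 6) (nat_lit 0x18000c0000000380000000000000000000000) (nat_lit 0x0) (nat_lit 0x2e00060033800000000000000000) := T_46 (nat_lit 76) (nat_lit 109) (nat_lit 6) (nat_lit 7) (nat_lit 8) L129627 (by decide +kernel)
theorem L129629 : W_46 (nat_lit 8) (nat_lit 0x18000c0000000300000000000000000000000) (nat_lit 0x0) (nat_lit 0x11001ae004e0077800200010000000000) := Q_46 (nat_lit 91) (C_46 L129597 (C_46 L129623 (C_46 L129625 (C_46 L129628 N_46)))) (by decide +kernel)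
theorem L129630 : W_46 (nat_lit 13) (nat_lit 0x18000c0000000200000000000000000000000) (nat_lit 0x0) (nat_lit 0xc0007300fae07df07ffc07e003f0003000000) := Q_46 (nat_lit 92) (C_46 L129359 (C_46 L129573 (C_46 L129596 (C_46 L129629 N_46)))) (by decide +kernel)
theorem L129631 : W_46 (nat_lit 2) (nat_lit 0x7000180018000c0000000200000000000000000000000) (nat_lit 0x0) (nat_lit 0x800006000000000000000000000000000000000000000) := D_46 (nat_lit 158) (nat_lit 157) (nat_lit 179) (nat_lit 3) (nat_lit 4) (nat_lit 9) (nat_lit 0) (nat_lit 9) (nat_lit 10) (by decide +kernel)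
theorem L129632 : W_46 (nat_lit 3) (nat_lit 0x3000180018000c0000000200000000000000000000000) (nat_lit 0x0) (nat_lit 0x8000c00006000000000000000000000000000000000000000) := T_46 (nat_lit 178) (nat_lit 195) (nat_lit 7) (nat_lit 7) (nat_lit 7) L129631 (by decide +kernel)
theorem L129633 : W_46 (nat_lit 4) (nat_lit 0x3000100018000c0000000200000000000000000000000) (nat_lit 0x0) (nat_lit 0x8000c0000e000000000002000000000000000000000000000) := T_46 (nat_lit 159) (nat_lit 109) (nat_lit 5) (nat_lit 7) (nat_lit 6) L129632 (by decide +kernel)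
theorem L129634 : W_46 (nat_lit 5) (nat_lit 0x2000100018000c0000000200000000000000000000000) (nat_lit 0x0) (nat_lit 0xa000d0000e000000000002000000000000000000000000000) := T_46 (nat_lit 176) (nat_lit 193) (nat_lit 5) (nat_lit 7) (nat_lit 7) L129633 (by decide +kernel)
theorem L129635 : W_46 (nat_lit 6) (nat_lit 0x100018000c0000000200000000000000000000000) (nat_lit 0x0) (nat_lit 0xe000f0000e000000000002000000000000000000000000000) := T_46 (nat_lit 177) (nat_lit 194) (nat_lit 6) (nat_lit 7) (nat_lit 11) L129634 (by decide +kernel)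
theorem L129636 : W_46 (nat_lit 7) (nat_lit 0x18000c0000000200000000000000000000000) (nat_lit 0x0) (nat_lit 0xe000f0001e000000000006000000000000000000000000000) := T_46 (nat_lit 160) (nat_lit 110) (nat_lit 5) (nat_lit 8) (nat_lit 5) L129635 (by decide +kernel)
theorem L129637 : W_46 (nat_lit 14) (nat_lit 0x18000c0000000000000000000000000000000) (nat_lit 0x0) (nat_lit 0xe000f0001e00c0007300fee07ff07ffc07e003f0003000000) := Q_46 (nat_lit 93) (C_46 L129356 (C_46 L129361 (C_46 L129630 (C_46 L129636 N_46)))) (by decide +kernel)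
theorem L129638 : W_46 (nat_lit 2) (nat_lit 0x1c001e800800070000c000000000000000000) (nat_lit 0x0) (nat_lit 0x80003000000000000000000) := D_46 (nat_lit 73) (nat_lit 91) (nat_lit 72) (nat_lit 0) (nat_lit 9) (nat_lit 5) (nat_lit 3) (nat_lit 4) (nat_lit 4) (by decide +kernel)
theorem L129639 : W_46 (nat_lit 3) (nat_lit 0x1c001e8008000700008000000000000000000) (nat_lit 0x0) (nat_lit 0x880007000000000000000000) := T_46 (nat_lit 74) (nat_lit 95) (nat_lit 0) (nat_lit 10) (nat_lit 5) L129638 (by decide +kernel)
theorem L129640 : W_46 (nat_lit 4) (nat_lit 0x1c001e8008000300008000000000000000000) (nat_lit 0x0) (nat_lit 0xc80027000000000000000000) := T_46 (nat_lit 94) (nat_lit 77) (nat_lit 5) (nat_lit 9) (nat_lit 4) L129639 (by decide +kernel)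
theorem L129641 : W_46 (nat_lit 5) (nat_lit 0x18001e8008000300008000000000000000000) (nat_lit 0x0) (nat_lit 0x600000000000c80027000000000000000000) := T_46 (nat_lit 142) (nat_lit 141) (nat_lit 2) (nat_lit 5) (nat_lit 8) L129640 (by decide +kernel)
theorem L129642 : W_46 (nat_lit 6) (nat_lit 0x18001e8000000300008000000000000000000) (nat_lit 0x0) (nat_lit 0x600000018000c80027000000000000000000) := T_46 (nat_lit 111) (nat_lit 112) (nat_lit 2) (nat_lit 6) (nat_lit 7) L129641 (by decide +kernel)
theorem L129643 : W_46 (nat_lit 7) (nat_lit 0x18001e0000000300008000000000000000000) (nat_lit 0x0) (nat_lit 0x600018018000c80027000000000000000000) := T_46 (nat_lit 123) (nat_lit 124) (nat_lit 3) (nat_lit 4) (nat_lit 7) L129642 (by decide +kernel)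
theorem L129644 : W_46 (nat_lit 8) (nat_lit 0x18001e0000000300000000000000000000000) (nat_lit 0x0) (nat_lit 0x60001801a000c8002f000000000000000000) := T_46 (nat_lit 75) (nat_lit 109) (nat_lit 7) (nat_lit 7) (nat_lit 4) L129643 (by decide +kernel)
theorem L129645 : W_46 (nat_lit 2) (nat_lit 0x18001f0008000300000000000000000000000) (nat_lit 0x0) (nat_lit 0x700000000000000000000000000000000000) := D_46 (nat_lit 141) (nat_lit 142) (nat_lit 140) (nat_lit 2) (nat_lit 5) (nat_lit 8) (nat_lit 1) (nat_lit 8) (nat_lit 7) (by decide +kernel)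
theorem L129646 : W_46 (nat_lit 3) (nat_lit 0x18001e0008000300000000000000000000000) (nat_lit 0x0) (nat_lit 0x700018000000000000000000000000000000) := T_46 (nat_lit 124) (nat_lit 123) (nat_lit 3) (nat_lit 4) (nat_lit 7) L129645 (by decide +kernel)
theorem L129647 : W_46 (nat_lit 4) (nat_lit 0x18001e0000000300000000000000000000000) (nat_lit 0x0) (nat_lit 0x700018018000000000000000000000000000) := T_46 (nat_lit 111) (nat_lit 112) (nat_lit 2) (nat_lit 6) (nat_lit 7) L129646 (by decide +kernel)
theorem L129648 : W_46 (nat_lit 2) (nat_lit 0x18001f0000000300008000000000000000000) (nat_lit 0x0) (nat_lit 0x700000000000000000000000000000000000) := D_46 (nat_lit 141) (nat_lit 142) (nat_lit 140) (nat_lit 2) (nat_lit 5) (nat_lit 8) (nat_lit 1) (nat_lit 8) (nat_lit 7) (by decide +kernel)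
theorem L129649 : W_46 (nat_lit 3) (nat_lit 0x18001e0000000300008000000000000000000) (nat_lit 0x0) (nat_lit 0x700018000000000000000000000000000000) := T_46 (nat_lit 124) (nat_lit 123) (nat_lit 3) (nat_lit 4) (nat_lit 7) L129648 (by decide +kernel)
theorem L129650 : W_46 (nat_lit 4) (nat_lit 0x18001e0000000300000000000000000000000) (nat_lit 0x0) (nat_lit 0x700018002000000008000000000000000000) := T_46 (nat_lit 75) (nat_lit 109) (nat_lit 7) (nat_lit 7) (nat_lit 4) L129649 (by decide +kernel)
theorem L129651 : W_46 (nat_lit 2) (nat_lit 0x18001e800800070000c000000000000000000) (nat_lit 0x0) (nat_lit 0x80003000000000000000000) := D_46 (nat_lit 73) (nat_lit 91) (nat_lit 72) (nat_lit 0) (nat_lit 9) (nat_lit 5) (nat_lit 3) (nat_lit 4) (nat_lit 4) (by decide +kernel)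
theorem L129652 : W_46 (nat_lit 3) (nat_lit 0x18001e8008000700008000000000000000000) (nat_lit 0x0) (nat_lit 0x880007000000000000000000) := T_46 (nat_lit 74) (nat_lit 95) (nat_lit 0) (nat_lit 10) (nat_lit 5) L129651 (by decide +kernel)
theorem L129653 : W_46 (nat_lit 4) (nat_lit 0x18001e8008000700000000000000000000000) (nat_lit 0x0) (nat_lit 0x200088000f000000000000000000) := T_46 (nat_lit 75) (nat_lit 109) (nat_lit 7) (nat_lit 7) (nat_lit 4) L129652 (by decide +kernel)
theorem L129654 : W_46 (nat_lit 5) (nat_lit 0x18001e8008000300000000000000000000000) (nat_lit 0x0) (nat_lit 0x2000c8002f000000000000000000) := T_46 (nat_lit 94) (nat_lit 77) (nat_lit 5) (nat_lit 9) (nat_lit 4) L129653 (by decide +kernel)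
theorem L129655 : W_46 (nat_lit 6) (nat_lit 0x18001e0008000300000000000000000000000) (nat_lit 0x0) (nat_lit 0x18002000c8002f000000000000000000) := T_46 (nat_lit 123) (nat_lit 124) (nat_lit 3) (nat_lit 4) (nat_lit 7) L129654 (by decide +kernel)
theorem L129656 : W_46 (nat_lit 7) (nat_lit 0x18001e0000000300000000000000000000000) (nat_lit 0x0) (nat_lit 0x1801a000c8002f000000000000000000) := T_46 (nat_lit 111) (nat_lit 112) (nat_lit 2) (nat_lit 6) (nat_lit 7) L129655 (by decide +kernel)
theorem L129657 : W_46 (nat_lit 2) (nat_lit 0x1c001e000800070000c000000000000000000) (nat_lit 0x0) (nat_lit 0x80003000000000000000000) := D_46 (nat_lit 73) (nat_lit 91) (nat_lit 72) (nat_lit 0) (nat_lit 9) (nat_lit 5) (nat_lit 3) (nat_lit 4) (nat_lit 4) (by decide +kernel)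
theorem L129658 : W_46 (nat_lit 3) (nat_lit 0x1c001e0008000700008000000000000000000) (nat_lit 0x0) (nat_lit 0x880007000000000000000000) := T_46 (nat_lit 74) (nat_lit 95) (nat_lit 0) (nat_lit 10) (nat_lit 5) L129657 (by decide +kernel)
theorem L129659 : W_46 (nat_lit 4) (nat_lit 0x1c001e0008000300008000000000000000000) (nat_lit 0x0) (nat_lit 0xc80027000000000000000000) := T_46 (nat_lit 94) (nat_lit 77) (nat_lit 5) (nat_lit 9) (nat_lit 4) L129658 (by decide +kernel)
theorem L129660 : W_46 (nat_lit 5) (nat_lit 0x1c001e0000000300008000000000000000000) (nat_lit 0x0) (nat_lit 0x18000c80027000000000000000000) := T_46 (nat_lit 111) (nat_lit 112) (nat_lit 2) (nat_lit 6) (nat_lit 7) L129659 (by decide +kernel)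
theorem L129661 : W_46 (nat_lit 6) (nat_lit 0x18001e0000000300008000000000000000000) (nat_lit 0x0) (nat_lit 0x600000018000c80027000000000000000000) := T_46 (nat_lit 142) (nat_lit 141) (nat_lit 2) (nat_lit 5) (nat_lit 8) L129660 (by decide +kernel)
theorem L129662 : W_46 (nat_lit 7) (nat_lit 0x18001e0000000300000000000000000000000) (nat_lit 0x0) (nat_lit 0x60000001a000c8002f000000000000000000) := T_46 (nat_lit 75) (nat_lit 109) (nat_lit 7) (nat_lit 7) (nat_lit 4) L129661 (by decide +kernel)
theorem L129663 : W_46 (nat_lit 9) (nat_lit 0x18001c0000000300000000000000000000000) (nat_lit 0x0) (nat_lit 0x70003801a000c8002f000000000000000000) := Q_46 (nat_lit 125) (C_46 L129644 (C_46 L129647 (C_46 L129650 (C_46 L129656 (C_46 L129662 N_46))))) (by decide +kernel)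
theorem L129664 : W_46 (nat_lit 2) (nat_lit 0x18001f0002000380000000000000000000000) (nat_lit 0x0) (nat_lit 0x700000000000000000000000000000000000) := D_46 (nat_lit 141) (nat_lit 142) (nat_lit 140) (nat_lit 2) (nat_lit 5) (nat_lit 8) (nat_lit 1) (nat_lit 8) (nat_lit 7) (by decide +kernel)
theorem L129665 : W_46 (nat_lit 3) (nat_lit 0x18001e0002000380000000000000000000000) (nat_lit 0x0) (nat_lit 0x700018000000000000000000000000000000) := T_46 (nat_lit 124) (nat_lit 123) (nat_lit 3) (nat_lit 4) (nat_lit 7) L129664 (by decide +kernel)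
theorem L129666 : W_46 (nat_lit 4) (nat_lit 0x18001e0002000300000000000000000000000) (nat_lit 0x0) (nat_lit 0x700018000000080004000000000000000000) := T_46 (nat_lit 91) (nat_lit 74) (nat_lit 4) (nat_lit 7) (nat_lit 8) L129665 (by decide +kernel)
theorem L129667 : W_46 (nat_lit 5) (nat_lit 0x18001e0000000300000000000000000000000) (nat_lit 0x0) (nat_lit 0x700018002000080014000000000000000000) := T_46 (nat_lit 109) (nat_lit 76) (nat_lit 6) (nat_lit 7) (nat_lit 8) L129666 (by decide +kernel)
theorem L129668 : W_46 (nat_lit 2) (nat_lit 0x18001e0000000380000000000000000000000) (nat_lit 0x0) (nat_lit 0x2000000014000000000000000000) := D_46 (nat_lit 109) (nat_lit 76) (nat_lit 74) (nat_lit 6) (nat_lit 7) (nat_lit 8) (nat_lit 4) (nat_lit 7) (nat_lit 8) (by decide +kernel)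
theorem L129669 : W_46 (nat_lit 2) (nat_lit 0x18001e80084003c0022000000000000000000) (nat_lit 0x0) (nat_lit 0x100000000200020000000000000000000000) := D_46 (nat_lit 89) (nat_lit 105) (nat_lit 140) (nat_lit 1) (nat_lit 7) (nat_lit 5) (nat_lit 6) (nat_lit 4) (nat_lit 8) (by decide +kernel)
theorem L129670 : W_46 (nat_lit 3) (nat_lit 0x18001e80084003c0020000000000000000000) (nat_lit 0x0) (nat_lit 0x100000000200020003000000000000000000) := T_46 (nat_lit 73) (nat_lit 72) (nat_lit 0) (nat_lit 8) (nat_lit 5) L129669 (by decide +kernel)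
theorem L129671 : W_46 (nat_lit 4) (nat_lit 0x18001e80080003c0020000000000000000000) (nat_lit 0x0) (nat_lit 0x100000000e00020003000000000000000000) := T_46 (nat_lit 106) (nat_lit 107) (nat_lit 1) (nat_lit 8) (nat_lit 5) L129670 (by decide +kernel)
theorem L129672 : W_46 (nat_lit 5) (nat_lit 0x18001e8008000380020000000000000000000) (nat_lit 0x0) (nat_lit 0x100000000e00060013000000000000000000) := T_46 (nat_lit 90) (nat_lit 76) (nat_lit 2) (nat_lit 5) (nat_lit 5) L129671 (by decide +kernel)
theorem L129673 : W_46 (nat_lit 6) (nat_lit 0x18001e8008000380000000000000000000000) (nat_lit 0x0) (nat_lit 0x100000000e00460033000000000000000000) := T_46 (nat_lit 77) (nat_lit 94) (nat_lit 5) (nat_lit 9) (nat_lit 4) L129672 (by decide +kernel)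
theorem L129674 : W_46 (nat_lit 7) (nat_lit 0x18001e0008000380000000000000000000000) (nat_lit 0x0) (nat_lit 0x100018000e00460033000000000000000000) := T_46 (nat_lit 123) (nat_lit 124) (nat_lit 3) (nat_lit 4) (nat_lit 7) L129673 (by decide +kernel)
theorem L129675 : W_46 (nat_lit 8) (nat_lit 0x18001e0000000380000000000000000000000) (nat_lit 0x0) (nat_lit 0x100018018e00460033000000000000000000) := T_46 (nat_lit 111) (nat_lit 112) (nat_lit 2) (nat_lit 6) (nat_lit 7) L129674 (by decide +kernel)
theorem L129676 : W_46 (nat_lit 2) (nat_lit 0x18001e0008000380004000000000000000000) (nat_lit 0x0) (nat_lit 0x400022000000000000000000) := D_46 (nat_lit 94) (nat_lit 77) (nat_lit 73) (nat_lit 5) (nat_lit 9) (nat_lit 4) (nat_lit 0) (nat_lit 9) (nat_lit 5) (by decide +kernel)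
theorem L129677 : W_46 (nat_lit 3) (nat_lit 0x18001e0008000380000000000000000000000) (nat_lit 0x0) (nat_lit 0x2000400026000000000000000000) := T_46 (nat_lit 74) (nat_lit 109) (nat_lit 4) (nat_lit 7) (nat_lit 8) L129676 (by decide +kernel)
theorem L129678 : W_46 (nat_lit 4) (nat_lit 0x18001e0000000380000000000000000000000) (nat_lit 0x0) (nat_lit 0x1a000400026000000000000000000) := T_46 (nat_lit 111) (nat_lit 112) (nat_lit 2) (nat_lit 6) (nat_lit 7) L129677 (by decide +kernel)
theorem L129679 : W_46 (nat_lit 9) (nat_lit 0x18001e0000000300000000000000000000000) (nat_lit 0x0) (nat_lit 0x10001801ae004e0037000000000000000000) := Q_46 (nat_lit 91) (C_46 L129668 (C_46 L129675 (C_46 L129678 N_46))) (by decide +kernel)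
theorem L129680 : W_46 (nat_lit 2) (nat_lit 0x1a001e00084003c0021000000000000000000) (nat_lit 0x0) (nat_lit 0x200020000800000000000000000) := D_46 (nat_lit 89) (nat_lit 105) (nat_lit 71) (nat_lit 1) (nat_lit 7) (nat_lit 5) (nat_lit 0) (nat_lit 7) (nat_lit 5) (by decide +kernel)
theorem L129681 : W_46 (nat_lit 3) (nat_lit 0x1a001e00084003c0020000000000000000000) (nat_lit 0x0) (nat_lit 0x200020003800000000000000000) := T_46 (nat_lit 72) (nat_lit 73) (nat_lit 0) (nat_lit 8) (nat_lit 5) L129680 (by decide +kernel)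
theorem L129682 : W_46 (nat_lit 4) (nat_lit 0x1a001e00080003c0020000000000000000000) (nat_lit 0x0) (nat_lit 0xe00020003800000000000000000) := T_46 (nat_lit 106) (nat_lit 107) (nat_lit 1) (nat_lit 8) (nat_lit 5) L129681 (by decide +kernel)
theorem L129683 : W_46 (nat_lit 5) (nat_lit 0x1a001e0008000380020000000000000000000) (nat_lit 0x0) (nat_lit 0xe00060013800000000000000000) := T_46 (nat_lit 90) (nat_lit 76) (nat_lit 2) (nat_lit 5) (nat_lit 5) L129682 (by decide +kernel)
theorem L129684 : W_46 (nat_lit 6) (nat_lit 0x1a001e0008000380000000000000000000000) (nat_lit 0x0) (nat_lit 0xe00460033800000000000000000) := T_46 (nat_lit 77) (nat_lit 94) (nat_lit 5) (nat_lit 9) (nat_lit 4) L129683 (by decide +kernel)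
theorem L129685 : W_46 (nat_lit 7) (nat_lit 0x1a001e0000000380000000000000000000000) (nat_lit 0x0) (nat_lit 0x18e00460033800000000000000000) := T_46 (nat_lit 111) (nat_lit 112) (nat_lit 2) (nat_lit 6) (nat_lit 7) L129684 (by decide +kernel)
theorem L129686 : W_46 (nat_lit 8) (nat_lit 0x18001e0000000380000000000000000000000) (nat_lit 0x0) (nat_lit 0x600000018e00460033800000000000000000) := T_46 (nat_lit 141) (nat_lit 142) (nat_lit 2) (nat_lit 5) (nat_lit 8) L129685 (by decide +kernel)
theorem L129687 : W_46 (nat_lit 9) (nat_lit 0x18001e0000000300000000000000000000000) (nat_lit 0x0) (nat_lit 0x60000001ae004e0037800000000000000000) := Q_46 (nat_lit 91) (C_46 L129678 (C_46 L129686 (C_46 L129668 N_46))) (by decide +kernel)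
theorem L129688 : W_46 (nat_lit 10) (nat_lit 0x18001c0000000300000000000000000000000) (nat_lit 0x0) (nat_lit 0x70003801ae004e0037800000000000000000) := Q_46 (nat_lit 125) (C_46 L129647 (C_46 L129667 (C_46 L129679 (C_46 L129687 N_46)))) (by decide +kernel)
theorem L129689 : W_46 (nat_lit 12) (nat_lit 0x18001c0000000200000000000000000000000) (nat_lit 0x0) (nat_lit 0x70003807ae07de01ff80700018000c000000) := Q_46 (nat_lit 92) (C_46 L123982 (C_46 L123107 (C_46 L129663 (C_46 L129688 N_46)))) (by decide +kernel)
theorem L129690 : W_46 (nat_lit 2) (nat_lit 0x1a001e0008000600000000000000000000000) (nat_lit 0x0) (nat_lit 0x100018000000000000000000000000000000) := D_46 (nat_lit 124) (nat_lit 140) (nat_lit 123) (nat_lit 1) (nat_lit 8) (nat_lit 7) (nat_lit 3) (nat_lit 4) (nat_lit 7) (by decide +kernel)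
theorem L129691 : W_46 (nat_lit 3) (nat_lit 0x1a001c0008000600000000000000000000000) (nat_lit 0x0) (nat_lit 0x100038010000000000000000000000000000) := T_46 (nat_lit 125) (nat_lit 112) (nat_lit 2) (nat_lit 6) (nat_lit 7) L129690 (by decide +kernel)
theorem L129692 : W_46 (nat_lit 4) (nat_lit 0x18001c0008000600000000000000000000000) (nat_lit 0x0) (nat_lit 0x700038010000000000000000000000000000) := T_46 (nat_lit 141) (nat_lit 142) (nat_lit 2) (nat_lit 5) (nat_lit 8) L129691 (by decide +kernel)
theorem L129693 : W_46 (nat_lit 5) (nat_lit 0x18001c0000000600000000000000000000000) (nat_lit 0x0) (nat_lit 0x700038018000000020000000000000000000) := T_46 (nat_lit 111) (nat_lit 77) (nat_lit 5) (nat_lit 9) (nat_lit 4) L129692 (by decide +kernel)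
theorem L129694 : W_46 (nat_lit 2) (nat_lit 0x18001e0004000600000000000000000000000) (nat_lit 0x0) (nat_lit 0x10018000000000000000000000000000) := D_46 (nat_lit 111) (nat_lit 112) (nat_lit 124) (nat_lit 2) (nat_lit 6) (nat_lit 7) (nat_lit 2) (nat_lit 5) (nat_lit 7) (by decide +kernel)
theorem L129695 : W_46 (nat_lit 3) (nat_lit 0x18001e0000000600000000000000000000000) (nat_lit 0x0) (nat_lit 0x1000000001001c000000000000000000000000000) := T_46 (nat_lit 110) (nat_lit 160) (nat_lit 5) (nat_lit 8) (nat_lit 5) L129694 (by decide +kernel)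
theorem L129696 : W_46 (nat_lit 2) (nat_lit 0x18001f0000000600000000000000000000000) (nat_lit 0x0) (nat_lit 0x1c000000000000000000000000000) := D_46 (nat_lit 111) (nat_lit 112) (nat_lit 110) (nat_lit 2) (nat_lit 6) (nat_lit 7) (nat_lit 2) (nat_lit 5) (nat_lit 7) (by decide +kernel)
theorem L129697 : W_46 (nat_lit 3) (nat_lit 0x18001e0000000600000000000000000000000) (nat_lit 0x0) (nat_lit 0x1801c000000000000000000000000000) := T_46 (nat_lit 124) (nat_lit 123) (nat_lit 3) (nat_lit 4) (nat_lit 7) L129696 (by decide +kernel)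
theorem L129698 : W_46 (nat_lit 2) (nat_lit 0x18001f0004000700000000000000000000000) (nat_lit 0x0) (nat_lit 0x700000000000000000000000000000000000) := D_46 (nat_lit 141) (nat_lit 142) (nat_lit 140) (nat_lit 2) (nat_lit 5) (nat_lit 8) (nat_lit 1) (nat_lit 8) (nat_lit 7) (by decide +kernel)
theorem L129699 : W_46 (nat_lit 3) (nat_lit 0x18001e0004000700000000000000000000000) (nat_lit 0x0) (nat_lit 0x700018000000000000000000000000000000) := T_46 (nat_lit 124) (nat_lit 123) (nat_lit 3) (nat_lit 4) (nat_lit 7) L129698 (by decide +kernel)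
theorem L129700 : W_46 (nat_lit 4) (nat_lit 0x18001e0004000600000000000000000000000) (nat_lit 0x0) (nat_lit 0x700018000000100008000000000000000000) := T_46 (nat_lit 92) (nat_lit 75) (nat_lit 4) (nat_lit 8) (nat_lit 8) L129699 (by decide +kernel)
theorem L129701 : W_46 (nat_lit 5) (nat_lit 0x18001e0000000600000000000000000000000) (nat_lit 0x0) (nat_lit 0x10000700018004000100008000000000000000000) := T_46 (nat_lit 110) (nat_lit 160) (nat_lit 5) (nat_lit 8) (nat_lit 5) L129700 (by decide +kernel)
theorem L129702 : W_46 (nat_lit 4) (nat_lit 0x1c001e0004000700000000000000000000000) (nat_lit 0x0) (nat_lit 0x1a0000c0006000000000000000000) := T_46 (nat_lit 111) (nat_lit 112) (nat_lit 2) (nat_lit 6) (nat_lit 7) L122215 (by decide +kernel)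
theorem L129703 : W_46 (nat_lit 5) (nat_lit 0x1c001e0004000600000000000000000000000) (nat_lit 0x0) (nat_lit 0x1a0001c000e000000000000000000) := T_46 (nat_lit 92) (nat_lit 75) (nat_lit 4) (nat_lit 8) (nat_lit 8) L129702 (by decide +kernel)
theorem L129704 : W_46 (nat_lit 6) (nat_lit 0x1c001e0000000600000000000000000000000) (nat_lit 0x0) (nat_lit 0x1000000000001e0001c000e000000000000000000) := T_46 (nat_lit 110) (nat_lit 160) (nat_lit 5) (nat_lit 8) (nat_lit 5) L129703 (by decide +kernel)
theorem L129705 : W_46 (nat_lit 7) (nat_lit 0x18001e0000000600000000000000000000000) (nat_lit 0x0) (nat_lit 0x1000060000001e0001c000e000000000000000000) := T_46 (nat_lit 142) (nat_lit 141) (nat_lit 2) (nat_lit 5) (nat_lit 8) L129704 (by decide +kernel)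
theorem L129706 : W_46 (nat_lit 3) (nat_lit 0x18001e0008000600000000000000000000000) (nat_lit 0x0) (nat_lit 0x700018000000000000000000000000000000) := T_46 (nat_lit 141) (nat_lit 142) (nat_lit 2) (nat_lit 5) (nat_lit 8) L129690 (by decide +kernel)
theorem L129707 : W_46 (nat_lit 4) (nat_lit 0x18001e0000000600000000000000000000000) (nat_lit 0x0) (nat_lit 0x700018018000000000000000000000000000) := T_46 (nat_lit 111) (nat_lit 112) (nat_lit 2) (nat_lit 6) (nat_lit 7) L129706 (by decide +kernel)
theorem L129708 : W_46 (nat_lit 8) (nat_lit 0x18001c0000000600000000000000000000000) (nat_lit 0x0) (nat_lit 0x1000070003801e0001c000e000000000000000000) := Q_46 (nat_lit 125) (C_46 L129695 (C_46 L129697 (C_46 L129701 (C_46 L129705 (C_46 L129707 N_46))))) (by decide +kernel)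
theorem L129709 : W_46 (nat_lit 9) (nat_lit 0x18001c0000000200000000000000000000000) (nat_lit 0x0) (nat_lit 0x1000070003801e0005c002e000000000000000000) := Q_46 (nat_lit 94) (C_46 L123112 (C_46 L122816 (C_46 L129693 (C_46 L129708 N_46)))) (by decide +kernel)
theorem L129710 : W_46 (nat_lit 13) (nat_lit 0x18001c0000000000000000000000000000000) (nat_lit 0x0) (nat_lit 0x1000070003807ee07fe01ff80700018000c000000) := Q_46 (nat_lit 93) (C_46 L129689 (C_46 L124374 (C_46 L129709 N_46))) (by decide +kernel)
theorem L129711 : W_46 (nat_lit 14) (nat_lit 0x18000c0000000000000000000000000000000) (nat_lit 0x0) (nat_lit 0x9000c70073807ee07fe01ff80700018000c000000) := Q_46 (nat_lit 128) (C_46 L128878 (C_46 L122442 (C_46 L129710 N_46))) (by decide +kernel)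
theorem L129712 : W_46 (nat_lit 2) (nat_lit 0x1c001c0006000780000000000000000000000) (nat_lit 0x0) (nat_lit 0x18000040000000000000000000000) := D_46 (nat_lit 111) (nat_lit 112) (nat_lit 90) (nat_lit 3) (nat_lit 6) (nat_lit 5) (nat_lit 3) (nat_lit 5) (nat_lit 5) (by decide +kernel)
theorem L129713 : W_46 (nat_lit 3) (nat_lit 0x1c001c0006000700000000000000000000000) (nat_lit 0x0) (nat_lit 0x180000c0004000000000000000000) := T_46 (nat_lit 91) (nat_lit 74) (nat_lit 4) (nat_lit 7) (nat_lit 8) L129712 (by decide +kernel)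
theorem L129714 : W_46 (nat_lit 4) (nat_lit 0x1c001c0004000700000000000000000000000) (nat_lit 0x0) (nat_lit 0x800000000001a0000c0004000000000000000000) := T_46 (nat_lit 109) (nat_lit 159) (nat_lit 5) (nat_lit 7) (nat_lit 5) L129713 (by decide +kernel)
theorem L129715 : W_46 (nat_lit 5) (nat_lit 0x1c001c0004000300000000000000000000000) (nat_lit 0x0) (nat_lit 0x800000000001a0004c0024000000000000000000) := T_46 (nat_lit 94) (nat_lit 77) (nat_lit 6) (nat_lit 8) (nat_lit 8) L129714 (by decide +kernel)
theorem L129716 : W_46 (nat_lit 6) (nat_lit 0x1c001c0004000200000000000000000000000) (nat_lit 0x0) (nat_lit 0x800000000001a0005c002c000000000000000000) := T_46 (nat_lit 92) (nat_lit 75) (nat_lit 4) (nat_lit 8) (nat_lit 8) L129715 (by decide +kernel)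
theorem L129717 : W_46 (nat_lit 7) (nat_lit 0x1c001c0000000200000000000000000000000) (nat_lit 0x0) (nat_lit 0x800000000001e0005c003c000000000000000000) := T_46 (nat_lit 110) (nat_lit 76) (nat_lit 5) (nat_lit 8) (nat_lit 4) L129716 (by decide +kernel)
theorem L129718 : W_46 (nat_lit 8) (nat_lit 0x18001c0000000200000000000000000000000) (nat_lit 0x0) (nat_lit 0x800060000001e0005c003c000000000000000000) := T_46 (nat_lit 142) (nat_lit 141) (nat_lit 2) (nat_lit 5) (nat_lit 8) L129717 (by decide +kernel)
theorem L129719 : W_46 (nat_lit 8) (nat_lit 0x18001c0000000700000000000000000000000) (nat_lit 0x0) (nat_lit 0x6000000700078801fe000000000000000000) := Q_46 (nat_lit 95) (C_46 L123976 (C_46 L123959 (C_46 L123074 (C_46 L123070 (C_46 L123972 N_46))))) (by decide +kernel)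
theorem L129720 : W_46 (nat_lit 11) (nat_lit 0x18001c0000000300000000000000000000000) (nat_lit 0x0) (nat_lit 0x600000078007cc01ff00700018000c000000) := Q_46 (nat_lit 94) (C_46 L123981 (C_46 L129719 (C_46 L123115 (C_46 L123078 (C_46 L123094 (C_46 L123978 N_46)))))) (by decide +kernel)
theorem L129721 : W_46 (nat_lit 3) (nat_lit 0x18001c0000000300000000000000000000000) (nat_lit 0x0) (nat_lit 0x8000600000002000000008000000000000000000) := T_46 (nat_lit 109) (nat_lit 75) (nat_lit 7) (nat_lit 7) (nat_lit 4) L124128 (by decide +kernel)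
theorem L129722 : W_46 (nat_lit 12) (nat_lit 0x18001c0000000200000000000000000000000) (nat_lit 0x0) (nat_lit 0x800060000007a007dc01ff00700018000c000000) := Q_46 (nat_lit 92) (C_46 L124132 (C_46 L129720 (C_46 L123107 (C_46 L129721 N_46)))) (by decide +kernel)
theorem L129723 : W_46 (nat_lit 2) (nat_lit 0x700018001a001c0000000200000000000000000000000) (nat_lit 0x0) (nat_lit 0x800006000000000000000000000000000000000000000) := D_46 (nat_lit 158) (nat_lit 157) (nat_lit 179) (nat_lit 3) (nat_lit 4) (nat_lit 9) (nat_lit 0) (nat_lit 9) (nat_lit 10) (by decide +kernel)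
theorem L129724 : W_46 (nat_lit 3) (nat_lit 0x300018001a001c0000000200000000000000000000000) (nat_lit 0x0) (nat_lit 0x8000c00006000000000000000000000000000000000000000) := T_46 (nat_lit 178) (nat_lit 195) (nat_lit 7) (nat_lit 7) (nat_lit 7) L129723 (by decide +kernel)
theorem L129725 : W_46 (nat_lit 4) (nat_lit 0x300010001a001c0000000200000000000000000000000) (nat_lit 0x0) (nat_lit 0x8000c0000e000000000002000000000000000000000000000) := T_46 (nat_lit 159) (nat_lit 109) (nat_lit 5) (nat_lit 7) (nat_lit 6) L129724 (by decide +kernel)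
theorem L129726 : W_46 (nat_lit 5) (nat_lit 0x200010001a001c0000000200000000000000000000000) (nat_lit 0x0) (nat_lit 0xa000d0000e000000000002000000000000000000000000000) := T_46 (nat_lit 176) (nat_lit 193) (nat_lit 5) (nat_lit 7) (nat_lit 7) L129725 (by decide +kernel)
theorem L129727 : W_46 (nat_lit 6) (nat_lit 0x10001a001c0000000200000000000000000000000) (nat_lit 0x0) (nat_lit 0xe000f0000e000000000002000000000000000000000000000) := T_46 (nat_lit 177) (nat_lit 194) (nat_lit 6) (nat_lit 7) (nat_lit 11) L129726 (by decide +kernel)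
theorem L129728 : W_46 (nat_lit 7) (nat_lit 0x1a001c0000000200000000000000000000000) (nat_lit 0x0) (nat_lit 0xe000f0001e000000000006000000000000000000000000000) := T_46 (nat_lit 160) (nat_lit 110) (nat_lit 5) (nat_lit 8) (nat_lit 5) L129727 (by decide +kernel)
theorem L129729 : W_46 (nat_lit 8) (nat_lit 0x18001c0000000200000000000000000000000) (nat_lit 0x0) (nat_lit 0xe000f0001e000600000006000000000000000000000000000) := T_46 (nat_lit 141) (nat_lit 142) (nat_lit 2) (nat_lit 5) (nat_lit 8) L129728 (by decide +kernel)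
theorem L129730 : W_46 (nat_lit 13) (nat_lit 0x18001c0000000000000000000000000000000) (nat_lit 0x0) (nat_lit 0xe000f0001e00060000007e007fc01ff00700018000c000000) := Q_46 (nat_lit 93) (C_46 L124374 (C_46 L129718 (C_46 L129722 (C_46 L129729 N_46)))) (by decide +kernel)
theorem L129731 : W_46 (nat_lit 14) (nat_lit 0x18000c0000000000000000000000000000000) (nat_lit 0x0) (nat_lit 0xe000f0009e00c60072007e007fc01ff00700018000c000000) := Q_46 (nat_lit 128) (C_46 L128878 (C_46 L122442 (C_46 L129730 N_46))) (by decide +kernel)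
theorem L129732 : W_46 (nat_lit 2) (nat_lit 0x18000d0004000000000000000000000000000) (nat_lit 0x0) (nat_lit 0x28008000000000000000000000000000) := D_46 (nat_lit 125) (nat_lit 123) (nat_lit 111) (nat_lit 3) (nat_lit 4) (nat_lit 7) (nat_lit 2) (nat_lit 5) (nat_lit 7) (by decide +kernel)
theorem L129733 : W_46 (nat_lit 2) (nat_lit 0x1a000d0004000000000000000000000000000) (nat_lit 0x0) (nat_lit 0x500008000000000000000000000000000000) := D_46 (nat_lit 142) (nat_lit 140) (nat_lit 123) (nat_lit 2) (nat_lit 4) (nat_lit 8) (nat_lit 0) (nat_lit 8) (nat_lit 8) (by decide +kernel)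
theorem L129734 : W_46 (nat_lit 2) (nat_lit 0x4001a000d0004000000000000000000000000000) (nat_lit 0x0) (nat_lit 0x2000400008000000000000000000000000000000) := D_46 (nat_lit 142) (nat_lit 157) (nat_lit 123) (nat_lit 1) (nat_lit 8) (nat_lit 8) (nat_lit 0) (nat_lit 8) (nat_lit 8) (by decide +kernel)
theorem L129735 : W_46 (nat_lit 10) (nat_lit 0x1a000d0004000000000000000000000000000) (nat_lit 0x0) (nat_lit 0x4001e800fc001e000400008000c00000000000000000000000000) := Q_46 (nat_lit 158) (C_46 L129262 (C_46 L129734 (C_46 L129115 N_46))) (by decide +kernel)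
theorem L129736 : W_46 (nat_lit 2) (nat_lit 0x4001a000d0004000000000000000000000000000) (nat_lit 0x0) (nat_lit 0x2000500000000000000000000000000000000000) := D_46 (nat_lit 142) (nat_lit 157) (nat_lit 140) (nat_lit 1) (nat_lit 8) (nat_lit 8) (nat_lit 2) (nat_lit 4) (nat_lit 8) (by decide +kernel)
theorem L129737 : W_46 (nat_lit 7) (nat_lit 0x1a000d0004000000000000000000000000000) (nat_lit 0x0) (nat_lit 0x500038007c001e000500000002800000000000000000000000000) := Q_46 (nat_lit 158) (C_46 L129262 (C_46 L129736 (C_46 L129119 N_46))) (by decide +kernel)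
theorem L129738 : W_46 (nat_lit 12) (nat_lit 0x18000d0004000000000000000000000000000) (nat_lit 0x0) (nat_lit 0x4000e0007001fe00ff001f0007c0008002c000e0007000280000000000000) := Q_46 (nat_lit 141) (C_46 L129263 (C_46 L129733 (C_46 L129735 (C_46 L129737 N_46)))) (by decide +kernel)
theorem L129739 : W_46 (nat_lit 2) (nat_lit 0x4001e000f0004800000000000000000000000000) (nat_lit 0x0) (nat_lit 0x100008000000000000000040000000000000000000000) := D_46 (nat_lit 159) (nat_lit 176) (nat_lit 90) (nat_lit 7) (nat_lit 5) (nat_lit 6) (nat_lit 7) (nat_lit 5) (nat_lit 5) (by decide +kernel)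
theorem L129740 : W_46 (nat_lit 3) (nat_lit 0x4001e000f0004000000000000000000000000000) (nat_lit 0x0) (nat_lit 0x100008000000000000c00040000000000000000000000) := T_46 (nat_lit 107) (nat_lit 106) (nat_lit 0) (nat_lit 8) (nat_lit 7) L129739 (by decide +kernel)
theorem L129741 : W_46 (nat_lit 4) (nat_lit 0x4001e000d0004000000000000000000000000000) (nat_lit 0x0) (nat_lit 0x100008000000020008c00040000000000000000000000) := T_46 (nat_lit 125) (nat_lit 111) (nat_lit 2) (nat_lit 5) (nat_lit 7) L129740 (by decide +kernel)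
theorem L129742 : W_46 (nat_lit 5) (nat_lit 0x4001a000d0004000000000000000000000000000) (nat_lit 0x0) (nat_lit 0x10000a000400020008c00040000000000000000000000) := T_46 (nat_lit 142) (nat_lit 157) (nat_lit 1) (nat_lit 8) (nat_lit 8) L129741 (by decide +kernel)
theorem L129743 : W_46 (nat_lit 2) (nat_lit 0x4001a000f0004800000000000000000000000000) (nat_lit 0x0) (nat_lit 0x40002000400000000000000000000000000000000000) := D_46 (nat_lit 157) (nat_lit 142) (nat_lit 174) (nat_lit 1) (nat_lit 8) (nat_lit 8) (nat_lit 5) (nat_lit 5) (nat_lit 6) (by decide +kernel)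
theorem L129744 : W_46 (nat_lit 3) (nat_lit 0x4001a000f0004000000000000000000000000000) (nat_lit 0x0) (nat_lit 0x40002000400000000c00000000000000000000000000) := T_46 (nat_lit 107) (nat_lit 106) (nat_lit 0) (nat_lit 8) (nat_lit 7) L129743 (by decide +kernel)
theorem L129745 : W_46 (nat_lit 4) (nat_lit 0x4001a000d0004000000000000000000000000000) (nat_lit 0x0) (nat_lit 0x40002000400020008c00000000000000000000000000) := T_46 (nat_lit 125) (nat_lit 111) (nat_lit 2) (nat_lit 5) (nat_lit 7) L129744 (by decide +kernel)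
theorem L129746 : W_46 (nat_lit 2) (nat_lit 0x3c0004001e000f0004000000000000000000000000000) (nat_lit 0x0) (nat_lit 0x4000000008000000000002000000000000000000000000000) := D_46 (nat_lit 159) (nat_lit 109) (nat_lit 194) (nat_lit 6) (nat_lit 6) (nat_lit 10) (nat_lit 7) (nat_lit 6) (nat_lit 7) (by decide +kernel)
theorem L129747 : W_46 (nat_lit 3) (nat_lit 0x2c0004001e000f0004000000000000000000000000000) (nat_lit 0x0) (nat_lit 0x6000100008000000000002000000000000000000000000000) := T_46 (nat_lit 176) (nat_lit 193) (nat_lit 7) (nat_lit 5) (nat_lit 7) L129746 (by decide +kernel)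
theorem L129748 : W_46 (nat_lit 4) (nat_lit 0x280004001e000f0004000000000000000000000000000) (nat_lit 0x0) (nat_lit 0x6800140008000000000002000000000000000000000000000) := T_46 (nat_lit 174) (nat_lit 191) (nat_lit 5) (nat_lit 5) (nat_lit 7) L129747 (by decide +kernel)
theorem L129749 : W_46 (nat_lit 5) (nat_lit 0x200004001e000f0004000000000000000000000000000) (nat_lit 0x0) (nat_lit 0x78001c0008000000000002000000000000000000000000000) := T_46 (nat_lit 175) (nat_lit 192) (nat_lit 6) (nat_lit 5) (nat_lit 11) L129748 (by decide +kernel)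
theorem L129750 : W_46 (nat_lit 6) (nat_lit 0x200004001a000f0004000000000000000000000000000) (nat_lit 0x0) (nat_lit 0x78001c000a000400000002000000000000000000000000000) := T_46 (nat_lit 142) (nat_lit 157) (nat_lit 1) (nat_lit 8) (nat_lit 8) L129749 (by decide +kernel)
theorem L129751 : W_46 (nat_lit 7) (nat_lit 0x200004001a000d0004000000000000000000000000000) (nat_lit 0x0) (nat_lit 0x78001c000a00040002000a000000000000000000000000000) := T_46 (nat_lit 125) (nat_lit 111) (nat_lit 2) (nat_lit 5) (nat_lit 7) L129750 (by decide +kernel)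
theorem L129752 : W_46 (nat_lit 8) (nat_lit 0x4001a000d0004000000000000000000000000000) (nat_lit 0x0) (nat_lit 0x78003c001a00040002000a000000000000000000000000000) := T_46 (nat_lit 177) (nat_lit 160) (nat_lit 6) (nat_lit 7) (nat_lit 10) L129751 (by decide +kernel)
theorem L129753 : W_46 (nat_lit 2) (nat_lit 0x20000c001a000f0004800040005000000000000000000) (nat_lit 0x0) (nat_lit 0x2000280000000000000) := D_46 (nat_lit 73) (nat_lit 57) (nat_lit 55) (nat_lit 6) (nat_lit 5) (nat_lit 7) (nat_lit 4) (nat_lit 5) (nat_lit 7) (by decide +kernel)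
theorem L129754 : W_46 (nat_lit 3) (nat_lit 0x20000c001a000f0004800040004000000000000000000) (nat_lit 0x0) (nat_lit 0x20003000280000000000000) := T_46 (nat_lit 72) (nat_lit 89) (nat_lit 4) (nat_lit 5) (nat_lit 8) L129753 (by decide +kernel)
theorem L129755 : W_46 (nat_lit 4) (nat_lit 0x20000c001a000f0004800040000000000000000000000) (nat_lit 0x0) (nat_lit 0xa0007000280000000000000) := T_46 (nat_lit 74) (nat_lit 91) (nat_lit 6) (nat_lit 5) (nat_lit 8) L129754 (by decide +kernel)
theorem L129756 : W_46 (nat_lit 5) (nat_lit 0x20000c001a000f0004800000000000000000000000000) (nat_lit 0x0) (nat_lit 0x4000000000000e0007000280000000000000) := T_46 (nat_lit 90) (nat_lit 142) (nat_lit 7) (nat_lit 5) (nat_lit 5) L129755 (by decide +kernel)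
theorem L129757 : W_46 (nat_lit 6) (nat_lit 0x200004001a000f0004800000000000000000000000000) (nat_lit 0x0) (nat_lit 0x1000080004000000000000e0007000280000000000000) := T_46 (nat_lit 159) (nat_lit 176) (nat_lit 7) (nat_lit 5) (nat_lit 6) L129756 (by decide +kernel)
theorem L129758 : W_46 (nat_lit 7) (nat_lit 0x200004001a000f0004000000000000000000000000000) (nat_lit 0x0) (nat_lit 0x100008000400000000c000e0007000280000000000000) := T_46 (nat_lit 107) (nat_lit 106) (nat_lit 0) (nat_lit 8) (nat_lit 7) L129757 (by decide +kernel)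
theorem L129759 : W_46 (nat_lit 8) (nat_lit 0x200004001a000d0004000000000000000000000000000) (nat_lit 0x0) (nat_lit 0x100008000400020008c000e0007000280000000000000) := T_46 (nat_lit 125) (nat_lit 111) (nat_lit 2) (nat_lit 5) (nat_lit 7) L129758 (by decide +kernel)
theorem L129760 : W_46 (nat_lit 9) (nat_lit 0x4001a000d0004000000000000000000000000000) (nat_lit 0x0) (nat_lit 0x300018000400020008c000e0007000280000000000000) := T_46 (nat_lit 177) (nat_lit 160) (nat_lit 6) (nat_lit 7) (nat_lit 10) L129759 (by decide +kernel)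
theorem L129761 : W_46 (nat_lit 10) (nat_lit 0x1a000d0004000000000000000000000000000) (nat_lit 0x0) (nat_lit 0x400078003c001e00040002000ac000e0007000280000000000000) := Q_46 (nat_lit 158) (C_46 L129262 (C_46 L129742 (C_46 L129745 (C_46 L129752 (C_46 L129760 N_46))))) (by decide +kernel)
theorem L129762 : W_46 (nat_lit 11) (nat_lit 0x18000d0004000000000000000000000000000) (nat_lit 0x0) (nat_lit 0x500078007c001e00070002000ac000e0007000280000000000000) := Q_46 (nat_lit 141) (C_46 L129737 (C_46 L129266 (C_46 L129761 N_46))) (by decide +kernel)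
theorem L129763 : W_46 (nat_lit 13) (nat_lit 0x18000c0004000000000000000000000000000) (nat_lit 0x0) (nat_lit 0x4000e0007001fe00ff001f0007c003800ac000e0007000280000000000000) := Q_46 (nat_lit 124) (C_46 L129732 (C_46 L129738 (C_46 L129762 N_46))) (by decide +kernel)
theorem L129764 : W_46 (nat_lit 4) (nat_lit 0x1e000c0006000100000000000000000000000) (nat_lit 0x0) (nat_lit 0x38018000080004000000000000000000) := T_46 (nat_lit 91) (nat_lit 74) (nat_lit 4) (nat_lit 7) (nat_lit 8) L128771 (by decide +kernel)
theorem L129765 : W_46 (nat_lit 5) (nat_lit 0x1c000c0006000100000000000000000000000) (nat_lit 0x0) (nat_lit 0x300038018000080004000000000000000000) := T_46 (nat_lit 141) (nat_lit 140) (nat_lit 2) (nat_lit 4) (nat_lit 8) L129764 (by decide +kernel)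
theorem L129766 : W_46 (nat_lit 6) (nat_lit 0x18000c0006000100000000000000000000000) (nat_lit 0x0) (nat_lit 0x8000700038018000080004000000000000000000) := T_46 (nat_lit 142) (nat_lit 159) (nat_lit 5) (nat_lit 7) (nat_lit 5) L129765 (by decide +kernel)
theorem L129767 : W_46 (nat_lit 7) (nat_lit 0x18000c0004000100000000000000000000000) (nat_lit 0x0) (nat_lit 0x800070003801a00008000c000000000000000000) := T_46 (nat_lit 109) (nat_lit 75) (nat_lit 7) (nat_lit 7) (nat_lit 4) L129766 (by decide +kernel)
theorem L129768 : W_46 (nat_lit 2) (nat_lit 0x18000c0004000100000000000000000000000) (nat_lit 0x0) (nat_lit 0x2000200008000000000000000000) := D_46 (nat_lit 75) (nat_lit 109) (nat_lit 93) (nat_lit 7) (nat_lit 7) (nat_lit 4) (nat_lit 4) (nat_lit 8) (nat_lit 8) (by decide +kernel)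
theorem L129769 : W_46 (nat_lit 2) (nat_lit 0x18000c0004000100000000000000000000000) (nat_lit 0x0) (nat_lit 0x200018000000000000000000) := D_46 (nat_lit 93) (nat_lit 76) (nat_lit 75) (nat_lit 5) (nat_lit 8) (nat_lit 4) (nat_lit 4) (nat_lit 8) (nat_lit 8) (by decide +kernel)
theorem L129770 : W_46 (nat_lit 2) (nat_lit 0x18000d000c000700000000000000000000000) (nat_lit 0x0) (nat_lit 0x100000c0000000000000000000000) := D_46 (nat_lit 91) (nat_lit 112) (nat_lit 90) (nat_lit 3) (nat_lit 6) (nat_lit 5) (nat_lit 3) (nat_lit 5) (nat_lit 5) (by decide +kernel)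
theorem L129771 : W_46 (nat_lit 3) (nat_lit 0x18000d000c000300000000000000000000000) (nat_lit 0x0) (nat_lit 0x100004c0020000000000000000000) := T_46 (nat_lit 94) (nat_lit 77) (nat_lit 6) (nat_lit 8) (nat_lit 8) L129770 (by decide +kernel)
theorem L129772 : W_46 (nat_lit 4) (nat_lit 0x18000c000c000300000000000000000000000) (nat_lit 0x0) (nat_lit 0x300100004c0020000000000000000000) := T_46 (nat_lit 124) (nat_lit 125) (nat_lit 2) (nat_lit 5) (nat_lit 7) L129771 (by decide +kernel)
theorem L129773 : W_46 (nat_lit 5) (nat_lit 0x18000c000c000100000000000000000000000) (nat_lit 0x0) (nat_lit 0x300100006c0030000000000000000000) := T_46 (nat_lit 93) (nat_lit 76) (nat_lit 5) (nat_lit 8) (nat_lit 4) L129772 (by decide +kernel)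
theorem L129774 : W_46 (nat_lit 5) (nat_lit 0x18000c000c000300000000000000000000000) (nat_lit 0x0) (nat_lit 0x320004c0026000000000000000000) := T_46 (nat_lit 113) (nat_lit 112) (nat_lit 1) (nat_lit 11) (nat_lit 6) L129340 (by decide +kernel)
theorem L129775 : W_46 (nat_lit 6) (nat_lit 0x18000c000c000100000000000000000000000) (nat_lit 0x0) (nat_lit 0x320006c0036000000000000000000) := T_46 (nat_lit 93) (nat_lit 76) (nat_lit 5) (nat_lit 8) (nat_lit 4) L129774 (by decide +kernel)
theorem L129776 : W_46 (nat_lit 2) (nat_lit 0x1c000d001e000900010000000000000000000) (nat_lit 0x0) (nat_lit 0x300008000000000000000000000000000000) := D_46 (nat_lit 141) (nat_lit 140) (nat_lit 123) (nat_lit 2) (nat_lit 4) (nat_lit 8) (nat_lit 0) (nat_lit 8) (nat_lit 8) (by decide +kernel)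
theorem L129777 : W_46 (nat_lit 3) (nat_lit 0x18000d001e000900010000000000000000000) (nat_lit 0x0) (nat_lit 0x8000700008000000000000000000000000000000) := T_46 (nat_lit 142) (nat_lit 159) (nat_lit 5) (nat_lit 7) (nat_lit 5) L129776 (by decide +kernel)
theorem L129778 : W_46 (nat_lit 4) (nat_lit 0x18000d001e000100010000000000000000000) (nat_lit 0x0) (nat_lit 0x8000700008000001800000000000000000000000) := T_46 (nat_lit 95) (nat_lit 96) (nat_lit 2) (nat_lit 7) (nat_lit 6) L129777 (by decide +kernel)
theorem L129779 : W_46 (nat_lit 5) (nat_lit 0x18000d001c000100010000000000000000000) (nat_lit 0x0) (nat_lit 0x8000700008002001880000000000000000000000) := T_46 (nat_lit 109) (nat_lit 91) (nat_lit 0) (nat_lit 10) (nat_lit 6) L129778 (by decide +kernel)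
theorem L129780 : W_46 (nat_lit 6) (nat_lit 0x18000d000c000100010000000000000000000) (nat_lit 0x0) (nat_lit 0x8000700008032001880000000000000000000000) := T_46 (nat_lit 112) (nat_lit 113) (nat_lit 1) (nat_lit 11) (nat_lit 6) L129779 (by decide +kernel)
theorem L129781 : W_46 (nat_lit 7) (nat_lit 0x18000c000c000100010000000000000000000) (nat_lit 0x0) (nat_lit 0x8000700038032001880000000000000000000000) := T_46 (nat_lit 124) (nat_lit 125) (nat_lit 2) (nat_lit 5) (nat_lit 7) L129780 (by decide +kernel)
theorem L129782 : W_46 (nat_lit 8) (nat_lit 0x18000c000c000100000000000000000000000) (nat_lit 0x0) (nat_lit 0x8000700038032001a80010000000000000000000) := T_46 (nat_lit 76) (nat_lit 93) (nat_lit 5) (nat_lit 8) (nat_lit 4) L129781 (by decide +kernel)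
theorem L129783 : W_46 (nat_lit 2) (nat_lit 0x18000c001c000100000000000000000000000) (nat_lit 0x0) (nat_lit 0x30002000000000000000000000000000) := D_46 (nat_lit 125) (nat_lit 124) (nat_lit 109) (nat_lit 2) (nat_lit 5) (nat_lit 7) (nat_lit 1) (nat_lit 10) (nat_lit 6) (by decide +kernel)
theorem L129784 : W_46 (nat_lit 3) (nat_lit 0x18000c000c000100000000000000000000000) (nat_lit 0x0) (nat_lit 0x30032000000000000000000000000000) := T_46 (nat_lit 112) (nat_lit 113) (nat_lit 1) (nat_lit 11) (nat_lit 6) L129783 (by decide +kernel)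
theorem L129785 : W_46 (nat_lit 5) (nat_lit 0x18000d000c000100000000000000000000000) (nat_lit 0x0) (nat_lit 0x20006c0036000000000000000000) := T_46 (nat_lit 93) (nat_lit 76) (nat_lit 5) (nat_lit 8) (nat_lit 4) L129351 (by decide +kernel)
theorem L129786 : W_46 (nat_lit 6) (nat_lit 0x18000c000c000100000000000000000000000) (nat_lit 0x0) (nat_lit 0x300020006c0036000000000000000000) := T_46 (nat_lit 124) (nat_lit 125) (nat_lit 2) (nat_lit 5) (nat_lit 7) L129785 (by decide +kernel)
theorem L129787 : W_46 (nat_lit 9) (nat_lit 0x18000c0004000100000000000000000000000) (nat_lit 0x0) (nat_lit 0x800070003803a001ec0036000000000000000000) := Q_46 (nat_lit 111) (C_46 L129773 (C_46 L129775 (C_46 L129782 (C_46 L129784 (C_46 L129786 N_46))))) (by decide +kernel)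
theorem L129788 : W_46 (nat_lit 10) (nat_lit 0x18000c0004000000000000000000000000000) (nat_lit 0x0) (nat_lit 0x800070003803a001fc003e000000000000000000) := Q_46 (nat_lit 92) (C_46 L129767 (C_46 L129768 (C_46 L129769 (C_46 L129787 N_46)))) (by decide +kernel)
theorem L129789 : W_46 (nat_lit 14) (nat_lit 0x18000c0000000000000000000000000000000) (nat_lit 0x0) (nat_lit 0x4000e0007001fe00ff001f0007c003803ec01fe003f000280000000000000) := Q_46 (nat_lit 110) (C_46 L129763 (C_46 L127190 (C_46 L129788 N_46))) (by decide +kernel)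
theorem L129790 : W_46 (nat_lit 2) (nat_lit 0x1000180004001a000d8000000000000000000000000000000) (nat_lit 0x0) (nat_lit 0x10000800040000000000000000000000000000000000000000000) := D_46 (nat_lit 191) (nat_lit 174) (nat_lit 208) (nat_lit 5) (nat_lit 5) (nat_lit 7) (nat_lit 5) (nat_lit 5) (nat_lit 8) (by decide +kernel)
theorem L129791 : W_46 (nat_lit 3) (nat_lit 0x180004001a000d8000000000000000000000000000000) (nat_lit 0x0) (nat_lit 0x10001800040000000100000000000000000000000000000000000) := T_46 (nat_lit 192) (nat_lit 140) (nat_lit 4) (nat_lit 5) (nat_lit 11) L129790 (by decide +kernel)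
theorem L129792 : W_46 (nat_lit 4) (nat_lit 0x80004001a000d8000000000000000000000000000000) (nat_lit 0x0) (nat_lit 0x10003800140000000100000000000000000000000000000000000) := T_46 (nat_lit 176) (nat_lit 193) (nat_lit 7) (nat_lit 5) (nat_lit 7) L129791 (by decide +kernel)
theorem L129793 : W_46 (nat_lit 5) (nat_lit 0x80004001a000d0000000000000000000000000000000) (nat_lit 0x0) (nat_lit 0x10003800140000000100008000400000000000000000000000000) := T_46 (nat_lit 123) (nat_lit 106) (nat_lit 4) (nat_lit 5) (nat_lit 10) L129792 (by decide +kernel)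
theorem L129794 : W_46 (nat_lit 2) (nat_lit 0xc0004001a000d0000800000000000000000000000000) (nat_lit 0x0) (nat_lit 0x2000100008000000000000000000000000000000000000000) := D_46 (nat_lit 176) (nat_lit 193) (nat_lit 159) (nat_lit 7) (nat_lit 5) (nat_lit 7) (nat_lit 7) (nat_lit 5) (nat_lit 6) (by decide +kernel)
theorem L129795 : W_46 (nat_lit 3) (nat_lit 0xc0004001a000d0000000000000000000000000000000) (nat_lit 0x0) (nat_lit 0x200010000a000000000000800000000000000000000000000) := T_46 (nat_lit 107) (nat_lit 157) (nat_lit 5) (nat_lit 5) (nat_lit 6) L129794 (by decide +kernel)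
theorem L129796 : W_46 (nat_lit 4) (nat_lit 0x80004001a000d0000000000000000000000000000000) (nat_lit 0x0) (nat_lit 0x280014000a000000000000800000000000000000000000000) := T_46 (nat_lit 174) (nat_lit 191) (nat_lit 5) (nat_lit 5) (nat_lit 7) L129795 (by decide +kernel)
theorem L129797 : W_46 (nat_lit 2) (nat_lit 0x4000000070000d0006001a000d8000000000000000000000000000000) (nat_lit 0x0) (nat_lit 0x200018000000000000000000000000000000000000000) := D_46 (nat_lit 160) (nat_lit 159) (nat_lit 177) (nat_lit 2) (nat_lit 4) (nat_lit 9) (nat_lit 6) (nat_lit 7) (nat_lit 11) (by decide +kernel)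
theorem L129798 : W_46 (nat_lit 3) (nat_lit 0x4000000030000d0006001a000d8000000000000000000000000000000) (nat_lit 0x0) (nat_lit 0xc000200018000000000000000000000000000000000000000) := T_46 (nat_lit 194) (nat_lit 195) (nat_lit 0) (nat_lit 8) (nat_lit 11) L129797 (by decide +kernel)
theorem L129799 : W_46 (nat_lit 4) (nat_lit 0x4000000030000c0006001a000d8000000000000000000000000000000) (nat_lit 0x0) (nat_lit 0xc000230018000000000000000000000000000000000000000) := T_46 (nat_lit 172) (nat_lit 173) (nat_lit 3) (nat_lit 2) (nat_lit 10) L129798 (by decide +kernel)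
theorem L129800 : W_46 (nat_lit 5) (nat_lit 0x4000000010000c0006001a000d8000000000000000000000000000000) (nat_lit 0x0) (nat_lit 0x4000e000230018000000000000000000000000000000000000000) := T_46 (nat_lit 193) (nat_lit 210) (nat_lit 7) (nat_lit 5) (nat_lit 8) L129799 (by decide +kernel)
theorem L129801 : W_46 (nat_lit 6) (nat_lit 0x10000c0006001a000d8000000000000000000000000000000) (nat_lit 0x0) (nat_lit 0x40006000e000230018000000000000000000000000000000000000000) := T_46 (nat_lit 226) (nat_lit 209) (nat_lit 4) (nat_lit 5) (nat_lit 13) L129800 (by decide +kernel)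
theorem L129802 : W_46 (nat_lit 7) (nat_lit 0xc0006001a000d8000000000000000000000000000000) (nat_lit 0x0) (nat_lit 0x40006000f000230018000100000000000000000000000000000000000) := T_46 (nat_lit 192) (nat_lit 140) (nat_lit 7) (nat_lit 4) (nat_lit 7) L129801 (by decide +kernel)
theorem L129803 : W_46 (nat_lit 8) (nat_lit 0xc0004001a000d8000000000000000000000000000000) (nat_lit 0x0) (nat_lit 0x40006000f00023001a000100000000800000000000000000000000000) := T_46 (nat_lit 157) (nat_lit 107) (nat_lit 5) (nat_lit 5) (nat_lit 6) L129802 (by decide +kernel)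
theorem L129804 : W_46 (nat_lit 9) (nat_lit 0x80004001a000d8000000000000000000000000000000) (nat_lit 0x0) (nat_lit 0x40006000f80027001a000100000000800000000000000000000000000) := T_46 (nat_lit 174) (nat_lit 191) (nat_lit 5) (nat_lit 5) (nat_lit 7) L129803 (by decide +kernel)
theorem L129805 : W_46 (nat_lit 10) (nat_lit 0x80004001a000d0000000000000000000000000000000) (nat_lit 0x0) (nat_lit 0x40006000f80027001a000100008000c00000000000000000000000000) := T_46 (nat_lit 123) (nat_lit 106) (nat_lit 4) (nat_lit 5) (nat_lit 10) L129804 (by decide +kernel)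
theorem L129806 : W_46 (nat_lit 2) (nat_lit 0x4000000010002c0016001a000d8000000000000000000000000000000) (nat_lit 0x0) (nat_lit 0x8000500000000000000000000000000000000000000000000) := D_46 (nat_lit 178) (nat_lit 176) (nat_lit 195) (nat_lit 0) (nat_lit 8) (nat_lit 10) (nat_lit 7) (nat_lit 7) (nat_lit 7) (by decide +kernel)
theorem L129807 : W_46 (nat_lit 3) (nat_lit 0x4000000010000c0016001a000d8000000000000000000000000000000) (nat_lit 0x0) (nat_lit 0xc000700000000000000000000000000000000000000000000) := T_46 (nat_lit 177) (nat_lit 194) (nat_lit 6) (nat_lit 7) (nat_lit 11) L129806 (by decide +kernel)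
theorem L129808 : W_46 (nat_lit 4) (nat_lit 0x4000000010000c0006001a000d8000000000000000000000000000000) (nat_lit 0x0) (nat_lit 0xc000700018000000000000000000000000000000000000000) := T_46 (nat_lit 160) (nat_lit 159) (nat_lit 2) (nat_lit 4) (nat_lit 9) L129807 (by decide +kernel)
theorem L129809 : W_46 (nat_lit 5) (nat_lit 0x10000c0006001a000d8000000000000000000000000000000) (nat_lit 0x0) (nat_lit 0x40002000c000700018000000000000000000000000000000000000000) := T_46 (nat_lit 226) (nat_lit 209) (nat_lit 4) (nat_lit 5) (nat_lit 13) L129808 (by decide +kernel)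
theorem L129810 : W_46 (nat_lit 6) (nat_lit 0xc0006001a000d8000000000000000000000000000000) (nat_lit 0x0) (nat_lit 0x40002000d000700018000100000000000000000000000000000000000) := T_46 (nat_lit 192) (nat_lit 140) (nat_lit 7) (nat_lit 4) (nat_lit 7) L129809 (by decide +kernel)
theorem L129811 : W_46 (nat_lit 7) (nat_lit 0xc0004001a000d8000000000000000000000000000000) (nat_lit 0x0) (nat_lit 0x40002000d00070001a000100000000800000000000000000000000000) := T_46 (nat_lit 157) (nat_lit 107) (nat_lit 5) (nat_lit 5) (nat_lit 6) L129810 (by decide +kernel)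
theorem L129812 : W_46 (nat_lit 8) (nat_lit 0x80004001a000d8000000000000000000000000000000) (nat_lit 0x0) (nat_lit 0x40002000d80074001a000100000000800000000000000000000000000) := T_46 (nat_lit 174) (nat_lit 191) (nat_lit 5) (nat_lit 5) (nat_lit 7) L129811 (by decide +kernel)
theorem L129813 : W_46 (nat_lit 9) (nat_lit 0x80004001a000d0000000000000000000000000000000) (nat_lit 0x0) (nat_lit 0x40002000d80074001a000100008000c00000000000000000000000000) := T_46 (nat_lit 123) (nat_lit 106) (nat_lit 4) (nat_lit 5) (nat_lit 10) L129812 (by decide +kernel)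
theorem L129814 : W_46 (nat_lit 2) (nat_lit 0x180004001b000d8000800000000000000000000000000) (nat_lit 0x0) (nat_lit 0x2000000000000000040002000000000000000000) := D_46 (nat_lit 90) (nat_lit 73) (nat_lit 157) (nat_lit 5) (nat_lit 5) (nat_lit 4) (nat_lit 5) (nat_lit 5) (nat_lit 5) (by decide +kernel)
theorem L129815 : W_46 (nat_lit 3) (nat_lit 0x180004001a000d8000800000000000000000000000000) (nat_lit 0x0) (nat_lit 0x1000000002000100000000000040002000000000000000000) := T_46 (nat_lit 140) (nat_lit 192) (nat_lit 4) (nat_lit 5) (nat_lit 11) L129814 (by decide +kernel)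
theorem L129816 : W_46 (nat_lit 4) (nat_lit 0x180004001a000d8000000000000000000000000000000) (nat_lit 0x0) (nat_lit 0x100000000a000100000000800040002000000000000000000) := T_46 (nat_lit 107) (nat_lit 159) (nat_lit 7) (nat_lit 5) (nat_lit 6) L129815 (by decide +kernel)
theorem L129817 : W_46 (nat_lit 5) (nat_lit 0x80004001a000d8000000000000000000000000000000) (nat_lit 0x0) (nat_lit 0x300010000a000100000000800040002000000000000000000) := T_46 (nat_lit 176) (nat_lit 193) (nat_lit 7) (nat_lit 5) (nat_lit 7) L129816 (by decide +kernel)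
theorem L129818 : W_46 (nat_lit 6) (nat_lit 0x80004001a000d0000000000000000000000000000000) (nat_lit 0x0) (nat_lit 0x300010000a000100008000c00040002000000000000000000) := T_46 (nat_lit 123) (nat_lit 106) (nat_lit 4) (nat_lit 5) (nat_lit 10) L129817 (by decide +kernel)
theorem L129819 : W_46 (nat_lit 11) (nat_lit 0x4001a000d0000000000000000000000000000000) (nat_lit 0x0) (nat_lit 0x40007000f8007f001a000100008000c00040002000000000000000000) := Q_46 (nat_lit 175) (C_46 L129793 (C_46 L129796 (C_46 L129805 (C_46 L129813 (C_46 L129818 N_46))))) (by decide +kernel)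
theorem L129820 : W_46 (nat_lit 2) (nat_lit 0x200010000c0006001a000d8000000000000000000000000000000) (nat_lit 0x0) (nat_lit 0x800040002000000000000000000000000000000000000000000000000) := D_46 (nat_lit 210) (nat_lit 193) (nat_lit 227) (nat_lit 7) (nat_lit 5) (nat_lit 8) (nat_lit 7) (nat_lit 5) (nat_lit 9) (by decide +kernel)
theorem L129821 : W_46 (nat_lit 3) (nat_lit 0x10000c0006001a000d8000000000000000000000000000000) (nat_lit 0x0) (nat_lit 0xc00060002000000000000000000000000000000000000000000000000) := T_46 (nat_lit 209) (nat_lit 226) (nat_lit 4) (nat_lit 5) (nat_lit 13) L129820 (by decide +kernel)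
theorem L129822 : W_46 (nat_lit 4) (nat_lit 0xc0006001a000d8000000000000000000000000000000) (nat_lit 0x0) (nat_lit 0xc00060003000000000000100000000000000000000000000000000000) := T_46 (nat_lit 192) (nat_lit 140) (nat_lit 7) (nat_lit 4) (nat_lit 7) L129821 (by decide +kernel)
theorem L129823 : W_46 (nat_lit 5) (nat_lit 0xc0004001a000d8000000000000000000000000000000) (nat_lit 0x0) (nat_lit 0xc00060003000000002000100000000800000000000000000000000000) := T_46 (nat_lit 157) (nat_lit 107) (nat_lit 5) (nat_lit 5) (nat_lit 6) L129822 (by decide +kernel)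
theorem L129824 : W_46 (nat_lit 6) (nat_lit 0x80004001a000d8000000000000000000000000000000) (nat_lit 0x0) (nat_lit 0xc00060003800040002000100000000800000000000000000000000000) := T_46 (nat_lit 174) (nat_lit 191) (nat_lit 5) (nat_lit 5) (nat_lit 7) L129823 (by decide +kernel)
theorem L129825 : W_46 (nat_lit 7) (nat_lit 0x80004001a000d0000000000000000000000000000000) (nat_lit 0x0) (nat_lit 0xc00060003800040002000100008000c00000000000000000000000000) := T_46 (nat_lit 123) (nat_lit 106) (nat_lit 4) (nat_lit 5) (nat_lit 10) L129824 (by decide +kernel)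
theorem L129826 : W_46 (nat_lit 2) (nat_lit 0xe0006001b000dd000000000000000000000000000000) (nat_lit 0x0) (nat_lit 0x18008000000000000000000000000000000000000000) := D_46 (nat_lit 172) (nat_lit 159) (nat_lit 171) (nat_lit 2) (nat_lit 2) (nat_lit 10) (nat_lit 2) (nat_lit 1) (nat_lit 10) (by decide +kernel)
theorem L129827 : W_46 (nat_lit 3) (nat_lit 0xc0006001b000dd000000000000000000000000000000) (nat_lit 0x0) (nat_lit 0x400038008000000000000000000000000000000000000000) := T_46 (nat_lit 173) (nat_lit 190) (nat_lit 5) (nat_lit 4) (nat_lit 7) L129826 (by decide +kernel)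
theorem L129828 : W_46 (nat_lit 4) (nat_lit 0xc0006001b000dc000000000000000000000000000000) (nat_lit 0x0) (nat_lit 0x400038008000000003000000000000000000000000000000) := T_46 (nat_lit 120) (nat_lit 121) (nat_lit 3) (nat_lit 1) (nat_lit 7) L129827 (by decide +kernel)
theorem L129829 : W_46 (nat_lit 5) (nat_lit 0xc0006001b000d8000000000000000000000000000000) (nat_lit 0x0) (nat_lit 0x400038008000000007000200000000000000000000000000) := T_46 (nat_lit 122) (nat_lit 105) (nat_lit 4) (nat_lit 4) (nat_lit 10) L129828 (by decide +kernel)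
theorem L129830 : W_46 (nat_lit 6) (nat_lit 0xc0006001a000d8000000000000000000000000000000) (nat_lit 0x0) (nat_lit 0x1400038008000100007000200000000000000000000000000) := T_46 (nat_lit 140) (nat_lit 192) (nat_lit 7) (nat_lit 4) (nat_lit 7) L129829 (by decide +kernel)
theorem L129831 : W_46 (nat_lit 7) (nat_lit 0xc0004001a000d8000000000000000000000000000000) (nat_lit 0x0) (nat_lit 0x140003800a000100007000a00000000000000000000000000) := T_46 (nat_lit 157) (nat_lit 107) (nat_lit 5) (nat_lit 5) (nat_lit 6) L129830 (by decide +kernel)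
theorem L129832 : W_46 (nat_lit 8) (nat_lit 0x80004001a000d8000000000000000000000000000000) (nat_lit 0x0) (nat_lit 0x1c0007800a000100007000a00000000000000000000000000) := T_46 (nat_lit 174) (nat_lit 191) (nat_lit 5) (nat_lit 5) (nat_lit 7) L129831 (by decide +kernel)
theorem L129833 : W_46 (nat_lit 9) (nat_lit 0x80004001a000d0000000000000000000000000000000) (nat_lit 0x0) (nat_lit 0x1c0007800a00010000f000e00000000000000000000000000) := T_46 (nat_lit 123) (nat_lit 106) (nat_lit 4) (nat_lit 5) (nat_lit 10) L129832 (by decide +kernel)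
theorem L129834 : W_46 (nat_lit 10) (nat_lit 0x4001a000d0000000000000000000000000000000) (nat_lit 0x0) (nat_lit 0xc00070003c001f800a00010000f000e00040002000000000000000000) := Q_46 (nat_lit 175) (C_46 L129793 (C_46 L129796 (C_46 L129818 (C_46 L129825 (C_46 L129833 N_46))))) (by decide +kernel)
theorem L129835 : W_46 (nat_lit 2) (nat_lit 0x1c0006001a000d0000000000000000000000000000000) (nat_lit 0x0) (nat_lit 0x200001800000000000000000000000000000000000000) := D_46 (nat_lit 156) (nat_lit 155) (nat_lit 177) (nat_lit 3) (nat_lit 2) (nat_lit 9) (nat_lit 0) (nat_lit 7) (nat_lit 10) (by decide +kernel)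
theorem L129836 : W_46 (nat_lit 3) (nat_lit 0x1c0004001a000d0000000000000000000000000000000) (nat_lit 0x0) (nat_lit 0x200003800000000000800000000000000000000000000) := T_46 (nat_lit 157) (nat_lit 107) (nat_lit 5) (nat_lit 5) (nat_lit 6) L129835 (by decide +kernel)
theorem L129837 : W_46 (nat_lit 4) (nat_lit 0x180004001a000d0000000000000000000000000000000) (nat_lit 0x0) (nat_lit 0x800240003800000000000800000000000000000000000000) := T_46 (nat_lit 174) (nat_lit 191) (nat_lit 5) (nat_lit 5) (nat_lit 7) L129836 (by decide +kernel)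
theorem L129838 : W_46 (nat_lit 5) (nat_lit 0x80004001a000d0000000000000000000000000000000) (nat_lit 0x0) (nat_lit 0x2800340003800000000000800000000000000000000000000) := T_46 (nat_lit 176) (nat_lit 193) (nat_lit 7) (nat_lit 5) (nat_lit 7) L129837 (by decide +kernel)
theorem L129839 : W_46 (nat_lit 2) (nat_lit 0xc0004001a000d0000800000000000000000000000000) (nat_lit 0x0) (nat_lit 0x8000400020000000000000000000000) := D_46 (nat_lit 106) (nat_lit 89) (nat_lit 123) (nat_lit 4) (nat_lit 5) (nat_lit 9) (nat_lit 4) (nat_lit 5) (nat_lit 10) (by decide +kernel)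
theorem L129840 : W_46 (nat_lit 3) (nat_lit 0xc0004001a000d0000000000000000000000000000000) (nat_lit 0x0) (nat_lit 0x2000000008000c00020000000000000000000000) := T_46 (nat_lit 107) (nat_lit 157) (nat_lit 5) (nat_lit 5) (nat_lit 6) L129839 (by decide +kernel)
theorem L129841 : W_46 (nat_lit 4) (nat_lit 0x80004001a000d0000000000000000000000000000000) (nat_lit 0x0) (nat_lit 0x800040002000000008000c00020000000000000000000000) := T_46 (nat_lit 174) (nat_lit 191) (nat_lit 5) (nat_lit 5) (nat_lit 7) L129840 (by decide +kernel)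
theorem L129842 : W_46 (nat_lit 2) (nat_lit 0x2000080004001a000d8000000000000000000000000000000) (nat_lit 0x0) (nat_lit 0x40001000000000000100000000000000000000000000000000000) := D_46 (nat_lit 192) (nat_lit 140) (nat_lit 210) (nat_lit 4) (nat_lit 5) (nat_lit 11) (nat_lit 7) (nat_lit 5) (nat_lit 8) (by decide +kernel)
theorem L129843 : W_46 (nat_lit 3) (nat_lit 0x80004001a000d8000000000000000000000000000000) (nat_lit 0x0) (nat_lit 0x40003000100000000100000000000000000000000000000000000) := T_46 (nat_lit 193) (nat_lit 176) (nat_lit 7) (nat_lit 5) (nat_lit 7) L129842 (by decide +kernel)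
theorem L129844 : W_46 (nat_lit 4) (nat_lit 0x80004001a000d0000000000000000000000000000000) (nat_lit 0x0) (nat_lit 0x40003000100000000100008000400000000000000000000000000) := T_46 (nat_lit 123) (nat_lit 106) (nat_lit 4) (nat_lit 5) (nat_lit 10) L129843 (by decide +kernel)
theorem L129845 : W_46 (nat_lit 8) (nat_lit 0x4001a000d0000000000000000000000000000000) (nat_lit 0x0) (nat_lit 0xc000700038003c0003800100008000c00020000000000000000000000) := Q_46 (nat_lit 175) (C_46 L129838 (C_46 L129825 (C_46 L129793 (C_46 L129841 (C_46 L129844 N_46))))) (by decide +kernel)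
theorem L129846 : W_46 (nat_lit 2) (nat_lit 0x80004001a000d0000800000000000000000000000000) (nat_lit 0x0) (nat_lit 0x8000400020000000000000000000000) := D_46 (nat_lit 106) (nat_lit 123) (nat_lit 89) (nat_lit 4) (nat_lit 5) (nat_lit 10) (nat_lit 4) (nat_lit 5) (nat_lit 9) (by decide +kernel)
theorem L129847 : W_46 (nat_lit 2) (nat_lit 0x80006001a000d0000800040000000000000000000000) (nat_lit 0x0) (nat_lit 0x400020001000000000000000000) := D_46 (nat_lit 89) (nat_lit 72) (nat_lit 106) (nat_lit 4) (nat_lit 5) (nat_lit 8) (nat_lit 4) (nat_lit 5) (nat_lit 9) (by decide +kernel)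
theorem L129848 : W_46 (nat_lit 3) (nat_lit 0x80006001a000d0000800000000000000000000000000) (nat_lit 0x0) (nat_lit 0x100000000400060001000000000000000000) := T_46 (nat_lit 90) (nat_lit 140) (nat_lit 5) (nat_lit 5) (nat_lit 5) L129847 (by decide +kernel)
theorem L129849 : W_46 (nat_lit 4) (nat_lit 0x80004001a000d0000800000000000000000000000000) (nat_lit 0x0) (nat_lit 0x40002000100000000400060001000000000000000000) := T_46 (nat_lit 157) (nat_lit 174) (nat_lit 5) (nat_lit 5) (nat_lit 6) L129848 (by decide +kernel)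
theorem L129850 : W_46 (nat_lit 2) (nat_lit 0x80006001a000d0000800040005000000000000000000) (nat_lit 0x0) (nat_lit 0x2000280000000000000) := D_46 (nat_lit 73) (nat_lit 55) (nat_lit 57) (nat_lit 4) (nat_lit 5) (nat_lit 7) (nat_lit 6) (nat_lit 5) (nat_lit 7) (by decide +kernel)
theorem L129851 : W_46 (nat_lit 3) (nat_lit 0x80006001a000d0000800040001000000000000000000) (nat_lit 0x0) (nat_lit 0x80006000280000000000000) := T_46 (nat_lit 74) (nat_lit 91) (nat_lit 6) (nat_lit 5) (nat_lit 8) L129850 (by decide +kernel)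
theorem L129852 : W_46 (nat_lit 4) (nat_lit 0x80006001a000d0000800040000000000000000000000) (nat_lit 0x0) (nat_lit 0xa0007000280000000000000) := T_46 (nat_lit 72) (nat_lit 89) (nat_lit 4) (nat_lit 5) (nat_lit 8) L129851 (by decide +kernel)
theorem L129853 : W_46 (nat_lit 5) (nat_lit 0x80006001a000d0000800000000000000000000000000) (nat_lit 0x0) (nat_lit 0x1000000000000e0007000280000000000000) := T_46 (nat_lit 90) (nat_lit 140) (nat_lit 5) (nat_lit 5) (nat_lit 5) L129852 (by decide +kernel)
theorem L129854 : W_46 (nat_lit 6) (nat_lit 0x80004001a000d0000800000000000000000000000000) (nat_lit 0x0) (nat_lit 0x400020001000000000000e0007000280000000000000) := T_46 (nat_lit 157) (nat_lit 174) (nat_lit 5) (nat_lit 5) (nat_lit 6) L129853 (by decide +kernel)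
theorem L129855 : W_46 (nat_lit 2) (nat_lit 0x80006001b000d0000800000000000000000000000000) (nat_lit 0x0) (nat_lit 0x1000000000000000008000400000000000000000000000000) := D_46 (nat_lit 123) (nat_lit 106) (nat_lit 192) (nat_lit 7) (nat_lit 4) (nat_lit 6) (nat_lit 4) (nat_lit 5) (nat_lit 11) (by decide +kernel)
theorem L129856 : W_46 (nat_lit 3) (nat_lit 0x80006001a000d0000800000000000000000000000000) (nat_lit 0x0) (nat_lit 0x1000000000000100008000400040000000000000000000000) := T_46 (nat_lit 140) (nat_lit 90) (nat_lit 5) (nat_lit 5) (nat_lit 5) L129855 (by decide +kernel)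
theorem L129857 : W_46 (nat_lit 4) (nat_lit 0x80004001a000d0000800000000000000000000000000) (nat_lit 0x0) (nat_lit 0x1000040002000100008000400040000000000000000000000) := T_46 (nat_lit 157) (nat_lit 174) (nat_lit 5) (nat_lit 5) (nat_lit 6) L129856 (by decide +kernel)
theorem L129858 : W_46 (nat_lit 7) (nat_lit 0x80004001a000d0000000000000000000000000000000) (nat_lit 0x0) (nat_lit 0x1000040002000100008000c000e0007000280000000000000) := Q_46 (nat_lit 107) (C_46 L129846 (C_46 L129849 (C_46 L129854 (C_46 L129857 N_46)))) (by decide +kernel)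
theorem L129859 : W_46 (nat_lit 2) (nat_lit 0x2000600010000c0004001a000d8000000000000000000000000000000) (nat_lit 0x0) (nat_lit 0x4000400000000000000002000000000000000000000000000000000000000) := D_46 (nat_lit 226) (nat_lit 157) (nat_lit 242) (nat_lit 4) (nat_lit 5) (nat_lit 13) (nat_lit 5) (nat_lit 5) (nat_lit 10) (by decide +kernel)
theorem L129860 : W_46 (nat_lit 3) (nat_lit 0x600010000c0004001a000d8000000000000000000000000000000) (nat_lit 0x0) (nat_lit 0x4000600010000000000002000000000000000000000000000000000000000) := T_46 (nat_lit 225) (nat_lit 208) (nat_lit 5) (nat_lit 5) (nat_lit 9) L129859 (by decide +kernel)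
theorem L129861 : W_46 (nat_lit 4) (nat_lit 0x400010000c0004001a000d8000000000000000000000000000000) (nat_lit 0x0) (nat_lit 0x4000e00030000000000002000000000000000000000000000000000000000) := T_46 (nat_lit 209) (nat_lit 227) (nat_lit 7) (nat_lit 5) (nat_lit 9) L129860 (by decide +kernel)
theorem L129862 : W_46 (nat_lit 5) (nat_lit 0x10000c0004001a000d8000000000000000000000000000000) (nat_lit 0x0) (nat_lit 0x4000e00070002000000002000000000000000000000000000000000000000) := T_46 (nat_lit 210) (nat_lit 193) (nat_lit 7) (nat_lit 5) (nat_lit 8) L129861 (by decide +kernel)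
theorem L129863 : W_46 (nat_lit 6) (nat_lit 0xc0004001a000d8000000000000000000000000000000) (nat_lit 0x0) (nat_lit 0x4000e00070003000000002000100000000000000000000000000000000000) := T_46 (nat_lit 192) (nat_lit 140) (nat_lit 4) (nat_lit 5) (nat_lit 11) L129862 (by decide +kernel)
theorem L129864 : W_46 (nat_lit 7) (nat_lit 0x80004001a000d8000000000000000000000000000000) (nat_lit 0x0) (nat_lit 0x4000e00070003800040002000100000000000000000000000000000000000) := T_46 (nat_lit 174) (nat_lit 191) (nat_lit 5) (nat_lit 5) (nat_lit 7) L129863 (by decide +kernel)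
theorem L129865 : W_46 (nat_lit 8) (nat_lit 0x80004001a000d0000000000000000000000000000000) (nat_lit 0x0) (nat_lit 0x4000e00070003800040002000100008000400000000000000000000000000) := T_46 (nat_lit 123) (nat_lit 106) (nat_lit 4) (nat_lit 5) (nat_lit 10) L129864 (by decide +kernel)
theorem L129866 : W_46 (nat_lit 2) (nat_lit 0x1000080004001a000d0000000000000000000000000000000) (nat_lit 0x0) (nat_lit 0x10000800040000000000000000000000000000000000000000000) := D_46 (nat_lit 191) (nat_lit 174) (nat_lit 208) (nat_lit 5) (nat_lit 5) (nat_lit 7) (nat_lit 5) (nat_lit 5) (nat_lit 8) (by decide +kernel)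
theorem L129867 : W_46 (nat_lit 2) (nat_lit 0x30003000080016001a000d0000000000000000000000000000000) (nat_lit 0x0) (nat_lit 0xc000200000000000000000000000000000000000000000000) := D_46 (nat_lit 194) (nat_lit 195) (nat_lit 177) (nat_lit 1) (nat_lit 8) (nat_lit 11) (nat_lit 6) (nat_lit 7) (nat_lit 11) (by decide +kernel)
theorem L129868 : W_46 (nat_lit 3) (nat_lit 0x30003000080006001a000d0000000000000000000000000000000) (nat_lit 0x0) (nat_lit 0xc000200018000000000000000000000000000000000000000) := T_46 (nat_lit 160) (nat_lit 159) (nat_lit 2) (nat_lit 4) (nat_lit 9) L129867 (by decide +kernel)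
theorem L129869 : W_46 (nat_lit 4) (nat_lit 0x30003000080004001a000d0000000000000000000000000000000) (nat_lit 0x0) (nat_lit 0xc00020001a000100000000000000000000000000000000000) := T_46 (nat_lit 157) (nat_lit 140) (nat_lit 4) (nat_lit 5) (nat_lit 12) L129868 (by decide +kernel)
theorem L129870 : W_46 (nat_lit 5) (nat_lit 0x10003000080004001a000d0000000000000000000000000000000) (nat_lit 0x0) (nat_lit 0x20002000c00020001a000100000000000000000000000000000000000) := T_46 (nat_lit 209) (nat_lit 225) (nat_lit 5) (nat_lit 5) (nat_lit 9) L129869 (by decide +kernel)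
theorem L129871 : W_46 (nat_lit 6) (nat_lit 0x3000080004001a000d0000000000000000000000000000000) (nat_lit 0x0) (nat_lit 0x20003000c80020001a000100000000000000000000000000000000000) := T_46 (nat_lit 208) (nat_lit 191) (nat_lit 5) (nat_lit 5) (nat_lit 8) L129870 (by decide +kernel)
theorem L129872 : W_46 (nat_lit 7) (nat_lit 0x1000080004001a000d0000000000000000000000000000000) (nat_lit 0x0) (nat_lit 0x20007000e80020001a000100000000000000000000000000000000000) := T_46 (nat_lit 193) (nat_lit 210) (nat_lit 7) (nat_lit 5) (nat_lit 8) L129871 (by decide +kernel)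
theorem L129873 : W_46 (nat_lit 2) (nat_lit 0x70001000080006001a000d0000000000000000000000000000000) (nat_lit 0x0) (nat_lit 0x400000000000040000000000000000800000000000000000000000000) := D_46 (nat_lit 174) (nat_lit 226) (nat_lit 107) (nat_lit 4) (nat_lit 5) (nat_lit 13) (nat_lit 5) (nat_lit 5) (nat_lit 6) (by decide +kernel)
theorem L129874 : W_46 (nat_lit 3) (nat_lit 0x70001000080004001a000d0000000000000000000000000000000) (nat_lit 0x0) (nat_lit 0x400000000000040002000100000000800000000000000000000000000) := T_46 (nat_lit 157) (nat_lit 140) (nat_lit 4) (nat_lit 5) (nat_lit 12) L129873 (by decide +kernel)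
theorem L129875 : W_46 (nat_lit 4) (nat_lit 0x60001000080004001a000d0000000000000000000000000000000) (nat_lit 0x0) (nat_lit 0x600010000000040002000100000000800000000000000000000000000) := T_46 (nat_lit 208) (nat_lit 225) (nat_lit 5) (nat_lit 5) (nat_lit 9) L129874 (by decide +kernel)
theorem L129876 : W_46 (nat_lit 5) (nat_lit 0x40001000080004001a000d0000000000000000000000000000000) (nat_lit 0x0) (nat_lit 0xe00030000000040002000100000000800000000000000000000000000) := T_46 (nat_lit 209) (nat_lit 227) (nat_lit 7) (nat_lit 5) (nat_lit 9) L129875 (by decide +kernel)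
theorem L129877 : W_46 (nat_lit 6) (nat_lit 0x1000080004001a000d0000000000000000000000000000000) (nat_lit 0x0) (nat_lit 0xe00070002000040002000100000000800000000000000000000000000) := T_46 (nat_lit 210) (nat_lit 193) (nat_lit 7) (nat_lit 5) (nat_lit 8) L129876 (by decide +kernel)
theorem L129878 : W_46 (nat_lit 2) (nat_lit 0x30000c0006001a000d0000000000000000000000000000000) (nat_lit 0x0) (nat_lit 0x400020000000000000000100000000000000000000000000000000000) := D_46 (nat_lit 209) (nat_lit 226) (nat_lit 140) (nat_lit 4) (nat_lit 5) (nat_lit 13) (nat_lit 4) (nat_lit 5) (nat_lit 12) (by decide +kernel)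
theorem L129879 : W_46 (nat_lit 3) (nat_lit 0x30000c0004001a000d0000000000000000000000000000000) (nat_lit 0x0) (nat_lit 0x400020000000000002000100000000800000000000000000000000000) := T_46 (nat_lit 157) (nat_lit 107) (nat_lit 5) (nat_lit 5) (nat_lit 6) L129878 (by decide +kernel)
theorem L129880 : W_46 (nat_lit 4) (nat_lit 0x3000080004001a000d0000000000000000000000000000000) (nat_lit 0x0) (nat_lit 0x400020000800040002000100000000800000000000000000000000000) := T_46 (nat_lit 174) (nat_lit 191) (nat_lit 5) (nat_lit 5) (nat_lit 7) L129879 (by decide +kernel)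
theorem L129881 : W_46 (nat_lit 5) (nat_lit 0x1000080004001a000d0000000000000000000000000000000) (nat_lit 0x0) (nat_lit 0x400060002800040002000100000000800000000000000000000000000) := T_46 (nat_lit 193) (nat_lit 210) (nat_lit 7) (nat_lit 5) (nat_lit 8) L129880 (by decide +kernel)
theorem L129882 : W_46 (nat_lit 8) (nat_lit 0x80004001a000d0000000000000000000000000000000) (nat_lit 0x0) (nat_lit 0xe0007000f80024001a000100000000800000000000000000000000000) := Q_46 (nat_lit 192) (C_46 L129866 (C_46 L129872 (C_46 L129877 (C_46 L129881 N_46)))) (by decide +kernel)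
theorem L129883 : W_46 (nat_lit 2) (nat_lit 0x800080004001a000d8000000000000000000000000000000) (nat_lit 0x0) (nat_lit 0x10001000000000000100000000000000000000000000000000000) := D_46 (nat_lit 192) (nat_lit 208) (nat_lit 140) (nat_lit 5) (nat_lit 5) (nat_lit 8) (nat_lit 4) (nat_lit 5) (nat_lit 11) (by decide +kernel)
theorem L129884 : W_46 (nat_lit 3) (nat_lit 0x800080004001a000d0000000000000000000000000000000) (nat_lit 0x0) (nat_lit 0x10001000000000000100008000400000000000000000000000000) := T_46 (nat_lit 123) (nat_lit 106) (nat_lit 4) (nat_lit 5) (nat_lit 10) L129883 (by decide +kernel)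
theorem L129885 : W_46 (nat_lit 4) (nat_lit 0x80004001a000d0000000000000000000000000000000) (nat_lit 0x0) (nat_lit 0x10001800040000000100008000400000000000000000000000000) := T_46 (nat_lit 191) (nat_lit 174) (nat_lit 5) (nat_lit 5) (nat_lit 7) L129884 (by decide +kernel)
theorem L129886 : W_46 (nat_lit 2) (nat_lit 0x50001000080004001a000d8000000000000000000000000000000) (nat_lit 0x0) (nat_lit 0xa00020000000000000000000000000000000000000000000000000000) := D_46 (nat_lit 209) (nat_lit 225) (nat_lit 227) (nat_lit 5) (nat_lit 5) (nat_lit 9) (nat_lit 7) (nat_lit 5) (nat_lit 9) (by decide +kernel)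
theorem L129887 : W_46 (nat_lit 3) (nat_lit 0x10001000080004001a000d8000000000000000000000000000000) (nat_lit 0x0) (nat_lit 0xa00060002000000000000000000000000000000000000000000000000) := T_46 (nat_lit 210) (nat_lit 193) (nat_lit 7) (nat_lit 5) (nat_lit 8) L129886 (by decide +kernel)
theorem L129888 : W_46 (nat_lit 4) (nat_lit 0x1000080004001a000d8000000000000000000000000000000) (nat_lit 0x0) (nat_lit 0xa00070002800000000000000000000000000000000000000000000000) := T_46 (nat_lit 208) (nat_lit 191) (nat_lit 5) (nat_lit 5) (nat_lit 8) L129887 (by decide +kernel)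
theorem L129889 : W_46 (nat_lit 5) (nat_lit 0x80004001a000d8000000000000000000000000000000) (nat_lit 0x0) (nat_lit 0xa00070003800000000000100000000000000000000000000000000000) := T_46 (nat_lit 192) (nat_lit 140) (nat_lit 4) (nat_lit 5) (nat_lit 11) L129888 (by decide +kernel)
theorem L129890 : W_46 (nat_lit 6) (nat_lit 0x80004001a000d0000000000000000000000000000000) (nat_lit 0x0) (nat_lit 0xa00070003800000000000100008000400000000000000000000000000) := T_46 (nat_lit 123) (nat_lit 106) (nat_lit 4) (nat_lit 5) (nat_lit 10) L129889 (by decide +kernel)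
theorem L129891 : W_46 (nat_lit 9) (nat_lit 0x4001a000d0000000000000000000000000000000) (nat_lit 0x0) (nat_lit 0x4000e0007000f8002c001a000100008000c000e0007000280000000000000) := Q_46 (nat_lit 175) (C_46 L129858 (C_46 L129865 (C_46 L129841 (C_46 L129882 (C_46 L129885 (C_46 L129890 N_46)))))) (by decide +kernel)
theorem L129892 : W_46 (nat_lit 2) (nat_lit 0x18000e001a000d8000000000000000000000000000000) (nat_lit 0x0) (nat_lit 0x200001800000000000000000000000000000000000000) := D_46 (nat_lit 156) (nat_lit 177) (nat_lit 155) (nat_lit 3) (nat_lit 3) (nat_lit 9) (nat_lit 3) (nat_lit 2) (nat_lit 9) (by decide +kernel)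
theorem L129893 : W_46 (nat_lit 3) (nat_lit 0x8000e001a000d8000000000000000000000000000000) (nat_lit 0x0) (nat_lit 0x2000300001800000000000000000000000000000000000000) := T_46 (nat_lit 176) (nat_lit 193) (nat_lit 7) (nat_lit 5) (nat_lit 7) L129892 (by decide +kernel)
theorem L129894 : W_46 (nat_lit 4) (nat_lit 0x80006001a000d8000000000000000000000000000000) (nat_lit 0x0) (nat_lit 0x2000300019800000000000000000000000000000000000000) := T_46 (nat_lit 159) (nat_lit 160) (nat_lit 2) (nat_lit 4) (nat_lit 9) L129893 (by decide +kernel)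
theorem L129895 : W_46 (nat_lit 5) (nat_lit 0x80006001a000d0000000000000000000000000000000) (nat_lit 0x0) (nat_lit 0x2000300019800000008000400000000000000000000000000) := T_46 (nat_lit 123) (nat_lit 106) (nat_lit 4) (nat_lit 5) (nat_lit 10) L129894 (by decide +kernel)
theorem L129896 : W_46 (nat_lit 2) (nat_lit 0x1c0006001a000d8000000000000000000000000000000) (nat_lit 0x0) (nat_lit 0x200001800000000000000000000000000000000000000) := D_46 (nat_lit 156) (nat_lit 155) (nat_lit 177) (nat_lit 3) (nat_lit 2) (nat_lit 9) (nat_lit 0) (nat_lit 7) (nat_lit 10) (by decide +kernel)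
theorem L129897 : W_46 (nat_lit 3) (nat_lit 0xc0006001a000d8000000000000000000000000000000) (nat_lit 0x0) (nat_lit 0x2000300001800000000000000000000000000000000000000) := T_46 (nat_lit 176) (nat_lit 193) (nat_lit 7) (nat_lit 5) (nat_lit 7) L129896 (by decide +kernel)
theorem L129898 : W_46 (nat_lit 4) (nat_lit 0xc0006001a000d0000000000000000000000000000000) (nat_lit 0x0) (nat_lit 0x2000300001800000008000400000000000000000000000000) := T_46 (nat_lit 123) (nat_lit 106) (nat_lit 4) (nat_lit 5) (nat_lit 10) L129897 (by decide +kernel)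
theorem L129899 : W_46 (nat_lit 5) (nat_lit 0x80006001a000d0000000000000000000000000000000) (nat_lit 0x0) (nat_lit 0x2800340001800000008000400000000000000000000000000) := T_46 (nat_lit 174) (nat_lit 191) (nat_lit 5) (nat_lit 5) (nat_lit 7) L129898 (by decide +kernel)
theorem L129900 : W_46 (nat_lit 2) (nat_lit 0x1e000e801a000d8000000000000000000000000000000) (nat_lit 0x0) (nat_lit 0x600000000000100000000000000000000000000000000000) := D_46 (nat_lit 190) (nat_lit 189) (nat_lit 140) (nat_lit 1) (nat_lit 6) (nat_lit 10) (nat_lit 5) (nat_lit 4) (nat_lit 7) (by decide +kernel)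
theorem L129901 : W_46 (nat_lit 3) (nat_lit 0x1e000e801a000d0000000000000000000000000000000) (nat_lit 0x0) (nat_lit 0x600000000000100008000400000000000000000000000000) := T_46 (nat_lit 123) (nat_lit 106) (nat_lit 4) (nat_lit 5) (nat_lit 10) L129900 (by decide +kernel)
theorem L129902 : W_46 (nat_lit 4) (nat_lit 0x1c000e801a000d0000000000000000000000000000000) (nat_lit 0x0) (nat_lit 0x600030000000100008000400000000000000000000000000) := T_46 (nat_lit 173) (nat_lit 172) (nat_lit 2) (nat_lit 2) (nat_lit 10) L129901 (by decide +kernel)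
theorem L129903 : W_46 (nat_lit 5) (nat_lit 0x18000e801a000d0000000000000000000000000000000) (nat_lit 0x0) (nat_lit 0xe00070000000100008000400000000000000000000000000) := T_46 (nat_lit 174) (nat_lit 191) (nat_lit 5) (nat_lit 5) (nat_lit 7) L129902 (by decide +kernel)
theorem L129904 : W_46 (nat_lit 6) (nat_lit 0x180006801a000d0000000000000000000000000000000) (nat_lit 0x0) (nat_lit 0xe00070018000100008000400000000000000000000000000) := T_46 (nat_lit 159) (nat_lit 160) (nat_lit 2) (nat_lit 4) (nat_lit 9) L129903 (by decide +kernel)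
theorem L129905 : W_46 (nat_lit 7) (nat_lit 0x180006001a000d0000000000000000000000000000000) (nat_lit 0x0) (nat_lit 0xe00070019800100008000400000000000000000000000000) := T_46 (nat_lit 155) (nat_lit 156) (nat_lit 3) (nat_lit 2) (nat_lit 9) L129904 (by decide +kernel)
theorem L129906 : W_46 (nat_lit 8) (nat_lit 0x80006001a000d0000000000000000000000000000000) (nat_lit 0x0) (nat_lit 0x2e00170019800100008000400000000000000000000000000) := T_46 (nat_lit 176) (nat_lit 193) (nat_lit 7) (nat_lit 5) (nat_lit 7) L129905 (by decide +kernel)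
theorem L129907 : W_46 (nat_lit 2) (nat_lit 0xe000e001b000de000000000000000000000000000000) (nat_lit 0x0) (nat_lit 0xe0000000000000000000000000000000000) := D_46 (nat_lit 138) (nat_lit 139) (nat_lit 137) (nat_lit 3) (nat_lit 2) (nat_lit 8) (nat_lit 1) (nat_lit 5) (nat_lit 7) (by decide +kernel)
theorem L129908 : W_46 (nat_lit 3) (nat_lit 0xe000e001b000dc000000000000000000000000000000) (nat_lit 0x0) (nat_lit 0xe0003000000000000000000000000000000) := T_46 (nat_lit 121) (nat_lit 120) (nat_lit 3) (nat_lit 1) (nat_lit 7) L129907 (by decide +kernel)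
theorem L129909 : W_46 (nat_lit 4) (nat_lit 0xe000e001b000d8000000000000000000000000000000) (nat_lit 0x0) (nat_lit 0xe0007000200000000000000000000000000) := T_46 (nat_lit 122) (nat_lit 105) (nat_lit 4) (nat_lit 4) (nat_lit 10) L129908 (by decide +kernel)
theorem L129910 : W_46 (nat_lit 5) (nat_lit 0xe000e001a000d8000000000000000000000000000000) (nat_lit 0x0) (nat_lit 0x4000000000001e0007000200000000000000000000000000) := T_46 (nat_lit 140) (nat_lit 190) (nat_lit 5) (nat_lit 4) (nat_lit 7) L129909 (by decide +kernel)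
theorem L129911 : W_46 (nat_lit 6) (nat_lit 0xc000e001a000d8000000000000000000000000000000) (nat_lit 0x0) (nat_lit 0x4000300000001e0007000200000000000000000000000000) := T_46 (nat_lit 173) (nat_lit 172) (nat_lit 2) (nat_lit 2) (nat_lit 10) L129910 (by decide +kernel)
theorem L129912 : W_46 (nat_lit 7) (nat_lit 0x8000e001a000d8000000000000000000000000000000) (nat_lit 0x0) (nat_lit 0xc000700000001e0007000200000000000000000000000000) := T_46 (nat_lit 174) (nat_lit 191) (nat_lit 5) (nat_lit 5) (nat_lit 7) L129911 (by decide +kernel)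
theorem L129913 : W_46 (nat_lit 8) (nat_lit 0x80006001a000d8000000000000000000000000000000) (nat_lit 0x0) (nat_lit 0xc000700180001e0007000200000000000000000000000000) := T_46 (nat_lit 159) (nat_lit 160) (nat_lit 2) (nat_lit 4) (nat_lit 9) L129912 (by decide +kernel)
theorem L129914 : W_46 (nat_lit 9) (nat_lit 0x80006001a000d0000000000000000000000000000000) (nat_lit 0x0) (nat_lit 0xc000700180001e000f000600000000000000000000000000) := T_46 (nat_lit 123) (nat_lit 106) (nat_lit 4) (nat_lit 5) (nat_lit 10) L129913 (by decide +kernel)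
theorem L129915 : W_46 (nat_lit 3) (nat_lit 0xc0006001a000d0000000000000000000000000000000) (nat_lit 0x0) (nat_lit 0x2000300001800000000000000000000000000000000000000) := T_46 (nat_lit 176) (nat_lit 193) (nat_lit 7) (nat_lit 5) (nat_lit 7) L129835 (by decide +kernel)
theorem L129916 : W_46 (nat_lit 4) (nat_lit 0x80006001a000d0000000000000000000000000000000) (nat_lit 0x0) (nat_lit 0x2800340001800000000000000000000000000000000000000) := T_46 (nat_lit 174) (nat_lit 191) (nat_lit 5) (nat_lit 5) (nat_lit 7) L129915 (by decide +kernel)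
theorem L129917 : W_46 (nat_lit 10) (nat_lit 0x80004001a000d0000000000000000000000000000000) (nat_lit 0x0) (nat_lit 0x2e0037001b8001e000f000600000000000000000000000000) := Q_46 (nat_lit 157) (C_46 L129895 (C_46 L129899 (C_46 L129906 (C_46 L129914 (C_46 L129916 N_46))))) (by decide +kernel)
theorem L129918 : W_46 (nat_lit 2) (nat_lit 0x1a00380014001a000d8000000000000000000000000000000) (nat_lit 0x0) (nat_lit 0xa000000000002000000000000000000000000000) := D_46 (nat_lit 159) (nat_lit 109) (nat_lit 157) (nat_lit 5) (nat_lit 7) (nat_lit 6) (nat_lit 2) (nat_lit 4) (nat_lit 9) (by decide +kernel)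
theorem L129919 : W_46 (nat_lit 3) (nat_lit 0x1a00380004001a000d8000000000000000000000000000000) (nat_lit 0x0) (nat_lit 0x400000001a000000000002000000000000000000000000000) := T_46 (nat_lit 160) (nat_lit 194) (nat_lit 6) (nat_lit 7) (nat_lit 11) L129918 (by decide +kernel)
theorem L129920 : W_46 (nat_lit 4) (nat_lit 0x1a00180004001a000d8000000000000000000000000000000) (nat_lit 0x0) (nat_lit 0x400060001a000000000002000000000000000000000000000) := T_46 (nat_lit 177) (nat_lit 178) (nat_lit 1) (nat_lit 8) (nat_lit 10) L129919 (by decide +kernel)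
theorem L129921 : W_46 (nat_lit 5) (nat_lit 0x1800180004001a000d8000000000000000000000000000000) (nat_lit 0x0) (nat_lit 0x460060001a000000000002000000000000000000000000000) := T_46 (nat_lit 189) (nat_lit 190) (nat_lit 2) (nat_lit 2) (nat_lit 11) L129920 (by decide +kernel)
theorem L129922 : W_46 (nat_lit 6) (nat_lit 0x800180004001a000d8000000000000000000000000000000) (nat_lit 0x0) (nat_lit 0x1000560060001a000000000002000000000000000000000000000) := T_46 (nat_lit 192) (nat_lit 208) (nat_lit 5) (nat_lit 5) (nat_lit 8) L129921 (by decide +kernel)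
theorem L129923 : W_46 (nat_lit 7) (nat_lit 0x800080004001a000d8000000000000000000000000000000) (nat_lit 0x0) (nat_lit 0x1000760070001a000000000002000000000000000000000000000) := T_46 (nat_lit 176) (nat_lit 193) (nat_lit 7) (nat_lit 5) (nat_lit 7) L129922 (by decide +kernel)
theorem L129924 : W_46 (nat_lit 8) (nat_lit 0x80004001a000d8000000000000000000000000000000) (nat_lit 0x0) (nat_lit 0x10007e0074001a000000000002000000000000000000000000000) := T_46 (nat_lit 191) (nat_lit 174) (nat_lit 5) (nat_lit 5) (nat_lit 7) L129923 (by decide +kernel)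
theorem L129925 : W_46 (nat_lit 9) (nat_lit 0x80004001a000d0000000000000000000000000000000) (nat_lit 0x0) (nat_lit 0x10007e0074001a000000008002400000000000000000000000000) := T_46 (nat_lit 123) (nat_lit 106) (nat_lit 4) (nat_lit 5) (nat_lit 10) L129924 (by decide +kernel)
theorem L129926 : W_46 (nat_lit 2) (nat_lit 0x70000d0016001a000d0000000000000000000000000000000) (nat_lit 0x0) (nat_lit 0x400020000000000000000100000000000000000000000000000000000) := D_46 (nat_lit 209) (nat_lit 140) (nat_lit 226) (nat_lit 4) (nat_lit 5) (nat_lit 12) (nat_lit 4) (nat_lit 5) (nat_lit 13) (by decide +kernel)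
theorem L129927 : W_46 (nat_lit 3) (nat_lit 0x70000d0014001a000d0000000000000000000000000000000) (nat_lit 0x0) (nat_lit 0x40002000000000000a000100000000000000000000000000000000000) := T_46 (nat_lit 157) (nat_lit 159) (nat_lit 2) (nat_lit 4) (nat_lit 9) L129926 (by decide +kernel)
theorem L129928 : W_46 (nat_lit 4) (nat_lit 0x70000d0004001a000d0000000000000000000000000000000) (nat_lit 0x0) (nat_lit 0x40002000000020001a000100000000000000000000000000000000000) := T_46 (nat_lit 160) (nat_lit 177) (nat_lit 6) (nat_lit 7) (nat_lit 11) L129927 (by decide +kernel)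
theorem L129929 : W_46 (nat_lit 5) (nat_lit 0x30000d0004001a000d0000000000000000000000000000000) (nat_lit 0x0) (nat_lit 0x40002000c00020001a000100000000000000000000000000000000000) := T_46 (nat_lit 194) (nat_lit 195) (nat_lit 0) (nat_lit 8) (nat_lit 11) L129928 (by decide +kernel)
theorem L129930 : W_46 (nat_lit 6) (nat_lit 0x30000c0004001a000d0000000000000000000000000000000) (nat_lit 0x0) (nat_lit 0x40002000c00023001a000100000000000000000000000000000000000) := T_46 (nat_lit 172) (nat_lit 173) (nat_lit 3) (nat_lit 2) (nat_lit 10) L129929 (by decide +kernel)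
theorem L129931 : W_46 (nat_lit 7) (nat_lit 0x20000c0004001a000d0000000000000000000000000000000) (nat_lit 0x0) (nat_lit 0x40006000d00023001a000100000000000000000000000000000000000) := T_46 (nat_lit 192) (nat_lit 210) (nat_lit 7) (nat_lit 5) (nat_lit 8) L129930 (by decide +kernel)
theorem L129932 : W_46 (nat_lit 8) (nat_lit 0xc0004001a000d0000000000000000000000000000000) (nat_lit 0x0) (nat_lit 0x40006000f00033001a000100000000000000000000000000000000000) := T_46 (nat_lit 193) (nat_lit 176) (nat_lit 7) (nat_lit 5) (nat_lit 7) L129931 (by decide +kernel)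
theorem L129933 : W_46 (nat_lit 9) (nat_lit 0x80004001a000d0000000000000000000000000000000) (nat_lit 0x0) (nat_lit 0x40006000f80037001a000100000000000000000000000000000000000) := T_46 (nat_lit 174) (nat_lit 191) (nat_lit 5) (nat_lit 5) (nat_lit 7) L129932 (by decide +kernel)
theorem L129934 : W_46 (nat_lit 11) (nat_lit 0x4001a000d0000000000000000000000000000000) (nat_lit 0x0) (nat_lit 0xe0007000fe007f001b8001e000f002600000000000000000000000000) := Q_46 (nat_lit 175) (C_46 L129890 (C_46 L129917 (C_46 L129925 (C_46 L129933 (C_46 L129885 (C_46 L129844 N_46)))))) (by decide +kernel)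
theorem L129935 : W_46 (nat_lit 2) (nat_lit 0xc001a000d0000c00000000000000000000000000) (nat_lit 0x0) (nat_lit 0x40012000000000000000000000000000000000000000) := D_46 (nat_lit 157) (nat_lit 160) (nat_lit 174) (nat_lit 2) (nat_lit 4) (nat_lit 9) (nat_lit 5) (nat_lit 5) (nat_lit 6) (by decide +kernel)
theorem L129936 : W_46 (nat_lit 3) (nat_lit 0x4001a000d0000c00000000000000000000000000) (nat_lit 0x0) (nat_lit 0x14001a000000000000000000000000000000000000000) := T_46 (nat_lit 159) (nat_lit 176) (nat_lit 7) (nat_lit 5) (nat_lit 6) L129935 (by decide +kernel)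
theorem L129937 : W_46 (nat_lit 4) (nat_lit 0x4001a000d0000800000000000000000000000000) (nat_lit 0x0) (nat_lit 0x14001a000000000000400020000000000000000000000) := T_46 (nat_lit 106) (nat_lit 89) (nat_lit 4) (nat_lit 5) (nat_lit 9) L129936 (by decide +kernel)
theorem L129938 : W_46 (nat_lit 2) (nat_lit 0x6001a000d0000800000000000000000000000000) (nat_lit 0x0) (nat_lit 0x100018000000000000000000000000000000000000000) := D_46 (nat_lit 159) (nat_lit 176) (nat_lit 160) (nat_lit 7) (nat_lit 5) (nat_lit 6) (nat_lit 2) (nat_lit 4) (nat_lit 9) (by decide +kernel)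
theorem L129939 : W_46 (nat_lit 3) (nat_lit 0x4001a000d0000800000000000000000000000000) (nat_lit 0x0) (nat_lit 0x14001a000000000000000000000000000000000000000) := T_46 (nat_lit 157) (nat_lit 174) (nat_lit 5) (nat_lit 5) (nat_lit 6) L129938 (by decide +kernel)
theorem L129940 : W_46 (nat_lit 2) (nat_lit 0x4001a000d0000800040000000000000000000000) (nat_lit 0x0) (nat_lit 0x400020001000000000000000000) := D_46 (nat_lit 89) (nat_lit 106) (nat_lit 72) (nat_lit 4) (nat_lit 5) (nat_lit 9) (nat_lit 4) (nat_lit 5) (nat_lit 8) (by decide +kernel)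
theorem L129941 : W_46 (nat_lit 2) (nat_lit 0xc001a000d8000800040006000100000000000000) (nat_lit 0x0) (nat_lit 0x1000080004000000000) := D_46 (nat_lit 55) (nat_lit 38) (nat_lit 72) (nat_lit 4) (nat_lit 5) (nat_lit 6) (nat_lit 4) (nat_lit 5) (nat_lit 7) (by decide +kernel)
theorem L129942 : W_46 (nat_lit 3) (nat_lit 0xc001a000d8000800040006000000000000000000) (nat_lit 0x0) (nat_lit 0x400000001000180004000000000) := T_46 (nat_lit 56) (nat_lit 106) (nat_lit 5) (nat_lit 5) (nat_lit 3) L129941 (by decide +kernel)
theorem L129943 : W_46 (nat_lit 4) (nat_lit 0xc001a000d0000800040006000000000000000000) (nat_lit 0x0) (nat_lit 0x100008000400000001000180004000000000) := T_46 (nat_lit 123) (nat_lit 140) (nat_lit 5) (nat_lit 5) (nat_lit 4) L129942 (by decide +kernel)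
theorem L129944 : W_46 (nat_lit 5) (nat_lit 0xc001a000d0000800040004000000000000000000) (nat_lit 0x0) (nat_lit 0x100008000400000003000380004000000000) := T_46 (nat_lit 73) (nat_lit 57) (nat_lit 6) (nat_lit 5) (nat_lit 7) L129943 (by decide +kernel)
theorem L129945 : W_46 (nat_lit 6) (nat_lit 0x4001a000d0000800040004000000000000000000) (nat_lit 0x0) (nat_lit 0x100008000100008000400000003000380004000000000) := T_46 (nat_lit 159) (nat_lit 176) (nat_lit 7) (nat_lit 5) (nat_lit 6) L129944 (by decide +kernel)
theorem L129946 : W_46 (nat_lit 7) (nat_lit 0x4001a000d0000800040000000000000000000000) (nat_lit 0x0) (nat_lit 0x100008000100008000400080007000380004000000000) := T_46 (nat_lit 74) (nat_lit 91) (nat_lit 6) (nat_lit 5) (nat_lit 8) L129945 (by decide +kernel)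
theorem L129947 : W_46 (nat_lit 2) (nat_lit 0xc001a000d0000c00040006000000000000000000) (nat_lit 0x0) (nat_lit 0x100008000000000000000100000000000000) := D_46 (nat_lit 123) (nat_lit 140) (nat_lit 56) (nat_lit 5) (nat_lit 5) (nat_lit 4) (nat_lit 5) (nat_lit 5) (nat_lit 3) (by decide +kernel)
theorem L129948 : W_46 (nat_lit 3) (nat_lit 0xc001a000d0000c00040004000000000000000000) (nat_lit 0x0) (nat_lit 0x100008000000000002000300000000000000) := T_46 (nat_lit 73) (nat_lit 57) (nat_lit 6) (nat_lit 5) (nat_lit 7) L129947 (by decide +kernel)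
theorem L129949 : W_46 (nat_lit 4) (nat_lit 0xc001a000d0000c00040000000000000000000000) (nat_lit 0x0) (nat_lit 0x100008000000080006000300000000000000) := T_46 (nat_lit 74) (nat_lit 91) (nat_lit 6) (nat_lit 5) (nat_lit 8) L129948 (by decide +kernel)
theorem L129950 : W_46 (nat_lit 5) (nat_lit 0xc001a000d0000800040000000000000000000000) (nat_lit 0x0) (nat_lit 0x1000080004000a0006000300000000000000) := T_46 (nat_lit 106) (nat_lit 89) (nat_lit 4) (nat_lit 5) (nat_lit 9) L129949 (by decide +kernel)
theorem L129951 : W_46 (nat_lit 6) (nat_lit 0x4001a000d0000800040000000000000000000000) (nat_lit 0x0) (nat_lit 0x1000080001000080004000a0006000300000000000000) := T_46 (nat_lit 159) (nat_lit 176) (nat_lit 7) (nat_lit 5) (nat_lit 6) L129950 (by decide +kernel)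
theorem L129952 : W_46 (nat_lit 8) (nat_lit 0x4001a000d0000800000000000000000000000000) (nat_lit 0x0) (nat_lit 0x1000080001000080004000e0007000380004000000000) := Q_46 (nat_lit 90) (C_46 L122659 (C_46 L129940 (C_46 L129946 (C_46 L129951 N_46)))) (by decide +kernel)
theorem L129953 : W_46 (nat_lit 9) (nat_lit 0x4001a000d0000000000000000000000000000000) (nat_lit 0x0) (nat_lit 0x14001a000100008000c000e0007000380004000000000) := Q_46 (nat_lit 107) (C_46 L122543 (C_46 L129937 (C_46 L129939 (C_46 L129952 N_46)))) (by decide +kernel)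
theorem L129954 : W_46 (nat_lit 2) (nat_lit 0x180004001a000d0000800000000000000000000000000) (nat_lit 0x0) (nat_lit 0x8000400020000000000000000000000) := D_46 (nat_lit 106) (nat_lit 89) (nat_lit 123) (nat_lit 4) (nat_lit 5) (nat_lit 9) (nat_lit 4) (nat_lit 5) (nat_lit 10) (by decide +kernel)
theorem L129955 : W_46 (nat_lit 3) (nat_lit 0x180004001a000d0000000000000000000000000000000) (nat_lit 0x0) (nat_lit 0x8000000008000c00020000000000000000000000) := T_46 (nat_lit 107) (nat_lit 159) (nat_lit 7) (nat_lit 5) (nat_lit 6) L129954 (by decide +kernel)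
theorem L129956 : W_46 (nat_lit 4) (nat_lit 0x80004001a000d0000000000000000000000000000000) (nat_lit 0x0) (nat_lit 0x2000100008000000008000c00020000000000000000000000) := T_46 (nat_lit 176) (nat_lit 193) (nat_lit 7) (nat_lit 5) (nat_lit 7) L129955 (by decide +kernel)
theorem L129957 : W_46 (nat_lit 10) (nat_lit 0x4001a000d0000000000000000000000000000000) (nat_lit 0x0) (nat_lit 0x10007e007c001b800000008002c00020000000000000000000000) := Q_46 (nat_lit 175) (C_46 L129925 (C_46 L129841 (C_46 L129838 (C_46 L129956 N_46)))) (by decide +kernel)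
theorem L129958 : W_46 (nat_lit 2) (nat_lit 0x300016001a000d0000000000000000000000000000000) (nat_lit 0x0) (nat_lit 0x8000480000000000000000000000000000000000000000000) := D_46 (nat_lit 178) (nat_lit 175) (nat_lit 195) (nat_lit 0) (nat_lit 8) (nat_lit 10) (nat_lit 7) (nat_lit 7) (nat_lit 7) (by decide +kernel)
theorem L129959 : W_46 (nat_lit 3) (nat_lit 0x200016001a000d0000000000000000000000000000000) (nat_lit 0x0) (nat_lit 0xa000580000000000000000000000000000000000000000000) := T_46 (nat_lit 176) (nat_lit 193) (nat_lit 5) (nat_lit 7) (nat_lit 7) L129958 (by decide +kernel)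
theorem L129960 : W_46 (nat_lit 4) (nat_lit 0x16001a000d0000000000000000000000000000000) (nat_lit 0x0) (nat_lit 0xe000780000000000000000000000000000000000000000000) := T_46 (nat_lit 177) (nat_lit 194) (nat_lit 6) (nat_lit 7) (nat_lit 11) L129959 (by decide +kernel)
theorem L129961 : W_46 (nat_lit 5) (nat_lit 0x6001a000d0000000000000000000000000000000) (nat_lit 0x0) (nat_lit 0xe000780018000000000000000000000000000000000000000) := T_46 (nat_lit 160) (nat_lit 159) (nat_lit 2) (nat_lit 4) (nat_lit 9) L129960 (by decide +kernel)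
theorem L129962 : W_46 (nat_lit 4) (nat_lit 0x6001a000d0000000000000000000000000000000) (nat_lit 0x0) (nat_lit 0x40000000100000000c00060001000000000000000000) := T_46 (nat_lit 107) (nat_lit 174) (nat_lit 5) (nat_lit 5) (nat_lit 6) L122542 (by decide +kernel)
theorem L129963 : W_46 (nat_lit 6) (nat_lit 0x4001a000d0000000000000000000000000000000) (nat_lit 0x0) (nat_lit 0xe0007c001a000100000000c00060001000000000000000000) := Q_46 (nat_lit 157) (C_46 L129961 (C_46 L129962 N_46)) (by decide +kernel)
theorem L129964 : W_46 (nat_lit 2) (nat_lit 0x6001a000d0000800040005000000000000000000) (nat_lit 0x0) (nat_lit 0x2000280000000000000) := D_46 (nat_lit 73) (nat_lit 55) (nat_lit 57) (nat_lit 4) (nat_lit 5) (nat_lit 7) (nat_lit 6) (nat_lit 5) (nat_lit 7) (by decide +kernel)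
theorem L129965 : W_46 (nat_lit 3) (nat_lit 0x6001a000d0000800040001000000000000000000) (nat_lit 0x0) (nat_lit 0x80006000280000000000000) := T_46 (nat_lit 74) (nat_lit 91) (nat_lit 6) (nat_lit 5) (nat_lit 8) L129964 (by decide +kernel)
theorem L129966 : W_46 (nat_lit 4) (nat_lit 0x6001a000d0000800040000000000000000000000) (nat_lit 0x0) (nat_lit 0xa0007000280000000000000) := T_46 (nat_lit 72) (nat_lit 89) (nat_lit 4) (nat_lit 5) (nat_lit 8) L129965 (by decide +kernel)
theorem L129967 : W_46 (nat_lit 5) (nat_lit 0x6001a000d0000800000000000000000000000000) (nat_lit 0x0) (nat_lit 0x1000000000000e0007000280000000000000) := T_46 (nat_lit 90) (nat_lit 140) (nat_lit 5) (nat_lit 5) (nat_lit 5) L129966 (by decide +kernel)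
theorem L129968 : W_46 (nat_lit 6) (nat_lit 0x6001a000d0000000000000000000000000000000) (nat_lit 0x0) (nat_lit 0x400000001000000008000e0007000280000000000000) := T_46 (nat_lit 107) (nat_lit 174) (nat_lit 5) (nat_lit 5) (nat_lit 6) L129967 (by decide +kernel)
theorem L129969 : W_46 (nat_lit 7) (nat_lit 0x4001a000d0000000000000000000000000000000) (nat_lit 0x0) (nat_lit 0xe0007c001a0001000000008000e0007000280000000000000) := Q_46 (nat_lit 157) (C_46 L129961 (C_46 L129968 N_46)) (by decide +kernel)
theorem L129970 : W_46 (nat_lit 2) (nat_lit 0x1c000c001a000d0000000000000000000000000000000) (nat_lit 0x0) (nat_lit 0x30010000000000000000000000000000000000000000) := D_46 (nat_lit 173) (nat_lit 160) (nat_lit 172) (nat_lit 2) (nat_lit 3) (nat_lit 10) (nat_lit 2) (nat_lit 2) (nat_lit 10) (by decide +kernel)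
theorem L129971 : W_46 (nat_lit 3) (nat_lit 0x18000c001a000d0000000000000000000000000000000) (nat_lit 0x0) (nat_lit 0x800070010000000000000000000000000000000000000000) := T_46 (nat_lit 174) (nat_lit 191) (nat_lit 5) (nat_lit 5) (nat_lit 7) L129970 (by decide +kernel)
theorem L129972 : W_46 (nat_lit 4) (nat_lit 0x180004001a000d0000000000000000000000000000000) (nat_lit 0x0) (nat_lit 0x800070018000000000000800000000000000000000000000) := T_46 (nat_lit 159) (nat_lit 107) (nat_lit 7) (nat_lit 5) (nat_lit 6) L129971 (by decide +kernel)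
theorem L129973 : W_46 (nat_lit 5) (nat_lit 0x80004001a000d0000000000000000000000000000000) (nat_lit 0x0) (nat_lit 0x2800170018000000000000800000000000000000000000000) := T_46 (nat_lit 176) (nat_lit 193) (nat_lit 7) (nat_lit 5) (nat_lit 7) L129972 (by decide +kernel)
theorem L129974 : W_46 (nat_lit 7) (nat_lit 0x4001a000d0000000000000000000000000000000) (nat_lit 0x0) (nat_lit 0xa000700038001f0018000100008000c00020000000000000000000000) := Q_46 (nat_lit 175) (C_46 L129890 (C_46 L129956 (C_46 L129973 (C_46 L129885 N_46)))) (by decide +kernel)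
theorem L129975 : W_46 (nat_lit 4) (nat_lit 0x100004001a000d0000000000000000000000000000000) (nat_lit 0x0) (nat_lit 0x2000080008000000008000c00020000000000000000000000) := T_46 (nat_lit 107) (nat_lit 159) (nat_lit 7) (nat_lit 5) (nat_lit 6) L122601 (by decide +kernel)
theorem L129976 : W_46 (nat_lit 6) (nat_lit 0x1000180004001a000d8000000000000000000000000000000) (nat_lit 0x0) (nat_lit 0x10004e0060001a000000000002000000000000000000000000000) := T_46 (nat_lit 191) (nat_lit 208) (nat_lit 5) (nat_lit 5) (nat_lit 8) L129921 (by decide +kernel)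
theorem L129977 : W_46 (nat_lit 7) (nat_lit 0x180004001a000d8000000000000000000000000000000) (nat_lit 0x0) (nat_lit 0x10005e0060001a000100000002000000000000000000000000000) := T_46 (nat_lit 192) (nat_lit 140) (nat_lit 4) (nat_lit 5) (nat_lit 11) L129976 (by decide +kernel)
theorem L129978 : W_46 (nat_lit 8) (nat_lit 0x180004001a000d0000000000000000000000000000000) (nat_lit 0x0) (nat_lit 0x10005e0060001a000100008002400000000000000000000000000) := T_46 (nat_lit 123) (nat_lit 106) (nat_lit 4) (nat_lit 5) (nat_lit 10) L129977 (by decide +kernel)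
theorem L129979 : W_46 (nat_lit 9) (nat_lit 0x100004001a000d0000000000000000000000000000000) (nat_lit 0x0) (nat_lit 0x10007e0068001a000100008002400000000000000000000000000) := T_46 (nat_lit 175) (nat_lit 193) (nat_lit 7) (nat_lit 5) (nat_lit 7) L129978 (by decide +kernel)
theorem L129980 : W_46 (nat_lit 2) (nat_lit 0x300004001a000d0000000000000000000000000000000) (nat_lit 0x0) (nat_lit 0x2000080010000000000000000000000000000000000000000) := D_46 (nat_lit 193) (nat_lit 175) (nat_lit 160) (nat_lit 7) (nat_lit 5) (nat_lit 7) (nat_lit 5) (nat_lit 7) (nat_lit 7) (by decide +kernel)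
theorem L129981 : W_46 (nat_lit 2) (nat_lit 0x780004001a000d8000000000000000000000000000000) (nat_lit 0x0) (nat_lit 0x1800000000000100000000000000000000000000000000000) := D_46 (nat_lit 192) (nat_lit 140) (nat_lit 191) (nat_lit 4) (nat_lit 5) (nat_lit 11) (nat_lit 1) (nat_lit 8) (nat_lit 10) (by decide +kernel)
theorem L129982 : W_46 (nat_lit 3) (nat_lit 0x380004001a000d8000000000000000000000000000000) (nat_lit 0x0) (nat_lit 0x1800400002000100000000000000000000000000000000000) := T_46 (nat_lit 178) (nat_lit 157) (nat_lit 0) (nat_lit 8) (nat_lit 10) L129981 (by decide +kernel)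
theorem L129983 : W_46 (nat_lit 4) (nat_lit 0x380004001a000d0000000000000000000000000000000) (nat_lit 0x0) (nat_lit 0x1800400002000100008000400000000000000000000000000) := T_46 (nat_lit 123) (nat_lit 106) (nat_lit 4) (nat_lit 5) (nat_lit 10) L129982 (by decide +kernel)
theorem L129984 : W_46 (nat_lit 5) (nat_lit 0x300004001a000d0000000000000000000000000000000) (nat_lit 0x0) (nat_lit 0x3800480002000100008000400000000000000000000000000) := T_46 (nat_lit 175) (nat_lit 193) (nat_lit 7) (nat_lit 5) (nat_lit 7) L129983 (by decide +kernel)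
theorem L129985 : W_46 (nat_lit 2) (nat_lit 0x300004001a000d0000000000000000000000000000000) (nat_lit 0x0) (nat_lit 0x6000000010000000000000000000000000000000000000000) := D_46 (nat_lit 160) (nat_lit 194) (nat_lit 193) (nat_lit 6) (nat_lit 7) (nat_lit 11) (nat_lit 5) (nat_lit 7) (nat_lit 7) (by decide +kernel)
theorem L129986 : W_46 (nat_lit 2) (nat_lit 0x1000780014001a000d0000000000000000000000000000000) (nat_lit 0x0) (nat_lit 0x100008000400000000000000000000000000) := D_46 (nat_lit 123) (nat_lit 106) (nat_lit 140) (nat_lit 4) (nat_lit 5) (nat_lit 10) (nat_lit 4) (nat_lit 5) (nat_lit 11) (by decide +kernel)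
theorem L129987 : W_46 (nat_lit 3) (nat_lit 0x780014001a000d0000000000000000000000000000000) (nat_lit 0x0) (nat_lit 0x1800000000000100008000400000000000000000000000000) := T_46 (nat_lit 192) (nat_lit 191) (nat_lit 1) (nat_lit 8) (nat_lit 10) L129986 (by decide +kernel)
theorem L129988 : W_46 (nat_lit 4) (nat_lit 0x700014001a000d0000000000000000000000000000000) (nat_lit 0x0) (nat_lit 0x1800080002000100008000400000000000000000000000000) := T_46 (nat_lit 175) (nat_lit 157) (nat_lit 0) (nat_lit 8) (nat_lit 10) L129987 (by decide +kernel)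
theorem L129989 : W_46 (nat_lit 5) (nat_lit 0x300014001a000d0000000000000000000000000000000) (nat_lit 0x0) (nat_lit 0x9800480002000100008000400000000000000000000000000) := T_46 (nat_lit 178) (nat_lit 195) (nat_lit 7) (nat_lit 7) (nat_lit 7) L129988 (by decide +kernel)
theorem L129990 : W_46 (nat_lit 6) (nat_lit 0x300004001a000d0000000000000000000000000000000) (nat_lit 0x0) (nat_lit 0xd800480012000100008000400000000000000000000000000) := T_46 (nat_lit 160) (nat_lit 194) (nat_lit 6) (nat_lit 7) (nat_lit 11) L129989 (by decide +kernel)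
theorem L129991 : W_46 (nat_lit 7) (nat_lit 0x100004001a000d0000000000000000000000000000000) (nat_lit 0x0) (nat_lit 0xf800680012000100008000400000000000000000000000000) := Q_46 (nat_lit 177) (C_46 L129980 (C_46 L129984 (C_46 L129985 (C_46 L129990 N_46)))) (by decide +kernel)
theorem L129992 : W_46 (nat_lit 2) (nat_lit 0x100004001b000d0000800060002000000000000000000) (nat_lit 0x0) (nat_lit 0x80004000200000000000000) := D_46 (nat_lit 74) (nat_lit 91) (nat_lit 57) (nat_lit 6) (nat_lit 5) (nat_lit 8) (nat_lit 6) (nat_lit 5) (nat_lit 7) (by decide +kernel)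
theorem L129993 : W_46 (nat_lit 3) (nat_lit 0x100004001b000d0000800060000000000000000000000) (nat_lit 0x0) (nat_lit 0x8000000080006000200000000000000) := T_46 (nat_lit 73) (nat_lit 123) (nat_lit 5) (nat_lit 5) (nat_lit 4) L129992 (by decide +kernel)
theorem L129994 : W_46 (nat_lit 4) (nat_lit 0x100004001a000d0000800060000000000000000000000) (nat_lit 0x0) (nat_lit 0x2000100008000000080006000200000000000000) := T_46 (nat_lit 140) (nat_lit 157) (nat_lit 5) (nat_lit 5) (nat_lit 5) L129993 (by decide +kernel)
theorem L129995 : W_46 (nat_lit 5) (nat_lit 0x100004001a000d0000800020000000000000000000000) (nat_lit 0x0) (nat_lit 0x20001000080000000c0007000200000000000000) := T_46 (nat_lit 90) (nat_lit 72) (nat_lit 4) (nat_lit 5) (nat_lit 8) L129994 (by decide +kernel)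
theorem L129996 : W_46 (nat_lit 6) (nat_lit 0x100004001a000d0000800000000000000000000000000) (nat_lit 0x0) (nat_lit 0x20001000080004000e0007000200000000000000) := T_46 (nat_lit 89) (nat_lit 106) (nat_lit 4) (nat_lit 5) (nat_lit 9) L129995 (by decide +kernel)
theorem L129997 : W_46 (nat_lit 7) (nat_lit 0x100004001a000d0000000000000000000000000000000) (nat_lit 0x0) (nat_lit 0xa000100008000c000e0007000200000000000000) := T_46 (nat_lit 107) (nat_lit 159) (nat_lit 7) (nat_lit 5) (nat_lit 6) L129996 (by decide +kernel)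
theorem L129998 : W_46 (nat_lit 2) (nat_lit 0x10000c001a000d0000000000000000000000000000000) (nat_lit 0x0) (nat_lit 0x40002000080000000000000000000000000000000000000000000) := D_46 (nat_lit 193) (nat_lit 175) (nat_lit 210) (nat_lit 7) (nat_lit 5) (nat_lit 7) (nat_lit 4) (nat_lit 6) (nat_lit 12) (by decide +kernel)
theorem L129999 : W_46 (nat_lit 3) (nat_lit 0x100004001a000d0000000000000000000000000000000) (nat_lit 0x0) (nat_lit 0x40002000080008000000000000800000000000000000000000000) := T_46 (nat_lit 159) (nat_lit 107) (nat_lit 7) (nat_lit 5) (nat_lit 6) L129998 (by decide +kernel)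
theorem L130000 : W_46 (nat_lit 10) (nat_lit 0x4001a000d0000000000000000000000000000000) (nat_lit 0x0) (nat_lit 0x5000fe0078001a000100008002c000e0007000200000000000000) := Q_46 (nat_lit 176) (C_46 L129975 (C_46 L129979 (C_46 L129991 (C_46 L129997 (C_46 L129999 N_46))))) (by decide +kernel)
theorem L130001 : W_46 (nat_lit 12) (nat_lit 0x1a000d0000000000000000000000000000000) (nat_lit 0x0) (nat_lit 0x4000e0007000fe007f801f8001e000f002e000e0007000380004000000000) := Q_46 (nat_lit 158) (C_46 L129819 (C_46 L129834 (C_46 L129845 (C_46 L129891 (C_46 L129934 (C_46 L129953 (C_46 L129957 (C_46 L129963 (C_46 L129969 (C_46 L129974 (C_46 L130000 N_46))))))))))) (by decide +kernel)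
theorem L130002 : W_46 (nat_lit 2) (nat_lit 0xc0004001a000d8000800000000000000000000000000) (nat_lit 0x0) (nat_lit 0x2000100008000000000000000000000000000000000000000) := D_46 (nat_lit 176) (nat_lit 193) (nat_lit 159) (nat_lit 7) (nat_lit 5) (nat_lit 7) (nat_lit 7) (nat_lit 5) (nat_lit 6) (by decide +kernel)
theorem L130003 : W_46 (nat_lit 3) (nat_lit 0xc0004001a000d8000000000000000000000000000000) (nat_lit 0x0) (nat_lit 0x200010000a000000000000800000000000000000000000000) := T_46 (nat_lit 107) (nat_lit 157) (nat_lit 5) (nat_lit 5) (nat_lit 6) L130002 (by decide +kernel)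
theorem L130004 : W_46 (nat_lit 4) (nat_lit 0x80004001a000d8000000000000000000000000000000) (nat_lit 0x0) (nat_lit 0x280014000a000000000000800000000000000000000000000) := T_46 (nat_lit 174) (nat_lit 191) (nat_lit 5) (nat_lit 5) (nat_lit 7) L130003 (by decide +kernel)
theorem L130005 : W_46 (nat_lit 5) (nat_lit 0x4001a000d8000000000000000000000000000000) (nat_lit 0x0) (nat_lit 0x28001c000a000000000000c00000000000000000000000000) := T_46 (nat_lit 175) (nat_lit 106) (nat_lit 4) (nat_lit 5) (nat_lit 10) L130004 (by decide +kernel)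
theorem L130006 : W_46 (nat_lit 6) (nat_lit 0x4001a000d0000000000000000000000000000000) (nat_lit 0x0) (nat_lit 0x28001c000a000000028000c00000000000000000000000000) := T_46 (nat_lit 123) (nat_lit 125) (nat_lit 3) (nat_lit 4) (nat_lit 7) L130005 (by decide +kernel)
theorem L130007 : W_46 (nat_lit 4) (nat_lit 0xc0004001a000d8000000000000000000000000000000) (nat_lit 0x0) (nat_lit 0x2000300003800000000000800000000000000000000000000) := T_46 (nat_lit 157) (nat_lit 107) (nat_lit 5) (nat_lit 5) (nat_lit 6) L129897 (by decide +kernel)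
theorem L130008 : W_46 (nat_lit 5) (nat_lit 0x80004001a000d8000000000000000000000000000000) (nat_lit 0x0) (nat_lit 0x2800340003800000000000800000000000000000000000000) := T_46 (nat_lit 174) (nat_lit 191) (nat_lit 5) (nat_lit 5) (nat_lit 7) L130007 (by decide +kernel)
theorem L130009 : W_46 (nat_lit 6) (nat_lit 0x4001a000d8000000000000000000000000000000) (nat_lit 0x0) (nat_lit 0x28003c0003800000000000c00000000000000000000000000) := T_46 (nat_lit 175) (nat_lit 106) (nat_lit 4) (nat_lit 5) (nat_lit 10) L130008 (by decide +kernel)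
theorem L130010 : W_46 (nat_lit 7) (nat_lit 0x4001a000d0000000000000000000000000000000) (nat_lit 0x0) (nat_lit 0x28003c0003800000028000c00000000000000000000000000) := T_46 (nat_lit 123) (nat_lit 125) (nat_lit 3) (nat_lit 4) (nat_lit 7) L130009 (by decide +kernel)
theorem L130011 : W_46 (nat_lit 2) (nat_lit 0x4001a000d8000400000000000000000000000000) (nat_lit 0x0) (nat_lit 0x800020001000000000000000000) := D_46 (nat_lit 89) (nat_lit 107) (nat_lit 72) (nat_lit 4) (nat_lit 5) (nat_lit 9) (nat_lit 7) (nat_lit 4) (nat_lit 4) (by decide +kernel)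
theorem L130012 : W_46 (nat_lit 3) (nat_lit 0x4001a000d8000000000000000000000000000000) (nat_lit 0x0) (nat_lit 0x80000000000000000c00020001000000000000000000) := T_46 (nat_lit 106) (nat_lit 175) (nat_lit 4) (nat_lit 5) (nat_lit 10) L130011 (by decide +kernel)
theorem L130013 : W_46 (nat_lit 4) (nat_lit 0x4001a000d0000000000000000000000000000000) (nat_lit 0x0) (nat_lit 0x80000000000028000c00020001000000000000000000) := T_46 (nat_lit 123) (nat_lit 125) (nat_lit 3) (nat_lit 4) (nat_lit 7) L130012 (by decide +kernel)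
theorem L130014 : W_46 (nat_lit 9) (nat_lit 0x4001a000d8000000000000000000000000000000) (nat_lit 0x0) (nat_lit 0x10007e007c001a000000000002400000000000000000000000000) := T_46 (nat_lit 175) (nat_lit 106) (nat_lit 4) (nat_lit 5) (nat_lit 10) L129924 (by decide +kernel)
theorem L130015 : W_46 (nat_lit 10) (nat_lit 0x4001a000d0000000000000000000000000000000) (nat_lit 0x0) (nat_lit 0x10007e007c001a000000028002400000000000000000000000000) := T_46 (nat_lit 123) (nat_lit 125) (nat_lit 3) (nat_lit 4) (nat_lit 7) L130014 (by decide +kernel)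
theorem L130016 : W_46 (nat_lit 2) (nat_lit 0xc001a000f0000800000000000000000000000000) (nat_lit 0x0) (nat_lit 0x40012000000000000000000000000000000000000000) := D_46 (nat_lit 157) (nat_lit 160) (nat_lit 174) (nat_lit 2) (nat_lit 4) (nat_lit 9) (nat_lit 5) (nat_lit 5) (nat_lit 6) (by decide +kernel)
theorem L130017 : W_46 (nat_lit 3) (nat_lit 0x4001a000f0000800000000000000000000000000) (nat_lit 0x0) (nat_lit 0x14001a000000000000000000000000000000000000000) := T_46 (nat_lit 159) (nat_lit 176) (nat_lit 7) (nat_lit 5) (nat_lit 6) L130016 (by decide +kernel)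
theorem L130018 : W_46 (nat_lit 4) (nat_lit 0x4001a000f0000000000000000000000000000000) (nat_lit 0x0) (nat_lit 0x14001a000000000000c00000000000000000000000000) := T_46 (nat_lit 107) (nat_lit 106) (nat_lit 0) (nat_lit 8) (nat_lit 7) L130017 (by decide +kernel)
theorem L130019 : W_46 (nat_lit 5) (nat_lit 0x4001a000d0000000000000000000000000000000) (nat_lit 0x0) (nat_lit 0x14001a000000028000c00000000000000000000000000) := T_46 (nat_lit 125) (nat_lit 123) (nat_lit 3) (nat_lit 4) (nat_lit 7) L130018 (by decide +kernel)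
theorem L130020 : W_46 (nat_lit 2) (nat_lit 0x4001a000d0000800000000000000000000000000) (nat_lit 0x0) (nat_lit 0x20000400020000000000000000000000) := D_46 (nat_lit 106) (nat_lit 125) (nat_lit 89) (nat_lit 0) (nat_lit 8) (nat_lit 7) (nat_lit 4) (nat_lit 5) (nat_lit 9) (by decide +kernel)
theorem L130021 : W_46 (nat_lit 4) (nat_lit 0x4001a000d0000000000000000000000000000000) (nat_lit 0x0) (nat_lit 0x14001a000000020000c00020000000000000000000000) := Q_46 (nat_lit 107) (C_46 L130020 (C_46 L129939 N_46)) (by decide +kernel)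
theorem L130022 : W_46 (nat_lit 7) (nat_lit 0x180004001a000d8000000000000000000000000000000) (nat_lit 0x0) (nat_lit 0x10005e0064001a000000000002000000000000000000000000000) := T_46 (nat_lit 191) (nat_lit 174) (nat_lit 5) (nat_lit 5) (nat_lit 7) L129922 (by decide +kernel)
theorem L130023 : W_46 (nat_lit 8) (nat_lit 0x100004001a000d8000000000000000000000000000000) (nat_lit 0x0) (nat_lit 0x10007e006c001a000000000002000000000000000000000000000) := T_46 (nat_lit 175) (nat_lit 193) (nat_lit 7) (nat_lit 5) (nat_lit 7) L130022 (by decide +kernel)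
theorem L130024 : W_46 (nat_lit 9) (nat_lit 0x100004001a000d0000000000000000000000000000000) (nat_lit 0x0) (nat_lit 0x10007e006c001a000000028002000000000000000000000000000) := T_46 (nat_lit 123) (nat_lit 125) (nat_lit 3) (nat_lit 4) (nat_lit 7) L130023 (by decide +kernel)
theorem L130025 : W_46 (nat_lit 5) (nat_lit 0x100004001a000d0000000000000000000000000000000) (nat_lit 0x0) (nat_lit 0x28002c0003800000000000800000000000000000000000000) := T_46 (nat_lit 175) (nat_lit 193) (nat_lit 7) (nat_lit 5) (nat_lit 7) L129837 (by decide +kernel)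
theorem L130026 : W_46 (nat_lit 2) (nat_lit 0x10000c001a000d8000000000000000000000000000000) (nat_lit 0x0) (nat_lit 0x12000000000002000000000000000000000000000) := D_46 (nat_lit 160) (nat_lit 109) (nat_lit 157) (nat_lit 5) (nat_lit 7) (nat_lit 6) (nat_lit 2) (nat_lit 4) (nat_lit 9) (by decide +kernel)
theorem L130027 : W_46 (nat_lit 3) (nat_lit 0x100004001a000d8000000000000000000000000000000) (nat_lit 0x0) (nat_lit 0x1a000000000002800000000000000000000000000) := T_46 (nat_lit 159) (nat_lit 107) (nat_lit 7) (nat_lit 5) (nat_lit 6) L130026 (by decide +kernel)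
theorem L130028 : W_46 (nat_lit 4) (nat_lit 0x100004001a000d0000000000000000000000000000000) (nat_lit 0x0) (nat_lit 0x1a000000028002800000000000000000000000000) := T_46 (nat_lit 123) (nat_lit 125) (nat_lit 3) (nat_lit 4) (nat_lit 7) L130027 (by decide +kernel)
theorem L130029 : W_46 (nat_lit 10) (nat_lit 0x4001a000d0000000000000000000000000000000) (nat_lit 0x0) (nat_lit 0x50007e007c001b800000028002800000000000000000000000000) := Q_46 (nat_lit 176) (C_46 L129999 (C_46 L130024 (C_46 L130025 (C_46 L130028 N_46)))) (by decide +kernel)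
theorem L130030 : W_46 (nat_lit 11) (nat_lit 0x1a000d0000000000000000000000000000000) (nat_lit 0x0) (nat_lit 0x50007e007c001f800000028002c00020001000000000000000000) := Q_46 (nat_lit 158) (C_46 L129957 (C_46 L130006 (C_46 L130010 (C_46 L130013 (C_46 L130015 (C_46 L130019 (C_46 L130021 (C_46 L130029 N_46)))))))) (by decide +kernel)
theorem L130031 : W_46 (nat_lit 2) (nat_lit 0x1a000d0000800000000000000000000000000) (nat_lit 0x0) (nat_lit 0x100020000400000000000000000000000000) := D_46 (nat_lit 125) (nat_lit 140) (nat_lit 106) (nat_lit 1) (nat_lit 8) (nat_lit 7) (nat_lit 0) (nat_lit 8) (nat_lit 7) (by decide +kernel)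
theorem L130032 : W_46 (nat_lit 2) (nat_lit 0x2001a000d0000800060000000000000000000000) (nat_lit 0x0) (nat_lit 0x40004000000000000400000000000000000000000000) := D_46 (nat_lit 158) (nat_lit 106) (nat_lit 174) (nat_lit 4) (nat_lit 5) (nat_lit 9) (nat_lit 5) (nat_lit 5) (nat_lit 6) (by decide +kernel)
theorem L130033 : W_46 (nat_lit 3) (nat_lit 0x1a000d0000800060000000000000000000000) (nat_lit 0x0) (nat_lit 0x40006000100000000400000000000000000000000000) := T_46 (nat_lit 157) (nat_lit 140) (nat_lit 5) (nat_lit 5) (nat_lit 5) L130032 (by decide +kernel)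
theorem L130034 : W_46 (nat_lit 4) (nat_lit 0x1a000d0000800040000000000000000000000) (nat_lit 0x0) (nat_lit 0x40006000100000000400020001000000000000000000) := T_46 (nat_lit 89) (nat_lit 72) (nat_lit 4) (nat_lit 5) (nat_lit 8) L130033 (by decide +kernel)
theorem L130035 : W_46 (nat_lit 2) (nat_lit 0x6001a000d00008000c0000000000000000000000) (nat_lit 0x0) (nat_lit 0x100018000000000000000000000000000000000000000) := D_46 (nat_lit 159) (nat_lit 160) (nat_lit 176) (nat_lit 2) (nat_lit 4) (nat_lit 9) (nat_lit 7) (nat_lit 5) (nat_lit 6) (by decide +kernel)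
theorem L130036 : W_46 (nat_lit 3) (nat_lit 0x2001a000d00008000c0000000000000000000000) (nat_lit 0x0) (nat_lit 0x14001c000000000000000000000000000000000000000) := T_46 (nat_lit 158) (nat_lit 174) (nat_lit 5) (nat_lit 5) (nat_lit 6) L130035 (by decide +kernel)
theorem L130037 : W_46 (nat_lit 4) (nat_lit 0x1a000d00008000c0000000000000000000000) (nat_lit 0x0) (nat_lit 0x14001e000100000000000000000000000000000000000) := T_46 (nat_lit 157) (nat_lit 140) (nat_lit 5) (nat_lit 5) (nat_lit 5) L130036 (by decide +kernel)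
theorem L130038 : W_46 (nat_lit 5) (nat_lit 0x1a000d0000800040000000000000000000000) (nat_lit 0x0) (nat_lit 0x14001e000100000000000080004000000000000000000) := T_46 (nat_lit 91) (nat_lit 74) (nat_lit 6) (nat_lit 5) (nat_lit 8) L130037 (by decide +kernel)
theorem L130039 : W_46 (nat_lit 6) (nat_lit 0x1a000d0000800000000000000000000000000) (nat_lit 0x0) (nat_lit 0x14001e0001000000004000e0007000280000000000000) := Q_46 (nat_lit 90) (C_46 L122606 (C_46 L130034 (C_46 L130038 N_46))) (by decide +kernel)
theorem L130040 : W_46 (nat_lit 4) (nat_lit 0x1a000d0000c00000000000000000000000000) (nat_lit 0x0) (nat_lit 0x14001e000000000000000020000000000000000000000) := T_46 (nat_lit 158) (nat_lit 89) (nat_lit 4) (nat_lit 5) (nat_lit 9) L129936 (by decide +kernel)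
theorem L130041 : W_46 (nat_lit 5) (nat_lit 0x1a000d0000800000000000000000000000000) (nat_lit 0x0) (nat_lit 0x14001e000000020000400020000000000000000000000) := T_46 (nat_lit 106) (nat_lit 125) (nat_lit 0) (nat_lit 8) (nat_lit 7) L130040 (by decide +kernel)
theorem L130042 : W_46 (nat_lit 2) (nat_lit 0x1b000d0000800040005000000000000000000) (nat_lit 0x0) (nat_lit 0x2000280000000000000) := D_46 (nat_lit 73) (nat_lit 55) (nat_lit 57) (nat_lit 4) (nat_lit 5) (nat_lit 7) (nat_lit 6) (nat_lit 5) (nat_lit 7) (by decide +kernel)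
theorem L130043 : W_46 (nat_lit 3) (nat_lit 0x1b000d0000800040001000000000000000000) (nat_lit 0x0) (nat_lit 0x80006000280000000000000) := T_46 (nat_lit 74) (nat_lit 91) (nat_lit 6) (nat_lit 5) (nat_lit 8) L130042 (by decide +kernel)
theorem L130044 : W_46 (nat_lit 4) (nat_lit 0x1b000d0000800040000000000000000000000) (nat_lit 0x0) (nat_lit 0xa0007000280000000000000) := T_46 (nat_lit 72) (nat_lit 89) (nat_lit 4) (nat_lit 5) (nat_lit 8) L130043 (by decide +kernel)
theorem L130045 : W_46 (nat_lit 5) (nat_lit 0x1b000d0000800000000000000000000000000) (nat_lit 0x0) (nat_lit 0x20000000000000000e0007000280000000000000) := T_46 (nat_lit 90) (nat_lit 157) (nat_lit 5) (nat_lit 5) (nat_lit 5) L130044 (by decide +kernel)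
theorem L130046 : W_46 (nat_lit 6) (nat_lit 0x1a000d0000800000000000000000000000000) (nat_lit 0x0) (nat_lit 0x20001000200000000e0007000280000000000000) := T_46 (nat_lit 140) (nat_lit 125) (nat_lit 1) (nat_lit 8) (nat_lit 7) L130045 (by decide +kernel)
theorem L130047 : W_46 (nat_lit 7) (nat_lit 0x1a000d0000000000000000000000000000000) (nat_lit 0x0) (nat_lit 0x14001e000100020000c000e0007000280000000000000) := Q_46 (nat_lit 107) (C_46 L130031 (C_46 L130039 (C_46 L130041 (C_46 L130046 N_46)))) (by decide +kernel)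
theorem L130048 : W_46 (nat_lit 13) (nat_lit 0x1a000c0000000000000000000000000000000) (nat_lit 0x0) (nat_lit 0x4000e0007000fe007f801f8001e003f002e000e0007000380004000000000) := Q_46 (nat_lit 124) (C_46 L122678 (C_46 L130001 (C_46 L130030 (C_46 L130047 N_46)))) (by decide +kernel)
theorem L130049 : W_46 (nat_lit 4) (nat_lit 0x1a003c0010000000000000000000000000000) (nat_lit 0x0) (nat_lit 0x8000c000020008000400020000000000000000000) := T_46 (nat_lit 111) (nat_lit 125) (nat_lit 2) (nat_lit 6) (nat_lit 7) L122828 (by decide +kernel)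
theorem L130050 : W_46 (nat_lit 5) (nat_lit 0x1a003c0000000000000000000000000000000) (nat_lit 0x0) (nat_lit 0x8000c000020038000400020000000000000000000) := T_46 (nat_lit 112) (nat_lit 113) (nat_lit 2) (nat_lit 7) (nat_lit 7) L130049 (by decide +kernel)
theorem L130051 : W_46 (nat_lit 6) (nat_lit 0x1a001c0000000000000000000000000000000) (nat_lit 0x0) (nat_lit 0x8000c000620038000400020000000000000000000) := T_46 (nat_lit 129) (nat_lit 130) (nat_lit 1) (nat_lit 11) (nat_lit 7) L130050 (by decide +kernel)
theorem L130052 : W_46 (nat_lit 7) (nat_lit 0x1a000c0000000000000000000000000000000) (nat_lit 0x0) (nat_lit 0x8000c400720038000400020000000000000000000) := T_46 (nat_lit 128) (nat_lit 142) (nat_lit 2) (nat_lit 5) (nat_lit 8) L130051 (by decide +kernel)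
theorem L130053 : W_46 (nat_lit 14) (nat_lit 0x18000c0000000000000000000000000000000) (nat_lit 0x0) (nat_lit 0x4000e0007000fe007f809f80c7e073f03ae004e0027000380004000000000) := Q_46 (nat_lit 141) (C_46 L122690 (C_46 L122525 (C_46 L130048 (C_46 L130052 N_46)))) (by decide +kernel)
theorem L130054 : W_46 (nat_lit 2) (nat_lit 0x58003c001c000000010000000000000000000) (nat_lit 0x0) (nat_lit 0x80000000000000000400020000000000000000000) := D_46 (nat_lit 94) (nat_lit 77) (nat_lit 163) (nat_lit 7) (nat_lit 9) (nat_lit 4) (nat_lit 4) (nat_lit 10) (nat_lit 9) (by decide +kernel)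
theorem L130055 : W_46 (nat_lit 3) (nat_lit 0x58003c0014000000010000000000000000000) (nat_lit 0x0) (nat_lit 0x80000000020008000400020000000000000000000) := T_46 (nat_lit 111) (nat_lit 125) (nat_lit 2) (nat_lit 6) (nat_lit 7) L130054 (by decide +kernel)
theorem L130056 : W_46 (nat_lit 4) (nat_lit 0x58003c0004000000010000000000000000000) (nat_lit 0x0) (nat_lit 0x80000000020038000400020000000000000000000) := T_46 (nat_lit 112) (nat_lit 113) (nat_lit 2) (nat_lit 7) (nat_lit 7) L130055 (by decide +kernel)
theorem L130057 : W_46 (nat_lit 5) (nat_lit 0x18003c0004000000010000000000000000000) (nat_lit 0x0) (nat_lit 0x8000c000020038000400020000000000000000000) := T_46 (nat_lit 146) (nat_lit 147) (nat_lit 3) (nat_lit 7) (nat_lit 7) L130056 (by decide +kernel)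
theorem L130058 : W_46 (nat_lit 6) (nat_lit 0x18001c0004000000010000000000000000000) (nat_lit 0x0) (nat_lit 0x8000c000620038000400020000000000000000000) := T_46 (nat_lit 129) (nat_lit 130) (nat_lit 1) (nat_lit 11) (nat_lit 7) L130057 (by decide +kernel)
theorem L130059 : W_46 (nat_lit 7) (nat_lit 0x18001c0004000000000000000000000000000) (nat_lit 0x0) (nat_lit 0x8000c000620038000600030000000000000000000) := T_46 (nat_lit 76) (nat_lit 93) (nat_lit 5) (nat_lit 8) (nat_lit 4) L130058 (by decide +kernel)
theorem L130060 : W_46 (nat_lit 2) (nat_lit 0x1c001c0016000780000000000000000000000) (nat_lit 0x0) (nat_lit 0x20001800000000000000000000000) := D_46 (nat_lit 95) (nat_lit 113) (nat_lit 96) (nat_lit 3) (nat_lit 7) (nat_lit 5) (nat_lit 1) (nat_lit 11) (nat_lit 5) (by decide +kernel)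
theorem L130061 : W_46 (nat_lit 3) (nat_lit 0x1c001c0006000780000000000000000000000) (nat_lit 0x0) (nat_lit 0x38001800000000000000000000000) := T_46 (nat_lit 112) (nat_lit 111) (nat_lit 3) (nat_lit 6) (nat_lit 5) L130060 (by decide +kernel)
theorem L130062 : W_46 (nat_lit 4) (nat_lit 0x1c001c0006000700000000000000000000000) (nat_lit 0x0) (nat_lit 0x38001880004000000000000000000) := T_46 (nat_lit 91) (nat_lit 74) (nat_lit 4) (nat_lit 7) (nat_lit 8) L130061 (by decide +kernel)
theorem L130063 : W_46 (nat_lit 5) (nat_lit 0x1c001c0004000700000000000000000000000) (nat_lit 0x0) (nat_lit 0x800000000003a001880004000000000000000000) := T_46 (nat_lit 109) (nat_lit 159) (nat_lit 5) (nat_lit 7) (nat_lit 5) L130062 (by decide +kernel)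
theorem L130064 : W_46 (nat_lit 6) (nat_lit 0x1c001c0004000300000000000000000000000) (nat_lit 0x0) (nat_lit 0x800000000003a001c80024000000000000000000) := T_46 (nat_lit 94) (nat_lit 77) (nat_lit 6) (nat_lit 8) (nat_lit 8) L130063 (by decide +kernel)
theorem L130065 : W_46 (nat_lit 7) (nat_lit 0x1c001c0004000200000000000000000000000) (nat_lit 0x0) (nat_lit 0x800000000003a001d8002c000000000000000000) := T_46 (nat_lit 92) (nat_lit 75) (nat_lit 4) (nat_lit 8) (nat_lit 8) L130064 (by decide +kernel)
theorem L130066 : W_46 (nat_lit 8) (nat_lit 0x1c001c0004000000000000000000000000000) (nat_lit 0x0) (nat_lit 0x800000000003a001f8003c000000000000000000) := T_46 (nat_lit 93) (nat_lit 76) (nat_lit 5) (nat_lit 8) (nat_lit 4) L130065 (by decide +kernel)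
theorem L130067 : W_46 (nat_lit 9) (nat_lit 0x18001c0004000000000000000000000000000) (nat_lit 0x0) (nat_lit 0x800060000003a001f8003c000000000000000000) := T_46 (nat_lit 142) (nat_lit 141) (nat_lit 2) (nat_lit 5) (nat_lit 8) L130066 (by decide +kernel)
theorem L130068 : W_46 (nat_lit 10) (nat_lit 0x18000c0004000000000000000000000000000) (nat_lit 0x0) (nat_lit 0x8800c60072003a001f8003c000000000000000000) := Q_46 (nat_lit 128) (C_46 L130059 (C_46 L127191 (C_46 L130067 N_46))) (by decide +kernel)
theorem L130069 : W_46 (nat_lit 2) (nat_lit 0x180004001a000d0004800000000000000000000000000) (nat_lit 0x0) (nat_lit 0x800040002000000000000000000000000000000000000000) := D_46 (nat_lit 174) (nat_lit 157) (nat_lit 191) (nat_lit 5) (nat_lit 5) (nat_lit 6) (nat_lit 5) (nat_lit 5) (nat_lit 7) (by decide +kernel)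
theorem L130070 : W_46 (nat_lit 3) (nat_lit 0x180004001a000d0004000000000000000000000000000) (nat_lit 0x0) (nat_lit 0x80004000a000000000000800000000000000000000000000) := T_46 (nat_lit 107) (nat_lit 159) (nat_lit 7) (nat_lit 5) (nat_lit 6) L130069 (by decide +kernel)
theorem L130071 : W_46 (nat_lit 4) (nat_lit 0x80004001a000d0004000000000000000000000000000) (nat_lit 0x0) (nat_lit 0x280014000a000000000000800000000000000000000000000) := T_46 (nat_lit 176) (nat_lit 193) (nat_lit 7) (nat_lit 5) (nat_lit 7) L130070 (by decide +kernel)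
theorem L130072 : W_46 (nat_lit 2) (nat_lit 0x1000100018000c001a000d8004000000000000000000000000000) (nat_lit 0x0) (nat_lit 0x600020000000000000000000000000000000000000000000000000000) := D_46 (nat_lit 209) (nat_lit 226) (nat_lit 225) (nat_lit 6) (nat_lit 5) (nat_lit 13) (nat_lit 5) (nat_lit 5) (nat_lit 9) (by decide +kernel)
theorem L130073 : W_46 (nat_lit 3) (nat_lit 0x100018000c001a000d8004000000000000000000000000000) (nat_lit 0x0) (nat_lit 0x600030000800000000000000000000000000000000000000000000000) := T_46 (nat_lit 208) (nat_lit 191) (nat_lit 5) (nat_lit 5) (nat_lit 8) L130072 (by decide +kernel)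
theorem L130074 : W_46 (nat_lit 4) (nat_lit 0x18000c001a000d8004000000000000000000000000000) (nat_lit 0x0) (nat_lit 0x600030001800000000000100000000000000000000000000000000000) := T_46 (nat_lit 192) (nat_lit 140) (nat_lit 4) (nat_lit 5) (nat_lit 11) L130073 (by decide +kernel)
theorem L130075 : W_46 (nat_lit 5) (nat_lit 0x180004001a000d8004000000000000000000000000000) (nat_lit 0x0) (nat_lit 0x600030001800000008000100000000800000000000000000000000000) := T_46 (nat_lit 159) (nat_lit 107) (nat_lit 7) (nat_lit 5) (nat_lit 6) L130074 (by decide +kernel)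
theorem L130076 : W_46 (nat_lit 6) (nat_lit 0x80004001a000d8004000000000000000000000000000) (nat_lit 0x0) (nat_lit 0x600030003800100008000100000000800000000000000000000000000) := T_46 (nat_lit 176) (nat_lit 193) (nat_lit 7) (nat_lit 5) (nat_lit 7) L130075 (by decide +kernel)
theorem L130077 : W_46 (nat_lit 7) (nat_lit 0x80004001a000d0004000000000000000000000000000) (nat_lit 0x0) (nat_lit 0x600030003800100008000100008000c00000000000000000000000000) := T_46 (nat_lit 123) (nat_lit 106) (nat_lit 4) (nat_lit 5) (nat_lit 10) L130076 (by decide +kernel)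
theorem L130078 : W_46 (nat_lit 2) (nat_lit 0x2000080004001a000d8004000000000000000000000000000) (nat_lit 0x0) (nat_lit 0x40001000000000000100000000000000000000000000000000000) := D_46 (nat_lit 192) (nat_lit 140) (nat_lit 210) (nat_lit 4) (nat_lit 5) (nat_lit 11) (nat_lit 7) (nat_lit 5) (nat_lit 8) (by decide +kernel)
theorem L130079 : W_46 (nat_lit 3) (nat_lit 0x80004001a000d8004000000000000000000000000000) (nat_lit 0x0) (nat_lit 0x40003000100000000100000000000000000000000000000000000) := T_46 (nat_lit 193) (nat_lit 176) (nat_lit 7) (nat_lit 5) (nat_lit 7) L130078 (by decide +kernel)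
theorem L130080 : W_46 (nat_lit 4) (nat_lit 0x80004001a000d0004000000000000000000000000000) (nat_lit 0x0) (nat_lit 0x40003000100000000100008000400000000000000000000000000) := T_46 (nat_lit 123) (nat_lit 106) (nat_lit 4) (nat_lit 5) (nat_lit 10) L130079 (by decide +kernel)
theorem L130081 : W_46 (nat_lit 8) (nat_lit 0x4001a000d0004000000000000000000000000000) (nat_lit 0x0) (nat_lit 0x6000700038001c000a000100008000c00020000000000000000000000) := Q_46 (nat_lit 175) (C_46 L129227 (C_46 L129214 (C_46 L130071 (C_46 L130077 (C_46 L130080 N_46))))) (by decide +kernel)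
theorem L130082 : W_46 (nat_lit 2) (nat_lit 0x40016001a000d0004000000000000000000000000000) (nat_lit 0x0) (nat_lit 0x10000800000000000100000000000000000000000000000000000) := D_46 (nat_lit 191) (nat_lit 140) (nat_lit 208) (nat_lit 6) (nat_lit 4) (nat_lit 11) (nat_lit 6) (nat_lit 4) (nat_lit 12) (by decide +kernel)
theorem L130083 : W_46 (nat_lit 3) (nat_lit 0x16001a000d0004000000000000000000000000000) (nat_lit 0x0) (nat_lit 0x10000800040000000100000000800000000000000000000000000) := T_46 (nat_lit 174) (nat_lit 107) (nat_lit 5) (nat_lit 5) (nat_lit 6) L130082 (by decide +kernel)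
theorem L130084 : W_46 (nat_lit 4) (nat_lit 0x14001a000d0004000000000000000000000000000) (nat_lit 0x0) (nat_lit 0x1000080004000a000100000000800000000000000000000000000) := T_46 (nat_lit 157) (nat_lit 159) (nat_lit 2) (nat_lit 4) (nat_lit 9) L130083 (by decide +kernel)
theorem L130085 : W_46 (nat_lit 5) (nat_lit 0x4001a000d0004000000000000000000000000000) (nat_lit 0x0) (nat_lit 0x1000080024001a000100000000800000000000000000000000000) := T_46 (nat_lit 160) (nat_lit 177) (nat_lit 6) (nat_lit 7) (nat_lit 10) L130084 (by decide +kernel)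
theorem L130086 : W_46 (nat_lit 11) (nat_lit 0x1a000d0004000000000000000000000000000) (nat_lit 0x0) (nat_lit 0x4000e000700038007c001f000100008000c00020000000000000000000000) := Q_46 (nat_lit 158) (C_46 L129249 (C_46 L129262 (C_46 L130081 (C_46 L129253 (C_46 L130085 (C_46 L129258 N_46)))))) (by decide +kernel)
theorem L130087 : W_46 (nat_lit 12) (nat_lit 0x1a000c0004000000000000000000000000000) (nat_lit 0x0) (nat_lit 0x4000e000700038007c001f000100038008c00020000000000000000000000) := Q_46 (nat_lit 124) (C_46 L129266 (C_46 L129264 (C_46 L130086 (C_46 L129265 N_46)))) (by decide +kernel)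
theorem L130088 : W_46 (nat_lit 6) (nat_lit 0x200004001e000d0004000000000000000000000000000) (nat_lit 0x0) (nat_lit 0x78001c000800000002000a000000000000000000000000000) := T_46 (nat_lit 125) (nat_lit 111) (nat_lit 2) (nat_lit 5) (nat_lit 7) L129749 (by decide +kernel)
theorem L130089 : W_46 (nat_lit 7) (nat_lit 0x200004001e000c0004000000000000000000000000000) (nat_lit 0x0) (nat_lit 0x78001c000800000003800a000000000000000000000000000) := T_46 (nat_lit 124) (nat_lit 123) (nat_lit 0) (nat_lit 8) (nat_lit 8) L130088 (by decide +kernel)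
theorem L130090 : W_46 (nat_lit 8) (nat_lit 0x200000001e000c0004000000000000000000000000000) (nat_lit 0x0) (nat_lit 0x78001c000e00000003800a000000000000000000000000000) := T_46 (nat_lit 158) (nat_lit 157) (nat_lit 1) (nat_lit 8) (nat_lit 8) L130089 (by decide +kernel)
theorem L130091 : W_46 (nat_lit 9) (nat_lit 0x200000001a000c0004000000000000000000000000000) (nat_lit 0x0) (nat_lit 0x78001c000e00040013800a000000000000000000000000000) := T_46 (nat_lit 142) (nat_lit 128) (nat_lit 2) (nat_lit 5) (nat_lit 8) L130090 (by decide +kernel)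
theorem L130092 : W_46 (nat_lit 10) (nat_lit 0x1a000c0004000000000000000000000000000) (nat_lit 0x0) (nat_lit 0x78003c001e00040013800a000000000000000000000000000) := T_46 (nat_lit 177) (nat_lit 160) (nat_lit 6) (nat_lit 7) (nat_lit 10) L130091 (by decide +kernel)
theorem L130093 : W_46 (nat_lit 13) (nat_lit 0x18000c0004000000000000000000000000000) (nat_lit 0x0) (nat_lit 0x4000e000700078007c001f00070013800ac00020000000000000000000000) := Q_46 (nat_lit 141) (C_46 L129120 (C_46 L130087 (C_46 L130092 N_46))) (by decide +kernel)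
theorem L130094 : W_46 (nat_lit 14) (nat_lit 0x18000c0000000000000000000000000000000) (nat_lit 0x0) (nat_lit 0x4000e000700078007c009f00c70073803ec01fa003c000000000000000000) := Q_46 (nat_lit 110) (C_46 L127190 (C_46 L130068 (C_46 L130093 N_46))) (by decide +kernel)
theorem L130095 : W_46 (nat_lit 15) (nat_lit 0x10000c0000000000000000000000000000000) (nat_lit 0x0) (nat_lit 0x4000e0007001fe00ff819fc0cfe073f0fef07ff07ffc07f803f400f000000) := Q_46 (nat_lit 143) (C_46 L128923 (C_46 L129019 (C_46 L129093 (C_46 L129152 (C_46 L129276 (C_46 L129334 (C_46 L129637 (C_46 L129711 (C_46 L129731 (C_46 L129789 (C_46 L130053 (C_46 L126720 (C_46 L130094 N_46))))))))))))) (by decide +kernel)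
theorem L130096 : W_46 (nat_lit 2) (nat_lit 0x14001e0003000000000000000000000000000) (nat_lit 0x0) (nat_lit 0x8000000000000000100008000000000000000000) := D_46 (nat_lit 92) (nat_lit 75) (nat_lit 159) (nat_lit 7) (nat_lit 7) (nat_lit 4) (nat_lit 6) (nat_lit 6) (nat_lit 9) (by decide +kernel)
theorem L130097 : W_46 (nat_lit 7) (nat_lit 0x10001e0003000000000000000000000000000) (nat_lit 0x0) (nat_lit 0x200010000800000018000f80038000000000000000000) := T_46 (nat_lit 111) (nat_lit 112) (nat_lit 2) (nat_lit 6) (nat_lit 7) L126931 (by decide +kernel)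
theorem L130098 : W_46 (nat_lit 8) (nat_lit 0x10001e0002000000000000000000000000000) (nat_lit 0x0) (nat_lit 0x200010000800000019800f80038000000000000000000) := T_46 (nat_lit 108) (nat_lit 107) (nat_lit 0) (nat_lit 9) (nat_lit 7) L130097 (by decide +kernel)
theorem L130099 : W_46 (nat_lit 7) (nat_lit 0x80014001e0003000000000000000000000000000) (nat_lit 0x0) (nat_lit 0x2000100008000000180004c0026000300000000000000) := T_46 (nat_lit 111) (nat_lit 112) (nat_lit 2) (nat_lit 6) (nat_lit 7) L126952 (by decide +kernel)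
theorem L130100 : W_46 (nat_lit 8) (nat_lit 0x14001e0003000000000000000000000000000) (nat_lit 0x0) (nat_lit 0x3000180008000000180004c0026000300000000000000) := T_46 (nat_lit 159) (nat_lit 176) (nat_lit 6) (nat_lit 6) (nat_lit 10) L130099 (by decide +kernel)
theorem L130101 : W_46 (nat_lit 9) (nat_lit 0x14001e0002000000000000000000000000000) (nat_lit 0x0) (nat_lit 0x3000180008000000198004c0026000300000000000000) := T_46 (nat_lit 108) (nat_lit 107) (nat_lit 0) (nat_lit 9) (nat_lit 7) L130100 (by decide +kernel)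
theorem L130102 : W_46 (nat_lit 10) (nat_lit 0x10001e0002000000000000000000000000000) (nat_lit 0x0) (nat_lit 0x300018000e000000198004c0026000300000000000000) := T_46 (nat_lit 142) (nat_lit 141) (nat_lit 1) (nat_lit 9) (nat_lit 7) L130101 (by decide +kernel)
theorem L130103 : W_46 (nat_lit 2) (nat_lit 0x14001e0002000100000000000000000000000) (nat_lit 0x0) (nat_lit 0x100008000000000001000000000000000000000000000) := D_46 (nat_lit 159) (nat_lit 176) (nat_lit 108) (nat_lit 6) (nat_lit 6) (nat_lit 10) (nat_lit 6) (nat_lit 6) (nat_lit 9) (by decide +kernel)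
theorem L130104 : W_46 (nat_lit 3) (nat_lit 0x14001e0002000000000000000000000000000) (nat_lit 0x0) (nat_lit 0x100008000000000001000100008000000000000000000) := T_46 (nat_lit 92) (nat_lit 75) (nat_lit 7) (nat_lit 7) (nat_lit 4) L130103 (by decide +kernel)
theorem L130105 : W_46 (nat_lit 4) (nat_lit 0x10001e0002000000000000000000000000000) (nat_lit 0x0) (nat_lit 0x100008000600000001000100008000000000000000000) := T_46 (nat_lit 142) (nat_lit 141) (nat_lit 1) (nat_lit 9) (nat_lit 7) L130104 (by decide +kernel)
theorem L130106 : W_46 (nat_lit 11) (nat_lit 0x10001e0000000000000000000000000000000) (nat_lit 0x0) (nat_lit 0x300018000e0000001b800fc003e000300000000000000) := Q_46 (nat_lit 109) (C_46 L122118 (C_46 L130098 (C_46 L130102 (C_46 L130105 N_46)))) (by decide +kernel)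
theorem L130107 : W_46 (nat_lit 2) (nat_lit 0x12001f0008400000000000000000000000000) (nat_lit 0x0) (nat_lit 0x800008000200000000000000000000000000) := D_46 (nat_lit 123) (nat_lit 143) (nat_lit 105) (nat_lit 3) (nat_lit 4) (nat_lit 7) (nat_lit 0) (nat_lit 7) (nat_lit 7) (by decide +kernel)
theorem L130108 : W_46 (nat_lit 3) (nat_lit 0x12001f0008000000000000000000000000000) (nat_lit 0x0) (nat_lit 0x800008000e00000000000000000000000000) := T_46 (nat_lit 106) (nat_lit 107) (nat_lit 0) (nat_lit 8) (nat_lit 7) L130107 (by decide +kernel)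
theorem L130109 : W_46 (nat_lit 4) (nat_lit 0x12001e0008000000000000000000000000000) (nat_lit 0x0) (nat_lit 0x900018000e00000000000000000000000000) := T_46 (nat_lit 124) (nat_lit 140) (nat_lit 1) (nat_lit 8) (nat_lit 7) L130108 (by decide +kernel)
theorem L130110 : W_46 (nat_lit 5) (nat_lit 0x12001e0000000000000000000000000000000) (nat_lit 0x0) (nat_lit 0x900018018e00000000000000000000000000) := T_46 (nat_lit 111) (nat_lit 112) (nat_lit 2) (nat_lit 6) (nat_lit 7) L130109 (by decide +kernel)
theorem L130111 : W_46 (nat_lit 6) (nat_lit 0x10001e0000000000000000000000000000000) (nat_lit 0x0) (nat_lit 0xf00018018e00000000000000000000000000) := T_46 (nat_lit 141) (nat_lit 142) (nat_lit 1) (nat_lit 9) (nat_lit 7) L130110 (by decide +kernel)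
theorem L130112 : W_46 (nat_lit 2) (nat_lit 0x10001f8000000000000000000000000000000) (nat_lit 0x0) (nat_lit 0xe00000000000000000000000000) := D_46 (nat_lit 106) (nat_lit 107) (nat_lit 105) (nat_lit 0) (nat_lit 8) (nat_lit 7) (nat_lit 0) (nat_lit 7) (nat_lit 7) (by decide +kernel)
theorem L130113 : W_46 (nat_lit 3) (nat_lit 0x10001f0000000000000000000000000000000) (nat_lit 0x0) (nat_lit 0x800008000e00000000000000000000000000) := T_46 (nat_lit 123) (nat_lit 143) (nat_lit 3) (nat_lit 4) (nat_lit 7) L130112 (by decide +kernel)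
theorem L130114 : W_46 (nat_lit 2) (nat_lit 0x10001f0000000000000000000000000000000) (nat_lit 0x0) (nat_lit 0x1c00000000000000000000000000) := D_46 (nat_lit 107) (nat_lit 106) (nat_lit 108) (nat_lit 0) (nat_lit 8) (nat_lit 7) (nat_lit 0) (nat_lit 9) (nat_lit 7) (by decide +kernel)
theorem L130115 : W_46 (nat_lit 2) (nat_lit 0x10801f8000200000000000000000000000000) (nat_lit 0x0) (nat_lit 0x40004000100000000000000000000000000) := D_46 (nat_lit 122) (nat_lit 138) (nat_lit 104) (nat_lit 1) (nat_lit 6) (nat_lit 7) (nat_lit 0) (nat_lit 6) (nat_lit 7) (by decide +kernel)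
theorem L130116 : W_46 (nat_lit 3) (nat_lit 0x10801f8000000000000000000000000000000) (nat_lit 0x0) (nat_lit 0x40004000700000000000000000000000000) := T_46 (nat_lit 105) (nat_lit 106) (nat_lit 0) (nat_lit 7) (nat_lit 7) L130115 (by decide +kernel)
theorem L130117 : W_46 (nat_lit 4) (nat_lit 0x10001f8000000000000000000000000000000) (nat_lit 0x0) (nat_lit 0x1c0004000700000000000000000000000000) := T_46 (nat_lit 139) (nat_lit 140) (nat_lit 1) (nat_lit 7) (nat_lit 7) L130116 (by decide +kernel)
theorem L130118 : W_46 (nat_lit 5) (nat_lit 0x10001f0000000000000000000000000000000) (nat_lit 0x0) (nat_lit 0x9c000c000700000000000000000000000000) := T_46 (nat_lit 123) (nat_lit 143) (nat_lit 3) (nat_lit 4) (nat_lit 7) L130117 (by decide +kernel)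
theorem L130119 : W_46 (nat_lit 2) (nat_lit 0x10001fc009000000020000000000000000000) (nat_lit 0x0) (nat_lit 0x1c0000000000000000000000000000000000) := D_46 (nat_lit 139) (nat_lit 138) (nat_lit 140) (nat_lit 1) (nat_lit 6) (nat_lit 7) (nat_lit 1) (nat_lit 7) (nat_lit 7) (by decide +kernel)
theorem L130120 : W_46 (nat_lit 3) (nat_lit 0x10001f8009000000020000000000000000000) (nat_lit 0x0) (nat_lit 0x1c0004002000000000000000000000000000) := T_46 (nat_lit 122) (nat_lit 109) (nat_lit 2) (nat_lit 3) (nat_lit 7) L130119 (by decide +kernel)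
theorem L130121 : W_46 (nat_lit 4) (nat_lit 0x10001f0009000000020000000000000000000) (nat_lit 0x0) (nat_lit 0x9c000c002000000000000000000000000000) := T_46 (nat_lit 123) (nat_lit 143) (nat_lit 3) (nat_lit 4) (nat_lit 7) L130120 (by decide +kernel)
theorem L130122 : W_46 (nat_lit 5) (nat_lit 0x10001f0009000000000000000000000000000) (nat_lit 0x0) (nat_lit 0x9c000c002000400020000000000000000000) := T_46 (nat_lit 77) (nat_lit 94) (nat_lit 5) (nat_lit 9) (nat_lit 4) L130121 (by decide +kernel)
theorem L130123 : W_46 (nat_lit 6) (nat_lit 0x10001f0008000000000000000000000000000) (nat_lit 0x0) (nat_lit 0x9c000c003800400020000000000000000000) := T_46 (nat_lit 108) (nat_lit 107) (nat_lit 0) (nat_lit 9) (nat_lit 7) L130122 (by decide +kernel)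
theorem L130124 : W_46 (nat_lit 7) (nat_lit 0x10001f0000000000000000000000000000000) (nat_lit 0x0) (nat_lit 0x9c000c01b800400020000000000000000000) := T_46 (nat_lit 111) (nat_lit 112) (nat_lit 2) (nat_lit 6) (nat_lit 7) L130123 (by decide +kernel)
theorem L130125 : W_46 (nat_lit 8) (nat_lit 0x10001e0000000000000000000000000000000) (nat_lit 0x0) (nat_lit 0x9c001c01bf00400020000000000000000000) := Q_46 (nat_lit 124) (C_46 L130113 (C_46 L130114 (C_46 L130118 (C_46 L130124 N_46)))) (by decide +kernel)
theorem L130126 : W_46 (nat_lit 2) (nat_lit 0x100018001e0000000000000000000000000000000) (nat_lit 0x0) (nat_lit 0x4000200000000000000001000000000000000000000000000) := D_46 (nat_lit 177) (nat_lit 194) (nat_lit 108) (nat_lit 6) (nat_lit 7) (nat_lit 11) (nat_lit 4) (nat_lit 7) (nat_lit 10) (by decide +kernel)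
theorem L130127 : W_46 (nat_lit 2) (nat_lit 0x100018001e0002000200000000000000000000000) (nat_lit 0x0) (nat_lit 0x100018000000000000000000) := D_46 (nat_lit 92) (nat_lit 75) (nat_lit 76) (nat_lit 7) (nat_lit 7) (nat_lit 4) (nat_lit 6) (nat_lit 7) (nat_lit 8) (by decide +kernel)
theorem L130128 : W_46 (nat_lit 6) (nat_lit 0x200010001a001e0000000000000000000000000000000) (nat_lit 0x0) (nat_lit 0xa000d0000e00000000001a000000000000000000000000000) := T_46 (nat_lit 111) (nat_lit 112) (nat_lit 2) (nat_lit 6) (nat_lit 7) L122208 (by decide +kernel)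
theorem L130129 : W_46 (nat_lit 7) (nat_lit 0x10001a001e0000000000000000000000000000000) (nat_lit 0x0) (nat_lit 0xe000f0000e00000000001a000000000000000000000000000) := T_46 (nat_lit 177) (nat_lit 194) (nat_lit 6) (nat_lit 7) (nat_lit 11) L130128 (by decide +kernel)
theorem L130130 : W_46 (nat_lit 8) (nat_lit 0x100018001e0000000000000000000000000000000) (nat_lit 0x0) (nat_lit 0xe000f0000e00060000001a000000000000000000000000000) := T_46 (nat_lit 141) (nat_lit 142) (nat_lit 2) (nat_lit 5) (nat_lit 8) L130129 (by decide +kernel)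
theorem L130131 : W_46 (nat_lit 3) (nat_lit 0x100018001e0002000000000000000000000000000) (nat_lit 0x0) (nat_lit 0x8000600000000000100008000000000000000000) := T_46 (nat_lit 142) (nat_lit 141) (nat_lit 2) (nat_lit 5) (nat_lit 8) L122108 (by decide +kernel)
theorem L130132 : W_46 (nat_lit 2) (nat_lit 0x180018001e000a000000000000000000000000000) (nat_lit 0x0) (nat_lit 0x400000000000100008000000000000000000) := D_46 (nat_lit 92) (nat_lit 142) (nat_lit 75) (nat_lit 5) (nat_lit 7) (nat_lit 5) (nat_lit 7) (nat_lit 7) (nat_lit 4) (by decide +kernel)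
theorem L130133 : W_46 (nat_lit 3) (nat_lit 0x100018001e000a000000000000000000000000000) (nat_lit 0x0) (nat_lit 0x100008000400000000000100008000000000000000000) := T_46 (nat_lit 159) (nat_lit 176) (nat_lit 5) (nat_lit 7) (nat_lit 6) L130132 (by decide +kernel)
theorem L130134 : W_46 (nat_lit 4) (nat_lit 0x100018001e0002000000000000000000000000000) (nat_lit 0x0) (nat_lit 0x100008000400000018000100008000000000000000000) := T_46 (nat_lit 111) (nat_lit 112) (nat_lit 2) (nat_lit 6) (nat_lit 7) L130133 (by decide +kernel)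
theorem L130135 : W_46 (nat_lit 2) (nat_lit 0x100018001e0001000000000000000000000000000) (nat_lit 0x0) (nat_lit 0x2000080004000000000000000000) := D_46 (nat_lit 91) (nat_lit 109) (nat_lit 74) (nat_lit 4) (nat_lit 7) (nat_lit 9) (nat_lit 7) (nat_lit 6) (nat_lit 4) (by decide +kernel)
theorem L130136 : W_46 (nat_lit 2) (nat_lit 0x1000100018001e000a000380020000000000000000000) (nat_lit 0x0) (nat_lit 0x6000200000000000000000000000000000000000000000000) := D_46 (nat_lit 177) (nat_lit 194) (nat_lit 193) (nat_lit 6) (nat_lit 7) (nat_lit 11) (nat_lit 5) (nat_lit 7) (nat_lit 7) (by decide +kernel)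
theorem L130137 : W_46 (nat_lit 3) (nat_lit 0x100018001e000a000380020000000000000000000) (nat_lit 0x0) (nat_lit 0x6000300008000000000000000000000000000000000000000) := T_46 (nat_lit 176) (nat_lit 159) (nat_lit 5) (nat_lit 7) (nat_lit 6) L130136 (by decide +kernel)
theorem L130138 : W_46 (nat_lit 4) (nat_lit 0x100018001e000a000180020000000000000000000) (nat_lit 0x0) (nat_lit 0x6000300008000000000000000200010000000000000000000) := T_46 (nat_lit 93) (nat_lit 76) (nat_lit 6) (nat_lit 7) (nat_lit 8) L130137 (by decide +kernel)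
theorem L130139 : W_46 (nat_lit 5) (nat_lit 0x18001e000a000180020000000000000000000) (nat_lit 0x0) (nat_lit 0x6000300018000000000001000200010000000000000000000) := T_46 (nat_lit 160) (nat_lit 108) (nat_lit 4) (nat_lit 7) (nat_lit 9) L130138 (by decide +kernel)
theorem L130140 : W_46 (nat_lit 6) (nat_lit 0x18001e000a000180000000000000000000000) (nat_lit 0x0) (nat_lit 0x6000300018000000000001000600030000000000000000000) := T_46 (nat_lit 77) (nat_lit 94) (nat_lit 5) (nat_lit 9) (nat_lit 4) L130139 (by decide +kernel)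
theorem L130141 : W_46 (nat_lit 7) (nat_lit 0x18001e000a000100000000000000000000000) (nat_lit 0x0) (nat_lit 0x6000300018000000000001000680034000000000000000000) := T_46 (nat_lit 91) (nat_lit 74) (nat_lit 4) (nat_lit 7) (nat_lit 8) L130140 (by decide +kernel)
theorem L130142 : W_46 (nat_lit 8) (nat_lit 0x18001e0002000100000000000000000000000) (nat_lit 0x0) (nat_lit 0x6000300018000000000019000680034000000000000000000) := T_46 (nat_lit 111) (nat_lit 112) (nat_lit 2) (nat_lit 6) (nat_lit 7) L130141 (by decide +kernel)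
theorem L130143 : W_46 (nat_lit 2) (nat_lit 0x10001f0000000000000000000000000000000) (nat_lit 0x0) (nat_lit 0x700000000000000000000000000000000000) := D_46 (nat_lit 141) (nat_lit 142) (nat_lit 140) (nat_lit 1) (nat_lit 9) (nat_lit 7) (nat_lit 1) (nat_lit 8) (nat_lit 7) (by decide +kernel)
theorem L130144 : W_46 (nat_lit 2) (nat_lit 0x18001f000a000100020000000000000000000) (nat_lit 0x0) (nat_lit 0x8000600000000000000000000000000000000000) := D_46 (nat_lit 142) (nat_lit 141) (nat_lit 159) (nat_lit 2) (nat_lit 5) (nat_lit 8) (nat_lit 5) (nat_lit 7) (nat_lit 5) (by decide +kernel)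
theorem L130145 : W_46 (nat_lit 3) (nat_lit 0x10001f000a000100020000000000000000000) (nat_lit 0x0) (nat_lit 0x8000e00008000000000000000000000000000000) := T_46 (nat_lit 143) (nat_lit 123) (nat_lit 3) (nat_lit 4) (nat_lit 7) L130144 (by decide +kernel)
theorem L130146 : W_46 (nat_lit 4) (nat_lit 0x10001f000a000100000000000000000000000) (nat_lit 0x0) (nat_lit 0x8000e00008000000400020000000000000000000) := T_46 (nat_lit 77) (nat_lit 94) (nat_lit 5) (nat_lit 9) (nat_lit 4) L130145 (by decide +kernel)
theorem L130147 : W_46 (nat_lit 5) (nat_lit 0x10001f000a000000000000000000000000000) (nat_lit 0x0) (nat_lit 0x8000e00008000000500028000000000000000000) := T_46 (nat_lit 92) (nat_lit 75) (nat_lit 7) (nat_lit 7) (nat_lit 4) L130146 (by decide +kernel)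
theorem L130148 : W_46 (nat_lit 6) (nat_lit 0x10001f0002000000000000000000000000000) (nat_lit 0x0) (nat_lit 0x8000e00008018000500028000000000000000000) := T_46 (nat_lit 111) (nat_lit 112) (nat_lit 2) (nat_lit 6) (nat_lit 7) L130147 (by decide +kernel)
theorem L130149 : W_46 (nat_lit 2) (nat_lit 0x1000000014001fc002000000008000000000000000000) (nat_lit 0x0) (nat_lit 0x700000000000000000000000000) := D_46 (nat_lit 105) (nat_lit 106) (nat_lit 104) (nat_lit 0) (nat_lit 7) (nat_lit 7) (nat_lit 0) (nat_lit 6) (nat_lit 7) (by decide +kernel)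
theorem L130150 : W_46 (nat_lit 3) (nat_lit 0x1000000014001f8002000000008000000000000000000) (nat_lit 0x0) (nat_lit 0x4001700000000000000000000000000) := T_46 (nat_lit 122) (nat_lit 108) (nat_lit 2) (nat_lit 3) (nat_lit 7) L130149 (by decide +kernel)
theorem L130151 : W_46 (nat_lit 4) (nat_lit 0x1000000014001f0002000000008000000000000000000) (nat_lit 0x0) (nat_lit 0x80000c001700000000000000000000000000) := T_46 (nat_lit 123) (nat_lit 143) (nat_lit 3) (nat_lit 4) (nat_lit 7) L130150 (by decide +kernel)
theorem L130152 : W_46 (nat_lit 5) (nat_lit 0x14001f0002000000008000000000000000000) (nat_lit 0x0) (nat_lit 0x10000800080000c001700000000000000000000000000) := T_46 (nat_lit 176) (nat_lit 159) (nat_lit 6) (nat_lit 6) (nat_lit 10) L130151 (by decide +kernel)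
theorem L130153 : W_46 (nat_lit 6) (nat_lit 0x14001f0002000000000000000000000000000) (nat_lit 0x0) (nat_lit 0x10000800080000c001700100008000000000000000000) := T_46 (nat_lit 75) (nat_lit 92) (nat_lit 7) (nat_lit 7) (nat_lit 4) L130152 (by decide +kernel)
theorem L130154 : W_46 (nat_lit 7) (nat_lit 0x10001f0002000000000000000000000000000) (nat_lit 0x0) (nat_lit 0x100008000e0000c001700100008000000000000000000) := T_46 (nat_lit 142) (nat_lit 141) (nat_lit 1) (nat_lit 9) (nat_lit 7) L130153 (by decide +kernel)
theorem L130155 : W_46 (nat_lit 2) (nat_lit 0x10001fc002000000000000000000000000000) (nat_lit 0x0) (nat_lit 0x700000000000000000000000000) := D_46 (nat_lit 105) (nat_lit 106) (nat_lit 104) (nat_lit 0) (nat_lit 7) (nat_lit 7) (nat_lit 0) (nat_lit 6) (nat_lit 7) (by decide +kernel)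
theorem L130156 : W_46 (nat_lit 3) (nat_lit 0x10001f8002000000000000000000000000000) (nat_lit 0x0) (nat_lit 0x4001700000000000000000000000000) := T_46 (nat_lit 122) (nat_lit 108) (nat_lit 2) (nat_lit 3) (nat_lit 7) L130155 (by decide +kernel)
theorem L130157 : W_46 (nat_lit 4) (nat_lit 0x10001f0002000000000000000000000000000) (nat_lit 0x0) (nat_lit 0x80000c001700000000000000000000000000) := T_46 (nat_lit 123) (nat_lit 143) (nat_lit 3) (nat_lit 4) (nat_lit 7) L130156 (by decide +kernel)
theorem L130158 : W_46 (nat_lit 2) (nat_lit 0x80014001f000a000000020000000000000000000) (nat_lit 0x0) (nat_lit 0x1000100008000000000000000000) := D_46 (nat_lit 92) (nat_lit 75) (nat_lit 108) (nat_lit 7) (nat_lit 7) (nat_lit 4) (nat_lit 6) (nat_lit 6) (nat_lit 9) (by decide +kernel)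
theorem L130159 : W_46 (nat_lit 3) (nat_lit 0x14001f000a000000020000000000000000000) (nat_lit 0x0) (nat_lit 0x100008000000000001000100008000000000000000000) := T_46 (nat_lit 159) (nat_lit 176) (nat_lit 6) (nat_lit 6) (nat_lit 10) L130158 (by decide +kernel)
theorem L130160 : W_46 (nat_lit 4) (nat_lit 0x14001f000a000000000000000000000000000) (nat_lit 0x0) (nat_lit 0x100008000000000001000500028000000000000000000) := T_46 (nat_lit 77) (nat_lit 94) (nat_lit 5) (nat_lit 9) (nat_lit 4) L130159 (by decide +kernel)
theorem L130161 : W_46 (nat_lit 5) (nat_lit 0x10001f000a000000000000000000000000000) (nat_lit 0x0) (nat_lit 0x100008000600000001000500028000000000000000000) := T_46 (nat_lit 142) (nat_lit 141) (nat_lit 1) (nat_lit 9) (nat_lit 7) L130160 (by decide +kernel)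
theorem L130162 : W_46 (nat_lit 6) (nat_lit 0x10001f0002000000000000000000000000000) (nat_lit 0x0) (nat_lit 0x100008000600000019000500028000000000000000000) := T_46 (nat_lit 111) (nat_lit 112) (nat_lit 2) (nat_lit 6) (nat_lit 7) L130161 (by decide +kernel)
theorem L130163 : W_46 (nat_lit 8) (nat_lit 0x10001f0000000000000000000000000000000) (nat_lit 0x0) (nat_lit 0x100008000e0000c01b700500028000000000000000000) := Q_46 (nat_lit 109) (C_46 L130148 (C_46 L130154 (C_46 L130157 (C_46 L130162 N_46)))) (by decide +kernel)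
theorem L130164 : W_46 (nat_lit 9) (nat_lit 0x10001e0000000000000000000000000000000) (nat_lit 0x0) (nat_lit 0x100008000fc001c01b700500028000000000000000000) := Q_46 (nat_lit 124) (C_46 L130118 (C_46 L130143 (C_46 L130163 N_46))) (by decide +kernel)
theorem L130165 : W_46 (nat_lit 2) (nat_lit 0x10000e0000c00000000000000000000000000) (nat_lit 0x0) (nat_lit 0x3200000000000000000000000000) := D_46 (nat_lit 108) (nat_lit 105) (nat_lit 109) (nat_lit 3) (nat_lit 3) (nat_lit 6) (nat_lit 3) (nat_lit 4) (nat_lit 6) (by decide +kernel)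
theorem L130166 : W_46 (nat_lit 3) (nat_lit 0x10000e0000800000000000000000000000000) (nat_lit 0x0) (nat_lit 0x10003600000000000000000000000000) := T_46 (nat_lit 106) (nat_lit 124) (nat_lit 0) (nat_lit 8) (nat_lit 7) L130165 (by decide +kernel)
theorem L130167 : W_46 (nat_lit 2) (nat_lit 0x16000f0000800000000000000000000000000) (nat_lit 0x0) (nat_lit 0x100008000000000000000040000000000000000000000) := D_46 (nat_lit 159) (nat_lit 176) (nat_lit 90) (nat_lit 4) (nat_lit 6) (nat_lit 10) (nat_lit 7) (nat_lit 5) (nat_lit 5) (by decide +kernel)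
theorem L130168 : W_46 (nat_lit 3) (nat_lit 0x12000f0000800000000000000000000000000) (nat_lit 0x0) (nat_lit 0x100008000400100000000040000000000000000000000) := T_46 (nat_lit 142) (nat_lit 128) (nat_lit 1) (nat_lit 9) (nat_lit 7) L130167 (by decide +kernel)
theorem L130169 : W_46 (nat_lit 4) (nat_lit 0x10000f0000800000000000000000000000000) (nat_lit 0x0) (nat_lit 0x100008000700100000000040000000000000000000000) := T_46 (nat_lit 141) (nat_lit 140) (nat_lit 1) (nat_lit 8) (nat_lit 7) L130168 (by decide +kernel)
theorem L130170 : W_46 (nat_lit 5) (nat_lit 0x10000e0000800000000000000000000000000) (nat_lit 0x0) (nat_lit 0x100008000700110000400040000000000000000000000) := T_46 (nat_lit 124) (nat_lit 106) (nat_lit 0) (nat_lit 8) (nat_lit 7) L130169 (by decide +kernel)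
theorem L130171 : W_46 (nat_lit 2) (nat_lit 0xc0014000e0001800080000000000000000000000) (nat_lit 0x0) (nat_lit 0x2000100008000000000000000000) := D_46 (nat_lit 92) (nat_lit 109) (nat_lit 75) (nat_lit 6) (nat_lit 6) (nat_lit 9) (nat_lit 6) (nat_lit 6) (nat_lit 8) (by decide +kernel)
theorem L130172 : W_46 (nat_lit 3) (nat_lit 0xc0014000e0001800000000000000000000000000) (nat_lit 0x0) (nat_lit 0x200000002000180008000000000000000000) := T_46 (nat_lit 91) (nat_lit 141) (nat_lit 5) (nat_lit 6) (nat_lit 5) L130171 (by decide +kernel)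
theorem L130173 : W_46 (nat_lit 4) (nat_lit 0x80014000e0001800000000000000000000000000) (nat_lit 0x0) (nat_lit 0x80004000200000002000180008000000000000000000) := T_46 (nat_lit 158) (nat_lit 175) (nat_lit 5) (nat_lit 6) (nat_lit 6) L130172 (by decide +kernel)
theorem L130174 : W_46 (nat_lit 5) (nat_lit 0x80014000e0000800000000000000000000000000) (nat_lit 0x0) (nat_lit 0x800040002000000030001c0008000000000000000000) := T_46 (nat_lit 108) (nat_lit 90) (nat_lit 4) (nat_lit 6) (nat_lit 9) L130173 (by decide +kernel)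
theorem L130175 : W_46 (nat_lit 6) (nat_lit 0x14000e0000800000000000000000000000000) (nat_lit 0x0) (nat_lit 0x500038001c0002000100030001c0008000000000000000000) := Q_46 (nat_lit 159) (C_46 L122058 (C_46 L122061 (C_46 L122064 (C_46 L130174 N_46)))) (by decide +kernel)
theorem L130176 : W_46 (nat_lit 7) (nat_lit 0x10000e0000800000000000000000000000000) (nat_lit 0x0) (nat_lit 0x500038001c0007801100030001c0008000000000000000000) := Q_46 (nat_lit 142) (C_46 L122073 (C_46 L122071 (C_46 L122057 (C_46 L130175 N_46)))) (by decide +kernel)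
theorem L130177 : W_46 (nat_lit 8) (nat_lit 0x10000e0000000000000000000000000000000) (nat_lit 0x0) (nat_lit 0x500038001c000780110003e001c0008000000000000000000) := Q_46 (nat_lit 107) (C_46 L122050 (C_46 L122048 (C_46 L130166 (C_46 L130170 (C_46 L130176 N_46))))) (by decide +kernel)
theorem L130178 : W_46 (nat_lit 2) (nat_lit 0x12000f0001800000000000000000000000000) (nat_lit 0x0) (nat_lit 0x4000000000000000080004000000000000000000) := D_46 (nat_lit 91) (nat_lit 74) (nat_lit 158) (nat_lit 5) (nat_lit 6) (nat_lit 4) (nat_lit 6) (nat_lit 5) (nat_lit 9) (by decide +kernel)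
theorem L130179 : W_46 (nat_lit 3) (nat_lit 0x12000f0000800000000000000000000000000) (nat_lit 0x0) (nat_lit 0x4000000100001000080004000000000000000000) := T_46 (nat_lit 108) (nat_lit 128) (nat_lit 0) (nat_lit 9) (nat_lit 7) L130178 (by decide +kernel)
theorem L130180 : W_46 (nat_lit 4) (nat_lit 0x10000f0000800000000000000000000000000) (nat_lit 0x0) (nat_lit 0x4000300100001000080004000000000000000000) := T_46 (nat_lit 141) (nat_lit 140) (nat_lit 1) (nat_lit 8) (nat_lit 7) L130179 (by decide +kernel)
theorem L130181 : W_46 (nat_lit 5) (nat_lit 0x10000f0000000000000000000000000000000) (nat_lit 0x0) (nat_lit 0x4000300100001c00080004000000000000000000) := T_46 (nat_lit 107) (nat_lit 106) (nat_lit 0) (nat_lit 8) (nat_lit 7) L130180 (by decide +kernel)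
theorem L130182 : W_46 (nat_lit 7) (nat_lit 0x10000e0000000000000000000000000000000) (nat_lit 0x0) (nat_lit 0x4000bc011e003c00080004000000000000000000) := Q_46 (nat_lit 124) (C_46 L130181 (C_46 L122093 (C_46 L124542 (C_46 L122431 N_46)))) (by decide +kernel)
theorem L130183 : W_46 (nat_lit 6) (nat_lit 0x10001e0000000000000000000000000000000) (nat_lit 0x0) (nat_lit 0x1c800600039800000000000000000000000000) := T_46 (nat_lit 108) (nat_lit 107) (nat_lit 0) (nat_lit 9) (nat_lit 7) L124706 (by decide +kernel)
theorem L130184 : W_46 (nat_lit 2) (nat_lit 0x14001e000b000000020000000000000000000) (nat_lit 0x0) (nat_lit 0x8000000000000000100008000000000000000000) := D_46 (nat_lit 92) (nat_lit 75) (nat_lit 159) (nat_lit 7) (nat_lit 7) (nat_lit 4) (nat_lit 6) (nat_lit 6) (nat_lit 9) (by decide +kernel)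
theorem L130185 : W_46 (nat_lit 3) (nat_lit 0x14001e0009000000020000000000000000000) (nat_lit 0x0) (nat_lit 0x8000000200002000100008000000000000000000) := T_46 (nat_lit 109) (nat_lit 129) (nat_lit 0) (nat_lit 10) (nat_lit 7) L130184 (by decide +kernel)
theorem L130186 : W_46 (nat_lit 4) (nat_lit 0x14001e0008000000020000000000000000000) (nat_lit 0x0) (nat_lit 0x8000000200003800100008000000000000000000) := T_46 (nat_lit 108) (nat_lit 107) (nat_lit 0) (nat_lit 9) (nat_lit 7) L130185 (by decide +kernel)
theorem L130187 : W_46 (nat_lit 5) (nat_lit 0x14001e0008000000000000000000000000000) (nat_lit 0x0) (nat_lit 0x8000000200003800500028000000000000000000) := T_46 (nat_lit 77) (nat_lit 94) (nat_lit 5) (nat_lit 9) (nat_lit 4) L130186 (by decide +kernel)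
theorem L130188 : W_46 (nat_lit 6) (nat_lit 0x10001e0008000000000000000000000000000) (nat_lit 0x0) (nat_lit 0x8000600200003800500028000000000000000000) := T_46 (nat_lit 142) (nat_lit 141) (nat_lit 1) (nat_lit 9) (nat_lit 7) L130187 (by decide +kernel)
theorem L130189 : W_46 (nat_lit 7) (nat_lit 0x10001e0000000000000000000000000000000) (nat_lit 0x0) (nat_lit 0x800060020001b800500028000000000000000000) := T_46 (nat_lit 111) (nat_lit 112) (nat_lit 2) (nat_lit 6) (nat_lit 7) L130188 (by decide +kernel)
theorem L130190 : W_46 (nat_lit 2) (nat_lit 0x14001e0010000000000000000000000000000) (nat_lit 0x0) (nat_lit 0x800200020000000000000000000000000000) := D_46 (nat_lit 129) (nat_lit 113) (nat_lit 143) (nat_lit 2) (nat_lit 7) (nat_lit 7) (nat_lit 1) (nat_lit 10) (nat_lit 7) (by decide +kernel)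
theorem L130191 : W_46 (nat_lit 3) (nat_lit 0x10001e0010000000000000000000000000000) (nat_lit 0x0) (nat_lit 0xe00200020000000000000000000000000000) := T_46 (nat_lit 142) (nat_lit 141) (nat_lit 1) (nat_lit 9) (nat_lit 7) L130190 (by decide +kernel)
theorem L130192 : W_46 (nat_lit 4) (nat_lit 0x10001e0000000000000000000000000000000) (nat_lit 0x0) (nat_lit 0xe00200038000000000000000000000000000) := T_46 (nat_lit 112) (nat_lit 111) (nat_lit 2) (nat_lit 6) (nat_lit 7) L130191 (by decide +kernel)
theorem L130193 : W_46 (nat_lit 12) (nat_lit 0x10000e0000000000000000000000000000000) (nat_lit 0x0) (nat_lit 0x30001801ce0070003b800fc003e000300000000000000) := Q_46 (nat_lit 128) (C_46 L130183 (C_46 L130189 (C_46 L124433 (C_46 L130106 (C_46 L130192 N_46))))) (by decide +kernel)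
theorem L130194 : W_46 (nat_lit 2) (nat_lit 0x11000f0000400000000000000000000000000) (nat_lit 0x0) (nat_lit 0x80008000200000000000000000000000000) := D_46 (nat_lit 123) (nat_lit 105) (nat_lit 139) (nat_lit 0) (nat_lit 7) (nat_lit 7) (nat_lit 1) (nat_lit 7) (nat_lit 7) (by decide +kernel)
theorem L130195 : W_46 (nat_lit 3) (nat_lit 0x10000f0000400000000000000000000000000) (nat_lit 0x0) (nat_lit 0x380008000200000000000000000000000000) := T_46 (nat_lit 140) (nat_lit 141) (nat_lit 1) (nat_lit 8) (nat_lit 7) L130194 (by decide +kernel)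
theorem L130196 : W_46 (nat_lit 4) (nat_lit 0x10000f0000000000000000000000000000000) (nat_lit 0x0) (nat_lit 0x380008000e00000000000000000000000000) := T_46 (nat_lit 106) (nat_lit 107) (nat_lit 0) (nat_lit 8) (nat_lit 7) L130195 (by decide +kernel)
theorem L130197 : W_46 (nat_lit 2) (nat_lit 0x10000f8000000000000000000000000000000) (nat_lit 0x0) (nat_lit 0xe00000000000000000000000000) := D_46 (nat_lit 106) (nat_lit 107) (nat_lit 105) (nat_lit 0) (nat_lit 8) (nat_lit 7) (nat_lit 0) (nat_lit 7) (nat_lit 7) (by decide +kernel)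
theorem L130198 : W_46 (nat_lit 3) (nat_lit 0x10000f0000000000000000000000000000000) (nat_lit 0x0) (nat_lit 0x800008000e00000000000000000000000000) := T_46 (nat_lit 123) (nat_lit 143) (nat_lit 3) (nat_lit 4) (nat_lit 7) L130197 (by decide +kernel)
theorem L130199 : W_46 (nat_lit 2) (nat_lit 0x1400040012000f00008000e0000000000000000000000) (nat_lit 0x0) (nat_lit 0x2800080000000000000000000000000000000000000000000) := D_46 (nat_lit 175) (nat_lit 191) (nat_lit 193) (nat_lit 5) (nat_lit 5) (nat_lit 7) (nat_lit 7) (nat_lit 5) (nat_lit 7) (by decide +kernel)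
theorem L130200 : W_46 (nat_lit 3) (nat_lit 0x400040012000f00008000e0000000000000000000000) (nat_lit 0x0) (nat_lit 0x2800180008000000000000000000000000000000000000000) := T_46 (nat_lit 176) (nat_lit 159) (nat_lit 7) (nat_lit 5) (nat_lit 6) L130199 (by decide +kernel)
theorem L130201 : W_46 (nat_lit 4) (nat_lit 0x40012000f00008000e0000000000000000000000) (nat_lit 0x0) (nat_lit 0x28001c000a000000000000000000000000000000000000000) := T_46 (nat_lit 174) (nat_lit 157) (nat_lit 5) (nat_lit 5) (nat_lit 6) L130200 (by decide +kernel)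
theorem L130202 : W_46 (nat_lit 5) (nat_lit 0x12000f00008000e0000000000000000000000) (nat_lit 0x0) (nat_lit 0x28001c000e000000000001000000000000000000000000000) := T_46 (nat_lit 158) (nat_lit 108) (nat_lit 6) (nat_lit 5) (nat_lit 9) L130201 (by decide +kernel)
theorem L130203 : W_46 (nat_lit 6) (nat_lit 0x12000f0000800060000000000000000000000) (nat_lit 0x0) (nat_lit 0x28001c000e000000000001000080004000000000000000000) := T_46 (nat_lit 91) (nat_lit 74) (nat_lit 6) (nat_lit 5) (nat_lit 8) L130202 (by decide +kernel)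
theorem L130204 : W_46 (nat_lit 7) (nat_lit 0x12000f0000800040000000000000000000000) (nat_lit 0x0) (nat_lit 0x28001c000e0000000000010000a0005000000000000000000) := T_46 (nat_lit 89) (nat_lit 72) (nat_lit 4) (nat_lit 5) (nat_lit 8) L130203 (by decide +kernel)
theorem L130205 : W_46 (nat_lit 8) (nat_lit 0x10000f0000800040000000000000000000000) (nat_lit 0x0) (nat_lit 0x28001c000e0003000000010000a0005000000000000000000) := T_46 (nat_lit 141) (nat_lit 140) (nat_lit 1) (nat_lit 8) (nat_lit 7) L130204 (by decide +kernel)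
theorem L130206 : W_46 (nat_lit 9) (nat_lit 0x10000f0000800000000000000000000000000) (nat_lit 0x0) (nat_lit 0x28001c000e0007000000010000e0007000380010000000000) := Q_46 (nat_lit 90) (C_46 L122374 (C_46 L122377 (C_46 L130205 N_46))) (by decide +kernel)
theorem L130207 : W_46 (nat_lit 10) (nat_lit 0x10000f0000000000000000000000000000000) (nat_lit 0x0) (nat_lit 0x28001c000e000700000001c000e0007000380010000000000) := T_46 (nat_lit 107) (nat_lit 106) (nat_lit 0) (nat_lit 8) (nat_lit 7) L130206 (by decide +kernel)
theorem L130208 : W_46 (nat_lit 11) (nat_lit 0x10000e0000000000000000000000000000000) (nat_lit 0x0) (nat_lit 0x28001c000e000f80018001e000e0007000380010000000000) := Q_46 (nat_lit 124) (C_46 L122093 (C_46 L130196 (C_46 L130198 (C_46 L130207 N_46)))) (by decide +kernel)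
theorem L130209 : W_46 (nat_lit 5) (nat_lit 0x10000f0000000000000000000000000000000) (nat_lit 0x0) (nat_lit 0x100008000700100000c00040000000000000000000000) := T_46 (nat_lit 107) (nat_lit 106) (nat_lit 0) (nat_lit 8) (nat_lit 7) L130169 (by decide +kernel)
theorem L130210 : W_46 (nat_lit 6) (nat_lit 0x10000e0000000000000000000000000000000) (nat_lit 0x0) (nat_lit 0x100008000f80118000e00040000000000000000000000) := Q_46 (nat_lit 124) (C_46 L130198 (C_46 L130196 (C_46 L122093 (C_46 L130209 N_46)))) (by decide +kernel)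
theorem L130211 : W_46 (nat_lit 2) (nat_lit 0x10001e0011000000000000000000000000000) (nat_lit 0x0) (nat_lit 0x200022000000000000000000000000000) := D_46 (nat_lit 129) (nat_lit 109) (nat_lit 113) (nat_lit 0) (nat_lit 10) (nat_lit 7) (nat_lit 2) (nat_lit 7) (nat_lit 7) (by decide +kernel)
theorem L130212 : W_46 (nat_lit 3) (nat_lit 0x10001e0001000000000000000000000000000) (nat_lit 0x0) (nat_lit 0x20003a000000000000000000000000000) := T_46 (nat_lit 112) (nat_lit 111) (nat_lit 2) (nat_lit 6) (nat_lit 7) L130211 (by decide +kernel)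
theorem L130213 : W_46 (nat_lit 4) (nat_lit 0x10001e0000000000000000000000000000000) (nat_lit 0x0) (nat_lit 0x20003b800000000000000000000000000) := T_46 (nat_lit 108) (nat_lit 107) (nat_lit 0) (nat_lit 9) (nat_lit 7) L130212 (by decide +kernel)
theorem L130214 : W_46 (nat_lit 2) (nat_lit 0x10003e0001000000000000000000000000000) (nat_lit 0x0) (nat_lit 0xc00400000000000000000000000000000000) := D_46 (nat_lit 143) (nat_lit 142) (nat_lit 130) (nat_lit 1) (nat_lit 10) (nat_lit 7) (nat_lit 1) (nat_lit 11) (nat_lit 7) (by decide +kernel)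
theorem L130215 : W_46 (nat_lit 3) (nat_lit 0x10001e0001000000000000000000000000000) (nat_lit 0x0) (nat_lit 0xc00600002000000000000000000000000000) := T_46 (nat_lit 129) (nat_lit 109) (nat_lit 0) (nat_lit 10) (nat_lit 7) L130214 (by decide +kernel)
theorem L130216 : W_46 (nat_lit 4) (nat_lit 0x10001e0000000000000000000000000000000) (nat_lit 0x0) (nat_lit 0xc00600003800000000000000000000000000) := T_46 (nat_lit 108) (nat_lit 107) (nat_lit 0) (nat_lit 9) (nat_lit 7) L130215 (by decide +kernel)
theorem L130217 : W_46 (nat_lit 4) (nat_lit 0x10001e0010000000000000000000000000000) (nat_lit 0x0) (nat_lit 0x1c800600020000000000000000000000000000) := T_46 (nat_lit 129) (nat_lit 113) (nat_lit 2) (nat_lit 7) (nat_lit 7) L122916 (by decide +kernel)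
theorem L130218 : W_46 (nat_lit 5) (nat_lit 0x10001e0000000000000000000000000000000) (nat_lit 0x0) (nat_lit 0x1c800600038000000000000000000000000000) := T_46 (nat_lit 112) (nat_lit 111) (nat_lit 2) (nat_lit 6) (nat_lit 7) L130217 (by decide +kernel)
theorem L130219 : W_46 (nat_lit 9) (nat_lit 0x10000e0000000000000000000000000000000) (nat_lit 0x0) (nat_lit 0x1cdc071c03bf00400020000000000000000000) := Q_46 (nat_lit 128) (C_46 L130183 (C_46 L130213 (C_46 L130216 (C_46 L130125 (C_46 L130218 N_46))))) (by decide +kernel)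
theorem L130220 : W_46 (nat_lit 2) (nat_lit 0x10001e0012000000008000000000000000000) (nat_lit 0x0) (nat_lit 0x200021000000000000000000000000000) := D_46 (nat_lit 129) (nat_lit 113) (nat_lit 108) (nat_lit 2) (nat_lit 7) (nat_lit 7) (nat_lit 0) (nat_lit 10) (nat_lit 7) (by decide +kernel)
theorem L130221 : W_46 (nat_lit 3) (nat_lit 0x10001e0010000000008000000000000000000) (nat_lit 0x0) (nat_lit 0x200023000100000000000000000000000) := T_46 (nat_lit 109) (nat_lit 92) (nat_lit 7) (nat_lit 7) (nat_lit 4) L130220 (by decide +kernel)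
theorem L130222 : W_46 (nat_lit 4) (nat_lit 0x10001e0000000000008000000000000000000) (nat_lit 0x0) (nat_lit 0x20003b000100000000000000000000000) := T_46 (nat_lit 112) (nat_lit 111) (nat_lit 2) (nat_lit 6) (nat_lit 7) L130221 (by decide +kernel)
theorem L130223 : W_46 (nat_lit 5) (nat_lit 0x10001e0000000400038000000000000000000) (nat_lit 0x0) (nat_lit 0x8e0006003800000000000000) := T_46 (nat_lit 74) (nat_lit 95) (nat_lit 3) (nat_lit 6) (nat_lit 4) L122170 (by decide +kernel)
theorem L130224 : W_46 (nat_lit 6) (nat_lit 0x10001e0000000000038000000000000000000) (nat_lit 0x0) (nat_lit 0x8000ce0006003800000000000000) := T_46 (nat_lit 94) (nat_lit 111) (nat_lit 5) (nat_lit 9) (nat_lit 4) L130223 (by decide +kernel)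
theorem L130225 : W_46 (nat_lit 2) (nat_lit 0x10001e0000000100078000400000000000000) (nat_lit 0x0) (nat_lit 0x200080000800000000000000) := D_46 (nat_lit 79) (nat_lit 93) (nat_lit 59) (nat_lit 1) (nat_lit 11) (nat_lit 4) (nat_lit 0) (nat_lit 11) (nat_lit 4) (by decide +kernel)
theorem L130226 : W_46 (nat_lit 3) (nat_lit 0x10001e0000000100078000000000000000000) (nat_lit 0x0) (nat_lit 0x200080000e00000000000000) := T_46 (nat_lit 58) (nat_lit 57) (nat_lit 0) (nat_lit 10) (nat_lit 4) L130225 (by decide +kernel)
theorem L130227 : W_46 (nat_lit 4) (nat_lit 0x10001e0000000100038000000000000000000) (nat_lit 0x0) (nat_lit 0x2800c0000e00000000000000) := T_46 (nat_lit 78) (nat_lit 91) (nat_lit 1) (nat_lit 10) (nat_lit 4) L130226 (by decide +kernel)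
theorem L130228 : W_46 (nat_lit 5) (nat_lit 0x10001e0000000000038000000000000000000) (nat_lit 0x0) (nat_lit 0x20003800c0000e00000000000000) := T_46 (nat_lit 92) (nat_lit 109) (nat_lit 7) (nat_lit 7) (nat_lit 4) L130227 (by decide +kernel)
theorem L130229 : W_46 (nat_lit 2) (nat_lit 0x14001e000000040003e000000000000000000) (nat_lit 0x0) (nat_lit 0x3800000000000000) := D_46 (nat_lit 60) (nat_lit 59) (nat_lit 61) (nat_lit 2) (nat_lit 5) (nat_lit 4) (nat_lit 2) (nat_lit 6) (nat_lit 4) (by decide +kernel)
theorem L130230 : W_46 (nat_lit 3) (nat_lit 0x14001e000000040003c000000000000000000) (nat_lit 0x0) (nat_lit 0x200002003800000000000000) := T_46 (nat_lit 73) (nat_lit 93) (nat_lit 3) (nat_lit 5) (nat_lit 4) L130229 (by decide +kernel)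
theorem L130231 : W_46 (nat_lit 4) (nat_lit 0x14001e0000000400038000000000000000000) (nat_lit 0x0) (nat_lit 0xa00006003800000000000000) := T_46 (nat_lit 74) (nat_lit 95) (nat_lit 3) (nat_lit 6) (nat_lit 4) L130230 (by decide +kernel)
theorem L130232 : W_46 (nat_lit 5) (nat_lit 0x14001e0000000000038000000000000000000) (nat_lit 0x0) (nat_lit 0x8000e00006003800000000000000) := T_46 (nat_lit 94) (nat_lit 111) (nat_lit 5) (nat_lit 9) (nat_lit 4) L130231 (by decide +kernel)
theorem L130233 : W_46 (nat_lit 6) (nat_lit 0x10001e0000000000038000000000000000000) (nat_lit 0x0) (nat_lit 0x600000008000e00006003800000000000000) := T_46 (nat_lit 142) (nat_lit 141) (nat_lit 1) (nat_lit 9) (nat_lit 7) L130232 (by decide +kernel)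
theorem L130234 : W_46 (nat_lit 2) (nat_lit 0x14001e000000040003e000000000000000000) (nat_lit 0x0) (nat_lit 0xe0000000000000000000000) := D_46 (nat_lit 90) (nat_lit 89) (nat_lit 91) (nat_lit 1) (nat_lit 8) (nat_lit 4) (nat_lit 1) (nat_lit 9) (nat_lit 4) (by decide +kernel)
theorem L130235 : W_46 (nat_lit 3) (nat_lit 0x14001e000000040003c000000000000000000) (nat_lit 0x0) (nat_lit 0x2e0002000000000000000000) := T_46 (nat_lit 73) (nat_lit 93) (nat_lit 3) (nat_lit 5) (nat_lit 4) L130234 (by decide +kernel)
theorem L130236 : W_46 (nat_lit 4) (nat_lit 0x14001e0000000400038000000000000000000) (nat_lit 0x0) (nat_lit 0xae0006000000000000000000) := T_46 (nat_lit 74) (nat_lit 95) (nat_lit 3) (nat_lit 6) (nat_lit 4) L130235 (by decide +kernel)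
theorem L130237 : W_46 (nat_lit 5) (nat_lit 0x14001e0000000000038000000000000000000) (nat_lit 0x0) (nat_lit 0x8000ee0006000000000000000000) := T_46 (nat_lit 94) (nat_lit 111) (nat_lit 5) (nat_lit 9) (nat_lit 4) L130236 (by decide +kernel)
theorem L130238 : W_46 (nat_lit 6) (nat_lit 0x10001e0000000000038000000000000000000) (nat_lit 0x0) (nat_lit 0x600000008000ee0006000000000000000000) := T_46 (nat_lit 142) (nat_lit 141) (nat_lit 1) (nat_lit 9) (nat_lit 7) L130237 (by decide +kernel)
theorem L130239 : W_46 (nat_lit 10) (nat_lit 0x10001e0000000000028000000000000000000) (nat_lit 0x0) (nat_lit 0x60000000a003fe00d600ff80000000000000) := Q_46 (nat_lit 76) (C_46 L122201 (C_46 L130224 (C_46 L130228 (C_46 L130233 (C_46 L130238 N_46))))) (by decide +kernel)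
theorem L130240 : W_46 (nat_lit 2) (nat_lit 0x10001e0000000000028000000000000000000) (nat_lit 0x0) (nat_lit 0x18000400000000000000000000000) := D_46 (nat_lit 111) (nat_lit 112) (nat_lit 94) (nat_lit 2) (nat_lit 6) (nat_lit 7) (nat_lit 5) (nat_lit 9) (nat_lit 4) (by decide +kernel)
theorem L130241 : W_46 (nat_lit 6) (nat_lit 0x10001e0000000000038000000000000000000) (nat_lit 0x0) (nat_lit 0x600000000003c000c4007f00000000000000) := Q_46 (nat_lit 78) (C_46 L122167 (C_46 L122160 (C_46 L122156 N_46))) (by decide +kernel)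
theorem L130242 : W_46 (nat_lit 5) (nat_lit 0x10001e0000000100078000000000000000000) (nat_lit 0x0) (nat_lit 0x60000000000380008000e000000000000000) := T_46 (nat_lit 142) (nat_lit 141) (nat_lit 1) (nat_lit 9) (nat_lit 7) L124491 (by decide +kernel)
theorem L130243 : W_46 (nat_lit 6) (nat_lit 0x10001e0000000100038000000000000000000) (nat_lit 0x0) (nat_lit 0x6000000000038800c000e000000000000000) := T_46 (nat_lit 78) (nat_lit 91) (nat_lit 1) (nat_lit 10) (nat_lit 4) L130242 (by decide +kernel)
theorem L130244 : W_46 (nat_lit 7) (nat_lit 0x10001e0000000000038000000000000000000) (nat_lit 0x0) (nat_lit 0x6000000020039800c000e000000000000000) := T_46 (nat_lit 92) (nat_lit 109) (nat_lit 7) (nat_lit 7) (nat_lit 4) L130243 (by decide +kernel)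
theorem L130245 : W_46 (nat_lit 2) (nat_lit 0x14001e000000090007c000400000000000000) (nat_lit 0x0) (nat_lit 0x7000000000000000) := D_46 (nat_lit 61) (nat_lit 60) (nat_lit 62) (nat_lit 2) (nat_lit 6) (nat_lit 4) (nat_lit 2) (nat_lit 7) (nat_lit 4) (by decide +kernel)
theorem L130246 : W_46 (nat_lit 3) (nat_lit 0x14001e0000000900078000400000000000000) (nat_lit 0x0) (nat_lit 0x400004007000000000000000) := T_46 (nat_lit 74) (nat_lit 94) (nat_lit 3) (nat_lit 6) (nat_lit 4) L130245 (by decide +kernel)
theorem L130247 : W_46 (nat_lit 4) (nat_lit 0x14001e0000000100078000400000000000000) (nat_lit 0x0) (nat_lit 0x1c00004007000000000000000) := T_46 (nat_lit 95) (nat_lit 96) (nat_lit 3) (nat_lit 7) (nat_lit 4) L130246 (by decide +kernel)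
theorem L130248 : W_46 (nat_lit 5) (nat_lit 0x14001e0000000100078000000000000000000) (nat_lit 0x0) (nat_lit 0x1c00004007600000000000000) := T_46 (nat_lit 58) (nat_lit 57) (nat_lit 0) (nat_lit 10) (nat_lit 4) L130247 (by decide +kernel)
theorem L130249 : W_46 (nat_lit 6) (nat_lit 0x14001e0000000100038000000000000000000) (nat_lit 0x0) (nat_lit 0x1c80044007600000000000000) := T_46 (nat_lit 78) (nat_lit 91) (nat_lit 1) (nat_lit 10) (nat_lit 4) L130248 (by decide +kernel)
theorem L130250 : W_46 (nat_lit 7) (nat_lit 0x14001e0000000000038000000000000000000) (nat_lit 0x0) (nat_lit 0x2001d80044007600000000000000) := T_46 (nat_lit 92) (nat_lit 109) (nat_lit 7) (nat_lit 7) (nat_lit 4) L130249 (by decide +kernel)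
theorem L130251 : W_46 (nat_lit 8) (nat_lit 0x10001e0000000000038000000000000000000) (nat_lit 0x0) (nat_lit 0x600000002001d80044007600000000000000) := T_46 (nat_lit 142) (nat_lit 141) (nat_lit 1) (nat_lit 9) (nat_lit 7) L130250 (by decide +kernel)
theorem L130252 : W_46 (nat_lit 2) (nat_lit 0x14001e000000058003c001200038000000000) (nat_lit 0x0) (nat_lit 0xc00040000000000) := D_46 (nat_lit 59) (nat_lit 42) (nat_lit 58) (nat_lit 3) (nat_lit 5) (nat_lit 2) (nat_lit 0) (nat_lit 9) (nat_lit 3) (by decide +kernel)
theorem L130253 : W_46 (nat_lit 3) (nat_lit 0x14001e000000058003c001200030000000000) (nat_lit 0x0) (nat_lit 0xc00048000400000) := T_46 (nat_lit 39) (nat_lit 22) (nat_lit 4) (nat_lit 6) (nat_lit 5) L130252 (by decide +kernel)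
theorem L130254 : W_46 (nat_lit 4) (nat_lit 0x14001e000000058003c001200010000000000) (nat_lit 0x0) (nat_lit 0xc00068001400000) := T_46 (nat_lit 41) (nat_lit 24) (nat_lit 6) (nat_lit 6) (nat_lit 5) L130253 (by decide +kernel)
theorem L130255 : W_46 (nat_lit 5) (nat_lit 0x14001e000000058003c001200000000000000) (nat_lit 0x0) (nat_lit 0xc00078001c00000) := T_46 (nat_lit 40) (nat_lit 23) (nat_lit 7) (nat_lit 6) (nat_lit 1) L130254 (by decide +kernel)
theorem L130256 : W_46 (nat_lit 6) (nat_lit 0x14001e000000048003c001200000000000000) (nat_lit 0x0) (nat_lit 0x2000100000000c00078001c00000) := T_46 (nat_lit 92) (nat_lit 109) (nat_lit 7) (nat_lit 7) (nat_lit 4) L130255 (by decide +kernel)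
theorem L130257 : W_46 (nat_lit 7) (nat_lit 0x14001e000000048003c001000000000000000) (nat_lit 0x0) (nat_lit 0x2000100000000f00078001c00000) := T_46 (nat_lit 57) (nat_lit 56) (nat_lit 0) (nat_lit 9) (nat_lit 4) L130256 (by decide +kernel)
theorem L130258 : W_46 (nat_lit 8) (nat_lit 0x10001e000000048003c001000000000000000) (nat_lit 0x0) (nat_lit 0x600000002000100000000f00078001c00000) := T_46 (nat_lit 142) (nat_lit 141) (nat_lit 1) (nat_lit 9) (nat_lit 7) L130257 (by decide +kernel)
theorem L130259 : W_46 (nat_lit 9) (nat_lit 0x10001e000000048003c000000000000000000) (nat_lit 0x0) (nat_lit 0x600000002000100000003f00078001c00000) := T_46 (nat_lit 60) (nat_lit 61) (nat_lit 2) (nat_lit 6) (nat_lit 4) L130258 (by decide +kernel)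
theorem L130260 : W_46 (nat_lit 10) (nat_lit 0x10001e000000040003c000000000000000000) (nat_lit 0x0) (nat_lit 0x6000000020001c0000003f00078001c00000) := T_46 (nat_lit 91) (nat_lit 90) (nat_lit 1) (nat_lit 9) (nat_lit 4) L130259 (by decide +kernel)
theorem L130261 : W_46 (nat_lit 11) (nat_lit 0x10001e000000000003c000000000000000000) (nat_lit 0x0) (nat_lit 0x600000002000dc0000003f00078001c00000) := T_46 (nat_lit 94) (nat_lit 95) (nat_lit 3) (nat_lit 6) (nat_lit 4) L130260 (by decide +kernel)
theorem L130262 : W_46 (nat_lit 12) (nat_lit 0x10001e0000000000038000000000000000000) (nat_lit 0x0) (nat_lit 0x600000002000fe0006003f80078001c00000) := Q_46 (nat_lit 74) (C_46 L124497 (C_46 L122181 (C_46 L122192 (C_46 L130261 N_46)))) (by decide +kernel)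
theorem L130263 : W_46 (nat_lit 13) (nat_lit 0x10001e0000000000028000000000000000000) (nat_lit 0x0) (nat_lit 0x600000002003fe00d600ff80078001c00000) := Q_46 (nat_lit 76) (C_46 L122201 (C_46 L130228 (C_46 L130241 (C_46 L130244 (C_46 L130251 (C_46 L130262 N_46)))))) (by decide +kernel)
theorem L130264 : W_46 (nat_lit 2) (nat_lit 0x20000000094007e0010000100078000400000000000000) (nat_lit 0x0) (nat_lit 0x200080000800000000000000) := D_46 (nat_lit 79) (nat_lit 93) (nat_lit 59) (nat_lit 1) (nat_lit 11) (nat_lit 4) (nat_lit 0) (nat_lit 11) (nat_lit 4) (by decide +kernel)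
theorem L130265 : W_46 (nat_lit 3) (nat_lit 0x20000000094007e0010000100078000000000000000000) (nat_lit 0x0) (nat_lit 0x200080000e00000000000000) := T_46 (nat_lit 58) (nat_lit 57) (nat_lit 0) (nat_lit 10) (nat_lit 4) L130264 (by decide +kernel)
theorem L130266 : W_46 (nat_lit 4) (nat_lit 0x20000000094007e0010000100068000000000000000000) (nat_lit 0x0) (nat_lit 0x280090000e00000000000000) := T_46 (nat_lit 76) (nat_lit 91) (nat_lit 1) (nat_lit 10) (nat_lit 4) L130265 (by decide +kernel)
theorem L130267 : W_46 (nat_lit 5) (nat_lit 0x20000000094007e0010000100028000000000000000000) (nat_lit 0x0) (nat_lit 0xa800d0000e00000000000000) := T_46 (nat_lit 78) (nat_lit 95) (nat_lit 7) (nat_lit 10) (nat_lit 4) L130266 (by decide +kernel)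
theorem L130268 : W_46 (nat_lit 6) (nat_lit 0x94007e0010000100028000000000000000000) (nat_lit 0x0) (nat_lit 0x2000100000000000000000a800d0000e00000000000000) := T_46 (nat_lit 181) (nat_lit 164) (nat_lit 4) (nat_lit 11) (nat_lit 10) L130267 (by decide +kernel)
theorem L130269 : W_46 (nat_lit 7) (nat_lit 0x94003e0010000100028000000000000000000) (nat_lit 0x0) (nat_lit 0x2000100010000400000000a800d0000e00000000000000) := T_46 (nat_lit 130) (nat_lit 148) (nat_lit 3) (nat_lit 8) (nat_lit 7) L130268 (by decide +kernel)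
theorem L130270 : W_46 (nat_lit 8) (nat_lit 0x14003e0010000100028000000000000000000) (nat_lit 0x0) (nat_lit 0x200010001c000400000000a800d0000e00000000000000) := T_46 (nat_lit 147) (nat_lit 146) (nat_lit 3) (nat_lit 7) (nat_lit 7) L130269 (by decide +kernel)
theorem L130271 : W_46 (nat_lit 9) (nat_lit 0x14001e0010000100028000000000000000000) (nat_lit 0x0) (nat_lit 0x200010001c000600020000a800d0000e00000000000000) := T_46 (nat_lit 129) (nat_lit 113) (nat_lit 2) (nat_lit 7) (nat_lit 7) L130270 (by decide +kernel)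
theorem L130272 : W_46 (nat_lit 10) (nat_lit 0x10001e0010000100028000000000000000000) (nat_lit 0x0) (nat_lit 0x200010001c600600020000a800d0000e00000000000000) := T_46 (nat_lit 142) (nat_lit 141) (nat_lit 1) (nat_lit 9) (nat_lit 7) L130271 (by decide +kernel)
theorem L130273 : W_46 (nat_lit 11) (nat_lit 0x10001e0000000100028000000000000000000) (nat_lit 0x0) (nat_lit 0x200010001c600600038000a800d0000e00000000000000) := T_46 (nat_lit 112) (nat_lit 111) (nat_lit 2) (nat_lit 6) (nat_lit 7) L130272 (by decide +kernel)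
theorem L130274 : W_46 (nat_lit 12) (nat_lit 0x10001e0000000000028000000000000000000) (nat_lit 0x0) (nat_lit 0x200010001c60060003a000b800d0000e00000000000000) := T_46 (nat_lit 92) (nat_lit 109) (nat_lit 7) (nat_lit 7) (nat_lit 4) L130273 (by decide +kernel)
theorem L130275 : W_46 (nat_lit 14) (nat_lit 0x10001e0000000000008000000000000000000) (nat_lit 0x0) (nat_lit 0x200010001c60060003a003fe00f600ff80078001c00000) := Q_46 (nat_lit 77) (C_46 L130239 (C_46 L130240 (C_46 L130263 (C_46 L130274 N_46)))) (by decide +kernel)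
theorem L130276 : W_46 (nat_lit 8) (nat_lit 0x10001e0000000000038000000000000000000) (nat_lit 0x0) (nat_lit 0x6000000000038e00c600ff80000000000000) := Q_46 (nat_lit 74) (C_46 L124503 (C_46 L122175 (C_46 L122174 (C_46 L124497 N_46)))) (by decide +kernel)
theorem L130277 : W_46 (nat_lit 2) (nat_lit 0x14001e000000008003c001000000000000000) (nat_lit 0x0) (nat_lit 0x1000100040000000000000000000) := D_46 (nat_lit 92) (nat_lit 78) (nat_lit 108) (nat_lit 1) (nat_lit 10) (nat_lit 4) (nat_lit 6) (nat_lit 6) (nat_lit 8) (by decide +kernel)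
theorem L130278 : W_46 (nat_lit 3) (nat_lit 0x14001e000000000003c001000000000000000) (nat_lit 0x0) (nat_lit 0x10001c0040000000000000000000) := T_46 (nat_lit 91) (nat_lit 90) (nat_lit 1) (nat_lit 9) (nat_lit 4) L130277 (by decide +kernel)
theorem L130279 : W_46 (nat_lit 4) (nat_lit 0x10001e000000000003c001000000000000000) (nat_lit 0x0) (nat_lit 0x6000000010001c0040000000000000000000) := T_46 (nat_lit 142) (nat_lit 141) (nat_lit 1) (nat_lit 9) (nat_lit 7) L130278 (by decide +kernel)
theorem L130280 : W_46 (nat_lit 5) (nat_lit 0x10001e000000000003c000000000000000000) (nat_lit 0x0) (nat_lit 0x6000000010001c0040003000000000000000) := T_46 (nat_lit 60) (nat_lit 61) (nat_lit 2) (nat_lit 6) (nat_lit 4) L130279 (by decide +kernel)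
theorem L130281 : W_46 (nat_lit 6) (nat_lit 0x10001e0000000000038000000000000000000) (nat_lit 0x0) (nat_lit 0x6000000010001e0046003b80000000000000) := Q_46 (nat_lit 74) (C_46 L124497 (C_46 L122175 (C_46 L130280 N_46))) (by decide +kernel)
theorem L130282 : W_46 (nat_lit 2) (nat_lit 0x14001e00080001000f8002000000000000000) (nat_lit 0x0) (nat_lit 0xe00000000000000) := D_46 (nat_lit 58) (nat_lit 59) (nat_lit 57) (nat_lit 0) (nat_lit 11) (nat_lit 4) (nat_lit 0) (nat_lit 10) (nat_lit 4) (by decide +kernel)
theorem L130283 : W_46 (nat_lit 3) (nat_lit 0x14001e0008000100078002000000000000000) (nat_lit 0x0) (nat_lit 0x200080000e00000000000000) := T_46 (nat_lit 79) (nat_lit 93) (nat_lit 1) (nat_lit 11) (nat_lit 4) L130282 (by decide +kernel)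
theorem L130284 : W_46 (nat_lit 4) (nat_lit 0x14001e0000000100078002000000000000000) (nat_lit 0x0) (nat_lit 0x8000600080000e00000000000000) := T_46 (nat_lit 111) (nat_lit 94) (nat_lit 6) (nat_lit 9) (nat_lit 7) L130283 (by decide +kernel)
theorem L130285 : W_46 (nat_lit 5) (nat_lit 0x14001e0000000000078002000000000000000) (nat_lit 0x0) (nat_lit 0x8000780080000e00000000000000) := T_46 (nat_lit 92) (nat_lit 91) (nat_lit 1) (nat_lit 10) (nat_lit 4) L130284 (by decide +kernel)
theorem L130286 : W_46 (nat_lit 6) (nat_lit 0x14001e0000000000078000000000000000000) (nat_lit 0x0) (nat_lit 0x8000780080006e00000000000000) := T_46 (nat_lit 61) (nat_lit 62) (nat_lit 2) (nat_lit 7) (nat_lit 4) L130285 (by decide +kernel)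
theorem L130287 : W_46 (nat_lit 7) (nat_lit 0x10001e0000000000078000000000000000000) (nat_lit 0x0) (nat_lit 0x600000008000780080006e00000000000000) := T_46 (nat_lit 142) (nat_lit 141) (nat_lit 1) (nat_lit 9) (nat_lit 7) L130286 (by decide +kernel)
theorem L130288 : W_46 (nat_lit 2) (nat_lit 0x14001e0000000d00078002c00300000000000) (nat_lit 0x0) (nat_lit 0xc0004000000) := D_46 (nat_lit 43) (nat_lit 42) (nat_lit 26) (nat_lit 1) (nat_lit 11) (nat_lit 2) (nat_lit 4) (nat_lit 10) (nat_lit 5) (by decide +kernel)
theorem L130289 : W_46 (nat_lit 3) (nat_lit 0x14001e0000000d00078002400300000000000) (nat_lit 0x0) (nat_lit 0x18000c0004000000) := T_46 (nat_lit 59) (nat_lit 60) (nat_lit 2) (nat_lit 7) (nat_lit 3) L130288 (by decide +kernel)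
theorem L130290 : W_46 (nat_lit 4) (nat_lit 0x14001e0000000d00078002400100000000000) (nat_lit 0x0) (nat_lit 0x18002c0014000000) := T_46 (nat_lit 45) (nat_lit 28) (nat_lit 6) (nat_lit 10) (nat_lit 5) L130289 (by decide +kernel)
theorem L130291 : W_46 (nat_lit 5) (nat_lit 0x14001e0000000d00078002000100000000000) (nat_lit 0x0) (nat_lit 0x1e002c0014000000) := T_46 (nat_lit 58) (nat_lit 57) (nat_lit 0) (nat_lit 10) (nat_lit 4) L130290 (by decide +kernel)
theorem L130292 : W_46 (nat_lit 6) (nat_lit 0x14001e0000000d00078002000000000000000) (nat_lit 0x0) (nat_lit 0x1e003c001c000000) := T_46 (nat_lit 44) (nat_lit 27) (nat_lit 5) (nat_lit 10) (nat_lit 1) L130291 (by decide +kernel)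
theorem L130293 : W_46 (nat_lit 7) (nat_lit 0x14001e0000000900078002000000000000000) (nat_lit 0x0) (nat_lit 0x8000400000001e003c001c000000) := T_46 (nat_lit 94) (nat_lit 111) (nat_lit 6) (nat_lit 9) (nat_lit 7) L130292 (by decide +kernel)
theorem L130294 : W_46 (nat_lit 8) (nat_lit 0x14001e0000000900078000000000000000000) (nat_lit 0x0) (nat_lit 0x8000400000007e003c001c000000) := T_46 (nat_lit 61) (nat_lit 62) (nat_lit 2) (nat_lit 7) (nat_lit 4) L130293 (by decide +kernel)
theorem L130295 : W_46 (nat_lit 9) (nat_lit 0x10001e0000000900078000000000000000000) (nat_lit 0x0) (nat_lit 0x600000008000400000007e003c001c000000) := T_46 (nat_lit 142) (nat_lit 141) (nat_lit 1) (nat_lit 9) (nat_lit 7) L130294 (by decide +kernel)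
theorem L130296 : W_46 (nat_lit 10) (nat_lit 0x10001e0000000100078000000000000000000) (nat_lit 0x0) (nat_lit 0x600000008001c00000007e003c001c000000) := T_46 (nat_lit 95) (nat_lit 96) (nat_lit 3) (nat_lit 7) (nat_lit 4) L130295 (by decide +kernel)
theorem L130297 : W_46 (nat_lit 11) (nat_lit 0x10001e0000000000078000000000000000000) (nat_lit 0x0) (nat_lit 0x600000008001d80000007e003c001c000000) := T_46 (nat_lit 92) (nat_lit 91) (nat_lit 1) (nat_lit 10) (nat_lit 4) L130296 (by decide +kernel)
theorem L130298 : W_46 (nat_lit 12) (nat_lit 0x10001e0000000000038000000000000000000) (nat_lit 0x0) (nat_lit 0x600000008003f800c000fe003c001c000000) := Q_46 (nat_lit 78) (C_46 L124493 (C_46 L122156 (C_46 L130287 (C_46 L130297 N_46)))) (by decide +kernel)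
theorem L130299 : W_46 (nat_lit 13) (nat_lit 0x10001e0000000000028000000000000000000) (nat_lit 0x0) (nat_lit 0x600000009003fe00d600ff803c001c000000) := Q_46 (nat_lit 76) (C_46 L130224 (C_46 L130241 (C_46 L130276 (C_46 L130281 (C_46 L130298 (C_46 L130238 N_46)))))) (by decide +kernel)
theorem L130300 : W_46 (nat_lit 2) (nat_lit 0x10001e000000040003e000200000000000000) (nat_lit 0x0) (nat_lit 0xe0000000000000000000000) := D_46 (nat_lit 90) (nat_lit 89) (nat_lit 91) (nat_lit 1) (nat_lit 8) (nat_lit 4) (nat_lit 1) (nat_lit 9) (nat_lit 4) (by decide +kernel)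
theorem L130301 : W_46 (nat_lit 3) (nat_lit 0x10001e000000040003c000200000000000000) (nat_lit 0x0) (nat_lit 0x2e0002000000000000000000) := T_46 (nat_lit 73) (nat_lit 93) (nat_lit 3) (nat_lit 5) (nat_lit 4) L130300 (by decide +kernel)
theorem L130302 : W_46 (nat_lit 4) (nat_lit 0x10001e000000000003c000200000000000000) (nat_lit 0x0) (nat_lit 0xee0002000000000000000000) := T_46 (nat_lit 94) (nat_lit 95) (nat_lit 3) (nat_lit 6) (nat_lit 4) L130301 (by decide +kernel)
theorem L130303 : W_46 (nat_lit 5) (nat_lit 0x10001e000000000003c000000000000000000) (nat_lit 0x0) (nat_lit 0xee0002000300000000000000) := T_46 (nat_lit 57) (nat_lit 56) (nat_lit 0) (nat_lit 9) (nat_lit 4) L130302 (by decide +kernel)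
theorem L130304 : W_46 (nat_lit 6) (nat_lit 0x10001e0000000000038000000000000000000) (nat_lit 0x0) (nat_lit 0x1ee0046007b80000000000000) := Q_46 (nat_lit 74) (C_46 L122196 (C_46 L122175 (C_46 L130303 (C_46 L122181 N_46)))) (by decide +kernel)
theorem L130305 : W_46 (nat_lit 2) (nat_lit 0x14001e000100008002c000000000000000000) (nat_lit 0x0) (nat_lit 0x40002000100000000000000) := D_46 (nat_lit 73) (nat_lit 56) (nat_lit 90) (nat_lit 4) (nat_lit 6) (nat_lit 7) (nat_lit 4) (nat_lit 6) (nat_lit 8) (by decide +kernel)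
theorem L130306 : W_46 (nat_lit 3) (nat_lit 0x14001e0001000080028000000000000000000) (nat_lit 0x0) (nat_lit 0x40006000500000000000000) := T_46 (nat_lit 74) (nat_lit 58) (nat_lit 6) (nat_lit 6) (nat_lit 7) L130305 (by decide +kernel)
theorem L130307 : W_46 (nat_lit 4) (nat_lit 0x14001e0000000080028000000000000000000) (nat_lit 0x0) (nat_lit 0x1000140006000500000000000000) := T_46 (nat_lit 108) (nat_lit 92) (nat_lit 6) (nat_lit 6) (nat_lit 8) L130306 (by decide +kernel)
theorem L130308 : W_46 (nat_lit 5) (nat_lit 0x10001e0000000080028000000000000000000) (nat_lit 0x0) (nat_lit 0x600000001000140006000500000000000000) := T_46 (nat_lit 142) (nat_lit 141) (nat_lit 1) (nat_lit 9) (nat_lit 7) L130307 (by decide +kernel)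
theorem L130309 : W_46 (nat_lit 7) (nat_lit 0x10001e0000000080028000000000000000000) (nat_lit 0x0) (nat_lit 0x19400d600ff80000000000000) := Q_46 (nat_lit 76) (C_46 L124523 (C_46 L124520 (C_46 L124513 (C_46 L124516 N_46)))) (by decide +kernel)
theorem L130310 : W_46 (nat_lit 2) (nat_lit 0x12001f000000048003e000200000000000000) (nat_lit 0x0) (nat_lit 0x3800000000000000) := D_46 (nat_lit 60) (nat_lit 59) (nat_lit 61) (nat_lit 2) (nat_lit 5) (nat_lit 4) (nat_lit 2) (nat_lit 6) (nat_lit 4) (by decide +kernel)
theorem L130311 : W_46 (nat_lit 3) (nat_lit 0x12001f000000048003c000200000000000000) (nat_lit 0x0) (nat_lit 0x200002003800000000000000) := T_46 (nat_lit 73) (nat_lit 93) (nat_lit 3) (nat_lit 5) (nat_lit 4) L130310 (by decide +kernel)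
theorem L130312 : W_46 (nat_lit 4) (nat_lit 0x12001f000000008003c000200000000000000) (nat_lit 0x0) (nat_lit 0xe00002003800000000000000) := T_46 (nat_lit 94) (nat_lit 95) (nat_lit 3) (nat_lit 6) (nat_lit 4) L130311 (by decide +kernel)
theorem L130313 : W_46 (nat_lit 5) (nat_lit 0x12001f000000008003c000000000000000000) (nat_lit 0x0) (nat_lit 0xe00002003b00000000000000) := T_46 (nat_lit 57) (nat_lit 56) (nat_lit 0) (nat_lit 9) (nat_lit 4) L130312 (by decide +kernel)
theorem L130314 : W_46 (nat_lit 6) (nat_lit 0x12001f000000008002c000000000000000000) (nat_lit 0x0) (nat_lit 0xe40012003b00000000000000) := T_46 (nat_lit 76) (nat_lit 90) (nat_lit 1) (nat_lit 9) (nat_lit 4) L130313 (by decide +kernel)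
theorem L130315 : W_46 (nat_lit 7) (nat_lit 0x12001f0000000080028000000000000000000) (nat_lit 0x0) (nat_lit 0x1000e40016003b00000000000000) := T_46 (nat_lit 74) (nat_lit 108) (nat_lit 5) (nat_lit 6) (nat_lit 4) L130314 (by decide +kernel)
theorem L130316 : W_46 (nat_lit 8) (nat_lit 0x12001e0000000080028000000000000000000) (nat_lit 0x0) (nat_lit 0x100010001000e40016003b00000000000000) := T_46 (nat_lit 124) (nat_lit 140) (nat_lit 1) (nat_lit 8) (nat_lit 7) L130315 (by decide +kernel)
theorem L130317 : W_46 (nat_lit 9) (nat_lit 0x10001e0000000080028000000000000000000) (nat_lit 0x0) (nat_lit 0x700010001000e40016003b00000000000000) := T_46 (nat_lit 141) (nat_lit 142) (nat_lit 1) (nat_lit 9) (nat_lit 7) L130316 (by decide +kernel)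
theorem L130318 : W_46 (nat_lit 2) (nat_lit 0x14001e000100008002c000100000000000000) (nat_lit 0x0) (nat_lit 0x10000200008000000000) := D_46 (nat_lit 57) (nat_lit 39) (nat_lit 76) (nat_lit 4) (nat_lit 6) (nat_lit 6) (nat_lit 0) (nat_lit 9) (nat_lit 4) (by decide +kernel)
theorem L130319 : W_46 (nat_lit 3) (nat_lit 0x14001e000100008002c000000000000000000) (nat_lit 0x0) (nat_lit 0x12000300008000000000) := T_46 (nat_lit 56) (nat_lit 73) (nat_lit 4) (nat_lit 6) (nat_lit 7) L130318 (by decide +kernel)
theorem L130320 : W_46 (nat_lit 4) (nat_lit 0x14001e0001000080028000000000000000000) (nat_lit 0x0) (nat_lit 0x16000700008000000000) := T_46 (nat_lit 74) (nat_lit 58) (nat_lit 6) (nat_lit 6) (nat_lit 7) L130319 (by decide +kernel)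
theorem L130321 : W_46 (nat_lit 5) (nat_lit 0x14001e0000000080028000000000000000000) (nat_lit 0x0) (nat_lit 0x1000100016000700008000000000) := T_46 (nat_lit 108) (nat_lit 92) (nat_lit 6) (nat_lit 6) (nat_lit 8) L130320 (by decide +kernel)
theorem L130322 : W_46 (nat_lit 6) (nat_lit 0x10001e0000000080028000000000000000000) (nat_lit 0x0) (nat_lit 0x600000001000100016000700008000000000) := T_46 (nat_lit 142) (nat_lit 141) (nat_lit 1) (nat_lit 9) (nat_lit 7) L130321 (by decide +kernel)
theorem L130323 : W_46 (nat_lit 2) (nat_lit 0x14001e0000000180038000000000000000000) (nat_lit 0x0) (nat_lit 0x260000000000000000000000) := D_46 (nat_lit 90) (nat_lit 89) (nat_lit 93) (nat_lit 2) (nat_lit 4) (nat_lit 5) (nat_lit 2) (nat_lit 5) (nat_lit 5) (by decide +kernel)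
theorem L130324 : W_46 (nat_lit 3) (nat_lit 0x14001e0000000180028000000000000000000) (nat_lit 0x0) (nat_lit 0x260050000000000000000000) := T_46 (nat_lit 76) (nat_lit 78) (nat_lit 1) (nat_lit 10) (nat_lit 4) L130323 (by decide +kernel)
theorem L130325 : W_46 (nat_lit 4) (nat_lit 0x14001e0000000080028000000000000000000) (nat_lit 0x0) (nat_lit 0x1000360050000000000000000000) := T_46 (nat_lit 92) (nat_lit 108) (nat_lit 6) (nat_lit 6) (nat_lit 8) L130324 (by decide +kernel)
theorem L130326 : W_46 (nat_lit 5) (nat_lit 0x10001e0000000080028000000000000000000) (nat_lit 0x0) (nat_lit 0x600000001000360050000000000000000000) := T_46 (nat_lit 142) (nat_lit 141) (nat_lit 1) (nat_lit 9) (nat_lit 7) L130325 (by decide +kernel)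
theorem L130327 : W_46 (nat_lit 10) (nat_lit 0x10001e0000000000028000000000000000000) (nat_lit 0x0) (nat_lit 0x700010001001fe00d600ff80008000000000) := Q_46 (nat_lit 91) (C_46 L130308 (C_46 L130309 (C_46 L130317 (C_46 L130322 (C_46 L130326 N_46))))) (by decide +kernel)
theorem L130328 : W_46 (nat_lit 2) (nat_lit 0x20000000090007e001000000007c002000000000000000) (nat_lit 0x0) (nat_lit 0x1c0000000000000000000000) := D_46 (nat_lit 91) (nat_lit 90) (nat_lit 92) (nat_lit 1) (nat_lit 9) (nat_lit 4) (nat_lit 1) (nat_lit 10) (nat_lit 4) (by decide +kernel)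
theorem L130329 : W_46 (nat_lit 3) (nat_lit 0x20000000090007e0010000000078002000000000000000) (nat_lit 0x0) (nat_lit 0x1c0004001000000000000000) := T_46 (nat_lit 74) (nat_lit 60) (nat_lit 2) (nat_lit 6) (nat_lit 4) L130328 (by decide +kernel)
theorem L130330 : W_46 (nat_lit 4) (nat_lit 0x20000000090007e0010000000078000000000000000000) (nat_lit 0x0) (nat_lit 0x1c0004007000000000000000) := T_46 (nat_lit 61) (nat_lit 62) (nat_lit 2) (nat_lit 7) (nat_lit 4) L130329 (by decide +kernel)
theorem L130331 : W_46 (nat_lit 5) (nat_lit 0x20000000090007e0010000000038000000000000000000) (nat_lit 0x0) (nat_lit 0x9c0044007000000000000000) := T_46 (nat_lit 78) (nat_lit 95) (nat_lit 7) (nat_lit 10) (nat_lit 4) L130330 (by decide +kernel)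
theorem L130332 : W_46 (nat_lit 6) (nat_lit 0x90007e0010000000038000000000000000000) (nat_lit 0x0) (nat_lit 0x20001000000000000000009c0044007000000000000000) := T_46 (nat_lit 181) (nat_lit 164) (nat_lit 4) (nat_lit 11) (nat_lit 10) L130331 (by decide +kernel)
theorem L130333 : W_46 (nat_lit 7) (nat_lit 0x90003e0010000000038000000000000000000) (nat_lit 0x0) (nat_lit 0x20001000100004000000009c0044007000000000000000) := T_46 (nat_lit 130) (nat_lit 148) (nat_lit 3) (nat_lit 8) (nat_lit 7) L130332 (by decide +kernel)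
theorem L130334 : W_46 (nat_lit 8) (nat_lit 0x10003e0010000000038000000000000000000) (nat_lit 0x0) (nat_lit 0x200010001c0004000000009c0044007000000000000000) := T_46 (nat_lit 147) (nat_lit 146) (nat_lit 3) (nat_lit 7) (nat_lit 7) L130333 (by decide +kernel)
theorem L130335 : W_46 (nat_lit 9) (nat_lit 0x10001e0010000000038000000000000000000) (nat_lit 0x0) (nat_lit 0x200010001c0006000200009c0044007000000000000000) := T_46 (nat_lit 129) (nat_lit 113) (nat_lit 2) (nat_lit 7) (nat_lit 7) L130334 (by decide +kernel)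
theorem L130336 : W_46 (nat_lit 10) (nat_lit 0x10001e0000000000038000000000000000000) (nat_lit 0x0) (nat_lit 0x200010001c0006000380009c0044007000000000000000) := T_46 (nat_lit 112) (nat_lit 111) (nat_lit 2) (nat_lit 6) (nat_lit 7) L130335 (by decide +kernel)
theorem L130337 : W_46 (nat_lit 2) (nat_lit 0x20000000094007e001000000007c002000000000000000) (nat_lit 0x0) (nat_lit 0x700000000000000) := D_46 (nat_lit 57) (nat_lit 56) (nat_lit 58) (nat_lit 0) (nat_lit 9) (nat_lit 4) (nat_lit 0) (nat_lit 10) (nat_lit 4) (by decide +kernel)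
theorem L130338 : W_46 (nat_lit 3) (nat_lit 0x20000000094007e0010000000078002000000000000000) (nat_lit 0x0) (nat_lit 0x4001700000000000000) := T_46 (nat_lit 74) (nat_lit 60) (nat_lit 2) (nat_lit 6) (nat_lit 4) L130337 (by decide +kernel)
theorem L130339 : W_46 (nat_lit 4) (nat_lit 0x20000000094007e0010000000078000000000000000000) (nat_lit 0x0) (nat_lit 0x4007700000000000000) := T_46 (nat_lit 61) (nat_lit 62) (nat_lit 2) (nat_lit 7) (nat_lit 4) L130338 (by decide +kernel)
theorem L130340 : W_46 (nat_lit 5) (nat_lit 0x20000000094007e0010000000038000000000000000000) (nat_lit 0x0) (nat_lit 0x800044007700000000000000) := T_46 (nat_lit 78) (nat_lit 95) (nat_lit 7) (nat_lit 10) (nat_lit 4) L130339 (by decide +kernel)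
theorem L130341 : W_46 (nat_lit 6) (nat_lit 0x94007e0010000000038000000000000000000) (nat_lit 0x0) (nat_lit 0x2000100000000000000000800044007700000000000000) := T_46 (nat_lit 181) (nat_lit 164) (nat_lit 4) (nat_lit 11) (nat_lit 10) L130340 (by decide +kernel)
theorem L130342 : W_46 (nat_lit 7) (nat_lit 0x94003e0010000000038000000000000000000) (nat_lit 0x0) (nat_lit 0x2000100010000400000000800044007700000000000000) := T_46 (nat_lit 130) (nat_lit 148) (nat_lit 3) (nat_lit 8) (nat_lit 7) L130341 (by decide +kernel)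
theorem L130343 : W_46 (nat_lit 8) (nat_lit 0x14003e0010000000038000000000000000000) (nat_lit 0x0) (nat_lit 0x200010001c000400000000800044007700000000000000) := T_46 (nat_lit 147) (nat_lit 146) (nat_lit 3) (nat_lit 7) (nat_lit 7) L130342 (by decide +kernel)
theorem L130344 : W_46 (nat_lit 9) (nat_lit 0x14001e0010000000038000000000000000000) (nat_lit 0x0) (nat_lit 0x200010001c000600020000800044007700000000000000) := T_46 (nat_lit 129) (nat_lit 113) (nat_lit 2) (nat_lit 7) (nat_lit 7) L130343 (by decide +kernel)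
theorem L130345 : W_46 (nat_lit 10) (nat_lit 0x10001e0010000000038000000000000000000) (nat_lit 0x0) (nat_lit 0x200010001c600600020000800044007700000000000000) := T_46 (nat_lit 142) (nat_lit 141) (nat_lit 1) (nat_lit 9) (nat_lit 7) L130344 (by decide +kernel)
theorem L130346 : W_46 (nat_lit 11) (nat_lit 0x10001e0000000000038000000000000000000) (nat_lit 0x0) (nat_lit 0x200010001c600600038000800044007700000000000000) := T_46 (nat_lit 112) (nat_lit 111) (nat_lit 2) (nat_lit 6) (nat_lit 7) L130345 (by decide +kernel)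
theorem L130347 : W_46 (nat_lit 2) (nat_lit 0x20000000094007e0010000100078002400000000000000) (nat_lit 0x0) (nat_lit 0x200080000800000000000000) := D_46 (nat_lit 79) (nat_lit 93) (nat_lit 59) (nat_lit 1) (nat_lit 11) (nat_lit 4) (nat_lit 0) (nat_lit 11) (nat_lit 4) (by decide +kernel)
theorem L130348 : W_46 (nat_lit 3) (nat_lit 0x20000000094007e0010000100078002000000000000000) (nat_lit 0x0) (nat_lit 0x200080000e00000000000000) := T_46 (nat_lit 58) (nat_lit 57) (nat_lit 0) (nat_lit 10) (nat_lit 4) L130347 (by decide +kernel)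
theorem L130349 : W_46 (nat_lit 4) (nat_lit 0x20000000094007e0010000000078002000000000000000) (nat_lit 0x0) (nat_lit 0x380080000e00000000000000) := T_46 (nat_lit 92) (nat_lit 91) (nat_lit 1) (nat_lit 10) (nat_lit 4) L130348 (by decide +kernel)
theorem L130350 : W_46 (nat_lit 5) (nat_lit 0x20000000094007e0010000000078000000000000000000) (nat_lit 0x0) (nat_lit 0x380080006e00000000000000) := T_46 (nat_lit 61) (nat_lit 62) (nat_lit 2) (nat_lit 7) (nat_lit 4) L130349 (by decide +kernel)
theorem L130351 : W_46 (nat_lit 6) (nat_lit 0x20000000094007e0010000000038000000000000000000) (nat_lit 0x0) (nat_lit 0xb800c0006e00000000000000) := T_46 (nat_lit 78) (nat_lit 95) (nat_lit 7) (nat_lit 10) (nat_lit 4) L130350 (by decide +kernel)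
theorem L130352 : W_46 (nat_lit 7) (nat_lit 0x94007e0010000000038000000000000000000) (nat_lit 0x0) (nat_lit 0x2000100000000000000000b800c0006e00000000000000) := T_46 (nat_lit 181) (nat_lit 164) (nat_lit 4) (nat_lit 11) (nat_lit 10) L130351 (by decide +kernel)
theorem L130353 : W_46 (nat_lit 8) (nat_lit 0x94003e0010000000038000000000000000000) (nat_lit 0x0) (nat_lit 0x2000100010000400000000b800c0006e00000000000000) := T_46 (nat_lit 130) (nat_lit 148) (nat_lit 3) (nat_lit 8) (nat_lit 7) L130352 (by decide +kernel)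
theorem L130354 : W_46 (nat_lit 9) (nat_lit 0x14003e0010000000038000000000000000000) (nat_lit 0x0) (nat_lit 0x200010001c000400000000b800c0006e00000000000000) := T_46 (nat_lit 147) (nat_lit 146) (nat_lit 3) (nat_lit 7) (nat_lit 7) L130353 (by decide +kernel)
theorem L130355 : W_46 (nat_lit 10) (nat_lit 0x14001e0010000000038000000000000000000) (nat_lit 0x0) (nat_lit 0x200010001c000600020000b800c0006e00000000000000) := T_46 (nat_lit 129) (nat_lit 113) (nat_lit 2) (nat_lit 7) (nat_lit 7) L130354 (by decide +kernel)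
theorem L130356 : W_46 (nat_lit 11) (nat_lit 0x10001e0010000000038000000000000000000) (nat_lit 0x0) (nat_lit 0x200010001c600600020000b800c0006e00000000000000) := T_46 (nat_lit 142) (nat_lit 141) (nat_lit 1) (nat_lit 9) (nat_lit 7) L130355 (by decide +kernel)
theorem L130357 : W_46 (nat_lit 12) (nat_lit 0x10001e0000000000038000000000000000000) (nat_lit 0x0) (nat_lit 0x200010001c600600038000b800c0006e00000000000000) := T_46 (nat_lit 112) (nat_lit 111) (nat_lit 2) (nat_lit 6) (nat_lit 7) L130356 (by decide +kernel)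
theorem L130358 : W_46 (nat_lit 2) (nat_lit 0x14001e000800008003c000000000000000000) (nat_lit 0x0) (nat_lit 0x1000100000000400000000000000) := D_46 (nat_lit 108) (nat_lit 58) (nat_lit 92) (nat_lit 6) (nat_lit 6) (nat_lit 7) (nat_lit 6) (nat_lit 6) (nat_lit 8) (by decide +kernel)
theorem L130359 : W_46 (nat_lit 3) (nat_lit 0x14001e000800000003c000000000000000000) (nat_lit 0x0) (nat_lit 0x10001c0000000400000000000000) := T_46 (nat_lit 91) (nat_lit 90) (nat_lit 1) (nat_lit 9) (nat_lit 4) L130358 (by decide +kernel)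
theorem L130360 : W_46 (nat_lit 4) (nat_lit 0x10001e000800000003c000000000000000000) (nat_lit 0x0) (nat_lit 0x6000000010001c0000000400000000000000) := T_46 (nat_lit 142) (nat_lit 141) (nat_lit 1) (nat_lit 9) (nat_lit 7) L130359 (by decide +kernel)
theorem L130361 : W_46 (nat_lit 5) (nat_lit 0x10001e000000000003c000000000000000000) (nat_lit 0x0) (nat_lit 0x6000000190001c0000000400000000000000) := T_46 (nat_lit 111) (nat_lit 112) (nat_lit 2) (nat_lit 6) (nat_lit 7) L130360 (by decide +kernel)
theorem L130362 : W_46 (nat_lit 6) (nat_lit 0x10001e0000000000038000000000000000000) (nat_lit 0x0) (nat_lit 0x6000000190001e0006003f80000000000000) := Q_46 (nat_lit 74) (C_46 L124497 (C_46 L122175 (C_46 L130361 N_46))) (by decide +kernel)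
theorem L130363 : W_46 (nat_lit 4) (nat_lit 0x20000000094007e0010000000078000000000000000000) (nat_lit 0x0) (nat_lit 0x380080000e00000000000000) := T_46 (nat_lit 92) (nat_lit 91) (nat_lit 1) (nat_lit 10) (nat_lit 4) L130265 (by decide +kernel)
theorem L130364 : W_46 (nat_lit 5) (nat_lit 0x20000000094007e0010000000038000000000000000000) (nat_lit 0x0) (nat_lit 0xb800c0000e00000000000000) := T_46 (nat_lit 78) (nat_lit 95) (nat_lit 7) (nat_lit 10) (nat_lit 4) L130363 (by decide +kernel)
theorem L130365 : W_46 (nat_lit 6) (nat_lit 0x94007e0010000000038000000000000000000) (nat_lit 0x0) (nat_lit 0x2000100000000000000000b800c0000e00000000000000) := T_46 (nat_lit 181) (nat_lit 164) (nat_lit 4) (nat_lit 11) (nat_lit 10) L130364 (by decide +kernel)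
theorem L130366 : W_46 (nat_lit 7) (nat_lit 0x94003e0010000000038000000000000000000) (nat_lit 0x0) (nat_lit 0x2000100010000400000000b800c0000e00000000000000) := T_46 (nat_lit 130) (nat_lit 148) (nat_lit 3) (nat_lit 8) (nat_lit 7) L130365 (by decide +kernel)
theorem L130367 : W_46 (nat_lit 8) (nat_lit 0x14003e0010000000038000000000000000000) (nat_lit 0x0) (nat_lit 0x200010001c000400000000b800c0000e00000000000000) := T_46 (nat_lit 147) (nat_lit 146) (nat_lit 3) (nat_lit 7) (nat_lit 7) L130366 (by decide +kernel)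
theorem L130368 : W_46 (nat_lit 9) (nat_lit 0x14001e0010000000038000000000000000000) (nat_lit 0x0) (nat_lit 0x200010001c000600020000b800c0000e00000000000000) := T_46 (nat_lit 129) (nat_lit 113) (nat_lit 2) (nat_lit 7) (nat_lit 7) L130367 (by decide +kernel)
theorem L130369 : W_46 (nat_lit 10) (nat_lit 0x10001e0010000000038000000000000000000) (nat_lit 0x0) (nat_lit 0x200010001c600600020000b800c0000e00000000000000) := T_46 (nat_lit 142) (nat_lit 141) (nat_lit 1) (nat_lit 9) (nat_lit 7) L130368 (by decide +kernel)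
theorem L130370 : W_46 (nat_lit 11) (nat_lit 0x10001e0000000000038000000000000000000) (nat_lit 0x0) (nat_lit 0x200010001c600600038000b800c0000e00000000000000) := T_46 (nat_lit 112) (nat_lit 111) (nat_lit 2) (nat_lit 6) (nat_lit 7) L130369 (by decide +kernel)
theorem L130371 : W_46 (nat_lit 13) (nat_lit 0x10001e0000000000028000000000000000000) (nat_lit 0x0) (nat_lit 0x200010001c600600039003be00d600ff80000000000000) := Q_46 (nat_lit 76) (C_46 L130281 (C_46 L130336 (C_46 L130276 (C_46 L130346 (C_46 L130357 (C_46 L130362 (C_46 L130370 N_46))))))) (by decide +kernel)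
theorem L130372 : W_46 (nat_lit 14) (nat_lit 0x10001e0000000000008000000000000000000) (nat_lit 0x0) (nat_lit 0x200010001c700610039003fe00f600ff803c801c000000) := Q_46 (nat_lit 77) (C_46 L130299 (C_46 L130240 (C_46 L130327 (C_46 L130371 N_46)))) (by decide +kernel)
theorem L130373 : W_46 (nat_lit 2) (nat_lit 0x1000000094003e0022000000008000000000000000000) (nat_lit 0x0) (nat_lit 0x10000400040000000000000000000000000000) := D_46 (nat_lit 130) (nat_lit 148) (nat_lit 114) (nat_lit 3) (nat_lit 8) (nat_lit 7) (nat_lit 2) (nat_lit 8) (nat_lit 7) (by decide +kernel)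
theorem L130374 : W_46 (nat_lit 3) (nat_lit 0x1000000094003e0002000000008000000000000000000) (nat_lit 0x0) (nat_lit 0x10000400070000000000000000000000000000) := T_46 (nat_lit 113) (nat_lit 112) (nat_lit 2) (nat_lit 7) (nat_lit 7) L130373 (by decide +kernel)
theorem L130375 : W_46 (nat_lit 4) (nat_lit 0x1000000014003e0002000000008000000000000000000) (nat_lit 0x0) (nat_lit 0x1c000400070000000000000000000000000000) := T_46 (nat_lit 147) (nat_lit 146) (nat_lit 3) (nat_lit 7) (nat_lit 7) L130374 (by decide +kernel)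
theorem L130376 : W_46 (nat_lit 5) (nat_lit 0x14003e0002000000008000000000000000000) (nat_lit 0x0) (nat_lit 0x10000801c000400070000000000000000000000000000) := T_46 (nat_lit 176) (nat_lit 159) (nat_lit 6) (nat_lit 6) (nat_lit 10) L130375 (by decide +kernel)
theorem L130377 : W_46 (nat_lit 6) (nat_lit 0x14001e0002000000008000000000000000000) (nat_lit 0x0) (nat_lit 0x10000801c000600071000000000000000000000000000) := T_46 (nat_lit 129) (nat_lit 108) (nat_lit 0) (nat_lit 10) (nat_lit 7) L130376 (by decide +kernel)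
theorem L130378 : W_46 (nat_lit 7) (nat_lit 0x10001e0002000000008000000000000000000) (nat_lit 0x0) (nat_lit 0x10000801c600600071000000000000000000000000000) := T_46 (nat_lit 142) (nat_lit 141) (nat_lit 1) (nat_lit 9) (nat_lit 7) L130377 (by decide +kernel)
theorem L130379 : W_46 (nat_lit 8) (nat_lit 0x10001e0000000000008000000000000000000) (nat_lit 0x0) (nat_lit 0x10000801c600600073000100000000000000000000000) := T_46 (nat_lit 109) (nat_lit 92) (nat_lit 7) (nat_lit 7) (nat_lit 4) L130378 (by decide +kernel)
theorem L130380 : W_46 (nat_lit 2) (nat_lit 0x10001e000000050003e000000000000000000) (nat_lit 0x0) (nat_lit 0x3800000000000000) := D_46 (nat_lit 60) (nat_lit 59) (nat_lit 61) (nat_lit 2) (nat_lit 5) (nat_lit 4) (nat_lit 2) (nat_lit 6) (nat_lit 4) (by decide +kernel)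
theorem L130381 : W_46 (nat_lit 3) (nat_lit 0x10001e000000050003c000000000000000000) (nat_lit 0x0) (nat_lit 0x200002003800000000000000) := T_46 (nat_lit 73) (nat_lit 93) (nat_lit 3) (nat_lit 5) (nat_lit 4) L130380 (by decide +kernel)
theorem L130382 : W_46 (nat_lit 4) (nat_lit 0x10001e0000000500038000000000000000000) (nat_lit 0x0) (nat_lit 0xa00006003800000000000000) := T_46 (nat_lit 74) (nat_lit 95) (nat_lit 3) (nat_lit 6) (nat_lit 4) L130381 (by decide +kernel)
theorem L130383 : W_46 (nat_lit 5) (nat_lit 0x10001e0000000100038000000000000000000) (nat_lit 0x0) (nat_lit 0x8000e00006003800000000000000) := T_46 (nat_lit 94) (nat_lit 111) (nat_lit 5) (nat_lit 9) (nat_lit 4) L130382 (by decide +kernel)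
theorem L130384 : W_46 (nat_lit 6) (nat_lit 0x10001e0000000000038000000000000000000) (nat_lit 0x0) (nat_lit 0xa000f00006003800000000000000) := T_46 (nat_lit 92) (nat_lit 109) (nat_lit 7) (nat_lit 7) (nat_lit 4) L130383 (by decide +kernel)
theorem L130385 : W_46 (nat_lit 2) (nat_lit 0x10001e000000040003e000000000000000000) (nat_lit 0x0) (nat_lit 0xe0000000000000000000000) := D_46 (nat_lit 90) (nat_lit 89) (nat_lit 91) (nat_lit 1) (nat_lit 8) (nat_lit 4) (nat_lit 1) (nat_lit 9) (nat_lit 4) (by decide +kernel)
theorem L130386 : W_46 (nat_lit 3) (nat_lit 0x10001e000000040003c000000000000000000) (nat_lit 0x0) (nat_lit 0x2e0002000000000000000000) := T_46 (nat_lit 73) (nat_lit 93) (nat_lit 3) (nat_lit 5) (nat_lit 4) L130385 (by decide +kernel)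
theorem L130387 : W_46 (nat_lit 4) (nat_lit 0x10001e0000000400038000000000000000000) (nat_lit 0x0) (nat_lit 0xae0006000000000000000000) := T_46 (nat_lit 74) (nat_lit 95) (nat_lit 3) (nat_lit 6) (nat_lit 4) L130386 (by decide +kernel)
theorem L130388 : W_46 (nat_lit 5) (nat_lit 0x10001e0000000000038000000000000000000) (nat_lit 0x0) (nat_lit 0x8000ee0006000000000000000000) := T_46 (nat_lit 94) (nat_lit 111) (nat_lit 5) (nat_lit 9) (nat_lit 4) L130387 (by decide +kernel)
theorem L130389 : W_46 (nat_lit 7) (nat_lit 0x10001e0000000000028000000000000000000) (nat_lit 0x0) (nat_lit 0xa001fe00d6007f80000000000000) := Q_46 (nat_lit 76) (C_46 L130304 (C_46 L130228 (C_46 L130224 (C_46 L130384 (C_46 L130388 N_46))))) (by decide +kernel)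
theorem L130390 : W_46 (nat_lit 4) (nat_lit 0x14001e0000000100028000000000000000000) (nat_lit 0x0) (nat_lit 0x10002e0050000000000000000000) := T_46 (nat_lit 91) (nat_lit 108) (nat_lit 6) (nat_lit 6) (nat_lit 8) L130324 (by decide +kernel)
theorem L130391 : W_46 (nat_lit 5) (nat_lit 0x10001e0000000100028000000000000000000) (nat_lit 0x0) (nat_lit 0x6000000010002e0050000000000000000000) := T_46 (nat_lit 142) (nat_lit 141) (nat_lit 1) (nat_lit 9) (nat_lit 7) L130390 (by decide +kernel)
theorem L130392 : W_46 (nat_lit 6) (nat_lit 0x10001e0000000000028000000000000000000) (nat_lit 0x0) (nat_lit 0x6000000030003e0050000000000000000000) := T_46 (nat_lit 92) (nat_lit 109) (nat_lit 7) (nat_lit 7) (nat_lit 4) L130391 (by decide +kernel)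
theorem L130393 : W_46 (nat_lit 2) (nat_lit 0x14001e0000000580038000000000000000000) (nat_lit 0x0) (nat_lit 0x840004000000000000000000) := D_46 (nat_lit 74) (nat_lit 90) (nat_lit 95) (nat_lit 1) (nat_lit 9) (nat_lit 4) (nat_lit 3) (nat_lit 6) (nat_lit 4) (by decide +kernel)
theorem L130394 : W_46 (nat_lit 3) (nat_lit 0x14001e0000000580028000000000000000000) (nat_lit 0x0) (nat_lit 0x840054000000000000000000) := T_46 (nat_lit 76) (nat_lit 78) (nat_lit 1) (nat_lit 10) (nat_lit 4) L130393 (by decide +kernel)
theorem L130395 : W_46 (nat_lit 4) (nat_lit 0x14001e0000000500028000000000000000000) (nat_lit 0x0) (nat_lit 0x10008c0054000000000000000000) := T_46 (nat_lit 91) (nat_lit 108) (nat_lit 6) (nat_lit 6) (nat_lit 8) L130394 (by decide +kernel)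
theorem L130396 : W_46 (nat_lit 5) (nat_lit 0x14001e0000000400028000000000000000000) (nat_lit 0x0) (nat_lit 0x30009c0054000000000000000000) := T_46 (nat_lit 92) (nat_lit 109) (nat_lit 7) (nat_lit 7) (nat_lit 4) L130395 (by decide +kernel)
theorem L130397 : W_46 (nat_lit 6) (nat_lit 0x14001e0000000000028000000000000000000) (nat_lit 0x0) (nat_lit 0xb000dc0054000000000000000000) := T_46 (nat_lit 94) (nat_lit 111) (nat_lit 5) (nat_lit 9) (nat_lit 4) L130396 (by decide +kernel)
theorem L130398 : W_46 (nat_lit 7) (nat_lit 0x10001e0000000000028000000000000000000) (nat_lit 0x0) (nat_lit 0x60000000b000dc0054000000000000000000) := T_46 (nat_lit 142) (nat_lit 141) (nat_lit 1) (nat_lit 9) (nat_lit 7) L130397 (by decide +kernel)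
theorem L130399 : W_46 (nat_lit 2) (nat_lit 0x14001e000000008003c001200000000000000) (nat_lit 0x0) (nat_lit 0x3000000000000400000000000000) := D_46 (nat_lit 108) (nat_lit 58) (nat_lit 109) (nat_lit 6) (nat_lit 6) (nat_lit 7) (nat_lit 7) (nat_lit 6) (nat_lit 3) (by decide +kernel)
theorem L130400 : W_46 (nat_lit 3) (nat_lit 0x14001e000000008003c001000000000000000) (nat_lit 0x0) (nat_lit 0x3000000000000700000000000000) := T_46 (nat_lit 57) (nat_lit 56) (nat_lit 0) (nat_lit 9) (nat_lit 4) L130399 (by decide +kernel)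
theorem L130401 : W_46 (nat_lit 4) (nat_lit 0x14001e000000000003c001000000000000000) (nat_lit 0x0) (nat_lit 0x30000c0000000700000000000000) := T_46 (nat_lit 91) (nat_lit 90) (nat_lit 1) (nat_lit 9) (nat_lit 4) L130400 (by decide +kernel)
theorem L130402 : W_46 (nat_lit 5) (nat_lit 0x10001e000000000003c001000000000000000) (nat_lit 0x0) (nat_lit 0x6000000030000c0000000700000000000000) := T_46 (nat_lit 142) (nat_lit 141) (nat_lit 1) (nat_lit 9) (nat_lit 7) L130401 (by decide +kernel)
theorem L130403 : W_46 (nat_lit 6) (nat_lit 0x10001e000000000003c000000000000000000) (nat_lit 0x0) (nat_lit 0x6000000030000c0000003700000000000000) := T_46 (nat_lit 60) (nat_lit 61) (nat_lit 2) (nat_lit 6) (nat_lit 4) L130402 (by decide +kernel)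
theorem L130404 : W_46 (nat_lit 7) (nat_lit 0x10001e0000000000038000000000000000000) (nat_lit 0x0) (nat_lit 0x6000000030000e0006003f80000000000000) := Q_46 (nat_lit 74) (C_46 L124497 (C_46 L122175 (C_46 L130403 (C_46 L122174 N_46)))) (by decide +kernel)
theorem L130405 : W_46 (nat_lit 2) (nat_lit 0x14001e00080020001f8012400000000000000) (nat_lit 0x0) (nat_lit 0x200021000000000000000) := D_46 (nat_lit 81) (nat_lit 60) (nat_lit 65) (nat_lit 0) (nat_lit 13) (nat_lit 4) (nat_lit 2) (nat_lit 10) (nat_lit 4) (by decide +kernel)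
theorem L130406 : W_46 (nat_lit 3) (nat_lit 0x14001e00080020001f8002400000000000000) (nat_lit 0x0) (nat_lit 0x200039000000000000000) := T_46 (nat_lit 64) (nat_lit 63) (nat_lit 2) (nat_lit 9) (nat_lit 4) L130405 (by decide +kernel)
theorem L130407 : W_46 (nat_lit 4) (nat_lit 0x14001e00080020000f8002400000000000000) (nat_lit 0x0) (nat_lit 0x4000300039000000000000000) := T_46 (nat_lit 80) (nat_lit 98) (nat_lit 3) (nat_lit 9) (nat_lit 4) L130406 (by decide +kernel)
theorem L130408 : W_46 (nat_lit 5) (nat_lit 0x14001e00080000000f8002400000000000000) (nat_lit 0x0) (nat_lit 0x7000300039000000000000000) := T_46 (nat_lit 97) (nat_lit 96) (nat_lit 3) (nat_lit 8) (nat_lit 4) L130407 (by decide +kernel)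
theorem L130409 : W_46 (nat_lit 6) (nat_lit 0x14001e0008000000078002400000000000000) (nat_lit 0x0) (nat_lit 0x7000380039800000000000000) := T_46 (nat_lit 79) (nat_lit 59) (nat_lit 0) (nat_lit 11) (nat_lit 4) L130408 (by decide +kernel)
theorem L130410 : W_46 (nat_lit 7) (nat_lit 0x14001e0000000000078002400000000000000) (nat_lit 0x0) (nat_lit 0x8007400380039800000000000000) := T_46 (nat_lit 111) (nat_lit 94) (nat_lit 6) (nat_lit 9) (nat_lit 7) L130409 (by decide +kernel)
theorem L130411 : W_46 (nat_lit 8) (nat_lit 0x14001e0000000000078002000000000000000) (nat_lit 0x0) (nat_lit 0x8007400380039e00000000000000) := T_46 (nat_lit 58) (nat_lit 57) (nat_lit 0) (nat_lit 10) (nat_lit 4) L130410 (by decide +kernel)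
theorem L130412 : W_46 (nat_lit 9) (nat_lit 0x14001e0000000000078000000000000000000) (nat_lit 0x0) (nat_lit 0x800740038003fe00000000000000) := T_46 (nat_lit 61) (nat_lit 62) (nat_lit 2) (nat_lit 7) (nat_lit 4) L130411 (by decide +kernel)
theorem L130413 : W_46 (nat_lit 10) (nat_lit 0x10001e0000000000078000000000000000000) (nat_lit 0x0) (nat_lit 0x60000000800740038003fe00000000000000) := T_46 (nat_lit 142) (nat_lit 141) (nat_lit 1) (nat_lit 9) (nat_lit 7) L130412 (by decide +kernel)
theorem L130414 : W_46 (nat_lit 2) (nat_lit 0x14001e00000000000f8000400000000000000) (nat_lit 0x0) (nat_lit 0xe000000000000000) := D_46 (nat_lit 62) (nat_lit 61) (nat_lit 63) (nat_lit 2) (nat_lit 7) (nat_lit 4) (nat_lit 2) (nat_lit 8) (nat_lit 4) (by decide +kernel)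
theorem L130415 : W_46 (nat_lit 3) (nat_lit 0x14001e0000000000078000400000000000000) (nat_lit 0x0) (nat_lit 0x8000e800000000000000) := T_46 (nat_lit 79) (nat_lit 59) (nat_lit 0) (nat_lit 11) (nat_lit 4) L130414 (by decide +kernel)
theorem L130416 : W_46 (nat_lit 4) (nat_lit 0x10001e0000000000078000400000000000000) (nat_lit 0x0) (nat_lit 0x60000000000000008000e800000000000000) := T_46 (nat_lit 142) (nat_lit 141) (nat_lit 1) (nat_lit 9) (nat_lit 7) L130415 (by decide +kernel)
theorem L130417 : W_46 (nat_lit 5) (nat_lit 0x10001e0000000000078000000000000000000) (nat_lit 0x0) (nat_lit 0x60000000000000008000ee00000000000000) := T_46 (nat_lit 58) (nat_lit 57) (nat_lit 0) (nat_lit 10) (nat_lit 4) L130416 (by decide +kernel)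
theorem L130418 : W_46 (nat_lit 2) (nat_lit 0x14001e00000014001f8002000000008000000) (nat_lit 0x0) (nat_lit 0x200001800000000000000) := D_46 (nat_lit 60) (nat_lit 81) (nat_lit 59) (nat_lit 0) (nat_lit 13) (nat_lit 4) (nat_lit 0) (nat_lit 12) (nat_lit 4) (by decide +kernel)
theorem L130419 : W_46 (nat_lit 3) (nat_lit 0x14001e00000014000f8002000000008000000) (nat_lit 0x0) (nat_lit 0x200300001800000000000000) := T_46 (nat_lit 80) (nat_lit 93) (nat_lit 1) (nat_lit 12) (nat_lit 4) L130418 (by decide +kernel)
theorem L130420 : W_46 (nat_lit 4) (nat_lit 0x14001e0000001400078002000000008000000) (nat_lit 0x0) (nat_lit 0x2200380001800000000000000) := T_46 (nat_lit 79) (nat_lit 97) (nat_lit 3) (nat_lit 8) (nat_lit 4) L130419 (by decide +kernel)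
theorem L130421 : W_46 (nat_lit 5) (nat_lit 0x14001e0000001400078002000000000000000) (nat_lit 0x0) (nat_lit 0x2200380001800100008000000) := T_46 (nat_lit 27) (nat_lit 44) (nat_lit 5) (nat_lit 10) (nat_lit 1) L130420 (by decide +kernel)
theorem L130422 : W_46 (nat_lit 6) (nat_lit 0x14001e0000000400078002000000000000000) (nat_lit 0x0) (nat_lit 0x3a00380001800100008000000) := T_46 (nat_lit 96) (nat_lit 95) (nat_lit 3) (nat_lit 7) (nat_lit 4) L130421 (by decide +kernel)
theorem L130423 : W_46 (nat_lit 7) (nat_lit 0x14001e0000000000078002000000000000000) (nat_lit 0x0) (nat_lit 0x8003e00380001800100008000000) := T_46 (nat_lit 94) (nat_lit 111) (nat_lit 6) (nat_lit 9) (nat_lit 7) L130422 (by decide +kernel)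
theorem L130424 : W_46 (nat_lit 8) (nat_lit 0x10001e0000000000078002000000000000000) (nat_lit 0x0) (nat_lit 0x600000008003e00380001800100008000000) := T_46 (nat_lit 142) (nat_lit 141) (nat_lit 1) (nat_lit 9) (nat_lit 7) L130423 (by decide +kernel)
theorem L130425 : W_46 (nat_lit 9) (nat_lit 0x10001e0000000000078000000000000000000) (nat_lit 0x0) (nat_lit 0x600000008003e00380007800100008000000) := T_46 (nat_lit 61) (nat_lit 62) (nat_lit 2) (nat_lit 7) (nat_lit 4) L130424 (by decide +kernel)
theorem L130426 : W_46 (nat_lit 2) (nat_lit 0x14001e0000000c00078002400380000000000) (nat_lit 0x0) (nat_lit 0x1800040000000000) := D_46 (nat_lit 59) (nat_lit 60) (nat_lit 42) (nat_lit 2) (nat_lit 7) (nat_lit 3) (nat_lit 1) (nat_lit 11) (nat_lit 2) (by decide +kernel)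
theorem L130427 : W_46 (nat_lit 3) (nat_lit 0x14001e0000000c00078002400180000000000) (nat_lit 0x0) (nat_lit 0x1800240010000000) := T_46 (nat_lit 45) (nat_lit 28) (nat_lit 6) (nat_lit 10) (nat_lit 5) L130426 (by decide +kernel)
theorem L130428 : W_46 (nat_lit 4) (nat_lit 0x14001e0000000c00078002400100000000000) (nat_lit 0x0) (nat_lit 0x18002c0014000000) := T_46 (nat_lit 43) (nat_lit 26) (nat_lit 4) (nat_lit 10) (nat_lit 5) L130427 (by decide +kernel)
theorem L130429 : W_46 (nat_lit 5) (nat_lit 0x14001e0000000c00078002400000000000000) (nat_lit 0x0) (nat_lit 0x18003c001c000000) := T_46 (nat_lit 44) (nat_lit 27) (nat_lit 5) (nat_lit 10) (nat_lit 1) L130428 (by decide +kernel)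
theorem L130430 : W_46 (nat_lit 6) (nat_lit 0x14001e0000000800078002400000000000000) (nat_lit 0x0) (nat_lit 0x80004000000018003c001c000000) := T_46 (nat_lit 94) (nat_lit 111) (nat_lit 6) (nat_lit 9) (nat_lit 7) L130429 (by decide +kernel)
theorem L130431 : W_46 (nat_lit 7) (nat_lit 0x14001e0000000800078000400000000000000) (nat_lit 0x0) (nat_lit 0x80004000000078003c001c000000) := T_46 (nat_lit 61) (nat_lit 62) (nat_lit 2) (nat_lit 7) (nat_lit 4) L130430 (by decide +kernel)
theorem L130432 : W_46 (nat_lit 8) (nat_lit 0x10001e0000000800078000400000000000000) (nat_lit 0x0) (nat_lit 0x6000000080004000000078003c001c000000) := T_46 (nat_lit 142) (nat_lit 141) (nat_lit 1) (nat_lit 9) (nat_lit 7) L130431 (by decide +kernel)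
theorem L130433 : W_46 (nat_lit 9) (nat_lit 0x10001e0000000800078000000000000000000) (nat_lit 0x0) (nat_lit 0x600000008000400000007e003c001c000000) := T_46 (nat_lit 58) (nat_lit 57) (nat_lit 0) (nat_lit 10) (nat_lit 4) L130432 (by decide +kernel)
theorem L130434 : W_46 (nat_lit 10) (nat_lit 0x10001e0000000000078000000000000000000) (nat_lit 0x0) (nat_lit 0x600000008001c00000007e003c001c000000) := T_46 (nat_lit 95) (nat_lit 96) (nat_lit 3) (nat_lit 7) (nat_lit 4) L130433 (by decide +kernel)
theorem L130435 : W_46 (nat_lit 2) (nat_lit 0x14001e0000000c000f8004400000000000000) (nat_lit 0x0) (nat_lit 0x200300000000000000000000) := D_46 (nat_lit 80) (nat_lit 81) (nat_lit 93) (nat_lit 1) (nat_lit 13) (nat_lit 4) (nat_lit 1) (nat_lit 12) (nat_lit 4) (by decide +kernel)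
theorem L130436 : W_46 (nat_lit 3) (nat_lit 0x14001e0000000c00078004400000000000000) (nat_lit 0x0) (nat_lit 0x200380008000000000000000) := T_46 (nat_lit 79) (nat_lit 63) (nat_lit 2) (nat_lit 8) (nat_lit 4) L130435 (by decide +kernel)
theorem L130437 : W_46 (nat_lit 4) (nat_lit 0x14001e0000000c00078000400000000000000) (nat_lit 0x0) (nat_lit 0x20038000e000000000000000) := T_46 (nat_lit 62) (nat_lit 61) (nat_lit 2) (nat_lit 7) (nat_lit 4) L130436 (by decide +kernel)
theorem L130438 : W_46 (nat_lit 5) (nat_lit 0x10001e0000000c00078000400000000000000) (nat_lit 0x0) (nat_lit 0x60000000000020038000e000000000000000) := T_46 (nat_lit 142) (nat_lit 141) (nat_lit 1) (nat_lit 9) (nat_lit 7) L130437 (by decide +kernel)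
theorem L130439 : W_46 (nat_lit 6) (nat_lit 0x10001e0000000c00078000000000000000000) (nat_lit 0x0) (nat_lit 0x60000000000020038000e600000000000000) := T_46 (nat_lit 58) (nat_lit 57) (nat_lit 0) (nat_lit 10) (nat_lit 4) L130438 (by decide +kernel)
theorem L130440 : W_46 (nat_lit 7) (nat_lit 0x10001e0000000400078000000000000000000) (nat_lit 0x0) (nat_lit 0x600000000001a0038000e600000000000000) := T_46 (nat_lit 95) (nat_lit 96) (nat_lit 3) (nat_lit 7) (nat_lit 4) L130439 (by decide +kernel)
theorem L130441 : W_46 (nat_lit 8) (nat_lit 0x10001e0000000000078000000000000000000) (nat_lit 0x0) (nat_lit 0x600000008001e0038000e600000000000000) := T_46 (nat_lit 94) (nat_lit 111) (nat_lit 5) (nat_lit 9) (nat_lit 4) L130440 (by decide +kernel)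
theorem L130442 : W_46 (nat_lit 11) (nat_lit 0x10001e0000000000038000000000000000000) (nat_lit 0x0) (nat_lit 0x600000008007e003c003fe003c001c000000) := Q_46 (nat_lit 78) (C_46 L122156 (C_46 L130413 (C_46 L130417 (C_46 L130425 (C_46 L130434 (C_46 L130441 N_46)))))) (by decide +kernel)
theorem L130443 : W_46 (nat_lit 12) (nat_lit 0x10001e0000000000028000000000000000000) (nat_lit 0x0) (nat_lit 0x60000000b007ee03d603ff803c001c000000) := Q_46 (nat_lit 76) (C_46 L130388 (C_46 L130304 (C_46 L130276 (C_46 L130404 (C_46 L130241 (C_46 L130442 N_46)))))) (by decide +kernel)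
theorem L130444 : W_46 (nat_lit 2) (nat_lit 0x14001e0000000780028000000000000000000) (nat_lit 0x0) (nat_lit 0x800006000000000000000000) := D_46 (nat_lit 74) (nat_lit 95) (nat_lit 73) (nat_lit 0) (nat_lit 10) (nat_lit 5) (nat_lit 0) (nat_lit 9) (nat_lit 5) (by decide +kernel)
theorem L130445 : W_46 (nat_lit 3) (nat_lit 0x14001e0000000580028000000000000000000) (nat_lit 0x0) (nat_lit 0xa00046000000000000000000) := T_46 (nat_lit 93) (nat_lit 78) (nat_lit 2) (nat_lit 6) (nat_lit 5) L130444 (by decide +kernel)
theorem L130446 : W_46 (nat_lit 4) (nat_lit 0x14001e0000000500028000000000000000000) (nat_lit 0x0) (nat_lit 0x1000a80046000000000000000000) := T_46 (nat_lit 91) (nat_lit 108) (nat_lit 6) (nat_lit 6) (nat_lit 8) L130445 (by decide +kernel)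
theorem L130447 : W_46 (nat_lit 5) (nat_lit 0x10001e0000000500028000000000000000000) (nat_lit 0x0) (nat_lit 0x600000001000a80046000000000000000000) := T_46 (nat_lit 142) (nat_lit 141) (nat_lit 1) (nat_lit 9) (nat_lit 7) L130446 (by decide +kernel)
theorem L130448 : W_46 (nat_lit 6) (nat_lit 0x10001e0000000400028000000000000000000) (nat_lit 0x0) (nat_lit 0x600000003000b80046000000000000000000) := T_46 (nat_lit 92) (nat_lit 109) (nat_lit 7) (nat_lit 7) (nat_lit 4) L130447 (by decide +kernel)
theorem L130449 : W_46 (nat_lit 7) (nat_lit 0x10001e0000000000028000000000000000000) (nat_lit 0x0) (nat_lit 0x60000000b000f80046000000000000000000) := T_46 (nat_lit 94) (nat_lit 111) (nat_lit 5) (nat_lit 9) (nat_lit 4) L130448 (by decide +kernel)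
theorem L130450 : W_46 (nat_lit 2) (nat_lit 0x14001e0000000b0007c002100000000000000) (nat_lit 0x0) (nat_lit 0x3000080000000000000) := D_46 (nat_lit 73) (nat_lit 55) (nat_lit 72) (nat_lit 0) (nat_lit 8) (nat_lit 4) (nat_lit 3) (nat_lit 4) (nat_lit 4) (by decide +kernel)
theorem L130451 : W_46 (nat_lit 3) (nat_lit 0x14001e000000090007c002100000000000000) (nat_lit 0x0) (nat_lit 0x200083000080000000000000) := T_46 (nat_lit 93) (nat_lit 79) (nat_lit 1) (nat_lit 11) (nat_lit 4) L130450 (by decide +kernel)
theorem L130452 : W_46 (nat_lit 4) (nat_lit 0x14001e000000080007c002100000000000000) (nat_lit 0x0) (nat_lit 0x2000300083000080000000000000) := T_46 (nat_lit 92) (nat_lit 109) (nat_lit 7) (nat_lit 7) (nat_lit 4) L130451 (by decide +kernel)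
theorem L130453 : W_46 (nat_lit 5) (nat_lit 0x10001e000000080007c002100000000000000) (nat_lit 0x0) (nat_lit 0x600000002000300083000080000000000000) := T_46 (nat_lit 142) (nat_lit 141) (nat_lit 1) (nat_lit 9) (nat_lit 7) L130452 (by decide +kernel)
theorem L130454 : W_46 (nat_lit 6) (nat_lit 0x10001e000000080007c002000000000000000) (nat_lit 0x0) (nat_lit 0x600000002000300083000380000000000000) := T_46 (nat_lit 56) (nat_lit 57) (nat_lit 0) (nat_lit 9) (nat_lit 4) L130453 (by decide +kernel)
theorem L130455 : W_46 (nat_lit 7) (nat_lit 0x10001e0000000800078002000000000000000) (nat_lit 0x0) (nat_lit 0x600000002000300087001380000000000000) := T_46 (nat_lit 74) (nat_lit 60) (nat_lit 2) (nat_lit 6) (nat_lit 4) L130454 (by decide +kernel)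
theorem L130456 : W_46 (nat_lit 8) (nat_lit 0x10001e0000000800078000000000000000000) (nat_lit 0x0) (nat_lit 0x600000002000300087007380000000000000) := T_46 (nat_lit 61) (nat_lit 62) (nat_lit 2) (nat_lit 7) (nat_lit 4) L130455 (by decide +kernel)
theorem L130457 : W_46 (nat_lit 9) (nat_lit 0x10001e0000000000078000000000000000000) (nat_lit 0x0) (nat_lit 0x600000002001b00087007380000000000000) := T_46 (nat_lit 95) (nat_lit 96) (nat_lit 3) (nat_lit 7) (nat_lit 4) L130456 (by decide +kernel)
theorem L130458 : W_46 (nat_lit 6) (nat_lit 0x10001e0000000000078000000000000000000) (nat_lit 0x0) (nat_lit 0x60000000200390008000e000000000000000) := T_46 (nat_lit 92) (nat_lit 109) (nat_lit 7) (nat_lit 7) (nat_lit 4) L130242 (by decide +kernel)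
theorem L130459 : W_46 (nat_lit 10) (nat_lit 0x10001e0000000000038000000000000000000) (nat_lit 0x0) (nat_lit 0x600000002003b000c700ff80000000000000) := Q_46 (nat_lit 78) (C_46 L130417 (C_46 L122167 (C_46 L130457 (C_46 L130458 (C_46 L122156 N_46))))) (by decide +kernel)
theorem L130460 : W_46 (nat_lit 2) (nat_lit 0x10001e00000001000f8000000000000000000) (nat_lit 0x0) (nat_lit 0xe000000000000000) := D_46 (nat_lit 62) (nat_lit 61) (nat_lit 63) (nat_lit 2) (nat_lit 7) (nat_lit 4) (nat_lit 2) (nat_lit 8) (nat_lit 4) (by decide +kernel)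
theorem L130461 : W_46 (nat_lit 3) (nat_lit 0x10001e0000000100078000000000000000000) (nat_lit 0x0) (nat_lit 0x20008000e000000000000000) := T_46 (nat_lit 79) (nat_lit 93) (nat_lit 1) (nat_lit 11) (nat_lit 4) L130460 (by decide +kernel)
theorem L130462 : W_46 (nat_lit 4) (nat_lit 0x10001e0000000000078000000000000000000) (nat_lit 0x0) (nat_lit 0x200030008000e000000000000000) := T_46 (nat_lit 92) (nat_lit 109) (nat_lit 7) (nat_lit 7) (nat_lit 4) L130461 (by decide +kernel)
theorem L130463 : W_46 (nat_lit 2) (nat_lit 0x14001e00000001000f8000000000000000000) (nat_lit 0x0) (nat_lit 0xe00000000000000) := D_46 (nat_lit 58) (nat_lit 59) (nat_lit 57) (nat_lit 0) (nat_lit 11) (nat_lit 4) (nat_lit 0) (nat_lit 10) (nat_lit 4) (by decide +kernel)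
theorem L130464 : W_46 (nat_lit 3) (nat_lit 0x14001e0000000100078000000000000000000) (nat_lit 0x0) (nat_lit 0x200080000e00000000000000) := T_46 (nat_lit 79) (nat_lit 93) (nat_lit 1) (nat_lit 11) (nat_lit 4) L130463 (by decide +kernel)
theorem L130465 : W_46 (nat_lit 4) (nat_lit 0x14001e0000000000078000000000000000000) (nat_lit 0x0) (nat_lit 0x2000300080000e00000000000000) := T_46 (nat_lit 92) (nat_lit 109) (nat_lit 7) (nat_lit 7) (nat_lit 4) L130464 (by decide +kernel)
theorem L130466 : W_46 (nat_lit 5) (nat_lit 0x10001e0000000000078000000000000000000) (nat_lit 0x0) (nat_lit 0x600000002000300080000e00000000000000) := T_46 (nat_lit 142) (nat_lit 141) (nat_lit 1) (nat_lit 9) (nat_lit 7) L130465 (by decide +kernel)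
theorem L130467 : W_46 (nat_lit 6) (nat_lit 0x10001e0000000000038000000000000000000) (nat_lit 0x0) (nat_lit 0x6000000020003000c400ff00000000000000) := Q_46 (nat_lit 78) (C_46 L130417 (C_46 L122167 (C_46 L130462 (C_46 L130466 N_46)))) (by decide +kernel)
theorem L130468 : W_46 (nat_lit 2) (nat_lit 0x14001e000000040003e000000000000000000) (nat_lit 0x0) (nat_lit 0x380000000000000) := D_46 (nat_lit 56) (nat_lit 57) (nat_lit 55) (nat_lit 0) (nat_lit 9) (nat_lit 4) (nat_lit 0) (nat_lit 8) (nat_lit 4) (by decide +kernel)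
theorem L130469 : W_46 (nat_lit 3) (nat_lit 0x14001e000000040003c000000000000000000) (nat_lit 0x0) (nat_lit 0x200002000380000000000000) := T_46 (nat_lit 73) (nat_lit 93) (nat_lit 3) (nat_lit 5) (nat_lit 4) L130468 (by decide +kernel)
theorem L130470 : W_46 (nat_lit 4) (nat_lit 0x14001e0000000400038000000000000000000) (nat_lit 0x0) (nat_lit 0xa00006000380000000000000) := T_46 (nat_lit 74) (nat_lit 95) (nat_lit 3) (nat_lit 6) (nat_lit 4) L130469 (by decide +kernel)
theorem L130471 : W_46 (nat_lit 5) (nat_lit 0x14001e0000000000038000000000000000000) (nat_lit 0x0) (nat_lit 0x8000e00006000380000000000000) := T_46 (nat_lit 94) (nat_lit 111) (nat_lit 5) (nat_lit 9) (nat_lit 4) L130470 (by decide +kernel)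
theorem L130472 : W_46 (nat_lit 6) (nat_lit 0x10001e0000000000038000000000000000000) (nat_lit 0x0) (nat_lit 0x600000008000e00006000380000000000000) := T_46 (nat_lit 142) (nat_lit 141) (nat_lit 1) (nat_lit 9) (nat_lit 7) L130471 (by decide +kernel)
theorem L130473 : W_46 (nat_lit 12) (nat_lit 0x10001e0000000000028000000000000000000) (nat_lit 0x0) (nat_lit 0x60000000a007f003d703ff803c001c000000) := Q_46 (nat_lit 76) (C_46 L130384 (C_46 L130442 (C_46 L130241 (C_46 L130459 (C_46 L130467 (C_46 L130472 N_46)))))) (by decide +kernel)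
theorem L130474 : W_46 (nat_lit 2) (nat_lit 0x800000012001f400300040003e000000000000000000) (nat_lit 0x0) (nat_lit 0x3800000000000000) := D_46 (nat_lit 60) (nat_lit 59) (nat_lit 61) (nat_lit 2) (nat_lit 5) (nat_lit 4) (nat_lit 2) (nat_lit 6) (nat_lit 4) (by decide +kernel)
theorem L130475 : W_46 (nat_lit 3) (nat_lit 0x800000012001f400300040003c000000000000000000) (nat_lit 0x0) (nat_lit 0x200002003800000000000000) := T_46 (nat_lit 73) (nat_lit 93) (nat_lit 3) (nat_lit 5) (nat_lit 4) L130474 (by decide +kernel)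
theorem L130476 : W_46 (nat_lit 4) (nat_lit 0x800000012001f400300040002c000000000000000000) (nat_lit 0x0) (nat_lit 0xa00012003800000000000000) := T_46 (nat_lit 76) (nat_lit 95) (nat_lit 3) (nat_lit 6) (nat_lit 4) L130475 (by decide +kernel)
theorem L130477 : W_46 (nat_lit 5) (nat_lit 0x800000012001f4003000400028000000000000000000) (nat_lit 0x0) (nat_lit 0xa80016003800000000000000) := T_46 (nat_lit 74) (nat_lit 91) (nat_lit 5) (nat_lit 6) (nat_lit 4) L130476 (by decide +kernel)
theorem L130478 : W_46 (nat_lit 6) (nat_lit 0x12001f4003000400028000000000000000000) (nat_lit 0x0) (nat_lit 0x80004000000000000000a80016003800000000000000) := T_46 (nat_lit 175) (nat_lit 158) (nat_lit 6) (nat_lit 5) (nat_lit 10) L130477 (by decide +kernel)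
theorem L130479 : W_46 (nat_lit 7) (nat_lit 0x12001f0003000400028000000000000000000) (nat_lit 0x0) (nat_lit 0x8000400000000c000000a80016003800000000000000) := T_46 (nat_lit 122) (nat_lit 123) (nat_lit 2) (nat_lit 3) (nat_lit 7) L130478 (by decide +kernel)
theorem L130480 : W_46 (nat_lit 8) (nat_lit 0x12001f0002000400028000000000000000000) (nat_lit 0x0) (nat_lit 0x8000400000020c001000a80016003800000000000000) := T_46 (nat_lit 108) (nat_lit 129) (nat_lit 0) (nat_lit 10) (nat_lit 7) L130479 (by decide +kernel)
theorem L130481 : W_46 (nat_lit 9) (nat_lit 0x12001f0000000400028000000000000000000) (nat_lit 0x0) (nat_lit 0x8000400000020c003000b80016003800000000000000) := T_46 (nat_lit 109) (nat_lit 92) (nat_lit 7) (nat_lit 7) (nat_lit 4) L130480 (by decide +kernel)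
theorem L130482 : W_46 (nat_lit 10) (nat_lit 0x12001e0000000400028000000000000000000) (nat_lit 0x0) (nat_lit 0x8000400010021c003000b80016003800000000000000) := T_46 (nat_lit 124) (nat_lit 140) (nat_lit 1) (nat_lit 8) (nat_lit 7) L130481 (by decide +kernel)
theorem L130483 : W_46 (nat_lit 11) (nat_lit 0x12001e0000000000028000000000000000000) (nat_lit 0x0) (nat_lit 0x8000400010021c00b000f80016003800000000000000) := T_46 (nat_lit 94) (nat_lit 111) (nat_lit 5) (nat_lit 9) (nat_lit 4) L130482 (by decide +kernel)
theorem L130484 : W_46 (nat_lit 12) (nat_lit 0x10001e0000000000028000000000000000000) (nat_lit 0x0) (nat_lit 0x8000400070021c00b000f80016003800000000000000) := T_46 (nat_lit 141) (nat_lit 142) (nat_lit 1) (nat_lit 9) (nat_lit 7) L130483 (by decide +kernel)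
theorem L130485 : W_46 (nat_lit 14) (nat_lit 0x10001e0000000000008000000000000000000) (nat_lit 0x0) (nat_lit 0x8000400070021c00b007fe03f703ff803f801dc00000) := Q_46 (nat_lit 77) (C_46 L130263 (C_46 L130327 (C_46 L130389 (C_46 L130392 (C_46 L130398 (C_46 L130443 (C_46 L130449 (C_46 L130473 (C_46 L130484 N_46))))))))) (by decide +kernel)
theorem L130486 : W_46 (nat_lit 7) (nat_lit 0x12001f000000000002c000000000000000000) (nat_lit 0x0) (nat_lit 0x1000ec0012003b00000000000000) := T_46 (nat_lit 91) (nat_lit 108) (nat_lit 5) (nat_lit 6) (nat_lit 4) L130314 (by decide +kernel)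
theorem L130487 : W_46 (nat_lit 8) (nat_lit 0x12001e000000000002c000000000000000000) (nat_lit 0x0) (nat_lit 0x100010001000ec0012003b00000000000000) := T_46 (nat_lit 124) (nat_lit 140) (nat_lit 1) (nat_lit 8) (nat_lit 7) L130486 (by decide +kernel)
theorem L130488 : W_46 (nat_lit 9) (nat_lit 0x10001e000000000002c000000000000000000) (nat_lit 0x0) (nat_lit 0x700010001000ec0012003b00000000000000) := T_46 (nat_lit 141) (nat_lit 142) (nat_lit 1) (nat_lit 9) (nat_lit 7) L130487 (by decide +kernel)
theorem L130489 : W_46 (nat_lit 6) (nat_lit 0x10001e000000000002c000000000000000000) (nat_lit 0x0) (nat_lit 0x1ee0052007b80000000000000) := Q_46 (nat_lit 76) (C_46 L130303 (C_46 L122175 (C_46 L122196 (C_46 L122181 N_46)))) (by decide +kernel)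
theorem L130490 : W_46 (nat_lit 2) (nat_lit 0x12001f00000000800fc001a00000000000000) (nat_lit 0x0) (nat_lit 0x3800000000000000000000000) := D_46 (nat_lit 96) (nat_lit 95) (nat_lit 97) (nat_lit 3) (nat_lit 7) (nat_lit 4) (nat_lit 3) (nat_lit 8) (nat_lit 4) (by decide +kernel)
theorem L130491 : W_46 (nat_lit 3) (nat_lit 0x12001f000000008007c001a00000000000000) (nat_lit 0x0) (nat_lit 0x3800180000000000000000000) := T_46 (nat_lit 79) (nat_lit 80) (nat_lit 0) (nat_lit 12) (nat_lit 4) L130490 (by decide +kernel)
theorem L130492 : W_46 (nat_lit 4) (nat_lit 0x12001f000000008003c001a00000000000000) (nat_lit 0x0) (nat_lit 0x38001c0000400000000000000) := T_46 (nat_lit 78) (nat_lit 58) (nat_lit 3) (nat_lit 6) (nat_lit 3) L130491 (by decide +kernel)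
theorem L130493 : W_46 (nat_lit 5) (nat_lit 0x12001f000000008003c001200000000000000) (nat_lit 0x0) (nat_lit 0x38001c2000c00000000000000) := T_46 (nat_lit 59) (nat_lit 73) (nat_lit 2) (nat_lit 5) (nat_lit 4) L130492 (by decide +kernel)
theorem L130494 : W_46 (nat_lit 6) (nat_lit 0x12001f000000008003c000200000000000000) (nat_lit 0x0) (nat_lit 0x38001c2003c00000000000000) := T_46 (nat_lit 60) (nat_lit 61) (nat_lit 2) (nat_lit 6) (nat_lit 4) L130493 (by decide +kernel)
theorem L130495 : W_46 (nat_lit 7) (nat_lit 0x12001f000000008003c000000000000000000) (nat_lit 0x0) (nat_lit 0x38001c2003f00000000000000) := T_46 (nat_lit 57) (nat_lit 56) (nat_lit 0) (nat_lit 9) (nat_lit 4) L130494 (by decide +kernel)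
theorem L130496 : W_46 (nat_lit 8) (nat_lit 0x12001f000000008002c000000000000000000) (nat_lit 0x0) (nat_lit 0x38401d2003f00000000000000) := T_46 (nat_lit 76) (nat_lit 90) (nat_lit 1) (nat_lit 9) (nat_lit 4) L130495 (by decide +kernel)
theorem L130497 : W_46 (nat_lit 9) (nat_lit 0x12001f000000000002c000000000000000000) (nat_lit 0x0) (nat_lit 0x10038c01d2003f00000000000000) := T_46 (nat_lit 91) (nat_lit 108) (nat_lit 5) (nat_lit 6) (nat_lit 4) L130496 (by decide +kernel)
theorem L130498 : W_46 (nat_lit 10) (nat_lit 0x12001e000000000002c000000000000000000) (nat_lit 0x0) (nat_lit 0x1000100010038c01d2003f00000000000000) := T_46 (nat_lit 124) (nat_lit 140) (nat_lit 1) (nat_lit 8) (nat_lit 7) L130497 (by decide +kernel)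
theorem L130499 : W_46 (nat_lit 11) (nat_lit 0x10001e000000000002c000000000000000000) (nat_lit 0x0) (nat_lit 0x7000100010038c01d2003f00000000000000) := T_46 (nat_lit 141) (nat_lit 142) (nat_lit 1) (nat_lit 9) (nat_lit 7) L130498 (by decide +kernel)
theorem L130500 : W_46 (nat_lit 2) (nat_lit 0x800000052003f001100080006c000000000000000000) (nat_lit 0x0) (nat_lit 0x1000080004000000000000000) := D_46 (nat_lit 79) (nat_lit 96) (nat_lit 62) (nat_lit 6) (nat_lit 10) (nat_lit 8) (nat_lit 6) (nat_lit 10) (nat_lit 7) (by decide +kernel)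
theorem L130501 : W_46 (nat_lit 3) (nat_lit 0x800000052003f001100080002c000000000000000000) (nat_lit 0x0) (nat_lit 0x10000c0005000000000000000) := T_46 (nat_lit 78) (nat_lit 60) (nat_lit 4) (nat_lit 10) (nat_lit 7) L130500 (by decide +kernel)
theorem L130502 : W_46 (nat_lit 4) (nat_lit 0x800000052003f001100000002c000000000000000000) (nat_lit 0x0) (nat_lit 0x1c000c0005000000000000000) := T_46 (nat_lit 95) (nat_lit 94) (nat_lit 4) (nat_lit 10) (nat_lit 8) L130501 (by decide +kernel)
theorem L130503 : W_46 (nat_lit 5) (nat_lit 0x800000052003f000100000002c000000000000000000) (nat_lit 0x0) (nat_lit 0x30001c000c0005000000000000000) := T_46 (nat_lit 112) (nat_lit 113) (nat_lit 2) (nat_lit 7) (nat_lit 7) L130502 (by decide +kernel)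
theorem L130504 : W_46 (nat_lit 6) (nat_lit 0x800000012003f000100000002c000000000000000000) (nat_lit 0x0) (nat_lit 0xc000000030001c000c0005000000000000000) := T_46 (nat_lit 146) (nat_lit 147) (nat_lit 3) (nat_lit 7) (nat_lit 7) L130503 (by decide +kernel)
theorem L130505 : W_46 (nat_lit 7) (nat_lit 0x12003f000100000002c000000000000000000) (nat_lit 0x0) (nat_lit 0x8000400c000000030001c000c0005000000000000000) := T_46 (nat_lit 175) (nat_lit 158) (nat_lit 6) (nat_lit 5) (nat_lit 10) L130504 (by decide +kernel)
theorem L130506 : W_46 (nat_lit 8) (nat_lit 0x12001f000100000002c000000000000000000) (nat_lit 0x0) (nat_lit 0x8000400c000200032001c000c0005000000000000000) := T_46 (nat_lit 129) (nat_lit 109) (nat_lit 0) (nat_lit 10) (nat_lit 7) L130505 (by decide +kernel)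
theorem L130507 : W_46 (nat_lit 9) (nat_lit 0x12001f000000000002c000000000000000000) (nat_lit 0x0) (nat_lit 0x8000400c000200033001c800c0005000000000000000) := T_46 (nat_lit 108) (nat_lit 91) (nat_lit 5) (nat_lit 6) (nat_lit 4) L130506 (by decide +kernel)
theorem L130508 : W_46 (nat_lit 10) (nat_lit 0x12001e000000000002c000000000000000000) (nat_lit 0x0) (nat_lit 0x8000400c100210033001c800c0005000000000000000) := T_46 (nat_lit 124) (nat_lit 140) (nat_lit 1) (nat_lit 8) (nat_lit 7) L130507 (by decide +kernel)
theorem L130509 : W_46 (nat_lit 11) (nat_lit 0x10001e000000000002c000000000000000000) (nat_lit 0x0) (nat_lit 0x8000400c700210033001c800c0005000000000000000) := T_46 (nat_lit 141) (nat_lit 142) (nat_lit 1) (nat_lit 9) (nat_lit 7) L130508 (by decide +kernel)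
theorem L130510 : W_46 (nat_lit 2) (nat_lit 0x12001f000000008003c001e00080000000000) (nat_lit 0x0) (nat_lit 0x200000000000000004000200) := D_46 (nat_lit 26) (nat_lit 9) (nat_lit 93) (nat_lit 5) (nat_lit 9) (nat_lit 0) (nat_lit 5) (nat_lit 9) (nat_lit 1) (by decide +kernel)
theorem L130511 : W_46 (nat_lit 3) (nat_lit 0x12001f000000008003c001e00000000000000) (nat_lit 0x0) (nat_lit 0x200000000000180004000200) := T_46 (nat_lit 43) (nat_lit 44) (nat_lit 2) (nat_lit 6) (nat_lit 3) L130510 (by decide +kernel)
theorem L130512 : W_46 (nat_lit 4) (nat_lit 0x12001f000000008003c001a00000000000000) (nat_lit 0x0) (nat_lit 0x200040000400180004000200) := T_46 (nat_lit 58) (nat_lit 78) (nat_lit 3) (nat_lit 6) (nat_lit 3) L130511 (by decide +kernel)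
theorem L130513 : W_46 (nat_lit 5) (nat_lit 0x12001f000000008003c001200000000000000) (nat_lit 0x0) (nat_lit 0x200042000c00180004000200) := T_46 (nat_lit 59) (nat_lit 73) (nat_lit 2) (nat_lit 5) (nat_lit 4) L130512 (by decide +kernel)
theorem L130514 : W_46 (nat_lit 6) (nat_lit 0x12001f000000008003c000200000000000000) (nat_lit 0x0) (nat_lit 0x200042003c00180004000200) := T_46 (nat_lit 60) (nat_lit 61) (nat_lit 2) (nat_lit 6) (nat_lit 4) L130513 (by decide +kernel)
theorem L130515 : W_46 (nat_lit 7) (nat_lit 0x12001f000000008003c000000000000000000) (nat_lit 0x0) (nat_lit 0x200042003f00180004000200) := T_46 (nat_lit 57) (nat_lit 56) (nat_lit 0) (nat_lit 9) (nat_lit 4) L130514 (by decide +kernel)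
theorem L130516 : W_46 (nat_lit 8) (nat_lit 0x12001f000000008002c000000000000000000) (nat_lit 0x0) (nat_lit 0x240052003f00180004000200) := T_46 (nat_lit 76) (nat_lit 90) (nat_lit 1) (nat_lit 9) (nat_lit 4) L130515 (by decide +kernel)
theorem L130517 : W_46 (nat_lit 9) (nat_lit 0x12001f000000000002c000000000000000000) (nat_lit 0x0) (nat_lit 0x10002c0052003f00180004000200) := T_46 (nat_lit 91) (nat_lit 108) (nat_lit 5) (nat_lit 6) (nat_lit 4) L130516 (by decide +kernel)
theorem L130518 : W_46 (nat_lit 10) (nat_lit 0x12001e000000000002c000000000000000000) (nat_lit 0x0) (nat_lit 0x1000100010002c0052003f00180004000200) := T_46 (nat_lit 124) (nat_lit 140) (nat_lit 1) (nat_lit 8) (nat_lit 7) L130517 (by decide +kernel)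
theorem L130519 : W_46 (nat_lit 11) (nat_lit 0x10001e000000000002c000000000000000000) (nat_lit 0x0) (nat_lit 0x7000100010002c0052003f00180004000200) := T_46 (nat_lit 141) (nat_lit 142) (nat_lit 1) (nat_lit 9) (nat_lit 7) L130518 (by decide +kernel)
theorem L130520 : W_46 (nat_lit 2) (nat_lit 0x14001e000000040003e000a00000000000000) (nat_lit 0x0) (nat_lit 0x41000400000000000000) := D_46 (nat_lit 58) (nat_lit 72) (nat_lit 78) (nat_lit 2) (nat_lit 4) (nat_lit 4) (nat_lit 0) (nat_lit 10) (nat_lit 4) (by decide +kernel)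
theorem L130521 : W_46 (nat_lit 3) (nat_lit 0x14001e000000040003e000200000000000000) (nat_lit 0x0) (nat_lit 0x41001c00000000000000) := T_46 (nat_lit 59) (nat_lit 60) (nat_lit 2) (nat_lit 5) (nat_lit 4) L130520 (by decide +kernel)
theorem L130522 : W_46 (nat_lit 4) (nat_lit 0x14001e000000040003c000200000000000000) (nat_lit 0x0) (nat_lit 0x200043001c00000000000000) := T_46 (nat_lit 73) (nat_lit 93) (nat_lit 3) (nat_lit 5) (nat_lit 4) L130521 (by decide +kernel)
theorem L130523 : W_46 (nat_lit 5) (nat_lit 0x14001e000000000003c000200000000000000) (nat_lit 0x0) (nat_lit 0xe00043001c00000000000000) := T_46 (nat_lit 94) (nat_lit 95) (nat_lit 3) (nat_lit 6) (nat_lit 4) L130522 (by decide +kernel)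
theorem L130524 : W_46 (nat_lit 6) (nat_lit 0x14001e000000000003c000000000000000000) (nat_lit 0x0) (nat_lit 0xe00043001f00000000000000) := T_46 (nat_lit 57) (nat_lit 56) (nat_lit 0) (nat_lit 9) (nat_lit 4) L130523 (by decide +kernel)
theorem L130525 : W_46 (nat_lit 7) (nat_lit 0x10001e000000000003c000000000000000000) (nat_lit 0x0) (nat_lit 0x600000000000e00043001f00000000000000) := T_46 (nat_lit 142) (nat_lit 141) (nat_lit 1) (nat_lit 9) (nat_lit 7) L130524 (by decide +kernel)
theorem L130526 : W_46 (nat_lit 8) (nat_lit 0x10001e000000000002c000000000000000000) (nat_lit 0x0) (nat_lit 0x600000000003e000d300ff80000000000000) := Q_46 (nat_lit 76) (C_46 L124503 (C_46 L122196 (C_46 L122175 (C_46 L122200 (C_46 L130525 N_46))))) (by decide +kernel)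
theorem L130527 : W_46 (nat_lit 2) (nat_lit 0x12001f000000048003e000600000000000000) (nat_lit 0x0) (nat_lit 0x1800800000000000000) := D_46 (nat_lit 72) (nat_lit 71) (nat_lit 59) (nat_lit 2) (nat_lit 3) (nat_lit 4) (nat_lit 2) (nat_lit 4) (nat_lit 4) (by decide +kernel)
theorem L130528 : W_46 (nat_lit 3) (nat_lit 0x12001f000000048003e000200000000000000) (nat_lit 0x0) (nat_lit 0x41800c00000000000000) := T_46 (nat_lit 58) (nat_lit 78) (nat_lit 0) (nat_lit 10) (nat_lit 4) L130527 (by decide +kernel)
theorem L130529 : W_46 (nat_lit 4) (nat_lit 0x12001f000000048003c000200000000000000) (nat_lit 0x0) (nat_lit 0x200043800c00000000000000) := T_46 (nat_lit 73) (nat_lit 93) (nat_lit 3) (nat_lit 5) (nat_lit 4) L130528 (by decide +kernel)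
theorem L130530 : W_46 (nat_lit 5) (nat_lit 0x12001f000000008003c000200000000000000) (nat_lit 0x0) (nat_lit 0xe00043800c00000000000000) := T_46 (nat_lit 94) (nat_lit 95) (nat_lit 3) (nat_lit 6) (nat_lit 4) L130529 (by decide +kernel)
theorem L130531 : W_46 (nat_lit 6) (nat_lit 0x12001f000000008003c000000000000000000) (nat_lit 0x0) (nat_lit 0xe00043800f00000000000000) := T_46 (nat_lit 57) (nat_lit 56) (nat_lit 0) (nat_lit 9) (nat_lit 4) L130530 (by decide +kernel)
theorem L130532 : W_46 (nat_lit 7) (nat_lit 0x12001f000000008002c000000000000000000) (nat_lit 0x0) (nat_lit 0xe40053800f00000000000000) := T_46 (nat_lit 76) (nat_lit 90) (nat_lit 1) (nat_lit 9) (nat_lit 4) L130531 (by decide +kernel)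
theorem L130533 : W_46 (nat_lit 8) (nat_lit 0x12001f000000000002c000000000000000000) (nat_lit 0x0) (nat_lit 0x1000ec0053800f00000000000000) := T_46 (nat_lit 91) (nat_lit 108) (nat_lit 5) (nat_lit 6) (nat_lit 4) L130532 (by decide +kernel)
theorem L130534 : W_46 (nat_lit 9) (nat_lit 0x12001e000000000002c000000000000000000) (nat_lit 0x0) (nat_lit 0x100010001000ec0053800f00000000000000) := T_46 (nat_lit 124) (nat_lit 140) (nat_lit 1) (nat_lit 8) (nat_lit 7) L130533 (by decide +kernel)
theorem L130535 : W_46 (nat_lit 10) (nat_lit 0x10001e000000000002c000000000000000000) (nat_lit 0x0) (nat_lit 0x700010001000ec0053800f00000000000000) := T_46 (nat_lit 141) (nat_lit 142) (nat_lit 1) (nat_lit 9) (nat_lit 7) L130534 (by decide +kernel)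
theorem L130536 : W_46 (nat_lit 12) (nat_lit 0x10001e0000000000028000000000000000000) (nat_lit 0x0) (nat_lit 0x8000400c700210033003ee01d780ff80180004000200) := Q_46 (nat_lit 74) (C_46 L130488 (C_46 L130489 (C_46 L130499 (C_46 L130509 (C_46 L130519 (C_46 L130526 (C_46 L130535 N_46))))))) (by decide +kernel)
theorem L130537 : W_46 (nat_lit 2) (nat_lit 0x20000000090007e001200000007c002000000000000000) (nat_lit 0x0) (nat_lit 0x700000000000000) := D_46 (nat_lit 57) (nat_lit 58) (nat_lit 56) (nat_lit 0) (nat_lit 10) (nat_lit 4) (nat_lit 0) (nat_lit 9) (nat_lit 4) (by decide +kernel)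
theorem L130538 : W_46 (nat_lit 3) (nat_lit 0x20000000090007e0012000000078002000000000000000) (nat_lit 0x0) (nat_lit 0x4001700000000000000) := T_46 (nat_lit 74) (nat_lit 60) (nat_lit 2) (nat_lit 6) (nat_lit 4) L130537 (by decide +kernel)
theorem L130539 : W_46 (nat_lit 4) (nat_lit 0x20000000090007e0012000000078000000000000000000) (nat_lit 0x0) (nat_lit 0x4007700000000000000) := T_46 (nat_lit 61) (nat_lit 62) (nat_lit 2) (nat_lit 7) (nat_lit 4) L130538 (by decide +kernel)
theorem L130540 : W_46 (nat_lit 5) (nat_lit 0x20000000090007e0012000000038000000000000000000) (nat_lit 0x0) (nat_lit 0x800044007700000000000000) := T_46 (nat_lit 78) (nat_lit 95) (nat_lit 7) (nat_lit 10) (nat_lit 4) L130539 (by decide +kernel)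
theorem L130541 : W_46 (nat_lit 6) (nat_lit 0x90007e0012000000038000000000000000000) (nat_lit 0x0) (nat_lit 0x2000100000000000000000800044007700000000000000) := T_46 (nat_lit 181) (nat_lit 164) (nat_lit 4) (nat_lit 11) (nat_lit 10) L130540 (by decide +kernel)
theorem L130542 : W_46 (nat_lit 7) (nat_lit 0x90003e0012000000038000000000000000000) (nat_lit 0x0) (nat_lit 0x2000100010000400000000800044007700000000000000) := T_46 (nat_lit 130) (nat_lit 148) (nat_lit 3) (nat_lit 8) (nat_lit 7) L130541 (by decide +kernel)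
theorem L130543 : W_46 (nat_lit 8) (nat_lit 0x10003e0012000000038000000000000000000) (nat_lit 0x0) (nat_lit 0x200010001c000400000000800044007700000000000000) := T_46 (nat_lit 147) (nat_lit 146) (nat_lit 3) (nat_lit 7) (nat_lit 7) L130542 (by decide +kernel)
theorem L130544 : W_46 (nat_lit 9) (nat_lit 0x10003e0010000000038000000000000000000) (nat_lit 0x0) (nat_lit 0x200010001c000400003000800044007700000000000000) := T_46 (nat_lit 109) (nat_lit 108) (nat_lit 0) (nat_lit 10) (nat_lit 7) L130543 (by decide +kernel)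
theorem L130545 : W_46 (nat_lit 10) (nat_lit 0x10001e0010000000038000000000000000000) (nat_lit 0x0) (nat_lit 0x200010001c000600023000800044007700000000000000) := T_46 (nat_lit 129) (nat_lit 113) (nat_lit 2) (nat_lit 7) (nat_lit 7) L130544 (by decide +kernel)
theorem L130546 : W_46 (nat_lit 11) (nat_lit 0x10001e0000000000038000000000000000000) (nat_lit 0x0) (nat_lit 0x200010001c00060003b000800044007700000000000000) := T_46 (nat_lit 112) (nat_lit 111) (nat_lit 2) (nat_lit 6) (nat_lit 7) L130545 (by decide +kernel)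
theorem L130547 : W_46 (nat_lit 2) (nat_lit 0x94007e001200004007c002100000000000000) (nat_lit 0x0) (nat_lit 0x20002000080000000000000) := D_46 (nat_lit 73) (nat_lit 89) (nat_lit 55) (nat_lit 1) (nat_lit 8) (nat_lit 4) (nat_lit 0) (nat_lit 8) (nat_lit 4) (by decide +kernel)
theorem L130548 : W_46 (nat_lit 3) (nat_lit 0x94007e001200004007c002000000000000000) (nat_lit 0x0) (nat_lit 0x20002000380000000000000) := T_46 (nat_lit 56) (nat_lit 57) (nat_lit 0) (nat_lit 9) (nat_lit 4) L130547 (by decide +kernel)
theorem L130549 : W_46 (nat_lit 4) (nat_lit 0x94007e001200000007c002000000000000000) (nat_lit 0x0) (nat_lit 0xe0002000380000000000000) := T_46 (nat_lit 90) (nat_lit 91) (nat_lit 1) (nat_lit 9) (nat_lit 4) L130548 (by decide +kernel)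
theorem L130550 : W_46 (nat_lit 5) (nat_lit 0x94007e0012000000078002000000000000000) (nat_lit 0x0) (nat_lit 0xe0006001380000000000000) := T_46 (nat_lit 74) (nat_lit 60) (nat_lit 2) (nat_lit 6) (nat_lit 4) L130549 (by decide +kernel)
theorem L130551 : W_46 (nat_lit 6) (nat_lit 0x94007e0012000000078000000000000000000) (nat_lit 0x0) (nat_lit 0xe0006007380000000000000) := T_46 (nat_lit 61) (nat_lit 62) (nat_lit 2) (nat_lit 7) (nat_lit 4) L130550 (by decide +kernel)
theorem L130552 : W_46 (nat_lit 7) (nat_lit 0x94007e0012000000038000000000000000000) (nat_lit 0x0) (nat_lit 0x8e0046007380000000000000) := T_46 (nat_lit 78) (nat_lit 95) (nat_lit 7) (nat_lit 10) (nat_lit 4) L130551 (by decide +kernel)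
theorem L130553 : W_46 (nat_lit 8) (nat_lit 0x94003e0012000000038000000000000000000) (nat_lit 0x0) (nat_lit 0x100004000000008e0046007380000000000000) := T_46 (nat_lit 130) (nat_lit 148) (nat_lit 3) (nat_lit 8) (nat_lit 7) L130552 (by decide +kernel)
theorem L130554 : W_46 (nat_lit 9) (nat_lit 0x14003e0012000000038000000000000000000) (nat_lit 0x0) (nat_lit 0x1c0004000000008e0046007380000000000000) := T_46 (nat_lit 147) (nat_lit 146) (nat_lit 3) (nat_lit 7) (nat_lit 7) L130553 (by decide +kernel)
theorem L130555 : W_46 (nat_lit 10) (nat_lit 0x14003e0010000000038000000000000000000) (nat_lit 0x0) (nat_lit 0x1c0004000030008e0046007380000000000000) := T_46 (nat_lit 109) (nat_lit 108) (nat_lit 0) (nat_lit 10) (nat_lit 7) L130554 (by decide +kernel)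
theorem L130556 : W_46 (nat_lit 11) (nat_lit 0x14001e0010000000038000000000000000000) (nat_lit 0x0) (nat_lit 0x1c0006000230008e0046007380000000000000) := T_46 (nat_lit 129) (nat_lit 113) (nat_lit 2) (nat_lit 7) (nat_lit 7) L130555 (by decide +kernel)
theorem L130557 : W_46 (nat_lit 12) (nat_lit 0x10001e0010000000038000000000000000000) (nat_lit 0x0) (nat_lit 0x1c6006000230008e0046007380000000000000) := T_46 (nat_lit 142) (nat_lit 141) (nat_lit 1) (nat_lit 9) (nat_lit 7) L130556 (by decide +kernel)
theorem L130558 : W_46 (nat_lit 13) (nat_lit 0x10001e0000000000038000000000000000000) (nat_lit 0x0) (nat_lit 0x1c60060003b0008e0046007380000000000000) := T_46 (nat_lit 112) (nat_lit 111) (nat_lit 2) (nat_lit 6) (nat_lit 7) L130557 (by decide +kernel)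
theorem L130559 : W_46 (nat_lit 2) (nat_lit 0x21000000094007e0012000000078004400000000000000) (nat_lit 0x0) (nat_lit 0x80008800000000000000) := D_46 (nat_lit 79) (nat_lit 63) (nat_lit 59) (nat_lit 2) (nat_lit 8) (nat_lit 4) (nat_lit 0) (nat_lit 11) (nat_lit 4) (by decide +kernel)
theorem L130560 : W_46 (nat_lit 3) (nat_lit 0x21000000094007e0012000000078004000000000000000) (nat_lit 0x0) (nat_lit 0x80008e00000000000000) := T_46 (nat_lit 58) (nat_lit 57) (nat_lit 0) (nat_lit 10) (nat_lit 4) L130559 (by decide +kernel)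
theorem L130561 : W_46 (nat_lit 4) (nat_lit 0x21000000094007e0012000000078000000000000000000) (nat_lit 0x0) (nat_lit 0x8000ee00000000000000) := T_46 (nat_lit 62) (nat_lit 61) (nat_lit 2) (nat_lit 7) (nat_lit 4) L130560 (by decide +kernel)
theorem L130562 : W_46 (nat_lit 5) (nat_lit 0x21000000094007e0012000000038000000000000000000) (nat_lit 0x0) (nat_lit 0x8000c000ee00000000000000) := T_46 (nat_lit 78) (nat_lit 95) (nat_lit 7) (nat_lit 10) (nat_lit 4) L130561 (by decide +kernel)
theorem L130563 : W_46 (nat_lit 6) (nat_lit 0x1000000094007e0012000000038000000000000000000) (nat_lit 0x0) (nat_lit 0x20001000000000000000008000c000ee00000000000000) := T_46 (nat_lit 181) (nat_lit 164) (nat_lit 4) (nat_lit 11) (nat_lit 10) L130562 (by decide +kernel)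
theorem L130564 : W_46 (nat_lit 7) (nat_lit 0x1000000094003e0012000000038000000000000000000) (nat_lit 0x0) (nat_lit 0x20001000100004000000008000c000ee00000000000000) := T_46 (nat_lit 130) (nat_lit 148) (nat_lit 3) (nat_lit 8) (nat_lit 7) L130563 (by decide +kernel)
theorem L130565 : W_46 (nat_lit 8) (nat_lit 0x94003e0012000000038000000000000000000) (nat_lit 0x0) (nat_lit 0x21001080100004000000008000c000ee00000000000000) := T_46 (nat_lit 176) (nat_lit 159) (nat_lit 6) (nat_lit 6) (nat_lit 10) L130564 (by decide +kernel)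
theorem L130566 : W_46 (nat_lit 9) (nat_lit 0x14003e0012000000038000000000000000000) (nat_lit 0x0) (nat_lit 0x210010801c0004000000008000c000ee00000000000000) := T_46 (nat_lit 147) (nat_lit 146) (nat_lit 3) (nat_lit 7) (nat_lit 7) L130565 (by decide +kernel)
theorem L130567 : W_46 (nat_lit 10) (nat_lit 0x14003e0010000000038000000000000000000) (nat_lit 0x0) (nat_lit 0x210010801c0004000030008000c000ee00000000000000) := T_46 (nat_lit 109) (nat_lit 108) (nat_lit 0) (nat_lit 10) (nat_lit 7) L130566 (by decide +kernel)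
theorem L130568 : W_46 (nat_lit 11) (nat_lit 0x14001e0010000000038000000000000000000) (nat_lit 0x0) (nat_lit 0x210010801c0006000230008000c000ee00000000000000) := T_46 (nat_lit 129) (nat_lit 113) (nat_lit 2) (nat_lit 7) (nat_lit 7) L130567 (by decide +kernel)
theorem L130569 : W_46 (nat_lit 12) (nat_lit 0x10001e0010000000038000000000000000000) (nat_lit 0x0) (nat_lit 0x210010801c6006000230008000c000ee00000000000000) := T_46 (nat_lit 142) (nat_lit 141) (nat_lit 1) (nat_lit 9) (nat_lit 7) L130568 (by decide +kernel)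
theorem L130570 : W_46 (nat_lit 13) (nat_lit 0x10001e0000000000038000000000000000000) (nat_lit 0x0) (nat_lit 0x210010801c60060003b0008000c000ee00000000000000) := T_46 (nat_lit 112) (nat_lit 111) (nat_lit 2) (nat_lit 6) (nat_lit 7) L130569 (by decide +kernel)
theorem L130571 : W_46 (nat_lit 2) (nat_lit 0x94007e00120020000f8004800000000000000) (nat_lit 0x0) (nat_lit 0x4000100001000000000000000) := D_46 (nat_lit 80) (nat_lit 60) (nat_lit 98) (nat_lit 0) (nat_lit 12) (nat_lit 4) (nat_lit 3) (nat_lit 9) (nat_lit 4) (by decide +kernel)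
theorem L130572 : W_46 (nat_lit 3) (nat_lit 0x94007e00120000000f8004800000000000000) (nat_lit 0x0) (nat_lit 0x7000100001000000000000000) := T_46 (nat_lit 97) (nat_lit 96) (nat_lit 3) (nat_lit 8) (nat_lit 4) L130571 (by decide +kernel)
theorem L130573 : W_46 (nat_lit 4) (nat_lit 0x94007e00120000000f8004000000000000000) (nat_lit 0x0) (nat_lit 0x7000100001c00000000000000) := T_46 (nat_lit 59) (nat_lit 58) (nat_lit 0) (nat_lit 11) (nat_lit 4) L130572 (by decide +kernel)
theorem L130574 : W_46 (nat_lit 5) (nat_lit 0x94007e0012000000078004000000000000000) (nat_lit 0x0) (nat_lit 0x7000180009c00000000000000) := T_46 (nat_lit 79) (nat_lit 63) (nat_lit 2) (nat_lit 8) (nat_lit 4) L130573 (by decide +kernel)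
theorem L130575 : W_46 (nat_lit 6) (nat_lit 0x94007e0012000000078000000000000000000) (nat_lit 0x0) (nat_lit 0x700018000fc00000000000000) := T_46 (nat_lit 62) (nat_lit 61) (nat_lit 2) (nat_lit 7) (nat_lit 4) L130574 (by decide +kernel)
theorem L130576 : W_46 (nat_lit 7) (nat_lit 0x94007e0012000000038000000000000000000) (nat_lit 0x0) (nat_lit 0x78001c000fc00000000000000) := T_46 (nat_lit 78) (nat_lit 95) (nat_lit 7) (nat_lit 10) (nat_lit 4) L130575 (by decide +kernel)
theorem L130577 : W_46 (nat_lit 8) (nat_lit 0x94003e0012000000038000000000000000000) (nat_lit 0x0) (nat_lit 0x100004000000078001c000fc00000000000000) := T_46 (nat_lit 130) (nat_lit 148) (nat_lit 3) (nat_lit 8) (nat_lit 7) L130576 (by decide +kernel)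
theorem L130578 : W_46 (nat_lit 9) (nat_lit 0x14003e0012000000038000000000000000000) (nat_lit 0x0) (nat_lit 0x1c0004000000078001c000fc00000000000000) := T_46 (nat_lit 147) (nat_lit 146) (nat_lit 3) (nat_lit 7) (nat_lit 7) L130577 (by decide +kernel)
theorem L130579 : W_46 (nat_lit 10) (nat_lit 0x14003e0010000000038000000000000000000) (nat_lit 0x0) (nat_lit 0x1c0004000030078001c000fc00000000000000) := T_46 (nat_lit 109) (nat_lit 108) (nat_lit 0) (nat_lit 10) (nat_lit 7) L130578 (by decide +kernel)
theorem L130580 : W_46 (nat_lit 11) (nat_lit 0x14001e0010000000038000000000000000000) (nat_lit 0x0) (nat_lit 0x1c0006000230078001c000fc00000000000000) := T_46 (nat_lit 129) (nat_lit 113) (nat_lit 2) (nat_lit 7) (nat_lit 7) L130579 (by decide +kernel)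
theorem L130581 : W_46 (nat_lit 12) (nat_lit 0x10001e0010000000038000000000000000000) (nat_lit 0x0) (nat_lit 0x1c6006000230078001c000fc00000000000000) := T_46 (nat_lit 142) (nat_lit 141) (nat_lit 1) (nat_lit 9) (nat_lit 7) L130580 (by decide +kernel)
theorem L130582 : W_46 (nat_lit 13) (nat_lit 0x10001e0000000000038000000000000000000) (nat_lit 0x0) (nat_lit 0x1c60060003b0078001c000fc00000000000000) := T_46 (nat_lit 112) (nat_lit 111) (nat_lit 2) (nat_lit 6) (nat_lit 7) L130581 (by decide +kernel)
theorem L130583 : W_46 (nat_lit 2) (nat_lit 0x94007e00120020000f8008400000000000000) (nat_lit 0x0) (nat_lit 0x4000100010000000000000000) := D_46 (nat_lit 80) (nat_lit 64) (nat_lit 98) (nat_lit 2) (nat_lit 9) (nat_lit 4) (nat_lit 3) (nat_lit 9) (nat_lit 4) (by decide +kernel)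
theorem L130584 : W_46 (nat_lit 3) (nat_lit 0x94007e00120000000f8008400000000000000) (nat_lit 0x0) (nat_lit 0x7000100010000000000000000) := T_46 (nat_lit 97) (nat_lit 96) (nat_lit 3) (nat_lit 8) (nat_lit 4) L130583 (by decide +kernel)
theorem L130585 : W_46 (nat_lit 4) (nat_lit 0x94007e00120000000f8000400000000000000) (nat_lit 0x0) (nat_lit 0x700010001c000000000000000) := T_46 (nat_lit 63) (nat_lit 62) (nat_lit 2) (nat_lit 8) (nat_lit 4) L130584 (by decide +kernel)
theorem L130586 : W_46 (nat_lit 5) (nat_lit 0x94007e0012000000078000400000000000000) (nat_lit 0x0) (nat_lit 0x700018001c800000000000000) := T_46 (nat_lit 79) (nat_lit 59) (nat_lit 0) (nat_lit 11) (nat_lit 4) L130585 (by decide +kernel)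
theorem L130587 : W_46 (nat_lit 6) (nat_lit 0x94007e0012000000078000000000000000000) (nat_lit 0x0) (nat_lit 0x700018001ce00000000000000) := T_46 (nat_lit 58) (nat_lit 57) (nat_lit 0) (nat_lit 10) (nat_lit 4) L130586 (by decide +kernel)
theorem L130588 : W_46 (nat_lit 7) (nat_lit 0x94007e0012000000038000000000000000000) (nat_lit 0x0) (nat_lit 0x78001c001ce00000000000000) := T_46 (nat_lit 78) (nat_lit 95) (nat_lit 7) (nat_lit 10) (nat_lit 4) L130587 (by decide +kernel)
theorem L130589 : W_46 (nat_lit 8) (nat_lit 0x94003e0012000000038000000000000000000) (nat_lit 0x0) (nat_lit 0x100004000000078001c001ce00000000000000) := T_46 (nat_lit 130) (nat_lit 148) (nat_lit 3) (nat_lit 8) (nat_lit 7) L130588 (by decide +kernel)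
theorem L130590 : W_46 (nat_lit 9) (nat_lit 0x14003e0012000000038000000000000000000) (nat_lit 0x0) (nat_lit 0x1c0004000000078001c001ce00000000000000) := T_46 (nat_lit 147) (nat_lit 146) (nat_lit 3) (nat_lit 7) (nat_lit 7) L130589 (by decide +kernel)
theorem L130591 : W_46 (nat_lit 10) (nat_lit 0x14003e0010000000038000000000000000000) (nat_lit 0x0) (nat_lit 0x1c0004000030078001c001ce00000000000000) := T_46 (nat_lit 109) (nat_lit 108) (nat_lit 0) (nat_lit 10) (nat_lit 7) L130590 (by decide +kernel)
theorem L130592 : W_46 (nat_lit 11) (nat_lit 0x14001e0010000000038000000000000000000) (nat_lit 0x0) (nat_lit 0x1c0006000230078001c001ce00000000000000) := T_46 (nat_lit 129) (nat_lit 113) (nat_lit 2) (nat_lit 7) (nat_lit 7) L130591 (by decide +kernel)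
theorem L130593 : W_46 (nat_lit 12) (nat_lit 0x10001e0010000000038000000000000000000) (nat_lit 0x0) (nat_lit 0x1c6006000230078001c001ce00000000000000) := T_46 (nat_lit 142) (nat_lit 141) (nat_lit 1) (nat_lit 9) (nat_lit 7) L130592 (by decide +kernel)
theorem L130594 : W_46 (nat_lit 13) (nat_lit 0x10001e0000000000038000000000000000000) (nat_lit 0x0) (nat_lit 0x1c60060003b0078001c001ce00000000000000) := T_46 (nat_lit 112) (nat_lit 111) (nat_lit 2) (nat_lit 6) (nat_lit 7) L130593 (by decide +kernel)
theorem L130595 : W_46 (nat_lit 14) (nat_lit 0x10001e0000000000028000000000000000000) (nat_lit 0x0) (nat_lit 0x210010801c60060003b0078e01d601ff80000000000000) := Q_46 (nat_lit 76) (C_46 L130404 (C_46 L130546 (C_46 L130346 (C_46 L130558 (C_46 L130570 (C_46 L130582 (C_46 L130594 N_46))))))) (by decide +kernel)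
theorem L130596 : W_46 (nat_lit 15) (nat_lit 0x10001e0000000000008000000000000000000) (nat_lit 0x0) (nat_lit 0x218010c01c70061003b007ee03f783ff803c001c000200) := Q_46 (nat_lit 77) (C_46 L130443 (C_46 L130240 (C_46 L130536 (C_46 L130595 N_46)))) (by decide +kernel)
theorem L130597 : W_46 (nat_lit 2) (nat_lit 0x14001e0008000180038000000000000000000) (nat_lit 0x0) (nat_lit 0x60004000000000000000000) := D_46 (nat_lit 90) (nat_lit 74) (nat_lit 89) (nat_lit 1) (nat_lit 9) (nat_lit 4) (nat_lit 2) (nat_lit 4) (nat_lit 5) (by decide +kernel)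
theorem L130598 : W_46 (nat_lit 3) (nat_lit 0x14001e0008000180028000000000000000000) (nat_lit 0x0) (nat_lit 0x60054000000000000000000) := T_46 (nat_lit 76) (nat_lit 78) (nat_lit 1) (nat_lit 10) (nat_lit 4) L130597 (by decide +kernel)
theorem L130599 : W_46 (nat_lit 4) (nat_lit 0x14001e0008000100028000000000000000000) (nat_lit 0x0) (nat_lit 0x10000e0054000000000000000000) := T_46 (nat_lit 91) (nat_lit 108) (nat_lit 6) (nat_lit 6) (nat_lit 8) L130598 (by decide +kernel)
theorem L130600 : W_46 (nat_lit 5) (nat_lit 0x10001e0008000100028000000000000000000) (nat_lit 0x0) (nat_lit 0x6000000010000e0054000000000000000000) := T_46 (nat_lit 142) (nat_lit 141) (nat_lit 1) (nat_lit 9) (nat_lit 7) L130599 (by decide +kernel)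
theorem L130601 : W_46 (nat_lit 6) (nat_lit 0x10001e0008000100008000000000000000000) (nat_lit 0x0) (nat_lit 0x6000000010004e0074000000000000000000) := T_46 (nat_lit 77) (nat_lit 94) (nat_lit 5) (nat_lit 9) (nat_lit 4) L130600 (by decide +kernel)
theorem L130602 : W_46 (nat_lit 7) (nat_lit 0x10001e0008000000008000000000000000000) (nat_lit 0x0) (nat_lit 0x6000000030005e0074000000000000000000) := T_46 (nat_lit 92) (nat_lit 109) (nat_lit 7) (nat_lit 7) (nat_lit 4) L130601 (by decide +kernel)
theorem L130603 : W_46 (nat_lit 8) (nat_lit 0x10001e0000000000008000000000000000000) (nat_lit 0x0) (nat_lit 0x60000001b0005e0074000000000000000000) := T_46 (nat_lit 111) (nat_lit 112) (nat_lit 2) (nat_lit 6) (nat_lit 7) L130602 (by decide +kernel)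
theorem L130604 : W_46 (nat_lit 16) (nat_lit 0x10001e0000000000000000000000000000000) (nat_lit 0x0) (nat_lit 0x218010c01c70061c07b007fe03ff83ff803f801dc00200) := Q_46 (nat_lit 75) (C_46 L130222 (C_46 L130275 (C_46 L130372 (C_46 L130379 (C_46 L130485 (C_46 L130596 (C_46 L130603 N_46))))))) (by decide +kernel)
theorem L130605 : W_46 (nat_lit 2) (nat_lit 0x1000000014007e0022000000008000000000000000000) (nat_lit 0x0) (nat_lit 0x1c000000000000000000000000000000000000) := D_46 (nat_lit 147) (nat_lit 146) (nat_lit 148) (nat_lit 3) (nat_lit 7) (nat_lit 7) (nat_lit 3) (nat_lit 8) (nat_lit 7) (by decide +kernel)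
theorem L130606 : W_46 (nat_lit 3) (nat_lit 0x1000000014003e0022000000008000000000000000000) (nat_lit 0x0) (nat_lit 0x1c000400040000000000000000000000000000) := T_46 (nat_lit 130) (nat_lit 114) (nat_lit 2) (nat_lit 8) (nat_lit 7) L130605 (by decide +kernel)
theorem L130607 : W_46 (nat_lit 4) (nat_lit 0x14003e0022000000008000000000000000000) (nat_lit 0x0) (nat_lit 0x10000801c000400040000000000000000000000000000) := T_46 (nat_lit 176) (nat_lit 159) (nat_lit 6) (nat_lit 6) (nat_lit 10) L130606 (by decide +kernel)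
theorem L130608 : W_46 (nat_lit 5) (nat_lit 0x14003e0022000000000000000000000000000) (nat_lit 0x0) (nat_lit 0x10000801c000400040000100008000000000000000000) := T_46 (nat_lit 75) (nat_lit 92) (nat_lit 7) (nat_lit 7) (nat_lit 4) L130607 (by decide +kernel)
theorem L130609 : W_46 (nat_lit 6) (nat_lit 0x14003e0002000000000000000000000000000) (nat_lit 0x0) (nat_lit 0x10000801c000400070000100008000000000000000000) := T_46 (nat_lit 113) (nat_lit 112) (nat_lit 2) (nat_lit 7) (nat_lit 7) L130608 (by decide +kernel)
theorem L130610 : W_46 (nat_lit 7) (nat_lit 0x14003e0000000000000000000000000000000) (nat_lit 0x0) (nat_lit 0x10000801c000400073000100008000000000000000000) := T_46 (nat_lit 109) (nat_lit 108) (nat_lit 0) (nat_lit 10) (nat_lit 7) L130609 (by decide +kernel)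
theorem L130611 : W_46 (nat_lit 8) (nat_lit 0x14001e0000000000000000000000000000000) (nat_lit 0x0) (nat_lit 0x10000801c800600073000100008000000000000000000) := T_46 (nat_lit 129) (nat_lit 143) (nat_lit 1) (nat_lit 10) (nat_lit 7) L130610 (by decide +kernel)
theorem L130612 : W_46 (nat_lit 9) (nat_lit 0x10001e0000000000000000000000000000000) (nat_lit 0x0) (nat_lit 0x10000801ce00600073000100008000000000000000000) := T_46 (nat_lit 142) (nat_lit 141) (nat_lit 1) (nat_lit 9) (nat_lit 7) L130611 (by decide +kernel)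
theorem L130613 : W_46 (nat_lit 2) (nat_lit 0x18001e0000000000000000000000000000000) (nat_lit 0x0) (nat_lit 0x400600000000000000000000000000000000) := D_46 (nat_lit 129) (nat_lit 142) (nat_lit 130) (nat_lit 1) (nat_lit 10) (nat_lit 7) (nat_lit 1) (nat_lit 11) (nat_lit 7) (by decide +kernel)
theorem L130614 : W_46 (nat_lit 2) (nat_lit 0x7000180018005e8000000000000000000000000000000) (nat_lit 0x0) (nat_lit 0x800006000000000000000000000000000000000000000) := D_46 (nat_lit 158) (nat_lit 157) (nat_lit 179) (nat_lit 3) (nat_lit 4) (nat_lit 9) (nat_lit 0) (nat_lit 9) (nat_lit 10) (by decide +kernel)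
theorem L130615 : W_46 (nat_lit 3) (nat_lit 0x7000100018005e8000000000000000000000000000000) (nat_lit 0x0) (nat_lit 0x80000e000000000002000000000000000000000000000) := T_46 (nat_lit 159) (nat_lit 109) (nat_lit 5) (nat_lit 7) (nat_lit 6) L130614 (by decide +kernel)
theorem L130616 : W_46 (nat_lit 4) (nat_lit 0x6000100018005e8000000000000000000000000000000) (nat_lit 0x0) (nat_lit 0x200090000e000000000002000000000000000000000000000) := T_46 (nat_lit 176) (nat_lit 193) (nat_lit 5) (nat_lit 7) (nat_lit 7) L130615 (by decide +kernel)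
theorem L130617 : W_46 (nat_lit 5) (nat_lit 0x2000100018005e8000000000000000000000000000000) (nat_lit 0x0) (nat_lit 0xa000d0000e000000000002000000000000000000000000000) := T_46 (nat_lit 178) (nat_lit 195) (nat_lit 7) (nat_lit 7) (nat_lit 7) L130616 (by decide +kernel)
theorem L130618 : W_46 (nat_lit 6) (nat_lit 0x2000100018001e8000000000000000000000000000000) (nat_lit 0x0) (nat_lit 0xa000d0000e000000600002000000000000000000000000000) := T_46 (nat_lit 130) (nat_lit 129) (nat_lit 1) (nat_lit 11) (nat_lit 7) L130617 (by decide +kernel)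
theorem L130619 : W_46 (nat_lit 7) (nat_lit 0x100018001e8000000000000000000000000000000) (nat_lit 0x0) (nat_lit 0xe000f0000e000000600002000000000000000000000000000) := T_46 (nat_lit 177) (nat_lit 194) (nat_lit 6) (nat_lit 7) (nat_lit 11) L130618 (by decide +kernel)
theorem L130620 : W_46 (nat_lit 8) (nat_lit 0x100018001e0000000000000000000000000000000) (nat_lit 0x0) (nat_lit 0xe000f0000e000000618002000000000000000000000000000) := T_46 (nat_lit 123) (nat_lit 124) (nat_lit 3) (nat_lit 4) (nat_lit 7) L130619 (by decide +kernel)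
theorem L130621 : W_46 (nat_lit 2) (nat_lit 0xc001c001a005f0000000000000000000000000000000) (nat_lit 0x0) (nat_lit 0x130000000000000000000000000000000000000000000) := D_46 (nat_lit 173) (nat_lit 176) (nat_lit 172) (nat_lit 2) (nat_lit 3) (nat_lit 10) (nat_lit 2) (nat_lit 2) (nat_lit 10) (by decide +kernel)
theorem L130622 : W_46 (nat_lit 3) (nat_lit 0x8001c001a005f0000000000000000000000000000000) (nat_lit 0x0) (nat_lit 0x800170000000000000000000000000000000000000000000) := T_46 (nat_lit 174) (nat_lit 191) (nat_lit 5) (nat_lit 5) (nat_lit 7) L130621 (by decide +kernel)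
theorem L130623 : W_46 (nat_lit 4) (nat_lit 0x1c001a005f0000000000000000000000000000000) (nat_lit 0x0) (nat_lit 0x8001f0000000000000001000000000000000000000000000) := T_46 (nat_lit 175) (nat_lit 108) (nat_lit 6) (nat_lit 5) (nat_lit 10) L130622 (by decide +kernel)
theorem L130624 : W_46 (nat_lit 5) (nat_lit 0x1c0018005f0000000000000000000000000000000) (nat_lit 0x0) (nat_lit 0x8001f0000000300000001000000000000000000000000000) := T_46 (nat_lit 141) (nat_lit 140) (nat_lit 1) (nat_lit 8) (nat_lit 7) L130623 (by decide +kernel)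
theorem L130625 : W_46 (nat_lit 6) (nat_lit 0x1c0018005e0000000000000000000000000000000) (nat_lit 0x0) (nat_lit 0x8001f0000000300018001000000000000000000000000000) := T_46 (nat_lit 124) (nat_lit 123) (nat_lit 3) (nat_lit 4) (nat_lit 7) L130624 (by decide +kernel)
theorem L130626 : W_46 (nat_lit 7) (nat_lit 0x180018005e0000000000000000000000000000000) (nat_lit 0x0) (nat_lit 0x8001f0006000300018001000000000000000000000000000) := T_46 (nat_lit 158) (nat_lit 157) (nat_lit 2) (nat_lit 4) (nat_lit 9) L130625 (by decide +kernel)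
theorem L130627 : W_46 (nat_lit 8) (nat_lit 0x180018001e0000000000000000000000000000000) (nat_lit 0x0) (nat_lit 0x8001f0006000300618001000000000000000000000000000) := T_46 (nat_lit 130) (nat_lit 129) (nat_lit 1) (nat_lit 11) (nat_lit 7) L130626 (by decide +kernel)
theorem L130628 : W_46 (nat_lit 2) (nat_lit 0x2000100018001a001f0000000000000000000000000000000) (nat_lit 0x0) (nat_lit 0x80006000000000000000000000000000000000000000) := D_46 (nat_lit 158) (nat_lit 157) (nat_lit 175) (nat_lit 2) (nat_lit 4) (nat_lit 9) (nat_lit 7) (nat_lit 5) (nat_lit 7) (by decide +kernel)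
theorem L130629 : W_46 (nat_lit 3) (nat_lit 0x100018001a001f0000000000000000000000000000000) (nat_lit 0x0) (nat_lit 0x40002000080006000000000000000000000000000000000000000) := T_46 (nat_lit 193) (nat_lit 210) (nat_lit 6) (nat_lit 6) (nat_lit 12) L130628 (by decide +kernel)
theorem L130630 : W_46 (nat_lit 4) (nat_lit 0x1000180018001f0000000000000000000000000000000) (nat_lit 0x0) (nat_lit 0x40002000080006000300000000000000000000000000000000000) := T_46 (nat_lit 141) (nat_lit 140) (nat_lit 1) (nat_lit 8) (nat_lit 7) L130629 (by decide +kernel)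
theorem L130631 : W_46 (nat_lit 5) (nat_lit 0x180018001f0000000000000000000000000000000) (nat_lit 0x0) (nat_lit 0x40002000180006000300000002000000000000000000000000000) := T_46 (nat_lit 176) (nat_lit 109) (nat_lit 5) (nat_lit 7) (nat_lit 6) L130630 (by decide +kernel)
theorem L130632 : W_46 (nat_lit 6) (nat_lit 0x180018001e0000000000000000000000000000000) (nat_lit 0x0) (nat_lit 0x40002000180006000300018002000000000000000000000000000) := T_46 (nat_lit 124) (nat_lit 123) (nat_lit 3) (nat_lit 4) (nat_lit 7) L130631 (by decide +kernel)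
theorem L130633 : W_46 (nat_lit 2) (nat_lit 0x180018005e0002000080000000000000000000000) (nat_lit 0x0) (nat_lit 0x10000c000000000000000000) := D_46 (nat_lit 92) (nat_lit 75) (nat_lit 74) (nat_lit 7) (nat_lit 7) (nat_lit 4) (nat_lit 4) (nat_lit 7) (nat_lit 8) (by decide +kernel)
theorem L130634 : W_46 (nat_lit 3) (nat_lit 0x180018005e0002000000000000000000000000000) (nat_lit 0x0) (nat_lit 0x100018000c000000000000000000) := T_46 (nat_lit 91) (nat_lit 108) (nat_lit 4) (nat_lit 7) (nat_lit 9) L130633 (by decide +kernel)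
theorem L130635 : W_46 (nat_lit 4) (nat_lit 0x180018005e0000000000000000000000000000000) (nat_lit 0x0) (nat_lit 0x10000000000000000300018000c000000000000000000) := T_46 (nat_lit 109) (nat_lit 176) (nat_lit 5) (nat_lit 7) (nat_lit 6) L130634 (by decide +kernel)
theorem L130636 : W_46 (nat_lit 5) (nat_lit 0x180018001e0000000000000000000000000000000) (nat_lit 0x0) (nat_lit 0x10000000000060000300018000c000000000000000000) := T_46 (nat_lit 130) (nat_lit 129) (nat_lit 1) (nat_lit 11) (nat_lit 7) L130635 (by decide +kernel)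
theorem L130637 : W_46 (nat_lit 2) (nat_lit 0x1c001a005f0001000000000000000000000000000) (nat_lit 0x0) (nat_lit 0x2000080004000000000000000000) := D_46 (nat_lit 91) (nat_lit 74) (nat_lit 109) (nat_lit 7) (nat_lit 6) (nat_lit 4) (nat_lit 4) (nat_lit 7) (nat_lit 9) (by decide +kernel)
theorem L130638 : W_46 (nat_lit 3) (nat_lit 0x1c001a005f0000000000000000000000000000000) (nat_lit 0x0) (nat_lit 0x80000000000000003000080004000000000000000000) := T_46 (nat_lit 108) (nat_lit 175) (nat_lit 6) (nat_lit 5) (nat_lit 10) L130637 (by decide +kernel)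
theorem L130639 : W_46 (nat_lit 4) (nat_lit 0x18001a005f0000000000000000000000000000000) (nat_lit 0x0) (nat_lit 0x80006000000000003000080004000000000000000000) := T_46 (nat_lit 158) (nat_lit 157) (nat_lit 2) (nat_lit 4) (nat_lit 9) L130638 (by decide +kernel)
theorem L130640 : W_46 (nat_lit 5) (nat_lit 0x180018005f0000000000000000000000000000000) (nat_lit 0x0) (nat_lit 0x80006000300000003000080004000000000000000000) := T_46 (nat_lit 141) (nat_lit 140) (nat_lit 1) (nat_lit 8) (nat_lit 7) L130639 (by decide +kernel)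
theorem L130641 : W_46 (nat_lit 6) (nat_lit 0x180018001f0000000000000000000000000000000) (nat_lit 0x0) (nat_lit 0x80006000300600003000080004000000000000000000) := T_46 (nat_lit 130) (nat_lit 129) (nat_lit 1) (nat_lit 11) (nat_lit 7) L130640 (by decide +kernel)
theorem L130642 : W_46 (nat_lit 7) (nat_lit 0x180018001e0000000000000000000000000000000) (nat_lit 0x0) (nat_lit 0x80006000300618003000080004000000000000000000) := T_46 (nat_lit 124) (nat_lit 123) (nat_lit 3) (nat_lit 4) (nat_lit 7) L130641 (by decide +kernel)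
theorem L130643 : W_46 (nat_lit 9) (nat_lit 0x100018001e0000000000000000000000000000000) (nat_lit 0x0) (nat_lit 0x400028001f000e00030061800300018000c000000000000000000) := Q_46 (nat_lit 159) (C_46 L130627 (C_46 L130632 (C_46 L130636 (C_46 L130642 N_46)))) (by decide +kernel)
theorem L130644 : W_46 (nat_lit 10) (nat_lit 0x18001e0000000000000000000000000000000) (nat_lit 0x0) (nat_lit 0x4000e800ff001e00030061800300018000c000000000000000000) := Q_46 (nat_lit 160) (C_46 L130126 (C_46 L130620 (C_46 L130643 N_46))) (by decide +kernel)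
theorem L130645 : W_46 (nat_lit 11) (nat_lit 0x10001e0000000000000000000000000000000) (nat_lit 0x0) (nat_lit 0x4000e800ff001e000f0061800300018000c000000000000000000) := Q_46 (nat_lit 143) (C_46 L130613 (C_46 L130644 (C_46 L122450 N_46))) (by decide +kernel)
theorem L130646 : W_46 (nat_lit 17) (nat_lit 0x10000e0000000000000000000000000000000) (nat_lit 0x0) (nat_lit 0x4000e802ff011e01cfc071c07b707fe03ff83ff803f801dc00200) := Q_46 (nat_lit 128) (C_46 L130218 (C_46 L130604 (C_46 L130612 (C_46 L130645 (C_46 L130164 N_46))))) (by decide +kernel)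
theorem L130647 : W_46 (nat_lit 18) (nat_lit 0x10000c0000000000000000000000000000000) (nat_lit 0x0) (nat_lit 0x4000f802ff011e01cfc073e07bf07fe03ff83ff803f801dc00200) := Q_46 (nat_lit 125) (C_46 L130177 (C_46 L124547 (C_46 L130182 (C_46 L130193 (C_46 L130208 (C_46 L130210 (C_46 L130219 (C_46 L130646 N_46)))))))) (by decide +kernel)
theorem L130648 : W_46 (nat_lit 2) (nat_lit 0x11000f0004000000000000000000000000000) (nat_lit 0x0) (nat_lit 0x80008002000000000000000000000000000) := D_46 (nat_lit 123) (nat_lit 109) (nat_lit 139) (nat_lit 2) (nat_lit 4) (nat_lit 7) (nat_lit 1) (nat_lit 7) (nat_lit 7) (by decide +kernel)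
theorem L130649 : W_46 (nat_lit 3) (nat_lit 0x11000f0000000000000000000000000000000) (nat_lit 0x0) (nat_lit 0x8000800e000000000000000000000000000) := T_46 (nat_lit 110) (nat_lit 111) (nat_lit 2) (nat_lit 5) (nat_lit 7) L130648 (by decide +kernel)
theorem L130650 : W_46 (nat_lit 4) (nat_lit 0x10000f0000000000000000000000000000000) (nat_lit 0x0) (nat_lit 0x38000800e000000000000000000000000000) := T_46 (nat_lit 140) (nat_lit 141) (nat_lit 1) (nat_lit 8) (nat_lit 7) L130649 (by decide +kernel)
theorem L130651 : W_46 (nat_lit 5) (nat_lit 0x10000e0000000000000000000000000000000) (nat_lit 0x0) (nat_lit 0x38011801fe00000000000000000000000000) := Q_46 (nat_lit 124) (C_46 L130196 (C_46 L122416 (C_46 L130650 N_46))) (by decide +kernel)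
theorem L130652 : W_46 (nat_lit 4) (nat_lit 0x10000e0001000000000000000000000000000) (nat_lit 0x0) (nat_lit 0x30003a800000000000000000000000000) := T_46 (nat_lit 128) (nat_lit 107) (nat_lit 0) (nat_lit 9) (nat_lit 7) L130212 (by decide +kernel)
theorem L130653 : W_46 (nat_lit 2) (nat_lit 0x94003e0021000000000000000000000000000) (nat_lit 0x0) (nat_lit 0x10000400040000000000000000000000000000) := D_46 (nat_lit 130) (nat_lit 148) (nat_lit 114) (nat_lit 3) (nat_lit 8) (nat_lit 7) (nat_lit 2) (nat_lit 8) (nat_lit 7) (by decide +kernel)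
theorem L130654 : W_46 (nat_lit 3) (nat_lit 0x94003e0001000000000000000000000000000) (nat_lit 0x0) (nat_lit 0x10000400070000000000000000000000000000) := T_46 (nat_lit 113) (nat_lit 112) (nat_lit 2) (nat_lit 7) (nat_lit 7) L130653 (by decide +kernel)
theorem L130655 : W_46 (nat_lit 4) (nat_lit 0x14003e0001000000000000000000000000000) (nat_lit 0x0) (nat_lit 0x1c000400070000000000000000000000000000) := T_46 (nat_lit 147) (nat_lit 146) (nat_lit 3) (nat_lit 7) (nat_lit 7) L130654 (by decide +kernel)
theorem L130656 : W_46 (nat_lit 5) (nat_lit 0x10003e0001000000000000000000000000000) (nat_lit 0x0) (nat_lit 0x1c600400070000000000000000000000000000) := T_46 (nat_lit 142) (nat_lit 141) (nat_lit 1) (nat_lit 9) (nat_lit 7) L130655 (by decide +kernel)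
theorem L130657 : W_46 (nat_lit 6) (nat_lit 0x10001e0001000000000000000000000000000) (nat_lit 0x0) (nat_lit 0x1c600600072000000000000000000000000000) := T_46 (nat_lit 129) (nat_lit 109) (nat_lit 0) (nat_lit 10) (nat_lit 7) L130656 (by decide +kernel)
theorem L130658 : W_46 (nat_lit 7) (nat_lit 0x10000e0001000000000000000000000000000) (nat_lit 0x0) (nat_lit 0x1c600700072800000000000000000000000000) := T_46 (nat_lit 128) (nat_lit 107) (nat_lit 0) (nat_lit 9) (nat_lit 7) L130657 (by decide +kernel)
theorem L130659 : W_46 (nat_lit 3) (nat_lit 0x10001e0003000000000000000000000000000) (nat_lit 0x0) (nat_lit 0x8000600000000000100008000000000000000000) := T_46 (nat_lit 142) (nat_lit 141) (nat_lit 1) (nat_lit 9) (nat_lit 7) L130096 (by decide +kernel)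
theorem L130660 : W_46 (nat_lit 4) (nat_lit 0x10001e0001000000000000000000000000000) (nat_lit 0x0) (nat_lit 0x8000600200002000100008000000000000000000) := T_46 (nat_lit 109) (nat_lit 129) (nat_lit 0) (nat_lit 10) (nat_lit 7) L130659 (by decide +kernel)
theorem L130661 : W_46 (nat_lit 5) (nat_lit 0x10000e0001000000000000000000000000000) (nat_lit 0x0) (nat_lit 0x8000600300002800100008000000000000000000) := T_46 (nat_lit 128) (nat_lit 107) (nat_lit 0) (nat_lit 9) (nat_lit 7) L130660 (by decide +kernel)
theorem L130662 : W_46 (nat_lit 2) (nat_lit 0x10000e000100008000c000000000000000000) (nat_lit 0x0) (nat_lit 0x2000100000000200000000000000) := D_46 (nat_lit 109) (nat_lit 92) (nat_lit 57) (nat_lit 7) (nat_lit 7) (nat_lit 4) (nat_lit 7) (nat_lit 6) (nat_lit 3) (by decide +kernel)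
theorem L130663 : W_46 (nat_lit 3) (nat_lit 0x10000e0001000080008000000000000000000) (nat_lit 0x0) (nat_lit 0x2000100004000600000000000000) := T_46 (nat_lit 74) (nat_lit 58) (nat_lit 6) (nat_lit 6) (nat_lit 7) L130662 (by decide +kernel)
theorem L130664 : W_46 (nat_lit 2) (nat_lit 0x10000e00010000c000e000200000000000000) (nat_lit 0x0) (nat_lit 0x30010000000000000000000) := D_46 (nat_lit 89) (nat_lit 88) (nat_lit 76) (nat_lit 2) (nat_lit 3) (nat_lit 5) (nat_lit 1) (nat_lit 8) (nat_lit 4) (by decide +kernel)
theorem L130665 : W_46 (nat_lit 3) (nat_lit 0x10000e000100008000e000200000000000000) (nat_lit 0x0) (nat_lit 0x400000000000070010000000000000000000) := T_46 (nat_lit 90) (nat_lit 142) (nat_lit 4) (nat_lit 6) (nat_lit 8) L130664 (by decide +kernel)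
theorem L130666 : W_46 (nat_lit 4) (nat_lit 0x10000e000100008000e000000000000000000) (nat_lit 0x0) (nat_lit 0x400000002000070010000200000000000000) := T_46 (nat_lit 57) (nat_lit 109) (nat_lit 7) (nat_lit 6) (nat_lit 3) L130665 (by decide +kernel)
theorem L130667 : W_46 (nat_lit 5) (nat_lit 0x10000e000100008000c000000000000000000) (nat_lit 0x0) (nat_lit 0x400000002000070012000300000000000000) := T_46 (nat_lit 73) (nat_lit 56) (nat_lit 4) (nat_lit 6) (nat_lit 7) L130666 (by decide +kernel)
theorem L130668 : W_46 (nat_lit 6) (nat_lit 0x10000e0001000080008000000000000000000) (nat_lit 0x0) (nat_lit 0x400000002000070016000700000000000000) := T_46 (nat_lit 74) (nat_lit 58) (nat_lit 6) (nat_lit 6) (nat_lit 7) L130667 (by decide +kernel)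
theorem L130669 : W_46 (nat_lit 2) (nat_lit 0x10000e0001000080008000000000000000000) (nat_lit 0x0) (nat_lit 0x400000002000100000000000000000000000) := D_46 (nat_lit 92) (nat_lit 109) (nat_lit 142) (nat_lit 7) (nat_lit 7) (nat_lit 4) (nat_lit 6) (nat_lit 6) (nat_lit 8) (by decide +kernel)
theorem L130670 : W_46 (nat_lit 7) (nat_lit 0x10000e0001000080000000000000000000000) (nat_lit 0x0) (nat_lit 0x40000000200017001e000700020000000000) := Q_46 (nat_lit 75) (C_46 L124670 (C_46 L130663 (C_46 L130668 (C_46 L130669 N_46)))) (by decide +kernel)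
theorem L130671 : W_46 (nat_lit 2) (nat_lit 0x10000e0007000080000000000000000000000) (nat_lit 0x0) (nat_lit 0x18000040000000000000000000000) := D_46 (nat_lit 111) (nat_lit 90) (nat_lit 112) (nat_lit 0) (nat_lit 9) (nat_lit 6) (nat_lit 1) (nat_lit 10) (nat_lit 6) (by decide +kernel)
theorem L130672 : W_46 (nat_lit 2) (nat_lit 0x10000e00078000c001e000000000000000000) (nat_lit 0x0) (nat_lit 0x600000000800000000000000) := D_46 (nat_lit 93) (nat_lit 94) (nat_lit 59) (nat_lit 3) (nat_lit 5) (nat_lit 4) (nat_lit 5) (nat_lit 8) (nat_lit 3) (by decide +kernel)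
theorem L130673 : W_46 (nat_lit 3) (nat_lit 0x10000e00078000c000e000000000000000000) (nat_lit 0x0) (nat_lit 0x600030000800000000000000) := T_46 (nat_lit 76) (nat_lit 77) (nat_lit 1) (nat_lit 9) (nat_lit 4) L130672 (by decide +kernel)
theorem L130674 : W_46 (nat_lit 4) (nat_lit 0x10000e00078000c0006000000000000000000) (nat_lit 0x0) (nat_lit 0x600038000c00000000000000) := T_46 (nat_lit 75) (nat_lit 58) (nat_lit 6) (nat_lit 6) (nat_lit 7) L130673 (by decide +kernel)
theorem L130675 : W_46 (nat_lit 5) (nat_lit 0x10000e00078000c0004000000000000000000) (nat_lit 0x0) (nat_lit 0x60003a000d00000000000000) := T_46 (nat_lit 73) (nat_lit 56) (nat_lit 7) (nat_lit 5) (nat_lit 3) L130674 (by decide +kernel)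
theorem L130676 : W_46 (nat_lit 6) (nat_lit 0x10000e0007800080004000000000000000000) (nat_lit 0x0) (nat_lit 0x66003a000d00000000000000) := T_46 (nat_lit 90) (nat_lit 89) (nat_lit 0) (nat_lit 8) (nat_lit 6) L130675 (by decide +kernel)
theorem L130677 : W_46 (nat_lit 7) (nat_lit 0x10000e0007800080000000000000000000000) (nat_lit 0x0) (nat_lit 0x66003e000f00000000000000) := T_46 (nat_lit 74) (nat_lit 57) (nat_lit 7) (nat_lit 6) (nat_lit 3) L130676 (by decide +kernel)
theorem L130678 : W_46 (nat_lit 8) (nat_lit 0x10000e0007000080000000000000000000000) (nat_lit 0x0) (nat_lit 0xc0066003e000f00000000000000) := T_46 (nat_lit 107) (nat_lit 106) (nat_lit 3) (nat_lit 4) (nat_lit 6) L130677 (by decide +kernel)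
theorem L130679 : W_46 (nat_lit 2) (nat_lit 0x10000e000f400480000000200000000000000) (nat_lit 0x0) (nat_lit 0x200020001000000000000000) := D_46 (nat_lit 77) (nat_lit 60) (nat_lit 93) (nat_lit 5) (nat_lit 9) (nat_lit 3) (nat_lit 6) (nat_lit 8) (nat_lit 8) (by decide +kernel)
theorem L130680 : W_46 (nat_lit 3) (nat_lit 0x10000e000f400080000000200000000000000) (nat_lit 0x0) (nat_lit 0xe00020001000000000000000) := T_46 (nat_lit 94) (nat_lit 95) (nat_lit 2) (nat_lit 6) (nat_lit 6) L130679 (by decide +kernel)
theorem L130681 : W_46 (nat_lit 4) (nat_lit 0x10000e000f000080000000200000000000000) (nat_lit 0x0) (nat_lit 0xc00e00020001000000000000000) := T_46 (nat_lit 106) (nat_lit 107) (nat_lit 3) (nat_lit 4) (nat_lit 6) L130680 (by decide +kernel)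
theorem L130682 : W_46 (nat_lit 5) (nat_lit 0x10000e0007000080000000200000000000000) (nat_lit 0x0) (nat_lit 0x18c00e00020001000000000000000) := T_46 (nat_lit 111) (nat_lit 112) (nat_lit 1) (nat_lit 10) (nat_lit 6) L130681 (by decide +kernel)
theorem L130683 : W_46 (nat_lit 6) (nat_lit 0x10000e0007000080000000000000000000000) (nat_lit 0x0) (nat_lit 0x18c00e00024001200000000000000) := T_46 (nat_lit 57) (nat_lit 74) (nat_lit 7) (nat_lit 6) (nat_lit 3) L130682 (by decide +kernel)
theorem L130684 : W_46 (nat_lit 9) (nat_lit 0x10000e0003000080000000000000000000000) (nat_lit 0x0) (nat_lit 0x1cc00e6003e001f00000000000000) := Q_46 (nat_lit 110) (C_46 L130671 (C_46 L130678 (C_46 L130683 N_46))) (by decide +kernel)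
theorem L130685 : W_46 (nat_lit 2) (nat_lit 0x10000e0003000180007000000000000000000) (nat_lit 0x0) (nat_lit 0x640000000000000000000000) := D_46 (nat_lit 93) (nat_lit 94) (nat_lit 90) (nat_lit 0) (nat_lit 9) (nat_lit 5) (nat_lit 0) (nat_lit 8) (nat_lit 5) (by decide +kernel)
theorem L130686 : W_46 (nat_lit 3) (nat_lit 0x10000e0003000180006000000000000000000) (nat_lit 0x0) (nat_lit 0x640001800000000000000000) := T_46 (nat_lit 72) (nat_lit 71) (nat_lit 3) (nat_lit 3) (nat_lit 4) L130685 (by decide +kernel)
theorem L130687 : W_46 (nat_lit 4) (nat_lit 0x10000e0003000180004000000000000000000) (nat_lit 0x0) (nat_lit 0x640003800100000000000000) := T_46 (nat_lit 73) (nat_lit 56) (nat_lit 4) (nat_lit 6) (nat_lit 7) L130686 (by decide +kernel)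
theorem L130688 : W_46 (nat_lit 5) (nat_lit 0x10000e0003000080004000000000000000000) (nat_lit 0x0) (nat_lit 0x74000b800100000000000000) := T_46 (nat_lit 92) (nat_lit 75) (nat_lit 7) (nat_lit 7) (nat_lit 4) L130687 (by decide +kernel)
theorem L130689 : W_46 (nat_lit 6) (nat_lit 0x10000e0003000080000000000000000000000) (nat_lit 0x0) (nat_lit 0x74000f800300000000000000) := T_46 (nat_lit 74) (nat_lit 57) (nat_lit 7) (nat_lit 6) (nat_lit 3) L130688 (by decide +kernel)
theorem L130690 : W_46 (nat_lit 2) (nat_lit 0x10000e00078002c0008000000000000000000) (nat_lit 0x0) (nat_lit 0x10000c00000000000000) := D_46 (nat_lit 76) (nat_lit 58) (nat_lit 59) (nat_lit 4) (nat_lit 8) (nat_lit 7) (nat_lit 5) (nat_lit 8) (nat_lit 3) (by decide +kernel)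
theorem L130691 : W_46 (nat_lit 3) (nat_lit 0x10000e00078000c0008000000000000000000) (nat_lit 0x0) (nat_lit 0x600010000c00000000000000) := T_46 (nat_lit 93) (nat_lit 94) (nat_lit 2) (nat_lit 5) (nat_lit 6) L130690 (by decide +kernel)
theorem L130692 : W_46 (nat_lit 4) (nat_lit 0x10000e0007800080008000000000000000000) (nat_lit 0x0) (nat_lit 0x660010000c00000000000000) := T_46 (nat_lit 90) (nat_lit 89) (nat_lit 0) (nat_lit 8) (nat_lit 6) L130691 (by decide +kernel)
theorem L130693 : W_46 (nat_lit 5) (nat_lit 0x10000e0007800080000000000000000000000) (nat_lit 0x0) (nat_lit 0x760018000c00000000000000) := T_46 (nat_lit 75) (nat_lit 92) (nat_lit 7) (nat_lit 7) (nat_lit 4) L130692 (by decide +kernel)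
theorem L130694 : W_46 (nat_lit 6) (nat_lit 0x10000e0007000080000000000000000000000) (nat_lit 0x0) (nat_lit 0xc00760018000c00000000000000) := T_46 (nat_lit 107) (nat_lit 106) (nat_lit 3) (nat_lit 4) (nat_lit 6) L130693 (by decide +kernel)
theorem L130695 : W_46 (nat_lit 2) (nat_lit 0x10000e0017800280008000000000000000000) (nat_lit 0x0) (nat_lit 0x10000c00000000000000) := D_46 (nat_lit 76) (nat_lit 58) (nat_lit 59) (nat_lit 4) (nat_lit 8) (nat_lit 7) (nat_lit 5) (nat_lit 8) (nat_lit 3) (by decide +kernel)
theorem L130696 : W_46 (nat_lit 3) (nat_lit 0x10000e0017800080008000000000000000000) (nat_lit 0x0) (nat_lit 0x600010000c00000000000000) := T_46 (nat_lit 93) (nat_lit 94) (nat_lit 2) (nat_lit 5) (nat_lit 6) L130695 (by decide +kernel)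
theorem L130697 : W_46 (nat_lit 4) (nat_lit 0x10000e0017000080008000000000000000000) (nat_lit 0x0) (nat_lit 0xc00600010000c00000000000000) := T_46 (nat_lit 107) (nat_lit 106) (nat_lit 3) (nat_lit 4) (nat_lit 6) L130696 (by decide +kernel)
theorem L130698 : W_46 (nat_lit 5) (nat_lit 0x10000e0007000080008000000000000000000) (nat_lit 0x0) (nat_lit 0x18c00600010000c00000000000000) := T_46 (nat_lit 112) (nat_lit 111) (nat_lit 1) (nat_lit 10) (nat_lit 6) L130697 (by decide +kernel)
theorem L130699 : W_46 (nat_lit 6) (nat_lit 0x10000e0007000080000000000000000000000) (nat_lit 0x0) (nat_lit 0x18c00700018000c00000000000000) := T_46 (nat_lit 75) (nat_lit 92) (nat_lit 7) (nat_lit 7) (nat_lit 4) L130698 (by decide +kernel)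
theorem L130700 : W_46 (nat_lit 7) (nat_lit 0x10000e0003000080000000000000000000000) (nat_lit 0x0) (nat_lit 0x1cc00760018000c00000000000000) := Q_46 (nat_lit 110) (C_46 L130671 (C_46 L130694 (C_46 L130699 N_46))) (by decide +kernel)
theorem L130701 : W_46 (nat_lit 2) (nat_lit 0x10000e00078002c0010000200000000000000) (nat_lit 0x0) (nat_lit 0x100020001000000000000000) := D_46 (nat_lit 77) (nat_lit 92) (nat_lit 60) (nat_lit 2) (nat_lit 5) (nat_lit 5) (nat_lit 6) (nat_lit 8) (nat_lit 7) (by decide +kernel)
theorem L130702 : W_46 (nat_lit 3) (nat_lit 0x10000e00078002c0000000200000000000000) (nat_lit 0x0) (nat_lit 0x100030001800000000000000) := T_46 (nat_lit 76) (nat_lit 59) (nat_lit 5) (nat_lit 8) (nat_lit 3) L130701 (by decide +kernel)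
theorem L130703 : W_46 (nat_lit 4) (nat_lit 0x10000e00078000c0000000200000000000000) (nat_lit 0x0) (nat_lit 0x700030001800000000000000) := T_46 (nat_lit 93) (nat_lit 94) (nat_lit 2) (nat_lit 5) (nat_lit 6) L130702 (by decide +kernel)
theorem L130704 : W_46 (nat_lit 5) (nat_lit 0x10000e0007800080000000200000000000000) (nat_lit 0x0) (nat_lit 0x760030001800000000000000) := T_46 (nat_lit 90) (nat_lit 89) (nat_lit 0) (nat_lit 8) (nat_lit 6) L130703 (by decide +kernel)
theorem L130705 : W_46 (nat_lit 6) (nat_lit 0x10000e0007800080000000000000000000000) (nat_lit 0x0) (nat_lit 0x760034001a00000000000000) := T_46 (nat_lit 57) (nat_lit 74) (nat_lit 7) (nat_lit 6) (nat_lit 3) L130704 (by decide +kernel)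
theorem L130706 : W_46 (nat_lit 7) (nat_lit 0x10000e0007000080000000000000000000000) (nat_lit 0x0) (nat_lit 0xc00760034001a00000000000000) := T_46 (nat_lit 107) (nat_lit 106) (nat_lit 3) (nat_lit 4) (nat_lit 6) L130705 (by decide +kernel)
theorem L130707 : W_46 (nat_lit 8) (nat_lit 0x10000e0003000080000000000000000000000) (nat_lit 0x0) (nat_lit 0x1cc00f60034001a00000000000000) := Q_46 (nat_lit 110) (C_46 L130683 (C_46 L130706 (C_46 L130671 N_46))) (by decide +kernel)
theorem L130708 : W_46 (nat_lit 10) (nat_lit 0x10000e0001000080000000000000000000000) (nat_lit 0x0) (nat_lit 0x1ec00f6003f801f00000000000000) := Q_46 (nat_lit 109) (C_46 L125872 (C_46 L130684 (C_46 L130689 (C_46 L130700 (C_46 L130707 N_46))))) (by decide +kernel)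
theorem L130709 : W_46 (nat_lit 2) (nat_lit 0x10000e00010000c0006000200000000000000) (nat_lit 0x0) (nat_lit 0x800000000000000010000800000) := D_46 (nat_lit 40) (nat_lit 23) (nat_lit 107) (nat_lit 5) (nat_lit 6) (nat_lit 1) (nat_lit 5) (nat_lit 6) (nat_lit 2) (by decide +kernel)
theorem L130710 : W_46 (nat_lit 3) (nat_lit 0x10000e0001000080006000200000000000000) (nat_lit 0x0) (nat_lit 0x400000000800040000000000010000800000) := T_46 (nat_lit 90) (nat_lit 142) (nat_lit 4) (nat_lit 6) (nat_lit 8) L130709 (by decide +kernel)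
theorem L130711 : W_46 (nat_lit 4) (nat_lit 0x10000e0001000080006000000000000000000) (nat_lit 0x0) (nat_lit 0x400000002800040000000200010000800000) := T_46 (nat_lit 57) (nat_lit 109) (nat_lit 7) (nat_lit 6) (nat_lit 3) L130710 (by decide +kernel)
theorem L130712 : W_46 (nat_lit 5) (nat_lit 0x10000e0001000080004000000000000000000) (nat_lit 0x0) (nat_lit 0x400000002800040002000300010000800000) := T_46 (nat_lit 73) (nat_lit 56) (nat_lit 4) (nat_lit 6) (nat_lit 7) L130711 (by decide +kernel)
theorem L130713 : W_46 (nat_lit 2) (nat_lit 0x10000e0001000080004000400000000000000) (nat_lit 0x0) (nat_lit 0x2000000000000200020000000000) := D_46 (nat_lit 57) (nat_lit 109) (nat_lit 41) (nat_lit 7) (nat_lit 6) (nat_lit 3) (nat_lit 6) (nat_lit 6) (nat_lit 6) (by decide +kernel)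
theorem L130714 : W_46 (nat_lit 3) (nat_lit 0x10000e0001000080004000000000000000000) (nat_lit 0x0) (nat_lit 0x2000000008000600020000000000) := T_46 (nat_lit 58) (nat_lit 75) (nat_lit 6) (nat_lit 6) (nat_lit 7) L130713 (by decide +kernel)
theorem L130715 : W_46 (nat_lit 2) (nat_lit 0x10000c0014000e000100008000e000000000000000000) (nat_lit 0x0) (nat_lit 0x4000200010000000000000000000000000000000000000000) := D_46 (nat_lit 177) (nat_lit 160) (nat_lit 194) (nat_lit 7) (nat_lit 6) (nat_lit 6) (nat_lit 7) (nat_lit 6) (nat_lit 7) (by decide +kernel)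
theorem L130716 : W_46 (nat_lit 3) (nat_lit 0xc0014000e000100008000e000000000000000000) (nat_lit 0x0) (nat_lit 0x4000300010000000000002000000000000000000000000000) := T_46 (nat_lit 176) (nat_lit 109) (nat_lit 6) (nat_lit 6) (nat_lit 10) L130715 (by decide +kernel)
theorem L130717 : W_46 (nat_lit 4) (nat_lit 0x40014000e000100008000e000000000000000000) (nat_lit 0x0) (nat_lit 0x4000380018000000000002000000000000000000000000000) := T_46 (nat_lit 159) (nat_lit 175) (nat_lit 5) (nat_lit 6) (nat_lit 6) L130716 (by decide +kernel)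
theorem L130718 : W_46 (nat_lit 5) (nat_lit 0x14000e000100008000e000000000000000000) (nat_lit 0x0) (nat_lit 0x400038001c000200000002000000000000000000000000000) := T_46 (nat_lit 158) (nat_lit 141) (nat_lit 5) (nat_lit 6) (nat_lit 5) L130717 (by decide +kernel)
theorem L130719 : W_46 (nat_lit 6) (nat_lit 0x10000e000100008000e000000000000000000) (nat_lit 0x0) (nat_lit 0x400038001c000600000002000040000000000000000000000) := T_46 (nat_lit 142) (nat_lit 90) (nat_lit 4) (nat_lit 6) (nat_lit 8) L130718 (by decide +kernel)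
theorem L130720 : W_46 (nat_lit 7) (nat_lit 0x10000e0001000080006000000000000000000) (nat_lit 0x0) (nat_lit 0x400038001c000600000002000040008000400000000000000) := T_46 (nat_lit 75) (nat_lit 58) (nat_lit 6) (nat_lit 6) (nat_lit 7) L130719 (by decide +kernel)
theorem L130721 : W_46 (nat_lit 8) (nat_lit 0x10000e0001000080004000000000000000000) (nat_lit 0x0) (nat_lit 0x400038001c00060000000200004000a000500000000000000) := T_46 (nat_lit 73) (nat_lit 56) (nat_lit 4) (nat_lit 6) (nat_lit 7) L130720 (by decide +kernel)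
theorem L130722 : W_46 (nat_lit 9) (nat_lit 0x10000e0001000080000000000000000000000) (nat_lit 0x0) (nat_lit 0x400038001c00060000000280004000e000700038001c00000) := Q_46 (nat_lit 74) (C_46 L124637 (C_46 L124562 (C_46 L130712 (C_46 L130714 (C_46 L130721 N_46))))) (by decide +kernel)
theorem L130723 : W_46 (nat_lit 2) (nat_lit 0x14000e0001800080000000000000000000000) (nat_lit 0x0) (nat_lit 0x2600000000000000000000000000) := D_46 (nat_lit 106) (nat_lit 105) (nat_lit 109) (nat_lit 3) (nat_lit 3) (nat_lit 6) (nat_lit 3) (nat_lit 4) (nat_lit 6) (by decide +kernel)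
theorem L130724 : W_46 (nat_lit 2) (nat_lit 0x16800e00058003f0000000000000000000000) (nat_lit 0x0) (nat_lit 0x1c00000000000000000) := D_46 (nat_lit 71) (nat_lit 72) (nat_lit 70) (nat_lit 0) (nat_lit 7) (nat_lit 5) (nat_lit 0) (nat_lit 6) (nat_lit 5) (by decide +kernel)
theorem L130725 : W_46 (nat_lit 3) (nat_lit 0x16800e00058003e0000000000000000000000) (nat_lit 0x0) (nat_lit 0x18001c00000000000000000) := T_46 (nat_lit 88) (nat_lit 87) (nat_lit 3) (nat_lit 2) (nat_lit 5) L130724 (by decide +kernel)
theorem L130726 : W_46 (nat_lit 4) (nat_lit 0x16800e00058003c0000000000000000000000) (nat_lit 0x0) (nat_lit 0x2000038001c00000000000000000) := T_46 (nat_lit 89) (nat_lit 109) (nat_lit 3) (nat_lit 4) (nat_lit 5) L130725 (by decide +kernel)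
theorem L130727 : W_46 (nat_lit 5) (nat_lit 0x16800e00018003c0000000000000000000000) (nat_lit 0x0) (nat_lit 0xe000038001c00000000000000000) := T_46 (nat_lit 110) (nat_lit 111) (nat_lit 3) (nat_lit 5) (nat_lit 5) L130726 (by decide +kernel)
theorem L130728 : W_46 (nat_lit 6) (nat_lit 0x16000e00018003c0000000000000000000000) (nat_lit 0x0) (nat_lit 0x18000000e000038001c00000000000000000) := T_46 (nat_lit 139) (nat_lit 140) (nat_lit 2) (nat_lit 3) (nat_lit 8) L130727 (by decide +kernel)
theorem L130729 : W_46 (nat_lit 7) (nat_lit 0x14000e00018003c0000000000000000000000) (nat_lit 0x0) (nat_lit 0x400038000000e000038001c00000000000000000) := T_46 (nat_lit 141) (nat_lit 158) (nat_lit 5) (nat_lit 6) (nat_lit 5) L130728 (by decide +kernel)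
theorem L130730 : W_46 (nat_lit 8) (nat_lit 0x14000e00018001c0000000000000000000000) (nat_lit 0x0) (nat_lit 0x400038000000e000638001c00000000000000000) := T_46 (nat_lit 93) (nat_lit 94) (nat_lit 1) (nat_lit 9) (nat_lit 5) L130729 (by decide +kernel)
theorem L130731 : W_46 (nat_lit 9) (nat_lit 0x14000e00018000c0000000000000000000000) (nat_lit 0x0) (nat_lit 0x400038000000e000738009c00000000000000000) := T_46 (nat_lit 92) (nat_lit 75) (nat_lit 6) (nat_lit 6) (nat_lit 8) L130730 (by decide +kernel)
theorem L130732 : W_46 (nat_lit 10) (nat_lit 0x14000e0001800080000000000000000000000) (nat_lit 0x0) (nat_lit 0x400038000000e00077800bc00000000000000000) := T_46 (nat_lit 90) (nat_lit 73) (nat_lit 4) (nat_lit 6) (nat_lit 8) L130731 (by decide +kernel)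
theorem L130733 : W_46 (nat_lit 11) (nat_lit 0x14000e0001000080000000000000000000000) (nat_lit 0x0) (nat_lit 0x400038000000ee0077800bc00000000000000000) := Q_46 (nat_lit 107) (C_46 L124668 (C_46 L130723 (C_46 L130732 N_46))) (by decide +kernel)
theorem L130734 : W_46 (nat_lit 12) (nat_lit 0x10000e0001000080000000000000000000000) (nat_lit 0x0) (nat_lit 0x8000c00078000000ee0077800bc00000000000000000) := Q_46 (nat_lit 142) (C_46 L124644 (C_46 L130733 (C_46 L122319 (C_46 L122347 N_46)))) (by decide +kernel)
theorem L130735 : W_46 (nat_lit 2) (nat_lit 0x10000e000100008000c000100000000000000) (nat_lit 0x0) (nat_lit 0x2000000000000200008000000000) := D_46 (nat_lit 57) (nat_lit 109) (nat_lit 39) (nat_lit 7) (nat_lit 6) (nat_lit 3) (nat_lit 4) (nat_lit 6) (nat_lit 6) (by decide +kernel)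
theorem L130736 : W_46 (nat_lit 3) (nat_lit 0x10000e000100008000c000000000000000000) (nat_lit 0x0) (nat_lit 0x2000000002000300008000000000) := T_46 (nat_lit 56) (nat_lit 73) (nat_lit 4) (nat_lit 6) (nat_lit 7) L130735 (by decide +kernel)
theorem L130737 : W_46 (nat_lit 4) (nat_lit 0x10000e0001000080008000000000000000000) (nat_lit 0x0) (nat_lit 0x2000000006000700008000000000) := T_46 (nat_lit 74) (nat_lit 58) (nat_lit 6) (nat_lit 6) (nat_lit 7) L130736 (by decide +kernel)
theorem L130738 : W_46 (nat_lit 5) (nat_lit 0x10000e0001000080000000000000000000000) (nat_lit 0x0) (nat_lit 0x40000000200010000e000700028000000000) := Q_46 (nat_lit 75) (C_46 L124670 (C_46 L130669 (C_46 L130663 (C_46 L130737 N_46)))) (by decide +kernel)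
theorem L130739 : W_46 (nat_lit 2) (nat_lit 0x14000e00016000e0000000000000000000000) (nat_lit 0x0) (nat_lit 0x180010000000000000000000000) := D_46 (nat_lit 104) (nat_lit 88) (nat_lit 103) (nat_lit 1) (nat_lit 6) (nat_lit 5) (nat_lit 2) (nat_lit 1) (nat_lit 6) (by decide +kernel)
theorem L130740 : W_46 (nat_lit 3) (nat_lit 0x14000e00016000c0000000000000000000000) (nat_lit 0x0) (nat_lit 0x180130000000000000000000000) := T_46 (nat_lit 89) (nat_lit 92) (nat_lit 1) (nat_lit 7) (nat_lit 5) L130739 (by decide +kernel)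
theorem L130741 : W_46 (nat_lit 4) (nat_lit 0x14000e00014000c0000000000000000000000) (nat_lit 0x0) (nat_lit 0xb80130000000000000000000000) := T_46 (nat_lit 105) (nat_lit 107) (nat_lit 3) (nat_lit 3) (nat_lit 6) L130740 (by decide +kernel)
theorem L130742 : W_46 (nat_lit 5) (nat_lit 0x14000e0001400080000000000000000000000) (nat_lit 0x0) (nat_lit 0xb80170002000000000000000000) := T_46 (nat_lit 90) (nat_lit 73) (nat_lit 4) (nat_lit 6) (nat_lit 8) L130741 (by decide +kernel)
theorem L130743 : W_46 (nat_lit 2) (nat_lit 0x14000e0001400080000000000000000000000) (nat_lit 0x0) (nat_lit 0x2a00000000000000000000000000) := D_46 (nat_lit 107) (nat_lit 105) (nat_lit 109) (nat_lit 3) (nat_lit 3) (nat_lit 6) (nat_lit 3) (nat_lit 4) (nat_lit 6) (by decide +kernel)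
theorem L130744 : W_46 (nat_lit 2) (nat_lit 0x14000e0001400080004000000000000000000) (nat_lit 0x0) (nat_lit 0x40002000100000000000000) := D_46 (nat_lit 73) (nat_lit 90) (nat_lit 56) (nat_lit 4) (nat_lit 6) (nat_lit 8) (nat_lit 4) (nat_lit 6) (nat_lit 7) (by decide +kernel)
theorem L130745 : W_46 (nat_lit 2) (nat_lit 0x16800e0001400080004000100000000000000) (nat_lit 0x0) (nat_lit 0x2000000000000200008000000000) := D_46 (nat_lit 57) (nat_lit 109) (nat_lit 39) (nat_lit 7) (nat_lit 6) (nat_lit 3) (nat_lit 4) (nat_lit 6) (nat_lit 6) (by decide +kernel)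
theorem L130746 : W_46 (nat_lit 3) (nat_lit 0x16800e0001400080004000000000000000000) (nat_lit 0x0) (nat_lit 0x2000000002000300008000000000) := T_46 (nat_lit 56) (nat_lit 73) (nat_lit 4) (nat_lit 6) (nat_lit 7) L130745 (by decide +kernel)
theorem L130747 : W_46 (nat_lit 4) (nat_lit 0x16000e0001400080004000000000000000000) (nat_lit 0x0) (nat_lit 0x180000002000000002000300008000000000) := T_46 (nat_lit 139) (nat_lit 140) (nat_lit 2) (nat_lit 3) (nat_lit 8) L130746 (by decide +kernel)
theorem L130748 : W_46 (nat_lit 5) (nat_lit 0x14000e0001400080004000000000000000000) (nat_lit 0x0) (nat_lit 0x4000380000002000000002000300008000000000) := T_46 (nat_lit 141) (nat_lit 158) (nat_lit 5) (nat_lit 6) (nat_lit 5) L130747 (by decide +kernel)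
theorem L130749 : W_46 (nat_lit 2) (nat_lit 0x14000e0001400080004000200028000000000) (nat_lit 0x0) (nat_lit 0x10001400000) := D_46 (nat_lit 40) (nat_lit 24) (nat_lit 22) (nat_lit 6) (nat_lit 6) (nat_lit 5) (nat_lit 4) (nat_lit 6) (nat_lit 5) (by decide +kernel)
theorem L130750 : W_46 (nat_lit 3) (nat_lit 0x14000e0001400080004000200020000000000) (nat_lit 0x0) (nat_lit 0x100018001400000) := T_46 (nat_lit 39) (nat_lit 56) (nat_lit 4) (nat_lit 6) (nat_lit 6) L130749 (by decide +kernel)
theorem L130751 : W_46 (nat_lit 4) (nat_lit 0x14000e0001400080004000200000000000000) (nat_lit 0x0) (nat_lit 0x500038001400000) := T_46 (nat_lit 41) (nat_lit 58) (nat_lit 6) (nat_lit 6) (nat_lit 6) L130750 (by decide +kernel)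
theorem L130752 : W_46 (nat_lit 5) (nat_lit 0x14000e0001400080004000000000000000000) (nat_lit 0x0) (nat_lit 0x2000000000000700038001400000) := T_46 (nat_lit 57) (nat_lit 109) (nat_lit 7) (nat_lit 6) (nat_lit 3) L130751 (by decide +kernel)
theorem L130753 : W_46 (nat_lit 2) (nat_lit 0x16800e00034000e0004000000000000000000) (nat_lit 0x0) (nat_lit 0xc000100000000000000000000000) := D_46 (nat_lit 110) (nat_lit 111) (nat_lit 92) (nat_lit 0) (nat_lit 9) (nat_lit 6) (nat_lit 3) (nat_lit 4) (nat_lit 5) (by decide +kernel)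
theorem L130754 : W_46 (nat_lit 3) (nat_lit 0x16800e00034000c0004000000000000000000) (nat_lit 0x0) (nat_lit 0xc000130000000000000000000000) := T_46 (nat_lit 89) (nat_lit 88) (nat_lit 3) (nat_lit 3) (nat_lit 5) L130753 (by decide +kernel)
theorem L130755 : W_46 (nat_lit 4) (nat_lit 0x16800e00014000c0004000000000000000000) (nat_lit 0x0) (nat_lit 0xe000130000000200000000000000) := T_46 (nat_lit 109) (nat_lit 57) (nat_lit 7) (nat_lit 6) (nat_lit 3) L130754 (by decide +kernel)
theorem L130756 : W_46 (nat_lit 5) (nat_lit 0x16800e0001400080004000000000000000000) (nat_lit 0x0) (nat_lit 0xe000170002000200000000000000) := T_46 (nat_lit 90) (nat_lit 73) (nat_lit 4) (nat_lit 6) (nat_lit 8) L130755 (by decide +kernel)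
theorem L130757 : W_46 (nat_lit 6) (nat_lit 0x16000e0001400080004000000000000000000) (nat_lit 0x0) (nat_lit 0x18000000e000170002000200000000000000) := T_46 (nat_lit 139) (nat_lit 140) (nat_lit 2) (nat_lit 3) (nat_lit 8) L130756 (by decide +kernel)
theorem L130758 : W_46 (nat_lit 7) (nat_lit 0x14000e0001400080004000000000000000000) (nat_lit 0x0) (nat_lit 0x400038000000e000170002000200000000000000) := T_46 (nat_lit 141) (nat_lit 158) (nat_lit 5) (nat_lit 6) (nat_lit 5) L130757 (by decide +kernel)
theorem L130759 : W_46 (nat_lit 8) (nat_lit 0x14000e0001400080000000000000000000000) (nat_lit 0x0) (nat_lit 0x400038000000e000170006000700038001400000) := Q_46 (nat_lit 74) (C_46 L130744 (C_46 L130748 (C_46 L130752 (C_46 L130758 N_46)))) (by decide +kernel)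
theorem L130760 : W_46 (nat_lit 9) (nat_lit 0x14000e0001000080000000000000000000000) (nat_lit 0x0) (nat_lit 0x400038000000ef80170006000700038001400000) := Q_46 (nat_lit 106) (C_46 L130742 (C_46 L130743 (C_46 L130759 N_46))) (by decide +kernel)
theorem L130761 : W_46 (nat_lit 2) (nat_lit 0x80014000e00010000c0000000000000000000000) (nat_lit 0x0) (nat_lit 0x100000000000000002000100000000000000000000000) := D_46 (nat_lit 109) (nat_lit 92) (nat_lit 176) (nat_lit 6) (nat_lit 6) (nat_lit 9) (nat_lit 6) (nat_lit 6) (nat_lit 10) (by decide +kernel)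
theorem L130762 : W_46 (nat_lit 3) (nat_lit 0x14000e00010000c0000000000000000000000) (nat_lit 0x0) (nat_lit 0x100008000000000002800100000000000000000000000) := T_46 (nat_lit 159) (nat_lit 107) (nat_lit 4) (nat_lit 6) (nat_lit 9) L130761 (by decide +kernel)
theorem L130763 : W_46 (nat_lit 4) (nat_lit 0x14000e0001000080000000000000000000000) (nat_lit 0x0) (nat_lit 0x100008000000000002800140002000000000000000000) := T_46 (nat_lit 90) (nat_lit 73) (nat_lit 4) (nat_lit 6) (nat_lit 8) L130762 (by decide +kernel)
theorem L130764 : W_46 (nat_lit 2) (nat_lit 0xc0014000e00010000c0000000000000000000000) (nat_lit 0x0) (nat_lit 0x100000000000000002000100000000000000000000000) := D_46 (nat_lit 109) (nat_lit 92) (nat_lit 176) (nat_lit 6) (nat_lit 6) (nat_lit 9) (nat_lit 6) (nat_lit 6) (nat_lit 10) (by decide +kernel)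
theorem L130765 : W_46 (nat_lit 3) (nat_lit 0x40014000e00010000c0000000000000000000000) (nat_lit 0x0) (nat_lit 0x180008000000000002000100000000000000000000000) := T_46 (nat_lit 159) (nat_lit 175) (nat_lit 5) (nat_lit 6) (nat_lit 6) L130764 (by decide +kernel)
theorem L130766 : W_46 (nat_lit 4) (nat_lit 0x14000e00010000c0000000000000000000000) (nat_lit 0x0) (nat_lit 0x18000c000200000002000100000000000000000000000) := T_46 (nat_lit 158) (nat_lit 141) (nat_lit 5) (nat_lit 6) (nat_lit 5) L130765 (by decide +kernel)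
theorem L130767 : W_46 (nat_lit 5) (nat_lit 0x14000e0001000080000000000000000000000) (nat_lit 0x0) (nat_lit 0x18000c000200000002000140002000000000000000000) := T_46 (nat_lit 90) (nat_lit 73) (nat_lit 4) (nat_lit 6) (nat_lit 8) L130766 (by decide +kernel)
theorem L130768 : W_46 (nat_lit 2) (nat_lit 0xc0014000e0001000080000000000000000000000) (nat_lit 0x0) (nat_lit 0x100000000000000002000100000000000000000000000) := D_46 (nat_lit 109) (nat_lit 92) (nat_lit 176) (nat_lit 6) (nat_lit 6) (nat_lit 9) (nat_lit 6) (nat_lit 6) (nat_lit 10) (by decide +kernel)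
theorem L130769 : W_46 (nat_lit 3) (nat_lit 0x40014000e0001000080000000000000000000000) (nat_lit 0x0) (nat_lit 0x180008000000000002000100000000000000000000000) := T_46 (nat_lit 159) (nat_lit 175) (nat_lit 5) (nat_lit 6) (nat_lit 6) L130768 (by decide +kernel)
theorem L130770 : W_46 (nat_lit 4) (nat_lit 0x14000e0001000080000000000000000000000) (nat_lit 0x0) (nat_lit 0x18000c000200000002000100000000000000000000000) := T_46 (nat_lit 158) (nat_lit 141) (nat_lit 5) (nat_lit 6) (nat_lit 5) L130769 (by decide +kernel)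
theorem L130771 : W_46 (nat_lit 10) (nat_lit 0x10000e0001000080000000000000000000000) (nat_lit 0x0) (nat_lit 0x18000c00078000000ef80170006000700038001400000) := Q_46 (nat_lit 142) (C_46 L124644 (C_46 L130760 (C_46 L130763 (C_46 L130767 (C_46 L130770 N_46))))) (by decide +kernel)
theorem L130772 : W_46 (nat_lit 2) (nat_lit 0x10000e00078000c001c000000000000000000) (nat_lit 0x0) (nat_lit 0x600000000800000000000000) := D_46 (nat_lit 93) (nat_lit 94) (nat_lit 59) (nat_lit 2) (nat_lit 5) (nat_lit 6) (nat_lit 5) (nat_lit 8) (nat_lit 3) (by decide +kernel)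
theorem L130773 : W_46 (nat_lit 3) (nat_lit 0x10000e00078000c000c000000000000000000) (nat_lit 0x0) (nat_lit 0x600030000800000000000000) := T_46 (nat_lit 76) (nat_lit 77) (nat_lit 1) (nat_lit 9) (nat_lit 4) L130772 (by decide +kernel)
theorem L130774 : W_46 (nat_lit 4) (nat_lit 0x10000e00078000c0004000000000000000000) (nat_lit 0x0) (nat_lit 0x600038000c00000000000000) := T_46 (nat_lit 75) (nat_lit 58) (nat_lit 6) (nat_lit 6) (nat_lit 7) L130773 (by decide +kernel)
theorem L130775 : W_46 (nat_lit 5) (nat_lit 0x10000e0007800080004000000000000000000) (nat_lit 0x0) (nat_lit 0x660038000c00000000000000) := T_46 (nat_lit 90) (nat_lit 89) (nat_lit 0) (nat_lit 8) (nat_lit 6) L130774 (by decide +kernel)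
theorem L130776 : W_46 (nat_lit 6) (nat_lit 0x10000e0007800080000000000000000000000) (nat_lit 0x0) (nat_lit 0x66003c000e00000000000000) := T_46 (nat_lit 74) (nat_lit 57) (nat_lit 7) (nat_lit 6) (nat_lit 3) L130775 (by decide +kernel)
theorem L130777 : W_46 (nat_lit 7) (nat_lit 0x10000e0007000080000000000000000000000) (nat_lit 0x0) (nat_lit 0xc0066003c000e00000000000000) := T_46 (nat_lit 107) (nat_lit 106) (nat_lit 3) (nat_lit 4) (nat_lit 6) L130776 (by decide +kernel)
theorem L130778 : W_46 (nat_lit 8) (nat_lit 0x10000e0003000080000000000000000000000) (nat_lit 0x0) (nat_lit 0x1cc00e6003c001e00000000000000) := Q_46 (nat_lit 110) (C_46 L130683 (C_46 L130777 (C_46 L130671 N_46))) (by decide +kernel)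
theorem L130779 : W_46 (nat_lit 9) (nat_lit 0x10000e0001000080000000000000000000000) (nat_lit 0x0) (nat_lit 0x1ec00f6003c001e00000000000000) := Q_46 (nat_lit 109) (C_46 L125872 (C_46 L130707 (C_46 L130778 (C_46 L130700 N_46)))) (by decide +kernel)
theorem L130780 : W_46 (nat_lit 13) (nat_lit 0x10000e0001000000000000000000000000000) (nat_lit 0x0) (nat_lit 0x400038001c00078000001ef80ff803fc01f00038001c00000) := Q_46 (nat_lit 91) (C_46 L124640 (C_46 L130670 (C_46 L130708 (C_46 L130722 (C_46 L130734 (C_46 L130738 (C_46 L130771 (C_46 L130779 N_46)))))))) (by decide +kernel)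
theorem L130781 : W_46 (nat_lit 2) (nat_lit 0x14000e0001000080006000400000000000000) (nat_lit 0x0) (nat_lit 0x2000000000000200020000000000) := D_46 (nat_lit 57) (nat_lit 109) (nat_lit 41) (nat_lit 7) (nat_lit 6) (nat_lit 3) (nat_lit 6) (nat_lit 6) (nat_lit 6) (by decide +kernel)
theorem L130782 : W_46 (nat_lit 3) (nat_lit 0x14000e0001000080006000000000000000000) (nat_lit 0x0) (nat_lit 0x2000000008000600020000000000) := T_46 (nat_lit 58) (nat_lit 75) (nat_lit 6) (nat_lit 6) (nat_lit 7) L130781 (by decide +kernel)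
theorem L130783 : W_46 (nat_lit 4) (nat_lit 0x14000e0001000080002000000000000000000) (nat_lit 0x0) (nat_lit 0x200000000c000700020000000000) := T_46 (nat_lit 74) (nat_lit 56) (nat_lit 4) (nat_lit 6) (nat_lit 7) L130782 (by decide +kernel)
theorem L130784 : W_46 (nat_lit 5) (nat_lit 0x14000e0001000080000000000000000000000) (nat_lit 0x0) (nat_lit 0x200004000e000700020000000000) := T_46 (nat_lit 73) (nat_lit 90) (nat_lit 4) (nat_lit 6) (nat_lit 8) L130783 (by decide +kernel)
theorem L130785 : W_46 (nat_lit 2) (nat_lit 0x2800080014000e00010001c0000000000000000000000) (nat_lit 0x0) (nat_lit 0x5000100000000000000000000000000000000000000000000) := D_46 (nat_lit 176) (nat_lit 192) (nat_lit 194) (nat_lit 5) (nat_lit 6) (nat_lit 7) (nat_lit 7) (nat_lit 6) (nat_lit 7) (by decide +kernel)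
theorem L130786 : W_46 (nat_lit 3) (nat_lit 0x800080014000e00010001c0000000000000000000000) (nat_lit 0x0) (nat_lit 0x5000300010000000000000000000000000000000000000000) := T_46 (nat_lit 177) (nat_lit 160) (nat_lit 7) (nat_lit 6) (nat_lit 6) L130785 (by decide +kernel)
theorem L130787 : W_46 (nat_lit 4) (nat_lit 0x80014000e00010001c0000000000000000000000) (nat_lit 0x0) (nat_lit 0x5000380014000000000000000000000000000000000000000) := T_46 (nat_lit 175) (nat_lit 158) (nat_lit 5) (nat_lit 6) (nat_lit 6) L130786 (by decide +kernel)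
theorem L130788 : W_46 (nat_lit 5) (nat_lit 0x14000e00010001c0000000000000000000000) (nat_lit 0x0) (nat_lit 0x500038001c000000000002000000000000000000000000000) := T_46 (nat_lit 159) (nat_lit 109) (nat_lit 6) (nat_lit 6) (nat_lit 9) L130787 (by decide +kernel)
theorem L130789 : W_46 (nat_lit 6) (nat_lit 0x14000e00010000c0000000000000000000000) (nat_lit 0x0) (nat_lit 0x500038001c000000000002000100008000000000000000000) := T_46 (nat_lit 92) (nat_lit 75) (nat_lit 6) (nat_lit 6) (nat_lit 8) L130788 (by decide +kernel)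
theorem L130790 : W_46 (nat_lit 7) (nat_lit 0x14000e0001000080000000000000000000000) (nat_lit 0x0) (nat_lit 0x500038001c00000000000200014000a000000000000000000) := T_46 (nat_lit 90) (nat_lit 73) (nat_lit 4) (nat_lit 6) (nat_lit 8) L130789 (by decide +kernel)
theorem L130791 : W_46 (nat_lit 2) (nat_lit 0x2800080014000e0001000180000000000000000000000) (nat_lit 0x0) (nat_lit 0x5000100000000000000000000000000000000000000000000) := D_46 (nat_lit 176) (nat_lit 192) (nat_lit 194) (nat_lit 5) (nat_lit 6) (nat_lit 7) (nat_lit 7) (nat_lit 6) (nat_lit 7) (by decide +kernel)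
theorem L130792 : W_46 (nat_lit 3) (nat_lit 0x800080014000e0001000180000000000000000000000) (nat_lit 0x0) (nat_lit 0x5000300010000000000000000000000000000000000000000) := T_46 (nat_lit 177) (nat_lit 160) (nat_lit 7) (nat_lit 6) (nat_lit 6) L130791 (by decide +kernel)
theorem L130793 : W_46 (nat_lit 4) (nat_lit 0x80014000e0001000180000000000000000000000) (nat_lit 0x0) (nat_lit 0x5000380014000000000000000000000000000000000000000) := T_46 (nat_lit 175) (nat_lit 158) (nat_lit 5) (nat_lit 6) (nat_lit 6) L130792 (by decide +kernel)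
theorem L130794 : W_46 (nat_lit 5) (nat_lit 0x14000e0001000180000000000000000000000) (nat_lit 0x0) (nat_lit 0x500038001c000000000002000000000000000000000000000) := T_46 (nat_lit 159) (nat_lit 109) (nat_lit 6) (nat_lit 6) (nat_lit 9) L130793 (by decide +kernel)
theorem L130795 : W_46 (nat_lit 6) (nat_lit 0x14000e0001000080000000000000000000000) (nat_lit 0x0) (nat_lit 0x500038001c000000000002000100008000000000000000000) := T_46 (nat_lit 92) (nat_lit 75) (nat_lit 6) (nat_lit 6) (nat_lit 8) L130794 (by decide +kernel)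
theorem L130796 : W_46 (nat_lit 2) (nat_lit 0x14000e0003000080006000000000000000000) (nat_lit 0x0) (nat_lit 0x100008000000000000000100000000000000000000000) := D_46 (nat_lit 159) (nat_lit 176) (nat_lit 92) (nat_lit 6) (nat_lit 6) (nat_lit 10) (nat_lit 6) (nat_lit 6) (nat_lit 9) (by decide +kernel)
theorem L130797 : W_46 (nat_lit 3) (nat_lit 0x14000e0001000080006000000000000000000) (nat_lit 0x0) (nat_lit 0x100008000000000002000100000000200000000000000) := T_46 (nat_lit 109) (nat_lit 57) (nat_lit 7) (nat_lit 6) (nat_lit 3) L130796 (by decide +kernel)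
theorem L130798 : W_46 (nat_lit 4) (nat_lit 0x14000e0001000080002000000000000000000) (nat_lit 0x0) (nat_lit 0x100008000000000002000100004000300000000000000) := T_46 (nat_lit 74) (nat_lit 56) (nat_lit 4) (nat_lit 6) (nat_lit 7) L130797 (by decide +kernel)
theorem L130799 : W_46 (nat_lit 5) (nat_lit 0x14000e0001000080000000000000000000000) (nat_lit 0x0) (nat_lit 0x100008000000000002000140006000300000000000000) := T_46 (nat_lit 73) (nat_lit 90) (nat_lit 4) (nat_lit 6) (nat_lit 8) L130798 (by decide +kernel)
theorem L130800 : W_46 (nat_lit 8) (nat_lit 0x14000e0001000000000000000000000000000) (nat_lit 0x0) (nat_lit 0x500038001c0000000000020001c000e000700020000000000) := Q_46 (nat_lit 91) (C_46 L124656 (C_46 L130784 (C_46 L130790 (C_46 L130795 (C_46 L130799 N_46))))) (by decide +kernel)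
theorem L130801 : W_46 (nat_lit 5) (nat_lit 0x14001e0001000000000000000000000000000) (nat_lit 0x0) (nat_lit 0x1c000600072000000000000000000000000000) := T_46 (nat_lit 129) (nat_lit 109) (nat_lit 0) (nat_lit 10) (nat_lit 7) L130655 (by decide +kernel)
theorem L130802 : W_46 (nat_lit 6) (nat_lit 0x14000e0001000000000000000000000000000) (nat_lit 0x0) (nat_lit 0x1c200700072000000000000000000000000000) := T_46 (nat_lit 128) (nat_lit 141) (nat_lit 1) (nat_lit 9) (nat_lit 7) L130801 (by decide +kernel)
theorem L130803 : W_46 (nat_lit 9) (nat_lit 0x10000e0001000000000000000000000000000) (nat_lit 0x0) (nat_lit 0x500038001c01c7807000720001c000e000700020000000000) := Q_46 (nat_lit 142) (C_46 L130800 (C_46 L124744 (C_46 L130802 N_46))) (by decide +kernel)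
theorem L130804 : W_46 (nat_lit 17) (nat_lit 0x10000e0000000000000000000000000000000) (nat_lit 0x0) (nat_lit 0x500038001c01c78070007ff83ff81ffc1ff001f8001c00000) := Q_46 (nat_lit 108) (C_46 L130652 (C_46 L124702 (C_46 L130658 (C_46 L130661 (C_46 L130780 (C_46 L130803 N_46)))))) (by decide +kernel)
theorem L130805 : W_46 (nat_lit 5) (nat_lit 0x10000f8004800000000000000000000000000) (nat_lit 0x0) (nat_lit 0x1c0006001380000000000000000000000000) := T_46 (nat_lit 139) (nat_lit 140) (nat_lit 1) (nat_lit 7) (nat_lit 7) L124756 (by decide +kernel)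
theorem L130806 : W_46 (nat_lit 6) (nat_lit 0x10000f0004800000000000000000000000000) (nat_lit 0x0) (nat_lit 0x1c000e003380000000000000000000000000) := T_46 (nat_lit 123) (nat_lit 109) (nat_lit 2) (nat_lit 4) (nat_lit 7) L130805 (by decide +kernel)
theorem L130807 : W_46 (nat_lit 7) (nat_lit 0x10000f0000800000000000000000000000000) (nat_lit 0x0) (nat_lit 0x1c000e00f380000000000000000000000000) := T_46 (nat_lit 110) (nat_lit 111) (nat_lit 2) (nat_lit 5) (nat_lit 7) L130806 (by decide +kernel)
theorem L130808 : W_46 (nat_lit 8) (nat_lit 0x10000f0000000000000000000000000000000) (nat_lit 0x0) (nat_lit 0x1c000e00ff80000000000000000000000000) := T_46 (nat_lit 107) (nat_lit 106) (nat_lit 0) (nat_lit 8) (nat_lit 7) L130807 (by decide +kernel)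
theorem L130809 : W_46 (nat_lit 2) (nat_lit 0x10000f8004000000000000000000000000000) (nat_lit 0x0) (nat_lit 0xe00000000000000000000000000) := D_46 (nat_lit 106) (nat_lit 105) (nat_lit 107) (nat_lit 0) (nat_lit 7) (nat_lit 7) (nat_lit 0) (nat_lit 8) (nat_lit 7) (by decide +kernel)
theorem L130810 : W_46 (nat_lit 3) (nat_lit 0x10000f0004000000000000000000000000000) (nat_lit 0x0) (nat_lit 0x8002e00000000000000000000000000) := T_46 (nat_lit 123) (nat_lit 109) (nat_lit 2) (nat_lit 4) (nat_lit 7) L130809 (by decide +kernel)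
theorem L130811 : W_46 (nat_lit 4) (nat_lit 0x10000f0000000000000000000000000000000) (nat_lit 0x0) (nat_lit 0x800ee00000000000000000000000000) := T_46 (nat_lit 110) (nat_lit 111) (nat_lit 2) (nat_lit 5) (nat_lit 7) L130810 (by decide +kernel)
theorem L130812 : W_46 (nat_lit 11) (nat_lit 0x10000e0000000000000000000000000000000) (nat_lit 0x0) (nat_lit 0x28001c000e0007c001e00ff800e0007000380010000000000) := Q_46 (nat_lit 124) (C_46 L130650 (C_46 L130207 (C_46 L130808 (C_46 L130811 N_46)))) (by decide +kernel)
theorem L130813 : W_46 (nat_lit 6) (nat_lit 0x10000e0000000000000000000000000000000) (nat_lit 0x0) (nat_lit 0x10000800078011800ee00040000000000000000000000) := Q_46 (nat_lit 124) (C_46 L130811 (C_46 L130209 (C_46 L130650 N_46))) (by decide +kernel)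
theorem L130814 : W_46 (nat_lit 2) (nat_lit 0x10000e0003000000000000000000000000000) (nat_lit 0x0) (nat_lit 0x300000800000000000000000000000000) := D_46 (nat_lit 128) (nat_lit 107) (nat_lit 129) (nat_lit 0) (nat_lit 9) (nat_lit 7) (nat_lit 0) (nat_lit 10) (nat_lit 7) (by decide +kernel)
theorem L130815 : W_46 (nat_lit 2) (nat_lit 0x10000e0007000000000000000000000000000) (nat_lit 0x0) (nat_lit 0x18008000000000000000000000000000) := D_46 (nat_lit 124) (nat_lit 111) (nat_lit 123) (nat_lit 2) (nat_lit 5) (nat_lit 7) (nat_lit 2) (nat_lit 4) (nat_lit 7) (by decide +kernel)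
theorem L130816 : W_46 (nat_lit 5) (nat_lit 0x10000e0007000000000000000000000000000) (nat_lit 0x0) (nat_lit 0x8000400018000c00060002000000000000000000) := T_46 (nat_lit 107) (nat_lit 106) (nat_lit 3) (nat_lit 4) (nat_lit 6) L125343 (by decide +kernel)
theorem L130817 : W_46 (nat_lit 7) (nat_lit 0x10000e0003000000000000000000000000000) (nat_lit 0x0) (nat_lit 0x800040001801cc000e0002000100000000000000) := Q_46 (nat_lit 110) (C_46 L130815 (C_46 L130816 (C_46 L127862 N_46))) (by decide +kernel)
theorem L130818 : W_46 (nat_lit 2) (nat_lit 0x10001e000f000000000000000000000000000) (nat_lit 0x0) (nat_lit 0xc00020000000000000000000) := D_46 (nat_lit 94) (nat_lit 77) (nat_lit 95) (nat_lit 5) (nat_lit 9) (nat_lit 4) (nat_lit 2) (nat_lit 6) (nat_lit 6) (by decide +kernel)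
theorem L130819 : W_46 (nat_lit 3) (nat_lit 0x10001e000b000000000000000000000000000) (nat_lit 0x0) (nat_lit 0x10004000c00020000000000000000000) := T_46 (nat_lit 110) (nat_lit 124) (nat_lit 2) (nat_lit 5) (nat_lit 7) L130818 (by decide +kernel)
theorem L130820 : W_46 (nat_lit 4) (nat_lit 0x10001e0003000000000000000000000000000) (nat_lit 0x0) (nat_lit 0x1001c000c00020000000000000000000) := T_46 (nat_lit 111) (nat_lit 112) (nat_lit 2) (nat_lit 6) (nat_lit 7) L130819 (by decide +kernel)
theorem L130821 : W_46 (nat_lit 5) (nat_lit 0x10000e0003000000000000000000000000000) (nat_lit 0x0) (nat_lit 0x31001c000c00020000000000000000000) := T_46 (nat_lit 128) (nat_lit 129) (nat_lit 0) (nat_lit 10) (nat_lit 7) L130820 (by decide +kernel)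
theorem L130822 : W_46 (nat_lit 8) (nat_lit 0x10000e0002000000000000000000000000000) (nat_lit 0x0) (nat_lit 0x800040031801dc00ce0022000100000000000000) := Q_46 (nat_lit 108) (C_46 L130814 (C_46 L130817 (C_46 L130821 N_46))) (by decide +kernel)
theorem L130823 : W_46 (nat_lit 2) (nat_lit 0x10002e80030000c000e000000000000000000) (nat_lit 0x0) (nat_lit 0x30010000000000000000000) := D_46 (nat_lit 89) (nat_lit 88) (nat_lit 76) (nat_lit 3) (nat_lit 3) (nat_lit 5) (nat_lit 1) (nat_lit 8) (nat_lit 4) (by decide +kernel)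
theorem L130824 : W_46 (nat_lit 3) (nat_lit 0x10002e800300008000e000000000000000000) (nat_lit 0x0) (nat_lit 0x400000000000070010000000000000000000) := T_46 (nat_lit 90) (nat_lit 142) (nat_lit 4) (nat_lit 6) (nat_lit 8) L130823 (by decide +kernel)
theorem L130825 : W_46 (nat_lit 4) (nat_lit 0x10002e8003000080006000000000000000000) (nat_lit 0x0) (nat_lit 0x400000000000070018000400000000000000) := T_46 (nat_lit 75) (nat_lit 58) (nat_lit 6) (nat_lit 6) (nat_lit 7) L130824 (by decide +kernel)
theorem L130826 : W_46 (nat_lit 5) (nat_lit 0x10002e8003000080004000000000000000000) (nat_lit 0x0) (nat_lit 0x40000000000007001a000500000000000000) := T_46 (nat_lit 73) (nat_lit 56) (nat_lit 4) (nat_lit 6) (nat_lit 7) L130825 (by decide +kernel)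
theorem L130827 : W_46 (nat_lit 6) (nat_lit 0x10000e8003000080004000000000000000000) (nat_lit 0x0) (nat_lit 0x40030000000007001a000500000000000000) := T_46 (nat_lit 129) (nat_lit 128) (nat_lit 0) (nat_lit 10) (nat_lit 7) L130826 (by decide +kernel)
theorem L130828 : W_46 (nat_lit 7) (nat_lit 0x10000e8003000080000000000000000000000) (nat_lit 0x0) (nat_lit 0x40030000000007001e000700000000000000) := T_46 (nat_lit 74) (nat_lit 57) (nat_lit 7) (nat_lit 6) (nat_lit 3) L130827 (by decide +kernel)
theorem L130829 : W_46 (nat_lit 4) (nat_lit 0x10002e800300008000c000000000000000000) (nat_lit 0x0) (nat_lit 0x400000000000070012000100000000000000) := T_46 (nat_lit 73) (nat_lit 56) (nat_lit 4) (nat_lit 6) (nat_lit 7) L130824 (by decide +kernel)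
theorem L130830 : W_46 (nat_lit 5) (nat_lit 0x10002e8003000080008000000000000000000) (nat_lit 0x0) (nat_lit 0x400000000000070016000300000000000000) := T_46 (nat_lit 74) (nat_lit 57) (nat_lit 7) (nat_lit 6) (nat_lit 3) L130829 (by decide +kernel)
theorem L130831 : W_46 (nat_lit 6) (nat_lit 0x10002e8003000080000000000000000000000) (nat_lit 0x0) (nat_lit 0x40000000000017001e000300000000000000) := T_46 (nat_lit 75) (nat_lit 92) (nat_lit 7) (nat_lit 7) (nat_lit 4) L130830 (by decide +kernel)
theorem L130832 : W_46 (nat_lit 7) (nat_lit 0x10000e8003000080000000000000000000000) (nat_lit 0x0) (nat_lit 0x40030000000017001e000300000000000000) := T_46 (nat_lit 129) (nat_lit 128) (nat_lit 0) (nat_lit 10) (nat_lit 7) L130831 (by decide +kernel)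
theorem L130833 : W_46 (nat_lit 2) (nat_lit 0x14002e80030001c0000000000000000000000) (nat_lit 0x0) (nat_lit 0x4000030000000000000000000000) := D_46 (nat_lit 89) (nat_lit 110) (nat_lit 88) (nat_lit 3) (nat_lit 4) (nat_lit 5) (nat_lit 3) (nat_lit 3) (nat_lit 5) (by decide +kernel)
theorem L130834 : W_46 (nat_lit 3) (nat_lit 0x14002e8003000180000000000000000000000) (nat_lit 0x0) (nat_lit 0x4000070002000000000000000000) := T_46 (nat_lit 90) (nat_lit 73) (nat_lit 4) (nat_lit 6) (nat_lit 8) L130833 (by decide +kernel)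
theorem L130835 : W_46 (nat_lit 4) (nat_lit 0x10002e8003000180000000000000000000000) (nat_lit 0x0) (nat_lit 0x8000400000004000070002000000000000000000) := T_46 (nat_lit 142) (nat_lit 159) (nat_lit 6) (nat_lit 6) (nat_lit 9) L130834 (by decide +kernel)
theorem L130836 : W_46 (nat_lit 5) (nat_lit 0x10002e8003000080000000000000000000000) (nat_lit 0x0) (nat_lit 0x800040000000400017000a000000000000000000) := T_46 (nat_lit 92) (nat_lit 75) (nat_lit 7) (nat_lit 7) (nat_lit 4) L130835 (by decide +kernel)
theorem L130837 : W_46 (nat_lit 6) (nat_lit 0x10000e8003000080000000000000000000000) (nat_lit 0x0) (nat_lit 0x800040030000400017000a000000000000000000) := T_46 (nat_lit 129) (nat_lit 128) (nat_lit 0) (nat_lit 10) (nat_lit 7) L130836 (by decide +kernel)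
theorem L130838 : W_46 (nat_lit 2) (nat_lit 0x14002e8003000080006000000000000000000) (nat_lit 0x0) (nat_lit 0x100008000000000000000100000000000000000000000) := D_46 (nat_lit 159) (nat_lit 92) (nat_lit 176) (nat_lit 6) (nat_lit 6) (nat_lit 9) (nat_lit 6) (nat_lit 6) (nat_lit 10) (by decide +kernel)
theorem L130839 : W_46 (nat_lit 3) (nat_lit 0x10002e8003000080006000000000000000000) (nat_lit 0x0) (nat_lit 0x100008000400000000000140000000000000000000000) := T_46 (nat_lit 142) (nat_lit 90) (nat_lit 4) (nat_lit 6) (nat_lit 8) L130838 (by decide +kernel)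
theorem L130840 : W_46 (nat_lit 4) (nat_lit 0x10002e8003000080004000000000000000000) (nat_lit 0x0) (nat_lit 0x100008000400000000000140002000100000000000000) := T_46 (nat_lit 73) (nat_lit 56) (nat_lit 4) (nat_lit 6) (nat_lit 7) L130839 (by decide +kernel)
theorem L130841 : W_46 (nat_lit 5) (nat_lit 0x10000e8003000080004000000000000000000) (nat_lit 0x0) (nat_lit 0x100008000400300000000140002000100000000000000) := T_46 (nat_lit 129) (nat_lit 128) (nat_lit 0) (nat_lit 10) (nat_lit 7) L130840 (by decide +kernel)
theorem L130842 : W_46 (nat_lit 6) (nat_lit 0x10000e8003000080000000000000000000000) (nat_lit 0x0) (nat_lit 0x100008000400300000000140006000300000000000000) := T_46 (nat_lit 74) (nat_lit 57) (nat_lit 7) (nat_lit 6) (nat_lit 3) L130841 (by decide +kernel)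
theorem L130843 : W_46 (nat_lit 8) (nat_lit 0x10000e8003000000000000000000000000000) (nat_lit 0x0) (nat_lit 0x1000080004003000040001f001e000700000000000000) := Q_46 (nat_lit 91) (C_46 L125874 (C_46 L130828 (C_46 L130832 (C_46 L130837 (C_46 L130842 N_46))))) (by decide +kernel)
theorem L130844 : W_46 (nat_lit 2) (nat_lit 0x14002ec0034001e0000000000000000000000) (nat_lit 0x0) (nat_lit 0x80000000000000001800000000000000000) := D_46 (nat_lit 72) (nat_lit 71) (nat_lit 139) (nat_lit 0) (nat_lit 7) (nat_lit 5) (nat_lit 5) (nat_lit 4) (nat_lit 4) (by decide +kernel)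
theorem L130845 : W_46 (nat_lit 3) (nat_lit 0x14002ec0030001e0000000000000000000000) (nat_lit 0x0) (nat_lit 0x80000000600000001800000000000000000) := T_46 (nat_lit 106) (nat_lit 105) (nat_lit 1) (nat_lit 7) (nat_lit 5) L130844 (by decide +kernel)
theorem L130846 : W_46 (nat_lit 4) (nat_lit 0x14002ec0030001c0000000000000000000000) (nat_lit 0x0) (nat_lit 0x80000000600030001800000000000000000) := T_46 (nat_lit 89) (nat_lit 88) (nat_lit 3) (nat_lit 3) (nat_lit 5) L130845 (by decide +kernel)
theorem L130847 : W_46 (nat_lit 5) (nat_lit 0x14002ec003000180000000000000000000000) (nat_lit 0x0) (nat_lit 0x80000000600070003800000000000000000) := T_46 (nat_lit 90) (nat_lit 73) (nat_lit 4) (nat_lit 6) (nat_lit 8) L130846 (by decide +kernel)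
theorem L130848 : W_46 (nat_lit 6) (nat_lit 0x10002ec003000180000000000000000000000) (nat_lit 0x0) (nat_lit 0x8000480000000600070003800000000000000000) := T_46 (nat_lit 142) (nat_lit 159) (nat_lit 6) (nat_lit 6) (nat_lit 9) L130847 (by decide +kernel)
theorem L130849 : W_46 (nat_lit 7) (nat_lit 0x10002ec003000080000000000000000000000) (nat_lit 0x0) (nat_lit 0x800048000000060017000b800000000000000000) := T_46 (nat_lit 92) (nat_lit 75) (nat_lit 7) (nat_lit 7) (nat_lit 4) L130848 (by decide +kernel)
theorem L130850 : W_46 (nat_lit 8) (nat_lit 0x10002e8003000080000000000000000000000) (nat_lit 0x0) (nat_lit 0x800048001400060017000b800000000000000000) := T_46 (nat_lit 122) (nat_lit 124) (nat_lit 2) (nat_lit 3) (nat_lit 7) L130849 (by decide +kernel)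
theorem L130851 : W_46 (nat_lit 9) (nat_lit 0x10000e8003000080000000000000000000000) (nat_lit 0x0) (nat_lit 0x800048031400060017000b800000000000000000) := T_46 (nat_lit 129) (nat_lit 128) (nat_lit 0) (nat_lit 10) (nat_lit 7) L130850 (by decide +kernel)
theorem L130852 : W_46 (nat_lit 10) (nat_lit 0x10000e8003000000000000000000000000000) (nat_lit 0x0) (nat_lit 0x1000080004803140006001f001f800700000000000000) := Q_46 (nat_lit 91) (C_46 L130842 (C_46 L125874 (C_46 L130828 (C_46 L130851 N_46)))) (by decide +kernel)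
theorem L130853 : W_46 (nat_lit 11) (nat_lit 0x10000e0003000000000000000000000000000) (nat_lit 0x0) (nat_lit 0x10000800048031c0046001f001f800700000000000000) := Q_46 (nat_lit 123) (C_46 L125146 (C_46 L130843 (C_46 L130852 N_46))) (by decide +kernel)
theorem L130854 : W_46 (nat_lit 12) (nat_lit 0x10000e0002000000000000000000000000000) (nat_lit 0x0) (nat_lit 0x10000800048031c005e001f001f800700000000000000) := Q_46 (nat_lit 108) (C_46 L130814 (C_46 L124867 (C_46 L130853 N_46))) (by decide +kernel)
theorem L130855 : W_46 (nat_lit 2) (nat_lit 0x10000f0007800240008000000000000000000) (nat_lit 0x0) (nat_lit 0x10000c00000000000000) := D_46 (nat_lit 76) (nat_lit 58) (nat_lit 59) (nat_lit 4) (nat_lit 8) (nat_lit 7) (nat_lit 5) (nat_lit 8) (nat_lit 3) (by decide +kernel)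
theorem L130856 : W_46 (nat_lit 3) (nat_lit 0x10000f0007800040008000000000000000000) (nat_lit 0x0) (nat_lit 0x600010000c00000000000000) := T_46 (nat_lit 93) (nat_lit 94) (nat_lit 2) (nat_lit 5) (nat_lit 6) L130855 (by decide +kernel)
theorem L130857 : W_46 (nat_lit 4) (nat_lit 0x10000f0007800000008000000000000000000) (nat_lit 0x0) (nat_lit 0x660010000c00000000000000) := T_46 (nat_lit 90) (nat_lit 89) (nat_lit 0) (nat_lit 8) (nat_lit 6) L130856 (by decide +kernel)
theorem L130858 : W_46 (nat_lit 5) (nat_lit 0x10000f0006800000008000000000000000000) (nat_lit 0x0) (nat_lit 0x100001000660010000c00000000000000) := T_46 (nat_lit 108) (nat_lit 128) (nat_lit 3) (nat_lit 5) (nat_lit 6) L130857 (by decide +kernel)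
theorem L130859 : W_46 (nat_lit 6) (nat_lit 0x10000f0006000000008000000000000000000) (nat_lit 0x0) (nat_lit 0x100001c00660010000c00000000000000) := T_46 (nat_lit 107) (nat_lit 106) (nat_lit 0) (nat_lit 8) (nat_lit 7) L130858 (by decide +kernel)
theorem L130860 : W_46 (nat_lit 7) (nat_lit 0x10000e0006000000008000000000000000000) (nat_lit 0x0) (nat_lit 0x118001c00660010000c00000000000000) := T_46 (nat_lit 124) (nat_lit 123) (nat_lit 2) (nat_lit 4) (nat_lit 7) L130859 (by decide +kernel)
theorem L130861 : W_46 (nat_lit 8) (nat_lit 0x10000e0006000000000000000000000000000) (nat_lit 0x0) (nat_lit 0x118001c00760018000c00000000000000) := T_46 (nat_lit 75) (nat_lit 92) (nat_lit 7) (nat_lit 7) (nat_lit 4) L130860 (by decide +kernel)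
theorem L130862 : W_46 (nat_lit 5) (nat_lit 0x10000e0006000000000000000000000000000) (nat_lit 0x0) (nat_lit 0x19800f00038000c00000000000000) := Q_46 (nat_lit 93) (C_46 L127855 (C_46 L127870 N_46)) (by decide +kernel)
theorem L130863 : W_46 (nat_lit 9) (nat_lit 0x10000e0002000000000000000000000000000) (nat_lit 0x0) (nat_lit 0x11801dc00f60038000c00000000000000) := Q_46 (nat_lit 110) (C_46 L128705 (C_46 L130861 (C_46 L130862 N_46))) (by decide +kernel)
theorem L130864 : W_46 (nat_lit 2) (nat_lit 0x10001e000f000480008000000000000000000) (nat_lit 0x0) (nat_lit 0x4000600000000000000) := D_46 (nat_lit 74) (nat_lit 58) (nat_lit 57) (nat_lit 6) (nat_lit 6) (nat_lit 7) (nat_lit 7) (nat_lit 6) (nat_lit 3) (by decide +kernel)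
theorem L130865 : W_46 (nat_lit 3) (nat_lit 0x10001e000f000400008000000000000000000) (nat_lit 0x0) (nat_lit 0xc0004000600000000000000) := T_46 (nat_lit 91) (nat_lit 90) (nat_lit 0) (nat_lit 9) (nat_lit 6) L130864 (by decide +kernel)
theorem L130866 : W_46 (nat_lit 4) (nat_lit 0x10001e000b000400008000000000000000000) (nat_lit 0x0) (nat_lit 0x40008c0004000600000000000000) := T_46 (nat_lit 110) (nat_lit 95) (nat_lit 2) (nat_lit 6) (nat_lit 6) L130865 (by decide +kernel)
theorem L130867 : W_46 (nat_lit 5) (nat_lit 0x10001e000b000000008000000000000000000) (nat_lit 0x0) (nat_lit 0x4000cc0024000600000000000000) := T_46 (nat_lit 94) (nat_lit 77) (nat_lit 5) (nat_lit 9) (nat_lit 4) L130866 (by decide +kernel)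
theorem L130868 : W_46 (nat_lit 6) (nat_lit 0x10001e0003000000008000000000000000000) (nat_lit 0x0) (nat_lit 0x1c000cc0024000600000000000000) := T_46 (nat_lit 111) (nat_lit 112) (nat_lit 2) (nat_lit 6) (nat_lit 7) L130867 (by decide +kernel)
theorem L130869 : W_46 (nat_lit 7) (nat_lit 0x10000e0003000000008000000000000000000) (nat_lit 0x0) (nat_lit 0x30001c000cc0024000600000000000000) := T_46 (nat_lit 128) (nat_lit 129) (nat_lit 0) (nat_lit 10) (nat_lit 7) L130868 (by decide +kernel)
theorem L130870 : W_46 (nat_lit 8) (nat_lit 0x10000e0003000000000000000000000000000) (nat_lit 0x0) (nat_lit 0x30001c000dc002c000600000000000000) := T_46 (nat_lit 75) (nat_lit 92) (nat_lit 7) (nat_lit 7) (nat_lit 4) L130869 (by decide +kernel)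
theorem L130871 : W_46 (nat_lit 9) (nat_lit 0x10000e0002000000000000000000000000000) (nat_lit 0x0) (nat_lit 0x10000800040030001de00df002e000600000000000000) := Q_46 (nat_lit 108) (C_46 L130814 (C_46 L124867 (C_46 L130870 N_46))) (by decide +kernel)
theorem L130872 : W_46 (nat_lit 5) (nat_lit 0x10000e0006000000000000000000000000000) (nat_lit 0x0) (nat_lit 0x18001c00700038000c00000000000000) := Q_46 (nat_lit 93) (C_46 L127874 (C_46 L127855 N_46)) (by decide +kernel)
theorem L130873 : W_46 (nat_lit 6) (nat_lit 0x10000e0002000000000000000000000000000) (nat_lit 0x0) (nat_lit 0x1801dc00f00038000c00000000000000) := Q_46 (nat_lit 110) (C_46 L128705 (C_46 L130862 (C_46 L130872 N_46))) (by decide +kernel)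
theorem L130874 : W_46 (nat_lit 2) (nat_lit 0x10002e0012000000000000000000000000000) (nat_lit 0x0) (nat_lit 0x100028000000000000000000000000000) := D_46 (nat_lit 128) (nat_lit 111) (nat_lit 113) (nat_lit 2) (nat_lit 6) (nat_lit 7) (nat_lit 2) (nat_lit 7) (nat_lit 7) (by decide +kernel)
theorem L130875 : W_46 (nat_lit 2) (nat_lit 0x50002e0012000000000000000000000000000) (nat_lit 0x0) (nat_lit 0x8000100020000000000000000000000000000) := D_46 (nat_lit 128) (nat_lit 113) (nat_lit 147) (nat_lit 2) (nat_lit 7) (nat_lit 7) (nat_lit 3) (nat_lit 7) (nat_lit 7) (by decide +kernel)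
theorem L130876 : W_46 (nat_lit 2) (nat_lit 0xd0002e0012000800048000000000000000000) (nat_lit 0x0) (nat_lit 0x1000080004000000000000000) := D_46 (nat_lit 79) (nat_lit 62) (nat_lit 96) (nat_lit 6) (nat_lit 10) (nat_lit 7) (nat_lit 6) (nat_lit 10) (nat_lit 8) (by decide +kernel)
theorem L130877 : W_46 (nat_lit 3) (nat_lit 0xd0002e0012000800008000000000000000000) (nat_lit 0x0) (nat_lit 0x4000000010000c0004000000000000000) := T_46 (nat_lit 78) (nat_lit 130) (nat_lit 7) (nat_lit 10) (nat_lit 4) L130876 (by decide +kernel)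
theorem L130878 : W_46 (nat_lit 4) (nat_lit 0x50002e0012000800008000000000000000000) (nat_lit 0x0) (nat_lit 0x1000080004000000010000c0004000000000000000) := T_46 (nat_lit 147) (nat_lit 164) (nat_lit 7) (nat_lit 10) (nat_lit 5) L130877 (by decide +kernel)
theorem L130879 : W_46 (nat_lit 5) (nat_lit 0x50002e0012000800000000000000000000000) (nat_lit 0x0) (nat_lit 0x1000080004000000011000c8004000000000000000) := T_46 (nat_lit 75) (nat_lit 92) (nat_lit 7) (nat_lit 7) (nat_lit 4) L130878 (by decide +kernel)
theorem L130880 : W_46 (nat_lit 2) (nat_lit 0xd0002e0012001800040000000000000000000) (nat_lit 0x0) (nat_lit 0x400020001000000000000000) := D_46 (nat_lit 77) (nat_lit 60) (nat_lit 94) (nat_lit 4) (nat_lit 10) (nat_lit 7) (nat_lit 4) (nat_lit 10) (nat_lit 8) (by decide +kernel)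
theorem L130881 : W_46 (nat_lit 3) (nat_lit 0xd0002e0012001800000000000000000000000) (nat_lit 0x0) (nat_lit 0x400000000400060001000000000000000) := T_46 (nat_lit 78) (nat_lit 130) (nat_lit 7) (nat_lit 10) (nat_lit 4) L130880 (by decide +kernel)
theorem L130882 : W_46 (nat_lit 4) (nat_lit 0x50002e0012001800000000000000000000000) (nat_lit 0x0) (nat_lit 0x100008000400000000400060001000000000000000) := T_46 (nat_lit 147) (nat_lit 164) (nat_lit 7) (nat_lit 10) (nat_lit 5) L130881 (by decide +kernel)
theorem L130883 : W_46 (nat_lit 5) (nat_lit 0x50002e0012000800000000000000000000000) (nat_lit 0x0) (nat_lit 0x1000080004000000014000e0001000000000000000) := T_46 (nat_lit 96) (nat_lit 79) (nat_lit 6) (nat_lit 10) (nat_lit 8) L130882 (by decide +kernel)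
theorem L130884 : W_46 (nat_lit 2) (nat_lit 0xd0002e0012000800048000000000000000000) (nat_lit 0x0) (nat_lit 0x400020001000000000000000) := D_46 (nat_lit 77) (nat_lit 94) (nat_lit 60) (nat_lit 4) (nat_lit 10) (nat_lit 8) (nat_lit 4) (nat_lit 10) (nat_lit 7) (by decide +kernel)
theorem L130885 : W_46 (nat_lit 3) (nat_lit 0xd0002e0012000800008000000000000000000) (nat_lit 0x0) (nat_lit 0x400000000400060001000000000000000) := T_46 (nat_lit 78) (nat_lit 130) (nat_lit 7) (nat_lit 10) (nat_lit 4) L130884 (by decide +kernel)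
theorem L130886 : W_46 (nat_lit 4) (nat_lit 0x50002e0012000800008000000000000000000) (nat_lit 0x0) (nat_lit 0x100008000400000000400060001000000000000000) := T_46 (nat_lit 147) (nat_lit 164) (nat_lit 7) (nat_lit 10) (nat_lit 5) L130885 (by decide +kernel)
theorem L130887 : W_46 (nat_lit 5) (nat_lit 0x50002e0012000800000000000000000000000) (nat_lit 0x0) (nat_lit 0x100008000400000000500068001000000000000000) := T_46 (nat_lit 75) (nat_lit 92) (nat_lit 7) (nat_lit 7) (nat_lit 4) L130886 (by decide +kernel)
theorem L130888 : W_46 (nat_lit 2) (nat_lit 0x50002e0012001e00008000000000000000000) (nat_lit 0x0) (nat_lit 0x80000000000060000000000000000000000000000) := D_46 (nat_lit 113) (nat_lit 163) (nat_lit 114) (nat_lit 6) (nat_lit 10) (nat_lit 9) (nat_lit 3) (nat_lit 8) (nat_lit 5) (by decide +kernel)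
theorem L130889 : W_46 (nat_lit 3) (nat_lit 0x50002e0012001c00008000000000000000000) (nat_lit 0x0) (nat_lit 0x80000000000060000200010000000000000000000) := T_46 (nat_lit 93) (nat_lit 76) (nat_lit 0) (nat_lit 11) (nat_lit 5) L130888 (by decide +kernel)
theorem L130890 : W_46 (nat_lit 4) (nat_lit 0x50002e0012000c00008000000000000000000) (nat_lit 0x0) (nat_lit 0x80000000000060001200090000000000000000000) := T_46 (nat_lit 96) (nat_lit 79) (nat_lit 6) (nat_lit 10) (nat_lit 8) L130889 (by decide +kernel)
theorem L130891 : W_46 (nat_lit 5) (nat_lit 0x50002e0012000c00000000000000000000000) (nat_lit 0x0) (nat_lit 0x80000000000060001300098000000000000000000) := T_46 (nat_lit 75) (nat_lit 92) (nat_lit 7) (nat_lit 7) (nat_lit 4) L130890 (by decide +kernel)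
theorem L130892 : W_46 (nat_lit 6) (nat_lit 0x50002e0012000800000000000000000000000) (nat_lit 0x0) (nat_lit 0x800000000000600017000b8000000000000000000) := T_46 (nat_lit 94) (nat_lit 77) (nat_lit 4) (nat_lit 10) (nat_lit 8) L130891 (by decide +kernel)
theorem L130893 : W_46 (nat_lit 7) (nat_lit 0x50002e0012000000000000000000000000000) (nat_lit 0x0) (nat_lit 0x180008000400060001f000f8005000000000000000) := Q_46 (nat_lit 95) (C_46 L130879 (C_46 L130883 (C_46 L130887 (C_46 L130892 N_46)))) (by decide +kernel)
theorem L130894 : W_46 (nat_lit 4) (nat_lit 0xd0002e0012000000008000000000000000000) (nat_lit 0x0) (nat_lit 0x100000000400000000c00060001000000000000000) := T_46 (nat_lit 95) (nat_lit 164) (nat_lit 7) (nat_lit 10) (nat_lit 5) L130885 (by decide +kernel)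
theorem L130895 : W_46 (nat_lit 5) (nat_lit 0x50002e0012000000008000000000000000000) (nat_lit 0x0) (nat_lit 0x100008000500000000c00060001000000000000000) := T_46 (nat_lit 147) (nat_lit 128) (nat_lit 3) (nat_lit 7) (nat_lit 7) L130894 (by decide +kernel)
theorem L130896 : W_46 (nat_lit 6) (nat_lit 0x50002e0012000000000000000000000000000) (nat_lit 0x0) (nat_lit 0x100008000500000000d00068001000000000000000) := T_46 (nat_lit 75) (nat_lit 92) (nat_lit 7) (nat_lit 7) (nat_lit 4) L130895 (by decide +kernel)
theorem L130897 : W_46 (nat_lit 2) (nat_lit 0x20000c00050002e0032000000008000000000000000000) (nat_lit 0x0) (nat_lit 0x40001000000000000400000000000000000000000000000000) := D_46 (nat_lit 180) (nat_lit 130) (nat_lit 198) (nat_lit 6) (nat_lit 10) (nat_lit 10) (nat_lit 7) (nat_lit 10) (nat_lit 7) (by decide +kernel)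
theorem L130898 : W_46 (nat_lit 3) (nat_lit 0xc00050002e0032000000008000000000000000000) (nat_lit 0x0) (nat_lit 0x40003000100000000400000000000000000000000000000000) := T_46 (nat_lit 181) (nat_lit 164) (nat_lit 7) (nat_lit 10) (nat_lit 6) L130897 (by decide +kernel)
theorem L130899 : W_46 (nat_lit 4) (nat_lit 0x800050002e0032000000008000000000000000000) (nat_lit 0x0) (nat_lit 0x40003800140000000400000000000000000000000000000000) := T_46 (nat_lit 162) (nat_lit 179) (nat_lit 5) (nat_lit 10) (nat_lit 6) L130898 (by decide +kernel)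
theorem L130900 : W_46 (nat_lit 5) (nat_lit 0x50002e0032000000008000000000000000000) (nat_lit 0x0) (nat_lit 0x400038001c0000000400000001000000000000000000000000) := T_46 (nat_lit 163) (nat_lit 96) (nat_lit 6) (nat_lit 10) (nat_lit 9) L130899 (by decide +kernel)
theorem L130901 : W_46 (nat_lit 6) (nat_lit 0x50002e0032000000000000000000000000000) (nat_lit 0x0) (nat_lit 0x400038001c0000000400000001100008000000000000000000) := T_46 (nat_lit 75) (nat_lit 92) (nat_lit 7) (nat_lit 7) (nat_lit 4) L130900 (by decide +kernel)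
theorem L130902 : W_46 (nat_lit 7) (nat_lit 0x50002e0012000000000000000000000000000) (nat_lit 0x0) (nat_lit 0x400038001c0000000500020001100008000000000000000000) := T_46 (nat_lit 113) (nat_lit 128) (nat_lit 2) (nat_lit 7) (nat_lit 7) L130901 (by decide +kernel)
theorem L130903 : W_46 (nat_lit 8) (nat_lit 0x10002e0012000000000000000000000000000) (nat_lit 0x0) (nat_lit 0x400038001c000c000500060001f000f8005000000000000000) := Q_46 (nat_lit 146) (C_46 L130875 (C_46 L130893 (C_46 L130896 (C_46 L130902 N_46)))) (by decide +kernel)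
theorem L130904 : W_46 (nat_lit 2) (nat_lit 0x10006e0012000800048002000000000000000) (nat_lit 0x0) (nat_lit 0x80004000200000000000) := D_46 (nat_lit 62) (nat_lit 45) (nat_lit 79) (nat_lit 6) (nat_lit 10) (nat_lit 6) (nat_lit 6) (nat_lit 10) (nat_lit 7) (by decide +kernel)
theorem L130905 : W_46 (nat_lit 3) (nat_lit 0x10006e0012000800048000000000000000000) (nat_lit 0x0) (nat_lit 0x20000000080006000200000000000) := T_46 (nat_lit 61) (nat_lit 113) (nat_lit 7) (nat_lit 10) (nat_lit 3) L130904 (by decide +kernel)
theorem L130906 : W_46 (nat_lit 4) (nat_lit 0x10002e0012000800048000000000000000000) (nat_lit 0x0) (nat_lit 0x8000400020000000080006000200000000000) := T_46 (nat_lit 130) (nat_lit 147) (nat_lit 7) (nat_lit 10) (nat_lit 4) L130905 (by decide +kernel)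
theorem L130907 : W_46 (nat_lit 5) (nat_lit 0x10002e0012000800040000000000000000000) (nat_lit 0x0) (nat_lit 0x8000400020000100088006000200000000000) := T_46 (nat_lit 75) (nat_lit 92) (nat_lit 7) (nat_lit 7) (nat_lit 4) L130906 (by decide +kernel)
theorem L130908 : W_46 (nat_lit 2) (nat_lit 0x10006e00120008000c0002000000000000000) (nat_lit 0x0) (nat_lit 0x20001000080000000000) := D_46 (nat_lit 60) (nat_lit 43) (nat_lit 77) (nat_lit 4) (nat_lit 10) (nat_lit 6) (nat_lit 4) (nat_lit 10) (nat_lit 7) (by decide +kernel)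
theorem L130909 : W_46 (nat_lit 3) (nat_lit 0x10006e00120008000c0000000000000000000) (nat_lit 0x0) (nat_lit 0x20000000020003000080000000000) := T_46 (nat_lit 61) (nat_lit 113) (nat_lit 7) (nat_lit 10) (nat_lit 3) L130908 (by decide +kernel)
theorem L130910 : W_46 (nat_lit 4) (nat_lit 0x10002e00120008000c0000000000000000000) (nat_lit 0x0) (nat_lit 0x8000400020000000020003000080000000000) := T_46 (nat_lit 130) (nat_lit 147) (nat_lit 7) (nat_lit 10) (nat_lit 4) L130909 (by decide +kernel)
theorem L130911 : W_46 (nat_lit 5) (nat_lit 0x10002e0012000800040000000000000000000) (nat_lit 0x0) (nat_lit 0x80004000200000000a0007000080000000000) := T_46 (nat_lit 79) (nat_lit 62) (nat_lit 6) (nat_lit 10) (nat_lit 7) L130910 (by decide +kernel)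
theorem L130912 : W_46 (nat_lit 2) (nat_lit 0x50002e00120008000c8000000000000000000) (nat_lit 0x0) (nat_lit 0x400020001000000000000000) := D_46 (nat_lit 77) (nat_lit 94) (nat_lit 60) (nat_lit 4) (nat_lit 10) (nat_lit 8) (nat_lit 4) (nat_lit 10) (nat_lit 7) (by decide +kernel)
theorem L130913 : W_46 (nat_lit 3) (nat_lit 0x10002e00120008000c8000000000000000000) (nat_lit 0x0) (nat_lit 0x4000000000001400020001000000000000000) := T_46 (nat_lit 146) (nat_lit 96) (nat_lit 6) (nat_lit 10) (nat_lit 8) L130912 (by decide +kernel)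
theorem L130914 : W_46 (nat_lit 4) (nat_lit 0x10002e00120008000c0000000000000000000) (nat_lit 0x0) (nat_lit 0x4000000000001500028001000000000000000) := T_46 (nat_lit 75) (nat_lit 92) (nat_lit 7) (nat_lit 7) (nat_lit 4) L130913 (by decide +kernel)
theorem L130915 : W_46 (nat_lit 5) (nat_lit 0x10002e0012000800040000000000000000000) (nat_lit 0x0) (nat_lit 0x40000000000015000a8005000000000000000) := T_46 (nat_lit 79) (nat_lit 62) (nat_lit 6) (nat_lit 10) (nat_lit 7) L130914 (by decide +kernel)
theorem L130916 : W_46 (nat_lit 2) (nat_lit 0x10006e0012000800048002000000000000000) (nat_lit 0x0) (nat_lit 0x20001000080000000000) := D_46 (nat_lit 60) (nat_lit 77) (nat_lit 43) (nat_lit 4) (nat_lit 10) (nat_lit 7) (nat_lit 4) (nat_lit 10) (nat_lit 6) (by decide +kernel)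
theorem L130917 : W_46 (nat_lit 3) (nat_lit 0x10006e0012000800048000000000000000000) (nat_lit 0x0) (nat_lit 0x20000000020003000080000000000) := T_46 (nat_lit 61) (nat_lit 113) (nat_lit 7) (nat_lit 10) (nat_lit 3) L130916 (by decide +kernel)
theorem L130918 : W_46 (nat_lit 4) (nat_lit 0x10002e0012000800048000000000000000000) (nat_lit 0x0) (nat_lit 0x8000400020000000020003000080000000000) := T_46 (nat_lit 130) (nat_lit 147) (nat_lit 7) (nat_lit 10) (nat_lit 4) L130917 (by decide +kernel)
theorem L130919 : W_46 (nat_lit 5) (nat_lit 0x10002e0012000800040000000000000000000) (nat_lit 0x0) (nat_lit 0x8000400020000100028003000080000000000) := T_46 (nat_lit 75) (nat_lit 92) (nat_lit 7) (nat_lit 7) (nat_lit 4) L130918 (by decide +kernel)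
theorem L130920 : W_46 (nat_lit 6) (nat_lit 0x10002e0012000800000000000000000000000) (nat_lit 0x0) (nat_lit 0xc0004000200015000e8007000280000000000) := Q_46 (nat_lit 78) (C_46 L130907 (C_46 L130911 (C_46 L130915 (C_46 L130919 N_46)))) (by decide +kernel)
theorem L130921 : W_46 (nat_lit 2) (nat_lit 0x10006e00120008000e8000000000000000000) (nat_lit 0x0) (nat_lit 0x4000000000001000010000000000000000000) := D_46 (nat_lit 96) (nat_lit 76) (nat_lit 146) (nat_lit 3) (nat_lit 7) (nat_lit 4) (nat_lit 6) (nat_lit 10) (nat_lit 8) (by decide +kernel)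
theorem L130922 : W_46 (nat_lit 3) (nat_lit 0x10006e00120008000c8000000000000000000) (nat_lit 0x0) (nat_lit 0x4000000000001000030001000000000000000) := T_46 (nat_lit 77) (nat_lit 60) (nat_lit 4) (nat_lit 10) (nat_lit 7) L130921 (by decide +kernel)
theorem L130923 : W_46 (nat_lit 4) (nat_lit 0x10006e0012000800048000000000000000000) (nat_lit 0x0) (nat_lit 0x40000000000010000b0005000000000000000) := T_46 (nat_lit 79) (nat_lit 62) (nat_lit 6) (nat_lit 10) (nat_lit 7) L130922 (by decide +kernel)
theorem L130924 : W_46 (nat_lit 5) (nat_lit 0x10006e0012000800040000000000000000000) (nat_lit 0x0) (nat_lit 0x40000000000011000b8005000000000000000) := T_46 (nat_lit 75) (nat_lit 92) (nat_lit 7) (nat_lit 7) (nat_lit 4) L130923 (by decide +kernel)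
theorem L130925 : W_46 (nat_lit 6) (nat_lit 0x10002e0012000800040000000000000000000) (nat_lit 0x0) (nat_lit 0xc0004000000011000b8005000000000000000) := T_46 (nat_lit 130) (nat_lit 147) (nat_lit 7) (nat_lit 10) (nat_lit 4) L130924 (by decide +kernel)
theorem L130926 : W_46 (nat_lit 2) (nat_lit 0x10002e00120018000c8000000000000000000) (nat_lit 0x0) (nat_lit 0x30001000000000000000) := D_46 (nat_lit 77) (nat_lit 60) (nat_lit 76) (nat_lit 4) (nat_lit 10) (nat_lit 7) (nat_lit 3) (nat_lit 7) (nat_lit 4) (by decide +kernel)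
theorem L130927 : W_46 (nat_lit 3) (nat_lit 0x10002e00120008000c8000000000000000000) (nat_lit 0x0) (nat_lit 0x4000000000001000030001000000000000000) := T_46 (nat_lit 96) (nat_lit 146) (nat_lit 6) (nat_lit 10) (nat_lit 8) L130926 (by decide +kernel)
theorem L130928 : W_46 (nat_lit 4) (nat_lit 0x10002e00120008000c0000000000000000000) (nat_lit 0x0) (nat_lit 0x4000000000001100038001000000000000000) := T_46 (nat_lit 75) (nat_lit 92) (nat_lit 7) (nat_lit 7) (nat_lit 4) L130927 (by decide +kernel)
theorem L130929 : W_46 (nat_lit 5) (nat_lit 0x10002e0012000800040000000000000000000) (nat_lit 0x0) (nat_lit 0x40000000000011000b8005000000000000000) := T_46 (nat_lit 79) (nat_lit 62) (nat_lit 6) (nat_lit 10) (nat_lit 7) L130928 (by decide +kernel)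
theorem L130930 : W_46 (nat_lit 7) (nat_lit 0x10002e0012000800000000000000000000000) (nat_lit 0x0) (nat_lit 0xc0004000200011000f8007000280000000000) := Q_46 (nat_lit 78) (C_46 L130919 (C_46 L130911 (C_46 L130925 (C_46 L130929 (C_46 L130907 N_46))))) (by decide +kernel)
theorem L130931 : W_46 (nat_lit 2) (nat_lit 0x50006e0012000800060000000000000000000) (nat_lit 0x0) (nat_lit 0x1000080004000000000000000) := D_46 (nat_lit 79) (nat_lit 62) (nat_lit 96) (nat_lit 6) (nat_lit 10) (nat_lit 7) (nat_lit 6) (nat_lit 10) (nat_lit 8) (by decide +kernel)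
theorem L130932 : W_46 (nat_lit 3) (nat_lit 0x10006e0012000800060000000000000000000) (nat_lit 0x0) (nat_lit 0x4000000000001400080004000000000000000) := T_46 (nat_lit 146) (nat_lit 94) (nat_lit 4) (nat_lit 10) (nat_lit 8) L130931 (by decide +kernel)
theorem L130933 : W_46 (nat_lit 4) (nat_lit 0x10002e0012000800060000000000000000000) (nat_lit 0x0) (nat_lit 0xc000400000001400080004000000000000000) := T_46 (nat_lit 130) (nat_lit 147) (nat_lit 7) (nat_lit 10) (nat_lit 4) L130932 (by decide +kernel)
theorem L130934 : W_46 (nat_lit 5) (nat_lit 0x10002e0012000800040000000000000000000) (nat_lit 0x0) (nat_lit 0xc0004000000014000a0005000000000000000) := T_46 (nat_lit 77) (nat_lit 60) (nat_lit 4) (nat_lit 10) (nat_lit 7) L130933 (by decide +kernel)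
theorem L130935 : W_46 (nat_lit 2) (nat_lit 0x10002e00120008000e0000000000000000000) (nat_lit 0x0) (nat_lit 0x4000000000001400000000000000000000000) := D_46 (nat_lit 146) (nat_lit 96) (nat_lit 94) (nat_lit 6) (nat_lit 10) (nat_lit 8) (nat_lit 4) (nat_lit 10) (nat_lit 8) (by decide +kernel)
theorem L130936 : W_46 (nat_lit 3) (nat_lit 0x10002e00120008000c0000000000000000000) (nat_lit 0x0) (nat_lit 0x4000000000001400020001000000000000000) := T_46 (nat_lit 77) (nat_lit 60) (nat_lit 4) (nat_lit 10) (nat_lit 7) L130935 (by decide +kernel)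
theorem L130937 : W_46 (nat_lit 4) (nat_lit 0x10002e0012000800040000000000000000000) (nat_lit 0x0) (nat_lit 0x40000000000014000a0005000000000000000) := T_46 (nat_lit 79) (nat_lit 62) (nat_lit 6) (nat_lit 10) (nat_lit 7) L130936 (by decide +kernel)
theorem L130938 : W_46 (nat_lit 2) (nat_lit 0x50006e0012000c000c0002000000000000000) (nat_lit 0x0) (nat_lit 0x80000000000008000000000000000100000000000) := D_46 (nat_lit 111) (nat_lit 163) (nat_lit 44) (nat_lit 4) (nat_lit 10) (nat_lit 9) (nat_lit 5) (nat_lit 10) (nat_lit 2) (by decide +kernel)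
theorem L130939 : W_46 (nat_lit 3) (nat_lit 0x50006e00120008000c0002000000000000000) (nat_lit 0x0) (nat_lit 0x80000000000008000400020000000100000000000) := T_46 (nat_lit 94) (nat_lit 77) (nat_lit 4) (nat_lit 10) (nat_lit 8) L130938 (by decide +kernel)
theorem L130940 : W_46 (nat_lit 4) (nat_lit 0x10006e00120008000c0002000000000000000) (nat_lit 0x0) (nat_lit 0x80004000000008001400020000000100000000000) := T_46 (nat_lit 146) (nat_lit 96) (nat_lit 6) (nat_lit 10) (nat_lit 8) L130939 (by decide +kernel)
theorem L130941 : W_46 (nat_lit 5) (nat_lit 0x10006e00120008000c0000000000000000000) (nat_lit 0x0) (nat_lit 0x80004000000028001400020002000100000000000) := T_46 (nat_lit 61) (nat_lit 113) (nat_lit 7) (nat_lit 10) (nat_lit 3) L130940 (by decide +kernel)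
theorem L130942 : W_46 (nat_lit 6) (nat_lit 0x10002e00120008000c0000000000000000000) (nat_lit 0x0) (nat_lit 0x8000c000400028001400020002000100000000000) := T_46 (nat_lit 130) (nat_lit 147) (nat_lit 7) (nat_lit 10) (nat_lit 4) L130941 (by decide +kernel)
theorem L130943 : W_46 (nat_lit 7) (nat_lit 0x10002e0012000800040000000000000000000) (nat_lit 0x0) (nat_lit 0x8000c0004000280014000a0006000100000000000) := T_46 (nat_lit 79) (nat_lit 62) (nat_lit 6) (nat_lit 10) (nat_lit 7) L130942 (by decide +kernel)
theorem L130944 : W_46 (nat_lit 2) (nat_lit 0x10006e0012000c00068016000000000000000) (nat_lit 0x0) (nat_lit 0x8000000000000000100008000000) := D_46 (nat_lit 44) (nat_lit 27) (nat_lit 111) (nat_lit 5) (nat_lit 10) (nat_lit 1) (nat_lit 5) (nat_lit 10) (nat_lit 2) (by decide +kernel)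
theorem L130945 : W_46 (nat_lit 3) (nat_lit 0x10006e0012000800068016000000000000000) (nat_lit 0x0) (nat_lit 0x4000000008000400000000000100008000000) := T_46 (nat_lit 94) (nat_lit 146) (nat_lit 4) (nat_lit 10) (nat_lit 8) L130944 (by decide +kernel)
theorem L130946 : W_46 (nat_lit 4) (nat_lit 0x10006e0012000800068006000000000000000) (nat_lit 0x0) (nat_lit 0x4000000008000400000018000100008000000) := T_46 (nat_lit 64) (nat_lit 63) (nat_lit 1) (nat_lit 13) (nat_lit 3) L130945 (by decide +kernel)
theorem L130947 : W_46 (nat_lit 5) (nat_lit 0x10006e0012000800060006000000000000000) (nat_lit 0x0) (nat_lit 0x4000000008000400018018000100008000000) := T_46 (nat_lit 75) (nat_lit 76) (nat_lit 2) (nat_lit 7) (nat_lit 4) L130946 (by decide +kernel)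
theorem L130948 : W_46 (nat_lit 6) (nat_lit 0x10006e0012000800060002000000000000000) (nat_lit 0x0) (nat_lit 0x400000000800040001801c000300008000000) := T_46 (nat_lit 62) (nat_lit 45) (nat_lit 6) (nat_lit 10) (nat_lit 6) L130947 (by decide +kernel)
theorem L130949 : W_46 (nat_lit 7) (nat_lit 0x10006e0012000800060000000000000000000) (nat_lit 0x0) (nat_lit 0x400000002800040001801e000300008000000) := T_46 (nat_lit 61) (nat_lit 113) (nat_lit 7) (nat_lit 10) (nat_lit 3) L130948 (by decide +kernel)
theorem L130950 : W_46 (nat_lit 8) (nat_lit 0x10002e0012000800060000000000000000000) (nat_lit 0x0) (nat_lit 0xc00040002800040001801e000300008000000) := T_46 (nat_lit 130) (nat_lit 147) (nat_lit 7) (nat_lit 10) (nat_lit 4) L130949 (by decide +kernel)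
theorem L130951 : W_46 (nat_lit 9) (nat_lit 0x10002e0012000800040000000000000000000) (nat_lit 0x0) (nat_lit 0xc00040002800040003801f000300008000000) := T_46 (nat_lit 77) (nat_lit 60) (nat_lit 4) (nat_lit 10) (nat_lit 7) L130950 (by decide +kernel)
theorem L130952 : W_46 (nat_lit 2) (nat_lit 0x10006e0012001c001c0003400000000000000) (nat_lit 0x0) (nat_lit 0x8000000000000000100008000000) := D_46 (nat_lit 44) (nat_lit 27) (nat_lit 111) (nat_lit 7) (nat_lit 10) (nat_lit 1) (nat_lit 5) (nat_lit 10) (nat_lit 2) (by decide +kernel)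
theorem L130953 : W_46 (nat_lit 3) (nat_lit 0x10006e00120018001c0003400000000000000) (nat_lit 0x0) (nat_lit 0x8000600000000000100008000000) := T_46 (nat_lit 94) (nat_lit 93) (nat_lit 2) (nat_lit 8) (nat_lit 5) L130952 (by decide +kernel)
theorem L130954 : W_46 (nat_lit 4) (nat_lit 0x10006e00120008001c0003400000000000000) (nat_lit 0x0) (nat_lit 0x4000000008001600000000000100008000000) := T_46 (nat_lit 96) (nat_lit 146) (nat_lit 6) (nat_lit 10) (nat_lit 8) L130953 (by decide +kernel)
theorem L130955 : W_46 (nat_lit 5) (nat_lit 0x10006e00120008000c0003400000000000000) (nat_lit 0x0) (nat_lit 0x4000000008001600300000000100008000000) := T_46 (nat_lit 80) (nat_lit 81) (nat_lit 0) (nat_lit 13) (nat_lit 4) L130954 (by decide +kernel)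
theorem L130956 : W_46 (nat_lit 6) (nat_lit 0x10006e00120008000c0003000000000000000) (nat_lit 0x0) (nat_lit 0x4000000008001600300000c00100008000000) := T_46 (nat_lit 58) (nat_lit 59) (nat_lit 3) (nat_lit 7) (nat_lit 3) L130955 (by decide +kernel)
theorem L130957 : W_46 (nat_lit 7) (nat_lit 0x10006e00120008000c0002000000000000000) (nat_lit 0x0) (nat_lit 0x4000000008001600300001c00180008000000) := T_46 (nat_lit 60) (nat_lit 43) (nat_lit 4) (nat_lit 10) (nat_lit 6) L130956 (by decide +kernel)
theorem L130958 : W_46 (nat_lit 8) (nat_lit 0x10006e00120008000c0000000000000000000) (nat_lit 0x0) (nat_lit 0x4000000028001600300003c00180008000000) := T_46 (nat_lit 61) (nat_lit 113) (nat_lit 7) (nat_lit 10) (nat_lit 3) L130957 (by decide +kernel)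
theorem L130959 : W_46 (nat_lit 9) (nat_lit 0x10002e00120008000c0000000000000000000) (nat_lit 0x0) (nat_lit 0xc000400028001600300003c00180008000000) := T_46 (nat_lit 130) (nat_lit 147) (nat_lit 7) (nat_lit 10) (nat_lit 4) L130958 (by decide +kernel)
theorem L130960 : W_46 (nat_lit 10) (nat_lit 0x10002e0012000800040000000000000000000) (nat_lit 0x0) (nat_lit 0xc000400028001600380007c00180008000000) := T_46 (nat_lit 79) (nat_lit 62) (nat_lit 6) (nat_lit 10) (nat_lit 7) L130959 (by decide +kernel)
theorem L130961 : W_46 (nat_lit 2) (nat_lit 0x10006e0012000c00060002000000000000000) (nat_lit 0x0) (nat_lit 0x8000000000000000100008000000) := D_46 (nat_lit 44) (nat_lit 27) (nat_lit 111) (nat_lit 5) (nat_lit 10) (nat_lit 1) (nat_lit 5) (nat_lit 10) (nat_lit 2) (by decide +kernel)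
theorem L130962 : W_46 (nat_lit 3) (nat_lit 0x10006e0012000800060002000000000000000) (nat_lit 0x0) (nat_lit 0x4000000008000400000000000100008000000) := T_46 (nat_lit 94) (nat_lit 146) (nat_lit 4) (nat_lit 10) (nat_lit 8) L130961 (by decide +kernel)
theorem L130963 : W_46 (nat_lit 4) (nat_lit 0x10006e0012000800060000000000000000000) (nat_lit 0x0) (nat_lit 0x4000000028000400000002000100008000000) := T_46 (nat_lit 61) (nat_lit 113) (nat_lit 7) (nat_lit 10) (nat_lit 3) L130962 (by decide +kernel)
theorem L130964 : W_46 (nat_lit 5) (nat_lit 0x10002e0012000800060000000000000000000) (nat_lit 0x0) (nat_lit 0xc000400028000400000002000100008000000) := T_46 (nat_lit 130) (nat_lit 147) (nat_lit 7) (nat_lit 10) (nat_lit 4) L130963 (by decide +kernel)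
theorem L130965 : W_46 (nat_lit 6) (nat_lit 0x10002e0012000800040000000000000000000) (nat_lit 0x0) (nat_lit 0xc000400028000400020003000100008000000) := T_46 (nat_lit 77) (nat_lit 60) (nat_lit 4) (nat_lit 10) (nat_lit 7) L130964 (by decide +kernel)
theorem L130966 : W_46 (nat_lit 11) (nat_lit 0x10002e0012000800000000000000000000000) (nat_lit 0x0) (nat_lit 0x8000c0004000280016003f801fc00380008000000) := Q_46 (nat_lit 78) (C_46 L130911 (C_46 L130934 (C_46 L130937 (C_46 L130943 (C_46 L130951 (C_46 L130960 (C_46 L130965 N_46))))))) (by decide +kernel)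
theorem L130967 : W_46 (nat_lit 2) (nat_lit 0x10006e0012000c000e8000000000000000000) (nat_lit 0x0) (nat_lit 0x200300000000000000000000) := D_46 (nat_lit 80) (nat_lit 93) (nat_lit 81) (nat_lit 1) (nat_lit 12) (nat_lit 4) (nat_lit 1) (nat_lit 13) (nat_lit 4) (by decide +kernel)
theorem L130968 : W_46 (nat_lit 3) (nat_lit 0x10006e00120008000e8000000000000000000) (nat_lit 0x0) (nat_lit 0x4000000000000600300000000000000000000) := T_46 (nat_lit 94) (nat_lit 146) (nat_lit 4) (nat_lit 10) (nat_lit 8) L130967 (by decide +kernel)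
theorem L130969 : W_46 (nat_lit 4) (nat_lit 0x10006e00120008000c8000000000000000000) (nat_lit 0x0) (nat_lit 0x4000000000000600320001000000000000000) := T_46 (nat_lit 77) (nat_lit 60) (nat_lit 4) (nat_lit 10) (nat_lit 7) L130968 (by decide +kernel)
theorem L130970 : W_46 (nat_lit 5) (nat_lit 0x10006e0012000800048000000000000000000) (nat_lit 0x0) (nat_lit 0x40000000000006003a0005000000000000000) := T_46 (nat_lit 79) (nat_lit 62) (nat_lit 6) (nat_lit 10) (nat_lit 7) L130969 (by decide +kernel)
theorem L130971 : W_46 (nat_lit 6) (nat_lit 0x10002e0012000800048000000000000000000) (nat_lit 0x0) (nat_lit 0xc0004000000006003a0005000000000000000) := T_46 (nat_lit 130) (nat_lit 147) (nat_lit 7) (nat_lit 10) (nat_lit 4) L130970 (by decide +kernel)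
theorem L130972 : W_46 (nat_lit 7) (nat_lit 0x10002e0012000800040000000000000000000) (nat_lit 0x0) (nat_lit 0xc0004000000007003a8005000000000000000) := T_46 (nat_lit 75) (nat_lit 92) (nat_lit 7) (nat_lit 7) (nat_lit 4) L130971 (by decide +kernel)
theorem L130973 : W_46 (nat_lit 2) (nat_lit 0x28000800050006e0012000c002c8000000000000000000) (nat_lit 0x0) (nat_lit 0x50001000000000000000000000000000000000000000000000) := D_46 (nat_lit 180) (nat_lit 196) (nat_lit 198) (nat_lit 5) (nat_lit 10) (nat_lit 7) (nat_lit 7) (nat_lit 10) (nat_lit 7) (by decide +kernel)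
theorem L130974 : W_46 (nat_lit 3) (nat_lit 0x8000800050006e0012000c002c8000000000000000000) (nat_lit 0x0) (nat_lit 0x50003000100000000000000000000000000000000000000000) := T_46 (nat_lit 181) (nat_lit 164) (nat_lit 7) (nat_lit 10) (nat_lit 6) L130973 (by decide +kernel)
theorem L130975 : W_46 (nat_lit 4) (nat_lit 0x800050006e0012000c002c8000000000000000000) (nat_lit 0x0) (nat_lit 0x50003800140000000000000000000000000000000000000000) := T_46 (nat_lit 179) (nat_lit 162) (nat_lit 5) (nat_lit 10) (nat_lit 6) L130974 (by decide +kernel)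
theorem L130976 : W_46 (nat_lit 5) (nat_lit 0x50006e0012000c002c8000000000000000000) (nat_lit 0x0) (nat_lit 0x500038001c0000000000008000000000000000000000000000) := T_46 (nat_lit 163) (nat_lit 111) (nat_lit 4) (nat_lit 10) (nat_lit 9) L130975 (by decide +kernel)
theorem L130977 : W_46 (nat_lit 6) (nat_lit 0x50006e0012000c000c8000000000000000000) (nat_lit 0x0) (nat_lit 0x500038001c0000000000008000000300000000000000000000) := T_46 (nat_lit 81) (nat_lit 80) (nat_lit 1) (nat_lit 13) (nat_lit 4) L130976 (by decide +kernel)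
theorem L130978 : W_46 (nat_lit 7) (nat_lit 0x50006e00120008000c8000000000000000000) (nat_lit 0x0) (nat_lit 0x500038001c0000000000008000400320000000000000000000) := T_46 (nat_lit 94) (nat_lit 77) (nat_lit 4) (nat_lit 10) (nat_lit 8) L130977 (by decide +kernel)
theorem L130979 : W_46 (nat_lit 8) (nat_lit 0x10006e00120008000c8000000000000000000) (nat_lit 0x0) (nat_lit 0x500038001c0004000000008001400320000000000000000000) := T_46 (nat_lit 146) (nat_lit 96) (nat_lit 6) (nat_lit 10) (nat_lit 8) L130978 (by decide +kernel)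
theorem L130980 : W_46 (nat_lit 9) (nat_lit 0x10006e0012000800048000000000000000000) (nat_lit 0x0) (nat_lit 0x500038001c00040000000080014003a0004000000000000000) := T_46 (nat_lit 79) (nat_lit 62) (nat_lit 6) (nat_lit 10) (nat_lit 7) L130979 (by decide +kernel)
theorem L130981 : W_46 (nat_lit 10) (nat_lit 0x10002e0012000800048000000000000000000) (nat_lit 0x0) (nat_lit 0x500038001c000c0004000080014003a0004000000000000000) := T_46 (nat_lit 130) (nat_lit 147) (nat_lit 7) (nat_lit 10) (nat_lit 4) L130980 (by decide +kernel)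
theorem L130982 : W_46 (nat_lit 11) (nat_lit 0x10002e0012000800040000000000000000000) (nat_lit 0x0) (nat_lit 0x500038001c000c0004000080015003a8004000000000000000) := T_46 (nat_lit 75) (nat_lit 92) (nat_lit 7) (nat_lit 7) (nat_lit 4) L130981 (by decide +kernel)
theorem L130983 : W_46 (nat_lit 2) (nat_lit 0x10002e0012000800078000000000000000000) (nat_lit 0x0) (nat_lit 0x4000000000000400004000000000000000000) := D_46 (nat_lit 94) (nat_lit 74) (nat_lit 146) (nat_lit 3) (nat_lit 6) (nat_lit 4) (nat_lit 4) (nat_lit 10) (nat_lit 8) (by decide +kernel)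
theorem L130984 : W_46 (nat_lit 3) (nat_lit 0x10002e0012000800068000000000000000000) (nat_lit 0x0) (nat_lit 0x4000000000001400014000000000000000000) := T_46 (nat_lit 76) (nat_lit 96) (nat_lit 3) (nat_lit 7) (nat_lit 4) L130983 (by decide +kernel)
theorem L130985 : W_46 (nat_lit 4) (nat_lit 0x10002e0012000800060000000000000000000) (nat_lit 0x0) (nat_lit 0x400000000000150001c000000000000000000) := T_46 (nat_lit 75) (nat_lit 92) (nat_lit 7) (nat_lit 7) (nat_lit 4) L130984 (by decide +kernel)
theorem L130986 : W_46 (nat_lit 5) (nat_lit 0x10002e0012000800040000000000000000000) (nat_lit 0x0) (nat_lit 0x400000000000150003c001000000000000000) := T_46 (nat_lit 77) (nat_lit 60) (nat_lit 4) (nat_lit 10) (nat_lit 7) L130985 (by decide +kernel)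
theorem L130987 : W_46 (nat_lit 2) (nat_lit 0x50002e00120008000c8000000000000000000) (nat_lit 0x0) (nat_lit 0x100008000400000000000000000000000000000000) := D_46 (nat_lit 147) (nat_lit 130) (nat_lit 164) (nat_lit 7) (nat_lit 10) (nat_lit 4) (nat_lit 7) (nat_lit 10) (nat_lit 5) (by decide +kernel)
theorem L130988 : W_46 (nat_lit 3) (nat_lit 0x10002e00120008000c8000000000000000000) (nat_lit 0x0) (nat_lit 0x10000c000400000001000000000000000000000000) := T_46 (nat_lit 146) (nat_lit 96) (nat_lit 6) (nat_lit 10) (nat_lit 8) L130987 (by decide +kernel)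
theorem L130989 : W_46 (nat_lit 4) (nat_lit 0x10002e00120008000c0000000000000000000) (nat_lit 0x0) (nat_lit 0x10000c000400000001100008000000000000000000) := T_46 (nat_lit 75) (nat_lit 92) (nat_lit 7) (nat_lit 7) (nat_lit 4) L130988 (by decide +kernel)
theorem L130990 : W_46 (nat_lit 5) (nat_lit 0x10002e0012000800040000000000000000000) (nat_lit 0x0) (nat_lit 0x10000c000400000001100088004000000000000000) := T_46 (nat_lit 79) (nat_lit 62) (nat_lit 6) (nat_lit 10) (nat_lit 7) L130989 (by decide +kernel)
theorem L130991 : W_46 (nat_lit 2) (nat_lit 0x10006e0012000800078000000000000000000) (nat_lit 0x0) (nat_lit 0x80006000000000000000) := D_46 (nat_lit 62) (nat_lit 79) (nat_lit 61) (nat_lit 6) (nat_lit 10) (nat_lit 7) (nat_lit 2) (nat_lit 7) (nat_lit 4) (by decide +kernel)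
theorem L130992 : W_46 (nat_lit 3) (nat_lit 0x10006e0012000800068000000000000000000) (nat_lit 0x0) (nat_lit 0x1000090006000000000000000) := T_46 (nat_lit 76) (nat_lit 96) (nat_lit 3) (nat_lit 7) (nat_lit 4) L130991 (by decide +kernel)
theorem L130993 : W_46 (nat_lit 4) (nat_lit 0x10006e0012000800060000000000000000000) (nat_lit 0x0) (nat_lit 0x1100098006000000000000000) := T_46 (nat_lit 75) (nat_lit 92) (nat_lit 7) (nat_lit 7) (nat_lit 4) L130992 (by decide +kernel)
theorem L130994 : W_46 (nat_lit 5) (nat_lit 0x10006e0012000800040000000000000000000) (nat_lit 0x0) (nat_lit 0x11000b8007000000000000000) := T_46 (nat_lit 77) (nat_lit 60) (nat_lit 4) (nat_lit 10) (nat_lit 7) L130993 (by decide +kernel)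
theorem L130995 : W_46 (nat_lit 6) (nat_lit 0x10002e0012000800040000000000000000000) (nat_lit 0x0) (nat_lit 0x80004000000011000b8007000000000000000) := T_46 (nat_lit 130) (nat_lit 147) (nat_lit 7) (nat_lit 10) (nat_lit 4) L130994 (by decide +kernel)
theorem L130996 : W_46 (nat_lit 12) (nat_lit 0x10002e0012000800000000000000000000000) (nat_lit 0x0) (nat_lit 0x500038001c000c0004000080017003fc007000000000000000) := Q_46 (nat_lit 78) (C_46 L130937 (C_46 L130929 (C_46 L130972 (C_46 L130982 (C_46 L130986 (C_46 L130990 (C_46 L130995 N_46))))))) (by decide +kernel)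
theorem L130997 : W_46 (nat_lit 2) (nat_lit 0x10002e0012000c000e8000000000000000000) (nat_lit 0x0) (nat_lit 0x200300000000000000000000) := D_46 (nat_lit 80) (nat_lit 93) (nat_lit 81) (nat_lit 1) (nat_lit 12) (nat_lit 4) (nat_lit 1) (nat_lit 13) (nat_lit 4) (by decide +kernel)
theorem L130998 : W_46 (nat_lit 3) (nat_lit 0x10002e00120008000e8000000000000000000) (nat_lit 0x0) (nat_lit 0x4000000000000600300000000000000000000) := T_46 (nat_lit 94) (nat_lit 146) (nat_lit 4) (nat_lit 10) (nat_lit 8) L130997 (by decide +kernel)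
theorem L130999 : W_46 (nat_lit 4) (nat_lit 0x10002e00120008000c8000000000000000000) (nat_lit 0x0) (nat_lit 0x4000000000000600320001000000000000000) := T_46 (nat_lit 77) (nat_lit 60) (nat_lit 4) (nat_lit 10) (nat_lit 7) L130998 (by decide +kernel)
theorem L131000 : W_46 (nat_lit 5) (nat_lit 0x10002e0012000800048000000000000000000) (nat_lit 0x0) (nat_lit 0x40000000000006003a0005000000000000000) := T_46 (nat_lit 79) (nat_lit 62) (nat_lit 6) (nat_lit 10) (nat_lit 7) L130999 (by decide +kernel)
theorem L131001 : W_46 (nat_lit 6) (nat_lit 0x10002e0012000800040000000000000000000) (nat_lit 0x0) (nat_lit 0x40000000000007003a8005000000000000000) := T_46 (nat_lit 75) (nat_lit 92) (nat_lit 7) (nat_lit 7) (nat_lit 4) L131000 (by decide +kernel)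
theorem L131002 : W_46 (nat_lit 8) (nat_lit 0x10002e0012000800000000000000000000000) (nat_lit 0x0) (nat_lit 0xc0004000280007003e8007000380008000000) := Q_46 (nat_lit 78) (C_46 L130972 (C_46 L130919 (C_46 L130965 (C_46 L131001 (C_46 L130907 N_46))))) (by decide +kernel)
theorem L131003 : W_46 (nat_lit 2) (nat_lit 0x28000800050002e0012000c002c8000000000000000000) (nat_lit 0x0) (nat_lit 0x50001000000000000000000000000000000000000000000000) := D_46 (nat_lit 180) (nat_lit 196) (nat_lit 198) (nat_lit 5) (nat_lit 10) (nat_lit 7) (nat_lit 7) (nat_lit 10) (nat_lit 7) (by decide +kernel)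
theorem L131004 : W_46 (nat_lit 3) (nat_lit 0x8000800050002e0012000c002c8000000000000000000) (nat_lit 0x0) (nat_lit 0x50003000100000000000000000000000000000000000000000) := T_46 (nat_lit 181) (nat_lit 164) (nat_lit 7) (nat_lit 10) (nat_lit 6) L131003 (by decide +kernel)
theorem L131005 : W_46 (nat_lit 4) (nat_lit 0x800050002e0012000c002c8000000000000000000) (nat_lit 0x0) (nat_lit 0x50003800140000000000000000000000000000000000000000) := T_46 (nat_lit 179) (nat_lit 162) (nat_lit 5) (nat_lit 10) (nat_lit 6) L131004 (by decide +kernel)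
theorem L131006 : W_46 (nat_lit 5) (nat_lit 0x50002e0012000c002c8000000000000000000) (nat_lit 0x0) (nat_lit 0x500038001c0000000000008000000000000000000000000000) := T_46 (nat_lit 163) (nat_lit 111) (nat_lit 4) (nat_lit 10) (nat_lit 9) L131005 (by decide +kernel)
theorem L131007 : W_46 (nat_lit 6) (nat_lit 0x50002e0012000c000c8000000000000000000) (nat_lit 0x0) (nat_lit 0x500038001c0000000000008000000300000000000000000000) := T_46 (nat_lit 81) (nat_lit 80) (nat_lit 1) (nat_lit 13) (nat_lit 4) L131006 (by decide +kernel)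
theorem L131008 : W_46 (nat_lit 7) (nat_lit 0x50002e00120008000c8000000000000000000) (nat_lit 0x0) (nat_lit 0x500038001c0000000000008000400320000000000000000000) := T_46 (nat_lit 94) (nat_lit 77) (nat_lit 4) (nat_lit 10) (nat_lit 8) L131007 (by decide +kernel)
theorem L131009 : W_46 (nat_lit 8) (nat_lit 0x10002e00120008000c8000000000000000000) (nat_lit 0x0) (nat_lit 0x500038001c0004000000008001400320000000000000000000) := T_46 (nat_lit 146) (nat_lit 96) (nat_lit 6) (nat_lit 10) (nat_lit 8) L131008 (by decide +kernel)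
theorem L131010 : W_46 (nat_lit 9) (nat_lit 0x10002e00120008000c0000000000000000000) (nat_lit 0x0) (nat_lit 0x500038001c0004000000008001500328000000000000000000) := T_46 (nat_lit 75) (nat_lit 92) (nat_lit 7) (nat_lit 7) (nat_lit 4) L131009 (by decide +kernel)
theorem L131011 : W_46 (nat_lit 10) (nat_lit 0x10002e0012000800040000000000000000000) (nat_lit 0x0) (nat_lit 0x500038001c00040000000080015003a8004000000000000000) := T_46 (nat_lit 79) (nat_lit 62) (nat_lit 6) (nat_lit 10) (nat_lit 7) L131010 (by decide +kernel)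
theorem L131012 : W_46 (nat_lit 2) (nat_lit 0x28000800050002e0012000d002c0000000000000000000) (nat_lit 0x0) (nat_lit 0x50001000000000000000000000000000000000000000000000) := D_46 (nat_lit 180) (nat_lit 196) (nat_lit 198) (nat_lit 5) (nat_lit 10) (nat_lit 7) (nat_lit 7) (nat_lit 10) (nat_lit 7) (by decide +kernel)
theorem L131013 : W_46 (nat_lit 3) (nat_lit 0x8000800050002e0012000d002c0000000000000000000) (nat_lit 0x0) (nat_lit 0x50003000100000000000000000000000000000000000000000) := T_46 (nat_lit 181) (nat_lit 164) (nat_lit 7) (nat_lit 10) (nat_lit 6) L131012 (by decide +kernel)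
theorem L131014 : W_46 (nat_lit 4) (nat_lit 0x800050002e0012000d002c0000000000000000000) (nat_lit 0x0) (nat_lit 0x50003800140000000000000000000000000000000000000000) := T_46 (nat_lit 179) (nat_lit 162) (nat_lit 5) (nat_lit 10) (nat_lit 6) L131013 (by decide +kernel)
theorem L131015 : W_46 (nat_lit 5) (nat_lit 0x50002e0012000d002c0000000000000000000) (nat_lit 0x0) (nat_lit 0x500038001c0000000000008000000000000000000000000000) := T_46 (nat_lit 163) (nat_lit 111) (nat_lit 4) (nat_lit 10) (nat_lit 9) L131014 (by decide +kernel)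
theorem L131016 : W_46 (nat_lit 6) (nat_lit 0x50002e0012000d000c0000000000000000000) (nat_lit 0x0) (nat_lit 0x500038001c0000000000008000000300000000000000000000) := T_46 (nat_lit 81) (nat_lit 80) (nat_lit 1) (nat_lit 13) (nat_lit 4) L131015 (by decide +kernel)
theorem L131017 : W_46 (nat_lit 7) (nat_lit 0x50002e00120009000c0000000000000000000) (nat_lit 0x0) (nat_lit 0x500038001c0000000000008000600300000000000000000000) := T_46 (nat_lit 94) (nat_lit 93) (nat_lit 2) (nat_lit 7) (nat_lit 5) L131016 (by decide +kernel)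
theorem L131018 : W_46 (nat_lit 8) (nat_lit 0x10002e00120009000c0000000000000000000) (nat_lit 0x0) (nat_lit 0x500038001c0004000000008001600300000000000000000000) := T_46 (nat_lit 146) (nat_lit 96) (nat_lit 6) (nat_lit 10) (nat_lit 8) L131017 (by decide +kernel)
theorem L131019 : W_46 (nat_lit 9) (nat_lit 0x10002e00120008000c0000000000000000000) (nat_lit 0x0) (nat_lit 0x500038001c0004000000008001700308000000000000000000) := T_46 (nat_lit 92) (nat_lit 75) (nat_lit 7) (nat_lit 7) (nat_lit 4) L131018 (by decide +kernel)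
theorem L131020 : W_46 (nat_lit 10) (nat_lit 0x10002e0012000800040000000000000000000) (nat_lit 0x0) (nat_lit 0x500038001c0004000000008001700388004000000000000000) := T_46 (nat_lit 79) (nat_lit 62) (nat_lit 6) (nat_lit 10) (nat_lit 7) L131019 (by decide +kernel)
theorem L131021 : W_46 (nat_lit 2) (nat_lit 0x10002e00120008000f8000000000000000000) (nat_lit 0x0) (nat_lit 0xe00000000000000) := D_46 (nat_lit 58) (nat_lit 57) (nat_lit 59) (nat_lit 0) (nat_lit 10) (nat_lit 4) (nat_lit 0) (nat_lit 11) (nat_lit 4) (by decide +kernel)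
theorem L131022 : W_46 (nat_lit 3) (nat_lit 0x10002e00120008000e8000000000000000000) (nat_lit 0x0) (nat_lit 0x1000010000e00000000000000) := T_46 (nat_lit 76) (nat_lit 96) (nat_lit 3) (nat_lit 7) (nat_lit 4) L131021 (by decide +kernel)
theorem L131023 : W_46 (nat_lit 4) (nat_lit 0x10002e00120008000e0000000000000000000) (nat_lit 0x0) (nat_lit 0x1100018000e00000000000000) := T_46 (nat_lit 75) (nat_lit 92) (nat_lit 7) (nat_lit 7) (nat_lit 4) L131022 (by decide +kernel)
theorem L131024 : W_46 (nat_lit 5) (nat_lit 0x10002e00120008000c0000000000000000000) (nat_lit 0x0) (nat_lit 0x1100038001e00000000000000) := T_46 (nat_lit 77) (nat_lit 60) (nat_lit 4) (nat_lit 10) (nat_lit 7) L131023 (by decide +kernel)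
theorem L131025 : W_46 (nat_lit 6) (nat_lit 0x10002e0012000800040000000000000000000) (nat_lit 0x0) (nat_lit 0x11000b8005e00000000000000) := T_46 (nat_lit 79) (nat_lit 62) (nat_lit 6) (nat_lit 10) (nat_lit 7) L131024 (by decide +kernel)
theorem L131026 : W_46 (nat_lit 11) (nat_lit 0x10002e0012000800000000000000000000000) (nat_lit 0x0) (nat_lit 0x500038001c00040000000080017003fc005e00000000000000) := Q_46 (nat_lit 78) (C_46 L131001 (C_46 L130929 (C_46 L130937 (C_46 L131011 (C_46 L130986 (C_46 L131020 (C_46 L131025 N_46))))))) (by decide +kernel)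
theorem L131027 : W_46 (nat_lit 2) (nat_lit 0x50002e0012001c00000000000000000000000) (nat_lit 0x0) (nat_lit 0x80000000000028000000000000000000000000000) := D_46 (nat_lit 163) (nat_lit 111) (nat_lit 113) (nat_lit 4) (nat_lit 10) (nat_lit 9) (nat_lit 6) (nat_lit 10) (nat_lit 9) (by decide +kernel)
theorem L131028 : W_46 (nat_lit 3) (nat_lit 0x50002e0012000c00000000000000000000000) (nat_lit 0x0) (nat_lit 0x80000000000028001000080000000000000000000) := T_46 (nat_lit 96) (nat_lit 79) (nat_lit 6) (nat_lit 10) (nat_lit 8) L131027 (by decide +kernel)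
theorem L131029 : W_46 (nat_lit 4) (nat_lit 0x50002e0012000800000000000000000000000) (nat_lit 0x0) (nat_lit 0x800000000000280014000a0000000000000000000) := T_46 (nat_lit 94) (nat_lit 77) (nat_lit 4) (nat_lit 10) (nat_lit 8) L131028 (by decide +kernel)
theorem L131030 : W_46 (nat_lit 2) (nat_lit 0x800050002e0012000c00008000000000000000000) (nat_lit 0x0) (nat_lit 0x2000100008000000000000000000000000000000000000) := D_46 (nat_lit 164) (nat_lit 147) (nat_lit 181) (nat_lit 7) (nat_lit 10) (nat_lit 5) (nat_lit 7) (nat_lit 10) (nat_lit 6) (by decide +kernel)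
theorem L131031 : W_46 (nat_lit 3) (nat_lit 0x50002e0012000c00008000000000000000000) (nat_lit 0x0) (nat_lit 0x2000180008000000008000000000000000000000000000) := T_46 (nat_lit 163) (nat_lit 111) (nat_lit 4) (nat_lit 10) (nat_lit 9) L131030 (by decide +kernel)
theorem L131032 : W_46 (nat_lit 4) (nat_lit 0x50002e0012000c00000000000000000000000) (nat_lit 0x0) (nat_lit 0x2000180008000000008000100008000000000000000000) := T_46 (nat_lit 75) (nat_lit 92) (nat_lit 7) (nat_lit 7) (nat_lit 4) L131031 (by decide +kernel)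
theorem L131033 : W_46 (nat_lit 5) (nat_lit 0x50002e0012000800000000000000000000000) (nat_lit 0x0) (nat_lit 0x2000180008000000008000500028000000000000000000) := T_46 (nat_lit 94) (nat_lit 77) (nat_lit 4) (nat_lit 10) (nat_lit 8) L131032 (by decide +kernel)
theorem L131034 : W_46 (nat_lit 7) (nat_lit 0x10002e0012000800000000000000000000000) (nat_lit 0x0) (nat_lit 0x200018000c0004000680017000f8004000000000000000) := Q_46 (nat_lit 146) (C_46 L130892 (C_46 L130879 (C_46 L131029 (C_46 L131033 N_46)))) (by decide +kernel)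
theorem L131035 : W_46 (nat_lit 5) (nat_lit 0x10006e0012000800048006000000000000000) (nat_lit 0x0) (nat_lit 0x4000000008000400030018000100008000000) := T_46 (nat_lit 77) (nat_lit 76) (nat_lit 2) (nat_lit 7) (nat_lit 4) L130946 (by decide +kernel)
theorem L131036 : W_46 (nat_lit 6) (nat_lit 0x10006e0012000800040006000000000000000) (nat_lit 0x0) (nat_lit 0x4000000008000500038018000100008000000) := T_46 (nat_lit 75) (nat_lit 92) (nat_lit 7) (nat_lit 7) (nat_lit 4) L131035 (by decide +kernel)
theorem L131037 : W_46 (nat_lit 7) (nat_lit 0x10006e0012000800040002000000000000000) (nat_lit 0x0) (nat_lit 0x400000000800050003801c000300008000000) := T_46 (nat_lit 62) (nat_lit 45) (nat_lit 6) (nat_lit 10) (nat_lit 6) L131036 (by decide +kernel)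
theorem L131038 : W_46 (nat_lit 8) (nat_lit 0x10006e0012000800040000000000000000000) (nat_lit 0x0) (nat_lit 0x400000002800050003801e000300008000000) := T_46 (nat_lit 61) (nat_lit 113) (nat_lit 7) (nat_lit 10) (nat_lit 3) L131037 (by decide +kernel)
theorem L131039 : W_46 (nat_lit 9) (nat_lit 0x10002e0012000800040000000000000000000) (nat_lit 0x0) (nat_lit 0xc00040002800050003801e000300008000000) := T_46 (nat_lit 130) (nat_lit 147) (nat_lit 7) (nat_lit 10) (nat_lit 4) L131038 (by decide +kernel)
theorem L131040 : W_46 (nat_lit 2) (nat_lit 0x10006e0012000800048007c00000000000000) (nat_lit 0x0) (nat_lit 0x70000000000) := D_46 (nat_lit 41) (nat_lit 40) (nat_lit 42) (nat_lit 0) (nat_lit 10) (nat_lit 3) (nat_lit 0) (nat_lit 11) (nat_lit 3) (by decide +kernel)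
theorem L131041 : W_46 (nat_lit 3) (nat_lit 0x10006e0012000800048007800000000000000) (nat_lit 0x0) (nat_lit 0x4000400070000000000) := T_46 (nat_lit 58) (nat_lit 74) (nat_lit 1) (nat_lit 10) (nat_lit 3) L131040 (by decide +kernel)
theorem L131042 : W_46 (nat_lit 4) (nat_lit 0x10006e0012000800048007000000000000000) (nat_lit 0x0) (nat_lit 0x14000c00070000000000) := T_46 (nat_lit 59) (nat_lit 76) (nat_lit 1) (nat_lit 11) (nat_lit 3) L131041 (by decide +kernel)
theorem L131043 : W_46 (nat_lit 5) (nat_lit 0x10006e0012000800048006000000000000000) (nat_lit 0x0) (nat_lit 0x14001c000f0000000000) := T_46 (nat_lit 60) (nat_lit 43) (nat_lit 4) (nat_lit 10) (nat_lit 6) L131042 (by decide +kernel)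
theorem L131044 : W_46 (nat_lit 6) (nat_lit 0x10006e0012000800048002000000000000000) (nat_lit 0x0) (nat_lit 0x14005c002f0000000000) := T_46 (nat_lit 62) (nat_lit 45) (nat_lit 6) (nat_lit 10) (nat_lit 6) L131043 (by decide +kernel)
theorem L131045 : W_46 (nat_lit 7) (nat_lit 0x10006e0012000800048000000000000000000) (nat_lit 0x0) (nat_lit 0x20000000014007c002f0000000000) := T_46 (nat_lit 61) (nat_lit 113) (nat_lit 7) (nat_lit 10) (nat_lit 3) L131044 (by decide +kernel)
theorem L131046 : W_46 (nat_lit 8) (nat_lit 0x10002e0012000800048000000000000000000) (nat_lit 0x0) (nat_lit 0x8000400020000000014007c002f0000000000) := T_46 (nat_lit 130) (nat_lit 147) (nat_lit 7) (nat_lit 10) (nat_lit 4) L131045 (by decide +kernel)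
theorem L131047 : W_46 (nat_lit 9) (nat_lit 0x10002e0012000800040000000000000000000) (nat_lit 0x0) (nat_lit 0x800040002000010001c007c002f0000000000) := T_46 (nat_lit 75) (nat_lit 92) (nat_lit 7) (nat_lit 7) (nat_lit 4) L131046 (by decide +kernel)
theorem L131048 : W_46 (nat_lit 10) (nat_lit 0x10002e0012000800000000000000000000000) (nat_lit 0x0) (nat_lit 0xc00040002800150007c01fc003f0008000000) := Q_46 (nat_lit 78) (C_46 L130986 (C_46 L130919 (C_46 L130965 (C_46 L131039 (C_46 L131047 N_46))))) (by decide +kernel)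
theorem L131049 : W_46 (nat_lit 2) (nat_lit 0xd0002e0012000800040000000000000000000) (nat_lit 0x0) (nat_lit 0x1000080004000000000000000) := D_46 (nat_lit 79) (nat_lit 62) (nat_lit 96) (nat_lit 6) (nat_lit 10) (nat_lit 7) (nat_lit 6) (nat_lit 10) (nat_lit 8) (by decide +kernel)
theorem L131050 : W_46 (nat_lit 3) (nat_lit 0xd0002e0012000800000000000000000000000) (nat_lit 0x0) (nat_lit 0x4000000010000c0004000000000000000) := T_46 (nat_lit 78) (nat_lit 130) (nat_lit 7) (nat_lit 10) (nat_lit 4) L131049 (by decide +kernel)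
theorem L131051 : W_46 (nat_lit 4) (nat_lit 0x50002e0012000800000000000000000000000) (nat_lit 0x0) (nat_lit 0x1000080004000000010000c0004000000000000000) := T_46 (nat_lit 147) (nat_lit 164) (nat_lit 7) (nat_lit 10) (nat_lit 5) L131050 (by decide +kernel)
theorem L131052 : W_46 (nat_lit 2) (nat_lit 0xd0002e0012000800048007c00000000000000) (nat_lit 0x0) (nat_lit 0x70000000000) := D_46 (nat_lit 41) (nat_lit 40) (nat_lit 42) (nat_lit 0) (nat_lit 10) (nat_lit 3) (nat_lit 0) (nat_lit 11) (nat_lit 3) (by decide +kernel)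
theorem L131053 : W_46 (nat_lit 3) (nat_lit 0xd0002e0012000800048007800000000000000) (nat_lit 0x0) (nat_lit 0x4000400070000000000) := T_46 (nat_lit 58) (nat_lit 74) (nat_lit 1) (nat_lit 10) (nat_lit 3) L131052 (by decide +kernel)
theorem L131054 : W_46 (nat_lit 4) (nat_lit 0xd0002e0012000800048007000000000000000) (nat_lit 0x0) (nat_lit 0x14000c00070000000000) := T_46 (nat_lit 59) (nat_lit 76) (nat_lit 1) (nat_lit 11) (nat_lit 3) L131053 (by decide +kernel)
theorem L131055 : W_46 (nat_lit 5) (nat_lit 0xd0002e0012000800048006000000000000000) (nat_lit 0x0) (nat_lit 0x14001c000f0000000000) := T_46 (nat_lit 60) (nat_lit 43) (nat_lit 4) (nat_lit 10) (nat_lit 6) L131054 (by decide +kernel)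
theorem L131056 : W_46 (nat_lit 6) (nat_lit 0xd0002e0012000800048004000000000000000) (nat_lit 0x0) (nat_lit 0x14003c002f0000000000) := T_46 (nat_lit 61) (nat_lit 45) (nat_lit 6) (nat_lit 10) (nat_lit 6) L131055 (by decide +kernel)
theorem L131057 : W_46 (nat_lit 7) (nat_lit 0xd0002e0012000800048000000000000000000) (nat_lit 0x0) (nat_lit 0x94007c002f0000000000) := T_46 (nat_lit 62) (nat_lit 79) (nat_lit 6) (nat_lit 10) (nat_lit 7) L131056 (by decide +kernel)
theorem L131058 : W_46 (nat_lit 8) (nat_lit 0xd0002e0012000800008000000000000000000) (nat_lit 0x0) (nat_lit 0x4000000000000d4007c002f0000000000) := T_46 (nat_lit 78) (nat_lit 130) (nat_lit 7) (nat_lit 10) (nat_lit 4) L131057 (by decide +kernel)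
theorem L131059 : W_46 (nat_lit 9) (nat_lit 0x50002e0012000800008000000000000000000) (nat_lit 0x0) (nat_lit 0x1000080004000000000000d4007c002f0000000000) := T_46 (nat_lit 147) (nat_lit 164) (nat_lit 7) (nat_lit 10) (nat_lit 5) L131058 (by decide +kernel)
theorem L131060 : W_46 (nat_lit 10) (nat_lit 0x50002e0012000800000000000000000000000) (nat_lit 0x0) (nat_lit 0x1000080004000000001000dc007c002f0000000000) := T_46 (nat_lit 75) (nat_lit 92) (nat_lit 7) (nat_lit 7) (nat_lit 4) L131059 (by decide +kernel)
theorem L131061 : W_46 (nat_lit 2) (nat_lit 0x28000800050002e0012001800008000000000000000000) (nat_lit 0x0) (nat_lit 0x50001000000000000000000000000000000000000000000000) := D_46 (nat_lit 180) (nat_lit 196) (nat_lit 198) (nat_lit 5) (nat_lit 10) (nat_lit 7) (nat_lit 7) (nat_lit 10) (nat_lit 7) (by decide +kernel)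
theorem L131062 : W_46 (nat_lit 3) (nat_lit 0x8000800050002e0012001800008000000000000000000) (nat_lit 0x0) (nat_lit 0x50003000100000000000000000000000000000000000000000) := T_46 (nat_lit 181) (nat_lit 164) (nat_lit 7) (nat_lit 10) (nat_lit 6) L131061 (by decide +kernel)
theorem L131063 : W_46 (nat_lit 4) (nat_lit 0x800050002e0012001800008000000000000000000) (nat_lit 0x0) (nat_lit 0x50003800140000000000000000000000000000000000000000) := T_46 (nat_lit 179) (nat_lit 162) (nat_lit 5) (nat_lit 10) (nat_lit 6) L131062 (by decide +kernel)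
theorem L131064 : W_46 (nat_lit 5) (nat_lit 0x50002e0012001800008000000000000000000) (nat_lit 0x0) (nat_lit 0x500038001c0000000000020000000000000000000000000000) := T_46 (nat_lit 163) (nat_lit 113) (nat_lit 6) (nat_lit 10) (nat_lit 9) L131063 (by decide +kernel)
theorem L131065 : W_46 (nat_lit 6) (nat_lit 0x50002e0012001800000000000000000000000) (nat_lit 0x0) (nat_lit 0x500038001c0000000000020000100008000000000000000000) := T_46 (nat_lit 75) (nat_lit 92) (nat_lit 7) (nat_lit 7) (nat_lit 4) L131064 (by decide +kernel)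
theorem L131066 : W_46 (nat_lit 7) (nat_lit 0x50002e0012000800000000000000000000000) (nat_lit 0x0) (nat_lit 0x500038001c0000000000020001100088000000000000000000) := T_46 (nat_lit 96) (nat_lit 79) (nat_lit 6) (nat_lit 10) (nat_lit 8) L131065 (by decide +kernel)
theorem L131067 : W_46 (nat_lit 2) (nat_lit 0x8001800050002e0032000800008000000000000000000) (nat_lit 0x0) (nat_lit 0x10001000000000000400000000000000000000000000000000) := D_46 (nat_lit 180) (nat_lit 130) (nat_lit 196) (nat_lit 6) (nat_lit 10) (nat_lit 10) (nat_lit 5) (nat_lit 10) (nat_lit 7) (by decide +kernel)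
theorem L131068 : W_46 (nat_lit 3) (nat_lit 0x1800050002e0032000800008000000000000000000) (nat_lit 0x0) (nat_lit 0x10001800040000000400000000000000000000000000000000) := T_46 (nat_lit 179) (nat_lit 162) (nat_lit 5) (nat_lit 10) (nat_lit 6) L131067 (by decide +kernel)
theorem L131069 : W_46 (nat_lit 4) (nat_lit 0x1800050002e0012000800008000000000000000000) (nat_lit 0x0) (nat_lit 0x10001800040000000400020001000000000000000000000000) := T_46 (nat_lit 113) (nat_lit 96) (nat_lit 6) (nat_lit 10) (nat_lit 9) L131068 (by decide +kernel)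
theorem L131070 : W_46 (nat_lit 5) (nat_lit 0x1000050002e0012000800008000000000000000000) (nat_lit 0x0) (nat_lit 0x100038000c0000000400020001000000000000000000000000) := T_46 (nat_lit 163) (nat_lit 181) (nat_lit 7) (nat_lit 10) (nat_lit 6) L131069 (by decide +kernel)
theorem L131071 : W_46 (nat_lit 6) (nat_lit 0x1000050002e0012000800000000000000000000000) (nat_lit 0x0) (nat_lit 0x100038000c0000000400020001100008000000000000000000) := T_46 (nat_lit 75) (nat_lit 92) (nat_lit 7) (nat_lit 7) (nat_lit 4) L131070 (by decide +kernel)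
theorem L131072 : W_46 (nat_lit 7) (nat_lit 0x50002e0012000800000000000000000000000) (nat_lit 0x0) (nat_lit 0x100038001c0008000400020001100008000000000000000000) := T_46 (nat_lit 164) (nat_lit 147) (nat_lit 7) (nat_lit 10) (nat_lit 5) L131071 (by decide +kernel)
theorem L131073 : W_46 (nat_lit 2) (nat_lit 0x50006e0012000d000c0002000000000000000) (nat_lit 0x0) (nat_lit 0x80000000000008000000000000000100000000000) := D_46 (nat_lit 111) (nat_lit 44) (nat_lit 163) (nat_lit 5) (nat_lit 10) (nat_lit 2) (nat_lit 4) (nat_lit 10) (nat_lit 9) (by decide +kernel)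
theorem L131074 : W_46 (nat_lit 3) (nat_lit 0x50006e0012000d000c0000000000000000000) (nat_lit 0x0) (nat_lit 0x80000000000028000000000002000100000000000) := T_46 (nat_lit 61) (nat_lit 113) (nat_lit 7) (nat_lit 10) (nat_lit 3) L131073 (by decide +kernel)
theorem L131075 : W_46 (nat_lit 4) (nat_lit 0x50002e0012000d000c0000000000000000000) (nat_lit 0x0) (nat_lit 0x80008000400028000000000002000100000000000) := T_46 (nat_lit 130) (nat_lit 147) (nat_lit 7) (nat_lit 10) (nat_lit 4) L131074 (by decide +kernel)
theorem L131076 : W_46 (nat_lit 5) (nat_lit 0x50002e00120009000c0000000000000000000) (nat_lit 0x0) (nat_lit 0x80008000400028000600000002000100000000000) := T_46 (nat_lit 94) (nat_lit 93) (nat_lit 2) (nat_lit 7) (nat_lit 5) L131075 (by decide +kernel)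
theorem L131077 : W_46 (nat_lit 6) (nat_lit 0x50002e0012000900080000000000000000000) (nat_lit 0x0) (nat_lit 0x80008000400028000600040006000100000000000) := T_46 (nat_lit 78) (nat_lit 62) (nat_lit 6) (nat_lit 10) (nat_lit 7) L131076 (by decide +kernel)
theorem L131078 : W_46 (nat_lit 7) (nat_lit 0x50002e0012000800080000000000000000000) (nat_lit 0x0) (nat_lit 0x80008000400028000700048006000100000000000) := T_46 (nat_lit 92) (nat_lit 75) (nat_lit 7) (nat_lit 7) (nat_lit 4) L131077 (by decide +kernel)
theorem L131079 : W_46 (nat_lit 8) (nat_lit 0x50002e0012000800000000000000000000000) (nat_lit 0x0) (nat_lit 0x800080004000280017000c8006000100000000000) := T_46 (nat_lit 79) (nat_lit 96) (nat_lit 6) (nat_lit 10) (nat_lit 8) L131078 (by decide +kernel)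
theorem L131080 : W_46 (nat_lit 11) (nat_lit 0x10002e0012000800000000000000000000000) (nat_lit 0x0) (nat_lit 0x500038001c000c0004000280017000dc007c003f0000000000) := Q_46 (nat_lit 146) (C_46 L130879 (C_46 L131051 (C_46 L131060 (C_46 L131066 (C_46 L131072 (C_46 L131079 N_46)))))) (by decide +kernel)
theorem L131081 : W_46 (nat_lit 11) (nat_lit 0x10002e0012000800000000000000000000000) (nat_lit 0x0) (nat_lit 0x8000c0004000280016003e0007c00180008000000) := Q_46 (nat_lit 78) (C_46 L130965 (C_46 L130937 (C_46 L130911 (C_46 L130943 (C_46 L130960 N_46))))) (by decide +kernel)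
theorem L131082 : W_46 (nat_lit 2) (nat_lit 0xd0002e0052003e00208000000000000000000) (nat_lit 0x0) (nat_lit 0x8004000400000000000000000000) := D_46 (nat_lit 98) (nat_lit 111) (nat_lit 82) (nat_lit 1) (nat_lit 13) (nat_lit 5) (nat_lit 2) (nat_lit 10) (nat_lit 5) (by decide +kernel)
theorem L131083 : W_46 (nat_lit 3) (nat_lit 0xd0002e0052003e00008000000000000000000) (nat_lit 0x0) (nat_lit 0x8004000700000000000000000000) := T_46 (nat_lit 81) (nat_lit 80) (nat_lit 2) (nat_lit 9) (nat_lit 5) L131082 (by decide +kernel)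
theorem L131084 : W_46 (nat_lit 4) (nat_lit 0xd0002e0052001e00008000000000000000000) (nat_lit 0x0) (nat_lit 0x88006000700000000000000000000) := T_46 (nat_lit 97) (nat_lit 115) (nat_lit 3) (nat_lit 9) (nat_lit 5) L131083 (by decide +kernel)
theorem L131085 : W_46 (nat_lit 5) (nat_lit 0xd0002e0012001e00008000000000000000000) (nat_lit 0x0) (nat_lit 0xe8006000700000000000000000000) := T_46 (nat_lit 114) (nat_lit 113) (nat_lit 3) (nat_lit 8) (nat_lit 5) L131084 (by decide +kernel)
theorem L131086 : W_46 (nat_lit 6) (nat_lit 0xd0002e0012001c00008000000000000000000) (nat_lit 0x0) (nat_lit 0xe8006200710000000000000000000) := T_46 (nat_lit 93) (nat_lit 76) (nat_lit 0) (nat_lit 11) (nat_lit 5) L131085 (by decide +kernel)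
theorem L131087 : W_46 (nat_lit 7) (nat_lit 0xd0002e0012001800008000000000000000000) (nat_lit 0x0) (nat_lit 0xe8006600730000000000000000000) := T_46 (nat_lit 94) (nat_lit 77) (nat_lit 4) (nat_lit 10) (nat_lit 8) L131086 (by decide +kernel)
theorem L131088 : W_46 (nat_lit 8) (nat_lit 0xd0002e0012000800008000000000000000000) (nat_lit 0x0) (nat_lit 0xe80076007b0000000000000000000) := T_46 (nat_lit 96) (nat_lit 79) (nat_lit 6) (nat_lit 10) (nat_lit 8) L131087 (by decide +kernel)
theorem L131089 : W_46 (nat_lit 9) (nat_lit 0xd0002e0012000800000000000000000000000) (nat_lit 0x0) (nat_lit 0xe80077007b8000000000000000000) := T_46 (nat_lit 75) (nat_lit 92) (nat_lit 7) (nat_lit 7) (nat_lit 4) L131088 (by decide +kernel)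
theorem L131090 : W_46 (nat_lit 10) (nat_lit 0x50002e0012000800000000000000000000000) (nat_lit 0x0) (nat_lit 0x1000080000000e80077007b8000000000000000000) := T_46 (nat_lit 147) (nat_lit 164) (nat_lit 7) (nat_lit 10) (nat_lit 5) L131089 (by decide +kernel)
theorem L131091 : W_46 (nat_lit 11) (nat_lit 0x10002e0012000800000000000000000000000) (nat_lit 0x0) (nat_lit 0x100038001c000c0004000e80077007b8000000000000000000) := Q_46 (nat_lit 146) (C_46 L131072 (C_46 L131029 (C_46 L131033 (C_46 L131090 N_46)))) (by decide +kernel)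
theorem L131092 : W_46 (nat_lit 10) (nat_lit 0x10002e0012000800000000000000000000000) (nat_lit 0x0) (nat_lit 0x80004000200011000fc007e002f0000000000) := Q_46 (nat_lit 78) (C_46 L131047 (C_46 L130911 (C_46 L131025 (C_46 L130907 (C_46 L130919 N_46))))) (by decide +kernel)
theorem L131093 : W_46 (nat_lit 13) (nat_lit 0x10002e0012000000000000000000000000000) (nat_lit 0x0) (nat_lit 0x500038001c000c0004000e8007f007fc01fe003f0008000000) := Q_46 (nat_lit 95) (C_46 L130920 (C_46 L130930 (C_46 L130966 (C_46 L130996 (C_46 L131002 (C_46 L131026 (C_46 L131034 (C_46 L131048 (C_46 L131080 (C_46 L131081 (C_46 L131091 (C_46 L131092 N_46)))))))))))) (by decide +kernel)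
theorem L131094 : W_46 (nat_lit 2) (nat_lit 0x50002e0012000000000000000000000000000) (nat_lit 0x0) (nat_lit 0x8000100008000000000000000000000000000) := D_46 (nat_lit 128) (nat_lit 111) (nat_lit 147) (nat_lit 2) (nat_lit 6) (nat_lit 7) (nat_lit 3) (nat_lit 7) (nat_lit 7) (by decide +kernel)
theorem L131095 : W_46 (nat_lit 2) (nat_lit 0x28000800050002e0012001e00008000000000000000000) (nat_lit 0x0) (nat_lit 0x50001000000000000000000000000000000000000000000000) := D_46 (nat_lit 180) (nat_lit 196) (nat_lit 198) (nat_lit 5) (nat_lit 10) (nat_lit 7) (nat_lit 7) (nat_lit 10) (nat_lit 7) (by decide +kernel)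
theorem L131096 : W_46 (nat_lit 3) (nat_lit 0x8000800050002e0012001e00008000000000000000000) (nat_lit 0x0) (nat_lit 0x50003000100000000000000000000000000000000000000000) := T_46 (nat_lit 181) (nat_lit 164) (nat_lit 7) (nat_lit 10) (nat_lit 6) L131095 (by decide +kernel)
theorem L131097 : W_46 (nat_lit 4) (nat_lit 0x800050002e0012001e00008000000000000000000) (nat_lit 0x0) (nat_lit 0x50003800140000000000000000000000000000000000000000) := T_46 (nat_lit 179) (nat_lit 162) (nat_lit 5) (nat_lit 10) (nat_lit 6) L131096 (by decide +kernel)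
theorem L131098 : W_46 (nat_lit 5) (nat_lit 0x50002e0012001e00008000000000000000000) (nat_lit 0x0) (nat_lit 0x500038001c0000000000008000000000000000000000000000) := T_46 (nat_lit 163) (nat_lit 111) (nat_lit 4) (nat_lit 10) (nat_lit 9) L131097 (by decide +kernel)
theorem L131099 : W_46 (nat_lit 6) (nat_lit 0x50002e0012001c00008000000000000000000) (nat_lit 0x0) (nat_lit 0x500038001c0000000000008000200010000000000000000000) := T_46 (nat_lit 93) (nat_lit 76) (nat_lit 0) (nat_lit 11) (nat_lit 5) L131098 (by decide +kernel)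
theorem L131100 : W_46 (nat_lit 7) (nat_lit 0x50002e0012001800008000000000000000000) (nat_lit 0x0) (nat_lit 0x500038001c0000000000008000600030000000000000000000) := T_46 (nat_lit 94) (nat_lit 77) (nat_lit 4) (nat_lit 10) (nat_lit 8) L131099 (by decide +kernel)
theorem L131101 : W_46 (nat_lit 8) (nat_lit 0x50002e0012000800008000000000000000000) (nat_lit 0x0) (nat_lit 0x500038001c00000000000080016000b0000000000000000000) := T_46 (nat_lit 96) (nat_lit 79) (nat_lit 6) (nat_lit 10) (nat_lit 8) L131100 (by decide +kernel)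
theorem L131102 : W_46 (nat_lit 9) (nat_lit 0x50002e0012000800000000000000000000000) (nat_lit 0x0) (nat_lit 0x500038001c00000000000080017000b8000000000000000000) := T_46 (nat_lit 75) (nat_lit 92) (nat_lit 7) (nat_lit 7) (nat_lit 4) L131101 (by decide +kernel)
theorem L131103 : W_46 (nat_lit 2) (nat_lit 0x800050002e0012000d00080000000000000000000) (nat_lit 0x0) (nat_lit 0x200040004000000000000000) := D_46 (nat_lit 78) (nat_lit 62) (nat_lit 93) (nat_lit 6) (nat_lit 10) (nat_lit 7) (nat_lit 2) (nat_lit 7) (nat_lit 5) (by decide +kernel)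
theorem L131104 : W_46 (nat_lit 3) (nat_lit 0x800050002e0012000d00000000000000000000000) (nat_lit 0x0) (nat_lit 0x12000c0004000000000000000) := T_46 (nat_lit 79) (nat_lit 96) (nat_lit 6) (nat_lit 10) (nat_lit 8) L131103 (by decide +kernel)
theorem L131105 : W_46 (nat_lit 4) (nat_lit 0x50002e0012000d00000000000000000000000) (nat_lit 0x0) (nat_lit 0x800000000000080012000c0004000000000000000) := T_46 (nat_lit 163) (nat_lit 111) (nat_lit 4) (nat_lit 10) (nat_lit 9) L131104 (by decide +kernel)
theorem L131106 : W_46 (nat_lit 5) (nat_lit 0x50002e0012000c00000000000000000000000) (nat_lit 0x0) (nat_lit 0x800000000000080013000c8004000000000000000) := T_46 (nat_lit 92) (nat_lit 75) (nat_lit 7) (nat_lit 7) (nat_lit 4) L131105 (by decide +kernel)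
theorem L131107 : W_46 (nat_lit 6) (nat_lit 0x50002e0012000800000000000000000000000) (nat_lit 0x0) (nat_lit 0x800000000000080017000e8004000000000000000) := T_46 (nat_lit 94) (nat_lit 77) (nat_lit 4) (nat_lit 10) (nat_lit 8) L131106 (by decide +kernel)
theorem L131108 : W_46 (nat_lit 11) (nat_lit 0x50002e0012000000000000000000000000000) (nat_lit 0x0) (nat_lit 0x500038001c0008000400008001f000fc007c002f0000000000) := Q_46 (nat_lit 95) (C_46 L131060 (C_46 L131051 (C_46 L131102 (C_46 L131033 (C_46 L131107 N_46))))) (by decide +kernel)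
theorem L131109 : W_46 (nat_lit 2) (nat_lit 0x28000800050002e001a000000008000000000000000000) (nat_lit 0x0) (nat_lit 0x50001000000000000000000000000000000000000000000000) := D_46 (nat_lit 180) (nat_lit 196) (nat_lit 198) (nat_lit 5) (nat_lit 10) (nat_lit 7) (nat_lit 7) (nat_lit 10) (nat_lit 7) (by decide +kernel)
theorem L131110 : W_46 (nat_lit 3) (nat_lit 0x8000800050002e001a000000008000000000000000000) (nat_lit 0x0) (nat_lit 0x50003000100000000000000000000000000000000000000000) := T_46 (nat_lit 181) (nat_lit 164) (nat_lit 7) (nat_lit 10) (nat_lit 6) L131109 (by decide +kernel)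
theorem L131111 : W_46 (nat_lit 4) (nat_lit 0x800050002e001a000000008000000000000000000) (nat_lit 0x0) (nat_lit 0x50003800140000000000000000000000000000000000000000) := T_46 (nat_lit 179) (nat_lit 162) (nat_lit 5) (nat_lit 10) (nat_lit 6) L131110 (by decide +kernel)
theorem L131112 : W_46 (nat_lit 5) (nat_lit 0x50002e001a000000008000000000000000000) (nat_lit 0x0) (nat_lit 0x500038001c0000000000000000400000000000000000000000) := T_46 (nat_lit 163) (nat_lit 94) (nat_lit 4) (nat_lit 10) (nat_lit 9) L131111 (by decide +kernel)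
theorem L131113 : W_46 (nat_lit 6) (nat_lit 0x50002e0012000000008000000000000000000) (nat_lit 0x0) (nat_lit 0x500038001c0000000100008000400000000000000000000000) := T_46 (nat_lit 111) (nat_lit 128) (nat_lit 2) (nat_lit 6) (nat_lit 7) L131112 (by decide +kernel)
theorem L131114 : W_46 (nat_lit 7) (nat_lit 0x50002e0012000000000000000000000000000) (nat_lit 0x0) (nat_lit 0x500038001c0000000100008000500008000000000000000000) := T_46 (nat_lit 75) (nat_lit 92) (nat_lit 7) (nat_lit 7) (nat_lit 4) L131113 (by decide +kernel)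
theorem L131115 : W_46 (nat_lit 12) (nat_lit 0x10002e0012000000000000000000000000000) (nat_lit 0x0) (nat_lit 0x500038001c000c000500008001f000fc007c002f0000000000) := Q_46 (nat_lit 146) (C_46 L130896 (C_46 L131094 (C_46 L131108 (C_46 L131114 N_46)))) (by decide +kernel)
theorem L131116 : W_46 (nat_lit 14) (nat_lit 0x10000e0012000000000000000000000000000) (nat_lit 0x0) (nat_lit 0x500038001c000c0007000e8007f007fc01fe003f0008000000) := Q_46 (nat_lit 129) (C_46 L130874 (C_46 L130903 (C_46 L131093 (C_46 L131115 N_46)))) (by decide +kernel)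
theorem L131117 : W_46 (nat_lit 3) (nat_lit 0x10003e0012000000008000000000000000000) (nat_lit 0x0) (nat_lit 0x1c000400004000000000000000000000000000) := T_46 (nat_lit 130) (nat_lit 110) (nat_lit 0) (nat_lit 11) (nat_lit 7) L125737 (by decide +kernel)
theorem L131118 : W_46 (nat_lit 4) (nat_lit 0x10002e0012000000008000000000000000000) (nat_lit 0x0) (nat_lit 0x1c000500024000000000000000000000000000) := T_46 (nat_lit 128) (nat_lit 113) (nat_lit 2) (nat_lit 7) (nat_lit 7) L131117 (by decide +kernel)
theorem L131119 : W_46 (nat_lit 5) (nat_lit 0x10002e0012000000000000000000000000000) (nat_lit 0x0) (nat_lit 0x1c000500024000100008000000000000000000) := T_46 (nat_lit 75) (nat_lit 92) (nat_lit 7) (nat_lit 7) (nat_lit 4) L131118 (by decide +kernel)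
theorem L131120 : W_46 (nat_lit 2) (nat_lit 0x10006e0012000800040002000000000000000) (nat_lit 0x0) (nat_lit 0x80004000200000000000) := D_46 (nat_lit 62) (nat_lit 45) (nat_lit 79) (nat_lit 6) (nat_lit 10) (nat_lit 6) (nat_lit 6) (nat_lit 10) (nat_lit 7) (by decide +kernel)
theorem L131121 : W_46 (nat_lit 3) (nat_lit 0x10006e0012000800040000000000000000000) (nat_lit 0x0) (nat_lit 0x20000000080006000200000000000) := T_46 (nat_lit 61) (nat_lit 113) (nat_lit 7) (nat_lit 10) (nat_lit 3) L131120 (by decide +kernel)
theorem L131122 : W_46 (nat_lit 4) (nat_lit 0x10002e0012000800040000000000000000000) (nat_lit 0x0) (nat_lit 0x8000400020000000080006000200000000000) := T_46 (nat_lit 130) (nat_lit 147) (nat_lit 7) (nat_lit 10) (nat_lit 4) L131121 (by decide +kernel)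
theorem L131123 : W_46 (nat_lit 2) (nat_lit 0x10006e0012000c00060002000200000000000) (nat_lit 0x0) (nat_lit 0x100018000000) := D_46 (nat_lit 44) (nat_lit 28) (nat_lit 27) (nat_lit 6) (nat_lit 10) (nat_lit 5) (nat_lit 5) (nat_lit 10) (nat_lit 1) (by decide +kernel)
theorem L131124 : W_46 (nat_lit 3) (nat_lit 0x10006e0012000800060002000200000000000) (nat_lit 0x0) (nat_lit 0x4000000000000400000000000100018000000) := T_46 (nat_lit 94) (nat_lit 146) (nat_lit 4) (nat_lit 10) (nat_lit 8) L131123 (by decide +kernel)
theorem L131125 : W_46 (nat_lit 4) (nat_lit 0x10006e0012000800060002000000000000000) (nat_lit 0x0) (nat_lit 0x4000000000000400000004000300018000000) := T_46 (nat_lit 45) (nat_lit 62) (nat_lit 6) (nat_lit 10) (nat_lit 6) L131124 (by decide +kernel)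
theorem L131126 : W_46 (nat_lit 5) (nat_lit 0x10006e0012000800060000000000000000000) (nat_lit 0x0) (nat_lit 0x4000000020000400000006000300018000000) := T_46 (nat_lit 61) (nat_lit 113) (nat_lit 7) (nat_lit 10) (nat_lit 3) L131125 (by decide +kernel)
theorem L131127 : W_46 (nat_lit 6) (nat_lit 0x10002e0012000800060000000000000000000) (nat_lit 0x0) (nat_lit 0xc000400020000400000006000300018000000) := T_46 (nat_lit 130) (nat_lit 147) (nat_lit 7) (nat_lit 10) (nat_lit 4) L131126 (by decide +kernel)
theorem L131128 : W_46 (nat_lit 7) (nat_lit 0x10002e0012000800040000000000000000000) (nat_lit 0x0) (nat_lit 0xc000400020000400020007000300018000000) := T_46 (nat_lit 77) (nat_lit 60) (nat_lit 4) (nat_lit 10) (nat_lit 7) L131127 (by decide +kernel)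
theorem L131129 : W_46 (nat_lit 2) (nat_lit 0x50006e0032000800060000000000000000000) (nat_lit 0x0) (nat_lit 0x80000000000000001000080000000000000000000) := D_46 (nat_lit 96) (nat_lit 79) (nat_lit 163) (nat_lit 6) (nat_lit 10) (nat_lit 8) (nat_lit 6) (nat_lit 10) (nat_lit 9) (by decide +kernel)
theorem L131130 : W_46 (nat_lit 3) (nat_lit 0x10006e0032000800060000000000000000000) (nat_lit 0x0) (nat_lit 0x80004000000000001400080000000000000000000) := T_46 (nat_lit 146) (nat_lit 94) (nat_lit 4) (nat_lit 10) (nat_lit 8) L131129 (by decide +kernel)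
theorem L131131 : W_46 (nat_lit 4) (nat_lit 0x10006e0012000800060000000000000000000) (nat_lit 0x0) (nat_lit 0x80004000000020001400080002000000000000000) := T_46 (nat_lit 113) (nat_lit 61) (nat_lit 7) (nat_lit 10) (nat_lit 3) L131130 (by decide +kernel)
theorem L131132 : W_46 (nat_lit 5) (nat_lit 0x10002e0012000800060000000000000000000) (nat_lit 0x0) (nat_lit 0x8000c000400020001400080002000000000000000) := T_46 (nat_lit 130) (nat_lit 147) (nat_lit 7) (nat_lit 10) (nat_lit 4) L131131 (by decide +kernel)
theorem L131133 : W_46 (nat_lit 6) (nat_lit 0x10002e0012000800040000000000000000000) (nat_lit 0x0) (nat_lit 0x8000c0004000200014000a0003000000000000000) := T_46 (nat_lit 77) (nat_lit 60) (nat_lit 4) (nat_lit 10) (nat_lit 7) L131132 (by decide +kernel)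
theorem L131134 : W_46 (nat_lit 8) (nat_lit 0x10002e0012000800000000000000000000000) (nat_lit 0x0) (nat_lit 0x8000c0004000200014000e0007000380018000000) := Q_46 (nat_lit 78) (C_46 L130937 (C_46 L130911 (C_46 L131122 (C_46 L131128 (C_46 L131133 N_46))))) (by decide +kernel)
theorem L131135 : W_46 (nat_lit 7) (nat_lit 0x10002e0012000800000000000000000000000) (nat_lit 0x0) (nat_lit 0x10000c0004000000017003fc005e00000000000000) := Q_46 (nat_lit 78) (C_46 L131025 (C_46 L130937 (C_46 L131001 (C_46 L130990 (C_46 L130986 N_46))))) (by decide +kernel)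
theorem L131136 : W_46 (nat_lit 8) (nat_lit 0x10002e0012000800000000000000000000000) (nat_lit 0x0) (nat_lit 0xc0004000200007003e8007000380018000000) := Q_46 (nat_lit 78) (C_46 L131128 (C_46 L131122 (C_46 L131001 (C_46 L130919 N_46)))) (by decide +kernel)
theorem L131137 : W_46 (nat_lit 2) (nat_lit 0x10002e0012001a000d8000000000000000000) (nat_lit 0x0) (nat_lit 0x4000000000000c00000000000000) := D_46 (nat_lit 110) (nat_lit 59) (nat_lit 58) (nat_lit 5) (nat_lit 8) (nat_lit 3) (nat_lit 4) (nat_lit 8) (nat_lit 7) (by decide +kernel)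
theorem L131138 : W_46 (nat_lit 3) (nat_lit 0x10002e00120018000d8000000000000000000) (nat_lit 0x0) (nat_lit 0x4000600000000c00000000000000) := T_46 (nat_lit 93) (nat_lit 94) (nat_lit 0) (nat_lit 11) (nat_lit 5) L131137 (by decide +kernel)
theorem L131139 : W_46 (nat_lit 4) (nat_lit 0x10002e00120018000c8000000000000000000) (nat_lit 0x0) (nat_lit 0x4000600030000c00000000000000) := T_46 (nat_lit 76) (nat_lit 77) (nat_lit 3) (nat_lit 7) (nat_lit 4) L131138 (by decide +kernel)
theorem L131140 : W_46 (nat_lit 5) (nat_lit 0x10002e00120008000c8000000000000000000) (nat_lit 0x0) (nat_lit 0x4000000004001600030000c00000000000000) := T_46 (nat_lit 96) (nat_lit 146) (nat_lit 6) (nat_lit 10) (nat_lit 8) L131139 (by decide +kernel)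
theorem L131141 : W_46 (nat_lit 6) (nat_lit 0x10002e00120008000c0000000000000000000) (nat_lit 0x0) (nat_lit 0x4000000004001700038000c00000000000000) := T_46 (nat_lit 75) (nat_lit 92) (nat_lit 7) (nat_lit 7) (nat_lit 4) L131140 (by decide +kernel)
theorem L131142 : W_46 (nat_lit 7) (nat_lit 0x10002e0012000800040000000000000000000) (nat_lit 0x0) (nat_lit 0x40000000040017000b8004c00000000000000) := T_46 (nat_lit 79) (nat_lit 62) (nat_lit 6) (nat_lit 10) (nat_lit 7) L131141 (by decide +kernel)
theorem L131143 : W_46 (nat_lit 2) (nat_lit 0x10002e0012000800048007c00000000000000) (nat_lit 0x0) (nat_lit 0x70000000000) := D_46 (nat_lit 41) (nat_lit 40) (nat_lit 42) (nat_lit 0) (nat_lit 10) (nat_lit 3) (nat_lit 0) (nat_lit 11) (nat_lit 3) (by decide +kernel)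
theorem L131144 : W_46 (nat_lit 3) (nat_lit 0x10002e0012000800048007800000000000000) (nat_lit 0x0) (nat_lit 0x4000400070000000000) := T_46 (nat_lit 58) (nat_lit 74) (nat_lit 1) (nat_lit 10) (nat_lit 3) L131143 (by decide +kernel)
theorem L131145 : W_46 (nat_lit 4) (nat_lit 0x10002e0012000800048007000000000000000) (nat_lit 0x0) (nat_lit 0x14000c00070000000000) := T_46 (nat_lit 59) (nat_lit 76) (nat_lit 1) (nat_lit 11) (nat_lit 3) L131144 (by decide +kernel)
theorem L131146 : W_46 (nat_lit 5) (nat_lit 0x10002e0012000800048006000000000000000) (nat_lit 0x0) (nat_lit 0x14001c000f0000000000) := T_46 (nat_lit 60) (nat_lit 43) (nat_lit 4) (nat_lit 10) (nat_lit 6) L131145 (by decide +kernel)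
theorem L131147 : W_46 (nat_lit 6) (nat_lit 0x10002e0012000800048004000000000000000) (nat_lit 0x0) (nat_lit 0x14003c002f0000000000) := T_46 (nat_lit 61) (nat_lit 45) (nat_lit 6) (nat_lit 10) (nat_lit 6) L131146 (by decide +kernel)
theorem L131148 : W_46 (nat_lit 7) (nat_lit 0x10002e0012000800040004000000000000000) (nat_lit 0x0) (nat_lit 0x10001c003c002f0000000000) := T_46 (nat_lit 75) (nat_lit 92) (nat_lit 7) (nat_lit 7) (nat_lit 4) L131147 (by decide +kernel)
theorem L131149 : W_46 (nat_lit 8) (nat_lit 0x10002e0012000800040000000000000000000) (nat_lit 0x0) (nat_lit 0x10009c007c002f0000000000) := T_46 (nat_lit 62) (nat_lit 79) (nat_lit 6) (nat_lit 10) (nat_lit 7) L131148 (by decide +kernel)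
theorem L131150 : W_46 (nat_lit 9) (nat_lit 0x10002e0012000800000000000000000000000) (nat_lit 0x0) (nat_lit 0x40000000040017003fc007e002f0000000000) := Q_46 (nat_lit 78) (C_46 L131025 (C_46 L130937 (C_46 L131001 (C_46 L131142 (C_46 L130986 (C_46 L131149 N_46)))))) (by decide +kernel)
theorem L131151 : W_46 (nat_lit 2) (nat_lit 0xd0002e00120009000c0000000000000000000) (nat_lit 0x0) (nat_lit 0x600020000000000000000000) := D_46 (nat_lit 94) (nat_lit 77) (nat_lit 93) (nat_lit 4) (nat_lit 10) (nat_lit 8) (nat_lit 2) (nat_lit 7) (nat_lit 5) (by decide +kernel)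
theorem L131152 : W_46 (nat_lit 3) (nat_lit 0xd0002e00120008000c0000000000000000000) (nat_lit 0x0) (nat_lit 0x700028000000000000000000) := T_46 (nat_lit 92) (nat_lit 75) (nat_lit 7) (nat_lit 7) (nat_lit 4) L131151 (by decide +kernel)
theorem L131153 : W_46 (nat_lit 4) (nat_lit 0xd0002e0012000800040000000000000000000) (nat_lit 0x0) (nat_lit 0x7000a8004000000000000000) := T_46 (nat_lit 79) (nat_lit 62) (nat_lit 6) (nat_lit 10) (nat_lit 7) L131152 (by decide +kernel)
theorem L131154 : W_46 (nat_lit 5) (nat_lit 0xd0002e0012000800000000000000000000000) (nat_lit 0x0) (nat_lit 0x4000000007000e8004000000000000000) := T_46 (nat_lit 78) (nat_lit 130) (nat_lit 7) (nat_lit 10) (nat_lit 4) L131153 (by decide +kernel)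
theorem L131155 : W_46 (nat_lit 6) (nat_lit 0x50002e0012000800000000000000000000000) (nat_lit 0x0) (nat_lit 0x1000080004000000007000e8004000000000000000) := T_46 (nat_lit 147) (nat_lit 164) (nat_lit 7) (nat_lit 10) (nat_lit 5) L131154 (by decide +kernel)
theorem L131156 : W_46 (nat_lit 8) (nat_lit 0x10002e0012000800000000000000000000000) (nat_lit 0x0) (nat_lit 0x500038001c000c0004000600017000f8004000000000000000) := Q_46 (nat_lit 146) (C_46 L131072 (C_46 L131051 (C_46 L131155 (C_46 L131066 (C_46 L130892 N_46))))) (by decide +kernel)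
theorem L131157 : W_46 (nat_lit 2) (nat_lit 0x50006e00b2000d00040000000000000000000) (nat_lit 0x0) (nat_lit 0x1000080000000000000001000000000000000000000000) := D_46 (nat_lit 163) (nat_lit 96) (nat_lit 180) (nat_lit 6) (nat_lit 10) (nat_lit 9) (nat_lit 6) (nat_lit 10) (nat_lit 10) (by decide +kernel)
theorem L131158 : W_46 (nat_lit 3) (nat_lit 0x10006e00b2000d00040000000000000000000) (nat_lit 0x0) (nat_lit 0x1000080004000000000001000020000000000000000000) := T_46 (nat_lit 146) (nat_lit 77) (nat_lit 4) (nat_lit 10) (nat_lit 8) L131157 (by decide +kernel)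
theorem L131159 : W_46 (nat_lit 4) (nat_lit 0x10006e0032000d00040000000000000000000) (nat_lit 0x0) (nat_lit 0x10000800040000000c0001000020000000000000000000) := T_46 (nat_lit 115) (nat_lit 114) (nat_lit 0) (nat_lit 13) (nat_lit 6) L131158 (by decide +kernel)
theorem L131160 : W_46 (nat_lit 5) (nat_lit 0x10006e0032000900040000000000000000000) (nat_lit 0x0) (nat_lit 0x10000800040000000c0001600020000000000000000000) := T_46 (nat_lit 94) (nat_lit 93) (nat_lit 3) (nat_lit 7) (nat_lit 5) L131159 (by decide +kernel)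
theorem L131161 : W_46 (nat_lit 6) (nat_lit 0x10006e0012000900040000000000000000000) (nat_lit 0x0) (nat_lit 0x10000800040000000e0001600020002000000000000000) := T_46 (nat_lit 113) (nat_lit 61) (nat_lit 7) (nat_lit 10) (nat_lit 3) L131160 (by decide +kernel)
theorem L131162 : W_46 (nat_lit 7) (nat_lit 0x10002e0012000900040000000000000000000) (nat_lit 0x0) (nat_lit 0x100008000c0004000e0001600020002000000000000000) := T_46 (nat_lit 130) (nat_lit 147) (nat_lit 7) (nat_lit 10) (nat_lit 4) L131161 (by decide +kernel)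
theorem L131163 : W_46 (nat_lit 8) (nat_lit 0x10002e0012000800040000000000000000000) (nat_lit 0x0) (nat_lit 0x100008000c0004000e0001700028002000000000000000) := T_46 (nat_lit 92) (nat_lit 75) (nat_lit 7) (nat_lit 7) (nat_lit 4) L131162 (by decide +kernel)
theorem L131164 : W_46 (nat_lit 10) (nat_lit 0x10002e0012000800000000000000000000000) (nat_lit 0x0) (nat_lit 0x100008000c0004000e000170007c007c003f0018000000) := Q_46 (nat_lit 78) (C_46 L131128 (C_46 L131047 (C_46 L130986 (C_46 L131163 N_46)))) (by decide +kernel)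
theorem L131165 : W_46 (nat_lit 2) (nat_lit 0x50006e0012000b000c0003800000000000000) (nat_lit 0x0) (nat_lit 0x4000000010000000040000000000) := D_46 (nat_lit 76) (nat_lit 42) (nat_lit 110) (nat_lit 5) (nat_lit 8) (nat_lit 2) (nat_lit 5) (nat_lit 8) (nat_lit 3) (by decide +kernel)
theorem L131166 : W_46 (nat_lit 3) (nat_lit 0x50006e0012000b000c0003000000000000000) (nat_lit 0x0) (nat_lit 0x4000000010000c00040000000000) := T_46 (nat_lit 59) (nat_lit 58) (nat_lit 3) (nat_lit 7) (nat_lit 3) L131165 (by decide +kernel)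
theorem L131167 : W_46 (nat_lit 4) (nat_lit 0x50006e0012000b000c0002000000000000000) (nat_lit 0x0) (nat_lit 0x4000000010001c000c0000000000) := T_46 (nat_lit 60) (nat_lit 43) (nat_lit 4) (nat_lit 10) (nat_lit 6) L131166 (by decide +kernel)
theorem L131168 : W_46 (nat_lit 5) (nat_lit 0x50006e0012000b000c0000000000000000000) (nat_lit 0x0) (nat_lit 0x24000000010003c000c0000000000) := T_46 (nat_lit 61) (nat_lit 113) (nat_lit 7) (nat_lit 10) (nat_lit 3) L131167 (by decide +kernel)
theorem L131169 : W_46 (nat_lit 6) (nat_lit 0x50002e0012000b000c0000000000000000000) (nat_lit 0x0) (nat_lit 0x8000400024000000010003c000c0000000000) := T_46 (nat_lit 130) (nat_lit 147) (nat_lit 7) (nat_lit 10) (nat_lit 4) L131168 (by decide +kernel)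
theorem L131170 : W_46 (nat_lit 7) (nat_lit 0x50002e00120009000c0000000000000000000) (nat_lit 0x0) (nat_lit 0x8000400024000600010003c000c0000000000) := T_46 (nat_lit 93) (nat_lit 94) (nat_lit 2) (nat_lit 7) (nat_lit 5) L131169 (by decide +kernel)
theorem L131171 : W_46 (nat_lit 8) (nat_lit 0x50002e0012000900080000000000000000000) (nat_lit 0x0) (nat_lit 0x8000400024000600050007c000c0000000000) := T_46 (nat_lit 78) (nat_lit 62) (nat_lit 6) (nat_lit 10) (nat_lit 7) L131170 (by decide +kernel)
theorem L131172 : W_46 (nat_lit 9) (nat_lit 0x50002e0012000800080000000000000000000) (nat_lit 0x0) (nat_lit 0x8000400024000700058007c000c0000000000) := T_46 (nat_lit 92) (nat_lit 75) (nat_lit 7) (nat_lit 7) (nat_lit 4) L131171 (by decide +kernel)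
theorem L131173 : W_46 (nat_lit 10) (nat_lit 0x50002e0012000800000000000000000000000) (nat_lit 0x0) (nat_lit 0x80004000240017000d8007c000c0000000000) := T_46 (nat_lit 79) (nat_lit 96) (nat_lit 6) (nat_lit 10) (nat_lit 8) L131172 (by decide +kernel)
theorem L131174 : W_46 (nat_lit 11) (nat_lit 0x10002e0012000800000000000000000000000) (nat_lit 0x0) (nat_lit 0x500038001c000c0004000240017000dc007c002f0000000000) := Q_46 (nat_lit 146) (C_46 L131072 (C_46 L131051 (C_46 L131060 (C_46 L131066 (C_46 L131173 N_46))))) (by decide +kernel)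
theorem L131175 : W_46 (nat_lit 2) (nat_lit 0xd0002e0012001e00000000000000000000000) (nat_lit 0x0) (nat_lit 0x80000000000060000000000000000000000000000) := D_46 (nat_lit 113) (nat_lit 163) (nat_lit 114) (nat_lit 6) (nat_lit 10) (nat_lit 9) (nat_lit 3) (nat_lit 8) (nat_lit 5) (by decide +kernel)
theorem L131176 : W_46 (nat_lit 3) (nat_lit 0xd0002e0012001c00000000000000000000000) (nat_lit 0x0) (nat_lit 0x80000000000064000200000000000000000000000) := T_46 (nat_lit 93) (nat_lit 110) (nat_lit 1) (nat_lit 11) (nat_lit 5) L131175 (by decide +kernel)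
theorem L131177 : W_46 (nat_lit 4) (nat_lit 0xd0002e0012001800000000000000000000000) (nat_lit 0x0) (nat_lit 0x80000000000064000600020000000000000000000) := T_46 (nat_lit 94) (nat_lit 77) (nat_lit 4) (nat_lit 10) (nat_lit 8) L131176 (by decide +kernel)
theorem L131178 : W_46 (nat_lit 5) (nat_lit 0xd0002e0012000800000000000000000000000) (nat_lit 0x0) (nat_lit 0x800000000000640016000a0000000000000000000) := T_46 (nat_lit 96) (nat_lit 79) (nat_lit 6) (nat_lit 10) (nat_lit 8) L131177 (by decide +kernel)
theorem L131179 : W_46 (nat_lit 6) (nat_lit 0x50002e0012000800000000000000000000000) (nat_lit 0x0) (nat_lit 0x1800080000000640016000a0000000000000000000) := T_46 (nat_lit 147) (nat_lit 164) (nat_lit 7) (nat_lit 10) (nat_lit 5) L131178 (by decide +kernel)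
theorem L131180 : W_46 (nat_lit 2) (nat_lit 0xd0002e0012001c00008000000000000000000) (nat_lit 0x0) (nat_lit 0x4000200010000000000000000000) := D_46 (nat_lit 93) (nat_lit 110) (nat_lit 76) (nat_lit 1) (nat_lit 11) (nat_lit 5) (nat_lit 0) (nat_lit 11) (nat_lit 5) (by decide +kernel)
theorem L131181 : W_46 (nat_lit 3) (nat_lit 0xd0002e0012001800008000000000000000000) (nat_lit 0x0) (nat_lit 0x4000600030000000000000000000) := T_46 (nat_lit 94) (nat_lit 77) (nat_lit 4) (nat_lit 10) (nat_lit 8) L131180 (by decide +kernel)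
theorem L131182 : W_46 (nat_lit 4) (nat_lit 0x50002e0012001800008000000000000000000) (nat_lit 0x0) (nat_lit 0x100008000000004000600030000000000000000000) := T_46 (nat_lit 147) (nat_lit 164) (nat_lit 7) (nat_lit 10) (nat_lit 5) L131181 (by decide +kernel)
theorem L131183 : W_46 (nat_lit 5) (nat_lit 0x50002e0012001800000000000000000000000) (nat_lit 0x0) (nat_lit 0x100008000000004000700038000000000000000000) := T_46 (nat_lit 75) (nat_lit 92) (nat_lit 7) (nat_lit 7) (nat_lit 4) L131182 (by decide +kernel)
theorem L131184 : W_46 (nat_lit 6) (nat_lit 0x50002e0012000800000000000000000000000) (nat_lit 0x0) (nat_lit 0x1000080000000040017000b8000000000000000000) := T_46 (nat_lit 96) (nat_lit 79) (nat_lit 6) (nat_lit 10) (nat_lit 8) L131183 (by decide +kernel)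
theorem L131185 : W_46 (nat_lit 2) (nat_lit 0x10001800050002e0032000d00000000000000000000000) (nat_lit 0x0) (nat_lit 0x10000800040000000000000000000000000000000000000000) := D_46 (nat_lit 179) (nat_lit 196) (nat_lit 162) (nat_lit 5) (nat_lit 10) (nat_lit 7) (nat_lit 5) (nat_lit 10) (nat_lit 6) (by decide +kernel)
theorem L131186 : W_46 (nat_lit 3) (nat_lit 0x1800050002e0032000d00000000000000000000000) (nat_lit 0x0) (nat_lit 0x10001800040000000400000000000000000000000000000000) := T_46 (nat_lit 180) (nat_lit 130) (nat_lit 6) (nat_lit 10) (nat_lit 10) L131185 (by decide +kernel)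
theorem L131187 : W_46 (nat_lit 4) (nat_lit 0x1000050002e0032000d00000000000000000000000) (nat_lit 0x0) (nat_lit 0x100038000c0000000400000000000000000000000000000000) := T_46 (nat_lit 163) (nat_lit 181) (nat_lit 7) (nat_lit 10) (nat_lit 6) L131186 (by decide +kernel)
theorem L131188 : W_46 (nat_lit 5) (nat_lit 0x1000050002e0012000d00000000000000000000000) (nat_lit 0x0) (nat_lit 0x100038000c0000000400020000200000000000000000000000) := T_46 (nat_lit 113) (nat_lit 93) (nat_lit 3) (nat_lit 7) (nat_lit 5) L131187 (by decide +kernel)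
theorem L131189 : W_46 (nat_lit 6) (nat_lit 0x50002e0012000d00000000000000000000000) (nat_lit 0x0) (nat_lit 0x100038001c0008000400020000200000000000000000000000) := T_46 (nat_lit 164) (nat_lit 147) (nat_lit 7) (nat_lit 10) (nat_lit 5) L131188 (by decide +kernel)
theorem L131190 : W_46 (nat_lit 7) (nat_lit 0x50002e0012000c00000000000000000000000) (nat_lit 0x0) (nat_lit 0x100038001c0008000400020000300008000000000000000000) := T_46 (nat_lit 92) (nat_lit 75) (nat_lit 7) (nat_lit 7) (nat_lit 4) L131189 (by decide +kernel)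
theorem L131191 : W_46 (nat_lit 8) (nat_lit 0x50002e0012000800000000000000000000000) (nat_lit 0x0) (nat_lit 0x100038001c0008000400020000700028000000000000000000) := T_46 (nat_lit 94) (nat_lit 77) (nat_lit 4) (nat_lit 10) (nat_lit 8) L131190 (by decide +kernel)
theorem L131192 : W_46 (nat_lit 9) (nat_lit 0x10002e0012000800000000000000000000000) (nat_lit 0x0) (nat_lit 0x500038001c000c0004000640017000b8000000000000000000) := Q_46 (nat_lit 146) (C_46 L131072 (C_46 L131179 (C_46 L131184 (C_46 L131191 (C_46 L131066 (C_46 L130892 N_46)))))) (by decide +kernel)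
theorem L131193 : W_46 (nat_lit 12) (nat_lit 0x10002e0012000000000000000000000000000) (nat_lit 0x0) (nat_lit 0x500038001c000c0004000e4001f003fc007e003f0018000000) := Q_46 (nat_lit 95) (C_46 L131092 (C_46 L131134 (C_46 L131135 (C_46 L131136 (C_46 L131150 (C_46 L131156 (C_46 L131164 (C_46 L131174 (C_46 L131192 N_46))))))))) (by decide +kernel)
theorem L131194 : W_46 (nat_lit 3) (nat_lit 0x10003e0012000000000000000000000000000) (nat_lit 0x0) (nat_lit 0x1c000400004000000000000000000000000000) := T_46 (nat_lit 130) (nat_lit 110) (nat_lit 0) (nat_lit 11) (nat_lit 7) L125733 (by decide +kernel)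
theorem L131195 : W_46 (nat_lit 4) (nat_lit 0x10002e0012000000000000000000000000000) (nat_lit 0x0) (nat_lit 0x1c000500024000000000000000000000000000) := T_46 (nat_lit 128) (nat_lit 113) (nat_lit 2) (nat_lit 7) (nat_lit 7) L131194 (by decide +kernel)
theorem L131196 : W_46 (nat_lit 2) (nat_lit 0x10006e0016000800078000000000000000000) (nat_lit 0x0) (nat_lit 0x200000000600000000000000) := D_46 (nat_lit 58) (nat_lit 57) (nat_lit 93) (nat_lit 0) (nat_lit 10) (nat_lit 4) (nat_lit 4) (nat_lit 8) (nat_lit 7) (by decide +kernel)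
theorem L131197 : W_46 (nat_lit 3) (nat_lit 0x10006e0016000800068000000000000000000) (nat_lit 0x0) (nat_lit 0x1200010000600000000000000) := T_46 (nat_lit 76) (nat_lit 96) (nat_lit 3) (nat_lit 7) (nat_lit 4) L131196 (by decide +kernel)
theorem L131198 : W_46 (nat_lit 4) (nat_lit 0x10006e0016000800048000000000000000000) (nat_lit 0x0) (nat_lit 0x1200030001600000000000000) := T_46 (nat_lit 77) (nat_lit 60) (nat_lit 4) (nat_lit 10) (nat_lit 7) L131197 (by decide +kernel)
theorem L131199 : W_46 (nat_lit 5) (nat_lit 0x10006e0012000800048000000000000000000) (nat_lit 0x0) (nat_lit 0x100004001200030001600000000000000) := T_46 (nat_lit 110) (nat_lit 128) (nat_lit 0) (nat_lit 11) (nat_lit 7) L131198 (by decide +kernel)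
theorem L131200 : W_46 (nat_lit 6) (nat_lit 0x10002e0012000800048000000000000000000) (nat_lit 0x0) (nat_lit 0x8000500004001200030001600000000000000) := T_46 (nat_lit 130) (nat_lit 147) (nat_lit 7) (nat_lit 10) (nat_lit 4) L131199 (by decide +kernel)
theorem L131201 : W_46 (nat_lit 7) (nat_lit 0x10002e0012000800040000000000000000000) (nat_lit 0x0) (nat_lit 0x8000500004001300038001600000000000000) := T_46 (nat_lit 75) (nat_lit 92) (nat_lit 7) (nat_lit 7) (nat_lit 4) L131200 (by decide +kernel)
theorem L131202 : W_46 (nat_lit 2) (nat_lit 0x10007e00120018000e0000000000000000000) (nat_lit 0x0) (nat_lit 0x2000018000000000000000000) := D_46 (nat_lit 76) (nat_lit 97) (nat_lit 75) (nat_lit 3) (nat_lit 8) (nat_lit 4) (nat_lit 3) (nat_lit 7) (nat_lit 4) (by decide +kernel)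
theorem L131203 : W_46 (nat_lit 3) (nat_lit 0x10007e00120008000e0000000000000000000) (nat_lit 0x0) (nat_lit 0x4000000000003000018000000000000000000) := T_46 (nat_lit 96) (nat_lit 146) (nat_lit 6) (nat_lit 10) (nat_lit 8) L131202 (by decide +kernel)
theorem L131204 : W_46 (nat_lit 4) (nat_lit 0x10006e00120008000e0000000000000000000) (nat_lit 0x0) (nat_lit 0x4000100004003000018000000000000000000) := T_46 (nat_lit 128) (nat_lit 110) (nat_lit 0) (nat_lit 11) (nat_lit 7) L131203 (by decide +kernel)
theorem L131205 : W_46 (nat_lit 5) (nat_lit 0x10002e00120008000e0000000000000000000) (nat_lit 0x0) (nat_lit 0xc000500004003000018000000000000000000) := T_46 (nat_lit 130) (nat_lit 147) (nat_lit 7) (nat_lit 10) (nat_lit 4) L131204 (by decide +kernel)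
theorem L131206 : W_46 (nat_lit 6) (nat_lit 0x10002e0012000800060000000000000000000) (nat_lit 0x0) (nat_lit 0xc000500004003000098004000000000000000) := T_46 (nat_lit 79) (nat_lit 62) (nat_lit 6) (nat_lit 10) (nat_lit 7) L131205 (by decide +kernel)
theorem L131207 : W_46 (nat_lit 7) (nat_lit 0x10002e0012000800040000000000000000000) (nat_lit 0x0) (nat_lit 0xc0005000040030000b8005000000000000000) := T_46 (nat_lit 77) (nat_lit 60) (nat_lit 4) (nat_lit 10) (nat_lit 7) L131206 (by decide +kernel)
theorem L131208 : W_46 (nat_lit 2) (nat_lit 0x50002e00120008000e0000000000000000000) (nat_lit 0x0) (nat_lit 0x8000500000000000000000000000000000000) := D_46 (nat_lit 147) (nat_lit 128) (nat_lit 130) (nat_lit 3) (nat_lit 7) (nat_lit 7) (nat_lit 7) (nat_lit 10) (nat_lit 4) (by decide +kernel)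
theorem L131209 : W_46 (nat_lit 3) (nat_lit 0x10002e00120008000e0000000000000000000) (nat_lit 0x0) (nat_lit 0xc000500000001000000000000000000000000) := T_46 (nat_lit 146) (nat_lit 96) (nat_lit 6) (nat_lit 10) (nat_lit 8) L131208 (by decide +kernel)
theorem L131210 : W_46 (nat_lit 4) (nat_lit 0x10002e00120008000c0000000000000000000) (nat_lit 0x0) (nat_lit 0xc000500000001000020001000000000000000) := T_46 (nat_lit 77) (nat_lit 60) (nat_lit 4) (nat_lit 10) (nat_lit 7) L131209 (by decide +kernel)
theorem L131211 : W_46 (nat_lit 5) (nat_lit 0x10002e0012000800040000000000000000000) (nat_lit 0x0) (nat_lit 0xc0005000000010000a0005000000000000000) := T_46 (nat_lit 79) (nat_lit 62) (nat_lit 6) (nat_lit 10) (nat_lit 7) L131210 (by decide +kernel)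
theorem L131212 : W_46 (nat_lit 9) (nat_lit 0x10002e0012000800000000000000000000000) (nat_lit 0x0) (nat_lit 0x10000c0005000040033000fc007e002f0000000000) := Q_46 (nat_lit 78) (C_46 L131201 (C_46 L131149 (C_46 L131207 (C_46 L130990 (C_46 L131211 N_46))))) (by decide +kernel)
theorem L131213 : W_46 (nat_lit 2) (nat_lit 0x50002e0012001800028000000000000000000) (nat_lit 0x0) (nat_lit 0x50001000000000000000) := D_46 (nat_lit 78) (nat_lit 76) (nat_lit 60) (nat_lit 3) (nat_lit 7) (nat_lit 4) (nat_lit 4) (nat_lit 10) (nat_lit 7) (by decide +kernel)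
theorem L131214 : W_46 (nat_lit 3) (nat_lit 0x50002e0012001800020000000000000000000) (nat_lit 0x0) (nat_lit 0x100058001000000000000000) := T_46 (nat_lit 75) (nat_lit 92) (nat_lit 7) (nat_lit 7) (nat_lit 4) L131213 (by decide +kernel)
theorem L131215 : W_46 (nat_lit 4) (nat_lit 0x50002e0012001800000000000000000000000) (nat_lit 0x0) (nat_lit 0x500078001000000000000000) := T_46 (nat_lit 77) (nat_lit 94) (nat_lit 4) (nat_lit 10) (nat_lit 8) L131214 (by decide +kernel)
theorem L131216 : W_46 (nat_lit 5) (nat_lit 0x50002e0012000800000000000000000000000) (nat_lit 0x0) (nat_lit 0x15000f8001000000000000000) := T_46 (nat_lit 96) (nat_lit 79) (nat_lit 6) (nat_lit 10) (nat_lit 8) L131215 (by decide +kernel)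
theorem L131217 : W_46 (nat_lit 2) (nat_lit 0x50002e0012000800000000000000000000000) (nat_lit 0x0) (nat_lit 0x100008000100000000000000000000000000000000) := D_46 (nat_lit 147) (nat_lit 128) (nat_lit 164) (nat_lit 3) (nat_lit 7) (nat_lit 7) (nat_lit 7) (nat_lit 10) (nat_lit 5) (by decide +kernel)
theorem L131218 : W_46 (nat_lit 11) (nat_lit 0x10002e0012000800000000000000000000000) (nat_lit 0x0) (nat_lit 0x10000c0005000000015000fc007c002f0000000000) := Q_46 (nat_lit 146) (C_46 L130887 (C_46 L131060 (C_46 L131051 (C_46 L131216 (C_46 L131217 N_46))))) (by decide +kernel)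
theorem L131219 : W_46 (nat_lit 2) (nat_lit 0x50002e00120008000a0000000000000000000) (nat_lit 0x0) (nat_lit 0x40005000000000000000) := D_46 (nat_lit 78) (nat_lit 62) (nat_lit 60) (nat_lit 6) (nat_lit 10) (nat_lit 7) (nat_lit 4) (nat_lit 10) (nat_lit 7) (by decide +kernel)
theorem L131220 : W_46 (nat_lit 3) (nat_lit 0x50002e0012000800080000000000000000000) (nat_lit 0x0) (nat_lit 0x400060005000000000000000) := T_46 (nat_lit 77) (nat_lit 94) (nat_lit 4) (nat_lit 10) (nat_lit 8) L131219 (by decide +kernel)
theorem L131221 : W_46 (nat_lit 4) (nat_lit 0x50002e0012000800000000000000000000000) (nat_lit 0x0) (nat_lit 0x14000e0005000000000000000) := T_46 (nat_lit 79) (nat_lit 96) (nat_lit 6) (nat_lit 10) (nat_lit 8) L131220 (by decide +kernel)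
theorem L131222 : W_46 (nat_lit 5) (nat_lit 0x10002e0012000800000000000000000000000) (nat_lit 0x0) (nat_lit 0x10000c0005000000014000e0005000000000000000) := Q_46 (nat_lit 146) (C_46 L131217 (C_46 L131051 (C_46 L131221 N_46))) (by decide +kernel)
theorem L131223 : W_46 (nat_lit 2) (nat_lit 0x10007e0012000c000f8000400000000000000) (nat_lit 0x0) (nat_lit 0x200300000000000000000000) := D_46 (nat_lit 80) (nat_lit 93) (nat_lit 81) (nat_lit 1) (nat_lit 12) (nat_lit 4) (nat_lit 1) (nat_lit 13) (nat_lit 4) (by decide +kernel)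
theorem L131224 : W_46 (nat_lit 3) (nat_lit 0x10007e0012000c00078000400000000000000) (nat_lit 0x0) (nat_lit 0x200380000800000000000000) := T_46 (nat_lit 79) (nat_lit 59) (nat_lit 0) (nat_lit 11) (nat_lit 4) L131223 (by decide +kernel)
theorem L131225 : W_46 (nat_lit 4) (nat_lit 0x10007e0012000c00078000000000000000000) (nat_lit 0x0) (nat_lit 0x200380000e00000000000000) := T_46 (nat_lit 58) (nat_lit 57) (nat_lit 0) (nat_lit 10) (nat_lit 4) L131224 (by decide +kernel)
theorem L131226 : W_46 (nat_lit 5) (nat_lit 0x10007e0012000c00068000000000000000000) (nat_lit 0x0) (nat_lit 0x200394000e00000000000000) := T_46 (nat_lit 76) (nat_lit 74) (nat_lit 3) (nat_lit 6) (nat_lit 4) L131225 (by decide +kernel)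
theorem L131227 : W_46 (nat_lit 6) (nat_lit 0x10007e0012000800068000000000000000000) (nat_lit 0x0) (nat_lit 0x4000000000000600394000e00000000000000) := T_46 (nat_lit 94) (nat_lit 146) (nat_lit 4) (nat_lit 10) (nat_lit 8) L131226 (by decide +kernel)
theorem L131228 : W_46 (nat_lit 7) (nat_lit 0x10007e0012000800048000000000000000000) (nat_lit 0x0) (nat_lit 0x40000000000006003b4001e00000000000000) := T_46 (nat_lit 77) (nat_lit 60) (nat_lit 4) (nat_lit 10) (nat_lit 7) L131227 (by decide +kernel)
theorem L131229 : W_46 (nat_lit 8) (nat_lit 0x10006e0012000800048000000000000000000) (nat_lit 0x0) (nat_lit 0x40001000040006003b4001e00000000000000) := T_46 (nat_lit 128) (nat_lit 110) (nat_lit 0) (nat_lit 11) (nat_lit 7) L131228 (by decide +kernel)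
theorem L131230 : W_46 (nat_lit 9) (nat_lit 0x10002e0012000800048000000000000000000) (nat_lit 0x0) (nat_lit 0xc0005000040006003b4001e00000000000000) := T_46 (nat_lit 130) (nat_lit 147) (nat_lit 7) (nat_lit 10) (nat_lit 4) L131229 (by decide +kernel)
theorem L131231 : W_46 (nat_lit 10) (nat_lit 0x10002e0012000800040000000000000000000) (nat_lit 0x0) (nat_lit 0xc0005000040007003bc001e00000000000000) := T_46 (nat_lit 75) (nat_lit 92) (nat_lit 7) (nat_lit 7) (nat_lit 4) L131230 (by decide +kernel)
theorem L131232 : W_46 (nat_lit 3) (nat_lit 0x10002e00120008000e0000000000000000000) (nat_lit 0x0) (nat_lit 0xc000500000000400000000000000000000000) := T_46 (nat_lit 146) (nat_lit 94) (nat_lit 4) (nat_lit 10) (nat_lit 8) L131208 (by decide +kernel)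
theorem L131233 : W_46 (nat_lit 4) (nat_lit 0x10002e0012000800060000000000000000000) (nat_lit 0x0) (nat_lit 0xc000500000000400080004000000000000000) := T_46 (nat_lit 79) (nat_lit 62) (nat_lit 6) (nat_lit 10) (nat_lit 7) L131232 (by decide +kernel)
theorem L131234 : W_46 (nat_lit 5) (nat_lit 0x10002e0012000800040000000000000000000) (nat_lit 0x0) (nat_lit 0xc0005000000004000a0005000000000000000) := T_46 (nat_lit 77) (nat_lit 60) (nat_lit 4) (nat_lit 10) (nat_lit 7) L131233 (by decide +kernel)
theorem L131235 : W_46 (nat_lit 2) (nat_lit 0x90002e00120008000c8000000000000000000) (nat_lit 0x0) (nat_lit 0x100004000100000000000000000000000000000000) := D_46 (nat_lit 146) (nat_lit 128) (nat_lit 164) (nat_lit 3) (nat_lit 7) (nat_lit 7) (nat_lit 7) (nat_lit 10) (nat_lit 5) (by decide +kernel)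
theorem L131236 : W_46 (nat_lit 3) (nat_lit 0x10002e00120008000c8000000000000000000) (nat_lit 0x0) (nat_lit 0x10000c000500000000000000000000000000000000) := T_46 (nat_lit 147) (nat_lit 130) (nat_lit 7) (nat_lit 10) (nat_lit 4) L131235 (by decide +kernel)
theorem L131237 : W_46 (nat_lit 4) (nat_lit 0x10002e0012000800048000000000000000000) (nat_lit 0x0) (nat_lit 0x10000c000500000000000080004000000000000000) := T_46 (nat_lit 79) (nat_lit 62) (nat_lit 6) (nat_lit 10) (nat_lit 7) L131236 (by decide +kernel)
theorem L131238 : W_46 (nat_lit 5) (nat_lit 0x10002e0012000800040000000000000000000) (nat_lit 0x0) (nat_lit 0x10000c000500000000100088004000000000000000) := T_46 (nat_lit 75) (nat_lit 92) (nat_lit 7) (nat_lit 7) (nat_lit 4) L131237 (by decide +kernel)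
theorem L131239 : W_46 (nat_lit 2) (nat_lit 0x10007e0012000800048007c00000000000000) (nat_lit 0x0) (nat_lit 0x70000000000) := D_46 (nat_lit 41) (nat_lit 40) (nat_lit 42) (nat_lit 0) (nat_lit 10) (nat_lit 3) (nat_lit 0) (nat_lit 11) (nat_lit 3) (by decide +kernel)
theorem L131240 : W_46 (nat_lit 3) (nat_lit 0x10007e0012000800048007800000000000000) (nat_lit 0x0) (nat_lit 0x4000400070000000000) := T_46 (nat_lit 58) (nat_lit 74) (nat_lit 1) (nat_lit 10) (nat_lit 3) L131239 (by decide +kernel)
theorem L131241 : W_46 (nat_lit 4) (nat_lit 0x10007e0012000800048007000000000000000) (nat_lit 0x0) (nat_lit 0x14000c00070000000000) := T_46 (nat_lit 59) (nat_lit 76) (nat_lit 1) (nat_lit 11) (nat_lit 3) L131240 (by decide +kernel)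
theorem L131242 : W_46 (nat_lit 5) (nat_lit 0x10007e0012000800048003000000000000000) (nat_lit 0x0) (nat_lit 0x14004c00270000000000) := T_46 (nat_lit 62) (nat_lit 45) (nat_lit 6) (nat_lit 10) (nat_lit 6) L131241 (by decide +kernel)
theorem L131243 : W_46 (nat_lit 6) (nat_lit 0x10007e0012000800048001000000000000000) (nat_lit 0x0) (nat_lit 0x14006c002f0000000000) := T_46 (nat_lit 61) (nat_lit 43) (nat_lit 4) (nat_lit 10) (nat_lit 6) L131242 (by decide +kernel)
theorem L131244 : W_46 (nat_lit 7) (nat_lit 0x10007e0012000800048000000000000000000) (nat_lit 0x0) (nat_lit 0x34007c002f0000000000) := T_46 (nat_lit 60) (nat_lit 77) (nat_lit 4) (nat_lit 10) (nat_lit 7) L131243 (by decide +kernel)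
theorem L131245 : W_46 (nat_lit 8) (nat_lit 0x10007e0012000800040000000000000000000) (nat_lit 0x0) (nat_lit 0x10003c007c002f0000000000) := T_46 (nat_lit 75) (nat_lit 92) (nat_lit 7) (nat_lit 7) (nat_lit 4) L131244 (by decide +kernel)
theorem L131246 : W_46 (nat_lit 9) (nat_lit 0x10006e0012000800040000000000000000000) (nat_lit 0x0) (nat_lit 0x10000400010003c007c002f0000000000) := T_46 (nat_lit 128) (nat_lit 110) (nat_lit 0) (nat_lit 11) (nat_lit 7) L131245 (by decide +kernel)
theorem L131247 : W_46 (nat_lit 10) (nat_lit 0x10002e0012000800040000000000000000000) (nat_lit 0x0) (nat_lit 0x800050000400010003c007c002f0000000000) := T_46 (nat_lit 130) (nat_lit 147) (nat_lit 7) (nat_lit 10) (nat_lit 4) L131246 (by decide +kernel)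
theorem L131248 : W_46 (nat_lit 11) (nat_lit 0x10002e0012000800000000000000000000000) (nat_lit 0x0) (nat_lit 0x10000c0005000040007003fc007e002f0000000000) := Q_46 (nat_lit 78) (C_46 L131231 (C_46 L131149 (C_46 L131234 (C_46 L131238 (C_46 L131247 N_46))))) (by decide +kernel)
theorem L131249 : W_46 (nat_lit 2) (nat_lit 0x50002e0012001c00008000000000000000000) (nat_lit 0x0) (nat_lit 0x4000200010000000000000000000) := D_46 (nat_lit 93) (nat_lit 110) (nat_lit 76) (nat_lit 1) (nat_lit 11) (nat_lit 5) (nat_lit 0) (nat_lit 11) (nat_lit 5) (by decide +kernel)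
theorem L131250 : W_46 (nat_lit 3) (nat_lit 0x50002e0012000c00008000000000000000000) (nat_lit 0x0) (nat_lit 0x4001200090000000000000000000) := T_46 (nat_lit 96) (nat_lit 79) (nat_lit 6) (nat_lit 10) (nat_lit 8) L131249 (by decide +kernel)
theorem L131251 : W_46 (nat_lit 4) (nat_lit 0x50002e0012000800008000000000000000000) (nat_lit 0x0) (nat_lit 0x40016000b0000000000000000000) := T_46 (nat_lit 94) (nat_lit 77) (nat_lit 4) (nat_lit 10) (nat_lit 8) L131250 (by decide +kernel)
theorem L131252 : W_46 (nat_lit 5) (nat_lit 0x50002e0012000800000000000000000000000) (nat_lit 0x0) (nat_lit 0x40017000b8000000000000000000) := T_46 (nat_lit 75) (nat_lit 92) (nat_lit 7) (nat_lit 7) (nat_lit 4) L131251 (by decide +kernel)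
theorem L131253 : W_46 (nat_lit 7) (nat_lit 0x10002e0012000800000000000000000000000) (nat_lit 0x0) (nat_lit 0x10000c0001000040017000b8000000000000000000) := Q_46 (nat_lit 146) (C_46 L131217 (C_46 L131184 (C_46 L131252 N_46))) (by decide +kernel)
theorem L131254 : W_46 (nat_lit 2) (nat_lit 0x90002e0012000800000000000000000000000) (nat_lit 0x0) (nat_lit 0x100004000100000000000000000000000000000000) := D_46 (nat_lit 146) (nat_lit 128) (nat_lit 164) (nat_lit 3) (nat_lit 7) (nat_lit 7) (nat_lit 7) (nat_lit 10) (nat_lit 5) (by decide +kernel)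
theorem L131255 : W_46 (nat_lit 2) (nat_lit 0x90002e0012000800068000000000000000000) (nat_lit 0x0) (nat_lit 0x100004000000000000400000000000000000000000) := D_46 (nat_lit 146) (nat_lit 164) (nat_lit 94) (nat_lit 7) (nat_lit 10) (nat_lit 5) (nat_lit 4) (nat_lit 10) (nat_lit 8) (by decide +kernel)
theorem L131256 : W_46 (nat_lit 3) (nat_lit 0x90002e0012000800048000000000000000000) (nat_lit 0x0) (nat_lit 0x100004000000000000400020001000000000000000) := T_46 (nat_lit 77) (nat_lit 60) (nat_lit 4) (nat_lit 10) (nat_lit 7) L131255 (by decide +kernel)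
theorem L131257 : W_46 (nat_lit 4) (nat_lit 0x90002e0012000800008000000000000000000) (nat_lit 0x0) (nat_lit 0x100004000400000000400060001000000000000000) := T_46 (nat_lit 78) (nat_lit 130) (nat_lit 7) (nat_lit 10) (nat_lit 4) L131256 (by decide +kernel)
theorem L131258 : W_46 (nat_lit 5) (nat_lit 0x90002e0012000800000000000000000000000) (nat_lit 0x0) (nat_lit 0x100004000400000000500068001000000000000000) := T_46 (nat_lit 75) (nat_lit 92) (nat_lit 7) (nat_lit 7) (nat_lit 4) L131257 (by decide +kernel)
theorem L131259 : W_46 (nat_lit 2) (nat_lit 0x90003e0012000800000000000000000000000) (nat_lit 0x0) (nat_lit 0x400004000000040000000000000000000) := D_46 (nat_lit 130) (nat_lit 110) (nat_lit 78) (nat_lit 0) (nat_lit 11) (nat_lit 7) (nat_lit 7) (nat_lit 10) (nat_lit 4) (by decide +kernel)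
theorem L131260 : W_46 (nat_lit 3) (nat_lit 0x90002e0012000800000000000000000000000) (nat_lit 0x0) (nat_lit 0x4000500004000000040000000000000000000) := T_46 (nat_lit 128) (nat_lit 146) (nat_lit 3) (nat_lit 7) (nat_lit 7) L131259 (by decide +kernel)
theorem L131261 : W_46 (nat_lit 2) (nat_lit 0x90002e001200080007c000000000000000000) (nat_lit 0x0) (nat_lit 0x700000000000000) := D_46 (nat_lit 57) (nat_lit 58) (nat_lit 56) (nat_lit 0) (nat_lit 10) (nat_lit 4) (nat_lit 0) (nat_lit 9) (nat_lit 4) (by decide +kernel)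
theorem L131262 : W_46 (nat_lit 3) (nat_lit 0x90002e0012000800078000000000000000000) (nat_lit 0x0) (nat_lit 0x400004000700000000000000) := T_46 (nat_lit 74) (nat_lit 94) (nat_lit 3) (nat_lit 6) (nat_lit 4) L131261 (by decide +kernel)
theorem L131263 : W_46 (nat_lit 4) (nat_lit 0x90002e0012000800068000000000000000000) (nat_lit 0x0) (nat_lit 0x1400014000700000000000000) := T_46 (nat_lit 76) (nat_lit 96) (nat_lit 3) (nat_lit 7) (nat_lit 4) L131262 (by decide +kernel)
theorem L131264 : W_46 (nat_lit 5) (nat_lit 0x90002e0012000800048000000000000000000) (nat_lit 0x0) (nat_lit 0x1400034001700000000000000) := T_46 (nat_lit 77) (nat_lit 60) (nat_lit 4) (nat_lit 10) (nat_lit 7) L131263 (by decide +kernel)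
theorem L131265 : W_46 (nat_lit 6) (nat_lit 0x90002e0012000800008000000000000000000) (nat_lit 0x0) (nat_lit 0x400000001400074001700000000000000) := T_46 (nat_lit 78) (nat_lit 130) (nat_lit 7) (nat_lit 10) (nat_lit 4) L131264 (by decide +kernel)
theorem L131266 : W_46 (nat_lit 7) (nat_lit 0x90002e0012000800000000000000000000000) (nat_lit 0x0) (nat_lit 0x40000000150007c001700000000000000) := T_46 (nat_lit 75) (nat_lit 92) (nat_lit 7) (nat_lit 7) (nat_lit 4) L131265 (by decide +kernel)
theorem L131267 : W_46 (nat_lit 8) (nat_lit 0x10002e0012000800000000000000000000000) (nat_lit 0x0) (nat_lit 0x10000c00050000400150007c001700000000000000) := Q_46 (nat_lit 147) (C_46 L131254 (C_46 L131258 (C_46 L131260 (C_46 L131266 N_46)))) (by decide +kernel)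
theorem L131268 : W_46 (nat_lit 2) (nat_lit 0x90002e00120008000c8000000000000000000) (nat_lit 0x0) (nat_lit 0x100004000000000001000000000000000000000000) := D_46 (nat_lit 146) (nat_lit 164) (nat_lit 96) (nat_lit 7) (nat_lit 10) (nat_lit 5) (nat_lit 6) (nat_lit 10) (nat_lit 8) (by decide +kernel)
theorem L131269 : W_46 (nat_lit 3) (nat_lit 0x90002e0012000800048000000000000000000) (nat_lit 0x0) (nat_lit 0x100004000000000001000080004000000000000000) := T_46 (nat_lit 79) (nat_lit 62) (nat_lit 6) (nat_lit 10) (nat_lit 7) L131268 (by decide +kernel)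
theorem L131270 : W_46 (nat_lit 4) (nat_lit 0x90002e0012000800008000000000000000000) (nat_lit 0x0) (nat_lit 0x1000040004000000010000c0004000000000000000) := T_46 (nat_lit 78) (nat_lit 130) (nat_lit 7) (nat_lit 10) (nat_lit 4) L131269 (by decide +kernel)
theorem L131271 : W_46 (nat_lit 5) (nat_lit 0x90002e0012000800000000000000000000000) (nat_lit 0x0) (nat_lit 0x1000040004000000011000c8004000000000000000) := T_46 (nat_lit 75) (nat_lit 92) (nat_lit 7) (nat_lit 7) (nat_lit 4) L131270 (by decide +kernel)
theorem L131272 : W_46 (nat_lit 2) (nat_lit 0x90002e0012000800048007c00000000000000) (nat_lit 0x0) (nat_lit 0x70000000000) := D_46 (nat_lit 41) (nat_lit 40) (nat_lit 42) (nat_lit 0) (nat_lit 10) (nat_lit 3) (nat_lit 0) (nat_lit 11) (nat_lit 3) (by decide +kernel)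
theorem L131273 : W_46 (nat_lit 3) (nat_lit 0x90002e0012000800048007800000000000000) (nat_lit 0x0) (nat_lit 0x4000400070000000000) := T_46 (nat_lit 58) (nat_lit 74) (nat_lit 1) (nat_lit 10) (nat_lit 3) L131272 (by decide +kernel)
theorem L131274 : W_46 (nat_lit 4) (nat_lit 0x90002e0012000800048007000000000000000) (nat_lit 0x0) (nat_lit 0x14000c00070000000000) := T_46 (nat_lit 59) (nat_lit 76) (nat_lit 1) (nat_lit 11) (nat_lit 3) L131273 (by decide +kernel)
theorem L131275 : W_46 (nat_lit 5) (nat_lit 0x90002e0012000800048006000000000000000) (nat_lit 0x0) (nat_lit 0x14001c000f0000000000) := T_46 (nat_lit 60) (nat_lit 43) (nat_lit 4) (nat_lit 10) (nat_lit 6) L131274 (by decide +kernel)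
theorem L131276 : W_46 (nat_lit 6) (nat_lit 0x90002e0012000800048004000000000000000) (nat_lit 0x0) (nat_lit 0x14003c002f0000000000) := T_46 (nat_lit 61) (nat_lit 45) (nat_lit 6) (nat_lit 10) (nat_lit 6) L131275 (by decide +kernel)
theorem L131277 : W_46 (nat_lit 7) (nat_lit 0x90002e0012000800048000000000000000000) (nat_lit 0x0) (nat_lit 0x94007c002f0000000000) := T_46 (nat_lit 62) (nat_lit 79) (nat_lit 6) (nat_lit 10) (nat_lit 7) L131276 (by decide +kernel)
theorem L131278 : W_46 (nat_lit 8) (nat_lit 0x90002e0012000800008000000000000000000) (nat_lit 0x0) (nat_lit 0x4000000000000d4007c002f0000000000) := T_46 (nat_lit 78) (nat_lit 130) (nat_lit 7) (nat_lit 10) (nat_lit 4) L131277 (by decide +kernel)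
theorem L131279 : W_46 (nat_lit 9) (nat_lit 0x90002e0012000800000000000000000000000) (nat_lit 0x0) (nat_lit 0x4000000001000dc007c002f0000000000) := T_46 (nat_lit 75) (nat_lit 92) (nat_lit 7) (nat_lit 7) (nat_lit 4) L131278 (by decide +kernel)
theorem L131280 : W_46 (nat_lit 10) (nat_lit 0x10002e0012000800000000000000000000000) (nat_lit 0x0) (nat_lit 0x10000c0005000040011000dc007c002f0000000000) := Q_46 (nat_lit 147) (C_46 L131260 (C_46 L131271 (C_46 L131254 (C_46 L131279 N_46)))) (by decide +kernel)
theorem L131281 : W_46 (nat_lit 2) (nat_lit 0x10006e8016000a000f0000000000000000000) (nat_lit 0x0) (nat_lit 0x1000008000400000000000000) := D_46 (nat_lit 75) (nat_lit 58) (nat_lit 96) (nat_lit 4) (nat_lit 8) (nat_lit 7) (nat_lit 3) (nat_lit 7) (nat_lit 4) (by decide +kernel)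
theorem L131282 : W_46 (nat_lit 3) (nat_lit 0x10006e8016000a000e0000000000000000000) (nat_lit 0x0) (nat_lit 0x1000018000c00000000000000) := T_46 (nat_lit 76) (nat_lit 59) (nat_lit 5) (nat_lit 8) (nat_lit 3) L131281 (by decide +kernel)
theorem L131283 : W_46 (nat_lit 4) (nat_lit 0x10006e80160008000e0000000000000000000) (nat_lit 0x0) (nat_lit 0x1600018000c00000000000000) := T_46 (nat_lit 93) (nat_lit 94) (nat_lit 6) (nat_lit 8) (nat_lit 8) L131282 (by decide +kernel)
theorem L131284 : W_46 (nat_lit 5) (nat_lit 0x10006e00160008000e0000000000000000000) (nat_lit 0x0) (nat_lit 0x18000001600018000c00000000000000) := T_46 (nat_lit 123) (nat_lit 124) (nat_lit 2) (nat_lit 4) (nat_lit 7) L131283 (by decide +kernel)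
theorem L131285 : W_46 (nat_lit 6) (nat_lit 0x10006e00160008000c0000000000000000000) (nat_lit 0x0) (nat_lit 0x18000001600038001c00000000000000) := T_46 (nat_lit 77) (nat_lit 60) (nat_lit 4) (nat_lit 10) (nat_lit 7) L131284 (by decide +kernel)
theorem L131286 : W_46 (nat_lit 7) (nat_lit 0x10006e00120008000c0000000000000000000) (nat_lit 0x0) (nat_lit 0x118004001600038001c00000000000000) := T_46 (nat_lit 110) (nat_lit 128) (nat_lit 0) (nat_lit 11) (nat_lit 7) L131285 (by decide +kernel)
theorem L131287 : W_46 (nat_lit 8) (nat_lit 0x10002e00120008000c0000000000000000000) (nat_lit 0x0) (nat_lit 0x8000518004001600038001c00000000000000) := T_46 (nat_lit 130) (nat_lit 147) (nat_lit 7) (nat_lit 10) (nat_lit 4) L131286 (by decide +kernel)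
theorem L131288 : W_46 (nat_lit 9) (nat_lit 0x10002e0012000800040000000000000000000) (nat_lit 0x0) (nat_lit 0x80005180040016000b8005c00000000000000) := T_46 (nat_lit 79) (nat_lit 62) (nat_lit 6) (nat_lit 10) (nat_lit 7) L131287 (by decide +kernel)
theorem L131289 : W_46 (nat_lit 2) (nat_lit 0x10007e0012000800040003000000000000000) (nat_lit 0x0) (nat_lit 0x80004000200000000000) := D_46 (nat_lit 62) (nat_lit 79) (nat_lit 45) (nat_lit 6) (nat_lit 10) (nat_lit 7) (nat_lit 6) (nat_lit 10) (nat_lit 6) (by decide +kernel)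
theorem L131290 : W_46 (nat_lit 3) (nat_lit 0x10007e0012000800040001000000000000000) (nat_lit 0x0) (nat_lit 0x80006000280000000000) := T_46 (nat_lit 61) (nat_lit 43) (nat_lit 4) (nat_lit 10) (nat_lit 6) L131289 (by decide +kernel)
theorem L131291 : W_46 (nat_lit 4) (nat_lit 0x10006e0012000800040001000000000000000) (nat_lit 0x0) (nat_lit 0x100004000000080006000280000000000) := T_46 (nat_lit 128) (nat_lit 110) (nat_lit 0) (nat_lit 11) (nat_lit 7) L131290 (by decide +kernel)
theorem L131292 : W_46 (nat_lit 5) (nat_lit 0x10002e0012000800040001000000000000000) (nat_lit 0x0) (nat_lit 0x8000500004000000080006000280000000000) := T_46 (nat_lit 130) (nat_lit 147) (nat_lit 7) (nat_lit 10) (nat_lit 4) L131291 (by decide +kernel)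
theorem L131293 : W_46 (nat_lit 6) (nat_lit 0x10002e0012000800040000000000000000000) (nat_lit 0x0) (nat_lit 0x80005000040000000a0007000280000000000) := T_46 (nat_lit 60) (nat_lit 77) (nat_lit 4) (nat_lit 10) (nat_lit 7) L131292 (by decide +kernel)
theorem L131294 : W_46 (nat_lit 2) (nat_lit 0x10006e8016000b000c0000000000000000000) (nat_lit 0x0) (nat_lit 0x30000800000000000000) := D_46 (nat_lit 76) (nat_lit 59) (nat_lit 77) (nat_lit 5) (nat_lit 8) (nat_lit 3) (nat_lit 1) (nat_lit 11) (nat_lit 4) (by decide +kernel)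
theorem L131295 : W_46 (nat_lit 3) (nat_lit 0x10006e80160009000c0000000000000000000) (nat_lit 0x0) (nat_lit 0x600030000800000000000000) := T_46 (nat_lit 93) (nat_lit 94) (nat_lit 2) (nat_lit 7) (nat_lit 5) L131294 (by decide +kernel)
theorem L131296 : W_46 (nat_lit 4) (nat_lit 0x10006e00160009000c0000000000000000000) (nat_lit 0x0) (nat_lit 0x18000000600030000800000000000000) := T_46 (nat_lit 123) (nat_lit 124) (nat_lit 2) (nat_lit 4) (nat_lit 7) L131295 (by decide +kernel)
theorem L131297 : W_46 (nat_lit 5) (nat_lit 0x10006e00160008000c0000000000000000000) (nat_lit 0x0) (nat_lit 0x18000000700038000800000000000000) := T_46 (nat_lit 92) (nat_lit 75) (nat_lit 7) (nat_lit 7) (nat_lit 4) L131296 (by decide +kernel)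
theorem L131298 : W_46 (nat_lit 6) (nat_lit 0x10006e00120008000c0000000000000000000) (nat_lit 0x0) (nat_lit 0x118004000700038000800000000000000) := T_46 (nat_lit 110) (nat_lit 128) (nat_lit 0) (nat_lit 11) (nat_lit 7) L131297 (by decide +kernel)
theorem L131299 : W_46 (nat_lit 7) (nat_lit 0x10002e00120008000c0000000000000000000) (nat_lit 0x0) (nat_lit 0x8000518004000700038000800000000000000) := T_46 (nat_lit 130) (nat_lit 147) (nat_lit 7) (nat_lit 10) (nat_lit 4) L131298 (by decide +kernel)
theorem L131300 : W_46 (nat_lit 8) (nat_lit 0x10002e0012000800040000000000000000000) (nat_lit 0x0) (nat_lit 0x80005180040007000b8004800000000000000) := T_46 (nat_lit 79) (nat_lit 62) (nat_lit 6) (nat_lit 10) (nat_lit 7) L131299 (by decide +kernel)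
theorem L131301 : W_46 (nat_lit 11) (nat_lit 0x10002e0012000800000000000000000000000) (nat_lit 0x0) (nat_lit 0x80005180040017000fc007e002f0000000000) := Q_46 (nat_lit 78) (C_46 L131201 (C_46 L131247 (C_46 L131149 (C_46 L131288 (C_46 L131293 (C_46 L131300 N_46)))))) (by decide +kernel)
theorem L131302 : W_46 (nat_lit 12) (nat_lit 0x10002e0012000000000000000000000000000) (nat_lit 0x0) (nat_lit 0x10000c000518004003f003fc007f002f0000000000) := Q_46 (nat_lit 95) (C_46 L131135 (C_46 L131150 (C_46 L131212 (C_46 L131218 (C_46 L131222 (C_46 L131248 (C_46 L131253 (C_46 L131267 (C_46 L131280 (C_46 L131301 N_46)))))))))) (by decide +kernel)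
theorem L131303 : W_46 (nat_lit 2) (nat_lit 0x50002e00b2000d00000000000000000000000) (nat_lit 0x0) (nat_lit 0x80000000000000001000080000000000000000000) := D_46 (nat_lit 96) (nat_lit 79) (nat_lit 163) (nat_lit 6) (nat_lit 10) (nat_lit 8) (nat_lit 6) (nat_lit 10) (nat_lit 9) (by decide +kernel)
theorem L131304 : W_46 (nat_lit 3) (nat_lit 0x10002e00b2000d00000000000000000000000) (nat_lit 0x0) (nat_lit 0x800040000000000010000a0000000000000000000) := T_46 (nat_lit 146) (nat_lit 77) (nat_lit 4) (nat_lit 10) (nat_lit 8) L131303 (by decide +kernel)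
theorem L131305 : W_46 (nat_lit 4) (nat_lit 0x10002e0032000d00000000000000000000000) (nat_lit 0x0) (nat_lit 0x800040000000c00010000a0000000000000000000) := T_46 (nat_lit 115) (nat_lit 114) (nat_lit 0) (nat_lit 13) (nat_lit 6) L131304 (by decide +kernel)
theorem L131306 : W_46 (nat_lit 5) (nat_lit 0x10002e0032000900000000000000000000000) (nat_lit 0x0) (nat_lit 0x800040000000c00016000a0000000000000000000) := T_46 (nat_lit 94) (nat_lit 93) (nat_lit 3) (nat_lit 7) (nat_lit 5) L131305 (by decide +kernel)
theorem L131307 : W_46 (nat_lit 6) (nat_lit 0x10002e0012000900000000000000000000000) (nat_lit 0x0) (nat_lit 0x800040001000e00016000a0000000000000000000) := T_46 (nat_lit 113) (nat_lit 128) (nat_lit 2) (nat_lit 7) (nat_lit 7) L131306 (by decide +kernel)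
theorem L131308 : W_46 (nat_lit 7) (nat_lit 0x10002e0012000800000000000000000000000) (nat_lit 0x0) (nat_lit 0x800040001000e00017000a8000000000000000000) := T_46 (nat_lit 92) (nat_lit 75) (nat_lit 7) (nat_lit 7) (nat_lit 4) L131307 (by decide +kernel)
theorem L131309 : W_46 (nat_lit 2) (nat_lit 0x10003e8016000800078000000000000000000) (nat_lit 0x0) (nat_lit 0x200000000600000000000000) := D_46 (nat_lit 58) (nat_lit 57) (nat_lit 93) (nat_lit 0) (nat_lit 10) (nat_lit 4) (nat_lit 4) (nat_lit 8) (nat_lit 7) (by decide +kernel)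
theorem L131310 : W_46 (nat_lit 3) (nat_lit 0x10003e8016000800068000000000000000000) (nat_lit 0x0) (nat_lit 0x1200010000600000000000000) := T_46 (nat_lit 76) (nat_lit 96) (nat_lit 3) (nat_lit 7) (nat_lit 4) L131309 (by decide +kernel)
theorem L131311 : W_46 (nat_lit 4) (nat_lit 0x10003e8016000800060000000000000000000) (nat_lit 0x0) (nat_lit 0x1300018000600000000000000) := T_46 (nat_lit 75) (nat_lit 92) (nat_lit 7) (nat_lit 7) (nat_lit 4) L131310 (by decide +kernel)
theorem L131312 : W_46 (nat_lit 5) (nat_lit 0x10003e0016000800060000000000000000000) (nat_lit 0x0) (nat_lit 0x18000001300018000600000000000000) := T_46 (nat_lit 123) (nat_lit 124) (nat_lit 2) (nat_lit 4) (nat_lit 7) L131311 (by decide +kernel)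
theorem L131313 : W_46 (nat_lit 6) (nat_lit 0x10003e0016000800040000000000000000000) (nat_lit 0x0) (nat_lit 0x18000001300038001600000000000000) := T_46 (nat_lit 77) (nat_lit 60) (nat_lit 4) (nat_lit 10) (nat_lit 7) L131312 (by decide +kernel)
theorem L131314 : W_46 (nat_lit 7) (nat_lit 0x10003e0012000800040000000000000000000) (nat_lit 0x0) (nat_lit 0x418004001300038001600000000000000) := T_46 (nat_lit 110) (nat_lit 130) (nat_lit 0) (nat_lit 11) (nat_lit 7) L131313 (by decide +kernel)
theorem L131315 : W_46 (nat_lit 8) (nat_lit 0x10002e0012000800040000000000000000000) (nat_lit 0x0) (nat_lit 0x518024001300038001600000000000000) := T_46 (nat_lit 128) (nat_lit 113) (nat_lit 2) (nat_lit 7) (nat_lit 7) L131314 (by decide +kernel)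
theorem L131316 : W_46 (nat_lit 3) (nat_lit 0x10007e00120018000c0000000000000000000) (nat_lit 0x0) (nat_lit 0x2000038001000000000000000) := T_46 (nat_lit 77) (nat_lit 60) (nat_lit 4) (nat_lit 10) (nat_lit 7) L131202 (by decide +kernel)
theorem L131317 : W_46 (nat_lit 4) (nat_lit 0x10007e00120008000c0000000000000000000) (nat_lit 0x0) (nat_lit 0x4000000000003000038001000000000000000) := T_46 (nat_lit 96) (nat_lit 146) (nat_lit 6) (nat_lit 10) (nat_lit 8) L131316 (by decide +kernel)
theorem L131318 : W_46 (nat_lit 5) (nat_lit 0x10003e00120008000c0000000000000000000) (nat_lit 0x0) (nat_lit 0x4000400004003000038001000000000000000) := T_46 (nat_lit 130) (nat_lit 110) (nat_lit 0) (nat_lit 11) (nat_lit 7) L131317 (by decide +kernel)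
theorem L131319 : W_46 (nat_lit 6) (nat_lit 0x10002e00120008000c0000000000000000000) (nat_lit 0x0) (nat_lit 0x4000500024003000038001000000000000000) := T_46 (nat_lit 128) (nat_lit 113) (nat_lit 2) (nat_lit 7) (nat_lit 7) L131318 (by decide +kernel)
theorem L131320 : W_46 (nat_lit 7) (nat_lit 0x10002e0012000800040000000000000000000) (nat_lit 0x0) (nat_lit 0x40005000240030000b8005000000000000000) := T_46 (nat_lit 79) (nat_lit 62) (nat_lit 6) (nat_lit 10) (nat_lit 7) L131319 (by decide +kernel)
theorem L131321 : W_46 (nat_lit 2) (nat_lit 0x10002e00320018000e8000000000000000000) (nat_lit 0x0) (nat_lit 0x400000000000000002000100000000000) := D_46 (nat_lit 61) (nat_lit 130) (nat_lit 44) (nat_lit 7) (nat_lit 10) (nat_lit 3) (nat_lit 7) (nat_lit 10) (nat_lit 2) (by decide +kernel)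
theorem L131322 : W_46 (nat_lit 3) (nat_lit 0x10002e00320008000e8000000000000000000) (nat_lit 0x0) (nat_lit 0x4000400000001000000002000100000000000) := T_46 (nat_lit 96) (nat_lit 146) (nat_lit 6) (nat_lit 10) (nat_lit 8) L131321 (by decide +kernel)
theorem L131323 : W_46 (nat_lit 4) (nat_lit 0x10002e0032000800068000000000000000000) (nat_lit 0x0) (nat_lit 0x4000400000001000080006000100000000000) := T_46 (nat_lit 79) (nat_lit 62) (nat_lit 6) (nat_lit 10) (nat_lit 7) L131322 (by decide +kernel)
theorem L131324 : W_46 (nat_lit 5) (nat_lit 0x10002e0012000800068000000000000000000) (nat_lit 0x0) (nat_lit 0x4000500020001000080006000100000000000) := T_46 (nat_lit 113) (nat_lit 128) (nat_lit 2) (nat_lit 7) (nat_lit 7) L131323 (by decide +kernel)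
theorem L131325 : W_46 (nat_lit 6) (nat_lit 0x10002e0012000800060000000000000000000) (nat_lit 0x0) (nat_lit 0x4000500020001100088006000100000000000) := T_46 (nat_lit 75) (nat_lit 92) (nat_lit 7) (nat_lit 7) (nat_lit 4) L131324 (by decide +kernel)
theorem L131326 : W_46 (nat_lit 7) (nat_lit 0x10002e0012000800040000000000000000000) (nat_lit 0x0) (nat_lit 0x40005000200011000a8007000100000000000) := T_46 (nat_lit 77) (nat_lit 60) (nat_lit 4) (nat_lit 10) (nat_lit 7) L131325 (by decide +kernel)
theorem L131327 : W_46 (nat_lit 2) (nat_lit 0x10003e80160018000d8000000000000000000) (nat_lit 0x0) (nat_lit 0x200000000c00000000000000) := D_46 (nat_lit 93) (nat_lit 59) (nat_lit 58) (nat_lit 5) (nat_lit 8) (nat_lit 3) (nat_lit 4) (nat_lit 8) (nat_lit 7) (by decide +kernel)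
theorem L131328 : W_46 (nat_lit 3) (nat_lit 0x10003e80160018000c8000000000000000000) (nat_lit 0x0) (nat_lit 0x200030000c00000000000000) := T_46 (nat_lit 76) (nat_lit 77) (nat_lit 3) (nat_lit 7) (nat_lit 4) L131327 (by decide +kernel)
theorem L131329 : W_46 (nat_lit 4) (nat_lit 0x10003e80160008000c8000000000000000000) (nat_lit 0x0) (nat_lit 0x4000000000001200030000c00000000000000) := T_46 (nat_lit 96) (nat_lit 146) (nat_lit 6) (nat_lit 10) (nat_lit 8) L131328 (by decide +kernel)
theorem L131330 : W_46 (nat_lit 5) (nat_lit 0x10003e8016000800048000000000000000000) (nat_lit 0x0) (nat_lit 0x40000000000012000b0004c00000000000000) := T_46 (nat_lit 79) (nat_lit 62) (nat_lit 6) (nat_lit 10) (nat_lit 7) L131329 (by decide +kernel)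
theorem L131331 : W_46 (nat_lit 6) (nat_lit 0x10003e0016000800048000000000000000000) (nat_lit 0x0) (nat_lit 0x40000180000012000b0004c00000000000000) := T_46 (nat_lit 123) (nat_lit 124) (nat_lit 2) (nat_lit 4) (nat_lit 7) L131330 (by decide +kernel)
theorem L131332 : W_46 (nat_lit 7) (nat_lit 0x10003e0016000800040000000000000000000) (nat_lit 0x0) (nat_lit 0x40000180000013000b8004c00000000000000) := T_46 (nat_lit 75) (nat_lit 92) (nat_lit 7) (nat_lit 7) (nat_lit 4) L131331 (by decide +kernel)
theorem L131333 : W_46 (nat_lit 8) (nat_lit 0x10003e0012000800040000000000000000000) (nat_lit 0x0) (nat_lit 0x40004180040013000b8004c00000000000000) := T_46 (nat_lit 110) (nat_lit 130) (nat_lit 0) (nat_lit 11) (nat_lit 7) L131332 (by decide +kernel)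
theorem L131334 : W_46 (nat_lit 9) (nat_lit 0x10002e0012000800040000000000000000000) (nat_lit 0x0) (nat_lit 0x40005180240013000b8004c00000000000000) := T_46 (nat_lit 128) (nat_lit 113) (nat_lit 2) (nat_lit 7) (nat_lit 7) L131333 (by decide +kernel)
theorem L131335 : W_46 (nat_lit 2) (nat_lit 0x10007e00120018000e0000000000000000000) (nat_lit 0x0) (nat_lit 0x6000010000000000000000000) := D_46 (nat_lit 97) (nat_lit 76) (nat_lit 98) (nat_lit 3) (nat_lit 8) (nat_lit 4) (nat_lit 0) (nat_lit 13) (nat_lit 5) (by decide +kernel)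
theorem L131336 : W_46 (nat_lit 3) (nat_lit 0x10007e00120018000c0000000000000000000) (nat_lit 0x0) (nat_lit 0x6000030001000000000000000) := T_46 (nat_lit 77) (nat_lit 60) (nat_lit 4) (nat_lit 10) (nat_lit 7) L131335 (by decide +kernel)
theorem L131337 : W_46 (nat_lit 4) (nat_lit 0x10007e00120008000c0000000000000000000) (nat_lit 0x0) (nat_lit 0x4000000000007000030001000000000000000) := T_46 (nat_lit 96) (nat_lit 146) (nat_lit 6) (nat_lit 10) (nat_lit 8) L131336 (by decide +kernel)
theorem L131338 : W_46 (nat_lit 5) (nat_lit 0x10003e00120008000c0000000000000000000) (nat_lit 0x0) (nat_lit 0x4000400004007000030001000000000000000) := T_46 (nat_lit 130) (nat_lit 110) (nat_lit 0) (nat_lit 11) (nat_lit 7) L131337 (by decide +kernel)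
theorem L131339 : W_46 (nat_lit 6) (nat_lit 0x10002e00120008000c0000000000000000000) (nat_lit 0x0) (nat_lit 0x4000500024007000030001000000000000000) := T_46 (nat_lit 128) (nat_lit 113) (nat_lit 2) (nat_lit 7) (nat_lit 7) L131338 (by decide +kernel)
theorem L131340 : W_46 (nat_lit 7) (nat_lit 0x10002e0012000800040000000000000000000) (nat_lit 0x0) (nat_lit 0x40005000240070000b0005000000000000000) := T_46 (nat_lit 79) (nat_lit 62) (nat_lit 6) (nat_lit 10) (nat_lit 7) L131339 (by decide +kernel)
theorem L131341 : W_46 (nat_lit 10) (nat_lit 0x10002e0012000800000000000000000000000) (nat_lit 0x0) (nat_lit 0x40005180240073000fc007e003f0000000000) := Q_46 (nat_lit 78) (C_46 L131315 (C_46 L131149 (C_46 L131320 (C_46 L131326 (C_46 L131334 (C_46 L131340 N_46)))))) (by decide +kernel)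
theorem L131342 : W_46 (nat_lit 2) (nat_lit 0x10002e00320018000c8000000000000000000) (nat_lit 0x0) (nat_lit 0x400000000000000002000100000000000) := D_46 (nat_lit 61) (nat_lit 44) (nat_lit 130) (nat_lit 7) (nat_lit 10) (nat_lit 2) (nat_lit 7) (nat_lit 10) (nat_lit 3) (by decide +kernel)
theorem L131343 : W_46 (nat_lit 3) (nat_lit 0x10002e00320008000c8000000000000000000) (nat_lit 0x0) (nat_lit 0x4000400000001000000002000100000000000) := T_46 (nat_lit 96) (nat_lit 146) (nat_lit 6) (nat_lit 10) (nat_lit 8) L131342 (by decide +kernel)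
theorem L131344 : W_46 (nat_lit 4) (nat_lit 0x10002e00120008000c8000000000000000000) (nat_lit 0x0) (nat_lit 0x4000500020001000000002000100000000000) := T_46 (nat_lit 113) (nat_lit 128) (nat_lit 2) (nat_lit 7) (nat_lit 7) L131343 (by decide +kernel)
theorem L131345 : W_46 (nat_lit 5) (nat_lit 0x10002e0012000800048000000000000000000) (nat_lit 0x0) (nat_lit 0x4000500020001000080006000100000000000) := T_46 (nat_lit 79) (nat_lit 62) (nat_lit 6) (nat_lit 10) (nat_lit 7) L131344 (by decide +kernel)
theorem L131346 : W_46 (nat_lit 6) (nat_lit 0x10002e0012000800040000000000000000000) (nat_lit 0x0) (nat_lit 0x4000500020001100088006000100000000000) := T_46 (nat_lit 75) (nat_lit 92) (nat_lit 7) (nat_lit 7) (nat_lit 4) L131345 (by decide +kernel)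
theorem L131347 : W_46 (nat_lit 9) (nat_lit 0x10002e0012000800000000000000000000000) (nat_lit 0x0) (nat_lit 0x40005000240075000fc007c003f0000000000) := Q_46 (nat_lit 78) (C_46 L130986 (C_46 L131340 (C_46 L131326 (C_46 L131149 (C_46 L131346 N_46))))) (by decide +kernel)
theorem L131348 : W_46 (nat_lit 2) (nat_lit 0x10003e0016000800060000000000000000000) (nat_lit 0x0) (nat_lit 0x4000000000000600000000000000000000000) := D_46 (nat_lit 94) (nat_lit 146) (nat_lit 93) (nat_lit 4) (nat_lit 10) (nat_lit 8) (nat_lit 6) (nat_lit 8) (nat_lit 8) (by decide +kernel)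
theorem L131349 : W_46 (nat_lit 3) (nat_lit 0x10003e0016000800040000000000000000000) (nat_lit 0x0) (nat_lit 0x4000000000000600020001000000000000000) := T_46 (nat_lit 77) (nat_lit 60) (nat_lit 4) (nat_lit 10) (nat_lit 7) L131348 (by decide +kernel)
theorem L131350 : W_46 (nat_lit 4) (nat_lit 0x10003e0012000800040000000000000000000) (nat_lit 0x0) (nat_lit 0x4000400004000600020001000000000000000) := T_46 (nat_lit 110) (nat_lit 130) (nat_lit 0) (nat_lit 11) (nat_lit 7) L131349 (by decide +kernel)
theorem L131351 : W_46 (nat_lit 5) (nat_lit 0x10002e0012000800040000000000000000000) (nat_lit 0x0) (nat_lit 0x4000500024000600020001000000000000000) := T_46 (nat_lit 128) (nat_lit 113) (nat_lit 2) (nat_lit 7) (nat_lit 7) L131350 (by decide +kernel)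
theorem L131352 : W_46 (nat_lit 2) (nat_lit 0x10003e8016001a000d0000000000000000000) (nat_lit 0x0) (nat_lit 0x28000400000000000000) := D_46 (nat_lit 75) (nat_lit 58) (nat_lit 77) (nat_lit 4) (nat_lit 8) (nat_lit 7) (nat_lit 3) (nat_lit 7) (nat_lit 4) (by decide +kernel)
theorem L131353 : W_46 (nat_lit 3) (nat_lit 0x10003e8016001a000c0000000000000000000) (nat_lit 0x0) (nat_lit 0x38000c00000000000000) := T_46 (nat_lit 76) (nat_lit 59) (nat_lit 5) (nat_lit 8) (nat_lit 3) L131352 (by decide +kernel)
theorem L131354 : W_46 (nat_lit 4) (nat_lit 0x10003e80160018000c0000000000000000000) (nat_lit 0x0) (nat_lit 0x600038000c00000000000000) := T_46 (nat_lit 93) (nat_lit 94) (nat_lit 1) (nat_lit 11) (nat_lit 5) L131353 (by decide +kernel)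
theorem L131355 : W_46 (nat_lit 5) (nat_lit 0x10003e80160008000c0000000000000000000) (nat_lit 0x0) (nat_lit 0x4000000000001600038000c00000000000000) := T_46 (nat_lit 96) (nat_lit 146) (nat_lit 6) (nat_lit 10) (nat_lit 8) L131354 (by decide +kernel)
theorem L131356 : W_46 (nat_lit 6) (nat_lit 0x10003e00160008000c0000000000000000000) (nat_lit 0x0) (nat_lit 0x4000018000001600038000c00000000000000) := T_46 (nat_lit 123) (nat_lit 124) (nat_lit 2) (nat_lit 4) (nat_lit 7) L131355 (by decide +kernel)
theorem L131357 : W_46 (nat_lit 7) (nat_lit 0x10003e0016000800040000000000000000000) (nat_lit 0x0) (nat_lit 0x40000180000016000b8004c00000000000000) := T_46 (nat_lit 79) (nat_lit 62) (nat_lit 6) (nat_lit 10) (nat_lit 7) L131356 (by decide +kernel)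
theorem L131358 : W_46 (nat_lit 8) (nat_lit 0x10003e0012000800040000000000000000000) (nat_lit 0x0) (nat_lit 0x40004180040016000b8004c00000000000000) := T_46 (nat_lit 110) (nat_lit 130) (nat_lit 0) (nat_lit 11) (nat_lit 7) L131357 (by decide +kernel)
theorem L131359 : W_46 (nat_lit 9) (nat_lit 0x10002e0012000800040000000000000000000) (nat_lit 0x0) (nat_lit 0x40005180240016000b8004c00000000000000) := T_46 (nat_lit 128) (nat_lit 113) (nat_lit 2) (nat_lit 7) (nat_lit 7) L131358 (by decide +kernel)
theorem L131360 : W_46 (nat_lit 2) (nat_lit 0x10002e00320018000c0000000000000000000) (nat_lit 0x0) (nat_lit 0x400000000000000002000100000000000) := D_46 (nat_lit 61) (nat_lit 130) (nat_lit 44) (nat_lit 7) (nat_lit 10) (nat_lit 3) (nat_lit 7) (nat_lit 10) (nat_lit 2) (by decide +kernel)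
theorem L131361 : W_46 (nat_lit 3) (nat_lit 0x10002e00320008000c0000000000000000000) (nat_lit 0x0) (nat_lit 0x4000400000001000000002000100000000000) := T_46 (nat_lit 96) (nat_lit 146) (nat_lit 6) (nat_lit 10) (nat_lit 8) L131360 (by decide +kernel)
theorem L131362 : W_46 (nat_lit 4) (nat_lit 0x10002e00120008000c0000000000000000000) (nat_lit 0x0) (nat_lit 0x4000500020001000000002000100000000000) := T_46 (nat_lit 113) (nat_lit 128) (nat_lit 2) (nat_lit 7) (nat_lit 7) L131361 (by decide +kernel)
theorem L131363 : W_46 (nat_lit 5) (nat_lit 0x10002e0012000800040000000000000000000) (nat_lit 0x0) (nat_lit 0x4000500020001000080006000100000000000) := T_46 (nat_lit 79) (nat_lit 62) (nat_lit 6) (nat_lit 10) (nat_lit 7) L131362 (by decide +kernel)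
theorem L131364 : W_46 (nat_lit 4) (nat_lit 0x10007e0012000800040000000000000000000) (nat_lit 0x0) (nat_lit 0xa0007000280000000000) := T_46 (nat_lit 60) (nat_lit 77) (nat_lit 4) (nat_lit 10) (nat_lit 7) L131290 (by decide +kernel)
theorem L131365 : W_46 (nat_lit 5) (nat_lit 0x10003e0012000800040000000000000000000) (nat_lit 0x0) (nat_lit 0x4000040000000a0007000280000000000) := T_46 (nat_lit 130) (nat_lit 110) (nat_lit 0) (nat_lit 11) (nat_lit 7) L131364 (by decide +kernel)
theorem L131366 : W_46 (nat_lit 6) (nat_lit 0x10002e0012000800040000000000000000000) (nat_lit 0x0) (nat_lit 0x5000240000000a0007000280000000000) := T_46 (nat_lit 128) (nat_lit 113) (nat_lit 2) (nat_lit 7) (nat_lit 7) L131365 (by decide +kernel)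
theorem L131367 : W_46 (nat_lit 10) (nat_lit 0x10002e0012000800000000000000000000000) (nat_lit 0x0) (nat_lit 0x40005180240076000f8007c00380000000000) := Q_46 (nat_lit 78) (C_46 L131351 (C_46 L131340 (C_46 L130937 (C_46 L131359 (C_46 L131363 (C_46 L131366 N_46)))))) (by decide +kernel)
theorem L131368 : W_46 (nat_lit 2) (nat_lit 0x10002e00b2000d00020000000000000000000) (nat_lit 0x0) (nat_lit 0x40001000080000000000) := D_46 (nat_lit 60) (nat_lit 78) (nat_lit 43) (nat_lit 4) (nat_lit 10) (nat_lit 7) (nat_lit 7) (nat_lit 9) (nat_lit 2) (by decide +kernel)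
theorem L131369 : W_46 (nat_lit 3) (nat_lit 0x10002e00b2000d00000000000000000000000) (nat_lit 0x0) (nat_lit 0x4000000000000000060001000080000000000) := T_46 (nat_lit 77) (nat_lit 146) (nat_lit 4) (nat_lit 10) (nat_lit 8) L131368 (by decide +kernel)
theorem L131370 : W_46 (nat_lit 4) (nat_lit 0x10002e0032000d00000000000000000000000) (nat_lit 0x0) (nat_lit 0x40000000c0000000060001000080000000000) := T_46 (nat_lit 115) (nat_lit 114) (nat_lit 0) (nat_lit 13) (nat_lit 6) L131369 (by decide +kernel)
theorem L131371 : W_46 (nat_lit 5) (nat_lit 0x10002e0032000900000000000000000000000) (nat_lit 0x0) (nat_lit 0x40000000c0000600060001000080000000000) := T_46 (nat_lit 94) (nat_lit 93) (nat_lit 3) (nat_lit 7) (nat_lit 5) L131370 (by decide +kernel)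
theorem L131372 : W_46 (nat_lit 6) (nat_lit 0x10002e0032000800000000000000000000000) (nat_lit 0x0) (nat_lit 0x40000000c0000700068001000080000000000) := T_46 (nat_lit 92) (nat_lit 75) (nat_lit 7) (nat_lit 7) (nat_lit 4) L131371 (by decide +kernel)
theorem L131373 : W_46 (nat_lit 7) (nat_lit 0x10002e0012000800000000000000000000000) (nat_lit 0x0) (nat_lit 0x40001000e0000700068001000080000000000) := T_46 (nat_lit 113) (nat_lit 128) (nat_lit 2) (nat_lit 7) (nat_lit 7) L131372 (by decide +kernel)
theorem L131374 : W_46 (nat_lit 2) (nat_lit 0x10003e0016001a00088000000000000000000) (nat_lit 0x0) (nat_lit 0x10000c00000000000000) := D_46 (nat_lit 76) (nat_lit 59) (nat_lit 58) (nat_lit 5) (nat_lit 8) (nat_lit 3) (nat_lit 4) (nat_lit 8) (nat_lit 7) (by decide +kernel)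
theorem L131375 : W_46 (nat_lit 3) (nat_lit 0x10003e0016001800088000000000000000000) (nat_lit 0x0) (nat_lit 0x600010000c00000000000000) := T_46 (nat_lit 93) (nat_lit 94) (nat_lit 1) (nat_lit 11) (nat_lit 5) L131374 (by decide +kernel)
theorem L131376 : W_46 (nat_lit 4) (nat_lit 0x10003e0012001800088000000000000000000) (nat_lit 0x0) (nat_lit 0x400004000600010000c00000000000000) := T_46 (nat_lit 110) (nat_lit 130) (nat_lit 0) (nat_lit 11) (nat_lit 7) L131375 (by decide +kernel)
theorem L131377 : W_46 (nat_lit 5) (nat_lit 0x10002e0012001800088000000000000000000) (nat_lit 0x0) (nat_lit 0x500024000600010000c00000000000000) := T_46 (nat_lit 128) (nat_lit 113) (nat_lit 2) (nat_lit 7) (nat_lit 7) L131376 (by decide +kernel)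
theorem L131378 : W_46 (nat_lit 6) (nat_lit 0x10002e0012000800088000000000000000000) (nat_lit 0x0) (nat_lit 0x4000500024001600010000c00000000000000) := T_46 (nat_lit 96) (nat_lit 146) (nat_lit 6) (nat_lit 10) (nat_lit 8) L131377 (by decide +kernel)
theorem L131379 : W_46 (nat_lit 7) (nat_lit 0x10002e0012000800080000000000000000000) (nat_lit 0x0) (nat_lit 0x4000500024001700018000c00000000000000) := T_46 (nat_lit 75) (nat_lit 92) (nat_lit 7) (nat_lit 7) (nat_lit 4) L131378 (by decide +kernel)
theorem L131380 : W_46 (nat_lit 2) (nat_lit 0x10007e0012000800080004000000000000000) (nat_lit 0x0) (nat_lit 0x4000000000001000000000000200000000000) := D_46 (nat_lit 96) (nat_lit 146) (nat_lit 45) (nat_lit 6) (nat_lit 10) (nat_lit 8) (nat_lit 5) (nat_lit 11) (nat_lit 2) (by decide +kernel)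
theorem L131381 : W_46 (nat_lit 3) (nat_lit 0x10007e0012000800080000000000000000000) (nat_lit 0x0) (nat_lit 0x4000000000001000040004000200000000000) := T_46 (nat_lit 62) (nat_lit 78) (nat_lit 6) (nat_lit 10) (nat_lit 7) L131380 (by decide +kernel)
theorem L131382 : W_46 (nat_lit 4) (nat_lit 0x10003e0012000800080000000000000000000) (nat_lit 0x0) (nat_lit 0x4000400004001000040004000200000000000) := T_46 (nat_lit 130) (nat_lit 110) (nat_lit 0) (nat_lit 11) (nat_lit 7) L131381 (by decide +kernel)
theorem L131383 : W_46 (nat_lit 5) (nat_lit 0x10002e0012000800080000000000000000000) (nat_lit 0x0) (nat_lit 0x4000500024001000040004000200000000000) := T_46 (nat_lit 128) (nat_lit 113) (nat_lit 2) (nat_lit 7) (nat_lit 7) L131382 (by decide +kernel)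
theorem L131384 : W_46 (nat_lit 2) (nat_lit 0x10002e0012000800088004000000000000000) (nat_lit 0x0) (nat_lit 0x4000000020001000000000000000000000000) := D_46 (nat_lit 96) (nat_lit 146) (nat_lit 113) (nat_lit 6) (nat_lit 10) (nat_lit 8) (nat_lit 5) (nat_lit 11) (nat_lit 3) (by decide +kernel)
theorem L131385 : W_46 (nat_lit 3) (nat_lit 0x10002e0012000800088000000000000000000) (nat_lit 0x0) (nat_lit 0x4000000020001000040004000000000000000) := T_46 (nat_lit 62) (nat_lit 78) (nat_lit 6) (nat_lit 10) (nat_lit 7) L131384 (by decide +kernel)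
theorem L131386 : W_46 (nat_lit 4) (nat_lit 0x10002e0012000800080000000000000000000) (nat_lit 0x0) (nat_lit 0x4000000020001100048004000000000000000) := T_46 (nat_lit 75) (nat_lit 92) (nat_lit 7) (nat_lit 7) (nat_lit 4) L131385 (by decide +kernel)
theorem L131387 : W_46 (nat_lit 2) (nat_lit 0x10002e0012001800080000000000000000000) (nat_lit 0x0) (nat_lit 0x40004000200000000000) := D_46 (nat_lit 62) (nat_lit 78) (nat_lit 45) (nat_lit 6) (nat_lit 10) (nat_lit 7) (nat_lit 5) (nat_lit 11) (nat_lit 2) (by decide +kernel)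
theorem L131388 : W_46 (nat_lit 3) (nat_lit 0x10002e0012000800080000000000000000000) (nat_lit 0x0) (nat_lit 0x4000000000001000040004000200000000000) := T_46 (nat_lit 96) (nat_lit 146) (nat_lit 6) (nat_lit 10) (nat_lit 8) L131387 (by decide +kernel)
theorem L131389 : W_46 (nat_lit 2) (nat_lit 0x10002e0032000b000c0003800000000000000) (nat_lit 0x0) (nat_lit 0x4000000010000000040000000000) := D_46 (nat_lit 76) (nat_lit 42) (nat_lit 110) (nat_lit 5) (nat_lit 8) (nat_lit 2) (nat_lit 5) (nat_lit 8) (nat_lit 3) (by decide +kernel)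
theorem L131390 : W_46 (nat_lit 3) (nat_lit 0x10002e0032000b000c0003000000000000000) (nat_lit 0x0) (nat_lit 0x4000000010000c00040000000000) := T_46 (nat_lit 59) (nat_lit 58) (nat_lit 3) (nat_lit 7) (nat_lit 3) L131389 (by decide +kernel)
theorem L131391 : W_46 (nat_lit 4) (nat_lit 0x10002e0032000b000c0002000000000000000) (nat_lit 0x0) (nat_lit 0x4000000010001c000c0000000000) := T_46 (nat_lit 60) (nat_lit 43) (nat_lit 4) (nat_lit 10) (nat_lit 6) L131390 (by decide +kernel)
theorem L131392 : W_46 (nat_lit 5) (nat_lit 0x10002e0032000b000c0000000000000000000) (nat_lit 0x0) (nat_lit 0x400004000000010003c000c0000000000) := T_46 (nat_lit 61) (nat_lit 130) (nat_lit 7) (nat_lit 10) (nat_lit 3) L131391 (by decide +kernel)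
theorem L131393 : W_46 (nat_lit 6) (nat_lit 0x10002e00320009000c0000000000000000000) (nat_lit 0x0) (nat_lit 0x400004000600010003c000c0000000000) := T_46 (nat_lit 93) (nat_lit 94) (nat_lit 3) (nat_lit 7) (nat_lit 5) L131392 (by decide +kernel)
theorem L131394 : W_46 (nat_lit 7) (nat_lit 0x10002e0032000900080000000000000000000) (nat_lit 0x0) (nat_lit 0x400004000600050007c000c0000000000) := T_46 (nat_lit 78) (nat_lit 62) (nat_lit 6) (nat_lit 10) (nat_lit 7) L131393 (by decide +kernel)
theorem L131395 : W_46 (nat_lit 8) (nat_lit 0x10002e0012000900080000000000000000000) (nat_lit 0x0) (nat_lit 0x500024000600050007c000c0000000000) := T_46 (nat_lit 113) (nat_lit 128) (nat_lit 2) (nat_lit 7) (nat_lit 7) L131394 (by decide +kernel)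
theorem L131396 : W_46 (nat_lit 9) (nat_lit 0x10002e0012000800080000000000000000000) (nat_lit 0x0) (nat_lit 0x500024000700058007c000c0000000000) := T_46 (nat_lit 92) (nat_lit 75) (nat_lit 7) (nat_lit 7) (nat_lit 4) L131395 (by decide +kernel)
theorem L131397 : W_46 (nat_lit 10) (nat_lit 0x10002e0012000800000000000000000000000) (nat_lit 0x0) (nat_lit 0x40005000240017000d8007c002c0000000000) := Q_46 (nat_lit 79) (C_46 L131379 (C_46 L131383 (C_46 L131386 (C_46 L131388 (C_46 L131396 N_46))))) (by decide +kernel)
theorem L131398 : W_46 (nat_lit 7) (nat_lit 0x10002e0012000800000000000000000000000) (nat_lit 0x0) (nat_lit 0x40005000240016000e0007000380000000000) := Q_46 (nat_lit 78) (C_46 L131351 (C_46 L131366 (C_46 L130937 (C_46 L131363 N_46)))) (by decide +kernel)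
theorem L131399 : W_46 (nat_lit 2) (nat_lit 0x10003e8016000b000c0000000000000000000) (nat_lit 0x0) (nat_lit 0x30000800000000000000) := D_46 (nat_lit 76) (nat_lit 59) (nat_lit 77) (nat_lit 5) (nat_lit 8) (nat_lit 3) (nat_lit 1) (nat_lit 11) (nat_lit 4) (by decide +kernel)
theorem L131400 : W_46 (nat_lit 3) (nat_lit 0x10003e80160009000c0000000000000000000) (nat_lit 0x0) (nat_lit 0x600030000800000000000000) := T_46 (nat_lit 93) (nat_lit 94) (nat_lit 2) (nat_lit 7) (nat_lit 5) L131399 (by decide +kernel)
theorem L131401 : W_46 (nat_lit 4) (nat_lit 0x10003e00160009000c0000000000000000000) (nat_lit 0x0) (nat_lit 0x18000000600030000800000000000000) := T_46 (nat_lit 123) (nat_lit 124) (nat_lit 2) (nat_lit 4) (nat_lit 7) L131400 (by decide +kernel)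
theorem L131402 : W_46 (nat_lit 5) (nat_lit 0x10003e00160008000c0000000000000000000) (nat_lit 0x0) (nat_lit 0x18000000700038000800000000000000) := T_46 (nat_lit 92) (nat_lit 75) (nat_lit 7) (nat_lit 7) (nat_lit 4) L131401 (by decide +kernel)
theorem L131403 : W_46 (nat_lit 6) (nat_lit 0x10003e00120008000c0000000000000000000) (nat_lit 0x0) (nat_lit 0x418004000700038000800000000000000) := T_46 (nat_lit 110) (nat_lit 130) (nat_lit 0) (nat_lit 11) (nat_lit 7) L131402 (by decide +kernel)
theorem L131404 : W_46 (nat_lit 7) (nat_lit 0x10002e00120008000c0000000000000000000) (nat_lit 0x0) (nat_lit 0x518024000700038000800000000000000) := T_46 (nat_lit 128) (nat_lit 113) (nat_lit 2) (nat_lit 7) (nat_lit 7) L131403 (by decide +kernel)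
theorem L131405 : W_46 (nat_lit 8) (nat_lit 0x10002e0012000800040000000000000000000) (nat_lit 0x0) (nat_lit 0x5180240007000b8004800000000000000) := T_46 (nat_lit 79) (nat_lit 62) (nat_lit 6) (nat_lit 10) (nat_lit 7) L131404 (by decide +kernel)
theorem L131406 : W_46 (nat_lit 9) (nat_lit 0x10002e0012000800000000000000000000000) (nat_lit 0x0) (nat_lit 0x5180240017000fc007e002f0000000000) := Q_46 (nat_lit 78) (C_46 L131315 (C_46 L131366 (C_46 L131149 (C_46 L131405 N_46)))) (by decide +kernel)
theorem L131407 : W_46 (nat_lit 11) (nat_lit 0x10002e0012000000000000000000000000000) (nat_lit 0x0) (nat_lit 0x800040005180e4007f003fc007e003f0000000000) := Q_46 (nat_lit 95) (C_46 L131308 (C_46 L131341 (C_46 L131347 (C_46 L131150 (C_46 L131367 (C_46 L131373 (C_46 L131397 (C_46 L131398 (C_46 L131406 N_46))))))))) (by decide +kernel)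
theorem L131408 : W_46 (nat_lit 2) (nat_lit 0xd0002e0012000800068004000000000000000) (nat_lit 0x0) (nat_lit 0x10002000200000000000) := D_46 (nat_lit 61) (nat_lit 45) (nat_lit 76) (nat_lit 6) (nat_lit 10) (nat_lit 6) (nat_lit 2) (nat_lit 7) (nat_lit 4) (by decide +kernel)
theorem L131409 : W_46 (nat_lit 3) (nat_lit 0xd0002e0012000800068000000000000000000) (nat_lit 0x0) (nat_lit 0x90006000200000000000) := T_46 (nat_lit 62) (nat_lit 79) (nat_lit 6) (nat_lit 10) (nat_lit 7) L131408 (by decide +kernel)
theorem L131410 : W_46 (nat_lit 4) (nat_lit 0x50002e0012000800068000000000000000000) (nat_lit 0x0) (nat_lit 0x100008000000000000000090006000200000000000) := T_46 (nat_lit 147) (nat_lit 164) (nat_lit 7) (nat_lit 10) (nat_lit 5) L131409 (by decide +kernel)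
theorem L131411 : W_46 (nat_lit 5) (nat_lit 0x50002e0012000800028000000000000000000) (nat_lit 0x0) (nat_lit 0x1000080000000000000000d0007000200000000000) := T_46 (nat_lit 78) (nat_lit 60) (nat_lit 4) (nat_lit 10) (nat_lit 7) L131410 (by decide +kernel)
theorem L131412 : W_46 (nat_lit 6) (nat_lit 0x50002e0012000800020000000000000000000) (nat_lit 0x0) (nat_lit 0x1000080000000000001000d8007000200000000000) := T_46 (nat_lit 75) (nat_lit 92) (nat_lit 7) (nat_lit 7) (nat_lit 4) L131411 (by decide +kernel)
theorem L131413 : W_46 (nat_lit 7) (nat_lit 0x50002e0012000800000000000000000000000) (nat_lit 0x0) (nat_lit 0x1000080000000000005000f8007000200000000000) := T_46 (nat_lit 77) (nat_lit 94) (nat_lit 4) (nat_lit 10) (nat_lit 8) L131412 (by decide +kernel)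
theorem L131414 : W_46 (nat_lit 2) (nat_lit 0x1800050002e0012001c00008000000000000000000) (nat_lit 0x0) (nat_lit 0x4000200010000000000000000000) := D_46 (nat_lit 93) (nat_lit 110) (nat_lit 76) (nat_lit 1) (nat_lit 11) (nat_lit 5) (nat_lit 0) (nat_lit 11) (nat_lit 5) (by decide +kernel)
theorem L131415 : W_46 (nat_lit 3) (nat_lit 0x1800050002e0012000c00008000000000000000000) (nat_lit 0x0) (nat_lit 0x24001200010000000000000000000) := T_46 (nat_lit 96) (nat_lit 113) (nat_lit 6) (nat_lit 10) (nat_lit 9) L131414 (by decide +kernel)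
theorem L131416 : W_46 (nat_lit 4) (nat_lit 0x1000050002e0012000c00008000000000000000000) (nat_lit 0x0) (nat_lit 0x2000080000000000024001200010000000000000000000) := T_46 (nat_lit 163) (nat_lit 181) (nat_lit 7) (nat_lit 10) (nat_lit 6) L131415 (by decide +kernel)
theorem L131417 : W_46 (nat_lit 5) (nat_lit 0x50002e0012000c00008000000000000000000) (nat_lit 0x0) (nat_lit 0x2000180008000000024001200010000000000000000000) := T_46 (nat_lit 164) (nat_lit 147) (nat_lit 7) (nat_lit 10) (nat_lit 5) L131416 (by decide +kernel)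
theorem L131418 : W_46 (nat_lit 6) (nat_lit 0x50002e0012000800008000000000000000000) (nat_lit 0x0) (nat_lit 0x2000180008000000024001600030000000000000000000) := T_46 (nat_lit 94) (nat_lit 77) (nat_lit 4) (nat_lit 10) (nat_lit 8) L131417 (by decide +kernel)
theorem L131419 : W_46 (nat_lit 7) (nat_lit 0x50002e0012000800000000000000000000000) (nat_lit 0x0) (nat_lit 0x2000180008000000024001700038000000000000000000) := T_46 (nat_lit 75) (nat_lit 92) (nat_lit 7) (nat_lit 7) (nat_lit 4) L131418 (by decide +kernel)
theorem L131420 : W_46 (nat_lit 8) (nat_lit 0x50002e0012000000000000000000000000000) (nat_lit 0x0) (nat_lit 0x500038001c0008000000024001f000f8007000200000000000) := Q_46 (nat_lit 95) (C_46 L131252 (C_46 L131066 (C_46 L131221 (C_46 L131413 (C_46 L131419 N_46))))) (by decide +kernel)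
theorem L131421 : W_46 (nat_lit 4) (nat_lit 0xd0002e0012000800008000000000000000000) (nat_lit 0x0) (nat_lit 0x40016000b0000000000000000000) := T_46 (nat_lit 96) (nat_lit 79) (nat_lit 6) (nat_lit 10) (nat_lit 8) L131181 (by decide +kernel)
theorem L131422 : W_46 (nat_lit 5) (nat_lit 0xd0002e0012000000008000000000000000000) (nat_lit 0x0) (nat_lit 0x100000000000004001e000b0000000000000000000) := T_46 (nat_lit 95) (nat_lit 164) (nat_lit 7) (nat_lit 10) (nat_lit 5) L131421 (by decide +kernel)
theorem L131423 : W_46 (nat_lit 6) (nat_lit 0x50002e0012000000008000000000000000000) (nat_lit 0x0) (nat_lit 0x100008000100004001e000b0000000000000000000) := T_46 (nat_lit 147) (nat_lit 128) (nat_lit 3) (nat_lit 7) (nat_lit 7) L131422 (by decide +kernel)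
theorem L131424 : W_46 (nat_lit 7) (nat_lit 0x50002e0012000000000000000000000000000) (nat_lit 0x0) (nat_lit 0x100008000100004001f000b8000000000000000000) := T_46 (nat_lit 75) (nat_lit 92) (nat_lit 7) (nat_lit 7) (nat_lit 4) L131423 (by decide +kernel)
theorem L131425 : W_46 (nat_lit 2) (nat_lit 0x28000800050002e0032000000008000000000000000000) (nat_lit 0x0) (nat_lit 0x50001000000000000000000000000000000000000000000000) := D_46 (nat_lit 180) (nat_lit 196) (nat_lit 198) (nat_lit 5) (nat_lit 10) (nat_lit 7) (nat_lit 7) (nat_lit 10) (nat_lit 7) (by decide +kernel)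
theorem L131426 : W_46 (nat_lit 3) (nat_lit 0x8000800050002e0032000000008000000000000000000) (nat_lit 0x0) (nat_lit 0x50003000100000000000000000000000000000000000000000) := T_46 (nat_lit 181) (nat_lit 164) (nat_lit 7) (nat_lit 10) (nat_lit 6) L131425 (by decide +kernel)
theorem L131427 : W_46 (nat_lit 4) (nat_lit 0x800050002e0032000000008000000000000000000) (nat_lit 0x0) (nat_lit 0x50003800140000000000000000000000000000000000000000) := T_46 (nat_lit 179) (nat_lit 162) (nat_lit 5) (nat_lit 10) (nat_lit 6) L131426 (by decide +kernel)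
theorem L131428 : W_46 (nat_lit 5) (nat_lit 0x50002e0032000000008000000000000000000) (nat_lit 0x0) (nat_lit 0x500038001c0000000000000001000000000000000000000000) := T_46 (nat_lit 163) (nat_lit 96) (nat_lit 6) (nat_lit 10) (nat_lit 9) L131427 (by decide +kernel)
theorem L131429 : W_46 (nat_lit 6) (nat_lit 0x50002e0032000000000000000000000000000) (nat_lit 0x0) (nat_lit 0x500038001c0000000000000001100008000000000000000000) := T_46 (nat_lit 75) (nat_lit 92) (nat_lit 7) (nat_lit 7) (nat_lit 4) L131428 (by decide +kernel)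
theorem L131430 : W_46 (nat_lit 7) (nat_lit 0x50002e0012000000000000000000000000000) (nat_lit 0x0) (nat_lit 0x500038001c0000000100020001100008000000000000000000) := T_46 (nat_lit 113) (nat_lit 128) (nat_lit 2) (nat_lit 7) (nat_lit 7) L131429 (by decide +kernel)
theorem L131431 : W_46 (nat_lit 9) (nat_lit 0x10002e0012000000000000000000000000000) (nat_lit 0x0) (nat_lit 0x500038001c000c000100024001f000f8007000200000000000) := Q_46 (nat_lit 146) (C_46 L130875 (C_46 L131420 (C_46 L131424 (C_46 L131430 N_46)))) (by decide +kernel)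
theorem L131432 : W_46 (nat_lit 2) (nat_lit 0x10002e0016000000000000000000000000000) (nat_lit 0x0) (nat_lit 0x500020000000000000000000000000000) := D_46 (nat_lit 128) (nat_lit 113) (nat_lit 130) (nat_lit 2) (nat_lit 7) (nat_lit 7) (nat_lit 0) (nat_lit 11) (nat_lit 7) (by decide +kernel)
theorem L131433 : W_46 (nat_lit 2) (nat_lit 0x10002e8016001600010000000000000000000) (nat_lit 0x0) (nat_lit 0x100008000400000000000000) := D_46 (nat_lit 75) (nat_lit 92) (nat_lit 58) (nat_lit 7) (nat_lit 7) (nat_lit 4) (nat_lit 4) (nat_lit 8) (nat_lit 7) (by decide +kernel)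
theorem L131434 : W_46 (nat_lit 3) (nat_lit 0x10002e8016001600000000000000000000000) (nat_lit 0x0) (nat_lit 0x100018000c00000000000000) := T_46 (nat_lit 76) (nat_lit 59) (nat_lit 5) (nat_lit 8) (nat_lit 3) L131433 (by decide +kernel)
theorem L131435 : W_46 (nat_lit 4) (nat_lit 0x10002e8016000600000000000000000000000) (nat_lit 0x0) (nat_lit 0x1900018000c00000000000000) := T_46 (nat_lit 96) (nat_lit 95) (nat_lit 1) (nat_lit 11) (nat_lit 5) L131434 (by decide +kernel)
theorem L131436 : W_46 (nat_lit 5) (nat_lit 0x10002e8016000200000000000000000000000) (nat_lit 0x0) (nat_lit 0x1d00038000c00000000000000) := T_46 (nat_lit 94) (nat_lit 77) (nat_lit 6) (nat_lit 8) (nat_lit 8) L131435 (by decide +kernel)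
theorem L131437 : W_46 (nat_lit 6) (nat_lit 0x10002e0016000200000000000000000000000) (nat_lit 0x0) (nat_lit 0x18000001d00038000c00000000000000) := T_46 (nat_lit 123) (nat_lit 124) (nat_lit 2) (nat_lit 4) (nat_lit 7) L131436 (by decide +kernel)
theorem L131438 : W_46 (nat_lit 2) (nat_lit 0x10002f00168003400b2000280000000000000) (nat_lit 0x0) (nat_lit 0x100014000000000) := D_46 (nat_lit 56) (nat_lit 40) (nat_lit 38) (nat_lit 6) (nat_lit 5) (nat_lit 6) (nat_lit 4) (nat_lit 5) (nat_lit 6) (by decide +kernel)
theorem L131439 : W_46 (nat_lit 3) (nat_lit 0x10002f00168003400b2000200000000000000) (nat_lit 0x0) (nat_lit 0x1000180014000000000) := T_46 (nat_lit 55) (nat_lit 72) (nat_lit 4) (nat_lit 5) (nat_lit 7) L131438 (by decide +kernel)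
theorem L131440 : W_46 (nat_lit 4) (nat_lit 0x10002f00168003400b2000000000000000000) (nat_lit 0x0) (nat_lit 0x5000380014000000000) := T_46 (nat_lit 57) (nat_lit 74) (nat_lit 6) (nat_lit 5) (nat_lit 7) L131439 (by decide +kernel)
theorem L131441 : W_46 (nat_lit 5) (nat_lit 0x10002f00168003400b0000000000000000000) (nat_lit 0x0) (nat_lit 0x400000000000000007000380014000000000) := T_46 (nat_lit 73) (nat_lit 142) (nat_lit 7) (nat_lit 5) (nat_lit 4) L131440 (by decide +kernel)
theorem L131442 : W_46 (nat_lit 6) (nat_lit 0x10002f0016800340030000000000000000000) (nat_lit 0x0) (nat_lit 0x4000000000000000c7000380014000000000) := T_46 (nat_lit 79) (nat_lit 78) (nat_lit 1) (nat_lit 11) (nat_lit 4) L131441 (by decide +kernel)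
theorem L131443 : W_46 (nat_lit 7) (nat_lit 0x10002f0016800300030000000000000000000) (nat_lit 0x0) (nat_lit 0x4000000000000c00c7000380014000000000) := T_46 (nat_lit 90) (nat_lit 91) (nat_lit 2) (nat_lit 5) (nat_lit 5) L131442 (by decide +kernel)
theorem L131444 : W_46 (nat_lit 8) (nat_lit 0x10002f0016800300010000000000000000000) (nat_lit 0x0) (nat_lit 0x4000000000000c00e7001380014000000000) := T_46 (nat_lit 77) (nat_lit 60) (nat_lit 6) (nat_lit 8) (nat_lit 7) L131443 (by decide +kernel)
theorem L131445 : W_46 (nat_lit 9) (nat_lit 0x10002f0016000300010000000000000000000) (nat_lit 0x0) (nat_lit 0x400000000c000c00e7001380014000000000) := T_46 (nat_lit 107) (nat_lit 106) (nat_lit 0) (nat_lit 8) (nat_lit 7) L131444 (by decide +kernel)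
theorem L131446 : W_46 (nat_lit 10) (nat_lit 0x10002f0016000300000000000000000000000) (nat_lit 0x0) (nat_lit 0x400000000c000c00f7001b80014000000000) := T_46 (nat_lit 76) (nat_lit 59) (nat_lit 5) (nat_lit 8) (nat_lit 3) L131445 (by decide +kernel)
theorem L131447 : W_46 (nat_lit 11) (nat_lit 0x10002e0016000300000000000000000000000) (nat_lit 0x0) (nat_lit 0x400018000c000c00f7001b80014000000000) := T_46 (nat_lit 124) (nat_lit 123) (nat_lit 2) (nat_lit 4) (nat_lit 7) L131446 (by decide +kernel)
theorem L131448 : W_46 (nat_lit 12) (nat_lit 0x10002e0016000200000000000000000000000) (nat_lit 0x0) (nat_lit 0x400018000c001c00ff001b80014000000000) := T_46 (nat_lit 92) (nat_lit 75) (nat_lit 7) (nat_lit 7) (nat_lit 4) L131447 (by decide +kernel)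
theorem L131449 : W_46 (nat_lit 2) (nat_lit 0x10002e0016000700000000800000000000000) (nat_lit 0x0) (nat_lit 0x20001800000000000000000000000) := D_46 (nat_lit 95) (nat_lit 113) (nat_lit 96) (nat_lit 3) (nat_lit 7) (nat_lit 5) (nat_lit 1) (nat_lit 11) (nat_lit 5) (by decide +kernel)
theorem L131450 : W_46 (nat_lit 3) (nat_lit 0x10002e0016000300000000800000000000000) (nat_lit 0x0) (nat_lit 0x20001c00020000000000000000000) := T_46 (nat_lit 94) (nat_lit 77) (nat_lit 6) (nat_lit 8) (nat_lit 8) L131449 (by decide +kernel)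
theorem L131451 : W_46 (nat_lit 4) (nat_lit 0x10002e0016000200000000800000000000000) (nat_lit 0x0) (nat_lit 0x20001d00028000000000000000000) := T_46 (nat_lit 92) (nat_lit 75) (nat_lit 7) (nat_lit 7) (nat_lit 4) L131450 (by decide +kernel)
theorem L131452 : W_46 (nat_lit 5) (nat_lit 0x10002e0016000200000000000000000000000) (nat_lit 0x0) (nat_lit 0x20001d00038000800000000000000) := T_46 (nat_lit 59) (nat_lit 76) (nat_lit 5) (nat_lit 8) (nat_lit 3) L131451 (by decide +kernel)
theorem L131453 : W_46 (nat_lit 2) (nat_lit 0x10002e0016000200020000000000000000000) (nat_lit 0x0) (nat_lit 0x10001800000000000000) := D_46 (nat_lit 76) (nat_lit 59) (nat_lit 60) (nat_lit 5) (nat_lit 8) (nat_lit 3) (nat_lit 6) (nat_lit 8) (nat_lit 7) (by decide +kernel)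
theorem L131454 : W_46 (nat_lit 3) (nat_lit 0x10002e0016000200000000000000000000000) (nat_lit 0x0) (nat_lit 0x400030001800000000000000) := T_46 (nat_lit 77) (nat_lit 94) (nat_lit 6) (nat_lit 8) (nat_lit 8) L131453 (by decide +kernel)
theorem L131455 : W_46 (nat_lit 2) (nat_lit 0x10002e0016000700000000000000000000000) (nat_lit 0x0) (nat_lit 0x20001800000000000000000000000) := D_46 (nat_lit 95) (nat_lit 113) (nat_lit 96) (nat_lit 3) (nat_lit 7) (nat_lit 5) (nat_lit 1) (nat_lit 11) (nat_lit 5) (by decide +kernel)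
theorem L131456 : W_46 (nat_lit 3) (nat_lit 0x10002e0016000300000000000000000000000) (nat_lit 0x0) (nat_lit 0x20001c00020000000000000000000) := T_46 (nat_lit 94) (nat_lit 77) (nat_lit 6) (nat_lit 8) (nat_lit 8) L131455 (by decide +kernel)
theorem L131457 : W_46 (nat_lit 4) (nat_lit 0x10002e0016000200000000000000000000000) (nat_lit 0x0) (nat_lit 0x20001d00028000000000000000000) := T_46 (nat_lit 92) (nat_lit 75) (nat_lit 7) (nat_lit 7) (nat_lit 4) L131456 (by decide +kernel)
theorem L131458 : W_46 (nat_lit 2) (nat_lit 0x10002e8016000200008000000000000000000) (nat_lit 0x0) (nat_lit 0x10000c00000000000000) := D_46 (nat_lit 76) (nat_lit 58) (nat_lit 59) (nat_lit 4) (nat_lit 8) (nat_lit 7) (nat_lit 5) (nat_lit 8) (nat_lit 3) (by decide +kernel)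
theorem L131459 : W_46 (nat_lit 3) (nat_lit 0x10002e8016000200000000000000000000000) (nat_lit 0x0) (nat_lit 0x100018000c00000000000000) := T_46 (nat_lit 75) (nat_lit 92) (nat_lit 7) (nat_lit 7) (nat_lit 4) L131458 (by decide +kernel)
theorem L131460 : W_46 (nat_lit 4) (nat_lit 0x10002e0016000200000000000000000000000) (nat_lit 0x0) (nat_lit 0x18000000100018000c00000000000000) := T_46 (nat_lit 123) (nat_lit 124) (nat_lit 2) (nat_lit 4) (nat_lit 7) L131459 (by decide +kernel)
theorem L131461 : W_46 (nat_lit 13) (nat_lit 0x10002e0016000000000000000000000000000) (nat_lit 0x0) (nat_lit 0x400018020c01fc00ff001f80014000000000) := Q_46 (nat_lit 93) (C_46 L131437 (C_46 L131448 (C_46 L131452 (C_46 L131454 (C_46 L131457 (C_46 L131460 N_46)))))) (by decide +kernel)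
theorem L131462 : W_46 (nat_lit 2) (nat_lit 0x10006e8016000f00000000000000000000000) (nat_lit 0x0) (nat_lit 0x80000000000000000c0000000000000000000) := D_46 (nat_lit 78) (nat_lit 79) (nat_lit 147) (nat_lit 2) (nat_lit 7) (nat_lit 5) (nat_lit 7) (nat_lit 10) (nat_lit 4) (by decide +kernel)
theorem L131463 : W_46 (nat_lit 3) (nat_lit 0x10006e8016000700000000000000000000000) (nat_lit 0x0) (nat_lit 0x80000000000018000c0000000000000000000) := T_46 (nat_lit 95) (nat_lit 96) (nat_lit 1) (nat_lit 11) (nat_lit 5) L131462 (by decide +kernel)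
theorem L131464 : W_46 (nat_lit 4) (nat_lit 0x10006e8016000300000000000000000000000) (nat_lit 0x0) (nat_lit 0x8000000000001c000e0000000000000000000) := T_46 (nat_lit 94) (nat_lit 77) (nat_lit 6) (nat_lit 8) (nat_lit 8) L131463 (by decide +kernel)
theorem L131465 : W_46 (nat_lit 5) (nat_lit 0x10002e8016000300000000000000000000000) (nat_lit 0x0) (nat_lit 0x8000500000001c000e0000000000000000000) := T_46 (nat_lit 130) (nat_lit 128) (nat_lit 0) (nat_lit 11) (nat_lit 7) L131464 (by decide +kernel)
theorem L131466 : W_46 (nat_lit 6) (nat_lit 0x10002e0016000300000000000000000000000) (nat_lit 0x0) (nat_lit 0x8000518000001c000e0000000000000000000) := T_46 (nat_lit 123) (nat_lit 124) (nat_lit 2) (nat_lit 4) (nat_lit 7) L131465 (by decide +kernel)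
theorem L131467 : W_46 (nat_lit 7) (nat_lit 0x10002e0016000200000000000000000000000) (nat_lit 0x0) (nat_lit 0x8000518000001d000e8000000000000000000) := T_46 (nat_lit 92) (nat_lit 75) (nat_lit 7) (nat_lit 7) (nat_lit 4) L131466 (by decide +kernel)
theorem L131468 : W_46 (nat_lit 8) (nat_lit 0x10002e0016000000000000000000000000000) (nat_lit 0x0) (nat_lit 0x8000518000001f000f8001c00000000000000) := Q_46 (nat_lit 93) (C_46 L131460 (C_46 L131454 (C_46 L131467 N_46))) (by decide +kernel)
theorem L131469 : W_46 (nat_lit 14) (nat_lit 0x10002e0012000000000000000000000000000) (nat_lit 0x0) (nat_lit 0x8400518024c01fc00ff001f80014000000000) := Q_46 (nat_lit 110) (C_46 L131432 (C_46 L131461 (C_46 L131468 N_46))) (by decide +kernel)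
theorem L131470 : W_46 (nat_lit 15) (nat_lit 0x10000e0012000000000000000000000000000) (nat_lit 0x0) (nat_lit 0x500038001c001c4007180e4c07fc03ff007f803f4018000000) := Q_46 (nat_lit 129) (C_46 L130903 (C_46 L131119 (C_46 L131193 (C_46 L131195 (C_46 L131302 (C_46 L131407 (C_46 L131431 (C_46 L131469 N_46)))))))) (by decide +kernel)
theorem L131471 : W_46 (nat_lit 2) (nat_lit 0x10000e0012000000000000000000000000000) (nat_lit 0x0) (nat_lit 0x10000c000000000000000000000000000) := D_46 (nat_lit 111) (nat_lit 110) (nat_lit 128) (nat_lit 1) (nat_lit 10) (nat_lit 6) (nat_lit 2) (nat_lit 6) (nat_lit 7) (by decide +kernel)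
theorem L131472 : W_46 (nat_lit 2) (nat_lit 0x10000e0016000200008000000000000000000) (nat_lit 0x0) (nat_lit 0x10000c00000000000000) := D_46 (nat_lit 76) (nat_lit 58) (nat_lit 59) (nat_lit 4) (nat_lit 8) (nat_lit 7) (nat_lit 5) (nat_lit 8) (nat_lit 3) (by decide +kernel)
theorem L131473 : W_46 (nat_lit 2) (nat_lit 0x10000e8016000700000000000000000000000) (nat_lit 0x0) (nat_lit 0x20001800000000000000000000000) := D_46 (nat_lit 95) (nat_lit 113) (nat_lit 96) (nat_lit 3) (nat_lit 7) (nat_lit 5) (nat_lit 1) (nat_lit 11) (nat_lit 5) (by decide +kernel)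
theorem L131474 : W_46 (nat_lit 3) (nat_lit 0x10000e8016000300000000000000000000000) (nat_lit 0x0) (nat_lit 0x20001c00020000000000000000000) := T_46 (nat_lit 94) (nat_lit 77) (nat_lit 6) (nat_lit 8) (nat_lit 8) L131473 (by decide +kernel)
theorem L131475 : W_46 (nat_lit 3) (nat_lit 0x10000e0016000200000000000000000000000) (nat_lit 0x0) (nat_lit 0x100018000c00000000000000) := T_46 (nat_lit 75) (nat_lit 92) (nat_lit 7) (nat_lit 7) (nat_lit 4) L131472 (by decide +kernel)
theorem L131476 : W_46 (nat_lit 2) (nat_lit 0x10000e0016000200010000000000000000000) (nat_lit 0x0) (nat_lit 0x400020001000000000000000) := D_46 (nat_lit 77) (nat_lit 94) (nat_lit 60) (nat_lit 6) (nat_lit 8) (nat_lit 8) (nat_lit 6) (nat_lit 8) (nat_lit 7) (by decide +kernel)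
theorem L131477 : W_46 (nat_lit 3) (nat_lit 0x10000e0016000200000000000000000000000) (nat_lit 0x0) (nat_lit 0x400030001800000000000000) := T_46 (nat_lit 76) (nat_lit 59) (nat_lit 5) (nat_lit 8) (nat_lit 3) L131476 (by decide +kernel)
theorem L131478 : W_46 (nat_lit 4) (nat_lit 0x10000e8016000200000000000000000000000) (nat_lit 0x0) (nat_lit 0x20001d00028000000000000000000) := T_46 (nat_lit 92) (nat_lit 75) (nat_lit 7) (nat_lit 7) (nat_lit 4) L131474 (by decide +kernel)
theorem L131479 : W_46 (nat_lit 5) (nat_lit 0x10000e0016000200000000000000000000000) (nat_lit 0x0) (nat_lit 0x18020001d00028000000000000000000) := T_46 (nat_lit 123) (nat_lit 124) (nat_lit 2) (nat_lit 4) (nat_lit 7) L131478 (by decide +kernel)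
theorem L131480 : W_46 (nat_lit 6) (nat_lit 0x10000e0016000000000000000000000000000) (nat_lit 0x0) (nat_lit 0x18020001f00038001c00000000000000) := Q_46 (nat_lit 93) (C_46 L131475 (C_46 L131477 (C_46 L131479 N_46))) (by decide +kernel)
theorem L131481 : W_46 (nat_lit 7) (nat_lit 0x10000e0012000000000000000000000000000) (nat_lit 0x0) (nat_lit 0x1802c001f00038001c00000000000000) := T_46 (nat_lit 110) (nat_lit 111) (nat_lit 1) (nat_lit 10) (nat_lit 6) L131480 (by decide +kernel)
theorem L131482 : W_46 (nat_lit 16) (nat_lit 0x10000e0002000000000000000000000000000) (nat_lit 0x0) (nat_lit 0x500038001c001c4007180fcc07fc07ff01ff803f4018000000) := Q_46 (nat_lit 112) (C_46 L131116 (C_46 L131470 (C_46 L131471 (C_46 L131481 N_46)))) (by decide +kernel)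
theorem L131483 : W_46 (nat_lit 2) (nat_lit 0x10000e0002400000000000000000000000000) (nat_lit 0x0) (nat_lit 0x10001800000000000000000000000000) := D_46 (nat_lit 107) (nat_lit 124) (nat_lit 108) (nat_lit 0) (nat_lit 8) (nat_lit 7) (nat_lit 3) (nat_lit 4) (nat_lit 6) (by decide +kernel)
theorem L131484 : W_46 (nat_lit 2) (nat_lit 0x10000ec00240002000f000400000000000000) (nat_lit 0x0) (nat_lit 0x800240000000000000) := D_46 (nat_lit 71) (nat_lit 57) (nat_lit 54) (nat_lit 2) (nat_lit 3) (nat_lit 4) (nat_lit 4) (nat_lit 4) (nat_lit 7) (by decide +kernel)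
theorem L131485 : W_46 (nat_lit 3) (nat_lit 0x10000ec00240002000f000000000000000000) (nat_lit 0x0) (nat_lit 0x800e40000000000000) := T_46 (nat_lit 58) (nat_lit 59) (nat_lit 2) (nat_lit 4) (nat_lit 4) L131484 (by decide +kernel)
theorem L131486 : W_46 (nat_lit 4) (nat_lit 0x10000e800240002000f000000000000000000) (nat_lit 0x0) (nat_lit 0x80004000000000000800e40000000000000) := T_46 (nat_lit 122) (nat_lit 139) (nat_lit 5) (nat_lit 4) (nat_lit 4) L131485 (by decide +kernel)
theorem L131487 : W_46 (nat_lit 5) (nat_lit 0x10000e800240002000b000000000000000000) (nat_lit 0x0) (nat_lit 0x80004000000010004800e40000000000000) := T_46 (nat_lit 74) (nat_lit 88) (nat_lit 1) (nat_lit 7) (nat_lit 4) L131486 (by decide +kernel)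
theorem L131488 : W_46 (nat_lit 6) (nat_lit 0x10000e8002400020003000000000000000000) (nat_lit 0x0) (nat_lit 0x8000400000011000c800e40000000000000) := T_46 (nat_lit 75) (nat_lit 92) (nat_lit 7) (nat_lit 7) (nat_lit 4) L131487 (by decide +kernel)
theorem L131489 : W_46 (nat_lit 7) (nat_lit 0x10000e8002400020001000000000000000000) (nat_lit 0x0) (nat_lit 0x8000400000011000e800f40000000000000) := T_46 (nat_lit 73) (nat_lit 56) (nat_lit 6) (nat_lit 4) (nat_lit 7) L131488 (by decide +kernel)
theorem L131490 : W_46 (nat_lit 2) (nat_lit 0x10000ec00240006001b800000000000000000) (nat_lit 0x0) (nat_lit 0x80000600000000000000000) := D_46 (nat_lit 70) (nat_lit 91) (nat_lit 69) (nat_lit 3) (nat_lit 2) (nat_lit 4) (nat_lit 3) (nat_lit 1) (nat_lit 4) (by decide +kernel)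
theorem L131491 : W_46 (nat_lit 3) (nat_lit 0x10000ec00240006001b000000000000000000) (nat_lit 0x0) (nat_lit 0x80000e00040000000000000) := T_46 (nat_lit 71) (nat_lit 54) (nat_lit 4) (nat_lit 4) (nat_lit 7) L131490 (by decide +kernel)
theorem L131492 : W_46 (nat_lit 4) (nat_lit 0x10000ec00240006000b000000000000000000) (nat_lit 0x0) (nat_lit 0x80014e00040000000000000) := T_46 (nat_lit 76) (nat_lit 74) (nat_lit 1) (nat_lit 8) (nat_lit 4) L131491 (by decide +kernel)
theorem L131493 : W_46 (nat_lit 5) (nat_lit 0x10000ec002400060003000000000000000000) (nat_lit 0x0) (nat_lit 0x18001ce00040000000000000) := T_46 (nat_lit 75) (nat_lit 92) (nat_lit 7) (nat_lit 7) (nat_lit 4) L131492 (by decide +kernel)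
theorem L131494 : W_46 (nat_lit 6) (nat_lit 0x10000ec002400020003000000000000000000) (nat_lit 0x0) (nat_lit 0x1000000000001c001ce00040000000000000) := T_46 (nat_lit 90) (nat_lit 140) (nat_lit 6) (nat_lit 4) (nat_lit 8) L131493 (by decide +kernel)
theorem L131495 : W_46 (nat_lit 7) (nat_lit 0x10000e8002400020003000000000000000000) (nat_lit 0x0) (nat_lit 0x1800040000001c001ce00040000000000000) := T_46 (nat_lit 122) (nat_lit 139) (nat_lit 5) (nat_lit 4) (nat_lit 4) L131494 (by decide +kernel)
theorem L131496 : W_46 (nat_lit 8) (nat_lit 0x10000e8002400020001000000000000000000) (nat_lit 0x0) (nat_lit 0x1800040000001c001ee00140000000000000) := T_46 (nat_lit 73) (nat_lit 56) (nat_lit 6) (nat_lit 4) (nat_lit 7) L131495 (by decide +kernel)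
theorem L131497 : W_46 (nat_lit 2) (nat_lit 0x10000e8002400030000800000000000000000) (nat_lit 0x0) (nat_lit 0x1000040002000000000) := D_46 (nat_lit 54) (nat_lit 37) (nat_lit 72) (nat_lit 7) (nat_lit 3) (nat_lit 2) (nat_lit 4) (nat_lit 4) (nat_lit 7) (by decide +kernel)
theorem L131498 : W_46 (nat_lit 2) (nat_lit 0x20011000e8002400030000000000000000000000) (nat_lit 0x0) (nat_lit 0x20001000080000000000000000000000000000000000) := D_46 (nat_lit 156) (nat_lit 139) (nat_lit 173) (nat_lit 5) (nat_lit 4) (nat_lit 5) (nat_lit 5) (nat_lit 4) (nat_lit 6) (by decide +kernel)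
theorem L131499 : W_46 (nat_lit 3) (nat_lit 0x11000e8002400030000000000000000000000) (nat_lit 0x0) (nat_lit 0x20003000080000000200000000000000000000000000) := T_46 (nat_lit 157) (nat_lit 105) (nat_lit 4) (nat_lit 4) (nat_lit 9) L131498 (by decide +kernel)
theorem L131500 : W_46 (nat_lit 2) (nat_lit 0x10000ec002400020001000080000000000000) (nat_lit 0x0) (nat_lit 0x800040002000000000) := D_46 (nat_lit 54) (nat_lit 37) (nat_lit 71) (nat_lit 4) (nat_lit 4) (nat_lit 6) (nat_lit 4) (nat_lit 4) (nat_lit 7) (by decide +kernel)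
theorem L131501 : W_46 (nat_lit 3) (nat_lit 0x10000ec002400020001000000000000000000) (nat_lit 0x0) (nat_lit 0x2000000008000c0002000000000) := T_46 (nat_lit 55) (nat_lit 105) (nat_lit 5) (nat_lit 4) (nat_lit 3) L131500 (by decide +kernel)
theorem L131502 : W_46 (nat_lit 4) (nat_lit 0x10000e8002400020001000000000000000000) (nat_lit 0x0) (nat_lit 0x800040002000000008000c0002000000000) := T_46 (nat_lit 122) (nat_lit 139) (nat_lit 5) (nat_lit 4) (nat_lit 4) L131501 (by decide +kernel)
theorem L131503 : W_46 (nat_lit 2) (nat_lit 0x10000e8002400020003800000000000000000) (nat_lit 0x0) (nat_lit 0x100000000000050000000000000000000000) := D_46 (nat_lit 140) (nat_lit 90) (nat_lit 88) (nat_lit 6) (nat_lit 4) (nat_lit 8) (nat_lit 4) (nat_lit 4) (nat_lit 8) (by decide +kernel)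
theorem L131504 : W_46 (nat_lit 3) (nat_lit 0x10000e8002400020003000000000000000000) (nat_lit 0x0) (nat_lit 0x100000000000050000800040000000000000) := T_46 (nat_lit 71) (nat_lit 54) (nat_lit 4) (nat_lit 4) (nat_lit 7) L131503 (by decide +kernel)
theorem L131505 : W_46 (nat_lit 4) (nat_lit 0x10000e8002400020001000000000000000000) (nat_lit 0x0) (nat_lit 0x100000000000050002800140000000000000) := T_46 (nat_lit 73) (nat_lit 56) (nat_lit 6) (nat_lit 4) (nat_lit 7) L131504 (by decide +kernel)
theorem L131506 : W_46 (nat_lit 2) (nat_lit 0x10000ec002400060003000080002000000000) (nat_lit 0x0) (nat_lit 0x4000300000) := D_46 (nat_lit 38) (nat_lit 20) (nat_lit 21) (nat_lit 4) (nat_lit 4) (nat_lit 5) (nat_lit 7) (nat_lit 4) (nat_lit 1) (by decide +kernel)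
theorem L131507 : W_46 (nat_lit 3) (nat_lit 0x10000ec002400020003000080002000000000) (nat_lit 0x0) (nat_lit 0x100000000000040000000000004000300000) := T_46 (nat_lit 90) (nat_lit 140) (nat_lit 6) (nat_lit 4) (nat_lit 8) L131506 (by decide +kernel)
theorem L131508 : W_46 (nat_lit 4) (nat_lit 0x10000ec002400020003000080000000000000) (nat_lit 0x0) (nat_lit 0x100000000000040000000040006000300000) := T_46 (nat_lit 37) (nat_lit 54) (nat_lit 4) (nat_lit 4) (nat_lit 6) L131507 (by decide +kernel)
theorem L131509 : W_46 (nat_lit 5) (nat_lit 0x10000ec002400020003000000000000000000) (nat_lit 0x0) (nat_lit 0x1000000002000400000000c0006000300000) := T_46 (nat_lit 55) (nat_lit 105) (nat_lit 5) (nat_lit 4) (nat_lit 3) L131508 (by decide +kernel)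
theorem L131510 : W_46 (nat_lit 6) (nat_lit 0x10000e8002400020003000000000000000000) (nat_lit 0x0) (nat_lit 0x1800040002000400000000c0006000300000) := T_46 (nat_lit 122) (nat_lit 139) (nat_lit 5) (nat_lit 4) (nat_lit 4) L131509 (by decide +kernel)
theorem L131511 : W_46 (nat_lit 7) (nat_lit 0x10000e8002400020001000000000000000000) (nat_lit 0x0) (nat_lit 0x1800040002000400020001c0006000300000) := T_46 (nat_lit 73) (nat_lit 56) (nat_lit 6) (nat_lit 4) (nat_lit 7) L131510 (by decide +kernel)
theorem L131512 : W_46 (nat_lit 2) (nat_lit 0x11000ec002600020003000000000000000000) (nat_lit 0x0) (nat_lit 0x40002000000000000000010000000000000000000000) := D_46 (nat_lit 157) (nat_lit 174) (nat_lit 88) (nat_lit 4) (nat_lit 4) (nat_lit 10) (nat_lit 4) (nat_lit 4) (nat_lit 9) (by decide +kernel)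
theorem L131513 : W_46 (nat_lit 3) (nat_lit 0x10000ec002600020003000000000000000000) (nat_lit 0x0) (nat_lit 0x40002000100000000000050000000000000000000000) := T_46 (nat_lit 140) (nat_lit 90) (nat_lit 6) (nat_lit 4) (nat_lit 8) L131512 (by decide +kernel)
theorem L131514 : W_46 (nat_lit 4) (nat_lit 0x10000ec002400020003000000000000000000) (nat_lit 0x0) (nat_lit 0x40002000100000000200050000000080000000000000) := T_46 (nat_lit 105) (nat_lit 55) (nat_lit 5) (nat_lit 4) (nat_lit 3) L131513 (by decide +kernel)
theorem L131515 : W_46 (nat_lit 5) (nat_lit 0x10000e8002400020003000000000000000000) (nat_lit 0x0) (nat_lit 0x40002000180004000200050000000080000000000000) := T_46 (nat_lit 122) (nat_lit 139) (nat_lit 5) (nat_lit 4) (nat_lit 4) L131514 (by decide +kernel)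
theorem L131516 : W_46 (nat_lit 6) (nat_lit 0x10000e8002400020001000000000000000000) (nat_lit 0x0) (nat_lit 0x40002000180004000200050002000180000000000000) := T_46 (nat_lit 73) (nat_lit 56) (nat_lit 6) (nat_lit 4) (nat_lit 7) L131515 (by decide +kernel)
theorem L131517 : W_46 (nat_lit 8) (nat_lit 0x10000e8002400020000000000000000000000) (nat_lit 0x0) (nat_lit 0x400020001800040002000500038001c0006000300000) := Q_46 (nat_lit 72) (C_46 L131505 (C_46 L131502 (C_46 L131511 (C_46 L131516 N_46)))) (by decide +kernel)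
theorem L131518 : W_46 (nat_lit 2) (nat_lit 0x10000ec002400020001000080000000000000) (nat_lit 0x0) (nat_lit 0x2000100008000000000) := D_46 (nat_lit 56) (nat_lit 73) (nat_lit 39) (nat_lit 6) (nat_lit 4) (nat_lit 7) (nat_lit 6) (nat_lit 4) (nat_lit 6) (by decide +kernel)
theorem L131519 : W_46 (nat_lit 3) (nat_lit 0x10000ec002400020001000000000000000000) (nat_lit 0x0) (nat_lit 0x200000002000180008000000000) := T_46 (nat_lit 55) (nat_lit 105) (nat_lit 5) (nat_lit 4) (nat_lit 3) L131518 (by decide +kernel)
theorem L131520 : W_46 (nat_lit 4) (nat_lit 0x10000e8002400020001000000000000000000) (nat_lit 0x0) (nat_lit 0x80004000200000002000180008000000000) := T_46 (nat_lit 122) (nat_lit 139) (nat_lit 5) (nat_lit 4) (nat_lit 4) L131519 (by decide +kernel)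
theorem L131521 : W_46 (nat_lit 2) (nat_lit 0x10000e8002400020001000180000000000000) (nat_lit 0x0) (nat_lit 0x800040002000000000) := D_46 (nat_lit 54) (nat_lit 71) (nat_lit 37) (nat_lit 4) (nat_lit 4) (nat_lit 7) (nat_lit 4) (nat_lit 4) (nat_lit 6) (by decide +kernel)
theorem L131522 : W_46 (nat_lit 3) (nat_lit 0x10000e8002400020001000100000000000000) (nat_lit 0x0) (nat_lit 0x8000c000a000000000) := T_46 (nat_lit 55) (nat_lit 39) (nat_lit 6) (nat_lit 4) (nat_lit 6) L131521 (by decide +kernel)
theorem L131523 : W_46 (nat_lit 2) (nat_lit 0x11800e8002400060001000000000000000000) (nat_lit 0x0) (nat_lit 0x10000800040000000000000) := D_46 (nat_lit 71) (nat_lit 54) (nat_lit 88) (nat_lit 4) (nat_lit 4) (nat_lit 7) (nat_lit 4) (nat_lit 4) (nat_lit 8) (by decide +kernel)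
theorem L131524 : W_46 (nat_lit 3) (nat_lit 0x11800e8002400060000000000000000000000) (nat_lit 0x0) (nat_lit 0x4000000010001800040000000000000) := T_46 (nat_lit 72) (nat_lit 122) (nat_lit 5) (nat_lit 4) (nat_lit 4) L131523 (by decide +kernel)
theorem L131525 : W_46 (nat_lit 4) (nat_lit 0x11000e8002400060000000000000000000000) (nat_lit 0x0) (nat_lit 0x1000080004000000010001800040000000000000) := T_46 (nat_lit 139) (nat_lit 156) (nat_lit 5) (nat_lit 4) (nat_lit 5) L131524 (by decide +kernel)
theorem L131526 : W_46 (nat_lit 2) (nat_lit 0x10000ec0024000200090003c0020000000000) (nat_lit 0x0) (nat_lit 0x10000400040000000000) := D_46 (nat_lit 58) (nat_lit 76) (nat_lit 42) (nat_lit 3) (nat_lit 4) (nat_lit 3) (nat_lit 2) (nat_lit 4) (nat_lit 3) (by decide +kernel)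
theorem L131527 : W_46 (nat_lit 3) (nat_lit 0x10000ec0024000200090003c0000000000000) (nat_lit 0x0) (nat_lit 0x10000400070000000000) := T_46 (nat_lit 41) (nat_lit 40) (nat_lit 2) (nat_lit 3) (nat_lit 3) L131526 (by decide +kernel)
theorem L131528 : W_46 (nat_lit 4) (nat_lit 0x10000ec0024000200090001c0000000000000) (nat_lit 0x0) (nat_lit 0x14000600070000000000) := T_46 (nat_lit 57) (nat_lit 74) (nat_lit 3) (nat_lit 3) (nat_lit 3) L131527 (by decide +kernel)
theorem L131529 : W_46 (nat_lit 5) (nat_lit 0x10000ec0024000200090000c0000000000000) (nat_lit 0x0) (nat_lit 0x14000700078000000000) := T_46 (nat_lit 56) (nat_lit 39) (nat_lit 6) (nat_lit 4) (nat_lit 6) L131528 (by decide +kernel)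
theorem L131530 : W_46 (nat_lit 6) (nat_lit 0x10000ec002400020009000040000000000000) (nat_lit 0x0) (nat_lit 0x1400078007a000000000) := T_46 (nat_lit 55) (nat_lit 37) (nat_lit 4) (nat_lit 4) (nat_lit 6) L131529 (by decide +kernel)
theorem L131531 : W_46 (nat_lit 7) (nat_lit 0x10000ec002400020009000000000000000000) (nat_lit 0x0) (nat_lit 0x148007c007a000000000) := T_46 (nat_lit 54) (nat_lit 71) (nat_lit 4) (nat_lit 4) (nat_lit 7) L131530 (by decide +kernel)
theorem L131532 : W_46 (nat_lit 8) (nat_lit 0x10000e8002400020009000000000000000000) (nat_lit 0x0) (nat_lit 0x800040000000000148007c007a000000000) := T_46 (nat_lit 122) (nat_lit 139) (nat_lit 5) (nat_lit 4) (nat_lit 4) L131531 (by decide +kernel)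
theorem L131533 : W_46 (nat_lit 9) (nat_lit 0x10000e8002400020001000000000000000000) (nat_lit 0x0) (nat_lit 0x8000400000010001c8007c007a000000000) := T_46 (nat_lit 75) (nat_lit 92) (nat_lit 7) (nat_lit 7) (nat_lit 4) L131532 (by decide +kernel)
theorem L131534 : W_46 (nat_lit 2) (nat_lit 0x11000e8002400020009800000000000000000) (nat_lit 0x0) (nat_lit 0x1000080004000000000000000000000000000000) := D_46 (nat_lit 139) (nat_lit 122) (nat_lit 156) (nat_lit 5) (nat_lit 4) (nat_lit 4) (nat_lit 5) (nat_lit 4) (nat_lit 5) (by decide +kernel)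
theorem L131535 : W_46 (nat_lit 3) (nat_lit 0x10000e8002400020009800000000000000000) (nat_lit 0x0) (nat_lit 0x1000180004000000010000000000000000000000) := T_46 (nat_lit 140) (nat_lit 88) (nat_lit 4) (nat_lit 4) (nat_lit 8) L131534 (by decide +kernel)
theorem L131536 : W_46 (nat_lit 4) (nat_lit 0x10000e8002400020001800000000000000000) (nat_lit 0x0) (nat_lit 0x1000180004000000110008000000000000000000) := T_46 (nat_lit 75) (nat_lit 92) (nat_lit 7) (nat_lit 7) (nat_lit 4) L131535 (by decide +kernel)
theorem L131537 : W_46 (nat_lit 5) (nat_lit 0x10000e8002400020001000000000000000000) (nat_lit 0x0) (nat_lit 0x1000180004000000110008800040000000000000) := T_46 (nat_lit 71) (nat_lit 54) (nat_lit 4) (nat_lit 4) (nat_lit 7) L131536 (by decide +kernel)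
theorem L131538 : W_46 (nat_lit 2) (nat_lit 0x10000e800240002000f000000000000000000) (nat_lit 0x0) (nat_lit 0x100000000000040010000000000000000000) := D_46 (nat_lit 90) (nat_lit 76) (nat_lit 140) (nat_lit 1) (nat_lit 8) (nat_lit 4) (nat_lit 6) (nat_lit 4) (nat_lit 8) (by decide +kernel)
theorem L131539 : W_46 (nat_lit 4) (nat_lit 0x10000e8002400020001000000000000000000) (nat_lit 0x0) (nat_lit 0x28001c000a000000000) := T_46 (nat_lit 56) (nat_lit 73) (nat_lit 6) (nat_lit 4) (nat_lit 7) L131522 (by decide +kernel)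
theorem L131540 : W_46 (nat_lit 2) (nat_lit 0x10002e00034000c000e000000000000000000) (nat_lit 0x0) (nat_lit 0x30010000000000000000000) := D_46 (nat_lit 89) (nat_lit 88) (nat_lit 76) (nat_lit 3) (nat_lit 3) (nat_lit 5) (nat_lit 1) (nat_lit 8) (nat_lit 4) (by decide +kernel)
theorem L131541 : W_46 (nat_lit 3) (nat_lit 0x10002e000340008000e000000000000000000) (nat_lit 0x0) (nat_lit 0x400000000000070010000000000000000000) := T_46 (nat_lit 90) (nat_lit 142) (nat_lit 4) (nat_lit 6) (nat_lit 8) L131540 (by decide +kernel)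
theorem L131542 : W_46 (nat_lit 4) (nat_lit 0x10002e000340008000c000000000000000000) (nat_lit 0x0) (nat_lit 0x400000000000070012000100000000000000) := T_46 (nat_lit 73) (nat_lit 56) (nat_lit 4) (nat_lit 6) (nat_lit 7) L131541 (by decide +kernel)
theorem L131543 : W_46 (nat_lit 5) (nat_lit 0x10000e000340008000c000000000000000000) (nat_lit 0x0) (nat_lit 0x400300000000070012000100000000000000) := T_46 (nat_lit 129) (nat_lit 128) (nat_lit 0) (nat_lit 10) (nat_lit 7) L131542 (by decide +kernel)
theorem L131544 : W_46 (nat_lit 6) (nat_lit 0x10000e0003400080008000000000000000000) (nat_lit 0x0) (nat_lit 0x400300000000070016000300000000000000) := T_46 (nat_lit 74) (nat_lit 57) (nat_lit 7) (nat_lit 6) (nat_lit 3) L131543 (by decide +kernel)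
theorem L131545 : W_46 (nat_lit 2) (nat_lit 0x14002e00034001c0000000000000000000000) (nat_lit 0x0) (nat_lit 0x200030000000000000000000000) := D_46 (nat_lit 89) (nat_lit 88) (nat_lit 105) (nat_lit 3) (nat_lit 3) (nat_lit 5) (nat_lit 1) (nat_lit 7) (nat_lit 5) (by decide +kernel)
theorem L131546 : W_46 (nat_lit 3) (nat_lit 0x14002e0003400180000000000000000000000) (nat_lit 0x0) (nat_lit 0x200070002000000000000000000) := T_46 (nat_lit 90) (nat_lit 73) (nat_lit 4) (nat_lit 6) (nat_lit 8) L131545 (by decide +kernel)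
theorem L131547 : W_46 (nat_lit 4) (nat_lit 0x10002e0003400180000000000000000000000) (nat_lit 0x0) (nat_lit 0x8000400000000200070002000000000000000000) := T_46 (nat_lit 142) (nat_lit 159) (nat_lit 6) (nat_lit 6) (nat_lit 9) L131546 (by decide +kernel)
theorem L131548 : W_46 (nat_lit 5) (nat_lit 0x10000e0003400180000000000000000000000) (nat_lit 0x0) (nat_lit 0x8000400300000200070002000000000000000000) := T_46 (nat_lit 129) (nat_lit 128) (nat_lit 0) (nat_lit 10) (nat_lit 7) L131547 (by decide +kernel)
theorem L131549 : W_46 (nat_lit 5) (nat_lit 0x10002e0003400080004000000000000000000) (nat_lit 0x0) (nat_lit 0x40000000000007001a000500000000000000) := T_46 (nat_lit 75) (nat_lit 58) (nat_lit 6) (nat_lit 6) (nat_lit 7) L131542 (by decide +kernel)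
theorem L131550 : W_46 (nat_lit 6) (nat_lit 0x10002e0003400080000000000000000000000) (nat_lit 0x0) (nat_lit 0x40000000000007001e000700000000000000) := T_46 (nat_lit 74) (nat_lit 57) (nat_lit 7) (nat_lit 6) (nat_lit 3) L131549 (by decide +kernel)
theorem L131551 : W_46 (nat_lit 7) (nat_lit 0x10000e0003400080000000000000000000000) (nat_lit 0x0) (nat_lit 0x40030000000007001e000700000000000000) := T_46 (nat_lit 129) (nat_lit 128) (nat_lit 0) (nat_lit 10) (nat_lit 7) L131550 (by decide +kernel)
theorem L131552 : W_46 (nat_lit 2) (nat_lit 0x10000e0003400080004000000000000000000) (nat_lit 0x0) (nat_lit 0x100008000400000000000000) := D_46 (nat_lit 75) (nat_lit 92) (nat_lit 58) (nat_lit 7) (nat_lit 7) (nat_lit 4) (nat_lit 6) (nat_lit 6) (nat_lit 7) (by decide +kernel)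
theorem L131553 : W_46 (nat_lit 3) (nat_lit 0x10000e0003400080000000000000000000000) (nat_lit 0x0) (nat_lit 0x10000c000600000000000000) := T_46 (nat_lit 74) (nat_lit 57) (nat_lit 7) (nat_lit 6) (nat_lit 3) L131552 (by decide +kernel)
theorem L131554 : W_46 (nat_lit 7) (nat_lit 0x10000e0003400080000000000000000000000) (nat_lit 0x0) (nat_lit 0x40030000000017001e000300000000000000) := T_46 (nat_lit 75) (nat_lit 92) (nat_lit 7) (nat_lit 7) (nat_lit 4) L131544 (by decide +kernel)
theorem L131555 : W_46 (nat_lit 6) (nat_lit 0x10000e0003400080000000000000000000000) (nat_lit 0x0) (nat_lit 0x800040030000020017000a000000000000000000) := T_46 (nat_lit 92) (nat_lit 75) (nat_lit 7) (nat_lit 7) (nat_lit 4) L131548 (by decide +kernel)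
theorem L131556 : W_46 (nat_lit 2) (nat_lit 0x14002e0003400080006000000000000000000) (nat_lit 0x0) (nat_lit 0x100008000000000000000100000000000000000000000) := D_46 (nat_lit 159) (nat_lit 92) (nat_lit 176) (nat_lit 6) (nat_lit 6) (nat_lit 9) (nat_lit 6) (nat_lit 6) (nat_lit 10) (by decide +kernel)
theorem L131557 : W_46 (nat_lit 3) (nat_lit 0x10002e0003400080006000000000000000000) (nat_lit 0x0) (nat_lit 0x100008000400000000000140000000000000000000000) := T_46 (nat_lit 142) (nat_lit 90) (nat_lit 4) (nat_lit 6) (nat_lit 8) L131556 (by decide +kernel)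
theorem L131558 : W_46 (nat_lit 4) (nat_lit 0x10002e0003400080004000000000000000000) (nat_lit 0x0) (nat_lit 0x100008000400000000000140002000100000000000000) := T_46 (nat_lit 73) (nat_lit 56) (nat_lit 4) (nat_lit 6) (nat_lit 7) L131557 (by decide +kernel)
theorem L131559 : W_46 (nat_lit 5) (nat_lit 0x10002e0003400080000000000000000000000) (nat_lit 0x0) (nat_lit 0x100008000400000000000140006000300000000000000) := T_46 (nat_lit 74) (nat_lit 57) (nat_lit 7) (nat_lit 6) (nat_lit 3) L131558 (by decide +kernel)
theorem L131560 : W_46 (nat_lit 6) (nat_lit 0x10000e0003400080000000000000000000000) (nat_lit 0x0) (nat_lit 0x100008000400300000000140006000300000000000000) := T_46 (nat_lit 129) (nat_lit 128) (nat_lit 0) (nat_lit 10) (nat_lit 7) L131559 (by decide +kernel)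
theorem L131561 : W_46 (nat_lit 8) (nat_lit 0x10000e0003400000000000000000000000000) (nat_lit 0x0) (nat_lit 0x1000080004003000002001f001e000700000000000000) := Q_46 (nat_lit 91) (C_46 L131551 (C_46 L131553 (C_46 L131554 (C_46 L131555 (C_46 L131560 N_46))))) (by decide +kernel)
theorem L131562 : W_46 (nat_lit 9) (nat_lit 0x10000e0002400000000000000000000000000) (nat_lit 0x0) (nat_lit 0x100008000400300001a001f001e000700000000000000) := T_46 (nat_lit 108) (nat_lit 107) (nat_lit 3) (nat_lit 4) (nat_lit 6) L131561 (by decide +kernel)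
theorem L131563 : W_46 (nat_lit 2) (nat_lit 0x10000e8002400000000000000000000000000) (nat_lit 0x0) (nat_lit 0x10000a00000000000000000000000000) := D_46 (nat_lit 124) (nat_lit 105) (nat_lit 107) (nat_lit 0) (nat_lit 7) (nat_lit 7) (nat_lit 0) (nat_lit 8) (nat_lit 7) (by decide +kernel)
theorem L131564 : W_46 (nat_lit 6) (nat_lit 0x10000e8002400020000000000000000000000) (nat_lit 0x0) (nat_lit 0x100018000400020011000b8001c000a000000000) := Q_46 (nat_lit 72) (C_46 L131539 (C_46 L131537 (C_46 L131520 N_46))) (by decide +kernel)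
theorem L131565 : W_46 (nat_lit 10) (nat_lit 0x10000e8002400020000000000000000000000) (nat_lit 0x0) (nat_lit 0x8000400020011001f800fc007a000000000) := Q_46 (nat_lit 72) (C_46 L131539 (C_46 L131533 (C_46 L131502 (C_46 L131489 (C_46 L131520 N_46))))) (by decide +kernel)
theorem L131566 : W_46 (nat_lit 2) (nat_lit 0x11800e8002400020009000000000000000000) (nat_lit 0x0) (nat_lit 0x10000800040000000000000) := D_46 (nat_lit 71) (nat_lit 54) (nat_lit 88) (nat_lit 4) (nat_lit 4) (nat_lit 7) (nat_lit 4) (nat_lit 4) (nat_lit 8) (by decide +kernel)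
theorem L131567 : W_46 (nat_lit 3) (nat_lit 0x11800e8002400020008000000000000000000) (nat_lit 0x0) (nat_lit 0x4000000010001800040000000000000) := T_46 (nat_lit 72) (nat_lit 122) (nat_lit 5) (nat_lit 4) (nat_lit 4) L131566 (by decide +kernel)
theorem L131568 : W_46 (nat_lit 4) (nat_lit 0x11000e8002400020008000000000000000000) (nat_lit 0x0) (nat_lit 0x1000080004000000010001800040000000000000) := T_46 (nat_lit 139) (nat_lit 156) (nat_lit 5) (nat_lit 4) (nat_lit 5) L131567 (by decide +kernel)
theorem L131569 : W_46 (nat_lit 5) (nat_lit 0x11000e8002400020000000000000000000000) (nat_lit 0x0) (nat_lit 0x1000080004000000110009800040000000000000) := T_46 (nat_lit 75) (nat_lit 92) (nat_lit 7) (nat_lit 7) (nat_lit 4) L131568 (by decide +kernel)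
theorem L131570 : W_46 (nat_lit 4) (nat_lit 0x11000e8002400020000000000000000000000) (nat_lit 0x0) (nat_lit 0x20003000080000000200010000800000000000000000) := T_46 (nat_lit 88) (nat_lit 71) (nat_lit 4) (nat_lit 4) (nat_lit 8) L131499 (by decide +kernel)
theorem L131571 : W_46 (nat_lit 2) (nat_lit 0xa00020011000e8002400030008000000000000000000) (nat_lit 0x0) (nat_lit 0x1400040000000000000000000000000000000000000000000) := D_46 (nat_lit 174) (nat_lit 190) (nat_lit 192) (nat_lit 5) (nat_lit 4) (nat_lit 7) (nat_lit 7) (nat_lit 4) (nat_lit 7) (by decide +kernel)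
theorem L131572 : W_46 (nat_lit 3) (nat_lit 0x200020011000e8002400030008000000000000000000) (nat_lit 0x0) (nat_lit 0x14000c0004000000000000000000000000000000000000000) := T_46 (nat_lit 175) (nat_lit 158) (nat_lit 7) (nat_lit 4) (nat_lit 6) L131571 (by decide +kernel)
theorem L131573 : W_46 (nat_lit 4) (nat_lit 0x20011000e8002400030008000000000000000000) (nat_lit 0x0) (nat_lit 0x14000e0005000000000000000000000000000000000000000) := T_46 (nat_lit 173) (nat_lit 156) (nat_lit 5) (nat_lit 4) (nat_lit 6) L131572 (by decide +kernel)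
theorem L131574 : W_46 (nat_lit 5) (nat_lit 0x11000e8002400030008000000000000000000) (nat_lit 0x0) (nat_lit 0x14000e0007000000000000200000000000000000000000000) := T_46 (nat_lit 157) (nat_lit 105) (nat_lit 4) (nat_lit 4) (nat_lit 9) L131573 (by decide +kernel)
theorem L131575 : W_46 (nat_lit 6) (nat_lit 0x11000e8002400020008000000000000000000) (nat_lit 0x0) (nat_lit 0x14000e0007000000000000200010000800000000000000000) := T_46 (nat_lit 88) (nat_lit 71) (nat_lit 4) (nat_lit 4) (nat_lit 8) L131574 (by decide +kernel)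
theorem L131576 : W_46 (nat_lit 7) (nat_lit 0x11000e8002400020000000000000000000000) (nat_lit 0x0) (nat_lit 0x14000e0007000000000000200110008800000000000000000) := T_46 (nat_lit 75) (nat_lit 92) (nat_lit 7) (nat_lit 7) (nat_lit 4) L131575 (by decide +kernel)
theorem L131577 : W_46 (nat_lit 2) (nat_lit 0x11000ec002400160001800080000000000000) (nat_lit 0x0) (nat_lit 0x2000000000000800000000000000004000000000) := D_46 (nat_lit 107) (nat_lit 157) (nat_lit 38) (nat_lit 6) (nat_lit 4) (nat_lit 9) (nat_lit 7) (nat_lit 4) (nat_lit 2) (by decide +kernel)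
theorem L131578 : W_46 (nat_lit 3) (nat_lit 0x11000ec002400160001800000000000000000) (nat_lit 0x0) (nat_lit 0x2000000000000a00000000000080004000000000) := T_46 (nat_lit 55) (nat_lit 105) (nat_lit 5) (nat_lit 4) (nat_lit 3) L131577 (by decide +kernel)
theorem L131579 : W_46 (nat_lit 4) (nat_lit 0x11000e8002400160001800000000000000000) (nat_lit 0x0) (nat_lit 0x2000080004000a00000000000080004000000000) := T_46 (nat_lit 122) (nat_lit 139) (nat_lit 5) (nat_lit 4) (nat_lit 4) L131578 (by decide +kernel)
theorem L131580 : W_46 (nat_lit 5) (nat_lit 0x11000e8002400120001800000000000000000) (nat_lit 0x0) (nat_lit 0x2000080004000a000c0000000080004000000000) := T_46 (nat_lit 90) (nat_lit 91) (nat_lit 0) (nat_lit 7) (nat_lit 5) L131579 (by decide +kernel)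
theorem L131581 : W_46 (nat_lit 6) (nat_lit 0x11000e8002400120000800000000000000000) (nat_lit 0x0) (nat_lit 0x2000080004000a000c00010000c0004000000000) := T_46 (nat_lit 72) (nat_lit 54) (nat_lit 4) (nat_lit 4) (nat_lit 7) L131580 (by decide +kernel)
theorem L131582 : W_46 (nat_lit 7) (nat_lit 0x11000e8002400020000800000000000000000) (nat_lit 0x0) (nat_lit 0x2000080004000a001c00090000c0004000000000) := T_46 (nat_lit 92) (nat_lit 75) (nat_lit 7) (nat_lit 7) (nat_lit 4) L131581 (by decide +kernel)
theorem L131583 : W_46 (nat_lit 8) (nat_lit 0x11000e8002400020000000000000000000000) (nat_lit 0x0) (nat_lit 0x2000080004000a001d00098000c0004000000000) := T_46 (nat_lit 71) (nat_lit 88) (nat_lit 4) (nat_lit 4) (nat_lit 8) L131582 (by decide +kernel)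
theorem L131584 : W_46 (nat_lit 2) (nat_lit 0x11800e80024000200090003c0020000000000) (nat_lit 0x0) (nat_lit 0x10000400040000000000) := D_46 (nat_lit 58) (nat_lit 76) (nat_lit 42) (nat_lit 3) (nat_lit 4) (nat_lit 3) (nat_lit 2) (nat_lit 4) (nat_lit 3) (by decide +kernel)
theorem L131585 : W_46 (nat_lit 3) (nat_lit 0x11800e80024000200090003c0000000000000) (nat_lit 0x0) (nat_lit 0x10000400070000000000) := T_46 (nat_lit 41) (nat_lit 40) (nat_lit 2) (nat_lit 3) (nat_lit 3) L131584 (by decide +kernel)
theorem L131586 : W_46 (nat_lit 4) (nat_lit 0x11800e80024000200090001c0000000000000) (nat_lit 0x0) (nat_lit 0x14000600070000000000) := T_46 (nat_lit 57) (nat_lit 74) (nat_lit 3) (nat_lit 3) (nat_lit 3) L131585 (by decide +kernel)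
theorem L131587 : W_46 (nat_lit 5) (nat_lit 0x11800e80024000200090000c0000000000000) (nat_lit 0x0) (nat_lit 0x14000700078000000000) := T_46 (nat_lit 56) (nat_lit 39) (nat_lit 6) (nat_lit 4) (nat_lit 6) L131586 (by decide +kernel)
theorem L131588 : W_46 (nat_lit 6) (nat_lit 0x11800e8002400020009000040000000000000) (nat_lit 0x0) (nat_lit 0x1400078007a000000000) := T_46 (nat_lit 55) (nat_lit 37) (nat_lit 4) (nat_lit 4) (nat_lit 6) L131587 (by decide +kernel)
theorem L131589 : W_46 (nat_lit 7) (nat_lit 0x11800e8002400020009000000000000000000) (nat_lit 0x0) (nat_lit 0x148007c007a000000000) := T_46 (nat_lit 54) (nat_lit 71) (nat_lit 4) (nat_lit 4) (nat_lit 7) L131588 (by decide +kernel)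
theorem L131590 : W_46 (nat_lit 8) (nat_lit 0x11800e8002400020008000000000000000000) (nat_lit 0x0) (nat_lit 0x40000000000158007c007a000000000) := T_46 (nat_lit 72) (nat_lit 122) (nat_lit 5) (nat_lit 4) (nat_lit 4) L131589 (by decide +kernel)
theorem L131591 : W_46 (nat_lit 9) (nat_lit 0x11000e8002400020008000000000000000000) (nat_lit 0x0) (nat_lit 0x10000800040000000000158007c007a000000000) := T_46 (nat_lit 139) (nat_lit 156) (nat_lit 5) (nat_lit 4) (nat_lit 5) L131590 (by decide +kernel)
theorem L131592 : W_46 (nat_lit 10) (nat_lit 0x11000e8002400020000000000000000000000) (nat_lit 0x0) (nat_lit 0x100008000400000010001d8007c007a000000000) := T_46 (nat_lit 75) (nat_lit 92) (nat_lit 7) (nat_lit 7) (nat_lit 4) L131591 (by decide +kernel)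
theorem L131593 : W_46 (nat_lit 2) (nat_lit 0x800030011000e8002600020008000000000000000000) (nat_lit 0x0) (nat_lit 0x1000040000000000004000000000000000000000000000000) := D_46 (nat_lit 174) (nat_lit 122) (nat_lit 192) (nat_lit 4) (nat_lit 4) (nat_lit 10) (nat_lit 7) (nat_lit 4) (nat_lit 7) (by decide +kernel)
theorem L131594 : W_46 (nat_lit 3) (nat_lit 0x30011000e8002600020008000000000000000000) (nat_lit 0x0) (nat_lit 0x10000c0004000000004000000000000000000000000000000) := T_46 (nat_lit 175) (nat_lit 158) (nat_lit 7) (nat_lit 4) (nat_lit 6) L131593 (by decide +kernel)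
theorem L131595 : W_46 (nat_lit 4) (nat_lit 0x30011000e8002400020008000000000000000000) (nat_lit 0x0) (nat_lit 0x10000c0004000000004000200010000000000000000000000) := T_46 (nat_lit 105) (nat_lit 88) (nat_lit 4) (nat_lit 4) (nat_lit 9) L131594 (by decide +kernel)
theorem L131596 : W_46 (nat_lit 5) (nat_lit 0x10011000e8002400020008000000000000000000) (nat_lit 0x0) (nat_lit 0x10000e0006000000004000200010000000000000000000000) := T_46 (nat_lit 157) (nat_lit 173) (nat_lit 5) (nat_lit 4) (nat_lit 6) L131595 (by decide +kernel)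
theorem L131597 : W_46 (nat_lit 6) (nat_lit 0x10011000e8002400020000000000000000000000) (nat_lit 0x0) (nat_lit 0x10000e0006000000004000200110008000000000000000000) := T_46 (nat_lit 75) (nat_lit 92) (nat_lit 7) (nat_lit 7) (nat_lit 4) L131596 (by decide +kernel)
theorem L131598 : W_46 (nat_lit 7) (nat_lit 0x11000e8002400020000000000000000000000) (nat_lit 0x0) (nat_lit 0x10000e0007000080004000200110008000000000000000000) := T_46 (nat_lit 156) (nat_lit 139) (nat_lit 5) (nat_lit 4) (nat_lit 5) L131597 (by decide +kernel)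
theorem L131599 : W_46 (nat_lit 11) (nat_lit 0x10000e8002400020000000000000000000000) (nat_lit 0x0) (nat_lit 0x14000e0007000180004000a001d001d8007c007e000000000) := Q_46 (nat_lit 140) (C_46 L131569 (C_46 L131570 (C_46 L131576 (C_46 L131583 (C_46 L131592 (C_46 L131598 N_46)))))) (by decide +kernel)
theorem L131600 : W_46 (nat_lit 2) (nat_lit 0x10000e80026000200090000c0004000000000) (nat_lit 0x0) (nat_lit 0x100008000400000) := D_46 (nat_lit 39) (nat_lit 56) (nat_lit 22) (nat_lit 6) (nat_lit 4) (nat_lit 6) (nat_lit 6) (nat_lit 4) (nat_lit 5) (by decide +kernel)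
theorem L131601 : W_46 (nat_lit 3) (nat_lit 0x10000e80026000200090000c0000000000000) (nat_lit 0x0) (nat_lit 0x1000000010000c000400000) := T_46 (nat_lit 38) (nat_lit 88) (nat_lit 5) (nat_lit 4) (nat_lit 2) L131600 (by decide +kernel)
theorem L131602 : W_46 (nat_lit 4) (nat_lit 0x10000e80024000200090000c0000000000000) (nat_lit 0x0) (nat_lit 0x400020001000000010000c000400000) := T_46 (nat_lit 105) (nat_lit 122) (nat_lit 5) (nat_lit 4) (nat_lit 3) L131601 (by decide +kernel)
theorem L131603 : W_46 (nat_lit 5) (nat_lit 0x10000e8002400020009000040000000000000) (nat_lit 0x0) (nat_lit 0x400020001000000018000e000400000) := T_46 (nat_lit 55) (nat_lit 37) (nat_lit 4) (nat_lit 4) (nat_lit 6) L131602 (by decide +kernel)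
theorem L131604 : W_46 (nat_lit 6) (nat_lit 0x10000e8002400020009000000000000000000) (nat_lit 0x0) (nat_lit 0x40002000100008001c000e000400000) := T_46 (nat_lit 54) (nat_lit 71) (nat_lit 4) (nat_lit 4) (nat_lit 7) L131603 (by decide +kernel)
theorem L131605 : W_46 (nat_lit 7) (nat_lit 0x10000e8002400020001000000000000000000) (nat_lit 0x0) (nat_lit 0x40002001100088001c000e000400000) := T_46 (nat_lit 75) (nat_lit 92) (nat_lit 7) (nat_lit 7) (nat_lit 4) L131604 (by decide +kernel)
theorem L131606 : W_46 (nat_lit 2) (nat_lit 0xa00020011000e8002400060009a00000000000000000) (nat_lit 0x0) (nat_lit 0x1400040000000000000000000000000000000000000000000) := D_46 (nat_lit 174) (nat_lit 190) (nat_lit 192) (nat_lit 5) (nat_lit 4) (nat_lit 7) (nat_lit 7) (nat_lit 4) (nat_lit 7) (by decide +kernel)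
theorem L131607 : W_46 (nat_lit 3) (nat_lit 0x200020011000e8002400060009a00000000000000000) (nat_lit 0x0) (nat_lit 0x14000c0004000000000000000000000000000000000000000) := T_46 (nat_lit 175) (nat_lit 158) (nat_lit 7) (nat_lit 4) (nat_lit 6) L131606 (by decide +kernel)
theorem L131608 : W_46 (nat_lit 4) (nat_lit 0x20011000e8002400060009a00000000000000000) (nat_lit 0x0) (nat_lit 0x14000e0005000000000000000000000000000000000000000) := T_46 (nat_lit 173) (nat_lit 156) (nat_lit 5) (nat_lit 4) (nat_lit 6) L131607 (by decide +kernel)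
theorem L131609 : W_46 (nat_lit 5) (nat_lit 0x11000e8002400060009a00000000000000000) (nat_lit 0x0) (nat_lit 0x14000e0007000000000000800000000000000000000000000) := T_46 (nat_lit 157) (nat_lit 107) (nat_lit 6) (nat_lit 4) (nat_lit 9) L131608 (by decide +kernel)
theorem L131610 : W_46 (nat_lit 6) (nat_lit 0x11000e8002400060009800000000000000000) (nat_lit 0x0) (nat_lit 0x14000e0007000000000000800000000600000000000000000) := T_46 (nat_lit 69) (nat_lit 70) (nat_lit 3) (nat_lit 1) (nat_lit 4) L131609 (by decide +kernel)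
theorem L131611 : W_46 (nat_lit 7) (nat_lit 0x11000e8002400020009800000000000000000) (nat_lit 0x0) (nat_lit 0x14000e0007000000000000800040002600000000000000000) := T_46 (nat_lit 90) (nat_lit 73) (nat_lit 6) (nat_lit 4) (nat_lit 8) L131610 (by decide +kernel)
theorem L131612 : W_46 (nat_lit 8) (nat_lit 0x10000e8002400020009800000000000000000) (nat_lit 0x0) (nat_lit 0x14000e0007000100000000800050002600000000000000000) := T_46 (nat_lit 140) (nat_lit 88) (nat_lit 4) (nat_lit 4) (nat_lit 8) L131611 (by decide +kernel)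
theorem L131613 : W_46 (nat_lit 9) (nat_lit 0x10000e8002400020001800000000000000000) (nat_lit 0x0) (nat_lit 0x14000e000700010000000080015000a600000000000000000) := T_46 (nat_lit 75) (nat_lit 92) (nat_lit 7) (nat_lit 7) (nat_lit 4) L131612 (by decide +kernel)
theorem L131614 : W_46 (nat_lit 10) (nat_lit 0x10000e8002400020001000000000000000000) (nat_lit 0x0) (nat_lit 0x14000e000700010000000080015000ae00040000000000000) := T_46 (nat_lit 71) (nat_lit 54) (nat_lit 4) (nat_lit 4) (nat_lit 7) L131613 (by decide +kernel)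
theorem L131615 : W_46 (nat_lit 3) (nat_lit 0x10000e800240002000b000000000000000000) (nat_lit 0x0) (nat_lit 0x100000000000050014000000000000000000) := T_46 (nat_lit 74) (nat_lit 88) (nat_lit 1) (nat_lit 7) (nat_lit 4) L131538 (by decide +kernel)
theorem L131616 : W_46 (nat_lit 4) (nat_lit 0x10000e8002400020003000000000000000000) (nat_lit 0x0) (nat_lit 0x10000000000015001c000000000000000000) := T_46 (nat_lit 75) (nat_lit 92) (nat_lit 7) (nat_lit 7) (nat_lit 4) L131615 (by decide +kernel)
theorem L131617 : W_46 (nat_lit 5) (nat_lit 0x10000e8002400020001000000000000000000) (nat_lit 0x0) (nat_lit 0x10000000000015001e000100000000000000) := T_46 (nat_lit 73) (nat_lit 56) (nat_lit 6) (nat_lit 4) (nat_lit 7) L131616 (by decide +kernel)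
theorem L131618 : W_46 (nat_lit 11) (nat_lit 0x10000e8002400020000000000000000000000) (nat_lit 0x0) (nat_lit 0x14000e0007000100004000a0015001fe001c000e000400000) := Q_46 (nat_lit 72) (C_46 L131539 (C_46 L131605 (C_46 L131614 (C_46 L131617 N_46)))) (by decide +kernel)
theorem L131619 : W_46 (nat_lit 2) (nat_lit 0x11800e80025000f8008200000000000000000) (nat_lit 0x0) (nat_lit 0x800004000100000000000000000) := D_46 (nat_lit 86) (nat_lit 107) (nat_lit 68) (nat_lit 3) (nat_lit 1) (nat_lit 5) (nat_lit 0) (nat_lit 4) (nat_lit 5) (by decide +kernel)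
theorem L131620 : W_46 (nat_lit 3) (nat_lit 0x11800e80025000f8008000000000000000000) (nat_lit 0x0) (nat_lit 0x800004000700000000000000000) := T_46 (nat_lit 69) (nat_lit 70) (nat_lit 0) (nat_lit 5) (nat_lit 5) L131619 (by decide +kernel)
theorem L131621 : W_46 (nat_lit 4) (nat_lit 0x11800e80025000f0008000000000000000000) (nat_lit 0x0) (nat_lit 0x88000c000700000000000000000) := T_46 (nat_lit 87) (nat_lit 103) (nat_lit 1) (nat_lit 5) (nat_lit 5) L131620 (by decide +kernel)
theorem L131622 : W_46 (nat_lit 5) (nat_lit 0x11800e80024000f0008000000000000000000) (nat_lit 0x0) (nat_lit 0xb8000c000700000000000000000) := T_46 (nat_lit 104) (nat_lit 105) (nat_lit 1) (nat_lit 6) (nat_lit 5) L131621 (by decide +kernel)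
theorem L131623 : W_46 (nat_lit 6) (nat_lit 0x11800e8002400070008000000000000000000) (nat_lit 0x0) (nat_lit 0xb8008c004700000000000000000) := T_46 (nat_lit 91) (nat_lit 74) (nat_lit 2) (nat_lit 3) (nat_lit 5) L131622 (by decide +kernel)
theorem L131624 : W_46 (nat_lit 7) (nat_lit 0x11800e8002400060008000000000000000000) (nat_lit 0x0) (nat_lit 0xb8009c004f00000000000000000) := T_46 (nat_lit 88) (nat_lit 71) (nat_lit 4) (nat_lit 4) (nat_lit 8) L131623 (by decide +kernel)
theorem L131625 : W_46 (nat_lit 8) (nat_lit 0x11000e8002400060008000000000000000000) (nat_lit 0x0) (nat_lit 0x1000080000000b8009c004f00000000000000000) := T_46 (nat_lit 139) (nat_lit 156) (nat_lit 5) (nat_lit 4) (nat_lit 5) L131624 (by decide +kernel)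
theorem L131626 : W_46 (nat_lit 9) (nat_lit 0x11000e8002400060000000000000000000000) (nat_lit 0x0) (nat_lit 0x1000080000000b8019c00cf00000000000000000) := T_46 (nat_lit 75) (nat_lit 92) (nat_lit 7) (nat_lit 7) (nat_lit 4) L131625 (by decide +kernel)
theorem L131627 : W_46 (nat_lit 10) (nat_lit 0x11000e8002400020000000000000000000000) (nat_lit 0x0) (nat_lit 0x1000080000000b801dc00ef00000000000000000) := T_46 (nat_lit 90) (nat_lit 73) (nat_lit 6) (nat_lit 4) (nat_lit 8) L131626 (by decide +kernel)
theorem L131628 : W_46 (nat_lit 2) (nat_lit 0x4000c00020011800e80024000f0008000000000000000000) (nat_lit 0x0) (nat_lit 0x8000800000000000000004000000000000000000000000000000) := D_46 (nat_lit 191) (nat_lit 122) (nat_lit 207) (nat_lit 4) (nat_lit 4) (nat_lit 11) (nat_lit 5) (nat_lit 4) (nat_lit 8) (by decide +kernel)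
theorem L131629 : W_46 (nat_lit 3) (nat_lit 0xc00020011800e80024000f0008000000000000000000) (nat_lit 0x0) (nat_lit 0x8000c00020000000000004000000000000000000000000000000) := T_46 (nat_lit 190) (nat_lit 173) (nat_lit 5) (nat_lit 4) (nat_lit 7) L131628 (by decide +kernel)
theorem L131630 : W_46 (nat_lit 4) (nat_lit 0x800020011800e80024000f0008000000000000000000) (nat_lit 0x0) (nat_lit 0x8001c00060000000000004000000000000000000000000000000) := T_46 (nat_lit 174) (nat_lit 192) (nat_lit 7) (nat_lit 4) (nat_lit 7) L131629 (by decide +kernel)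
theorem L131631 : W_46 (nat_lit 5) (nat_lit 0x20011800e80024000f0008000000000000000000) (nat_lit 0x0) (nat_lit 0x8001c000e0004000000004000000000000000000000000000000) := T_46 (nat_lit 175) (nat_lit 158) (nat_lit 7) (nat_lit 4) (nat_lit 6) L131630 (by decide +kernel)
theorem L131632 : W_46 (nat_lit 6) (nat_lit 0x11800e80024000f0008000000000000000000) (nat_lit 0x0) (nat_lit 0x8001c000e0006000000004000800000000000000000000000000) := T_46 (nat_lit 157) (nat_lit 107) (nat_lit 6) (nat_lit 4) (nat_lit 9) L131631 (by decide +kernel)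
theorem L131633 : W_46 (nat_lit 7) (nat_lit 0x11800e8002400070008000000000000000000) (nat_lit 0x0) (nat_lit 0x8001c000e0006000000004000800080004000000000000000000) := T_46 (nat_lit 91) (nat_lit 74) (nat_lit 2) (nat_lit 3) (nat_lit 5) L131632 (by decide +kernel)
theorem L131634 : W_46 (nat_lit 8) (nat_lit 0x11800e8002400030008000000000000000000) (nat_lit 0x0) (nat_lit 0x8001c000e00060000000040008000c0006000000000000000000) := T_46 (nat_lit 90) (nat_lit 73) (nat_lit 6) (nat_lit 4) (nat_lit 8) L131633 (by decide +kernel)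
theorem L131635 : W_46 (nat_lit 9) (nat_lit 0x11800e8002400030000000000000000000000) (nat_lit 0x0) (nat_lit 0x8001c000e00060000000040008001c000e000000000000000000) := T_46 (nat_lit 75) (nat_lit 92) (nat_lit 7) (nat_lit 7) (nat_lit 4) L131634 (by decide +kernel)
theorem L131636 : W_46 (nat_lit 10) (nat_lit 0x11000e8002400030000000000000000000000) (nat_lit 0x0) (nat_lit 0x8001c000e00070000800040008001c000e000000000000000000) := T_46 (nat_lit 139) (nat_lit 156) (nat_lit 5) (nat_lit 4) (nat_lit 5) L131635 (by decide +kernel)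
theorem L131637 : W_46 (nat_lit 11) (nat_lit 0x11000e8002400020000000000000000000000) (nat_lit 0x0) (nat_lit 0x8001c000e00070000800040008001d000e800000000000000000) := T_46 (nat_lit 88) (nat_lit 71) (nat_lit 4) (nat_lit 4) (nat_lit 8) L131636 (by decide +kernel)
theorem L131638 : W_46 (nat_lit 2) (nat_lit 0x11000e8002400070000000000000000000000) (nat_lit 0x0) (nat_lit 0x2000000000000a00000000000000000000000000) := D_46 (nat_lit 157) (nat_lit 107) (nat_lit 105) (nat_lit 6) (nat_lit 4) (nat_lit 9) (nat_lit 4) (nat_lit 4) (nat_lit 9) (by decide +kernel)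
theorem L131639 : W_46 (nat_lit 3) (nat_lit 0x11000e8002400060000000000000000000000) (nat_lit 0x0) (nat_lit 0x2000000000000a00010000800000000000000000) := T_46 (nat_lit 88) (nat_lit 71) (nat_lit 4) (nat_lit 4) (nat_lit 8) L131638 (by decide +kernel)
theorem L131640 : W_46 (nat_lit 4) (nat_lit 0x11000e8002400020000000000000000000000) (nat_lit 0x0) (nat_lit 0x2000000000000a00050002800000000000000000) := T_46 (nat_lit 90) (nat_lit 73) (nat_lit 6) (nat_lit 4) (nat_lit 8) L131639 (by decide +kernel)
theorem L131641 : W_46 (nat_lit 2) (nat_lit 0xc00020011800e8002400060008000000000000000000) (nat_lit 0x0) (nat_lit 0x800000000000000004000200000000000000000000000000) := D_46 (nat_lit 122) (nat_lit 105) (nat_lit 191) (nat_lit 4) (nat_lit 4) (nat_lit 10) (nat_lit 4) (nat_lit 4) (nat_lit 11) (by decide +kernel)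
theorem L131642 : W_46 (nat_lit 3) (nat_lit 0x800020011800e8002400060008000000000000000000) (nat_lit 0x0) (nat_lit 0x1800040000000000004000200000000000000000000000000) := T_46 (nat_lit 174) (nat_lit 192) (nat_lit 7) (nat_lit 4) (nat_lit 7) L131641 (by decide +kernel)
theorem L131643 : W_46 (nat_lit 4) (nat_lit 0x20011800e8002400060008000000000000000000) (nat_lit 0x0) (nat_lit 0x18000c0004000000004000200000000000000000000000000) := T_46 (nat_lit 175) (nat_lit 158) (nat_lit 7) (nat_lit 4) (nat_lit 6) L131642 (by decide +kernel)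
theorem L131644 : W_46 (nat_lit 5) (nat_lit 0x20011800e8002400060000000000000000000000) (nat_lit 0x0) (nat_lit 0x18000c0004000000004000200100008000000000000000000) := T_46 (nat_lit 75) (nat_lit 92) (nat_lit 7) (nat_lit 7) (nat_lit 4) L131643 (by decide +kernel)
theorem L131645 : W_46 (nat_lit 6) (nat_lit 0x11800e8002400060000000000000000000000) (nat_lit 0x0) (nat_lit 0x18000c0006000000004000a00100008000000000000000000) := T_46 (nat_lit 157) (nat_lit 107) (nat_lit 6) (nat_lit 4) (nat_lit 9) L131644 (by decide +kernel)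
theorem L131646 : W_46 (nat_lit 7) (nat_lit 0x11000e8002400060000000000000000000000) (nat_lit 0x0) (nat_lit 0x18000c0007000080004000a00100008000000000000000000) := T_46 (nat_lit 139) (nat_lit 156) (nat_lit 5) (nat_lit 4) (nat_lit 5) L131645 (by decide +kernel)
theorem L131647 : W_46 (nat_lit 8) (nat_lit 0x11000e8002400020000000000000000000000) (nat_lit 0x0) (nat_lit 0x18000c0007000080004000a0014000a000000000000000000) := T_46 (nat_lit 90) (nat_lit 73) (nat_lit 6) (nat_lit 4) (nat_lit 8) L131646 (by decide +kernel)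
theorem L131648 : W_46 (nat_lit 12) (nat_lit 0x10000e8002400020000000000000000000000) (nat_lit 0x0) (nat_lit 0x8001c000e0007000180004000b801dc00ef00000000000000000) := Q_46 (nat_lit 140) (C_46 L131598 (C_46 L131570 (C_46 L131627 (C_46 L131576 (C_46 L131637 (C_46 L131640 (C_46 L131647 N_46))))))) (by decide +kernel)
theorem L131649 : W_46 (nat_lit 6) (nat_lit 0x10000e8002400020000000000000000000000) (nat_lit 0x0) (nat_lit 0x100018000400000015001f8001c000a000000000) := Q_46 (nat_lit 72) (C_46 L131617 (C_46 L131539 (C_46 L131537 N_46))) (by decide +kernel)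
theorem L131650 : W_46 (nat_lit 2) (nat_lit 0x10011000e8002400060008000000000000000000) (nat_lit 0x0) (nat_lit 0x20002000000000000800000000000000000000000000) := D_46 (nat_lit 157) (nat_lit 107) (nat_lit 173) (nat_lit 6) (nat_lit 4) (nat_lit 9) (nat_lit 5) (nat_lit 4) (nat_lit 6) (by decide +kernel)
theorem L131651 : W_46 (nat_lit 3) (nat_lit 0x11000e8002400060008000000000000000000) (nat_lit 0x0) (nat_lit 0x20003000080000000800000000000000000000000000) := T_46 (nat_lit 156) (nat_lit 139) (nat_lit 5) (nat_lit 4) (nat_lit 5) L131650 (by decide +kernel)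
theorem L131652 : W_46 (nat_lit 4) (nat_lit 0x11000e8002400020008000000000000000000) (nat_lit 0x0) (nat_lit 0x20003000080000000800040002000000000000000000) := T_46 (nat_lit 90) (nat_lit 73) (nat_lit 6) (nat_lit 4) (nat_lit 8) L131651 (by decide +kernel)
theorem L131653 : W_46 (nat_lit 5) (nat_lit 0x11000e8002400020000000000000000000000) (nat_lit 0x0) (nat_lit 0x2000300008000000080014000a000000000000000000) := T_46 (nat_lit 75) (nat_lit 92) (nat_lit 7) (nat_lit 7) (nat_lit 4) L131652 (by decide +kernel)
theorem L131654 : W_46 (nat_lit 11) (nat_lit 0x10000e8002400020000000000000000000000) (nat_lit 0x0) (nat_lit 0x14000e0007000180000000b801dc00ef00000000000000000) := Q_46 (nat_lit 140) (C_46 L131640 (C_46 L131576 (C_46 L131627 (C_46 L131653 N_46)))) (by decide +kernel)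
theorem L131655 : W_46 (nat_lit 10) (nat_lit 0x10000e8002400020000000000000000000000) (nat_lit 0x0) (nat_lit 0x1800040002001c001fe007c007a000000000) := Q_46 (nat_lit 72) (C_46 L131539 (C_46 L131533 (C_46 L131502 (C_46 L131496 (C_46 L131520 N_46))))) (by decide +kernel)
theorem L131656 : W_46 (nat_lit 2) (nat_lit 0x20011800ec002400060000000000000000000000) (nat_lit 0x0) (nat_lit 0x800040000000000000000200000000000000000000000000) := D_46 (nat_lit 174) (nat_lit 191) (nat_lit 105) (nat_lit 4) (nat_lit 4) (nat_lit 11) (nat_lit 4) (nat_lit 4) (nat_lit 10) (by decide +kernel)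
theorem L131657 : W_46 (nat_lit 3) (nat_lit 0x11800ec002400060000000000000000000000) (nat_lit 0x0) (nat_lit 0x800040002000000000000a00000000000000000000000000) := T_46 (nat_lit 157) (nat_lit 107) (nat_lit 6) (nat_lit 4) (nat_lit 9) L131656 (by decide +kernel)
theorem L131658 : W_46 (nat_lit 4) (nat_lit 0x11800e8002400060000000000000000000000) (nat_lit 0x0) (nat_lit 0x800040002000000004000a00000001000000000000000000) := T_46 (nat_lit 122) (nat_lit 72) (nat_lit 5) (nat_lit 4) (nat_lit 4) L131657 (by decide +kernel)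
theorem L131659 : W_46 (nat_lit 5) (nat_lit 0x11000e8002400060000000000000000000000) (nat_lit 0x0) (nat_lit 0x800040003000080004000a00000001000000000000000000) := T_46 (nat_lit 139) (nat_lit 156) (nat_lit 5) (nat_lit 4) (nat_lit 5) L131658 (by decide +kernel)
theorem L131660 : W_46 (nat_lit 6) (nat_lit 0x11000e8002400020000000000000000000000) (nat_lit 0x0) (nat_lit 0x800040003000080004000a00040003000000000000000000) := T_46 (nat_lit 90) (nat_lit 73) (nat_lit 6) (nat_lit 4) (nat_lit 8) L131659 (by decide +kernel)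
theorem L131661 : W_46 (nat_lit 2) (nat_lit 0x11800e80024007e0021000000000000000000) (nat_lit 0x0) (nat_lit 0x100018000000000000000000000000000) := D_46 (nat_lit 111) (nat_lit 112) (nat_lit 128) (nat_lit 3) (nat_lit 6) (nat_lit 5) (nat_lit 5) (nat_lit 9) (nat_lit 4) (by decide +kernel)
theorem L131662 : W_46 (nat_lit 3) (nat_lit 0x11800e80024003e0021000000000000000000) (nat_lit 0x0) (nat_lit 0x100018000400040000000000000000000) := T_46 (nat_lit 94) (nat_lit 78) (nat_lit 2) (nat_lit 6) (nat_lit 5) L131661 (by decide +kernel)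
theorem L131663 : W_46 (nat_lit 4) (nat_lit 0x11800e80024003e0001000000000000000000) (nat_lit 0x0) (nat_lit 0x100018000400070000000000000000000) := T_46 (nat_lit 77) (nat_lit 76) (nat_lit 2) (nat_lit 5) (nat_lit 5) L131662 (by decide +kernel)
theorem L131664 : W_46 (nat_lit 5) (nat_lit 0x11800e80024001e0001000000000000000000) (nat_lit 0x0) (nat_lit 0x100018800600070000000000000000000) := T_46 (nat_lit 93) (nat_lit 107) (nat_lit 1) (nat_lit 8) (nat_lit 5) L131663 (by decide +kernel)
theorem L131665 : W_46 (nat_lit 6) (nat_lit 0x11800e8002400160001000000000000000000) (nat_lit 0x0) (nat_lit 0x100018a00680070000000000000000000) := T_46 (nat_lit 91) (nat_lit 105) (nat_lit 1) (nat_lit 7) (nat_lit 5) L131664 (by decide +kernel)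
theorem L131666 : W_46 (nat_lit 7) (nat_lit 0x11800e8002400160000000000000000000000) (nat_lit 0x0) (nat_lit 0x104018a00680071000000000000000000) := T_46 (nat_lit 72) (nat_lit 122) (nat_lit 5) (nat_lit 4) (nat_lit 4) L131665 (by decide +kernel)
theorem L131667 : W_46 (nat_lit 8) (nat_lit 0x11000e8002400160000000000000000000000) (nat_lit 0x0) (nat_lit 0x1000080104018a00680071000000000000000000) := T_46 (nat_lit 139) (nat_lit 156) (nat_lit 5) (nat_lit 4) (nat_lit 5) L131666 (by decide +kernel)
theorem L131668 : W_46 (nat_lit 9) (nat_lit 0x11000e8002400060000000000000000000000) (nat_lit 0x0) (nat_lit 0x1000080104018a00780079000000000000000000) := T_46 (nat_lit 92) (nat_lit 75) (nat_lit 7) (nat_lit 7) (nat_lit 4) L131667 (by decide +kernel)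
theorem L131669 : W_46 (nat_lit 10) (nat_lit 0x11000e8002400020000000000000000000000) (nat_lit 0x0) (nat_lit 0x1000080104018a007c007b000000000000000000) := T_46 (nat_lit 90) (nat_lit 73) (nat_lit 6) (nat_lit 4) (nat_lit 8) L131668 (by decide +kernel)
theorem L131670 : W_46 (nat_lit 2) (nat_lit 0x800030011000e8002600060008000000000000000000) (nat_lit 0x0) (nat_lit 0x1000040000000000004000000000000000000000000000000) := D_46 (nat_lit 174) (nat_lit 192) (nat_lit 122) (nat_lit 7) (nat_lit 4) (nat_lit 7) (nat_lit 4) (nat_lit 4) (nat_lit 10) (by decide +kernel)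
theorem L131671 : W_46 (nat_lit 3) (nat_lit 0x800030011000e8002400060008000000000000000000) (nat_lit 0x0) (nat_lit 0x1000040000000000004000200010000000000000000000000) := T_46 (nat_lit 105) (nat_lit 88) (nat_lit 4) (nat_lit 4) (nat_lit 9) L131670 (by decide +kernel)
theorem L131672 : W_46 (nat_lit 4) (nat_lit 0x30011000e8002400060008000000000000000000) (nat_lit 0x0) (nat_lit 0x10000c0004000000004000200010000000000000000000000) := T_46 (nat_lit 175) (nat_lit 158) (nat_lit 7) (nat_lit 4) (nat_lit 6) L131671 (by decide +kernel)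
theorem L131673 : W_46 (nat_lit 5) (nat_lit 0x20011000e8002400060008000000000000000000) (nat_lit 0x0) (nat_lit 0x10000e0005000000004000200010000000000000000000000) := T_46 (nat_lit 156) (nat_lit 173) (nat_lit 5) (nat_lit 4) (nat_lit 6) L131672 (by decide +kernel)
theorem L131674 : W_46 (nat_lit 6) (nat_lit 0x11000e8002400060008000000000000000000) (nat_lit 0x0) (nat_lit 0x10000e0007000000004000a00010000000000000000000000) := T_46 (nat_lit 157) (nat_lit 107) (nat_lit 6) (nat_lit 4) (nat_lit 9) L131673 (by decide +kernel)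
theorem L131675 : W_46 (nat_lit 7) (nat_lit 0x11000e8002400060000000000000000000000) (nat_lit 0x0) (nat_lit 0x10000e0007000000004000a00110008000000000000000000) := T_46 (nat_lit 75) (nat_lit 92) (nat_lit 7) (nat_lit 7) (nat_lit 4) L131674 (by decide +kernel)
theorem L131676 : W_46 (nat_lit 8) (nat_lit 0x11000e8002400020000000000000000000000) (nat_lit 0x0) (nat_lit 0x10000e0007000000004000a0015000a000000000000000000) := T_46 (nat_lit 90) (nat_lit 73) (nat_lit 6) (nat_lit 4) (nat_lit 8) L131675 (by decide +kernel)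
theorem L131677 : W_46 (nat_lit 2) (nat_lit 0x400020011000e8002680060008000000000000000000) (nat_lit 0x0) (nat_lit 0x1000080004000000000000000000000000000000000000000) := D_46 (nat_lit 175) (nat_lit 158) (nat_lit 192) (nat_lit 7) (nat_lit 4) (nat_lit 6) (nat_lit 7) (nat_lit 4) (nat_lit 7) (by decide +kernel)
theorem L131678 : W_46 (nat_lit 3) (nat_lit 0x20011000e8002680060008000000000000000000) (nat_lit 0x0) (nat_lit 0x10000c0004000000004000000000000000000000000000000) := T_46 (nat_lit 174) (nat_lit 122) (nat_lit 4) (nat_lit 4) (nat_lit 10) L131677 (by decide +kernel)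
theorem L131679 : W_46 (nat_lit 4) (nat_lit 0x20011000e8002600060008000000000000000000) (nat_lit 0x0) (nat_lit 0x10000c0004000000004000180000000000000000000000000) := T_46 (nat_lit 103) (nat_lit 104) (nat_lit 2) (nat_lit 1) (nat_lit 6) L131678 (by decide +kernel)
theorem L131680 : W_46 (nat_lit 5) (nat_lit 0x20011000e8002400060008000000000000000000) (nat_lit 0x0) (nat_lit 0x10000c0004000000004000380010000000000000000000000) := T_46 (nat_lit 105) (nat_lit 88) (nat_lit 4) (nat_lit 4) (nat_lit 9) L131679 (by decide +kernel)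
theorem L131681 : W_46 (nat_lit 6) (nat_lit 0x11000e8002400060008000000000000000000) (nat_lit 0x0) (nat_lit 0x10000c0006000000004000b80010000000000000000000000) := T_46 (nat_lit 157) (nat_lit 107) (nat_lit 6) (nat_lit 4) (nat_lit 9) L131680 (by decide +kernel)
theorem L131682 : W_46 (nat_lit 7) (nat_lit 0x11000e8002400060000000000000000000000) (nat_lit 0x0) (nat_lit 0x10000c0006000000004000b80110008000000000000000000) := T_46 (nat_lit 75) (nat_lit 92) (nat_lit 7) (nat_lit 7) (nat_lit 4) L131681 (by decide +kernel)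
theorem L131683 : W_46 (nat_lit 8) (nat_lit 0x11000e8002400020000000000000000000000) (nat_lit 0x0) (nat_lit 0x10000c0006000000004000b8015000a000000000000000000) := T_46 (nat_lit 90) (nat_lit 73) (nat_lit 6) (nat_lit 4) (nat_lit 8) L131682 (by decide +kernel)
theorem L131684 : W_46 (nat_lit 11) (nat_lit 0x10000e8002400020000000000000000000000) (nat_lit 0x0) (nat_lit 0x18000e0007000180104018b807d007b000000000000000000) := Q_46 (nat_lit 140) (C_46 L131653 (C_46 L131660 (C_46 L131598 (C_46 L131669 (C_46 L131676 (C_46 L131683 N_46)))))) (by decide +kernel)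
theorem L131685 : W_46 (nat_lit 13) (nat_lit 0x10000e8002400000000000000000000000000) (nat_lit 0x0) (nat_lit 0x8001c000e0007000180104018b807fc07ff00fc007e000700000) := Q_46 (nat_lit 89) (C_46 L131517 (C_46 L131564 (C_46 L131565 (C_46 L131599 (C_46 L131618 (C_46 L131648 (C_46 L131649 (C_46 L131654 (C_46 L131655 (C_46 L131684 N_46)))))))))) (by decide +kernel)
theorem L131686 : W_46 (nat_lit 2) (nat_lit 0x11000e8002400000000000000000000000000) (nat_lit 0x0) (nat_lit 0x80010000200000000000000000000000000) := D_46 (nat_lit 124) (nat_lit 139) (nat_lit 105) (nat_lit 1) (nat_lit 7) (nat_lit 7) (nat_lit 0) (nat_lit 7) (nat_lit 7) (by decide +kernel)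
theorem L131687 : W_46 (nat_lit 2) (nat_lit 0x11000e80024000f0008000000000000000000) (nat_lit 0x0) (nat_lit 0x2000000000000300000000000000000000000000) := D_46 (nat_lit 105) (nat_lit 104) (nat_lit 157) (nat_lit 1) (nat_lit 6) (nat_lit 5) (nat_lit 4) (nat_lit 4) (nat_lit 9) (by decide +kernel)
theorem L131688 : W_46 (nat_lit 3) (nat_lit 0x11000e8002400070008000000000000000000) (nat_lit 0x0) (nat_lit 0x2000000000000300080004000000000000000000) := T_46 (nat_lit 91) (nat_lit 74) (nat_lit 2) (nat_lit 3) (nat_lit 5) L131687 (by decide +kernel)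
theorem L131689 : W_46 (nat_lit 4) (nat_lit 0x11000e8002400060008000000000000000000) (nat_lit 0x0) (nat_lit 0x2000000000000300090004800000000000000000) := T_46 (nat_lit 88) (nat_lit 71) (nat_lit 4) (nat_lit 4) (nat_lit 8) L131688 (by decide +kernel)
theorem L131690 : W_46 (nat_lit 5) (nat_lit 0x11000e8002400060000000000000000000000) (nat_lit 0x0) (nat_lit 0x200000000000030019000c800000000000000000) := T_46 (nat_lit 75) (nat_lit 92) (nat_lit 7) (nat_lit 7) (nat_lit 4) L131689 (by decide +kernel)
theorem L131691 : W_46 (nat_lit 6) (nat_lit 0x11000e8002400020000000000000000000000) (nat_lit 0x0) (nat_lit 0x20000000000003001d000e800000000000000000) := T_46 (nat_lit 90) (nat_lit 73) (nat_lit 6) (nat_lit 4) (nat_lit 8) L131690 (by decide +kernel)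
theorem L131692 : W_46 (nat_lit 11) (nat_lit 0x11000e8002400000000000000000000000000) (nat_lit 0x0) (nat_lit 0x14000e00070000800040003001f001f8007c007a000000000) := Q_46 (nat_lit 89) (C_46 L131598 (C_46 L131570 (C_46 L131592 (C_46 L131576 (C_46 L131691 N_46))))) (by decide +kernel)
theorem L131693 : W_46 (nat_lit 2) (nat_lit 0x400020011000e8002600000008000000000000000000) (nat_lit 0x0) (nat_lit 0x1000080004000000000000000000000000000000000000000) := D_46 (nat_lit 175) (nat_lit 158) (nat_lit 192) (nat_lit 7) (nat_lit 4) (nat_lit 6) (nat_lit 7) (nat_lit 4) (nat_lit 7) (by decide +kernel)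
theorem L131694 : W_46 (nat_lit 3) (nat_lit 0x20011000e8002600000008000000000000000000) (nat_lit 0x0) (nat_lit 0x10000c0004000000004000000000000000000000000000000) := T_46 (nat_lit 174) (nat_lit 122) (nat_lit 4) (nat_lit 4) (nat_lit 10) L131693 (by decide +kernel)
theorem L131695 : W_46 (nat_lit 4) (nat_lit 0x11000e8002600000008000000000000000000) (nat_lit 0x0) (nat_lit 0x10000c0006000000004000000010000000000000000000000) := T_46 (nat_lit 157) (nat_lit 88) (nat_lit 4) (nat_lit 4) (nat_lit 9) L131694 (by decide +kernel)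
theorem L131696 : W_46 (nat_lit 5) (nat_lit 0x11000e8002400000008000000000000000000) (nat_lit 0x0) (nat_lit 0x10000c0006000000014000200010000000000000000000000) := T_46 (nat_lit 105) (nat_lit 124) (nat_lit 0) (nat_lit 7) (nat_lit 7) L131695 (by decide +kernel)
theorem L131697 : W_46 (nat_lit 6) (nat_lit 0x11000e8002400000000000000000000000000) (nat_lit 0x0) (nat_lit 0x10000c0006000000014000200110008000000000000000000) := T_46 (nat_lit 75) (nat_lit 92) (nat_lit 7) (nat_lit 7) (nat_lit 4) L131696 (by decide +kernel)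
theorem L131698 : W_46 (nat_lit 9) (nat_lit 0x11800e8002400000008000000000000000000) (nat_lit 0x0) (nat_lit 0x10000000040000000200158007c007a000000000) := T_46 (nat_lit 89) (nat_lit 156) (nat_lit 5) (nat_lit 4) (nat_lit 5) L131590 (by decide +kernel)
theorem L131699 : W_46 (nat_lit 10) (nat_lit 0x11800e8002400000000000000000000000000) (nat_lit 0x0) (nat_lit 0x100000000400000012001d8007c007a000000000) := T_46 (nat_lit 75) (nat_lit 92) (nat_lit 7) (nat_lit 7) (nat_lit 4) L131698 (by decide +kernel)
theorem L131700 : W_46 (nat_lit 11) (nat_lit 0x11000e8002400000000000000000000000000) (nat_lit 0x0) (nat_lit 0x100008001400000012001d8007c007a000000000) := T_46 (nat_lit 139) (nat_lit 124) (nat_lit 1) (nat_lit 7) (nat_lit 7) L131699 (by decide +kernel)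
theorem L131701 : W_46 (nat_lit 12) (nat_lit 0x10000e8002400000000000000000000000000) (nat_lit 0x0) (nat_lit 0x14000e00070001800140003001f001f8007c007a000000000) := Q_46 (nat_lit 140) (C_46 L131686 (C_46 L131692 (C_46 L131697 (C_46 L131700 N_46)))) (by decide +kernel)
theorem L131702 : W_46 (nat_lit 2) (nat_lit 0x11000e8002400000000000000000000000000) (nat_lit 0x0) (nat_lit 0x80010000800000000000000000000000000) := D_46 (nat_lit 124) (nat_lit 107) (nat_lit 139) (nat_lit 0) (nat_lit 8) (nat_lit 7) (nat_lit 1) (nat_lit 7) (nat_lit 7) (by decide +kernel)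
theorem L131703 : W_46 (nat_lit 5) (nat_lit 0x11000e8002400020000000000000000000000) (nat_lit 0x0) (nat_lit 0x1000080004000000050003800040000000000000) := T_46 (nat_lit 90) (nat_lit 73) (nat_lit 6) (nat_lit 4) (nat_lit 8) L131525 (by decide +kernel)
theorem L131704 : W_46 (nat_lit 2) (nat_lit 0xa00020011000e8002400060008000000000000000000) (nat_lit 0x0) (nat_lit 0x1400040000000000000000000000000000000000000000000) := D_46 (nat_lit 174) (nat_lit 190) (nat_lit 192) (nat_lit 5) (nat_lit 4) (nat_lit 7) (nat_lit 7) (nat_lit 4) (nat_lit 7) (by decide +kernel)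
theorem L131705 : W_46 (nat_lit 3) (nat_lit 0x200020011000e8002400060008000000000000000000) (nat_lit 0x0) (nat_lit 0x14000c0004000000000000000000000000000000000000000) := T_46 (nat_lit 175) (nat_lit 158) (nat_lit 7) (nat_lit 4) (nat_lit 6) L131704 (by decide +kernel)
theorem L131706 : W_46 (nat_lit 4) (nat_lit 0x20011000e8002400060008000000000000000000) (nat_lit 0x0) (nat_lit 0x14000e0005000000000000000000000000000000000000000) := T_46 (nat_lit 173) (nat_lit 156) (nat_lit 5) (nat_lit 4) (nat_lit 6) L131705 (by decide +kernel)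
theorem L131707 : W_46 (nat_lit 5) (nat_lit 0x11000e8002400060008000000000000000000) (nat_lit 0x0) (nat_lit 0x14000e0007000000000000800000000000000000000000000) := T_46 (nat_lit 157) (nat_lit 107) (nat_lit 6) (nat_lit 4) (nat_lit 9) L131706 (by decide +kernel)
theorem L131708 : W_46 (nat_lit 6) (nat_lit 0x11000e8002400060000000000000000000000) (nat_lit 0x0) (nat_lit 0x14000e0007000000000000800100008000000000000000000) := T_46 (nat_lit 75) (nat_lit 92) (nat_lit 7) (nat_lit 7) (nat_lit 4) L131707 (by decide +kernel)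
theorem L131709 : W_46 (nat_lit 7) (nat_lit 0x11000e8002400020000000000000000000000) (nat_lit 0x0) (nat_lit 0x14000e000700000000000080014000a000000000000000000) := T_46 (nat_lit 90) (nat_lit 73) (nat_lit 6) (nat_lit 4) (nat_lit 8) L131708 (by decide +kernel)
theorem L131710 : W_46 (nat_lit 2) (nat_lit 0x20011000e8002400160000800000000000000000) (nat_lit 0x0) (nat_lit 0x80001000040000000000000) := D_46 (nat_lit 72) (nat_lit 54) (nat_lit 91) (nat_lit 4) (nat_lit 4) (nat_lit 7) (nat_lit 0) (nat_lit 7) (nat_lit 5) (by decide +kernel)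
theorem L131711 : W_46 (nat_lit 3) (nat_lit 0x20011000e8002400160000000000000000000000) (nat_lit 0x0) (nat_lit 0x90001800040000000000000) := T_46 (nat_lit 71) (nat_lit 88) (nat_lit 4) (nat_lit 4) (nat_lit 8) L131710 (by decide +kernel)
theorem L131712 : W_46 (nat_lit 4) (nat_lit 0x11000e8002400160000000000000000000000) (nat_lit 0x0) (nat_lit 0x2000000000000800090001800040000000000000) := T_46 (nat_lit 157) (nat_lit 107) (nat_lit 6) (nat_lit 4) (nat_lit 9) L131711 (by decide +kernel)
theorem L131713 : W_46 (nat_lit 5) (nat_lit 0x11000e8002400060000000000000000000000) (nat_lit 0x0) (nat_lit 0x2000000000000800190009800040000000000000) := T_46 (nat_lit 92) (nat_lit 75) (nat_lit 7) (nat_lit 7) (nat_lit 4) L131712 (by decide +kernel)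
theorem L131714 : W_46 (nat_lit 6) (nat_lit 0x11000e8002400020000000000000000000000) (nat_lit 0x0) (nat_lit 0x20000000000008001d000b800040000000000000) := T_46 (nat_lit 90) (nat_lit 73) (nat_lit 6) (nat_lit 4) (nat_lit 8) L131713 (by decide +kernel)
theorem L131715 : W_46 (nat_lit 11) (nat_lit 0x11000e8002400000000000000000000000000) (nat_lit 0x0) (nat_lit 0x14000e00070000800040008001f001f8007c007a000000000) := Q_46 (nat_lit 89) (C_46 L131653 (C_46 L131703 (C_46 L131592 (C_46 L131709 (C_46 L131714 N_46))))) (by decide +kernel)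
theorem L131716 : W_46 (nat_lit 2) (nat_lit 0xa00020011000e8002c00000008000000000000000000) (nat_lit 0x0) (nat_lit 0x1400040000000000000000000000000000000000000000000) := D_46 (nat_lit 174) (nat_lit 190) (nat_lit 192) (nat_lit 5) (nat_lit 4) (nat_lit 7) (nat_lit 7) (nat_lit 4) (nat_lit 7) (by decide +kernel)
theorem L131717 : W_46 (nat_lit 3) (nat_lit 0x200020011000e8002c00000008000000000000000000) (nat_lit 0x0) (nat_lit 0x14000c0004000000000000000000000000000000000000000) := T_46 (nat_lit 175) (nat_lit 158) (nat_lit 7) (nat_lit 4) (nat_lit 6) L131716 (by decide +kernel)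
theorem L131718 : W_46 (nat_lit 4) (nat_lit 0x20011000e8002c00000008000000000000000000) (nat_lit 0x0) (nat_lit 0x14000e0005000000000000000000000000000000000000000) := T_46 (nat_lit 173) (nat_lit 156) (nat_lit 5) (nat_lit 4) (nat_lit 6) L131717 (by decide +kernel)
theorem L131719 : W_46 (nat_lit 5) (nat_lit 0x11000e8002c00000008000000000000000000) (nat_lit 0x0) (nat_lit 0x14000e0007000000000000000040000000000000000000000) := T_46 (nat_lit 157) (nat_lit 90) (nat_lit 6) (nat_lit 4) (nat_lit 9) L131718 (by decide +kernel)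
theorem L131720 : W_46 (nat_lit 6) (nat_lit 0x11000e8002400000008000000000000000000) (nat_lit 0x0) (nat_lit 0x14000e0007000000010000800040000000000000000000000) := T_46 (nat_lit 107) (nat_lit 124) (nat_lit 0) (nat_lit 8) (nat_lit 7) L131719 (by decide +kernel)
theorem L131721 : W_46 (nat_lit 7) (nat_lit 0x11000e8002400000000000000000000000000) (nat_lit 0x0) (nat_lit 0x14000e0007000000010000800140008000000000000000000) := T_46 (nat_lit 75) (nat_lit 92) (nat_lit 7) (nat_lit 7) (nat_lit 4) L131720 (by decide +kernel)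
theorem L131722 : W_46 (nat_lit 12) (nat_lit 0x10000e8002400000000000000000000000000) (nat_lit 0x0) (nat_lit 0x14000e00070001800140008001f001f8007c007a000000000) := Q_46 (nat_lit 140) (C_46 L131702 (C_46 L131715 (C_46 L131700 (C_46 L131721 N_46)))) (by decide +kernel)
theorem L131723 : W_46 (nat_lit 14) (nat_lit 0x10000e0002400000000000000000000000000) (nat_lit 0x0) (nat_lit 0x8001c000e000700018011c018b807fc07ff00fc007e000700000) := Q_46 (nat_lit 123) (C_46 L131563 (C_46 L131685 (C_46 L131701 (C_46 L131722 N_46)))) (by decide +kernel)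
theorem L131724 : W_46 (nat_lit 2) (nat_lit 0x10800f8002400000000000000000000000000) (nat_lit 0x0) (nat_lit 0x40004001000000000000000000000000000) := D_46 (nat_lit 122) (nat_lit 108) (nat_lit 138) (nat_lit 2) (nat_lit 3) (nat_lit 7) (nat_lit 1) (nat_lit 6) (nat_lit 7) (by decide +kernel)
theorem L131725 : W_46 (nat_lit 3) (nat_lit 0x10000f8002400000000000000000000000000) (nat_lit 0x0) (nat_lit 0x1c0004001000000000000000000000000000) := T_46 (nat_lit 139) (nat_lit 140) (nat_lit 1) (nat_lit 7) (nat_lit 7) L131724 (by decide +kernel)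
theorem L131726 : W_46 (nat_lit 4) (nat_lit 0x10000e8002400000000000000000000000000) (nat_lit 0x0) (nat_lit 0x1c0014001200000000000000000000000000) := T_46 (nat_lit 124) (nat_lit 105) (nat_lit 0) (nat_lit 7) (nat_lit 7) L131725 (by decide +kernel)
theorem L131727 : W_46 (nat_lit 2) (nat_lit 0x10000e80024000200090003c0020000000000) (nat_lit 0x0) (nat_lit 0x10000400040000000000) := D_46 (nat_lit 58) (nat_lit 76) (nat_lit 42) (nat_lit 3) (nat_lit 4) (nat_lit 3) (nat_lit 2) (nat_lit 4) (nat_lit 3) (by decide +kernel)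
theorem L131728 : W_46 (nat_lit 3) (nat_lit 0x10000e80024000200090003c0000000000000) (nat_lit 0x0) (nat_lit 0x10000400070000000000) := T_46 (nat_lit 41) (nat_lit 40) (nat_lit 2) (nat_lit 3) (nat_lit 3) L131727 (by decide +kernel)
theorem L131729 : W_46 (nat_lit 4) (nat_lit 0x10000e80024000200090001c0000000000000) (nat_lit 0x0) (nat_lit 0x14000600070000000000) := T_46 (nat_lit 57) (nat_lit 74) (nat_lit 3) (nat_lit 3) (nat_lit 3) L131728 (by decide +kernel)
theorem L131730 : W_46 (nat_lit 5) (nat_lit 0x10000e80024000200090000c0000000000000) (nat_lit 0x0) (nat_lit 0x14000700078000000000) := T_46 (nat_lit 56) (nat_lit 39) (nat_lit 6) (nat_lit 4) (nat_lit 6) L131729 (by decide +kernel)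
theorem L131731 : W_46 (nat_lit 6) (nat_lit 0x10000e8002400020009000040000000000000) (nat_lit 0x0) (nat_lit 0x1400078007a000000000) := T_46 (nat_lit 55) (nat_lit 37) (nat_lit 4) (nat_lit 4) (nat_lit 6) L131730 (by decide +kernel)
theorem L131732 : W_46 (nat_lit 7) (nat_lit 0x10000e8002400020009000000000000000000) (nat_lit 0x0) (nat_lit 0x148007c007a000000000) := T_46 (nat_lit 54) (nat_lit 71) (nat_lit 4) (nat_lit 4) (nat_lit 7) L131731 (by decide +kernel)
theorem L131733 : W_46 (nat_lit 8) (nat_lit 0x10000e8002400020001000000000000000000) (nat_lit 0x0) (nat_lit 0x10001c8007c007a000000000) := T_46 (nat_lit 75) (nat_lit 92) (nat_lit 7) (nat_lit 7) (nat_lit 4) L131732 (by decide +kernel)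
theorem L131734 : W_46 (nat_lit 5) (nat_lit 0x10000ec0024000200010001c0000000000000) (nat_lit 0x0) (nat_lit 0x10001c000600070000000000) := T_46 (nat_lit 75) (nat_lit 92) (nat_lit 7) (nat_lit 7) (nat_lit 4) L131528 (by decide +kernel)
theorem L131735 : W_46 (nat_lit 6) (nat_lit 0x10000ec0024000200010000c0000000000000) (nat_lit 0x0) (nat_lit 0x10001c000700078000000000) := T_46 (nat_lit 56) (nat_lit 39) (nat_lit 6) (nat_lit 4) (nat_lit 6) L131734 (by decide +kernel)
theorem L131736 : W_46 (nat_lit 7) (nat_lit 0x10000ec002400020001000080000000000000) (nat_lit 0x0) (nat_lit 0x10001c00074007a000000000) := T_46 (nat_lit 54) (nat_lit 37) (nat_lit 4) (nat_lit 4) (nat_lit 6) L131735 (by decide +kernel)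
theorem L131737 : W_46 (nat_lit 8) (nat_lit 0x10000ec002400020001000000000000000000) (nat_lit 0x0) (nat_lit 0x20010001c0007c007a000000000) := T_46 (nat_lit 55) (nat_lit 105) (nat_lit 5) (nat_lit 4) (nat_lit 3) L131736 (by decide +kernel)
theorem L131738 : W_46 (nat_lit 9) (nat_lit 0x10000e8002400020001000000000000000000) (nat_lit 0x0) (nat_lit 0x8000400020010001c0007c007a000000000) := T_46 (nat_lit 122) (nat_lit 139) (nat_lit 5) (nat_lit 4) (nat_lit 4) L131737 (by decide +kernel)
theorem L131739 : W_46 (nat_lit 2) (nat_lit 0xe0011a00e8002400130001000000000000000000) (nat_lit 0x0) (nat_lit 0x100000000400000001000000000000000000000000000) := D_46 (nat_lit 142) (nat_lit 108) (nat_lit 176) (nat_lit 6) (nat_lit 6) (nat_lit 9) (nat_lit 6) (nat_lit 6) (nat_lit 10) (by decide +kernel)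
theorem L131740 : W_46 (nat_lit 3) (nat_lit 0x60011a00e8002400130001000000000000000000) (nat_lit 0x0) (nat_lit 0x100018000400000001000000000000000000000000000) := T_46 (nat_lit 159) (nat_lit 160) (nat_lit 0) (nat_lit 7) (nat_lit 9) L131739 (by decide +kernel)
theorem L131741 : W_46 (nat_lit 4) (nat_lit 0x60011800e8002400130001000000000000000000) (nat_lit 0x0) (nat_lit 0x100018000460000001000000000000000000000000000) := T_46 (nat_lit 137) (nat_lit 138) (nat_lit 3) (nat_lit 1) (nat_lit 8) L131740 (by decide +kernel)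
theorem L131742 : W_46 (nat_lit 5) (nat_lit 0x20011800e8002400130001000000000000000000) (nat_lit 0x0) (nat_lit 0x18001c000460000001000000000000000000000000000) := T_46 (nat_lit 158) (nat_lit 175) (nat_lit 7) (nat_lit 4) (nat_lit 6) L131741 (by decide +kernel)
theorem L131743 : W_46 (nat_lit 6) (nat_lit 0x11800e8002400130001000000000000000000) (nat_lit 0x0) (nat_lit 0x18001e000460000001200000000000000000000000000) := T_46 (nat_lit 157) (nat_lit 105) (nat_lit 4) (nat_lit 4) (nat_lit 9) L131742 (by decide +kernel)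
theorem L131744 : W_46 (nat_lit 7) (nat_lit 0x11800e8002400120001000000000000000000) (nat_lit 0x0) (nat_lit 0x18001e000460000001200010000800000000000000000) := T_46 (nat_lit 88) (nat_lit 71) (nat_lit 4) (nat_lit 4) (nat_lit 8) L131743 (by decide +kernel)
theorem L131745 : W_46 (nat_lit 8) (nat_lit 0x10800e8002400120001000000000000000000) (nat_lit 0x0) (nat_lit 0x18001f000560000001200010000800000000000000000) := T_46 (nat_lit 140) (nat_lit 156) (nat_lit 5) (nat_lit 4) (nat_lit 5) L131744 (by decide +kernel)
theorem L131746 : W_46 (nat_lit 9) (nat_lit 0x10000e8002400120001000000000000000000) (nat_lit 0x0) (nat_lit 0x18001f0005e0004001200010000800000000000000000) := T_46 (nat_lit 139) (nat_lit 122) (nat_lit 5) (nat_lit 4) (nat_lit 4) L131745 (by decide +kernel)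
theorem L131747 : W_46 (nat_lit 10) (nat_lit 0x10000e8002400020001000000000000000000) (nat_lit 0x0) (nat_lit 0x18001f0005e0004001200110008800000000000000000) := T_46 (nat_lit 92) (nat_lit 75) (nat_lit 7) (nat_lit 7) (nat_lit 4) L131746 (by decide +kernel)
theorem L131748 : W_46 (nat_lit 11) (nat_lit 0x10000e8002400020000000000000000000000) (nat_lit 0x0) (nat_lit 0x18001f0005e000400120011001d8007c007e000400000) := Q_46 (nat_lit 72) (C_46 L131605 (C_46 L131502 (C_46 L131537 (C_46 L131733 (C_46 L131738 (C_46 L131747 N_46)))))) (by decide +kernel)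
theorem L131749 : W_46 (nat_lit 2) (nat_lit 0x10000e80024000b000d800000000000000000) (nat_lit 0x0) (nat_lit 0x1000000000000600000000000000) := D_46 (nat_lit 108) (nat_lit 57) (nat_lit 58) (nat_lit 7) (nat_lit 6) (nat_lit 3) (nat_lit 6) (nat_lit 6) (nat_lit 7) (by decide +kernel)
theorem L131750 : W_46 (nat_lit 3) (nat_lit 0x10000e800240003000d800000000000000000) (nat_lit 0x0) (nat_lit 0x10000c0000000600000000000000) := T_46 (nat_lit 91) (nat_lit 90) (nat_lit 2) (nat_lit 3) (nat_lit 5) L131749 (by decide +kernel)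
theorem L131751 : W_46 (nat_lit 4) (nat_lit 0x10000e8002400030009800000000000000000) (nat_lit 0x0) (nat_lit 0x10000c0006000600000000000000) := T_46 (nat_lit 74) (nat_lit 73) (nat_lit 1) (nat_lit 7) (nat_lit 4) L131750 (by decide +kernel)
theorem L131752 : W_46 (nat_lit 5) (nat_lit 0x10000e8002400020009800000000000000000) (nat_lit 0x0) (nat_lit 0x1000000010000d0006000600000000000000) := T_46 (nat_lit 88) (nat_lit 140) (nat_lit 4) (nat_lit 4) (nat_lit 8) L131751 (by decide +kernel)
theorem L131753 : W_46 (nat_lit 6) (nat_lit 0x10000e8002400020009000000000000000000) (nat_lit 0x0) (nat_lit 0x1000000010000d0006800640000000000000) := T_46 (nat_lit 71) (nat_lit 54) (nat_lit 4) (nat_lit 4) (nat_lit 7) L131752 (by decide +kernel)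
theorem L131754 : W_46 (nat_lit 7) (nat_lit 0x10000e8002400020001000000000000000000) (nat_lit 0x0) (nat_lit 0x1000000010001d000e800640000000000000) := T_46 (nat_lit 75) (nat_lit 92) (nat_lit 7) (nat_lit 7) (nat_lit 4) L131753 (by decide +kernel)
theorem L131755 : W_46 (nat_lit 9) (nat_lit 0x10000e8002400020000000000000000000000) (nat_lit 0x0) (nat_lit 0x1000000010001d001f8007c007a000000000) := Q_46 (nat_lit 72) (C_46 L131733 (C_46 L131539 (C_46 L131754 (C_46 L131617 N_46)))) (by decide +kernel)
theorem L131756 : W_46 (nat_lit 2) (nat_lit 0x11800e8002400070008000000000000000000) (nat_lit 0x0) (nat_lit 0x1000080004000000000000000000) := D_46 (nat_lit 91) (nat_lit 108) (nat_lit 74) (nat_lit 3) (nat_lit 3) (nat_lit 5) (nat_lit 2) (nat_lit 3) (nat_lit 5) (by decide +kernel)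
theorem L131757 : W_46 (nat_lit 3) (nat_lit 0x11800e8002400060008000000000000000000) (nat_lit 0x0) (nat_lit 0x1000090004800000000000000000) := T_46 (nat_lit 88) (nat_lit 71) (nat_lit 4) (nat_lit 4) (nat_lit 8) L131756 (by decide +kernel)
theorem L131758 : W_46 (nat_lit 4) (nat_lit 0x11000e8002400060008000000000000000000) (nat_lit 0x0) (nat_lit 0x1000080000001000090004800000000000000000) := T_46 (nat_lit 139) (nat_lit 156) (nat_lit 5) (nat_lit 4) (nat_lit 5) L131757 (by decide +kernel)
theorem L131759 : W_46 (nat_lit 5) (nat_lit 0x11000e8002400060000000000000000000000) (nat_lit 0x0) (nat_lit 0x100008000000100019000c800000000000000000) := T_46 (nat_lit 75) (nat_lit 92) (nat_lit 7) (nat_lit 7) (nat_lit 4) L131758 (by decide +kernel)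
theorem L131760 : W_46 (nat_lit 6) (nat_lit 0x11000e8002400020000000000000000000000) (nat_lit 0x0) (nat_lit 0x10000800000010001d000e800000000000000000) := T_46 (nat_lit 90) (nat_lit 73) (nat_lit 6) (nat_lit 4) (nat_lit 8) L131759 (by decide +kernel)
theorem L131761 : W_46 (nat_lit 2) (nat_lit 0x400030011000e8002600160000000000000000000000) (nat_lit 0x0) (nat_lit 0x1000080004000000000000000000000000000000000000000) := D_46 (nat_lit 175) (nat_lit 158) (nat_lit 192) (nat_lit 7) (nat_lit 4) (nat_lit 6) (nat_lit 7) (nat_lit 4) (nat_lit 7) (by decide +kernel)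
theorem L131762 : W_46 (nat_lit 3) (nat_lit 0x30011000e8002600160000000000000000000000) (nat_lit 0x0) (nat_lit 0x10000c0004000000004000000000000000000000000000000) := T_46 (nat_lit 174) (nat_lit 122) (nat_lit 4) (nat_lit 4) (nat_lit 10) L131761 (by decide +kernel)
theorem L131763 : W_46 (nat_lit 4) (nat_lit 0x10011000e8002600160000000000000000000000) (nat_lit 0x0) (nat_lit 0x10000e0006000000004000000000000000000000000000000) := T_46 (nat_lit 157) (nat_lit 173) (nat_lit 5) (nat_lit 4) (nat_lit 6) L131762 (by decide +kernel)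
theorem L131764 : W_46 (nat_lit 5) (nat_lit 0x10011000e8002400160000000000000000000000) (nat_lit 0x0) (nat_lit 0x10000e0006000000004000200080000000000000000000000) := T_46 (nat_lit 105) (nat_lit 91) (nat_lit 1) (nat_lit 7) (nat_lit 5) L131763 (by decide +kernel)
theorem L131765 : W_46 (nat_lit 6) (nat_lit 0x11000e8002400160000000000000000000000) (nat_lit 0x0) (nat_lit 0x10000e0007000080004000200080000000000000000000000) := T_46 (nat_lit 156) (nat_lit 139) (nat_lit 5) (nat_lit 4) (nat_lit 5) L131764 (by decide +kernel)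
theorem L131766 : W_46 (nat_lit 7) (nat_lit 0x11000e8002400060000000000000000000000) (nat_lit 0x0) (nat_lit 0x10000e0007000080004000200180008000000000000000000) := T_46 (nat_lit 92) (nat_lit 75) (nat_lit 7) (nat_lit 7) (nat_lit 4) L131765 (by decide +kernel)
theorem L131767 : W_46 (nat_lit 8) (nat_lit 0x11000e8002400020000000000000000000000) (nat_lit 0x0) (nat_lit 0x10000e00070000800040002001c000a000000000000000000) := T_46 (nat_lit 90) (nat_lit 73) (nat_lit 6) (nat_lit 4) (nat_lit 8) L131766 (by decide +kernel)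
theorem L131768 : W_46 (nat_lit 9) (nat_lit 0x10000e8002400020000000000000000000000) (nat_lit 0x0) (nat_lit 0x10000e00070001800040013001d000e800000000000000000) := Q_46 (nat_lit 140) (C_46 L131691 (C_46 L131570 (C_46 L131760 (C_46 L131767 N_46)))) (by decide +kernel)
theorem L131769 : W_46 (nat_lit 2) (nat_lit 0x11000ec002680160001000000000000000000) (nat_lit 0x0) (nat_lit 0x40002000000000000000010000000000000000000000) := D_46 (nat_lit 157) (nat_lit 174) (nat_lit 88) (nat_lit 4) (nat_lit 4) (nat_lit 10) (nat_lit 4) (nat_lit 4) (nat_lit 9) (by decide +kernel)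
theorem L131770 : W_46 (nat_lit 3) (nat_lit 0x10000ec002680160001000000000000000000) (nat_lit 0x0) (nat_lit 0x40002000100000000000010002000000000000000000) := T_46 (nat_lit 140) (nat_lit 73) (nat_lit 6) (nat_lit 4) (nat_lit 8) L131769 (by decide +kernel)
theorem L131771 : W_46 (nat_lit 4) (nat_lit 0x10000ec002600160001000000000000000000) (nat_lit 0x0) (nat_lit 0x40002000100000000180010002000000000000000000) := T_46 (nat_lit 103) (nat_lit 104) (nat_lit 2) (nat_lit 1) (nat_lit 6) L131770 (by decide +kernel)
theorem L131772 : W_46 (nat_lit 5) (nat_lit 0x10000ec002600120001000000000000000000) (nat_lit 0x0) (nat_lit 0x400020001000000001800d0002000000000000000000) := T_46 (nat_lit 90) (nat_lit 91) (nat_lit 1) (nat_lit 7) (nat_lit 5) L131771 (by decide +kernel)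
theorem L131773 : W_46 (nat_lit 6) (nat_lit 0x10000ec002600020001000000000000000000) (nat_lit 0x0) (nat_lit 0x400020001000000001801d000a000000000000000000) := T_46 (nat_lit 92) (nat_lit 75) (nat_lit 7) (nat_lit 7) (nat_lit 4) L131772 (by decide +kernel)
theorem L131774 : W_46 (nat_lit 7) (nat_lit 0x10000ec002400020001000000000000000000) (nat_lit 0x0) (nat_lit 0x400020001000000003801d000a000080000000000000) := T_46 (nat_lit 105) (nat_lit 55) (nat_lit 5) (nat_lit 4) (nat_lit 3) L131773 (by decide +kernel)
theorem L131775 : W_46 (nat_lit 8) (nat_lit 0x10000e8002400020001000000000000000000) (nat_lit 0x0) (nat_lit 0x400020001800040003801d000a000080000000000000) := T_46 (nat_lit 122) (nat_lit 139) (nat_lit 5) (nat_lit 4) (nat_lit 4) L131774 (by decide +kernel)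
theorem L131776 : W_46 (nat_lit 10) (nat_lit 0x10000e8002400020000000000000000000000) (nat_lit 0x0) (nat_lit 0x400020001800040003801d001f0007c007a000000000) := Q_46 (nat_lit 72) (C_46 L131738 (C_46 L131520 (C_46 L131617 (C_46 L131775 N_46)))) (by decide +kernel)
theorem L131777 : W_46 (nat_lit 12) (nat_lit 0x10000e8002400000000000000000000000000) (nat_lit 0x0) (nat_lit 0x10001e001f0005e00040013801f001fe00fc007e000700000) := Q_46 (nat_lit 89) (C_46 L131517 (C_46 L131655 (C_46 L131565 (C_46 L131748 (C_46 L131755 (C_46 L131768 (C_46 L131776 N_46))))))) (by decide +kernel)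
theorem L131778 : W_46 (nat_lit 2) (nat_lit 0x10000e8003400000000000000000000000000) (nat_lit 0x0) (nat_lit 0x14000200000000000000000000000000) := D_46 (nat_lit 124) (nat_lit 122) (nat_lit 105) (nat_lit 2) (nat_lit 3) (nat_lit 7) (nat_lit 0) (nat_lit 7) (nat_lit 7) (by decide +kernel)
theorem L131779 : W_46 (nat_lit 2) (nat_lit 0x14002e80034001c0000000200000000000000) (nat_lit 0x0) (nat_lit 0x200030000000000000000000000) := D_46 (nat_lit 89) (nat_lit 88) (nat_lit 105) (nat_lit 3) (nat_lit 3) (nat_lit 5) (nat_lit 1) (nat_lit 7) (nat_lit 5) (by decide +kernel)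
theorem L131780 : W_46 (nat_lit 3) (nat_lit 0x14002e8003400180000000200000000000000) (nat_lit 0x0) (nat_lit 0x200070002000000000000000000) := T_46 (nat_lit 90) (nat_lit 73) (nat_lit 4) (nat_lit 6) (nat_lit 8) L131779 (by decide +kernel)
theorem L131781 : W_46 (nat_lit 4) (nat_lit 0x10002e8003400180000000200000000000000) (nat_lit 0x0) (nat_lit 0x8000400000000200070002000000000000000000) := T_46 (nat_lit 142) (nat_lit 159) (nat_lit 6) (nat_lit 6) (nat_lit 9) L131780 (by decide +kernel)
theorem L131782 : W_46 (nat_lit 5) (nat_lit 0x10002e8003400080000000200000000000000) (nat_lit 0x0) (nat_lit 0x800040000000020017000a000000000000000000) := T_46 (nat_lit 92) (nat_lit 75) (nat_lit 7) (nat_lit 7) (nat_lit 4) L131781 (by decide +kernel)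
theorem L131783 : W_46 (nat_lit 6) (nat_lit 0x10002e8003400080000000000000000000000) (nat_lit 0x0) (nat_lit 0x800040000000020017000e000200000000000000) := T_46 (nat_lit 57) (nat_lit 74) (nat_lit 7) (nat_lit 6) (nat_lit 3) L131782 (by decide +kernel)
theorem L131784 : W_46 (nat_lit 7) (nat_lit 0x10000e8003400080000000000000000000000) (nat_lit 0x0) (nat_lit 0x800040030000020017000e000200000000000000) := T_46 (nat_lit 129) (nat_lit 128) (nat_lit 0) (nat_lit 10) (nat_lit 7) L131783 (by decide +kernel)
theorem L131785 : W_46 (nat_lit 2) (nat_lit 0x10000e8003400080008000000000000000000) (nat_lit 0x0) (nat_lit 0x4000600000000000000) := D_46 (nat_lit 74) (nat_lit 58) (nat_lit 57) (nat_lit 6) (nat_lit 6) (nat_lit 7) (nat_lit 7) (nat_lit 6) (nat_lit 3) (by decide +kernel)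
theorem L131786 : W_46 (nat_lit 3) (nat_lit 0x10000e8003400080000000000000000000000) (nat_lit 0x0) (nat_lit 0x10000c000600000000000000) := T_46 (nat_lit 75) (nat_lit 92) (nat_lit 7) (nat_lit 7) (nat_lit 4) L131785 (by decide +kernel)
theorem L131787 : W_46 (nat_lit 2) (nat_lit 0x10002e80034000c000e000000000000000000) (nat_lit 0x0) (nat_lit 0x30010000000000000000000) := D_46 (nat_lit 89) (nat_lit 88) (nat_lit 76) (nat_lit 3) (nat_lit 3) (nat_lit 5) (nat_lit 1) (nat_lit 8) (nat_lit 4) (by decide +kernel)
theorem L131788 : W_46 (nat_lit 3) (nat_lit 0x10002e800340008000e000000000000000000) (nat_lit 0x0) (nat_lit 0x400000000000070010000000000000000000) := T_46 (nat_lit 90) (nat_lit 142) (nat_lit 4) (nat_lit 6) (nat_lit 8) L131787 (by decide +kernel)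
theorem L131789 : W_46 (nat_lit 4) (nat_lit 0x10002e800340008000c000000000000000000) (nat_lit 0x0) (nat_lit 0x400000000000070012000100000000000000) := T_46 (nat_lit 73) (nat_lit 56) (nat_lit 4) (nat_lit 6) (nat_lit 7) L131788 (by decide +kernel)
theorem L131790 : W_46 (nat_lit 5) (nat_lit 0x10002e8003400080004000000000000000000) (nat_lit 0x0) (nat_lit 0x40000000000007001a000500000000000000) := T_46 (nat_lit 75) (nat_lit 58) (nat_lit 6) (nat_lit 6) (nat_lit 7) L131789 (by decide +kernel)
theorem L131791 : W_46 (nat_lit 6) (nat_lit 0x10002e8003400080000000000000000000000) (nat_lit 0x0) (nat_lit 0x40000000000007001e000700000000000000) := T_46 (nat_lit 74) (nat_lit 57) (nat_lit 7) (nat_lit 6) (nat_lit 3) L131790 (by decide +kernel)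
theorem L131792 : W_46 (nat_lit 7) (nat_lit 0x10000e8003400080000000000000000000000) (nat_lit 0x0) (nat_lit 0x40030000000007001e000700000000000000) := T_46 (nat_lit 129) (nat_lit 128) (nat_lit 0) (nat_lit 10) (nat_lit 7) L131791 (by decide +kernel)
theorem L131793 : W_46 (nat_lit 2) (nat_lit 0x14002e80034001c0000000000000000000000) (nat_lit 0x0) (nat_lit 0x200030000000000000000000000) := D_46 (nat_lit 89) (nat_lit 88) (nat_lit 105) (nat_lit 3) (nat_lit 3) (nat_lit 5) (nat_lit 1) (nat_lit 7) (nat_lit 5) (by decide +kernel)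
theorem L131794 : W_46 (nat_lit 3) (nat_lit 0x14002e8003400180000000000000000000000) (nat_lit 0x0) (nat_lit 0x200070002000000000000000000) := T_46 (nat_lit 90) (nat_lit 73) (nat_lit 4) (nat_lit 6) (nat_lit 8) L131793 (by decide +kernel)
theorem L131795 : W_46 (nat_lit 4) (nat_lit 0x10002e8003400180000000000000000000000) (nat_lit 0x0) (nat_lit 0x8000400000000200070002000000000000000000) := T_46 (nat_lit 142) (nat_lit 159) (nat_lit 6) (nat_lit 6) (nat_lit 9) L131794 (by decide +kernel)
theorem L131796 : W_46 (nat_lit 5) (nat_lit 0x10000e8003400180000000000000000000000) (nat_lit 0x0) (nat_lit 0x8000400300000200070002000000000000000000) := T_46 (nat_lit 129) (nat_lit 128) (nat_lit 0) (nat_lit 10) (nat_lit 7) L131795 (by decide +kernel)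
theorem L131797 : W_46 (nat_lit 6) (nat_lit 0x10000e8003400080000000000000000000000) (nat_lit 0x0) (nat_lit 0x800040030000020017000a000000000000000000) := T_46 (nat_lit 92) (nat_lit 75) (nat_lit 7) (nat_lit 7) (nat_lit 4) L131796 (by decide +kernel)
theorem L131798 : W_46 (nat_lit 2) (nat_lit 0x14002e8003400080006000000000000000000) (nat_lit 0x0) (nat_lit 0x100008000000000000000100000000000000000000000) := D_46 (nat_lit 159) (nat_lit 92) (nat_lit 176) (nat_lit 6) (nat_lit 6) (nat_lit 9) (nat_lit 6) (nat_lit 6) (nat_lit 10) (by decide +kernel)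
theorem L131799 : W_46 (nat_lit 3) (nat_lit 0x10002e8003400080006000000000000000000) (nat_lit 0x0) (nat_lit 0x100008000400000000000140000000000000000000000) := T_46 (nat_lit 142) (nat_lit 90) (nat_lit 4) (nat_lit 6) (nat_lit 8) L131798 (by decide +kernel)
theorem L131800 : W_46 (nat_lit 4) (nat_lit 0x10002e8003400080004000000000000000000) (nat_lit 0x0) (nat_lit 0x100008000400000000000140002000100000000000000) := T_46 (nat_lit 73) (nat_lit 56) (nat_lit 4) (nat_lit 6) (nat_lit 7) L131799 (by decide +kernel)
theorem L131801 : W_46 (nat_lit 5) (nat_lit 0x10002e8003400080000000000000000000000) (nat_lit 0x0) (nat_lit 0x100008000400000000000140006000300000000000000) := T_46 (nat_lit 74) (nat_lit 57) (nat_lit 7) (nat_lit 6) (nat_lit 3) L131800 (by decide +kernel)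
theorem L131802 : W_46 (nat_lit 6) (nat_lit 0x10000e8003400080000000000000000000000) (nat_lit 0x0) (nat_lit 0x100008000400300000000140006000300000000000000) := T_46 (nat_lit 129) (nat_lit 128) (nat_lit 0) (nat_lit 10) (nat_lit 7) L131801 (by decide +kernel)
theorem L131803 : W_46 (nat_lit 8) (nat_lit 0x10000e8003400000000000000000000000000) (nat_lit 0x0) (nat_lit 0x1000080004003000002001f001e000700000000000000) := Q_46 (nat_lit 91) (C_46 L131784 (C_46 L131786 (C_46 L131792 (C_46 L131797 (C_46 L131802 N_46))))) (by decide +kernel)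
theorem L131804 : W_46 (nat_lit 3) (nat_lit 0x14002ec0034001c0000000000000000000000) (nat_lit 0x0) (nat_lit 0x80000000000030001800000000000000000) := T_46 (nat_lit 89) (nat_lit 88) (nat_lit 3) (nat_lit 3) (nat_lit 5) L130844 (by decide +kernel)
theorem L131805 : W_46 (nat_lit 4) (nat_lit 0x14002ec003400180000000000000000000000) (nat_lit 0x0) (nat_lit 0x80000000000070003800000000000000000) := T_46 (nat_lit 90) (nat_lit 73) (nat_lit 4) (nat_lit 6) (nat_lit 8) L131804 (by decide +kernel)
theorem L131806 : W_46 (nat_lit 5) (nat_lit 0x10002ec003400180000000000000000000000) (nat_lit 0x0) (nat_lit 0x8000480000000000070003800000000000000000) := T_46 (nat_lit 142) (nat_lit 159) (nat_lit 6) (nat_lit 6) (nat_lit 9) L131805 (by decide +kernel)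
theorem L131807 : W_46 (nat_lit 6) (nat_lit 0x10002ec003400080000000000000000000000) (nat_lit 0x0) (nat_lit 0x800048000000000017000b800000000000000000) := T_46 (nat_lit 92) (nat_lit 75) (nat_lit 7) (nat_lit 7) (nat_lit 4) L131806 (by decide +kernel)
theorem L131808 : W_46 (nat_lit 7) (nat_lit 0x10002e8003400080000000000000000000000) (nat_lit 0x0) (nat_lit 0x800048001400000017000b800000000000000000) := T_46 (nat_lit 122) (nat_lit 124) (nat_lit 2) (nat_lit 3) (nat_lit 7) L131807 (by decide +kernel)
theorem L131809 : W_46 (nat_lit 8) (nat_lit 0x10000e8003400080000000000000000000000) (nat_lit 0x0) (nat_lit 0x800048031400000017000b800000000000000000) := T_46 (nat_lit 129) (nat_lit 128) (nat_lit 0) (nat_lit 10) (nat_lit 7) L131808 (by decide +kernel)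
theorem L131810 : W_46 (nat_lit 9) (nat_lit 0x10000e8003400000000000000000000000000) (nat_lit 0x0) (nat_lit 0x1000080004803140000001f001f800700000000000000) := Q_46 (nat_lit 91) (C_46 L131802 (C_46 L131786 (C_46 L131792 (C_46 L131809 N_46)))) (by decide +kernel)
theorem L131811 : W_46 (nat_lit 10) (nat_lit 0x10000e8002400000000000000000000000000) (nat_lit 0x0) (nat_lit 0x1000080004803140012001f001f800700000000000000) := Q_46 (nat_lit 108) (C_46 L131778 (C_46 L131803 (C_46 L131810 N_46))) (by decide +kernel)
theorem L131812 : W_46 (nat_lit 2) (nat_lit 0x10000e8002600020001800080000000000000) (nat_lit 0x0) (nat_lit 0x100000000000010000000000004000000000) := D_46 (nat_lit 88) (nat_lit 38) (nat_lit 140) (nat_lit 5) (nat_lit 4) (nat_lit 2) (nat_lit 4) (nat_lit 4) (nat_lit 8) (by decide +kernel)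
theorem L131813 : W_46 (nat_lit 3) (nat_lit 0x10000e8002600020001800000000000000000) (nat_lit 0x0) (nat_lit 0x100004000000010000000080004000000000) := T_46 (nat_lit 55) (nat_lit 122) (nat_lit 5) (nat_lit 4) (nat_lit 3) L131812 (by decide +kernel)
theorem L131814 : W_46 (nat_lit 4) (nat_lit 0x10000e8002600020001000000000000000000) (nat_lit 0x0) (nat_lit 0x1000040000000100008000c0004000000000) := T_46 (nat_lit 71) (nat_lit 54) (nat_lit 4) (nat_lit 4) (nat_lit 7) L131813 (by decide +kernel)
theorem L131815 : W_46 (nat_lit 5) (nat_lit 0x10000e8002400020001000000000000000000) (nat_lit 0x0) (nat_lit 0x1000140002000100008000c0004000000000) := T_46 (nat_lit 105) (nat_lit 124) (nat_lit 0) (nat_lit 7) (nat_lit 7) L131814 (by decide +kernel)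
theorem L131816 : W_46 (nat_lit 2) (nat_lit 0x10000f8003400060003000000000000000000) (nat_lit 0x0) (nat_lit 0x400000000000090000000000000000000000) := D_46 (nat_lit 91) (nat_lit 142) (nat_lit 88) (nat_lit 4) (nat_lit 6) (nat_lit 8) (nat_lit 3) (nat_lit 3) (nat_lit 5) (by decide +kernel)
theorem L131817 : W_46 (nat_lit 3) (nat_lit 0x10000f8003400020003000000000000000000) (nat_lit 0x0) (nat_lit 0x5000000000000d0000000000000000000000) := T_46 (nat_lit 90) (nat_lit 140) (nat_lit 6) (nat_lit 4) (nat_lit 8) L131816 (by decide +kernel)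
theorem L131818 : W_46 (nat_lit 4) (nat_lit 0x10000f8002400020003000000000000000000) (nat_lit 0x0) (nat_lit 0x5000040010000d0000000000000000000000) := T_46 (nat_lit 108) (nat_lit 122) (nat_lit 2) (nat_lit 3) (nat_lit 7) L131817 (by decide +kernel)
theorem L131819 : W_46 (nat_lit 5) (nat_lit 0x10000f8002400020001000000000000000000) (nat_lit 0x0) (nat_lit 0x5000040010000d0002000100000000000000) := T_46 (nat_lit 73) (nat_lit 56) (nat_lit 6) (nat_lit 4) (nat_lit 7) L131818 (by decide +kernel)
theorem L131820 : W_46 (nat_lit 6) (nat_lit 0x10000e8002400020001000000000000000000) (nat_lit 0x0) (nat_lit 0x5000140012000d0002000100000000000000) := T_46 (nat_lit 124) (nat_lit 105) (nat_lit 0) (nat_lit 7) (nat_lit 7) L131819 (by decide +kernel)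
theorem L131821 : W_46 (nat_lit 7) (nat_lit 0x10000e8002400020000000000000000000000) (nat_lit 0x0) (nat_lit 0x5000140012000d00038001c000e000000000) := Q_46 (nat_lit 72) (C_46 L131539 (C_46 L131815 (C_46 L131505 (C_46 L131820 N_46)))) (by decide +kernel)
theorem L131822 : W_46 (nat_lit 2) (nat_lit 0x11000e8002680160000000000000000000000) (nat_lit 0x0) (nat_lit 0x2000000000000000010000800000000000000000) := D_46 (nat_lit 88) (nat_lit 157) (nat_lit 71) (nat_lit 4) (nat_lit 4) (nat_lit 9) (nat_lit 4) (nat_lit 4) (nat_lit 8) (by decide +kernel)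
theorem L131823 : W_46 (nat_lit 3) (nat_lit 0x10000e8002680160000000000000000000000) (nat_lit 0x0) (nat_lit 0x2000100000000000010002800000000000000000) := T_46 (nat_lit 140) (nat_lit 73) (nat_lit 6) (nat_lit 4) (nat_lit 8) L131822 (by decide +kernel)
theorem L131824 : W_46 (nat_lit 4) (nat_lit 0x10000e8002600160000000000000000000000) (nat_lit 0x0) (nat_lit 0x2000100000000180010002800000000000000000) := T_46 (nat_lit 103) (nat_lit 104) (nat_lit 2) (nat_lit 1) (nat_lit 6) L131823 (by decide +kernel)
theorem L131825 : W_46 (nat_lit 5) (nat_lit 0x10000e8002600120000000000000000000000) (nat_lit 0x0) (nat_lit 0x20001000000001800d0002800000000000000000) := T_46 (nat_lit 90) (nat_lit 91) (nat_lit 1) (nat_lit 7) (nat_lit 5) L131824 (by decide +kernel)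
theorem L131826 : W_46 (nat_lit 6) (nat_lit 0x10000e8002600020000000000000000000000) (nat_lit 0x0) (nat_lit 0x20001000000001801d000a800000000000000000) := T_46 (nat_lit 92) (nat_lit 75) (nat_lit 7) (nat_lit 7) (nat_lit 4) L131825 (by decide +kernel)
theorem L131827 : W_46 (nat_lit 7) (nat_lit 0x10000e8002400020000000000000000000000) (nat_lit 0x0) (nat_lit 0x20001000100003801d000a800000000000000000) := T_46 (nat_lit 105) (nat_lit 124) (nat_lit 0) (nat_lit 7) (nat_lit 7) L131826 (by decide +kernel)
theorem L131828 : W_46 (nat_lit 9) (nat_lit 0x10000e8002400020000000000000000000000) (nat_lit 0x0) (nat_lit 0x10001400020015001f8007c007e000000000) := Q_46 (nat_lit 72) (C_46 L131815 (C_46 L131733 (C_46 L131617 N_46))) (by decide +kernel)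
theorem L131829 : W_46 (nat_lit 2) (nat_lit 0x10000fc002400030009800000000000000000) (nat_lit 0x0) (nat_lit 0x6000100000000000000) := D_46 (nat_lit 73) (nat_lit 56) (nat_lit 74) (nat_lit 6) (nat_lit 4) (nat_lit 7) (nat_lit 1) (nat_lit 7) (nat_lit 4) (by decide +kernel)
theorem L131830 : W_46 (nat_lit 3) (nat_lit 0x10000fc002400020009800000000000000000) (nat_lit 0x0) (nat_lit 0x100000000000010006000100000000000000) := T_46 (nat_lit 88) (nat_lit 140) (nat_lit 4) (nat_lit 4) (nat_lit 8) L131829 (by decide +kernel)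
theorem L131831 : W_46 (nat_lit 4) (nat_lit 0x10000f8002400020009800000000000000000) (nat_lit 0x0) (nat_lit 0x100004001000010006000100000000000000) := T_46 (nat_lit 122) (nat_lit 108) (nat_lit 2) (nat_lit 3) (nat_lit 7) L131830 (by decide +kernel)
theorem L131832 : W_46 (nat_lit 5) (nat_lit 0x10000f8002400020009000000000000000000) (nat_lit 0x0) (nat_lit 0x100004001000010006800140000000000000) := T_46 (nat_lit 71) (nat_lit 54) (nat_lit 4) (nat_lit 4) (nat_lit 7) L131831 (by decide +kernel)
theorem L131833 : W_46 (nat_lit 6) (nat_lit 0x10000e8002400020009000000000000000000) (nat_lit 0x0) (nat_lit 0x100014001200010006800140000000000000) := T_46 (nat_lit 124) (nat_lit 105) (nat_lit 0) (nat_lit 7) (nat_lit 7) L131832 (by decide +kernel)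
theorem L131834 : W_46 (nat_lit 7) (nat_lit 0x10000e8002400020001000000000000000000) (nat_lit 0x0) (nat_lit 0x10001400120011000e800140000000000000) := T_46 (nat_lit 75) (nat_lit 92) (nat_lit 7) (nat_lit 7) (nat_lit 4) L131833 (by decide +kernel)
theorem L131835 : W_46 (nat_lit 2) (nat_lit 0x10000f800240002000f000480000000000000) (nat_lit 0x0) (nat_lit 0x4001000080000000000000000000000) := D_46 (nat_lit 108) (nat_lit 122) (nat_lit 91) (nat_lit 2) (nat_lit 3) (nat_lit 7) (nat_lit 6) (nat_lit 6) (nat_lit 7) (by decide +kernel)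
theorem L131836 : W_46 (nat_lit 3) (nat_lit 0x10000f800240002000f000080000000000000) (nat_lit 0x0) (nat_lit 0x4001000080000000c00000000000000) := T_46 (nat_lit 58) (nat_lit 59) (nat_lit 2) (nat_lit 4) (nat_lit 4) L131835 (by decide +kernel)
theorem L131837 : W_46 (nat_lit 4) (nat_lit 0x10000f800240002000f000000000000000000) (nat_lit 0x0) (nat_lit 0x4001000080000000cc0000000000000) := T_46 (nat_lit 55) (nat_lit 54) (nat_lit 0) (nat_lit 7) (nat_lit 4) L131836 (by decide +kernel)
theorem L131838 : W_46 (nat_lit 5) (nat_lit 0x10000f800240002000b000000000000000000) (nat_lit 0x0) (nat_lit 0x4001000090004000cc0000000000000) := T_46 (nat_lit 74) (nat_lit 88) (nat_lit 1) (nat_lit 7) (nat_lit 4) L131837 (by decide +kernel)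
theorem L131839 : W_46 (nat_lit 6) (nat_lit 0x10000f8002400020003000000000000000000) (nat_lit 0x0) (nat_lit 0x400100019000c000cc0000000000000) := T_46 (nat_lit 75) (nat_lit 92) (nat_lit 7) (nat_lit 7) (nat_lit 4) L131838 (by decide +kernel)
theorem L131840 : W_46 (nat_lit 7) (nat_lit 0x10000e8002400020003000000000000000000) (nat_lit 0x0) (nat_lit 0x1400120019000c000cc0000000000000) := T_46 (nat_lit 124) (nat_lit 105) (nat_lit 0) (nat_lit 7) (nat_lit 7) L131839 (by decide +kernel)
theorem L131841 : W_46 (nat_lit 8) (nat_lit 0x10000e8002400020001000000000000000000) (nat_lit 0x0) (nat_lit 0x1400120019000e000dc0000000000000) := T_46 (nat_lit 73) (nat_lit 56) (nat_lit 6) (nat_lit 4) (nat_lit 7) L131840 (by decide +kernel)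
theorem L131842 : W_46 (nat_lit 2) (nat_lit 0x10000f800340002000f000000000000000000) (nat_lit 0x0) (nat_lit 0x80000000c00000000000000) := D_46 (nat_lit 58) (nat_lit 59) (nat_lit 91) (nat_lit 2) (nat_lit 4) (nat_lit 4) (nat_lit 6) (nat_lit 6) (nat_lit 7) (by decide +kernel)
theorem L131843 : W_46 (nat_lit 3) (nat_lit 0x10000f800340002000b000000000000000000) (nat_lit 0x0) (nat_lit 0x90004000c00000000000000) := T_46 (nat_lit 74) (nat_lit 88) (nat_lit 1) (nat_lit 7) (nat_lit 4) L131842 (by decide +kernel)
theorem L131844 : W_46 (nat_lit 4) (nat_lit 0x10000f8003400020003000000000000000000) (nat_lit 0x0) (nat_lit 0x19000c000c00000000000000) := T_46 (nat_lit 75) (nat_lit 92) (nat_lit 7) (nat_lit 7) (nat_lit 4) L131843 (by decide +kernel)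
theorem L131845 : W_46 (nat_lit 5) (nat_lit 0x10000f8002400020003000000000000000000) (nat_lit 0x0) (nat_lit 0x400100019000c000c00000000000000) := T_46 (nat_lit 108) (nat_lit 122) (nat_lit 2) (nat_lit 3) (nat_lit 7) L131844 (by decide +kernel)
theorem L131846 : W_46 (nat_lit 6) (nat_lit 0x10000f8002400020001000000000000000000) (nat_lit 0x0) (nat_lit 0x400100019000e000d00000000000000) := T_46 (nat_lit 73) (nat_lit 56) (nat_lit 6) (nat_lit 4) (nat_lit 7) L131845 (by decide +kernel)
theorem L131847 : W_46 (nat_lit 7) (nat_lit 0x10000e8002400020001000000000000000000) (nat_lit 0x0) (nat_lit 0x1400120019000e000d00000000000000) := T_46 (nat_lit 124) (nat_lit 105) (nat_lit 0) (nat_lit 7) (nat_lit 7) L131846 (by decide +kernel)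
theorem L131848 : W_46 (nat_lit 9) (nat_lit 0x10000e8002400020000000000000000000000) (nat_lit 0x0) (nat_lit 0x10001400120019001f800fc007e000000000) := Q_46 (nat_lit 72) (C_46 L131815 (C_46 L131733 (C_46 L131834 (C_46 L131841 (C_46 L131847 N_46))))) (by decide +kernel)
theorem L131849 : W_46 (nat_lit 2) (nat_lit 0x10002f80034001a0001800000000000000000) (nat_lit 0x0) (nat_lit 0x6000200000000000000) := D_46 (nat_lit 74) (nat_lit 73) (nat_lit 57) (nat_lit 3) (nat_lit 3) (nat_lit 4) (nat_lit 7) (nat_lit 6) (nat_lit 3) (by decide +kernel)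
theorem L131850 : W_46 (nat_lit 3) (nat_lit 0x10002f8003400120001800000000000000000) (nat_lit 0x0) (nat_lit 0xc0006000200000000000000) := T_46 (nat_lit 91) (nat_lit 90) (nat_lit 0) (nat_lit 7) (nat_lit 5) L131849 (by decide +kernel)
theorem L131851 : W_46 (nat_lit 4) (nat_lit 0x10000f8003400120001800000000000000000) (nat_lit 0x0) (nat_lit 0x3000000000c0006000200000000000000) := T_46 (nat_lit 129) (nat_lit 128) (nat_lit 0) (nat_lit 10) (nat_lit 7) L131850 (by decide +kernel)
theorem L131852 : W_46 (nat_lit 5) (nat_lit 0x10000f8003400020001800000000000000000) (nat_lit 0x0) (nat_lit 0x3000000001c000e000200000000000000) := T_46 (nat_lit 92) (nat_lit 75) (nat_lit 7) (nat_lit 7) (nat_lit 4) L131851 (by decide +kernel)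
theorem L131853 : W_46 (nat_lit 6) (nat_lit 0x10000f8002400020001800000000000000000) (nat_lit 0x0) (nat_lit 0x3040010001c000e000200000000000000) := T_46 (nat_lit 108) (nat_lit 122) (nat_lit 2) (nat_lit 3) (nat_lit 7) L131852 (by decide +kernel)
theorem L131854 : W_46 (nat_lit 7) (nat_lit 0x10000f8002400020001000000000000000000) (nat_lit 0x0) (nat_lit 0x3040010001c000e800240000000000000) := T_46 (nat_lit 71) (nat_lit 54) (nat_lit 4) (nat_lit 4) (nat_lit 7) L131853 (by decide +kernel)
theorem L131855 : W_46 (nat_lit 8) (nat_lit 0x10000e8002400020001000000000000000000) (nat_lit 0x0) (nat_lit 0x3140012001c000e800240000000000000) := T_46 (nat_lit 124) (nat_lit 105) (nat_lit 0) (nat_lit 7) (nat_lit 7) L131854 (by decide +kernel)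
theorem L131856 : W_46 (nat_lit 9) (nat_lit 0x10000e8002400020000000000000000000000) (nat_lit 0x0) (nat_lit 0x3140012001d001f800fc007a000000000) := Q_46 (nat_lit 72) (C_46 L131847 (C_46 L131733 (C_46 L131539 (C_46 L131855 N_46)))) (by decide +kernel)
theorem L131857 : W_46 (nat_lit 2) (nat_lit 0x10000e8002400020008800040000000000000) (nat_lit 0x0) (nat_lit 0x100000000000010000000000002000000000) := D_46 (nat_lit 88) (nat_lit 140) (nat_lit 37) (nat_lit 4) (nat_lit 4) (nat_lit 8) (nat_lit 7) (nat_lit 3) (nat_lit 2) (by decide +kernel)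
theorem L131858 : W_46 (nat_lit 3) (nat_lit 0x10000e8002400020008800000000000000000) (nat_lit 0x0) (nat_lit 0x100000000000010001000040002000000000) := T_46 (nat_lit 54) (nat_lit 72) (nat_lit 4) (nat_lit 4) (nat_lit 7) L131857 (by decide +kernel)
theorem L131859 : W_46 (nat_lit 4) (nat_lit 0x10000e8002400020000800000000000000000) (nat_lit 0x0) (nat_lit 0x100000000000110009000040002000000000) := T_46 (nat_lit 75) (nat_lit 92) (nat_lit 7) (nat_lit 7) (nat_lit 4) L131858 (by decide +kernel)
theorem L131860 : W_46 (nat_lit 3) (nat_lit 0x10000e8002400020000800000000000000000) (nat_lit 0x0) (nat_lit 0x100000000000010001000040002000000000) := T_46 (nat_lit 88) (nat_lit 140) (nat_lit 4) (nat_lit 4) (nat_lit 8) L131497 (by decide +kernel)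
theorem L131861 : W_46 (nat_lit 2) (nat_lit 0x10002f80034000b0008800040000000000000) (nat_lit 0x0) (nat_lit 0x4000600000000000000) := D_46 (nat_lit 74) (nat_lit 58) (nat_lit 57) (nat_lit 6) (nat_lit 6) (nat_lit 7) (nat_lit 7) (nat_lit 6) (nat_lit 3) (by decide +kernel)
theorem L131862 : W_46 (nat_lit 3) (nat_lit 0x10002f8003400030008800040000000000000) (nat_lit 0x0) (nat_lit 0xc0004000600000000000000) := T_46 (nat_lit 91) (nat_lit 90) (nat_lit 3) (nat_lit 3) (nat_lit 5) L131861 (by decide +kernel)
theorem L131863 : W_46 (nat_lit 4) (nat_lit 0x10002f8003400020008800040000000000000) (nat_lit 0x0) (nat_lit 0xd0004000600002000000000) := T_46 (nat_lit 88) (nat_lit 37) (nat_lit 7) (nat_lit 3) (nat_lit 2) L131862 (by decide +kernel)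
theorem L131864 : W_46 (nat_lit 5) (nat_lit 0x10000f8003400020008800040000000000000) (nat_lit 0x0) (nat_lit 0x3000000000d0004000600002000000000) := T_46 (nat_lit 129) (nat_lit 128) (nat_lit 0) (nat_lit 10) (nat_lit 7) L131863 (by decide +kernel)
theorem L131865 : W_46 (nat_lit 6) (nat_lit 0x10000f8003400020008800000000000000000) (nat_lit 0x0) (nat_lit 0x3000000000d0005000640002000000000) := T_46 (nat_lit 54) (nat_lit 72) (nat_lit 4) (nat_lit 4) (nat_lit 7) L131864 (by decide +kernel)
theorem L131866 : W_46 (nat_lit 7) (nat_lit 0x10000f8002400020008800000000000000000) (nat_lit 0x0) (nat_lit 0x3040010000d0005000640002000000000) := T_46 (nat_lit 108) (nat_lit 122) (nat_lit 2) (nat_lit 3) (nat_lit 7) L131865 (by decide +kernel)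
theorem L131867 : W_46 (nat_lit 8) (nat_lit 0x10000f8002400020000800000000000000000) (nat_lit 0x0) (nat_lit 0x3040010001d000d000640002000000000) := T_46 (nat_lit 75) (nat_lit 92) (nat_lit 7) (nat_lit 7) (nat_lit 4) L131866 (by decide +kernel)
theorem L131868 : W_46 (nat_lit 9) (nat_lit 0x10000e8002400020000800000000000000000) (nat_lit 0x0) (nat_lit 0x3140012001d000d000640002000000000) := T_46 (nat_lit 124) (nat_lit 105) (nat_lit 0) (nat_lit 7) (nat_lit 7) L131867 (by decide +kernel)
theorem L131869 : W_46 (nat_lit 2) (nat_lit 0x10000e8002400030000800000000000000000) (nat_lit 0x0) (nat_lit 0x10000200000000000040000000000000) := D_46 (nat_lit 105) (nat_lit 124) (nat_lit 54) (nat_lit 0) (nat_lit 7) (nat_lit 7) (nat_lit 7) (nat_lit 3) (nat_lit 3) (by decide +kernel)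
theorem L131870 : W_46 (nat_lit 3) (nat_lit 0x10000e8002400020000800000000000000000) (nat_lit 0x0) (nat_lit 0x100010000200010000000040000000000000) := T_46 (nat_lit 88) (nat_lit 140) (nat_lit 4) (nat_lit 4) (nat_lit 8) L131869 (by decide +kernel)
theorem L131871 : W_46 (nat_lit 2) (nat_lit 0x10000e80026001a0001a00380000000000000) (nat_lit 0x0) (nat_lit 0x1000000004000000010000000000) := D_46 (nat_lit 74) (nat_lit 40) (nat_lit 108) (nat_lit 7) (nat_lit 6) (nat_lit 2) (nat_lit 7) (nat_lit 6) (nat_lit 3) (by decide +kernel)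
theorem L131872 : W_46 (nat_lit 3) (nat_lit 0x10000e80026001a0001a00180000000000000) (nat_lit 0x0) (nat_lit 0x1000000004000600010000000000) := T_46 (nat_lit 57) (nat_lit 58) (nat_lit 1) (nat_lit 7) (nat_lit 3) L131871 (by decide +kernel)
theorem L131873 : W_46 (nat_lit 4) (nat_lit 0x10000e80026001a0001800180000000000000) (nat_lit 0x0) (nat_lit 0x1000000004600600010000000000) := T_46 (nat_lit 69) (nat_lit 70) (nat_lit 2) (nat_lit 1) (nat_lit 4) L131872 (by decide +kernel)
theorem L131874 : W_46 (nat_lit 5) (nat_lit 0x10000e80026001a0001800080000000000000) (nat_lit 0x0) (nat_lit 0x1000000004600700018000000000) := T_46 (nat_lit 56) (nat_lit 39) (nat_lit 6) (nat_lit 4) (nat_lit 6) L131873 (by decide +kernel)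
theorem L131875 : W_46 (nat_lit 6) (nat_lit 0x10000e80026001a0001800000000000000000) (nat_lit 0x0) (nat_lit 0x4001000000004600780018000000000) := T_46 (nat_lit 55) (nat_lit 122) (nat_lit 5) (nat_lit 4) (nat_lit 3) L131874 (by decide +kernel)
theorem L131876 : W_46 (nat_lit 7) (nat_lit 0x10000e80024001a0001800000000000000000) (nat_lit 0x0) (nat_lit 0x14001200000004600780018000000000) := T_46 (nat_lit 105) (nat_lit 124) (nat_lit 0) (nat_lit 7) (nat_lit 7) L131875 (by decide +kernel)
theorem L131877 : W_46 (nat_lit 8) (nat_lit 0x10000e8002400120001800000000000000000) (nat_lit 0x0) (nat_lit 0x140012000c0004600780018000000000) := T_46 (nat_lit 91) (nat_lit 90) (nat_lit 0) (nat_lit 7) (nat_lit 5) L131876 (by decide +kernel)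
theorem L131878 : W_46 (nat_lit 9) (nat_lit 0x10000e8002400120000800000000000000000) (nat_lit 0x0) (nat_lit 0x140012000c00056007c0018000000000) := T_46 (nat_lit 72) (nat_lit 54) (nat_lit 4) (nat_lit 4) (nat_lit 7) L131877 (by decide +kernel)
theorem L131879 : W_46 (nat_lit 10) (nat_lit 0x10000e8002400020000800000000000000000) (nat_lit 0x0) (nat_lit 0x140012001c000d6007c0018000000000) := T_46 (nat_lit 92) (nat_lit 75) (nat_lit 7) (nat_lit 7) (nat_lit 4) L131878 (by decide +kernel)
theorem L131880 : W_46 (nat_lit 2) (nat_lit 0x10002f80034000b0008800000000000000000) (nat_lit 0x0) (nat_lit 0x4000600000000000000) := D_46 (nat_lit 74) (nat_lit 58) (nat_lit 57) (nat_lit 6) (nat_lit 6) (nat_lit 7) (nat_lit 7) (nat_lit 6) (nat_lit 3) (by decide +kernel)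
theorem L131881 : W_46 (nat_lit 3) (nat_lit 0x10002f8003400030008800000000000000000) (nat_lit 0x0) (nat_lit 0xc0004000600000000000000) := T_46 (nat_lit 91) (nat_lit 90) (nat_lit 3) (nat_lit 3) (nat_lit 5) L131880 (by decide +kernel)
theorem L131882 : W_46 (nat_lit 4) (nat_lit 0x10000f8003400030008800000000000000000) (nat_lit 0x0) (nat_lit 0x3000000000c0004000600000000000000) := T_46 (nat_lit 129) (nat_lit 128) (nat_lit 0) (nat_lit 10) (nat_lit 7) L131881 (by decide +kernel)
theorem L131883 : W_46 (nat_lit 5) (nat_lit 0x10000f8003400020008800000000000000000) (nat_lit 0x0) (nat_lit 0x1003000000000d0004000600000000000000) := T_46 (nat_lit 88) (nat_lit 140) (nat_lit 4) (nat_lit 4) (nat_lit 8) L131882 (by decide +kernel)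
theorem L131884 : W_46 (nat_lit 6) (nat_lit 0x10000f8002400020008800000000000000000) (nat_lit 0x0) (nat_lit 0x1003040010000d0004000600000000000000) := T_46 (nat_lit 108) (nat_lit 122) (nat_lit 2) (nat_lit 3) (nat_lit 7) L131883 (by decide +kernel)
theorem L131885 : W_46 (nat_lit 7) (nat_lit 0x10000f8002400020000800000000000000000) (nat_lit 0x0) (nat_lit 0x1003040010001d000c000600000000000000) := T_46 (nat_lit 75) (nat_lit 92) (nat_lit 7) (nat_lit 7) (nat_lit 4) L131884 (by decide +kernel)
theorem L131886 : W_46 (nat_lit 8) (nat_lit 0x10000e8002400020000800000000000000000) (nat_lit 0x0) (nat_lit 0x1003140012001d000c000600000000000000) := T_46 (nat_lit 124) (nat_lit 105) (nat_lit 0) (nat_lit 7) (nat_lit 7) L131885 (by decide +kernel)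
theorem L131887 : W_46 (nat_lit 11) (nat_lit 0x10000e8002400020000000000000000000000) (nat_lit 0x0) (nat_lit 0x1003140012001d000de007c001a000000000) := Q_46 (nat_lit 71) (C_46 L131859 (C_46 L131860 (C_46 L131868 (C_46 L131870 (C_46 L131879 (C_46 L131886 N_46)))))) (by decide +kernel)
theorem L131888 : W_46 (nat_lit 2) (nat_lit 0x10000e8002680160002000000000000000000) (nat_lit 0x0) (nat_lit 0x1000100008000000000) := D_46 (nat_lit 56) (nat_lit 72) (nat_lit 39) (nat_lit 6) (nat_lit 4) (nat_lit 7) (nat_lit 5) (nat_lit 5) (nat_lit 2) (by decide +kernel)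
theorem L131889 : W_46 (nat_lit 3) (nat_lit 0x10000e8002680160000000000000000000000) (nat_lit 0x0) (nat_lit 0x100000000000000003000100008000000000) := T_46 (nat_lit 73) (nat_lit 140) (nat_lit 6) (nat_lit 4) (nat_lit 8) L131888 (by decide +kernel)
theorem L131890 : W_46 (nat_lit 4) (nat_lit 0x10000e8002600160000000000000000000000) (nat_lit 0x0) (nat_lit 0x100000000180000003000100008000000000) := T_46 (nat_lit 103) (nat_lit 104) (nat_lit 2) (nat_lit 1) (nat_lit 6) L131889 (by decide +kernel)
theorem L131891 : W_46 (nat_lit 5) (nat_lit 0x10000e8002600120000000000000000000000) (nat_lit 0x0) (nat_lit 0x1000000001800c0003000100008000000000) := T_46 (nat_lit 90) (nat_lit 91) (nat_lit 1) (nat_lit 7) (nat_lit 5) L131890 (by decide +kernel)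
theorem L131892 : W_46 (nat_lit 6) (nat_lit 0x10000e8002400120000000000000000000000) (nat_lit 0x0) (nat_lit 0x1000100003800c0003000100008000000000) := T_46 (nat_lit 105) (nat_lit 124) (nat_lit 0) (nat_lit 7) (nat_lit 7) L131891 (by decide +kernel)
theorem L131893 : W_46 (nat_lit 7) (nat_lit 0x10000e8002400020000000000000000000000) (nat_lit 0x0) (nat_lit 0x1000100003801c000b000100008000000000) := T_46 (nat_lit 92) (nat_lit 75) (nat_lit 7) (nat_lit 7) (nat_lit 4) L131892 (by decide +kernel)
theorem L131894 : W_46 (nat_lit 12) (nat_lit 0x10000e8002400000000000000000000000000) (nat_lit 0x0) (nat_lit 0x20005003140013801f001fe00fc007e000000000) := Q_46 (nat_lit 89) (C_46 L131821 (C_46 L131755 (C_46 L131827 (C_46 L131828 (C_46 L131848 (C_46 L131856 (C_46 L131887 (C_46 L131893 N_46)))))))) (by decide +kernel)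
theorem L131895 : W_46 (nat_lit 2) (nat_lit 0x11000e8002400020000000000000000000000) (nat_lit 0x0) (nat_lit 0x1000080010000000000000000000000000000000) := D_46 (nat_lit 139) (nat_lit 124) (nat_lit 156) (nat_lit 1) (nat_lit 7) (nat_lit 7) (nat_lit 5) (nat_lit 4) (nat_lit 5) (by decide +kernel)
theorem L131896 : W_46 (nat_lit 2) (nat_lit 0x11000e8002400020002800000000000000000) (nat_lit 0x0) (nat_lit 0x1000140000000000000) := D_46 (nat_lit 72) (nat_lit 56) (nat_lit 54) (nat_lit 6) (nat_lit 4) (nat_lit 7) (nat_lit 4) (nat_lit 4) (nat_lit 7) (by decide +kernel)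
theorem L131897 : W_46 (nat_lit 3) (nat_lit 0x11000e8002400020002000000000000000000) (nat_lit 0x0) (nat_lit 0x10001800140000000000000) := T_46 (nat_lit 71) (nat_lit 88) (nat_lit 4) (nat_lit 4) (nat_lit 8) L131896 (by decide +kernel)
theorem L131898 : W_46 (nat_lit 4) (nat_lit 0x11000e8002400020000000000000000000000) (nat_lit 0x0) (nat_lit 0x50003800140000000000000) := T_46 (nat_lit 73) (nat_lit 90) (nat_lit 6) (nat_lit 4) (nat_lit 8) L131897 (by decide +kernel)
theorem L131899 : W_46 (nat_lit 6) (nat_lit 0x10000e8002400020000000000000000000000) (nat_lit 0x0) (nat_lit 0x1000180014000000050003800140000000000000) := Q_46 (nat_lit 140) (C_46 L131703 (C_46 L131895 (C_46 L131898 N_46))) (by decide +kernel)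
theorem L131900 : W_46 (nat_lit 2) (nat_lit 0x10000fc0024000200090003c0020000000000) (nat_lit 0x0) (nat_lit 0x10000400040000000000) := D_46 (nat_lit 58) (nat_lit 76) (nat_lit 42) (nat_lit 3) (nat_lit 4) (nat_lit 3) (nat_lit 2) (nat_lit 4) (nat_lit 3) (by decide +kernel)
theorem L131901 : W_46 (nat_lit 3) (nat_lit 0x10000fc0024000200090003c0000000000000) (nat_lit 0x0) (nat_lit 0x10000400070000000000) := T_46 (nat_lit 41) (nat_lit 40) (nat_lit 2) (nat_lit 3) (nat_lit 3) L131900 (by decide +kernel)
theorem L131902 : W_46 (nat_lit 4) (nat_lit 0x10000fc0024000200090001c0000000000000) (nat_lit 0x0) (nat_lit 0x14000600070000000000) := T_46 (nat_lit 57) (nat_lit 74) (nat_lit 3) (nat_lit 3) (nat_lit 3) L131901 (by decide +kernel)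
theorem L131903 : W_46 (nat_lit 5) (nat_lit 0x10000fc002400020009000180000000000000) (nat_lit 0x0) (nat_lit 0x14000640072000000000) := T_46 (nat_lit 54) (nat_lit 37) (nat_lit 4) (nat_lit 4) (nat_lit 6) L131902 (by decide +kernel)
theorem L131904 : W_46 (nat_lit 6) (nat_lit 0x10000fc002400020009000100000000000000) (nat_lit 0x0) (nat_lit 0x140006c007a000000000) := T_46 (nat_lit 55) (nat_lit 39) (nat_lit 6) (nat_lit 4) (nat_lit 6) L131903 (by decide +kernel)
theorem L131905 : W_46 (nat_lit 7) (nat_lit 0x10000fc002400020009000000000000000000) (nat_lit 0x0) (nat_lit 0x160007c007a000000000) := T_46 (nat_lit 56) (nat_lit 73) (nat_lit 6) (nat_lit 4) (nat_lit 7) L131904 (by decide +kernel)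
theorem L131906 : W_46 (nat_lit 8) (nat_lit 0x10000ec002400020009000000000000000000) (nat_lit 0x0) (nat_lit 0x100010000000160007c007a000000000) := T_46 (nat_lit 124) (nat_lit 108) (nat_lit 2) (nat_lit 3) (nat_lit 7) L131905 (by decide +kernel)
theorem L131907 : W_46 (nat_lit 9) (nat_lit 0x10000e8002400020009000000000000000000) (nat_lit 0x0) (nat_lit 0x800140010000000160007c007a000000000) := T_46 (nat_lit 122) (nat_lit 139) (nat_lit 5) (nat_lit 4) (nat_lit 4) L131906 (by decide +kernel)
theorem L131908 : W_46 (nat_lit 10) (nat_lit 0x10000e8002400020001000000000000000000) (nat_lit 0x0) (nat_lit 0x8001400100010001e0007c007a000000000) := T_46 (nat_lit 75) (nat_lit 92) (nat_lit 7) (nat_lit 7) (nat_lit 4) L131907 (by decide +kernel)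
theorem L131909 : W_46 (nat_lit 2) (nat_lit 0x10000ec00340002000f000000000000000000) (nat_lit 0x0) (nat_lit 0x80000000c00000000000000) := D_46 (nat_lit 58) (nat_lit 59) (nat_lit 91) (nat_lit 2) (nat_lit 4) (nat_lit 4) (nat_lit 6) (nat_lit 6) (nat_lit 7) (by decide +kernel)
theorem L131910 : W_46 (nat_lit 3) (nat_lit 0x10000ec00240002000f000000000000000000) (nat_lit 0x0) (nat_lit 0x10001000080000000c00000000000000) := T_46 (nat_lit 108) (nat_lit 124) (nat_lit 2) (nat_lit 3) (nat_lit 7) L131909 (by decide +kernel)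
theorem L131911 : W_46 (nat_lit 4) (nat_lit 0x10000e800240002000f000000000000000000) (nat_lit 0x0) (nat_lit 0x80014001000080000000c00000000000000) := T_46 (nat_lit 122) (nat_lit 139) (nat_lit 5) (nat_lit 4) (nat_lit 4) L131910 (by decide +kernel)
theorem L131912 : W_46 (nat_lit 5) (nat_lit 0x10000e800240002000b000000000000000000) (nat_lit 0x0) (nat_lit 0x80014001000090004000c00000000000000) := T_46 (nat_lit 74) (nat_lit 88) (nat_lit 1) (nat_lit 7) (nat_lit 4) L131911 (by decide +kernel)
theorem L131913 : W_46 (nat_lit 6) (nat_lit 0x10000e8002400020003000000000000000000) (nat_lit 0x0) (nat_lit 0x8001400100019000c000c00000000000000) := T_46 (nat_lit 75) (nat_lit 92) (nat_lit 7) (nat_lit 7) (nat_lit 4) L131912 (by decide +kernel)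
theorem L131914 : W_46 (nat_lit 7) (nat_lit 0x10000e8002400020001000000000000000000) (nat_lit 0x0) (nat_lit 0x8001400100019000e000d00000000000000) := T_46 (nat_lit 73) (nat_lit 56) (nat_lit 6) (nat_lit 4) (nat_lit 7) L131913 (by decide +kernel)
theorem L131915 : W_46 (nat_lit 11) (nat_lit 0x10000e8002400020000000000000000000000) (nat_lit 0x0) (nat_lit 0x100018001400100019001f800fc007a000000000) := Q_46 (nat_lit 72) (C_46 L131733 (C_46 L131539 (C_46 L131537 (C_46 L131908 (C_46 L131914 N_46))))) (by decide +kernel)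
theorem L131916 : W_46 (nat_lit 2) (nat_lit 0x10002ec00340002000d0000c0000000000000) (nat_lit 0x0) (nat_lit 0x80000000600000000000000) := D_46 (nat_lit 91) (nat_lit 57) (nat_lit 58) (nat_lit 7) (nat_lit 6) (nat_lit 3) (nat_lit 6) (nat_lit 6) (nat_lit 7) (by decide +kernel)
theorem L131917 : W_46 (nat_lit 3) (nat_lit 0x10002ec0034000200090000c0000000000000) (nat_lit 0x0) (nat_lit 0x80006000600000000000000) := T_46 (nat_lit 74) (nat_lit 73) (nat_lit 0) (nat_lit 7) (nat_lit 4) L131916 (by decide +kernel)
theorem L131918 : W_46 (nat_lit 4) (nat_lit 0x10002ec003400020009000040000000000000) (nat_lit 0x0) (nat_lit 0x80006000680002000000000) := T_46 (nat_lit 55) (nat_lit 37) (nat_lit 4) (nat_lit 4) (nat_lit 6) L131917 (by decide +kernel)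
theorem L131919 : W_46 (nat_lit 5) (nat_lit 0x10000ec003400020009000040000000000000) (nat_lit 0x0) (nat_lit 0x300000000080006000680002000000000) := T_46 (nat_lit 129) (nat_lit 128) (nat_lit 0) (nat_lit 10) (nat_lit 7) L131918 (by decide +kernel)
theorem L131920 : W_46 (nat_lit 6) (nat_lit 0x10000ec003400020009000000000000000000) (nat_lit 0x0) (nat_lit 0x3000000000800068006c0002000000000) := T_46 (nat_lit 54) (nat_lit 71) (nat_lit 4) (nat_lit 4) (nat_lit 7) L131919 (by decide +kernel)
theorem L131921 : W_46 (nat_lit 7) (nat_lit 0x10000ec002400020009000000000000000000) (nat_lit 0x0) (nat_lit 0x3100010000800068006c0002000000000) := T_46 (nat_lit 108) (nat_lit 124) (nat_lit 2) (nat_lit 3) (nat_lit 7) L131920 (by decide +kernel)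
theorem L131922 : W_46 (nat_lit 8) (nat_lit 0x10000e8002400020009000000000000000000) (nat_lit 0x0) (nat_lit 0x803140010000800068006c0002000000000) := T_46 (nat_lit 122) (nat_lit 139) (nat_lit 5) (nat_lit 4) (nat_lit 4) L131921 (by decide +kernel)
theorem L131923 : W_46 (nat_lit 9) (nat_lit 0x10000e8002400020001000000000000000000) (nat_lit 0x0) (nat_lit 0x8031400100018000e8006c0002000000000) := T_46 (nat_lit 75) (nat_lit 92) (nat_lit 7) (nat_lit 7) (nat_lit 4) L131922 (by decide +kernel)
theorem L131924 : W_46 (nat_lit 10) (nat_lit 0x10000e8002400020000000000000000000000) (nat_lit 0x0) (nat_lit 0x8031400100019001f800fc007a000000000) := Q_46 (nat_lit 72) (C_46 L131733 (C_46 L131914 (C_46 L131539 (C_46 L131923 N_46)))) (by decide +kernel)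
theorem L131925 : W_46 (nat_lit 2) (nat_lit 0x10800e8002400020009800000000000000000) (nat_lit 0x0) (nat_lit 0x1000100000000000010000000000000000000000) := D_46 (nat_lit 140) (nat_lit 156) (nat_lit 88) (nat_lit 5) (nat_lit 4) (nat_lit 5) (nat_lit 4) (nat_lit 4) (nat_lit 8) (by decide +kernel)
theorem L131926 : W_46 (nat_lit 3) (nat_lit 0x10800e8002400020009000000000000000000) (nat_lit 0x0) (nat_lit 0x1000100000000000010000800040000000000000) := T_46 (nat_lit 71) (nat_lit 54) (nat_lit 4) (nat_lit 4) (nat_lit 7) L131925 (by decide +kernel)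
theorem L131927 : W_46 (nat_lit 4) (nat_lit 0x10800e8002400020008000000000000000000) (nat_lit 0x0) (nat_lit 0x1000100004000000010001800040000000000000) := T_46 (nat_lit 72) (nat_lit 122) (nat_lit 5) (nat_lit 4) (nat_lit 4) L131926 (by decide +kernel)
theorem L131928 : W_46 (nat_lit 5) (nat_lit 0x10800e8002400020000000000000000000000) (nat_lit 0x0) (nat_lit 0x1000100004000000110009800040000000000000) := T_46 (nat_lit 75) (nat_lit 92) (nat_lit 7) (nat_lit 7) (nat_lit 4) L131927 (by decide +kernel)
theorem L131929 : W_46 (nat_lit 2) (nat_lit 0x10800e8002400020000000000000000000000) (nat_lit 0x0) (nat_lit 0x1000100010000000000000000000000000000000) := D_46 (nat_lit 140) (nat_lit 156) (nat_lit 124) (nat_lit 5) (nat_lit 4) (nat_lit 5) (nat_lit 1) (nat_lit 7) (nat_lit 7) (by decide +kernel)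
theorem L131930 : W_46 (nat_lit 2) (nat_lit 0x10800e80024000200090003c0020000000000) (nat_lit 0x0) (nat_lit 0x10000400040000000000) := D_46 (nat_lit 58) (nat_lit 76) (nat_lit 42) (nat_lit 3) (nat_lit 4) (nat_lit 3) (nat_lit 2) (nat_lit 4) (nat_lit 3) (by decide +kernel)
theorem L131931 : W_46 (nat_lit 3) (nat_lit 0x10800e80024000200090003c0000000000000) (nat_lit 0x0) (nat_lit 0x10000400070000000000) := T_46 (nat_lit 41) (nat_lit 40) (nat_lit 2) (nat_lit 3) (nat_lit 3) L131930 (by decide +kernel)
theorem L131932 : W_46 (nat_lit 4) (nat_lit 0x10800e80024000200090001c0000000000000) (nat_lit 0x0) (nat_lit 0x14000600070000000000) := T_46 (nat_lit 57) (nat_lit 74) (nat_lit 3) (nat_lit 3) (nat_lit 3) L131931 (by decide +kernel)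
theorem L131933 : W_46 (nat_lit 5) (nat_lit 0x10800e80024000200090000c0000000000000) (nat_lit 0x0) (nat_lit 0x14000700078000000000) := T_46 (nat_lit 56) (nat_lit 39) (nat_lit 6) (nat_lit 4) (nat_lit 6) L131932 (by decide +kernel)
theorem L131934 : W_46 (nat_lit 6) (nat_lit 0x10800e8002400020009000040000000000000) (nat_lit 0x0) (nat_lit 0x1400078007a000000000) := T_46 (nat_lit 55) (nat_lit 37) (nat_lit 4) (nat_lit 4) (nat_lit 6) L131933 (by decide +kernel)
theorem L131935 : W_46 (nat_lit 7) (nat_lit 0x10800e8002400020009000000000000000000) (nat_lit 0x0) (nat_lit 0x148007c007a000000000) := T_46 (nat_lit 54) (nat_lit 71) (nat_lit 4) (nat_lit 4) (nat_lit 7) L131934 (by decide +kernel)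
theorem L131936 : W_46 (nat_lit 8) (nat_lit 0x10800e8002400020008000000000000000000) (nat_lit 0x0) (nat_lit 0x40000000000158007c007a000000000) := T_46 (nat_lit 72) (nat_lit 122) (nat_lit 5) (nat_lit 4) (nat_lit 4) L131935 (by decide +kernel)
theorem L131937 : W_46 (nat_lit 9) (nat_lit 0x10800e8002400020000000000000000000000) (nat_lit 0x0) (nat_lit 0x400000010001d8007c007a000000000) := T_46 (nat_lit 75) (nat_lit 92) (nat_lit 7) (nat_lit 7) (nat_lit 4) L131936 (by decide +kernel)
theorem L131938 : W_46 (nat_lit 10) (nat_lit 0x10000e8002400020000000000000000000000) (nat_lit 0x0) (nat_lit 0x100018001400000011001d8007c007a000000000) := Q_46 (nat_lit 139) (C_46 L131928 (C_46 L131929 (C_46 L131937 N_46))) (by decide +kernel)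
theorem L131939 : W_46 (nat_lit 2) (nat_lit 0x11000e8002400070008000000000000000000) (nat_lit 0x0) (nat_lit 0x1000080004000000000000000000) := D_46 (nat_lit 91) (nat_lit 108) (nat_lit 74) (nat_lit 3) (nat_lit 3) (nat_lit 5) (nat_lit 2) (nat_lit 3) (nat_lit 5) (by decide +kernel)
theorem L131940 : W_46 (nat_lit 3) (nat_lit 0x11000e8002400030008000000000000000000) (nat_lit 0x0) (nat_lit 0x10000c0006000000000000000000) := T_46 (nat_lit 90) (nat_lit 73) (nat_lit 6) (nat_lit 4) (nat_lit 8) L131939 (by decide +kernel)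
theorem L131941 : W_46 (nat_lit 4) (nat_lit 0x11000e8002400020008000000000000000000) (nat_lit 0x0) (nat_lit 0x10000d0006800000000000000000) := T_46 (nat_lit 88) (nat_lit 71) (nat_lit 4) (nat_lit 4) (nat_lit 8) L131940 (by decide +kernel)
theorem L131942 : W_46 (nat_lit 5) (nat_lit 0x11000e8002400020000000000000000000000) (nat_lit 0x0) (nat_lit 0x10001d000e800000000000000000) := T_46 (nat_lit 75) (nat_lit 92) (nat_lit 7) (nat_lit 7) (nat_lit 4) L131941 (by decide +kernel)
theorem L131943 : W_46 (nat_lit 7) (nat_lit 0x10000e8002400020000000000000000000000) (nat_lit 0x0) (nat_lit 0x10001800100010001d000e800000000000000000) := Q_46 (nat_lit 140) (C_46 L131760 (C_46 L131895 (C_46 L131942 N_46))) (by decide +kernel)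
theorem L131944 : W_46 (nat_lit 10) (nat_lit 0x10000e8002400020000000000000000000000) (nat_lit 0x0) (nat_lit 0x100018001400000010001d8007c007a000000000) := Q_46 (nat_lit 139) (C_46 L131937 (C_46 L131929 N_46)) (by decide +kernel)
theorem L131945 : W_46 (nat_lit 2) (nat_lit 0x11800e8002400020009000000000000000000) (nat_lit 0x0) (nat_lit 0x40002000100000000000000) := D_46 (nat_lit 73) (nat_lit 56) (nat_lit 90) (nat_lit 6) (nat_lit 4) (nat_lit 7) (nat_lit 6) (nat_lit 4) (nat_lit 8) (by decide +kernel)
theorem L131946 : W_46 (nat_lit 3) (nat_lit 0x10800e8002400020009000000000000000000) (nat_lit 0x0) (nat_lit 0x1000100000000000040002000100000000000000) := T_46 (nat_lit 140) (nat_lit 156) (nat_lit 5) (nat_lit 4) (nat_lit 5) L131945 (by decide +kernel)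
theorem L131947 : W_46 (nat_lit 4) (nat_lit 0x10800e8002400020008000000000000000000) (nat_lit 0x0) (nat_lit 0x1000100004000000040003000100000000000000) := T_46 (nat_lit 72) (nat_lit 122) (nat_lit 5) (nat_lit 4) (nat_lit 4) L131946 (by decide +kernel)
theorem L131948 : W_46 (nat_lit 5) (nat_lit 0x10800e8002400020000000000000000000000) (nat_lit 0x0) (nat_lit 0x100010000400000014000b000100000000000000) := T_46 (nat_lit 75) (nat_lit 92) (nat_lit 7) (nat_lit 7) (nat_lit 4) L131947 (by decide +kernel)
theorem L131949 : W_46 (nat_lit 2) (nat_lit 0x10801e800340042001f000480000000000000) (nat_lit 0x0) (nat_lit 0x18000000020000000000000000000) := D_46 (nat_lit 111) (nat_lit 112) (nat_lit 77) (nat_lit 2) (nat_lit 6) (nat_lit 7) (nat_lit 5) (nat_lit 9) (nat_lit 4) (by decide +kernel)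
theorem L131950 : W_46 (nat_lit 3) (nat_lit 0x10801e800340002001f000480000000000000) (nat_lit 0x0) (nat_lit 0x18000600020000000000000000000) := T_46 (nat_lit 94) (nat_lit 93) (nat_lit 3) (nat_lit 5) (nat_lit 4) L131949 (by decide +kernel)
theorem L131951 : W_46 (nat_lit 4) (nat_lit 0x10800e800340002001f000480000000000000) (nat_lit 0x0) (nat_lit 0x300018000600020000000000000000000) := T_46 (nat_lit 128) (nat_lit 129) (nat_lit 0) (nat_lit 10) (nat_lit 7) L131950 (by decide +kernel)
theorem L131952 : W_46 (nat_lit 5) (nat_lit 0x10800e800240002001f000480000000000000) (nat_lit 0x0) (nat_lit 0x300019000680020000000000000000000) := T_46 (nat_lit 108) (nat_lit 91) (nat_lit 6) (nat_lit 6) (nat_lit 7) L131951 (by decide +kernel)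
theorem L131953 : W_46 (nat_lit 6) (nat_lit 0x10800e800240002000f000480000000000000) (nat_lit 0x0) (nat_lit 0x3000190006c0030000000000000000000) := T_46 (nat_lit 76) (nat_lit 90) (nat_lit 1) (nat_lit 8) (nat_lit 4) L131952 (by decide +kernel)
theorem L131954 : W_46 (nat_lit 7) (nat_lit 0x10800e800240002000f000080000000000000) (nat_lit 0x0) (nat_lit 0x3000190006c0030000c00000000000000) := T_46 (nat_lit 58) (nat_lit 59) (nat_lit 2) (nat_lit 4) (nat_lit 4) L131953 (by decide +kernel)
theorem L131955 : W_46 (nat_lit 8) (nat_lit 0x10800e800240002000f000000000000000000) (nat_lit 0x0) (nat_lit 0x3000190006c0030000cc0000000000000) := T_46 (nat_lit 55) (nat_lit 54) (nat_lit 0) (nat_lit 7) (nat_lit 4) L131954 (by decide +kernel)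
theorem L131956 : W_46 (nat_lit 9) (nat_lit 0x10800e800240002000b000000000000000000) (nat_lit 0x0) (nat_lit 0x3000190006d0034000cc0000000000000) := T_46 (nat_lit 74) (nat_lit 88) (nat_lit 1) (nat_lit 7) (nat_lit 4) L131955 (by decide +kernel)
theorem L131957 : W_46 (nat_lit 10) (nat_lit 0x10800e8002400020009000000000000000000) (nat_lit 0x0) (nat_lit 0x3000190006d0036000dc0000000000000) := T_46 (nat_lit 73) (nat_lit 56) (nat_lit 6) (nat_lit 4) (nat_lit 7) L131956 (by decide +kernel)
theorem L131958 : W_46 (nat_lit 11) (nat_lit 0x10800e8002400020001000000000000000000) (nat_lit 0x0) (nat_lit 0x3000190007d003e000dc0000000000000) := T_46 (nat_lit 75) (nat_lit 92) (nat_lit 7) (nat_lit 7) (nat_lit 4) L131957 (by decide +kernel)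
theorem L131959 : W_46 (nat_lit 12) (nat_lit 0x10800e8002400020000000000000000000000) (nat_lit 0x0) (nat_lit 0x3040190007d003f000dc0000000000000) := T_46 (nat_lit 72) (nat_lit 122) (nat_lit 5) (nat_lit 4) (nat_lit 4) L131958 (by decide +kernel)
theorem L131960 : W_46 (nat_lit 13) (nat_lit 0x10000e8002400020000000000000000000000) (nat_lit 0x0) (nat_lit 0x10001803140190007d003f000dc0000000000000) := Q_46 (nat_lit 139) (C_46 L131948 (C_46 L131929 (C_46 L131959 N_46))) (by decide +kernel)
theorem L131961 : W_46 (nat_lit 14) (nat_lit 0x10000e8002400000000000000000000000000) (nat_lit 0x0) (nat_lit 0x10001803140190007f003f800fc007a000000000) := Q_46 (nat_lit 89) (C_46 L131899 (C_46 L131755 (C_46 L131915 (C_46 L131924 (C_46 L131938 (C_46 L131943 (C_46 L131944 (C_46 L131960 N_46)))))))) (by decide +kernel)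
theorem L131962 : W_46 (nat_lit 2) (nat_lit 0x11800e800240002000b000040000000000000) (nat_lit 0x0) (nat_lit 0x4000080002000000000) := D_46 (nat_lit 55) (nat_lit 37) (nat_lit 74) (nat_lit 4) (nat_lit 4) (nat_lit 6) (nat_lit 0) (nat_lit 7) (nat_lit 4) (by decide +kernel)
theorem L131963 : W_46 (nat_lit 3) (nat_lit 0x11800e800240002000b000000000000000000) (nat_lit 0x0) (nat_lit 0x48000c0002000000000) := T_46 (nat_lit 54) (nat_lit 71) (nat_lit 4) (nat_lit 4) (nat_lit 7) L131962 (by decide +kernel)
theorem L131964 : W_46 (nat_lit 4) (nat_lit 0x11800e800240002000a000000000000000000) (nat_lit 0x0) (nat_lit 0x58001c0002000000000) := T_46 (nat_lit 72) (nat_lit 56) (nat_lit 6) (nat_lit 4) (nat_lit 7) L131963 (by decide +kernel)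
theorem L131965 : W_46 (nat_lit 5) (nat_lit 0x11800e8002400020008000000000000000000) (nat_lit 0x0) (nat_lit 0x400078001c0002000000000) := T_46 (nat_lit 73) (nat_lit 90) (nat_lit 6) (nat_lit 4) (nat_lit 8) L131964 (by decide +kernel)
theorem L131966 : W_46 (nat_lit 6) (nat_lit 0x11000e8002400020008000000000000000000) (nat_lit 0x0) (nat_lit 0x10000800000000000400078001c0002000000000) := T_46 (nat_lit 139) (nat_lit 156) (nat_lit 5) (nat_lit 4) (nat_lit 5) L131965 (by decide +kernel)
theorem L131967 : W_46 (nat_lit 7) (nat_lit 0x11000e8002400020000000000000000000000) (nat_lit 0x0) (nat_lit 0x100008000000000014000f8001c0002000000000) := T_46 (nat_lit 75) (nat_lit 92) (nat_lit 7) (nat_lit 7) (nat_lit 4) L131966 (by decide +kernel)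
theorem L131968 : W_46 (nat_lit 2) (nat_lit 0x30011000e8002400070008000000000000000000) (nat_lit 0x0) (nat_lit 0x1000080004000000000000000000) := D_46 (nat_lit 91) (nat_lit 108) (nat_lit 74) (nat_lit 3) (nat_lit 3) (nat_lit 5) (nat_lit 2) (nat_lit 3) (nat_lit 5) (by decide +kernel)
theorem L131969 : W_46 (nat_lit 3) (nat_lit 0x30011000e8002400060008000000000000000000) (nat_lit 0x0) (nat_lit 0x1200090004000000000000000000) := T_46 (nat_lit 88) (nat_lit 105) (nat_lit 4) (nat_lit 4) (nat_lit 9) L131968 (by decide +kernel)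
theorem L131970 : W_46 (nat_lit 4) (nat_lit 0x10011000e8002400060008000000000000000000) (nat_lit 0x0) (nat_lit 0x20002000000000001200090004000000000000000000) := T_46 (nat_lit 157) (nat_lit 173) (nat_lit 5) (nat_lit 4) (nat_lit 6) L131969 (by decide +kernel)
theorem L131971 : W_46 (nat_lit 5) (nat_lit 0x11000e8002400060008000000000000000000) (nat_lit 0x0) (nat_lit 0x20003000080000001200090004000000000000000000) := T_46 (nat_lit 156) (nat_lit 139) (nat_lit 5) (nat_lit 4) (nat_lit 5) L131970 (by decide +kernel)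
theorem L131972 : W_46 (nat_lit 6) (nat_lit 0x11000e8002400060000000000000000000000) (nat_lit 0x0) (nat_lit 0x2000300008000000120019000c000000000000000000) := T_46 (nat_lit 75) (nat_lit 92) (nat_lit 7) (nat_lit 7) (nat_lit 4) L131971 (by decide +kernel)
theorem L131973 : W_46 (nat_lit 7) (nat_lit 0x11000e8002400020000000000000000000000) (nat_lit 0x0) (nat_lit 0x200030000800000012001d000e000000000000000000) := T_46 (nat_lit 90) (nat_lit 73) (nat_lit 6) (nat_lit 4) (nat_lit 8) L131972 (by decide +kernel)
theorem L131974 : W_46 (nat_lit 8) (nat_lit 0x11000e8002400000000000000000000000000) (nat_lit 0x0) (nat_lit 0x14000e00070000800000012001f000f8001c0002000000000) := Q_46 (nat_lit 89) (C_46 L131942 (C_46 L131898 (C_46 L131576 (C_46 L131967 (C_46 L131973 N_46))))) (by decide +kernel)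
theorem L131975 : W_46 (nat_lit 2) (nat_lit 0xa00020011000e8002600000008000000000000000000) (nat_lit 0x0) (nat_lit 0x1400040000000000000000000000000000000000000000000) := D_46 (nat_lit 174) (nat_lit 190) (nat_lit 192) (nat_lit 5) (nat_lit 4) (nat_lit 7) (nat_lit 7) (nat_lit 4) (nat_lit 7) (by decide +kernel)
theorem L131976 : W_46 (nat_lit 3) (nat_lit 0x200020011000e8002600000008000000000000000000) (nat_lit 0x0) (nat_lit 0x14000c0004000000000000000000000000000000000000000) := T_46 (nat_lit 175) (nat_lit 158) (nat_lit 7) (nat_lit 4) (nat_lit 6) L131975 (by decide +kernel)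
theorem L131977 : W_46 (nat_lit 4) (nat_lit 0x20011000e8002600000008000000000000000000) (nat_lit 0x0) (nat_lit 0x14000e0005000000000000000000000000000000000000000) := T_46 (nat_lit 173) (nat_lit 156) (nat_lit 5) (nat_lit 4) (nat_lit 6) L131976 (by decide +kernel)
theorem L131978 : W_46 (nat_lit 5) (nat_lit 0x11000e8002600000008000000000000000000) (nat_lit 0x0) (nat_lit 0x14000e0007000000000000000010000000000000000000000) := T_46 (nat_lit 157) (nat_lit 88) (nat_lit 4) (nat_lit 4) (nat_lit 9) L131977 (by decide +kernel)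
theorem L131979 : W_46 (nat_lit 6) (nat_lit 0x11000e8002400000008000000000000000000) (nat_lit 0x0) (nat_lit 0x14000e0007000000010000200010000000000000000000000) := T_46 (nat_lit 105) (nat_lit 124) (nat_lit 0) (nat_lit 7) (nat_lit 7) L131978 (by decide +kernel)
theorem L131980 : W_46 (nat_lit 7) (nat_lit 0x11000e8002400000000000000000000000000) (nat_lit 0x0) (nat_lit 0x14000e0007000000010000200110008000000000000000000) := T_46 (nat_lit 75) (nat_lit 92) (nat_lit 7) (nat_lit 7) (nat_lit 4) L131979 (by decide +kernel)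
theorem L131981 : W_46 (nat_lit 6) (nat_lit 0x11800e8002400000008000000000000000000) (nat_lit 0x0) (nat_lit 0x10000000000000000600078001c0002000000000) := T_46 (nat_lit 89) (nat_lit 156) (nat_lit 5) (nat_lit 4) (nat_lit 5) L131965 (by decide +kernel)
theorem L131982 : W_46 (nat_lit 7) (nat_lit 0x11800e8002400000000000000000000000000) (nat_lit 0x0) (nat_lit 0x100000000000000016000f8001c0002000000000) := T_46 (nat_lit 75) (nat_lit 92) (nat_lit 7) (nat_lit 7) (nat_lit 4) L131981 (by decide +kernel)
theorem L131983 : W_46 (nat_lit 8) (nat_lit 0x11000e8002400000000000000000000000000) (nat_lit 0x0) (nat_lit 0x100008001000000016000f8001c0002000000000) := T_46 (nat_lit 139) (nat_lit 124) (nat_lit 1) (nat_lit 7) (nat_lit 7) L131982 (by decide +kernel)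
theorem L131984 : W_46 (nat_lit 9) (nat_lit 0x10000e8002400000000000000000000000000) (nat_lit 0x0) (nat_lit 0x14000e00070001800100012001f000f8001c0002000000000) := Q_46 (nat_lit 140) (C_46 L131686 (C_46 L131974 (C_46 L131980 (C_46 L131983 N_46)))) (by decide +kernel)
theorem L131985 : W_46 (nat_lit 15) (nat_lit 0x10000e0002400000000000000000000000000) (nat_lit 0x0) (nat_lit 0x14001e001f0005e031c0193807f003fe00fc007e000700000) := Q_46 (nat_lit 123) (C_46 L131701 (C_46 L131726 (C_46 L131777 (C_46 L131811 (C_46 L131894 (C_46 L131961 (C_46 L131984 N_46))))))) (by decide +kernel)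
theorem L131986 : W_46 (nat_lit 16) (nat_lit 0x10000e0002000000000000000000000000000) (nat_lit 0x0) (nat_lit 0x8001c001e001f0005e031c019f807fc07ff00fc007e000700000) := Q_46 (nat_lit 106) (C_46 L131483 (C_46 L131562 (C_46 L131723 (C_46 L131985 N_46)))) (by decide +kernel)
theorem L131987 : W_46 (nat_lit 2) (nat_lit 0x10000e0006000200010000000000000000000) (nat_lit 0x0) (nat_lit 0x400020001000000000000000) := D_46 (nat_lit 77) (nat_lit 94) (nat_lit 60) (nat_lit 6) (nat_lit 8) (nat_lit 8) (nat_lit 6) (nat_lit 8) (nat_lit 7) (by decide +kernel)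
theorem L131988 : W_46 (nat_lit 3) (nat_lit 0x10000e0006000200000000000000000000000) (nat_lit 0x0) (nat_lit 0x400030001800000000000000) := T_46 (nat_lit 76) (nat_lit 59) (nat_lit 5) (nat_lit 8) (nat_lit 3) L131987 (by decide +kernel)
theorem L131989 : W_46 (nat_lit 2) (nat_lit 0x10000e0006000e00000000000000000000000) (nat_lit 0x0) (nat_lit 0x1000100008000000000000000000) := D_46 (nat_lit 92) (nat_lit 75) (nat_lit 108) (nat_lit 7) (nat_lit 7) (nat_lit 4) (nat_lit 1) (nat_lit 10) (nat_lit 5) (by decide +kernel)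
theorem L131990 : W_46 (nat_lit 3) (nat_lit 0x10000e0006000600000000000000000000000) (nat_lit 0x0) (nat_lit 0x1001900008000000000000000000) := T_46 (nat_lit 95) (nat_lit 96) (nat_lit 1) (nat_lit 11) (nat_lit 5) L131989 (by decide +kernel)
theorem L131991 : W_46 (nat_lit 4) (nat_lit 0x10000e0006000200000000000000000000000) (nat_lit 0x0) (nat_lit 0x1001d00028000000000000000000) := T_46 (nat_lit 94) (nat_lit 77) (nat_lit 6) (nat_lit 8) (nat_lit 8) L131990 (by decide +kernel)
theorem L131992 : W_46 (nat_lit 5) (nat_lit 0x10000e0006000000000000000000000000000) (nat_lit 0x0) (nat_lit 0x1001f00038001c00000000000000) := Q_46 (nat_lit 93) (C_46 L127855 (C_46 L131988 (C_46 L131991 N_46))) (by decide +kernel)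
theorem L131993 : W_46 (nat_lit 6) (nat_lit 0x10000e0002000000000000000000000000000) (nat_lit 0x0) (nat_lit 0x1800d001f00038001c00000000000000) := Q_46 (nat_lit 110) (C_46 L128705 (C_46 L131992 N_46)) (by decide +kernel)
theorem L131994 : W_46 (nat_lit 17) (nat_lit 0x10000e0000000000000000000000000000000) (nat_lit 0x0) (nat_lit 0x8051c039e01df01c5e071c0fff87ffc7fff1ffc03fe018700000) := Q_46 (nat_lit 109) (C_46 L130822 (C_46 L130854 (C_46 L130863 (C_46 L130871 (C_46 L130873 (C_46 L131482 (C_46 L131986 (C_46 L131993 N_46)))))))) (by decide +kernel)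
theorem L131995 : W_46 (nat_lit 8) (nat_lit 0x10003e0000000000000000000000000000000) (nat_lit 0x0) (nat_lit 0x10000801c600400073000100008000000000000000000) := T_46 (nat_lit 142) (nat_lit 141) (nat_lit 1) (nat_lit 9) (nat_lit 7) L130610 (by decide +kernel)
theorem L131996 : W_46 (nat_lit 2) (nat_lit 0x52003f0002000000000000000000000000000) (nat_lit 0x0) (nat_lit 0x408004000000000000000000000000000) := D_46 (nat_lit 110) (nat_lit 130) (nat_lit 123) (nat_lit 0) (nat_lit 11) (nat_lit 7) (nat_lit 2) (nat_lit 4) (nat_lit 7) (by decide +kernel)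
theorem L131997 : W_46 (nat_lit 3) (nat_lit 0x52003e0002000000000000000000000000000) (nat_lit 0x0) (nat_lit 0x100418004000000000000000000000000000) := T_46 (nat_lit 124) (nat_lit 140) (nat_lit 1) (nat_lit 8) (nat_lit 7) L131996 (by decide +kernel)
theorem L131998 : W_46 (nat_lit 4) (nat_lit 0x52003e0000000000000000000000000000000) (nat_lit 0x0) (nat_lit 0x100418007000000000000000000000000000) := T_46 (nat_lit 109) (nat_lit 108) (nat_lit 0) (nat_lit 10) (nat_lit 7) L131997 (by decide +kernel)
theorem L131999 : W_46 (nat_lit 5) (nat_lit 0x50003e0000000000000000000000000000000) (nat_lit 0x0) (nat_lit 0x700418007000000000000000000000000000) := T_46 (nat_lit 141) (nat_lit 142) (nat_lit 1) (nat_lit 9) (nat_lit 7) L131998 (by decide +kernel)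
theorem L132000 : W_46 (nat_lit 6) (nat_lit 0x10003e0000000000000000000000000000000) (nat_lit 0x0) (nat_lit 0xc700418007000000000000000000000000000) := T_46 (nat_lit 146) (nat_lit 147) (nat_lit 3) (nat_lit 7) (nat_lit 7) L131999 (by decide +kernel)
theorem L132001 : W_46 (nat_lit 2) (nat_lit 0x90003e0020000000000000000000000000000) (nat_lit 0x0) (nat_lit 0x10000400040000000000000000000000000000) := D_46 (nat_lit 130) (nat_lit 114) (nat_lit 148) (nat_lit 2) (nat_lit 8) (nat_lit 7) (nat_lit 3) (nat_lit 8) (nat_lit 7) (by decide +kernel)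
theorem L132002 : W_46 (nat_lit 3) (nat_lit 0x10003e0020000000000000000000000000000) (nat_lit 0x0) (nat_lit 0x1c000400040000000000000000000000000000) := T_46 (nat_lit 147) (nat_lit 146) (nat_lit 3) (nat_lit 7) (nat_lit 7) L132001 (by decide +kernel)
theorem L132003 : W_46 (nat_lit 4) (nat_lit 0x10003e0000000000000000000000000000000) (nat_lit 0x0) (nat_lit 0x1c000400070000000000000000000000000000) := T_46 (nat_lit 113) (nat_lit 112) (nat_lit 2) (nat_lit 7) (nat_lit 7) L132002 (by decide +kernel)
theorem L132004 : W_46 (nat_lit 5) (nat_lit 0x10003e0010000000000000000000000000000) (nat_lit 0x0) (nat_lit 0x700418007000000000000000000000000000) := T_46 (nat_lit 109) (nat_lit 108) (nat_lit 0) (nat_lit 10) (nat_lit 7) L123019 (by decide +kernel)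
theorem L132005 : W_46 (nat_lit 6) (nat_lit 0x10003e0000000000000000000000000000000) (nat_lit 0x0) (nat_lit 0x700418037000000000000000000000000000) := T_46 (nat_lit 112) (nat_lit 113) (nat_lit 2) (nat_lit 7) (nat_lit 7) L132004 (by decide +kernel)
theorem L132006 : W_46 (nat_lit 2) (nat_lit 0x1000000054003e00120008000c0000000000000000000) (nat_lit 0x0) (nat_lit 0x400020001000000000000000) := D_46 (nat_lit 77) (nat_lit 60) (nat_lit 94) (nat_lit 4) (nat_lit 10) (nat_lit 7) (nat_lit 4) (nat_lit 10) (nat_lit 8) (by decide +kernel)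
theorem L132007 : W_46 (nat_lit 3) (nat_lit 0x1000000054003e0012000800080000000000000000000) (nat_lit 0x0) (nat_lit 0x400060005000000000000000) := T_46 (nat_lit 78) (nat_lit 62) (nat_lit 6) (nat_lit 10) (nat_lit 7) L132006 (by decide +kernel)
theorem L132008 : W_46 (nat_lit 4) (nat_lit 0x54003e0012000800080000000000000000000) (nat_lit 0x0) (nat_lit 0x100008000000000000000400060005000000000000000) := T_46 (nat_lit 176) (nat_lit 159) (nat_lit 6) (nat_lit 6) (nat_lit 10) L132007 (by decide +kernel)
theorem L132009 : W_46 (nat_lit 5) (nat_lit 0x54003e0012000800000000000000000000000) (nat_lit 0x0) (nat_lit 0x1000080000000000000014000e0005000000000000000) := T_46 (nat_lit 79) (nat_lit 96) (nat_lit 6) (nat_lit 10) (nat_lit 8) L132008 (by decide +kernel)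
theorem L132010 : W_46 (nat_lit 6) (nat_lit 0x54003e0010000800000000000000000000000) (nat_lit 0x0) (nat_lit 0x1000080000000000030014000e0005000000000000000) := T_46 (nat_lit 109) (nat_lit 108) (nat_lit 0) (nat_lit 10) (nat_lit 7) L132009 (by decide +kernel)
theorem L132011 : W_46 (nat_lit 7) (nat_lit 0x14003e0010000800000000000000000000000) (nat_lit 0x0) (nat_lit 0x10000800c0000000030014000e0005000000000000000) := T_46 (nat_lit 146) (nat_lit 147) (nat_lit 3) (nat_lit 7) (nat_lit 7) L132010 (by decide +kernel)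
theorem L132012 : W_46 (nat_lit 8) (nat_lit 0x10003e0010000800000000000000000000000) (nat_lit 0x0) (nat_lit 0x10000800c6000000030014000e0005000000000000000) := T_46 (nat_lit 142) (nat_lit 141) (nat_lit 1) (nat_lit 9) (nat_lit 7) L132011 (by decide +kernel)
theorem L132013 : W_46 (nat_lit 2) (nat_lit 0x54003e00100008000a0000000000000000000) (nat_lit 0x0) (nat_lit 0x40005000000000000000) := D_46 (nat_lit 78) (nat_lit 62) (nat_lit 60) (nat_lit 6) (nat_lit 10) (nat_lit 7) (nat_lit 4) (nat_lit 10) (nat_lit 7) (by decide +kernel)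
theorem L132014 : W_46 (nat_lit 3) (nat_lit 0x54003e0010000800080000000000000000000) (nat_lit 0x0) (nat_lit 0x400060005000000000000000) := T_46 (nat_lit 77) (nat_lit 94) (nat_lit 4) (nat_lit 10) (nat_lit 8) L132013 (by decide +kernel)
theorem L132015 : W_46 (nat_lit 4) (nat_lit 0x54003e0010000800000000000000000000000) (nat_lit 0x0) (nat_lit 0x14000e0005000000000000000) := T_46 (nat_lit 79) (nat_lit 96) (nat_lit 6) (nat_lit 10) (nat_lit 8) L132014 (by decide +kernel)
theorem L132016 : W_46 (nat_lit 5) (nat_lit 0x50003e0010000800000000000000000000000) (nat_lit 0x0) (nat_lit 0x6000000000014000e0005000000000000000) := T_46 (nat_lit 142) (nat_lit 141) (nat_lit 1) (nat_lit 9) (nat_lit 7) L132015 (by decide +kernel)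
theorem L132017 : W_46 (nat_lit 6) (nat_lit 0x10003e0010000800000000000000000000000) (nat_lit 0x0) (nat_lit 0xc6000000000014000e0005000000000000000) := T_46 (nat_lit 146) (nat_lit 147) (nat_lit 3) (nat_lit 7) (nat_lit 7) L132016 (by decide +kernel)
theorem L132018 : W_46 (nat_lit 2) (nat_lit 0x50003e0012001c00008000000000000000000) (nat_lit 0x0) (nat_lit 0x4000200010000000000000000000) := D_46 (nat_lit 93) (nat_lit 110) (nat_lit 76) (nat_lit 1) (nat_lit 11) (nat_lit 5) (nat_lit 0) (nat_lit 11) (nat_lit 5) (by decide +kernel)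
theorem L132019 : W_46 (nat_lit 3) (nat_lit 0x50003e0012001800008000000000000000000) (nat_lit 0x0) (nat_lit 0x4000600030000000000000000000) := T_46 (nat_lit 94) (nat_lit 77) (nat_lit 4) (nat_lit 10) (nat_lit 8) L132018 (by decide +kernel)
theorem L132020 : W_46 (nat_lit 4) (nat_lit 0x50003e0012001800000000000000000000000) (nat_lit 0x0) (nat_lit 0x4000700038000000000000000000) := T_46 (nat_lit 75) (nat_lit 92) (nat_lit 7) (nat_lit 7) (nat_lit 4) L132019 (by decide +kernel)
theorem L132021 : W_46 (nat_lit 5) (nat_lit 0x50003e0012000800000000000000000000000) (nat_lit 0x0) (nat_lit 0x40017000b8000000000000000000) := T_46 (nat_lit 96) (nat_lit 79) (nat_lit 6) (nat_lit 10) (nat_lit 8) L132020 (by decide +kernel)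
theorem L132022 : W_46 (nat_lit 6) (nat_lit 0x50003e0010000800000000000000000000000) (nat_lit 0x0) (nat_lit 0x70017000b8000000000000000000) := T_46 (nat_lit 109) (nat_lit 108) (nat_lit 0) (nat_lit 10) (nat_lit 7) L132021 (by decide +kernel)
theorem L132023 : W_46 (nat_lit 7) (nat_lit 0x10003e0010000800000000000000000000000) (nat_lit 0x0) (nat_lit 0xc0000000070017000b8000000000000000000) := T_46 (nat_lit 146) (nat_lit 147) (nat_lit 3) (nat_lit 7) (nat_lit 7) L132022 (by decide +kernel)
theorem L132024 : W_46 (nat_lit 2) (nat_lit 0x50003e0010000800040000000000000000000) (nat_lit 0x0) (nat_lit 0x1000080004000000000000000) := D_46 (nat_lit 79) (nat_lit 62) (nat_lit 96) (nat_lit 6) (nat_lit 10) (nat_lit 7) (nat_lit 6) (nat_lit 10) (nat_lit 8) (by decide +kernel)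
theorem L132025 : W_46 (nat_lit 3) (nat_lit 0x10003e0010000800040000000000000000000) (nat_lit 0x0) (nat_lit 0xc000000000001000080004000000000000000) := T_46 (nat_lit 146) (nat_lit 147) (nat_lit 3) (nat_lit 7) (nat_lit 7) L132024 (by decide +kernel)
theorem L132026 : W_46 (nat_lit 2) (nat_lit 0x50003e0010000800040006000000000000000) (nat_lit 0x0) (nat_lit 0x20001000080000000000) := D_46 (nat_lit 60) (nat_lit 43) (nat_lit 77) (nat_lit 4) (nat_lit 10) (nat_lit 6) (nat_lit 4) (nat_lit 10) (nat_lit 7) (by decide +kernel)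
theorem L132027 : W_46 (nat_lit 3) (nat_lit 0x50003e0010000800040004000000000000000) (nat_lit 0x0) (nat_lit 0x20003000280000000000) := T_46 (nat_lit 61) (nat_lit 45) (nat_lit 6) (nat_lit 10) (nat_lit 6) L132026 (by decide +kernel)
theorem L132028 : W_46 (nat_lit 4) (nat_lit 0x10003e0010000800040004000000000000000) (nat_lit 0x0) (nat_lit 0xc000000000000000020003000280000000000) := T_46 (nat_lit 146) (nat_lit 147) (nat_lit 3) (nat_lit 7) (nat_lit 7) L132027 (by decide +kernel)
theorem L132029 : W_46 (nat_lit 5) (nat_lit 0x10003e0010000800040000000000000000000) (nat_lit 0x0) (nat_lit 0xc0000000000000000a0007000280000000000) := T_46 (nat_lit 62) (nat_lit 79) (nat_lit 6) (nat_lit 10) (nat_lit 7) L132028 (by decide +kernel)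
theorem L132030 : W_46 (nat_lit 2) (nat_lit 0x10003e00120018000e0000000000000000000) (nat_lit 0x0) (nat_lit 0x100018000000000000000000) := D_46 (nat_lit 75) (nat_lit 92) (nat_lit 76) (nat_lit 7) (nat_lit 7) (nat_lit 4) (nat_lit 3) (nat_lit 7) (nat_lit 4) (by decide +kernel)
theorem L132031 : W_46 (nat_lit 3) (nat_lit 0x10003e00120008000e0000000000000000000) (nat_lit 0x0) (nat_lit 0x4000000000001100018000000000000000000) := T_46 (nat_lit 96) (nat_lit 146) (nat_lit 6) (nat_lit 10) (nat_lit 8) L132030 (by decide +kernel)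
theorem L132032 : W_46 (nat_lit 4) (nat_lit 0x10003e00100008000e0000000000000000000) (nat_lit 0x0) (nat_lit 0x4000000003001100018000000000000000000) := T_46 (nat_lit 109) (nat_lit 108) (nat_lit 0) (nat_lit 10) (nat_lit 7) L132031 (by decide +kernel)
theorem L132033 : W_46 (nat_lit 5) (nat_lit 0x10003e0010000800060000000000000000000) (nat_lit 0x0) (nat_lit 0x4000000003001100098004000000000000000) := T_46 (nat_lit 79) (nat_lit 62) (nat_lit 6) (nat_lit 10) (nat_lit 7) L132032 (by decide +kernel)
theorem L132034 : W_46 (nat_lit 6) (nat_lit 0x10003e0010000800040000000000000000000) (nat_lit 0x0) (nat_lit 0x40000000030011000b8005000000000000000) := T_46 (nat_lit 77) (nat_lit 60) (nat_lit 4) (nat_lit 10) (nat_lit 7) L132033 (by decide +kernel)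
theorem L132035 : W_46 (nat_lit 2) (nat_lit 0x50003f0016000800078002400000000000000) (nat_lit 0x0) (nat_lit 0x700000000000000000000000000000000000) := D_46 (nat_lit 141) (nat_lit 142) (nat_lit 140) (nat_lit 1) (nat_lit 9) (nat_lit 7) (nat_lit 1) (nat_lit 8) (nat_lit 7) (by decide +kernel)
theorem L132036 : W_46 (nat_lit 3) (nat_lit 0x50003e0016000800078002400000000000000) (nat_lit 0x0) (nat_lit 0x700018000000000000000000000000000000) := T_46 (nat_lit 124) (nat_lit 123) (nat_lit 2) (nat_lit 4) (nat_lit 7) L132035 (by decide +kernel)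
end Crest.Agent.Helper32.Snaky.R1_0
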