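import Crest.Agent.Helper32.Snaky.Gen.R1_0_p46
set_option autoImplicit false
set_option maxRecDepth 100000
set_option linter.all false
set_option Elab.async false
namespace Crest.Agent.Helper32.Snaky.R1_0
@[reducible] def W_47 (d M Bz Z : Nat) : Prop := Crest.Agent.Helper32.Snaky.Wins (nat_lit 17) d M Bz Z
theorem D_47 {d M Bz Z : Nat} (m t1 t2 o1 x1 y1 o2 x2 y2 : Nat) (h : Crest.Agent.Helper32.Snaky.chkDoubleC (nat_lit 17) d M Bz Z m t1 t2 o1 x1 y1 o2 x2 y2 = true) : W_47 d M Bz Z := Crest.Agent.Helper32.Snaky.doubleC m t1 t2 o1 x1 y1 o2 x2 y2 h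
theorem T_47 {d M Bz Z cd cM cBz cZ : Nat} (m t o x y : Nat) (child : W_47 cd cM cBz cZ) (h : Crest.Agent.Helper32.Snaky.chkThreatC (nat_lit 17) d M Bz Z cd cM cBz cZ m t o x y = true) : W_47 d M Bz Z := Crest.Agent.Helper32.Snaky.threatC m t o x y child h
theorem Q_47 {d M Bz Z : Nat} (m : Nat) {l : List Crest.Agent.Helper32.Snaky.Spec} (kids : Crest.Agent.Helper32.Snaky.AllWins (nat_lit 17) l) (h : Crest.Agent.Helper32.Snaky.chkQuiet d M Bz Z m l = true) : W_47 d M Bz Z := Crest.Agent.Helper32.Snaky.quiet m kids h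
theorem C_47 {cd cM cBz cZ : Nat} {l : List Crest.Agent.Helper32.Snaky.Spec} (h : W_47 cd cM cBz cZ) (hl : Crest.Agent.Helper32.Snaky.AllWins (nat_lit 17) l) : Crest.Agent.Helper32.Snaky.AllWins (nat_lit 17) ((cd, cM, cBz, cZ) :: l) := Crest.Agent.Helper32.Snaky.AllWins.cons h hl
theorem N_47 : Crest.Agent.Helper32.Snaky.AllWins (nat_lit 17) [] := Crest.Agent.Helper32.Snaky.AllWins.nil
theorem L132037 : W_47 (nat_lit 4) (nat_lit 0x50003e0012000800078002400000000000000) (nat_lit 0x0) (nat_lit 0x700018004000200000000000000000000000) := T_47 (nat_lit 110) (nat_lit 93) (nat_lit 4) (nat_lit 8) (nat_lit 7) L132036 (by decide +kernel)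
theorem L132038 : W_47 (nat_lit 5) (nat_lit 0x10003e0012000800078002400000000000000) (nat_lit 0x0) (nat_lit 0xc700018004000200000000000000000000000) := T_47 (nat_lit 146) (nat_lit 147) (nat_lit 3) (nat_lit 7) (nat_lit 7) L132037 (by decide +kernel)
theorem L132039 : W_47 (nat_lit 6) (nat_lit 0x10003e0012000800078002000000000000000) (nat_lit 0x0) (nat_lit 0xc700018004000200000000600000000000000) := T_47 (nat_lit 58) (nat_lit 57) (nat_lit 0) (nat_lit 10) (nat_lit 4) L132038 (by decide +kernel)
theorem L132040 : W_47 (nat_lit 7) (nat_lit 0x10003e0012000800078000000000000000000) (nat_lit 0x0) (nat_lit 0xc700018004000200000006600000000000000) := T_47 (nat_lit 61) (nat_lit 62) (nat_lit 2) (nat_lit 7) (nat_lit 4) L132039 (by decide +kernel)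
theorem L132041 : W_47 (nat_lit 8) (nat_lit 0x10003e0012000800068000000000000000000) (nat_lit 0x0) (nat_lit 0xc700018004001200010006600000000000000) := T_47 (nat_lit 76) (nat_lit 96) (nat_lit 3) (nat_lit 7) (nat_lit 4) L132040 (by decide +kernel)
theorem L132042 : W_47 (nat_lit 9) (nat_lit 0x10003e0012000800060000000000000000000) (nat_lit 0x0) (nat_lit 0xc700018004001300018006600000000000000) := T_47 (nat_lit 75) (nat_lit 92) (nat_lit 7) (nat_lit 7) (nat_lit 4) L132041 (by decide +kernel)
theorem L132043 : W_47 (nat_lit 10) (nat_lit 0x10003e0012000800040000000000000000000) (nat_lit 0x0) (nat_lit 0xc700018004001300038007600000000000000) := T_47 (nat_lit 77) (nat_lit 60) (nat_lit 4) (nat_lit 10) (nat_lit 7) L132042 (by decide +kernel)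
theorem L132044 : W_47 (nat_lit 11) (nat_lit 0x10003e0010000800040000000000000000000) (nat_lit 0x0) (nat_lit 0xc700018007001300038007600000000000000) := T_47 (nat_lit 109) (nat_lit 108) (nat_lit 0) (nat_lit 10) (nat_lit 7) L132043 (by decide +kernel)
theorem L132045 : W_47 (nat_lit 2) (nat_lit 0x1000000014003e00120008000f8000000000000000000) (nat_lit 0x0) (nat_lit 0xe00000000000000) := D_47 (nat_lit 58) (nat_lit 59) (nat_lit 57) (nat_lit 0) (nat_lit 11) (nat_lit 4) (nat_lit 0) (nat_lit 10) (nat_lit 4) (by decide +kernel)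
theorem L132046 : W_47 (nat_lit 3) (nat_lit 0x1000000014003e00120008000e8000000000000000000) (nat_lit 0x0) (nat_lit 0x1000010000e00000000000000) := T_47 (nat_lit 76) (nat_lit 96) (nat_lit 3) (nat_lit 7) (nat_lit 4) L132045 (by decide +kernel)
theorem L132047 : W_47 (nat_lit 4) (nat_lit 0x14003e00120008000e8000000000000000000) (nat_lit 0x0) (nat_lit 0x100008000000000000001000010000e00000000000000) := T_47 (nat_lit 176) (nat_lit 159) (nat_lit 6) (nat_lit 6) (nat_lit 10) L132046 (by decide +kernel)
theorem L132048 : W_47 (nat_lit 5) (nat_lit 0x14003e00120008000e0000000000000000000) (nat_lit 0x0) (nat_lit 0x100008000000000000001100018000e00000000000000) := T_47 (nat_lit 75) (nat_lit 92) (nat_lit 7) (nat_lit 7) (nat_lit 4) L132047 (by decide +kernel)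
theorem L132049 : W_47 (nat_lit 6) (nat_lit 0x14003e0012000800060000000000000000000) (nat_lit 0x0) (nat_lit 0x100008000000000000001100098004e00000000000000) := T_47 (nat_lit 79) (nat_lit 62) (nat_lit 6) (nat_lit 10) (nat_lit 7) L132048 (by decide +kernel)
theorem L132050 : W_47 (nat_lit 7) (nat_lit 0x14003e0010000800060000000000000000000) (nat_lit 0x0) (nat_lit 0x100008000000000003001100098004e00000000000000) := T_47 (nat_lit 109) (nat_lit 108) (nat_lit 0) (nat_lit 10) (nat_lit 7) L132049 (by decide +kernel)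
theorem L132051 : W_47 (nat_lit 8) (nat_lit 0x14003e0010000800040000000000000000000) (nat_lit 0x0) (nat_lit 0x1000080000000000030011000b8005e00000000000000) := T_47 (nat_lit 77) (nat_lit 60) (nat_lit 4) (nat_lit 10) (nat_lit 7) L132050 (by decide +kernel)
theorem L132052 : W_47 (nat_lit 9) (nat_lit 0x10003e0010000800040000000000000000000) (nat_lit 0x0) (nat_lit 0x1000080006000000030011000b8005e00000000000000) := T_47 (nat_lit 142) (nat_lit 141) (nat_lit 1) (nat_lit 9) (nat_lit 7) L132051 (by decide +kernel)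
theorem L132053 : W_47 (nat_lit 2) (nat_lit 0x54003e0010001800068000000000000000000) (nat_lit 0x0) (nat_lit 0x3000100000000000000000000000) := D_47 (nat_lit 109) (nat_lit 108) (nat_lit 92) (nat_lit 0) (nat_lit 10) (nat_lit 7) (nat_lit 7) (nat_lit 7) (nat_lit 4) (by decide +kernel)
theorem L132054 : W_47 (nat_lit 3) (nat_lit 0x54003e0010001800060000000000000000000) (nat_lit 0x0) (nat_lit 0x3000100018000000000000000000) := T_47 (nat_lit 75) (nat_lit 76) (nat_lit 3) (nat_lit 7) (nat_lit 4) L132053 (by decide +kernel)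
theorem L132055 : W_47 (nat_lit 4) (nat_lit 0x54003e0010001800040000000000000000000) (nat_lit 0x0) (nat_lit 0x3000100038001000000000000000) := T_47 (nat_lit 77) (nat_lit 60) (nat_lit 4) (nat_lit 10) (nat_lit 7) L132054 (by decide +kernel)
theorem L132056 : W_47 (nat_lit 5) (nat_lit 0x54003e0010000800040000000000000000000) (nat_lit 0x0) (nat_lit 0x30011000b8001000000000000000) := T_47 (nat_lit 96) (nat_lit 79) (nat_lit 6) (nat_lit 10) (nat_lit 8) L132055 (by decide +kernel)
theorem L132057 : W_47 (nat_lit 6) (nat_lit 0x50003e0010000800040000000000000000000) (nat_lit 0x0) (nat_lit 0x6000000030011000b8001000000000000000) := T_47 (nat_lit 142) (nat_lit 141) (nat_lit 1) (nat_lit 9) (nat_lit 7) L132056 (by decide +kernel)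
theorem L132058 : W_47 (nat_lit 7) (nat_lit 0x10003e0010000800040000000000000000000) (nat_lit 0x0) (nat_lit 0xc6000000030011000b8001000000000000000) := T_47 (nat_lit 146) (nat_lit 147) (nat_lit 3) (nat_lit 7) (nat_lit 7) L132057 (by decide +kernel)
theorem L132059 : W_47 (nat_lit 12) (nat_lit 0x10003e0010000800000000000000000000000) (nat_lit 0x0) (nat_lit 0x10000800c7000180070013000f8007e00280000000000) := Q_47 (nat_lit 78) (C_47 L132025 (C_47 L132029 (C_47 L132034 (C_47 L132044 (C_47 L132052 (C_47 L132058 N_47)))))) (by decide +kernel)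
theorem L132060 : W_47 (nat_lit 2) (nat_lit 0x1000000054003e0012000800068004000000000000000) (nat_lit 0x0) (nat_lit 0x10002000200000000000) := D_47 (nat_lit 61) (nat_lit 45) (nat_lit 76) (nat_lit 6) (nat_lit 10) (nat_lit 6) (nat_lit 2) (nat_lit 7) (nat_lit 4) (by decide +kernel)
theorem L132061 : W_47 (nat_lit 3) (nat_lit 0x1000000054003e0012000800068000000000000000000) (nat_lit 0x0) (nat_lit 0x90006000200000000000) := T_47 (nat_lit 62) (nat_lit 79) (nat_lit 6) (nat_lit 10) (nat_lit 7) L132060 (by decide +kernel)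
theorem L132062 : W_47 (nat_lit 4) (nat_lit 0x54003e0012000800068000000000000000000) (nat_lit 0x0) (nat_lit 0x100008000000000000000000090006000200000000000) := T_47 (nat_lit 176) (nat_lit 159) (nat_lit 6) (nat_lit 6) (nat_lit 10) L132061 (by decide +kernel)
theorem L132063 : W_47 (nat_lit 5) (nat_lit 0x54003e0012000800028000000000000000000) (nat_lit 0x0) (nat_lit 0x1000080000000000000000000d0007000200000000000) := T_47 (nat_lit 78) (nat_lit 60) (nat_lit 4) (nat_lit 10) (nat_lit 7) L132062 (by decide +kernel)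
theorem L132064 : W_47 (nat_lit 6) (nat_lit 0x50003e0012000800028000000000000000000) (nat_lit 0x0) (nat_lit 0x1000080006000000000000000d0007000200000000000) := T_47 (nat_lit 142) (nat_lit 141) (nat_lit 1) (nat_lit 9) (nat_lit 7) L132063 (by decide +kernel)
theorem L132065 : W_47 (nat_lit 7) (nat_lit 0x50003e0012000800008000000000000000000) (nat_lit 0x0) (nat_lit 0x1000080006000000000004000f0007000200000000000) := T_47 (nat_lit 77) (nat_lit 94) (nat_lit 4) (nat_lit 10) (nat_lit 8) L132064 (by decide +kernel)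
theorem L132066 : W_47 (nat_lit 8) (nat_lit 0x50003e0012000800000000000000000000000) (nat_lit 0x0) (nat_lit 0x1000080006000000000005000f8007000200000000000) := T_47 (nat_lit 75) (nat_lit 92) (nat_lit 7) (nat_lit 7) (nat_lit 4) L132065 (by decide +kernel)
theorem L132067 : W_47 (nat_lit 9) (nat_lit 0x10003e0012000800000000000000000000000) (nat_lit 0x0) (nat_lit 0x10000800c6000000000005000f8007000200000000000) := T_47 (nat_lit 146) (nat_lit 147) (nat_lit 3) (nat_lit 7) (nat_lit 7) L132066 (by decide +kernel)
theorem L132068 : W_47 (nat_lit 10) (nat_lit 0x10003e0010000800000000000000000000000) (nat_lit 0x0) (nat_lit 0x10000800c6000000030005000f8007000200000000000) := T_47 (nat_lit 109) (nat_lit 108) (nat_lit 0) (nat_lit 10) (nat_lit 7) L132067 (by decide +kernel)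
theorem L132069 : W_47 (nat_lit 2) (nat_lit 0x14003e00100008000e0000000000000000000) (nat_lit 0x0) (nat_lit 0x4000000000001400000000000000000000000) := D_47 (nat_lit 146) (nat_lit 94) (nat_lit 96) (nat_lit 4) (nat_lit 10) (nat_lit 8) (nat_lit 6) (nat_lit 10) (nat_lit 8) (by decide +kernel)
theorem L132070 : W_47 (nat_lit 3) (nat_lit 0x14003e0010000800060000000000000000000) (nat_lit 0x0) (nat_lit 0x4000000000001400080004000000000000000) := T_47 (nat_lit 79) (nat_lit 62) (nat_lit 6) (nat_lit 10) (nat_lit 7) L132069 (by decide +kernel)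
theorem L132071 : W_47 (nat_lit 4) (nat_lit 0x14003e0010000800040000000000000000000) (nat_lit 0x0) (nat_lit 0x40000000000014000a0005000000000000000) := T_47 (nat_lit 77) (nat_lit 60) (nat_lit 4) (nat_lit 10) (nat_lit 7) L132070 (by decide +kernel)
theorem L132072 : W_47 (nat_lit 5) (nat_lit 0x10003e0010000800040000000000000000000) (nat_lit 0x0) (nat_lit 0x46000000000014000a0005000000000000000) := T_47 (nat_lit 142) (nat_lit 141) (nat_lit 1) (nat_lit 9) (nat_lit 7) L132071 (by decide +kernel)
theorem L132073 : W_47 (nat_lit 2) (nat_lit 0x54003e0012000800068004000000000000000) (nat_lit 0x0) (nat_lit 0x10002000200000000000) := D_47 (nat_lit 61) (nat_lit 45) (nat_lit 76) (nat_lit 6) (nat_lit 10) (nat_lit 6) (nat_lit 2) (nat_lit 7) (nat_lit 4) (by decide +kernel)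
theorem L132074 : W_47 (nat_lit 3) (nat_lit 0x54003e0012000800060004000000000000000) (nat_lit 0x0) (nat_lit 0x100018002000200000000000) := T_47 (nat_lit 75) (nat_lit 92) (nat_lit 7) (nat_lit 7) (nat_lit 4) L132073 (by decide +kernel)
theorem L132075 : W_47 (nat_lit 4) (nat_lit 0x54003e0012000800060000000000000000000) (nat_lit 0x0) (nat_lit 0x100098006000200000000000) := T_47 (nat_lit 62) (nat_lit 79) (nat_lit 6) (nat_lit 10) (nat_lit 7) L132074 (by decide +kernel)
theorem L132076 : W_47 (nat_lit 5) (nat_lit 0x54003e0010000800060000000000000000000) (nat_lit 0x0) (nat_lit 0x3000100098006000200000000000) := T_47 (nat_lit 109) (nat_lit 108) (nat_lit 0) (nat_lit 10) (nat_lit 7) L132075 (by decide +kernel)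
theorem L132077 : W_47 (nat_lit 6) (nat_lit 0x14003e0010000800060000000000000000000) (nat_lit 0x0) (nat_lit 0x4000000003000500098006000200000000000) := T_47 (nat_lit 146) (nat_lit 94) (nat_lit 4) (nat_lit 10) (nat_lit 8) L132076 (by decide +kernel)
theorem L132078 : W_47 (nat_lit 7) (nat_lit 0x10003e0010000800060000000000000000000) (nat_lit 0x0) (nat_lit 0x4600000003000500098006000200000000000) := T_47 (nat_lit 142) (nat_lit 141) (nat_lit 1) (nat_lit 9) (nat_lit 7) L132077 (by decide +kernel)
theorem L132079 : W_47 (nat_lit 8) (nat_lit 0x10003e0010000800040000000000000000000) (nat_lit 0x0) (nat_lit 0x46000000030005000b8007000200000000000) := T_47 (nat_lit 77) (nat_lit 60) (nat_lit 4) (nat_lit 10) (nat_lit 7) L132078 (by decide +kernel)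
theorem L132080 : W_47 (nat_lit 2) (nat_lit 0x1000000014003e0012001a000d8000000000000000000) (nat_lit 0x0) (nat_lit 0x4000000000000c00000000000000) := D_47 (nat_lit 110) (nat_lit 59) (nat_lit 58) (nat_lit 5) (nat_lit 8) (nat_lit 3) (nat_lit 4) (nat_lit 8) (nat_lit 7) (by decide +kernel)
theorem L132081 : W_47 (nat_lit 3) (nat_lit 0x1000000014003e00120018000d8000000000000000000) (nat_lit 0x0) (nat_lit 0x4000600000000c00000000000000) := T_47 (nat_lit 93) (nat_lit 94) (nat_lit 0) (nat_lit 11) (nat_lit 5) L132080 (by decide +kernel)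
theorem L132082 : W_47 (nat_lit 4) (nat_lit 0x1000000014003e00120018000c8000000000000000000) (nat_lit 0x0) (nat_lit 0x4000600030000c00000000000000) := T_47 (nat_lit 76) (nat_lit 77) (nat_lit 3) (nat_lit 7) (nat_lit 4) L132081 (by decide +kernel)
theorem L132083 : W_47 (nat_lit 5) (nat_lit 0x1000000014003e00120008000c8000000000000000000) (nat_lit 0x0) (nat_lit 0x4000000004001600030000c00000000000000) := T_47 (nat_lit 96) (nat_lit 146) (nat_lit 6) (nat_lit 10) (nat_lit 8) L132082 (by decide +kernel)
theorem L132084 : W_47 (nat_lit 6) (nat_lit 0x1000000014003e0012000800048000000000000000000) (nat_lit 0x0) (nat_lit 0x40000000040016000b0004c00000000000000) := T_47 (nat_lit 79) (nat_lit 62) (nat_lit 6) (nat_lit 10) (nat_lit 7) L132083 (by decide +kernel)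
theorem L132085 : W_47 (nat_lit 7) (nat_lit 0x14003e0012000800048000000000000000000) (nat_lit 0x0) (nat_lit 0x1000080040000000040016000b0004c00000000000000) := T_47 (nat_lit 176) (nat_lit 159) (nat_lit 6) (nat_lit 6) (nat_lit 10) L132084 (by decide +kernel)
theorem L132086 : W_47 (nat_lit 8) (nat_lit 0x14003e0012000800040000000000000000000) (nat_lit 0x0) (nat_lit 0x1000080040000000040017000b8004c00000000000000) := T_47 (nat_lit 75) (nat_lit 92) (nat_lit 7) (nat_lit 7) (nat_lit 4) L132085 (by decide +kernel)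
theorem L132087 : W_47 (nat_lit 9) (nat_lit 0x10003e0012000800040000000000000000000) (nat_lit 0x0) (nat_lit 0x1000080046000000040017000b8004c00000000000000) := T_47 (nat_lit 142) (nat_lit 141) (nat_lit 1) (nat_lit 9) (nat_lit 7) L132086 (by decide +kernel)
theorem L132088 : W_47 (nat_lit 10) (nat_lit 0x10003e0010000800040000000000000000000) (nat_lit 0x0) (nat_lit 0x1000080046000000070017000b8004c00000000000000) := T_47 (nat_lit 109) (nat_lit 108) (nat_lit 0) (nat_lit 10) (nat_lit 7) L132087 (by decide +kernel)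
theorem L132089 : W_47 (nat_lit 2) (nat_lit 0x14003e8016000c00068000000000000000000) (nat_lit 0x0) (nat_lit 0x1000014000000000000000000) := D_47 (nat_lit 76) (nat_lit 74) (nat_lit 96) (nat_lit 3) (nat_lit 6) (nat_lit 4) (nat_lit 3) (nat_lit 7) (nat_lit 4) (by decide +kernel)
theorem L132090 : W_47 (nat_lit 3) (nat_lit 0x14003e8016000c00060000000000000000000) (nat_lit 0x0) (nat_lit 0x110001c000000000000000000) := T_47 (nat_lit 75) (nat_lit 92) (nat_lit 7) (nat_lit 7) (nat_lit 4) L132089 (by decide +kernel)
theorem L132091 : W_47 (nat_lit 4) (nat_lit 0x14003e0016000c00060000000000000000000) (nat_lit 0x0) (nat_lit 0x1800000110001c000000000000000000) := T_47 (nat_lit 123) (nat_lit 124) (nat_lit 2) (nat_lit 4) (nat_lit 7) L132090 (by decide +kernel)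
theorem L132092 : W_47 (nat_lit 5) (nat_lit 0x14003e0012000c00060000000000000000000) (nat_lit 0x0) (nat_lit 0x1800400130001c000000000000000000) := T_47 (nat_lit 110) (nat_lit 93) (nat_lit 6) (nat_lit 8) (nat_lit 8) L132091 (by decide +kernel)
theorem L132093 : W_47 (nat_lit 6) (nat_lit 0x14003e0010000c00060000000000000000000) (nat_lit 0x0) (nat_lit 0x1800700130001c000000000000000000) := T_47 (nat_lit 109) (nat_lit 108) (nat_lit 0) (nat_lit 10) (nat_lit 7) L132092 (by decide +kernel)
theorem L132094 : W_47 (nat_lit 7) (nat_lit 0x14003e0010000800060000000000000000000) (nat_lit 0x0) (nat_lit 0x400001800700170001c000000000000000000) := T_47 (nat_lit 94) (nat_lit 146) (nat_lit 4) (nat_lit 10) (nat_lit 8) L132093 (by decide +kernel)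
theorem L132095 : W_47 (nat_lit 8) (nat_lit 0x10003e0010000800060000000000000000000) (nat_lit 0x0) (nat_lit 0x460001800700170001c000000000000000000) := T_47 (nat_lit 142) (nat_lit 141) (nat_lit 1) (nat_lit 9) (nat_lit 7) L132094 (by decide +kernel)
theorem L132096 : W_47 (nat_lit 9) (nat_lit 0x10003e0010000800040000000000000000000) (nat_lit 0x0) (nat_lit 0x460001800700170003c001000000000000000) := T_47 (nat_lit 77) (nat_lit 60) (nat_lit 4) (nat_lit 10) (nat_lit 7) L132095 (by decide +kernel)
theorem L132097 : W_47 (nat_lit 2) (nat_lit 0x1000000014003e0012000800048007c00000000000000) (nat_lit 0x0) (nat_lit 0x70000000000) := D_47 (nat_lit 41) (nat_lit 40) (nat_lit 42) (nat_lit 0) (nat_lit 10) (nat_lit 3) (nat_lit 0) (nat_lit 11) (nat_lit 3) (by decide +kernel)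
theorem L132098 : W_47 (nat_lit 3) (nat_lit 0x1000000014003e0012000800048007800000000000000) (nat_lit 0x0) (nat_lit 0x4000400070000000000) := T_47 (nat_lit 58) (nat_lit 74) (nat_lit 1) (nat_lit 10) (nat_lit 3) L132097 (by decide +kernel)
theorem L132099 : W_47 (nat_lit 4) (nat_lit 0x1000000014003e0012000800048007000000000000000) (nat_lit 0x0) (nat_lit 0x14000c00070000000000) := T_47 (nat_lit 59) (nat_lit 76) (nat_lit 1) (nat_lit 11) (nat_lit 3) L132098 (by decide +kernel)
theorem L132100 : W_47 (nat_lit 5) (nat_lit 0x1000000014003e0012000800048006000000000000000) (nat_lit 0x0) (nat_lit 0x14001c000f0000000000) := T_47 (nat_lit 60) (nat_lit 43) (nat_lit 4) (nat_lit 10) (nat_lit 6) L132099 (by decide +kernel)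
theorem L132101 : W_47 (nat_lit 6) (nat_lit 0x1000000014003e0012000800048004000000000000000) (nat_lit 0x0) (nat_lit 0x14003c002f0000000000) := T_47 (nat_lit 61) (nat_lit 45) (nat_lit 6) (nat_lit 10) (nat_lit 6) L132100 (by decide +kernel)
theorem L132102 : W_47 (nat_lit 7) (nat_lit 0x1000000014003e0012000800048000000000000000000) (nat_lit 0x0) (nat_lit 0x94007c002f0000000000) := T_47 (nat_lit 62) (nat_lit 79) (nat_lit 6) (nat_lit 10) (nat_lit 7) L132101 (by decide +kernel)
theorem L132103 : W_47 (nat_lit 8) (nat_lit 0x14003e0012000800048000000000000000000) (nat_lit 0x0) (nat_lit 0x100008000000000000000000094007c002f0000000000) := T_47 (nat_lit 176) (nat_lit 159) (nat_lit 6) (nat_lit 6) (nat_lit 10) L132102 (by decide +kernel)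
theorem L132104 : W_47 (nat_lit 9) (nat_lit 0x14003e0012000800040000000000000000000) (nat_lit 0x0) (nat_lit 0x10000800000000000000010009c007c002f0000000000) := T_47 (nat_lit 75) (nat_lit 92) (nat_lit 7) (nat_lit 7) (nat_lit 4) L132103 (by decide +kernel)
theorem L132105 : W_47 (nat_lit 10) (nat_lit 0x10003e0012000800040000000000000000000) (nat_lit 0x0) (nat_lit 0x10000800060000000000010009c007c002f0000000000) := T_47 (nat_lit 142) (nat_lit 141) (nat_lit 1) (nat_lit 9) (nat_lit 7) L132104 (by decide +kernel)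
theorem L132106 : W_47 (nat_lit 11) (nat_lit 0x10003e0010000800040000000000000000000) (nat_lit 0x0) (nat_lit 0x10000800060000000300010009c007c002f0000000000) := T_47 (nat_lit 109) (nat_lit 108) (nat_lit 0) (nat_lit 10) (nat_lit 7) L132105 (by decide +kernel)
theorem L132107 : W_47 (nat_lit 12) (nat_lit 0x10003e0010000800000000000000000000000) (nat_lit 0x0) (nat_lit 0x1000080046000180070017000fc007e002f0000000000) := Q_47 (nat_lit 78) (C_47 L132052 (C_47 L132072 (C_47 L132034 (C_47 L132079 (C_47 L132088 (C_47 L132096 (C_47 L132106 N_47))))))) (by decide +kernel)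
theorem L132108 : W_47 (nat_lit 2) (nat_lit 0x52003f0016000e00008000000000000000000) (nat_lit 0x0) (nat_lit 0x10000c00000000000000) := D_47 (nat_lit 76) (nat_lit 59) (nat_lit 58) (nat_lit 5) (nat_lit 8) (nat_lit 3) (nat_lit 4) (nat_lit 8) (nat_lit 7) (by decide +kernel)
theorem L132109 : W_47 (nat_lit 3) (nat_lit 0x52003f0016000c00008000000000000000000) (nat_lit 0x0) (nat_lit 0x1200010000c00000000000000) := T_47 (nat_lit 93) (nat_lit 96) (nat_lit 1) (nat_lit 11) (nat_lit 5) L132108 (by decide +kernel)
theorem L132110 : W_47 (nat_lit 4) (nat_lit 0x52003f0016000c00000000000000000000000) (nat_lit 0x0) (nat_lit 0x1300018000c00000000000000) := T_47 (nat_lit 75) (nat_lit 92) (nat_lit 7) (nat_lit 7) (nat_lit 4) L132109 (by decide +kernel)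
theorem L132111 : W_47 (nat_lit 5) (nat_lit 0x52003f0012000c00000000000000000000000) (nat_lit 0x0) (nat_lit 0x8004001300018000c00000000000000) := T_47 (nat_lit 110) (nat_lit 123) (nat_lit 2) (nat_lit 4) (nat_lit 7) L132110 (by decide +kernel)
theorem L132112 : W_47 (nat_lit 6) (nat_lit 0x52003f0010000c00000000000000000000000) (nat_lit 0x0) (nat_lit 0x8007001300018000c00000000000000) := T_47 (nat_lit 109) (nat_lit 108) (nat_lit 0) (nat_lit 10) (nat_lit 7) L132111 (by decide +kernel)
theorem L132113 : W_47 (nat_lit 7) (nat_lit 0x52003f0010000800000000000000000000000) (nat_lit 0x0) (nat_lit 0x8007001700038000c00000000000000) := T_47 (nat_lit 94) (nat_lit 77) (nat_lit 4) (nat_lit 10) (nat_lit 8) L132112 (by decide +kernel)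
theorem L132114 : W_47 (nat_lit 8) (nat_lit 0x52003e0010000800000000000000000000000) (nat_lit 0x0) (nat_lit 0x100018007001700038000c00000000000000) := T_47 (nat_lit 124) (nat_lit 140) (nat_lit 1) (nat_lit 8) (nat_lit 7) L132113 (by decide +kernel)
theorem L132115 : W_47 (nat_lit 9) (nat_lit 0x12003e0010000800000000000000000000000) (nat_lit 0x0) (nat_lit 0xc100018007001700038000c00000000000000) := T_47 (nat_lit 146) (nat_lit 147) (nat_lit 3) (nat_lit 7) (nat_lit 7) L132114 (by decide +kernel)
theorem L132116 : W_47 (nat_lit 10) (nat_lit 0x10003e0010000800000000000000000000000) (nat_lit 0x0) (nat_lit 0xc700018007001700038000c00000000000000) := T_47 (nat_lit 141) (nat_lit 142) (nat_lit 1) (nat_lit 9) (nat_lit 7) L132115 (by decide +kernel)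
theorem L132117 : W_47 (nat_lit 2) (nat_lit 0x52003f0016001a00008000000000000000000) (nat_lit 0x0) (nat_lit 0x10000c00000000000000) := D_47 (nat_lit 76) (nat_lit 59) (nat_lit 58) (nat_lit 5) (nat_lit 8) (nat_lit 3) (nat_lit 4) (nat_lit 8) (nat_lit 7) (by decide +kernel)
theorem L132118 : W_47 (nat_lit 3) (nat_lit 0x52003f0016001800008000000000000000000) (nat_lit 0x0) (nat_lit 0x600010000c00000000000000) := T_47 (nat_lit 93) (nat_lit 94) (nat_lit 1) (nat_lit 11) (nat_lit 5) L132117 (by decide +kernel)
theorem L132119 : W_47 (nat_lit 4) (nat_lit 0x52003f0016000800008000000000000000000) (nat_lit 0x0) (nat_lit 0x1600090000c00000000000000) := T_47 (nat_lit 96) (nat_lit 79) (nat_lit 6) (nat_lit 10) (nat_lit 8) L132118 (by decide +kernel)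
theorem L132120 : W_47 (nat_lit 5) (nat_lit 0x52003f0012000800008000000000000000000) (nat_lit 0x0) (nat_lit 0x8004001600090000c00000000000000) := T_47 (nat_lit 110) (nat_lit 123) (nat_lit 2) (nat_lit 4) (nat_lit 7) L132119 (by decide +kernel)
theorem L132121 : W_47 (nat_lit 6) (nat_lit 0x12003f0012000800008000000000000000000) (nat_lit 0x0) (nat_lit 0xc000008004001600090000c00000000000000) := T_47 (nat_lit 146) (nat_lit 147) (nat_lit 3) (nat_lit 7) (nat_lit 7) L132120 (by decide +kernel)
theorem L132122 : W_47 (nat_lit 7) (nat_lit 0x12003e0012000800008000000000000000000) (nat_lit 0x0) (nat_lit 0xc100018004001600090000c00000000000000) := T_47 (nat_lit 124) (nat_lit 140) (nat_lit 1) (nat_lit 8) (nat_lit 7) L132121 (by decide +kernel)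
theorem L132123 : W_47 (nat_lit 8) (nat_lit 0x12003e0012000800000000000000000000000) (nat_lit 0x0) (nat_lit 0xc100018004001700098000c00000000000000) := T_47 (nat_lit 75) (nat_lit 92) (nat_lit 7) (nat_lit 7) (nat_lit 4) L132122 (by decide +kernel)
theorem L132124 : W_47 (nat_lit 9) (nat_lit 0x10003e0012000800000000000000000000000) (nat_lit 0x0) (nat_lit 0xc700018004001700098000c00000000000000) := T_47 (nat_lit 141) (nat_lit 142) (nat_lit 1) (nat_lit 9) (nat_lit 7) L132123 (by decide +kernel)
theorem L132125 : W_47 (nat_lit 10) (nat_lit 0x10003e0010000800000000000000000000000) (nat_lit 0x0) (nat_lit 0xc700018007001700098000c00000000000000) := T_47 (nat_lit 109) (nat_lit 108) (nat_lit 0) (nat_lit 10) (nat_lit 7) L132124 (by decide +kernel)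
theorem L132126 : W_47 (nat_lit 2) (nat_lit 0x14003e0010000800040005000000000000000) (nat_lit 0x0) (nat_lit 0x2000280000000000) := D_47 (nat_lit 61) (nat_lit 43) (nat_lit 45) (nat_lit 4) (nat_lit 10) (nat_lit 6) (nat_lit 6) (nat_lit 10) (nat_lit 6) (by decide +kernel)
theorem L132127 : W_47 (nat_lit 3) (nat_lit 0x14003e0010000800040001000000000000000) (nat_lit 0x0) (nat_lit 0x80006000280000000000) := T_47 (nat_lit 62) (nat_lit 79) (nat_lit 6) (nat_lit 10) (nat_lit 7) L132126 (by decide +kernel)
theorem L132128 : W_47 (nat_lit 4) (nat_lit 0x14003e0010000800040000000000000000000) (nat_lit 0x0) (nat_lit 0xa0007000280000000000) := T_47 (nat_lit 60) (nat_lit 77) (nat_lit 4) (nat_lit 10) (nat_lit 7) L132127 (by decide +kernel)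
theorem L132129 : W_47 (nat_lit 5) (nat_lit 0x10003e0010000800040000000000000000000) (nat_lit 0x0) (nat_lit 0x6000000000000000a0007000280000000000) := T_47 (nat_lit 142) (nat_lit 141) (nat_lit 1) (nat_lit 9) (nat_lit 7) L132128 (by decide +kernel)
theorem L132130 : W_47 (nat_lit 2) (nat_lit 0x10003e00120008000f8000000000000000000) (nat_lit 0x0) (nat_lit 0xe00000000000000) := D_47 (nat_lit 58) (nat_lit 57) (nat_lit 59) (nat_lit 0) (nat_lit 10) (nat_lit 4) (nat_lit 0) (nat_lit 11) (nat_lit 4) (by decide +kernel)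
theorem L132131 : W_47 (nat_lit 3) (nat_lit 0x10003e00120008000e8000000000000000000) (nat_lit 0x0) (nat_lit 0x1000010000e00000000000000) := T_47 (nat_lit 76) (nat_lit 96) (nat_lit 3) (nat_lit 7) (nat_lit 4) L132130 (by decide +kernel)
theorem L132132 : W_47 (nat_lit 4) (nat_lit 0x10003e00120008000e0000000000000000000) (nat_lit 0x0) (nat_lit 0x1100018000e00000000000000) := T_47 (nat_lit 75) (nat_lit 92) (nat_lit 7) (nat_lit 7) (nat_lit 4) L132131 (by decide +kernel)
theorem L132133 : W_47 (nat_lit 5) (nat_lit 0x10003e00120008000c0000000000000000000) (nat_lit 0x0) (nat_lit 0x1100038001e00000000000000) := T_47 (nat_lit 77) (nat_lit 60) (nat_lit 4) (nat_lit 10) (nat_lit 7) L132132 (by decide +kernel)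
theorem L132134 : W_47 (nat_lit 6) (nat_lit 0x10003e00100008000c0000000000000000000) (nat_lit 0x0) (nat_lit 0x3001100038001e00000000000000) := T_47 (nat_lit 109) (nat_lit 108) (nat_lit 0) (nat_lit 10) (nat_lit 7) L132133 (by decide +kernel)
theorem L132135 : W_47 (nat_lit 7) (nat_lit 0x10003e0010000800040000000000000000000) (nat_lit 0x0) (nat_lit 0x30011000b8005e00000000000000) := T_47 (nat_lit 79) (nat_lit 62) (nat_lit 6) (nat_lit 10) (nat_lit 7) L132134 (by decide +kernel)
theorem L132136 : W_47 (nat_lit 2) (nat_lit 0x14003e0012000b000d0000000000000000000) (nat_lit 0x0) (nat_lit 0x4000000000000800040000000000) := D_47 (nat_lit 59) (nat_lit 42) (nat_lit 110) (nat_lit 5) (nat_lit 8) (nat_lit 2) (nat_lit 5) (nat_lit 8) (nat_lit 3) (by decide +kernel)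
theorem L132137 : W_47 (nat_lit 3) (nat_lit 0x14003e0012000b000c0000000000000000000) (nat_lit 0x0) (nat_lit 0x4000000030000800040000000000) := T_47 (nat_lit 76) (nat_lit 77) (nat_lit 1) (nat_lit 11) (nat_lit 4) L132136 (by decide +kernel)
theorem L132138 : W_47 (nat_lit 4) (nat_lit 0x14003e00120009000c0000000000000000000) (nat_lit 0x0) (nat_lit 0x4000600030000800040000000000) := T_47 (nat_lit 93) (nat_lit 94) (nat_lit 2) (nat_lit 7) (nat_lit 5) L132137 (by decide +kernel)
theorem L132139 : W_47 (nat_lit 5) (nat_lit 0x10003e00120009000c0000000000000000000) (nat_lit 0x0) (nat_lit 0x600000004000600030000800040000000000) := T_47 (nat_lit 142) (nat_lit 141) (nat_lit 1) (nat_lit 9) (nat_lit 7) L132138 (by decide +kernel)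
theorem L132140 : W_47 (nat_lit 6) (nat_lit 0x10003e00120008000c0000000000000000000) (nat_lit 0x0) (nat_lit 0x600000004000700038000800040000000000) := T_47 (nat_lit 92) (nat_lit 75) (nat_lit 7) (nat_lit 7) (nat_lit 4) L132139 (by decide +kernel)
theorem L132141 : W_47 (nat_lit 7) (nat_lit 0x10003e0012000800040000000000000000000) (nat_lit 0x0) (nat_lit 0x6000000040007000b8004800040000000000) := T_47 (nat_lit 79) (nat_lit 62) (nat_lit 6) (nat_lit 10) (nat_lit 7) L132140 (by decide +kernel)
theorem L132142 : W_47 (nat_lit 8) (nat_lit 0x10003e0010000800040000000000000000000) (nat_lit 0x0) (nat_lit 0x6000000070007000b8004800040000000000) := T_47 (nat_lit 109) (nat_lit 108) (nat_lit 0) (nat_lit 10) (nat_lit 7) L132141 (by decide +kernel)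
theorem L132143 : W_47 (nat_lit 2) (nat_lit 0x14003e001200080007c000000000000000000) (nat_lit 0x0) (nat_lit 0x700000000000000) := D_47 (nat_lit 57) (nat_lit 58) (nat_lit 56) (nat_lit 0) (nat_lit 10) (nat_lit 4) (nat_lit 0) (nat_lit 9) (nat_lit 4) (by decide +kernel)
theorem L132144 : W_47 (nat_lit 3) (nat_lit 0x14003e0012000800078000000000000000000) (nat_lit 0x0) (nat_lit 0x400004000700000000000000) := T_47 (nat_lit 74) (nat_lit 94) (nat_lit 3) (nat_lit 6) (nat_lit 4) L132143 (by decide +kernel)
theorem L132145 : W_47 (nat_lit 4) (nat_lit 0x14003e0012000800068000000000000000000) (nat_lit 0x0) (nat_lit 0x1400014000700000000000000) := T_47 (nat_lit 76) (nat_lit 96) (nat_lit 3) (nat_lit 7) (nat_lit 4) L132144 (by decide +kernel)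
theorem L132146 : W_47 (nat_lit 5) (nat_lit 0x14003e0012000800060000000000000000000) (nat_lit 0x0) (nat_lit 0x150001c000700000000000000) := T_47 (nat_lit 75) (nat_lit 92) (nat_lit 7) (nat_lit 7) (nat_lit 4) L132145 (by decide +kernel)
theorem L132147 : W_47 (nat_lit 6) (nat_lit 0x14003e0010000800060000000000000000000) (nat_lit 0x0) (nat_lit 0x300150001c000700000000000000) := T_47 (nat_lit 109) (nat_lit 108) (nat_lit 0) (nat_lit 10) (nat_lit 7) L132146 (by decide +kernel)
theorem L132148 : W_47 (nat_lit 7) (nat_lit 0x14003e0010000800040000000000000000000) (nat_lit 0x0) (nat_lit 0x300150003c001700000000000000) := T_47 (nat_lit 77) (nat_lit 60) (nat_lit 4) (nat_lit 10) (nat_lit 7) L132147 (by decide +kernel)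
theorem L132149 : W_47 (nat_lit 8) (nat_lit 0x10003e0010000800040000000000000000000) (nat_lit 0x0) (nat_lit 0x60000000300150003c001700000000000000) := T_47 (nat_lit 142) (nat_lit 141) (nat_lit 1) (nat_lit 9) (nat_lit 7) L132148 (by decide +kernel)
theorem L132150 : W_47 (nat_lit 12) (nat_lit 0x10003e0010000800000000000000000000000) (nat_lit 0x0) (nat_lit 0x1000080006000000070017000fc007f002f0000000000) := Q_47 (nat_lit 78) (C_47 L132106 (C_47 L132129 (C_47 L132135 (C_47 L132142 (C_47 L132149 N_47))))) (by decide +kernel)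
theorem L132151 : W_47 (nat_lit 13) (nat_lit 0x10003e0010000000000000000000000000000) (nat_lit 0x0) (nat_lit 0x10000800c700018007001f000fc007f002f0000000000) := Q_47 (nat_lit 95) (C_47 L132012 (C_47 L132017 (C_47 L132023 (C_47 L132059 (C_47 L132068 (C_47 L132107 (C_47 L132116 (C_47 L132125 (C_47 L132150 N_47))))))))) (by decide +kernel)
theorem L132152 : W_47 (nat_lit 14) (nat_lit 0x10003e0000000000000000000000000000000) (nat_lit 0x0) (nat_lit 0x10000800c700018037001f000fc007f002f0000000000) := T_47 (nat_lit 112) (nat_lit 113) (nat_lit 2) (nat_lit 7) (nat_lit 7) L132151 (by decide +kernel)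
theorem L132153 : W_47 (nat_lit 15) (nat_lit 0x10001e0000000000000000000000000000000) (nat_lit 0x0) (nat_lit 0x10000801c700618077001f000fc007f002f0000000000) := Q_47 (nat_lit 129) (C_47 L131995 (C_47 L132000 (C_47 L132003 (C_47 L132005 (C_47 L132152 N_47))))) (by decide +kernel)
theorem L132154 : W_47 (nat_lit 4) (nat_lit 0x10003e0010000000000000000000000000000) (nat_lit 0x0) (nat_lit 0x1c000400007000000000000000000000000000) := T_47 (nat_lit 109) (nat_lit 108) (nat_lit 0) (nat_lit 10) (nat_lit 7) L131194 (by decide +kernel)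
theorem L132155 : W_47 (nat_lit 5) (nat_lit 0x10001e0010000000000000000000000000000) (nat_lit 0x0) (nat_lit 0x1c000600027000000000000000000000000000) := T_47 (nat_lit 129) (nat_lit 113) (nat_lit 2) (nat_lit 7) (nat_lit 7) L132154 (by decide +kernel)
theorem L132156 : W_47 (nat_lit 6) (nat_lit 0x10001e0000000000000000000000000000000) (nat_lit 0x0) (nat_lit 0x1c00060003f000000000000000000000000000) := T_47 (nat_lit 112) (nat_lit 111) (nat_lit 2) (nat_lit 6) (nat_lit 7) L132155 (by decide +kernel)
theorem L132157 : W_47 (nat_lit 2) (nat_lit 0x12001f0006000000000000000000000000000) (nat_lit 0x0) (nat_lit 0x600001000000000000000000000000000) := D_47 (nat_lit 129) (nat_lit 130) (nat_lit 108) (nat_lit 0) (nat_lit 11) (nat_lit 7) (nat_lit 0) (nat_lit 10) (nat_lit 7) (by decide +kernel)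
theorem L132158 : W_47 (nat_lit 3) (nat_lit 0x12001f0004000000000000000000000000000) (nat_lit 0x0) (nat_lit 0x608003000000000000000000000000000) := T_47 (nat_lit 109) (nat_lit 123) (nat_lit 2) (nat_lit 4) (nat_lit 7) L132157 (by decide +kernel)
theorem L132159 : W_47 (nat_lit 4) (nat_lit 0x12001f0000000000000000000000000000000) (nat_lit 0x0) (nat_lit 0x60800f000000000000000000000000000) := T_47 (nat_lit 110) (nat_lit 111) (nat_lit 2) (nat_lit 5) (nat_lit 7) L132158 (by decide +kernel)
theorem L132160 : W_47 (nat_lit 5) (nat_lit 0x12001e0000000000000000000000000000000) (nat_lit 0x0) (nat_lit 0x10061800f000000000000000000000000000) := T_47 (nat_lit 124) (nat_lit 140) (nat_lit 1) (nat_lit 8) (nat_lit 7) L132159 (by decide +kernel)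
theorem L132161 : W_47 (nat_lit 6) (nat_lit 0x10001e0000000000000000000000000000000) (nat_lit 0x0) (nat_lit 0x70061800f000000000000000000000000000) := T_47 (nat_lit 141) (nat_lit 142) (nat_lit 1) (nat_lit 9) (nat_lit 7) L132160 (by decide +kernel)
theorem L132162 : W_47 (nat_lit 17) (nat_lit 0x10000e0000000000000000000000000000000) (nat_lit 0x0) (nat_lit 0x218010c01c70071c07f007fe03ff83ff803f801dc00200) := Q_47 (nat_lit 128) (C_47 L123002 (C_47 L130604 (C_47 L132153 (C_47 L132156 (C_47 L132161 N_47))))) (by decide +kernel)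
theorem L132163 : W_47 (nat_lit 5) (nat_lit 0x10001e0000000000000000000000000000000) (nat_lit 0x0) (nat_lit 0x8000600200003800100008000000000000000000) := T_47 (nat_lit 108) (nat_lit 107) (nat_lit 0) (nat_lit 9) (nat_lit 7) L130660 (by decide +kernel)
theorem L132164 : W_47 (nat_lit 2) (nat_lit 0x94007e0024000000000000000000000000000) (nat_lit 0x0) (nat_lit 0x810008000000000000000000000000000) := D_47 (nat_lit 111) (nat_lit 131) (nat_lit 124) (nat_lit 0) (nat_lit 12) (nat_lit 7) (nat_lit 2) (nat_lit 5) (nat_lit 7) (by decide +kernel)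
theorem L132165 : W_47 (nat_lit 3) (nat_lit 0x94007e0020000000000000000000000000000) (nat_lit 0x0) (nat_lit 0x81000e000000000000000000000000000) := T_47 (nat_lit 110) (nat_lit 109) (nat_lit 0) (nat_lit 11) (nat_lit 7) L132164 (by decide +kernel)
theorem L132166 : W_47 (nat_lit 4) (nat_lit 0x94007e0000000000000000000000000000000) (nat_lit 0x0) (nat_lit 0x81006e000000000000000000000000000) := T_47 (nat_lit 113) (nat_lit 114) (nat_lit 2) (nat_lit 8) (nat_lit 7) L132165 (by decide +kernel)
theorem L132167 : W_47 (nat_lit 5) (nat_lit 0x94003e0000000000000000000000000000000) (nat_lit 0x0) (nat_lit 0x10000c1006e000000000000000000000000000) := T_47 (nat_lit 130) (nat_lit 148) (nat_lit 3) (nat_lit 8) (nat_lit 7) L132166 (by decide +kernel)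
theorem L132168 : W_47 (nat_lit 6) (nat_lit 0x14003e0000000000000000000000000000000) (nat_lit 0x0) (nat_lit 0x1c000c1006e000000000000000000000000000) := T_47 (nat_lit 147) (nat_lit 146) (nat_lit 3) (nat_lit 7) (nat_lit 7) L132167 (by decide +kernel)
theorem L132169 : W_47 (nat_lit 7) (nat_lit 0x10003e0000000000000000000000000000000) (nat_lit 0x0) (nat_lit 0x1c600c1006e000000000000000000000000000) := T_47 (nat_lit 142) (nat_lit 141) (nat_lit 1) (nat_lit 9) (nat_lit 7) L132168 (by decide +kernel)
theorem L132170 : W_47 (nat_lit 2) (nat_lit 0x50003e000c000000000000000000000000000) (nat_lit 0x0) (nat_lit 0xc00002000000000000000000000000000) := D_47 (nat_lit 130) (nat_lit 131) (nat_lit 109) (nat_lit 0) (nat_lit 12) (nat_lit 7) (nat_lit 0) (nat_lit 11) (nat_lit 7) (by decide +kernel)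
theorem L132171 : W_47 (nat_lit 3) (nat_lit 0x50003e0008000000000000000000000000000) (nat_lit 0x0) (nat_lit 0xc10006000000000000000000000000000) := T_47 (nat_lit 110) (nat_lit 124) (nat_lit 2) (nat_lit 5) (nat_lit 7) L132170 (by decide +kernel)
theorem L132172 : W_47 (nat_lit 4) (nat_lit 0x50003e0000000000000000000000000000000) (nat_lit 0x0) (nat_lit 0xc1001e000000000000000000000000000) := T_47 (nat_lit 111) (nat_lit 112) (nat_lit 2) (nat_lit 6) (nat_lit 7) L132171 (by decide +kernel)
theorem L132173 : W_47 (nat_lit 5) (nat_lit 0x10003e0000000000000000000000000000000) (nat_lit 0x0) (nat_lit 0xc000c1001e000000000000000000000000000) := T_47 (nat_lit 146) (nat_lit 147) (nat_lit 3) (nat_lit 7) (nat_lit 7) L132172 (by decide +kernel)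
theorem L132174 : W_47 (nat_lit 2) (nat_lit 0x10003e0000000000000000000000000000000) (nat_lit 0x0) (nat_lit 0x38000000000000000000000000000) := D_47 (nat_lit 112) (nat_lit 111) (nat_lit 113) (nat_lit 2) (nat_lit 6) (nat_lit 7) (nat_lit 2) (nat_lit 7) (nat_lit 7) (by decide +kernel)
theorem L132175 : W_47 (nat_lit 8) (nat_lit 0x10001e0000000000000000000000000000000) (nat_lit 0x0) (nat_lit 0x1c600e1007e000000000000000000000000000) := Q_47 (nat_lit 129) (C_47 L132003 (C_47 L132169 (C_47 L132173 (C_47 L132174 N_47)))) (by decide +kernel)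
theorem L132176 : W_47 (nat_lit 9) (nat_lit 0x10000e0000000000000000000000000000000) (nat_lit 0x0) (nat_lit 0x801c600f1007fc00100008000000000000000000) := Q_47 (nat_lit 128) (C_47 L132156 (C_47 L122944 (C_47 L132163 (C_47 L132175 N_47)))) (by decide +kernel)
theorem L132177 : W_47 (nat_lit 18) (nat_lit 0x10000c0000000000000000000000000000000) (nat_lit 0x0) (nat_lit 0x8057c03be01df01c7e0f3e0fff87ffc7fff3ffc03fe01df00200) := Q_47 (nat_lit 125) (C_47 L124537 (C_47 L130177 (C_47 L130651 (C_47 L130804 (C_47 L130812 (C_47 L130813 (C_47 L131994 (C_47 L132162 (C_47 L132176 N_47))))))))) (by decide +kernel)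
theorem L132178 : W_47 (nat_lit 2) (nat_lit 0x10001f000a400000000000000000000000000) (nat_lit 0x0) (nat_lit 0x800008000200000000000000000000000000) := D_47 (nat_lit 123) (nat_lit 143) (nat_lit 105) (nat_lit 3) (nat_lit 4) (nat_lit 7) (nat_lit 0) (nat_lit 7) (nat_lit 7) (by decide +kernel)
theorem L132179 : W_47 (nat_lit 3) (nat_lit 0x10001f000a000000000000000000000000000) (nat_lit 0x0) (nat_lit 0x800008000e00000000000000000000000000) := T_47 (nat_lit 106) (nat_lit 107) (nat_lit 0) (nat_lit 8) (nat_lit 7) L132178 (by decide +kernel)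
theorem L132180 : W_47 (nat_lit 4) (nat_lit 0x10001f0002000000000000000000000000000) (nat_lit 0x0) (nat_lit 0x800008018e00000000000000000000000000) := T_47 (nat_lit 111) (nat_lit 112) (nat_lit 2) (nat_lit 6) (nat_lit 7) L132179 (by decide +kernel)
theorem L132181 : W_47 (nat_lit 2) (nat_lit 0x10001f0002000000000000000000000000000) (nat_lit 0x0) (nat_lit 0x1c00000000000000000000000000) := D_47 (nat_lit 107) (nat_lit 108) (nat_lit 106) (nat_lit 0) (nat_lit 9) (nat_lit 7) (nat_lit 0) (nat_lit 8) (nat_lit 7) (by decide +kernel)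
theorem L132182 : W_47 (nat_lit 2) (nat_lit 0x10001f800a000000000000000000000000000) (nat_lit 0x0) (nat_lit 0x4001800000000000000000000000000) := D_47 (nat_lit 108) (nat_lit 122) (nat_lit 107) (nat_lit 2) (nat_lit 3) (nat_lit 7) (nat_lit 0) (nat_lit 9) (nat_lit 7) (by decide +kernel)
theorem L132183 : W_47 (nat_lit 3) (nat_lit 0x10001f000a000000000000000000000000000) (nat_lit 0x0) (nat_lit 0x80000c001800000000000000000000000000) := T_47 (nat_lit 123) (nat_lit 143) (nat_lit 3) (nat_lit 4) (nat_lit 7) L132182 (by decide +kernel)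
theorem L132184 : W_47 (nat_lit 4) (nat_lit 0x10001f0002000000000000000000000000000) (nat_lit 0x0) (nat_lit 0x80000c019800000000000000000000000000) := T_47 (nat_lit 111) (nat_lit 112) (nat_lit 2) (nat_lit 6) (nat_lit 7) L132183 (by decide +kernel)
theorem L132185 : W_47 (nat_lit 5) (nat_lit 0x10001e0002000000000000000000000000000) (nat_lit 0x0) (nat_lit 0x80001c019f00000000000000000000000000) := Q_47 (nat_lit 124) (C_47 L130157 (C_47 L132180 (C_47 L132181 (C_47 L132184 N_47)))) (by decide +kernel)
theorem L132186 : W_47 (nat_lit 4) (nat_lit 0x10001e000a000000000000000000000000000) (nat_lit 0x0) (nat_lit 0x800018004e00000000000000000000000000) := T_47 (nat_lit 124) (nat_lit 110) (nat_lit 2) (nat_lit 5) (nat_lit 7) L132179 (by decide +kernel)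
theorem L132187 : W_47 (nat_lit 5) (nat_lit 0x10001e0002000000000000000000000000000) (nat_lit 0x0) (nat_lit 0x80001801ce00000000000000000000000000) := T_47 (nat_lit 111) (nat_lit 112) (nat_lit 2) (nat_lit 6) (nat_lit 7) L132186 (by decide +kernel)
theorem L132188 : W_47 (nat_lit 2) (nat_lit 0x10001fc00a000000000000000000000000000) (nat_lit 0x0) (nat_lit 0x1c0000000000000000000000000000000000) := D_47 (nat_lit 139) (nat_lit 138) (nat_lit 140) (nat_lit 1) (nat_lit 6) (nat_lit 7) (nat_lit 1) (nat_lit 7) (nat_lit 7) (by decide +kernel)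
theorem L132189 : W_47 (nat_lit 3) (nat_lit 0x10001f800a000000000000000000000000000) (nat_lit 0x0) (nat_lit 0x1c0004001000000000000000000000000000) := T_47 (nat_lit 122) (nat_lit 108) (nat_lit 2) (nat_lit 3) (nat_lit 7) L132188 (by decide +kernel)
theorem L132190 : W_47 (nat_lit 4) (nat_lit 0x10001f000a000000000000000000000000000) (nat_lit 0x0) (nat_lit 0x9c000c001000000000000000000000000000) := T_47 (nat_lit 123) (nat_lit 143) (nat_lit 3) (nat_lit 4) (nat_lit 7) L132189 (by decide +kernel)
theorem L132191 : W_47 (nat_lit 5) (nat_lit 0x10001e000a000000000000000000000000000) (nat_lit 0x0) (nat_lit 0x9c001c005000000000000000000000000000) := T_47 (nat_lit 124) (nat_lit 110) (nat_lit 2) (nat_lit 5) (nat_lit 7) L132190 (by decide +kernel)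
theorem L132192 : W_47 (nat_lit 6) (nat_lit 0x10001e0002000000000000000000000000000) (nat_lit 0x0) (nat_lit 0x9c001c01d000000000000000000000000000) := T_47 (nat_lit 111) (nat_lit 112) (nat_lit 2) (nat_lit 6) (nat_lit 7) L132191 (by decide +kernel)
theorem L132193 : W_47 (nat_lit 8) (nat_lit 0x10001c0002000000000000000000000000000) (nat_lit 0x0) (nat_lit 0x100009c003c01df00cc0024000000000000000000) := Q_47 (nat_lit 125) (C_47 L132185 (C_47 L126005 (C_47 L126009 (C_47 L132187 (C_47 L125717 (C_47 L132192 N_47)))))) (by decide +kernel)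
theorem L132194 : W_47 (nat_lit 9) (nat_lit 0x10000c0002000000000000000000000000000) (nat_lit 0x0) (nat_lit 0x9000c9c073c03df00cc0024000000000000000000) := Q_47 (nat_lit 128) (C_47 L123134 (C_47 L126018 (C_47 L132193 (C_47 L126017 N_47)))) (by decide +kernel)
theorem L132195 : W_47 (nat_lit 2) (nat_lit 0x18001e800b4000e000a000000000000000000) (nat_lit 0x0) (nat_lit 0x1000100008000000000) := D_47 (nat_lit 56) (nat_lit 39) (nat_lit 72) (nat_lit 7) (nat_lit 5) (nat_lit 2) (nat_lit 6) (nat_lit 4) (nat_lit 7) (by decide +kernel)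
theorem L132196 : W_47 (nat_lit 3) (nat_lit 0x18001e800b0000e000a000000000000000000) (nat_lit 0x0) (nat_lit 0x100000000400000001000100008000000000) := T_47 (nat_lit 106) (nat_lit 140) (nat_lit 6) (nat_lit 4) (nat_lit 8) L132195 (by decide +kernel)
theorem L132197 : W_47 (nat_lit 4) (nat_lit 0x18001e800b0000e0008000000000000000000) (nat_lit 0x0) (nat_lit 0x500000000400000003000100008000000000) := T_47 (nat_lit 73) (nat_lit 142) (nat_lit 4) (nat_lit 6) (nat_lit 8) L132196 (by decide +kernel)
theorem L132198 : W_47 (nat_lit 5) (nat_lit 0x18001e000b0000e0008000000000000000000) (nat_lit 0x0) (nat_lit 0x500018000400000003000100008000000000) := T_47 (nat_lit 123) (nat_lit 124) (nat_lit 3) (nat_lit 4) (nat_lit 7) L132197 (by decide +kernel)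
theorem L132199 : W_47 (nat_lit 6) (nat_lit 0x18001c000b0000e0008000000000000000000) (nat_lit 0x0) (nat_lit 0x500038010400000003000100008000000000) := T_47 (nat_lit 125) (nat_lit 112) (nat_lit 2) (nat_lit 6) (nat_lit 7) L132198 (by decide +kernel)
theorem L132200 : W_47 (nat_lit 7) (nat_lit 0x18000c000b0000e0008000000000000000000) (nat_lit 0x0) (nat_lit 0x500338010400000003000100008000000000) := T_47 (nat_lit 128) (nat_lit 129) (nat_lit 0) (nat_lit 10) (nat_lit 7) L132199 (by decide +kernel)
theorem L132201 : W_47 (nat_lit 8) (nat_lit 0x18000c00030000e0008000000000000000000) (nat_lit 0x0) (nat_lit 0x50033801c400000003000100008000000000) := T_47 (nat_lit 111) (nat_lit 110) (nat_lit 0) (nat_lit 9) (nat_lit 6) L132200 (by decide +kernel)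
theorem L132202 : W_47 (nat_lit 9) (nat_lit 0x18000c00030000c0008000000000000000000) (nat_lit 0x0) (nat_lit 0x50033801c400030003000100008000000000) := T_47 (nat_lit 89) (nat_lit 88) (nat_lit 3) (nat_lit 3) (nat_lit 5) L132201 (by decide +kernel)
theorem L132203 : W_47 (nat_lit 10) (nat_lit 0x18000c00030000c0000000000000000000000) (nat_lit 0x0) (nat_lit 0x50033801c40013000b000100008000000000) := T_47 (nat_lit 75) (nat_lit 92) (nat_lit 7) (nat_lit 7) (nat_lit 4) L132202 (by decide +kernel)
theorem L132204 : W_47 (nat_lit 3) (nat_lit 0x18002c00030000c0000000000000000000000) (nat_lit 0x0) (nat_lit 0x4000130008000000000000000000) := T_47 (nat_lit 92) (nat_lit 75) (nat_lit 7) (nat_lit 7) (nat_lit 4) L125868 (by decide +kernel)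
theorem L132205 : W_47 (nat_lit 4) (nat_lit 0x18000c00030000c0000000000000000000000) (nat_lit 0x0) (nat_lit 0x300004000130008000000000000000000) := T_47 (nat_lit 129) (nat_lit 128) (nat_lit 0) (nat_lit 10) (nat_lit 7) L132204 (by decide +kernel)
theorem L132206 : W_47 (nat_lit 2) (nat_lit 0x1c000c000b0001d0002000000000000000000) (nat_lit 0x0) (nat_lit 0x200011000000000000000000) := D_47 (nat_lit 93) (nat_lit 76) (nat_lit 72) (nat_lit 6) (nat_lit 7) (nat_lit 8) (nat_lit 0) (nat_lit 8) (nat_lit 5) (by decide +kernel)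
theorem L132207 : W_47 (nat_lit 3) (nat_lit 0x1c000c000b0001d0000000000000000000000) (nat_lit 0x0) (nat_lit 0x20000000200013000000000000000000) := T_47 (nat_lit 73) (nat_lit 125) (nat_lit 4) (nat_lit 6) (nat_lit 8) L132206 (by decide +kernel)
theorem L132208 : W_47 (nat_lit 4) (nat_lit 0x18000c000b0001d0000000000000000000000) (nat_lit 0x0) (nat_lit 0x8000400020000000200013000000000000000000) := T_47 (nat_lit 142) (nat_lit 159) (nat_lit 5) (nat_lit 7) (nat_lit 5) L132207 (by decide +kernel)
theorem L132209 : W_47 (nat_lit 5) (nat_lit 0x18000c00030001d0000000000000000000000) (nat_lit 0x0) (nat_lit 0x800040002000c000200013000000000000000000) := T_47 (nat_lit 111) (nat_lit 110) (nat_lit 0) (nat_lit 9) (nat_lit 6) L132208 (by decide +kernel)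
theorem L132210 : W_47 (nat_lit 6) (nat_lit 0x18000c00030000d0000000000000000000000) (nat_lit 0x0) (nat_lit 0x800040002000c00030001b000000000000000000) := T_47 (nat_lit 92) (nat_lit 75) (nat_lit 7) (nat_lit 7) (nat_lit 4) L132209 (by decide +kernel)
theorem L132211 : W_47 (nat_lit 7) (nat_lit 0x18000c00030000c0000000000000000000000) (nat_lit 0x0) (nat_lit 0x800040002000c00033001b000000000000000000) := T_47 (nat_lit 88) (nat_lit 89) (nat_lit 3) (nat_lit 3) (nat_lit 5) L132210 (by decide +kernel)
theorem L132212 : W_47 (nat_lit 2) (nat_lit 0x18001e800b4000e0002000000000000000000) (nat_lit 0x0) (nat_lit 0x1000100008000000000) := D_47 (nat_lit 56) (nat_lit 39) (nat_lit 72) (nat_lit 7) (nat_lit 5) (nat_lit 2) (nat_lit 6) (nat_lit 4) (nat_lit 7) (by decide +kernel)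
theorem L132213 : W_47 (nat_lit 3) (nat_lit 0x18001e800b0000e0002000000000000000000) (nat_lit 0x0) (nat_lit 0x100000000400000001000100008000000000) := T_47 (nat_lit 106) (nat_lit 140) (nat_lit 6) (nat_lit 4) (nat_lit 8) L132212 (by decide +kernel)
theorem L132214 : W_47 (nat_lit 4) (nat_lit 0x18001e800b0000e0000000000000000000000) (nat_lit 0x0) (nat_lit 0x500000000400000003000100008000000000) := T_47 (nat_lit 73) (nat_lit 142) (nat_lit 4) (nat_lit 6) (nat_lit 8) L132213 (by decide +kernel)
theorem L132215 : W_47 (nat_lit 5) (nat_lit 0x18001e000b0000e0000000000000000000000) (nat_lit 0x0) (nat_lit 0x500018000400000003000100008000000000) := T_47 (nat_lit 123) (nat_lit 124) (nat_lit 3) (nat_lit 4) (nat_lit 7) L132214 (by decide +kernel)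
theorem L132216 : W_47 (nat_lit 6) (nat_lit 0x18001c000b0000e0000000000000000000000) (nat_lit 0x0) (nat_lit 0x500038010400000003000100008000000000) := T_47 (nat_lit 125) (nat_lit 112) (nat_lit 2) (nat_lit 6) (nat_lit 7) L132215 (by decide +kernel)
theorem L132217 : W_47 (nat_lit 7) (nat_lit 0x18000c000b0000e0000000000000000000000) (nat_lit 0x0) (nat_lit 0x500338010400000003000100008000000000) := T_47 (nat_lit 128) (nat_lit 129) (nat_lit 0) (nat_lit 10) (nat_lit 7) L132216 (by decide +kernel)
theorem L132218 : W_47 (nat_lit 8) (nat_lit 0x18000c000b0000c0000000000000000000000) (nat_lit 0x0) (nat_lit 0x500338010400030003000100008000000000) := T_47 (nat_lit 89) (nat_lit 88) (nat_lit 3) (nat_lit 3) (nat_lit 5) L132217 (by decide +kernel)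
theorem L132219 : W_47 (nat_lit 9) (nat_lit 0x18000c00030000c0000000000000000000000) (nat_lit 0x0) (nat_lit 0x50033801c400030003000100008000000000) := T_47 (nat_lit 111) (nat_lit 110) (nat_lit 0) (nat_lit 9) (nat_lit 6) L132218 (by decide +kernel)
theorem L132220 : W_47 (nat_lit 2) (nat_lit 0x1c002c00030001d0002000000000000000000) (nat_lit 0x0) (nat_lit 0x200011000000000000000000) := D_47 (nat_lit 93) (nat_lit 76) (nat_lit 72) (nat_lit 6) (nat_lit 7) (nat_lit 8) (nat_lit 0) (nat_lit 8) (nat_lit 5) (by decide +kernel)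
theorem L132221 : W_47 (nat_lit 3) (nat_lit 0x1c002c00030001d0000000000000000000000) (nat_lit 0x0) (nat_lit 0x20000000200013000000000000000000) := T_47 (nat_lit 73) (nat_lit 125) (nat_lit 4) (nat_lit 6) (nat_lit 8) L132220 (by decide +kernel)
theorem L132222 : W_47 (nat_lit 4) (nat_lit 0x18002c00030001d0000000000000000000000) (nat_lit 0x0) (nat_lit 0x8000400020000000200013000000000000000000) := T_47 (nat_lit 142) (nat_lit 159) (nat_lit 5) (nat_lit 7) (nat_lit 5) L132221 (by decide +kernel)
theorem L132223 : W_47 (nat_lit 5) (nat_lit 0x18002c00030001c0000000000000000000000) (nat_lit 0x0) (nat_lit 0x8000400020000000230013000000000000000000) := T_47 (nat_lit 88) (nat_lit 89) (nat_lit 3) (nat_lit 3) (nat_lit 5) L132222 (by decide +kernel)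
theorem L132224 : W_47 (nat_lit 6) (nat_lit 0x18002c00030000c0000000000000000000000) (nat_lit 0x0) (nat_lit 0x800040002000000033001b000000000000000000) := T_47 (nat_lit 92) (nat_lit 75) (nat_lit 7) (nat_lit 7) (nat_lit 4) L132223 (by decide +kernel)
theorem L132225 : W_47 (nat_lit 7) (nat_lit 0x18000c00030000c0000000000000000000000) (nat_lit 0x0) (nat_lit 0x800040032000000033001b000000000000000000) := T_47 (nat_lit 129) (nat_lit 128) (nat_lit 0) (nat_lit 10) (nat_lit 7) L132224 (by decide +kernel)
theorem L132226 : W_47 (nat_lit 2) (nat_lit 0x18002c000b0003c0002000000000000000000) (nat_lit 0x0) (nat_lit 0x8000400020000000000000000000000000000000) := D_47 (nat_lit 142) (nat_lit 159) (nat_lit 125) (nat_lit 5) (nat_lit 7) (nat_lit 5) (nat_lit 4) (nat_lit 6) (nat_lit 8) (by decide +kernel)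
theorem L132227 : W_47 (nat_lit 3) (nat_lit 0x18002c000b0003c0000000000000000000000) (nat_lit 0x0) (nat_lit 0x8000400020000000000003000000000000000000) := T_47 (nat_lit 73) (nat_lit 72) (nat_lit 0) (nat_lit 8) (nat_lit 5) L132226 (by decide +kernel)
theorem L132228 : W_47 (nat_lit 4) (nat_lit 0x18002c000b0001c0000000000000000000000) (nat_lit 0x0) (nat_lit 0x8000400020000000200013000000000000000000) := T_47 (nat_lit 93) (nat_lit 76) (nat_lit 6) (nat_lit 7) (nat_lit 8) L132227 (by decide +kernel)
theorem L132229 : W_47 (nat_lit 5) (nat_lit 0x18002c000b0000c0000000000000000000000) (nat_lit 0x0) (nat_lit 0x800040002000000030001b000000000000000000) := T_47 (nat_lit 92) (nat_lit 75) (nat_lit 7) (nat_lit 7) (nat_lit 4) L132228 (by decide +kernel)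
theorem L132230 : W_47 (nat_lit 6) (nat_lit 0x18000c000b0000c0000000000000000000000) (nat_lit 0x0) (nat_lit 0x800040032000000030001b000000000000000000) := T_47 (nat_lit 129) (nat_lit 128) (nat_lit 0) (nat_lit 10) (nat_lit 7) L132229 (by decide +kernel)
theorem L132231 : W_47 (nat_lit 7) (nat_lit 0x18000c00030000c0000000000000000000000) (nat_lit 0x0) (nat_lit 0x800040032000c00030001b000000000000000000) := T_47 (nat_lit 111) (nat_lit 110) (nat_lit 0) (nat_lit 9) (nat_lit 6) L132230 (by decide +kernel)
theorem L132232 : W_47 (nat_lit 11) (nat_lit 0x18000c0003000080000000000000000000000) (nat_lit 0x0) (nat_lit 0x800050033801c40037001b000100008000000000) := Q_47 (nat_lit 90) (C_47 L132203 (C_47 L132205 (C_47 L132211 (C_47 L132219 (C_47 L132225 (C_47 L132231 N_47)))))) (by decide +kernel)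
theorem L132233 : W_47 (nat_lit 12) (nat_lit 0x18000c0003000000000000000000000000000) (nat_lit 0x0) (nat_lit 0x800050033801c4003f001f000300008000000000) := Q_47 (nat_lit 91) (C_47 L123240 (C_47 L125670 (C_47 L132232 N_47))) (by decide +kernel)
theorem L132234 : W_47 (nat_lit 13) (nat_lit 0x10000c0003000000000000000000000000000) (nat_lit 0x0) (nat_lit 0x4000200018000d0033801c4003f001f000300008000000000) := Q_47 (nat_lit 143) (C_47 L125561 (C_47 L126562 (C_47 L132233 (C_47 L123253 N_47)))) (by decide +kernel)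
theorem L132235 : W_47 (nat_lit 2) (nat_lit 0x10001c000c0003400300000000000000000000000) (nat_lit 0x0) (nat_lit 0x4000200000000000020000000000000000000000000000000) := D_47 (nat_lit 177) (nat_lit 125) (nat_lit 194) (nat_lit 4) (nat_lit 7) (nat_lit 10) (nat_lit 6) (nat_lit 7) (nat_lit 11) (by decide +kernel)
theorem L132236 : W_47 (nat_lit 3) (nat_lit 0x1c000c0003400300000000000000000000000) (nat_lit 0x0) (nat_lit 0x4000200010000000020004000000000000000000000000000) := T_47 (nat_lit 160) (nat_lit 110) (nat_lit 6) (nat_lit 7) (nat_lit 9) L132235 (by decide +kernel)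
theorem L132237 : W_47 (nat_lit 4) (nat_lit 0x1c000c0003400100000000000000000000000) (nat_lit 0x0) (nat_lit 0x4000200010000000020004000200010000000000000000000) := T_47 (nat_lit 93) (nat_lit 76) (nat_lit 6) (nat_lit 7) (nat_lit 8) L132236 (by decide +kernel)
theorem L132238 : W_47 (nat_lit 5) (nat_lit 0x18000c0003400100000000000000000000000) (nat_lit 0x0) (nat_lit 0x4000200018000400020004000200010000000000000000000) := T_47 (nat_lit 142) (nat_lit 159) (nat_lit 5) (nat_lit 7) (nat_lit 5) L132237 (by decide +kernel)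
theorem L132239 : W_47 (nat_lit 6) (nat_lit 0x18000c0003000100000000000000000000000) (nat_lit 0x0) (nat_lit 0x4000200018000400020004c00200010000000000000000000) := T_47 (nat_lit 106) (nat_lit 107) (nat_lit 3) (nat_lit 4) (nat_lit 6) L132238 (by decide +kernel)
theorem L132240 : W_47 (nat_lit 7) (nat_lit 0x18000c0003000000000000000000000000000) (nat_lit 0x0) (nat_lit 0x4000200018000400020004c00300018000000000000000000) := T_47 (nat_lit 92) (nat_lit 75) (nat_lit 7) (nat_lit 7) (nat_lit 4) L132239 (by decide +kernel)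
theorem L132241 : W_47 (nat_lit 2) (nat_lit 0x18000c000f400080010000000000000000000) (nat_lit 0x0) (nat_lit 0x10000100008000000000000000000) := D_47 (nat_lit 92) (nat_lit 75) (nat_lit 112) (nat_lit 7) (nat_lit 7) (nat_lit 4) (nat_lit 0) (nat_lit 10) (nat_lit 6) (by decide +kernel)
theorem L132242 : W_47 (nat_lit 3) (nat_lit 0x18000c0007400080010000000000000000000) (nat_lit 0x0) (nat_lit 0x18000140008000000000000000000) := T_47 (nat_lit 111) (nat_lit 90) (nat_lit 0) (nat_lit 9) (nat_lit 6) L132241 (by decide +kernel)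
theorem L132243 : W_47 (nat_lit 4) (nat_lit 0x18000c0007400080000000000000000000000) (nat_lit 0x0) (nat_lit 0x18000340018000000000000000000) := T_47 (nat_lit 76) (nat_lit 93) (nat_lit 5) (nat_lit 8) (nat_lit 4) L132242 (by decide +kernel)
theorem L132244 : W_47 (nat_lit 5) (nat_lit 0x18000c0007000080000000000000000000000) (nat_lit 0x0) (nat_lit 0x18c00340018000000000000000000) := T_47 (nat_lit 106) (nat_lit 107) (nat_lit 3) (nat_lit 4) (nat_lit 6) L132243 (by decide +kernel)
theorem L132245 : W_47 (nat_lit 2) (nat_lit 0x1c000d00078001c0012000100000000000000) (nat_lit 0x0) (nat_lit 0x1000080004000000000) := D_47 (nat_lit 55) (nat_lit 38) (nat_lit 72) (nat_lit 4) (nat_lit 5) (nat_lit 6) (nat_lit 4) (nat_lit 5) (nat_lit 7) (by decide +kernel)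
theorem L132246 : W_47 (nat_lit 3) (nat_lit 0x1c000c00078001c0012000100000000000000) (nat_lit 0x0) (nat_lit 0x18000000000001000080004000000000) := T_47 (nat_lit 124) (nat_lit 123) (nat_lit 1) (nat_lit 8) (nat_lit 6) L132245 (by decide +kernel)
theorem L132247 : W_47 (nat_lit 4) (nat_lit 0x1c000c00078001c0012000000000000000000) (nat_lit 0x0) (nat_lit 0x1800000000000100018000c000000000) := T_47 (nat_lit 56) (nat_lit 39) (nat_lit 7) (nat_lit 5) (nat_lit 2) L132246 (by decide +kernel)
theorem L132248 : W_47 (nat_lit 5) (nat_lit 0x1c000c00070001c0012000000000000000000) (nat_lit 0x0) (nat_lit 0x18000c0000000100018000c000000000) := T_47 (nat_lit 107) (nat_lit 106) (nat_lit 3) (nat_lit 4) (nat_lit 6) L132247 (by decide +kernel)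
theorem L132249 : W_47 (nat_lit 6) (nat_lit 0x1c000c00070001c0010000000000000000000) (nat_lit 0x0) (nat_lit 0x38000c0000000300018000c000000000) := T_47 (nat_lit 73) (nat_lit 125) (nat_lit 4) (nat_lit 6) (nat_lit 8) L132248 (by decide +kernel)
theorem L132250 : W_47 (nat_lit 7) (nat_lit 0x18000c00070001c0010000000000000000000) (nat_lit 0x0) (nat_lit 0x8000400038000c0000000300018000c000000000) := T_47 (nat_lit 142) (nat_lit 159) (nat_lit 5) (nat_lit 7) (nat_lit 5) L132249 (by decide +kernel)
theorem L132251 : W_47 (nat_lit 8) (nat_lit 0x18000c0007000180010000000000000000000) (nat_lit 0x0) (nat_lit 0x8000400038000c0006000300018000c000000000) := T_47 (nat_lit 90) (nat_lit 89) (nat_lit 3) (nat_lit 4) (nat_lit 5) L132250 (by decide +kernel)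
theorem L132252 : W_47 (nat_lit 9) (nat_lit 0x18000c0007000180000000000000000000000) (nat_lit 0x0) (nat_lit 0x8000400038000c0026001300018000c000000000) := T_47 (nat_lit 76) (nat_lit 93) (nat_lit 6) (nat_lit 7) (nat_lit 8) L132251 (by decide +kernel)
theorem L132253 : W_47 (nat_lit 10) (nat_lit 0x18000c0007000080000000000000000000000) (nat_lit 0x0) (nat_lit 0x8000400038000c0036001b00018000c000000000) := T_47 (nat_lit 92) (nat_lit 75) (nat_lit 7) (nat_lit 7) (nat_lit 4) L132252 (by decide +kernel)
theorem L132254 : W_47 (nat_lit 2) (nat_lit 0x18000c000f000080000000000000000000000) (nat_lit 0x0) (nat_lit 0x10000100008000000000000000000) := D_47 (nat_lit 92) (nat_lit 75) (nat_lit 112) (nat_lit 7) (nat_lit 7) (nat_lit 4) (nat_lit 0) (nat_lit 10) (nat_lit 6) (by decide +kernel)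
theorem L132255 : W_47 (nat_lit 3) (nat_lit 0x18000c0007000080000000000000000000000) (nat_lit 0x0) (nat_lit 0x18000140008000000000000000000) := T_47 (nat_lit 111) (nat_lit 90) (nat_lit 0) (nat_lit 9) (nat_lit 6) L132254 (by decide +kernel)
theorem L132256 : W_47 (nat_lit 2) (nat_lit 0x18000c000f000080010000000000000000000) (nat_lit 0x0) (nat_lit 0x30010000000000000000000000000000) := D_47 (nat_lit 125) (nat_lit 124) (nat_lit 112) (nat_lit 2) (nat_lit 5) (nat_lit 7) (nat_lit 1) (nat_lit 10) (nat_lit 6) (by decide +kernel)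
theorem L132257 : W_47 (nat_lit 3) (nat_lit 0x18000c0007000080010000000000000000000) (nat_lit 0x0) (nat_lit 0x30018000040000000000000000000000) := T_47 (nat_lit 111) (nat_lit 90) (nat_lit 0) (nat_lit 9) (nat_lit 6) L132256 (by decide +kernel)
theorem L132258 : W_47 (nat_lit 4) (nat_lit 0x18000c0007000080000000000000000000000) (nat_lit 0x0) (nat_lit 0x30018000240010000000000000000000) := T_47 (nat_lit 76) (nat_lit 93) (nat_lit 5) (nat_lit 8) (nat_lit 4) L132257 (by decide +kernel)
theorem L132259 : W_47 (nat_lit 2) (nat_lit 0x18000d0007800180010000000000000000000) (nat_lit 0x0) (nat_lit 0x20018000000000000000000000000000) := D_47 (nat_lit 111) (nat_lit 125) (nat_lit 112) (nat_lit 2) (nat_lit 5) (nat_lit 7) (nat_lit 0) (nat_lit 10) (nat_lit 6) (by decide +kernel)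
theorem L132260 : W_47 (nat_lit 3) (nat_lit 0x18000d0007800080010000000000000000000) (nat_lit 0x0) (nat_lit 0x20018000100008000000000000000000) := T_47 (nat_lit 92) (nat_lit 75) (nat_lit 7) (nat_lit 7) (nat_lit 4) L132259 (by decide +kernel)
theorem L132261 : W_47 (nat_lit 4) (nat_lit 0x18000c0007800080010000000000000000000) (nat_lit 0x0) (nat_lit 0x38018000100008000000000000000000) := T_47 (nat_lit 124) (nat_lit 123) (nat_lit 1) (nat_lit 8) (nat_lit 6) L132260 (by decide +kernel)
theorem L132262 : W_47 (nat_lit 5) (nat_lit 0x18000c0007800080000000000000000000000) (nat_lit 0x0) (nat_lit 0x38018000300018000000000000000000) := T_47 (nat_lit 76) (nat_lit 93) (nat_lit 5) (nat_lit 8) (nat_lit 4) L132261 (by decide +kernel)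
theorem L132263 : W_47 (nat_lit 6) (nat_lit 0x18000c0007000080000000000000000000000) (nat_lit 0x0) (nat_lit 0x38018c00300018000000000000000000) := T_47 (nat_lit 107) (nat_lit 106) (nat_lit 3) (nat_lit 4) (nat_lit 6) L132262 (by decide +kernel)
theorem L132264 : W_47 (nat_lit 11) (nat_lit 0x18000c0003000080000000000000000000000) (nat_lit 0x0) (nat_lit 0x800040003801cc0036001b00018000c000000000) := Q_47 (nat_lit 110) (C_47 L132244 (C_47 L132253 (C_47 L132255 (C_47 L132258 (C_47 L132263 N_47))))) (by decide +kernel)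
theorem L132265 : W_47 (nat_lit 12) (nat_lit 0x18000c0003000000000000000000000000000) (nat_lit 0x0) (nat_lit 0x800040003801cc003e001f00038000c000000000) := Q_47 (nat_lit 91) (C_47 L123240 (C_47 L125670 (C_47 L132264 N_47))) (by decide +kernel)
theorem L132266 : W_47 (nat_lit 13) (nat_lit 0x10000c0003000000000000000000000000000) (nat_lit 0x0) (nat_lit 0x4000200018000c0003801cc003e001f00038000c000000000) := Q_47 (nat_lit 143) (C_47 L125561 (C_47 L132240 (C_47 L132265 (C_47 L123241 N_47)))) (by decide +kernel)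
theorem L132267 : W_47 (nat_lit 2) (nat_lit 0x10001c0003000000008000000000000000000) (nat_lit 0x0) (nat_lit 0x20004800000000000000000000000000) := D_47 (nat_lit 107) (nat_lit 125) (nat_lit 110) (nat_lit 0) (nat_lit 9) (nat_lit 7) (nat_lit 3) (nat_lit 5) (nat_lit 6) (by decide +kernel)
theorem L132268 : W_47 (nat_lit 3) (nat_lit 0x10000c0003000000008000000000000000000) (nat_lit 0x0) (nat_lit 0x320004800000000000000000000000000) := T_47 (nat_lit 128) (nat_lit 129) (nat_lit 0) (nat_lit 10) (nat_lit 7) L132267 (by decide +kernel)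
theorem L132269 : W_47 (nat_lit 4) (nat_lit 0x10000c0003000000000000000000000000000) (nat_lit 0x0) (nat_lit 0x320004800100008000000000000000000) := T_47 (nat_lit 75) (nat_lit 92) (nat_lit 7) (nat_lit 7) (nat_lit 4) L132268 (by decide +kernel)
theorem L132270 : W_47 (nat_lit 14) (nat_lit 0x10000c0002000000000000000000000000000) (nat_lit 0x0) (nat_lit 0x4000200018000d0033801dc003f001f00038000c000000000) := Q_47 (nat_lit 108) (C_47 L125574 (C_47 L132234 (C_47 L123227 (C_47 L132266 (C_47 L132269 N_47))))) (by decide +kernel)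
theorem L132271 : W_47 (nat_lit 2) (nat_lit 0x180018002c0003000b00000000000000000000000) (nat_lit 0x0) (nat_lit 0x4000200000000000020000000000000000000000000000000) := D_47 (nat_lit 177) (nat_lit 125) (nat_lit 194) (nat_lit 4) (nat_lit 7) (nat_lit 10) (nat_lit 6) (nat_lit 7) (nat_lit 11) (by decide +kernel)
theorem L132272 : W_47 (nat_lit 3) (nat_lit 0x80018002c0003000b00000000000000000000000) (nat_lit 0x0) (nat_lit 0x4000300010000000020000000000000000000000000000000) := T_47 (nat_lit 160) (nat_lit 176) (nat_lit 5) (nat_lit 7) (nat_lit 6) L132271 (by decide +kernel)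
theorem L132273 : W_47 (nat_lit 4) (nat_lit 0x80018002c0003000300000000000000000000000) (nat_lit 0x0) (nat_lit 0x4000300010000000020000000c00000000000000000000000) := T_47 (nat_lit 95) (nat_lit 94) (nat_lit 1) (nat_lit 10) (nat_lit 5) L132272 (by decide +kernel)
theorem L132274 : W_47 (nat_lit 5) (nat_lit 0x80018002c0003000100000000000000000000000) (nat_lit 0x0) (nat_lit 0x4000300010000000020000000e00010000000000000000000) := T_47 (nat_lit 93) (nat_lit 76) (nat_lit 6) (nat_lit 7) (nat_lit 8) L132273 (by decide +kernel)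
theorem L132275 : W_47 (nat_lit 6) (nat_lit 0x18002c0003000100000000000000000000000) (nat_lit 0x0) (nat_lit 0x4000300018000400020000000e00010000000000000000000) := T_47 (nat_lit 159) (nat_lit 142) (nat_lit 5) (nat_lit 7) (nat_lit 5) L132274 (by decide +kernel)
theorem L132276 : W_47 (nat_lit 7) (nat_lit 0x18000c0003000100000000000000000000000) (nat_lit 0x0) (nat_lit 0x4000300018000400320000000e00010000000000000000000) := T_47 (nat_lit 129) (nat_lit 128) (nat_lit 0) (nat_lit 10) (nat_lit 7) L132275 (by decide +kernel)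
theorem L132277 : W_47 (nat_lit 8) (nat_lit 0x18000c0003000000000000000000000000000) (nat_lit 0x0) (nat_lit 0x4000300018000400320000000f00018000000000000000000) := T_47 (nat_lit 92) (nat_lit 75) (nat_lit 7) (nat_lit 7) (nat_lit 4) L132276 (by decide +kernel)
theorem L132278 : W_47 (nat_lit 2) (nat_lit 0x1c001c0003000700020000000000000000000) (nat_lit 0x0) (nat_lit 0x80044000000000000000000) := D_47 (nat_lit 91) (nat_lit 78) (nat_lit 74) (nat_lit 2) (nat_lit 6) (nat_lit 5) (nat_lit 4) (nat_lit 7) (nat_lit 8) (by decide +kernel)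
theorem L132279 : W_47 (nat_lit 3) (nat_lit 0x1c001c0003000700000000000000000000000) (nat_lit 0x0) (nat_lit 0x8000080064000000000000000000) := T_47 (nat_lit 77) (nat_lit 111) (nat_lit 5) (nat_lit 9) (nat_lit 4) L132278 (by decide +kernel)
theorem L132280 : W_47 (nat_lit 4) (nat_lit 0x18001c0003000700000000000000000000000) (nat_lit 0x0) (nat_lit 0x8000400000008000080064000000000000000000) := T_47 (nat_lit 142) (nat_lit 159) (nat_lit 5) (nat_lit 7) (nat_lit 5) L132279 (by decide +kernel)
theorem L132281 : W_47 (nat_lit 5) (nat_lit 0x18001c0003000300000000000000000000000) (nat_lit 0x0) (nat_lit 0x8000400000008000c80064000000000000000000) := T_47 (nat_lit 94) (nat_lit 95) (nat_lit 1) (nat_lit 10) (nat_lit 5) L132280 (by decide +kernel)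
theorem L132282 : W_47 (nat_lit 6) (nat_lit 0x18001c0003000100000000000000000000000) (nat_lit 0x0) (nat_lit 0x8000400000008000e80074000000000000000000) := T_47 (nat_lit 93) (nat_lit 76) (nat_lit 6) (nat_lit 7) (nat_lit 8) L132281 (by decide +kernel)
theorem L132283 : W_47 (nat_lit 7) (nat_lit 0x18001c0003000000000000000000000000000) (nat_lit 0x0) (nat_lit 0x8000400000008000f8007c000000000000000000) := T_47 (nat_lit 92) (nat_lit 75) (nat_lit 7) (nat_lit 7) (nat_lit 4) L132282 (by decide +kernel)
theorem L132284 : W_47 (nat_lit 8) (nat_lit 0x18000c0003000000000000000000000000000) (nat_lit 0x0) (nat_lit 0x8000400300008000f8007c000000000000000000) := T_47 (nat_lit 128) (nat_lit 129) (nat_lit 0) (nat_lit 10) (nat_lit 7) L132283 (by decide +kernel)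
theorem L132285 : W_47 (nat_lit 9) (nat_lit 0x10000c0003000000000000000000000000000) (nat_lit 0x0) (nat_lit 0x4000300018000c00320008000f8007c000000000000000000) := Q_47 (nat_lit 143) (C_47 L132277 (C_47 L132284 (C_47 L125561 N_47))) (by decide +kernel)
theorem L132286 : W_47 (nat_lit 2) (nat_lit 0x10000e00034000c000e000000000000000000) (nat_lit 0x0) (nat_lit 0x30010000000000000000000) := D_47 (nat_lit 89) (nat_lit 88) (nat_lit 76) (nat_lit 3) (nat_lit 3) (nat_lit 5) (nat_lit 1) (nat_lit 8) (nat_lit 4) (by decide +kernel)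
theorem L132287 : W_47 (nat_lit 3) (nat_lit 0x10000e000340008000e000000000000000000) (nat_lit 0x0) (nat_lit 0x400000000000070010000000000000000000) := T_47 (nat_lit 90) (nat_lit 142) (nat_lit 4) (nat_lit 6) (nat_lit 8) L132286 (by decide +kernel)
theorem L132288 : W_47 (nat_lit 4) (nat_lit 0x10000e000340008000c000000000000000000) (nat_lit 0x0) (nat_lit 0x400000000000070012000100000000000000) := T_47 (nat_lit 73) (nat_lit 56) (nat_lit 4) (nat_lit 6) (nat_lit 7) L132287 (by decide +kernel)
theorem L132289 : W_47 (nat_lit 5) (nat_lit 0x10000c000340008000c000000000000000000) (nat_lit 0x0) (nat_lit 0x400020000000070012000500000000000000) := T_47 (nat_lit 125) (nat_lit 58) (nat_lit 6) (nat_lit 6) (nat_lit 7) L132288 (by decide +kernel)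
theorem L132290 : W_47 (nat_lit 6) (nat_lit 0x10000c000300008000c000000000000000000) (nat_lit 0x0) (nat_lit 0x400020000c00070012000500000000000000) := T_47 (nat_lit 106) (nat_lit 107) (nat_lit 3) (nat_lit 4) (nat_lit 6) L132289 (by decide +kernel)
theorem L132291 : W_47 (nat_lit 7) (nat_lit 0x10000c0003000080008000000000000000000) (nat_lit 0x0) (nat_lit 0x400020000c00070016000700000000000000) := T_47 (nat_lit 74) (nat_lit 57) (nat_lit 7) (nat_lit 6) (nat_lit 3) L132290 (by decide +kernel)
theorem L132292 : W_47 (nat_lit 8) (nat_lit 0x10000c0003000080000000000000000000000) (nat_lit 0x0) (nat_lit 0x400020000c0017001e000700000000000000) := T_47 (nat_lit 75) (nat_lit 92) (nat_lit 7) (nat_lit 7) (nat_lit 4) L132291 (by decide +kernel)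
theorem L132293 : W_47 (nat_lit 9) (nat_lit 0x10000c0003000000000000000000000000000) (nat_lit 0x0) (nat_lit 0x10000c00020000c007f001e000700000000000000) := Q_47 (nat_lit 91) (C_47 L126515 (C_47 L123206 (C_47 L125671 (C_47 L132292 N_47)))) (by decide +kernel)
theorem L132294 : W_47 (nat_lit 13) (nat_lit 0x10000c0002000000000000000000000000000) (nat_lit 0x0) (nat_lit 0x4000300018000c00320009e00ff007f800700018000000000) := Q_47 (nat_lit 108) (C_47 L125574 (C_47 L132285 (C_47 L126511 (C_47 L132293 N_47)))) (by decide +kernel)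
theorem L132295 : W_47 (nat_lit 7) (nat_lit 0x10001c0002000000000000000000000000000) (nat_lit 0x0) (nat_lit 0x9c003c01df00f00028000000000000000000) := Q_47 (nat_lit 125) (C_47 L132185 (C_47 L132192 (C_47 L126005 (C_47 L126548 (C_47 L132187 N_47))))) (by decide +kernel)
theorem L132296 : W_47 (nat_lit 8) (nat_lit 0x10000c0002000000000000000000000000000) (nat_lit 0x0) (nat_lit 0x8001c9c073c03df00f00028000000000000000000) := Q_47 (nat_lit 128) (C_47 L125861 (C_47 L126018 (C_47 L132295 (C_47 L126017 N_47)))) (by decide +kernel)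
theorem L132297 : W_47 (nat_lit 18) (nat_lit 0x10000c0000000000000000000000000000000) (nat_lit 0x0) (nat_lit 0x56003f001d807cdc3f3c1fff0fff07ff83ff803dc018000000) := Q_47 (nat_lit 109) (C_47 L132194 (C_47 L123195 (C_47 L128382 (C_47 L125131 (C_47 L132270 (C_47 L126468 (C_47 L132294 (C_47 L132296 N_47)))))))) (by decide +kernel)
theorem L132298 : W_47 (nat_lit 2) (nat_lit 0x2001e0014801e000b000000020000000000000000000) (nat_lit 0x0) (nat_lit 0x10001000040000000000000000000000000000000000) := D_47 (nat_lit 156) (nat_lit 172) (nat_lit 138) (nat_lit 1) (nat_lit 6) (nat_lit 9) (nat_lit 0) (nat_lit 6) (nat_lit 9) (by decide +kernel)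
theorem L132299 : W_47 (nat_lit 3) (nat_lit 0x2001e0014001e000b000000020000000000000000000) (nat_lit 0x0) (nat_lit 0x100010001c0000000000000000000000000000000000) := T_47 (nat_lit 139) (nat_lit 140) (nat_lit 0) (nat_lit 7) (nat_lit 9) L132298 (by decide +kernel)
theorem L132300 : W_47 (nat_lit 4) (nat_lit 0x1e0014001e000b000000020000000000000000000) (nat_lit 0x0) (nat_lit 0x700010001c0000000000000000000000000000000000) := T_47 (nat_lit 173) (nat_lit 174) (nat_lit 1) (nat_lit 7) (nat_lit 9) L132299 (by decide +kernel)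
theorem L132301 : W_47 (nat_lit 5) (nat_lit 0x1c0014001e000b000000020000000000000000000) (nat_lit 0x0) (nat_lit 0x700030009c0000000000000000000000000000000000) := T_47 (nat_lit 157) (nat_lit 143) (nat_lit 2) (nat_lit 4) (nat_lit 9) L132300 (by decide +kernel)
theorem L132302 : W_47 (nat_lit 6) (nat_lit 0xc0014001e000b000000020000000000000000000) (nat_lit 0x0) (nat_lit 0x2700130009c0000000000000000000000000000000000) := T_47 (nat_lit 160) (nat_lit 177) (nat_lit 7) (nat_lit 6) (nat_lit 6) L132301 (by decide +kernel)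
theorem L132303 : W_47 (nat_lit 7) (nat_lit 0x80014001e000b000000020000000000000000000) (nat_lit 0x0) (nat_lit 0x2f00170009c0000000000000000000000000000000000) := T_47 (nat_lit 158) (nat_lit 175) (nat_lit 5) (nat_lit 6) (nat_lit 6) L132302 (by decide +kernel)
theorem L132304 : W_47 (nat_lit 8) (nat_lit 0x14001e000b000000020000000000000000000) (nat_lit 0x0) (nat_lit 0x3f001f0009c0000000000000000000000000000000000) := T_47 (nat_lit 159) (nat_lit 176) (nat_lit 6) (nat_lit 6) (nat_lit 10) L132303 (by decide +kernel)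
theorem L132305 : W_47 (nat_lit 9) (nat_lit 0x14001e000a000000020000000000000000000) (nat_lit 0x0) (nat_lit 0x3f001f0009c0000001800000000000000000000000000) := T_47 (nat_lit 108) (nat_lit 107) (nat_lit 0) (nat_lit 9) (nat_lit 7) L132304 (by decide +kernel)
theorem L132306 : W_47 (nat_lit 10) (nat_lit 0x10001e000a000000020000000000000000000) (nat_lit 0x0) (nat_lit 0x3f001f000fc0000001800000000000000000000000000) := T_47 (nat_lit 142) (nat_lit 141) (nat_lit 1) (nat_lit 9) (nat_lit 7) L132305 (by decide +kernel)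
theorem L132307 : W_47 (nat_lit 11) (nat_lit 0x10001e000a000000000000000000000000000) (nat_lit 0x0) (nat_lit 0x3f001f000fc0000001800400020000000000000000000) := T_47 (nat_lit 77) (nat_lit 94) (nat_lit 5) (nat_lit 9) (nat_lit 4) L132306 (by decide +kernel)
theorem L132308 : W_47 (nat_lit 12) (nat_lit 0x10001e0002000000000000000000000000000) (nat_lit 0x0) (nat_lit 0x3f001f000fc0000019800400020000000000000000000) := T_47 (nat_lit 111) (nat_lit 112) (nat_lit 2) (nat_lit 6) (nat_lit 7) L132307 (by decide +kernel)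
theorem L132309 : W_47 (nat_lit 13) (nat_lit 0x10001e0000000000000000000000000000000) (nat_lit 0x0) (nat_lit 0x3f001f000fc000001f800f00028000000000000000000) := Q_47 (nat_lit 109) (C_47 L130105 (C_47 L126548 (C_47 L132308 (C_47 L122118 N_47)))) (by decide +kernel)
theorem L132310 : W_47 (nat_lit 14) (nat_lit 0x10001c0000000000000000000000000000000) (nat_lit 0x0) (nat_lit 0x3f001f000fc003c01ff00f00038000000000000000000) := Q_47 (nat_lit 125) (C_47 L124424 (C_47 L130164 (C_47 L130125 (C_47 L132309 (C_47 L130111 (C_47 L124441 N_47)))))) (by decide +kernel)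
theorem L132311 : W_47 (nat_lit 15) (nat_lit 0x10000c0000000000000000000000000000000) (nat_lit 0x0) (nat_lit 0x60013f009f01cfc073c07ff00f00038000000000000000000) := Q_47 (nat_lit 128) (C_47 L124399 (C_47 L123692 (C_47 L123037 (C_47 L132310 (C_47 L123016 (C_47 L123023 N_47)))))) (by decide +kernel)
theorem L132312 : W_47 (nat_lit 2) (nat_lit 0x12001fc002000000000000000000000000000) (nat_lit 0x0) (nat_lit 0x700000000000000000000000000) := D_47 (nat_lit 105) (nat_lit 106) (nat_lit 104) (nat_lit 0) (nat_lit 7) (nat_lit 7) (nat_lit 0) (nat_lit 6) (nat_lit 7) (by decide +kernel)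
theorem L132313 : W_47 (nat_lit 3) (nat_lit 0x12001f8002000000000000000000000000000) (nat_lit 0x0) (nat_lit 0x4001700000000000000000000000000) := T_47 (nat_lit 122) (nat_lit 108) (nat_lit 2) (nat_lit 3) (nat_lit 7) L132312 (by decide +kernel)
theorem L132314 : W_47 (nat_lit 4) (nat_lit 0x12001f8000000000000000000000000000000) (nat_lit 0x0) (nat_lit 0x4007700000000000000000000000000) := T_47 (nat_lit 109) (nat_lit 110) (nat_lit 2) (nat_lit 4) (nat_lit 7) L132313 (by decide +kernel)
theorem L132315 : W_47 (nat_lit 5) (nat_lit 0x12001f0000000000000000000000000000000) (nat_lit 0x0) (nat_lit 0x80000c007700000000000000000000000000) := T_47 (nat_lit 123) (nat_lit 143) (nat_lit 3) (nat_lit 4) (nat_lit 7) L132314 (by decide +kernel)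
theorem L132316 : W_47 (nat_lit 6) (nat_lit 0x12001e0000000000000000000000000000000) (nat_lit 0x0) (nat_lit 0x90001c007700000000000000000000000000) := T_47 (nat_lit 124) (nat_lit 140) (nat_lit 1) (nat_lit 8) (nat_lit 7) L132315 (by decide +kernel)
theorem L132317 : W_47 (nat_lit 7) (nat_lit 0x10001e0000000000000000000000000000000) (nat_lit 0x0) (nat_lit 0xf0001c007700000000000000000000000000) := T_47 (nat_lit 141) (nat_lit 142) (nat_lit 1) (nat_lit 9) (nat_lit 7) L132316 (by decide +kernel)
theorem L132318 : W_47 (nat_lit 2) (nat_lit 0x11001f0008000000000000000000000000000) (nat_lit 0x0) (nat_lit 0x880008000000000000000000000000000000) := D_47 (nat_lit 123) (nat_lit 143) (nat_lit 139) (nat_lit 3) (nat_lit 4) (nat_lit 7) (nat_lit 1) (nat_lit 7) (nat_lit 7) (by decide +kernel)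
theorem L132319 : W_47 (nat_lit 3) (nat_lit 0x10001f0008000000000000000000000000000) (nat_lit 0x0) (nat_lit 0xb80008000000000000000000000000000000) := T_47 (nat_lit 140) (nat_lit 141) (nat_lit 1) (nat_lit 8) (nat_lit 7) L132318 (by decide +kernel)
theorem L132320 : W_47 (nat_lit 4) (nat_lit 0x10001e0008000000000000000000000000000) (nat_lit 0x0) (nat_lit 0xb80018004000000000000000000000000000) := T_47 (nat_lit 124) (nat_lit 110) (nat_lit 2) (nat_lit 5) (nat_lit 7) L132319 (by decide +kernel)
theorem L132321 : W_47 (nat_lit 5) (nat_lit 0x10001e0000000000000000000000000000000) (nat_lit 0x0) (nat_lit 0xb8001801c000000000000000000000000000) := T_47 (nat_lit 111) (nat_lit 112) (nat_lit 2) (nat_lit 6) (nat_lit 7) L132320 (by decide +kernel)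
theorem L132322 : W_47 (nat_lit 3) (nat_lit 0x100018001e0002000000000000000000000000000) (nat_lit 0x0) (nat_lit 0x4000300018000000000000000000) := T_47 (nat_lit 93) (nat_lit 110) (nat_lit 6) (nat_lit 7) (nat_lit 9) L130127 (by decide +kernel)
theorem L132323 : W_47 (nat_lit 2) (nat_lit 0x1c001c001e000e000400000000000000000000000) (nat_lit 0x0) (nat_lit 0x80000000000000001000800000000000000000000000) := D_47 (nat_lit 108) (nat_lit 175) (nat_lit 95) (nat_lit 5) (nat_lit 6) (nat_lit 6) (nat_lit 2) (nat_lit 6) (nat_lit 6) (by decide +kernel)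
theorem L132324 : W_47 (nat_lit 3) (nat_lit 0x1c001c001e000e000000000000000000000000000) (nat_lit 0x0) (nat_lit 0x80000000000000001000c00020000000000000000000) := T_47 (nat_lit 94) (nat_lit 77) (nat_lit 5) (nat_lit 9) (nat_lit 4) L132323 (by decide +kernel)
theorem L132325 : W_47 (nat_lit 4) (nat_lit 0x1c001c001e0006000000000000000000000000000) (nat_lit 0x0) (nat_lit 0x80000000000000019000c00020000000000000000000) := T_47 (nat_lit 111) (nat_lit 112) (nat_lit 2) (nat_lit 6) (nat_lit 7) L132324 (by decide +kernel)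
theorem L132326 : W_47 (nat_lit 5) (nat_lit 0x1c001c001e0002000000000000000000000000000) (nat_lit 0x0) (nat_lit 0x8000000000000001d000e00020000000000000000000) := T_47 (nat_lit 110) (nat_lit 93) (nat_lit 6) (nat_lit 7) (nat_lit 9) L132325 (by decide +kernel)
theorem L132327 : W_47 (nat_lit 6) (nat_lit 0x1c0018001e0002000000000000000000000000000) (nat_lit 0x0) (nat_lit 0x8000000060000001d000e00020000000000000000000) := T_47 (nat_lit 142) (nat_lit 141) (nat_lit 2) (nat_lit 5) (nat_lit 8) L132326 (by decide +kernel)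
theorem L132328 : W_47 (nat_lit 7) (nat_lit 0x180018001e0002000000000000000000000000000) (nat_lit 0x0) (nat_lit 0x8000600060000001d000e00020000000000000000000) := T_47 (nat_lit 158) (nat_lit 157) (nat_lit 2) (nat_lit 4) (nat_lit 9) L132327 (by decide +kernel)
theorem L132329 : W_47 (nat_lit 8) (nat_lit 0x100018001e0002000000000000000000000000000) (nat_lit 0x0) (nat_lit 0x18000e00060000001d000e00020000000000000000000) := T_47 (nat_lit 159) (nat_lit 176) (nat_lit 5) (nat_lit 7) (nat_lit 6) L132328 (by decide +kernel)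
theorem L132330 : W_47 (nat_lit 9) (nat_lit 0x100018001e0000000000000000000000000000000) (nat_lit 0x0) (nat_lit 0x18000e00060000001f000f00038000000000000000000) := Q_47 (nat_lit 109) (C_47 L130134 (C_47 L130131 (C_47 L132322 (C_47 L132329 N_47)))) (by decide +kernel)
theorem L132331 : W_47 (nat_lit 10) (nat_lit 0x18001e0000000000000000000000000000000) (nat_lit 0x0) (nat_lit 0xe000f8001e00060000001f000f00038000000000000000000) := Q_47 (nat_lit 160) (C_47 L130126 (C_47 L130130 (C_47 L132330 N_47))) (by decide +kernel)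
theorem L132332 : W_47 (nat_lit 3) (nat_lit 0x18001e0000000100000000000000000000000) (nat_lit 0x0) (nat_lit 0x8000600000002000000008000000000000000000) := T_47 (nat_lit 142) (nat_lit 141) (nat_lit 2) (nat_lit 5) (nat_lit 8) L122113 (by decide +kernel)
theorem L132333 : W_47 (nat_lit 3) (nat_lit 0x18001e0008000380000000000000000000000) (nat_lit 0x0) (nat_lit 0x1000400026000000000000000000) := T_47 (nat_lit 74) (nat_lit 108) (nat_lit 7) (nat_lit 6) (nat_lit 4) L129676 (by decide +kernel)
theorem L132334 : W_47 (nat_lit 4) (nat_lit 0x18001e0000000380000000000000000000000) (nat_lit 0x0) (nat_lit 0x19000400026000000000000000000) := T_47 (nat_lit 111) (nat_lit 112) (nat_lit 2) (nat_lit 6) (nat_lit 7) L132333 (by decide +kernel)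
theorem L132335 : W_47 (nat_lit 2) (nat_lit 0x1a001e0000000f80004000000000000000000) (nat_lit 0x0) (nat_lit 0xe0000000000000000000) := D_47 (nat_lit 78) (nat_lit 77) (nat_lit 79) (nat_lit 2) (nat_lit 6) (nat_lit 5) (nat_lit 2) (nat_lit 7) (nat_lit 5) (by decide +kernel)
theorem L132336 : W_47 (nat_lit 3) (nat_lit 0x1a001e0000000780004000000000000000000) (nat_lit 0x0) (nat_lit 0x8000e8000000000000000000) := T_47 (nat_lit 95) (nat_lit 75) (nat_lit 0) (nat_lit 10) (nat_lit 5) L132335 (by decide +kernel)
theorem L132337 : W_47 (nat_lit 4) (nat_lit 0x18001e0000000780004000000000000000000) (nat_lit 0x0) (nat_lit 0x6000000000008000e8000000000000000000) := T_47 (nat_lit 141) (nat_lit 142) (nat_lit 2) (nat_lit 5) (nat_lit 8) L132336 (by decide +kernel)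
theorem L132338 : W_47 (nat_lit 5) (nat_lit 0x18001e0000000380004000000000000000000) (nat_lit 0x0) (nat_lit 0x600000000000c000ea000000000000000000) := T_47 (nat_lit 94) (nat_lit 73) (nat_lit 0) (nat_lit 9) (nat_lit 5) L132337 (by decide +kernel)
theorem L132339 : W_47 (nat_lit 6) (nat_lit 0x18001e0000000380000000000000000000000) (nat_lit 0x0) (nat_lit 0x600000001000c000ee000000000000000000) := T_47 (nat_lit 74) (nat_lit 108) (nat_lit 7) (nat_lit 6) (nat_lit 4) L132338 (by decide +kernel)
theorem L132340 : W_47 (nat_lit 2) (nat_lit 0x1c001e0000000380000000000000000000000) (nat_lit 0x0) (nat_lit 0x100000000c000000000000000000) := D_47 (nat_lit 108) (nat_lit 74) (nat_lit 75) (nat_lit 7) (nat_lit 6) (nat_lit 4) (nat_lit 6) (nat_lit 6) (nat_lit 8) (by decide +kernel)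
theorem L132341 : W_47 (nat_lit 3) (nat_lit 0x18001e0000000380000000000000000000000) (nat_lit 0x0) (nat_lit 0x60000000100000000c000000000000000000) := T_47 (nat_lit 142) (nat_lit 141) (nat_lit 2) (nat_lit 5) (nat_lit 8) L132340 (by decide +kernel)
theorem L132342 : W_47 (nat_lit 3) (nat_lit 0x1c001e0008000380020000000000000000000) (nat_lit 0x0) (nat_lit 0x400d8000000000000000000) := T_47 (nat_lit 76) (nat_lit 90) (nat_lit 2) (nat_lit 5) (nat_lit 5) L122110 (by decide +kernel)
theorem L132343 : W_47 (nat_lit 4) (nat_lit 0x1c001e0008000380000000000000000000000) (nat_lit 0x0) (nat_lit 0x4400f8000000000000000000) := T_47 (nat_lit 77) (nat_lit 94) (nat_lit 5) (nat_lit 9) (nat_lit 4) L132342 (by decide +kernel)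
theorem L132344 : W_47 (nat_lit 5) (nat_lit 0x1c001e0000000380000000000000000000000) (nat_lit 0x0) (nat_lit 0x180004400f8000000000000000000) := T_47 (nat_lit 111) (nat_lit 112) (nat_lit 2) (nat_lit 6) (nat_lit 7) L132343 (by decide +kernel)
theorem L132345 : W_47 (nat_lit 6) (nat_lit 0x18001e0000000380000000000000000000000) (nat_lit 0x0) (nat_lit 0x6000000180004400f8000000000000000000) := T_47 (nat_lit 142) (nat_lit 141) (nat_lit 2) (nat_lit 5) (nat_lit 8) L132344 (by decide +kernel)
theorem L132346 : W_47 (nat_lit 7) (nat_lit 0x18001e0000000300000000000000000000000) (nat_lit 0x0) (nat_lit 0x600000019000cc00fe000000000000000000) := Q_47 (nat_lit 91) (C_47 L132334 (C_47 L132339 (C_47 L132341 (C_47 L132345 N_47)))) (by decide +kernel)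
theorem L132347 : W_47 (nat_lit 2) (nat_lit 0x18001e000c000780000000000000000000000) (nat_lit 0x0) (nat_lit 0x1000000006000000000000000000) := D_47 (nat_lit 74) (nat_lit 108) (nat_lit 73) (nat_lit 7) (nat_lit 6) (nat_lit 4) (nat_lit 0) (nat_lit 9) (nat_lit 5) (by decide +kernel)
theorem L132348 : W_47 (nat_lit 3) (nat_lit 0x18001e000c000380000000000000000000000) (nat_lit 0x0) (nat_lit 0x1000400026000000000000000000) := T_47 (nat_lit 94) (nat_lit 77) (nat_lit 6) (nat_lit 8) (nat_lit 8) L132347 (by decide +kernel)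
theorem L132349 : W_47 (nat_lit 4) (nat_lit 0x18001e000c000300000000000000000000000) (nat_lit 0x0) (nat_lit 0x10004c0026000000000000000000) := T_47 (nat_lit 91) (nat_lit 90) (nat_lit 3) (nat_lit 5) (nat_lit 5) L132348 (by decide +kernel)
theorem L132350 : W_47 (nat_lit 5) (nat_lit 0x18001e0008000300000000000000000000000) (nat_lit 0x0) (nat_lit 0x50004c002e000000000000000000) := T_47 (nat_lit 110) (nat_lit 75) (nat_lit 4) (nat_lit 8) (nat_lit 8) L132349 (by decide +kernel)
theorem L132351 : W_47 (nat_lit 6) (nat_lit 0x18001e0000000300000000000000000000000) (nat_lit 0x0) (nat_lit 0x1d0004c002e000000000000000000) := T_47 (nat_lit 111) (nat_lit 112) (nat_lit 2) (nat_lit 6) (nat_lit 7) L132350 (by decide +kernel)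
theorem L132352 : W_47 (nat_lit 4) (nat_lit 0x1c001e000c000300000000000000000000000) (nat_lit 0x0) (nat_lit 0x10004c0026000000000000000000) := T_47 (nat_lit 94) (nat_lit 77) (nat_lit 6) (nat_lit 8) (nat_lit 8) L124801 (by decide +kernel)
theorem L132353 : W_47 (nat_lit 5) (nat_lit 0x1c001e0008000300000000000000000000000) (nat_lit 0x0) (nat_lit 0x50004c0036000000000000000000) := T_47 (nat_lit 110) (nat_lit 76) (nat_lit 5) (nat_lit 8) (nat_lit 4) L132352 (by decide +kernel)
theorem L132354 : W_47 (nat_lit 6) (nat_lit 0x1c001e0000000300000000000000000000000) (nat_lit 0x0) (nat_lit 0x1d0004c0036000000000000000000) := T_47 (nat_lit 111) (nat_lit 112) (nat_lit 2) (nat_lit 6) (nat_lit 7) L132353 (by decide +kernel)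
theorem L132355 : W_47 (nat_lit 7) (nat_lit 0x18001e0000000300000000000000000000000) (nat_lit 0x0) (nat_lit 0x60000001d0004c0036000000000000000000) := T_47 (nat_lit 142) (nat_lit 141) (nat_lit 2) (nat_lit 5) (nat_lit 8) L132354 (by decide +kernel)
theorem L132356 : W_47 (nat_lit 8) (nat_lit 0x18001e0000000100000000000000000000000) (nat_lit 0x0) (nat_lit 0x60000001d000ec00fe000000000000000000) := Q_47 (nat_lit 93) (C_47 L122109 (C_47 L132346 (C_47 L132351 (C_47 L132355 N_47)))) (by decide +kernel)
theorem L132357 : W_47 (nat_lit 2) (nat_lit 0x18001e0008001f00008000000000000000000) (nat_lit 0x0) (nat_lit 0x1c0000000000000000000) := D_47 (nat_lit 79) (nat_lit 78) (nat_lit 80) (nat_lit 2) (nat_lit 7) (nat_lit 5) (nat_lit 2) (nat_lit 8) (nat_lit 5) (by decide +kernel)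
theorem L132358 : W_47 (nat_lit 3) (nat_lit 0x18001e0008000f00008000000000000000000) (nat_lit 0x0) (nat_lit 0x10001d0000000000000000000) := T_47 (nat_lit 96) (nat_lit 76) (nat_lit 0) (nat_lit 11) (nat_lit 5) L132357 (by decide +kernel)
theorem L132359 : W_47 (nat_lit 4) (nat_lit 0x18001e0008000700008000000000000000000) (nat_lit 0x0) (nat_lit 0x18001d4000000000000000000) := T_47 (nat_lit 95) (nat_lit 74) (nat_lit 0) (nat_lit 10) (nat_lit 5) L132358 (by decide +kernel)
theorem L132360 : W_47 (nat_lit 5) (nat_lit 0x18001e0008000300008000000000000000000) (nat_lit 0x0) (nat_lit 0x1c001f4000000000000000000) := T_47 (nat_lit 94) (nat_lit 77) (nat_lit 5) (nat_lit 9) (nat_lit 4) L132359 (by decide +kernel)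
theorem L132361 : W_47 (nat_lit 6) (nat_lit 0x18001e0000000300008000000000000000000) (nat_lit 0x0) (nat_lit 0x18001c001f4000000000000000000) := T_47 (nat_lit 111) (nat_lit 112) (nat_lit 2) (nat_lit 6) (nat_lit 7) L132360 (by decide +kernel)
theorem L132362 : W_47 (nat_lit 7) (nat_lit 0x18001e0000000100008000000000000000000) (nat_lit 0x0) (nat_lit 0x1c001e001f4000000000000000000) := T_47 (nat_lit 93) (nat_lit 110) (nat_lit 4) (nat_lit 8) (nat_lit 8) L132361 (by decide +kernel)
theorem L132363 : W_47 (nat_lit 8) (nat_lit 0x18001e0000000100000000000000000000000) (nat_lit 0x0) (nat_lit 0x1e001e001fc000000000000000000) := T_47 (nat_lit 75) (nat_lit 109) (nat_lit 7) (nat_lit 7) (nat_lit 4) L132362 (by decide +kernel)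
theorem L132364 : W_47 (nat_lit 2) (nat_lit 0x1c001e000a0003c0020000000000000000000) (nat_lit 0x0) (nat_lit 0x1000000003000000000000000000) := D_47 (nat_lit 73) (nat_lit 108) (nat_lit 72) (nat_lit 4) (nat_lit 6) (nat_lit 8) (nat_lit 0) (nat_lit 8) (nat_lit 5) (by decide +kernel)
theorem L132365 : W_47 (nat_lit 3) (nat_lit 0x1c001e000a000380020000000000000000000) (nat_lit 0x0) (nat_lit 0x5000040003000000000000000000) := T_47 (nat_lit 90) (nat_lit 110) (nat_lit 3) (nat_lit 5) (nat_lit 5) L132364 (by decide +kernel)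
theorem L132366 : W_47 (nat_lit 4) (nat_lit 0x1c001e000a000180020000000000000000000) (nat_lit 0x0) (nat_lit 0x5000240013000000000000000000) := T_47 (nat_lit 93) (nat_lit 76) (nat_lit 6) (nat_lit 7) (nat_lit 8) L132365 (by decide +kernel)
theorem L132367 : W_47 (nat_lit 5) (nat_lit 0x1c001e000a000100020000000000000000000) (nat_lit 0x0) (nat_lit 0x50002c0017000000000000000000) := T_47 (nat_lit 91) (nat_lit 74) (nat_lit 4) (nat_lit 7) (nat_lit 8) L132366 (by decide +kernel)
theorem L132368 : W_47 (nat_lit 6) (nat_lit 0x1c001e0008000100020000000000000000000) (nat_lit 0x0) (nat_lit 0x80000000000070002c0017000000000000000000) := T_47 (nat_lit 109) (nat_lit 159) (nat_lit 5) (nat_lit 7) (nat_lit 5) L132367 (by decide +kernel)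
theorem L132369 : W_47 (nat_lit 7) (nat_lit 0x1c001e0008000100000000000000000000000) (nat_lit 0x0) (nat_lit 0x80000000000070006c0037000000000000000000) := T_47 (nat_lit 77) (nat_lit 94) (nat_lit 5) (nat_lit 9) (nat_lit 4) L132368 (by decide +kernel)
theorem L132370 : W_47 (nat_lit 8) (nat_lit 0x18001e0008000100000000000000000000000) (nat_lit 0x0) (nat_lit 0x80006000000070006c0037000000000000000000) := T_47 (nat_lit 142) (nat_lit 141) (nat_lit 2) (nat_lit 5) (nat_lit 8) L132369 (by decide +kernel)
theorem L132371 : W_47 (nat_lit 9) (nat_lit 0x18001e0000000100000000000000000000000) (nat_lit 0x0) (nat_lit 0x800060000001f0006c0037000000000000000000) := T_47 (nat_lit 111) (nat_lit 112) (nat_lit 2) (nat_lit 6) (nat_lit 7) L132370 (by decide +kernel)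
theorem L132372 : W_47 (nat_lit 10) (nat_lit 0x18001e0000000000000000000000000000000) (nat_lit 0x0) (nat_lit 0x800060000001f001fc01ff000000000000000000) := Q_47 (nat_lit 92) (C_47 L132332 (C_47 L132356 (C_47 L132363 (C_47 L132371 N_47)))) (by decide +kernel)
theorem L132373 : W_47 (nat_lit 5) (nat_lit 0x10001e0000000100000000000000000000000) (nat_lit 0x0) (nat_lit 0x100008000e0000001a000000008000000000000000000) := T_47 (nat_lit 111) (nat_lit 112) (nat_lit 2) (nat_lit 6) (nat_lit 7) L122211 (by decide +kernel)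
theorem L132374 : W_47 (nat_lit 2) (nat_lit 0x10001e000c000300000000000000000000000) (nat_lit 0x0) (nat_lit 0x800000000000000010000800000000000000) := D_47 (nat_lit 76) (nat_lit 143) (nat_lit 59) (nat_lit 5) (nat_lit 8) (nat_lit 4) (nat_lit 7) (nat_lit 8) (nat_lit 3) (by decide +kernel)
theorem L132375 : W_47 (nat_lit 3) (nat_lit 0x10001e0008000300000000000000000000000) (nat_lit 0x0) (nat_lit 0x800000004000000018000800000000000000) := T_47 (nat_lit 110) (nat_lit 75) (nat_lit 4) (nat_lit 8) (nat_lit 8) L132374 (by decide +kernel)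
theorem L132376 : W_47 (nat_lit 4) (nat_lit 0x10001e0000000300000000000000000000000) (nat_lit 0x0) (nat_lit 0x80000001c000000018000800000000000000) := T_47 (nat_lit 111) (nat_lit 112) (nat_lit 2) (nat_lit 6) (nat_lit 7) L132375 (by decide +kernel)
theorem L132377 : W_47 (nat_lit 2) (nat_lit 0x10001e0004000300000000000000000000000) (nat_lit 0x0) (nat_lit 0x10000800000000000000010000000000000000000) := D_47 (nat_lit 143) (nat_lit 76) (nat_lit 160) (nat_lit 5) (nat_lit 8) (nat_lit 4) (nat_lit 5) (nat_lit 8) (nat_lit 5) (by decide +kernel)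
theorem L132378 : W_47 (nat_lit 3) (nat_lit 0x10001e0000000300000000000000000000000) (nat_lit 0x0) (nat_lit 0x10000800000004000000018000000000000000000) := T_47 (nat_lit 110) (nat_lit 75) (nat_lit 4) (nat_lit 8) (nat_lit 8) L132377 (by decide +kernel)
theorem L132379 : W_47 (nat_lit 2) (nat_lit 0x14001e0010000f80040000000000000000000) (nat_lit 0x0) (nat_lit 0xe000000000000000000) := D_47 (nat_lit 74) (nat_lit 73) (nat_lit 75) (nat_lit 0) (nat_lit 9) (nat_lit 5) (nat_lit 0) (nat_lit 10) (nat_lit 5) (by decide +kernel)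
theorem L132380 : W_47 (nat_lit 3) (nat_lit 0x14001e0010000f00040000000000000000000) (nat_lit 0x0) (nat_lit 0x8002e000000000000000000) := T_47 (nat_lit 91) (nat_lit 77) (nat_lit 2) (nat_lit 6) (nat_lit 5) L132379 (by decide +kernel)
theorem L132381 : W_47 (nat_lit 4) (nat_lit 0x14001e0010000f00000000000000000000000) (nat_lit 0x0) (nat_lit 0x800ee000000000000000000) := T_47 (nat_lit 78) (nat_lit 79) (nat_lit 2) (nat_lit 7) (nat_lit 5) L132380 (by decide +kernel)
theorem L132382 : W_47 (nat_lit 5) (nat_lit 0x14001e0000000f00000000000000000000000) (nat_lit 0x0) (nat_lit 0x300000800ee000000000000000000) := T_47 (nat_lit 112) (nat_lit 113) (nat_lit 3) (nat_lit 7) (nat_lit 5) L132381 (by decide +kernel)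
theorem L132383 : W_47 (nat_lit 6) (nat_lit 0x10001e0000000f00000000000000000000000) (nat_lit 0x0) (nat_lit 0x6000000300000800ee000000000000000000) := T_47 (nat_lit 142) (nat_lit 141) (nat_lit 1) (nat_lit 9) (nat_lit 7) L132382 (by decide +kernel)
theorem L132384 : W_47 (nat_lit 2) (nat_lit 0x10001e0010001f00008000000000000000000) (nat_lit 0x0) (nat_lit 0x1c0000000000000000000) := D_47 (nat_lit 79) (nat_lit 78) (nat_lit 80) (nat_lit 2) (nat_lit 7) (nat_lit 5) (nat_lit 2) (nat_lit 8) (nat_lit 5) (by decide +kernel)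
theorem L132385 : W_47 (nat_lit 3) (nat_lit 0x10001e0010000f00008000000000000000000) (nat_lit 0x0) (nat_lit 0x10001d0000000000000000000) := T_47 (nat_lit 96) (nat_lit 76) (nat_lit 0) (nat_lit 11) (nat_lit 5) L132384 (by decide +kernel)
theorem L132386 : W_47 (nat_lit 4) (nat_lit 0x10001e0000000f00008000000000000000000) (nat_lit 0x0) (nat_lit 0x300010001d0000000000000000000) := T_47 (nat_lit 112) (nat_lit 113) (nat_lit 3) (nat_lit 7) (nat_lit 5) L132385 (by decide +kernel)
theorem L132387 : W_47 (nat_lit 5) (nat_lit 0x10001e0000000f00000000000000000000000) (nat_lit 0x0) (nat_lit 0x300010001dc000000000000000000) := T_47 (nat_lit 75) (nat_lit 74) (nat_lit 0) (nat_lit 10) (nat_lit 5) L132386 (by decide +kernel)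
theorem L132388 : W_47 (nat_lit 2) (nat_lit 0x10001e0000000f80040000000000000000000) (nat_lit 0x0) (nat_lit 0xe000000000000000000) := D_47 (nat_lit 74) (nat_lit 73) (nat_lit 75) (nat_lit 0) (nat_lit 9) (nat_lit 5) (nat_lit 0) (nat_lit 10) (nat_lit 5) (by decide +kernel)
theorem L132389 : W_47 (nat_lit 3) (nat_lit 0x10001e0000000f00040000000000000000000) (nat_lit 0x0) (nat_lit 0x8002e000000000000000000) := T_47 (nat_lit 91) (nat_lit 77) (nat_lit 2) (nat_lit 6) (nat_lit 5) L132388 (by decide +kernel)
theorem L132390 : W_47 (nat_lit 4) (nat_lit 0x10001e0000000f00000000000000000000000) (nat_lit 0x0) (nat_lit 0x800ee000000000000000000) := T_47 (nat_lit 78) (nat_lit 79) (nat_lit 2) (nat_lit 7) (nat_lit 5) L132389 (by decide +kernel)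
theorem L132391 : W_47 (nat_lit 2) (nat_lit 0x14001e0020000f80048000000000000000000) (nat_lit 0x0) (nat_lit 0x40001000010000000000000000000) := D_47 (nat_lit 96) (nat_lit 76) (nat_lit 114) (nat_lit 0) (nat_lit 11) (nat_lit 5) (nat_lit 3) (nat_lit 8) (nat_lit 5) (by decide +kernel)
theorem L132392 : W_47 (nat_lit 3) (nat_lit 0x14001e0020000f80040000000000000000000) (nat_lit 0x0) (nat_lit 0x41001000018000000000000000000) := T_47 (nat_lit 75) (nat_lit 108) (nat_lit 6) (nat_lit 6) (nat_lit 8) L132391 (by decide +kernel)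
theorem L132393 : W_47 (nat_lit 4) (nat_lit 0x14001e0000000f80040000000000000000000) (nat_lit 0x0) (nat_lit 0x71001000018000000000000000000) := T_47 (nat_lit 113) (nat_lit 112) (nat_lit 3) (nat_lit 7) (nat_lit 5) L132392 (by decide +kernel)
theorem L132394 : W_47 (nat_lit 5) (nat_lit 0x14001e0000000f00040000000000000000000) (nat_lit 0x0) (nat_lit 0x71001080038000000000000000000) := T_47 (nat_lit 91) (nat_lit 77) (nat_lit 2) (nat_lit 6) (nat_lit 5) L132393 (by decide +kernel)
theorem L132395 : W_47 (nat_lit 6) (nat_lit 0x14001e0000000f00000000000000000000000) (nat_lit 0x0) (nat_lit 0x710010800f8000000000000000000) := T_47 (nat_lit 78) (nat_lit 79) (nat_lit 2) (nat_lit 7) (nat_lit 5) L132394 (by decide +kernel)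
theorem L132396 : W_47 (nat_lit 7) (nat_lit 0x10001e0000000f00000000000000000000000) (nat_lit 0x0) (nat_lit 0x6000000710010800f8000000000000000000) := T_47 (nat_lit 142) (nat_lit 141) (nat_lit 1) (nat_lit 9) (nat_lit 7) L132395 (by decide +kernel)
theorem L132397 : W_47 (nat_lit 2) (nat_lit 0x14001e0010000f80018000000000000000000) (nat_lit 0x0) (nat_lit 0x40060000000000000000000) := D_47 (nat_lit 77) (nat_lit 78) (nat_lit 90) (nat_lit 2) (nat_lit 6) (nat_lit 5) (nat_lit 2) (nat_lit 5) (nat_lit 5) (by decide +kernel)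
theorem L132398 : W_47 (nat_lit 3) (nat_lit 0x14001e0010000f00018000000000000000000) (nat_lit 0x0) (nat_lit 0x10000c0060000000000000000000) := T_47 (nat_lit 91) (nat_lit 108) (nat_lit 6) (nat_lit 6) (nat_lit 8) L132397 (by decide +kernel)
theorem L132399 : W_47 (nat_lit 4) (nat_lit 0x14001e0010000f00008000000000000000000) (nat_lit 0x0) (nat_lit 0x10010c0070000000000000000000) := T_47 (nat_lit 76) (nat_lit 96) (nat_lit 0) (nat_lit 11) (nat_lit 5) L132398 (by decide +kernel)
theorem L132400 : W_47 (nat_lit 5) (nat_lit 0x14001e0010000f00000000000000000000000) (nat_lit 0x0) (nat_lit 0x10010c007c000000000000000000) := T_47 (nat_lit 75) (nat_lit 74) (nat_lit 0) (nat_lit 10) (nat_lit 5) L132399 (by decide +kernel)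
theorem L132401 : W_47 (nat_lit 6) (nat_lit 0x10001e0010000f00000000000000000000000) (nat_lit 0x0) (nat_lit 0x6000000010010c007c000000000000000000) := T_47 (nat_lit 142) (nat_lit 141) (nat_lit 1) (nat_lit 9) (nat_lit 7) L132400 (by decide +kernel)
theorem L132402 : W_47 (nat_lit 7) (nat_lit 0x10001e0000000f00000000000000000000000) (nat_lit 0x0) (nat_lit 0x6000000310010c007c000000000000000000) := T_47 (nat_lit 112) (nat_lit 113) (nat_lit 3) (nat_lit 7) (nat_lit 5) L132401 (by decide +kernel)
theorem L132403 : W_47 (nat_lit 2) (nat_lit 0x10001e0010000fc0042000000000000000000) (nat_lit 0x0) (nat_lit 0x600000001000000000000000000000000000) := D_47 (nat_lit 142) (nat_lit 141) (nat_lit 108) (nat_lit 1) (nat_lit 9) (nat_lit 7) (nat_lit 4) (nat_lit 6) (nat_lit 8) (by decide +kernel)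
theorem L132404 : W_47 (nat_lit 3) (nat_lit 0x10001e0010000f80042000000000000000000) (nat_lit 0x0) (nat_lit 0x600000001000040001000000000000000000) := T_47 (nat_lit 90) (nat_lit 72) (nat_lit 0) (nat_lit 8) (nat_lit 5) L132403 (by decide +kernel)
theorem L132405 : W_47 (nat_lit 4) (nat_lit 0x10001e0000000f80042000000000000000000) (nat_lit 0x0) (nat_lit 0x600000031000040001000000000000000000) := T_47 (nat_lit 112) (nat_lit 113) (nat_lit 3) (nat_lit 7) (nat_lit 5) L132404 (by decide +kernel)
theorem L132406 : W_47 (nat_lit 5) (nat_lit 0x10001e0000000f80040000000000000000000) (nat_lit 0x0) (nat_lit 0x600000031000040007000000000000000000) := T_47 (nat_lit 73) (nat_lit 74) (nat_lit 0) (nat_lit 9) (nat_lit 5) L132405 (by decide +kernel)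
theorem L132407 : W_47 (nat_lit 6) (nat_lit 0x10001e0000000f00040000000000000000000) (nat_lit 0x0) (nat_lit 0x6000000310000c0027000000000000000000) := T_47 (nat_lit 91) (nat_lit 77) (nat_lit 2) (nat_lit 6) (nat_lit 5) L132406 (by decide +kernel)
theorem L132408 : W_47 (nat_lit 7) (nat_lit 0x10001e0000000f00000000000000000000000) (nat_lit 0x0) (nat_lit 0x6000000310000c00e7000000000000000000) := T_47 (nat_lit 78) (nat_lit 79) (nat_lit 2) (nat_lit 7) (nat_lit 5) L132407 (by decide +kernel)
theorem L132409 : W_47 (nat_lit 2) (nat_lit 0x14001e0010000f80018000000000000000000) (nat_lit 0x0) (nat_lit 0x60020000000000000000000) := D_47 (nat_lit 90) (nat_lit 89) (nat_lit 77) (nat_lit 2) (nat_lit 4) (nat_lit 5) (nat_lit 2) (nat_lit 5) (nat_lit 5) (by decide +kernel)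
theorem L132410 : W_47 (nat_lit 3) (nat_lit 0x14001e0010000f80008000000000000000000) (nat_lit 0x0) (nat_lit 0x1060030000000000000000000) := T_47 (nat_lit 76) (nat_lit 96) (nat_lit 0) (nat_lit 11) (nat_lit 5) L132409 (by decide +kernel)
theorem L132411 : W_47 (nat_lit 4) (nat_lit 0x14001e0010000f00008000000000000000000) (nat_lit 0x0) (nat_lit 0x10010e0030000000000000000000) := T_47 (nat_lit 91) (nat_lit 108) (nat_lit 6) (nat_lit 6) (nat_lit 8) L132410 (by decide +kernel)
theorem L132412 : W_47 (nat_lit 5) (nat_lit 0x14001e0000000f00008000000000000000000) (nat_lit 0x0) (nat_lit 0x310010e0030000000000000000000) := T_47 (nat_lit 112) (nat_lit 113) (nat_lit 3) (nat_lit 7) (nat_lit 5) L132411 (by decide +kernel)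
theorem L132413 : W_47 (nat_lit 6) (nat_lit 0x14001e0000000f00000000000000000000000) (nat_lit 0x0) (nat_lit 0x310010e003c000000000000000000) := T_47 (nat_lit 75) (nat_lit 74) (nat_lit 0) (nat_lit 10) (nat_lit 5) L132412 (by decide +kernel)
theorem L132414 : W_47 (nat_lit 7) (nat_lit 0x10001e0000000f00000000000000000000000) (nat_lit 0x0) (nat_lit 0x6000000310010e003c000000000000000000) := T_47 (nat_lit 142) (nat_lit 141) (nat_lit 1) (nat_lit 9) (nat_lit 7) L132413 (by decide +kernel)
theorem L132415 : W_47 (nat_lit 8) (nat_lit 0x10001e0000000700000000000000000000000) (nat_lit 0x0) (nat_lit 0x6000000710018e01ff000000000000000000) := Q_47 (nat_lit 95) (C_47 L132383 (C_47 L132387 (C_47 L132390 (C_47 L132396 (C_47 L132402 (C_47 L132408 (C_47 L132414 N_47))))))) (by decide +kernel)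
theorem L132416 : W_47 (nat_lit 2) (nat_lit 0x10001e0000000700000000000000000000000) (nat_lit 0x0) (nat_lit 0x18000000020000000000000000000) := D_47 (nat_lit 111) (nat_lit 77) (nat_lit 112) (nat_lit 5) (nat_lit 9) (nat_lit 4) (nat_lit 2) (nat_lit 6) (nat_lit 7) (by decide +kernel)
theorem L132417 : W_47 (nat_lit 2) (nat_lit 0x10001e00000007c0020000000000000000000) (nat_lit 0x0) (nat_lit 0x7000000000000000000) := D_47 (nat_lit 73) (nat_lit 72) (nat_lit 74) (nat_lit 0) (nat_lit 8) (nat_lit 5) (nat_lit 0) (nat_lit 9) (nat_lit 5) (by decide +kernel)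
theorem L132418 : W_47 (nat_lit 3) (nat_lit 0x10001e0000000780020000000000000000000) (nat_lit 0x0) (nat_lit 0x40017000000000000000000) := T_47 (nat_lit 90) (nat_lit 76) (nat_lit 2) (nat_lit 5) (nat_lit 5) L132417 (by decide +kernel)
theorem L132419 : W_47 (nat_lit 4) (nat_lit 0x10001e0000000700020000000000000000000) (nat_lit 0x0) (nat_lit 0xc0057000000000000000000) := T_47 (nat_lit 91) (nat_lit 78) (nat_lit 2) (nat_lit 6) (nat_lit 5) L132418 (by decide +kernel)
theorem L132420 : W_47 (nat_lit 5) (nat_lit 0x10001e0000000700000000000000000000000) (nat_lit 0x0) (nat_lit 0x80000c0077000000000000000000) := T_47 (nat_lit 77) (nat_lit 111) (nat_lit 5) (nat_lit 9) (nat_lit 4) L132419 (by decide +kernel)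
theorem L132421 : W_47 (nat_lit 2) (nat_lit 0x14001e0010000f00088000000000000000000) (nat_lit 0x0) (nat_lit 0x1000110000000000000000000) := D_47 (nat_lit 96) (nat_lit 80) (nat_lit 76) (nat_lit 2) (nat_lit 8) (nat_lit 5) (nat_lit 0) (nat_lit 11) (nat_lit 5) (by decide +kernel)
theorem L132422 : W_47 (nat_lit 3) (nat_lit 0x14001e0010000f00080000000000000000000) (nat_lit 0x0) (nat_lit 0x100011c000000000000000000) := T_47 (nat_lit 75) (nat_lit 74) (nat_lit 0) (nat_lit 10) (nat_lit 5) L132421 (by decide +kernel)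
theorem L132423 : W_47 (nat_lit 4) (nat_lit 0x14001e0010000f00000000000000000000000) (nat_lit 0x0) (nat_lit 0x10001dc000000000000000000) := T_47 (nat_lit 79) (nat_lit 78) (nat_lit 2) (nat_lit 7) (nat_lit 5) L132422 (by decide +kernel)
theorem L132424 : W_47 (nat_lit 5) (nat_lit 0x14001e0010000700000000000000000000000) (nat_lit 0x0) (nat_lit 0x200018001dc000000000000000000) := T_47 (nat_lit 95) (nat_lit 113) (nat_lit 3) (nat_lit 7) (nat_lit 5) L132423 (by decide +kernel)
theorem L132425 : W_47 (nat_lit 6) (nat_lit 0x14001e0000000700000000000000000000000) (nat_lit 0x0) (nat_lit 0x380018001dc000000000000000000) := T_47 (nat_lit 112) (nat_lit 111) (nat_lit 2) (nat_lit 6) (nat_lit 7) L132424 (by decide +kernel)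
theorem L132426 : W_47 (nat_lit 7) (nat_lit 0x10001e0000000700000000000000000000000) (nat_lit 0x0) (nat_lit 0x6000000380018001dc000000000000000000) := T_47 (nat_lit 142) (nat_lit 141) (nat_lit 1) (nat_lit 9) (nat_lit 7) L132425 (by decide +kernel)
theorem L132427 : W_47 (nat_lit 9) (nat_lit 0x10001e0000000300000000000000000000000) (nat_lit 0x0) (nat_lit 0x600000079001ce01ff000000000000000000) := Q_47 (nat_lit 94) (C_47 L132415 (C_47 L132416 (C_47 L132420 (C_47 L132426 N_47)))) (by decide +kernel)
theorem L132428 : W_47 (nat_lit 3) (nat_lit 0x1c001e000c000380000000000000000000000) (nat_lit 0x0) (nat_lit 0x1000400026000000000000000000) := T_47 (nat_lit 94) (nat_lit 77) (nat_lit 6) (nat_lit 8) (nat_lit 8) L124800 (by decide +kernel)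
theorem L132429 : W_47 (nat_lit 4) (nat_lit 0x14001e000c000380000000000000000000000) (nat_lit 0x0) (nat_lit 0x10000800000001000400026000000000000000000) := T_47 (nat_lit 143) (nat_lit 160) (nat_lit 5) (nat_lit 8) (nat_lit 5) L132428 (by decide +kernel)
theorem L132430 : W_47 (nat_lit 5) (nat_lit 0x10001e000c000380000000000000000000000) (nat_lit 0x0) (nat_lit 0x10000e00000001000400026000000000000000000) := T_47 (nat_lit 142) (nat_lit 141) (nat_lit 1) (nat_lit 9) (nat_lit 7) L132429 (by decide +kernel)
theorem L132431 : W_47 (nat_lit 6) (nat_lit 0x10001e000c000300000000000000000000000) (nat_lit 0x0) (nat_lit 0x10000e000000010004c0026000000000000000000) := T_47 (nat_lit 91) (nat_lit 90) (nat_lit 3) (nat_lit 5) (nat_lit 5) L132430 (by decide +kernel)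
theorem L132432 : W_47 (nat_lit 7) (nat_lit 0x10001e0008000300000000000000000000000) (nat_lit 0x0) (nat_lit 0x10000e000000050004c002e000000000000000000) := T_47 (nat_lit 110) (nat_lit 75) (nat_lit 4) (nat_lit 8) (nat_lit 8) L132431 (by decide +kernel)
theorem L132433 : W_47 (nat_lit 8) (nat_lit 0x10001e0000000300000000000000000000000) (nat_lit 0x0) (nat_lit 0x10000e0000001d0004c002e000000000000000000) := T_47 (nat_lit 111) (nat_lit 112) (nat_lit 2) (nat_lit 6) (nat_lit 7) L132432 (by decide +kernel)
theorem L132434 : W_47 (nat_lit 2) (nat_lit 0x14001e0004000700010000000000000000000) (nat_lit 0x0) (nat_lit 0x18000000000000800000000000000) := D_47 (nat_lit 111) (nat_lit 112) (nat_lit 59) (nat_lit 2) (nat_lit 6) (nat_lit 7) (nat_lit 7) (nat_lit 8) (nat_lit 3) (by decide +kernel)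
theorem L132435 : W_47 (nat_lit 3) (nat_lit 0x14001e0004000700000000000000000000000) (nat_lit 0x0) (nat_lit 0x800000018000000010000800000000000000) := T_47 (nat_lit 76) (nat_lit 143) (nat_lit 5) (nat_lit 8) (nat_lit 4) L132434 (by decide +kernel)
theorem L132436 : W_47 (nat_lit 4) (nat_lit 0x14001e0004000300000000000000000000000) (nat_lit 0x0) (nat_lit 0x800000018000400030000800000000000000) := T_47 (nat_lit 94) (nat_lit 77) (nat_lit 6) (nat_lit 8) (nat_lit 8) L132435 (by decide +kernel)
theorem L132437 : W_47 (nat_lit 5) (nat_lit 0x10001e0004000300000000000000000000000) (nat_lit 0x0) (nat_lit 0xe00000018000400030000800000000000000) := T_47 (nat_lit 142) (nat_lit 141) (nat_lit 1) (nat_lit 9) (nat_lit 7) L132436 (by decide +kernel)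
theorem L132438 : W_47 (nat_lit 7) (nat_lit 0x10001e0004000300000000000000000000000) (nat_lit 0x0) (nat_lit 0x10000e000000190004c0026000000000000000000) := T_47 (nat_lit 111) (nat_lit 112) (nat_lit 2) (nat_lit 6) (nat_lit 7) L132431 (by decide +kernel)
theorem L132439 : W_47 (nat_lit 2) (nat_lit 0x10001e000c000300020000000000000000000) (nat_lit 0x0) (nat_lit 0x10001800000000000000) := D_47 (nat_lit 76) (nat_lit 60) (nat_lit 59) (nat_lit 6) (nat_lit 8) (nat_lit 7) (nat_lit 7) (nat_lit 8) (nat_lit 3) (by decide +kernel)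
theorem L132440 : W_47 (nat_lit 3) (nat_lit 0x10001e000c000300000000000000000000000) (nat_lit 0x0) (nat_lit 0x400030001800000000000000) := T_47 (nat_lit 77) (nat_lit 94) (nat_lit 6) (nat_lit 8) (nat_lit 8) L132439 (by decide +kernel)
theorem L132441 : W_47 (nat_lit 4) (nat_lit 0x10001e0004000300000000000000000000000) (nat_lit 0x0) (nat_lit 0x18000400030001800000000000000) := T_47 (nat_lit 111) (nat_lit 112) (nat_lit 2) (nat_lit 6) (nat_lit 7) L132440 (by decide +kernel)
theorem L132442 : W_47 (nat_lit 8) (nat_lit 0x10001e0000000300000000000000000000000) (nat_lit 0x0) (nat_lit 0x10000e0000001d0004c0036001800000000000000) := Q_47 (nat_lit 110) (C_47 L132377 (C_47 L132437 (C_47 L132438 (C_47 L132441 N_47)))) (by decide +kernel)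
theorem L132443 : W_47 (nat_lit 10) (nat_lit 0x10001e0000000100000000000000000000000) (nat_lit 0x0) (nat_lit 0x10000e0000007d001ee01ff001800000000000000) := Q_47 (nat_lit 93) (C_47 L132376 (C_47 L132378 (C_47 L132427 (C_47 L132433 (C_47 L132442 N_47))))) (by decide +kernel)
theorem L132444 : W_47 (nat_lit 3) (nat_lit 0x10001e0002000100000000000000000000000) (nat_lit 0x0) (nat_lit 0x100008000600000001000000000000000000000000000) := T_47 (nat_lit 142) (nat_lit 141) (nat_lit 1) (nat_lit 9) (nat_lit 7) L130103 (by decide +kernel)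
theorem L132445 : W_47 (nat_lit 4) (nat_lit 0x10001e0000000100000000000000000000000) (nat_lit 0x0) (nat_lit 0x100008000600000003000000008000000000000000000) := T_47 (nat_lit 109) (nat_lit 75) (nat_lit 7) (nat_lit 7) (nat_lit 4) L132444 (by decide +kernel)
theorem L132446 : W_47 (nat_lit 2) (nat_lit 0x10001e0008001f00008000000000000000000) (nat_lit 0x0) (nat_lit 0x1c0000000000000000000) := D_47 (nat_lit 79) (nat_lit 78) (nat_lit 80) (nat_lit 2) (nat_lit 7) (nat_lit 5) (nat_lit 2) (nat_lit 8) (nat_lit 5) (by decide +kernel)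
theorem L132447 : W_47 (nat_lit 3) (nat_lit 0x10001e0008000f00008000000000000000000) (nat_lit 0x0) (nat_lit 0x10001d0000000000000000000) := T_47 (nat_lit 96) (nat_lit 76) (nat_lit 0) (nat_lit 11) (nat_lit 5) L132446 (by decide +kernel)
theorem L132448 : W_47 (nat_lit 4) (nat_lit 0x10001e0008000700008000000000000000000) (nat_lit 0x0) (nat_lit 0x18001d4000000000000000000) := T_47 (nat_lit 95) (nat_lit 74) (nat_lit 0) (nat_lit 10) (nat_lit 5) L132447 (by decide +kernel)
theorem L132449 : W_47 (nat_lit 5) (nat_lit 0x10001e0008000300008000000000000000000) (nat_lit 0x0) (nat_lit 0x1c001f4000000000000000000) := T_47 (nat_lit 94) (nat_lit 77) (nat_lit 5) (nat_lit 9) (nat_lit 4) L132448 (by decide +kernel)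
theorem L132450 : W_47 (nat_lit 6) (nat_lit 0x10001e0008000100008000000000000000000) (nat_lit 0x0) (nat_lit 0x4001e001f4000000000000000000) := T_47 (nat_lit 93) (nat_lit 110) (nat_lit 4) (nat_lit 8) (nat_lit 8) L132449 (by decide +kernel)
theorem L132451 : W_47 (nat_lit 7) (nat_lit 0x10001e0008000100000000000000000000000) (nat_lit 0x0) (nat_lit 0x6001e001fc000000000000000000) := T_47 (nat_lit 75) (nat_lit 109) (nat_lit 7) (nat_lit 7) (nat_lit 4) L132450 (by decide +kernel)
theorem L132452 : W_47 (nat_lit 8) (nat_lit 0x10001e0000000100000000000000000000000) (nat_lit 0x0) (nat_lit 0x1e001e001fc000000000000000000) := T_47 (nat_lit 111) (nat_lit 112) (nat_lit 2) (nat_lit 6) (nat_lit 7) L132451 (by decide +kernel)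
theorem L132453 : W_47 (nat_lit 2) (nat_lit 0x100018001e000a000180020000000000000000000) (nat_lit 0x0) (nat_lit 0x4000200000000000000004000000000000000000000000000) := D_47 (nat_lit 177) (nat_lit 194) (nat_lit 110) (nat_lit 6) (nat_lit 7) (nat_lit 11) (nat_lit 6) (nat_lit 7) (nat_lit 10) (by decide +kernel)
theorem L132454 : W_47 (nat_lit 3) (nat_lit 0x18001e000a000180020000000000000000000) (nat_lit 0x0) (nat_lit 0x4000200010000000000005000000000000000000000000000) := T_47 (nat_lit 160) (nat_lit 108) (nat_lit 4) (nat_lit 7) (nat_lit 9) L132453 (by decide +kernel)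
theorem L132455 : W_47 (nat_lit 4) (nat_lit 0x18001e000a000100020000000000000000000) (nat_lit 0x0) (nat_lit 0x4000200010000000000005000080004000000000000000000) := T_47 (nat_lit 91) (nat_lit 74) (nat_lit 4) (nat_lit 7) (nat_lit 8) L132454 (by decide +kernel)
theorem L132456 : W_47 (nat_lit 5) (nat_lit 0x18001e000a000100000000000000000000000) (nat_lit 0x0) (nat_lit 0x4000200010000000000005000480024000000000000000000) := T_47 (nat_lit 77) (nat_lit 94) (nat_lit 5) (nat_lit 9) (nat_lit 4) L132455 (by decide +kernel)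
theorem L132457 : W_47 (nat_lit 6) (nat_lit 0x18001e0002000100000000000000000000000) (nat_lit 0x0) (nat_lit 0x400020001000000000001d000480024000000000000000000) := T_47 (nat_lit 111) (nat_lit 112) (nat_lit 2) (nat_lit 6) (nat_lit 7) L132456 (by decide +kernel)
theorem L132458 : W_47 (nat_lit 2) (nat_lit 0x18001e000a2003e0021000000000000000000) (nat_lit 0x0) (nat_lit 0x1100010000000000000000000000) := D_47 (nat_lit 88) (nat_lit 108) (nat_lit 104) (nat_lit 3) (nat_lit 3) (nat_lit 5) (nat_lit 1) (nat_lit 6) (nat_lit 5) (by decide +kernel)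
theorem L132459 : W_47 (nat_lit 3) (nat_lit 0x18001e000a0003e0021000000000000000000) (nat_lit 0x0) (nat_lit 0x1700010000000000000000000000) := T_47 (nat_lit 105) (nat_lit 106) (nat_lit 1) (nat_lit 7) (nat_lit 5) L132458 (by decide +kernel)
theorem L132460 : W_47 (nat_lit 4) (nat_lit 0x18001e000a0003c0021000000000000000000) (nat_lit 0x0) (nat_lit 0x1700030000800000000000000000) := T_47 (nat_lit 89) (nat_lit 71) (nat_lit 0) (nat_lit 7) (nat_lit 5) L132459 (by decide +kernel)
theorem L132461 : W_47 (nat_lit 5) (nat_lit 0x18001e000a0003c0001000000000000000000) (nat_lit 0x0) (nat_lit 0x1700430020800000000000000000) := T_47 (nat_lit 77) (nat_lit 94) (nat_lit 5) (nat_lit 9) (nat_lit 4) L132460 (by decide +kernel)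
theorem L132462 : W_47 (nat_lit 6) (nat_lit 0x18001e000a0003c0000000000000000000000) (nat_lit 0x0) (nat_lit 0x1700430023800000000000000000) := T_47 (nat_lit 72) (nat_lit 73) (nat_lit 0) (nat_lit 8) (nat_lit 5) L132461 (by decide +kernel)
theorem L132463 : W_47 (nat_lit 7) (nat_lit 0x18001e000a000380000000000000000000000) (nat_lit 0x0) (nat_lit 0x5700470023800000000000000000) := T_47 (nat_lit 90) (nat_lit 110) (nat_lit 3) (nat_lit 5) (nat_lit 5) L132462 (by decide +kernel)
theorem L132464 : W_47 (nat_lit 8) (nat_lit 0x18001e0002000380000000000000000000000) (nat_lit 0x0) (nat_lit 0x1d700470023800000000000000000) := T_47 (nat_lit 111) (nat_lit 112) (nat_lit 2) (nat_lit 6) (nat_lit 7) L132463 (by decide +kernel)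
theorem L132465 : W_47 (nat_lit 9) (nat_lit 0x18001e0002000180000000000000000000000) (nat_lit 0x0) (nat_lit 0x1d700670033800000000000000000) := T_47 (nat_lit 93) (nat_lit 76) (nat_lit 6) (nat_lit 7) (nat_lit 8) L132464 (by decide +kernel)
theorem L132466 : W_47 (nat_lit 10) (nat_lit 0x18001e0002000100000000000000000000000) (nat_lit 0x0) (nat_lit 0x1d7006f0037800000000000000000) := T_47 (nat_lit 91) (nat_lit 74) (nat_lit 4) (nat_lit 7) (nat_lit 8) L132465 (by decide +kernel)
theorem L132467 : W_47 (nat_lit 2) (nat_lit 0x18001e0002000380000000000000000000000) (nat_lit 0x0) (nat_lit 0x10000000000005000000000000000000000000000) := D_47 (nat_lit 160) (nat_lit 110) (nat_lit 108) (nat_lit 6) (nat_lit 7) (nat_lit 9) (nat_lit 4) (nat_lit 7) (nat_lit 9) (by decide +kernel)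
theorem L132468 : W_47 (nat_lit 3) (nat_lit 0x18001e0002000180000000000000000000000) (nat_lit 0x0) (nat_lit 0x10000000000005000200010000000000000000000) := T_47 (nat_lit 93) (nat_lit 76) (nat_lit 6) (nat_lit 7) (nat_lit 8) L132467 (by decide +kernel)
theorem L132469 : W_47 (nat_lit 4) (nat_lit 0x18001e0002000100000000000000000000000) (nat_lit 0x0) (nat_lit 0x10000000000005000280014000000000000000000) := T_47 (nat_lit 91) (nat_lit 74) (nat_lit 4) (nat_lit 7) (nat_lit 8) L132468 (by decide +kernel)
theorem L132470 : W_47 (nat_lit 5) (nat_lit 0x18001e0002000100000000000000000000000) (nat_lit 0x0) (nat_lit 0x6000300018000000000004000200010000000000000000000) := T_47 (nat_lit 93) (nat_lit 76) (nat_lit 6) (nat_lit 7) (nat_lit 8) L122121 (by decide +kernel)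
theorem L132471 : W_47 (nat_lit 11) (nat_lit 0x10001e0002000100000000000000000000000) (nat_lit 0x0) (nat_lit 0x600030001800080000001d7006f0037800000000000000000) := Q_47 (nat_lit 143) (C_47 L132457 (C_47 L125712 (C_47 L132466 (C_47 L132469 (C_47 L130142 (C_47 L132470 N_47)))))) (by decide +kernel)
theorem L132472 : W_47 (nat_lit 2) (nat_lit 0x18001e000a000780000000000000000000000) (nat_lit 0x0) (nat_lit 0x10000000000001000800000000000000000000000) := D_47 (nat_lit 108) (nat_lit 160) (nat_lit 95) (nat_lit 4) (nat_lit 7) (nat_lit 9) (nat_lit 1) (nat_lit 10) (nat_lit 5) (by decide +kernel)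
theorem L132473 : W_47 (nat_lit 3) (nat_lit 0x18001e000a000700000000000000000000000) (nat_lit 0x0) (nat_lit 0x10000000000001000880004000000000000000000) := T_47 (nat_lit 91) (nat_lit 74) (nat_lit 4) (nat_lit 7) (nat_lit 8) L132472 (by decide +kernel)
theorem L132474 : W_47 (nat_lit 4) (nat_lit 0x18001e000a000300000000000000000000000) (nat_lit 0x0) (nat_lit 0x10000000000001000c80024000000000000000000) := T_47 (nat_lit 94) (nat_lit 77) (nat_lit 5) (nat_lit 9) (nat_lit 4) L132473 (by decide +kernel)
theorem L132475 : W_47 (nat_lit 5) (nat_lit 0x18001e000a000100000000000000000000000) (nat_lit 0x0) (nat_lit 0x10000000000001000e80034000000000000000000) := T_47 (nat_lit 93) (nat_lit 76) (nat_lit 6) (nat_lit 7) (nat_lit 8) L132474 (by decide +kernel)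
theorem L132476 : W_47 (nat_lit 6) (nat_lit 0x18001e0002000100000000000000000000000) (nat_lit 0x0) (nat_lit 0x10000000000019000e80034000000000000000000) := T_47 (nat_lit 111) (nat_lit 112) (nat_lit 2) (nat_lit 6) (nat_lit 7) L132475 (by decide +kernel)
theorem L132477 : W_47 (nat_lit 4) (nat_lit 0x18001e0006000300000000000000000000000) (nat_lit 0x0) (nat_lit 0x38001c00020000000000000000000) := T_47 (nat_lit 112) (nat_lit 111) (nat_lit 2) (nat_lit 6) (nat_lit 7) L122112 (by decide +kernel)
theorem L132478 : W_47 (nat_lit 5) (nat_lit 0x18001e0002000300000000000000000000000) (nat_lit 0x0) (nat_lit 0x1000000000003c001c00020000000000000000000) := T_47 (nat_lit 110) (nat_lit 160) (nat_lit 6) (nat_lit 7) (nat_lit 9) L132477 (by decide +kernel)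
theorem L132479 : W_47 (nat_lit 6) (nat_lit 0x18001e0002000100000000000000000000000) (nat_lit 0x0) (nat_lit 0x1000000000003c001e00030000000000000000000) := T_47 (nat_lit 93) (nat_lit 76) (nat_lit 6) (nat_lit 7) (nat_lit 8) L132478 (by decide +kernel)
theorem L132480 : W_47 (nat_lit 11) (nat_lit 0x10001e0002000100000000000000000000000) (nat_lit 0x0) (nat_lit 0x400020001000080000003d701ef0037800000000000000000) := Q_47 (nat_lit 143) (C_47 L132457 (C_47 L125712 (C_47 L132469 (C_47 L132466 (C_47 L132476 (C_47 L132479 N_47)))))) (by decide +kernel)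
theorem L132481 : W_47 (nat_lit 4) (nat_lit 0x10001e000a000100000000000000000000000) (nat_lit 0x0) (nat_lit 0x100008000e00000000000400020000000000000000000) := T_47 (nat_lit 77) (nat_lit 94) (nat_lit 5) (nat_lit 9) (nat_lit 4) L122115 (by decide +kernel)
theorem L132482 : W_47 (nat_lit 5) (nat_lit 0x10001e0002000100000000000000000000000) (nat_lit 0x0) (nat_lit 0x100008000e00000018000400020000000000000000000) := T_47 (nat_lit 111) (nat_lit 112) (nat_lit 2) (nat_lit 6) (nat_lit 7) L132481 (by decide +kernel)
theorem L132483 : W_47 (nat_lit 12) (nat_lit 0x10001e0000000100000000000000000000000) (nat_lit 0x0) (nat_lit 0x6000300018000e0000003f701ef0037800000000000000000) := Q_47 (nat_lit 109) (C_47 L132444 (C_47 L132471 (C_47 L132480 (C_47 L132482 N_47)))) (by decide +kernel)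
theorem L132484 : W_47 (nat_lit 13) (nat_lit 0x10001e0000000000000000000000000000000) (nat_lit 0x0) (nat_lit 0x6000300018000e0000007f701ff01ff801800000000000000) := Q_47 (nat_lit 92) (C_47 L132373 (C_47 L132443 (C_47 L132445 (C_47 L132452 (C_47 L132483 N_47))))) (by decide +kernel)
theorem L132485 : W_47 (nat_lit 2) (nat_lit 0x10801f8008200000020000000000000000000) (nat_lit 0x0) (nat_lit 0x40004000100000000000000000000000000) := D_47 (nat_lit 122) (nat_lit 138) (nat_lit 104) (nat_lit 1) (nat_lit 6) (nat_lit 7) (nat_lit 0) (nat_lit 6) (nat_lit 7) (by decide +kernel)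
theorem L132486 : W_47 (nat_lit 3) (nat_lit 0x10801f8008000000020000000000000000000) (nat_lit 0x0) (nat_lit 0x40004000700000000000000000000000000) := T_47 (nat_lit 105) (nat_lit 106) (nat_lit 0) (nat_lit 7) (nat_lit 7) L132485 (by decide +kernel)
theorem L132487 : W_47 (nat_lit 4) (nat_lit 0x10001f8008000000020000000000000000000) (nat_lit 0x0) (nat_lit 0x1c0004000700000000000000000000000000) := T_47 (nat_lit 139) (nat_lit 140) (nat_lit 1) (nat_lit 7) (nat_lit 7) L132486 (by decide +kernel)
theorem L132488 : W_47 (nat_lit 5) (nat_lit 0x10001f0008000000020000000000000000000) (nat_lit 0x0) (nat_lit 0x9c000c000700000000000000000000000000) := T_47 (nat_lit 123) (nat_lit 143) (nat_lit 3) (nat_lit 4) (nat_lit 7) L132487 (by decide +kernel)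
theorem L132489 : W_47 (nat_lit 6) (nat_lit 0x10001f0008000000000000000000000000000) (nat_lit 0x0) (nat_lit 0x9c000c000700400020000000000000000000) := T_47 (nat_lit 77) (nat_lit 94) (nat_lit 5) (nat_lit 9) (nat_lit 4) L132488 (by decide +kernel)
theorem L132490 : W_47 (nat_lit 7) (nat_lit 0x10001e0008000000000000000000000000000) (nat_lit 0x0) (nat_lit 0x9c001c004700400020000000000000000000) := T_47 (nat_lit 124) (nat_lit 110) (nat_lit 2) (nat_lit 5) (nat_lit 7) L132489 (by decide +kernel)
theorem L132491 : W_47 (nat_lit 8) (nat_lit 0x10001e0000000000000000000000000000000) (nat_lit 0x0) (nat_lit 0x9c001c01c700400020000000000000000000) := T_47 (nat_lit 111) (nat_lit 112) (nat_lit 2) (nat_lit 6) (nat_lit 7) L132490 (by decide +kernel)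
theorem L132492 : W_47 (nat_lit 14) (nat_lit 0x10001c0000000000000000000000000000000) (nat_lit 0x0) (nat_lit 0x6000300018000fc003c07f701ff01ff801800000000000000) := Q_47 (nat_lit 125) (C_47 L132317 (C_47 L123002 (C_47 L132321 (C_47 L132484 (C_47 L130164 (C_47 L132491 N_47)))))) (by decide +kernel)
theorem L132493 : W_47 (nat_lit 18) (nat_lit 0x10000c0000000000000000000000000000000) (nat_lit 0x0) (nat_lit 0x600130009801cfc073c07f707ff03ff83ff801f8007400000) := Q_47 (nat_lit 128) (C_47 L123023 (C_47 L124370 (C_47 L123016 (C_47 L123692 (C_47 L123761 (C_47 L132492 N_47)))))) (by decide +kernel)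
theorem L132494 : W_47 (nat_lit 2) (nat_lit 0x180018001c0003400000000000000000000000000) (nat_lit 0x0) (nat_lit 0x600000000000100000000000000000000000) := D_47 (nat_lit 142) (nat_lit 92) (nat_lit 141) (nat_lit 5) (nat_lit 7) (nat_lit 5) (nat_lit 2) (nat_lit 5) (nat_lit 8) (by decide +kernel)
theorem L132495 : W_47 (nat_lit 3) (nat_lit 0x100018001c0003400000000000000000000000000) (nat_lit 0x0) (nat_lit 0x100008000600000000000100000000000000000000000) := T_47 (nat_lit 159) (nat_lit 176) (nat_lit 5) (nat_lit 7) (nat_lit 6) L132494 (by decide +kernel)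
theorem L132496 : W_47 (nat_lit 4) (nat_lit 0x100018000c0003400000000000000000000000000) (nat_lit 0x0) (nat_lit 0x100008000600300000000100000000000000000000000) := T_47 (nat_lit 128) (nat_lit 129) (nat_lit 0) (nat_lit 10) (nat_lit 7) L132495 (by decide +kernel)
theorem L132497 : W_47 (nat_lit 5) (nat_lit 0x100018000c0003000000000000000000000000000) (nat_lit 0x0) (nat_lit 0x100008000600300000c00100000000000000000000000) := T_47 (nat_lit 106) (nat_lit 107) (nat_lit 3) (nat_lit 4) (nat_lit 6) L132496 (by decide +kernel)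
theorem L132498 : W_47 (nat_lit 6) (nat_lit 0x100018000c0002000000000000000000000000000) (nat_lit 0x0) (nat_lit 0x100008000600300001c00180000000000000000000000) := T_47 (nat_lit 108) (nat_lit 91) (nat_lit 4) (nat_lit 7) (nat_lit 9) L132497 (by decide +kernel)
theorem L132499 : W_47 (nat_lit 10) (nat_lit 0x100018000c0000000000000000000000000000000) (nat_lit 0x0) (nat_lit 0x10000e000700318007c003e0010000000000000000000) := Q_47 (nat_lit 109) (C_47 L122719 (C_47 L128354 (C_47 L122711 (C_47 L132498 N_47)))) (by decide +kernel)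
theorem L132500 : W_47 (nat_lit 11) (nat_lit 0x18000c0000000000000000000000000000000) (nat_lit 0x0) (nat_lit 0xe000f0001e000700318007c003e0010000000000000000000) := Q_47 (nat_lit 160) (C_47 L122699 (C_47 L122435 (C_47 L132499 N_47))) (by decide +kernel)
theorem L132501 : W_47 (nat_lit 2) (nat_lit 0x10001a000f0001800200000000000000000000000) (nat_lit 0x0) (nat_lit 0x2000080004000000000000000000) := D_47 (nat_lit 91) (nat_lit 109) (nat_lit 74) (nat_lit 4) (nat_lit 7) (nat_lit 9) (nat_lit 7) (nat_lit 6) (nat_lit 4) (by decide +kernel)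
theorem L132502 : W_47 (nat_lit 3) (nat_lit 0x10001a000f0000800200000000000000000000000) (nat_lit 0x0) (nat_lit 0x100003000080004000000000000000000) := T_47 (nat_lit 108) (nat_lit 128) (nat_lit 0) (nat_lit 9) (nat_lit 7) L132501 (by decide +kernel)
theorem L132503 : W_47 (nat_lit 4) (nat_lit 0x10001a000f0000000200000000000000000000000) (nat_lit 0x0) (nat_lit 0x100003c00080004000000000000000000) := T_47 (nat_lit 107) (nat_lit 106) (nat_lit 0) (nat_lit 8) (nat_lit 7) L132502 (by decide +kernel)
theorem L132504 : W_47 (nat_lit 5) (nat_lit 0x100018000f0000000200000000000000000000000) (nat_lit 0x0) (nat_lit 0x300100003c00080004000000000000000000) := T_47 (nat_lit 141) (nat_lit 140) (nat_lit 1) (nat_lit 8) (nat_lit 7) L132503 (by decide +kernel)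
theorem L132505 : W_47 (nat_lit 6) (nat_lit 0x100018000e0000000200000000000000000000000) (nat_lit 0x0) (nat_lit 0x300118003c00080004000000000000000000) := T_47 (nat_lit 124) (nat_lit 123) (nat_lit 3) (nat_lit 4) (nat_lit 7) L132504 (by decide +kernel)
theorem L132506 : W_47 (nat_lit 7) (nat_lit 0x100018000e0000000000000000000000000000000) (nat_lit 0x0) (nat_lit 0x300118007c00280004000000000000000000) := T_47 (nat_lit 93) (nat_lit 110) (nat_lit 5) (nat_lit 8) (nat_lit 5) L132505 (by decide +kernel)
theorem L132507 : W_47 (nat_lit 2) (nat_lit 0x100018000f0000000000000000000000000000000) (nat_lit 0x0) (nat_lit 0xc000200000000000000000000000) := D_47 (nat_lit 110) (nat_lit 93) (nat_lit 111) (nat_lit 5) (nat_lit 8) (nat_lit 5) (nat_lit 2) (nat_lit 5) (nat_lit 7) (by decide +kernel)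
theorem L132508 : W_47 (nat_lit 3) (nat_lit 0x100018000e0000000000000000000000000000000) (nat_lit 0x0) (nat_lit 0x1800c000200000000000000000000000) := T_47 (nat_lit 124) (nat_lit 123) (nat_lit 3) (nat_lit 4) (nat_lit 7) L132507 (by decide +kernel)
theorem L132509 : W_47 (nat_lit 2) (nat_lit 0x10001a000f0005800000000000000000000000000) (nat_lit 0x0) (nat_lit 0x2000080004000000000000000000) := D_47 (nat_lit 91) (nat_lit 74) (nat_lit 109) (nat_lit 7) (nat_lit 6) (nat_lit 4) (nat_lit 4) (nat_lit 7) (nat_lit 9) (by decide +kernel)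
theorem L132510 : W_47 (nat_lit 3) (nat_lit 0x10001a000f0004800000000000000000000000000) (nat_lit 0x0) (nat_lit 0x100003000080004000000000000000000) := T_47 (nat_lit 108) (nat_lit 128) (nat_lit 0) (nat_lit 9) (nat_lit 7) L132509 (by decide +kernel)
theorem L132511 : W_47 (nat_lit 4) (nat_lit 0x10001a000f0004000000000000000000000000000) (nat_lit 0x0) (nat_lit 0x100003c00080004000000000000000000) := T_47 (nat_lit 107) (nat_lit 106) (nat_lit 0) (nat_lit 8) (nat_lit 7) L132510 (by decide +kernel)
theorem L132512 : W_47 (nat_lit 5) (nat_lit 0x100018000f0004000000000000000000000000000) (nat_lit 0x0) (nat_lit 0x300100003c00080004000000000000000000) := T_47 (nat_lit 141) (nat_lit 140) (nat_lit 1) (nat_lit 8) (nat_lit 7) L132511 (by decide +kernel)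
theorem L132513 : W_47 (nat_lit 6) (nat_lit 0x100018000f0000000000000000000000000000000) (nat_lit 0x0) (nat_lit 0x30010000fc00080004000000000000000000) := T_47 (nat_lit 110) (nat_lit 111) (nat_lit 2) (nat_lit 5) (nat_lit 7) L132512 (by decide +kernel)
theorem L132514 : W_47 (nat_lit 7) (nat_lit 0x100018000e0000000000000000000000000000000) (nat_lit 0x0) (nat_lit 0x30011800fc00080004000000000000000000) := T_47 (nat_lit 124) (nat_lit 123) (nat_lit 3) (nat_lit 4) (nat_lit 7) L132513 (by decide +kernel)
theorem L132515 : W_47 (nat_lit 3) (nat_lit 0x100018001e0000000200000000000000000000000) (nat_lit 0x0) (nat_lit 0x600038000000000000000000000000000) := T_47 (nat_lit 112) (nat_lit 111) (nat_lit 2) (nat_lit 6) (nat_lit 7) L124375 (by decide +kernel)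
theorem L132516 : W_47 (nat_lit 4) (nat_lit 0x100018001e0000000000000000000000000000000) (nat_lit 0x0) (nat_lit 0x60003c000200000000000000000000000) := T_47 (nat_lit 93) (nat_lit 110) (nat_lit 5) (nat_lit 8) (nat_lit 5) L132515 (by decide +kernel)
theorem L132517 : W_47 (nat_lit 3) (nat_lit 0x100018001e0000000000000000000000000000000) (nat_lit 0x0) (nat_lit 0x3800080004000000000000000000) := T_47 (nat_lit 108) (nat_lit 107) (nat_lit 0) (nat_lit 9) (nat_lit 7) L130135 (by decide +kernel)
theorem L132518 : W_47 (nat_lit 5) (nat_lit 0x100018000e0000000000000000000000000000000) (nat_lit 0x0) (nat_lit 0x70003f800280004000000000000000000) := Q_47 (nat_lit 128) (C_47 L132516 (C_47 L132517 N_47)) (by decide +kernel)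
theorem L132519 : W_47 (nat_lit 2) (nat_lit 0x10001a003f0000800000000000000000000000000) (nat_lit 0x0) (nat_lit 0x38000000000000000000000000000) := D_47 (nat_lit 112) (nat_lit 111) (nat_lit 113) (nat_lit 2) (nat_lit 6) (nat_lit 7) (nat_lit 2) (nat_lit 7) (nat_lit 7) (by decide +kernel)
theorem L132520 : W_47 (nat_lit 3) (nat_lit 0x10001a001f0000800000000000000000000000000) (nat_lit 0x0) (nat_lit 0x600038000000000000000000000000000) := T_47 (nat_lit 129) (nat_lit 130) (nat_lit 1) (nat_lit 11) (nat_lit 7) L132519 (by decide +kernel)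
theorem L132521 : W_47 (nat_lit 4) (nat_lit 0x10001a000f0000800000000000000000000000000) (nat_lit 0x0) (nat_lit 0x700039000000000000000000000000000) := T_47 (nat_lit 128) (nat_lit 108) (nat_lit 0) (nat_lit 9) (nat_lit 7) L132520 (by decide +kernel)
theorem L132522 : W_47 (nat_lit 5) (nat_lit 0x10001a000f0000000000000000000000000000000) (nat_lit 0x0) (nat_lit 0x700039c00000000000000000000000000) := T_47 (nat_lit 107) (nat_lit 106) (nat_lit 0) (nat_lit 8) (nat_lit 7) L132521 (by decide +kernel)
theorem L132523 : W_47 (nat_lit 6) (nat_lit 0x100018000f0000000000000000000000000000000) (nat_lit 0x0) (nat_lit 0x300700039c00000000000000000000000000) := T_47 (nat_lit 141) (nat_lit 140) (nat_lit 1) (nat_lit 8) (nat_lit 7) L132522 (by decide +kernel)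
theorem L132524 : W_47 (nat_lit 7) (nat_lit 0x100018000e0000000000000000000000000000000) (nat_lit 0x0) (nat_lit 0x300718039c00000000000000000000000000) := T_47 (nat_lit 124) (nat_lit 123) (nat_lit 3) (nat_lit 4) (nat_lit 7) L132523 (by decide +kernel)
theorem L132525 : W_47 (nat_lit 8) (nat_lit 0x100018000c0000000000000000000000000000000) (nat_lit 0x0) (nat_lit 0x30073803fc00280004000000000000000000) := Q_47 (nat_lit 125) (C_47 L132506 (C_47 L132508 (C_47 L132514 (C_47 L132518 (C_47 L132524 N_47))))) (by decide +kernel)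
theorem L132526 : W_47 (nat_lit 9) (nat_lit 0x18000c0000000000000000000000000000000) (nat_lit 0x0) (nat_lit 0xe000f0001e00030073803fc00280004000000000000000000) := Q_47 (nat_lit 160) (C_47 L122699 (C_47 L122435 (C_47 L132525 N_47))) (by decide +kernel)
theorem L132527 : W_47 (nat_lit 2) (nat_lit 0x180018001c0006000000000000000000000000000) (nat_lit 0x0) (nat_lit 0x600000000000100000000000000000000000) := D_47 (nat_lit 142) (nat_lit 92) (nat_lit 141) (nat_lit 5) (nat_lit 7) (nat_lit 5) (nat_lit 2) (nat_lit 5) (nat_lit 8) (by decide +kernel)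
theorem L132528 : W_47 (nat_lit 3) (nat_lit 0x100018001c0006000000000000000000000000000) (nat_lit 0x0) (nat_lit 0x100008000600000000000100000000000000000000000) := T_47 (nat_lit 159) (nat_lit 176) (nat_lit 5) (nat_lit 7) (nat_lit 6) L132527 (by decide +kernel)
theorem L132529 : W_47 (nat_lit 4) (nat_lit 0x100018001c0002000000000000000000000000000) (nat_lit 0x0) (nat_lit 0x100008000600000004000300000000000000000000000) := T_47 (nat_lit 110) (nat_lit 93) (nat_lit 6) (nat_lit 7) (nat_lit 9) L132528 (by decide +kernel)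
theorem L132530 : W_47 (nat_lit 2) (nat_lit 0x10001a001c0003000000000000000000000000000) (nat_lit 0x0) (nat_lit 0x20000c00000000000000000000000000) := D_47 (nat_lit 107) (nat_lit 106) (nat_lit 125) (nat_lit 3) (nat_lit 4) (nat_lit 6) (nat_lit 0) (nat_lit 9) (nat_lit 7) (by decide +kernel)
theorem L132531 : W_47 (nat_lit 3) (nat_lit 0x10001a001c0002000000000000000000000000000) (nat_lit 0x0) (nat_lit 0x20001c00080000000000000000000000) := T_47 (nat_lit 108) (nat_lit 91) (nat_lit 4) (nat_lit 7) (nat_lit 9) L132530 (by decide +kernel)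
theorem L132532 : W_47 (nat_lit 4) (nat_lit 0x100018001c0002000000000000000000000000000) (nat_lit 0x0) (nat_lit 0x600020001c00080000000000000000000000) := T_47 (nat_lit 141) (nat_lit 142) (nat_lit 2) (nat_lit 5) (nat_lit 8) L132531 (by decide +kernel)
theorem L132533 : W_47 (nat_lit 5) (nat_lit 0x100018001c0000000000000000000000000000000) (nat_lit 0x0) (nat_lit 0x100008000600020007c00380000000000000000000000) := Q_47 (nat_lit 109) (C_47 L122705 (C_47 L122702 (C_47 L132529 (C_47 L132532 N_47)))) (by decide +kernel)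
theorem L132534 : W_47 (nat_lit 8) (nat_lit 0x18001c0000000000000000000000000000000) (nat_lit 0x0) (nat_lit 0xe000f0001e000600020007c00380000000000000000000000) := Q_47 (nat_lit 160) (C_47 L122815 (C_47 L122809 (C_47 L132533 N_47))) (by decide +kernel)
theorem L132535 : W_47 (nat_lit 9) (nat_lit 0x18000c0000000000000000000000000000000) (nat_lit 0x0) (nat_lit 0xe000f0009e00c60072003fc00780020000000000000000000) := Q_47 (nat_lit 128) (C_47 L122442 (C_47 L128878 (C_47 L132534 N_47))) (by decide +kernel)
theorem L132536 : W_47 (nat_lit 2) (nat_lit 0x100018000c0002000300000000000000000000000) (nat_lit 0x0) (nat_lit 0x1000080004000000000000000000) := D_47 (nat_lit 91) (nat_lit 74) (nat_lit 108) (nat_lit 4) (nat_lit 7) (nat_lit 8) (nat_lit 4) (nat_lit 7) (nat_lit 9) (by decide +kernel)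
theorem L132537 : W_47 (nat_lit 3) (nat_lit 0x100018000c0002000200000000000000000000000) (nat_lit 0x0) (nat_lit 0x1000180014000000000000000000) := T_47 (nat_lit 92) (nat_lit 76) (nat_lit 6) (nat_lit 7) (nat_lit 8) L132536 (by decide +kernel)
theorem L132538 : W_47 (nat_lit 4) (nat_lit 0x100018000c0002000000000000000000000000000) (nat_lit 0x0) (nat_lit 0x5000380014000000000000000000) := T_47 (nat_lit 93) (nat_lit 110) (nat_lit 6) (nat_lit 7) (nat_lit 9) L132537 (by decide +kernel)
theorem L132539 : W_47 (nat_lit 13) (nat_lit 0x100018000c0000000000000000000000000000000) (nat_lit 0x0) (nat_lit 0x1c000e00070003803fc01fe0017000380010000000000) := Q_47 (nat_lit 109) (C_47 L128354 (C_47 L128858 (C_47 L132538 (C_47 L127486 N_47)))) (by decide +kernel)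
theorem L132540 : W_47 (nat_lit 14) (nat_lit 0x18000c0000000000000000000000000000000) (nat_lit 0x0) (nat_lit 0xe000fc001e00070003803fc01fe0017000380010000000000) := Q_47 (nat_lit 160) (C_47 L122699 (C_47 L122435 (C_47 L132539 N_47))) (by decide +kernel)
theorem L132541 : W_47 (nat_lit 2) (nat_lit 0x100018000c0003800000000000000000000000000) (nat_lit 0x0) (nat_lit 0x320000000000000000000000000000000) := D_47 (nat_lit 128) (nat_lit 129) (nat_lit 125) (nat_lit 0) (nat_lit 10) (nat_lit 7) (nat_lit 0) (nat_lit 9) (nat_lit 7) (by decide +kernel)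
theorem L132542 : W_47 (nat_lit 3) (nat_lit 0x100018000c0003000000000000000000000000000) (nat_lit 0x0) (nat_lit 0x320000c00000000000000000000000000) := T_47 (nat_lit 107) (nat_lit 106) (nat_lit 3) (nat_lit 4) (nat_lit 6) L132541 (by decide +kernel)
theorem L132543 : W_47 (nat_lit 4) (nat_lit 0x100018000c0002000000000000000000000000000) (nat_lit 0x0) (nat_lit 0x320001c00080000000000000000000000) := T_47 (nat_lit 108) (nat_lit 91) (nat_lit 4) (nat_lit 7) (nat_lit 9) L132542 (by decide +kernel)
theorem L132544 : W_47 (nat_lit 5) (nat_lit 0x100018000c0000000000000000000000000000000) (nat_lit 0x0) (nat_lit 0x100008000400320007c00380014000000000000000000) := Q_47 (nat_lit 109) (C_47 L132538 (C_47 L128354 (C_47 L122711 (C_47 L132543 N_47)))) (by decide +kernel)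
theorem L132545 : W_47 (nat_lit 7) (nat_lit 0x18000c0000000000000000000000000000000) (nat_lit 0x0) (nat_lit 0xe000f0001e000400320007c00380014000000000000000000) := Q_47 (nat_lit 160) (C_47 L122699 (C_47 L122435 (C_47 L132544 N_47))) (by decide +kernel)
theorem L132546 : W_47 (nat_lit 2) (nat_lit 0x10001c000c0002000000000000000000000000000) (nat_lit 0x0) (nat_lit 0x100008000000000000000100000000000000000000000) := D_47 (nat_lit 159) (nat_lit 92) (nat_lit 176) (nat_lit 5) (nat_lit 7) (nat_lit 5) (nat_lit 5) (nat_lit 7) (nat_lit 6) (by decide +kernel)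
theorem L132547 : W_47 (nat_lit 2) (nat_lit 0x10001c000c0002000300000000000000000000000) (nat_lit 0x0) (nat_lit 0x1000080004000000000000000000) := D_47 (nat_lit 91) (nat_lit 74) (nat_lit 108) (nat_lit 4) (nat_lit 7) (nat_lit 8) (nat_lit 4) (nat_lit 7) (nat_lit 9) (by decide +kernel)
theorem L132548 : W_47 (nat_lit 3) (nat_lit 0x10001c000c0002000200000000000000000000000) (nat_lit 0x0) (nat_lit 0x1000180014000000000000000000) := T_47 (nat_lit 92) (nat_lit 76) (nat_lit 6) (nat_lit 7) (nat_lit 8) L132547 (by decide +kernel)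
theorem L132549 : W_47 (nat_lit 4) (nat_lit 0x10001c000c0002000000000000000000000000000) (nat_lit 0x0) (nat_lit 0x5000380014000000000000000000) := T_47 (nat_lit 93) (nat_lit 110) (nat_lit 6) (nat_lit 7) (nat_lit 9) L132548 (by decide +kernel)
theorem L132550 : W_47 (nat_lit 8) (nat_lit 0x10001c000c0002000000000000000000000000000) (nat_lit 0x0) (nat_lit 0x18000e00000033800d000280000000000000000000000) := T_47 (nat_lit 108) (nat_lit 91) (nat_lit 4) (nat_lit 7) (nat_lit 9) L127232 (by decide +kernel)
theorem L132551 : W_47 (nat_lit 9) (nat_lit 0x10001c000c0000000000000000000000000000000) (nat_lit 0x0) (nat_lit 0x18000e00000033800f000380014000000000000000000) := Q_47 (nat_lit 109) (C_47 L132546 (C_47 L132549 (C_47 L132550 N_47))) (by decide +kernel)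
theorem L132552 : W_47 (nat_lit 11) (nat_lit 0x100018000c0000000000000000000000000000000) (nat_lit 0x0) (nat_lit 0x38001e000e00070033800f000380014000000000000000000) := Q_47 (nat_lit 142) (C_47 L122707 (C_47 L129017 (C_47 L132551 N_47))) (by decide +kernel)
theorem L132553 : W_47 (nat_lit 12) (nat_lit 0x18000c0000000000000000000000000000000) (nat_lit 0x0) (nat_lit 0xf800fe001e00070033800f000380014000000000000000000) := Q_47 (nat_lit 160) (C_47 L122699 (C_47 L122435 (C_47 L132552 N_47))) (by decide +kernel)
theorem L132554 : W_47 (nat_lit 17) (nat_lit 0x10000c0000000000000000000000000000000) (nat_lit 0x0) (nat_lit 0x4000e0007000fe00ff809fc0cfe073f03ff01ff8037c003e0015000000000) := Q_47 (nat_lit 143) (C_47 L130053 (C_47 L132500 (C_47 L122698 (C_47 L126681 (C_47 L132526 (C_47 L122461 (C_47 L132535 (C_47 L132540 (C_47 L132545 (C_47 L126720 (C_47 L132553 N_47))))))))))) (by decide +kernel)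
theorem L132555 : W_47 (nat_lit 11) (nat_lit 0x18001c0000000000000000000000000000000) (nat_lit 0x0) (nat_lit 0x800070003801f001fc01ff000000000000000000) := Q_47 (nat_lit 125) (C_47 L122450 (C_47 L132372 (C_47 L122463 N_47))) (by decide +kernel)
theorem L132556 : W_47 (nat_lit 12) (nat_lit 0x18000c0000000000000000000000000000000) (nat_lit 0x0) (nat_lit 0x8800c70073803f001fc01ff000000000000000000) := Q_47 (nat_lit 128) (C_47 L122442 (C_47 L128878 (C_47 L132555 N_47))) (by decide +kernel)
theorem L132557 : W_47 (nat_lit 7) (nat_lit 0x18000c0000000000000000000000000000000) (nat_lit 0x0) (nat_lit 0x9000c60073803d800480024000000000000000000) := Q_47 (nat_lit 128) (C_47 L122442 (C_47 L128878 (C_47 L126697 N_47))) (by decide +kernel)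
theorem L132558 : W_47 (nat_lit 11) (nat_lit 0x10001c000c0000000000000000000000000000000) (nat_lit 0x0) (nat_lit 0x300018001c000e000300038007000380014000000000000000000) := Q_47 (nat_lit 109) (C_47 L132549 (C_47 L132546 (C_47 L124841 N_47))) (by decide +kernel)
theorem L132559 : W_47 (nat_lit 12) (nat_lit 0x1c000c0000000000000000000000000000000) (nat_lit 0x0) (nat_lit 0x3000f800fc001e000300038007800380014000000000000000000) := Q_47 (nat_lit 160) (C_47 L129159 (C_47 L122819 (C_47 L132558 N_47))) (by decide +kernel)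
theorem L132560 : W_47 (nat_lit 3) (nat_lit 0x10001c001c0002000000000000000000000000000) (nat_lit 0x0) (nat_lit 0x5800280000000000000000000000) := T_47 (nat_lit 110) (nat_lit 93) (nat_lit 6) (nat_lit 7) (nat_lit 9) L122706 (by decide +kernel)
theorem L132561 : W_47 (nat_lit 4) (nat_lit 0x10001c000c0002000000000000000000000000000) (nat_lit 0x0) (nat_lit 0x300005800280000000000000000000000) := T_47 (nat_lit 128) (nat_lit 129) (nat_lit 1) (nat_lit 10) (nat_lit 7) L132560 (by decide +kernel)
theorem L132562 : W_47 (nat_lit 5) (nat_lit 0x1c000c0002000000000000000000000000000) (nat_lit 0x0) (nat_lit 0x6000300018000000320005800280000000000000000000000) := Q_47 (nat_lit 160) (C_47 L125441 (C_47 L124843 (C_47 L132561 N_47))) (by decide +kernel)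
theorem L132563 : W_47 (nat_lit 7) (nat_lit 0x1c000c0000000000000000000000000000000) (nat_lit 0x0) (nat_lit 0x600030001800000032000780038000c000000000000000000) := Q_47 (nat_lit 109) (C_47 L126580 (C_47 L127217 (C_47 L132562 N_47))) (by decide +kernel)
theorem L132564 : W_47 (nat_lit 13) (nat_lit 0x18000c0000000000000000000000000000000) (nat_lit 0x0) (nat_lit 0x3000f800fc001e00070033800780038001c000000000000000000) := Q_47 (nat_lit 142) (C_47 L127188 (C_47 L132559 (C_47 L132563 N_47))) (by decide +kernel)
theorem L132565 : W_47 (nat_lit 2) (nat_lit 0x2000000018000f0005800080000000000000000000000) (nat_lit 0x0) (nat_lit 0x4000300000000000000000000000000000000000) := D_47 (nat_lit 141) (nat_lit 140) (nat_lit 158) (nat_lit 1) (nat_lit 8) (nat_lit 7) (nat_lit 6) (nat_lit 5) (nat_lit 9) (by decide +kernel)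
theorem L132566 : W_47 (nat_lit 3) (nat_lit 0x2000000018000e0005800080000000000000000000000) (nat_lit 0x0) (nat_lit 0x4000300018000000000000000000000000000000) := T_47 (nat_lit 124) (nat_lit 123) (nat_lit 3) (nat_lit 4) (nat_lit 7) L132565 (by decide +kernel)
theorem L132567 : W_47 (nat_lit 4) (nat_lit 0x2000000018000e0005000080000000000000000000000) (nat_lit 0x0) (nat_lit 0x4000300118000800000000000000000000000000) := T_47 (nat_lit 107) (nat_lit 128) (nat_lit 0) (nat_lit 9) (nat_lit 7) L132566 (by decide +kernel)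
theorem L132568 : W_47 (nat_lit 5) (nat_lit 0x2000000018000e0005000000000000000000000000000) (nat_lit 0x0) (nat_lit 0x4000300118000800080004000000000000000000) := T_47 (nat_lit 91) (nat_lit 74) (nat_lit 7) (nat_lit 6) (nat_lit 4) L132567 (by decide +kernel)
theorem L132569 : W_47 (nat_lit 6) (nat_lit 0x18000e0005000000000000000000000000000) (nat_lit 0x0) (nat_lit 0x200014000300118000800080004000000000000000000) := T_47 (nat_lit 177) (nat_lit 160) (nat_lit 6) (nat_lit 7) (nat_lit 10) L132568 (by decide +kernel)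
theorem L132570 : W_47 (nat_lit 2) (nat_lit 0x18001e8005000000004000000000000000000) (nat_lit 0x0) (nat_lit 0x600002000000000000000000000000000) := D_47 (nat_lit 129) (nat_lit 109) (nat_lit 130) (nat_lit 0) (nat_lit 10) (nat_lit 7) (nat_lit 1) (nat_lit 11) (nat_lit 7) (by decide +kernel)
theorem L132571 : W_47 (nat_lit 3) (nat_lit 0x18000e8005000000004000000000000000000) (nat_lit 0x0) (nat_lit 0x700002800000000000000000000000000) := T_47 (nat_lit 128) (nat_lit 107) (nat_lit 0) (nat_lit 9) (nat_lit 7) L132570 (by decide +kernel)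
theorem L132572 : W_47 (nat_lit 4) (nat_lit 0x18000e8005000000000000000000000000000) (nat_lit 0x0) (nat_lit 0x700002800080004000000000000000000) := T_47 (nat_lit 74) (nat_lit 91) (nat_lit 7) (nat_lit 6) (nat_lit 4) L132571 (by decide +kernel)
theorem L132573 : W_47 (nat_lit 5) (nat_lit 0x18000e0005000000000000000000000000000) (nat_lit 0x0) (nat_lit 0x718002800080004000000000000000000) := T_47 (nat_lit 123) (nat_lit 124) (nat_lit 3) (nat_lit 4) (nat_lit 7) L132572 (by decide +kernel)
theorem L132574 : W_47 (nat_lit 2) (nat_lit 0x18001e0005000000000000000000000000000) (nat_lit 0x0) (nat_lit 0x600002000000000000000000000000000) := D_47 (nat_lit 129) (nat_lit 109) (nat_lit 130) (nat_lit 0) (nat_lit 10) (nat_lit 7) (nat_lit 1) (nat_lit 11) (nat_lit 7) (by decide +kernel)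
theorem L132575 : W_47 (nat_lit 3) (nat_lit 0x18000e0005000000000000000000000000000) (nat_lit 0x0) (nat_lit 0x700002800000000000000000000000000) := T_47 (nat_lit 128) (nat_lit 107) (nat_lit 0) (nat_lit 9) (nat_lit 7) L132574 (by decide +kernel)
theorem L132576 : W_47 (nat_lit 2) (nat_lit 0x200000001a000f0005000080000000000000000000000) (nat_lit 0x0) (nat_lit 0x80004000000000000800000000000000000000000000) := D_47 (nat_lit 158) (nat_lit 107) (nat_lit 175) (nat_lit 6) (nat_lit 5) (nat_lit 9) (nat_lit 6) (nat_lit 5) (nat_lit 10) (by decide +kernel)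
theorem L132577 : W_47 (nat_lit 3) (nat_lit 0x2000000018000f0005000080000000000000000000000) (nat_lit 0x0) (nat_lit 0x80004000300000000800000000000000000000000000) := T_47 (nat_lit 141) (nat_lit 140) (nat_lit 1) (nat_lit 8) (nat_lit 7) L132576 (by decide +kernel)
theorem L132578 : W_47 (nat_lit 4) (nat_lit 0x2000000018000f0005000000000000000000000000000) (nat_lit 0x0) (nat_lit 0x80004000300000000800080004000000000000000000) := T_47 (nat_lit 91) (nat_lit 74) (nat_lit 7) (nat_lit 6) (nat_lit 4) L132577 (by decide +kernel)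
theorem L132579 : W_47 (nat_lit 5) (nat_lit 0x2000000018000e0005000000000000000000000000000) (nat_lit 0x0) (nat_lit 0x80004000300018000800080004000000000000000000) := T_47 (nat_lit 124) (nat_lit 123) (nat_lit 3) (nat_lit 4) (nat_lit 7) L132578 (by decide +kernel)
theorem L132580 : W_47 (nat_lit 6) (nat_lit 0x18000e0005000000000000000000000000000) (nat_lit 0x0) (nat_lit 0x280014000300018000800080004000000000000000000) := T_47 (nat_lit 177) (nat_lit 160) (nat_lit 6) (nat_lit 7) (nat_lit 10) L132579 (by decide +kernel)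
theorem L132581 : W_47 (nat_lit 2) (nat_lit 0x18000e0005000080000000000000000000000) (nat_lit 0x0) (nat_lit 0x200010000000000002000000000000000000000000000) := D_47 (nat_lit 160) (nat_lit 177) (nat_lit 109) (nat_lit 6) (nat_lit 7) (nat_lit 10) (nat_lit 4) (nat_lit 7) (nat_lit 9) (by decide +kernel)
theorem L132582 : W_47 (nat_lit 3) (nat_lit 0x18000e0005000000000000000000000000000) (nat_lit 0x0) (nat_lit 0x200010000000000002000080004000000000000000000) := T_47 (nat_lit 91) (nat_lit 74) (nat_lit 7) (nat_lit 6) (nat_lit 4) L132581 (by decide +kernel)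
theorem L132583 : W_47 (nat_lit 7) (nat_lit 0x18000e0004000000000000000000000000000) (nat_lit 0x0) (nat_lit 0x280014000300718003800080004000000000000000000) := Q_47 (nat_lit 108) (C_47 L132569 (C_47 L132573 (C_47 L132575 (C_47 L132580 (C_47 L132582 N_47))))) (by decide +kernel)
theorem L132584 : W_47 (nat_lit 2) (nat_lit 0x18000e0004000000000000000000000000000) (nat_lit 0x0) (nat_lit 0x18008000000000000000000000000000) := D_47 (nat_lit 124) (nat_lit 123) (nat_lit 111) (nat_lit 3) (nat_lit 4) (nat_lit 7) (nat_lit 2) (nat_lit 5) (nat_lit 7) (by decide +kernel)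
theorem L132585 : W_47 (nat_lit 2) (nat_lit 0x2000000018001e0014000000000000000000000000000) (nat_lit 0x0) (nat_lit 0x600020000000000000000000000000000) := D_47 (nat_lit 129) (nat_lit 113) (nat_lit 130) (nat_lit 2) (nat_lit 7) (nat_lit 7) (nat_lit 1) (nat_lit 11) (nat_lit 7) (by decide +kernel)
theorem L132586 : W_47 (nat_lit 3) (nat_lit 0x2000000018001e0004000000000000000000000000000) (nat_lit 0x0) (nat_lit 0x600038000000000000000000000000000) := T_47 (nat_lit 112) (nat_lit 111) (nat_lit 2) (nat_lit 6) (nat_lit 7) L132585 (by decide +kernel)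
theorem L132587 : W_47 (nat_lit 4) (nat_lit 0x18001e0004000000000000000000000000000) (nat_lit 0x0) (nat_lit 0x200010000000600038000000000000000000000000000) := T_47 (nat_lit 177) (nat_lit 160) (nat_lit 6) (nat_lit 7) (nat_lit 10) L132586 (by decide +kernel)
theorem L132588 : W_47 (nat_lit 3) (nat_lit 0x18001e0004000000000000000000000000000) (nat_lit 0x0) (nat_lit 0x600003800000000000000000000000000) := T_47 (nat_lit 108) (nat_lit 107) (nat_lit 0) (nat_lit 9) (nat_lit 7) L132574 (by decide +kernel)
theorem L132589 : W_47 (nat_lit 2) (nat_lit 0x2000000018001e000d000480000000000000000000000) (nat_lit 0x0) (nat_lit 0x2000840000000000000000000000) := D_47 (nat_lit 109) (nat_lit 95) (nat_lit 90) (nat_lit 2) (nat_lit 6) (nat_lit 6) (nat_lit 0) (nat_lit 9) (nat_lit 6) (by decide +kernel)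
theorem L132590 : W_47 (nat_lit 3) (nat_lit 0x2000000018001e000d000400000000000000000000000) (nat_lit 0x0) (nat_lit 0x20008c0004000000000000000000) := T_47 (nat_lit 91) (nat_lit 74) (nat_lit 7) (nat_lit 6) (nat_lit 4) L132589 (by decide +kernel)
theorem L132591 : W_47 (nat_lit 4) (nat_lit 0x2000000018001e000d000000000000000000000000000) (nat_lit 0x0) (nat_lit 0x2000cc0024000000000000000000) := T_47 (nat_lit 94) (nat_lit 77) (nat_lit 5) (nat_lit 9) (nat_lit 4) L132590 (by decide +kernel)
theorem L132592 : W_47 (nat_lit 5) (nat_lit 0x2000000018001e0005000000000000000000000000000) (nat_lit 0x0) (nat_lit 0x1a000cc0024000000000000000000) := T_47 (nat_lit 111) (nat_lit 112) (nat_lit 2) (nat_lit 6) (nat_lit 7) L132591 (by decide +kernel)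
theorem L132593 : W_47 (nat_lit 6) (nat_lit 0x2000000018001e0004000000000000000000000000000) (nat_lit 0x0) (nat_lit 0x1b800cc0024000000000000000000) := T_47 (nat_lit 108) (nat_lit 107) (nat_lit 0) (nat_lit 9) (nat_lit 7) L132592 (by decide +kernel)
theorem L132594 : W_47 (nat_lit 7) (nat_lit 0x18001e0004000000000000000000000000000) (nat_lit 0x0) (nat_lit 0x20001000000000001b800cc0024000000000000000000) := T_47 (nat_lit 177) (nat_lit 160) (nat_lit 6) (nat_lit 7) (nat_lit 10) L132593 (by decide +kernel)
theorem L132595 : W_47 (nat_lit 8) (nat_lit 0x18000e0004000000000000000000000000000) (nat_lit 0x0) (nat_lit 0x20001000000070003b800cc0024000000000000000000) := Q_47 (nat_lit 128) (C_47 L132587 (C_47 L132588 (C_47 L132594 N_47))) (by decide +kernel)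
theorem L132596 : W_47 (nat_lit 9) (nat_lit 0x18000c0004000000000000000000000000000) (nat_lit 0x0) (nat_lit 0x28001400030073803b800cc0024000000000000000000) := Q_47 (nat_lit 125) (C_47 L132583 (C_47 L132584 (C_47 L132595 N_47))) (by decide +kernel)
theorem L132597 : W_47 (nat_lit 10) (nat_lit 0x18000c0000000000000000000000000000000) (nat_lit 0x0) (nat_lit 0x28001400030073803f800fc003e000000000000000000) := Q_47 (nat_lit 110) (C_47 L127190 (C_47 L129355 (C_47 L132596 N_47))) (by decide +kernel)
theorem L132598 : W_47 (nat_lit 4) (nat_lit 0x1a0018000d0007000000000000000000000000000) (nat_lit 0x0) (nat_lit 0x700008000800060000000000000000000000) := T_47 (nat_lit 107) (nat_lit 123) (nat_lit 1) (nat_lit 8) (nat_lit 6) L122713 (by decide +kernel)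
theorem L132599 : W_47 (nat_lit 5) (nat_lit 0x180018000d0007000000000000000000000000000) (nat_lit 0x0) (nat_lit 0x6000700008000800060000000000000000000000) := T_47 (nat_lit 157) (nat_lit 158) (nat_lit 2) (nat_lit 4) (nat_lit 9) L132598 (by decide +kernel)
theorem L132600 : W_47 (nat_lit 6) (nat_lit 0x100018000d0007000000000000000000000000000) (nat_lit 0x0) (nat_lit 0x10000e000700008000800060000000000000000000000) := T_47 (nat_lit 159) (nat_lit 176) (nat_lit 5) (nat_lit 7) (nat_lit 6) L132599 (by decide +kernel)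
theorem L132601 : W_47 (nat_lit 7) (nat_lit 0x100018000d0003000000000000000000000000000) (nat_lit 0x0) (nat_lit 0x10000e000700008004800260000000000000000000000) := T_47 (nat_lit 110) (nat_lit 93) (nat_lit 6) (nat_lit 7) (nat_lit 9) L132600 (by decide +kernel)
theorem L132602 : W_47 (nat_lit 8) (nat_lit 0x100018000d0002000000000000000000000000000) (nat_lit 0x0) (nat_lit 0x10000e0007000080058002e0000000000000000000000) := T_47 (nat_lit 108) (nat_lit 91) (nat_lit 4) (nat_lit 7) (nat_lit 9) L132601 (by decide +kernel)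
theorem L132603 : W_47 (nat_lit 2) (nat_lit 0x1a001a000d8003800000000000000000000000000) (nat_lit 0x0) (nat_lit 0x40000000100000000000040000000000000000000000) := D_47 (nat_lit 140) (nat_lit 174) (nat_lit 90) (nat_lit 6) (nat_lit 4) (nat_lit 10) (nat_lit 5) (nat_lit 5) (nat_lit 5) (by decide +kernel)
theorem L132604 : W_47 (nat_lit 3) (nat_lit 0x1a0018000d8003800000000000000000000000000) (nat_lit 0x0) (nat_lit 0x40000000700000000000040000000000000000000000) := T_47 (nat_lit 141) (nat_lit 142) (nat_lit 0) (nat_lit 8) (nat_lit 8) L132603 (by decide +kernel)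
theorem L132605 : W_47 (nat_lit 4) (nat_lit 0x1a0018000d8003000000000000000000000000000) (nat_lit 0x0) (nat_lit 0x40000000700000004800040000000000000000000000) := T_47 (nat_lit 107) (nat_lit 110) (nat_lit 1) (nat_lit 8) (nat_lit 6) L132604 (by decide +kernel)
theorem L132606 : W_47 (nat_lit 5) (nat_lit 0x1a0018000d0003000000000000000000000000000) (nat_lit 0x0) (nat_lit 0x40000000700028004800040000000000000000000000) := T_47 (nat_lit 123) (nat_lit 125) (nat_lit 3) (nat_lit 4) (nat_lit 7) L132605 (by decide +kernel)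
theorem L132607 : W_47 (nat_lit 6) (nat_lit 0x1a0018000d0002000000000000000000000000000) (nat_lit 0x0) (nat_lit 0x400000007000280058000c0000000000000000000000) := T_47 (nat_lit 108) (nat_lit 91) (nat_lit 4) (nat_lit 7) (nat_lit 9) L132606 (by decide +kernel)
theorem L132608 : W_47 (nat_lit 7) (nat_lit 0x180018000d0002000000000000000000000000000) (nat_lit 0x0) (nat_lit 0x400060007000280058000c0000000000000000000000) := T_47 (nat_lit 157) (nat_lit 158) (nat_lit 2) (nat_lit 4) (nat_lit 9) L132607 (by decide +kernel)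
theorem L132609 : W_47 (nat_lit 8) (nat_lit 0x100018000d0002000000000000000000000000000) (nat_lit 0x0) (nat_lit 0x14000e0007000280058000c0000000000000000000000) := T_47 (nat_lit 159) (nat_lit 176) (nat_lit 5) (nat_lit 7) (nat_lit 6) L132608 (by decide +kernel)
theorem L132610 : W_47 (nat_lit 6) (nat_lit 0x100018000d0002000000000000000000000000000) (nat_lit 0x0) (nat_lit 0x18000e000300028001000080000000000000000000000) := T_47 (nat_lit 125) (nat_lit 123) (nat_lit 3) (nat_lit 4) (nat_lit 7) L127476 (by decide +kernel)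
theorem L132611 : W_47 (nat_lit 2) (nat_lit 0x1a0018000d000f000800000000000000000000000) (nat_lit 0x0) (nat_lit 0x30001000000000000000000000000) := D_47 (nat_lit 112) (nat_lit 113) (nat_lit 96) (nat_lit 1) (nat_lit 11) (nat_lit 6) (nat_lit 2) (nat_lit 7) (nat_lit 6) (by decide +kernel)
theorem L132612 : W_47 (nat_lit 3) (nat_lit 0x1a0018000d000f000000000000000000000000000) (nat_lit 0x0) (nat_lit 0x30001c00000000000000000000000) := T_47 (nat_lit 95) (nat_lit 94) (nat_lit 2) (nat_lit 6) (nat_lit 6) L132611 (by decide +kernel)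
theorem L132613 : W_47 (nat_lit 4) (nat_lit 0x1a0018000d0007000000000000000000000000000) (nat_lit 0x0) (nat_lit 0x20038001c00000000000000000000000) := T_47 (nat_lit 111) (nat_lit 125) (nat_lit 2) (nat_lit 5) (nat_lit 7) L132612 (by decide +kernel)
theorem L132614 : W_47 (nat_lit 5) (nat_lit 0x1a0018000d0006000000000000000000000000000) (nat_lit 0x0) (nat_lit 0x20039001c80000000000000000000000) := T_47 (nat_lit 108) (nat_lit 91) (nat_lit 4) (nat_lit 7) (nat_lit 9) L132613 (by decide +kernel)
theorem L132615 : W_47 (nat_lit 6) (nat_lit 0x1a0018000d0002000000000000000000000000000) (nat_lit 0x0) (nat_lit 0x2003d001e80000000000000000000000) := T_47 (nat_lit 110) (nat_lit 93) (nat_lit 6) (nat_lit 7) (nat_lit 9) L132614 (by decide +kernel)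
theorem L132616 : W_47 (nat_lit 7) (nat_lit 0x180018000d0002000000000000000000000000000) (nat_lit 0x0) (nat_lit 0x600000002003d001e80000000000000000000000) := T_47 (nat_lit 157) (nat_lit 158) (nat_lit 2) (nat_lit 4) (nat_lit 9) L132615 (by decide +kernel)
theorem L132617 : W_47 (nat_lit 8) (nat_lit 0x100018000d0002000000000000000000000000000) (nat_lit 0x0) (nat_lit 0x10000e00000002003d001e80000000000000000000000) := T_47 (nat_lit 159) (nat_lit 176) (nat_lit 5) (nat_lit 7) (nat_lit 6) L132616 (by decide +kernel)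
theorem L132618 : W_47 (nat_lit 9) (nat_lit 0x100018000c0002000000000000000000000000000) (nat_lit 0x0) (nat_lit 0x1c000e00070003803d801ee0000000000000000000000) := Q_47 (nat_lit 124) (C_47 L126709 (C_47 L132602 (C_47 L132609 (C_47 L132610 (C_47 L132617 N_47))))) (by decide +kernel)
theorem L132619 : W_47 (nat_lit 10) (nat_lit 0x100018000c0000000000000000000000000000000) (nat_lit 0x0) (nat_lit 0x1c000e00070003803f801fe001c000000000000000000) := Q_47 (nat_lit 109) (C_47 L132538 (C_47 L128354 (C_47 L126700 (C_47 L132618 N_47)))) (by decide +kernel)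
theorem L132620 : W_47 (nat_lit 11) (nat_lit 0x18000c0000000000000000000000000000000) (nat_lit 0x0) (nat_lit 0xe000fc001e00070003803f801fe001c000000000000000000) := Q_47 (nat_lit 160) (C_47 L122699 (C_47 L122435 (C_47 L132619 N_47))) (by decide +kernel)
theorem L132621 : W_47 (nat_lit 2) (nat_lit 0x100018001c0003000000000000000000000000000) (nat_lit 0x0) (nat_lit 0x4800200000000000000000000000) := D_47 (nat_lit 110) (nat_lit 93) (nat_lit 107) (nat_lit 6) (nat_lit 7) (nat_lit 9) (nat_lit 3) (nat_lit 5) (nat_lit 6) (by decide +kernel)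
theorem L132622 : W_47 (nat_lit 3) (nat_lit 0x100018000c0003000000000000000000000000000) (nat_lit 0x0) (nat_lit 0x300004800200000000000000000000000) := T_47 (nat_lit 128) (nat_lit 129) (nat_lit 0) (nat_lit 10) (nat_lit 7) L132621 (by decide +kernel)
theorem L132623 : W_47 (nat_lit 4) (nat_lit 0x100018000c0002000000000000000000000000000) (nat_lit 0x0) (nat_lit 0x300005800280000000000000000000000) := T_47 (nat_lit 108) (nat_lit 91) (nat_lit 4) (nat_lit 7) (nat_lit 9) L132622 (by decide +kernel)
theorem L132624 : W_47 (nat_lit 5) (nat_lit 0x100018000c0000000000000000000000000000000) (nat_lit 0x0) (nat_lit 0x10000800040030000780038001c000000000000000000) := Q_47 (nat_lit 109) (C_47 L132538 (C_47 L128354 (C_47 L126700 (C_47 L132623 N_47)))) (by decide +kernel)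
theorem L132625 : W_47 (nat_lit 7) (nat_lit 0x18000c0000000000000000000000000000000) (nat_lit 0x0) (nat_lit 0xe000f0001e00040030000780038001c000000000000000000) := Q_47 (nat_lit 160) (C_47 L122699 (C_47 L122435 (C_47 L132624 N_47))) (by decide +kernel)
theorem L132626 : W_47 (nat_lit 11) (nat_lit 0x18001c0000000000000000000000000000000) (nat_lit 0x0) (nat_lit 0xe000f8001e00070003801f000f00038000000000000000000) := Q_47 (nat_lit 125) (C_47 L122450 (C_47 L132331 (C_47 L122463 N_47))) (by decide +kernel)
theorem L132627 : W_47 (nat_lit 12) (nat_lit 0x18000c0000000000000000000000000000000) (nat_lit 0x0) (nat_lit 0xe000f8009e00c70073803f000f00038000000000000000000) := Q_47 (nat_lit 128) (C_47 L122442 (C_47 L128878 (C_47 L132626 N_47))) (by decide +kernel)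
theorem L132628 : W_47 (nat_lit 15) (nat_lit 0x10000c0000000000000000000000000000000) (nat_lit 0x0) (nat_lit 0x3000f800fe009e00cf0073807f807fe01ff00700018000c000000) := Q_47 (nat_lit 143) (C_47 L122461 (C_47 L129152 (C_47 L132553 (C_47 L132556 (C_47 L132557 (C_47 L132564 (C_47 L132597 (C_47 L129731 (C_47 L132620 (C_47 L132625 (C_47 L132627 N_47))))))))))) (by decide +kernel)
theorem L132629 : W_47 (nat_lit 19) (nat_lit 0x1000080000000000000000000000000000000) (nat_lit 0x0) (nat_lit 0x4000e0007805fe03ff81dfc7cfe3f7f1fff8fffc7fff3ffe03ff01ff00380) := Q_47 (nat_lit 126) (C_47 L122434 (C_47 L123024 (C_47 L123054 (C_47 L124371 (C_47 L124831 (C_47 L125591 (C_47 L126565 (C_47 L126764 (C_47 L126765 (C_47 L126768 (C_47 L126964 (C_47 L127238 (C_47 L128873 (C_47 L130095 (C_47 L130647 (C_47 L132177 (C_47 L132297 (C_47 L132311 (C_47 L132493 (C_47 L132554 (C_47 L132628 N_47))))))))))))))))))))) (by decide +kernel)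
end Crest.Agent.Helper32.Snaky.R1_0
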