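import Crest.Agent.Helper32.Snaky.Gen.R1_0_p1
set_option autoImplicit false
set_option maxRecDepth 100000
set_option linter.all false
set_option Elab.async false
namespace Crest.Agent.Helper32.Snaky.R1_0
@[reducible] def W_48 (d M Bz Z : Nat) : Prop := Crest.Agent.Helper32.Snaky.Wins (nat_lit 17) d M Bz Z
theorem D_48 {d M Bz Z : Nat} (m t1 t2 o1 x1 y1 o2 x2 y2 : Nat) (h : Crest.Agent.Helper32.Snaky.chkDoubleC (nat_lit 17) d M Bz Z m t1 t2 o1 x1 y1 o2 x2 y2 = true) : W_48 d M Bz Z := Crest.Agent.Helper32.Snaky.doubleC m t1 t2 o1 x1 y1 o2 x2 y2 h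
theorem T_48 {d M Bz Z cd cM cBz cZ : Nat} (m t o x y : Nat) (child : W_48 cd cM cBz cZ) (h : Crest.Agent.Helper32.Snaky.chkThreatC (nat_lit 17) d M Bz Z cd cM cBz cZ m t o x y = true) : W_48 d M Bz Z := Crest.Agent.Helper32.Snaky.threatC m t o x y child h
theorem Q_48 {d M Bz Z : Nat} (m : Nat) {l : List Crest.Agent.Helper32.Snaky.Spec} (kids : Crest.Agent.Helper32.Snaky.AllWins (nat_lit 17) l) (h : Crest.Agent.Helper32.Snaky.chkQuiet d M Bz Z m l = true) : W_48 d M Bz Z := Crest.Agent.Helper32.Snaky.quiet m kids h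
theorem C_48 {cd cM cBz cZ : Nat} {l : List Crest.Agent.Helper32.Snaky.Spec} (h : W_48 cd cM cBz cZ) (hl : Crest.Agent.Helper32.Snaky.AllWins (nat_lit 17) l) : Crest.Agent.Helper32.Snaky.AllWins (nat_lit 17) ((cd, cM, cBz, cZ) :: l) := Crest.Agent.Helper32.Snaky.AllWins.cons h hl
theorem N_48 : Crest.Agent.Helper32.Snaky.AllWins (nat_lit 17) [] := Crest.Agent.Helper32.Snaky.AllWins.nil
theorem L117250 : W_48 (nat_lit 2) (nat_lit 0x4000000010001c0018000000000000000000000000000) (nat_lit 0x0) (nat_lit 0x200060000000000000000000000000000) := D_48 (nat_lit 113) (nat_lit 114) (nat_lit 129) (nat_lit 1) (nat_lit 12) (nat_lit 6) (nat_lit 2) (nat_lit 7) (nat_lit 7) (by decide +kernel)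
theorem L117251 : W_48 (nat_lit 3) (nat_lit 0x400000001000180018000000000000000000000000000) (nat_lit 0x0) (nat_lit 0x260060000000000000000000000000000) := T_48 (nat_lit 126) (nat_lit 125) (nat_lit 2) (nat_lit 6) (nat_lit 7) L117250 (by decide +kernel)
theorem L117252 : W_48 (nat_lit 4) (nat_lit 0x1000180018000000000000000000000000000) (nat_lit 0x0) (nat_lit 0x400020000000260060000000000000000000000000000) := T_48 (nat_lit 178) (nat_lit 161) (nat_lit 6) (nat_lit 8) (nat_lit 10) L117251 (by decide +kernel)
theorem L117253 : W_48 (nat_lit 2) (nat_lit 0x1000180038000000000000000000000000000) (nat_lit 0x0) (nat_lit 0x60004000000000000000000000000000) := D_48 (nat_lit 126) (nat_lit 125) (nat_lit 110) (nat_lit 2) (nat_lit 6) (nat_lit 7) (nat_lit 1) (nat_lit 11) (nat_lit 6) (by decide +kernel)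
theorem L117254 : W_48 (nat_lit 3) (nat_lit 0x1000180018000000000000000000000000000) (nat_lit 0x0) (nat_lit 0x60064000000000000000000000000000) := T_48 (nat_lit 113) (nat_lit 114) (nat_lit 1) (nat_lit 12) (nat_lit 6) L117253 (by decide +kernel)
theorem L117255 : W_48 (nat_lit 2) (nat_lit 0x400000001000180038000000000000000000000000000) (nat_lit 0x0) (nat_lit 0x240004000000000000000000000000000) := D_48 (nat_lit 126) (nat_lit 110) (nat_lit 129) (nat_lit 1) (nat_lit 11) (nat_lit 6) (nat_lit 2) (nat_lit 7) (nat_lit 7) (by decide +kernel)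
theorem L117256 : W_48 (nat_lit 3) (nat_lit 0x400000001000180018000000000000000000000000000) (nat_lit 0x0) (nat_lit 0x240064000000000000000000000000000) := T_48 (nat_lit 113) (nat_lit 114) (nat_lit 1) (nat_lit 12) (nat_lit 6) L117255 (by decide +kernel)
theorem L117257 : W_48 (nat_lit 4) (nat_lit 0x1000180018000000000000000000000000000) (nat_lit 0x0) (nat_lit 0x400020000000240064000000000000000000000000000) := T_48 (nat_lit 178) (nat_lit 161) (nat_lit 6) (nat_lit 8) (nat_lit 10) L117256 (by decide +kernel)
theorem L117258 : W_48 (nat_lit 2) (nat_lit 0x1000780058000000000000000000000000000) (nat_lit 0x0) (nat_lit 0x1800080000000000000000000000000000) := D_48 (nat_lit 131) (nat_lit 132) (nat_lit 115) (nat_lit 0) (nat_lit 13) (nat_lit 7) (nat_lit 2) (nat_lit 9) (nat_lit 7) (by decide +kernel)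
theorem L117259 : W_48 (nat_lit 3) (nat_lit 0x1000580058000000000000000000000000000) (nat_lit 0x0) (nat_lit 0x801a00080000000000000000000000000000) := T_48 (nat_lit 129) (nat_lit 143) (nat_lit 1) (nat_lit 11) (nat_lit 7) L117258 (by decide +kernel)
theorem L117260 : W_48 (nat_lit 4) (nat_lit 0x1000580018000000000000000000000000000) (nat_lit 0x0) (nat_lit 0x801a000e0000000000000000000000000000) := T_48 (nat_lit 114) (nat_lit 113) (nat_lit 1) (nat_lit 12) (nat_lit 6) L117259 (by decide +kernel)
theorem L117261 : W_48 (nat_lit 2) (nat_lit 0x40000000100058003c001200078000000000000000000) (nat_lit 0x0) (nat_lit 0x80006000000000000000) := D_48 (nat_lit 61) (nat_lit 62) (nat_lit 79) (nat_lit 2) (nat_lit 7) (nat_lit 4) (nat_lit 4) (nat_lit 11) (nat_lit 7) (by decide +kernel)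
theorem L117262 : W_48 (nat_lit 3) (nat_lit 0x40000000100058003c001200038000000000000000000) (nat_lit 0x0) (nat_lit 0x8000c0006000000000000000) := T_48 (nat_lit 78) (nat_lit 95) (nat_lit 3) (nat_lit 7) (nat_lit 4) L117261 (by decide +kernel)
theorem L117263 : W_48 (nat_lit 4) (nat_lit 0x40000000100058003c001200030000000000000000000) (nat_lit 0x0) (nat_lit 0x8000c8006400000000000000) := T_48 (nat_lit 75) (nat_lit 58) (nat_lit 4) (nat_lit 8) (nat_lit 7) L117262 (by decide +kernel)
theorem L117264 : W_48 (nat_lit 5) (nat_lit 0x40000000100058003c001200010000000000000000000) (nat_lit 0x0) (nat_lit 0x8000e8007400000000000000) := T_48 (nat_lit 77) (nat_lit 60) (nat_lit 6) (nat_lit 8) (nat_lit 7) L117263 (by decide +kernel)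
theorem L117265 : W_48 (nat_lit 6) (nat_lit 0x40000000100058003c001200000000000000000000000) (nat_lit 0x0) (nat_lit 0x8000f8007c00000000000000) := T_48 (nat_lit 76) (nat_lit 59) (nat_lit 7) (nat_lit 8) (nat_lit 3) L117264 (by decide +kernel)
theorem L117266 : W_48 (nat_lit 7) (nat_lit 0x40000000100058003c001000000000000000000000000) (nat_lit 0x0) (nat_lit 0xb000f8007c00000000000000) := T_48 (nat_lit 93) (nat_lit 92) (nat_lit 0) (nat_lit 11) (nat_lit 6) L117265 (by decide +kernel)
theorem L117267 : W_48 (nat_lit 8) (nat_lit 0x40000000100058003c000000000000000000000000000) (nat_lit 0x0) (nat_lit 0x3b000f8007c00000000000000) := T_48 (nat_lit 96) (nat_lit 97) (nat_lit 2) (nat_lit 8) (nat_lit 6) L117266 (by decide +kernel)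
theorem L117268 : W_48 (nat_lit 9) (nat_lit 0x400000001000580038000000000000000000000000000) (nat_lit 0x0) (nat_lit 0x800004003b000f8007c00000000000000) := T_48 (nat_lit 110) (nat_lit 131) (nat_lit 3) (nat_lit 8) (nat_lit 6) L117267 (by decide +kernel)
theorem L117269 : W_48 (nat_lit 10) (nat_lit 0x1000580038000000000000000000000000000) (nat_lit 0x0) (nat_lit 0x400020000000800004003b000f8007c00000000000000) := T_48 (nat_lit 178) (nat_lit 161) (nat_lit 6) (nat_lit 8) (nat_lit 10) L117268 (by decide +kernel)
theorem L117270 : W_48 (nat_lit 11) (nat_lit 0x1000580018000000000000000000000000000) (nat_lit 0x0) (nat_lit 0x400020000000800064003b000f8007c00000000000000) := T_48 (nat_lit 113) (nat_lit 114) (nat_lit 1) (nat_lit 12) (nat_lit 6) L117269 (by decide +kernel)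
theorem L117271 : W_48 (nat_lit 2) (nat_lit 0x1000780018000000000000000000000000000) (nat_lit 0x0) (nat_lit 0x1800004000000000000000000000000000) := D_48 (nat_lit 131) (nat_lit 132) (nat_lit 110) (nat_lit 0) (nat_lit 13) (nat_lit 7) (nat_lit 0) (nat_lit 12) (nat_lit 7) (by decide +kernel)
theorem L117272 : W_48 (nat_lit 3) (nat_lit 0x1000580018000000000000000000000000000) (nat_lit 0x0) (nat_lit 0x801a00004000000000000000000000000000) := T_48 (nat_lit 129) (nat_lit 143) (nat_lit 1) (nat_lit 11) (nat_lit 7) L117271 (by decide +kernel)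
theorem L117273 : W_48 (nat_lit 2) (nat_lit 0x400000009000780058000800000000000000000000000) (nat_lit 0x0) (nat_lit 0x2000100004000000000000000000000000000000000000) := D_48 (nat_lit 164) (nat_lit 181) (nat_lit 146) (nat_lit 4) (nat_lit 11) (nat_lit 10) (nat_lit 7) (nat_lit 10) (nat_lit 5) (by decide +kernel)
theorem L117274 : W_48 (nat_lit 3) (nat_lit 0x400000009000780058000000000000000000000000000) (nat_lit 0x0) (nat_lit 0x2000100004000000000000800040000000000000000000) := T_48 (nat_lit 95) (nat_lit 78) (nat_lit 7) (nat_lit 10) (nat_lit 4) L117273 (by decide +kernel)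
theorem L117275 : W_48 (nat_lit 4) (nat_lit 0x9000780058000000000000000000000000000) (nat_lit 0x0) (nat_lit 0x2400120004000000000000800040000000000000000000) := T_48 (nat_lit 178) (nat_lit 161) (nat_lit 6) (nat_lit 8) (nat_lit 10) L117274 (by decide +kernel)
theorem L117276 : W_48 (nat_lit 5) (nat_lit 0x1000780058000000000000000000000000000) (nat_lit 0x0) (nat_lit 0x240012001c000000000000800040000000000000000000) := T_48 (nat_lit 147) (nat_lit 148) (nat_lit 3) (nat_lit 8) (nat_lit 7) L117275 (by decide +kernel)
theorem L117277 : W_48 (nat_lit 6) (nat_lit 0x1000780018000000000000000000000000000) (nat_lit 0x0) (nat_lit 0x240012001c000000060000800040000000000000000000) := T_48 (nat_lit 114) (nat_lit 113) (nat_lit 2) (nat_lit 8) (nat_lit 7) L117276 (by decide +kernel)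
theorem L117278 : W_48 (nat_lit 7) (nat_lit 0x1000580018000000000000000000000000000) (nat_lit 0x0) (nat_lit 0x240012001c800200060000800040000000000000000000) := T_48 (nat_lit 129) (nat_lit 143) (nat_lit 1) (nat_lit 11) (nat_lit 7) L117277 (by decide +kernel)
theorem L117279 : W_48 (nat_lit 12) (nat_lit 0x1000180018000000000000000000000000000) (nat_lit 0x0) (nat_lit 0x240012001c801e000e4003b000f8007c00000000000000) := Q_48 (nat_lit 130) (C_48 L117260 (C_48 L117270 (C_48 L117272 (C_48 L117278 N_48)))) (by decide +kernel)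
theorem L117280 : W_48 (nat_lit 2) (nat_lit 0x4000000090017a0018000800000000000000000000000) (nat_lit 0x0) (nat_lit 0x2000100004000000000000000000000000000000000000) := D_48 (nat_lit 164) (nat_lit 181) (nat_lit 146) (nat_lit 4) (nat_lit 11) (nat_lit 10) (nat_lit 7) (nat_lit 10) (nat_lit 5) (by decide +kernel)
theorem L117281 : W_48 (nat_lit 3) (nat_lit 0x4000000090017a0018000000000000000000000000000) (nat_lit 0x0) (nat_lit 0x2000100004000000000000800040000000000000000000) := T_48 (nat_lit 95) (nat_lit 78) (nat_lit 7) (nat_lit 10) (nat_lit 4) L117280 (by decide +kernel)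
theorem L117282 : W_48 (nat_lit 4) (nat_lit 0x90017a0018000000000000000000000000000) (nat_lit 0x0) (nat_lit 0x2400120004000000000000800040000000000000000000) := T_48 (nat_lit 178) (nat_lit 161) (nat_lit 6) (nat_lit 8) (nat_lit 10) L117281 (by decide +kernel)
theorem L117283 : W_48 (nat_lit 5) (nat_lit 0x10017a0018000000000000000000000000000) (nat_lit 0x0) (nat_lit 0x240012001c000000000000800040000000000000000000) := T_48 (nat_lit 147) (nat_lit 148) (nat_lit 3) (nat_lit 8) (nat_lit 7) L117282 (by decide +kernel)
theorem L117284 : W_48 (nat_lit 6) (nat_lit 0x10007a0018000000000000000000000000000) (nat_lit 0x0) (nat_lit 0x240012001c001800000000800040000000000000000000) := T_48 (nat_lit 132) (nat_lit 131) (nat_lit 0) (nat_lit 13) (nat_lit 7) L117283 (by decide +kernel)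
theorem L117285 : W_48 (nat_lit 7) (nat_lit 0x10003a0018000000000000000000000000000) (nat_lit 0x0) (nat_lit 0x240012001c801c00000000800040000000000000000000) := T_48 (nat_lit 130) (nat_lit 143) (nat_lit 1) (nat_lit 11) (nat_lit 7) L117284 (by decide +kernel)
theorem L117286 : W_48 (nat_lit 8) (nat_lit 0x1000380018000000000000000000000000000) (nat_lit 0x0) (nat_lit 0x240012001c801c60000000800040000000000000000000) := T_48 (nat_lit 125) (nat_lit 126) (nat_lit 2) (nat_lit 6) (nat_lit 7) L117285 (by decide +kernel)
theorem L117287 : W_48 (nat_lit 2) (nat_lit 0x4000000090007c0018000000000000000000000000000) (nat_lit 0x0) (nat_lit 0x1800004000000000000000000000000000) := D_48 (nat_lit 131) (nat_lit 132) (nat_lit 110) (nat_lit 0) (nat_lit 13) (nat_lit 7) (nat_lit 0) (nat_lit 12) (nat_lit 7) (by decide +kernel)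
theorem L117288 : W_48 (nat_lit 3) (nat_lit 0x4000000090003c0018000000000000000000000000000) (nat_lit 0x0) (nat_lit 0x10001c00004000000000000000000000000000) := T_48 (nat_lit 130) (nat_lit 148) (nat_lit 3) (nat_lit 8) (nat_lit 7) L117287 (by decide +kernel)
theorem L117289 : W_48 (nat_lit 4) (nat_lit 0x4000000010003c0018000000000000000000000000000) (nat_lit 0x0) (nat_lit 0x1c001c00004000000000000000000000000000) := T_48 (nat_lit 147) (nat_lit 146) (nat_lit 3) (nat_lit 7) (nat_lit 7) L117288 (by decide +kernel)
theorem L117290 : W_48 (nat_lit 5) (nat_lit 0x10003c0018000000000000000000000000000) (nat_lit 0x0) (nat_lit 0x40002001c001c00004000000000000000000000000000) := T_48 (nat_lit 178) (nat_lit 161) (nat_lit 6) (nat_lit 8) (nat_lit 10) L117289 (by decide +kernel)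
theorem L117291 : W_48 (nat_lit 6) (nat_lit 0x1000380018000000000000000000000000000) (nat_lit 0x0) (nat_lit 0x40002001c001c60004000000000000000000000000000) := T_48 (nat_lit 126) (nat_lit 125) (nat_lit 2) (nat_lit 6) (nat_lit 7) L117290 (by decide +kernel)
theorem L117292 : W_48 (nat_lit 2) (nat_lit 0x10007a0018000000000000000000000000000) (nat_lit 0x0) (nat_lit 0x1800004000000000000000000000000000) := D_48 (nat_lit 131) (nat_lit 132) (nat_lit 110) (nat_lit 0) (nat_lit 13) (nat_lit 7) (nat_lit 0) (nat_lit 12) (nat_lit 7) (by decide +kernel)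
theorem L117293 : W_48 (nat_lit 3) (nat_lit 0x10003a0018000000000000000000000000000) (nat_lit 0x0) (nat_lit 0x801c00004000000000000000000000000000) := T_48 (nat_lit 130) (nat_lit 143) (nat_lit 1) (nat_lit 11) (nat_lit 7) L117292 (by decide +kernel)
theorem L117294 : W_48 (nat_lit 4) (nat_lit 0x1000380018000000000000000000000000000) (nat_lit 0x0) (nat_lit 0x801c60004000000000000000000000000000) := T_48 (nat_lit 125) (nat_lit 126) (nat_lit 2) (nat_lit 6) (nat_lit 7) L117293 (by decide +kernel)
theorem L117295 : W_48 (nat_lit 3) (nat_lit 0x1000380018000000000000000000000000000) (nat_lit 0x0) (nat_lit 0x801c00004000000000000000000000000000) := T_48 (nat_lit 130) (nat_lit 143) (nat_lit 1) (nat_lit 11) (nat_lit 7) L117271 (by decide +kernel)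
theorem L117296 : W_48 (nat_lit 2) (nat_lit 0xa00058003c0018000000000000000000000000000) (nat_lit 0x0) (nat_lit 0x2000140000000000000000000000000000000000000000) := D_48 (nat_lit 164) (nat_lit 162) (nat_lit 181) (nat_lit 0) (nat_lit 11) (nat_lit 9) (nat_lit 7) (nat_lit 10) (nat_lit 6) (by decide +kernel)
theorem L117297 : W_48 (nat_lit 3) (nat_lit 0x200058003c0018000000000000000000000000000) (nat_lit 0x0) (nat_lit 0x30001c0000000000000000000000000000000000000000) := T_48 (nat_lit 163) (nat_lit 180) (nat_lit 4) (nat_lit 10) (nat_lit 10) L117296 (by decide +kernel)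
theorem L117298 : W_48 (nat_lit 4) (nat_lit 0x200050003c0018000000000000000000000000000) (nat_lit 0x0) (nat_lit 0x30001c0000c00000000000000000000000000000000000) := T_48 (nat_lit 143) (nat_lit 142) (nat_lit 1) (nat_lit 10) (nat_lit 7) L117297 (by decide +kernel)
theorem L117299 : W_48 (nat_lit 5) (nat_lit 0x200010003c0018000000000000000000000000000) (nat_lit 0x0) (nat_lit 0x30001c000cc00000000000000000000000000000000000) := T_48 (nat_lit 146) (nat_lit 147) (nat_lit 3) (nat_lit 7) (nat_lit 7) L117298 (by decide +kernel)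
theorem L117300 : W_48 (nat_lit 6) (nat_lit 0x10003c0018000000000000000000000000000) (nat_lit 0x0) (nat_lit 0x34001e000cc00000000000000000000000000000000000) := T_48 (nat_lit 161) (nat_lit 178) (nat_lit 6) (nat_lit 8) (nat_lit 10) L117299 (by decide +kernel)
theorem L117301 : W_48 (nat_lit 7) (nat_lit 0x1000380018000000000000000000000000000) (nat_lit 0x0) (nat_lit 0x34001e000cc00060000000000000000000000000000000) := T_48 (nat_lit 126) (nat_lit 125) (nat_lit 2) (nat_lit 6) (nat_lit 7) L117300 (by decide +kernel)
theorem L117302 : W_48 (nat_lit 9) (nat_lit 0x1000180018000000000000000000000000000) (nat_lit 0x0) (nat_lit 0x34001e001cc01e60004000800040000000000000000000) := Q_48 (nat_lit 129) (C_48 L117286 (C_48 L117291 (C_48 L117294 (C_48 L117295 (C_48 L117301 N_48))))) (by decide +kernel)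
theorem L117303 : W_48 (nat_lit 13) (nat_lit 0x1000180008000000000000000000000000000) (nat_lit 0x0) (nat_lit 0x34001e001cc01e600f4003b000f8007c00000000000000) := Q_48 (nat_lit 112) (C_48 L117252 (C_48 L117254 (C_48 L117257 (C_48 L117279 (C_48 L117302 N_48))))) (by decide +kernel)
theorem L117304 : W_48 (nat_lit 2) (nat_lit 0x20001000180008000000000000000000000000000) (nat_lit 0x0) (nat_lit 0x4000400020000000000000000000) := D_48 (nat_lit 94) (nat_lit 77) (nat_lit 110) (nat_lit 5) (nat_lit 9) (nat_lit 4) (nat_lit 6) (nat_lit 8) (nat_lit 9) (by decide +kernel)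
theorem L117305 : W_48 (nat_lit 3) (nat_lit 0x1000180008000000000000000000000000000) (nat_lit 0x0) (nat_lit 0x400020000000000004000400020000000000000000000) := T_48 (nat_lit 161) (nat_lit 178) (nat_lit 6) (nat_lit 8) (nat_lit 10) L117304 (by decide +kernel)
theorem L117306 : W_48 (nat_lit 2) (nat_lit 0x10001c0018000000020000000000000000000) (nat_lit 0x0) (nat_lit 0x200060000000000000000000000000000) := D_48 (nat_lit 113) (nat_lit 114) (nat_lit 129) (nat_lit 1) (nat_lit 12) (nat_lit 6) (nat_lit 2) (nat_lit 7) (nat_lit 7) (by decide +kernel)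
theorem L117307 : W_48 (nat_lit 3) (nat_lit 0x1000180018000000020000000000000000000) (nat_lit 0x0) (nat_lit 0x260060000000000000000000000000000) := T_48 (nat_lit 126) (nat_lit 125) (nat_lit 2) (nat_lit 6) (nat_lit 7) L117306 (by decide +kernel)
theorem L117308 : W_48 (nat_lit 4) (nat_lit 0x1000180018000000000000000000000000000) (nat_lit 0x0) (nat_lit 0x260060000400020000000000000000000) := T_48 (nat_lit 77) (nat_lit 94) (nat_lit 5) (nat_lit 9) (nat_lit 4) L117307 (by decide +kernel)
theorem L117309 : W_48 (nat_lit 2) (nat_lit 0x1000180038000000000000000000000000000) (nat_lit 0x0) (nat_lit 0x240004000000000000000000000000000) := D_48 (nat_lit 126) (nat_lit 110) (nat_lit 129) (nat_lit 1) (nat_lit 11) (nat_lit 6) (nat_lit 2) (nat_lit 7) (nat_lit 7) (by decide +kernel)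
theorem L117310 : W_48 (nat_lit 3) (nat_lit 0x1000180018000000000000000000000000000) (nat_lit 0x0) (nat_lit 0x240064000000000000000000000000000) := T_48 (nat_lit 113) (nat_lit 114) (nat_lit 1) (nat_lit 12) (nat_lit 6) L117309 (by decide +kernel)
theorem L117311 : W_48 (nat_lit 2) (nat_lit 0x100078003c001400000000000000000000000) (nat_lit 0x0) (nat_lit 0x80004000000000000000080000000000000000000) := D_48 (nat_lit 146) (nat_lit 163) (nat_lit 79) (nat_lit 6) (nat_lit 10) (nat_lit 9) (nat_lit 5) (nat_lit 11) (nat_lit 4) (by decide +kernel)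
theorem L117312 : W_48 (nat_lit 3) (nat_lit 0x100078003c000400000000000000000000000) (nat_lit 0x0) (nat_lit 0x80004000000000003000080000000000000000000) := T_48 (nat_lit 96) (nat_lit 97) (nat_lit 2) (nat_lit 8) (nat_lit 6) L117311 (by decide +kernel)
theorem L117313 : W_48 (nat_lit 4) (nat_lit 0x100058003c000400000000000000000000000) (nat_lit 0x0) (nat_lit 0x80004800200000003000080000000000000000000) := T_48 (nat_lit 129) (nat_lit 143) (nat_lit 1) (nat_lit 11) (nat_lit 7) L117312 (by decide +kernel)
theorem L117314 : W_48 (nat_lit 5) (nat_lit 0x100018003c000400000000000000000000000) (nat_lit 0x0) (nat_lit 0x80004800e00000003000080000000000000000000) := T_48 (nat_lit 130) (nat_lit 131) (nat_lit 3) (nat_lit 8) (nat_lit 6) L117313 (by decide +kernel)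
theorem L117315 : W_48 (nat_lit 6) (nat_lit 0x1000180038000400000000000000000000000) (nat_lit 0x0) (nat_lit 0xa0004800e00004003000080000000000000000000) := T_48 (nat_lit 110) (nat_lit 161) (nat_lit 6) (nat_lit 8) (nat_lit 9) L117314 (by decide +kernel)
theorem L117316 : W_48 (nat_lit 7) (nat_lit 0x1000180018000400000000000000000000000) (nat_lit 0x0) (nat_lit 0xa0004800e00064003000080000000000000000000) := T_48 (nat_lit 113) (nat_lit 114) (nat_lit 1) (nat_lit 12) (nat_lit 6) L117315 (by decide +kernel)
theorem L117317 : W_48 (nat_lit 8) (nat_lit 0x1000180018000000000000000000000000000) (nat_lit 0x0) (nat_lit 0xa0004800e000640034000a0000000000000000000) := T_48 (nat_lit 94) (nat_lit 77) (nat_lit 5) (nat_lit 9) (nat_lit 4) L117316 (by decide +kernel)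
theorem L117318 : W_48 (nat_lit 2) (nat_lit 0x9001780018000000020000000000000000000) (nat_lit 0x0) (nat_lit 0x4000060000000000000000000000000000000) := D_48 (nat_lit 126) (nat_lit 146) (nat_lit 125) (nat_lit 3) (nat_lit 7) (nat_lit 7) (nat_lit 2) (nat_lit 6) (nat_lit 7) (by decide +kernel)
theorem L117319 : W_48 (nat_lit 3) (nat_lit 0x1001780018000000020000000000000000000) (nat_lit 0x0) (nat_lit 0x1c000060000000000000000000000000000000) := T_48 (nat_lit 147) (nat_lit 148) (nat_lit 3) (nat_lit 8) (nat_lit 7) L117318 (by decide +kernel)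
theorem L117320 : W_48 (nat_lit 4) (nat_lit 0x1000780018000000020000000000000000000) (nat_lit 0x0) (nat_lit 0x1c001860000000000000000000000000000000) := T_48 (nat_lit 132) (nat_lit 131) (nat_lit 0) (nat_lit 13) (nat_lit 7) L117319 (by decide +kernel)
theorem L117321 : W_48 (nat_lit 5) (nat_lit 0x1000380018000000020000000000000000000) (nat_lit 0x0) (nat_lit 0x1c801c60000000000000000000000000000000) := T_48 (nat_lit 130) (nat_lit 143) (nat_lit 1) (nat_lit 11) (nat_lit 7) L117320 (by decide +kernel)
theorem L117322 : W_48 (nat_lit 6) (nat_lit 0x1000380018000000000000000000000000000) (nat_lit 0x0) (nat_lit 0x1c801c60000000400020000000000000000000) := T_48 (nat_lit 77) (nat_lit 94) (nat_lit 5) (nat_lit 9) (nat_lit 4) L117321 (by decide +kernel)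
theorem L117323 : W_48 (nat_lit 2) (nat_lit 0x90007c0018000000020000000000000000000) (nat_lit 0x0) (nat_lit 0x1800004000000000000000000000000000) := D_48 (nat_lit 131) (nat_lit 132) (nat_lit 110) (nat_lit 0) (nat_lit 13) (nat_lit 7) (nat_lit 0) (nat_lit 12) (nat_lit 7) (by decide +kernel)
theorem L117324 : W_48 (nat_lit 3) (nat_lit 0x90003c0018000000020000000000000000000) (nat_lit 0x0) (nat_lit 0x10001c00004000000000000000000000000000) := T_48 (nat_lit 130) (nat_lit 148) (nat_lit 3) (nat_lit 8) (nat_lit 7) L117323 (by decide +kernel)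
theorem L117325 : W_48 (nat_lit 4) (nat_lit 0x10003c0018000000020000000000000000000) (nat_lit 0x0) (nat_lit 0x1c001c00004000000000000000000000000000) := T_48 (nat_lit 147) (nat_lit 146) (nat_lit 3) (nat_lit 7) (nat_lit 7) L117324 (by decide +kernel)
theorem L117326 : W_48 (nat_lit 5) (nat_lit 0x1000380018000000020000000000000000000) (nat_lit 0x0) (nat_lit 0x1c001c60004000000000000000000000000000) := T_48 (nat_lit 126) (nat_lit 125) (nat_lit 2) (nat_lit 6) (nat_lit 7) L117325 (by decide +kernel)
theorem L117327 : W_48 (nat_lit 6) (nat_lit 0x1000380018000000000000000000000000000) (nat_lit 0x0) (nat_lit 0x1c001c60004000400020000000000000000000) := T_48 (nat_lit 77) (nat_lit 94) (nat_lit 5) (nat_lit 9) (nat_lit 4) L117326 (by decide +kernel)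
theorem L117328 : W_48 (nat_lit 2) (nat_lit 0xc00058003c0018000000020000000000000000000) (nat_lit 0x0) (nat_lit 0x2000120000000000000000000000000000000000000000) := D_48 (nat_lit 164) (nat_lit 161) (nat_lit 181) (nat_lit 0) (nat_lit 11) (nat_lit 9) (nat_lit 7) (nat_lit 10) (nat_lit 6) (by decide +kernel)
theorem L117329 : W_48 (nat_lit 3) (nat_lit 0x800058003c0018000000020000000000000000000) (nat_lit 0x0) (nat_lit 0x2800160000000000000000000000000000000000000000) := T_48 (nat_lit 162) (nat_lit 179) (nat_lit 5) (nat_lit 10) (nat_lit 6) L117328 (by decide +kernel)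
theorem L117330 : W_48 (nat_lit 4) (nat_lit 0x58003c0018000000020000000000000000000) (nat_lit 0x0) (nat_lit 0x38001e0000000000000000000000000000000000000000) := T_48 (nat_lit 163) (nat_lit 180) (nat_lit 4) (nat_lit 10) (nat_lit 10) L117329 (by decide +kernel)
theorem L117331 : W_48 (nat_lit 5) (nat_lit 0x50003c0018000000020000000000000000000) (nat_lit 0x0) (nat_lit 0x38001e0000c00000000000000000000000000000000000) := T_48 (nat_lit 143) (nat_lit 142) (nat_lit 1) (nat_lit 10) (nat_lit 7) L117330 (by decide +kernel)
theorem L117332 : W_48 (nat_lit 6) (nat_lit 0x10003c0018000000020000000000000000000) (nat_lit 0x0) (nat_lit 0x38001e000cc00000000000000000000000000000000000) := T_48 (nat_lit 146) (nat_lit 147) (nat_lit 3) (nat_lit 7) (nat_lit 7) L117331 (by decide +kernel)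
theorem L117333 : W_48 (nat_lit 7) (nat_lit 0x10003c0018000000000000000000000000000) (nat_lit 0x0) (nat_lit 0x38001e000cc00000000000400020000000000000000000) := T_48 (nat_lit 77) (nat_lit 94) (nat_lit 5) (nat_lit 9) (nat_lit 4) L117332 (by decide +kernel)
theorem L117334 : W_48 (nat_lit 8) (nat_lit 0x1000380018000000000000000000000000000) (nat_lit 0x0) (nat_lit 0x38001e000cc00060000000400020000000000000000000) := T_48 (nat_lit 126) (nat_lit 125) (nat_lit 2) (nat_lit 6) (nat_lit 7) L117333 (by decide +kernel)
theorem L117335 : W_48 (nat_lit 9) (nat_lit 0x1000180018000000000000000000000000000) (nat_lit 0x0) (nat_lit 0x38001e001cc01e60004000400020000000000000000000) := Q_48 (nat_lit 129) (C_48 L117322 (C_48 L117327 (C_48 L117295 (C_48 L117334 N_48)))) (by decide +kernel)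
theorem L117336 : W_48 (nat_lit 10) (nat_lit 0x1000180008000000000000000000000000000) (nat_lit 0x0) (nat_lit 0x38001e001cc01e600740034000a0000000000000000000) := Q_48 (nat_lit 112) (C_48 L117308 (C_48 L117310 (C_48 L117254 (C_48 L117317 (C_48 L117335 N_48))))) (by decide +kernel)
theorem L117337 : W_48 (nat_lit 2) (nat_lit 0x4000000090007c0008000000020000000000000000000) (nat_lit 0x0) (nat_lit 0x20030000000000000000000000000000) := D_48 (nat_lit 112) (nat_lit 113) (nat_lit 125) (nat_lit 2) (nat_lit 7) (nat_lit 7) (nat_lit 2) (nat_lit 6) (nat_lit 7) (by decide +kernel)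
theorem L117338 : W_48 (nat_lit 3) (nat_lit 0x400000009000780008000000020000000000000000000) (nat_lit 0x0) (nat_lit 0x4000060030000000000000000000000000000) := T_48 (nat_lit 126) (nat_lit 146) (nat_lit 3) (nat_lit 7) (nat_lit 7) L117337 (by decide +kernel)
theorem L117339 : W_48 (nat_lit 4) (nat_lit 0x400000001000780008000000020000000000000000000) (nat_lit 0x0) (nat_lit 0x1c000060030000000000000000000000000000) := T_48 (nat_lit 147) (nat_lit 148) (nat_lit 3) (nat_lit 8) (nat_lit 7) L117338 (by decide +kernel)
theorem L117340 : W_48 (nat_lit 5) (nat_lit 0x1000780008000000020000000000000000000) (nat_lit 0x0) (nat_lit 0x40002001c000060030000000000000000000000000000) := T_48 (nat_lit 178) (nat_lit 161) (nat_lit 6) (nat_lit 8) (nat_lit 10) L117339 (by decide +kernel)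
theorem L117341 : W_48 (nat_lit 6) (nat_lit 0x1000380008000000020000000000000000000) (nat_lit 0x0) (nat_lit 0x40002001c800460030000000000000000000000000000) := T_48 (nat_lit 130) (nat_lit 143) (nat_lit 1) (nat_lit 11) (nat_lit 7) L117340 (by decide +kernel)
theorem L117342 : W_48 (nat_lit 7) (nat_lit 0x1000380008000000000000000000000000000) (nat_lit 0x0) (nat_lit 0x40002001c800460030000400020000000000000000000) := T_48 (nat_lit 77) (nat_lit 94) (nat_lit 5) (nat_lit 9) (nat_lit 4) L117341 (by decide +kernel)
theorem L117343 : W_48 (nat_lit 2) (nat_lit 0x1000380018000000000000000000000000000) (nat_lit 0x0) (nat_lit 0x40060000000000000000000000000000) := D_48 (nat_lit 113) (nat_lit 114) (nat_lit 126) (nat_lit 1) (nat_lit 12) (nat_lit 6) (nat_lit 2) (nat_lit 7) (nat_lit 7) (by decide +kernel)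
theorem L117344 : W_48 (nat_lit 2) (nat_lit 0x5000380018000000000000000000000000000) (nat_lit 0x0) (nat_lit 0x80000000000000000400020000000000000000000) := D_48 (nat_lit 94) (nat_lit 77) (nat_lit 163) (nat_lit 7) (nat_lit 9) (nat_lit 4) (nat_lit 4) (nat_lit 10) (nat_lit 9) (by decide +kernel)
theorem L117345 : W_48 (nat_lit 2) (nat_lit 0x80005000380018000000000000000000000000000) (nat_lit 0x0) (nat_lit 0x60001000000000000000000000000) := D_48 (nat_lit 113) (nat_lit 114) (nat_lit 96) (nat_lit 1) (nat_lit 12) (nat_lit 6) (nat_lit 6) (nat_lit 10) (nat_lit 9) (by decide +kernel)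
theorem L117346 : W_48 (nat_lit 3) (nat_lit 0x5000380018000000000000000000000000000) (nat_lit 0x0) (nat_lit 0x1000080000000000060001000000000000000000000000) := T_48 (nat_lit 163) (nat_lit 180) (nat_lit 4) (nat_lit 10) (nat_lit 10) L117345 (by decide +kernel)
theorem L117347 : W_48 (nat_lit 2) (nat_lit 0xd000380058000800000000000000000000000) (nat_lit 0x0) (nat_lit 0x400000000000040002000000000000000) := D_48 (nat_lit 78) (nat_lit 130) (nat_lit 61) (nat_lit 7) (nat_lit 10) (nat_lit 4) (nat_lit 5) (nat_lit 10) (nat_lit 3) (by decide +kernel)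
theorem L117348 : W_48 (nat_lit 3) (nat_lit 0x5000380058000800000000000000000000000) (nat_lit 0x0) (nat_lit 0x100008000400000000000040002000000000000000) := T_48 (nat_lit 147) (nat_lit 164) (nat_lit 7) (nat_lit 10) (nat_lit 5) L117347 (by decide +kernel)
theorem L117349 : W_48 (nat_lit 4) (nat_lit 0x5000380018000800000000000000000000000) (nat_lit 0x0) (nat_lit 0x100008000400060000000040002000000000000000) := T_48 (nat_lit 114) (nat_lit 113) (nat_lit 1) (nat_lit 12) (nat_lit 6) L117348 (by decide +kernel)
theorem L117350 : W_48 (nat_lit 2) (nat_lit 0xd000380018005800000000000000000000000) (nat_lit 0x0) (nat_lit 0x400000000000040002000000000000000) := D_48 (nat_lit 78) (nat_lit 130) (nat_lit 61) (nat_lit 7) (nat_lit 10) (nat_lit 4) (nat_lit 5) (nat_lit 10) (nat_lit 3) (by decide +kernel)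
theorem L117351 : W_48 (nat_lit 3) (nat_lit 0x5000380018005800000000000000000000000) (nat_lit 0x0) (nat_lit 0x100008000400000000000040002000000000000000) := T_48 (nat_lit 147) (nat_lit 164) (nat_lit 7) (nat_lit 10) (nat_lit 5) L117350 (by decide +kernel)
theorem L117352 : W_48 (nat_lit 4) (nat_lit 0x5000380018001800000000000000000000000) (nat_lit 0x0) (nat_lit 0x100008000400000006000040002000000000000000) := T_48 (nat_lit 98) (nat_lit 97) (nat_lit 1) (nat_lit 13) (nat_lit 5) L117351 (by decide +kernel)
theorem L117353 : W_48 (nat_lit 5) (nat_lit 0x5000380018000800000000000000000000000) (nat_lit 0x0) (nat_lit 0x1000080004000000070000c0002000000000000000) := T_48 (nat_lit 96) (nat_lit 79) (nat_lit 6) (nat_lit 10) (nat_lit 8) L117352 (by decide +kernel)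
theorem L117354 : W_48 (nat_lit 2) (nat_lit 0x5000380058003800000002000000000000000) (nat_lit 0x0) (nat_lit 0x80000400020000000000000000000) := D_48 (nat_lit 94) (nat_lit 77) (nat_lit 115) (nat_lit 7) (nat_lit 9) (nat_lit 4) (nat_lit 3) (nat_lit 9) (nat_lit 5) (by decide +kernel)
theorem L117355 : W_48 (nat_lit 3) (nat_lit 0x5000380058001800000002000000000000000) (nat_lit 0x0) (nat_lit 0x80006400020000000000000000000) := T_48 (nat_lit 97) (nat_lit 98) (nat_lit 1) (nat_lit 13) (nat_lit 5) L117354 (by decide +kernel)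
theorem L117356 : W_48 (nat_lit 4) (nat_lit 0x5000380058000800000002000000000000000) (nat_lit 0x0) (nat_lit 0x800074000a0000000000000000000) := T_48 (nat_lit 96) (nat_lit 79) (nat_lit 6) (nat_lit 10) (nat_lit 8) L117355 (by decide +kernel)
theorem L117357 : W_48 (nat_lit 5) (nat_lit 0x5000380018000800000002000000000000000) (nat_lit 0x0) (nat_lit 0xe00074000a0000000000000000000) := T_48 (nat_lit 114) (nat_lit 113) (nat_lit 1) (nat_lit 12) (nat_lit 6) L117356 (by decide +kernel)
theorem L117358 : W_48 (nat_lit 6) (nat_lit 0x5000380018000800000000000000000000000) (nat_lit 0x0) (nat_lit 0xe00074000e0002000000000000000) := T_48 (nat_lit 61) (nat_lit 78) (nat_lit 5) (nat_lit 10) (nat_lit 3) L117357 (by decide +kernel)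
theorem L117359 : W_48 (nat_lit 2) (nat_lit 0xd000380018000800000000000000000000000) (nat_lit 0x0) (nat_lit 0x30000400000000000000000000000000000000) := D_48 (nat_lit 148) (nat_lit 130) (nat_lit 149) (nat_lit 3) (nat_lit 8) (nat_lit 7) (nat_lit 0) (nat_lit 13) (nat_lit 8) (by decide +kernel)
theorem L117360 : W_48 (nat_lit 3) (nat_lit 0x5000380018000800000000000000000000000) (nat_lit 0x0) (nat_lit 0x100038000400000000000000000000000000000000) := T_48 (nat_lit 147) (nat_lit 164) (nat_lit 7) (nat_lit 10) (nat_lit 5) L117359 (by decide +kernel)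
theorem L117361 : W_48 (nat_lit 7) (nat_lit 0x5000380018000000000000000000000000000) (nat_lit 0x0) (nat_lit 0x1000380004000e0007c000e0002000000000000000) := Q_48 (nat_lit 95) (C_48 L117349 (C_48 L117353 (C_48 L117358 (C_48 L117360 N_48)))) (by decide +kernel)
theorem L117362 : W_48 (nat_lit 8) (nat_lit 0x1000380018000000000000000000000000000) (nat_lit 0x0) (nat_lit 0x100018003c0004000e0007c000e0002000000000000000) := Q_48 (nat_lit 146) (C_48 L117344 (C_48 L117346 (C_48 L117361 N_48))) (by decide +kernel)
theorem L117363 : W_48 (nat_lit 2) (nat_lit 0x10003c0018000400000000000000000000000) (nat_lit 0x0) (nat_lit 0x8000c000000000000000000000000000000000000) := D_48 (nat_lit 146) (nat_lit 147) (nat_lit 163) (nat_lit 3) (nat_lit 7) (nat_lit 7) (nat_lit 4) (nat_lit 10) (nat_lit 9) (by decide +kernel)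
theorem L117364 : W_48 (nat_lit 3) (nat_lit 0x10003c0018000000000000000000000000000) (nat_lit 0x0) (nat_lit 0x8000c000000000000400020000000000000000000) := T_48 (nat_lit 94) (nat_lit 77) (nat_lit 5) (nat_lit 9) (nat_lit 4) L117363 (by decide +kernel)
theorem L117365 : W_48 (nat_lit 4) (nat_lit 0x1000380018000000000000000000000000000) (nat_lit 0x0) (nat_lit 0x8000c000060000000400020000000000000000000) := T_48 (nat_lit 126) (nat_lit 125) (nat_lit 2) (nat_lit 6) (nat_lit 7) L117364 (by decide +kernel)
theorem L117366 : W_48 (nat_lit 9) (nat_lit 0x1000380008000000000000000000000000000) (nat_lit 0x0) (nat_lit 0x100018003c0004600f0007c000e0002000000000000000) := Q_48 (nat_lit 112) (C_48 L117343 (C_48 L117362 (C_48 L117365 N_48))) (by decide +kernel)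
theorem L117367 : W_48 (nat_lit 2) (nat_lit 0x4000000090007c0008000000020000000000000000000) (nat_lit 0x0) (nat_lit 0x70000000000000000000000000000) := D_48 (nat_lit 113) (nat_lit 112) (nat_lit 114) (nat_lit 2) (nat_lit 7) (nat_lit 7) (nat_lit 2) (nat_lit 8) (nat_lit 7) (by decide +kernel)
theorem L117368 : W_48 (nat_lit 3) (nat_lit 0x400000009000780008000000020000000000000000000) (nat_lit 0x0) (nat_lit 0x4000040070000000000000000000000000000) := T_48 (nat_lit 126) (nat_lit 146) (nat_lit 3) (nat_lit 7) (nat_lit 7) L117367 (by decide +kernel)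
theorem L117369 : W_48 (nat_lit 4) (nat_lit 0x400000001000780008000000020000000000000000000) (nat_lit 0x0) (nat_lit 0x1c000040070000000000000000000000000000) := T_48 (nat_lit 147) (nat_lit 148) (nat_lit 3) (nat_lit 8) (nat_lit 7) L117368 (by decide +kernel)
theorem L117370 : W_48 (nat_lit 5) (nat_lit 0x1000780008000000020000000000000000000) (nat_lit 0x0) (nat_lit 0x40002001c000040070000000000000000000000000000) := T_48 (nat_lit 178) (nat_lit 161) (nat_lit 6) (nat_lit 8) (nat_lit 10) L117369 (by decide +kernel)
theorem L117371 : W_48 (nat_lit 6) (nat_lit 0x1000380008000000020000000000000000000) (nat_lit 0x0) (nat_lit 0x40002001c800440070000000000000000000000000000) := T_48 (nat_lit 130) (nat_lit 143) (nat_lit 1) (nat_lit 11) (nat_lit 7) L117370 (by decide +kernel)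
theorem L117372 : W_48 (nat_lit 7) (nat_lit 0x1000380008000000000000000000000000000) (nat_lit 0x0) (nat_lit 0x40002001c800440070000400020000000000000000000) := T_48 (nat_lit 77) (nat_lit 94) (nat_lit 5) (nat_lit 9) (nat_lit 4) L117371 (by decide +kernel)
theorem L117373 : W_48 (nat_lit 2) (nat_lit 0xd000780028000000020000000000000000000) (nat_lit 0x0) (nat_lit 0x1000080000000000000001000000000000000000000000) := D_48 (nat_lit 163) (nat_lit 180) (nat_lit 96) (nat_lit 6) (nat_lit 10) (nat_lit 10) (nat_lit 5) (nat_lit 11) (nat_lit 5) (by decide +kernel)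
theorem L117374 : W_48 (nat_lit 3) (nat_lit 0xd000780008000000020000000000000000000) (nat_lit 0x0) (nat_lit 0x1000080000000000060001000000000000000000000000) := T_48 (nat_lit 113) (nat_lit 114) (nat_lit 2) (nat_lit 8) (nat_lit 7) L117373 (by decide +kernel)
theorem L117375 : W_48 (nat_lit 4) (nat_lit 0x9000780008000000020000000000000000000) (nat_lit 0x0) (nat_lit 0x1000080004000040060001000000000000000000000000) := T_48 (nat_lit 146) (nat_lit 126) (nat_lit 3) (nat_lit 7) (nat_lit 7) L117374 (by decide +kernel)
theorem L117376 : W_48 (nat_lit 5) (nat_lit 0x1000780008000000020000000000000000000) (nat_lit 0x0) (nat_lit 0x100008001c000040060001000000000000000000000000) := T_48 (nat_lit 147) (nat_lit 148) (nat_lit 3) (nat_lit 8) (nat_lit 7) L117375 (by decide +kernel)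
theorem L117377 : W_48 (nat_lit 6) (nat_lit 0x1000780008000000000000000000000000000) (nat_lit 0x0) (nat_lit 0x100008001c000040060001400020000000000000000000) := T_48 (nat_lit 77) (nat_lit 94) (nat_lit 5) (nat_lit 9) (nat_lit 4) L117376 (by decide +kernel)
theorem L117378 : W_48 (nat_lit 7) (nat_lit 0x1000380008000000000000000000000000000) (nat_lit 0x0) (nat_lit 0x100008001c800440060001400020000000000000000000) := T_48 (nat_lit 130) (nat_lit 143) (nat_lit 1) (nat_lit 11) (nat_lit 7) L117377 (by decide +kernel)
theorem L117379 : W_48 (nat_lit 2) (nat_lit 0x4000000090007c0008000000000000000000000000000) (nat_lit 0x0) (nat_lit 0x20030000000000000000000000000000) := D_48 (nat_lit 112) (nat_lit 113) (nat_lit 125) (nat_lit 2) (nat_lit 7) (nat_lit 7) (nat_lit 2) (nat_lit 6) (nat_lit 7) (by decide +kernel)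
theorem L117380 : W_48 (nat_lit 3) (nat_lit 0x400000009000780008000000000000000000000000000) (nat_lit 0x0) (nat_lit 0x4000060030000000000000000000000000000) := T_48 (nat_lit 126) (nat_lit 146) (nat_lit 3) (nat_lit 7) (nat_lit 7) L117379 (by decide +kernel)
theorem L117381 : W_48 (nat_lit 4) (nat_lit 0x400000001000780008000000000000000000000000000) (nat_lit 0x0) (nat_lit 0x1c000060030000000000000000000000000000) := T_48 (nat_lit 147) (nat_lit 148) (nat_lit 3) (nat_lit 8) (nat_lit 7) L117380 (by decide +kernel)
theorem L117382 : W_48 (nat_lit 5) (nat_lit 0x1000780008000000000000000000000000000) (nat_lit 0x0) (nat_lit 0x40002001c000060030000000000000000000000000000) := T_48 (nat_lit 178) (nat_lit 161) (nat_lit 6) (nat_lit 8) (nat_lit 10) L117381 (by decide +kernel)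
theorem L117383 : W_48 (nat_lit 6) (nat_lit 0x1000380008000000000000000000000000000) (nat_lit 0x0) (nat_lit 0x40002001c800460030000000000000000000000000000) := T_48 (nat_lit 130) (nat_lit 143) (nat_lit 1) (nat_lit 11) (nat_lit 7) L117382 (by decide +kernel)
theorem L117384 : W_48 (nat_lit 2) (nat_lit 0x2400000049001f80048000000020000000000000000000) (nat_lit 0x0) (nat_lit 0x84002000000000000000000000000000000000) := D_48 (nat_lit 133) (nat_lit 146) (nat_lit 151) (nat_lit 1) (nat_lit 14) (nat_lit 7) (nat_lit 3) (nat_lit 11) (nat_lit 7) (by decide +kernel)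
theorem L117385 : W_48 (nat_lit 3) (nat_lit 0x2400000009001f80048000000020000000000000000000) (nat_lit 0x0) (nat_lit 0xe4002000000000000000000000000000000000) := T_48 (nat_lit 150) (nat_lit 149) (nat_lit 3) (nat_lit 10) (nat_lit 7) L117384 (by decide +kernel)
theorem L117386 : W_48 (nat_lit 4) (nat_lit 0x400000009001f80048000000020000000000000000000) (nat_lit 0x0) (nat_lit 0x20001000e4002000000000000000000000000000000000) := T_48 (nat_lit 181) (nat_lit 164) (nat_lit 6) (nat_lit 11) (nat_lit 10) L117385 (by decide +kernel)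
theorem L117387 : W_48 (nat_lit 5) (nat_lit 0x400000009000f80048000000020000000000000000000) (nat_lit 0x0) (nat_lit 0x20001000e4003000010000000000000000000000000000) := T_48 (nat_lit 132) (nat_lit 112) (nat_lit 0) (nat_lit 13) (nat_lit 7) L117386 (by decide +kernel)
theorem L117388 : W_48 (nat_lit 6) (nat_lit 0x400000009000780048000000020000000000000000000) (nat_lit 0x0) (nat_lit 0x20001000e4003800090000000000000000000000000000) := T_48 (nat_lit 131) (nat_lit 115) (nat_lit 2) (nat_lit 9) (nat_lit 7) L117387 (by decide +kernel)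
theorem L117389 : W_48 (nat_lit 7) (nat_lit 0x9000780048000000020000000000000000000) (nat_lit 0x0) (nat_lit 0x24001200e4003800090000000000000000000000000000) := T_48 (nat_lit 178) (nat_lit 161) (nat_lit 6) (nat_lit 8) (nat_lit 10) L117388 (by decide +kernel)
theorem L117390 : W_48 (nat_lit 8) (nat_lit 0x9000780008000000020000000000000000000) (nat_lit 0x0) (nat_lit 0x24001200e40038000f0000000000000000000000000000) := T_48 (nat_lit 114) (nat_lit 113) (nat_lit 2) (nat_lit 8) (nat_lit 7) L117389 (by decide +kernel)
theorem L117391 : W_48 (nat_lit 9) (nat_lit 0x1000780008000000020000000000000000000) (nat_lit 0x0) (nat_lit 0x24001200fc0038000f0000000000000000000000000000) := T_48 (nat_lit 147) (nat_lit 148) (nat_lit 3) (nat_lit 8) (nat_lit 7) L117390 (by decide +kernel)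
theorem L117392 : W_48 (nat_lit 10) (nat_lit 0x1000780008000000000000000000000000000) (nat_lit 0x0) (nat_lit 0x24001200fc0038000f0000400020000000000000000000) := T_48 (nat_lit 77) (nat_lit 94) (nat_lit 5) (nat_lit 9) (nat_lit 4) L117391 (by decide +kernel)
theorem L117393 : W_48 (nat_lit 11) (nat_lit 0x1000380008000000000000000000000000000) (nat_lit 0x0) (nat_lit 0x24001200fc803c000f0000400020000000000000000000) := T_48 (nat_lit 130) (nat_lit 143) (nat_lit 1) (nat_lit 11) (nat_lit 7) L117392 (by decide +kernel)
theorem L117394 : W_48 (nat_lit 2) (nat_lit 0x92007e0008800000020000000000000000000) (nat_lit 0x0) (nat_lit 0x100010000400000000000000000000000000) := D_48 (nat_lit 124) (nat_lit 140) (nat_lit 106) (nat_lit 1) (nat_lit 8) (nat_lit 7) (nat_lit 0) (nat_lit 8) (nat_lit 7) (by decide +kernel)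
theorem L117395 : W_48 (nat_lit 3) (nat_lit 0x92007e0008000000020000000000000000000) (nat_lit 0x0) (nat_lit 0x100010001c00000000000000000000000000) := T_48 (nat_lit 107) (nat_lit 108) (nat_lit 0) (nat_lit 9) (nat_lit 7) L117394 (by decide +kernel)
theorem L117396 : W_48 (nat_lit 4) (nat_lit 0x90007e0008000000020000000000000000000) (nat_lit 0x0) (nat_lit 0x700010001c00000000000000000000000000) := T_48 (nat_lit 141) (nat_lit 142) (nat_lit 1) (nat_lit 9) (nat_lit 7) L117395 (by decide +kernel)
theorem L117397 : W_48 (nat_lit 5) (nat_lit 0x90007c0008000000020000000000000000000) (nat_lit 0x0) (nat_lit 0x700030011c00000000000000000000000000) := T_48 (nat_lit 125) (nat_lit 112) (nat_lit 2) (nat_lit 6) (nat_lit 7) L117396 (by decide +kernel)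
theorem L117398 : W_48 (nat_lit 6) (nat_lit 0x9000780008000000020000000000000000000) (nat_lit 0x0) (nat_lit 0x4700070011c00000000000000000000000000) := T_48 (nat_lit 126) (nat_lit 146) (nat_lit 3) (nat_lit 7) (nat_lit 7) L117397 (by decide +kernel)
theorem L117399 : W_48 (nat_lit 7) (nat_lit 0x1000780008000000020000000000000000000) (nat_lit 0x0) (nat_lit 0x1c700070011c00000000000000000000000000) := T_48 (nat_lit 147) (nat_lit 148) (nat_lit 3) (nat_lit 8) (nat_lit 7) L117398 (by decide +kernel)
theorem L117400 : W_48 (nat_lit 8) (nat_lit 0x1000780008000000000000000000000000000) (nat_lit 0x0) (nat_lit 0x1c700070011c00400020000000000000000000) := T_48 (nat_lit 77) (nat_lit 94) (nat_lit 5) (nat_lit 9) (nat_lit 4) L117399 (by decide +kernel)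
theorem L117401 : W_48 (nat_lit 9) (nat_lit 0x1000380008000000000000000000000000000) (nat_lit 0x0) (nat_lit 0x1cf00470011c00400020000000000000000000) := T_48 (nat_lit 130) (nat_lit 143) (nat_lit 1) (nat_lit 11) (nat_lit 7) L117400 (by decide +kernel)
theorem L117402 : W_48 (nat_lit 2) (nat_lit 0x40000002d000380058000800040000000000000000000) (nat_lit 0x0) (nat_lit 0x1000080004000000000000000) := D_48 (nat_lit 79) (nat_lit 96) (nat_lit 62) (nat_lit 6) (nat_lit 10) (nat_lit 8) (nat_lit 6) (nat_lit 10) (nat_lit 7) (by decide +kernel)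
theorem L117403 : W_48 (nat_lit 3) (nat_lit 0x40000002d000380058000800000000000000000000000) (nat_lit 0x0) (nat_lit 0x10000c0006000000000000000) := T_48 (nat_lit 78) (nat_lit 61) (nat_lit 5) (nat_lit 10) (nat_lit 3) L117402 (by decide +kernel)
theorem L117404 : W_48 (nat_lit 4) (nat_lit 0x40000002d000380018000800000000000000000000000) (nat_lit 0x0) (nat_lit 0x600010000c0006000000000000000) := T_48 (nat_lit 114) (nat_lit 113) (nat_lit 1) (nat_lit 12) (nat_lit 6) L117403 (by decide +kernel)
theorem L117405 : W_48 (nat_lit 5) (nat_lit 0x40000000d000380018000800000000000000000000000) (nat_lit 0x0) (nat_lit 0x300000000600010000c0006000000000000000) := T_48 (nat_lit 149) (nat_lit 148) (nat_lit 0) (nat_lit 13) (nat_lit 8) L117404 (by decide +kernel)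
theorem L117406 : W_48 (nat_lit 6) (nat_lit 0x400000005000380018000800000000000000000000000) (nat_lit 0x0) (nat_lit 0x1000380000000600010000c0006000000000000000) := T_48 (nat_lit 147) (nat_lit 164) (nat_lit 7) (nat_lit 10) (nat_lit 5) L117405 (by decide +kernel)
theorem L117407 : W_48 (nat_lit 7) (nat_lit 0x5000380018000800000000000000000000000) (nat_lit 0x0) (nat_lit 0x4001200380000000600010000c0006000000000000000) := T_48 (nat_lit 178) (nat_lit 161) (nat_lit 6) (nat_lit 8) (nat_lit 10) L117406 (by decide +kernel)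
theorem L117408 : W_48 (nat_lit 2) (nat_lit 0x5000380018005800020000000000000000000) (nat_lit 0x0) (nat_lit 0x40003000000000000000) := D_48 (nat_lit 78) (nat_lit 60) (nat_lit 61) (nat_lit 4) (nat_lit 10) (nat_lit 7) (nat_lit 5) (nat_lit 10) (nat_lit 3) (by decide +kernel)
theorem L117409 : W_48 (nat_lit 3) (nat_lit 0x5000380018005800000000000000000000000) (nat_lit 0x0) (nat_lit 0x400060003000000000000000) := T_48 (nat_lit 77) (nat_lit 94) (nat_lit 7) (nat_lit 9) (nat_lit 4) L117408 (by decide +kernel)
theorem L117410 : W_48 (nat_lit 4) (nat_lit 0x5000380018001800000000000000000000000) (nat_lit 0x0) (nat_lit 0x6400060003000000000000000) := T_48 (nat_lit 98) (nat_lit 97) (nat_lit 1) (nat_lit 13) (nat_lit 5) L117409 (by decide +kernel)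
theorem L117411 : W_48 (nat_lit 5) (nat_lit 0x5000380018000800000000000000000000000) (nat_lit 0x0) (nat_lit 0x74000e0003000000000000000) := T_48 (nat_lit 96) (nat_lit 79) (nat_lit 6) (nat_lit 10) (nat_lit 8) L117410 (by decide +kernel)
theorem L117412 : W_48 (nat_lit 2) (nat_lit 0x5000380018000800020000000000000000000) (nat_lit 0x0) (nat_lit 0x40003000000000000000) := D_48 (nat_lit 78) (nat_lit 61) (nat_lit 60) (nat_lit 5) (nat_lit 10) (nat_lit 3) (nat_lit 4) (nat_lit 10) (nat_lit 7) (by decide +kernel)
theorem L117413 : W_48 (nat_lit 3) (nat_lit 0x5000380018000800000000000000000000000) (nat_lit 0x0) (nat_lit 0x400060003000000000000000) := T_48 (nat_lit 77) (nat_lit 94) (nat_lit 7) (nat_lit 9) (nat_lit 4) L117412 (by decide +kernel)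
theorem L117414 : W_48 (nat_lit 2) (nat_lit 0x40000002d000380058001c00000000000000000000000) (nat_lit 0x0) (nat_lit 0x80006000000000000000000000000) := D_48 (nat_lit 97) (nat_lit 115) (nat_lit 98) (nat_lit 3) (nat_lit 9) (nat_lit 5) (nat_lit 1) (nat_lit 13) (nat_lit 5) (by decide +kernel)
theorem L117415 : W_48 (nat_lit 3) (nat_lit 0x40000002d000380058000c00000000000000000000000) (nat_lit 0x0) (nat_lit 0x80007000080000000000000000000) := T_48 (nat_lit 96) (nat_lit 79) (nat_lit 6) (nat_lit 10) (nat_lit 8) L117414 (by decide +kernel)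
theorem L117416 : W_48 (nat_lit 4) (nat_lit 0x2d000380058000c00000000000000000000000) (nat_lit 0x0) (nat_lit 0x400020000000000080007000080000000000000000000) := T_48 (nat_lit 178) (nat_lit 161) (nat_lit 6) (nat_lit 8) (nat_lit 10) L117415 (by decide +kernel)
theorem L117417 : W_48 (nat_lit 5) (nat_lit 0xd000380058000c00000000000000000000000) (nat_lit 0x0) (nat_lit 0x400020030000000080007000080000000000000000000) := T_48 (nat_lit 149) (nat_lit 148) (nat_lit 0) (nat_lit 13) (nat_lit 8) L117416 (by decide +kernel)
theorem L117418 : W_48 (nat_lit 6) (nat_lit 0x5000380058000c00000000000000000000000) (nat_lit 0x0) (nat_lit 0x400120038000000080007000080000000000000000000) := T_48 (nat_lit 147) (nat_lit 164) (nat_lit 7) (nat_lit 10) (nat_lit 5) L117417 (by decide +kernel)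
theorem L117419 : W_48 (nat_lit 7) (nat_lit 0x5000380058000800000000000000000000000) (nat_lit 0x0) (nat_lit 0x4001200380000000800074000a0000000000000000000) := T_48 (nat_lit 94) (nat_lit 77) (nat_lit 7) (nat_lit 9) (nat_lit 4) L117418 (by decide +kernel)
theorem L117420 : W_48 (nat_lit 8) (nat_lit 0x5000380018000800000000000000000000000) (nat_lit 0x0) (nat_lit 0x4001200380000000e00074000a0000000000000000000) := T_48 (nat_lit 114) (nat_lit 113) (nat_lit 1) (nat_lit 12) (nat_lit 6) L117419 (by decide +kernel)
theorem L117421 : W_48 (nat_lit 9) (nat_lit 0x5000380018000000000000000000000000000) (nat_lit 0x0) (nat_lit 0x4001200380000000e0007c000e0007000000000000000) := Q_48 (nat_lit 95) (C_48 L117358 (C_48 L117407 (C_48 L117411 (C_48 L117413 (C_48 L117420 N_48))))) (by decide +kernel)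
theorem L117422 : W_48 (nat_lit 10) (nat_lit 0x1000380018000000000000000000000000000) (nat_lit 0x0) (nat_lit 0x14001a003c0000000e0007c000e0007000000000000000) := Q_48 (nat_lit 146) (C_48 L117346 (C_48 L117421 (C_48 L117344 N_48))) (by decide +kernel)
theorem L117423 : W_48 (nat_lit 11) (nat_lit 0x1000380008000000000000000000000000000) (nat_lit 0x0) (nat_lit 0x14001a003c0000600f0007c000e0007000000000000000) := Q_48 (nat_lit 112) (C_48 L117365 (C_48 L117343 (C_48 L117422 N_48))) (by decide +kernel)
theorem L117424 : W_48 (nat_lit 2) (nat_lit 0x400000009000780038000000020000000000000000000) (nat_lit 0x0) (nat_lit 0x100000000000000000800040000000000000000000) := D_48 (nat_lit 95) (nat_lit 78) (nat_lit 164) (nat_lit 7) (nat_lit 10) (nat_lit 4) (nat_lit 4) (nat_lit 11) (nat_lit 9) (by decide +kernel)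
theorem L117425 : W_48 (nat_lit 3) (nat_lit 0x400000009000780028000000020000000000000000000) (nat_lit 0x0) (nat_lit 0x100000000040010000800040000000000000000000) := T_48 (nat_lit 112) (nat_lit 126) (nat_lit 2) (nat_lit 7) (nat_lit 7) L117424 (by decide +kernel)
theorem L117426 : W_48 (nat_lit 4) (nat_lit 0x400000009000780008000000020000000000000000000) (nat_lit 0x0) (nat_lit 0x100000000040070000800040000000000000000000) := T_48 (nat_lit 113) (nat_lit 114) (nat_lit 2) (nat_lit 8) (nat_lit 7) L117425 (by decide +kernel)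
theorem L117427 : W_48 (nat_lit 5) (nat_lit 0x400000001000780008000000020000000000000000000) (nat_lit 0x0) (nat_lit 0x100018000040070000800040000000000000000000) := T_48 (nat_lit 147) (nat_lit 148) (nat_lit 3) (nat_lit 8) (nat_lit 7) L117426 (by decide +kernel)
theorem L117428 : W_48 (nat_lit 6) (nat_lit 0x1000780008000000020000000000000000000) (nat_lit 0x0) (nat_lit 0x400120018000040070000800040000000000000000000) := T_48 (nat_lit 178) (nat_lit 161) (nat_lit 6) (nat_lit 8) (nat_lit 10) L117427 (by decide +kernel)
theorem L117429 : W_48 (nat_lit 7) (nat_lit 0x1000380008000000020000000000000000000) (nat_lit 0x0) (nat_lit 0x400120018800440070000800040000000000000000000) := T_48 (nat_lit 130) (nat_lit 143) (nat_lit 1) (nat_lit 11) (nat_lit 7) L117428 (by decide +kernel)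
theorem L117430 : W_48 (nat_lit 8) (nat_lit 0x1000380008000000000000000000000000000) (nat_lit 0x0) (nat_lit 0x400120018800440070000c00060000000000000000000) := T_48 (nat_lit 77) (nat_lit 94) (nat_lit 5) (nat_lit 9) (nat_lit 4) L117429 (by decide +kernel)
theorem L117431 : W_48 (nat_lit 2) (nat_lit 0x400000001000fc0058000400000000000000000000000) (nat_lit 0x0) (nat_lit 0x8000c000000000000000000000000000000000000) := D_48 (nat_lit 146) (nat_lit 163) (nat_lit 147) (nat_lit 4) (nat_lit 10) (nat_lit 9) (nat_lit 3) (nat_lit 7) (nat_lit 7) (by decide +kernel)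
theorem L117432 : W_48 (nat_lit 3) (nat_lit 0x400000001000f80058000400000000000000000000000) (nat_lit 0x0) (nat_lit 0x8000c000060000000000000000000000000000000) := T_48 (nat_lit 126) (nat_lit 125) (nat_lit 2) (nat_lit 6) (nat_lit 7) L117431 (by decide +kernel)
theorem L117433 : W_48 (nat_lit 4) (nat_lit 0x400000001000f80048000400000000000000000000000) (nat_lit 0x0) (nat_lit 0x8000c001060010000000000000000000000000000) := T_48 (nat_lit 112) (nat_lit 132) (nat_lit 0) (nat_lit 13) (nat_lit 7) L117432 (by decide +kernel)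
theorem L117434 : W_48 (nat_lit 5) (nat_lit 0x400000001000780048000400000000000000000000000) (nat_lit 0x0) (nat_lit 0x8000c001860090000000000000000000000000000) := T_48 (nat_lit 131) (nat_lit 115) (nat_lit 2) (nat_lit 9) (nat_lit 7) L117433 (by decide +kernel)
theorem L117435 : W_48 (nat_lit 6) (nat_lit 0x1000780048000400000000000000000000000) (nat_lit 0x0) (nat_lit 0x4000a000c001860090000000000000000000000000000) := T_48 (nat_lit 178) (nat_lit 161) (nat_lit 6) (nat_lit 8) (nat_lit 10) L117434 (by decide +kernel)
theorem L117436 : W_48 (nat_lit 7) (nat_lit 0x1000780008000400000000000000000000000) (nat_lit 0x0) (nat_lit 0x4000a000c0018600f0000000000000000000000000000) := T_48 (nat_lit 114) (nat_lit 113) (nat_lit 2) (nat_lit 8) (nat_lit 7) L117435 (by decide +kernel)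
theorem L117437 : W_48 (nat_lit 8) (nat_lit 0x1000780008000000000000000000000000000) (nat_lit 0x0) (nat_lit 0x4000a000c0018600f0000400020000000000000000000) := T_48 (nat_lit 94) (nat_lit 77) (nat_lit 5) (nat_lit 9) (nat_lit 4) L117436 (by decide +kernel)
theorem L117438 : W_48 (nat_lit 9) (nat_lit 0x1000380008000000000000000000000000000) (nat_lit 0x0) (nat_lit 0x4000a000c801c600f0000400020000000000000000000) := T_48 (nat_lit 130) (nat_lit 143) (nat_lit 1) (nat_lit 11) (nat_lit 7) L117437 (by decide +kernel)
theorem L117439 : W_48 (nat_lit 2) (nat_lit 0x400000001001f80048000000020000000000000000000) (nat_lit 0x0) (nat_lit 0x70000000000000000000000000000000000000) := D_48 (nat_lit 149) (nat_lit 148) (nat_lit 150) (nat_lit 3) (nat_lit 9) (nat_lit 7) (nat_lit 3) (nat_lit 10) (nat_lit 7) (by decide +kernel)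
theorem L117440 : W_48 (nat_lit 3) (nat_lit 0x400000001000f80048000000020000000000000000000) (nat_lit 0x0) (nat_lit 0x70001000010000000000000000000000000000) := T_48 (nat_lit 132) (nat_lit 112) (nat_lit 0) (nat_lit 13) (nat_lit 7) L117439 (by decide +kernel)
theorem L117441 : W_48 (nat_lit 4) (nat_lit 0x400000001000780048000000020000000000000000000) (nat_lit 0x0) (nat_lit 0x70001800090000000000000000000000000000) := T_48 (nat_lit 131) (nat_lit 115) (nat_lit 2) (nat_lit 9) (nat_lit 7) L117440 (by decide +kernel)
theorem L117442 : W_48 (nat_lit 5) (nat_lit 0x1000780048000000020000000000000000000) (nat_lit 0x0) (nat_lit 0x400020070001800090000000000000000000000000000) := T_48 (nat_lit 178) (nat_lit 161) (nat_lit 6) (nat_lit 8) (nat_lit 10) L117441 (by decide +kernel)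
theorem L117443 : W_48 (nat_lit 6) (nat_lit 0x1000780008000000020000000000000000000) (nat_lit 0x0) (nat_lit 0x4000200700018000f0000000000000000000000000000) := T_48 (nat_lit 114) (nat_lit 113) (nat_lit 2) (nat_lit 8) (nat_lit 7) L117442 (by decide +kernel)
theorem L117444 : W_48 (nat_lit 7) (nat_lit 0x1000780008000000000000000000000000000) (nat_lit 0x0) (nat_lit 0x4000200700018000f0000400020000000000000000000) := T_48 (nat_lit 77) (nat_lit 94) (nat_lit 5) (nat_lit 9) (nat_lit 4) L117443 (by decide +kernel)
theorem L117445 : W_48 (nat_lit 8) (nat_lit 0x1000380008000000000000000000000000000) (nat_lit 0x0) (nat_lit 0x400020070801c000f0000400020000000000000000000) := T_48 (nat_lit 130) (nat_lit 143) (nat_lit 1) (nat_lit 11) (nat_lit 7) L117444 (by decide +kernel)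
theorem L117446 : W_48 (nat_lit 12) (nat_lit 0x1000180008000000000000000000000000000) (nat_lit 0x0) (nat_lit 0x34001a00fcf03e700f1c07c000e0007000000000000000) := Q_48 (nat_lit 129) (C_48 L117342 (C_48 L117366 (C_48 L117372 (C_48 L117378 (C_48 L117383 (C_48 L117393 (C_48 L117401 (C_48 L117423 (C_48 L117430 (C_48 L117438 (C_48 L117445 N_48))))))))))) (by decide +kernel)
theorem L117447 : W_48 (nat_lit 2) (nat_lit 0x5000380018003800000000000000000000000) (nat_lit 0x0) (nat_lit 0x64000000000000000000000000000) := D_48 (nat_lit 113) (nat_lit 114) (nat_lit 110) (nat_lit 1) (nat_lit 12) (nat_lit 6) (nat_lit 2) (nat_lit 8) (nat_lit 6) (by decide +kernel)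
theorem L117448 : W_48 (nat_lit 3) (nat_lit 0x5000380018001800000000000000000000000) (nat_lit 0x0) (nat_lit 0x64006000000000000000000000000) := T_48 (nat_lit 97) (nat_lit 98) (nat_lit 1) (nat_lit 13) (nat_lit 5) L117447 (by decide +kernel)
theorem L117449 : W_48 (nat_lit 4) (nat_lit 0x5000380018000800000000000000000000000) (nat_lit 0x0) (nat_lit 0x64007000080000000000000000000) := T_48 (nat_lit 96) (nat_lit 79) (nat_lit 6) (nat_lit 10) (nat_lit 8) L117448 (by decide +kernel)
theorem L117450 : W_48 (nat_lit 5) (nat_lit 0x5000380018000000000000000000000000000) (nat_lit 0x0) (nat_lit 0x64007c000e0003000000000000000) := Q_48 (nat_lit 95) (C_48 L117413 (C_48 L117449 N_48)) (by decide +kernel)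
theorem L117451 : W_48 (nat_lit 6) (nat_lit 0x1000380018000000000000000000000000000) (nat_lit 0x0) (nat_lit 0x1000080004000000064007c000e0003000000000000000) := Q_48 (nat_lit 146) (C_48 L117346 (C_48 L117450 (C_48 L117344 N_48))) (by decide +kernel)
theorem L117452 : W_48 (nat_lit 9) (nat_lit 0x1000180018000000000000000000000000000) (nat_lit 0x0) (nat_lit 0x100018003c801e000e4007c000e0003000000000000000) := Q_48 (nat_lit 129) (C_48 L117362 (C_48 L117295 (C_48 L117451 N_48))) (by decide +kernel)
theorem L117453 : W_48 (nat_lit 5) (nat_lit 0x1000180018000000000000000000000000000) (nat_lit 0x0) (nat_lit 0x8000c801e60004000400020000000000000000000) := Q_48 (nat_lit 129) (C_48 L117365 (C_48 L117295 N_48)) (by decide +kernel)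
theorem L117454 : W_48 (nat_lit 10) (nat_lit 0x1000180008000000000000000000000000000) (nat_lit 0x0) (nat_lit 0x100018003c801e600f4007c000e0003000000000000000) := Q_48 (nat_lit 112) (C_48 L117308 (C_48 L117310 (C_48 L117254 (C_48 L117452 (C_48 L117453 N_48))))) (by decide +kernel)
theorem L117455 : W_48 (nat_lit 2) (nat_lit 0x6000900078003c000000000000000000000000000) (nat_lit 0x0) (nat_lit 0x2000100000000000000000800000000000000000000000) := D_48 (nat_lit 164) (nat_lit 95) (nat_lit 181) (nat_lit 4) (nat_lit 11) (nat_lit 9) (nat_lit 4) (nat_lit 11) (nat_lit 10) (by decide +kernel)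
theorem L117456 : W_48 (nat_lit 3) (nat_lit 0x6000100078003c000000000000000000000000000) (nat_lit 0x0) (nat_lit 0x2000100018000000000000800000000000000000000000) := T_48 (nat_lit 147) (nat_lit 148) (nat_lit 3) (nat_lit 8) (nat_lit 7) L117455 (by decide +kernel)
theorem L117457 : W_48 (nat_lit 4) (nat_lit 0x2000100078003c000000000000000000000000000) (nat_lit 0x0) (nat_lit 0x2800140018000000000000800000000000000000000000) := T_48 (nat_lit 162) (nat_lit 179) (nat_lit 7) (nat_lit 8) (nat_lit 6) L117456 (by decide +kernel)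
theorem L117458 : W_48 (nat_lit 5) (nat_lit 0x2000100058003c000000000000000000000000000) (nat_lit 0x0) (nat_lit 0x2800140018800200000000800000000000000000000000) := T_48 (nat_lit 129) (nat_lit 143) (nat_lit 1) (nat_lit 11) (nat_lit 7) L117457 (by decide +kernel)
theorem L117459 : W_48 (nat_lit 6) (nat_lit 0x2000100018003c000000000000000000000000000) (nat_lit 0x0) (nat_lit 0x2800140018800e00000000800000000000000000000000) := T_48 (nat_lit 130) (nat_lit 131) (nat_lit 3) (nat_lit 8) (nat_lit 6) L117458 (by decide +kernel)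
theorem L117460 : W_48 (nat_lit 7) (nat_lit 0x20001000180038000000000000000000000000000) (nat_lit 0x0) (nat_lit 0x2800140018800e00004000c00000000000000000000000) := T_48 (nat_lit 110) (nat_lit 94) (nat_lit 6) (nat_lit 8) (nat_lit 9) L117459 (by decide +kernel)
theorem L117461 : W_48 (nat_lit 8) (nat_lit 0x20001000180018000000000000000000000000000) (nat_lit 0x0) (nat_lit 0x2800140018800e00064000c00000000000000000000000) := T_48 (nat_lit 113) (nat_lit 114) (nat_lit 1) (nat_lit 12) (nat_lit 6) L117460 (by decide +kernel)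
theorem L117462 : W_48 (nat_lit 9) (nat_lit 0x1000180018000000000000000000000000000) (nat_lit 0x0) (nat_lit 0x2c00160018800e00064000c00000000000000000000000) := T_48 (nat_lit 161) (nat_lit 178) (nat_lit 6) (nat_lit 8) (nat_lit 10) L117461 (by decide +kernel)
theorem L117463 : W_48 (nat_lit 10) (nat_lit 0x1000180008000000000000000000000000000) (nat_lit 0x0) (nat_lit 0x3c001e001cc01e60074000c00040000000000000000000) := Q_48 (nat_lit 112) (C_48 L117252 (C_48 L117310 (C_48 L117254 (C_48 L117462 (C_48 L117302 N_48))))) (by decide +kernel)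
theorem L117464 : W_48 (nat_lit 14) (nat_lit 0x1000180000000000000000000000000000000) (nat_lit 0x0) (nat_lit 0x3c001e00fcf03e700fdc07f000f8007c00000000000000) := Q_48 (nat_lit 111) (C_48 L117303 (C_48 L117305 (C_48 L117336 (C_48 L117446 (C_48 L117454 (C_48 L117463 N_48)))))) (by decide +kernel)
theorem L117465 : W_48 (nat_lit 2) (nat_lit 0x14000400020001000580020000000000000000000000000000) (nat_lit 0x0) (nat_lit 0x280008000000000000000000000000000000000000000000000000) := D_48 (nat_lit 195) (nat_lit 213) (nat_lit 211) (nat_lit 7) (nat_lit 8) (nat_lit 8) (nat_lit 5) (nat_lit 8) (nat_lit 8) (by decide +kernel)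
theorem L117466 : W_48 (nat_lit 2) (nat_lit 0x11000780044000000000000000000000000000) (nat_lit 0x0) (nat_lit 0x20000800080000000000000000000000000000) := D_48 (nat_lit 131) (nat_lit 149) (nat_lit 115) (nat_lit 3) (nat_lit 9) (nat_lit 7) (nat_lit 2) (nat_lit 9) (nat_lit 7) (by decide +kernel)
theorem L117467 : W_48 (nat_lit 3) (nat_lit 0x11000780004000000000000000000000000000) (nat_lit 0x0) (nat_lit 0x200008000e0000000000000000000000000000) := T_48 (nat_lit 114) (nat_lit 113) (nat_lit 2) (nat_lit 8) (nat_lit 7) L117466 (by decide +kernel)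
theorem L117468 : W_48 (nat_lit 4) (nat_lit 0x1000780004000000000000000000000000000) (nat_lit 0x0) (nat_lit 0x380008000e0000000000000000000000000000) := T_48 (nat_lit 148) (nat_lit 147) (nat_lit 3) (nat_lit 8) (nat_lit 7) L117467 (by decide +kernel)
theorem L117469 : W_48 (nat_lit 5) (nat_lit 0x1000780000000000000000000000000000000) (nat_lit 0x0) (nat_lit 0x380008000e6000000000000000000000000000) := T_48 (nat_lit 110) (nat_lit 109) (nat_lit 0) (nat_lit 11) (nat_lit 7) L117468 (by decide +kernel)
theorem L117470 : W_48 (nat_lit 2) (nat_lit 0x11000780040000000000000000000000000000) (nat_lit 0x0) (nat_lit 0x20000800080000000000000000000000000000) := D_48 (nat_lit 131) (nat_lit 149) (nat_lit 115) (nat_lit 3) (nat_lit 9) (nat_lit 7) (nat_lit 2) (nat_lit 9) (nat_lit 7) (by decide +kernel)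
theorem L117471 : W_48 (nat_lit 3) (nat_lit 0x11000780000000000000000000000000000000) (nat_lit 0x0) (nat_lit 0x200008000e0000000000000000000000000000) := T_48 (nat_lit 114) (nat_lit 113) (nat_lit 2) (nat_lit 8) (nat_lit 7) L117470 (by decide +kernel)
theorem L117472 : W_48 (nat_lit 4) (nat_lit 0x1000780000000000000000000000000000000) (nat_lit 0x0) (nat_lit 0x380008000e0000000000000000000000000000) := T_48 (nat_lit 148) (nat_lit 147) (nat_lit 3) (nat_lit 8) (nat_lit 7) L117471 (by decide +kernel)
theorem L117473 : W_48 (nat_lit 2) (nat_lit 0x9003f80084000000000000000000000000000) (nat_lit 0x0) (nat_lit 0xe0000000000000000000000000000000000000) := D_48 (nat_lit 150) (nat_lit 149) (nat_lit 151) (nat_lit 3) (nat_lit 10) (nat_lit 7) (nat_lit 3) (nat_lit 11) (nat_lit 7) (by decide +kernel)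
theorem L117474 : W_48 (nat_lit 3) (nat_lit 0x9001f80084000000000000000000000000000) (nat_lit 0x0) (nat_lit 0xe4002000000000000000000000000000000000) := T_48 (nat_lit 133) (nat_lit 146) (nat_lit 1) (nat_lit 14) (nat_lit 7) L117473 (by decide +kernel)
theorem L117475 : W_48 (nat_lit 4) (nat_lit 0x9000f80084000000000000000000000000000) (nat_lit 0x0) (nat_lit 0xe4003000100000000000000000000000000000) := T_48 (nat_lit 132) (nat_lit 116) (nat_lit 2) (nat_lit 10) (nat_lit 7) L117474 (by decide +kernel)
theorem L117476 : W_48 (nat_lit 5) (nat_lit 0x9000f80004000000000000000000000000000) (nat_lit 0x0) (nat_lit 0xe40030001c0000000000000000000000000000) := T_48 (nat_lit 115) (nat_lit 114) (nat_lit 2) (nat_lit 9) (nat_lit 7) L117475 (by decide +kernel)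
theorem L117477 : W_48 (nat_lit 6) (nat_lit 0x9000780004000000000000000000000000000) (nat_lit 0x0) (nat_lit 0xe40038001c8000000000000000000000000000) := T_48 (nat_lit 131) (nat_lit 111) (nat_lit 0) (nat_lit 12) (nat_lit 7) L117476 (by decide +kernel)
theorem L117478 : W_48 (nat_lit 7) (nat_lit 0x9000780000000000000000000000000000000) (nat_lit 0x0) (nat_lit 0xe40038001ce000000000000000000000000000) := T_48 (nat_lit 110) (nat_lit 109) (nat_lit 0) (nat_lit 11) (nat_lit 7) L117477 (by decide +kernel)
theorem L117479 : W_48 (nat_lit 8) (nat_lit 0x1000780000000000000000000000000000000) (nat_lit 0x0) (nat_lit 0xfc0038001ce000000000000000000000000000) := T_48 (nat_lit 147) (nat_lit 148) (nat_lit 3) (nat_lit 8) (nat_lit 7) L117478 (by decide +kernel)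
theorem L117480 : W_48 (nat_lit 2) (nat_lit 0x100078002c000000000000000000000000000) (nat_lit 0x0) (nat_lit 0x400020000000000000000400000000000000000000000) := D_48 (nat_lit 161) (nat_lit 178) (nat_lit 94) (nat_lit 6) (nat_lit 8) (nat_lit 10) (nat_lit 6) (nat_lit 8) (nat_lit 9) (by decide +kernel)
theorem L117481 : W_48 (nat_lit 3) (nat_lit 0x1000780024000000000000000000000000000) (nat_lit 0x0) (nat_lit 0x400020000000800008000400000000000000000000000) := T_48 (nat_lit 111) (nat_lit 131) (nat_lit 0) (nat_lit 12) (nat_lit 7) L117480 (by decide +kernel)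
theorem L117482 : W_48 (nat_lit 4) (nat_lit 0x1000780004000000000000000000000000000) (nat_lit 0x0) (nat_lit 0x400020000000800068000400000000000000000000000) := T_48 (nat_lit 113) (nat_lit 114) (nat_lit 2) (nat_lit 8) (nat_lit 7) L117481 (by decide +kernel)
theorem L117483 : W_48 (nat_lit 5) (nat_lit 0x1000780000000000000000000000000000000) (nat_lit 0x0) (nat_lit 0x40002000000080006e000400000000000000000000000) := T_48 (nat_lit 110) (nat_lit 109) (nat_lit 0) (nat_lit 11) (nat_lit 7) L117482 (by decide +kernel)
theorem L117484 : W_48 (nat_lit 2) (nat_lit 0x20001000780028000000000000000000000000000) (nat_lit 0x0) (nat_lit 0x6000400000000000000000000000) := D_48 (nat_lit 110) (nat_lit 109) (nat_lit 94) (nat_lit 0) (nat_lit 11) (nat_lit 7) (nat_lit 6) (nat_lit 8) (nat_lit 9) (by decide +kernel)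
theorem L117485 : W_48 (nat_lit 3) (nat_lit 0x1000780028000000000000000000000000000) (nat_lit 0x0) (nat_lit 0x400020000000000006000400000000000000000000000) := T_48 (nat_lit 161) (nat_lit 178) (nat_lit 6) (nat_lit 8) (nat_lit 10) L117484 (by decide +kernel)
theorem L117486 : W_48 (nat_lit 4) (nat_lit 0x1000780008000000000000000000000000000) (nat_lit 0x0) (nat_lit 0x400020000000000066000400000000000000000000000) := T_48 (nat_lit 113) (nat_lit 114) (nat_lit 2) (nat_lit 8) (nat_lit 7) L117485 (by decide +kernel)
theorem L117487 : W_48 (nat_lit 2) (nat_lit 0x20001000780028000000000000000000000000000) (nat_lit 0x0) (nat_lit 0x4000400020000000000000000000) := D_48 (nat_lit 94) (nat_lit 77) (nat_lit 110) (nat_lit 5) (nat_lit 9) (nat_lit 4) (nat_lit 6) (nat_lit 8) (nat_lit 9) (by decide +kernel)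
theorem L117488 : W_48 (nat_lit 3) (nat_lit 0x1000780028000000000000000000000000000) (nat_lit 0x0) (nat_lit 0x400020000000000004000400020000000000000000000) := T_48 (nat_lit 161) (nat_lit 178) (nat_lit 6) (nat_lit 8) (nat_lit 10) L117487 (by decide +kernel)
theorem L117489 : W_48 (nat_lit 4) (nat_lit 0x1000780008000000000000000000000000000) (nat_lit 0x0) (nat_lit 0x400020000000000064000400020000000000000000000) := T_48 (nat_lit 113) (nat_lit 114) (nat_lit 2) (nat_lit 8) (nat_lit 7) L117488 (by decide +kernel)
theorem L117490 : W_48 (nat_lit 2) (nat_lit 0x900078002c000000000000000000000000000) (nat_lit 0x0) (nat_lit 0x20000000000000000400020000000000000000000) := D_48 (nat_lit 94) (nat_lit 77) (nat_lit 161) (nat_lit 5) (nat_lit 9) (nat_lit 4) (nat_lit 6) (nat_lit 8) (nat_lit 9) (by decide +kernel)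
theorem L117491 : W_48 (nat_lit 3) (nat_lit 0x9000780028000000000000000000000000000) (nat_lit 0x0) (nat_lit 0x20000000000006000400020000000000000000000) := T_48 (nat_lit 110) (nat_lit 109) (nat_lit 0) (nat_lit 11) (nat_lit 7) L117490 (by decide +kernel)
theorem L117492 : W_48 (nat_lit 4) (nat_lit 0x9000780008000000000000000000000000000) (nat_lit 0x0) (nat_lit 0x20000000000066000400020000000000000000000) := T_48 (nat_lit 113) (nat_lit 114) (nat_lit 2) (nat_lit 8) (nat_lit 7) L117491 (by decide +kernel)
theorem L117493 : W_48 (nat_lit 5) (nat_lit 0x1000780008000000000000000000000000000) (nat_lit 0x0) (nat_lit 0x20018000000066000400020000000000000000000) := T_48 (nat_lit 147) (nat_lit 148) (nat_lit 3) (nat_lit 8) (nat_lit 7) L117492 (by decide +kernel)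
theorem L117494 : W_48 (nat_lit 2) (nat_lit 0x900078005a000800000000000000000000000) (nat_lit 0x0) (nat_lit 0x2000100004000000000000000000000000000000000000) := D_48 (nat_lit 164) (nat_lit 181) (nat_lit 146) (nat_lit 4) (nat_lit 11) (nat_lit 10) (nat_lit 7) (nat_lit 10) (nat_lit 5) (by decide +kernel)
theorem L117495 : W_48 (nat_lit 3) (nat_lit 0x900078005a000000000000000000000000000) (nat_lit 0x0) (nat_lit 0x2000100004000000000000800040000000000000000000) := T_48 (nat_lit 95) (nat_lit 78) (nat_lit 7) (nat_lit 10) (nat_lit 4) L117494 (by decide +kernel)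
theorem L117496 : W_48 (nat_lit 4) (nat_lit 0x900078001a000000000000000000000000000) (nat_lit 0x0) (nat_lit 0x2000100004000000060000800040000000000000000000) := T_48 (nat_lit 114) (nat_lit 113) (nat_lit 2) (nat_lit 8) (nat_lit 7) L117495 (by decide +kernel)
theorem L117497 : W_48 (nat_lit 5) (nat_lit 0x100078001a000000000000000000000000000) (nat_lit 0x0) (nat_lit 0x200010001c000000060000800040000000000000000000) := T_48 (nat_lit 147) (nat_lit 148) (nat_lit 3) (nat_lit 8) (nat_lit 7) L117496 (by decide +kernel)
theorem L117498 : W_48 (nat_lit 6) (nat_lit 0x1000780018000000000000000000000000000) (nat_lit 0x0) (nat_lit 0x200010001c000000066000800040000000000000000000) := T_48 (nat_lit 109) (nat_lit 110) (nat_lit 3) (nat_lit 7) (nat_lit 6) L117497 (by decide +kernel)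
theorem L117499 : W_48 (nat_lit 2) (nat_lit 0x900078001c000800000000000000000000000) (nat_lit 0x0) (nat_lit 0x2000100004000000000000000000000000000000000000) := D_48 (nat_lit 164) (nat_lit 181) (nat_lit 146) (nat_lit 4) (nat_lit 11) (nat_lit 10) (nat_lit 7) (nat_lit 10) (nat_lit 5) (by decide +kernel)
theorem L117500 : W_48 (nat_lit 3) (nat_lit 0x900078001c000000000000000000000000000) (nat_lit 0x0) (nat_lit 0x2000100004000000000000800040000000000000000000) := T_48 (nat_lit 95) (nat_lit 78) (nat_lit 7) (nat_lit 10) (nat_lit 4) L117499 (by decide +kernel)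
theorem L117501 : W_48 (nat_lit 4) (nat_lit 0x9000780018000000000000000000000000000) (nat_lit 0x0) (nat_lit 0x2000100004000000006000800040000000000000000000) := T_48 (nat_lit 110) (nat_lit 109) (nat_lit 3) (nat_lit 7) (nat_lit 6) L117500 (by decide +kernel)
theorem L117502 : W_48 (nat_lit 5) (nat_lit 0x1000780018000000000000000000000000000) (nat_lit 0x0) (nat_lit 0x200010001c000000006000800040000000000000000000) := T_48 (nat_lit 147) (nat_lit 148) (nat_lit 3) (nat_lit 8) (nat_lit 7) L117501 (by decide +kernel)
theorem L117503 : W_48 (nat_lit 2) (nat_lit 0x40000000100078003c001200000000000000000000000) (nat_lit 0x0) (nat_lit 0x4000000000000000080004000000000000000) := D_48 (nat_lit 79) (nat_lit 62) (nat_lit 146) (nat_lit 5) (nat_lit 11) (nat_lit 3) (nat_lit 5) (nat_lit 11) (nat_lit 4) (by decide +kernel)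
theorem L117504 : W_48 (nat_lit 3) (nat_lit 0x40000000100078003c000200000000000000000000000) (nat_lit 0x0) (nat_lit 0x4000000000003000080004000000000000000) := T_48 (nat_lit 96) (nat_lit 97) (nat_lit 2) (nat_lit 8) (nat_lit 6) L117503 (by decide +kernel)
theorem L117505 : W_48 (nat_lit 4) (nat_lit 0x40000000100078003c000000000000000000000000000) (nat_lit 0x0) (nat_lit 0x4000000000003300080004000000000000000) := T_48 (nat_lit 93) (nat_lit 92) (nat_lit 0) (nat_lit 11) (nat_lit 6) L117504 (by decide +kernel)
theorem L117506 : W_48 (nat_lit 5) (nat_lit 0x400000001000780038000000000000000000000000000) (nat_lit 0x0) (nat_lit 0x4000000006003300080004000000000000000) := T_48 (nat_lit 110) (nat_lit 109) (nat_lit 3) (nat_lit 7) (nat_lit 6) L117505 (by decide +kernel)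
theorem L117507 : W_48 (nat_lit 6) (nat_lit 0x400000001000780018000000000000000000000000000) (nat_lit 0x0) (nat_lit 0x4000000066003300080004000000000000000) := T_48 (nat_lit 113) (nat_lit 114) (nat_lit 2) (nat_lit 8) (nat_lit 7) L117506 (by decide +kernel)
theorem L117508 : W_48 (nat_lit 7) (nat_lit 0x1000780018000000000000000000000000000) (nat_lit 0x0) (nat_lit 0x400020004000000066003300080004000000000000000) := T_48 (nat_lit 178) (nat_lit 161) (nat_lit 6) (nat_lit 8) (nat_lit 10) L117507 (by decide +kernel)
theorem L117509 : W_48 (nat_lit 2) (nat_lit 0x40000000900078003c000000000000000000000000000) (nat_lit 0x0) (nat_lit 0x2000100000000000000000800000000000000000000000) := D_48 (nat_lit 164) (nat_lit 95) (nat_lit 181) (nat_lit 4) (nat_lit 11) (nat_lit 9) (nat_lit 4) (nat_lit 11) (nat_lit 10) (by decide +kernel)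
theorem L117510 : W_48 (nat_lit 3) (nat_lit 0x40000000100078003c000000000000000000000000000) (nat_lit 0x0) (nat_lit 0x2000100018000000000000800000000000000000000000) := T_48 (nat_lit 147) (nat_lit 148) (nat_lit 3) (nat_lit 8) (nat_lit 7) L117509 (by decide +kernel)
theorem L117511 : W_48 (nat_lit 4) (nat_lit 0x40000000100078001c000000000000000000000000000) (nat_lit 0x0) (nat_lit 0x2000100018000000060000800000000000000000000000) := T_48 (nat_lit 113) (nat_lit 114) (nat_lit 2) (nat_lit 8) (nat_lit 7) L117510 (by decide +kernel)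
theorem L117512 : W_48 (nat_lit 5) (nat_lit 0x100078001c000000000000000000000000000) (nat_lit 0x0) (nat_lit 0x2400120018000000060000800000000000000000000000) := T_48 (nat_lit 178) (nat_lit 161) (nat_lit 6) (nat_lit 8) (nat_lit 10) L117511 (by decide +kernel)
theorem L117513 : W_48 (nat_lit 6) (nat_lit 0x1000780018000000000000000000000000000) (nat_lit 0x0) (nat_lit 0x2400120018000000066000800000000000000000000000) := T_48 (nat_lit 110) (nat_lit 109) (nat_lit 3) (nat_lit 7) (nat_lit 6) L117512 (by decide +kernel)
theorem L117514 : W_48 (nat_lit 8) (nat_lit 0x1000780008000000000000000000000000000) (nat_lit 0x0) (nat_lit 0x240012001c000000076003b000c0004000000000000000) := Q_48 (nat_lit 112) (C_48 L117277 (C_48 L117498 (C_48 L117502 (C_48 L117508 (C_48 L117513 N_48))))) (by decide +kernel)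
theorem L117515 : W_48 (nat_lit 4) (nat_lit 0xd000780008000000000000000000000000000) (nat_lit 0x0) (nat_lit 0x1000080000000000060001400020000000000000000000) := T_48 (nat_lit 77) (nat_lit 94) (nat_lit 7) (nat_lit 9) (nat_lit 4) L117374 (by decide +kernel)
theorem L117516 : W_48 (nat_lit 5) (nat_lit 0x5000780008000000000000000000000000000) (nat_lit 0x0) (nat_lit 0x1000080018000000060001400020000000000000000000) := T_48 (nat_lit 147) (nat_lit 148) (nat_lit 3) (nat_lit 8) (nat_lit 7) L117515 (by decide +kernel)
theorem L117517 : W_48 (nat_lit 2) (nat_lit 0x40000000d000780028000000000000000000000000000) (nat_lit 0x0) (nat_lit 0x1000080000000000000001000000000000000000000000) := D_48 (nat_lit 163) (nat_lit 180) (nat_lit 96) (nat_lit 6) (nat_lit 10) (nat_lit 10) (nat_lit 5) (nat_lit 11) (nat_lit 5) (by decide +kernel)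
theorem L117518 : W_48 (nat_lit 3) (nat_lit 0x40000000d000780008000000000000000000000000000) (nat_lit 0x0) (nat_lit 0x1000080000000000060001000000000000000000000000) := T_48 (nat_lit 113) (nat_lit 114) (nat_lit 2) (nat_lit 8) (nat_lit 7) L117517 (by decide +kernel)
theorem L117519 : W_48 (nat_lit 4) (nat_lit 0x400000005000780008000000000000000000000000000) (nat_lit 0x0) (nat_lit 0x1000080018000000060001000000000000000000000000) := T_48 (nat_lit 147) (nat_lit 148) (nat_lit 3) (nat_lit 8) (nat_lit 7) L117518 (by decide +kernel)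
theorem L117520 : W_48 (nat_lit 5) (nat_lit 0x5000780008000000000000000000000000000) (nat_lit 0x0) (nat_lit 0x14000a0018000000060001000000000000000000000000) := T_48 (nat_lit 178) (nat_lit 161) (nat_lit 6) (nat_lit 8) (nat_lit 10) L117519 (by decide +kernel)
theorem L117521 : W_48 (nat_lit 2) (nat_lit 0xd000780028003800000000000000000000000) (nat_lit 0x0) (nat_lit 0x100000000000010004000000000000000000000000) := D_48 (nat_lit 112) (nat_lit 98) (nat_lit 164) (nat_lit 1) (nat_lit 13) (nat_lit 5) (nat_lit 7) (nat_lit 10) (nat_lit 5) (by decide +kernel)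
theorem L117522 : W_48 (nat_lit 3) (nat_lit 0xd000780028003000000000000000000000000) (nat_lit 0x0) (nat_lit 0x100000000000010004800040000000000000000000) := T_48 (nat_lit 95) (nat_lit 78) (nat_lit 4) (nat_lit 11) (nat_lit 8) L117521 (by decide +kernel)
theorem L117523 : W_48 (nat_lit 4) (nat_lit 0xd000780028001000000000000000000000000) (nat_lit 0x0) (nat_lit 0x100000000000010006800140000000000000000000) := T_48 (nat_lit 97) (nat_lit 80) (nat_lit 6) (nat_lit 11) (nat_lit 8) L117522 (by decide +kernel)
theorem L117524 : W_48 (nat_lit 5) (nat_lit 0x5000780028001000000000000000000000000) (nat_lit 0x0) (nat_lit 0x100018000000010006800140000000000000000000) := T_48 (nat_lit 147) (nat_lit 148) (nat_lit 3) (nat_lit 8) (nat_lit 7) L117523 (by decide +kernel)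
theorem L117525 : W_48 (nat_lit 6) (nat_lit 0x5000780028000000000000000000000000000) (nat_lit 0x0) (nat_lit 0x1000180000000100078001c0000000000000000000) := T_48 (nat_lit 96) (nat_lit 79) (nat_lit 5) (nat_lit 11) (nat_lit 4) L117524 (by decide +kernel)
theorem L117526 : W_48 (nat_lit 7) (nat_lit 0x5000780008000000000000000000000000000) (nat_lit 0x0) (nat_lit 0x1000180000000700078001c0000000000000000000) := T_48 (nat_lit 113) (nat_lit 114) (nat_lit 2) (nat_lit 8) (nat_lit 7) L117525 (by decide +kernel)
theorem L117527 : W_48 (nat_lit 2) (nat_lit 0x8000d000780008000000000000000000000000000) (nat_lit 0x0) (nat_lit 0x10000400020000000000000000000) := D_48 (nat_lit 94) (nat_lit 77) (nat_lit 112) (nat_lit 7) (nat_lit 9) (nat_lit 4) (nat_lit 4) (nat_lit 10) (nat_lit 9) (by decide +kernel)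
theorem L117528 : W_48 (nat_lit 3) (nat_lit 0xd000780008000000000000000000000000000) (nat_lit 0x0) (nat_lit 0x1000080000000000010000400020000000000000000000) := T_48 (nat_lit 163) (nat_lit 180) (nat_lit 4) (nat_lit 10) (nat_lit 10) L117527 (by decide +kernel)
theorem L117529 : W_48 (nat_lit 4) (nat_lit 0x5000780008000000000000000000000000000) (nat_lit 0x0) (nat_lit 0x1000080018000000010000400020000000000000000000) := T_48 (nat_lit 147) (nat_lit 148) (nat_lit 3) (nat_lit 8) (nat_lit 7) L117528 (by decide +kernel)
theorem L117530 : W_48 (nat_lit 2) (nat_lit 0x400080005000780028000000000000000000000000000) (nat_lit 0x0) (nat_lit 0x10001000080000000000000000000) := D_48 (nat_lit 96) (nat_lit 79) (nat_lit 112) (nat_lit 5) (nat_lit 11) (nat_lit 4) (nat_lit 6) (nat_lit 10) (nat_lit 9) (by decide +kernel)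
theorem L117531 : W_48 (nat_lit 3) (nat_lit 0x400000005000780028000000000000000000000000000) (nat_lit 0x0) (nat_lit 0x1000080000000000010001000080000000000000000000) := T_48 (nat_lit 163) (nat_lit 180) (nat_lit 6) (nat_lit 10) (nat_lit 10) L117530 (by decide +kernel)
theorem L117532 : W_48 (nat_lit 4) (nat_lit 0x400000005000780008000000000000000000000000000) (nat_lit 0x0) (nat_lit 0x1000080000000000070001000080000000000000000000) := T_48 (nat_lit 113) (nat_lit 114) (nat_lit 2) (nat_lit 8) (nat_lit 7) L117531 (by decide +kernel)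
theorem L117533 : W_48 (nat_lit 5) (nat_lit 0x5000780008000000000000000000000000000) (nat_lit 0x0) (nat_lit 0x14000a0000000000070001000080000000000000000000) := T_48 (nat_lit 178) (nat_lit 161) (nat_lit 6) (nat_lit 8) (nat_lit 10) L117532 (by decide +kernel)
theorem L117534 : W_48 (nat_lit 8) (nat_lit 0x1000780008000000000000000000000000000) (nat_lit 0x0) (nat_lit 0x14001a001c000000070007c001e0000000000000000000) := Q_48 (nat_lit 146) (C_48 L117516 (C_48 L117520 (C_48 L117526 (C_48 L117529 (C_48 L117533 N_48))))) (by decide +kernel)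
theorem L117535 : W_48 (nat_lit 2) (nat_lit 0x9000780038000000020000000000000000000) (nat_lit 0x0) (nat_lit 0x2000100000000000000000800000000000000000000000) := D_48 (nat_lit 164) (nat_lit 95) (nat_lit 181) (nat_lit 4) (nat_lit 11) (nat_lit 9) (nat_lit 4) (nat_lit 11) (nat_lit 10) (by decide +kernel)
theorem L117536 : W_48 (nat_lit 3) (nat_lit 0x1000780038000000020000000000000000000) (nat_lit 0x0) (nat_lit 0x2000100018000000000000800000000000000000000000) := T_48 (nat_lit 147) (nat_lit 148) (nat_lit 3) (nat_lit 8) (nat_lit 7) L117535 (by decide +kernel)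
theorem L117537 : W_48 (nat_lit 4) (nat_lit 0x1000780038000000000000000000000000000) (nat_lit 0x0) (nat_lit 0x2000100018000000000000c00020000000000000000000) := T_48 (nat_lit 77) (nat_lit 94) (nat_lit 5) (nat_lit 9) (nat_lit 4) L117536 (by decide +kernel)
theorem L117538 : W_48 (nat_lit 5) (nat_lit 0x1000780018000000000000000000000000000) (nat_lit 0x0) (nat_lit 0x2000100018000000060000c00020000000000000000000) := T_48 (nat_lit 113) (nat_lit 114) (nat_lit 2) (nat_lit 8) (nat_lit 7) L117537 (by decide +kernel)
theorem L117539 : W_48 (nat_lit 2) (nat_lit 0x200000000900078003c001000020000000000000000000) (nat_lit 0x0) (nat_lit 0x4000000000000000080004000000000000000) := D_48 (nat_lit 79) (nat_lit 62) (nat_lit 146) (nat_lit 5) (nat_lit 11) (nat_lit 3) (nat_lit 5) (nat_lit 11) (nat_lit 4) (by decide +kernel)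
theorem L117540 : W_48 (nat_lit 3) (nat_lit 0x200000000900078003c000000020000000000000000000) (nat_lit 0x0) (nat_lit 0x4000000000003000080004000000000000000) := T_48 (nat_lit 96) (nat_lit 97) (nat_lit 2) (nat_lit 8) (nat_lit 6) L117539 (by decide +kernel)
theorem L117541 : W_48 (nat_lit 4) (nat_lit 0x200000000900078001c000000020000000000000000000) (nat_lit 0x0) (nat_lit 0x4000000060003000080004000000000000000) := T_48 (nat_lit 113) (nat_lit 114) (nat_lit 2) (nat_lit 8) (nat_lit 7) L117540 (by decide +kernel)
theorem L117542 : W_48 (nat_lit 5) (nat_lit 0x2000000009000780018000000020000000000000000000) (nat_lit 0x0) (nat_lit 0x4000000066003000080004000000000000000) := T_48 (nat_lit 110) (nat_lit 109) (nat_lit 3) (nat_lit 7) (nat_lit 6) L117541 (by decide +kernel)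
theorem L117543 : W_48 (nat_lit 6) (nat_lit 0x9000780018000000020000000000000000000) (nat_lit 0x0) (nat_lit 0x2000100004000000066003000080004000000000000000) := T_48 (nat_lit 181) (nat_lit 164) (nat_lit 4) (nat_lit 11) (nat_lit 10) L117542 (by decide +kernel)
theorem L117544 : W_48 (nat_lit 7) (nat_lit 0x9000780018000000000000000000000000000) (nat_lit 0x0) (nat_lit 0x20001000040000000660034000a0004000000000000000) := T_48 (nat_lit 77) (nat_lit 94) (nat_lit 5) (nat_lit 9) (nat_lit 4) L117543 (by decide +kernel)
theorem L117545 : W_48 (nat_lit 8) (nat_lit 0x1000780018000000000000000000000000000) (nat_lit 0x0) (nat_lit 0x200010001c0000000660034000a0004000000000000000) := T_48 (nat_lit 147) (nat_lit 148) (nat_lit 3) (nat_lit 8) (nat_lit 7) L117544 (by decide +kernel)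
theorem L117546 : W_48 (nat_lit 2) (nat_lit 0xd00078005c000c00000000000000000000000) (nat_lit 0x0) (nat_lit 0x3000080000000000000000000) := D_48 (nat_lit 96) (nat_lit 79) (nat_lit 97) (nat_lit 6) (nat_lit 10) (nat_lit 8) (nat_lit 1) (nat_lit 12) (nat_lit 5) (by decide +kernel)
theorem L117547 : W_48 (nat_lit 3) (nat_lit 0xd00078005c000400000000000000000000000) (nat_lit 0x0) (nat_lit 0x38000c0000000000000000000) := T_48 (nat_lit 95) (nat_lit 78) (nat_lit 7) (nat_lit 10) (nat_lit 4) L117546 (by decide +kernel)
theorem L117548 : W_48 (nat_lit 4) (nat_lit 0x500078005c000400000000000000000000000) (nat_lit 0x0) (nat_lit 0x180000000000038000c0000000000000000000) := T_48 (nat_lit 147) (nat_lit 148) (nat_lit 3) (nat_lit 8) (nat_lit 7) L117547 (by decide +kernel)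
theorem L117549 : W_48 (nat_lit 5) (nat_lit 0x100078005c000400000000000000000000000) (nat_lit 0x0) (nat_lit 0x8001c0000000000038000c0000000000000000000) := T_48 (nat_lit 146) (nat_lit 163) (nat_lit 4) (nat_lit 10) (nat_lit 9) L117548 (by decide +kernel)
theorem L117550 : W_48 (nat_lit 6) (nat_lit 0x1000780058000400000000000000000000000) (nat_lit 0x0) (nat_lit 0x8001c0000000060038000c0000000000000000000) := T_48 (nat_lit 110) (nat_lit 109) (nat_lit 3) (nat_lit 7) (nat_lit 6) L117549 (by decide +kernel)
theorem L117551 : W_48 (nat_lit 7) (nat_lit 0x1000780058000000000000000000000000000) (nat_lit 0x0) (nat_lit 0x8001c000000006003c000e0000000000000000000) := T_48 (nat_lit 94) (nat_lit 77) (nat_lit 5) (nat_lit 9) (nat_lit 4) L117550 (by decide +kernel)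
theorem L117552 : W_48 (nat_lit 8) (nat_lit 0x1000780018000000000000000000000000000) (nat_lit 0x0) (nat_lit 0x8001c000000066003c000e0000000000000000000) := T_48 (nat_lit 114) (nat_lit 113) (nat_lit 2) (nat_lit 8) (nat_lit 7) L117551 (by decide +kernel)
theorem L117553 : W_48 (nat_lit 2) (nat_lit 0x100078003c001000020000000000000000000) (nat_lit 0x0) (nat_lit 0x4000000000000000080004000000000000000) := D_48 (nat_lit 79) (nat_lit 62) (nat_lit 146) (nat_lit 5) (nat_lit 11) (nat_lit 3) (nat_lit 5) (nat_lit 11) (nat_lit 4) (by decide +kernel)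
theorem L117554 : W_48 (nat_lit 3) (nat_lit 0x100078003c000000020000000000000000000) (nat_lit 0x0) (nat_lit 0x4000000000003000080004000000000000000) := T_48 (nat_lit 96) (nat_lit 97) (nat_lit 2) (nat_lit 8) (nat_lit 6) L117553 (by decide +kernel)
theorem L117555 : W_48 (nat_lit 4) (nat_lit 0x100078003c000000000000000000000000000) (nat_lit 0x0) (nat_lit 0x40000000000034000a0004000000000000000) := T_48 (nat_lit 77) (nat_lit 94) (nat_lit 5) (nat_lit 9) (nat_lit 4) L117554 (by decide +kernel)
theorem L117556 : W_48 (nat_lit 5) (nat_lit 0x1000780038000000000000000000000000000) (nat_lit 0x0) (nat_lit 0x40000000060034000a0004000000000000000) := T_48 (nat_lit 110) (nat_lit 109) (nat_lit 3) (nat_lit 7) (nat_lit 6) L117555 (by decide +kernel)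
theorem L117557 : W_48 (nat_lit 6) (nat_lit 0x1000780018000000000000000000000000000) (nat_lit 0x0) (nat_lit 0x40000000660034000a0004000000000000000) := T_48 (nat_lit 113) (nat_lit 114) (nat_lit 2) (nat_lit 8) (nat_lit 7) L117556 (by decide +kernel)
theorem L117558 : W_48 (nat_lit 9) (nat_lit 0x1000780008000000000000000000000000000) (nat_lit 0x0) (nat_lit 0x200018001c000000076003c000e0004000000000000000) := Q_48 (nat_lit 112) (C_48 L117538 (C_48 L117502 (C_48 L117545 (C_48 L117552 (C_48 L117557 N_48))))) (by decide +kernel)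
theorem L117559 : W_48 (nat_lit 2) (nat_lit 0x1000780008000400000000000000000000000) (nat_lit 0x0) (nat_lit 0x20000000000006000000000000000000000000000) := D_48 (nat_lit 110) (nat_lit 109) (nat_lit 161) (nat_lit 0) (nat_lit 11) (nat_lit 7) (nat_lit 6) (nat_lit 8) (nat_lit 9) (by decide +kernel)
theorem L117560 : W_48 (nat_lit 3) (nat_lit 0x1000780008000000000000000000000000000) (nat_lit 0x0) (nat_lit 0x20000000000006000400020000000000000000000) := T_48 (nat_lit 94) (nat_lit 77) (nat_lit 5) (nat_lit 9) (nat_lit 4) L117559 (by decide +kernel)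
theorem L117561 : W_48 (nat_lit 10) (nat_lit 0x1000780000000000000000000000000000000) (nat_lit 0x0) (nat_lit 0x34001a001c00000007e007f001e0004000000000000000) := Q_48 (nat_lit 111) (C_48 L117486 (C_48 L117489 (C_48 L117493 (C_48 L117514 (C_48 L117534 (C_48 L117558 (C_48 L117560 N_48))))))) (by decide +kernel)
theorem L117562 : W_48 (nat_lit 2) (nat_lit 0x900078000c000000000000000000000000000) (nat_lit 0x0) (nat_lit 0x20000000000000000400020000000000000000000) := D_48 (nat_lit 94) (nat_lit 77) (nat_lit 161) (nat_lit 5) (nat_lit 9) (nat_lit 4) (nat_lit 6) (nat_lit 8) (nat_lit 9) (by decide +kernel)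
theorem L117563 : W_48 (nat_lit 3) (nat_lit 0x9000780004000000000000000000000000000) (nat_lit 0x0) (nat_lit 0x20000000800008000400020000000000000000000) := T_48 (nat_lit 111) (nat_lit 131) (nat_lit 0) (nat_lit 12) (nat_lit 7) L117562 (by decide +kernel)
theorem L117564 : W_48 (nat_lit 4) (nat_lit 0x1000780004000000000000000000000000000) (nat_lit 0x0) (nat_lit 0x20018000800008000400020000000000000000000) := T_48 (nat_lit 147) (nat_lit 148) (nat_lit 3) (nat_lit 8) (nat_lit 7) L117563 (by decide +kernel)
theorem L117565 : W_48 (nat_lit 5) (nat_lit 0x1000780000000000000000000000000000000) (nat_lit 0x0) (nat_lit 0x2001800080000e000400020000000000000000000) := T_48 (nat_lit 110) (nat_lit 109) (nat_lit 0) (nat_lit 11) (nat_lit 7) L117564 (by decide +kernel)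
theorem L117566 : W_48 (nat_lit 11) (nat_lit 0x1000380000000000000000000000000000000) (nat_lit 0x0) (nat_lit 0x34001a00fc003c001fe007f001e0004000000000000000) := Q_48 (nat_lit 130) (C_48 L117469 (C_48 L117472 (C_48 L117479 (C_48 L117483 (C_48 L117561 (C_48 L117565 N_48)))))) (by decide +kernel)
theorem L117567 : W_48 (nat_lit 5) (nat_lit 0x1000380000000000000000000000000000000) (nat_lit 0x0) (nat_lit 0x38800c000e0000000000000000000000000000) := T_48 (nat_lit 130) (nat_lit 143) (nat_lit 1) (nat_lit 11) (nat_lit 7) L117472 (by decide +kernel)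
theorem L117568 : W_48 (nat_lit 6) (nat_lit 0x1000380000000000000000000000000000000) (nat_lit 0x0) (nat_lit 0x20018800c0000e000400020000000000000000000) := T_48 (nat_lit 130) (nat_lit 143) (nat_lit 1) (nat_lit 11) (nat_lit 7) L117565 (by decide +kernel)
theorem L117569 : W_48 (nat_lit 5) (nat_lit 0x1000580000000000000000000000000000000) (nat_lit 0x0) (nat_lit 0x38800a000e0000000000000000000000000000) := T_48 (nat_lit 129) (nat_lit 143) (nat_lit 1) (nat_lit 11) (nat_lit 7) L117472 (by decide +kernel)
theorem L117570 : W_48 (nat_lit 11) (nat_lit 0x1000580000000000000000000000000000000) (nat_lit 0x0) (nat_lit 0x34001a003c000a000fe007f001e0004000000000000000) := Q_48 (nat_lit 129) (C_48 L117565 (C_48 L117472 (C_48 L117483 (C_48 L117561 N_48)))) (by decide +kernel)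
theorem L117571 : W_48 (nat_lit 2) (nat_lit 0x100058003e001000020000000000000000000) (nat_lit 0x0) (nat_lit 0x380000000000000000000000) := D_48 (nat_lit 92) (nat_lit 91) (nat_lit 93) (nat_lit 0) (nat_lit 10) (nat_lit 6) (nat_lit 0) (nat_lit 11) (nat_lit 6) (by decide +kernel)
theorem L117572 : W_48 (nat_lit 3) (nat_lit 0x100058003c001000020000000000000000000) (nat_lit 0x0) (nat_lit 0x2000b80000000000000000000000) := T_48 (nat_lit 109) (nat_lit 95) (nat_lit 2) (nat_lit 7) (nat_lit 6) L117571 (by decide +kernel)
theorem L117573 : W_48 (nat_lit 4) (nat_lit 0x100058003c000000020000000000000000000) (nat_lit 0x0) (nat_lit 0x2003b80000000000000000000000) := T_48 (nat_lit 96) (nat_lit 97) (nat_lit 2) (nat_lit 8) (nat_lit 6) L117572 (by decide +kernel)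
theorem L117574 : W_48 (nat_lit 5) (nat_lit 0x1000580038000000020000000000000000000) (nat_lit 0x0) (nat_lit 0x800006003b80000000000000000000000) := T_48 (nat_lit 110) (nat_lit 131) (nat_lit 3) (nat_lit 8) (nat_lit 6) L117573 (by decide +kernel)
theorem L117575 : W_48 (nat_lit 6) (nat_lit 0x1000580038000000000000000000000000000) (nat_lit 0x0) (nat_lit 0x800006003f80020000000000000000000) := T_48 (nat_lit 77) (nat_lit 94) (nat_lit 5) (nat_lit 9) (nat_lit 4) L117574 (by decide +kernel)
theorem L117576 : W_48 (nat_lit 7) (nat_lit 0x1000580028000000000000000000000000000) (nat_lit 0x0) (nat_lit 0x800056003f80020000000000000000000) := T_48 (nat_lit 112) (nat_lit 114) (nat_lit 1) (nat_lit 12) (nat_lit 6) L117575 (by decide +kernel)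
theorem L117577 : W_48 (nat_lit 2) (nat_lit 0x100058003e001000020000000000000000000) (nat_lit 0x0) (nat_lit 0x20000000000000000180000000000000000000000) := D_48 (nat_lit 92) (nat_lit 91) (nat_lit 161) (nat_lit 0) (nat_lit 10) (nat_lit 6) (nat_lit 4) (nat_lit 8) (nat_lit 9) (by decide +kernel)
theorem L117578 : W_48 (nat_lit 3) (nat_lit 0x100058003c001000020000000000000000000) (nat_lit 0x0) (nat_lit 0x20000000000002000980000000000000000000000) := T_48 (nat_lit 109) (nat_lit 95) (nat_lit 2) (nat_lit 7) (nat_lit 6) L117577 (by decide +kernel)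
theorem L117579 : W_48 (nat_lit 4) (nat_lit 0x100058003c000000020000000000000000000) (nat_lit 0x0) (nat_lit 0x20000000000002003980000000000000000000000) := T_48 (nat_lit 96) (nat_lit 97) (nat_lit 2) (nat_lit 8) (nat_lit 6) L117578 (by decide +kernel)
theorem L117580 : W_48 (nat_lit 5) (nat_lit 0x1000580038000000020000000000000000000) (nat_lit 0x0) (nat_lit 0x20000000800006003980000000000000000000000) := T_48 (nat_lit 110) (nat_lit 131) (nat_lit 3) (nat_lit 8) (nat_lit 6) L117579 (by decide +kernel)
theorem L117581 : W_48 (nat_lit 6) (nat_lit 0x1000580038000000000000000000000000000) (nat_lit 0x0) (nat_lit 0x20000000800006003d80020000000000000000000) := T_48 (nat_lit 77) (nat_lit 94) (nat_lit 5) (nat_lit 9) (nat_lit 4) L117580 (by decide +kernel)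
theorem L117582 : W_48 (nat_lit 7) (nat_lit 0x1000580028000000000000000000000000000) (nat_lit 0x0) (nat_lit 0x20000000800056003d80020000000000000000000) := T_48 (nat_lit 112) (nat_lit 114) (nat_lit 1) (nat_lit 12) (nat_lit 6) L117581 (by decide +kernel)
theorem L117583 : W_48 (nat_lit 2) (nat_lit 0x100058003c001200020000000000000000000) (nat_lit 0x0) (nat_lit 0x10001800000000000000) := D_48 (nat_lit 76) (nat_lit 59) (nat_lit 60) (nat_lit 7) (nat_lit 8) (nat_lit 3) (nat_lit 6) (nat_lit 8) (nat_lit 7) (by decide +kernel)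
theorem L117584 : W_48 (nat_lit 3) (nat_lit 0x100058003c001000020000000000000000000) (nat_lit 0x0) (nat_lit 0x300010001800000000000000) := T_48 (nat_lit 93) (nat_lit 92) (nat_lit 0) (nat_lit 11) (nat_lit 6) L117583 (by decide +kernel)
theorem L117585 : W_48 (nat_lit 4) (nat_lit 0x100058003c000000020000000000000000000) (nat_lit 0x0) (nat_lit 0x3300010001800000000000000) := T_48 (nat_lit 96) (nat_lit 97) (nat_lit 2) (nat_lit 8) (nat_lit 6) L117584 (by decide +kernel)
theorem L117586 : W_48 (nat_lit 5) (nat_lit 0x1000580038000000020000000000000000000) (nat_lit 0x0) (nat_lit 0x800004003300010001800000000000000) := T_48 (nat_lit 110) (nat_lit 131) (nat_lit 3) (nat_lit 8) (nat_lit 6) L117585 (by decide +kernel)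
theorem L117587 : W_48 (nat_lit 6) (nat_lit 0x1000580038000000000000000000000000000) (nat_lit 0x0) (nat_lit 0x800004003700030001800000000000000) := T_48 (nat_lit 77) (nat_lit 94) (nat_lit 5) (nat_lit 9) (nat_lit 4) L117586 (by decide +kernel)
theorem L117588 : W_48 (nat_lit 7) (nat_lit 0x1000580028000000000000000000000000000) (nat_lit 0x0) (nat_lit 0x800054003700030001800000000000000) := T_48 (nat_lit 112) (nat_lit 114) (nat_lit 1) (nat_lit 12) (nat_lit 6) L117587 (by decide +kernel)
theorem L117589 : W_48 (nat_lit 2) (nat_lit 0x100058002c000200008000000000000000000) (nat_lit 0x0) (nat_lit 0x10000c00000000000000) := D_48 (nat_lit 76) (nat_lit 59) (nat_lit 58) (nat_lit 7) (nat_lit 8) (nat_lit 3) (nat_lit 4) (nat_lit 8) (nat_lit 7) (by decide +kernel)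
theorem L117590 : W_48 (nat_lit 3) (nat_lit 0x100058002c000200000000000000000000000) (nat_lit 0x0) (nat_lit 0x100018000c00000000000000) := T_48 (nat_lit 75) (nat_lit 92) (nat_lit 4) (nat_lit 8) (nat_lit 8) L117589 (by decide +kernel)
theorem L117591 : W_48 (nat_lit 2) (nat_lit 0xd00058002c00b2000d0000000000000000000) (nat_lit 0x0) (nat_lit 0x100008000400000000000000) := D_48 (nat_lit 75) (nat_lit 92) (nat_lit 58) (nat_lit 4) (nat_lit 8) (nat_lit 8) (nat_lit 4) (nat_lit 8) (nat_lit 7) (by decide +kernel)
theorem L117592 : W_48 (nat_lit 3) (nat_lit 0xd00058002c00b0000d0000000000000000000) (nat_lit 0x0) (nat_lit 0x300008000c00000000000000) := T_48 (nat_lit 93) (nat_lit 59) (nat_lit 7) (nat_lit 8) (nat_lit 3) L117591 (by decide +kernel)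
theorem L117593 : W_48 (nat_lit 4) (nat_lit 0xd00058002c0030000d0000000000000000000) (nat_lit 0x0) (nat_lit 0xc300008000c00000000000000) := T_48 (nat_lit 99) (nat_lit 98) (nat_lit 0) (nat_lit 14) (nat_lit 5) L117592 (by decide +kernel)
theorem L117594 : W_48 (nat_lit 5) (nat_lit 0xd00058002c0030000c0000000000000000000) (nat_lit 0x0) (nat_lit 0xc300038000c00000000000000) := T_48 (nat_lit 76) (nat_lit 77) (nat_lit 3) (nat_lit 8) (nat_lit 4) L117593 (by decide +kernel)
theorem L117595 : W_48 (nat_lit 6) (nat_lit 0xd00058002c003000040000000000000000000) (nat_lit 0x0) (nat_lit 0xc3000b8002c00000000000000) := T_48 (nat_lit 79) (nat_lit 61) (nat_lit 4) (nat_lit 11) (nat_lit 7) L117594 (by decide +kernel)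
theorem L117596 : W_48 (nat_lit 7) (nat_lit 0xd00058002c003000000000000000000000000) (nat_lit 0x0) (nat_lit 0xcb000f8002c00000000000000) := T_48 (nat_lit 78) (nat_lit 95) (nat_lit 4) (nat_lit 11) (nat_lit 8) L117595 (by decide +kernel)
theorem L117597 : W_48 (nat_lit 2) (nat_lit 0x19000580028001800080000000000000000000) (nat_lit 0x0) (nat_lit 0x2000100008000000000000000) := D_48 (nat_lit 80) (nat_lit 63) (nat_lit 97) (nat_lit 6) (nat_lit 11) (nat_lit 7) (nat_lit 6) (nat_lit 11) (nat_lit 8) (by decide +kernel)
theorem L117598 : W_48 (nat_lit 3) (nat_lit 0x19000580028001800000000000000000000000) (nat_lit 0x0) (nat_lit 0x800000002000180008000000000000000) := T_48 (nat_lit 79) (nat_lit 131) (nat_lit 7) (nat_lit 11) (nat_lit 4) L117597 (by decide +kernel)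
theorem L117599 : W_48 (nat_lit 4) (nat_lit 0x9000580028001800000000000000000000000) (nat_lit 0x0) (nat_lit 0x200010000800000002000180008000000000000000) := T_48 (nat_lit 148) (nat_lit 165) (nat_lit 7) (nat_lit 11) (nat_lit 5) L117598 (by decide +kernel)
theorem L117600 : W_48 (nat_lit 5) (nat_lit 0x9000580028001000000000000000000000000) (nat_lit 0x0) (nat_lit 0x2000100008000000028001c0008000000000000000) := T_48 (nat_lit 95) (nat_lit 78) (nat_lit 4) (nat_lit 11) (nat_lit 8) L117599 (by decide +kernel)
theorem L117601 : W_48 (nat_lit 2) (nat_lit 0x10001900058002800b0000d0000000000000000000) (nat_lit 0x0) (nat_lit 0x1000080004000000000000000000000000000000000000) := D_48 (nat_lit 163) (nat_lit 180) (nat_lit 146) (nat_lit 5) (nat_lit 11) (nat_lit 6) (nat_lit 5) (nat_lit 11) (nat_lit 5) (by decide +kernel)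
theorem L117602 : W_48 (nat_lit 3) (nat_lit 0x1900058002800b0000d0000000000000000000) (nat_lit 0x0) (nat_lit 0x1000180004000000040000000000000000000000000000) := T_48 (nat_lit 164) (nat_lit 114) (nat_lit 6) (nat_lit 11) (nat_lit 9) L117601 (by decide +kernel)
theorem L117603 : W_48 (nat_lit 4) (nat_lit 0x190005800280030000d0000000000000000000) (nat_lit 0x0) (nat_lit 0x100018000400000004000c000000000000000000000000) := T_48 (nat_lit 99) (nat_lit 98) (nat_lit 0) (nat_lit 14) (nat_lit 5) L117602 (by decide +kernel)
theorem L117604 : W_48 (nat_lit 5) (nat_lit 0x190005800280030000c0000000000000000000) (nat_lit 0x0) (nat_lit 0x100018000400000004000c000030000000000000000000) := T_48 (nat_lit 76) (nat_lit 77) (nat_lit 3) (nat_lit 8) (nat_lit 4) L117603 (by decide +kernel)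
theorem L117605 : W_48 (nat_lit 6) (nat_lit 0x19000580028003000080000000000000000000) (nat_lit 0x0) (nat_lit 0x100018000400000004000c000070002000000000000000) := T_48 (nat_lit 78) (nat_lit 61) (nat_lit 4) (nat_lit 11) (nat_lit 7) L117604 (by decide +kernel)
theorem L117606 : W_48 (nat_lit 7) (nat_lit 0x19000580028003000000000000000000000000) (nat_lit 0x0) (nat_lit 0x100018000400080004000c0000f0002000000000000000) := T_48 (nat_lit 79) (nat_lit 131) (nat_lit 7) (nat_lit 11) (nat_lit 4) L117605 (by decide +kernel)
theorem L117607 : W_48 (nat_lit 8) (nat_lit 0x9000580028003000000000000000000000000) (nat_lit 0x0) (nat_lit 0x100038001400080004000c0000f0002000000000000000) := T_48 (nat_lit 148) (nat_lit 165) (nat_lit 7) (nat_lit 11) (nat_lit 5) L117606 (by decide +kernel)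
theorem L117608 : W_48 (nat_lit 9) (nat_lit 0x9000580028001000000000000000000000000) (nat_lit 0x0) (nat_lit 0x100038001400080004000e0001f0002000000000000000) := T_48 (nat_lit 97) (nat_lit 80) (nat_lit 6) (nat_lit 11) (nat_lit 8) L117607 (by decide +kernel)
theorem L117609 : W_48 (nat_lit 2) (nat_lit 0x1d000580028001000080000000000000000000) (nat_lit 0x0) (nat_lit 0x2000100008000000000000000) := D_48 (nat_lit 80) (nat_lit 63) (nat_lit 97) (nat_lit 6) (nat_lit 11) (nat_lit 7) (nat_lit 6) (nat_lit 11) (nat_lit 8) (by decide +kernel)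
theorem L117610 : W_48 (nat_lit 3) (nat_lit 0x1d000580028001000000000000000000000000) (nat_lit 0x0) (nat_lit 0x800000002000180008000000000000000) := T_48 (nat_lit 79) (nat_lit 131) (nat_lit 7) (nat_lit 11) (nat_lit 4) L117609 (by decide +kernel)
theorem L117611 : W_48 (nat_lit 4) (nat_lit 0xd000580028001000000000000000000000000) (nat_lit 0x0) (nat_lit 0x200010000800000002000180008000000000000000) := T_48 (nat_lit 148) (nat_lit 165) (nat_lit 7) (nat_lit 11) (nat_lit 5) L117610 (by decide +kernel)
theorem L117612 : W_48 (nat_lit 5) (nat_lit 0x9000580028001000000000000000000000000) (nat_lit 0x0) (nat_lit 0x280014000800000002000180008000000000000000) := T_48 (nat_lit 146) (nat_lit 163) (nat_lit 5) (nat_lit 11) (nat_lit 5) L117611 (by decide +kernel)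
theorem L117613 : W_48 (nat_lit 2) (nat_lit 0xd0005800680030000c0000000000000000000) (nat_lit 0x0) (nat_lit 0x800000000000000004000200000000000) := D_48 (nat_lit 62) (nat_lit 45) (nat_lit 131) (nat_lit 7) (nat_lit 11) (nat_lit 2) (nat_lit 7) (nat_lit 11) (nat_lit 3) (by decide +kernel)
theorem L117614 : W_48 (nat_lit 3) (nat_lit 0xd000580068003000040000000000000000000) (nat_lit 0x0) (nat_lit 0x800000000000080006000200000000000) := T_48 (nat_lit 79) (nat_lit 61) (nat_lit 4) (nat_lit 11) (nat_lit 7) L117613 (by decide +kernel)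
theorem L117615 : W_48 (nat_lit 4) (nat_lit 0xd000580068003000000000000000000000000) (nat_lit 0x0) (nat_lit 0x8000000008000c0006000200000000000) := T_48 (nat_lit 78) (nat_lit 95) (nat_lit 4) (nat_lit 11) (nat_lit 8) L117614 (by decide +kernel)
theorem L117616 : W_48 (nat_lit 5) (nat_lit 0xd000580028003000000000000000000000000) (nat_lit 0x0) (nat_lit 0x1000000008000400008000c0006000200000000000) := T_48 (nat_lit 114) (nat_lit 164) (nat_lit 6) (nat_lit 11) (nat_lit 9) L117615 (by decide +kernel)
theorem L117617 : W_48 (nat_lit 6) (nat_lit 0x9000580028003000000000000000000000000) (nat_lit 0x0) (nat_lit 0x1800040008000400008000c0006000200000000000) := T_48 (nat_lit 146) (nat_lit 163) (nat_lit 5) (nat_lit 11) (nat_lit 5) L117616 (by decide +kernel)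
theorem L117618 : W_48 (nat_lit 7) (nat_lit 0x9000580028001000000000000000000000000) (nat_lit 0x0) (nat_lit 0x1800040008000400028001c0006000200000000000) := T_48 (nat_lit 97) (nat_lit 80) (nat_lit 6) (nat_lit 11) (nat_lit 8) L117617 (by decide +kernel)
theorem L117619 : W_48 (nat_lit 2) (nat_lit 0x180019000d80028001800000000000000000000000) (nat_lit 0x0) (nat_lit 0x40002000000000000000040000000000000000000000000000) := D_48 (nat_lit 181) (nat_lit 114) (nat_lit 198) (nat_lit 6) (nat_lit 11) (nat_lit 10) (nat_lit 6) (nat_lit 11) (nat_lit 11) (by decide +kernel)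
theorem L117620 : W_48 (nat_lit 3) (nat_lit 0x80019000d80028001800000000000000000000000) (nat_lit 0x0) (nat_lit 0x40003000100000000000040000000000000000000000000000) := T_48 (nat_lit 164) (nat_lit 180) (nat_lit 5) (nat_lit 11) (nat_lit 6) L117619 (by decide +kernel)
theorem L117621 : W_48 (nat_lit 4) (nat_lit 0x80019000580028001800000000000000000000000) (nat_lit 0x0) (nat_lit 0x40003000100000000800040000000080000000000000000000) := T_48 (nat_lit 131) (nat_lit 79) (nat_lit 7) (nat_lit 11) (nat_lit 4) L117620 (by decide +kernel)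
theorem L117622 : W_48 (nat_lit 5) (nat_lit 0x80009000580028001800000000000000000000000) (nat_lit 0x0) (nat_lit 0x40003000300010000800040000000080000000000000000000) := T_48 (nat_lit 148) (nat_lit 165) (nat_lit 7) (nat_lit 11) (nat_lit 5) L117621 (by decide +kernel)
theorem L117623 : W_48 (nat_lit 6) (nat_lit 0x9000580028001800000000000000000000000) (nat_lit 0x0) (nat_lit 0x40003000380014000800040000000080000000000000000000) := T_48 (nat_lit 163) (nat_lit 146) (nat_lit 5) (nat_lit 11) (nat_lit 5) L117622 (by decide +kernel)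
theorem L117624 : W_48 (nat_lit 7) (nat_lit 0x9000580028001000000000000000000000000) (nat_lit 0x0) (nat_lit 0x400030003800140008000400008000c0000000000000000000) := T_48 (nat_lit 95) (nat_lit 78) (nat_lit 4) (nat_lit 11) (nat_lit 8) L117623 (by decide +kernel)
theorem L117625 : W_48 (nat_lit 2) (nat_lit 0x10000d000580028003800000000000000000000000) (nat_lit 0x0) (nat_lit 0x4000200010000000000000000000000000000000000000) := D_48 (nat_lit 165) (nat_lit 148) (nat_lit 182) (nat_lit 7) (nat_lit 11) (nat_lit 5) (nat_lit 7) (nat_lit 11) (nat_lit 6) (by decide +kernel)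
theorem L117626 : W_48 (nat_lit 3) (nat_lit 0xd000580028003800000000000000000000000) (nat_lit 0x0) (nat_lit 0x4000300010000000040000000000000000000000000000) := T_48 (nat_lit 164) (nat_lit 114) (nat_lit 6) (nat_lit 11) (nat_lit 9) L117625 (by decide +kernel)
theorem L117627 : W_48 (nat_lit 4) (nat_lit 0xd000580028003000000000000000000000000) (nat_lit 0x0) (nat_lit 0x4000300010000000040000800040000000000000000000) := T_48 (nat_lit 95) (nat_lit 78) (nat_lit 4) (nat_lit 11) (nat_lit 8) L117626 (by decide +kernel)
theorem L117628 : W_48 (nat_lit 5) (nat_lit 0xd000580028001000000000000000000000000) (nat_lit 0x0) (nat_lit 0x4000300010000000040002800140000000000000000000) := T_48 (nat_lit 97) (nat_lit 80) (nat_lit 6) (nat_lit 11) (nat_lit 8) L117627 (by decide +kernel)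
theorem L117629 : W_48 (nat_lit 6) (nat_lit 0x9000580028001000000000000000000000000) (nat_lit 0x0) (nat_lit 0x4000380014000000040002800140000000000000000000) := T_48 (nat_lit 146) (nat_lit 163) (nat_lit 5) (nat_lit 11) (nat_lit 5) L117628 (by decide +kernel)
theorem L117630 : W_48 (nat_lit 10) (nat_lit 0x1000580028001000000000000000000000000) (nat_lit 0x0) (nat_lit 0x4000700038001c00080004000e8001f000e000200000000000) := Q_48 (nat_lit 147) (C_48 L117600 (C_48 L117608 (C_48 L117612 (C_48 L117618 (C_48 L117624 (C_48 L117629 N_48)))))) (by decide +kernel)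
theorem L117631 : W_48 (nat_lit 2) (nat_lit 0x1d00058006c003400080002000000000000000) (nat_lit 0x0) (nat_lit 0x4000300000000000) := D_48 (nat_lit 62) (nat_lit 44) (nat_lit 45) (nat_lit 4) (nat_lit 11) (nat_lit 6) (nat_lit 7) (nat_lit 11) (nat_lit 2) (by decide +kernel)
theorem L117632 : W_48 (nat_lit 3) (nat_lit 0x1d00058002c003400080002000000000000000) (nat_lit 0x0) (nat_lit 0x100000000000040000000000004000300000000000) := T_48 (nat_lit 114) (nat_lit 164) (nat_lit 6) (nat_lit 11) (nat_lit 9) L117631 (by decide +kernel)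
theorem L117633 : W_48 (nat_lit 4) (nat_lit 0x1d00058002c003400080000000000000000000) (nat_lit 0x0) (nat_lit 0x100000000000040000000040006000300000000000) := T_48 (nat_lit 61) (nat_lit 78) (nat_lit 4) (nat_lit 11) (nat_lit 7) L117632 (by decide +kernel)
theorem L117634 : W_48 (nat_lit 5) (nat_lit 0x1d00058002c003400000000000000000000000) (nat_lit 0x0) (nat_lit 0x1000000008000400000000c0006000300000000000) := T_48 (nat_lit 79) (nat_lit 131) (nat_lit 7) (nat_lit 11) (nat_lit 4) L117633 (by decide +kernel)
theorem L117635 : W_48 (nat_lit 6) (nat_lit 0xd00058002c003400000000000000000000000) (nat_lit 0x0) (nat_lit 0x3000100008000400000000c0006000300000000000) := T_48 (nat_lit 148) (nat_lit 165) (nat_lit 7) (nat_lit 11) (nat_lit 5) L117634 (by decide +kernel)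
theorem L117636 : W_48 (nat_lit 7) (nat_lit 0x900058002c003400000000000000000000000) (nat_lit 0x0) (nat_lit 0x3800140008000400000000c0006000300000000000) := T_48 (nat_lit 146) (nat_lit 163) (nat_lit 5) (nat_lit 11) (nat_lit 5) L117635 (by decide +kernel)
theorem L117637 : W_48 (nat_lit 8) (nat_lit 0x100058002c003400000000000000000000000) (nat_lit 0x0) (nat_lit 0x38001c0008000400000001c0006000300000000000) := T_48 (nat_lit 147) (nat_lit 80) (nat_lit 6) (nat_lit 11) (nat_lit 8) L117636 (by decide +kernel)
theorem L117638 : W_48 (nat_lit 9) (nat_lit 0x100058002c001400000000000000000000000) (nat_lit 0x0) (nat_lit 0x38001c0008000400028001c0006000300000000000) := T_48 (nat_lit 97) (nat_lit 95) (nat_lit 1) (nat_lit 12) (nat_lit 5) L117637 (by decide +kernel)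
theorem L117639 : W_48 (nat_lit 10) (nat_lit 0x1000580028001400000000000000000000000) (nat_lit 0x0) (nat_lit 0x3a001c0008000440028001c0006000300000000000) := T_48 (nat_lit 110) (nat_lit 161) (nat_lit 6) (nat_lit 8) (nat_lit 9) L117638 (by decide +kernel)
theorem L117640 : W_48 (nat_lit 11) (nat_lit 0x1000580028001000000000000000000000000) (nat_lit 0x0) (nat_lit 0x3a001c000800044002c001e0006000300000000000) := T_48 (nat_lit 94) (nat_lit 77) (nat_lit 5) (nat_lit 9) (nat_lit 4) L117639 (by decide +kernel)
theorem L117641 : W_48 (nat_lit 2) (nat_lit 0x10000900058002c003400000000000000000000000) (nat_lit 0x0) (nat_lit 0x4000200010000000000000000000000000000000000000) := D_48 (nat_lit 165) (nat_lit 148) (nat_lit 182) (nat_lit 7) (nat_lit 11) (nat_lit 5) (nat_lit 7) (nat_lit 11) (nat_lit 6) (by decide +kernel)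
theorem L117642 : W_48 (nat_lit 3) (nat_lit 0x900058002c003400000000000000000000000) (nat_lit 0x0) (nat_lit 0x4000300010000000040000000000000000000000000000) := T_48 (nat_lit 164) (nat_lit 114) (nat_lit 6) (nat_lit 11) (nat_lit 9) L117641 (by decide +kernel)
theorem L117643 : W_48 (nat_lit 4) (nat_lit 0x100058002c003400000000000000000000000) (nat_lit 0x0) (nat_lit 0x4000300018000000040000000100000000000000000000) := T_48 (nat_lit 147) (nat_lit 80) (nat_lit 6) (nat_lit 11) (nat_lit 8) L117642 (by decide +kernel)
theorem L117644 : W_48 (nat_lit 5) (nat_lit 0x100058002c001400000000000000000000000) (nat_lit 0x0) (nat_lit 0x4000300018000000040002800100000000000000000000) := T_48 (nat_lit 97) (nat_lit 95) (nat_lit 1) (nat_lit 12) (nat_lit 5) L117643 (by decide +kernel)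
theorem L117645 : W_48 (nat_lit 6) (nat_lit 0x1000580028001400000000000000000000000) (nat_lit 0x0) (nat_lit 0x4000320018000000044002800100000000000000000000) := T_48 (nat_lit 110) (nat_lit 161) (nat_lit 6) (nat_lit 8) (nat_lit 9) L117644 (by decide +kernel)
theorem L117646 : W_48 (nat_lit 7) (nat_lit 0x1000580028001000000000000000000000000) (nat_lit 0x0) (nat_lit 0x4000320018000000044002c00120000000000000000000) := T_48 (nat_lit 94) (nat_lit 77) (nat_lit 5) (nat_lit 9) (nat_lit 4) L117645 (by decide +kernel)
theorem L117647 : W_48 (nat_lit 2) (nat_lit 0x1000d800280010000a0004000000000000000) (nat_lit 0x0) (nat_lit 0x100008000400000000000) := D_48 (nat_lit 63) (nat_lit 46) (nat_lit 80) (nat_lit 6) (nat_lit 11) (nat_lit 6) (nat_lit 6) (nat_lit 11) (nat_lit 7) (by decide +kernel)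
theorem L117648 : W_48 (nat_lit 3) (nat_lit 0x1000d800280010000a0000000000000000000) (nat_lit 0x0) (nat_lit 0x4000000010000c000400000000000) := T_48 (nat_lit 62) (nat_lit 114) (nat_lit 7) (nat_lit 11) (nat_lit 3) L117647 (by decide +kernel)
theorem L117649 : W_48 (nat_lit 4) (nat_lit 0x10005800280010000a0000000000000000000) (nat_lit 0x0) (nat_lit 0x1000080004000000010000c000400000000000) := T_48 (nat_lit 131) (nat_lit 148) (nat_lit 7) (nat_lit 11) (nat_lit 4) L117648 (by decide +kernel)
theorem L117650 : W_48 (nat_lit 5) (nat_lit 0x1000580028001000080000000000000000000) (nat_lit 0x0) (nat_lit 0x1000080004000040012000c000400000000000) := T_48 (nat_lit 77) (nat_lit 94) (nat_lit 5) (nat_lit 9) (nat_lit 4) L117649 (by decide +kernel)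
theorem L117651 : W_48 (nat_lit 2) (nat_lit 0x1000d80028001000180004000000000000000) (nat_lit 0x0) (nat_lit 0x40002000100000000000) := D_48 (nat_lit 61) (nat_lit 44) (nat_lit 78) (nat_lit 4) (nat_lit 11) (nat_lit 6) (nat_lit 4) (nat_lit 11) (nat_lit 7) (by decide +kernel)
theorem L117652 : W_48 (nat_lit 3) (nat_lit 0x1000d80028001000180000000000000000000) (nat_lit 0x0) (nat_lit 0x40000000040006000100000000000) := T_48 (nat_lit 62) (nat_lit 114) (nat_lit 7) (nat_lit 11) (nat_lit 3) L117651 (by decide +kernel)
theorem L117653 : W_48 (nat_lit 4) (nat_lit 0x1000580028001000180000000000000000000) (nat_lit 0x0) (nat_lit 0x10000800040000000040006000100000000000) := T_48 (nat_lit 131) (nat_lit 148) (nat_lit 7) (nat_lit 11) (nat_lit 4) L117652 (by decide +kernel)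
theorem L117654 : W_48 (nat_lit 5) (nat_lit 0x1000580028001000080000000000000000000) (nat_lit 0x0) (nat_lit 0x1000080004000000014000e000100000000000) := T_48 (nat_lit 80) (nat_lit 63) (nat_lit 6) (nat_lit 11) (nat_lit 7) L117653 (by decide +kernel)
theorem L117655 : W_48 (nat_lit 2) (nat_lit 0xd0005800280010001f0000800000000000000) (nat_lit 0x0) (nat_lit 0x4000300000000000000000000000) := D_48 (nat_lit 93) (nat_lit 92) (nat_lit 110) (nat_lit 1) (nat_lit 11) (nat_lit 4) (nat_lit 7) (nat_lit 8) (nat_lit 3) (by decide +kernel)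
theorem L117656 : W_48 (nat_lit 3) (nat_lit 0xd0005800280010001e0000800000000000000) (nat_lit 0x0) (nat_lit 0x4000300010000400000000000000) := T_48 (nat_lit 76) (nat_lit 58) (nat_lit 0) (nat_lit 11) (nat_lit 4) L117655 (by decide +kernel)
theorem L117657 : W_48 (nat_lit 4) (nat_lit 0xd0005800280010001e0000000000000000000) (nat_lit 0x0) (nat_lit 0x4000300010001c00000000000000) := T_48 (nat_lit 59) (nat_lit 60) (nat_lit 0) (nat_lit 12) (nat_lit 4) L117656 (by decide +kernel)
theorem L117658 : W_48 (nat_lit 5) (nat_lit 0xd0005800280010001a0000000000000000000) (nat_lit 0x0) (nat_lit 0x4000300050003c00000000000000) := T_48 (nat_lit 78) (nat_lit 61) (nat_lit 4) (nat_lit 11) (nat_lit 7) L117657 (by decide +kernel)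
theorem L117659 : W_48 (nat_lit 6) (nat_lit 0x90005800280010001a0000000000000000000) (nat_lit 0x0) (nat_lit 0x80004000000004000300050003c00000000000000) := T_48 (nat_lit 146) (nat_lit 163) (nat_lit 5) (nat_lit 11) (nat_lit 5) L117658 (by decide +kernel)
theorem L117660 : W_48 (nat_lit 7) (nat_lit 0x10005800280010001a0000000000000000000) (nat_lit 0x0) (nat_lit 0x8000c000000004002300050003c00000000000000) := T_48 (nat_lit 147) (nat_lit 97) (nat_lit 6) (nat_lit 11) (nat_lit 8) L117659 (by decide +kernel)
theorem L117661 : W_48 (nat_lit 8) (nat_lit 0x1000580028001000180000000000000000000) (nat_lit 0x0) (nat_lit 0x8000c000000004002700070003c00000000000000) := T_48 (nat_lit 77) (nat_lit 94) (nat_lit 5) (nat_lit 9) (nat_lit 4) L117660 (by decide +kernel)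
theorem L117662 : W_48 (nat_lit 9) (nat_lit 0x1000580028001000080000000000000000000) (nat_lit 0x0) (nat_lit 0x8000c00000000400270017000bc00000000000000) := T_48 (nat_lit 80) (nat_lit 63) (nat_lit 6) (nat_lit 11) (nat_lit 7) L117661 (by decide +kernel)
theorem L117663 : W_48 (nat_lit 2) (nat_lit 0x10005800280010000f0004000000000000000) (nat_lit 0x0) (nat_lit 0x10000800040000000000000000000000000000) := D_48 (nat_lit 131) (nat_lit 148) (nat_lit 114) (nat_lit 7) (nat_lit 11) (nat_lit 4) (nat_lit 7) (nat_lit 11) (nat_lit 3) (by decide +kernel)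
theorem L117664 : W_48 (nat_lit 3) (nat_lit 0x10005800280010000f0000000000000000000) (nat_lit 0x0) (nat_lit 0x1000080004000000000000c000000000000000) := T_48 (nat_lit 62) (nat_lit 63) (nat_lit 2) (nat_lit 8) (nat_lit 4) L117663 (by decide +kernel)
theorem L117665 : W_48 (nat_lit 4) (nat_lit 0x10005800280010000e0000000000000000000) (nat_lit 0x0) (nat_lit 0x1000080004000200001000c000000000000000) := T_48 (nat_lit 76) (nat_lit 97) (nat_lit 3) (nat_lit 8) (nat_lit 4) L117664 (by decide +kernel)
theorem L117666 : W_48 (nat_lit 5) (nat_lit 0x10005800280010000c0000000000000000000) (nat_lit 0x0) (nat_lit 0x1000080004000240003000c000000000000000) := T_48 (nat_lit 77) (nat_lit 94) (nat_lit 5) (nat_lit 9) (nat_lit 4) L117665 (by decide +kernel)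
theorem L117667 : W_48 (nat_lit 6) (nat_lit 0x1000580028001000080000000000000000000) (nat_lit 0x0) (nat_lit 0x1000080004000240007000e000000000000000) := T_48 (nat_lit 78) (nat_lit 61) (nat_lit 4) (nat_lit 11) (nat_lit 7) L117666 (by decide +kernel)
theorem L117668 : W_48 (nat_lit 2) (nat_lit 0x1000d80028001000080004000000000000000) (nat_lit 0x0) (nat_lit 0x40002000100000000000) := D_48 (nat_lit 61) (nat_lit 44) (nat_lit 78) (nat_lit 4) (nat_lit 11) (nat_lit 6) (nat_lit 4) (nat_lit 11) (nat_lit 7) (by decide +kernel)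
theorem L117669 : W_48 (nat_lit 3) (nat_lit 0x1000d80028001000080000000000000000000) (nat_lit 0x0) (nat_lit 0x40000000040006000100000000000) := T_48 (nat_lit 62) (nat_lit 114) (nat_lit 7) (nat_lit 11) (nat_lit 3) L117668 (by decide +kernel)
theorem L117670 : W_48 (nat_lit 4) (nat_lit 0x1000580028001000080000000000000000000) (nat_lit 0x0) (nat_lit 0x10000800040000000040006000100000000000) := T_48 (nat_lit 131) (nat_lit 148) (nat_lit 7) (nat_lit 11) (nat_lit 4) L117669 (by decide +kernel)
theorem L117671 : W_48 (nat_lit 10) (nat_lit 0x1000580028001000000000000000000000000) (nat_lit 0x0) (nat_lit 0x8001c0008000440027001f000fc00500000000000) := Q_48 (nat_lit 79) (C_48 L117650 (C_48 L117654 (C_48 L117662 (C_48 L117667 (C_48 L117670 N_48))))) (by decide +kernel)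
theorem L117672 : W_48 (nat_lit 8) (nat_lit 0x1000580028001000000000000000000000000) (nat_lit 0x0) (nat_lit 0x4000700038001c0008000400028001c000e000200000000000) := Q_48 (nat_lit 147) (C_48 L117629 (C_48 L117600 (C_48 L117612 (C_48 L117618 (C_48 L117624 N_48))))) (by decide +kernel)
theorem L117673 : W_48 (nat_lit 2) (nat_lit 0x8000900058002c003400000000000000000000000) (nat_lit 0x0) (nat_lit 0x1000100000000000040000000000000000000000000000) := D_48 (nat_lit 164) (nat_lit 114) (nat_lit 180) (nat_lit 6) (nat_lit 11) (nat_lit 9) (nat_lit 5) (nat_lit 11) (nat_lit 6) (by decide +kernel)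
theorem L117674 : W_48 (nat_lit 3) (nat_lit 0x900058002c003400000000000000000000000) (nat_lit 0x0) (nat_lit 0x1000180004000000040000000000000000000000000000) := T_48 (nat_lit 163) (nat_lit 146) (nat_lit 5) (nat_lit 11) (nat_lit 5) L117673 (by decide +kernel)
theorem L117675 : W_48 (nat_lit 4) (nat_lit 0x100058002c003400000000000000000000000) (nat_lit 0x0) (nat_lit 0x100018000c000000040000000100000000000000000000) := T_48 (nat_lit 147) (nat_lit 80) (nat_lit 6) (nat_lit 11) (nat_lit 8) L117674 (by decide +kernel)
theorem L117676 : W_48 (nat_lit 5) (nat_lit 0x100058002c001400000000000000000000000) (nat_lit 0x0) (nat_lit 0x100018000c000000040002800100000000000000000000) := T_48 (nat_lit 97) (nat_lit 95) (nat_lit 1) (nat_lit 12) (nat_lit 5) L117675 (by decide +kernel)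
theorem L117677 : W_48 (nat_lit 6) (nat_lit 0x1000580028001400000000000000000000000) (nat_lit 0x0) (nat_lit 0x10001a000c000000044002800100000000000000000000) := T_48 (nat_lit 110) (nat_lit 161) (nat_lit 6) (nat_lit 8) (nat_lit 9) L117676 (by decide +kernel)
theorem L117678 : W_48 (nat_lit 7) (nat_lit 0x1000580028001000000000000000000000000) (nat_lit 0x0) (nat_lit 0x10001a000c000000044002c00120000000000000000000) := T_48 (nat_lit 94) (nat_lit 77) (nat_lit 5) (nat_lit 9) (nat_lit 4) L117677 (by decide +kernel)
theorem L117679 : W_48 (nat_lit 2) (nat_lit 0x10005800280018001f0001000000000000000) (nat_lit 0x0) (nat_lit 0x4000300000000000000000000000) := D_48 (nat_lit 93) (nat_lit 92) (nat_lit 110) (nat_lit 1) (nat_lit 11) (nat_lit 4) (nat_lit 6) (nat_lit 8) (nat_lit 7) (by decide +kernel)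
theorem L117680 : W_48 (nat_lit 3) (nat_lit 0x10005800280018001e0001000000000000000) (nat_lit 0x0) (nat_lit 0x4000300018000000000000000000) := T_48 (nat_lit 76) (nat_lit 75) (nat_lit 3) (nat_lit 7) (nat_lit 4) L117679 (by decide +kernel)
theorem L117681 : W_48 (nat_lit 4) (nat_lit 0x10005800280010001e0001000000000000000) (nat_lit 0x0) (nat_lit 0x8000000004000b00018000000000000000000) := T_48 (nat_lit 95) (nat_lit 147) (nat_lit 4) (nat_lit 11) (nat_lit 8) L117680 (by decide +kernel)
theorem L117682 : W_48 (nat_lit 5) (nat_lit 0x10005800280010001e0000000000000000000) (nat_lit 0x0) (nat_lit 0x8000000004000b00018001800000000000000) := T_48 (nat_lit 60) (nat_lit 59) (nat_lit 0) (nat_lit 12) (nat_lit 4) L117681 (by decide +kernel)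
theorem L117683 : W_48 (nat_lit 6) (nat_lit 0x10005800280010001a0000000000000000000) (nat_lit 0x0) (nat_lit 0x8000000004000b00058003800000000000000) := T_48 (nat_lit 78) (nat_lit 61) (nat_lit 4) (nat_lit 11) (nat_lit 7) L117682 (by decide +kernel)
theorem L117684 : W_48 (nat_lit 7) (nat_lit 0x10005800280010000a0000000000000000000) (nat_lit 0x0) (nat_lit 0x8000000004000b0015800b800000000000000) := T_48 (nat_lit 80) (nat_lit 63) (nat_lit 6) (nat_lit 11) (nat_lit 7) L117683 (by decide +kernel)
theorem L117685 : W_48 (nat_lit 8) (nat_lit 0x1000580028001000080000000000000000000) (nat_lit 0x0) (nat_lit 0x8000000004000f0017800b800000000000000) := T_48 (nat_lit 77) (nat_lit 94) (nat_lit 5) (nat_lit 9) (nat_lit 4) L117684 (by decide +kernel)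
theorem L117686 : W_48 (nat_lit 9) (nat_lit 0x1000580028001000000000000000000000000) (nat_lit 0x0) (nat_lit 0x18000800044000f001f800f800500000000000) := Q_48 (nat_lit 79) (C_48 L117670 (C_48 L117650 (C_48 L117685 N_48))) (by decide +kernel)
theorem L117687 : W_48 (nat_lit 2) (nat_lit 0x100058002c001c00000000000000000000000) (nat_lit 0x0) (nat_lit 0x42000200000000000000000000000) := D_48 (nat_lit 93) (nat_lit 109) (nat_lit 114) (nat_lit 1) (nat_lit 11) (nat_lit 5) (nat_lit 3) (nat_lit 8) (nat_lit 5) (by decide +kernel)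
theorem L117688 : W_48 (nat_lit 3) (nat_lit 0x100058002c001400000000000000000000000) (nat_lit 0x0) (nat_lit 0x42002a00000000000000000000000) := T_48 (nat_lit 95) (nat_lit 97) (nat_lit 1) (nat_lit 12) (nat_lit 5) L117687 (by decide +kernel)
theorem L117689 : W_48 (nat_lit 4) (nat_lit 0x1000580028001400000000000000000000000) (nat_lit 0x0) (nat_lit 0x20000000000046002a00000000000000000000000) := T_48 (nat_lit 110) (nat_lit 161) (nat_lit 6) (nat_lit 8) (nat_lit 9) L117688 (by decide +kernel)
theorem L117690 : W_48 (nat_lit 5) (nat_lit 0x1000580028001000000000000000000000000) (nat_lit 0x0) (nat_lit 0x20000000000046002e00020000000000000000000) := T_48 (nat_lit 94) (nat_lit 77) (nat_lit 5) (nat_lit 9) (nat_lit 4) L117689 (by decide +kernel)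
theorem L117691 : W_48 (nat_lit 2) (nat_lit 0x28000900058002c003400000000000000000000000) (nat_lit 0x0) (nat_lit 0x5000100000000000000000000000000000000000000000) := D_48 (nat_lit 164) (nat_lit 180) (nat_lit 182) (nat_lit 5) (nat_lit 11) (nat_lit 6) (nat_lit 7) (nat_lit 11) (nat_lit 6) (by decide +kernel)
theorem L117692 : W_48 (nat_lit 3) (nat_lit 0x8000900058002c003400000000000000000000000) (nat_lit 0x0) (nat_lit 0x5000300010000000000000000000000000000000000000) := T_48 (nat_lit 165) (nat_lit 148) (nat_lit 7) (nat_lit 11) (nat_lit 5) L117691 (by decide +kernel)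
theorem L117693 : W_48 (nat_lit 4) (nat_lit 0x900058002c003400000000000000000000000) (nat_lit 0x0) (nat_lit 0x5000380014000000000000000000000000000000000000) := T_48 (nat_lit 163) (nat_lit 146) (nat_lit 5) (nat_lit 11) (nat_lit 5) L117692 (by decide +kernel)
theorem L117694 : W_48 (nat_lit 5) (nat_lit 0x100058002c003400000000000000000000000) (nat_lit 0x0) (nat_lit 0x500038001c000000000000000100000000000000000000) := T_48 (nat_lit 147) (nat_lit 80) (nat_lit 6) (nat_lit 11) (nat_lit 8) L117693 (by decide +kernel)
theorem L117695 : W_48 (nat_lit 6) (nat_lit 0x100058002c001400000000000000000000000) (nat_lit 0x0) (nat_lit 0x500038001c000000000002800100000000000000000000) := T_48 (nat_lit 97) (nat_lit 95) (nat_lit 1) (nat_lit 12) (nat_lit 5) L117694 (by decide +kernel)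
theorem L117696 : W_48 (nat_lit 7) (nat_lit 0x1000580028001400000000000000000000000) (nat_lit 0x0) (nat_lit 0x50003a001c000000004002800100000000000000000000) := T_48 (nat_lit 110) (nat_lit 161) (nat_lit 6) (nat_lit 8) (nat_lit 9) L117695 (by decide +kernel)
theorem L117697 : W_48 (nat_lit 8) (nat_lit 0x1000580028001000000000000000000000000) (nat_lit 0x0) (nat_lit 0x50003a001c000000004002c00120000000000000000000) := T_48 (nat_lit 94) (nat_lit 77) (nat_lit 5) (nat_lit 9) (nat_lit 4) L117696 (by decide +kernel)
theorem L117698 : W_48 (nat_lit 12) (nat_lit 0x1000580028000000000000000000000000000) (nat_lit 0x0) (nat_lit 0x400070003a001c00080004600ff001f800fc00700000000000) := Q_48 (nat_lit 96) (C_48 L117630 (C_48 L117640 (C_48 L117646 (C_48 L117671 (C_48 L117672 (C_48 L117678 (C_48 L117686 (C_48 L117690 (C_48 L117697 N_48))))))))) (by decide +kernel)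
theorem L117699 : W_48 (nat_lit 2) (nat_lit 0x100058003e001000000000000000000000000) (nat_lit 0x0) (nat_lit 0x380000000000000000000000) := D_48 (nat_lit 92) (nat_lit 91) (nat_lit 93) (nat_lit 0) (nat_lit 10) (nat_lit 6) (nat_lit 0) (nat_lit 11) (nat_lit 6) (by decide +kernel)
theorem L117700 : W_48 (nat_lit 3) (nat_lit 0x100058003c001000000000000000000000000) (nat_lit 0x0) (nat_lit 0x2000b80000000000000000000000) := T_48 (nat_lit 109) (nat_lit 95) (nat_lit 2) (nat_lit 7) (nat_lit 6) L117699 (by decide +kernel)
theorem L117701 : W_48 (nat_lit 4) (nat_lit 0x100058003c000000000000000000000000000) (nat_lit 0x0) (nat_lit 0x2003b80000000000000000000000) := T_48 (nat_lit 96) (nat_lit 97) (nat_lit 2) (nat_lit 8) (nat_lit 6) L117700 (by decide +kernel)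
theorem L117702 : W_48 (nat_lit 5) (nat_lit 0x1000580038000000000000000000000000000) (nat_lit 0x0) (nat_lit 0x800006003b80000000000000000000000) := T_48 (nat_lit 110) (nat_lit 131) (nat_lit 3) (nat_lit 8) (nat_lit 6) L117701 (by decide +kernel)
theorem L117703 : W_48 (nat_lit 6) (nat_lit 0x1000580028000000000000000000000000000) (nat_lit 0x0) (nat_lit 0x800056003b80000000000000000000000) := T_48 (nat_lit 112) (nat_lit 114) (nat_lit 1) (nat_lit 12) (nat_lit 6) L117702 (by decide +kernel)
theorem L117704 : W_48 (nat_lit 2) (nat_lit 0x1000580068001c00000000000000000000000) (nat_lit 0x0) (nat_lit 0x180002000000000000000000000000) := D_48 (nat_lit 115) (nat_lit 116) (nat_lit 97) (nat_lit 0) (nat_lit 14) (nat_lit 6) (nat_lit 3) (nat_lit 9) (nat_lit 5) (by decide +kernel)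
theorem L117705 : W_48 (nat_lit 3) (nat_lit 0x1000580068001400000000000000000000000) (nat_lit 0x0) (nat_lit 0x180002a00000000000000000000000) := T_48 (nat_lit 95) (nat_lit 93) (nat_lit 3) (nat_lit 8) (nat_lit 5) L117704 (by decide +kernel)
theorem L117706 : W_48 (nat_lit 4) (nat_lit 0x1000580068001000000000000000000000000) (nat_lit 0x0) (nat_lit 0x180002e00020000000000000000000) := T_48 (nat_lit 94) (nat_lit 77) (nat_lit 5) (nat_lit 9) (nat_lit 4) L117705 (by decide +kernel)
theorem L117707 : W_48 (nat_lit 5) (nat_lit 0x1000580028001000000000000000000000000) (nat_lit 0x0) (nat_lit 0x1d0002e00020000000000000000000) := T_48 (nat_lit 114) (nat_lit 112) (nat_lit 1) (nat_lit 12) (nat_lit 6) L117706 (by decide +kernel)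
theorem L117708 : W_48 (nat_lit 2) (nat_lit 0x10005800280010001e0000000000000000000) (nat_lit 0x0) (nat_lit 0x8000000000006000000000000000000000000) := D_48 (nat_lit 97) (nat_lit 98) (nat_lit 147) (nat_lit 3) (nat_lit 9) (nat_lit 4) (nat_lit 6) (nat_lit 11) (nat_lit 8) (by decide +kernel)
theorem L117709 : W_48 (nat_lit 3) (nat_lit 0x10005800280010001a0000000000000000000) (nat_lit 0x0) (nat_lit 0x8000000000006000040002000000000000000) := T_48 (nat_lit 78) (nat_lit 61) (nat_lit 4) (nat_lit 11) (nat_lit 7) L117708 (by decide +kernel)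
theorem L117710 : W_48 (nat_lit 4) (nat_lit 0x10005800280010000a0000000000000000000) (nat_lit 0x0) (nat_lit 0x800000000000600014000a000000000000000) := T_48 (nat_lit 80) (nat_lit 63) (nat_lit 6) (nat_lit 11) (nat_lit 7) L117709 (by decide +kernel)
theorem L117711 : W_48 (nat_lit 5) (nat_lit 0x1000580028001000080000000000000000000) (nat_lit 0x0) (nat_lit 0x800000000000640016000a000000000000000) := T_48 (nat_lit 77) (nat_lit 94) (nat_lit 5) (nat_lit 9) (nat_lit 4) L117710 (by decide +kernel)
theorem L117712 : W_48 (nat_lit 6) (nat_lit 0x1000580028001000000000000000000000000) (nat_lit 0x0) (nat_lit 0x180008000400064001e000e000500000000000) := Q_48 (nat_lit 79) (C_48 L117670 (C_48 L117650 (C_48 L117711 N_48))) (by decide +kernel)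
theorem L117713 : W_48 (nat_lit 2) (nat_lit 0x80019000d80168001c00000000000000000000000) (nat_lit 0x0) (nat_lit 0x3000100000000000000000000000000000000000000000) := D_48 (nat_lit 164) (nat_lit 180) (nat_lit 181) (nat_lit 5) (nat_lit 11) (nat_lit 6) (nat_lit 6) (nat_lit 11) (nat_lit 10) (by decide +kernel)
theorem L117714 : W_48 (nat_lit 3) (nat_lit 0x80019000580168001c00000000000000000000000) (nat_lit 0x0) (nat_lit 0x3000100000000800000000000080000000000000000000) := T_48 (nat_lit 131) (nat_lit 79) (nat_lit 7) (nat_lit 11) (nat_lit 4) L117713 (by decide +kernel)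
theorem L117715 : W_48 (nat_lit 4) (nat_lit 0x80009000580168001c00000000000000000000000) (nat_lit 0x0) (nat_lit 0x3000300010000800000000000080000000000000000000) := T_48 (nat_lit 148) (nat_lit 165) (nat_lit 7) (nat_lit 11) (nat_lit 5) L117714 (by decide +kernel)
theorem L117716 : W_48 (nat_lit 5) (nat_lit 0x9000580168001c00000000000000000000000) (nat_lit 0x0) (nat_lit 0x3000380014000800000000000080000000000000000000) := T_48 (nat_lit 163) (nat_lit 146) (nat_lit 5) (nat_lit 11) (nat_lit 5) L117715 (by decide +kernel)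
theorem L117717 : W_48 (nat_lit 6) (nat_lit 0x1000580168001c00000000000000000000000) (nat_lit 0x0) (nat_lit 0x300038001c0008000000000000c0000000000000000000) := T_48 (nat_lit 147) (nat_lit 78) (nat_lit 4) (nat_lit 11) (nat_lit 8) L117716 (by decide +kernel)
theorem L117718 : W_48 (nat_lit 7) (nat_lit 0x1000580068001c00000000000000000000000) (nat_lit 0x0) (nat_lit 0x300038001c0008001800000000c0000000000000000000) := T_48 (nat_lit 116) (nat_lit 115) (nat_lit 0) (nat_lit 14) (nat_lit 6) L117717 (by decide +kernel)
theorem L117719 : W_48 (nat_lit 8) (nat_lit 0x1000580068001400000000000000000000000) (nat_lit 0x0) (nat_lit 0x300038001c000800180000a000c0000000000000000000) := T_48 (nat_lit 95) (nat_lit 93) (nat_lit 3) (nat_lit 8) (nat_lit 5) L117718 (by decide +kernel)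
theorem L117720 : W_48 (nat_lit 9) (nat_lit 0x1000580028001400000000000000000000000) (nat_lit 0x0) (nat_lit 0x300038001c0008001d0000a000c0000000000000000000) := T_48 (nat_lit 114) (nat_lit 112) (nat_lit 1) (nat_lit 12) (nat_lit 6) L117719 (by decide +kernel)
theorem L117721 : W_48 (nat_lit 10) (nat_lit 0x1000580028001000000000000000000000000) (nat_lit 0x0) (nat_lit 0x300038001c0008001d0000e000e0000000000000000000) := T_48 (nat_lit 94) (nat_lit 77) (nat_lit 5) (nat_lit 9) (nat_lit 4) L117720 (by decide +kernel)
theorem L117722 : W_48 (nat_lit 2) (nat_lit 0xd000580028003800020000000000000000000) (nat_lit 0x0) (nat_lit 0x100000000000010004000000000000000000000000) := D_48 (nat_lit 112) (nat_lit 98) (nat_lit 164) (nat_lit 1) (nat_lit 13) (nat_lit 5) (nat_lit 4) (nat_lit 11) (nat_lit 9) (by decide +kernel)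
theorem L117723 : W_48 (nat_lit 3) (nat_lit 0xd000580028003000020000000000000000000) (nat_lit 0x0) (nat_lit 0x100000000000010004800040000000000000000000) := T_48 (nat_lit 95) (nat_lit 78) (nat_lit 4) (nat_lit 11) (nat_lit 8) L117722 (by decide +kernel)
theorem L117724 : W_48 (nat_lit 4) (nat_lit 0x9000580028003000020000000000000000000) (nat_lit 0x0) (nat_lit 0x180004000000010004800040000000000000000000) := T_48 (nat_lit 146) (nat_lit 163) (nat_lit 5) (nat_lit 11) (nat_lit 5) L117723 (by decide +kernel)
theorem L117725 : W_48 (nat_lit 5) (nat_lit 0x9000580028001000020000000000000000000) (nat_lit 0x0) (nat_lit 0x180004000000010006800140000000000000000000) := T_48 (nat_lit 97) (nat_lit 80) (nat_lit 6) (nat_lit 11) (nat_lit 8) L117724 (by decide +kernel)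
theorem L117726 : W_48 (nat_lit 6) (nat_lit 0x9000580028001000000000000000000000000) (nat_lit 0x0) (nat_lit 0x180004000000010006c00160000000000000000000) := T_48 (nat_lit 77) (nat_lit 94) (nat_lit 5) (nat_lit 9) (nat_lit 4) L117725 (by decide +kernel)
theorem L117727 : W_48 (nat_lit 2) (nat_lit 0x100009000580028001800020000000000000000000) (nat_lit 0x0) (nat_lit 0x4000200010000000000000000000000000000000000000) := D_48 (nat_lit 165) (nat_lit 148) (nat_lit 182) (nat_lit 7) (nat_lit 11) (nat_lit 5) (nat_lit 7) (nat_lit 11) (nat_lit 6) (by decide +kernel)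
theorem L117728 : W_48 (nat_lit 3) (nat_lit 0x9000580028001800020000000000000000000) (nat_lit 0x0) (nat_lit 0x4000300010000000010000000000000000000000000000) := T_48 (nat_lit 164) (nat_lit 112) (nat_lit 4) (nat_lit 11) (nat_lit 9) L117727 (by decide +kernel)
theorem L117729 : W_48 (nat_lit 4) (nat_lit 0x9000580028001800000000000000000000000) (nat_lit 0x0) (nat_lit 0x4000300010000000010000400020000000000000000000) := T_48 (nat_lit 77) (nat_lit 94) (nat_lit 5) (nat_lit 9) (nat_lit 4) L117728 (by decide +kernel)
theorem L117730 : W_48 (nat_lit 5) (nat_lit 0x9000580028001000000000000000000000000) (nat_lit 0x0) (nat_lit 0x4000300010000000010000c00060000000000000000000) := T_48 (nat_lit 95) (nat_lit 78) (nat_lit 4) (nat_lit 11) (nat_lit 8) L117729 (by decide +kernel)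
theorem L117731 : W_48 (nat_lit 7) (nat_lit 0x1000580028001000000000000000000000000) (nat_lit 0x0) (nat_lit 0x400038001c000800010006c001e0008000000000000000) := Q_48 (nat_lit 147) (C_48 L117612 (C_48 L117600 (C_48 L117726 (C_48 L117730 N_48)))) (by decide +kernel)
theorem L117732 : W_48 (nat_lit 11) (nat_lit 0x1000580028000000000000000000000000000) (nat_lit 0x0) (nat_lit 0x4000700038001c0008001d0007e001e000e000700000000000) := Q_48 (nat_lit 96) (C_48 L117672 (C_48 L117707 (C_48 L117712 (C_48 L117721 (C_48 L117731 N_48))))) (by decide +kernel)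
theorem L117733 : W_48 (nat_lit 2) (nat_lit 0x100058003c000200020000000000000000000) (nat_lit 0x0) (nat_lit 0x10001800000000000000) := D_48 (nat_lit 76) (nat_lit 59) (nat_lit 60) (nat_lit 7) (nat_lit 8) (nat_lit 3) (nat_lit 6) (nat_lit 8) (nat_lit 7) (by decide +kernel)
theorem L117734 : W_48 (nat_lit 3) (nat_lit 0x100058003c000000020000000000000000000) (nat_lit 0x0) (nat_lit 0x300010001800000000000000) := T_48 (nat_lit 93) (nat_lit 92) (nat_lit 0) (nat_lit 11) (nat_lit 6) L117733 (by decide +kernel)
theorem L117735 : W_48 (nat_lit 4) (nat_lit 0x1000580038000000020000000000000000000) (nat_lit 0x0) (nat_lit 0x800004000300010001800000000000000) := T_48 (nat_lit 110) (nat_lit 131) (nat_lit 3) (nat_lit 8) (nat_lit 6) L117734 (by decide +kernel)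
theorem L117736 : W_48 (nat_lit 5) (nat_lit 0x1000580028000000020000000000000000000) (nat_lit 0x0) (nat_lit 0x800054000300010001800000000000000) := T_48 (nat_lit 112) (nat_lit 114) (nat_lit 1) (nat_lit 12) (nat_lit 6) L117735 (by decide +kernel)
theorem L117737 : W_48 (nat_lit 6) (nat_lit 0x1000580028000000000000000000000000000) (nat_lit 0x0) (nat_lit 0x800054000700030001800000000000000) := T_48 (nat_lit 77) (nat_lit 94) (nat_lit 5) (nat_lit 9) (nat_lit 4) L117736 (by decide +kernel)
theorem L117738 : W_48 (nat_lit 2) (nat_lit 0x100058003e001400000000000000000000000) (nat_lit 0x0) (nat_lit 0x380000000000000000000000) := D_48 (nat_lit 92) (nat_lit 93) (nat_lit 91) (nat_lit 0) (nat_lit 11) (nat_lit 6) (nat_lit 0) (nat_lit 10) (nat_lit 6) (by decide +kernel)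
theorem L117739 : W_48 (nat_lit 3) (nat_lit 0x100058003c001400000000000000000000000) (nat_lit 0x0) (nat_lit 0x2000b80000000000000000000000) := T_48 (nat_lit 109) (nat_lit 95) (nat_lit 2) (nat_lit 7) (nat_lit 6) L117738 (by decide +kernel)
theorem L117740 : W_48 (nat_lit 4) (nat_lit 0x100058003c000400000000000000000000000) (nat_lit 0x0) (nat_lit 0x2003b80000000000000000000000) := T_48 (nat_lit 96) (nat_lit 97) (nat_lit 2) (nat_lit 8) (nat_lit 6) L117739 (by decide +kernel)
theorem L117741 : W_48 (nat_lit 5) (nat_lit 0x1000580038000400000000000000000000000) (nat_lit 0x0) (nat_lit 0x20000000000006003b80000000000000000000000) := T_48 (nat_lit 110) (nat_lit 161) (nat_lit 6) (nat_lit 8) (nat_lit 9) L117740 (by decide +kernel)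
theorem L117742 : W_48 (nat_lit 6) (nat_lit 0x1000580038000000000000000000000000000) (nat_lit 0x0) (nat_lit 0x20000000000006003f80020000000000000000000) := T_48 (nat_lit 94) (nat_lit 77) (nat_lit 5) (nat_lit 9) (nat_lit 4) L117741 (by decide +kernel)
theorem L117743 : W_48 (nat_lit 7) (nat_lit 0x1000580028000000000000000000000000000) (nat_lit 0x0) (nat_lit 0x20000000000056003f80020000000000000000000) := T_48 (nat_lit 112) (nat_lit 114) (nat_lit 1) (nat_lit 12) (nat_lit 6) L117742 (by decide +kernel)
theorem L117744 : W_48 (nat_lit 5) (nat_lit 0x100058002c000400000000000000000000000) (nat_lit 0x0) (nat_lit 0x800012003b80000000000000000000000) := T_48 (nat_lit 112) (nat_lit 131) (nat_lit 3) (nat_lit 8) (nat_lit 6) L117740 (by decide +kernel)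
theorem L117745 : W_48 (nat_lit 6) (nat_lit 0x1000580028000400000000000000000000000) (nat_lit 0x0) (nat_lit 0x20000000800016003b80000000000000000000000) := T_48 (nat_lit 110) (nat_lit 161) (nat_lit 6) (nat_lit 8) (nat_lit 9) L117744 (by decide +kernel)
theorem L117746 : W_48 (nat_lit 7) (nat_lit 0x1000580028000000000000000000000000000) (nat_lit 0x0) (nat_lit 0x20000000800016003f80020000000000000000000) := T_48 (nat_lit 94) (nat_lit 77) (nat_lit 5) (nat_lit 9) (nat_lit 4) L117745 (by decide +kernel)
theorem L117747 : W_48 (nat_lit 13) (nat_lit 0x1000580020000000000000000000000000000) (nat_lit 0x0) (nat_lit 0x400070003a001c0008001de00ff801f800fc00700000000000) := Q_48 (nat_lit 111) (C_48 L117576 (C_48 L117582 (C_48 L117588 (C_48 L117698 (C_48 L117703 (C_48 L117732 (C_48 L117737 (C_48 L117743 (C_48 L117746 N_48))))))))) (by decide +kernel)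
theorem L117748 : W_48 (nat_lit 2) (nat_lit 0x9000580060001000000000000000000000000) (nat_lit 0x0) (nat_lit 0x100000000000000002000100000000000000000000) := D_48 (nat_lit 97) (nat_lit 80) (nat_lit 164) (nat_lit 6) (nat_lit 11) (nat_lit 8) (nat_lit 6) (nat_lit 11) (nat_lit 9) (by decide +kernel)
theorem L117749 : W_48 (nat_lit 2) (nat_lit 0x19000580070001000080000000000000000000) (nat_lit 0x0) (nat_lit 0x2000100008000000000000000) := D_48 (nat_lit 80) (nat_lit 63) (nat_lit 97) (nat_lit 6) (nat_lit 11) (nat_lit 7) (nat_lit 6) (nat_lit 11) (nat_lit 8) (by decide +kernel)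
theorem L117750 : W_48 (nat_lit 3) (nat_lit 0x19000580070001000000000000000000000000) (nat_lit 0x0) (nat_lit 0x800000002000180008000000000000000) := T_48 (nat_lit 79) (nat_lit 131) (nat_lit 7) (nat_lit 11) (nat_lit 4) L117749 (by decide +kernel)
theorem L117751 : W_48 (nat_lit 4) (nat_lit 0x9000580070001000000000000000000000000) (nat_lit 0x0) (nat_lit 0x200010000800000002000180008000000000000000) := T_48 (nat_lit 148) (nat_lit 165) (nat_lit 7) (nat_lit 11) (nat_lit 5) L117750 (by decide +kernel)
theorem L117752 : W_48 (nat_lit 5) (nat_lit 0x9000580060001000000000000000000000000) (nat_lit 0x0) (nat_lit 0x200010000800018002000180008000000000000000) := T_48 (nat_lit 112) (nat_lit 111) (nat_lit 1) (nat_lit 12) (nat_lit 6) L117751 (by decide +kernel)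
theorem L117753 : W_48 (nat_lit 2) (nat_lit 0x1900058007000100008000a000000000000000) (nat_lit 0x0) (nat_lit 0x4000500000000000) := D_48 (nat_lit 62) (nat_lit 46) (nat_lit 44) (nat_lit 6) (nat_lit 11) (nat_lit 6) (nat_lit 4) (nat_lit 11) (nat_lit 6) (by decide +kernel)
theorem L117754 : W_48 (nat_lit 3) (nat_lit 0x19000580070001000080008000000000000000) (nat_lit 0x0) (nat_lit 0x40006000500000000000) := T_48 (nat_lit 61) (nat_lit 78) (nat_lit 4) (nat_lit 11) (nat_lit 7) L117753 (by decide +kernel)
theorem L117755 : W_48 (nat_lit 4) (nat_lit 0x19000580070001000080000000000000000000) (nat_lit 0x0) (nat_lit 0x14000e000500000000000) := T_48 (nat_lit 63) (nat_lit 80) (nat_lit 6) (nat_lit 11) (nat_lit 7) L117754 (by decide +kernel)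
theorem L117756 : W_48 (nat_lit 5) (nat_lit 0x19000580070001000000000000000000000000) (nat_lit 0x0) (nat_lit 0x8000000000001c000e000500000000000) := T_48 (nat_lit 79) (nat_lit 131) (nat_lit 7) (nat_lit 11) (nat_lit 4) L117755 (by decide +kernel)
theorem L117757 : W_48 (nat_lit 6) (nat_lit 0x9000580070001000000000000000000000000) (nat_lit 0x0) (nat_lit 0x2000100008000000000001c000e000500000000000) := T_48 (nat_lit 148) (nat_lit 165) (nat_lit 7) (nat_lit 11) (nat_lit 5) L117756 (by decide +kernel)
theorem L117758 : W_48 (nat_lit 7) (nat_lit 0x9000580060001000000000000000000000000) (nat_lit 0x0) (nat_lit 0x2000100008000180000001c000e000500000000000) := T_48 (nat_lit 112) (nat_lit 111) (nat_lit 1) (nat_lit 12) (nat_lit 6) L117757 (by decide +kernel)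
theorem L117759 : W_48 (nat_lit 2) (nat_lit 0x10000d000580060001000000000000000000000000) (nat_lit 0x0) (nat_lit 0x4000200010000000000000000000000000000000000000) := D_48 (nat_lit 165) (nat_lit 148) (nat_lit 182) (nat_lit 7) (nat_lit 11) (nat_lit 5) (nat_lit 7) (nat_lit 11) (nat_lit 6) (by decide +kernel)
theorem L117760 : W_48 (nat_lit 3) (nat_lit 0xd000580060001000000000000000000000000) (nat_lit 0x0) (nat_lit 0x4000300010000000000002000000000000000000000000) := T_48 (nat_lit 164) (nat_lit 97) (nat_lit 6) (nat_lit 11) (nat_lit 9) L117759 (by decide +kernel)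
theorem L117761 : W_48 (nat_lit 4) (nat_lit 0x9000580060001000000000000000000000000) (nat_lit 0x0) (nat_lit 0x4000380014000000000002000000000000000000000000) := T_48 (nat_lit 146) (nat_lit 163) (nat_lit 5) (nat_lit 11) (nat_lit 5) L117760 (by decide +kernel)
theorem L117762 : W_48 (nat_lit 8) (nat_lit 0x1000580060001000000000000000000000000) (nat_lit 0x0) (nat_lit 0x400038001c0008000180020001c000e000500000000000) := Q_48 (nat_lit 147) (C_48 L117748 (C_48 L117752 (C_48 L117758 (C_48 L117761 N_48)))) (by decide +kernel)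
theorem L117763 : W_48 (nat_lit 2) (nat_lit 0x19000580060001000080000000000000000000) (nat_lit 0x0) (nat_lit 0x2000100008000000000000000) := D_48 (nat_lit 80) (nat_lit 63) (nat_lit 97) (nat_lit 6) (nat_lit 11) (nat_lit 7) (nat_lit 6) (nat_lit 11) (nat_lit 8) (by decide +kernel)
theorem L117764 : W_48 (nat_lit 3) (nat_lit 0x19000580060001000000000000000000000000) (nat_lit 0x0) (nat_lit 0x800000002000180008000000000000000) := T_48 (nat_lit 79) (nat_lit 131) (nat_lit 7) (nat_lit 11) (nat_lit 4) L117763 (by decide +kernel)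
theorem L117765 : W_48 (nat_lit 4) (nat_lit 0x9000580060001000000000000000000000000) (nat_lit 0x0) (nat_lit 0x200010000800000002000180008000000000000000) := T_48 (nat_lit 148) (nat_lit 165) (nat_lit 7) (nat_lit 11) (nat_lit 5) L117764 (by decide +kernel)
theorem L117766 : W_48 (nat_lit 2) (nat_lit 0x1d00058006000100008000a000000000000000) (nat_lit 0x0) (nat_lit 0x4000500000000000) := D_48 (nat_lit 62) (nat_lit 46) (nat_lit 44) (nat_lit 6) (nat_lit 11) (nat_lit 6) (nat_lit 4) (nat_lit 11) (nat_lit 6) (by decide +kernel)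
theorem L117767 : W_48 (nat_lit 3) (nat_lit 0x1d000580060001000080008000000000000000) (nat_lit 0x0) (nat_lit 0x40006000500000000000) := T_48 (nat_lit 61) (nat_lit 78) (nat_lit 4) (nat_lit 11) (nat_lit 7) L117766 (by decide +kernel)
theorem L117768 : W_48 (nat_lit 4) (nat_lit 0x1d000580060001000080000000000000000000) (nat_lit 0x0) (nat_lit 0x14000e000500000000000) := T_48 (nat_lit 63) (nat_lit 80) (nat_lit 6) (nat_lit 11) (nat_lit 7) L117767 (by decide +kernel)
theorem L117769 : W_48 (nat_lit 5) (nat_lit 0x1d000580060001000000000000000000000000) (nat_lit 0x0) (nat_lit 0x8000000000001c000e000500000000000) := T_48 (nat_lit 79) (nat_lit 131) (nat_lit 7) (nat_lit 11) (nat_lit 4) L117768 (by decide +kernel)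
theorem L117770 : W_48 (nat_lit 6) (nat_lit 0xd000580060001000000000000000000000000) (nat_lit 0x0) (nat_lit 0x2000100008000000000001c000e000500000000000) := T_48 (nat_lit 148) (nat_lit 165) (nat_lit 7) (nat_lit 11) (nat_lit 5) L117769 (by decide +kernel)
theorem L117771 : W_48 (nat_lit 7) (nat_lit 0x9000580060001000000000000000000000000) (nat_lit 0x0) (nat_lit 0x2800140008000000000001c000e000500000000000) := T_48 (nat_lit 146) (nat_lit 163) (nat_lit 5) (nat_lit 11) (nat_lit 5) L117770 (by decide +kernel)
theorem L117772 : W_48 (nat_lit 8) (nat_lit 0x1000580060001000000000000000000000000) (nat_lit 0x0) (nat_lit 0x400038001c0008000000020001c000e000500000000000) := Q_48 (nat_lit 147) (C_48 L117761 (C_48 L117748 (C_48 L117765 (C_48 L117771 N_48)))) (by decide +kernel)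
theorem L117773 : W_48 (nat_lit 2) (nat_lit 0x1000d80060001000000000000000000000000) (nat_lit 0x0) (nat_lit 0x200010000000000000000080000000000000000000) := D_48 (nat_lit 148) (nat_lit 165) (nat_lit 79) (nat_lit 4) (nat_lit 12) (nat_lit 9) (nat_lit 7) (nat_lit 11) (nat_lit 4) (by decide +kernel)
theorem L117774 : W_48 (nat_lit 2) (nat_lit 0x1002d8007000b000380000000000000000000) (nat_lit 0x0) (nat_lit 0x10000c00000000000000000000) := D_48 (nat_lit 82) (nat_lit 100) (nat_lit 83) (nat_lit 3) (nat_lit 11) (nat_lit 4) (nat_lit 1) (nat_lit 15) (nat_lit 4) (by decide +kernel)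
theorem L117775 : W_48 (nat_lit 3) (nat_lit 0x1002d8007000b000180000000000000000000) (nat_lit 0x0) (nat_lit 0x10000e00010000000000000000) := T_48 (nat_lit 81) (nat_lit 64) (nat_lit 6) (nat_lit 12) (nat_lit 7) L117774 (by decide +kernel)
theorem L117776 : W_48 (nat_lit 4) (nat_lit 0x1002d80070003000180000000000000000000) (nat_lit 0x0) (nat_lit 0x1c000e00010000000000000000) := T_48 (nat_lit 99) (nat_lit 98) (nat_lit 1) (nat_lit 14) (nat_lit 5) L117775 (by decide +kernel)
theorem L117777 : W_48 (nat_lit 5) (nat_lit 0x1002d80070001000180000000000000000000) (nat_lit 0x0) (nat_lit 0x800000000001e000e00010000000000000000) := T_48 (nat_lit 97) (nat_lit 147) (nat_lit 6) (nat_lit 11) (nat_lit 8) L117776 (by decide +kernel)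
theorem L117778 : W_48 (nat_lit 6) (nat_lit 0x1002d80070001000080000000000000000000) (nat_lit 0x0) (nat_lit 0x800000000001e000f00018000000000000000) := T_48 (nat_lit 80) (nat_lit 63) (nat_lit 6) (nat_lit 11) (nat_lit 7) L117777 (by decide +kernel)
theorem L117779 : W_48 (nat_lit 7) (nat_lit 0x1002d80070001000000000000000000000000) (nat_lit 0x0) (nat_lit 0x800000000001e000f8001c000000000000000) := T_48 (nat_lit 79) (nat_lit 62) (nat_lit 7) (nat_lit 11) (nat_lit 3) L117778 (by decide +kernel)
theorem L117780 : W_48 (nat_lit 8) (nat_lit 0x1000d80070001000000000000000000000000) (nat_lit 0x0) (nat_lit 0x800300000001e000f8001c000000000000000) := T_48 (nat_lit 133) (nat_lit 132) (nat_lit 0) (nat_lit 14) (nat_lit 7) L117779 (by decide +kernel)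
theorem L117781 : W_48 (nat_lit 9) (nat_lit 0x1000d80060001000000000000000000000000) (nat_lit 0x0) (nat_lit 0x800300001801e000f8001c000000000000000) := T_48 (nat_lit 112) (nat_lit 111) (nat_lit 1) (nat_lit 12) (nat_lit 6) L117780 (by decide +kernel)
theorem L117782 : W_48 (nat_lit 2) (nat_lit 0x1000d80060003000000000000000000000000) (nat_lit 0x0) (nat_lit 0x8000000000000000100008000000000000000) := D_48 (nat_lit 80) (nat_lit 63) (nat_lit 147) (nat_lit 5) (nat_lit 12) (nat_lit 3) (nat_lit 6) (nat_lit 11) (nat_lit 8) (by decide +kernel)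
theorem L117783 : W_48 (nat_lit 2) (nat_lit 0x39002d8007000b000000000000000000000000) (nat_lit 0x0) (nat_lit 0xc0004000000000000000000000000000000000) := D_48 (nat_lit 150) (nat_lit 134) (nat_lit 151) (nat_lit 2) (nat_lit 11) (nat_lit 8) (nat_lit 0) (nat_lit 15) (nat_lit 8) (by decide +kernel)
theorem L117784 : W_48 (nat_lit 3) (nat_lit 0x19002d8007000b000000000000000000000000) (nat_lit 0x0) (nat_lit 0x4000e0004000000000000000000000000000000000) := T_48 (nat_lit 149) (nat_lit 166) (nat_lit 7) (nat_lit 12) (nat_lit 5) L117783 (by decide +kernel)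
theorem L117785 : W_48 (nat_lit 4) (nat_lit 0x9002d8007000b000000000000000000000000) (nat_lit 0x0) (nat_lit 0x6000f0004000000000000000000000000000000000) := T_48 (nat_lit 148) (nat_lit 165) (nat_lit 7) (nat_lit 11) (nat_lit 5) L117784 (by decide +kernel)
theorem L117786 : W_48 (nat_lit 5) (nat_lit 0x1002d8007000b000000000000000000000000) (nat_lit 0x0) (nat_lit 0x7000f8004000000000000000000000000000000000) := T_48 (nat_lit 147) (nat_lit 164) (nat_lit 6) (nat_lit 11) (nat_lit 9) L117785 (by decide +kernel)
theorem L117787 : W_48 (nat_lit 6) (nat_lit 0x1000d8007000b000000000000000000000000) (nat_lit 0x0) (nat_lit 0x7000f8007000000000000000000000000000000000) := T_48 (nat_lit 133) (nat_lit 132) (nat_lit 0) (nat_lit 14) (nat_lit 7) L117786 (by decide +kernel)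
theorem L117788 : W_48 (nat_lit 7) (nat_lit 0x1000d80070003000000000000000000000000) (nat_lit 0x0) (nat_lit 0x7000f800700000000c000000000000000000000000) := T_48 (nat_lit 99) (nat_lit 98) (nat_lit 1) (nat_lit 14) (nat_lit 5) L117787 (by decide +kernel)
theorem L117789 : W_48 (nat_lit 8) (nat_lit 0x1000d80060003000000000000000000000000) (nat_lit 0x0) (nat_lit 0x7000f800700001800c000000000000000000000000) := T_48 (nat_lit 112) (nat_lit 111) (nat_lit 1) (nat_lit 12) (nat_lit 6) L117788 (by decide +kernel)
theorem L117790 : W_48 (nat_lit 2) (nat_lit 0x1000d80070007000000008000000000000000) (nat_lit 0x0) (nat_lit 0x200010000000000000000200000000000000000000) := D_48 (nat_lit 148) (nat_lit 165) (nat_lit 81) (nat_lit 4) (nat_lit 12) (nat_lit 9) (nat_lit 6) (nat_lit 12) (nat_lit 8) (by decide +kernel)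
theorem L117791 : W_48 (nat_lit 3) (nat_lit 0x1000d80070003000000008000000000000000) (nat_lit 0x0) (nat_lit 0x20001000000000000c000200000000000000000000) := T_48 (nat_lit 98) (nat_lit 99) (nat_lit 1) (nat_lit 14) (nat_lit 5) L117790 (by decide +kernel)
theorem L117792 : W_48 (nat_lit 4) (nat_lit 0x1000d80060003000000008000000000000000) (nat_lit 0x0) (nat_lit 0x20001000000001800c000200000000000000000000) := T_48 (nat_lit 112) (nat_lit 111) (nat_lit 1) (nat_lit 12) (nat_lit 6) L117791 (by decide +kernel)
theorem L117793 : W_48 (nat_lit 5) (nat_lit 0x1000d80060003000000000000000000000000) (nat_lit 0x0) (nat_lit 0x20001000000001800c000300008000000000000000) := T_48 (nat_lit 63) (nat_lit 80) (nat_lit 5) (nat_lit 12) (nat_lit 3) L117792 (by decide +kernel)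
theorem L117794 : W_48 (nat_lit 9) (nat_lit 0x1000d80060001000000000000000000000000) (nat_lit 0x0) (nat_lit 0x7000f800700001800e000300008000000000000000) := Q_48 (nat_lit 97) (C_48 L117782 (C_48 L117789 (C_48 L117793 N_48))) (by decide +kernel)
theorem L117795 : W_48 (nat_lit 10) (nat_lit 0x1000580060001000000000000000000000000) (nat_lit 0x0) (nat_lit 0x7000f800780001801e000f8001c000000000000000) := Q_48 (nat_lit 131) (C_48 L117773 (C_48 L117781 (C_48 L117794 N_48))) (by decide +kernel)
theorem L117796 : W_48 (nat_lit 2) (nat_lit 0x1000d80070007000000000000000000000000) (nat_lit 0x0) (nat_lit 0x200010000000000000000200000000000000000000) := D_48 (nat_lit 148) (nat_lit 165) (nat_lit 81) (nat_lit 4) (nat_lit 12) (nat_lit 9) (nat_lit 6) (nat_lit 12) (nat_lit 8) (by decide +kernel)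
theorem L117797 : W_48 (nat_lit 3) (nat_lit 0x1000d80070003000000000000000000000000) (nat_lit 0x0) (nat_lit 0x20001000000000000c000200000000000000000000) := T_48 (nat_lit 98) (nat_lit 99) (nat_lit 1) (nat_lit 14) (nat_lit 5) L117796 (by decide +kernel)
theorem L117798 : W_48 (nat_lit 4) (nat_lit 0x1000d80060003000000000000000000000000) (nat_lit 0x0) (nat_lit 0x20001000000001800c000200000000000000000000) := T_48 (nat_lit 112) (nat_lit 111) (nat_lit 1) (nat_lit 12) (nat_lit 6) L117797 (by decide +kernel)
theorem L117799 : W_48 (nat_lit 6) (nat_lit 0x1000d80060001000000000000000000000000) (nat_lit 0x0) (nat_lit 0x20001800000001800e000300008000000000000000) := Q_48 (nat_lit 97) (C_48 L117793 (C_48 L117782 (C_48 L117798 N_48))) (by decide +kernel)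
theorem L117800 : W_48 (nat_lit 10) (nat_lit 0x1000580060001000000000000000000000000) (nat_lit 0x0) (nat_lit 0x20001800380001801e000f8001c000000000000000) := Q_48 (nat_lit 131) (C_48 L117781 (C_48 L117773 (C_48 L117799 N_48))) (by decide +kernel)
theorem L117801 : W_48 (nat_lit 2) (nat_lit 0x1000580060003000000000000000000000000) (nat_lit 0x0) (nat_lit 0x8000000000000000100008000000000000000) := D_48 (nat_lit 80) (nat_lit 63) (nat_lit 147) (nat_lit 5) (nat_lit 12) (nat_lit 3) (nat_lit 6) (nat_lit 11) (nat_lit 8) (by decide +kernel)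
theorem L117802 : W_48 (nat_lit 2) (nat_lit 0x10000100058016000f000480000000000000000000) (nat_lit 0x0) (nat_lit 0x800000000000000004000200000000000) := D_48 (nat_lit 62) (nat_lit 131) (nat_lit 45) (nat_lit 7) (nat_lit 11) (nat_lit 3) (nat_lit 7) (nat_lit 11) (nat_lit 2) (by decide +kernel)
theorem L117803 : W_48 (nat_lit 3) (nat_lit 0x10000100058016000f000400000000000000000000) (nat_lit 0x0) (nat_lit 0x8000000000000c0004000200000000000) := T_48 (nat_lit 79) (nat_lit 78) (nat_lit 0) (nat_lit 14) (nat_lit 5) L117802 (by decide +kernel)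
theorem L117804 : W_48 (nat_lit 4) (nat_lit 0x10000100058016000f000000000000000000000000) (nat_lit 0x0) (nat_lit 0x800000000000cc0004000200000000000) := T_48 (nat_lit 82) (nat_lit 83) (nat_lit 2) (nat_lit 11) (nat_lit 5) L117803 (by decide +kernel)
theorem L117805 : W_48 (nat_lit 5) (nat_lit 0x10000100058006000f000000000000000000000000) (nat_lit 0x0) (nat_lit 0x800300000000cc0004000200000000000) := T_48 (nat_lit 116) (nat_lit 117) (nat_lit 3) (nat_lit 11) (nat_lit 5) L117804 (by decide +kernel)
theorem L117806 : W_48 (nat_lit 6) (nat_lit 0x100058006000f000000000000000000000000) (nat_lit 0x0) (nat_lit 0x100008000800300000000cc0004000200000000000) := T_48 (nat_lit 164) (nat_lit 147) (nat_lit 6) (nat_lit 11) (nat_lit 9) L117805 (by decide +kernel)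
theorem L117807 : W_48 (nat_lit 7) (nat_lit 0x1000580060007000000000000000000000000) (nat_lit 0x0) (nat_lit 0x100008000800300018000cc0004000200000000000) := T_48 (nat_lit 99) (nat_lit 100) (nat_lit 1) (nat_lit 15) (nat_lit 5) L117806 (by decide +kernel)
theorem L117808 : W_48 (nat_lit 2) (nat_lit 0x1000580060003000080000000000000000000) (nat_lit 0x0) (nat_lit 0x800000000000000004000200000000000) := D_48 (nat_lit 62) (nat_lit 45) (nat_lit 131) (nat_lit 7) (nat_lit 11) (nat_lit 2) (nat_lit 7) (nat_lit 11) (nat_lit 3) (by decide +kernel)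
theorem L117809 : W_48 (nat_lit 2) (nat_lit 0x1000010005800600030000e0000000200000000000) (nat_lit 0x0) (nat_lit 0x18000400000000000000000000000) := D_48 (nat_lit 111) (nat_lit 112) (nat_lit 94) (nat_lit 1) (nat_lit 12) (nat_lit 6) (nat_lit 5) (nat_lit 9) (nat_lit 4) (by decide +kernel)
theorem L117810 : W_48 (nat_lit 3) (nat_lit 0x1000010005800600030000c0000000200000000000) (nat_lit 0x0) (nat_lit 0x18000400030000000000000000000) := T_48 (nat_lit 77) (nat_lit 76) (nat_lit 3) (nat_lit 8) (nat_lit 4) L117809 (by decide +kernel)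
theorem L117811 : W_48 (nat_lit 4) (nat_lit 0x100001000580060003000080000000200000000000) (nat_lit 0x0) (nat_lit 0x18000400070002000000000000000) := T_48 (nat_lit 78) (nat_lit 61) (nat_lit 4) (nat_lit 11) (nat_lit 7) L117810 (by decide +kernel)
theorem L117812 : W_48 (nat_lit 5) (nat_lit 0x100001000580060003000080000000000000000000) (nat_lit 0x0) (nat_lit 0x18000400070006000200000000000) := T_48 (nat_lit 45) (nat_lit 62) (nat_lit 7) (nat_lit 11) (nat_lit 2) L117811 (by decide +kernel)
theorem L117813 : W_48 (nat_lit 6) (nat_lit 0x1000580060003000080000000000000000000) (nat_lit 0x0) (nat_lit 0x100008000000018000400070006000200000000000) := T_48 (nat_lit 164) (nat_lit 147) (nat_lit 6) (nat_lit 11) (nat_lit 9) L117812 (by decide +kernel)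
theorem L117814 : W_48 (nat_lit 2) (nat_lit 0x10005800680030000c0000000000000000000) (nat_lit 0x0) (nat_lit 0x400030000000000000000000) := D_48 (nat_lit 77) (nat_lit 76) (nat_lit 94) (nat_lit 3) (nat_lit 8) (nat_lit 4) (nat_lit 5) (nat_lit 9) (nat_lit 4) (by decide +kernel)
theorem L117815 : W_48 (nat_lit 3) (nat_lit 0x1000580068003000080000000000000000000) (nat_lit 0x0) (nat_lit 0x400070002000000000000000) := T_48 (nat_lit 78) (nat_lit 61) (nat_lit 4) (nat_lit 11) (nat_lit 7) L117814 (by decide +kernel)
theorem L117816 : W_48 (nat_lit 4) (nat_lit 0x1000580060003000080000000000000000000) (nat_lit 0x0) (nat_lit 0x18000400070002000000000000000) := T_48 (nat_lit 111) (nat_lit 112) (nat_lit 1) (nat_lit 12) (nat_lit 6) L117815 (by decide +kernel)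
theorem L117817 : W_48 (nat_lit 7) (nat_lit 0x1000580060003000000000000000000000000) (nat_lit 0x0) (nat_lit 0x1000080008000180004000f0006000200000000000) := Q_48 (nat_lit 79) (C_48 L117808 (C_48 L117813 (C_48 L117816 N_48))) (by decide +kernel)
theorem L117818 : W_48 (nat_lit 5) (nat_lit 0x1000580060003000000000000000000000000) (nat_lit 0x0) (nat_lit 0x8000180004000f0006000200000000000) := Q_48 (nat_lit 79) (C_48 L117816 (C_48 L117808 N_48)) (by decide +kernel)
theorem L117819 : W_48 (nat_lit 8) (nat_lit 0x1000580060001000000000000000000000000) (nat_lit 0x0) (nat_lit 0x1000080008000180024001f000e000200000000000) := Q_48 (nat_lit 97) (C_48 L117801 (C_48 L117817 (C_48 L117818 N_48))) (by decide +kernel)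
theorem L117820 : W_48 (nat_lit 2) (nat_lit 0x1002d800f0001000000000000000000000000) (nat_lit 0x0) (nat_lit 0x4000300000000000000000000000000000) := D_48 (nat_lit 116) (nat_lit 134) (nat_lit 117) (nat_lit 3) (nat_lit 11) (nat_lit 6) (nat_lit 1) (nat_lit 15) (nat_lit 6) (by decide +kernel)
theorem L117821 : W_48 (nat_lit 3) (nat_lit 0x1000d800f0001000000000000000000000000) (nat_lit 0x0) (nat_lit 0x7000300000000000000000000000000000) := T_48 (nat_lit 133) (nat_lit 132) (nat_lit 3) (nat_lit 10) (nat_lit 6) L117820 (by decide +kernel)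
theorem L117822 : W_48 (nat_lit 4) (nat_lit 0x1000d800e0001000000000000000000000000) (nat_lit 0x0) (nat_lit 0x7000318000000000000000000000000000) := T_48 (nat_lit 112) (nat_lit 111) (nat_lit 1) (nat_lit 12) (nat_lit 6) L117821 (by decide +kernel)
theorem L117823 : W_48 (nat_lit 2) (nat_lit 0x1000d801f0001000000000000000000000000) (nat_lit 0x0) (nat_lit 0x1c000000000000000000000000) := D_48 (nat_lit 99) (nat_lit 98) (nat_lit 100) (nat_lit 2) (nat_lit 10) (nat_lit 6) (nat_lit 2) (nat_lit 11) (nat_lit 6) (by decide +kernel)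
theorem L117824 : W_48 (nat_lit 3) (nat_lit 0x1000d800f0001000000000000000000000000) (nat_lit 0x0) (nat_lit 0x30001c000000000000000000000000) := T_48 (nat_lit 116) (nat_lit 117) (nat_lit 1) (nat_lit 15) (nat_lit 6) L117823 (by decide +kernel)
theorem L117825 : W_48 (nat_lit 4) (nat_lit 0x1000d800e0001000000000000000000000000) (nat_lit 0x0) (nat_lit 0x31801c000000000000000000000000) := T_48 (nat_lit 112) (nat_lit 111) (nat_lit 1) (nat_lit 12) (nat_lit 6) L117824 (by decide +kernel)
theorem L117826 : W_48 (nat_lit 2) (nat_lit 0x1000580070001000080004000000000000000) (nat_lit 0x0) (nat_lit 0x100008000400000000000) := D_48 (nat_lit 63) (nat_lit 46) (nat_lit 80) (nat_lit 6) (nat_lit 11) (nat_lit 6) (nat_lit 6) (nat_lit 11) (nat_lit 7) (by decide +kernel)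
theorem L117827 : W_48 (nat_lit 3) (nat_lit 0x1000580070001000080000000000000000000) (nat_lit 0x0) (nat_lit 0x80000000000010000c000400000000000) := T_48 (nat_lit 62) (nat_lit 131) (nat_lit 7) (nat_lit 11) (nat_lit 3) L117826 (by decide +kernel)
theorem L117828 : W_48 (nat_lit 4) (nat_lit 0x1000580060001000080000000000000000000) (nat_lit 0x0) (nat_lit 0x80001800000010000c000400000000000) := T_48 (nat_lit 112) (nat_lit 111) (nat_lit 1) (nat_lit 12) (nat_lit 6) L117827 (by decide +kernel)
theorem L117829 : W_48 (nat_lit 2) (nat_lit 0x1000580060001000080000000000000000000) (nat_lit 0x0) (nat_lit 0x10000800000000000000004000000000000000) := D_48 (nat_lit 131) (nat_lit 62) (nat_lit 148) (nat_lit 7) (nat_lit 11) (nat_lit 3) (nat_lit 7) (nat_lit 11) (nat_lit 4) (by decide +kernel)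
theorem L117830 : W_48 (nat_lit 2) (nat_lit 0x100058007000100008000c000000000000000) (nat_lit 0x0) (nat_lit 0x40002000100000000000) := D_48 (nat_lit 61) (nat_lit 44) (nat_lit 78) (nat_lit 4) (nat_lit 11) (nat_lit 6) (nat_lit 4) (nat_lit 11) (nat_lit 7) (by decide +kernel)
theorem L117831 : W_48 (nat_lit 3) (nat_lit 0x1000580070001000080008000000000000000) (nat_lit 0x0) (nat_lit 0x40006000500000000000) := T_48 (nat_lit 62) (nat_lit 46) (nat_lit 6) (nat_lit 11) (nat_lit 6) L117830 (by decide +kernel)
theorem L117832 : W_48 (nat_lit 4) (nat_lit 0x1000580060001000080008000000000000000) (nat_lit 0x0) (nat_lit 0x18000000040006000500000000000) := T_48 (nat_lit 112) (nat_lit 111) (nat_lit 1) (nat_lit 12) (nat_lit 6) L117831 (by decide +kernel)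
theorem L117833 : W_48 (nat_lit 5) (nat_lit 0x1000580060001000080000000000000000000) (nat_lit 0x0) (nat_lit 0x1800000014000e000500000000000) := T_48 (nat_lit 63) (nat_lit 80) (nat_lit 6) (nat_lit 11) (nat_lit 7) L117832 (by decide +kernel)
theorem L117834 : W_48 (nat_lit 2) (nat_lit 0x1800190005800680010001c0000000000000000000) (nat_lit 0x0) (nat_lit 0x400060000000000000000000000000000000000000000) := D_48 (nat_lit 161) (nat_lit 162) (nat_lit 178) (nat_lit 2) (nat_lit 8) (nat_lit 9) (nat_lit 6) (nat_lit 8) (nat_lit 10) (by decide +kernel)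
theorem L117835 : W_48 (nat_lit 3) (nat_lit 0x800190005800680010001c0000000000000000000) (nat_lit 0x0) (nat_lit 0x1400160000000000000000000000000000000000000000) := T_48 (nat_lit 164) (nat_lit 180) (nat_lit 5) (nat_lit 11) (nat_lit 6) L117834 (by decide +kernel)
theorem L117836 : W_48 (nat_lit 4) (nat_lit 0x800190005800600010001c0000000000000000000) (nat_lit 0x0) (nat_lit 0x1400160000000000018000000000000000000000000000) := T_48 (nat_lit 111) (nat_lit 112) (nat_lit 1) (nat_lit 12) (nat_lit 6) L117835 (by decide +kernel)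
theorem L117837 : W_48 (nat_lit 5) (nat_lit 0x190005800600010001c0000000000000000000) (nat_lit 0x0) (nat_lit 0x14001e0004000000018000000000000000000000000000) := T_48 (nat_lit 163) (nat_lit 146) (nat_lit 5) (nat_lit 11) (nat_lit 5) L117836 (by decide +kernel)
theorem L117838 : W_48 (nat_lit 6) (nat_lit 0x110005800600010001c0000000000000000000) (nat_lit 0x0) (nat_lit 0x14003e000c000000018000000000000000000000000000) := T_48 (nat_lit 147) (nat_lit 165) (nat_lit 7) (nat_lit 11) (nat_lit 5) L117837 (by decide +kernel)
theorem L117839 : W_48 (nat_lit 7) (nat_lit 0x110005800600010000c0000000000000000000) (nat_lit 0x0) (nat_lit 0x14003e000c000000018000000100008000000000000000) := T_48 (nat_lit 80) (nat_lit 63) (nat_lit 6) (nat_lit 11) (nat_lit 7) L117838 (by decide +kernel)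
theorem L117840 : W_48 (nat_lit 8) (nat_lit 0x10005800600010000c0000000000000000000) (nat_lit 0x0) (nat_lit 0x14003e001c000800018000000100008000000000000000) := T_48 (nat_lit 148) (nat_lit 131) (nat_lit 7) (nat_lit 11) (nat_lit 4) L117839 (by decide +kernel)
theorem L117841 : W_48 (nat_lit 9) (nat_lit 0x1000580060001000080000000000000000000) (nat_lit 0x0) (nat_lit 0x14003e001c00080001800000014000a000000000000000) := T_48 (nat_lit 78) (nat_lit 61) (nat_lit 4) (nat_lit 11) (nat_lit 7) L117840 (by decide +kernel)
theorem L117842 : W_48 (nat_lit 10) (nat_lit 0x1000580060001000000000000000000000000) (nat_lit 0x0) (nat_lit 0x14003e001c0008000180000001c000e000500000000000) := Q_48 (nat_lit 79) (C_48 L117828 (C_48 L117829 (C_48 L117833 (C_48 L117841 N_48)))) (by decide +kernel)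
theorem L117843 : W_48 (nat_lit 2) (nat_lit 0x3d002d80070007000000000000000000000000) (nat_lit 0x0) (nat_lit 0xc0004000000000000000000000000000000000) := D_48 (nat_lit 150) (nat_lit 134) (nat_lit 151) (nat_lit 2) (nat_lit 11) (nat_lit 8) (nat_lit 0) (nat_lit 15) (nat_lit 8) (by decide +kernel)
theorem L117844 : W_48 (nat_lit 3) (nat_lit 0x1d002d80070007000000000000000000000000) (nat_lit 0x0) (nat_lit 0x4000e0004000000000000000000000000000000000) := T_48 (nat_lit 149) (nat_lit 166) (nat_lit 7) (nat_lit 12) (nat_lit 5) L117843 (by decide +kernel)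
theorem L117845 : W_48 (nat_lit 4) (nat_lit 0x1d000d80070007000000000000000000000000) (nat_lit 0x0) (nat_lit 0x4000e0007000000000000000000000000000000000) := T_48 (nat_lit 133) (nat_lit 132) (nat_lit 1) (nat_lit 14) (nat_lit 7) L117844 (by decide +kernel)
theorem L117846 : W_48 (nat_lit 5) (nat_lit 0x1d000580070007000000000000000000000000) (nat_lit 0x0) (nat_lit 0x4000e0007800000000000200000000000000000000) := T_48 (nat_lit 131) (nat_lit 81) (nat_lit 6) (nat_lit 12) (nat_lit 8) L117845 (by decide +kernel)
theorem L117847 : W_48 (nat_lit 6) (nat_lit 0x19000580070007000000000000000000000000) (nat_lit 0x0) (nat_lit 0x4800e4007800000000000200000000000000000000) := T_48 (nat_lit 146) (nat_lit 163) (nat_lit 5) (nat_lit 11) (nat_lit 5) L117846 (by decide +kernel)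
theorem L117848 : W_48 (nat_lit 7) (nat_lit 0x19000580070003000000000000000000000000) (nat_lit 0x0) (nat_lit 0x4800e400780000000c000200000000000000000000) := T_48 (nat_lit 98) (nat_lit 99) (nat_lit 1) (nat_lit 14) (nat_lit 5) L117847 (by decide +kernel)
theorem L117849 : W_48 (nat_lit 8) (nat_lit 0x19000580070001000000000000000000000000) (nat_lit 0x0) (nat_lit 0x4800e400780000000e000300000000000000000000) := T_48 (nat_lit 97) (nat_lit 80) (nat_lit 6) (nat_lit 11) (nat_lit 8) L117848 (by decide +kernel)
theorem L117850 : W_48 (nat_lit 9) (nat_lit 0x9000580070001000000000000000000000000) (nat_lit 0x0) (nat_lit 0x6800f400780000000e000300000000000000000000) := T_48 (nat_lit 148) (nat_lit 165) (nat_lit 7) (nat_lit 11) (nat_lit 5) L117849 (by decide +kernel)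
theorem L117851 : W_48 (nat_lit 10) (nat_lit 0x9000580060001000000000000000000000000) (nat_lit 0x0) (nat_lit 0x6800f400780001800e000300000000000000000000) := T_48 (nat_lit 112) (nat_lit 111) (nat_lit 1) (nat_lit 12) (nat_lit 6) L117850 (by decide +kernel)
theorem L117852 : W_48 (nat_lit 2) (nat_lit 0x300030000d000580068001000000000000000000000000) (nat_lit 0x0) (nat_lit 0xc00020000000000000000000000000000000000000000) := D_48 (nat_lit 178) (nat_lit 179) (nat_lit 161) (nat_lit 2) (nat_lit 8) (nat_lit 10) (nat_lit 6) (nat_lit 8) (nat_lit 10) (by decide +kernel)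
theorem L117853 : W_48 (nat_lit 3) (nat_lit 0x200030000d000580068001000000000000000000000000) (nat_lit 0x0) (nat_lit 0x20001c00020000000000000000000000000000000000000000) := T_48 (nat_lit 180) (nat_lit 197) (nat_lit 5) (nat_lit 11) (nat_lit 7) L117852 (by decide +kernel)
theorem L117854 : W_48 (nat_lit 4) (nat_lit 0x30000d000580068001000000000000000000000000) (nat_lit 0x0) (nat_lit 0x20003c00020000000800000000000000000000000000000000) := T_48 (nat_lit 181) (nat_lit 131) (nat_lit 6) (nat_lit 11) (nat_lit 10) L117853 (by decide +kernel)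
theorem L117855 : W_48 (nat_lit 5) (nat_lit 0x20000d000580068001000000000000000000000000) (nat_lit 0x0) (nat_lit 0x20007c00120000000800000000000000000000000000000000) := T_48 (nat_lit 164) (nat_lit 182) (nat_lit 7) (nat_lit 11) (nat_lit 6) L117854 (by decide +kernel)
theorem L117856 : W_48 (nat_lit 6) (nat_lit 0x20000d000580060001000000000000000000000000) (nat_lit 0x0) (nat_lit 0x20007c00120000000800018000000000000000000000000000) := T_48 (nat_lit 111) (nat_lit 112) (nat_lit 1) (nat_lit 12) (nat_lit 6) L117855 (by decide +kernel)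
theorem L117857 : W_48 (nat_lit 7) (nat_lit 0xd000580060001000000000000000000000000) (nat_lit 0x0) (nat_lit 0x20007c00320010000800018000000000000000000000000000) := T_48 (nat_lit 165) (nat_lit 148) (nat_lit 7) (nat_lit 11) (nat_lit 5) L117856 (by decide +kernel)
theorem L117858 : W_48 (nat_lit 8) (nat_lit 0x9000580060001000000000000000000000000) (nat_lit 0x0) (nat_lit 0x20007c003a0014000800018000000000000000000000000000) := T_48 (nat_lit 146) (nat_lit 163) (nat_lit 5) (nat_lit 11) (nat_lit 5) L117857 (by decide +kernel)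
theorem L117859 : W_48 (nat_lit 11) (nat_lit 0x1000580060001000000000000000000000000) (nat_lit 0x0) (nat_lit 0x20007c007a00fc00780001800e000300000000000000000000) := Q_48 (nat_lit 147) (C_48 L117748 (C_48 L117761 (C_48 L117851 (C_48 L117858 N_48)))) (by decide +kernel)
theorem L117860 : W_48 (nat_lit 2) (nat_lit 0x1000580070001000080004000000000000000) (nat_lit 0x0) (nat_lit 0x40002000100000000000) := D_48 (nat_lit 61) (nat_lit 78) (nat_lit 44) (nat_lit 4) (nat_lit 11) (nat_lit 7) (nat_lit 4) (nat_lit 11) (nat_lit 6) (by decide +kernel)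
theorem L117861 : W_48 (nat_lit 3) (nat_lit 0x1000580070001000080000000000000000000) (nat_lit 0x0) (nat_lit 0x800000000000040006000100000000000) := T_48 (nat_lit 62) (nat_lit 131) (nat_lit 7) (nat_lit 11) (nat_lit 3) L117860 (by decide +kernel)
theorem L117862 : W_48 (nat_lit 4) (nat_lit 0x1000580060001000080000000000000000000) (nat_lit 0x0) (nat_lit 0x800018000000040006000100000000000) := T_48 (nat_lit 112) (nat_lit 111) (nat_lit 1) (nat_lit 12) (nat_lit 6) L117861 (by decide +kernel)
theorem L117863 : W_48 (nat_lit 2) (nat_lit 0x10005800680011000f0004400000000000000) (nat_lit 0x0) (nat_lit 0x80008000200000000000000) := D_48 (nat_lit 75) (nat_lit 91) (nat_lit 57) (nat_lit 1) (nat_lit 10) (nat_lit 4) (nat_lit 0) (nat_lit 10) (nat_lit 4) (by decide +kernel)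
theorem L117864 : W_48 (nat_lit 3) (nat_lit 0x10005800680011000f0004000000000000000) (nat_lit 0x0) (nat_lit 0x80008000e00000000000000) := T_48 (nat_lit 58) (nat_lit 59) (nat_lit 0) (nat_lit 11) (nat_lit 4) L117863 (by decide +kernel)
theorem L117865 : W_48 (nat_lit 4) (nat_lit 0x10005800680010000f0004000000000000000) (nat_lit 0x0) (nat_lit 0x380008000e00000000000000) := T_48 (nat_lit 92) (nat_lit 93) (nat_lit 1) (nat_lit 11) (nat_lit 4) L117864 (by decide +kernel)
theorem L117866 : W_48 (nat_lit 5) (nat_lit 0x10005800680010000f0000000000000000000) (nat_lit 0x0) (nat_lit 0x38000800ce00000000000000) := T_48 (nat_lit 62) (nat_lit 63) (nat_lit 2) (nat_lit 8) (nat_lit 4) L117865 (by decide +kernel)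
theorem L117867 : W_48 (nat_lit 6) (nat_lit 0x10005800680010000e0000000000000000000) (nat_lit 0x0) (nat_lit 0x238001800ce00000000000000) := T_48 (nat_lit 76) (nat_lit 97) (nat_lit 3) (nat_lit 8) (nat_lit 4) L117866 (by decide +kernel)
theorem L117868 : W_48 (nat_lit 7) (nat_lit 0x10005800680010000c0000000000000000000) (nat_lit 0x0) (nat_lit 0x278003800ce00000000000000) := T_48 (nat_lit 77) (nat_lit 94) (nat_lit 5) (nat_lit 9) (nat_lit 4) L117867 (by decide +kernel)
theorem L117869 : W_48 (nat_lit 8) (nat_lit 0x10005800600010000c0000000000000000000) (nat_lit 0x0) (nat_lit 0x1800278003800ce00000000000000) := T_48 (nat_lit 111) (nat_lit 112) (nat_lit 1) (nat_lit 12) (nat_lit 6) L117868 (by decide +kernel)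
theorem L117870 : W_48 (nat_lit 9) (nat_lit 0x1000580060001000080000000000000000000) (nat_lit 0x0) (nat_lit 0x1800278007800ee00000000000000) := T_48 (nat_lit 78) (nat_lit 61) (nat_lit 4) (nat_lit 11) (nat_lit 7) L117869 (by decide +kernel)
theorem L117871 : W_48 (nat_lit 2) (nat_lit 0x1000190005800700010000c0000000000000000000) (nat_lit 0x0) (nat_lit 0x1000080004000000000000000000000000000000000000) := D_48 (nat_lit 163) (nat_lit 180) (nat_lit 146) (nat_lit 5) (nat_lit 11) (nat_lit 6) (nat_lit 5) (nat_lit 11) (nat_lit 5) (by decide +kernel)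
theorem L117872 : W_48 (nat_lit 3) (nat_lit 0x190005800700010000c0000000000000000000) (nat_lit 0x0) (nat_lit 0x1000180004000000000002000000000000000000000000) := T_48 (nat_lit 164) (nat_lit 97) (nat_lit 6) (nat_lit 11) (nat_lit 9) L117871 (by decide +kernel)
theorem L117873 : W_48 (nat_lit 4) (nat_lit 0x110005800700010000c0000000000000000000) (nat_lit 0x0) (nat_lit 0x100038000c000000000002000000000000000000000000) := T_48 (nat_lit 147) (nat_lit 165) (nat_lit 7) (nat_lit 11) (nat_lit 5) L117872 (by decide +kernel)
theorem L117874 : W_48 (nat_lit 5) (nat_lit 0x11000580070001000080000000000000000000) (nat_lit 0x0) (nat_lit 0x100038000c000000000002000040002000000000000000) := T_48 (nat_lit 78) (nat_lit 61) (nat_lit 4) (nat_lit 11) (nat_lit 7) L117873 (by decide +kernel)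
theorem L117875 : W_48 (nat_lit 6) (nat_lit 0x1000580070001000080000000000000000000) (nat_lit 0x0) (nat_lit 0x100038001c000800000002000040002000000000000000) := T_48 (nat_lit 148) (nat_lit 131) (nat_lit 7) (nat_lit 11) (nat_lit 4) L117874 (by decide +kernel)
theorem L117876 : W_48 (nat_lit 7) (nat_lit 0x1000580060001000080000000000000000000) (nat_lit 0x0) (nat_lit 0x100038001c000800018002000040002000000000000000) := T_48 (nat_lit 112) (nat_lit 111) (nat_lit 1) (nat_lit 12) (nat_lit 6) L117875 (by decide +kernel)
theorem L117877 : W_48 (nat_lit 10) (nat_lit 0x1000580060001000000000000000000000000) (nat_lit 0x0) (nat_lit 0x100038001c0008000180027800f800ee00100000000000) := Q_48 (nat_lit 79) (C_48 L117862 (C_48 L117829 (C_48 L117870 (C_48 L117876 N_48)))) (by decide +kernel)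
theorem L117878 : W_48 (nat_lit 2) (nat_lit 0x9000580060001000080000000000000000000) (nat_lit 0x0) (nat_lit 0x2000100008000000000000000) := D_48 (nat_lit 80) (nat_lit 97) (nat_lit 63) (nat_lit 6) (nat_lit 11) (nat_lit 8) (nat_lit 6) (nat_lit 11) (nat_lit 7) (by decide +kernel)
theorem L117879 : W_48 (nat_lit 4) (nat_lit 0xd000580060001000080008000000000000000) (nat_lit 0x0) (nat_lit 0x200010000000000000000040006000500000000000) := T_48 (nat_lit 148) (nat_lit 165) (nat_lit 7) (nat_lit 11) (nat_lit 5) L117767 (by decide +kernel)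
theorem L117880 : W_48 (nat_lit 5) (nat_lit 0xd000580060001000080000000000000000000) (nat_lit 0x0) (nat_lit 0x20001000000000000000014000e000500000000000) := T_48 (nat_lit 63) (nat_lit 80) (nat_lit 6) (nat_lit 11) (nat_lit 7) L117879 (by decide +kernel)
theorem L117881 : W_48 (nat_lit 6) (nat_lit 0x9000580060001000080000000000000000000) (nat_lit 0x0) (nat_lit 0x28001400000000000000014000e000500000000000) := T_48 (nat_lit 146) (nat_lit 163) (nat_lit 5) (nat_lit 11) (nat_lit 5) L117880 (by decide +kernel)
theorem L117882 : W_48 (nat_lit 2) (nat_lit 0x1d0005800680011000f0004400000000000000) (nat_lit 0x0) (nat_lit 0x80008000200000000000000) := D_48 (nat_lit 75) (nat_lit 91) (nat_lit 57) (nat_lit 1) (nat_lit 10) (nat_lit 4) (nat_lit 0) (nat_lit 10) (nat_lit 4) (by decide +kernel)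
theorem L117883 : W_48 (nat_lit 3) (nat_lit 0x1d0005800680011000f0004000000000000000) (nat_lit 0x0) (nat_lit 0x80008000e00000000000000) := T_48 (nat_lit 58) (nat_lit 59) (nat_lit 0) (nat_lit 11) (nat_lit 4) L117882 (by decide +kernel)
theorem L117884 : W_48 (nat_lit 4) (nat_lit 0x1d0005800680010000f0004000000000000000) (nat_lit 0x0) (nat_lit 0x380008000e00000000000000) := T_48 (nat_lit 92) (nat_lit 93) (nat_lit 1) (nat_lit 11) (nat_lit 4) L117883 (by decide +kernel)
theorem L117885 : W_48 (nat_lit 5) (nat_lit 0x1d0005800680010000f0000000000000000000) (nat_lit 0x0) (nat_lit 0x38000800ce00000000000000) := T_48 (nat_lit 62) (nat_lit 63) (nat_lit 2) (nat_lit 8) (nat_lit 4) L117884 (by decide +kernel)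
theorem L117886 : W_48 (nat_lit 6) (nat_lit 0x1d0005800680010000e0000000000000000000) (nat_lit 0x0) (nat_lit 0x238001800ce00000000000000) := T_48 (nat_lit 76) (nat_lit 97) (nat_lit 3) (nat_lit 8) (nat_lit 4) L117885 (by decide +kernel)
theorem L117887 : W_48 (nat_lit 7) (nat_lit 0x1d0005800680010000c0000000000000000000) (nat_lit 0x0) (nat_lit 0x278003800ce00000000000000) := T_48 (nat_lit 77) (nat_lit 94) (nat_lit 5) (nat_lit 9) (nat_lit 4) L117886 (by decide +kernel)
theorem L117888 : W_48 (nat_lit 8) (nat_lit 0x1d0005800600010000c0000000000000000000) (nat_lit 0x0) (nat_lit 0x1800278003800ce00000000000000) := T_48 (nat_lit 111) (nat_lit 112) (nat_lit 1) (nat_lit 12) (nat_lit 6) L117887 (by decide +kernel)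
theorem L117889 : W_48 (nat_lit 9) (nat_lit 0x1d000580060001000080000000000000000000) (nat_lit 0x0) (nat_lit 0x1800278007800ee00000000000000) := T_48 (nat_lit 78) (nat_lit 61) (nat_lit 4) (nat_lit 11) (nat_lit 7) L117888 (by decide +kernel)
theorem L117890 : W_48 (nat_lit 10) (nat_lit 0x19000580060001000080000000000000000000) (nat_lit 0x0) (nat_lit 0x8000400000001800278007800ee00000000000000) := T_48 (nat_lit 146) (nat_lit 163) (nat_lit 5) (nat_lit 11) (nat_lit 5) L117889 (by decide +kernel)
theorem L117891 : W_48 (nat_lit 11) (nat_lit 0x9000580060001000080000000000000000000) (nat_lit 0x0) (nat_lit 0x28001400000001800278007800ee00000000000000) := T_48 (nat_lit 148) (nat_lit 165) (nat_lit 7) (nat_lit 11) (nat_lit 5) L117890 (by decide +kernel)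
theorem L117892 : W_48 (nat_lit 2) (nat_lit 0x900058007000b000080004000000000000000) (nat_lit 0x0) (nat_lit 0x40002000100000000000) := D_48 (nat_lit 61) (nat_lit 78) (nat_lit 44) (nat_lit 4) (nat_lit 11) (nat_lit 7) (nat_lit 4) (nat_lit 11) (nat_lit 6) (by decide +kernel)
theorem L117893 : W_48 (nat_lit 3) (nat_lit 0x900058007000b000080000000000000000000) (nat_lit 0x0) (nat_lit 0x40006000300000000000) := T_48 (nat_lit 62) (nat_lit 45) (nat_lit 7) (nat_lit 11) (nat_lit 2) L117892 (by decide +kernel)
theorem L117894 : W_48 (nat_lit 4) (nat_lit 0x9000580070003000080000000000000000000) (nat_lit 0x0) (nat_lit 0xc000040006000300000000000) := T_48 (nat_lit 99) (nat_lit 98) (nat_lit 1) (nat_lit 14) (nat_lit 5) L117893 (by decide +kernel)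
theorem L117895 : W_48 (nat_lit 5) (nat_lit 0x9000580070001000080000000000000000000) (nat_lit 0x0) (nat_lit 0xe000140006000300000000000) := T_48 (nat_lit 97) (nat_lit 80) (nat_lit 6) (nat_lit 11) (nat_lit 8) L117894 (by decide +kernel)
theorem L117896 : W_48 (nat_lit 6) (nat_lit 0x9000580060001000080000000000000000000) (nat_lit 0x0) (nat_lit 0x1800e000140006000300000000000) := T_48 (nat_lit 112) (nat_lit 111) (nat_lit 1) (nat_lit 12) (nat_lit 6) L117895 (by decide +kernel)
theorem L117897 : W_48 (nat_lit 12) (nat_lit 0x9000580060001000000000000000000000000) (nat_lit 0x0) (nat_lit 0x28001400000001800e7801f800ee00700000000000) := Q_48 (nat_lit 79) (C_48 L117878 (C_48 L117881 (C_48 L117891 (C_48 L117896 N_48)))) (by decide +kernel)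
theorem L117898 : W_48 (nat_lit 2) (nat_lit 0x180019000580068001000000000000000000000000) (nat_lit 0x0) (nat_lit 0x400060000000000000000000000000000000000000000) := D_48 (nat_lit 161) (nat_lit 162) (nat_lit 178) (nat_lit 2) (nat_lit 8) (nat_lit 9) (nat_lit 6) (nat_lit 8) (nat_lit 10) (by decide +kernel)
theorem L117899 : W_48 (nat_lit 3) (nat_lit 0x80019000580068001000000000000000000000000) (nat_lit 0x0) (nat_lit 0x1400160000000000000000000000000000000000000000) := T_48 (nat_lit 164) (nat_lit 180) (nat_lit 5) (nat_lit 11) (nat_lit 6) L117898 (by decide +kernel)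
theorem L117900 : W_48 (nat_lit 4) (nat_lit 0x80019000580060001000000000000000000000000) (nat_lit 0x0) (nat_lit 0x1400160000000000018000000000000000000000000000) := T_48 (nat_lit 111) (nat_lit 112) (nat_lit 1) (nat_lit 12) (nat_lit 6) L117899 (by decide +kernel)
theorem L117901 : W_48 (nat_lit 5) (nat_lit 0x19000580060001000000000000000000000000) (nat_lit 0x0) (nat_lit 0x14001e0004000000018000000000000000000000000000) := T_48 (nat_lit 163) (nat_lit 146) (nat_lit 5) (nat_lit 11) (nat_lit 5) L117900 (by decide +kernel)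
theorem L117902 : W_48 (nat_lit 6) (nat_lit 0x9000580060001000000000000000000000000) (nat_lit 0x0) (nat_lit 0x14003e0014000000018000000000000000000000000000) := T_48 (nat_lit 148) (nat_lit 165) (nat_lit 7) (nat_lit 11) (nat_lit 5) L117901 (by decide +kernel)
theorem L117903 : W_48 (nat_lit 13) (nat_lit 0x1000580060001000000000000000000000000) (nat_lit 0x0) (nat_lit 0x54003e001c00000001800e7801f800ee00700000000000) := Q_48 (nat_lit 147) (C_48 L117748 (C_48 L117761 (C_48 L117897 (C_48 L117902 N_48)))) (by decide +kernel)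
theorem L117904 : W_48 (nat_lit 2) (nat_lit 0x1001d80070007000b80000000000000000000) (nat_lit 0x0) (nat_lit 0x60002000000000000000) := D_48 (nat_lit 78) (nat_lit 61) (nat_lit 77) (nat_lit 4) (nat_lit 11) (nat_lit 7) (nat_lit 3) (nat_lit 9) (nat_lit 4) (by decide +kernel)
theorem L117905 : W_48 (nat_lit 3) (nat_lit 0x1001d80070003000b80000000000000000000) (nat_lit 0x0) (nat_lit 0xc000060002000000000000000) := T_48 (nat_lit 98) (nat_lit 99) (nat_lit 1) (nat_lit 14) (nat_lit 5) L117904 (by decide +kernel)
theorem L117906 : W_48 (nat_lit 4) (nat_lit 0x1001d80070003000380000000000000000000) (nat_lit 0x0) (nat_lit 0xc000c60002000000000000000) := T_48 (nat_lit 83) (nat_lit 82) (nat_lit 1) (nat_lit 15) (nat_lit 4) L117905 (by decide +kernel)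
theorem L117907 : W_48 (nat_lit 5) (nat_lit 0x1001d80070003000180000000000000000000) (nat_lit 0x0) (nat_lit 0xc000e60012000000000000000) := T_48 (nat_lit 81) (nat_lit 64) (nat_lit 6) (nat_lit 12) (nat_lit 7) L117906 (by decide +kernel)
theorem L117908 : W_48 (nat_lit 6) (nat_lit 0x1001d80070001000180000000000000000000) (nat_lit 0x0) (nat_lit 0x2000000000000e000e60012000000000000000) := T_48 (nat_lit 97) (nat_lit 149) (nat_lit 7) (nat_lit 12) (nat_lit 4) L117907 (by decide +kernel)
theorem L117909 : W_48 (nat_lit 7) (nat_lit 0x1001d80070001000080000000000000000000) (nat_lit 0x0) (nat_lit 0x2000000000000e000f6001a000000000000000) := T_48 (nat_lit 80) (nat_lit 63) (nat_lit 6) (nat_lit 11) (nat_lit 7) L117908 (by decide +kernel)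
theorem L117910 : W_48 (nat_lit 8) (nat_lit 0x1001d80070001000000000000000000000000) (nat_lit 0x0) (nat_lit 0x2000000000000e000fe001e000000000000000) := T_48 (nat_lit 79) (nat_lit 62) (nat_lit 7) (nat_lit 11) (nat_lit 3) L117909 (by decide +kernel)
theorem L117911 : W_48 (nat_lit 9) (nat_lit 0x1000d80070001000000000000000000000000) (nat_lit 0x0) (nat_lit 0x2000300000000e000fe001e000000000000000) := T_48 (nat_lit 132) (nat_lit 133) (nat_lit 0) (nat_lit 14) (nat_lit 7) L117910 (by decide +kernel)
theorem L117912 : W_48 (nat_lit 10) (nat_lit 0x1000d80060001000000000000000000000000) (nat_lit 0x0) (nat_lit 0x2000300001800e000fe001e000000000000000) := T_48 (nat_lit 112) (nat_lit 111) (nat_lit 1) (nat_lit 12) (nat_lit 6) L117911 (by decide +kernel)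
theorem L117913 : W_48 (nat_lit 2) (nat_lit 0xb1000d80060007000000008000000000000000) (nat_lit 0x0) (nat_lit 0x10018000000000000000000000000) := D_48 (nat_lit 99) (nat_lit 100) (nat_lit 112) (nat_lit 1) (nat_lit 15) (nat_lit 5) (nat_lit 1) (nat_lit 14) (nat_lit 5) (by decide +kernel)
theorem L117914 : W_48 (nat_lit 3) (nat_lit 0xb1000d80060003000000008000000000000000) (nat_lit 0x0) (nat_lit 0x1001c000200000000000000000000) := T_48 (nat_lit 98) (nat_lit 81) (nat_lit 6) (nat_lit 12) (nat_lit 8) L117913 (by decide +kernel)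
theorem L117915 : W_48 (nat_lit 4) (nat_lit 0x31000d80060003000000008000000000000000) (nat_lit 0x0) (nat_lit 0xc000000001001c000200000000000000000000) := T_48 (nat_lit 151) (nat_lit 150) (nat_lit 0) (nat_lit 15) (nat_lit 8) L117914 (by decide +kernel)
theorem L117916 : W_48 (nat_lit 5) (nat_lit 0x11000d80060003000000008000000000000000) (nat_lit 0x0) (nat_lit 0x4000e000000001001c000200000000000000000000) := T_48 (nat_lit 149) (nat_lit 166) (nat_lit 7) (nat_lit 12) (nat_lit 5) L117915 (by decide +kernel)
theorem L117917 : W_48 (nat_lit 6) (nat_lit 0x1000d80060003000000008000000000000000) (nat_lit 0x0) (nat_lit 0x6000f000000001001c000200000000000000000000) := T_48 (nat_lit 148) (nat_lit 165) (nat_lit 4) (nat_lit 12) (nat_lit 9) L117916 (by decide +kernel)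
theorem L117918 : W_48 (nat_lit 7) (nat_lit 0x1000d80060003000000000000000000000000) (nat_lit 0x0) (nat_lit 0x6000f000000001001c000300008000000000000000) := T_48 (nat_lit 63) (nat_lit 80) (nat_lit 5) (nat_lit 12) (nat_lit 3) L117917 (by decide +kernel)
theorem L117919 : W_48 (nat_lit 2) (nat_lit 0x200041003d80160003000b00000000000000000000) (nat_lit 0x0) (nat_lit 0x1c000000000000000000000000) := D_48 (nat_lit 99) (nat_lit 98) (nat_lit 100) (nat_lit 4) (nat_lit 14) (nat_lit 8) (nat_lit 6) (nat_lit 14) (nat_lit 8) (by decide +kernel)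
theorem L117920 : W_48 (nat_lit 3) (nat_lit 0x200041003d80060003000b00000000000000000000) (nat_lit 0x0) (nat_lit 0x30001c000000000000000000000000) := T_48 (nat_lit 116) (nat_lit 117) (nat_lit 2) (nat_lit 11) (nat_lit 7) L117919 (by decide +kernel)
theorem L117921 : W_48 (nat_lit 4) (nat_lit 0x200001003d80060003000b00000000000000000000) (nat_lit 0x0) (nat_lit 0xc000000030001c000000000000000000000000) := T_48 (nat_lit 150) (nat_lit 151) (nat_lit 3) (nat_lit 11) (nat_lit 7) L117920 (by decide +kernel)
theorem L117922 : W_48 (nat_lit 5) (nat_lit 0x200001003d80060003000300000000000000000000) (nat_lit 0x0) (nat_lit 0xc000000030001c000c00000000000000000000) := T_48 (nat_lit 83) (nat_lit 82) (nat_lit 1) (nat_lit 15) (nat_lit 4) L117921 (by decide +kernel)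
theorem L117923 : W_48 (nat_lit 6) (nat_lit 0x200001003d80060003000100000000000000000000) (nat_lit 0x0) (nat_lit 0xc000000030001c000e00010000000000000000) := T_48 (nat_lit 81) (nat_lit 64) (nat_lit 6) (nat_lit 12) (nat_lit 7) L117922 (by decide +kernel)
theorem L117924 : W_48 (nat_lit 7) (nat_lit 0x200001001d80060003000100000000000000000000) (nat_lit 0x0) (nat_lit 0xc000600030001c000e00010000000000000000) := T_48 (nat_lit 133) (nat_lit 134) (nat_lit 0) (nat_lit 15) (nat_lit 7) L117923 (by decide +kernel)
theorem L117925 : W_48 (nat_lit 8) (nat_lit 0x200001000d80060003000100000000000000000000) (nat_lit 0x0) (nat_lit 0xe000700030001c000e00010000000000000000) := T_48 (nat_lit 132) (nat_lit 149) (nat_lit 7) (nat_lit 12) (nat_lit 4) L117924 (by decide +kernel)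
theorem L117926 : W_48 (nat_lit 9) (nat_lit 0x200001000d80060003000000000000000000000000) (nat_lit 0x0) (nat_lit 0xe000700030001c000f00018000000000000000) := T_48 (nat_lit 80) (nat_lit 63) (nat_lit 5) (nat_lit 12) (nat_lit 3) L117925 (by decide +kernel)
theorem L117927 : W_48 (nat_lit 10) (nat_lit 0x1000d80060003000000000000000000000000) (nat_lit 0x0) (nat_lit 0x2000f000700030001c000f00018000000000000000) := T_48 (nat_lit 165) (nat_lit 148) (nat_lit 4) (nat_lit 12) (nat_lit 9) L117926 (by decide +kernel)
theorem L117928 : W_48 (nat_lit 2) (nat_lit 0x1000d80070003000100000000000000000000) (nat_lit 0x0) (nat_lit 0x20003000000000000000000000000000000000) := D_48 (nat_lit 132) (nat_lit 149) (nat_lit 133) (nat_lit 7) (nat_lit 12) (nat_lit 4) (nat_lit 0) (nat_lit 14) (nat_lit 7) (by decide +kernel)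
theorem L117929 : W_48 (nat_lit 3) (nat_lit 0x1000d80060003000100000000000000000000) (nat_lit 0x0) (nat_lit 0x20003000018000000000000000000000000000) := T_48 (nat_lit 112) (nat_lit 111) (nat_lit 1) (nat_lit 12) (nat_lit 6) L117928 (by decide +kernel)
theorem L117930 : W_48 (nat_lit 4) (nat_lit 0x1000d80060003000000000000000000000000) (nat_lit 0x0) (nat_lit 0x20003000018000000100008000000000000000) := T_48 (nat_lit 80) (nat_lit 63) (nat_lit 5) (nat_lit 12) (nat_lit 3) L117929 (by decide +kernel)
theorem L117931 : W_48 (nat_lit 11) (nat_lit 0x1000d80060001000000000000000000000000) (nat_lit 0x0) (nat_lit 0x6000f000700031801e000f00018000000000000000) := Q_48 (nat_lit 97) (C_48 L117798 (C_48 L117918 (C_48 L117927 (C_48 L117930 N_48)))) (by decide +kernel)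
theorem L117932 : W_48 (nat_lit 12) (nat_lit 0x1000580060001000000000000000000000000) (nat_lit 0x0) (nat_lit 0x6000f000780031801e000fe001e000000000000000) := Q_48 (nat_lit 131) (C_48 L117912 (C_48 L117773 (C_48 L117931 N_48))) (by decide +kernel)
theorem L117933 : W_48 (nat_lit 14) (nat_lit 0x1000580060000000000000000000000000000) (nat_lit 0x0) (nat_lit 0x20007c007e00fc00780031801f780ff801ee00700000000000) := Q_48 (nat_lit 96) (C_48 L117762 (C_48 L117772 (C_48 L117795 (C_48 L117800 (C_48 L117819 (C_48 L117842 (C_48 L117859 (C_48 L117877 (C_48 L117903 (C_48 L117932 N_48)))))))))) (by decide +kernel)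
theorem L117934 : W_48 (nat_lit 4) (nat_lit 0x90005800700010000c0000000000000000000) (nat_lit 0x0) (nat_lit 0x1000380014000000000002000000000000000000000000) := T_48 (nat_lit 148) (nat_lit 165) (nat_lit 7) (nat_lit 11) (nat_lit 5) L117872 (by decide +kernel)
theorem L117935 : W_48 (nat_lit 5) (nat_lit 0x10005800700010000c0000000000000000000) (nat_lit 0x0) (nat_lit 0x100038001c000000000002800000000000000000000000) := T_48 (nat_lit 147) (nat_lit 95) (nat_lit 4) (nat_lit 11) (nat_lit 8) L117934 (by decide +kernel)
theorem L117936 : W_48 (nat_lit 6) (nat_lit 0x1000580070001000080000000000000000000) (nat_lit 0x0) (nat_lit 0x100038001c000000000002800040002000000000000000) := T_48 (nat_lit 78) (nat_lit 61) (nat_lit 4) (nat_lit 11) (nat_lit 7) L117935 (by decide +kernel)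
theorem L117937 : W_48 (nat_lit 7) (nat_lit 0x1000580060001000080000000000000000000) (nat_lit 0x0) (nat_lit 0x100038001c000000018002800040002000000000000000) := T_48 (nat_lit 112) (nat_lit 111) (nat_lit 1) (nat_lit 12) (nat_lit 6) L117936 (by decide +kernel)
theorem L117938 : W_48 (nat_lit 8) (nat_lit 0x1000580060001000000000000000000000000) (nat_lit 0x0) (nat_lit 0x100038001c0008000180028000c0006000100000000000) := Q_48 (nat_lit 79) (C_48 L117862 (C_48 L117876 (C_48 L117829 (C_48 L117937 N_48)))) (by decide +kernel)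
theorem L117939 : W_48 (nat_lit 2) (nat_lit 0x1d00058007000b800000000000000000000000) (nat_lit 0x0) (nat_lit 0x180000400000000000000000000000) := D_48 (nat_lit 115) (nat_lit 94) (nat_lit 116) (nat_lit 3) (nat_lit 9) (nat_lit 5) (nat_lit 0) (nat_lit 14) (nat_lit 6) (by decide +kernel)
theorem L117940 : W_48 (nat_lit 3) (nat_lit 0x1d00058007000b000000000000000000000000) (nat_lit 0x0) (nat_lit 0x180000c00040000000000000000000) := T_48 (nat_lit 95) (nat_lit 78) (nat_lit 4) (nat_lit 11) (nat_lit 8) L117939 (by decide +kernel)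
theorem L117941 : W_48 (nat_lit 4) (nat_lit 0x1900058007000b000000000000000000000000) (nat_lit 0x0) (nat_lit 0x80004000000180000c00040000000000000000000) := T_48 (nat_lit 146) (nat_lit 163) (nat_lit 5) (nat_lit 11) (nat_lit 5) L117940 (by decide +kernel)
theorem L117942 : W_48 (nat_lit 5) (nat_lit 0x19000580070003000000000000000000000000) (nat_lit 0x0) (nat_lit 0x8000400000018000cc00040000000000000000000) := T_48 (nat_lit 99) (nat_lit 98) (nat_lit 1) (nat_lit 14) (nat_lit 5) L117941 (by decide +kernel)
theorem L117943 : W_48 (nat_lit 6) (nat_lit 0x19000580070001000000000000000000000000) (nat_lit 0x0) (nat_lit 0x8000400000018000ec00140000000000000000000) := T_48 (nat_lit 97) (nat_lit 80) (nat_lit 6) (nat_lit 11) (nat_lit 8) L117942 (by decide +kernel)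
theorem L117944 : W_48 (nat_lit 7) (nat_lit 0x9000580070001000000000000000000000000) (nat_lit 0x0) (nat_lit 0x28001400000018000ec00140000000000000000000) := T_48 (nat_lit 148) (nat_lit 165) (nat_lit 7) (nat_lit 11) (nat_lit 5) L117943 (by decide +kernel)
theorem L117945 : W_48 (nat_lit 8) (nat_lit 0x9000580060001000000000000000000000000) (nat_lit 0x0) (nat_lit 0x28001400000019800ec00140000000000000000000) := T_48 (nat_lit 112) (nat_lit 111) (nat_lit 1) (nat_lit 12) (nat_lit 6) L117944 (by decide +kernel)
theorem L117946 : W_48 (nat_lit 9) (nat_lit 0x1000580060001000000000000000000000000) (nat_lit 0x0) (nat_lit 0x14003e001c00000019800ec00140000000000000000000) := Q_48 (nat_lit 147) (C_48 L117748 (C_48 L117902 (C_48 L117945 N_48))) (by decide +kernel)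
theorem L117947 : W_48 (nat_lit 13) (nat_lit 0x1000580060000000000000000000000000000) (nat_lit 0x0) (nat_lit 0x20007c007e00fc00780039801fc00ff001e000700000000000) := Q_48 (nat_lit 96) (C_48 L117932 (C_48 L117772 (C_48 L117859 (C_48 L117819 (C_48 L117842 (C_48 L117938 (C_48 L117946 N_48))))))) (by decide +kernel)
theorem L117948 : W_48 (nat_lit 9) (nat_lit 0x1000580068001000000000000000000000000) (nat_lit 0x0) (nat_lit 0x300038001c000800180000e000e0000000000000000000) := T_48 (nat_lit 94) (nat_lit 77) (nat_lit 5) (nat_lit 9) (nat_lit 4) L117719 (by decide +kernel)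
theorem L117949 : W_48 (nat_lit 10) (nat_lit 0x1000580060001000000000000000000000000) (nat_lit 0x0) (nat_lit 0x300038001c000800198000e000e0000000000000000000) := T_48 (nat_lit 111) (nat_lit 112) (nat_lit 1) (nat_lit 12) (nat_lit 6) L117948 (by decide +kernel)
theorem L117950 : W_48 (nat_lit 5) (nat_lit 0x1000580060001000000000000000000000000) (nat_lit 0x0) (nat_lit 0x198002e00020000000000000000000) := T_48 (nat_lit 111) (nat_lit 112) (nat_lit 1) (nat_lit 12) (nat_lit 6) L117706 (by decide +kernel)
theorem L117951 : W_48 (nat_lit 13) (nat_lit 0x1000580060000000000000000000000000000) (nat_lit 0x0) (nat_lit 0x20007c007a00fc00780039801fe00ff001e000700000000000) := Q_48 (nat_lit 96) (C_48 L117938 (C_48 L117772 (C_48 L117932 (C_48 L117859 (C_48 L117819 (C_48 L117949 (C_48 L117950 N_48))))))) (by decide +kernel)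
theorem L117952 : W_48 (nat_lit 11) (nat_lit 0x1000580060000000000000000000000000000) (nat_lit 0x0) (nat_lit 0x700038001c000800198003e001e000e000500000000000) := Q_48 (nat_lit 96) (C_48 L117938 (C_48 L117950 (C_48 L117772 (C_48 L117949 N_48)))) (by decide +kernel)
theorem L117953 : W_48 (nat_lit 2) (nat_lit 0x1000580060002000100000000000000000000) (nat_lit 0x0) (nat_lit 0x100008000800000000000000000000000000000000) := D_48 (nat_lit 147) (nat_lit 164) (nat_lit 131) (nat_lit 6) (nat_lit 11) (nat_lit 9) (nat_lit 5) (nat_lit 12) (nat_lit 4) (by decide +kernel)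
theorem L117954 : W_48 (nat_lit 3) (nat_lit 0x1000580060002000000000000000000000000) (nat_lit 0x0) (nat_lit 0x100008000800000000000100008000000000000000) := T_48 (nat_lit 80) (nat_lit 63) (nat_lit 5) (nat_lit 12) (nat_lit 3) L117953 (by decide +kernel)
theorem L117955 : W_48 (nat_lit 2) (nat_lit 0x1000580060002000100000000000000000000) (nat_lit 0x0) (nat_lit 0x8000800000001000000000000000000000000) := D_48 (nat_lit 147) (nat_lit 131) (nat_lit 96) (nat_lit 5) (nat_lit 12) (nat_lit 4) (nat_lit 6) (nat_lit 11) (nat_lit 8) (by decide +kernel)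
theorem L117956 : W_48 (nat_lit 3) (nat_lit 0x1000580060002000000000000000000000000) (nat_lit 0x0) (nat_lit 0x8000800000001000100008000000000000000) := T_48 (nat_lit 80) (nat_lit 63) (nat_lit 5) (nat_lit 12) (nat_lit 3) L117955 (by decide +kernel)
theorem L117957 : W_48 (nat_lit 2) (nat_lit 0xd000580060003800000000000000000000000) (nat_lit 0x0) (nat_lit 0x80000600000000000000000000000) := D_48 (nat_lit 94) (nat_lit 115) (nat_lit 93) (nat_lit 3) (nat_lit 9) (nat_lit 5) (nat_lit 3) (nat_lit 8) (nat_lit 5) (by decide +kernel)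
theorem L117958 : W_48 (nat_lit 3) (nat_lit 0xd000580060003000000000000000000000000) (nat_lit 0x0) (nat_lit 0x80000e00040000000000000000000) := T_48 (nat_lit 95) (nat_lit 78) (nat_lit 4) (nat_lit 11) (nat_lit 8) L117957 (by decide +kernel)
theorem L117959 : W_48 (nat_lit 4) (nat_lit 0x9000580060003000000000000000000000000) (nat_lit 0x0) (nat_lit 0x80004000000080000e00040000000000000000000) := T_48 (nat_lit 146) (nat_lit 163) (nat_lit 5) (nat_lit 11) (nat_lit 5) L117958 (by decide +kernel)
theorem L117960 : W_48 (nat_lit 5) (nat_lit 0x1000580060003000000000000000000000000) (nat_lit 0x0) (nat_lit 0x18000c000000080000e00040000000000000000000) := T_48 (nat_lit 147) (nat_lit 164) (nat_lit 6) (nat_lit 11) (nat_lit 9) L117959 (by decide +kernel)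
theorem L117961 : W_48 (nat_lit 2) (nat_lit 0x1d000580060003000080000000000000000000) (nat_lit 0x0) (nat_lit 0x800040002000000000000000) := D_48 (nat_lit 78) (nat_lit 95) (nat_lit 61) (nat_lit 4) (nat_lit 11) (nat_lit 8) (nat_lit 4) (nat_lit 11) (nat_lit 7) (by decide +kernel)
theorem L117962 : W_48 (nat_lit 3) (nat_lit 0x1d000580060003000000000000000000000000) (nat_lit 0x0) (nat_lit 0x8000000008000c0002000000000000000) := T_48 (nat_lit 79) (nat_lit 131) (nat_lit 7) (nat_lit 11) (nat_lit 4) L117961 (by decide +kernel)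
theorem L117963 : W_48 (nat_lit 4) (nat_lit 0xd000580060003000000000000000000000000) (nat_lit 0x0) (nat_lit 0x2000100008000000008000c0002000000000000000) := T_48 (nat_lit 148) (nat_lit 165) (nat_lit 7) (nat_lit 11) (nat_lit 5) L117962 (by decide +kernel)
theorem L117964 : W_48 (nat_lit 5) (nat_lit 0x9000580060003000000000000000000000000) (nat_lit 0x0) (nat_lit 0x2800140008000000008000c0002000000000000000) := T_48 (nat_lit 146) (nat_lit 163) (nat_lit 5) (nat_lit 11) (nat_lit 5) L117963 (by decide +kernel)
theorem L117965 : W_48 (nat_lit 6) (nat_lit 0x1000580060003000000000000000000000000) (nat_lit 0x0) (nat_lit 0x38001c0008000000008000c0002000000000000000) := T_48 (nat_lit 147) (nat_lit 164) (nat_lit 6) (nat_lit 11) (nat_lit 9) L117964 (by decide +kernel)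
theorem L117966 : W_48 (nat_lit 2) (nat_lit 0x9000580060003800000000000000000000000) (nat_lit 0x0) (nat_lit 0x80000600000000000000000000000) := D_48 (nat_lit 94) (nat_lit 115) (nat_lit 93) (nat_lit 3) (nat_lit 9) (nat_lit 5) (nat_lit 3) (nat_lit 8) (nat_lit 5) (by decide +kernel)
theorem L117967 : W_48 (nat_lit 3) (nat_lit 0x9000580060003000000000000000000000000) (nat_lit 0x0) (nat_lit 0x80000e00040000000000000000000) := T_48 (nat_lit 95) (nat_lit 78) (nat_lit 4) (nat_lit 11) (nat_lit 8) L117966 (by decide +kernel)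
theorem L117968 : W_48 (nat_lit 4) (nat_lit 0x1000580060003000000000000000000000000) (nat_lit 0x0) (nat_lit 0x100008000000080000e00040000000000000000000) := T_48 (nat_lit 147) (nat_lit 164) (nat_lit 6) (nat_lit 11) (nat_lit 9) L117967 (by decide +kernel)
theorem L117969 : W_48 (nat_lit 2) (nat_lit 0x1d000580060003000080004000000000000000) (nat_lit 0x0) (nat_lit 0x40002000100000000000) := D_48 (nat_lit 61) (nat_lit 78) (nat_lit 44) (nat_lit 4) (nat_lit 11) (nat_lit 7) (nat_lit 4) (nat_lit 11) (nat_lit 6) (by decide +kernel)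
theorem L117970 : W_48 (nat_lit 3) (nat_lit 0x1d000580060003000080000000000000000000) (nat_lit 0x0) (nat_lit 0x40006000300000000000) := T_48 (nat_lit 62) (nat_lit 45) (nat_lit 7) (nat_lit 11) (nat_lit 2) L117969 (by decide +kernel)
theorem L117971 : W_48 (nat_lit 4) (nat_lit 0x1d000580060003000000000000000000000000) (nat_lit 0x0) (nat_lit 0x8000000000000c0006000300000000000) := T_48 (nat_lit 79) (nat_lit 131) (nat_lit 7) (nat_lit 11) (nat_lit 4) L117970 (by decide +kernel)
theorem L117972 : W_48 (nat_lit 5) (nat_lit 0xd000580060003000000000000000000000000) (nat_lit 0x0) (nat_lit 0x2000100008000000000000c0006000300000000000) := T_48 (nat_lit 148) (nat_lit 165) (nat_lit 7) (nat_lit 11) (nat_lit 5) L117971 (by decide +kernel)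
theorem L117973 : W_48 (nat_lit 6) (nat_lit 0x9000580060003000000000000000000000000) (nat_lit 0x0) (nat_lit 0x2800140008000000000000c0006000300000000000) := T_48 (nat_lit 146) (nat_lit 163) (nat_lit 5) (nat_lit 11) (nat_lit 5) L117972 (by decide +kernel)
theorem L117974 : W_48 (nat_lit 7) (nat_lit 0x1000580060003000000000000000000000000) (nat_lit 0x0) (nat_lit 0x38001c0008000000000000c0006000300000000000) := T_48 (nat_lit 147) (nat_lit 164) (nat_lit 6) (nat_lit 11) (nat_lit 9) L117973 (by decide +kernel)
theorem L117975 : W_48 (nat_lit 2) (nat_lit 0x10005800600038000d0000000200000000000) (nat_lit 0x0) (nat_lit 0x80000600000000000000000000000) := D_48 (nat_lit 94) (nat_lit 115) (nat_lit 93) (nat_lit 3) (nat_lit 9) (nat_lit 5) (nat_lit 3) (nat_lit 8) (nat_lit 5) (by decide +kernel)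
theorem L117976 : W_48 (nat_lit 3) (nat_lit 0x10005800600030000d0000000200000000000) (nat_lit 0x0) (nat_lit 0x8000000080000e00000000000000000000000) := T_48 (nat_lit 95) (nat_lit 147) (nat_lit 4) (nat_lit 11) (nat_lit 8) L117975 (by decide +kernel)
theorem L117977 : W_48 (nat_lit 4) (nat_lit 0x10005800600030000c0000000200000000000) (nat_lit 0x0) (nat_lit 0x8000000080000e00030000000000000000000) := T_48 (nat_lit 76) (nat_lit 77) (nat_lit 3) (nat_lit 8) (nat_lit 4) L117976 (by decide +kernel)
theorem L117978 : W_48 (nat_lit 5) (nat_lit 0x1000580060003000080000000200000000000) (nat_lit 0x0) (nat_lit 0x8000000080000e00070002000000000000000) := T_48 (nat_lit 78) (nat_lit 61) (nat_lit 4) (nat_lit 11) (nat_lit 7) L117977 (by decide +kernel)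
theorem L117979 : W_48 (nat_lit 6) (nat_lit 0x1000580060003000080000000000000000000) (nat_lit 0x0) (nat_lit 0x8000000080000e00070006000200000000000) := T_48 (nat_lit 45) (nat_lit 62) (nat_lit 7) (nat_lit 11) (nat_lit 2) L117978 (by decide +kernel)
theorem L117980 : W_48 (nat_lit 2) (nat_lit 0x90005800600030000d0000000000000000000) (nat_lit 0x0) (nat_lit 0x200010000800000000000000000000000000000000) := D_48 (nat_lit 148) (nat_lit 131) (nat_lit 165) (nat_lit 7) (nat_lit 11) (nat_lit 4) (nat_lit 7) (nat_lit 11) (nat_lit 5) (by decide +kernel)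
theorem L117981 : W_48 (nat_lit 3) (nat_lit 0x10005800600030000d0000000000000000000) (nat_lit 0x0) (nat_lit 0x200018000800000000800000000000000000000000) := T_48 (nat_lit 147) (nat_lit 95) (nat_lit 4) (nat_lit 11) (nat_lit 8) L117980 (by decide +kernel)
theorem L117982 : W_48 (nat_lit 4) (nat_lit 0x10005800600030000c0000000000000000000) (nat_lit 0x0) (nat_lit 0x200018000800000000800030000000000000000000) := T_48 (nat_lit 76) (nat_lit 77) (nat_lit 3) (nat_lit 8) (nat_lit 4) L117981 (by decide +kernel)
theorem L117983 : W_48 (nat_lit 5) (nat_lit 0x1000580060003000080000000000000000000) (nat_lit 0x0) (nat_lit 0x200018000800000000800070002000000000000000) := T_48 (nat_lit 78) (nat_lit 61) (nat_lit 4) (nat_lit 11) (nat_lit 7) L117982 (by decide +kernel)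
theorem L117984 : W_48 (nat_lit 7) (nat_lit 0x1000580060003000000000000000000000000) (nat_lit 0x0) (nat_lit 0x200018000800080000e000f0006000200000000000) := Q_48 (nat_lit 79) (C_48 L117808 (C_48 L117979 (C_48 L117983 N_48))) (by decide +kernel)
theorem L117985 : W_48 (nat_lit 2) (nat_lit 0x3d002d80060017000000000000000000000000) (nat_lit 0x0) (nat_lit 0xc0004000000000000000000000000000000000) := D_48 (nat_lit 150) (nat_lit 134) (nat_lit 151) (nat_lit 2) (nat_lit 11) (nat_lit 8) (nat_lit 0) (nat_lit 15) (nat_lit 8) (by decide +kernel)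
theorem L117986 : W_48 (nat_lit 3) (nat_lit 0x1d002d80060017000000000000000000000000) (nat_lit 0x0) (nat_lit 0x4000e0004000000000000000000000000000000000) := T_48 (nat_lit 149) (nat_lit 166) (nat_lit 7) (nat_lit 12) (nat_lit 5) L117985 (by decide +kernel)
theorem L117987 : W_48 (nat_lit 4) (nat_lit 0x1d002d80060007000000000000000000000000) (nat_lit 0x0) (nat_lit 0x4000e0004000000018000000000000000000000000) := T_48 (nat_lit 100) (nat_lit 99) (nat_lit 1) (nat_lit 15) (nat_lit 5) L117986 (by decide +kernel)
theorem L117988 : W_48 (nat_lit 5) (nat_lit 0x1d002d80060003000000000000000000000000) (nat_lit 0x0) (nat_lit 0x4000e000400000001c000200000000000000000000) := T_48 (nat_lit 98) (nat_lit 81) (nat_lit 6) (nat_lit 12) (nat_lit 8) L117987 (by decide +kernel)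
theorem L117989 : W_48 (nat_lit 6) (nat_lit 0x1d000d80060003000000000000000000000000) (nat_lit 0x0) (nat_lit 0x4000e000700000001c000200000000000000000000) := T_48 (nat_lit 133) (nat_lit 132) (nat_lit 1) (nat_lit 14) (nat_lit 7) L117988 (by decide +kernel)
theorem L117990 : W_48 (nat_lit 7) (nat_lit 0x1d000580060003000000000000000000000000) (nat_lit 0x0) (nat_lit 0x4000e000780000001c000280000000000000000000) := T_48 (nat_lit 131) (nat_lit 79) (nat_lit 7) (nat_lit 11) (nat_lit 4) L117989 (by decide +kernel)
theorem L117991 : W_48 (nat_lit 8) (nat_lit 0xd000580060003000000000000000000000000) (nat_lit 0x0) (nat_lit 0x6000f000780000001c000280000000000000000000) := T_48 (nat_lit 148) (nat_lit 165) (nat_lit 7) (nat_lit 11) (nat_lit 5) L117990 (by decide +kernel)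
theorem L117992 : W_48 (nat_lit 9) (nat_lit 0x9000580060003000000000000000000000000) (nat_lit 0x0) (nat_lit 0x6800f400780000001c000280000000000000000000) := T_48 (nat_lit 146) (nat_lit 163) (nat_lit 5) (nat_lit 11) (nat_lit 5) L117991 (by decide +kernel)
theorem L117993 : W_48 (nat_lit 10) (nat_lit 0x1000580060003000000000000000000000000) (nat_lit 0x0) (nat_lit 0x7800fc00780000001c000280000000000000000000) := T_48 (nat_lit 147) (nat_lit 164) (nat_lit 6) (nat_lit 11) (nat_lit 9) L117992 (by decide +kernel)
theorem L117994 : W_48 (nat_lit 2) (nat_lit 0x10005800600030000e0000000200000000000) (nat_lit 0x0) (nat_lit 0xc800000000000000000000000) := D_48 (nat_lit 98) (nat_lit 99) (nat_lit 95) (nat_lit 0) (nat_lit 14) (nat_lit 5) (nat_lit 0) (nat_lit 13) (nat_lit 5) (by decide +kernel)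
theorem L117995 : W_48 (nat_lit 3) (nat_lit 0x10005800600030000c0000000200000000000) (nat_lit 0x0) (nat_lit 0xc800030000000000000000000) := T_48 (nat_lit 77) (nat_lit 76) (nat_lit 3) (nat_lit 8) (nat_lit 4) L117994 (by decide +kernel)
theorem L117996 : W_48 (nat_lit 4) (nat_lit 0x1000580060003000080000000200000000000) (nat_lit 0x0) (nat_lit 0xc800070002000000000000000) := T_48 (nat_lit 78) (nat_lit 61) (nat_lit 4) (nat_lit 11) (nat_lit 7) L117995 (by decide +kernel)
theorem L117997 : W_48 (nat_lit 5) (nat_lit 0x1000580060003000080000000000000000000) (nat_lit 0x0) (nat_lit 0xc800070006000200000000000) := T_48 (nat_lit 45) (nat_lit 62) (nat_lit 7) (nat_lit 11) (nat_lit 2) L117996 (by decide +kernel)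
theorem L117998 : W_48 (nat_lit 2) (nat_lit 0x10005800600030000e0000000000000000000) (nat_lit 0x0) (nat_lit 0xc800000000000000000000000) := D_48 (nat_lit 98) (nat_lit 99) (nat_lit 95) (nat_lit 0) (nat_lit 14) (nat_lit 5) (nat_lit 0) (nat_lit 13) (nat_lit 5) (by decide +kernel)
theorem L117999 : W_48 (nat_lit 3) (nat_lit 0x10005800600030000c0000000000000000000) (nat_lit 0x0) (nat_lit 0xc800030000000000000000000) := T_48 (nat_lit 77) (nat_lit 76) (nat_lit 3) (nat_lit 8) (nat_lit 4) L117998 (by decide +kernel)
theorem L118000 : W_48 (nat_lit 4) (nat_lit 0x1000580060003000080000000000000000000) (nat_lit 0x0) (nat_lit 0xc800070002000000000000000) := T_48 (nat_lit 78) (nat_lit 61) (nat_lit 4) (nat_lit 11) (nat_lit 7) L117999 (by decide +kernel)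
theorem L118001 : W_48 (nat_lit 6) (nat_lit 0x1000580060003000000000000000000000000) (nat_lit 0x0) (nat_lit 0x80000000c8000f0006000200000000000) := Q_48 (nat_lit 79) (C_48 L117808 (C_48 L117997 (C_48 L118000 N_48))) (by decide +kernel)
theorem L118002 : W_48 (nat_lit 11) (nat_lit 0x1000580060002000000000000000000000000) (nat_lit 0x0) (nat_lit 0x7800fc00780008001de002f0006000300000000000) := Q_48 (nat_lit 96) (C_48 L117960 (C_48 L117965 (C_48 L117968 (C_48 L117974 (C_48 L117984 (C_48 L117993 (C_48 L118001 N_48))))))) (by decide +kernel)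
theorem L118003 : W_48 (nat_lit 2) (nat_lit 0x9000580060002000000000000000000000000) (nat_lit 0x0) (nat_lit 0x1000100008000000000000000) := D_48 (nat_lit 80) (nat_lit 63) (nat_lit 96) (nat_lit 5) (nat_lit 12) (nat_lit 3) (nat_lit 6) (nat_lit 11) (nat_lit 8) (by decide +kernel)
theorem L118004 : W_48 (nat_lit 3) (nat_lit 0x1000580060002000000000000000000000000) (nat_lit 0x0) (nat_lit 0x100008000000000001000100008000000000000000) := T_48 (nat_lit 147) (nat_lit 164) (nat_lit 6) (nat_lit 11) (nat_lit 9) L118003 (by decide +kernel)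
theorem L118005 : W_48 (nat_lit 2) (nat_lit 0x41003d80160002000380000000000000000000) (nat_lit 0x0) (nat_lit 0x8000c000000000000000000000000) := D_48 (nat_lit 98) (nat_lit 99) (nat_lit 115) (nat_lit 4) (nat_lit 14) (nat_lit 8) (nat_lit 7) (nat_lit 13) (nat_lit 4) (by decide +kernel)
theorem L118006 : W_48 (nat_lit 3) (nat_lit 0x41003d80060002000380000000000000000000) (nat_lit 0x0) (nat_lit 0x38000c000000000000000000000000) := T_48 (nat_lit 116) (nat_lit 117) (nat_lit 2) (nat_lit 11) (nat_lit 7) L118005 (by decide +kernel)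
theorem L118007 : W_48 (nat_lit 4) (nat_lit 0x1003d80060002000380000000000000000000) (nat_lit 0x0) (nat_lit 0xc000000038000c000000000000000000000000) := T_48 (nat_lit 150) (nat_lit 151) (nat_lit 3) (nat_lit 11) (nat_lit 7) L118006 (by decide +kernel)
theorem L118008 : W_48 (nat_lit 5) (nat_lit 0x1003d80060002000180000000000000000000) (nat_lit 0x0) (nat_lit 0xc000000038000c000200010000000000000000) := T_48 (nat_lit 81) (nat_lit 64) (nat_lit 6) (nat_lit 12) (nat_lit 7) L118007 (by decide +kernel)
theorem L118009 : W_48 (nat_lit 6) (nat_lit 0x1001d80060002000180000000000000000000) (nat_lit 0x0) (nat_lit 0xc000600038000c000200010000000000000000) := T_48 (nat_lit 133) (nat_lit 134) (nat_lit 0) (nat_lit 15) (nat_lit 7) L118008 (by decide +kernel)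
theorem L118010 : W_48 (nat_lit 7) (nat_lit 0x1000d80060002000180000000000000000000) (nat_lit 0x0) (nat_lit 0xe000700038000c000200010000000000000000) := T_48 (nat_lit 132) (nat_lit 149) (nat_lit 7) (nat_lit 12) (nat_lit 4) L118009 (by decide +kernel)
theorem L118011 : W_48 (nat_lit 8) (nat_lit 0x1000d80060002000100000000000000000000) (nat_lit 0x0) (nat_lit 0xe000700038000c000280014000000000000000) := T_48 (nat_lit 79) (nat_lit 62) (nat_lit 4) (nat_lit 12) (nat_lit 7) L118010 (by decide +kernel)
theorem L118012 : W_48 (nat_lit 9) (nat_lit 0x1000d80060002000000000000000000000000) (nat_lit 0x0) (nat_lit 0xe000700038000c00038001c000000000000000) := T_48 (nat_lit 80) (nat_lit 63) (nat_lit 5) (nat_lit 12) (nat_lit 3) L118011 (by decide +kernel)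
theorem L118013 : W_48 (nat_lit 2) (nat_lit 0x11005d80060002000300000000000000000000) (nat_lit 0x0) (nat_lit 0x4000200000000000000001000000000000000000000000) := D_48 (nat_lit 165) (nat_lit 182) (nat_lit 96) (nat_lit 4) (nat_lit 12) (nat_lit 10) (nat_lit 4) (nat_lit 12) (nat_lit 9) (by decide +kernel)
theorem L118014 : W_48 (nat_lit 3) (nat_lit 0x1005d80060002000300000000000000000000) (nat_lit 0x0) (nat_lit 0x4000200010000000000005000000000000000000000000) := T_48 (nat_lit 148) (nat_lit 98) (nat_lit 6) (nat_lit 12) (nat_lit 8) L118013 (by decide +kernel)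
theorem L118015 : W_48 (nat_lit 4) (nat_lit 0x1001d80060002000300000000000000000000) (nat_lit 0x0) (nat_lit 0x4000200010006000000005000000000000000000000000) := T_48 (nat_lit 134) (nat_lit 133) (nat_lit 0) (nat_lit 15) (nat_lit 7) L118014 (by decide +kernel)
theorem L118016 : W_48 (nat_lit 5) (nat_lit 0x1000d80060002000300000000000000000000) (nat_lit 0x0) (nat_lit 0x4000200030007000000005000000000000000000000000) := T_48 (nat_lit 132) (nat_lit 149) (nat_lit 7) (nat_lit 12) (nat_lit 4) L118015 (by decide +kernel)
theorem L118017 : W_48 (nat_lit 6) (nat_lit 0x1000d80060002000100000000000000000000) (nat_lit 0x0) (nat_lit 0x4000200030007000000005000200010000000000000000) := T_48 (nat_lit 81) (nat_lit 64) (nat_lit 6) (nat_lit 12) (nat_lit 7) L118016 (by decide +kernel)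
theorem L118018 : W_48 (nat_lit 7) (nat_lit 0x1000d80060002000000000000000000000000) (nat_lit 0x0) (nat_lit 0x4000200030007000000005000300018000000000000000) := T_48 (nat_lit 80) (nat_lit 63) (nat_lit 5) (nat_lit 12) (nat_lit 3) L118017 (by decide +kernel)
theorem L118019 : W_48 (nat_lit 2) (nat_lit 0x11000d80060002000000000000000000000000) (nat_lit 0x0) (nat_lit 0x200000000000000001000080000000000000000000) := D_48 (nat_lit 96) (nat_lit 79) (nat_lit 165) (nat_lit 7) (nat_lit 11) (nat_lit 4) (nat_lit 4) (nat_lit 12) (nat_lit 9) (by decide +kernel)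
theorem L118020 : W_48 (nat_lit 2) (nat_lit 0x2000b1000d80060002000000000000000000000000) (nat_lit 0x0) (nat_lit 0x80004000200000000000000000000) := D_48 (nat_lit 98) (nat_lit 81) (nat_lit 115) (nat_lit 6) (nat_lit 12) (nat_lit 8) (nat_lit 6) (nat_lit 12) (nat_lit 9) (by decide +kernel)
theorem L118021 : W_48 (nat_lit 3) (nat_lit 0xb1000d80060002000000000000000000000000) (nat_lit 0x0) (nat_lit 0x4000200000000000080004000200000000000000000000) := T_48 (nat_lit 165) (nat_lit 182) (nat_lit 4) (nat_lit 12) (nat_lit 10) L118020 (by decide +kernel)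
theorem L118022 : W_48 (nat_lit 4) (nat_lit 0x31000d80060002000000000000000000000000) (nat_lit 0x0) (nat_lit 0x40002000c0000000080004000200000000000000000000) := T_48 (nat_lit 151) (nat_lit 150) (nat_lit 0) (nat_lit 15) (nat_lit 8) L118021 (by decide +kernel)
theorem L118023 : W_48 (nat_lit 5) (nat_lit 0x11000d80060002000000000000000000000000) (nat_lit 0x0) (nat_lit 0x40006000e0000000080004000200000000000000000000) := T_48 (nat_lit 149) (nat_lit 166) (nat_lit 7) (nat_lit 12) (nat_lit 5) L118022 (by decide +kernel)
theorem L118024 : W_48 (nat_lit 2) (nat_lit 0xb1000d8016000fa00440000000000000000000) (nat_lit 0x0) (nat_lit 0x7000000000000000000000000000000000) := D_48 (nat_lit 133) (nat_lit 132) (nat_lit 134) (nat_lit 5) (nat_lit 14) (nat_lit 4) (nat_lit 7) (nat_lit 14) (nat_lit 4) (by decide +kernel)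
theorem L118025 : W_48 (nat_lit 3) (nat_lit 0xb1000d8016000fa00040000000000000000000) (nat_lit 0x0) (nat_lit 0x7000000000000c00000000000000000000) := T_48 (nat_lit 82) (nat_lit 83) (nat_lit 2) (nat_lit 11) (nat_lit 5) L118024 (by decide +kernel)
theorem L118026 : W_48 (nat_lit 4) (nat_lit 0x31000d8016000fa00040000000000000000000) (nat_lit 0x0) (nat_lit 0xc0007000000000000c00000000000000000000) := T_48 (nat_lit 151) (nat_lit 150) (nat_lit 0) (nat_lit 15) (nat_lit 8) L118025 (by decide +kernel)
theorem L118027 : W_48 (nat_lit 5) (nat_lit 0x11000d8016000fa00040000000000000000000) (nat_lit 0x0) (nat_lit 0x4000e0007000000000000c00000000000000000000) := T_48 (nat_lit 149) (nat_lit 166) (nat_lit 7) (nat_lit 12) (nat_lit 5) L118026 (by decide +kernel)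
theorem L118028 : W_48 (nat_lit 6) (nat_lit 0x11000d8016000fa00000000000000000000000) (nat_lit 0x0) (nat_lit 0x4000e0007000000000000c60000000000000000000) := T_48 (nat_lit 78) (nat_lit 77) (nat_lit 0) (nat_lit 13) (nat_lit 5) L118027 (by decide +kernel)
theorem L118029 : W_48 (nat_lit 7) (nat_lit 0x11000d8016000f800000000000000000000000) (nat_lit 0x0) (nat_lit 0x4000e0007000000000600c60000000000000000000) := T_48 (nat_lit 93) (nat_lit 94) (nat_lit 3) (nat_lit 8) (nat_lit 5) L118028 (by decide +kernel)
theorem L118030 : W_48 (nat_lit 8) (nat_lit 0x11000d8016000f000000000000000000000000) (nat_lit 0x0) (nat_lit 0x4000e0007000080000e00c60000000000000000000) := T_48 (nat_lit 95) (nat_lit 115) (nat_lit 3) (nat_lit 10) (nat_lit 5) L118029 (by decide +kernel)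
theorem L118031 : W_48 (nat_lit 9) (nat_lit 0x11000d8006000f000000000000000000000000) (nat_lit 0x0) (nat_lit 0x4000e0007000380000e00c60000000000000000000) := T_48 (nat_lit 116) (nat_lit 117) (nat_lit 3) (nat_lit 11) (nat_lit 5) L118030 (by decide +kernel)
theorem L118032 : W_48 (nat_lit 10) (nat_lit 0x11000d8006000e000000000000000000000000) (nat_lit 0x0) (nat_lit 0x4000e0007000380001e00ce0000000000000000000) := T_48 (nat_lit 96) (nat_lit 79) (nat_lit 7) (nat_lit 11) (nat_lit 4) L118031 (by decide +kernel)
theorem L118033 : W_48 (nat_lit 11) (nat_lit 0x11000d80060006000000000000000000000000) (nat_lit 0x0) (nat_lit 0x4000e0007000380019e00ce0000000000000000000) := T_48 (nat_lit 99) (nat_lit 100) (nat_lit 1) (nat_lit 15) (nat_lit 5) L118032 (by decide +kernel)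
theorem L118034 : W_48 (nat_lit 12) (nat_lit 0x11000d80060002000000000000000000000000) (nat_lit 0x0) (nat_lit 0x4000e000700038001de00ee0000000000000000000) := T_48 (nat_lit 98) (nat_lit 81) (nat_lit 6) (nat_lit 12) (nat_lit 8) L118033 (by decide +kernel)
theorem L118035 : W_48 (nat_lit 13) (nat_lit 0x1000d80060002000000000000000000000000) (nat_lit 0x0) (nat_lit 0x40006000f000700038001de00ee0000000000000000000) := Q_48 (nat_lit 148) (C_48 L118019 (C_48 L118023 (C_48 L118034 N_48))) (by decide +kernel)
theorem L118036 : W_48 (nat_lit 2) (nat_lit 0x1005d800600030003d0000000000000000000) (nat_lit 0x0) (nat_lit 0xc00400000000000000000000) := D_48 (nat_lit 95) (nat_lit 94) (nat_lit 82) (nat_lit 2) (nat_lit 9) (nat_lit 5) (nat_lit 1) (nat_lit 14) (nat_lit 4) (by decide +kernel)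
theorem L118037 : W_48 (nat_lit 3) (nat_lit 0x1005d800600030001d0000000000000000000) (nat_lit 0x0) (nat_lit 0xc00600010000000000000000) := T_48 (nat_lit 81) (nat_lit 64) (nat_lit 6) (nat_lit 12) (nat_lit 7) L118036 (by decide +kernel)
theorem L118038 : W_48 (nat_lit 4) (nat_lit 0x1005d800600030001c0000000000000000000) (nat_lit 0x0) (nat_lit 0xc00630010000000000000000) := T_48 (nat_lit 76) (nat_lit 77) (nat_lit 3) (nat_lit 8) (nat_lit 4) L118037 (by decide +kernel)
theorem L118039 : W_48 (nat_lit 5) (nat_lit 0x1005d80060003000180000000000000000000) (nat_lit 0x0) (nat_lit 0xc00670012000000000000000) := T_48 (nat_lit 78) (nat_lit 61) (nat_lit 4) (nat_lit 11) (nat_lit 7) L118038 (by decide +kernel)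
theorem L118040 : W_48 (nat_lit 6) (nat_lit 0x1005d80060002000180000000000000000000) (nat_lit 0x0) (nat_lit 0x10000000000001c00670012000000000000000) := T_48 (nat_lit 96) (nat_lit 148) (nat_lit 7) (nat_lit 11) (nat_lit 4) L118039 (by decide +kernel)
theorem L118041 : W_48 (nat_lit 7) (nat_lit 0x1001d80060002000180000000000000000000) (nat_lit 0x0) (nat_lit 0x10006000000001c00670012000000000000000) := T_48 (nat_lit 134) (nat_lit 133) (nat_lit 0) (nat_lit 15) (nat_lit 7) L118040 (by decide +kernel)
theorem L118042 : W_48 (nat_lit 8) (nat_lit 0x1000d80060002000180000000000000000000) (nat_lit 0x0) (nat_lit 0x30007000000001c00670012000000000000000) := T_48 (nat_lit 132) (nat_lit 149) (nat_lit 7) (nat_lit 12) (nat_lit 4) L118041 (by decide +kernel)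
theorem L118043 : W_48 (nat_lit 9) (nat_lit 0x1000d80060002000100000000000000000000) (nat_lit 0x0) (nat_lit 0x30007000000001c006f0016000000000000000) := T_48 (nat_lit 79) (nat_lit 62) (nat_lit 4) (nat_lit 12) (nat_lit 7) L118042 (by decide +kernel)
theorem L118044 : W_48 (nat_lit 10) (nat_lit 0x1000d80060002000000000000000000000000) (nat_lit 0x0) (nat_lit 0x30007000000001c007f001e000000000000000) := T_48 (nat_lit 80) (nat_lit 63) (nat_lit 5) (nat_lit 12) (nat_lit 3) L118043 (by decide +kernel)
theorem L118045 : W_48 (nat_lit 2) (nat_lit 0x1005d800600030001c0000000000000000000) (nat_lit 0x0) (nat_lit 0x4000030000000000000000000) := D_48 (nat_lit 77) (nat_lit 98) (nat_lit 76) (nat_lit 3) (nat_lit 9) (nat_lit 4) (nat_lit 3) (nat_lit 8) (nat_lit 4) (by decide +kernel)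
theorem L118046 : W_48 (nat_lit 3) (nat_lit 0x1005d80060003000180000000000000000000) (nat_lit 0x0) (nat_lit 0x4000070002000000000000000) := T_48 (nat_lit 78) (nat_lit 61) (nat_lit 4) (nat_lit 11) (nat_lit 7) L118045 (by decide +kernel)
theorem L118047 : W_48 (nat_lit 4) (nat_lit 0x1005d80060002000180000000000000000000) (nat_lit 0x0) (nat_lit 0x10000000000005000070002000000000000000) := T_48 (nat_lit 96) (nat_lit 148) (nat_lit 7) (nat_lit 11) (nat_lit 4) L118046 (by decide +kernel)
theorem L118048 : W_48 (nat_lit 5) (nat_lit 0x1001d80060002000180000000000000000000) (nat_lit 0x0) (nat_lit 0x10006000000005000070002000000000000000) := T_48 (nat_lit 134) (nat_lit 133) (nat_lit 0) (nat_lit 15) (nat_lit 7) L118047 (by decide +kernel)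
theorem L118049 : W_48 (nat_lit 6) (nat_lit 0x1000d80060002000180000000000000000000) (nat_lit 0x0) (nat_lit 0x30007000000005000070002000000000000000) := T_48 (nat_lit 132) (nat_lit 149) (nat_lit 7) (nat_lit 12) (nat_lit 4) L118048 (by decide +kernel)
theorem L118050 : W_48 (nat_lit 7) (nat_lit 0x1000d80060002000100000000000000000000) (nat_lit 0x0) (nat_lit 0x300070000000050000f0006000000000000000) := T_48 (nat_lit 79) (nat_lit 62) (nat_lit 4) (nat_lit 12) (nat_lit 7) L118049 (by decide +kernel)
theorem L118051 : W_48 (nat_lit 8) (nat_lit 0x1000d80060002000000000000000000000000) (nat_lit 0x0) (nat_lit 0x300070000000050001f000e000000000000000) := T_48 (nat_lit 80) (nat_lit 63) (nat_lit 5) (nat_lit 12) (nat_lit 3) L118050 (by decide +kernel)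
theorem L118052 : W_48 (nat_lit 2) (nat_lit 0x1000d80060002000380000000000000000000) (nat_lit 0x0) (nat_lit 0x10000000000005000000000000000000000000) := D_48 (nat_lit 148) (nat_lit 96) (nat_lit 98) (nat_lit 7) (nat_lit 11) (nat_lit 4) (nat_lit 6) (nat_lit 12) (nat_lit 8) (by decide +kernel)
theorem L118053 : W_48 (nat_lit 3) (nat_lit 0x1000d80060002000180000000000000000000) (nat_lit 0x0) (nat_lit 0x10000000000005000200010000000000000000) := T_48 (nat_lit 81) (nat_lit 64) (nat_lit 6) (nat_lit 12) (nat_lit 7) L118052 (by decide +kernel)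
theorem L118054 : W_48 (nat_lit 4) (nat_lit 0x1000d80060002000100000000000000000000) (nat_lit 0x0) (nat_lit 0x10000000000005000280014000000000000000) := T_48 (nat_lit 79) (nat_lit 62) (nat_lit 4) (nat_lit 12) (nat_lit 7) L118053 (by decide +kernel)
theorem L118055 : W_48 (nat_lit 5) (nat_lit 0x1000d80060002000000000000000000000000) (nat_lit 0x0) (nat_lit 0x1000000000000500038001c000000000000000) := T_48 (nat_lit 80) (nat_lit 63) (nat_lit 5) (nat_lit 12) (nat_lit 3) L118054 (by decide +kernel)
theorem L118056 : W_48 (nat_lit 14) (nat_lit 0x1000580060002000000000000000000000000) (nat_lit 0x0) (nat_lit 0x40006000f000780038001de00ff001e000000000000000) := Q_48 (nat_lit 131) (C_48 L118012 (C_48 L118018 (C_48 L118035 (C_48 L118044 (C_48 L118051 (C_48 L118055 N_48)))))) (by decide +kernel)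
theorem L118057 : W_48 (nat_lit 15) (nat_lit 0x1000580060000000000000000000000000000) (nat_lit 0x0) (nat_lit 0x40007800fc00780038001fe00ff001e000300000000000) := Q_48 (nat_lit 97) (C_48 L117954 (C_48 L117956 (C_48 L118002 (C_48 L118004 (C_48 L118056 N_48))))) (by decide +kernel)
theorem L118058 : W_48 (nat_lit 7) (nat_lit 0x1000580060001000000000000000000000000) (nat_lit 0x0) (nat_lit 0x800080000000e8001f000e000200000000000) := Q_48 (nat_lit 97) (C_48 L118001 (C_48 L117801 N_48)) (by decide +kernel)
theorem L118059 : W_48 (nat_lit 2) (nat_lit 0x1d000580070001000180000000000000000000) (nat_lit 0x0) (nat_lit 0x800040002000000000000000) := D_48 (nat_lit 78) (nat_lit 61) (nat_lit 95) (nat_lit 4) (nat_lit 11) (nat_lit 7) (nat_lit 4) (nat_lit 11) (nat_lit 8) (by decide +kernel)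
theorem L118060 : W_48 (nat_lit 3) (nat_lit 0x1d000580070001000100000000000000000000) (nat_lit 0x0) (nat_lit 0x8000c000a000000000000000) := T_48 (nat_lit 79) (nat_lit 63) (nat_lit 6) (nat_lit 11) (nat_lit 7) L118059 (by decide +kernel)
theorem L118061 : W_48 (nat_lit 4) (nat_lit 0x19000580070001000100000000000000000000) (nat_lit 0x0) (nat_lit 0x800040000000000008000c000a000000000000000) := T_48 (nat_lit 146) (nat_lit 163) (nat_lit 5) (nat_lit 11) (nat_lit 5) L118060 (by decide +kernel)
theorem L118062 : W_48 (nat_lit 5) (nat_lit 0x19000580070001000000000000000000000000) (nat_lit 0x0) (nat_lit 0x800040000000000028001c000a000000000000000) := T_48 (nat_lit 80) (nat_lit 97) (nat_lit 6) (nat_lit 11) (nat_lit 8) L118061 (by decide +kernel)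
theorem L118063 : W_48 (nat_lit 6) (nat_lit 0x9000580070001000000000000000000000000) (nat_lit 0x0) (nat_lit 0x2800140000000000028001c000a000000000000000) := T_48 (nat_lit 148) (nat_lit 165) (nat_lit 7) (nat_lit 11) (nat_lit 5) L118062 (by decide +kernel)
theorem L118064 : W_48 (nat_lit 7) (nat_lit 0x9000580060001000000000000000000000000) (nat_lit 0x0) (nat_lit 0x2800140000000180028001c000a000000000000000) := T_48 (nat_lit 112) (nat_lit 111) (nat_lit 1) (nat_lit 12) (nat_lit 6) L118063 (by decide +kernel)
theorem L118065 : W_48 (nat_lit 8) (nat_lit 0x1000580060001000000000000000000000000) (nat_lit 0x0) (nat_lit 0x14003e001c0000000180028001c000a000000000000000) := Q_48 (nat_lit 147) (C_48 L117748 (C_48 L117902 (C_48 L118064 N_48))) (by decide +kernel)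
theorem L118066 : W_48 (nat_lit 13) (nat_lit 0x1000580060000000000000000000000000000) (nat_lit 0x0) (nat_lit 0x20007c007e00fc00780031801f800ff001e000700000000000) := Q_48 (nat_lit 96) (C_48 L117938 (C_48 L117772 (C_48 L117932 (C_48 L117859 (C_48 L118058 (C_48 L117842 (C_48 L118065 N_48))))))) (by decide +kernel)
theorem L118067 : W_48 (nat_lit 2) (nat_lit 0x1000580070006000000000000000000000000) (nat_lit 0x0) (nat_lit 0x19000000000000000000000000) := D_48 (nat_lit 99) (nat_lit 96) (nat_lit 100) (nat_lit 1) (nat_lit 14) (nat_lit 5) (nat_lit 1) (nat_lit 15) (nat_lit 5) (by decide +kernel)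
theorem L118068 : W_48 (nat_lit 3) (nat_lit 0x1000580060006000000000000000000000000) (nat_lit 0x0) (nat_lit 0x18019000000000000000000000000) := T_48 (nat_lit 112) (nat_lit 111) (nat_lit 2) (nat_lit 9) (nat_lit 6) L118067 (by decide +kernel)
theorem L118069 : W_48 (nat_lit 2) (nat_lit 0x11000d80060016000000000000000000000000) (nat_lit 0x0) (nat_lit 0x200000000000000001000080000000000000000000) := D_48 (nat_lit 96) (nat_lit 79) (nat_lit 165) (nat_lit 7) (nat_lit 11) (nat_lit 4) (nat_lit 4) (nat_lit 12) (nat_lit 9) (by decide +kernel)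
theorem L118070 : W_48 (nat_lit 3) (nat_lit 0x11000580060016000000000000000000000000) (nat_lit 0x0) (nat_lit 0x200000000800000001000280000000000000000000) := T_48 (nat_lit 131) (nat_lit 81) (nat_lit 6) (nat_lit 12) (nat_lit 8) L118069 (by decide +kernel)
theorem L118071 : W_48 (nat_lit 4) (nat_lit 0x11000580060006000000000000000000000000) (nat_lit 0x0) (nat_lit 0x200000000800000019000280000000000000000000) := T_48 (nat_lit 100) (nat_lit 99) (nat_lit 1) (nat_lit 15) (nat_lit 5) L118070 (by decide +kernel)
theorem L118072 : W_48 (nat_lit 2) (nat_lit 0x11000d80060006000000000000000000000000) (nat_lit 0x0) (nat_lit 0x4000200000000000080000000000000000000000000000) := D_48 (nat_lit 165) (nat_lit 182) (nat_lit 115) (nat_lit 4) (nat_lit 12) (nat_lit 10) (nat_lit 6) (nat_lit 12) (nat_lit 9) (by decide +kernel)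
theorem L118073 : W_48 (nat_lit 3) (nat_lit 0x11000580060006000000000000000000000000) (nat_lit 0x0) (nat_lit 0x4000200000000800080000000200000000000000000000) := T_48 (nat_lit 131) (nat_lit 81) (nat_lit 6) (nat_lit 12) (nat_lit 8) L118072 (by decide +kernel)
theorem L118074 : W_48 (nat_lit 2) (nat_lit 0x19000580060017800000000000000000000000) (nat_lit 0x0) (nat_lit 0x180000400000000000000000000000) := D_48 (nat_lit 115) (nat_lit 116) (nat_lit 94) (nat_lit 3) (nat_lit 10) (nat_lit 5) (nat_lit 3) (nat_lit 9) (nat_lit 5) (by decide +kernel)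
theorem L118075 : W_48 (nat_lit 3) (nat_lit 0x19000580060017000000000000000000000000) (nat_lit 0x0) (nat_lit 0x180000c00040000000000000000000) := T_48 (nat_lit 95) (nat_lit 78) (nat_lit 4) (nat_lit 11) (nat_lit 8) L118074 (by decide +kernel)
theorem L118076 : W_48 (nat_lit 4) (nat_lit 0x19000580060016000000000000000000000000) (nat_lit 0x0) (nat_lit 0x200000000000180001c00040000000000000000000) := T_48 (nat_lit 96) (nat_lit 165) (nat_lit 7) (nat_lit 11) (nat_lit 5) L118075 (by decide +kernel)
theorem L118077 : W_48 (nat_lit 5) (nat_lit 0x11000580060016000000000000000000000000) (nat_lit 0x0) (nat_lit 0x300008000000180001c00040000000000000000000) := T_48 (nat_lit 147) (nat_lit 164) (nat_lit 6) (nat_lit 11) (nat_lit 9) L118076 (by decide +kernel)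
theorem L118078 : W_48 (nat_lit 6) (nat_lit 0x11000580060006000000000000000000000000) (nat_lit 0x0) (nat_lit 0x300008000000180019c00040000000000000000000) := T_48 (nat_lit 100) (nat_lit 99) (nat_lit 1) (nat_lit 15) (nat_lit 5) L118077 (by decide +kernel)
theorem L118079 : W_48 (nat_lit 2) (nat_lit 0x1000b1000d8016000f000400000000000000000000) (nat_lit 0x0) (nat_lit 0x1000080000800000000000000000000000) := D_48 (nat_lit 115) (nat_lit 95) (nat_lit 132) (nat_lit 3) (nat_lit 10) (nat_lit 5) (nat_lit 6) (nat_lit 13) (nat_lit 8) (by decide +kernel)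
theorem L118080 : W_48 (nat_lit 3) (nat_lit 0x1000b1000d8006000f000400000000000000000000) (nat_lit 0x0) (nat_lit 0x1000380000800000000000000000000000) := T_48 (nat_lit 116) (nat_lit 117) (nat_lit 3) (nat_lit 11) (nat_lit 5) L118079 (by decide +kernel)
theorem L118081 : W_48 (nat_lit 4) (nat_lit 0x1000b1000d8006000f000000000000000000000000) (nat_lit 0x0) (nat_lit 0x1000380000800c00000000000000000000) := T_48 (nat_lit 82) (nat_lit 83) (nat_lit 2) (nat_lit 11) (nat_lit 5) L118080 (by decide +kernel)
theorem L118082 : W_48 (nat_lit 5) (nat_lit 0x1000b1000d80060007000000000000000000000000) (nat_lit 0x0) (nat_lit 0x1000380018800c00000000000000000000) := T_48 (nat_lit 99) (nat_lit 100) (nat_lit 1) (nat_lit 15) (nat_lit 5) L118081 (by decide +kernel)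
theorem L118083 : W_48 (nat_lit 6) (nat_lit 0x100031000d80060007000000000000000000000000) (nat_lit 0x0) (nat_lit 0xc0001000380018800c00000000000000000000) := T_48 (nat_lit 151) (nat_lit 150) (nat_lit 0) (nat_lit 15) (nat_lit 8) L118082 (by decide +kernel)
theorem L118084 : W_48 (nat_lit 7) (nat_lit 0x100011000d80060007000000000000000000000000) (nat_lit 0x0) (nat_lit 0x4000e0001000380018800c00000000000000000000) := T_48 (nat_lit 149) (nat_lit 166) (nat_lit 7) (nat_lit 12) (nat_lit 5) L118083 (by decide +kernel)
theorem L118085 : W_48 (nat_lit 8) (nat_lit 0x100011000d80060006000000000000000000000000) (nat_lit 0x0) (nat_lit 0x4000e0001000380019800c80000000000000000000) := T_48 (nat_lit 96) (nat_lit 79) (nat_lit 7) (nat_lit 11) (nat_lit 4) L118084 (by decide +kernel)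
theorem L118086 : W_48 (nat_lit 9) (nat_lit 0x100011000580060006000000000000000000000000) (nat_lit 0x0) (nat_lit 0x4000e0001800380019800e80000000000000000000) := T_48 (nat_lit 131) (nat_lit 81) (nat_lit 6) (nat_lit 12) (nat_lit 8) L118085 (by decide +kernel)
theorem L118087 : W_48 (nat_lit 10) (nat_lit 0x11000580060006000000000000000000000000) (nat_lit 0x0) (nat_lit 0x5000e8001800380019800e80000000000000000000) := T_48 (nat_lit 164) (nat_lit 147) (nat_lit 6) (nat_lit 11) (nat_lit 9) L118086 (by decide +kernel)
theorem L118088 : W_48 (nat_lit 11) (nat_lit 0x1000580060006000000000000000000000000) (nat_lit 0x0) (nat_lit 0x40007000f8001800380019c00ec0000000000000000000) := Q_48 (nat_lit 148) (C_48 L118071 (C_48 L118073 (C_48 L118078 (C_48 L118087 N_48)))) (by decide +kernel)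
theorem L118089 : W_48 (nat_lit 2) (nat_lit 0x100058006000e000000000000000000000000) (nat_lit 0x0) (nat_lit 0x98000000000000000000000000000) := D_48 (nat_lit 112) (nat_lit 111) (nat_lit 115) (nat_lit 2) (nat_lit 9) (nat_lit 6) (nat_lit 2) (nat_lit 10) (nat_lit 6) (by decide +kernel)
theorem L118090 : W_48 (nat_lit 3) (nat_lit 0x1000580060006000000000000000000000000) (nat_lit 0x0) (nat_lit 0x98018000000000000000000000000) := T_48 (nat_lit 99) (nat_lit 100) (nat_lit 1) (nat_lit 15) (nat_lit 5) L118089 (by decide +kernel)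
theorem L118091 : W_48 (nat_lit 2) (nat_lit 0x100001000580068006c00000000000000000000000) (nat_lit 0x0) (nat_lit 0x80001200000000000000000000000) := D_48 (nat_lit 96) (nat_lit 115) (nat_lit 93) (nat_lit 3) (nat_lit 9) (nat_lit 5) (nat_lit 3) (nat_lit 8) (nat_lit 5) (by decide +kernel)
theorem L118092 : W_48 (nat_lit 3) (nat_lit 0x100001000580068006800000000000000000000000) (nat_lit 0x0) (nat_lit 0x80001600020000000000000000000) := T_48 (nat_lit 94) (nat_lit 77) (nat_lit 5) (nat_lit 9) (nat_lit 4) L118091 (by decide +kernel)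
theorem L118093 : W_48 (nat_lit 4) (nat_lit 0x1000580068006800000000000000000000000) (nat_lit 0x0) (nat_lit 0x100008000000080001600020000000000000000000) := T_48 (nat_lit 164) (nat_lit 147) (nat_lit 6) (nat_lit 11) (nat_lit 9) L118092 (by decide +kernel)
theorem L118094 : W_48 (nat_lit 5) (nat_lit 0x1000580060006800000000000000000000000) (nat_lit 0x0) (nat_lit 0x100008000000098001600020000000000000000000) := T_48 (nat_lit 111) (nat_lit 112) (nat_lit 2) (nat_lit 9) (nat_lit 6) L118093 (by decide +kernel)
theorem L118095 : W_48 (nat_lit 2) (nat_lit 0x9000580060007800000000000000000000000) (nat_lit 0x0) (nat_lit 0x180000400000000000000000000000) := D_48 (nat_lit 115) (nat_lit 116) (nat_lit 94) (nat_lit 3) (nat_lit 10) (nat_lit 5) (nat_lit 3) (nat_lit 9) (nat_lit 5) (by decide +kernel)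
theorem L118096 : W_48 (nat_lit 3) (nat_lit 0x9000580060006800000000000000000000000) (nat_lit 0x0) (nat_lit 0x180001400040000000000000000000) := T_48 (nat_lit 96) (nat_lit 78) (nat_lit 4) (nat_lit 11) (nat_lit 8) L118095 (by decide +kernel)
theorem L118097 : W_48 (nat_lit 4) (nat_lit 0x1000580060006800000000000000000000000) (nat_lit 0x0) (nat_lit 0x100008000000180001400040000000000000000000) := T_48 (nat_lit 147) (nat_lit 164) (nat_lit 6) (nat_lit 11) (nat_lit 9) L118096 (by decide +kernel)
theorem L118098 : W_48 (nat_lit 2) (nat_lit 0x1000010005800f0007800240000000000000000000) (nat_lit 0x0) (nat_lit 0x800000000000000010000800000000000) := D_48 (nat_lit 64) (nat_lit 47) (nat_lit 131) (nat_lit 5) (nat_lit 13) (nat_lit 2) (nat_lit 5) (nat_lit 13) (nat_lit 3) (by decide +kernel)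
theorem L118099 : W_48 (nat_lit 3) (nat_lit 0x1000010005800f0007800040000000000000000000) (nat_lit 0x0) (nat_lit 0x800000000000600010000800000000000) := T_48 (nat_lit 81) (nat_lit 82) (nat_lit 2) (nat_lit 10) (nat_lit 5) L118098 (by decide +kernel)
theorem L118100 : W_48 (nat_lit 4) (nat_lit 0x100001000580070007800040000000000000000000) (nat_lit 0x0) (nat_lit 0x800180000000600010000800000000000) := T_48 (nat_lit 115) (nat_lit 116) (nat_lit 3) (nat_lit 10) (nat_lit 5) L118099 (by decide +kernel)
theorem L118101 : W_48 (nat_lit 5) (nat_lit 0x100001000580070006800040000000000000000000) (nat_lit 0x0) (nat_lit 0x800180001000620010000800000000000) := T_48 (nat_lit 96) (nat_lit 77) (nat_lit 0) (nat_lit 13) (nat_lit 5) L118100 (by decide +kernel)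
theorem L118102 : W_48 (nat_lit 6) (nat_lit 0x100001000580070006800000000000000000000000) (nat_lit 0x0) (nat_lit 0x800180001000660012000800000000000) := T_48 (nat_lit 78) (nat_lit 61) (nat_lit 7) (nat_lit 10) (nat_lit 3) L118101 (by decide +kernel)
theorem L118103 : W_48 (nat_lit 7) (nat_lit 0x100001000580060006800000000000000000000000) (nat_lit 0x0) (nat_lit 0x800198001000660012000800000000000) := T_48 (nat_lit 112) (nat_lit 111) (nat_lit 2) (nat_lit 9) (nat_lit 6) L118102 (by decide +kernel)
theorem L118104 : W_48 (nat_lit 8) (nat_lit 0x1000580060006800000000000000000000000) (nat_lit 0x0) (nat_lit 0x100008000800198001000660012000800000000000) := T_48 (nat_lit 164) (nat_lit 147) (nat_lit 6) (nat_lit 11) (nat_lit 9) L118103 (by decide +kernel)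
theorem L118105 : W_48 (nat_lit 2) (nat_lit 0x4000000010005800e8007800220000000000000000000) (nat_lit 0x0) (nat_lit 0x800000000000000010000800000000000) := D_48 (nat_lit 64) (nat_lit 47) (nat_lit 131) (nat_lit 5) (nat_lit 13) (nat_lit 2) (nat_lit 5) (nat_lit 13) (nat_lit 3) (by decide +kernel)
theorem L118106 : W_48 (nat_lit 3) (nat_lit 0x4000000010005800e8007800020000000000000000000) (nat_lit 0x0) (nat_lit 0x800000000000600010000800000000000) := T_48 (nat_lit 81) (nat_lit 82) (nat_lit 2) (nat_lit 10) (nat_lit 5) L118105 (by decide +kernel)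
theorem L118107 : W_48 (nat_lit 4) (nat_lit 0x400000001000580068007800020000000000000000000) (nat_lit 0x0) (nat_lit 0x800180000000600010000800000000000) := T_48 (nat_lit 115) (nat_lit 116) (nat_lit 3) (nat_lit 10) (nat_lit 5) L118106 (by decide +kernel)
theorem L118108 : W_48 (nat_lit 5) (nat_lit 0x400000001000580068006800020000000000000000000) (nat_lit 0x0) (nat_lit 0x800180001000640010000800000000000) := T_48 (nat_lit 96) (nat_lit 78) (nat_lit 0) (nat_lit 13) (nat_lit 5) L118107 (by decide +kernel)
theorem L118109 : W_48 (nat_lit 6) (nat_lit 0x400000001000580068006800000000000000000000000) (nat_lit 0x0) (nat_lit 0x800180001400660010000800000000000) := T_48 (nat_lit 77) (nat_lit 94) (nat_lit 5) (nat_lit 9) (nat_lit 4) L118108 (by decide +kernel)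
theorem L118110 : W_48 (nat_lit 7) (nat_lit 0x1000580068006800000000000000000000000) (nat_lit 0x0) (nat_lit 0x400020000000800180001400660010000800000000000) := T_48 (nat_lit 178) (nat_lit 161) (nat_lit 6) (nat_lit 8) (nat_lit 10) L118109 (by decide +kernel)
theorem L118111 : W_48 (nat_lit 8) (nat_lit 0x1000580060006800000000000000000000000) (nat_lit 0x0) (nat_lit 0x400020000000800198001400660010000800000000000) := T_48 (nat_lit 111) (nat_lit 112) (nat_lit 2) (nat_lit 9) (nat_lit 6) L118110 (by decide +kernel)
theorem L118112 : W_48 (nat_lit 2) (nat_lit 0x1000710015800f0006800000002000000000000000) (nat_lit 0x0) (nat_lit 0x80000800000000000200000000000000000000) := D_48 (nat_lit 131) (nat_lit 81) (nat_lit 151) (nat_lit 6) (nat_lit 12) (nat_lit 8) (nat_lit 0) (nat_lit 15) (nat_lit 8) (by decide +kernel)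
theorem L118113 : W_48 (nat_lit 3) (nat_lit 0x1000610015800f0006800000002000000000000000) (nat_lit 0x0) (nat_lit 0x200090000800000000000200000000000000000000) := T_48 (nat_lit 148) (nat_lit 165) (nat_lit 5) (nat_lit 13) (nat_lit 5) L118112 (by decide +kernel)
theorem L118114 : W_48 (nat_lit 4) (nat_lit 0x1000210015800f0006800000002000000000000000) (nat_lit 0x0) (nat_lit 0xa000d0000800000000000200000000000000000000) := T_48 (nat_lit 150) (nat_lit 167) (nat_lit 7) (nat_lit 13) (nat_lit 5) L118113 (by decide +kernel)
theorem L118115 : W_48 (nat_lit 5) (nat_lit 0x210015800f0006800000002000000000000000) (nat_lit 0x0) (nat_lit 0xb000d8000800000000000200000000000000000000) := T_48 (nat_lit 164) (nat_lit 147) (nat_lit 6) (nat_lit 11) (nat_lit 9) L118114 (by decide +kernel)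
theorem L118116 : W_48 (nat_lit 6) (nat_lit 0x10015800f0006800000002000000000000000) (nat_lit 0x0) (nat_lit 0xf000f8000800000000000200000000000000000000) := T_48 (nat_lit 149) (nat_lit 166) (nat_lit 4) (nat_lit 13) (nat_lit 9) L118115 (by decide +kernel)
theorem L118117 : W_48 (nat_lit 7) (nat_lit 0x10005800f0006800000002000000000000000) (nat_lit 0x0) (nat_lit 0xf000f8003800000000000200000000000000000000) := T_48 (nat_lit 132) (nat_lit 133) (nat_lit 3) (nat_lit 10) (nat_lit 6) L118116 (by decide +kernel)
theorem L118118 : W_48 (nat_lit 8) (nat_lit 0x10005800f0006800000000000000000000000) (nat_lit 0x0) (nat_lit 0xf000f8003800000000000240002000000000000000) := T_48 (nat_lit 61) (nat_lit 78) (nat_lit 7) (nat_lit 10) (nat_lit 3) L118117 (by decide +kernel)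
theorem L118119 : W_48 (nat_lit 9) (nat_lit 0x1000580070006800000000000000000000000) (nat_lit 0x0) (nat_lit 0xf000f8003800080000400240002000000000000000) := T_48 (nat_lit 115) (nat_lit 94) (nat_lit 0) (nat_lit 13) (nat_lit 6) L118118 (by decide +kernel)
theorem L118120 : W_48 (nat_lit 10) (nat_lit 0x1000580060006800000000000000000000000) (nat_lit 0x0) (nat_lit 0xf000f8003800098000400240002000000000000000) := T_48 (nat_lit 112) (nat_lit 111) (nat_lit 2) (nat_lit 9) (nat_lit 6) L118119 (by decide +kernel)
theorem L118121 : W_48 (nat_lit 2) (nat_lit 0x1000580070006800040000000000000000000) (nat_lit 0x0) (nat_lit 0x100008000000000001000000000000000000000000) := D_48 (nat_lit 147) (nat_lit 164) (nat_lit 96) (nat_lit 6) (nat_lit 11) (nat_lit 9) (nat_lit 4) (nat_lit 11) (nat_lit 8) (by decide +kernel)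
theorem L118122 : W_48 (nat_lit 3) (nat_lit 0x1000580070006800000000000000000000000) (nat_lit 0x0) (nat_lit 0x100008000000000001000040002000000000000000) := T_48 (nat_lit 78) (nat_lit 61) (nat_lit 7) (nat_lit 10) (nat_lit 3) L118121 (by decide +kernel)
theorem L118123 : W_48 (nat_lit 4) (nat_lit 0x1000580060006800000000000000000000000) (nat_lit 0x0) (nat_lit 0x100008000000018001000040002000000000000000) := T_48 (nat_lit 112) (nat_lit 111) (nat_lit 2) (nat_lit 9) (nat_lit 6) L118122 (by decide +kernel)
theorem L118124 : W_48 (nat_lit 11) (nat_lit 0x1000580060006000000000000000000000000) (nat_lit 0x0) (nat_lit 0x400f200f8003800198001e00660012000800000000000) := Q_48 (nat_lit 95) (C_48 L118094 (C_48 L118097 (C_48 L118104 (C_48 L118111 (C_48 L118120 (C_48 L118123 N_48)))))) (by decide +kernel)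
theorem L118125 : W_48 (nat_lit 12) (nat_lit 0x1000580060002000000000000000000000000) (nat_lit 0x0) (nat_lit 0x4400f200f800380039801de00ee0012000800000000000) := Q_48 (nat_lit 98) (C_48 L118068 (C_48 L118088 (C_48 L118090 (C_48 L118124 N_48)))) (by decide +kernel)
theorem L118126 : W_48 (nat_lit 15) (nat_lit 0x1000580060000000000000000000000000000) (nat_lit 0x0) (nat_lit 0x4400f200f800780039801fe00ff001e000800000000000) := Q_48 (nat_lit 97) (C_48 L118004 (C_48 L118056 (C_48 L117954 (C_48 L118125 N_48)))) (by decide +kernel)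
theorem L118127 : W_48 (nat_lit 2) (nat_lit 0x9000580070000000000000000000000000000) (nat_lit 0x0) (nat_lit 0x100000000000000002800000000000000000000000) := D_48 (nat_lit 164) (nat_lit 97) (nat_lit 95) (nat_lit 6) (nat_lit 11) (nat_lit 9) (nat_lit 4) (nat_lit 11) (nat_lit 9) (by decide +kernel)
theorem L118128 : W_48 (nat_lit 3) (nat_lit 0x9000580060000000000000000000000000000) (nat_lit 0x0) (nat_lit 0x100000000000018002800000000000000000000000) := T_48 (nat_lit 112) (nat_lit 111) (nat_lit 1) (nat_lit 12) (nat_lit 6) L118127 (by decide +kernel)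
theorem L118129 : W_48 (nat_lit 2) (nat_lit 0x180009000580060001000000000000000000000000) (nat_lit 0x0) (nat_lit 0x4000200010000000000000000000000000000000000000) := D_48 (nat_lit 165) (nat_lit 182) (nat_lit 148) (nat_lit 7) (nat_lit 11) (nat_lit 6) (nat_lit 7) (nat_lit 11) (nat_lit 5) (by decide +kernel)
theorem L118130 : W_48 (nat_lit 3) (nat_lit 0x180009000580060000000000000000000000000000) (nat_lit 0x0) (nat_lit 0x4000200014000000000001000000000000000000000000) := T_48 (nat_lit 96) (nat_lit 146) (nat_lit 5) (nat_lit 11) (nat_lit 5) L118129 (by decide +kernel)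
theorem L118131 : W_48 (nat_lit 4) (nat_lit 0x100009000580060000000000000000000000000000) (nat_lit 0x0) (nat_lit 0x5000280014000000000001000000000000000000000000) := T_48 (nat_lit 163) (nat_lit 180) (nat_lit 5) (nat_lit 11) (nat_lit 6) L118130 (by decide +kernel)
theorem L118132 : W_48 (nat_lit 5) (nat_lit 0x9000580060000000000000000000000000000) (nat_lit 0x0) (nat_lit 0x5000380014000000000003000000000000000000000000) := T_48 (nat_lit 164) (nat_lit 97) (nat_lit 6) (nat_lit 11) (nat_lit 9) L118131 (by decide +kernel)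
theorem L118133 : W_48 (nat_lit 2) (nat_lit 0x90005800f0000800000000000000000000000) (nat_lit 0x0) (nat_lit 0x100001000040000000000000000000) := D_48 (nat_lit 96) (nat_lit 116) (nat_lit 78) (nat_lit 0) (nat_lit 14) (nat_lit 6) (nat_lit 4) (nat_lit 11) (nat_lit 8) (by decide +kernel)
theorem L118134 : W_48 (nat_lit 3) (nat_lit 0x90005800f0000000000000000000000000000) (nat_lit 0x0) (nat_lit 0x100001c00040000000000000000000) := T_48 (nat_lit 95) (nat_lit 94) (nat_lit 0) (nat_lit 13) (nat_lit 6) L118133 (by decide +kernel)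
theorem L118135 : W_48 (nat_lit 4) (nat_lit 0x90005800e0000000000000000000000000000) (nat_lit 0x0) (nat_lit 0x118001c00040000000000000000000) := T_48 (nat_lit 112) (nat_lit 111) (nat_lit 1) (nat_lit 12) (nat_lit 6) L118134 (by decide +kernel)
theorem L118136 : W_48 (nat_lit 2) (nat_lit 0x90005801e0001000000000000000000000000) (nat_lit 0x0) (nat_lit 0x200002000100000000000000000000) := D_48 (nat_lit 97) (nat_lit 80) (nat_lit 117) (nat_lit 6) (nat_lit 11) (nat_lit 8) (nat_lit 0) (nat_lit 15) (nat_lit 6) (by decide +kernel)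
theorem L118137 : W_48 (nat_lit 3) (nat_lit 0x90005800e0001000000000000000000000000) (nat_lit 0x0) (nat_lit 0x300002800100000000000000000000) := T_48 (nat_lit 116) (nat_lit 95) (nat_lit 0) (nat_lit 14) (nat_lit 6) L118136 (by decide +kernel)
theorem L118138 : W_48 (nat_lit 2) (nat_lit 0x1d0005802e0003000080004000000000000000) (nat_lit 0x0) (nat_lit 0x40002000100000000000) := D_48 (nat_lit 61) (nat_lit 78) (nat_lit 44) (nat_lit 4) (nat_lit 11) (nat_lit 7) (nat_lit 4) (nat_lit 11) (nat_lit 6) (by decide +kernel)
theorem L118139 : W_48 (nat_lit 3) (nat_lit 0x1d0005802e0003000080000000000000000000) (nat_lit 0x0) (nat_lit 0x40006000300000000000) := T_48 (nat_lit 62) (nat_lit 45) (nat_lit 7) (nat_lit 11) (nat_lit 2) L118138 (by decide +kernel)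
theorem L118140 : W_48 (nat_lit 4) (nat_lit 0x1d0005802e0003000000000000000000000000) (nat_lit 0x0) (nat_lit 0x8000000000000c0006000300000000000) := T_48 (nat_lit 79) (nat_lit 131) (nat_lit 7) (nat_lit 11) (nat_lit 4) L118139 (by decide +kernel)
theorem L118141 : W_48 (nat_lit 5) (nat_lit 0xd0005802e0003000000000000000000000000) (nat_lit 0x0) (nat_lit 0x2000100008000000000000c0006000300000000000) := T_48 (nat_lit 148) (nat_lit 165) (nat_lit 7) (nat_lit 11) (nat_lit 5) L118140 (by decide +kernel)
theorem L118142 : W_48 (nat_lit 6) (nat_lit 0x90005802e0003000000000000000000000000) (nat_lit 0x0) (nat_lit 0x2800140008000000000000c0006000300000000000) := T_48 (nat_lit 146) (nat_lit 163) (nat_lit 5) (nat_lit 11) (nat_lit 5) L118141 (by decide +kernel)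
theorem L118143 : W_48 (nat_lit 7) (nat_lit 0x90005800e0003000000000000000000000000) (nat_lit 0x0) (nat_lit 0x2800140008003000000000c0006000300000000000) := T_48 (nat_lit 117) (nat_lit 116) (nat_lit 0) (nat_lit 15) (nat_lit 6) L118142 (by decide +kernel)
theorem L118144 : W_48 (nat_lit 8) (nat_lit 0x90005800e0001000000000000000000000000) (nat_lit 0x0) (nat_lit 0x2800140008003000020001c0006000300000000000) := T_48 (nat_lit 97) (nat_lit 80) (nat_lit 6) (nat_lit 11) (nat_lit 8) L118143 (by decide +kernel)
theorem L118145 : W_48 (nat_lit 2) (nat_lit 0x90005800e0001000000000000000000000000) (nat_lit 0x0) (nat_lit 0x100000800040000000000000000000) := D_48 (nat_lit 95) (nat_lit 78) (nat_lit 116) (nat_lit 4) (nat_lit 11) (nat_lit 8) (nat_lit 0) (nat_lit 14) (nat_lit 6) (by decide +kernel)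
theorem L118146 : W_48 (nat_lit 2) (nat_lit 0x190005800e0001000080000000000000000000) (nat_lit 0x0) (nat_lit 0x2000100008000000000000000) := D_48 (nat_lit 80) (nat_lit 63) (nat_lit 97) (nat_lit 6) (nat_lit 11) (nat_lit 7) (nat_lit 6) (nat_lit 11) (nat_lit 8) (by decide +kernel)
theorem L118147 : W_48 (nat_lit 3) (nat_lit 0x190005800e0001000000000000000000000000) (nat_lit 0x0) (nat_lit 0x800000002000180008000000000000000) := T_48 (nat_lit 79) (nat_lit 131) (nat_lit 7) (nat_lit 11) (nat_lit 4) L118146 (by decide +kernel)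
theorem L118148 : W_48 (nat_lit 4) (nat_lit 0x90005800e0001000000000000000000000000) (nat_lit 0x0) (nat_lit 0x200010000800000002000180008000000000000000) := T_48 (nat_lit 148) (nat_lit 165) (nat_lit 7) (nat_lit 11) (nat_lit 5) L118147 (by decide +kernel)
theorem L118149 : W_48 (nat_lit 9) (nat_lit 0x90005800e0000000000000000000000000000) (nat_lit 0x0) (nat_lit 0x2800140008003000038001c000e000300000000000) := Q_48 (nat_lit 96) (C_48 L118137 (C_48 L118144 (C_48 L118145 (C_48 L118148 N_48)))) (by decide +kernel)
theorem L118150 : W_48 (nat_lit 2) (nat_lit 0x90025803f0004000000000000000000000000) (nat_lit 0x0) (nat_lit 0x400003000000000000000000000000) := D_48 (nat_lit 97) (nat_lit 118) (nat_lit 96) (nat_lit 0) (nat_lit 16) (nat_lit 6) (nat_lit 0) (nat_lit 15) (nat_lit 6) (by decide +kernel)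
theorem L118151 : W_48 (nat_lit 3) (nat_lit 0x90025801f0004000000000000000000000000) (nat_lit 0x0) (nat_lit 0x800600003000000000000000000000000) := T_48 (nat_lit 117) (nat_lit 131) (nat_lit 1) (nat_lit 15) (nat_lit 6) L118150 (by decide +kernel)
theorem L118152 : W_48 (nat_lit 4) (nat_lit 0x90025800f0004000000000000000000000000) (nat_lit 0x0) (nat_lit 0x4800700003000000000000000000000000) := T_48 (nat_lit 116) (nat_lit 134) (nat_lit 3) (nat_lit 11) (nat_lit 6) L118151 (by decide +kernel)
theorem L118153 : W_48 (nat_lit 5) (nat_lit 0x90005800f0004000000000000000000000000) (nat_lit 0x0) (nat_lit 0x7800700003000000000000000000000000) := T_48 (nat_lit 133) (nat_lit 132) (nat_lit 3) (nat_lit 10) (nat_lit 6) L118152 (by decide +kernel)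
theorem L118154 : W_48 (nat_lit 6) (nat_lit 0x90005800f0000000000000000000000000000) (nat_lit 0x0) (nat_lit 0x780070000f000000000000000000000000) := T_48 (nat_lit 98) (nat_lit 99) (nat_lit 2) (nat_lit 10) (nat_lit 6) L118153 (by decide +kernel)
theorem L118155 : W_48 (nat_lit 7) (nat_lit 0x90005800e0000000000000000000000000000) (nat_lit 0x0) (nat_lit 0x780071800f000000000000000000000000) := T_48 (nat_lit 112) (nat_lit 111) (nat_lit 1) (nat_lit 12) (nat_lit 6) L118154 (by decide +kernel)
theorem L118156 : W_48 (nat_lit 2) (nat_lit 0x90025801f0000800000002000000000000000) (nat_lit 0x0) (nat_lit 0x1c000000000000000000000000) := D_48 (nat_lit 99) (nat_lit 100) (nat_lit 98) (nat_lit 2) (nat_lit 11) (nat_lit 6) (nat_lit 2) (nat_lit 10) (nat_lit 6) (by decide +kernel)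
theorem L118157 : W_48 (nat_lit 3) (nat_lit 0x90025800f0000800000002000000000000000) (nat_lit 0x0) (nat_lit 0x400010001c000000000000000000000000) := T_48 (nat_lit 116) (nat_lit 134) (nat_lit 3) (nat_lit 11) (nat_lit 6) L118156 (by decide +kernel)
theorem L118158 : W_48 (nat_lit 4) (nat_lit 0x90025800f0000800000000000000000000000) (nat_lit 0x0) (nat_lit 0x400010001c000040002000000000000000) := T_48 (nat_lit 61) (nat_lit 78) (nat_lit 7) (nat_lit 10) (nat_lit 3) L118157 (by decide +kernel)
theorem L118159 : W_48 (nat_lit 5) (nat_lit 0x90005800f0000800000000000000000000000) (nat_lit 0x0) (nat_lit 0x700010001c000040002000000000000000) := T_48 (nat_lit 133) (nat_lit 132) (nat_lit 3) (nat_lit 10) (nat_lit 6) L118158 (by decide +kernel)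
theorem L118160 : W_48 (nat_lit 6) (nat_lit 0x90005800f0000000000000000000000000000) (nat_lit 0x0) (nat_lit 0x700010001cc00040002000000000000000) := T_48 (nat_lit 95) (nat_lit 94) (nat_lit 0) (nat_lit 13) (nat_lit 6) L118159 (by decide +kernel)
theorem L118161 : W_48 (nat_lit 7) (nat_lit 0x90005800e0000000000000000000000000000) (nat_lit 0x0) (nat_lit 0x700011801cc00040002000000000000000) := T_48 (nat_lit 112) (nat_lit 111) (nat_lit 1) (nat_lit 12) (nat_lit 6) L118160 (by decide +kernel)
theorem L118162 : W_48 (nat_lit 2) (nat_lit 0x90005800f0000800000000000000000000000) (nat_lit 0x0) (nat_lit 0x1000040002000000000000000) := D_48 (nat_lit 78) (nat_lit 96) (nat_lit 61) (nat_lit 4) (nat_lit 11) (nat_lit 8) (nat_lit 7) (nat_lit 10) (nat_lit 3) (by decide +kernel)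
theorem L118163 : W_48 (nat_lit 3) (nat_lit 0x90005800f0000000000000000000000000000) (nat_lit 0x0) (nat_lit 0x1c00040002000000000000000) := T_48 (nat_lit 95) (nat_lit 94) (nat_lit 0) (nat_lit 13) (nat_lit 6) L118162 (by decide +kernel)
theorem L118164 : W_48 (nat_lit 4) (nat_lit 0x90005800e0000000000000000000000000000) (nat_lit 0x0) (nat_lit 0x18001c00040002000000000000000) := T_48 (nat_lit 112) (nat_lit 111) (nat_lit 1) (nat_lit 12) (nat_lit 6) L118163 (by decide +kernel)
theorem L118165 : W_48 (nat_lit 10) (nat_lit 0x9000580060000000000000000000000000000) (nat_lit 0x0) (nat_lit 0x28001400780079801fc001c000e000300000000000) := Q_48 (nat_lit 115) (C_48 L118135 (C_48 L118149 (C_48 L118155 (C_48 L118161 (C_48 L118164 N_48))))) (by decide +kernel)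
theorem L118166 : W_48 (nat_lit 2) (nat_lit 0x180009000580070001000000000000000000000000) (nat_lit 0x0) (nat_lit 0x4000200010000000000000000000000000000000000000) := D_48 (nat_lit 165) (nat_lit 182) (nat_lit 148) (nat_lit 7) (nat_lit 11) (nat_lit 6) (nat_lit 7) (nat_lit 11) (nat_lit 5) (by decide +kernel)
theorem L118167 : W_48 (nat_lit 3) (nat_lit 0x180009000580070000000000000000000000000000) (nat_lit 0x0) (nat_lit 0x4000200014000000000001000000000000000000000000) := T_48 (nat_lit 96) (nat_lit 146) (nat_lit 5) (nat_lit 11) (nat_lit 5) L118166 (by decide +kernel)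
theorem L118168 : W_48 (nat_lit 4) (nat_lit 0x100009000580070000000000000000000000000000) (nat_lit 0x0) (nat_lit 0x5000280014000000000001000000000000000000000000) := T_48 (nat_lit 163) (nat_lit 180) (nat_lit 5) (nat_lit 11) (nat_lit 6) L118167 (by decide +kernel)
theorem L118169 : W_48 (nat_lit 5) (nat_lit 0x9000580070000000000000000000000000000) (nat_lit 0x0) (nat_lit 0x5000380014000000000001800000000000000000000000) := T_48 (nat_lit 164) (nat_lit 95) (nat_lit 4) (nat_lit 11) (nat_lit 9) L118168 (by decide +kernel)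
theorem L118170 : W_48 (nat_lit 6) (nat_lit 0x9000580060000000000000000000000000000) (nat_lit 0x0) (nat_lit 0x5000380014000000018001800000000000000000000000) := T_48 (nat_lit 112) (nat_lit 111) (nat_lit 1) (nat_lit 12) (nat_lit 6) L118169 (by decide +kernel)
theorem L118171 : W_48 (nat_lit 11) (nat_lit 0x1000580060000000000000000000000000000) (nat_lit 0x0) (nat_lit 0x500038001c00780079801fc001c000e000300000000000) := Q_48 (nat_lit 147) (C_48 L118128 (C_48 L118132 (C_48 L118165 (C_48 L118170 N_48)))) (by decide +kernel)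
theorem L118172 : W_48 (nat_lit 2) (nat_lit 0x400000001000580168001c00040000000000000000000) (nat_lit 0x0) (nat_lit 0x80002000100000000000) := D_48 (nat_lit 61) (nat_lit 79) (nat_lit 44) (nat_lit 4) (nat_lit 11) (nat_lit 7) (nat_lit 7) (nat_lit 10) (nat_lit 2) (by decide +kernel)
theorem L118173 : W_48 (nat_lit 3) (nat_lit 0x400000001000580168001c00000000000000000000000) (nat_lit 0x0) (nat_lit 0x80000000000000000c0002000100000000000) := T_48 (nat_lit 78) (nat_lit 147) (nat_lit 4) (nat_lit 11) (nat_lit 8) L118172 (by decide +kernel)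
theorem L118174 : W_48 (nat_lit 4) (nat_lit 0x400000001000580068001c00000000000000000000000) (nat_lit 0x0) (nat_lit 0x80000001800000000c0002000100000000000) := T_48 (nat_lit 116) (nat_lit 115) (nat_lit 0) (nat_lit 14) (nat_lit 6) L118173 (by decide +kernel)
theorem L118175 : W_48 (nat_lit 5) (nat_lit 0x400000001000580068001400000000000000000000000) (nat_lit 0x0) (nat_lit 0x8000000180000a000c0002000100000000000) := T_48 (nat_lit 95) (nat_lit 93) (nat_lit 3) (nat_lit 8) (nat_lit 5) L118174 (by decide +kernel)
theorem L118176 : W_48 (nat_lit 6) (nat_lit 0x1000580068001400000000000000000000000) (nat_lit 0x0) (nat_lit 0x400020008000000180000a000c0002000100000000000) := T_48 (nat_lit 178) (nat_lit 161) (nat_lit 6) (nat_lit 8) (nat_lit 10) L118175 (by decide +kernel)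
theorem L118177 : W_48 (nat_lit 7) (nat_lit 0x1000580068001000000000000000000000000) (nat_lit 0x0) (nat_lit 0x400020008000000180000e000e0002000100000000000) := T_48 (nat_lit 94) (nat_lit 77) (nat_lit 5) (nat_lit 9) (nat_lit 4) L118176 (by decide +kernel)
theorem L118178 : W_48 (nat_lit 8) (nat_lit 0x1000580060001000000000000000000000000) (nat_lit 0x0) (nat_lit 0x400020008000000198000e000e0002000100000000000) := T_48 (nat_lit 111) (nat_lit 112) (nat_lit 1) (nat_lit 12) (nat_lit 6) L118177 (by decide +kernel)
theorem L118179 : W_48 (nat_lit 13) (nat_lit 0x1000580060000000000000000000000000000) (nat_lit 0x0) (nat_lit 0x4006200f800780039801fe00ff001e000300000000000) := Q_48 (nat_lit 96) (C_48 L118058 (C_48 L117950 (C_48 L117932 (C_48 L117800 (C_48 L118178 N_48))))) (by decide +kernel)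
theorem L118180 : W_48 (nat_lit 2) (nat_lit 0x1002d80060000000000000000000000000000) (nat_lit 0x0) (nat_lit 0x1000018000000000000000000000000000) := D_48 (nat_lit 112) (nat_lit 111) (nat_lit 132) (nat_lit 1) (nat_lit 12) (nat_lit 6) (nat_lit 0) (nat_lit 14) (nat_lit 7) (by decide +kernel)
theorem L118181 : W_48 (nat_lit 2) (nat_lit 0x9003d80060000000000000000000000000000) (nat_lit 0x0) (nat_lit 0x2000100000000000000002000000000000000000000000) := D_48 (nat_lit 164) (nat_lit 97) (nat_lit 181) (nat_lit 6) (nat_lit 11) (nat_lit 9) (nat_lit 6) (nat_lit 11) (nat_lit 10) (by decide +kernel)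
theorem L118182 : W_48 (nat_lit 3) (nat_lit 0x1003d80060000000000000000000000000000) (nat_lit 0x0) (nat_lit 0x200010000c000000000002000000000000000000000000) := T_48 (nat_lit 147) (nat_lit 146) (nat_lit 1) (nat_lit 14) (nat_lit 7) L118181 (by decide +kernel)
theorem L118183 : W_48 (nat_lit 4) (nat_lit 0x1002d80060000000000000000000000000000) (nat_lit 0x0) (nat_lit 0x200010000c005000000002000000000000000000000000) := T_48 (nat_lit 132) (nat_lit 134) (nat_lit 0) (nat_lit 15) (nat_lit 7) L118182 (by decide +kernel)
theorem L118184 : W_48 (nat_lit 2) (nat_lit 0x1002d800e0000000000000000000000000000) (nat_lit 0x0) (nat_lit 0x4000300000000000000000000000000000) := D_48 (nat_lit 116) (nat_lit 134) (nat_lit 117) (nat_lit 3) (nat_lit 11) (nat_lit 6) (nat_lit 1) (nat_lit 15) (nat_lit 6) (by decide +kernel)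
theorem L118185 : W_48 (nat_lit 2) (nat_lit 0x11002d800f0004800000002000000000000000) (nat_lit 0x0) (nat_lit 0x2000200010000000000000000) := D_48 (nat_lit 81) (nat_lit 64) (nat_lit 97) (nat_lit 5) (nat_lit 13) (nat_lit 3) (nat_lit 6) (nat_lit 12) (nat_lit 8) (by decide +kernel)
theorem L118186 : W_48 (nat_lit 3) (nat_lit 0x1002d800f0004800000002000000000000000) (nat_lit 0x0) (nat_lit 0x200010000000000002000200010000000000000000) := T_48 (nat_lit 148) (nat_lit 165) (nat_lit 6) (nat_lit 12) (nat_lit 9) L118185 (by decide +kernel)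
theorem L118187 : W_48 (nat_lit 4) (nat_lit 0x1002d800f0004800000000000000000000000) (nat_lit 0x0) (nat_lit 0x200010000000000002000240012000000000000000) := T_48 (nat_lit 61) (nat_lit 78) (nat_lit 7) (nat_lit 10) (nat_lit 3) L118186 (by decide +kernel)
theorem L118188 : W_48 (nat_lit 5) (nat_lit 0x1002d800f0000800000000000000000000000) (nat_lit 0x0) (nat_lit 0x20001000000000000e000240012000000000000000) := T_48 (nat_lit 98) (nat_lit 99) (nat_lit 2) (nat_lit 10) (nat_lit 6) L118187 (by decide +kernel)
theorem L118189 : W_48 (nat_lit 6) (nat_lit 0x1002d800f0000000000000000000000000000) (nat_lit 0x0) (nat_lit 0x20001000000000000ec00240012000000000000000) := T_48 (nat_lit 95) (nat_lit 94) (nat_lit 0) (nat_lit 13) (nat_lit 6) L118188 (by decide +kernel)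
theorem L118190 : W_48 (nat_lit 7) (nat_lit 0x1002d800e0000000000000000000000000000) (nat_lit 0x0) (nat_lit 0x20001000000001800ec00240012000000000000000) := T_48 (nat_lit 112) (nat_lit 111) (nat_lit 1) (nat_lit 12) (nat_lit 6) L118189 (by decide +kernel)
theorem L118191 : W_48 (nat_lit 8) (nat_lit 0x1002d80060000000000000000000000000000) (nat_lit 0x0) (nat_lit 0x20001000400039800ec00240012000000000000000) := Q_48 (nat_lit 115) (C_48 L118184 (C_48 L118190 N_48)) (by decide +kernel)
theorem L118192 : W_48 (nat_lit 9) (nat_lit 0x1000d80060000000000000000000000000000) (nat_lit 0x0) (nat_lit 0x200030001c00700039800ec00240012000000000000000) := Q_48 (nat_lit 133) (C_48 L118180 (C_48 L118183 (C_48 L118191 N_48))) (by decide +kernel)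
theorem L118193 : W_48 (nat_lit 2) (nat_lit 0x1000d80060002000000000000000000000000) (nat_lit 0x0) (nat_lit 0x8000000000000000100008000000000000000) := D_48 (nat_lit 80) (nat_lit 63) (nat_lit 147) (nat_lit 5) (nat_lit 12) (nat_lit 3) (nat_lit 5) (nat_lit 12) (nat_lit 4) (by decide +kernel)
theorem L118194 : W_48 (nat_lit 2) (nat_lit 0x4001000b1000d80068016000000000000000000000000) (nat_lit 0x0) (nat_lit 0x2000200000000000080000000000000000000000000000) := D_48 (nat_lit 165) (nat_lit 115) (nat_lit 181) (nat_lit 6) (nat_lit 12) (nat_lit 9) (nat_lit 5) (nat_lit 12) (nat_lit 6) (by decide +kernel)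
theorem L118195 : W_48 (nat_lit 3) (nat_lit 0x4000000b1000d80068016000000000000000000000000) (nat_lit 0x0) (nat_lit 0x2000300008000000080000000000000000000000000000) := T_48 (nat_lit 164) (nat_lit 147) (nat_lit 6) (nat_lit 11) (nat_lit 9) L118194 (by decide +kernel)
theorem L118196 : W_48 (nat_lit 4) (nat_lit 0xb1000d80068016000000000000000000000000) (nat_lit 0x0) (nat_lit 0x2400320008000000080000000000000000000000000000) := T_48 (nat_lit 178) (nat_lit 161) (nat_lit 6) (nat_lit 8) (nat_lit 10) L118195 (by decide +kernel)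
theorem L118197 : W_48 (nat_lit 5) (nat_lit 0xb1000d80068006000000000000000000000000) (nat_lit 0x0) (nat_lit 0x2400320008000000080018000000000000000000000000) := T_48 (nat_lit 100) (nat_lit 99) (nat_lit 1) (nat_lit 15) (nat_lit 5) L118196 (by decide +kernel)
theorem L118198 : W_48 (nat_lit 6) (nat_lit 0xb1000d80060006000000000000000000000000) (nat_lit 0x0) (nat_lit 0x2400320008000000098018000000000000000000000000) := T_48 (nat_lit 111) (nat_lit 112) (nat_lit 2) (nat_lit 9) (nat_lit 6) L118197 (by decide +kernel)
theorem L118199 : W_48 (nat_lit 7) (nat_lit 0xb1000d80060002000000000000000000000000) (nat_lit 0x0) (nat_lit 0x240032000800000009801c000200000000000000000000) := T_48 (nat_lit 98) (nat_lit 81) (nat_lit 6) (nat_lit 12) (nat_lit 8) L118198 (by decide +kernel)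
theorem L118200 : W_48 (nat_lit 8) (nat_lit 0x31000d80060002000000000000000000000000) (nat_lit 0x0) (nat_lit 0x24003200c800000009801c000200000000000000000000) := T_48 (nat_lit 151) (nat_lit 150) (nat_lit 0) (nat_lit 15) (nat_lit 8) L118199 (by decide +kernel)
theorem L118201 : W_48 (nat_lit 9) (nat_lit 0x11000d80060002000000000000000000000000) (nat_lit 0x0) (nat_lit 0x24007200e800000009801c000200000000000000000000) := T_48 (nat_lit 149) (nat_lit 166) (nat_lit 7) (nat_lit 12) (nat_lit 5) L118200 (by decide +kernel)
theorem L118202 : W_48 (nat_lit 2) (nat_lit 0x4400000079003d8006800e000000000000000000000000) (nat_lit 0x0) (nat_lit 0x300000000400000000000000000000) := D_48 (nat_lit 116) (nat_lit 117) (nat_lit 82) (nat_lit 2) (nat_lit 11) (nat_lit 7) (nat_lit 5) (nat_lit 14) (nat_lit 4) (by decide +kernel)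
theorem L118203 : W_48 (nat_lit 3) (nat_lit 0x4400000079002d8006800e000000000000000000000000) (nat_lit 0x0) (nat_lit 0x4001000300000000400000000000000000000) := T_48 (nat_lit 132) (nat_lit 146) (nat_lit 2) (nat_lit 10) (nat_lit 8) L118202 (by decide +kernel)
theorem L118204 : W_48 (nat_lit 4) (nat_lit 0x4400000079000d8006800e000000000000000000000000) (nat_lit 0x0) (nat_lit 0x4007000300000000400000000000000000000) := T_48 (nat_lit 133) (nat_lit 134) (nat_lit 2) (nat_lit 11) (nat_lit 8) L118203 (by decide +kernel)
theorem L118205 : W_48 (nat_lit 5) (nat_lit 0x4400000071000d8006800e000000000000000000000000) (nat_lit 0x0) (nat_lit 0x10000c007000300000000400000000000000000000) := T_48 (nat_lit 147) (nat_lit 164) (nat_lit 6) (nat_lit 11) (nat_lit 9) L118204 (by decide +kernel)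
theorem L118206 : W_48 (nat_lit 6) (nat_lit 0x4400000071000d80068006000000000000000000000000) (nat_lit 0x0) (nat_lit 0x10000c007000300018000400000000000000000000) := T_48 (nat_lit 99) (nat_lit 100) (nat_lit 1) (nat_lit 15) (nat_lit 5) L118205 (by decide +kernel)
theorem L118207 : W_48 (nat_lit 7) (nat_lit 0x4400000031000d80068006000000000000000000000000) (nat_lit 0x0) (nat_lit 0x1000cc007000300018000400000000000000000000) := T_48 (nat_lit 150) (nat_lit 151) (nat_lit 0) (nat_lit 15) (nat_lit 8) L118206 (by decide +kernel)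
theorem L118208 : W_48 (nat_lit 8) (nat_lit 0x4400000011000d80068006000000000000000000000000) (nat_lit 0x0) (nat_lit 0x5000ec007000300018000400000000000000000000) := T_48 (nat_lit 149) (nat_lit 166) (nat_lit 7) (nat_lit 12) (nat_lit 5) L118207 (by decide +kernel)
theorem L118209 : W_48 (nat_lit 9) (nat_lit 0x4000000011000d80068006000000000000000000000000) (nat_lit 0x0) (nat_lit 0x4005200ec007000300018000400000000000000000000) := T_48 (nat_lit 178) (nat_lit 161) (nat_lit 6) (nat_lit 8) (nat_lit 10) L118208 (by decide +kernel)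
theorem L118210 : W_48 (nat_lit 10) (nat_lit 0x11000d80068006000000000000000000000000) (nat_lit 0x0) (nat_lit 0x44007200ec007000300018000400000000000000000000) := T_48 (nat_lit 182) (nat_lit 165) (nat_lit 4) (nat_lit 12) (nat_lit 10) L118209 (by decide +kernel)
theorem L118211 : W_48 (nat_lit 11) (nat_lit 0x11000d80060006000000000000000000000000) (nat_lit 0x0) (nat_lit 0x44007200ec007000318018000400000000000000000000) := T_48 (nat_lit 111) (nat_lit 112) (nat_lit 2) (nat_lit 9) (nat_lit 6) L118210 (by decide +kernel)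
theorem L118212 : W_48 (nat_lit 12) (nat_lit 0x11000d80060002000000000000000000000000) (nat_lit 0x0) (nat_lit 0x44007200ec00700031801c000600000000000000000000) := T_48 (nat_lit 98) (nat_lit 81) (nat_lit 6) (nat_lit 12) (nat_lit 8) L118211 (by decide +kernel)
theorem L118213 : W_48 (nat_lit 2) (nat_lit 0x1000b1000d80070006000000000000000000000000) (nat_lit 0x0) (nat_lit 0x80018000000000000000000000000) := D_48 (nat_lit 99) (nat_lit 100) (nat_lit 115) (nat_lit 1) (nat_lit 15) (nat_lit 5) (nat_lit 2) (nat_lit 10) (nat_lit 6) (by decide +kernel)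
theorem L118214 : W_48 (nat_lit 3) (nat_lit 0x1000b1000d80060006000000000000000000000000) (nat_lit 0x0) (nat_lit 0x98018000000000000000000000000) := T_48 (nat_lit 112) (nat_lit 111) (nat_lit 2) (nat_lit 9) (nat_lit 6) L118213 (by decide +kernel)
theorem L118215 : W_48 (nat_lit 4) (nat_lit 0x1000b1000d80060002000000000000000000000000) (nat_lit 0x0) (nat_lit 0x9801c000200000000000000000000) := T_48 (nat_lit 98) (nat_lit 81) (nat_lit 6) (nat_lit 12) (nat_lit 8) L118214 (by decide +kernel)
theorem L118216 : W_48 (nat_lit 5) (nat_lit 0x100031000d80060002000000000000000000000000) (nat_lit 0x0) (nat_lit 0xc000000009801c000200000000000000000000) := T_48 (nat_lit 151) (nat_lit 150) (nat_lit 0) (nat_lit 15) (nat_lit 8) L118215 (by decide +kernel)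
theorem L118217 : W_48 (nat_lit 6) (nat_lit 0x100011000d80060002000000000000000000000000) (nat_lit 0x0) (nat_lit 0x4000e000000009801c000200000000000000000000) := T_48 (nat_lit 149) (nat_lit 166) (nat_lit 7) (nat_lit 12) (nat_lit 5) L118216 (by decide +kernel)
theorem L118218 : W_48 (nat_lit 7) (nat_lit 0x11000d80060002000000000000000000000000) (nat_lit 0x0) (nat_lit 0x5000e800000009801c000200000000000000000000) := T_48 (nat_lit 164) (nat_lit 147) (nat_lit 6) (nat_lit 11) (nat_lit 9) L118217 (by decide +kernel)
theorem L118219 : W_48 (nat_lit 2) (nat_lit 0x39002d80070002000000000000000000000000) (nat_lit 0x0) (nat_lit 0xc0004000000000000000000000000000000000) := D_48 (nat_lit 150) (nat_lit 134) (nat_lit 151) (nat_lit 2) (nat_lit 11) (nat_lit 8) (nat_lit 0) (nat_lit 15) (nat_lit 8) (by decide +kernel)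
theorem L118220 : W_48 (nat_lit 3) (nat_lit 0x19002d80070002000000000000000000000000) (nat_lit 0x0) (nat_lit 0x4000e0004000000000000000000000000000000000) := T_48 (nat_lit 149) (nat_lit 166) (nat_lit 7) (nat_lit 12) (nat_lit 5) L118219 (by decide +kernel)
theorem L118221 : W_48 (nat_lit 4) (nat_lit 0x11002d80070002000000000000000000000000) (nat_lit 0x0) (nat_lit 0x5000e8004000000000000000000000000000000000) := T_48 (nat_lit 147) (nat_lit 164) (nat_lit 6) (nat_lit 11) (nat_lit 9) L118220 (by decide +kernel)
theorem L118222 : W_48 (nat_lit 5) (nat_lit 0x11000d80070002000000000000000000000000) (nat_lit 0x0) (nat_lit 0x5000e8007000000000000000000000000000000000) := T_48 (nat_lit 133) (nat_lit 132) (nat_lit 0) (nat_lit 14) (nat_lit 7) L118221 (by decide +kernel)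
theorem L118223 : W_48 (nat_lit 6) (nat_lit 0x11000d80060002000000000000000000000000) (nat_lit 0x0) (nat_lit 0x5000e8007000018000000000000000000000000000) := T_48 (nat_lit 112) (nat_lit 111) (nat_lit 1) (nat_lit 12) (nat_lit 6) L118222 (by decide +kernel)
theorem L118224 : W_48 (nat_lit 2) (nat_lit 0x4000000019002d80070006000000000000000000000000) (nat_lit 0x0) (nat_lit 0x80018000000000000000000000000) := D_48 (nat_lit 99) (nat_lit 115) (nat_lit 100) (nat_lit 2) (nat_lit 10) (nat_lit 6) (nat_lit 1) (nat_lit 15) (nat_lit 5) (by decide +kernel)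
theorem L118225 : W_48 (nat_lit 3) (nat_lit 0x4000000019002d80070002000000000000000000000000) (nat_lit 0x0) (nat_lit 0x8001c000200000000000000000000) := T_48 (nat_lit 98) (nat_lit 81) (nat_lit 6) (nat_lit 12) (nat_lit 8) L118224 (by decide +kernel)
theorem L118226 : W_48 (nat_lit 4) (nat_lit 0x4000000011002d80070002000000000000000000000000) (nat_lit 0x0) (nat_lit 0x10000800000008001c000200000000000000000000) := T_48 (nat_lit 147) (nat_lit 164) (nat_lit 6) (nat_lit 11) (nat_lit 9) L118225 (by decide +kernel)
theorem L118227 : W_48 (nat_lit 5) (nat_lit 0x4000000011000d80070002000000000000000000000000) (nat_lit 0x0) (nat_lit 0x10000800300008001c000200000000000000000000) := T_48 (nat_lit 133) (nat_lit 132) (nat_lit 0) (nat_lit 14) (nat_lit 7) L118226 (by decide +kernel)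
theorem L118228 : W_48 (nat_lit 6) (nat_lit 0x4000000011000d80060002000000000000000000000000) (nat_lit 0x0) (nat_lit 0x10000800300009801c000200000000000000000000) := T_48 (nat_lit 112) (nat_lit 111) (nat_lit 1) (nat_lit 12) (nat_lit 6) L118227 (by decide +kernel)
theorem L118229 : W_48 (nat_lit 7) (nat_lit 0x11000d80060002000000000000000000000000) (nat_lit 0x0) (nat_lit 0x400030000800300009801c000200000000000000000000) := T_48 (nat_lit 182) (nat_lit 165) (nat_lit 4) (nat_lit 12) (nat_lit 10) L118228 (by decide +kernel)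
theorem L118230 : W_48 (nat_lit 13) (nat_lit 0x1000d80060002000000000000000000000000) (nat_lit 0x0) (nat_lit 0x64007200fc00700039801c000600000000000000000000) := Q_48 (nat_lit 148) (C_48 L118023 (C_48 L118201 (C_48 L118212 (C_48 L118218 (C_48 L118223 (C_48 L118229 N_48)))))) (by decide +kernel)
theorem L118231 : W_48 (nat_lit 14) (nat_lit 0x1000d80060000000000000000000000000000) (nat_lit 0x0) (nat_lit 0x64007200fc00700039801e00078001c000000000000000) := Q_48 (nat_lit 97) (C_48 L118012 (C_48 L118193 (C_48 L118230 N_48))) (by decide +kernel)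
theorem L118232 : W_48 (nat_lit 2) (nat_lit 0x300011000d80060002000000000000000000000000) (nat_lit 0x0) (nat_lit 0x80004000200000000000000000000) := D_48 (nat_lit 98) (nat_lit 81) (nat_lit 115) (nat_lit 6) (nat_lit 12) (nat_lit 8) (nat_lit 6) (nat_lit 12) (nat_lit 9) (by decide +kernel)
theorem L118233 : W_48 (nat_lit 3) (nat_lit 0x100011000d80060002000000000000000000000000) (nat_lit 0x0) (nat_lit 0x2000200000000000080004000200000000000000000000) := T_48 (nat_lit 165) (nat_lit 181) (nat_lit 5) (nat_lit 12) (nat_lit 6) L118232 (by decide +kernel)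
theorem L118234 : W_48 (nat_lit 4) (nat_lit 0x11000d80060002000000000000000000000000) (nat_lit 0x0) (nat_lit 0x2000300008000000080004000200000000000000000000) := T_48 (nat_lit 164) (nat_lit 147) (nat_lit 6) (nat_lit 11) (nat_lit 9) L118233 (by decide +kernel)
theorem L118235 : W_48 (nat_lit 2) (nat_lit 0x200011000d80060016000000000000000000000000) (nat_lit 0x0) (nat_lit 0x2000100008000000000000000000000000000000000000) := D_48 (nat_lit 164) (nat_lit 147) (nat_lit 181) (nat_lit 6) (nat_lit 11) (nat_lit 9) (nat_lit 5) (nat_lit 12) (nat_lit 6) (by decide +kernel)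
theorem L118236 : W_48 (nat_lit 3) (nat_lit 0x11000d80060016000000000000000000000000) (nat_lit 0x0) (nat_lit 0x6000300008000000000000000000000000000000000000) := T_48 (nat_lit 165) (nat_lit 182) (nat_lit 4) (nat_lit 12) (nat_lit 10) L118235 (by decide +kernel)
theorem L118237 : W_48 (nat_lit 4) (nat_lit 0x11000d80060006000000000000000000000000) (nat_lit 0x0) (nat_lit 0x6000300008000000000018000000000000000000000000) := T_48 (nat_lit 100) (nat_lit 99) (nat_lit 1) (nat_lit 15) (nat_lit 5) L118236 (by decide +kernel)
theorem L118238 : W_48 (nat_lit 5) (nat_lit 0x11000d80060002000000000000000000000000) (nat_lit 0x0) (nat_lit 0x600030000800000000001c000200000000000000000000) := T_48 (nat_lit 98) (nat_lit 81) (nat_lit 6) (nat_lit 12) (nat_lit 8) L118237 (by decide +kernel)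
theorem L118239 : W_48 (nat_lit 2) (nat_lit 0x800079002d80060016000000000000000000000000) (nat_lit 0x0) (nat_lit 0x4001000080000000000000000000000000000) := D_48 (nat_lit 132) (nat_lit 146) (nat_lit 115) (nat_lit 2) (nat_lit 10) (nat_lit 8) (nat_lit 7) (nat_lit 13) (nat_lit 5) (by decide +kernel)
theorem L118240 : W_48 (nat_lit 3) (nat_lit 0x800079000d80060016000000000000000000000000) (nat_lit 0x0) (nat_lit 0x4007000080000000000000000000000000000) := T_48 (nat_lit 133) (nat_lit 134) (nat_lit 2) (nat_lit 11) (nat_lit 8) L118239 (by decide +kernel)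
theorem L118241 : W_48 (nat_lit 4) (nat_lit 0x79000d80060016000000000000000000000000) (nat_lit 0x0) (nat_lit 0x1800004007000080000000000000000000000000000) := T_48 (nat_lit 167) (nat_lit 168) (nat_lit 3) (nat_lit 11) (nat_lit 8) L118240 (by decide +kernel)
theorem L118242 : W_48 (nat_lit 5) (nat_lit 0x79000d80060006000000000000000000000000) (nat_lit 0x0) (nat_lit 0x1800004007000080018000000000000000000000000) := T_48 (nat_lit 100) (nat_lit 99) (nat_lit 1) (nat_lit 15) (nat_lit 5) L118241 (by decide +kernel)
theorem L118243 : W_48 (nat_lit 6) (nat_lit 0x79000d80060002000000000000000000000000) (nat_lit 0x0) (nat_lit 0x180000400700008001c000200000000000000000000) := T_48 (nat_lit 98) (nat_lit 81) (nat_lit 6) (nat_lit 12) (nat_lit 8) L118242 (by decide +kernel)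
theorem L118244 : W_48 (nat_lit 7) (nat_lit 0x39000d80060002000000000000000000000000) (nat_lit 0x0) (nat_lit 0x18000c400700008001c000200000000000000000000) := T_48 (nat_lit 150) (nat_lit 151) (nat_lit 0) (nat_lit 15) (nat_lit 8) L118243 (by decide +kernel)
theorem L118245 : W_48 (nat_lit 8) (nat_lit 0x19000d80060002000000000000000000000000) (nat_lit 0x0) (nat_lit 0x1c000e400700008001c000200000000000000000000) := T_48 (nat_lit 149) (nat_lit 166) (nat_lit 7) (nat_lit 12) (nat_lit 5) L118244 (by decide +kernel)
theorem L118246 : W_48 (nat_lit 9) (nat_lit 0x11000d80060002000000000000000000000000) (nat_lit 0x0) (nat_lit 0x1d000ec00700008001c000200000000000000000000) := T_48 (nat_lit 147) (nat_lit 164) (nat_lit 6) (nat_lit 11) (nat_lit 9) L118245 (by decide +kernel)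
theorem L118247 : W_48 (nat_lit 2) (nat_lit 0x4000800079003d80160002000400000000000000000000) (nat_lit 0x0) (nat_lit 0x200010000000000000000080000000000000000000000000000) := D_48 (nat_lit 184) (nat_lit 115) (nat_lit 201) (nat_lit 4) (nat_lit 14) (nat_lit 10) (nat_lit 4) (nat_lit 14) (nat_lit 11) (by decide +kernel)
theorem L118248 : W_48 (nat_lit 3) (nat_lit 0x4000000079003d80160002000400000000000000000000) (nat_lit 0x0) (nat_lit 0x200010001800000000000080000000000000000000000000000) := T_48 (nat_lit 167) (nat_lit 168) (nat_lit 3) (nat_lit 11) (nat_lit 8) L118247 (by decide +kernel)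
theorem L118249 : W_48 (nat_lit 4) (nat_lit 0x4000000079003d80160002000000000000000000000000) (nat_lit 0x0) (nat_lit 0x200010001800000000000080008000400000000000000000000) := T_48 (nat_lit 82) (nat_lit 99) (nat_lit 5) (nat_lit 14) (nat_lit 4) L118248 (by decide +kernel)
theorem L118250 : W_48 (nat_lit 5) (nat_lit 0x4000000079003d80060002000000000000000000000000) (nat_lit 0x0) (nat_lit 0x200010001800000000000380008000400000000000000000000) := T_48 (nat_lit 116) (nat_lit 117) (nat_lit 2) (nat_lit 11) (nat_lit 7) L118249 (by decide +kernel)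
theorem L118251 : W_48 (nat_lit 6) (nat_lit 0x4000000079002d80060002000000000000000000000000) (nat_lit 0x0) (nat_lit 0x200010001800004001000380008000400000000000000000000) := T_48 (nat_lit 132) (nat_lit 146) (nat_lit 2) (nat_lit 10) (nat_lit 8) L118250 (by decide +kernel)
theorem L118252 : W_48 (nat_lit 7) (nat_lit 0x4000000079000d80060002000000000000000000000000) (nat_lit 0x0) (nat_lit 0x200010001800004007000380008000400000000000000000000) := T_48 (nat_lit 133) (nat_lit 134) (nat_lit 2) (nat_lit 11) (nat_lit 8) L118251 (by decide +kernel)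
theorem L118253 : W_48 (nat_lit 8) (nat_lit 0x4000000039000d80060002000000000000000000000000) (nat_lit 0x0) (nat_lit 0x2000100018000c4007000380008000400000000000000000000) := T_48 (nat_lit 150) (nat_lit 151) (nat_lit 0) (nat_lit 15) (nat_lit 8) L118252 (by decide +kernel)
theorem L118254 : W_48 (nat_lit 9) (nat_lit 0x4000000019000d80060002000000000000000000000000) (nat_lit 0x0) (nat_lit 0x200010001c000e4007000380008000400000000000000000000) := T_48 (nat_lit 149) (nat_lit 166) (nat_lit 7) (nat_lit 12) (nat_lit 5) L118253 (by decide +kernel)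
theorem L118255 : W_48 (nat_lit 10) (nat_lit 0x4000000011000d80060002000000000000000000000000) (nat_lit 0x0) (nat_lit 0x200010001d000ec007000380008000400000000000000000000) := T_48 (nat_lit 147) (nat_lit 164) (nat_lit 6) (nat_lit 11) (nat_lit 9) L118254 (by decide +kernel)
theorem L118256 : W_48 (nat_lit 11) (nat_lit 0x11000d80060002000000000000000000000000) (nat_lit 0x0) (nat_lit 0x200014001f000ec007000380008000400000000000000000000) := T_48 (nat_lit 182) (nat_lit 165) (nat_lit 4) (nat_lit 12) (nat_lit 10) L118255 (by decide +kernel)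
theorem L118257 : W_48 (nat_lit 12) (nat_lit 0x1000d80060002000000000000000000000000) (nat_lit 0x0) (nat_lit 0x200016001f000fc00700038001c000600000000000000000000) := Q_48 (nat_lit 148) (C_48 L118023 (C_48 L118234 (C_48 L118238 (C_48 L118246 (C_48 L118256 N_48))))) (by decide +kernel)
theorem L118258 : W_48 (nat_lit 13) (nat_lit 0x1000d80060000000000000000000000000000) (nat_lit 0x0) (nat_lit 0x200016001f000fc00700038001e00078001c000000000000000) := Q_48 (nat_lit 97) (C_48 L118012 (C_48 L118193 (C_48 L118257 N_48))) (by decide +kernel)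
theorem L118259 : W_48 (nat_lit 2) (nat_lit 0xb1002d801e800e000400020000000000000000) (nat_lit 0x0) (nat_lit 0x800040002000000000000) := D_48 (nat_lit 66) (nat_lit 49) (nat_lit 83) (nat_lit 6) (nat_lit 14) (nat_lit 6) (nat_lit 6) (nat_lit 14) (nat_lit 7) (by decide +kernel)
theorem L118260 : W_48 (nat_lit 3) (nat_lit 0xb1000d801e800e000400020000000000000000) (nat_lit 0x0) (nat_lit 0x6000000000000800040002000000000000) := T_48 (nat_lit 133) (nat_lit 134) (nat_lit 3) (nat_lit 11) (nat_lit 6) L118259 (by decide +kernel)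
theorem L118261 : W_48 (nat_lit 4) (nat_lit 0xb1000d801e800e000400000000000000000000) (nat_lit 0x0) (nat_lit 0x6000000000000800060003000000000000) := T_48 (nat_lit 65) (nat_lit 48) (nat_lit 5) (nat_lit 14) (nat_lit 2) L118260 (by decide +kernel)
theorem L118262 : W_48 (nat_lit 5) (nat_lit 0xb1000d800e800e000400000000000000000000) (nat_lit 0x0) (nat_lit 0x6000300000000800060003000000000000) := T_48 (nat_lit 116) (nat_lit 117) (nat_lit 1) (nat_lit 15) (nat_lit 6) L118261 (by decide +kernel)
theorem L118263 : W_48 (nat_lit 6) (nat_lit 0xb1000d800e800e000000000000000000000000) (nat_lit 0x0) (nat_lit 0x7000300000000c00060003000000000000) := T_48 (nat_lit 82) (nat_lit 132) (nat_lit 6) (nat_lit 13) (nat_lit 8) L118262 (by decide +kernel)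
theorem L118264 : W_48 (nat_lit 7) (nat_lit 0xb1000d8006800e000000000000000000000000) (nat_lit 0x0) (nat_lit 0x200000007000380000000c00060003000000000000) := T_48 (nat_lit 115) (nat_lit 165) (nat_lit 6) (nat_lit 12) (nat_lit 9) L118263 (by decide +kernel)
theorem L118265 : W_48 (nat_lit 8) (nat_lit 0xb1000d80068006000000000000000000000000) (nat_lit 0x0) (nat_lit 0x200000007000380018000c00060003000000000000) := T_48 (nat_lit 99) (nat_lit 100) (nat_lit 1) (nat_lit 15) (nat_lit 5) L118264 (by decide +kernel)
theorem L118266 : W_48 (nat_lit 9) (nat_lit 0xb1000d80060006000000000000000000000000) (nat_lit 0x0) (nat_lit 0x200000007000398018000c00060003000000000000) := T_48 (nat_lit 111) (nat_lit 112) (nat_lit 2) (nat_lit 9) (nat_lit 6) L118265 (by decide +kernel)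
theorem L118267 : W_48 (nat_lit 10) (nat_lit 0xb1000d80060002000000000000000000000000) (nat_lit 0x0) (nat_lit 0x20000000700039801c000e00060003000000000000) := T_48 (nat_lit 98) (nat_lit 81) (nat_lit 6) (nat_lit 12) (nat_lit 8) L118266 (by decide +kernel)
theorem L118268 : W_48 (nat_lit 11) (nat_lit 0x31000d80060002000000000000000000000000) (nat_lit 0x0) (nat_lit 0x2000c000700039801c000e00060003000000000000) := T_48 (nat_lit 151) (nat_lit 150) (nat_lit 0) (nat_lit 15) (nat_lit 8) L118267 (by decide +kernel)
theorem L118269 : W_48 (nat_lit 12) (nat_lit 0x11000d80060002000000000000000000000000) (nat_lit 0x0) (nat_lit 0x6000e000700039801c000e00060003000000000000) := T_48 (nat_lit 149) (nat_lit 166) (nat_lit 7) (nat_lit 12) (nat_lit 5) L118268 (by decide +kernel)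
theorem L118270 : W_48 (nat_lit 2) (nat_lit 0x200011000d80068006000000000000000000000000) (nat_lit 0x0) (nat_lit 0x8000400020000000000000000000000000000000000000) := D_48 (nat_lit 166) (nat_lit 149) (nat_lit 183) (nat_lit 7) (nat_lit 12) (nat_lit 5) (nat_lit 7) (nat_lit 12) (nat_lit 6) (by decide +kernel)
theorem L118271 : W_48 (nat_lit 3) (nat_lit 0x11000d80068006000000000000000000000000) (nat_lit 0x0) (nat_lit 0xc000600020000000000000000000000000000000000000) := T_48 (nat_lit 165) (nat_lit 182) (nat_lit 4) (nat_lit 12) (nat_lit 10) L118270 (by decide +kernel)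
theorem L118272 : W_48 (nat_lit 4) (nat_lit 0x11000d80060006000000000000000000000000) (nat_lit 0x0) (nat_lit 0xc000600020000000018000000000000000000000000000) := T_48 (nat_lit 111) (nat_lit 112) (nat_lit 2) (nat_lit 9) (nat_lit 6) L118271 (by decide +kernel)
theorem L118273 : W_48 (nat_lit 5) (nat_lit 0x11000d80060002000000000000000000000000) (nat_lit 0x0) (nat_lit 0xc000600020000000018004000200000000000000000000) := T_48 (nat_lit 98) (nat_lit 81) (nat_lit 6) (nat_lit 12) (nat_lit 8) L118272 (by decide +kernel)
theorem L118274 : W_48 (nat_lit 2) (nat_lit 0x11000d80070006000000000000000000000000) (nat_lit 0x0) (nat_lit 0x80018000000000000000000000000) := D_48 (nat_lit 99) (nat_lit 100) (nat_lit 115) (nat_lit 1) (nat_lit 15) (nat_lit 5) (nat_lit 2) (nat_lit 10) (nat_lit 6) (by decide +kernel)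
theorem L118275 : W_48 (nat_lit 3) (nat_lit 0x11000d80060006000000000000000000000000) (nat_lit 0x0) (nat_lit 0x98018000000000000000000000000) := T_48 (nat_lit 112) (nat_lit 111) (nat_lit 2) (nat_lit 9) (nat_lit 6) L118274 (by decide +kernel)
theorem L118276 : W_48 (nat_lit 4) (nat_lit 0x11000d80060002000000000000000000000000) (nat_lit 0x0) (nat_lit 0x9801c000200000000000000000000) := T_48 (nat_lit 98) (nat_lit 81) (nat_lit 6) (nat_lit 12) (nat_lit 8) L118275 (by decide +kernel)
theorem L118277 : W_48 (nat_lit 2) (nat_lit 0x200011002d80070002000000000000000000000000) (nat_lit 0x0) (nat_lit 0x8000400020000000000000000000000000000000000000) := D_48 (nat_lit 166) (nat_lit 149) (nat_lit 183) (nat_lit 7) (nat_lit 12) (nat_lit 5) (nat_lit 7) (nat_lit 12) (nat_lit 6) (by decide +kernel)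
theorem L118278 : W_48 (nat_lit 3) (nat_lit 0x11002d80070002000000000000000000000000) (nat_lit 0x0) (nat_lit 0xc000600020000000000000000000000000000000000000) := T_48 (nat_lit 165) (nat_lit 182) (nat_lit 4) (nat_lit 12) (nat_lit 10) L118277 (by decide +kernel)
theorem L118279 : W_48 (nat_lit 4) (nat_lit 0x11000d80070002000000000000000000000000) (nat_lit 0x0) (nat_lit 0xc000600020003000000000000000000000000000000000) := T_48 (nat_lit 133) (nat_lit 132) (nat_lit 0) (nat_lit 14) (nat_lit 7) L118278 (by decide +kernel)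
theorem L118280 : W_48 (nat_lit 5) (nat_lit 0x11000d80060002000000000000000000000000) (nat_lit 0x0) (nat_lit 0xc000600020003000018000000000000000000000000000) := T_48 (nat_lit 112) (nat_lit 111) (nat_lit 1) (nat_lit 12) (nat_lit 6) L118279 (by decide +kernel)
theorem L118281 : W_48 (nat_lit 13) (nat_lit 0x1000d80060002000000000000000000000000) (nat_lit 0x0) (nat_lit 0xc0006000f000700039801c000e00060003000000000000) := Q_48 (nat_lit 148) (C_48 L118023 (C_48 L118269 (C_48 L118273 (C_48 L118276 (C_48 L118280 N_48))))) (by decide +kernel)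
theorem L118282 : W_48 (nat_lit 14) (nat_lit 0x1000d80060000000000000000000000000000) (nat_lit 0x0) (nat_lit 0xc0006000f800700039801e000f8007c003000000000000) := Q_48 (nat_lit 97) (C_48 L118012 (C_48 L118193 (C_48 L118281 N_48))) (by decide +kernel)
theorem L118283 : W_48 (nat_lit 2) (nat_lit 0x1001d801e0008000400000000000000000000) (nat_lit 0x0) (nat_lit 0x400020000000000004000000000000000000000000) := D_48 (nat_lit 149) (nat_lit 166) (nat_lit 98) (nat_lit 6) (nat_lit 13) (nat_lit 9) (nat_lit 6) (nat_lit 13) (nat_lit 8) (by decide +kernel)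
theorem L118284 : W_48 (nat_lit 3) (nat_lit 0x1001d801e0008000000000000000000000000) (nat_lit 0x0) (nat_lit 0x400020000000000004000400020000000000000000) := T_48 (nat_lit 82) (nat_lit 65) (nat_lit 5) (nat_lit 14) (nat_lit 3) L118283 (by decide +kernel)
theorem L118285 : W_48 (nat_lit 4) (nat_lit 0x1001d801e0000000000000000000000000000) (nat_lit 0x0) (nat_lit 0x40002000000000001c000400020000000000000000) := T_48 (nat_lit 99) (nat_lit 100) (nat_lit 2) (nat_lit 11) (nat_lit 6) L118284 (by decide +kernel)
theorem L118286 : W_48 (nat_lit 5) (nat_lit 0x1001d800e0000000000000000000000000000) (nat_lit 0x0) (nat_lit 0x40002000000030001c000400020000000000000000) := T_48 (nat_lit 116) (nat_lit 117) (nat_lit 1) (nat_lit 15) (nat_lit 6) L118285 (by decide +kernel)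
theorem L118287 : W_48 (nat_lit 2) (nat_lit 0x9000d80060000000000000000000000000000) (nat_lit 0x0) (nat_lit 0x2000100000000000000002000000000000000000000000) := D_48 (nat_lit 164) (nat_lit 181) (nat_lit 97) (nat_lit 6) (nat_lit 11) (nat_lit 10) (nat_lit 6) (nat_lit 11) (nat_lit 9) (by decide +kernel)
theorem L118288 : W_48 (nat_lit 2) (nat_lit 0x9000d800f0008800000000000000000000000) (nat_lit 0x0) (nat_lit 0x300010000000000000000000000000) := D_48 (nat_lit 116) (nat_lit 117) (nat_lit 100) (nat_lit 1) (nat_lit 15) (nat_lit 6) (nat_lit 2) (nat_lit 11) (nat_lit 6) (by decide +kernel)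
theorem L118289 : W_48 (nat_lit 3) (nat_lit 0x9000d800f0000800000000000000000000000) (nat_lit 0x0) (nat_lit 0x30001c000000000000000000000000) := T_48 (nat_lit 99) (nat_lit 98) (nat_lit 2) (nat_lit 10) (nat_lit 6) L118288 (by decide +kernel)
theorem L118290 : W_48 (nat_lit 4) (nat_lit 0x9000d800f0000000000000000000000000000) (nat_lit 0x0) (nat_lit 0x30001cc00000000000000000000000) := T_48 (nat_lit 95) (nat_lit 94) (nat_lit 0) (nat_lit 13) (nat_lit 6) L118289 (by decide +kernel)
theorem L118291 : W_48 (nat_lit 5) (nat_lit 0x9000d800e0000000000000000000000000000) (nat_lit 0x0) (nat_lit 0x31801cc00000000000000000000000) := T_48 (nat_lit 112) (nat_lit 111) (nat_lit 1) (nat_lit 12) (nat_lit 6) L118290 (by decide +kernel)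
theorem L118292 : W_48 (nat_lit 2) (nat_lit 0x9003d801e0008000100000000000000000000) (nat_lit 0x0) (nat_lit 0x20000000000000000400020000000000000000) := D_48 (nat_lit 82) (nat_lit 65) (nat_lit 149) (nat_lit 5) (nat_lit 14) (nat_lit 3) (nat_lit 5) (nat_lit 14) (nat_lit 4) (by decide +kernel)
theorem L118293 : W_48 (nat_lit 3) (nat_lit 0x9002d801e0008000100000000000000000000) (nat_lit 0x0) (nat_lit 0x24001000000000000400020000000000000000) := T_48 (nat_lit 132) (nat_lit 146) (nat_lit 1) (nat_lit 14) (nat_lit 7) L118292 (by decide +kernel)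
theorem L118294 : W_48 (nat_lit 4) (nat_lit 0x9000d801e0008000100000000000000000000) (nat_lit 0x0) (nat_lit 0x24007000000000000400020000000000000000) := T_48 (nat_lit 133) (nat_lit 134) (nat_lit 3) (nat_lit 11) (nat_lit 6) L118293 (by decide +kernel)
theorem L118295 : W_48 (nat_lit 5) (nat_lit 0x9000d801e0000000100000000000000000000) (nat_lit 0x0) (nat_lit 0x24007000000018000400020000000000000000) := T_48 (nat_lit 99) (nat_lit 100) (nat_lit 2) (nat_lit 11) (nat_lit 6) L118294 (by decide +kernel)
theorem L118296 : W_48 (nat_lit 6) (nat_lit 0x9000d800e0000000100000000000000000000) (nat_lit 0x0) (nat_lit 0x24007000300018000400020000000000000000) := T_48 (nat_lit 116) (nat_lit 117) (nat_lit 1) (nat_lit 15) (nat_lit 6) L118295 (by decide +kernel)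
theorem L118297 : W_48 (nat_lit 7) (nat_lit 0x9000d800e0000000000000000000000000000) (nat_lit 0x0) (nat_lit 0x2400700030001a000500020000000000000000) := T_48 (nat_lit 80) (nat_lit 97) (nat_lit 5) (nat_lit 12) (nat_lit 4) L118296 (by decide +kernel)
theorem L118298 : W_48 (nat_lit 2) (nat_lit 0x9001d800f0004800200000000000000000000) (nat_lit 0x0) (nat_lit 0x2000100008000000000000000) := D_48 (nat_lit 80) (nat_lit 97) (nat_lit 63) (nat_lit 5) (nat_lit 12) (nat_lit 4) (nat_lit 4) (nat_lit 13) (nat_lit 7) (by decide +kernel)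
theorem L118299 : W_48 (nat_lit 3) (nat_lit 0x9001d800f0004800000000000000000000000) (nat_lit 0x0) (nat_lit 0x2000300018000000000000000) := T_48 (nat_lit 81) (nat_lit 64) (nat_lit 5) (nat_lit 13) (nat_lit 3) L118298 (by decide +kernel)
theorem L118300 : W_48 (nat_lit 4) (nat_lit 0x9001d800f0004000000000000000000000000) (nat_lit 0x0) (nat_lit 0x2c00300018000000000000000) := T_48 (nat_lit 95) (nat_lit 94) (nat_lit 0) (nat_lit 13) (nat_lit 6) L118299 (by decide +kernel)
theorem L118301 : W_48 (nat_lit 5) (nat_lit 0x9001d800f0000000000000000000000000000) (nat_lit 0x0) (nat_lit 0xec00300018000000000000000) := T_48 (nat_lit 98) (nat_lit 99) (nat_lit 2) (nat_lit 10) (nat_lit 6) L118300 (by decide +kernel)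
theorem L118302 : W_48 (nat_lit 6) (nat_lit 0x9000d800f0000000000000000000000000000) (nat_lit 0x0) (nat_lit 0x300000000ec00300018000000000000000) := T_48 (nat_lit 132) (nat_lit 133) (nat_lit 3) (nat_lit 10) (nat_lit 6) L118301 (by decide +kernel)
theorem L118303 : W_48 (nat_lit 7) (nat_lit 0x9000d800e0000000000000000000000000000) (nat_lit 0x0) (nat_lit 0x300001800ec00300018000000000000000) := T_48 (nat_lit 112) (nat_lit 111) (nat_lit 1) (nat_lit 12) (nat_lit 6) L118302 (by decide +kernel)
theorem L118304 : W_48 (nat_lit 2) (nat_lit 0x9002d800f0000000000000000000000000000) (nat_lit 0x0) (nat_lit 0x4000300000000000000000000000000000) := D_48 (nat_lit 116) (nat_lit 134) (nat_lit 117) (nat_lit 3) (nat_lit 11) (nat_lit 6) (nat_lit 1) (nat_lit 15) (nat_lit 6) (by decide +kernel)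
theorem L118305 : W_48 (nat_lit 3) (nat_lit 0x9000d800f0000000000000000000000000000) (nat_lit 0x0) (nat_lit 0x7000300000000000000000000000000000) := T_48 (nat_lit 133) (nat_lit 132) (nat_lit 3) (nat_lit 10) (nat_lit 6) L118304 (by decide +kernel)
theorem L118306 : W_48 (nat_lit 4) (nat_lit 0x9000d800e0000000000000000000000000000) (nat_lit 0x0) (nat_lit 0x7000318000000000000000000000000000) := T_48 (nat_lit 112) (nat_lit 111) (nat_lit 1) (nat_lit 12) (nat_lit 6) L118305 (by decide +kernel)
theorem L118307 : W_48 (nat_lit 8) (nat_lit 0x9000d80060000000000000000000000000000) (nat_lit 0x0) (nat_lit 0x2400700039801ec00700038000000000000000) := Q_48 (nat_lit 115) (C_48 L118291 (C_48 L118297 (C_48 L118303 (C_48 L118306 N_48)))) (by decide +kernel)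
theorem L118308 : W_48 (nat_lit 2) (nat_lit 0x9000d80070000000000000000000000000000) (nat_lit 0x0) (nat_lit 0x2000100000000000000000800000000000000000000000) := D_48 (nat_lit 164) (nat_lit 181) (nat_lit 95) (nat_lit 6) (nat_lit 11) (nat_lit 10) (nat_lit 4) (nat_lit 11) (nat_lit 9) (by decide +kernel)
theorem L118309 : W_48 (nat_lit 3) (nat_lit 0x9000d80060000000000000000000000000000) (nat_lit 0x0) (nat_lit 0x2000100000000000018000800000000000000000000000) := T_48 (nat_lit 112) (nat_lit 111) (nat_lit 1) (nat_lit 12) (nat_lit 6) L118308 (by decide +kernel)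
theorem L118310 : W_48 (nat_lit 9) (nat_lit 0x1000d80060000000000000000000000000000) (nat_lit 0x0) (nat_lit 0x200010002c00700039801ec00700038000000000000000) := Q_48 (nat_lit 147) (C_48 L118287 (C_48 L118307 (C_48 L118309 N_48))) (by decide +kernel)
theorem L118311 : W_48 (nat_lit 2) (nat_lit 0x1000d800f0008800000000000000000000000) (nat_lit 0x0) (nat_lit 0x300010000000000000000000000000) := D_48 (nat_lit 116) (nat_lit 117) (nat_lit 100) (nat_lit 1) (nat_lit 15) (nat_lit 6) (nat_lit 2) (nat_lit 11) (nat_lit 6) (by decide +kernel)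
theorem L118312 : W_48 (nat_lit 3) (nat_lit 0x1000d800f0000800000000000000000000000) (nat_lit 0x0) (nat_lit 0x30001c000000000000000000000000) := T_48 (nat_lit 99) (nat_lit 98) (nat_lit 2) (nat_lit 10) (nat_lit 6) L118311 (by decide +kernel)
theorem L118313 : W_48 (nat_lit 4) (nat_lit 0x1000d800f0000000000000000000000000000) (nat_lit 0x0) (nat_lit 0x30001cc00000000000000000000000) := T_48 (nat_lit 95) (nat_lit 94) (nat_lit 0) (nat_lit 13) (nat_lit 6) L118312 (by decide +kernel)
theorem L118314 : W_48 (nat_lit 5) (nat_lit 0x1000d800e0000000000000000000000000000) (nat_lit 0x0) (nat_lit 0x31801cc00000000000000000000000) := T_48 (nat_lit 112) (nat_lit 111) (nat_lit 1) (nat_lit 12) (nat_lit 6) L118313 (by decide +kernel)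
theorem L118315 : W_48 (nat_lit 2) (nat_lit 0x10000180069003d802e0000000000000000000000000000) (nat_lit 0x0) (nat_lit 0x4000600000000000000000000000000000000000000000) := D_48 (nat_lit 165) (nat_lit 182) (nat_lit 166) (nat_lit 7) (nat_lit 11) (nat_lit 6) (nat_lit 2) (nat_lit 10) (nat_lit 9) (by decide +kernel)
theorem L118316 : W_48 (nat_lit 3) (nat_lit 0x10000180049003d802e0000000000000000000000000000) (nat_lit 0x0) (nat_lit 0x4000600030000000000000000000000000000000000000) := T_48 (nat_lit 149) (nat_lit 148) (nat_lit 1) (nat_lit 14) (nat_lit 8) L118315 (by decide +kernel)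
theorem L118317 : W_48 (nat_lit 4) (nat_lit 0x10000100049003d802e0000000000000000000000000000) (nat_lit 0x0) (nat_lit 0x5000680030000000000000000000000000000000000000) := T_48 (nat_lit 163) (nat_lit 180) (nat_lit 5) (nat_lit 11) (nat_lit 6) L118316 (by decide +kernel)
theorem L118318 : W_48 (nat_lit 5) (nat_lit 0x10000000049003d802e0000000000000000000000000000) (nat_lit 0x0) (nat_lit 0x7000780030000000000000000000000000000000000000) := T_48 (nat_lit 164) (nat_lit 181) (nat_lit 6) (nat_lit 11) (nat_lit 10) L118317 (by decide +kernel)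
theorem L118319 : W_48 (nat_lit 6) (nat_lit 0x49003d802e0000000000000000000000000000) (nat_lit 0x0) (nat_lit 0x17000f80030000000000000000000000000000000000000) := T_48 (nat_lit 184) (nat_lit 167) (nat_lit 4) (nat_lit 14) (nat_lit 10) L118318 (by decide +kernel)
theorem L118320 : W_48 (nat_lit 7) (nat_lit 0x41003d802e0000000000000000000000000000) (nat_lit 0x0) (nat_lit 0x17000f8003c000000000000000000000000000000000000) := T_48 (nat_lit 147) (nat_lit 146) (nat_lit 1) (nat_lit 14) (nat_lit 7) L118319 (by decide +kernel)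
theorem L118321 : W_48 (nat_lit 8) (nat_lit 0x1003d802e0000000000000000000000000000) (nat_lit 0x0) (nat_lit 0x17000f800fc000000000000000000000000000000000000) := T_48 (nat_lit 150) (nat_lit 151) (nat_lit 3) (nat_lit 11) (nat_lit 7) L118320 (by decide +kernel)
theorem L118322 : W_48 (nat_lit 9) (nat_lit 0x1001d802e0000000000000000000000000000) (nat_lit 0x0) (nat_lit 0x17000f800fc006000000000000000000000000000000000) := T_48 (nat_lit 133) (nat_lit 134) (nat_lit 0) (nat_lit 15) (nat_lit 7) L118321 (by decide +kernel)
theorem L118323 : W_48 (nat_lit 10) (nat_lit 0x1001d800e0000000000000000000000000000) (nat_lit 0x0) (nat_lit 0x17000f800fc006000300000000000000000000000000000) := T_48 (nat_lit 117) (nat_lit 116) (nat_lit 1) (nat_lit 15) (nat_lit 6) L118322 (by decide +kernel)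
theorem L118324 : W_48 (nat_lit 2) (nat_lit 0x1005d801e000c000400000000000000000000) (nat_lit 0x0) (nat_lit 0x10000000000000000200010000000000000000) := D_48 (nat_lit 81) (nat_lit 148) (nat_lit 64) (nat_lit 5) (nat_lit 13) (nat_lit 4) (nat_lit 5) (nat_lit 13) (nat_lit 3) (by decide +kernel)
theorem L118325 : W_48 (nat_lit 3) (nat_lit 0x1005d801e0008000400000000000000000000) (nat_lit 0x0) (nat_lit 0x30000000000004000200010000000000000000) := T_48 (nat_lit 98) (nat_lit 149) (nat_lit 6) (nat_lit 13) (nat_lit 8) L118324 (by decide +kernel)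
theorem L118326 : W_48 (nat_lit 4) (nat_lit 0x1005d801e0008000000000000000000000000) (nat_lit 0x0) (nat_lit 0x30000000000004000600030000000000000000) := T_48 (nat_lit 82) (nat_lit 65) (nat_lit 5) (nat_lit 14) (nat_lit 3) L118325 (by decide +kernel)
theorem L118327 : W_48 (nat_lit 5) (nat_lit 0x1005d801e0000000000000000000000000000) (nat_lit 0x0) (nat_lit 0x3000000000001c000600030000000000000000) := T_48 (nat_lit 99) (nat_lit 100) (nat_lit 2) (nat_lit 11) (nat_lit 6) L118326 (by decide +kernel)
theorem L118328 : W_48 (nat_lit 6) (nat_lit 0x1005d800e0000000000000000000000000000) (nat_lit 0x0) (nat_lit 0x3000000030001c000600030000000000000000) := T_48 (nat_lit 116) (nat_lit 117) (nat_lit 1) (nat_lit 15) (nat_lit 6) L118327 (by decide +kernel)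
theorem L118329 : W_48 (nat_lit 7) (nat_lit 0x1001d800e0000000000000000000000000000) (nat_lit 0x0) (nat_lit 0x3000600030001c000600030000000000000000) := T_48 (nat_lit 134) (nat_lit 133) (nat_lit 0) (nat_lit 15) (nat_lit 7) L118328 (by decide +kernel)
theorem L118330 : W_48 (nat_lit 2) (nat_lit 0x10000380049003d800e0000000200000000000000000000) (nat_lit 0x0) (nat_lit 0x8000400020000000000000000000000000000000000000) := D_48 (nat_lit 166) (nat_lit 183) (nat_lit 149) (nat_lit 3) (nat_lit 10) (nat_lit 9) (nat_lit 2) (nat_lit 10) (nat_lit 9) (by decide +kernel)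
theorem L118331 : W_48 (nat_lit 3) (nat_lit 0x10000300049003d800e0000000200000000000000000000) (nat_lit 0x0) (nat_lit 0x9000480020000000000000000000000000000000000000) := T_48 (nat_lit 163) (nat_lit 180) (nat_lit 5) (nat_lit 11) (nat_lit 6) L118330 (by decide +kernel)
theorem L118332 : W_48 (nat_lit 4) (nat_lit 0x10000100049003d800e0000000200000000000000000000) (nat_lit 0x0) (nat_lit 0xd000680020000000000000000000000000000000000000) := T_48 (nat_lit 165) (nat_lit 182) (nat_lit 7) (nat_lit 11) (nat_lit 6) L118331 (by decide +kernel)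
theorem L118333 : W_48 (nat_lit 5) (nat_lit 0x100049003d800e0000000200000000000000000000) (nat_lit 0x0) (nat_lit 0x1d000e80020000000000000000000000000000000000000) := T_48 (nat_lit 184) (nat_lit 167) (nat_lit 4) (nat_lit 14) (nat_lit 10) L118332 (by decide +kernel)
theorem L118334 : W_48 (nat_lit 6) (nat_lit 0x49003d800e0000000200000000000000000000) (nat_lit 0x0) (nat_lit 0x1f000f80020000000000000000000000000000000000000) := T_48 (nat_lit 164) (nat_lit 181) (nat_lit 6) (nat_lit 11) (nat_lit 10) L118333 (by decide +kernel)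
theorem L118335 : W_48 (nat_lit 7) (nat_lit 0x49003d800e0000000000000000000000000000) (nat_lit 0x0) (nat_lit 0x1f000f80020000000000004000200000000000000000000) := T_48 (nat_lit 81) (nat_lit 98) (nat_lit 7) (nat_lit 13) (nat_lit 4) L118334 (by decide +kernel)
theorem L118336 : W_48 (nat_lit 8) (nat_lit 0x41003d800e0000000000000000000000000000) (nat_lit 0x0) (nat_lit 0x1f000f8002c000000000004000200000000000000000000) := T_48 (nat_lit 147) (nat_lit 146) (nat_lit 1) (nat_lit 14) (nat_lit 7) L118335 (by decide +kernel)
theorem L118337 : W_48 (nat_lit 9) (nat_lit 0x1003d800e0000000000000000000000000000) (nat_lit 0x0) (nat_lit 0x1f000f800ec000000000004000200000000000000000000) := T_48 (nat_lit 150) (nat_lit 151) (nat_lit 3) (nat_lit 11) (nat_lit 7) L118336 (by decide +kernel)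
theorem L118338 : W_48 (nat_lit 10) (nat_lit 0x1001d800e0000000000000000000000000000) (nat_lit 0x0) (nat_lit 0x1f000f800ec006000000004000200000000000000000000) := T_48 (nat_lit 133) (nat_lit 134) (nat_lit 0) (nat_lit 15) (nat_lit 7) L118337 (by decide +kernel)
theorem L118339 : W_48 (nat_lit 2) (nat_lit 0x100049003d802e0004000000000000000000000000) (nat_lit 0x0) (nat_lit 0x4000200010000000000000000000000000000000000000) := D_48 (nat_lit 165) (nat_lit 182) (nat_lit 148) (nat_lit 7) (nat_lit 11) (nat_lit 6) (nat_lit 6) (nat_lit 12) (nat_lit 9) (by decide +kernel)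
theorem L118340 : W_48 (nat_lit 3) (nat_lit 0x100049003d802e0000000000000000000000000000) (nat_lit 0x0) (nat_lit 0x4000200010000000000004000200000000000000000000) := T_48 (nat_lit 98) (nat_lit 81) (nat_lit 7) (nat_lit 13) (nat_lit 4) L118339 (by decide +kernel)
theorem L118341 : W_48 (nat_lit 4) (nat_lit 0x49003d802e0000000000000000000000000000) (nat_lit 0x0) (nat_lit 0x6000300010000000000004000200000000000000000000) := T_48 (nat_lit 164) (nat_lit 181) (nat_lit 6) (nat_lit 11) (nat_lit 10) L118340 (by decide +kernel)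
theorem L118342 : W_48 (nat_lit 5) (nat_lit 0x9003d802e0000000000000000000000000000) (nat_lit 0x0) (nat_lit 0x60003000d0000000000004000200000000000000000000) := T_48 (nat_lit 150) (nat_lit 151) (nat_lit 3) (nat_lit 11) (nat_lit 7) L118341 (by decide +kernel)
theorem L118343 : W_48 (nat_lit 6) (nat_lit 0x1003d802e0000000000000000000000000000) (nat_lit 0x0) (nat_lit 0x60003000dc000000000004000200000000000000000000) := T_48 (nat_lit 147) (nat_lit 146) (nat_lit 1) (nat_lit 14) (nat_lit 7) L118342 (by decide +kernel)
theorem L118344 : W_48 (nat_lit 7) (nat_lit 0x1003d800e0000000000000000000000000000) (nat_lit 0x0) (nat_lit 0x60003000dc000000300004000200000000000000000000) := T_48 (nat_lit 117) (nat_lit 116) (nat_lit 2) (nat_lit 11) (nat_lit 7) L118343 (by decide +kernel)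
theorem L118345 : W_48 (nat_lit 8) (nat_lit 0x1001d800e0000000000000000000000000000) (nat_lit 0x0) (nat_lit 0x60003000dc006000300004000200000000000000000000) := T_48 (nat_lit 133) (nat_lit 134) (nat_lit 0) (nat_lit 15) (nat_lit 7) L118344 (by decide +kernel)
theorem L118346 : W_48 (nat_lit 11) (nat_lit 0x1000d800e0000000000000000000000000000) (nat_lit 0x0) (nat_lit 0x1f000f800fc00700030001c000600030000000000000000) := Q_48 (nat_lit 132) (C_48 L118286 (C_48 L118323 (C_48 L118329 (C_48 L118338 (C_48 L118345 N_48))))) (by decide +kernel)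
theorem L118347 : W_48 (nat_lit 2) (nat_lit 0x1000d801f0000000000000000000000000000) (nat_lit 0x0) (nat_lit 0x7000000000000000000000000000000000) := D_48 (nat_lit 133) (nat_lit 132) (nat_lit 134) (nat_lit 3) (nat_lit 10) (nat_lit 6) (nat_lit 3) (nat_lit 11) (nat_lit 6) (by decide +kernel)
theorem L118348 : W_48 (nat_lit 3) (nat_lit 0x1000d801e0000000000000000000000000000) (nat_lit 0x0) (nat_lit 0x7000018000000000000000000000000000) := T_48 (nat_lit 112) (nat_lit 111) (nat_lit 1) (nat_lit 12) (nat_lit 6) L118347 (by decide +kernel)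
theorem L118349 : W_48 (nat_lit 4) (nat_lit 0x1000d800e0000000000000000000000000000) (nat_lit 0x0) (nat_lit 0x7000318000000000000000000000000000) := T_48 (nat_lit 116) (nat_lit 117) (nat_lit 1) (nat_lit 15) (nat_lit 6) L118348 (by decide +kernel)
theorem L118350 : W_48 (nat_lit 2) (nat_lit 0x1001d800f0004000000000000000000000000) (nat_lit 0x0) (nat_lit 0x10000000000000000200010000000000000000) := D_48 (nat_lit 81) (nat_lit 64) (nat_lit 148) (nat_lit 5) (nat_lit 13) (nat_lit 3) (nat_lit 5) (nat_lit 13) (nat_lit 4) (by decide +kernel)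
theorem L118351 : W_48 (nat_lit 3) (nat_lit 0x1001d800f0000000000000000000000000000) (nat_lit 0x0) (nat_lit 0x1000000000000c000200010000000000000000) := T_48 (nat_lit 98) (nat_lit 99) (nat_lit 2) (nat_lit 10) (nat_lit 6) L118350 (by decide +kernel)
theorem L118352 : W_48 (nat_lit 4) (nat_lit 0x1000d800f0000000000000000000000000000) (nat_lit 0x0) (nat_lit 0x1000300000000c000200010000000000000000) := T_48 (nat_lit 132) (nat_lit 133) (nat_lit 3) (nat_lit 10) (nat_lit 6) L118351 (by decide +kernel)
theorem L118353 : W_48 (nat_lit 5) (nat_lit 0x1000d800e0000000000000000000000000000) (nat_lit 0x0) (nat_lit 0x1000300001800c000200010000000000000000) := T_48 (nat_lit 112) (nat_lit 111) (nat_lit 1) (nat_lit 12) (nat_lit 6) L118352 (by decide +kernel)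
theorem L118354 : W_48 (nat_lit 12) (nat_lit 0x1000d80060000000000000000000000000000) (nat_lit 0x0) (nat_lit 0x1f000f800fc00700039801cc00600030000000000000000) := Q_48 (nat_lit 115) (C_48 L118314 (C_48 L118346 (C_48 L118349 (C_48 L118353 N_48)))) (by decide +kernel)
theorem L118355 : W_48 (nat_lit 2) (nat_lit 0x1003d801e0008000000000000000000000000) (nat_lit 0x0) (nat_lit 0x20000000000000000400020000000000000000) := D_48 (nat_lit 82) (nat_lit 65) (nat_lit 149) (nat_lit 5) (nat_lit 14) (nat_lit 3) (nat_lit 5) (nat_lit 14) (nat_lit 4) (by decide +kernel)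
theorem L118356 : W_48 (nat_lit 3) (nat_lit 0x1003d801e0000000000000000000000000000) (nat_lit 0x0) (nat_lit 0x20000000000018000400020000000000000000) := T_48 (nat_lit 99) (nat_lit 100) (nat_lit 2) (nat_lit 11) (nat_lit 6) L118355 (by decide +kernel)
theorem L118357 : W_48 (nat_lit 4) (nat_lit 0x1001d801e0000000000000000000000000000) (nat_lit 0x0) (nat_lit 0x20006000000018000400020000000000000000) := T_48 (nat_lit 133) (nat_lit 134) (nat_lit 3) (nat_lit 11) (nat_lit 6) L118356 (by decide +kernel)
theorem L118358 : W_48 (nat_lit 5) (nat_lit 0x1001d800e0000000000000000000000000000) (nat_lit 0x0) (nat_lit 0x20006000300018000400020000000000000000) := T_48 (nat_lit 116) (nat_lit 117) (nat_lit 1) (nat_lit 15) (nat_lit 6) L118357 (by decide +kernel)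
theorem L118359 : W_48 (nat_lit 2) (nat_lit 0x800041003d800e0000000000000000000000000000) (nat_lit 0x0) (nat_lit 0x20000000000004000200000000000000000000) := D_48 (nat_lit 98) (nat_lit 81) (nat_lit 149) (nat_lit 7) (nat_lit 13) (nat_lit 4) (nat_lit 7) (nat_lit 13) (nat_lit 5) (by decide +kernel)
theorem L118360 : W_48 (nat_lit 3) (nat_lit 0x41003d800e0000000000000000000000000000) (nat_lit 0x0) (nat_lit 0x10000800020000000000004000200000000000000000000) := T_48 (nat_lit 167) (nat_lit 184) (nat_lit 4) (nat_lit 14) (nat_lit 10) L118359 (by decide +kernel)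
theorem L118361 : W_48 (nat_lit 4) (nat_lit 0x1003d800e0000000000000000000000000000) (nat_lit 0x0) (nat_lit 0x100008000e0000000000004000200000000000000000000) := T_48 (nat_lit 150) (nat_lit 151) (nat_lit 3) (nat_lit 11) (nat_lit 7) L118360 (by decide +kernel)
theorem L118362 : W_48 (nat_lit 5) (nat_lit 0x1001d800e0000000000000000000000000000) (nat_lit 0x0) (nat_lit 0x100008000e0006000000004000200000000000000000000) := T_48 (nat_lit 133) (nat_lit 134) (nat_lit 0) (nat_lit 15) (nat_lit 7) L118361 (by decide +kernel)
theorem L118363 : W_48 (nat_lit 2) (nat_lit 0x41003d801e0000000000000000000000000000) (nat_lit 0x0) (nat_lit 0x10000800000000000000004000000000000000000000000) := D_48 (nat_lit 167) (nat_lit 98) (nat_lit 184) (nat_lit 4) (nat_lit 14) (nat_lit 9) (nat_lit 4) (nat_lit 14) (nat_lit 10) (by decide +kernel)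
theorem L118364 : W_48 (nat_lit 3) (nat_lit 0x1003d801e0000000000000000000000000000) (nat_lit 0x0) (nat_lit 0x100008000c0000000000004000000000000000000000000) := T_48 (nat_lit 150) (nat_lit 151) (nat_lit 3) (nat_lit 11) (nat_lit 7) L118363 (by decide +kernel)
theorem L118365 : W_48 (nat_lit 4) (nat_lit 0x1003d800e0000000000000000000000000000) (nat_lit 0x0) (nat_lit 0x100008000c0000000300004000000000000000000000000) := T_48 (nat_lit 116) (nat_lit 117) (nat_lit 2) (nat_lit 11) (nat_lit 7) L118364 (by decide +kernel)
theorem L118366 : W_48 (nat_lit 5) (nat_lit 0x1001d800e0000000000000000000000000000) (nat_lit 0x0) (nat_lit 0x100008000c0006000300004000000000000000000000000) := T_48 (nat_lit 133) (nat_lit 134) (nat_lit 0) (nat_lit 15) (nat_lit 7) L118365 (by decide +kernel)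
theorem L118367 : W_48 (nat_lit 8) (nat_lit 0x1000d800e0000000000000000000000000000) (nat_lit 0x0) (nat_lit 0x10000c000f000700030001c000600030000000000000000) := Q_48 (nat_lit 132) (C_48 L118286 (C_48 L118329 (C_48 L118358 (C_48 L118362 (C_48 L118366 N_48))))) (by decide +kernel)
theorem L118368 : W_48 (nat_lit 9) (nat_lit 0x1000d80060000000000000000000000000000) (nat_lit 0x0) (nat_lit 0x10000c000f000700039801cc00600030000000000000000) := Q_48 (nat_lit 115) (C_48 L118314 (C_48 L118353 (C_48 L118367 (C_48 L118349 N_48)))) (by decide +kernel)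
theorem L118369 : W_48 (nat_lit 7) (nat_lit 0x1000d80060002000000000000000000000000) (nat_lit 0x0) (nat_lit 0xe0007000f800700001801c000200000000000000000000) := Q_48 (nat_lit 148) (C_48 L118273 (C_48 L118280 (C_48 L118238 (C_48 L118223 N_48)))) (by decide +kernel)
theorem L118370 : W_48 (nat_lit 2) (nat_lit 0x200011002d80070002000380000000000000000000) (nat_lit 0x0) (nat_lit 0x8000400020000000000000000000000000000000000000) := D_48 (nat_lit 166) (nat_lit 149) (nat_lit 183) (nat_lit 7) (nat_lit 12) (nat_lit 5) (nat_lit 7) (nat_lit 12) (nat_lit 6) (by decide +kernel)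
theorem L118371 : W_48 (nat_lit 3) (nat_lit 0x11002d80070002000380000000000000000000) (nat_lit 0x0) (nat_lit 0xc000600020000000000000000000000000000000000000) := T_48 (nat_lit 165) (nat_lit 182) (nat_lit 4) (nat_lit 12) (nat_lit 10) L118370 (by decide +kernel)
theorem L118372 : W_48 (nat_lit 4) (nat_lit 0x1002d80070002000380000000000000000000) (nat_lit 0x0) (nat_lit 0xc000600030000000000004000000000000000000000000) := T_48 (nat_lit 148) (nat_lit 98) (nat_lit 6) (nat_lit 12) (nat_lit 8) L118371 (by decide +kernel)
theorem L118373 : W_48 (nat_lit 5) (nat_lit 0x1002d80070002000180000000000000000000) (nat_lit 0x0) (nat_lit 0xc000600030000000000004000200010000000000000000) := T_48 (nat_lit 81) (nat_lit 64) (nat_lit 6) (nat_lit 12) (nat_lit 7) L118372 (by decide +kernel)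
theorem L118374 : W_48 (nat_lit 6) (nat_lit 0x1002d80070002000100000000000000000000) (nat_lit 0x0) (nat_lit 0xc000600030000000000004000280014000000000000000) := T_48 (nat_lit 79) (nat_lit 62) (nat_lit 4) (nat_lit 12) (nat_lit 7) L118373 (by decide +kernel)
theorem L118375 : W_48 (nat_lit 7) (nat_lit 0x1002d80070002000000000000000000000000) (nat_lit 0x0) (nat_lit 0xc00060003000000000000400038001c000000000000000) := T_48 (nat_lit 80) (nat_lit 63) (nat_lit 5) (nat_lit 12) (nat_lit 3) L118374 (by decide +kernel)
theorem L118376 : W_48 (nat_lit 8) (nat_lit 0x1000d80070002000000000000000000000000) (nat_lit 0x0) (nat_lit 0xc00060003000300000000400038001c000000000000000) := T_48 (nat_lit 133) (nat_lit 132) (nat_lit 0) (nat_lit 14) (nat_lit 7) L118375 (by decide +kernel)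
theorem L118377 : W_48 (nat_lit 9) (nat_lit 0x1000d80060002000000000000000000000000) (nat_lit 0x0) (nat_lit 0xc00060003000300001800400038001c000000000000000) := T_48 (nat_lit 112) (nat_lit 111) (nat_lit 1) (nat_lit 12) (nat_lit 6) L118376 (by decide +kernel)
theorem L118378 : W_48 (nat_lit 10) (nat_lit 0x1000d80060000000000000000000000000000) (nat_lit 0x0) (nat_lit 0xe0007000f800700001801e00038001c000000000000000) := Q_48 (nat_lit 97) (C_48 L118193 (C_48 L118369 (C_48 L118377 N_48))) (by decide +kernel)
theorem L118379 : W_48 (nat_lit 2) (nat_lit 0x100011000d80060002000000000000000000000000) (nat_lit 0x0) (nat_lit 0x6000200000000000000000000000000000000000000000) := D_48 (nat_lit 165) (nat_lit 181) (nat_lit 182) (nat_lit 5) (nat_lit 12) (nat_lit 6) (nat_lit 4) (nat_lit 12) (nat_lit 10) (by decide +kernel)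
theorem L118380 : W_48 (nat_lit 3) (nat_lit 0x11000d80060002000000000000000000000000) (nat_lit 0x0) (nat_lit 0x6000300008000000000000000000000000000000000000) := T_48 (nat_lit 164) (nat_lit 147) (nat_lit 6) (nat_lit 11) (nat_lit 9) L118379 (by decide +kernel)
theorem L118381 : W_48 (nat_lit 7) (nat_lit 0x1000d80060002000000000000000000000000) (nat_lit 0x0) (nat_lit 0xe0007000f8007000018000000000000000000000000000) := Q_48 (nat_lit 148) (C_48 L118380 (C_48 L118280 (C_48 L118223 N_48))) (by decide +kernel)
theorem L118382 : W_48 (nat_lit 2) (nat_lit 0x1000d80070002000100000000000000000000) (nat_lit 0x0) (nat_lit 0x20003000000000000000000000000000000000) := D_48 (nat_lit 132) (nat_lit 133) (nat_lit 149) (nat_lit 0) (nat_lit 14) (nat_lit 7) (nat_lit 7) (nat_lit 12) (nat_lit 4) (by decide +kernel)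
theorem L118383 : W_48 (nat_lit 3) (nat_lit 0x1000d80060002000100000000000000000000) (nat_lit 0x0) (nat_lit 0x20003000018000000000000000000000000000) := T_48 (nat_lit 112) (nat_lit 111) (nat_lit 1) (nat_lit 12) (nat_lit 6) L118382 (by decide +kernel)
theorem L118384 : W_48 (nat_lit 4) (nat_lit 0x1000d80060002000000000000000000000000) (nat_lit 0x0) (nat_lit 0x20003000018000000100008000000000000000) := T_48 (nat_lit 80) (nat_lit 63) (nat_lit 5) (nat_lit 12) (nat_lit 3) L118383 (by decide +kernel)
theorem L118385 : W_48 (nat_lit 8) (nat_lit 0x1000d80060000000000000000000000000000) (nat_lit 0x0) (nat_lit 0xe0007000f8007000018002000100008000000000000000) := Q_48 (nat_lit 97) (C_48 L118193 (C_48 L118381 (C_48 L118384 N_48))) (by decide +kernel)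
theorem L118386 : W_48 (nat_lit 5) (nat_lit 0x1000d80060002000000000000000000000000) (nat_lit 0x0) (nat_lit 0x600030001800000009801c000200000000000000000000) := Q_48 (nat_lit 148) (C_48 L118380 (C_48 L118276 N_48)) (by decide +kernel)
theorem L118387 : W_48 (nat_lit 2) (nat_lit 0x200011000d80070002000380000000000000000000) (nat_lit 0x0) (nat_lit 0x8000400020000000000000000000000000000000000000) := D_48 (nat_lit 166) (nat_lit 149) (nat_lit 183) (nat_lit 7) (nat_lit 12) (nat_lit 5) (nat_lit 7) (nat_lit 12) (nat_lit 6) (by decide +kernel)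
theorem L118388 : W_48 (nat_lit 3) (nat_lit 0x11000d80070002000380000000000000000000) (nat_lit 0x0) (nat_lit 0xc000600020000000000000000000000000000000000000) := T_48 (nat_lit 165) (nat_lit 182) (nat_lit 4) (nat_lit 12) (nat_lit 10) L118387 (by decide +kernel)
theorem L118389 : W_48 (nat_lit 4) (nat_lit 0x1000d80070002000380000000000000000000) (nat_lit 0x0) (nat_lit 0xc000600030000000000004000000000000000000000000) := T_48 (nat_lit 148) (nat_lit 98) (nat_lit 6) (nat_lit 12) (nat_lit 8) L118388 (by decide +kernel)
theorem L118390 : W_48 (nat_lit 5) (nat_lit 0x1000d80070002000180000000000000000000) (nat_lit 0x0) (nat_lit 0xc000600030000000000004000200010000000000000000) := T_48 (nat_lit 81) (nat_lit 64) (nat_lit 6) (nat_lit 12) (nat_lit 7) L118389 (by decide +kernel)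
theorem L118391 : W_48 (nat_lit 6) (nat_lit 0x1000d80070002000100000000000000000000) (nat_lit 0x0) (nat_lit 0xc000600030000000000004000280014000000000000000) := T_48 (nat_lit 79) (nat_lit 62) (nat_lit 4) (nat_lit 12) (nat_lit 7) L118390 (by decide +kernel)
theorem L118392 : W_48 (nat_lit 7) (nat_lit 0x1000d80070002000000000000000000000000) (nat_lit 0x0) (nat_lit 0xc00060003000000000000400038001c000000000000000) := T_48 (nat_lit 80) (nat_lit 63) (nat_lit 5) (nat_lit 12) (nat_lit 3) L118391 (by decide +kernel)
theorem L118393 : W_48 (nat_lit 8) (nat_lit 0x1000d80060002000000000000000000000000) (nat_lit 0x0) (nat_lit 0xc00060003000000001800400038001c000000000000000) := T_48 (nat_lit 112) (nat_lit 111) (nat_lit 1) (nat_lit 12) (nat_lit 6) L118392 (by decide +kernel)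
theorem L118394 : W_48 (nat_lit 9) (nat_lit 0x1000d80060000000000000000000000000000) (nat_lit 0x0) (nat_lit 0xe00070003800000009801e00038001c000000000000000) := Q_48 (nat_lit 97) (C_48 L118193 (C_48 L118386 (C_48 L118393 N_48))) (by decide +kernel)
theorem L118395 : W_48 (nat_lit 15) (nat_lit 0x1000580060000000000000000000000000000) (nat_lit 0x0) (nat_lit 0x20001f401fa00fc00780039801ec00fc007e003000000000000) := Q_48 (nat_lit 131) (C_48 L118192 (C_48 L118231 (C_48 L118258 (C_48 L118282 (C_48 L118310 (C_48 L118354 (C_48 L118368 (C_48 L118378 (C_48 L118385 (C_48 L118394 N_48)))))))))) (by decide +kernel)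
theorem L118396 : W_48 (nat_lit 2) (nat_lit 0x10000100058006000f800400000000000000000000) (nat_lit 0x0) (nat_lit 0x380000000000000000000000000000) := D_48 (nat_lit 116) (nat_lit 115) (nat_lit 117) (nat_lit 3) (nat_lit 10) (nat_lit 5) (nat_lit 3) (nat_lit 11) (nat_lit 5) (by decide +kernel)
theorem L118397 : W_48 (nat_lit 3) (nat_lit 0x10000100058006000f000400000000000000000000) (nat_lit 0x0) (nat_lit 0x380000800200000000000000000000) := T_48 (nat_lit 95) (nat_lit 81) (nat_lit 2) (nat_lit 10) (nat_lit 5) L118396 (by decide +kernel)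
theorem L118398 : W_48 (nat_lit 4) (nat_lit 0x10000100058006000f000000000000000000000000) (nat_lit 0x0) (nat_lit 0x380000800e00000000000000000000) := T_48 (nat_lit 82) (nat_lit 83) (nat_lit 2) (nat_lit 11) (nat_lit 5) L118397 (by decide +kernel)
theorem L118399 : W_48 (nat_lit 5) (nat_lit 0x100001000580060007000000000000000000000000) (nat_lit 0x0) (nat_lit 0x380018800e00000000000000000000) := T_48 (nat_lit 99) (nat_lit 100) (nat_lit 1) (nat_lit 15) (nat_lit 5) L118398 (by decide +kernel)
theorem L118400 : W_48 (nat_lit 6) (nat_lit 0x1000580060007000000000000000000000000) (nat_lit 0x0) (nat_lit 0x100008000000380018800e00000000000000000000) := T_48 (nat_lit 164) (nat_lit 147) (nat_lit 6) (nat_lit 11) (nat_lit 9) L118399 (by decide +kernel)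
theorem L118401 : W_48 (nat_lit 2) (nat_lit 0x1d000580060017000000000000000000000000) (nat_lit 0x0) (nat_lit 0x800000000000280000000000000000000) := D_48 (nat_lit 131) (nat_lit 79) (nat_lit 81) (nat_lit 7) (nat_lit 11) (nat_lit 4) (nat_lit 6) (nat_lit 12) (nat_lit 8) (by decide +kernel)
theorem L118402 : W_48 (nat_lit 3) (nat_lit 0xd000580060017000000000000000000000000) (nat_lit 0x0) (nat_lit 0x200010000800000000000280000000000000000000) := T_48 (nat_lit 148) (nat_lit 165) (nat_lit 7) (nat_lit 11) (nat_lit 5) L118401 (by decide +kernel)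
theorem L118403 : W_48 (nat_lit 4) (nat_lit 0x9000580060017000000000000000000000000) (nat_lit 0x0) (nat_lit 0x280014000800000000000280000000000000000000) := T_48 (nat_lit 146) (nat_lit 163) (nat_lit 5) (nat_lit 11) (nat_lit 5) L118402 (by decide +kernel)
theorem L118404 : W_48 (nat_lit 5) (nat_lit 0x1000580060017000000000000000000000000) (nat_lit 0x0) (nat_lit 0x38001c000800000000000280000000000000000000) := T_48 (nat_lit 147) (nat_lit 164) (nat_lit 6) (nat_lit 11) (nat_lit 9) L118403 (by decide +kernel)
theorem L118405 : W_48 (nat_lit 6) (nat_lit 0x1000580060007000000000000000000000000) (nat_lit 0x0) (nat_lit 0x38001c000800000018000280000000000000000000) := T_48 (nat_lit 100) (nat_lit 99) (nat_lit 1) (nat_lit 15) (nat_lit 5) L118404 (by decide +kernel)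
theorem L118406 : W_48 (nat_lit 2) (nat_lit 0x100058006000f800400000000000000000000) (nat_lit 0x0) (nat_lit 0x380000000000000000000000000000) := D_48 (nat_lit 116) (nat_lit 115) (nat_lit 117) (nat_lit 3) (nat_lit 10) (nat_lit 5) (nat_lit 3) (nat_lit 11) (nat_lit 5) (by decide +kernel)
theorem L118407 : W_48 (nat_lit 3) (nat_lit 0x100058006000f000400000000000000000000) (nat_lit 0x0) (nat_lit 0x380000800200000000000000000000) := T_48 (nat_lit 95) (nat_lit 81) (nat_lit 2) (nat_lit 10) (nat_lit 5) L118406 (by decide +kernel)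
theorem L118408 : W_48 (nat_lit 4) (nat_lit 0x100058006000f000000000000000000000000) (nat_lit 0x0) (nat_lit 0x380000800e00000000000000000000) := T_48 (nat_lit 82) (nat_lit 83) (nat_lit 2) (nat_lit 11) (nat_lit 5) L118407 (by decide +kernel)
theorem L118409 : W_48 (nat_lit 5) (nat_lit 0x1000580060007000000000000000000000000) (nat_lit 0x0) (nat_lit 0x380018800e00000000000000000000) := T_48 (nat_lit 99) (nat_lit 100) (nat_lit 1) (nat_lit 15) (nat_lit 5) L118408 (by decide +kernel)
theorem L118410 : W_48 (nat_lit 4) (nat_lit 0x1d000d80060017000000000000000000000000) (nat_lit 0x0) (nat_lit 0x4000e0007000000000000000000000000000000000) := T_48 (nat_lit 133) (nat_lit 132) (nat_lit 1) (nat_lit 14) (nat_lit 7) L117986 (by decide +kernel)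
theorem L118411 : W_48 (nat_lit 5) (nat_lit 0x1d000580060017000000000000000000000000) (nat_lit 0x0) (nat_lit 0x4000e0007800000000000080000000000000000000) := T_48 (nat_lit 131) (nat_lit 79) (nat_lit 7) (nat_lit 11) (nat_lit 4) L118410 (by decide +kernel)
theorem L118412 : W_48 (nat_lit 6) (nat_lit 0xd000580060017000000000000000000000000) (nat_lit 0x0) (nat_lit 0x6000f0007800000000000080000000000000000000) := T_48 (nat_lit 148) (nat_lit 165) (nat_lit 7) (nat_lit 11) (nat_lit 5) L118411 (by decide +kernel)
theorem L118413 : W_48 (nat_lit 7) (nat_lit 0x9000580060017000000000000000000000000) (nat_lit 0x0) (nat_lit 0x6800f4007800000000000080000000000000000000) := T_48 (nat_lit 146) (nat_lit 163) (nat_lit 5) (nat_lit 11) (nat_lit 5) L118412 (by decide +kernel)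
theorem L118414 : W_48 (nat_lit 8) (nat_lit 0x1000580060017000000000000000000000000) (nat_lit 0x0) (nat_lit 0x7800fc007800000000000080000000000000000000) := T_48 (nat_lit 147) (nat_lit 164) (nat_lit 6) (nat_lit 11) (nat_lit 9) L118413 (by decide +kernel)
theorem L118415 : W_48 (nat_lit 9) (nat_lit 0x1000580060007000000000000000000000000) (nat_lit 0x0) (nat_lit 0x7800fc007800000018000080000000000000000000) := T_48 (nat_lit 100) (nat_lit 99) (nat_lit 1) (nat_lit 15) (nat_lit 5) L118414 (by decide +kernel)
theorem L118416 : W_48 (nat_lit 2) (nat_lit 0x1d000580060007000000000000000000000000) (nat_lit 0x0) (nat_lit 0x800000000000280000000000000000000) := D_48 (nat_lit 131) (nat_lit 79) (nat_lit 81) (nat_lit 7) (nat_lit 11) (nat_lit 4) (nat_lit 6) (nat_lit 12) (nat_lit 8) (by decide +kernel)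
theorem L118417 : W_48 (nat_lit 3) (nat_lit 0xd000580060007000000000000000000000000) (nat_lit 0x0) (nat_lit 0x200010000800000000000280000000000000000000) := T_48 (nat_lit 148) (nat_lit 165) (nat_lit 7) (nat_lit 11) (nat_lit 5) L118416 (by decide +kernel)
theorem L118418 : W_48 (nat_lit 4) (nat_lit 0x9000580060007000000000000000000000000) (nat_lit 0x0) (nat_lit 0x280014000800000000000280000000000000000000) := T_48 (nat_lit 146) (nat_lit 163) (nat_lit 5) (nat_lit 11) (nat_lit 5) L118417 (by decide +kernel)
theorem L118419 : W_48 (nat_lit 5) (nat_lit 0x1000580060007000000000000000000000000) (nat_lit 0x0) (nat_lit 0x38001c000800000000000280000000000000000000) := T_48 (nat_lit 147) (nat_lit 164) (nat_lit 6) (nat_lit 11) (nat_lit 9) L118418 (by decide +kernel)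
theorem L118420 : W_48 (nat_lit 10) (nat_lit 0x1000580060006000000000000000000000000) (nat_lit 0x0) (nat_lit 0x7800fc007800380019800e80000000000000000000) := Q_48 (nat_lit 96) (C_48 L118400 (C_48 L118405 (C_48 L118409 (C_48 L118415 (C_48 L118419 N_48))))) (by decide +kernel)
theorem L118421 : W_48 (nat_lit 2) (nat_lit 0x40000001d000580068007400000000000000000000000) (nat_lit 0x0) (nat_lit 0x80000a00000000000000000000000) := D_48 (nat_lit 95) (nat_lit 115) (nat_lit 93) (nat_lit 3) (nat_lit 9) (nat_lit 5) (nat_lit 3) (nat_lit 8) (nat_lit 5) (by decide +kernel)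
theorem L118422 : W_48 (nat_lit 3) (nat_lit 0x40000001d000580068007000000000000000000000000) (nat_lit 0x0) (nat_lit 0x80000e00020000000000000000000) := T_48 (nat_lit 94) (nat_lit 77) (nat_lit 5) (nat_lit 9) (nat_lit 4) L118421 (by decide +kernel)
theorem L118423 : W_48 (nat_lit 4) (nat_lit 0x1d000580068007000000000000000000000000) (nat_lit 0x0) (nat_lit 0x400020000000000080000e00020000000000000000000) := T_48 (nat_lit 178) (nat_lit 161) (nat_lit 6) (nat_lit 8) (nat_lit 10) L118422 (by decide +kernel)
theorem L118424 : W_48 (nat_lit 5) (nat_lit 0x19000580068007000000000000000000000000) (nat_lit 0x0) (nat_lit 0x4000a0004000000080000e00020000000000000000000) := T_48 (nat_lit 146) (nat_lit 163) (nat_lit 5) (nat_lit 11) (nat_lit 5) L118423 (by decide +kernel)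
theorem L118425 : W_48 (nat_lit 6) (nat_lit 0x19000580068006000000000000000000000000) (nat_lit 0x0) (nat_lit 0x4002a0004000000080001e00020000000000000000000) := T_48 (nat_lit 96) (nat_lit 165) (nat_lit 7) (nat_lit 11) (nat_lit 5) L118424 (by decide +kernel)
theorem L118426 : W_48 (nat_lit 7) (nat_lit 0x19000580060006000000000000000000000000) (nat_lit 0x0) (nat_lit 0x4002a0004000000098001e00020000000000000000000) := T_48 (nat_lit 111) (nat_lit 112) (nat_lit 2) (nat_lit 9) (nat_lit 6) L118425 (by decide +kernel)
theorem L118427 : W_48 (nat_lit 8) (nat_lit 0x11000580060006000000000000000000000000) (nat_lit 0x0) (nat_lit 0x4003a000c000000098001e00020000000000000000000) := T_48 (nat_lit 147) (nat_lit 164) (nat_lit 6) (nat_lit 11) (nat_lit 9) L118426 (by decide +kernel)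
theorem L118428 : W_48 (nat_lit 2) (nat_lit 0x400100011000d80068006000020000000000000000000) (nat_lit 0x0) (nat_lit 0x2000200000000000000001000000000000000000000000) := D_48 (nat_lit 165) (nat_lit 181) (nat_lit 96) (nat_lit 5) (nat_lit 12) (nat_lit 6) (nat_lit 4) (nat_lit 12) (nat_lit 9) (by decide +kernel)
theorem L118429 : W_48 (nat_lit 3) (nat_lit 0x400100011000580068006000020000000000000000000) (nat_lit 0x0) (nat_lit 0x2000200000000800000001000200000000000000000000) := T_48 (nat_lit 131) (nat_lit 81) (nat_lit 6) (nat_lit 12) (nat_lit 8) L118428 (by decide +kernel)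
theorem L118430 : W_48 (nat_lit 4) (nat_lit 0x400100011000580068006000000000000000000000000) (nat_lit 0x0) (nat_lit 0x2000200000000800000001400220000000000000000000) := T_48 (nat_lit 77) (nat_lit 94) (nat_lit 5) (nat_lit 9) (nat_lit 4) L118429 (by decide +kernel)
theorem L118431 : W_48 (nat_lit 5) (nat_lit 0x100011000580068006000000000000000000000000) (nat_lit 0x0) (nat_lit 0x2400220000000800000001400220000000000000000000) := T_48 (nat_lit 178) (nat_lit 161) (nat_lit 6) (nat_lit 8) (nat_lit 10) L118430 (by decide +kernel)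
theorem L118432 : W_48 (nat_lit 6) (nat_lit 0x11000580068006000000000000000000000000) (nat_lit 0x0) (nat_lit 0x2400320008000800000001400220000000000000000000) := T_48 (nat_lit 164) (nat_lit 147) (nat_lit 6) (nat_lit 11) (nat_lit 9) L118431 (by decide +kernel)
theorem L118433 : W_48 (nat_lit 7) (nat_lit 0x11000580060006000000000000000000000000) (nat_lit 0x0) (nat_lit 0x2400320008000800018001400220000000000000000000) := T_48 (nat_lit 111) (nat_lit 112) (nat_lit 2) (nat_lit 9) (nat_lit 6) L118432 (by decide +kernel)
theorem L118434 : W_48 (nat_lit 2) (nat_lit 0x4000000bd001d80068007400000000000000000000000) (nat_lit 0x0) (nat_lit 0x80000a00000000000000000000000) := D_48 (nat_lit 95) (nat_lit 115) (nat_lit 93) (nat_lit 3) (nat_lit 9) (nat_lit 5) (nat_lit 3) (nat_lit 8) (nat_lit 5) (by decide +kernel)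
theorem L118435 : W_48 (nat_lit 3) (nat_lit 0x4000000bd001d80068007000000000000000000000000) (nat_lit 0x0) (nat_lit 0x80000e00020000000000000000000) := T_48 (nat_lit 94) (nat_lit 77) (nat_lit 5) (nat_lit 9) (nat_lit 4) L118434 (by decide +kernel)
theorem L118436 : W_48 (nat_lit 4) (nat_lit 0xbd001d80068007000000000000000000000000) (nat_lit 0x0) (nat_lit 0x400020000000000080000e00020000000000000000000) := T_48 (nat_lit 178) (nat_lit 161) (nat_lit 6) (nat_lit 8) (nat_lit 10) L118435 (by decide +kernel)
theorem L118437 : W_48 (nat_lit 5) (nat_lit 0xbd001d80060007000000000000000000000000) (nat_lit 0x0) (nat_lit 0x400020000000000098000e00020000000000000000000) := T_48 (nat_lit 111) (nat_lit 112) (nat_lit 3) (nat_lit 9) (nat_lit 6) L118436 (by decide +kernel)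
theorem L118438 : W_48 (nat_lit 6) (nat_lit 0xbd000d80060007000000000000000000000000) (nat_lit 0x0) (nat_lit 0x400020000003000098000e00020000000000000000000) := T_48 (nat_lit 132) (nat_lit 133) (nat_lit 2) (nat_lit 10) (nat_lit 8) L118437 (by decide +kernel)
theorem L118439 : W_48 (nat_lit 7) (nat_lit 0xb9000d80060007000000000000000000000000) (nat_lit 0x0) (nat_lit 0x4000a0004003000098000e00020000000000000000000) := T_48 (nat_lit 146) (nat_lit 163) (nat_lit 5) (nat_lit 11) (nat_lit 5) L118438 (by decide +kernel)
theorem L118440 : W_48 (nat_lit 8) (nat_lit 0xb9000d80060006000000000000000000000000) (nat_lit 0x0) (nat_lit 0x4000a0004003000098001e000a0000000000000000000) := T_48 (nat_lit 96) (nat_lit 79) (nat_lit 7) (nat_lit 11) (nat_lit 4) L118439 (by decide +kernel)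
theorem L118441 : W_48 (nat_lit 9) (nat_lit 0x39000d80060006000000000000000000000000) (nat_lit 0x0) (nat_lit 0x4000a00c4003000098001e000a0000000000000000000) := T_48 (nat_lit 151) (nat_lit 150) (nat_lit 0) (nat_lit 15) (nat_lit 8) L118440 (by decide +kernel)
theorem L118442 : W_48 (nat_lit 10) (nat_lit 0x19000d80060006000000000000000000000000) (nat_lit 0x0) (nat_lit 0x4004a00e4003000098001e000a0000000000000000000) := T_48 (nat_lit 149) (nat_lit 166) (nat_lit 7) (nat_lit 12) (nat_lit 5) L118441 (by decide +kernel)
theorem L118443 : W_48 (nat_lit 11) (nat_lit 0x11000d80060006000000000000000000000000) (nat_lit 0x0) (nat_lit 0x4005a00ec003000098001e000a0000000000000000000) := T_48 (nat_lit 147) (nat_lit 164) (nat_lit 6) (nat_lit 11) (nat_lit 9) L118442 (by decide +kernel)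
theorem L118444 : W_48 (nat_lit 12) (nat_lit 0x11000580060006000000000000000000000000) (nat_lit 0x0) (nat_lit 0x4005a00ec003800098001e002a0000000000000000000) := T_48 (nat_lit 131) (nat_lit 81) (nat_lit 6) (nat_lit 12) (nat_lit 8) L118443 (by decide +kernel)
theorem L118445 : W_48 (nat_lit 13) (nat_lit 0x1000580060006000000000000000000000000) (nat_lit 0x0) (nat_lit 0x64007a00fc003800098001e002a0000000000000000000) := Q_48 (nat_lit 148) (C_48 L118073 (C_48 L118427 (C_48 L118433 (C_48 L118444 N_48)))) (by decide +kernel)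
theorem L118446 : W_48 (nat_lit 14) (nat_lit 0x1000580060002000000000000000000000000) (nat_lit 0x0) (nat_lit 0x64007a00fc00780039801de00ea0000000000000000000) := Q_48 (nat_lit 98) (C_48 L118090 (C_48 L118420 (C_48 L118068 (C_48 L118445 N_48)))) (by decide +kernel)
theorem L118447 : W_48 (nat_lit 2) (nat_lit 0x1003d80060016000380000000000000000000) (nat_lit 0x0) (nat_lit 0xc0000000080000000000000000000000000000) := D_48 (nat_lit 150) (nat_lit 115) (nat_lit 151) (nat_lit 7) (nat_lit 13) (nat_lit 4) (nat_lit 3) (nat_lit 11) (nat_lit 7) (by decide +kernel)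
theorem L118448 : W_48 (nat_lit 3) (nat_lit 0x1003d80060016000180000000000000000000) (nat_lit 0x0) (nat_lit 0xc0000000080000000200010000000000000000) := T_48 (nat_lit 81) (nat_lit 64) (nat_lit 6) (nat_lit 12) (nat_lit 7) L118447 (by decide +kernel)
theorem L118449 : W_48 (nat_lit 4) (nat_lit 0x1001d80060016000180000000000000000000) (nat_lit 0x0) (nat_lit 0xc0006000080000000200010000000000000000) := T_48 (nat_lit 133) (nat_lit 134) (nat_lit 0) (nat_lit 15) (nat_lit 7) L118448 (by decide +kernel)
theorem L118450 : W_48 (nat_lit 5) (nat_lit 0x1000d80060016000180000000000000000000) (nat_lit 0x0) (nat_lit 0xe0007000080000000200010000000000000000) := T_48 (nat_lit 132) (nat_lit 149) (nat_lit 7) (nat_lit 12) (nat_lit 4) L118449 (by decide +kernel)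
theorem L118451 : W_48 (nat_lit 6) (nat_lit 0x1000d80060016000100000000000000000000) (nat_lit 0x0) (nat_lit 0xe0007000080000000280014000000000000000) := T_48 (nat_lit 79) (nat_lit 62) (nat_lit 4) (nat_lit 12) (nat_lit 7) L118450 (by decide +kernel)
theorem L118452 : W_48 (nat_lit 7) (nat_lit 0x1000d80060016000000000000000000000000) (nat_lit 0x0) (nat_lit 0xe000700008000000038001c000000000000000) := T_48 (nat_lit 80) (nat_lit 63) (nat_lit 5) (nat_lit 12) (nat_lit 3) L118451 (by decide +kernel)
theorem L118453 : W_48 (nat_lit 8) (nat_lit 0x1000d80060006000000000000000000000000) (nat_lit 0x0) (nat_lit 0xe000700008001800038001c000000000000000) := T_48 (nat_lit 100) (nat_lit 99) (nat_lit 1) (nat_lit 15) (nat_lit 5) L118452 (by decide +kernel)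
theorem L118454 : W_48 (nat_lit 2) (nat_lit 0x11000d80060006000000008000000000000000) (nat_lit 0x0) (nat_lit 0x4000200000000000000001000000000000000000000000) := D_48 (nat_lit 165) (nat_lit 182) (nat_lit 96) (nat_lit 4) (nat_lit 12) (nat_lit 10) (nat_lit 4) (nat_lit 12) (nat_lit 9) (by decide +kernel)
theorem L118455 : W_48 (nat_lit 3) (nat_lit 0x1000d80060006000000008000000000000000) (nat_lit 0x0) (nat_lit 0x4000200010000000000001000200000000000000000000) := T_48 (nat_lit 148) (nat_lit 81) (nat_lit 6) (nat_lit 12) (nat_lit 8) L118454 (by decide +kernel)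
theorem L118456 : W_48 (nat_lit 4) (nat_lit 0x1000d80060006000000000000000000000000) (nat_lit 0x0) (nat_lit 0x4000200010000000000001000300008000000000000000) := T_48 (nat_lit 63) (nat_lit 80) (nat_lit 5) (nat_lit 12) (nat_lit 3) L118455 (by decide +kernel)
theorem L118457 : W_48 (nat_lit 3) (nat_lit 0x1000d80060006000000000000000000000000) (nat_lit 0x0) (nat_lit 0x4000200010000000080000000200000000000000000000) := T_48 (nat_lit 148) (nat_lit 81) (nat_lit 6) (nat_lit 12) (nat_lit 8) L118072 (by decide +kernel)
theorem L118458 : W_48 (nat_lit 2) (nat_lit 0x11005d80060016000180000000000000000000) (nat_lit 0x0) (nat_lit 0x4000200000000000080000000000000000000000000000) := D_48 (nat_lit 165) (nat_lit 115) (nat_lit 182) (nat_lit 6) (nat_lit 12) (nat_lit 9) (nat_lit 4) (nat_lit 12) (nat_lit 10) (by decide +kernel)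
theorem L118459 : W_48 (nat_lit 3) (nat_lit 0x1005d80060016000180000000000000000000) (nat_lit 0x0) (nat_lit 0x4000200010000000080001000000000000000000000000) := T_48 (nat_lit 148) (nat_lit 96) (nat_lit 7) (nat_lit 11) (nat_lit 4) L118458 (by decide +kernel)
theorem L118460 : W_48 (nat_lit 4) (nat_lit 0x1005d80060016000100000000000000000000) (nat_lit 0x0) (nat_lit 0x4000200010000000080001000080004000000000000000) := T_48 (nat_lit 79) (nat_lit 62) (nat_lit 4) (nat_lit 12) (nat_lit 7) L118459 (by decide +kernel)
theorem L118461 : W_48 (nat_lit 5) (nat_lit 0x1001d80060016000100000000000000000000) (nat_lit 0x0) (nat_lit 0x4000200010006000080001000080004000000000000000) := T_48 (nat_lit 134) (nat_lit 133) (nat_lit 0) (nat_lit 15) (nat_lit 7) L118460 (by decide +kernel)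
theorem L118462 : W_48 (nat_lit 6) (nat_lit 0x1000d80060016000100000000000000000000) (nat_lit 0x0) (nat_lit 0x4000200030007000080001000080004000000000000000) := T_48 (nat_lit 132) (nat_lit 149) (nat_lit 7) (nat_lit 12) (nat_lit 4) L118461 (by decide +kernel)
theorem L118463 : W_48 (nat_lit 7) (nat_lit 0x1000d80060006000100000000000000000000) (nat_lit 0x0) (nat_lit 0x4000200030007000080019000080004000000000000000) := T_48 (nat_lit 100) (nat_lit 99) (nat_lit 1) (nat_lit 15) (nat_lit 5) L118462 (by decide +kernel)
theorem L118464 : W_48 (nat_lit 8) (nat_lit 0x1000d80060006000000000000000000000000) (nat_lit 0x0) (nat_lit 0x400020003000700008001900018000c000000000000000) := T_48 (nat_lit 80) (nat_lit 63) (nat_lit 5) (nat_lit 12) (nat_lit 3) L118463 (by decide +kernel)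
theorem L118465 : W_48 (nat_lit 9) (nat_lit 0x1000580060006000000000000000000000000) (nat_lit 0x0) (nat_lit 0x40002000f000780008001900038001c000000000000000) := Q_48 (nat_lit 131) (C_48 L118453 (C_48 L118456 (C_48 L118457 (C_48 L118464 N_48)))) (by decide +kernel)
theorem L118466 : W_48 (nat_lit 2) (nat_lit 0x400000001003d800680060003a0000000000000000000) (nat_lit 0x0) (nat_lit 0xc0000000080000000000000000000000000000) := D_48 (nat_lit 150) (nat_lit 151) (nat_lit 115) (nat_lit 3) (nat_lit 11) (nat_lit 7) (nat_lit 7) (nat_lit 13) (nat_lit 4) (by decide +kernel)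
theorem L118467 : W_48 (nat_lit 3) (nat_lit 0x400000001001d800680060003a0000000000000000000) (nat_lit 0x0) (nat_lit 0xc0006000080000000000000000000000000000) := T_48 (nat_lit 133) (nat_lit 134) (nat_lit 0) (nat_lit 15) (nat_lit 7) L118466 (by decide +kernel)
theorem L118468 : W_48 (nat_lit 4) (nat_lit 0x400000001000d800680060003a0000000000000000000) (nat_lit 0x0) (nat_lit 0xe0007000080000000000000000000000000000) := T_48 (nat_lit 132) (nat_lit 149) (nat_lit 7) (nat_lit 12) (nat_lit 4) L118467 (by decide +kernel)
theorem L118469 : W_48 (nat_lit 5) (nat_lit 0x400000001000d80068006000320000000000000000000) (nat_lit 0x0) (nat_lit 0xe0007000080000000080004000000000000000) := T_48 (nat_lit 79) (nat_lit 62) (nat_lit 4) (nat_lit 12) (nat_lit 7) L118468 (by decide +kernel)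
theorem L118470 : W_48 (nat_lit 6) (nat_lit 0x1000d80068006000320000000000000000000) (nat_lit 0x0) (nat_lit 0x4000200e0007000080000000080004000000000000000) := T_48 (nat_lit 178) (nat_lit 161) (nat_lit 6) (nat_lit 8) (nat_lit 10) L118469 (by decide +kernel)
theorem L118471 : W_48 (nat_lit 7) (nat_lit 0x1000d80068006000300000000000000000000) (nat_lit 0x0) (nat_lit 0x4000200e00070000800004000a0004000000000000000) := T_48 (nat_lit 77) (nat_lit 94) (nat_lit 5) (nat_lit 9) (nat_lit 4) L118470 (by decide +kernel)
theorem L118472 : W_48 (nat_lit 8) (nat_lit 0x1000d80068006000100000000000000000000) (nat_lit 0x0) (nat_lit 0x4000200e00070000800004002a0014000000000000000) := T_48 (nat_lit 81) (nat_lit 64) (nat_lit 6) (nat_lit 12) (nat_lit 7) L118471 (by decide +kernel)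
theorem L118473 : W_48 (nat_lit 9) (nat_lit 0x1000d80060006000100000000000000000000) (nat_lit 0x0) (nat_lit 0x4000200e00070000980004002a0014000000000000000) := T_48 (nat_lit 111) (nat_lit 112) (nat_lit 2) (nat_lit 9) (nat_lit 6) L118472 (by decide +kernel)
theorem L118474 : W_48 (nat_lit 10) (nat_lit 0x1000d80060006000000000000000000000000) (nat_lit 0x0) (nat_lit 0x4000200e00070000980004003a001c000000000000000) := T_48 (nat_lit 80) (nat_lit 63) (nat_lit 5) (nat_lit 12) (nat_lit 3) L118473 (by decide +kernel)
theorem L118475 : W_48 (nat_lit 2) (nat_lit 0x11002d80070006000180000000000000000000) (nat_lit 0x0) (nat_lit 0x4000200000000000080000000000000000000000000000) := D_48 (nat_lit 165) (nat_lit 115) (nat_lit 182) (nat_lit 6) (nat_lit 12) (nat_lit 9) (nat_lit 4) (nat_lit 12) (nat_lit 10) (by decide +kernel)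
theorem L118476 : W_48 (nat_lit 3) (nat_lit 0x1002d80070006000180000000000000000000) (nat_lit 0x0) (nat_lit 0x4000200010000000080001000000000000000000000000) := T_48 (nat_lit 148) (nat_lit 96) (nat_lit 7) (nat_lit 11) (nat_lit 4) L118475 (by decide +kernel)
theorem L118477 : W_48 (nat_lit 4) (nat_lit 0x1002d80070006000100000000000000000000) (nat_lit 0x0) (nat_lit 0x4000200010000000080001000080004000000000000000) := T_48 (nat_lit 79) (nat_lit 62) (nat_lit 4) (nat_lit 12) (nat_lit 7) L118476 (by decide +kernel)
theorem L118478 : W_48 (nat_lit 5) (nat_lit 0x1002d80070006000000000000000000000000) (nat_lit 0x0) (nat_lit 0x400020001000000008000100018000c000000000000000) := T_48 (nat_lit 80) (nat_lit 63) (nat_lit 5) (nat_lit 12) (nat_lit 3) L118477 (by decide +kernel)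
theorem L118479 : W_48 (nat_lit 6) (nat_lit 0x1000d80070006000000000000000000000000) (nat_lit 0x0) (nat_lit 0x400020001000300008000100018000c000000000000000) := T_48 (nat_lit 133) (nat_lit 132) (nat_lit 0) (nat_lit 14) (nat_lit 7) L118478 (by decide +kernel)
theorem L118480 : W_48 (nat_lit 7) (nat_lit 0x1000d80060006000000000000000000000000) (nat_lit 0x0) (nat_lit 0x400020001000300009800100018000c000000000000000) := T_48 (nat_lit 112) (nat_lit 111) (nat_lit 2) (nat_lit 9) (nat_lit 6) L118479 (by decide +kernel)
theorem L118481 : W_48 (nat_lit 11) (nat_lit 0x1000580060006000000000000000000000000) (nat_lit 0x0) (nat_lit 0x44002200f00078000980014003a001c000000000000000) := Q_48 (nat_lit 131) (C_48 L118457 (C_48 L118474 (C_48 L118456 (C_48 L118480 N_48)))) (by decide +kernel)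
theorem L118482 : W_48 (nat_lit 12) (nat_lit 0x1000580060002000000000000000000000000) (nat_lit 0x0) (nat_lit 0x44002200f000780009801d4003a001c000000000000000) := Q_48 (nat_lit 98) (C_48 L118090 (C_48 L118465 (C_48 L118068 (C_48 L118481 N_48)))) (by decide +kernel)
theorem L118483 : W_48 (nat_lit 15) (nat_lit 0x1000580060000000000000000000000000000) (nat_lit 0x0) (nat_lit 0x64007a00fc00780039801fe00fa001c000000000000000) := Q_48 (nat_lit 97) (C_48 L118446 (C_48 L118004 (C_48 L117956 (C_48 L117954 (C_48 L118482 N_48))))) (by decide +kernel)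
theorem L118484 : W_48 (nat_lit 2) (nat_lit 0x10000100058006000f000080000000000000000000) (nat_lit 0x0) (nat_lit 0x800000000000000004000200000000000) := D_48 (nat_lit 62) (nat_lit 131) (nat_lit 45) (nat_lit 7) (nat_lit 11) (nat_lit 3) (nat_lit 7) (nat_lit 11) (nat_lit 2) (by decide +kernel)
theorem L118485 : W_48 (nat_lit 3) (nat_lit 0x10000100058006000f000000000000000000000000) (nat_lit 0x0) (nat_lit 0x8000000000000c0004000200000000000) := T_48 (nat_lit 79) (nat_lit 78) (nat_lit 0) (nat_lit 14) (nat_lit 5) L118484 (by decide +kernel)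
theorem L118486 : W_48 (nat_lit 4) (nat_lit 0x100001000580060007000000000000000000000000) (nat_lit 0x0) (nat_lit 0x8000000180000c0004000200000000000) := T_48 (nat_lit 99) (nat_lit 100) (nat_lit 1) (nat_lit 15) (nat_lit 5) L118485 (by decide +kernel)
theorem L118487 : W_48 (nat_lit 5) (nat_lit 0x1000580060007000000000000000000000000) (nat_lit 0x0) (nat_lit 0x1000080008000000180000c0004000200000000000) := T_48 (nat_lit 164) (nat_lit 147) (nat_lit 6) (nat_lit 11) (nat_lit 9) L118486 (by decide +kernel)
theorem L118488 : W_48 (nat_lit 2) (nat_lit 0xd000580060007800000000000000000000000) (nat_lit 0x0) (nat_lit 0x180000400000000000000000000000) := D_48 (nat_lit 115) (nat_lit 116) (nat_lit 94) (nat_lit 3) (nat_lit 10) (nat_lit 5) (nat_lit 3) (nat_lit 9) (nat_lit 5) (by decide +kernel)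
theorem L118489 : W_48 (nat_lit 3) (nat_lit 0xd000580060007000000000000000000000000) (nat_lit 0x0) (nat_lit 0x180000c00040000000000000000000) := T_48 (nat_lit 95) (nat_lit 78) (nat_lit 4) (nat_lit 11) (nat_lit 8) L118488 (by decide +kernel)
theorem L118490 : W_48 (nat_lit 4) (nat_lit 0x9000580060007000000000000000000000000) (nat_lit 0x0) (nat_lit 0x80004000000180000c00040000000000000000000) := T_48 (nat_lit 146) (nat_lit 163) (nat_lit 5) (nat_lit 11) (nat_lit 5) L118489 (by decide +kernel)
theorem L118491 : W_48 (nat_lit 5) (nat_lit 0x1000580060007000000000000000000000000) (nat_lit 0x0) (nat_lit 0x18000c000000180000c00040000000000000000000) := T_48 (nat_lit 147) (nat_lit 164) (nat_lit 6) (nat_lit 11) (nat_lit 9) L118490 (by decide +kernel)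
theorem L118492 : W_48 (nat_lit 8) (nat_lit 0x1000580060006000000000000000000000000) (nat_lit 0x0) (nat_lit 0x18000c000800380019c00ec0004000200000000000) := Q_48 (nat_lit 96) (C_48 L118409 (C_48 L117807 (C_48 L118487 (C_48 L118491 N_48)))) (by decide +kernel)
theorem L118493 : W_48 (nat_lit 2) (nat_lit 0x1000010025801f0006800000002000000000000000) (nat_lit 0x0) (nat_lit 0x800600000000000000000000000000000) := D_48 (nat_lit 117) (nat_lit 131) (nat_lit 118) (nat_lit 1) (nat_lit 15) (nat_lit 6) (nat_lit 0) (nat_lit 16) (nat_lit 6) (by decide +kernel)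
theorem L118494 : W_48 (nat_lit 3) (nat_lit 0x1000010025800f0006800000002000000000000000) (nat_lit 0x0) (nat_lit 0x4800700000000000000000000000000000) := T_48 (nat_lit 116) (nat_lit 134) (nat_lit 3) (nat_lit 11) (nat_lit 6) L118493 (by decide +kernel)
theorem L118495 : W_48 (nat_lit 4) (nat_lit 0x1000010005800f0006800000002000000000000000) (nat_lit 0x0) (nat_lit 0x7800700000000000000000000000000000) := T_48 (nat_lit 133) (nat_lit 132) (nat_lit 3) (nat_lit 10) (nat_lit 6) L118494 (by decide +kernel)
theorem L118496 : W_48 (nat_lit 5) (nat_lit 0x100001000580070006800000002000000000000000) (nat_lit 0x0) (nat_lit 0x7800780000400000000000000000000000) := T_48 (nat_lit 115) (nat_lit 94) (nat_lit 0) (nat_lit 13) (nat_lit 6) L118495 (by decide +kernel)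
theorem L118497 : W_48 (nat_lit 6) (nat_lit 0x100001000580070006800000000000000000000000) (nat_lit 0x0) (nat_lit 0x7800780000400040002000000000000000) := T_48 (nat_lit 61) (nat_lit 78) (nat_lit 7) (nat_lit 10) (nat_lit 3) L118496 (by decide +kernel)
theorem L118498 : W_48 (nat_lit 7) (nat_lit 0x1000580070006800000000000000000000000) (nat_lit 0x0) (nat_lit 0x100008007800780000400040002000000000000000) := T_48 (nat_lit 164) (nat_lit 147) (nat_lit 6) (nat_lit 11) (nat_lit 9) L118497 (by decide +kernel)
theorem L118499 : W_48 (nat_lit 8) (nat_lit 0x1000580060006800000000000000000000000) (nat_lit 0x0) (nat_lit 0x100008007800798000400040002000000000000000) := T_48 (nat_lit 112) (nat_lit 111) (nat_lit 2) (nat_lit 9) (nat_lit 6) L118498 (by decide +kernel)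
theorem L118500 : W_48 (nat_lit 9) (nat_lit 0x1000580060006000000000000000000000000) (nat_lit 0x0) (nat_lit 0x400120008007800798001e00660012000800000000000) := Q_48 (nat_lit 95) (C_48 L118097 (C_48 L118123 (C_48 L118111 (C_48 L118499 (C_48 L118094 N_48))))) (by decide +kernel)
theorem L118501 : W_48 (nat_lit 10) (nat_lit 0x1000580060002000000000000000000000000) (nat_lit 0x0) (nat_lit 0x4001a000c00780079801de00ee0016000a00000000000) := Q_48 (nat_lit 98) (C_48 L118090 (C_48 L118492 (C_48 L118068 (C_48 L118500 N_48)))) (by decide +kernel)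
theorem L118502 : W_48 (nat_lit 2) (nat_lit 0x1000580060006000200018000000000000000) (nat_lit 0x0) (nat_lit 0x800080000000000000000400000000000) := D_48 (nat_lit 115) (nat_lit 46) (nat_lit 131) (nat_lit 4) (nat_lit 13) (nat_lit 6) (nat_lit 5) (nat_lit 13) (nat_lit 3) (by decide +kernel)
theorem L118503 : W_48 (nat_lit 3) (nat_lit 0x1000580060006000200008000000000000000) (nat_lit 0x0) (nat_lit 0x800080000000000010000c00000000000) := T_48 (nat_lit 64) (nat_lit 47) (nat_lit 5) (nat_lit 13) (nat_lit 2) L118502 (by decide +kernel)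
theorem L118504 : W_48 (nat_lit 4) (nat_lit 0x1000580060006000200000000000000000000) (nat_lit 0x0) (nat_lit 0x800080000000100018000c00000000000) := T_48 (nat_lit 63) (nat_lit 80) (nat_lit 5) (nat_lit 12) (nat_lit 3) L118503 (by decide +kernel)
theorem L118505 : W_48 (nat_lit 2) (nat_lit 0x10005801e0016000200018000000000000000) (nat_lit 0x0) (nat_lit 0x200001800000000000000000000000) := D_48 (nat_lit 96) (nat_lit 95) (nat_lit 117) (nat_lit 3) (nat_lit 10) (nat_lit 5) (nat_lit 0) (nat_lit 15) (nat_lit 6) (by decide +kernel)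
theorem L118506 : W_48 (nat_lit 3) (nat_lit 0x10005800e0016000200018000000000000000) (nat_lit 0x0) (nat_lit 0x2000300001800000000000000000000000) := T_48 (nat_lit 116) (nat_lit 133) (nat_lit 7) (nat_lit 13) (nat_lit 3) L118505 (by decide +kernel)
theorem L118507 : W_48 (nat_lit 4) (nat_lit 0x10005800e0016000200010000000000000000) (nat_lit 0x0) (nat_lit 0x2000300001800000008000400000000000) := T_48 (nat_lit 63) (nat_lit 46) (nat_lit 4) (nat_lit 13) (nat_lit 6) L118506 (by decide +kernel)
theorem L118508 : W_48 (nat_lit 5) (nat_lit 0x1000580060016000200010000000000000000) (nat_lit 0x0) (nat_lit 0x2800380001800000008000400000000000) := T_48 (nat_lit 115) (nat_lit 131) (nat_lit 5) (nat_lit 13) (nat_lit 3) L118507 (by decide +kernel)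
theorem L118509 : W_48 (nat_lit 6) (nat_lit 0x1000580060006000200010000000000000000) (nat_lit 0x0) (nat_lit 0x2800380019800000008000400000000000) := T_48 (nat_lit 100) (nat_lit 99) (nat_lit 1) (nat_lit 15) (nat_lit 5) L118508 (by decide +kernel)
theorem L118510 : W_48 (nat_lit 7) (nat_lit 0x1000580060006000200000000000000000000) (nat_lit 0x0) (nat_lit 0x2800380019800000018000c00000000000) := T_48 (nat_lit 64) (nat_lit 47) (nat_lit 5) (nat_lit 13) (nat_lit 2) L118509 (by decide +kernel)
theorem L118511 : W_48 (nat_lit 4) (nat_lit 0x10005800e0006000200018000000000000000) (nat_lit 0x0) (nat_lit 0x2000300019800000000000000000000000) := T_48 (nat_lit 100) (nat_lit 99) (nat_lit 1) (nat_lit 15) (nat_lit 5) L118506 (by decide +kernel)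
theorem L118512 : W_48 (nat_lit 5) (nat_lit 0x1000580060006000200018000000000000000) (nat_lit 0x0) (nat_lit 0x2000380019800000000000400000000000) := T_48 (nat_lit 115) (nat_lit 46) (nat_lit 4) (nat_lit 13) (nat_lit 6) L118511 (by decide +kernel)
theorem L118513 : W_48 (nat_lit 6) (nat_lit 0x1000580060006000200010000000000000000) (nat_lit 0x0) (nat_lit 0x2000380019800100008000400000000000) := T_48 (nat_lit 63) (nat_lit 80) (nat_lit 5) (nat_lit 12) (nat_lit 3) L118512 (by decide +kernel)
theorem L118514 : W_48 (nat_lit 7) (nat_lit 0x1000580060006000200000000000000000000) (nat_lit 0x0) (nat_lit 0x2000380019800100018000c00000000000) := T_48 (nat_lit 64) (nat_lit 47) (nat_lit 5) (nat_lit 13) (nat_lit 2) L118513 (by decide +kernel)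
theorem L118515 : W_48 (nat_lit 2) (nat_lit 0x1000580060016000200010000000000000000) (nat_lit 0x0) (nat_lit 0x800000000000100008000000000000000) := D_48 (nat_lit 80) (nat_lit 63) (nat_lit 131) (nat_lit 5) (nat_lit 12) (nat_lit 3) (nat_lit 6) (nat_lit 12) (nat_lit 7) (by decide +kernel)
theorem L118516 : W_48 (nat_lit 3) (nat_lit 0x1000580060016000200000000000000000000) (nat_lit 0x0) (nat_lit 0x800000000000100018000800000000000) := T_48 (nat_lit 64) (nat_lit 47) (nat_lit 5) (nat_lit 13) (nat_lit 2) L118515 (by decide +kernel)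
theorem L118517 : W_48 (nat_lit 4) (nat_lit 0x1000580060006000200000000000000000000) (nat_lit 0x0) (nat_lit 0x800000018000100018000800000000000) := T_48 (nat_lit 100) (nat_lit 99) (nat_lit 1) (nat_lit 15) (nat_lit 5) L118516 (by decide +kernel)
theorem L118518 : W_48 (nat_lit 2) (nat_lit 0x1000580060016000200010000000000000000) (nat_lit 0x0) (nat_lit 0x800080000000100000000000000000000) := D_48 (nat_lit 131) (nat_lit 115) (nat_lit 80) (nat_lit 5) (nat_lit 13) (nat_lit 3) (nat_lit 6) (nat_lit 12) (nat_lit 7) (by decide +kernel)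
theorem L118519 : W_48 (nat_lit 3) (nat_lit 0x1000580060016000200000000000000000000) (nat_lit 0x0) (nat_lit 0x800080000000100010000800000000000) := T_48 (nat_lit 64) (nat_lit 47) (nat_lit 5) (nat_lit 13) (nat_lit 2) L118518 (by decide +kernel)
theorem L118520 : W_48 (nat_lit 4) (nat_lit 0x1000580060006000200000000000000000000) (nat_lit 0x0) (nat_lit 0x800080018000100010000800000000000) := T_48 (nat_lit 100) (nat_lit 99) (nat_lit 1) (nat_lit 15) (nat_lit 5) L118519 (by decide +kernel)
theorem L118521 : W_48 (nat_lit 2) (nat_lit 0x1003d8006000e000380000000000000000000) (nat_lit 0x0) (nat_lit 0x40000000300000000000000000000000000000) := D_48 (nat_lit 116) (nat_lit 117) (nat_lit 150) (nat_lit 2) (nat_lit 11) (nat_lit 7) (nat_lit 4) (nat_lit 14) (nat_lit 8) (by decide +kernel)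
theorem L118522 : W_48 (nat_lit 3) (nat_lit 0x1001d8006000e000380000000000000000000) (nat_lit 0x0) (nat_lit 0x40006000300000000000000000000000000000) := T_48 (nat_lit 133) (nat_lit 134) (nat_lit 0) (nat_lit 15) (nat_lit 7) L118521 (by decide +kernel)
theorem L118523 : W_48 (nat_lit 4) (nat_lit 0x1000d8006000e000380000000000000000000) (nat_lit 0x0) (nat_lit 0x60007000300000000000000000000000000000) := T_48 (nat_lit 132) (nat_lit 149) (nat_lit 7) (nat_lit 12) (nat_lit 4) L118522 (by decide +kernel)
theorem L118524 : W_48 (nat_lit 5) (nat_lit 0x100058006000e000380000000000000000000) (nat_lit 0x0) (nat_lit 0x60007800300000000000004000000000000000) := T_48 (nat_lit 131) (nat_lit 62) (nat_lit 4) (nat_lit 12) (nat_lit 7) L118523 (by decide +kernel)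
theorem L118525 : W_48 (nat_lit 6) (nat_lit 0x100058006000e000300000000000000000000) (nat_lit 0x0) (nat_lit 0x600078003000000000c0004000000000000000) := T_48 (nat_lit 79) (nat_lit 78) (nat_lit 3) (nat_lit 10) (nat_lit 4) L118524 (by decide +kernel)
theorem L118526 : W_48 (nat_lit 7) (nat_lit 0x1000580060006000300000000000000000000) (nat_lit 0x0) (nat_lit 0x600078003000180000c0004000000000000000) := T_48 (nat_lit 99) (nat_lit 100) (nat_lit 1) (nat_lit 15) (nat_lit 5) L118525 (by decide +kernel)
theorem L118527 : W_48 (nat_lit 8) (nat_lit 0x1000580060006000200000000000000000000) (nat_lit 0x0) (nat_lit 0x600078003000180001c000c000000000000000) := T_48 (nat_lit 80) (nat_lit 63) (nat_lit 5) (nat_lit 12) (nat_lit 3) L118526 (by decide +kernel)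
theorem L118528 : W_48 (nat_lit 9) (nat_lit 0x1000580060006000000000000000000000000) (nat_lit 0x0) (nat_lit 0x600078003800198003c001c000c00000000000) := Q_48 (nat_lit 81) (C_48 L118504 (C_48 L118510 (C_48 L118514 (C_48 L118517 (C_48 L118520 (C_48 L118527 N_48)))))) (by decide +kernel)
theorem L118529 : W_48 (nat_lit 5) (nat_lit 0x400000001000d800680060001a0000000000000000000) (nat_lit 0x0) (nat_lit 0xe0007000080000000200010000000000000000) := T_48 (nat_lit 81) (nat_lit 64) (nat_lit 6) (nat_lit 12) (nat_lit 7) L118468 (by decide +kernel)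
theorem L118530 : W_48 (nat_lit 6) (nat_lit 0x4000000010005800680060001a0000000000000000000) (nat_lit 0x0) (nat_lit 0xe0007800080000000200014000000000000000) := T_48 (nat_lit 131) (nat_lit 62) (nat_lit 4) (nat_lit 12) (nat_lit 7) L118529 (by decide +kernel)
theorem L118531 : W_48 (nat_lit 7) (nat_lit 0x400000001000580068006000120000000000000000000) (nat_lit 0x0) (nat_lit 0xe00078000800000002c0014000000000000000) := T_48 (nat_lit 79) (nat_lit 78) (nat_lit 3) (nat_lit 9) (nat_lit 4) L118530 (by decide +kernel)
theorem L118532 : W_48 (nat_lit 8) (nat_lit 0x400000001000580068006000100000000000000000000) (nat_lit 0x0) (nat_lit 0xe00078000800004002e0014000000000000000) := T_48 (nat_lit 77) (nat_lit 94) (nat_lit 5) (nat_lit 9) (nat_lit 4) L118531 (by decide +kernel)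
theorem L118533 : W_48 (nat_lit 9) (nat_lit 0x1000580068006000100000000000000000000) (nat_lit 0x0) (nat_lit 0x4000200e00078000800004002e0014000000000000000) := T_48 (nat_lit 178) (nat_lit 161) (nat_lit 6) (nat_lit 8) (nat_lit 10) L118532 (by decide +kernel)
theorem L118534 : W_48 (nat_lit 10) (nat_lit 0x1000580068006000000000000000000000000) (nat_lit 0x0) (nat_lit 0x4000200e00078000800004003e001c000000000000000) := T_48 (nat_lit 80) (nat_lit 63) (nat_lit 5) (nat_lit 12) (nat_lit 3) L118533 (by decide +kernel)
theorem L118535 : W_48 (nat_lit 11) (nat_lit 0x1000580060006000000000000000000000000) (nat_lit 0x0) (nat_lit 0x4000200e00078000980004003e001c000000000000000) := T_48 (nat_lit 111) (nat_lit 112) (nat_lit 2) (nat_lit 9) (nat_lit 6) L118534 (by decide +kernel)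
theorem L118536 : W_48 (nat_lit 12) (nat_lit 0x1000580060002000000000000000000000000) (nat_lit 0x0) (nat_lit 0x4000200e000780039801dc003e001c000c00000000000) := Q_48 (nat_lit 98) (C_48 L118090 (C_48 L118528 (C_48 L118068 (C_48 L118535 N_48)))) (by decide +kernel)
theorem L118537 : W_48 (nat_lit 13) (nat_lit 0x1000580060000000000000000000000000000) (nat_lit 0x0) (nat_lit 0x4001a00ec00780079801fe00fe001e000e00000000000) := Q_48 (nat_lit 97) (C_48 L118501 (C_48 L118004 (C_48 L117956 (C_48 L117954 (C_48 L118536 N_48))))) (by decide +kernel)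
theorem L118538 : W_48 (nat_lit 6) (nat_lit 0x1001d80060000000000000000000000000000) (nat_lit 0x0) (nat_lit 0x10000c000e000600038001c000600020000000000000000) := Q_48 (nat_lit 115) (C_48 L118366 (C_48 L118358 (C_48 L118286 (C_48 L118362 N_48)))) (by decide +kernel)
theorem L118539 : W_48 (nat_lit 2) (nat_lit 0x10005800600010000c0004000000000000000) (nat_lit 0x0) (nat_lit 0x100008000400000000000) := D_48 (nat_lit 63) (nat_lit 46) (nat_lit 80) (nat_lit 6) (nat_lit 11) (nat_lit 6) (nat_lit 6) (nat_lit 11) (nat_lit 7) (by decide +kernel)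
theorem L118540 : W_48 (nat_lit 3) (nat_lit 0x10005800600010000c0000000000000000000) (nat_lit 0x0) (nat_lit 0x80000000000010000c000400000000000) := T_48 (nat_lit 62) (nat_lit 131) (nat_lit 7) (nat_lit 11) (nat_lit 3) L118539 (by decide +kernel)
theorem L118541 : W_48 (nat_lit 4) (nat_lit 0x1000580060001000080000000000000000000) (nat_lit 0x0) (nat_lit 0x80000000000014000e000400000000000) := T_48 (nat_lit 78) (nat_lit 61) (nat_lit 4) (nat_lit 11) (nat_lit 7) L118540 (by decide +kernel)
theorem L118542 : W_48 (nat_lit 2) (nat_lit 0x140004001a00190005800600010001c0000000000000000000) (nat_lit 0x0) (nat_lit 0x280008000000000000000000000000000000000000000000000000) := D_48 (nat_lit 195) (nat_lit 211) (nat_lit 213) (nat_lit 5) (nat_lit 8) (nat_lit 8) (nat_lit 7) (nat_lit 8) (nat_lit 8) (by decide +kernel)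
theorem L118543 : W_48 (nat_lit 3) (nat_lit 0x40004001a00190005800600010001c0000000000000000000) (nat_lit 0x0) (nat_lit 0x280018000800000000000000000000000000000000000000000000) := T_48 (nat_lit 196) (nat_lit 179) (nat_lit 7) (nat_lit 8) (nat_lit 7) L118542 (by decide +kernel)
theorem L118544 : W_48 (nat_lit 4) (nat_lit 0x4001a00190005800600010001c0000000000000000000) (nat_lit 0x0) (nat_lit 0x28001c000a00000000000000000000000000000000000000000000) := T_48 (nat_lit 194) (nat_lit 177) (nat_lit 5) (nat_lit 8) (nat_lit 7) L118543 (by decide +kernel)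
theorem L118545 : W_48 (nat_lit 5) (nat_lit 0x1a00190005800600010001c0000000000000000000) (nat_lit 0x0) (nat_lit 0x28001c000e00000000000000008000000000000000000000000000) := T_48 (nat_lit 178) (nat_lit 111) (nat_lit 6) (nat_lit 8) (nat_lit 10) L118544 (by decide +kernel)
theorem L118546 : W_48 (nat_lit 6) (nat_lit 0x1800190005800600010001c0000000000000000000) (nat_lit 0x0) (nat_lit 0x28001c000e00060000000000008000000000000000000000000000) := T_48 (nat_lit 161) (nat_lit 162) (nat_lit 2) (nat_lit 8) (nat_lit 9) L118545 (by decide +kernel)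
theorem L118547 : W_48 (nat_lit 7) (nat_lit 0x800190005800600010001c0000000000000000000) (nat_lit 0x0) (nat_lit 0x28001c001e00160000000000008000000000000000000000000000) := T_48 (nat_lit 164) (nat_lit 180) (nat_lit 5) (nat_lit 11) (nat_lit 6) L118546 (by decide +kernel)
theorem L118548 : W_48 (nat_lit 8) (nat_lit 0x800090005800600010001c0000000000000000000) (nat_lit 0x0) (nat_lit 0x28001c001e00360010000000008000000000000000000000000000) := T_48 (nat_lit 148) (nat_lit 165) (nat_lit 7) (nat_lit 11) (nat_lit 5) L118547 (by decide +kernel)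
theorem L118549 : W_48 (nat_lit 9) (nat_lit 0x90005800600010001c0000000000000000000) (nat_lit 0x0) (nat_lit 0x28001c001e003e0014000000008000000000000000000000000000) := T_48 (nat_lit 163) (nat_lit 146) (nat_lit 5) (nat_lit 11) (nat_lit 5) L118548 (by decide +kernel)
theorem L118550 : W_48 (nat_lit 10) (nat_lit 0x10005800600010001c0000000000000000000) (nat_lit 0x0) (nat_lit 0x28001c001e003e001c000000008000800000000000000000000000) := T_48 (nat_lit 147) (nat_lit 95) (nat_lit 4) (nat_lit 11) (nat_lit 8) L118549 (by decide +kernel)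
theorem L118551 : W_48 (nat_lit 11) (nat_lit 0x10005800600010000c0000000000000000000) (nat_lit 0x0) (nat_lit 0x28001c001e003e001c000000008000800100008000000000000000) := T_48 (nat_lit 80) (nat_lit 63) (nat_lit 6) (nat_lit 11) (nat_lit 7) L118550 (by decide +kernel)
theorem L118552 : W_48 (nat_lit 12) (nat_lit 0x1000580060001000080000000000000000000) (nat_lit 0x0) (nat_lit 0x28001c001e003e001c00000000800080014000a000000000000000) := T_48 (nat_lit 78) (nat_lit 61) (nat_lit 4) (nat_lit 11) (nat_lit 7) L118551 (by decide +kernel)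
theorem L118553 : W_48 (nat_lit 13) (nat_lit 0x1000580060001000000000000000000000000) (nat_lit 0x0) (nat_lit 0x28001c001e003e001c0008000080008001c000e000400000000000) := Q_48 (nat_lit 79) (C_48 L117829 (C_48 L118541 (C_48 L118552 N_48))) (by decide +kernel)
theorem L118554 : W_48 (nat_lit 2) (nat_lit 0x2800090005800600010001c0000000000000000000) (nat_lit 0x0) (nat_lit 0x5000100000000000000000000000000000000000000000) := D_48 (nat_lit 164) (nat_lit 180) (nat_lit 182) (nat_lit 5) (nat_lit 11) (nat_lit 6) (nat_lit 7) (nat_lit 11) (nat_lit 6) (by decide +kernel)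
theorem L118555 : W_48 (nat_lit 3) (nat_lit 0x800090005800600010001c0000000000000000000) (nat_lit 0x0) (nat_lit 0x5000300010000000000000000000000000000000000000) := T_48 (nat_lit 165) (nat_lit 148) (nat_lit 7) (nat_lit 11) (nat_lit 5) L118554 (by decide +kernel)
theorem L118556 : W_48 (nat_lit 4) (nat_lit 0x90005800600010001c0000000000000000000) (nat_lit 0x0) (nat_lit 0x5000380014000000000000000000000000000000000000) := T_48 (nat_lit 163) (nat_lit 146) (nat_lit 5) (nat_lit 11) (nat_lit 5) L118555 (by decide +kernel)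
theorem L118557 : W_48 (nat_lit 5) (nat_lit 0x10005800600010001c0000000000000000000) (nat_lit 0x0) (nat_lit 0x500038001c000000000000800000000000000000000000) := T_48 (nat_lit 147) (nat_lit 95) (nat_lit 4) (nat_lit 11) (nat_lit 8) L118556 (by decide +kernel)
theorem L118558 : W_48 (nat_lit 6) (nat_lit 0x10005800600010000c0000000000000000000) (nat_lit 0x0) (nat_lit 0x500038001c000000000000800100008000000000000000) := T_48 (nat_lit 80) (nat_lit 63) (nat_lit 6) (nat_lit 11) (nat_lit 7) L118557 (by decide +kernel)
theorem L118559 : W_48 (nat_lit 7) (nat_lit 0x1000580060001000080000000000000000000) (nat_lit 0x0) (nat_lit 0x500038001c00000000000080014000a000000000000000) := T_48 (nat_lit 78) (nat_lit 61) (nat_lit 4) (nat_lit 11) (nat_lit 7) L118558 (by decide +kernel)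
theorem L118560 : W_48 (nat_lit 8) (nat_lit 0x1000580060001000000000000000000000000) (nat_lit 0x0) (nat_lit 0x500038001c0008000000008001c000e000400000000000) := Q_48 (nat_lit 79) (C_48 L118541 (C_48 L117829 (C_48 L118559 N_48))) (by decide +kernel)
theorem L118561 : W_48 (nat_lit 2) (nat_lit 0x1000d800e0001000000000000000000000000) (nat_lit 0x0) (nat_lit 0x300000800000000000000000000000) := D_48 (nat_lit 116) (nat_lit 117) (nat_lit 95) (nat_lit 1) (nat_lit 15) (nat_lit 6) (nat_lit 0) (nat_lit 14) (nat_lit 6) (by decide +kernel)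
theorem L118562 : W_48 (nat_lit 2) (nat_lit 0x1002d800f0005800280000000000000000000) (nat_lit 0x0) (nat_lit 0x500008000000000000000) := D_48 (nat_lit 80) (nat_lit 63) (nat_lit 82) (nat_lit 6) (nat_lit 11) (nat_lit 7) (nat_lit 1) (nat_lit 14) (nat_lit 4) (by decide +kernel)
theorem L118563 : W_48 (nat_lit 3) (nat_lit 0x1002d800f0005800080000000000000000000) (nat_lit 0x0) (nat_lit 0x700018000000000000000) := T_48 (nat_lit 81) (nat_lit 64) (nat_lit 5) (nat_lit 13) (nat_lit 3) L118562 (by decide +kernel)
theorem L118564 : W_48 (nat_lit 4) (nat_lit 0x1002d800f0005000080000000000000000000) (nat_lit 0x0) (nat_lit 0xc00700018000000000000000) := T_48 (nat_lit 95) (nat_lit 94) (nat_lit 0) (nat_lit 13) (nat_lit 6) L118563 (by decide +kernel)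
theorem L118565 : W_48 (nat_lit 5) (nat_lit 0x1002d800f0001000080000000000000000000) (nat_lit 0x0) (nat_lit 0xcc00700018000000000000000) := T_48 (nat_lit 98) (nat_lit 99) (nat_lit 2) (nat_lit 10) (nat_lit 6) L118564 (by decide +kernel)
theorem L118566 : W_48 (nat_lit 6) (nat_lit 0x1000d800f0001000080000000000000000000) (nat_lit 0x0) (nat_lit 0x300000000cc00700018000000000000000) := T_48 (nat_lit 133) (nat_lit 132) (nat_lit 3) (nat_lit 10) (nat_lit 6) L118565 (by decide +kernel)
theorem L118567 : W_48 (nat_lit 7) (nat_lit 0x1000d800e0001000080000000000000000000) (nat_lit 0x0) (nat_lit 0x300001800cc00700018000000000000000) := T_48 (nat_lit 112) (nat_lit 111) (nat_lit 1) (nat_lit 12) (nat_lit 6) L118566 (by decide +kernel)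
theorem L118568 : W_48 (nat_lit 8) (nat_lit 0x1000d800e0001000000000000000000000000) (nat_lit 0x0) (nat_lit 0x300001800cc0078001c000000000000000) := T_48 (nat_lit 79) (nat_lit 62) (nat_lit 7) (nat_lit 11) (nat_lit 3) L118567 (by decide +kernel)
theorem L118569 : W_48 (nat_lit 9) (nat_lit 0x1000d80060001000000000000000000000000) (nat_lit 0x0) (nat_lit 0x700039801cc0078001c000000000000000) := Q_48 (nat_lit 115) (C_48 L117825 (C_48 L117822 (C_48 L118561 (C_48 L118568 N_48)))) (by decide +kernel)
theorem L118570 : W_48 (nat_lit 2) (nat_lit 0x11001d800f0001000000000000000000000000) (nat_lit 0x0) (nat_lit 0xc000200000000000000000000) := D_48 (nat_lit 98) (nat_lit 99) (nat_lit 81) (nat_lit 2) (nat_lit 10) (nat_lit 6) (nat_lit 5) (nat_lit 13) (nat_lit 4) (by decide +kernel)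
theorem L118571 : W_48 (nat_lit 3) (nat_lit 0x11000d800f0001000000000000000000000000) (nat_lit 0x0) (nat_lit 0x300000000c000200000000000000000000) := T_48 (nat_lit 132) (nat_lit 133) (nat_lit 3) (nat_lit 10) (nat_lit 6) L118570 (by decide +kernel)
theorem L118572 : W_48 (nat_lit 4) (nat_lit 0x11000d800e0001000000000000000000000000) (nat_lit 0x0) (nat_lit 0x300001800c000200000000000000000000) := T_48 (nat_lit 112) (nat_lit 111) (nat_lit 1) (nat_lit 12) (nat_lit 6) L118571 (by decide +kernel)
theorem L118573 : W_48 (nat_lit 5) (nat_lit 0x1000d800e0001000000000000000000000000) (nat_lit 0x0) (nat_lit 0x20001000300001800c000200000000000000000000) := T_48 (nat_lit 148) (nat_lit 165) (nat_lit 4) (nat_lit 12) (nat_lit 9) L118572 (by decide +kernel)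
theorem L118574 : W_48 (nat_lit 6) (nat_lit 0x1000d80060001000000000000000000000000) (nat_lit 0x0) (nat_lit 0x20001000300039801c800200000000000000000000) := Q_48 (nat_lit 115) (C_48 L118561 (C_48 L117825 (C_48 L118573 N_48))) (by decide +kernel)
theorem L118575 : W_48 (nat_lit 10) (nat_lit 0x1000580060001000000000000000000000000) (nat_lit 0x0) (nat_lit 0x20001000780039801cc0078001c000000000000000) := Q_48 (nat_lit 131) (C_48 L117773 (C_48 L118569 (C_48 L118574 N_48))) (by decide +kernel)
theorem L118576 : W_48 (nat_lit 2) (nat_lit 0x240030000d000580168001c00000000000000000000000) (nat_lit 0x0) (nat_lit 0x20001800000000000000000000000000000000000000000000) := D_48 (nat_lit 180) (nat_lit 197) (nat_lit 179) (nat_lit 5) (nat_lit 11) (nat_lit 7) (nat_lit 2) (nat_lit 8) (nat_lit 10) (by decide +kernel)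
theorem L118577 : W_48 (nat_lit 3) (nat_lit 0x40030000d000580168001c00000000000000000000000) (nat_lit 0x0) (nat_lit 0x20003800000000000800000000000000000000000000000000) := T_48 (nat_lit 181) (nat_lit 131) (nat_lit 6) (nat_lit 11) (nat_lit 10) L118576 (by decide +kernel)
theorem L118578 : W_48 (nat_lit 4) (nat_lit 0x40020000d000580168001c00000000000000000000000) (nat_lit 0x0) (nat_lit 0x20007800100000000800000000000000000000000000000000) := T_48 (nat_lit 164) (nat_lit 182) (nat_lit 7) (nat_lit 11) (nat_lit 6) L118577 (by decide +kernel)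
theorem L118579 : W_48 (nat_lit 5) (nat_lit 0x40000000d000580168001c00000000000000000000000) (nat_lit 0x0) (nat_lit 0x20007800300010000800000000000000000000000000000000) := T_48 (nat_lit 165) (nat_lit 148) (nat_lit 7) (nat_lit 11) (nat_lit 5) L118578 (by decide +kernel)
theorem L118580 : W_48 (nat_lit 6) (nat_lit 0x400000009000580168001c00000000000000000000000) (nat_lit 0x0) (nat_lit 0x20007800380014000800000000000000000000000000000000) := T_48 (nat_lit 146) (nat_lit 163) (nat_lit 5) (nat_lit 11) (nat_lit 5) L118579 (by decide +kernel)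
theorem L118581 : W_48 (nat_lit 7) (nat_lit 0x400000001000580168001c00000000000000000000000) (nat_lit 0x0) (nat_lit 0x2000780038001c000800000000000040000000000000000000) := T_48 (nat_lit 147) (nat_lit 78) (nat_lit 4) (nat_lit 11) (nat_lit 8) L118580 (by decide +kernel)
theorem L118582 : W_48 (nat_lit 8) (nat_lit 0x400000001000580068001c00000000000000000000000) (nat_lit 0x0) (nat_lit 0x2000780038001c000800180000000040000000000000000000) := T_48 (nat_lit 116) (nat_lit 115) (nat_lit 0) (nat_lit 14) (nat_lit 6) L118581 (by decide +kernel)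
theorem L118583 : W_48 (nat_lit 9) (nat_lit 0x400000001000580068001400000000000000000000000) (nat_lit 0x0) (nat_lit 0x2000780038001c000800180000a00040000000000000000000) := T_48 (nat_lit 95) (nat_lit 93) (nat_lit 3) (nat_lit 8) (nat_lit 5) L118582 (by decide +kernel)
theorem L118584 : W_48 (nat_lit 10) (nat_lit 0x1000580068001400000000000000000000000) (nat_lit 0x0) (nat_lit 0x20007c003a001c000800180000a00040000000000000000000) := T_48 (nat_lit 178) (nat_lit 161) (nat_lit 6) (nat_lit 8) (nat_lit 10) L118583 (by decide +kernel)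
theorem L118585 : W_48 (nat_lit 11) (nat_lit 0x1000580068001000000000000000000000000) (nat_lit 0x0) (nat_lit 0x20007c003a001c000800180000e00060000000000000000000) := T_48 (nat_lit 94) (nat_lit 77) (nat_lit 5) (nat_lit 9) (nat_lit 4) L118584 (by decide +kernel)
theorem L118586 : W_48 (nat_lit 12) (nat_lit 0x1000580060001000000000000000000000000) (nat_lit 0x0) (nat_lit 0x20007c003a001c000800198000e00060000000000000000000) := T_48 (nat_lit 111) (nat_lit 112) (nat_lit 1) (nat_lit 12) (nat_lit 6) L118585 (by decide +kernel)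
theorem L118587 : W_48 (nat_lit 14) (nat_lit 0x1000580060000000000000000000000000000) (nat_lit 0x0) (nat_lit 0x28003c007e003e001c00780039801de007e001e000500000000000) := Q_48 (nat_lit 96) (C_48 L118553 (C_48 L118178 (C_48 L117949 (C_48 L118560 (C_48 L117842 (C_48 L118575 (C_48 L118586 N_48))))))) (by decide +kernel)
theorem L118588 : W_48 (nat_lit 2) (nat_lit 0x10005800f0007800000000000000000000000) (nat_lit 0x0) (nat_lit 0x60002000000000000000) := D_48 (nat_lit 78) (nat_lit 77) (nat_lit 61) (nat_lit 0) (nat_lit 13) (nat_lit 5) (nat_lit 7) (nat_lit 10) (nat_lit 3) (by decide +kernel)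
theorem L118589 : W_48 (nat_lit 3) (nat_lit 0x10005800f0006800000000000000000000000) (nat_lit 0x0) (nat_lit 0x100001000060002000000000000000) := T_48 (nat_lit 96) (nat_lit 116) (nat_lit 3) (nat_lit 10) (nat_lit 5) L118588 (by decide +kernel)
theorem L118590 : W_48 (nat_lit 4) (nat_lit 0x10005800f0002800000000000000000000000) (nat_lit 0x0) (nat_lit 0x10000d000060002000000000000000) := T_48 (nat_lit 98) (nat_lit 99) (nat_lit 2) (nat_lit 10) (nat_lit 6) L118589 (by decide +kernel)
theorem L118591 : W_48 (nat_lit 5) (nat_lit 0x10005800f0002000000000000000000000000) (nat_lit 0x0) (nat_lit 0x10000dc00060002000000000000000) := T_48 (nat_lit 95) (nat_lit 94) (nat_lit 0) (nat_lit 13) (nat_lit 6) L118590 (by decide +kernel)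
theorem L118592 : W_48 (nat_lit 6) (nat_lit 0x10005800e0002000000000000000000000000) (nat_lit 0x0) (nat_lit 0x11800dc00060002000000000000000) := T_48 (nat_lit 112) (nat_lit 111) (nat_lit 1) (nat_lit 12) (nat_lit 6) L118591 (by decide +kernel)
theorem L118593 : W_48 (nat_lit 2) (nat_lit 0x10005801e0002000000000000000000000000) (nat_lit 0x0) (nat_lit 0x200001800000000000000000000000) := D_48 (nat_lit 96) (nat_lit 95) (nat_lit 117) (nat_lit 0) (nat_lit 14) (nat_lit 6) (nat_lit 0) (nat_lit 15) (nat_lit 6) (by decide +kernel)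
theorem L118594 : W_48 (nat_lit 2) (nat_lit 0x10005801e0002000000000000000000000000) (nat_lit 0x0) (nat_lit 0x800200001000000000000000000000000) := D_48 (nat_lit 117) (nat_lit 96) (nat_lit 131) (nat_lit 0) (nat_lit 15) (nat_lit 6) (nat_lit 1) (nat_lit 15) (nat_lit 6) (by decide +kernel)
theorem L118595 : W_48 (nat_lit 2) (nat_lit 0x10025803e0002000000000000000000000000) (nat_lit 0x0) (nat_lit 0x38000000000000000000000000) := D_48 (nat_lit 100) (nat_lit 99) (nat_lit 101) (nat_lit 2) (nat_lit 11) (nat_lit 6) (nat_lit 2) (nat_lit 12) (nat_lit 6) (by decide +kernel)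
theorem L118596 : W_48 (nat_lit 3) (nat_lit 0x10025801e0002000000000000000000000000) (nat_lit 0x0) (nat_lit 0x800200038000000000000000000000000) := T_48 (nat_lit 117) (nat_lit 131) (nat_lit 1) (nat_lit 15) (nat_lit 6) L118595 (by decide +kernel)
theorem L118597 : W_48 (nat_lit 4) (nat_lit 0x10005801e0002000000000000000000000000) (nat_lit 0x0) (nat_lit 0x6800200038000000000000000000000000) := T_48 (nat_lit 133) (nat_lit 134) (nat_lit 3) (nat_lit 11) (nat_lit 6) L118596 (by decide +kernel)
theorem L118598 : W_48 (nat_lit 2) (nat_lit 0xd0035801e000b000000000000000000000000) (nat_lit 0x0) (nat_lit 0x200030000000000000000000000000000000000000) := D_48 (nat_lit 148) (nat_lit 165) (nat_lit 149) (nat_lit 7) (nat_lit 11) (nat_lit 5) (nat_lit 2) (nat_lit 10) (nat_lit 8) (by decide +kernel)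
theorem L118599 : W_48 (nat_lit 3) (nat_lit 0xd0025801e000b000000000000000000000000) (nat_lit 0x0) (nat_lit 0x200030001800000000000000000000000000000000) := T_48 (nat_lit 132) (nat_lit 131) (nat_lit 1) (nat_lit 14) (nat_lit 7) L118598 (by decide +kernel)
theorem L118600 : W_48 (nat_lit 4) (nat_lit 0x90025801e000b000000000000000000000000) (nat_lit 0x0) (nat_lit 0x280034001800000000000000000000000000000000) := T_48 (nat_lit 146) (nat_lit 163) (nat_lit 5) (nat_lit 11) (nat_lit 5) L118599 (by decide +kernel)
theorem L118601 : W_48 (nat_lit 5) (nat_lit 0x10025801e000b000000000000000000000000) (nat_lit 0x0) (nat_lit 0x38003c001800000000000000000000000000000000) := T_48 (nat_lit 147) (nat_lit 164) (nat_lit 6) (nat_lit 11) (nat_lit 9) L118600 (by decide +kernel)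
theorem L118602 : W_48 (nat_lit 6) (nat_lit 0x10025801e0003000000000000000000000000) (nat_lit 0x0) (nat_lit 0x38003c001800000018000000000000000000000000) := T_48 (nat_lit 99) (nat_lit 100) (nat_lit 2) (nat_lit 11) (nat_lit 6) L118601 (by decide +kernel)
theorem L118603 : W_48 (nat_lit 7) (nat_lit 0x10005801e0003000000000000000000000000) (nat_lit 0x0) (nat_lit 0x38003c007800000018000000000000000000000000) := T_48 (nat_lit 133) (nat_lit 134) (nat_lit 3) (nat_lit 11) (nat_lit 6) L118602 (by decide +kernel)
theorem L118604 : W_48 (nat_lit 8) (nat_lit 0x10005801e0002000000000000000000000000) (nat_lit 0x0) (nat_lit 0x38003c007800000019800000000000000000000000) := T_48 (nat_lit 96) (nat_lit 95) (nat_lit 0) (nat_lit 14) (nat_lit 6) L118603 (by decide +kernel)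
theorem L118605 : W_48 (nat_lit 9) (nat_lit 0x10005800e0002000000000000000000000000) (nat_lit 0x0) (nat_lit 0x38003c007800300039800000000000000000000000) := Q_48 (nat_lit 116) (C_48 L118593 (C_48 L118594 (C_48 L118597 (C_48 L118604 N_48)))) (by decide +kernel)
theorem L118606 : W_48 (nat_lit 2) (nat_lit 0x5000010015801f000a000000000000000000000000) (nat_lit 0x0) (nat_lit 0x800200001000000000000000000000000) := D_48 (nat_lit 117) (nat_lit 131) (nat_lit 96) (nat_lit 1) (nat_lit 15) (nat_lit 6) (nat_lit 0) (nat_lit 15) (nat_lit 6) (by decide +kernel)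
theorem L118607 : W_48 (nat_lit 3) (nat_lit 0x5000010015800f000a000000000000000000000000) (nat_lit 0x0) (nat_lit 0x800300011000000000000000000000000) := T_48 (nat_lit 116) (nat_lit 100) (nat_lit 2) (nat_lit 11) (nat_lit 6) L118606 (by decide +kernel)
theorem L118608 : W_48 (nat_lit 4) (nat_lit 0x5000010015800f0002000000000000000000000000) (nat_lit 0x0) (nat_lit 0x80030001d000000000000000000000000) := T_48 (nat_lit 99) (nat_lit 98) (nat_lit 2) (nat_lit 10) (nat_lit 6) L118607 (by decide +kernel)
theorem L118609 : W_48 (nat_lit 5) (nat_lit 0x1000010015800f0002000000000000000000000000) (nat_lit 0x0) (nat_lit 0x40002000080030001d000000000000000000000000) := T_48 (nat_lit 166) (nat_lit 149) (nat_lit 4) (nat_lit 13) (nat_lit 9) L118608 (by decide +kernel)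
theorem L118610 : W_48 (nat_lit 6) (nat_lit 0x1000010005800f0002000000000000000000000000) (nat_lit 0x0) (nat_lit 0x40002000380030001d000000000000000000000000) := T_48 (nat_lit 132) (nat_lit 133) (nat_lit 3) (nat_lit 10) (nat_lit 6) L118609 (by decide +kernel)
theorem L118611 : W_48 (nat_lit 7) (nat_lit 0x1000010005800e0002000000000000000000000000) (nat_lit 0x0) (nat_lit 0x40002000380031801d000000000000000000000000) := T_48 (nat_lit 112) (nat_lit 111) (nat_lit 1) (nat_lit 12) (nat_lit 6) L118610 (by decide +kernel)
theorem L118612 : W_48 (nat_lit 8) (nat_lit 0x10005800e0002000000000000000000000000) (nat_lit 0x0) (nat_lit 0x50002800380031801d000000000000000000000000) := T_48 (nat_lit 164) (nat_lit 147) (nat_lit 6) (nat_lit 11) (nat_lit 9) L118611 (by decide +kernel)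
theorem L118613 : W_48 (nat_lit 9) (nat_lit 0x10005800f0002800000000000000000000000) (nat_lit 0x0) (nat_lit 0xf000f800380000000c000240002000000000000000) := T_48 (nat_lit 98) (nat_lit 99) (nat_lit 2) (nat_lit 10) (nat_lit 6) L118118 (by decide +kernel)
theorem L118614 : W_48 (nat_lit 10) (nat_lit 0x10005800f0002000000000000000000000000) (nat_lit 0x0) (nat_lit 0xf000f800380000000cc00240002000000000000000) := T_48 (nat_lit 95) (nat_lit 94) (nat_lit 0) (nat_lit 13) (nat_lit 6) L118613 (by decide +kernel)
theorem L118615 : W_48 (nat_lit 11) (nat_lit 0x10005800e0002000000000000000000000000) (nat_lit 0x0) (nat_lit 0xf000f800380001800cc00240002000000000000000) := T_48 (nat_lit 112) (nat_lit 111) (nat_lit 1) (nat_lit 12) (nat_lit 6) L118614 (by decide +kernel)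
theorem L118616 : W_48 (nat_lit 2) (nat_lit 0x5000010015800f0007800240000000000000000000) (nat_lit 0x0) (nat_lit 0x800000000000000010000800000000000) := D_48 (nat_lit 64) (nat_lit 47) (nat_lit 131) (nat_lit 5) (nat_lit 13) (nat_lit 2) (nat_lit 5) (nat_lit 13) (nat_lit 3) (by decide +kernel)
theorem L118617 : W_48 (nat_lit 3) (nat_lit 0x5000010015800f0007800040000000000000000000) (nat_lit 0x0) (nat_lit 0x800000000000600010000800000000000) := T_48 (nat_lit 81) (nat_lit 82) (nat_lit 2) (nat_lit 10) (nat_lit 5) L118616 (by decide +kernel)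
theorem L118618 : W_48 (nat_lit 4) (nat_lit 0x5000010015800f0003800040000000000000000000) (nat_lit 0x0) (nat_lit 0x800000004000620010000800000000000) := T_48 (nat_lit 98) (nat_lit 77) (nat_lit 0) (nat_lit 13) (nat_lit 5) L118617 (by decide +kernel)
theorem L118619 : W_48 (nat_lit 5) (nat_lit 0x5000010015800f0002800040000000000000000000) (nat_lit 0x0) (nat_lit 0x800100005000620010000800000000000) := T_48 (nat_lit 96) (nat_lit 116) (nat_lit 0) (nat_lit 14) (nat_lit 6) L118618 (by decide +kernel)
theorem L118620 : W_48 (nat_lit 6) (nat_lit 0x5000010015800f0002800000000000000000000000) (nat_lit 0x0) (nat_lit 0x800100005000660012000800000000000) := T_48 (nat_lit 78) (nat_lit 61) (nat_lit 7) (nat_lit 10) (nat_lit 3) L118619 (by decide +kernel)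
theorem L118621 : W_48 (nat_lit 7) (nat_lit 0x4000010015800f0002800000000000000000000000) (nat_lit 0x0) (nat_lit 0x100008000800100005000660012000800000000000) := T_48 (nat_lit 164) (nat_lit 147) (nat_lit 6) (nat_lit 11) (nat_lit 9) L118620 (by decide +kernel)
theorem L118622 : W_48 (nat_lit 8) (nat_lit 0x10015800f0002800000000000000000000000) (nat_lit 0x0) (nat_lit 0x500028000800100005000660012000800000000000) := T_48 (nat_lit 166) (nat_lit 149) (nat_lit 4) (nat_lit 13) (nat_lit 9) L118621 (by decide +kernel)
theorem L118623 : W_48 (nat_lit 9) (nat_lit 0x10005800f0002800000000000000000000000) (nat_lit 0x0) (nat_lit 0x500028003800100005000660012000800000000000) := T_48 (nat_lit 132) (nat_lit 133) (nat_lit 3) (nat_lit 10) (nat_lit 6) L118622 (by decide +kernel)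
theorem L118624 : W_48 (nat_lit 10) (nat_lit 0x10005800f0002000000000000000000000000) (nat_lit 0x0) (nat_lit 0x500028003800100005c00660012000800000000000) := T_48 (nat_lit 95) (nat_lit 94) (nat_lit 0) (nat_lit 13) (nat_lit 6) L118623 (by decide +kernel)
theorem L118625 : W_48 (nat_lit 11) (nat_lit 0x10005800e0002000000000000000000000000) (nat_lit 0x0) (nat_lit 0x500028003800118005c00660012000800000000000) := T_48 (nat_lit 112) (nat_lit 111) (nat_lit 1) (nat_lit 12) (nat_lit 6) L118624 (by decide +kernel)
theorem L118626 : W_48 (nat_lit 12) (nat_lit 0x1000580060002000000000000000000000000) (nat_lit 0x0) (nat_lit 0xf800fc00780039803dc00660012000800000000000) := Q_48 (nat_lit 115) (C_48 L118592 (C_48 L118605 (C_48 L118612 (C_48 L118615 (C_48 L118625 N_48))))) (by decide +kernel)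
theorem L118627 : W_48 (nat_lit 2) (nat_lit 0x1003d80060016000300000000000000000000) (nat_lit 0x0) (nat_lit 0xc0000000080000000000000000000000000000) := D_48 (nat_lit 150) (nat_lit 151) (nat_lit 115) (nat_lit 3) (nat_lit 11) (nat_lit 7) (nat_lit 7) (nat_lit 13) (nat_lit 4) (by decide +kernel)
theorem L118628 : W_48 (nat_lit 3) (nat_lit 0x1001d80060016000300000000000000000000) (nat_lit 0x0) (nat_lit 0xc0006000080000000000000000000000000000) := T_48 (nat_lit 133) (nat_lit 134) (nat_lit 0) (nat_lit 15) (nat_lit 7) L118627 (by decide +kernel)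
theorem L118629 : W_48 (nat_lit 4) (nat_lit 0x1000d80060016000300000000000000000000) (nat_lit 0x0) (nat_lit 0xe0007000080000000000000000000000000000) := T_48 (nat_lit 132) (nat_lit 149) (nat_lit 7) (nat_lit 12) (nat_lit 4) L118628 (by decide +kernel)
theorem L118630 : W_48 (nat_lit 5) (nat_lit 0x1000d80060016000200000000000000000000) (nat_lit 0x0) (nat_lit 0xe0007000080000000100008000000000000000) := T_48 (nat_lit 80) (nat_lit 63) (nat_lit 5) (nat_lit 12) (nat_lit 3) L118629 (by decide +kernel)
theorem L118631 : W_48 (nat_lit 6) (nat_lit 0x1000580060016000200000000000000000000) (nat_lit 0x0) (nat_lit 0xf0007800080000000100008000000000000000) := T_48 (nat_lit 131) (nat_lit 148) (nat_lit 6) (nat_lit 12) (nat_lit 8) L118630 (by decide +kernel)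
theorem L118632 : W_48 (nat_lit 7) (nat_lit 0x1000580060006000200000000000000000000) (nat_lit 0x0) (nat_lit 0xf0007800080018000100008000000000000000) := T_48 (nat_lit 100) (nat_lit 99) (nat_lit 1) (nat_lit 15) (nat_lit 5) L118631 (by decide +kernel)
theorem L118633 : W_48 (nat_lit 8) (nat_lit 0x1000580060006000000000000000000000000) (nat_lit 0x0) (nat_lit 0xf0007800380019800300018000c00000000000) := Q_48 (nat_lit 81) (C_48 L118520 (C_48 L118510 (C_48 L118514 (C_48 L118517 (C_48 L118632 (C_48 L118504 N_48)))))) (by decide +kernel)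
theorem L118634 : W_48 (nat_lit 2) (nat_lit 0x400000001003d80068006000320000000000000000000) (nat_lit 0x0) (nat_lit 0xc0000000080000000000000000000000000000) := D_48 (nat_lit 150) (nat_lit 151) (nat_lit 115) (nat_lit 3) (nat_lit 11) (nat_lit 7) (nat_lit 7) (nat_lit 13) (nat_lit 4) (by decide +kernel)
theorem L118635 : W_48 (nat_lit 3) (nat_lit 0x400000001001d80068006000320000000000000000000) (nat_lit 0x0) (nat_lit 0xc0006000080000000000000000000000000000) := T_48 (nat_lit 133) (nat_lit 134) (nat_lit 0) (nat_lit 15) (nat_lit 7) L118634 (by decide +kernel)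
theorem L118636 : W_48 (nat_lit 4) (nat_lit 0x400000001000d80068006000320000000000000000000) (nat_lit 0x0) (nat_lit 0xe0007000080000000000000000000000000000) := T_48 (nat_lit 132) (nat_lit 149) (nat_lit 7) (nat_lit 12) (nat_lit 4) L118635 (by decide +kernel)
theorem L118637 : W_48 (nat_lit 5) (nat_lit 0x1000d80068006000320000000000000000000) (nat_lit 0x0) (nat_lit 0x4000200e0007000080000000000000000000000000000) := T_48 (nat_lit 178) (nat_lit 161) (nat_lit 6) (nat_lit 8) (nat_lit 10) L118636 (by decide +kernel)
theorem L118638 : W_48 (nat_lit 6) (nat_lit 0x1000d80068006000300000000000000000000) (nat_lit 0x0) (nat_lit 0x4000200e0007000080000400020000000000000000000) := T_48 (nat_lit 77) (nat_lit 94) (nat_lit 5) (nat_lit 9) (nat_lit 4) L118637 (by decide +kernel)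
theorem L118639 : W_48 (nat_lit 7) (nat_lit 0x1000d80068006000100000000000000000000) (nat_lit 0x0) (nat_lit 0x4000200e0007000080000400220010000000000000000) := T_48 (nat_lit 81) (nat_lit 64) (nat_lit 6) (nat_lit 12) (nat_lit 7) L118638 (by decide +kernel)
theorem L118640 : W_48 (nat_lit 8) (nat_lit 0x1000d80060006000100000000000000000000) (nat_lit 0x0) (nat_lit 0x4000200e0007000098000400220010000000000000000) := T_48 (nat_lit 111) (nat_lit 112) (nat_lit 2) (nat_lit 9) (nat_lit 6) L118639 (by decide +kernel)
theorem L118641 : W_48 (nat_lit 9) (nat_lit 0x1000d80060006000000000000000000000000) (nat_lit 0x0) (nat_lit 0x4000200e0007000098000400320018000000000000000) := T_48 (nat_lit 80) (nat_lit 63) (nat_lit 5) (nat_lit 12) (nat_lit 3) L118640 (by decide +kernel)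
theorem L118642 : W_48 (nat_lit 2) (nat_lit 0x28000800041003d80168006000120000000000000000000) (nat_lit 0x0) (nat_lit 0x500010000000000000000000000000000000000000000000000) := D_48 (nat_lit 184) (nat_lit 202) (nat_lit 200) (nat_lit 7) (nat_lit 14) (nat_lit 7) (nat_lit 5) (nat_lit 14) (nat_lit 7) (by decide +kernel)
theorem L118643 : W_48 (nat_lit 3) (nat_lit 0x20000800041003d80168006000120000000000000000000) (nat_lit 0x0) (nat_lit 0x500018000400000000000000000000000000000000000000000) := T_48 (nat_lit 183) (nat_lit 166) (nat_lit 5) (nat_lit 14) (nat_lit 6) L118642 (by decide +kernel)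
theorem L118644 : W_48 (nat_lit 4) (nat_lit 0x800041003d80168006000120000000000000000000) (nat_lit 0x0) (nat_lit 0x500038001400000000000000000000000000000000000000000) := T_48 (nat_lit 185) (nat_lit 168) (nat_lit 7) (nat_lit 14) (nat_lit 6) L118643 (by decide +kernel)
theorem L118645 : W_48 (nat_lit 5) (nat_lit 0x41003d80168006000120000000000000000000) (nat_lit 0x0) (nat_lit 0x500038001c00000000000080000000000000000000000000000) := T_48 (nat_lit 167) (nat_lit 115) (nat_lit 4) (nat_lit 14) (nat_lit 9) L118644 (by decide +kernel)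
theorem L118646 : W_48 (nat_lit 6) (nat_lit 0x41003d80068006000120000000000000000000) (nat_lit 0x0) (nat_lit 0x500038001c00000000000380000000000000000000000000000) := T_48 (nat_lit 116) (nat_lit 117) (nat_lit 2) (nat_lit 11) (nat_lit 7) L118645 (by decide +kernel)
theorem L118647 : W_48 (nat_lit 7) (nat_lit 0x1003d80068006000120000000000000000000) (nat_lit 0x0) (nat_lit 0x500038001c000c0000000380000000000000000000000000000) := T_48 (nat_lit 150) (nat_lit 151) (nat_lit 3) (nat_lit 11) (nat_lit 7) L118646 (by decide +kernel)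
theorem L118648 : W_48 (nat_lit 8) (nat_lit 0x1003d80068006000100000000000000000000) (nat_lit 0x0) (nat_lit 0x500038001c000c0000000380000400020000000000000000000) := T_48 (nat_lit 77) (nat_lit 94) (nat_lit 5) (nat_lit 9) (nat_lit 4) L118647 (by decide +kernel)
theorem L118649 : W_48 (nat_lit 9) (nat_lit 0x1001d80068006000100000000000000000000) (nat_lit 0x0) (nat_lit 0x500038001c000c0006000380000400020000000000000000000) := T_48 (nat_lit 133) (nat_lit 134) (nat_lit 0) (nat_lit 15) (nat_lit 7) L118648 (by decide +kernel)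
theorem L118650 : W_48 (nat_lit 10) (nat_lit 0x1000d80068006000100000000000000000000) (nat_lit 0x0) (nat_lit 0x500038001c000e0007000380000400020000000000000000000) := T_48 (nat_lit 132) (nat_lit 149) (nat_lit 7) (nat_lit 12) (nat_lit 4) L118649 (by decide +kernel)
theorem L118651 : W_48 (nat_lit 11) (nat_lit 0x1000d80060006000100000000000000000000) (nat_lit 0x0) (nat_lit 0x500038001c000e0007000398000400020000000000000000000) := T_48 (nat_lit 111) (nat_lit 112) (nat_lit 2) (nat_lit 9) (nat_lit 6) L118650 (by decide +kernel)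
theorem L118652 : W_48 (nat_lit 12) (nat_lit 0x1000d80060006000000000000000000000000) (nat_lit 0x0) (nat_lit 0x500038001c000e0007000398000400120008000000000000000) := T_48 (nat_lit 80) (nat_lit 63) (nat_lit 5) (nat_lit 12) (nat_lit 3) L118651 (by decide +kernel)
theorem L118653 : W_48 (nat_lit 13) (nat_lit 0x1000580060006000000000000000000000000) (nat_lit 0x0) (nat_lit 0x50003c401e200f0007800398001400320018000000000000000) := Q_48 (nat_lit 131) (C_48 L118457 (C_48 L118641 (C_48 L118456 (C_48 L118652 N_48)))) (by decide +kernel)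
theorem L118654 : W_48 (nat_lit 14) (nat_lit 0x1000580060002000000000000000000000000) (nat_lit 0x0) (nat_lit 0x50003c401e200f000780039801dc00320018000c00000000000) := Q_48 (nat_lit 98) (C_48 L118068 (C_48 L118090 (C_48 L118633 (C_48 L118653 N_48)))) (by decide +kernel)
theorem L118655 : W_48 (nat_lit 15) (nat_lit 0x1000580060000000000000000000000000000) (nat_lit 0x0) (nat_lit 0x50003c401fa00fc00780039803fc0076001a000c00000000000) := Q_48 (nat_lit 97) (C_48 L118004 (C_48 L118626 (C_48 L117956 (C_48 L117954 (C_48 L118654 N_48))))) (by decide +kernel)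
theorem L118656 : W_48 (nat_lit 2) (nat_lit 0x19000580070001000080000000000000000000) (nat_lit 0x0) (nat_lit 0x800040002000000000000000) := D_48 (nat_lit 78) (nat_lit 61) (nat_lit 95) (nat_lit 4) (nat_lit 11) (nat_lit 7) (nat_lit 4) (nat_lit 11) (nat_lit 8) (by decide +kernel)
theorem L118657 : W_48 (nat_lit 3) (nat_lit 0x19000580070001000000000000000000000000) (nat_lit 0x0) (nat_lit 0x8000000008000c0002000000000000000) := T_48 (nat_lit 79) (nat_lit 131) (nat_lit 7) (nat_lit 11) (nat_lit 4) L118656 (by decide +kernel)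
theorem L118658 : W_48 (nat_lit 4) (nat_lit 0x9000580070001000000000000000000000000) (nat_lit 0x0) (nat_lit 0x2000100008000000008000c0002000000000000000) := T_48 (nat_lit 148) (nat_lit 165) (nat_lit 7) (nat_lit 11) (nat_lit 5) L118657 (by decide +kernel)
theorem L118659 : W_48 (nat_lit 5) (nat_lit 0x9000580060001000000000000000000000000) (nat_lit 0x0) (nat_lit 0x2000100008000180008000c0002000000000000000) := T_48 (nat_lit 112) (nat_lit 111) (nat_lit 1) (nat_lit 12) (nat_lit 6) L118658 (by decide +kernel)
theorem L118660 : W_48 (nat_lit 2) (nat_lit 0x1d000580060001000080000000000000000000) (nat_lit 0x0) (nat_lit 0x800040002000000000000000) := D_48 (nat_lit 78) (nat_lit 61) (nat_lit 95) (nat_lit 4) (nat_lit 11) (nat_lit 7) (nat_lit 4) (nat_lit 11) (nat_lit 8) (by decide +kernel)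
theorem L118661 : W_48 (nat_lit 3) (nat_lit 0x1d000580060001000000000000000000000000) (nat_lit 0x0) (nat_lit 0x8000000008000c0002000000000000000) := T_48 (nat_lit 79) (nat_lit 131) (nat_lit 7) (nat_lit 11) (nat_lit 4) L118660 (by decide +kernel)
theorem L118662 : W_48 (nat_lit 4) (nat_lit 0xd000580060001000000000000000000000000) (nat_lit 0x0) (nat_lit 0x2000100008000000008000c0002000000000000000) := T_48 (nat_lit 148) (nat_lit 165) (nat_lit 7) (nat_lit 11) (nat_lit 5) L118661 (by decide +kernel)
theorem L118663 : W_48 (nat_lit 5) (nat_lit 0x9000580060001000000000000000000000000) (nat_lit 0x0) (nat_lit 0x2800140008000000008000c0002000000000000000) := T_48 (nat_lit 146) (nat_lit 163) (nat_lit 5) (nat_lit 11) (nat_lit 5) L118662 (by decide +kernel)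
theorem L118664 : W_48 (nat_lit 2) (nat_lit 0x1d000580070001000080006000400000000000) (nat_lit 0x0) (nat_lit 0x2000000000000200020000000) := D_48 (nat_lit 45) (nat_lit 97) (nat_lit 29) (nat_lit 7) (nat_lit 11) (nat_lit 2) (nat_lit 6) (nat_lit 11) (nat_lit 5) (by decide +kernel)
theorem L118665 : W_48 (nat_lit 3) (nat_lit 0x1d000580070001000080006000000000000000) (nat_lit 0x0) (nat_lit 0x2000000008000600020000000) := T_48 (nat_lit 46) (nat_lit 63) (nat_lit 6) (nat_lit 11) (nat_lit 6) L118664 (by decide +kernel)
theorem L118666 : W_48 (nat_lit 4) (nat_lit 0x1d000580070001000080002000000000000000) (nat_lit 0x0) (nat_lit 0x200000000c000700020000000) := T_48 (nat_lit 62) (nat_lit 44) (nat_lit 4) (nat_lit 11) (nat_lit 6) L118665 (by decide +kernel)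
theorem L118667 : W_48 (nat_lit 5) (nat_lit 0x1d000580070001000080000000000000000000) (nat_lit 0x0) (nat_lit 0x200004000e000700020000000) := T_48 (nat_lit 61) (nat_lit 78) (nat_lit 4) (nat_lit 11) (nat_lit 7) L118666 (by decide +kernel)
theorem L118668 : W_48 (nat_lit 6) (nat_lit 0x1d000580070001000000000000000000000000) (nat_lit 0x0) (nat_lit 0x8000000020000c000e000700020000000) := T_48 (nat_lit 79) (nat_lit 131) (nat_lit 7) (nat_lit 11) (nat_lit 4) L118667 (by decide +kernel)
theorem L118669 : W_48 (nat_lit 7) (nat_lit 0xd000580070001000000000000000000000000) (nat_lit 0x0) (nat_lit 0x2000100008000000020000c000e000700020000000) := T_48 (nat_lit 148) (nat_lit 165) (nat_lit 7) (nat_lit 11) (nat_lit 5) L118668 (by decide +kernel)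
theorem L118670 : W_48 (nat_lit 8) (nat_lit 0x9000580070001000000000000000000000000) (nat_lit 0x0) (nat_lit 0x2800140008000000020000c000e000700020000000) := T_48 (nat_lit 146) (nat_lit 163) (nat_lit 5) (nat_lit 11) (nat_lit 5) L118669 (by decide +kernel)
theorem L118671 : W_48 (nat_lit 9) (nat_lit 0x9000580060001000000000000000000000000) (nat_lit 0x0) (nat_lit 0x2800140008000180020000c000e000700020000000) := T_48 (nat_lit 112) (nat_lit 111) (nat_lit 1) (nat_lit 12) (nat_lit 6) L118670 (by decide +kernel)
theorem L118672 : W_48 (nat_lit 2) (nat_lit 0x40000001d000580068001c00080000000000000000000) (nat_lit 0x0) (nat_lit 0x180002000000000000000000000000) := D_48 (nat_lit 115) (nat_lit 116) (nat_lit 97) (nat_lit 0) (nat_lit 14) (nat_lit 6) (nat_lit 3) (nat_lit 9) (nat_lit 5) (by decide +kernel)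
theorem L118673 : W_48 (nat_lit 3) (nat_lit 0x40000001d000580068001400080000000000000000000) (nat_lit 0x0) (nat_lit 0x180002a00000000000000000000000) := T_48 (nat_lit 95) (nat_lit 93) (nat_lit 3) (nat_lit 8) (nat_lit 5) L118672 (by decide +kernel)
theorem L118674 : W_48 (nat_lit 4) (nat_lit 0x40000001d000580068001000080000000000000000000) (nat_lit 0x0) (nat_lit 0x180002e00020000000000000000000) := T_48 (nat_lit 94) (nat_lit 77) (nat_lit 5) (nat_lit 9) (nat_lit 4) L118673 (by decide +kernel)
theorem L118675 : W_48 (nat_lit 5) (nat_lit 0x1d000580068001000080000000000000000000) (nat_lit 0x0) (nat_lit 0x400020000000000180002e00020000000000000000000) := T_48 (nat_lit 178) (nat_lit 161) (nat_lit 6) (nat_lit 8) (nat_lit 10) L118674 (by decide +kernel)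
theorem L118676 : W_48 (nat_lit 6) (nat_lit 0x19000580068001000080000000000000000000) (nat_lit 0x0) (nat_lit 0x4000a0004000000180002e00020000000000000000000) := T_48 (nat_lit 146) (nat_lit 163) (nat_lit 5) (nat_lit 11) (nat_lit 5) L118675 (by decide +kernel)
theorem L118677 : W_48 (nat_lit 7) (nat_lit 0x19000580060001000080000000000000000000) (nat_lit 0x0) (nat_lit 0x4000a0004000000198002e00020000000000000000000) := T_48 (nat_lit 111) (nat_lit 112) (nat_lit 1) (nat_lit 12) (nat_lit 6) L118676 (by decide +kernel)
theorem L118678 : W_48 (nat_lit 8) (nat_lit 0x19000580060001000000000000000000000000) (nat_lit 0x0) (nat_lit 0x4000a0004000800198002e000a0000000000000000000) := T_48 (nat_lit 79) (nat_lit 131) (nat_lit 7) (nat_lit 11) (nat_lit 4) L118677 (by decide +kernel)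
theorem L118679 : W_48 (nat_lit 9) (nat_lit 0x9000580060001000000000000000000000000) (nat_lit 0x0) (nat_lit 0x4002a0014000800198002e000a0000000000000000000) := T_48 (nat_lit 148) (nat_lit 165) (nat_lit 7) (nat_lit 11) (nat_lit 5) L118678 (by decide +kernel)
theorem L118680 : W_48 (nat_lit 2) (nat_lit 0x9000580070001800000000000000000000000) (nat_lit 0x0) (nat_lit 0x80000600000000000000000000000) := D_48 (nat_lit 94) (nat_lit 93) (nat_lit 115) (nat_lit 3) (nat_lit 8) (nat_lit 5) (nat_lit 0) (nat_lit 13) (nat_lit 6) (by decide +kernel)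
theorem L118681 : W_48 (nat_lit 3) (nat_lit 0x9000580070001000000000000000000000000) (nat_lit 0x0) (nat_lit 0x80000e00040000000000000000000) := T_48 (nat_lit 95) (nat_lit 78) (nat_lit 4) (nat_lit 11) (nat_lit 8) L118680 (by decide +kernel)
theorem L118682 : W_48 (nat_lit 4) (nat_lit 0x9000580060001000000000000000000000000) (nat_lit 0x0) (nat_lit 0x98000e00040000000000000000000) := T_48 (nat_lit 112) (nat_lit 111) (nat_lit 1) (nat_lit 12) (nat_lit 6) L118681 (by decide +kernel)
theorem L118683 : W_48 (nat_lit 10) (nat_lit 0x9000580060000000000000000000000000000) (nat_lit 0x0) (nat_lit 0x4002a0014000800198003e000e000e000700020000000) := Q_48 (nat_lit 96) (C_48 L118659 (C_48 L118663 (C_48 L118671 (C_48 L118679 (C_48 L118682 N_48))))) (by decide +kernel)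
theorem L118684 : W_48 (nat_lit 11) (nat_lit 0x1000580060000000000000000000000000000) (nat_lit 0x0) (nat_lit 0x54003a001c000800198003e000e000e000700020000000) := Q_48 (nat_lit 147) (C_48 L118132 (C_48 L118170 (C_48 L118128 (C_48 L118683 N_48)))) (by decide +kernel)
theorem L118685 : W_48 (nat_lit 2) (nat_lit 0x3d0025801e000b000000000000000000000000) (nat_lit 0x0) (nat_lit 0xc00040000000000000000000000000000000000000) := D_48 (nat_lit 166) (nat_lit 167) (nat_lit 150) (nat_lit 3) (nat_lit 10) (nat_lit 8) (nat_lit 5) (nat_lit 14) (nat_lit 5) (by decide +kernel)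
theorem L118686 : W_48 (nat_lit 3) (nat_lit 0x1d0025801e000b000000000000000000000000) (nat_lit 0x0) (nat_lit 0xc00060001000000000000000000000000000000000) := T_48 (nat_lit 149) (nat_lit 132) (nat_lit 2) (nat_lit 10) (nat_lit 8) L118685 (by decide +kernel)
theorem L118687 : W_48 (nat_lit 4) (nat_lit 0x1d0005801e000b000000000000000000000000) (nat_lit 0x0) (nat_lit 0xc00060007000000000000000000000000000000000) := T_48 (nat_lit 133) (nat_lit 134) (nat_lit 3) (nat_lit 11) (nat_lit 6) L118686 (by decide +kernel)
theorem L118688 : W_48 (nat_lit 5) (nat_lit 0x1d0005801e0003000000000000000000000000) (nat_lit 0x0) (nat_lit 0xc00060007000000018000000000000000000000000) := T_48 (nat_lit 99) (nat_lit 100) (nat_lit 2) (nat_lit 11) (nat_lit 6) L118687 (by decide +kernel)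
theorem L118689 : W_48 (nat_lit 6) (nat_lit 0x1d0005800e0003000000000000000000000000) (nat_lit 0x0) (nat_lit 0xc00060007000300018000000000000000000000000) := T_48 (nat_lit 116) (nat_lit 117) (nat_lit 0) (nat_lit 15) (nat_lit 6) L118688 (by decide +kernel)
theorem L118690 : W_48 (nat_lit 7) (nat_lit 0x1d0005800e0001000000000000000000000000) (nat_lit 0x0) (nat_lit 0xc0006000700030001a000100000000000000000000) := T_48 (nat_lit 97) (nat_lit 80) (nat_lit 6) (nat_lit 11) (nat_lit 8) L118689 (by decide +kernel)
theorem L118691 : W_48 (nat_lit 8) (nat_lit 0x190005800e0001000000000000000000000000) (nat_lit 0x0) (nat_lit 0xc8006400700030001a000100000000000000000000) := T_48 (nat_lit 146) (nat_lit 163) (nat_lit 5) (nat_lit 11) (nat_lit 5) L118690 (by decide +kernel)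
theorem L118692 : W_48 (nat_lit 9) (nat_lit 0x90005800e0001000000000000000000000000) (nat_lit 0x0) (nat_lit 0xe8007400700030001a000100000000000000000000) := T_48 (nat_lit 148) (nat_lit 165) (nat_lit 7) (nat_lit 11) (nat_lit 5) L118691 (by decide +kernel)
theorem L118693 : W_48 (nat_lit 2) (nat_lit 0x90005800e0003000000000000000000000000) (nat_lit 0x0) (nat_lit 0xc00040000000000000000000) := D_48 (nat_lit 95) (nat_lit 94) (nat_lit 78) (nat_lit 3) (nat_lit 9) (nat_lit 5) (nat_lit 4) (nat_lit 11) (nat_lit 8) (by decide +kernel)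
theorem L118694 : W_48 (nat_lit 3) (nat_lit 0x90005800e0001000000000000000000000000) (nat_lit 0x0) (nat_lit 0x2c00140000000000000000000) := T_48 (nat_lit 97) (nat_lit 80) (nat_lit 6) (nat_lit 11) (nat_lit 8) L118693 (by decide +kernel)
theorem L118695 : W_48 (nat_lit 10) (nat_lit 0x90005800e0000000000000000000000000000) (nat_lit 0x0) (nat_lit 0xe8007400700030001bc00140000000000000000000) := Q_48 (nat_lit 96) (C_48 L118145 (C_48 L118692 (C_48 L118694 N_48))) (by decide +kernel)
theorem L118696 : W_48 (nat_lit 2) (nat_lit 0x90025801f0005000000000000000000000000) (nat_lit 0x0) (nat_lit 0x200002000100000000000000000000) := D_48 (nat_lit 97) (nat_lit 117) (nat_lit 80) (nat_lit 0) (nat_lit 15) (nat_lit 6) (nat_lit 6) (nat_lit 11) (nat_lit 8) (by decide +kernel)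
theorem L118697 : W_48 (nat_lit 3) (nat_lit 0x90025801f0004000000000000000000000000) (nat_lit 0x0) (nat_lit 0x200003800100000000000000000000) := T_48 (nat_lit 96) (nat_lit 95) (nat_lit 0) (nat_lit 14) (nat_lit 6) L118696 (by decide +kernel)
theorem L118698 : W_48 (nat_lit 4) (nat_lit 0x90025800f0004000000000000000000000000) (nat_lit 0x0) (nat_lit 0x4000300003800100000000000000000000) := T_48 (nat_lit 116) (nat_lit 134) (nat_lit 3) (nat_lit 11) (nat_lit 6) L118697 (by decide +kernel)
theorem L118699 : W_48 (nat_lit 5) (nat_lit 0x90005800f0004000000000000000000000000) (nat_lit 0x0) (nat_lit 0x7000300003800100000000000000000000) := T_48 (nat_lit 133) (nat_lit 132) (nat_lit 3) (nat_lit 10) (nat_lit 6) L118698 (by decide +kernel)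
theorem L118700 : W_48 (nat_lit 6) (nat_lit 0x90005800f0000000000000000000000000000) (nat_lit 0x0) (nat_lit 0x700030000f800100000000000000000000) := T_48 (nat_lit 98) (nat_lit 99) (nat_lit 2) (nat_lit 10) (nat_lit 6) L118699 (by decide +kernel)
theorem L118701 : W_48 (nat_lit 7) (nat_lit 0x90005800e0000000000000000000000000000) (nat_lit 0x0) (nat_lit 0x700031800f800100000000000000000000) := T_48 (nat_lit 112) (nat_lit 111) (nat_lit 1) (nat_lit 12) (nat_lit 6) L118700 (by decide +kernel)
theorem L118702 : W_48 (nat_lit 2) (nat_lit 0x90025800f0008000000000000000000000000) (nat_lit 0x0) (nat_lit 0x4000100010000000000000000000000000) := D_48 (nat_lit 116) (nat_lit 100) (nat_lit 134) (nat_lit 2) (nat_lit 11) (nat_lit 6) (nat_lit 3) (nat_lit 11) (nat_lit 6) (by decide +kernel)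
theorem L118703 : W_48 (nat_lit 3) (nat_lit 0x90005800f0008000000000000000000000000) (nat_lit 0x0) (nat_lit 0x7000100010000000000000000000000000) := T_48 (nat_lit 133) (nat_lit 132) (nat_lit 3) (nat_lit 10) (nat_lit 6) L118702 (by decide +kernel)
theorem L118704 : W_48 (nat_lit 4) (nat_lit 0x90005800f0000000000000000000000000000) (nat_lit 0x0) (nat_lit 0x700010001c000000000000000000000000) := T_48 (nat_lit 99) (nat_lit 98) (nat_lit 2) (nat_lit 10) (nat_lit 6) L118703 (by decide +kernel)
theorem L118705 : W_48 (nat_lit 5) (nat_lit 0x90005800e0000000000000000000000000000) (nat_lit 0x0) (nat_lit 0x700011801c000000000000000000000000) := T_48 (nat_lit 112) (nat_lit 111) (nat_lit 1) (nat_lit 12) (nat_lit 6) L118704 (by decide +kernel)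
theorem L118706 : W_48 (nat_lit 11) (nat_lit 0x9000580060000000000000000000000000000) (nat_lit 0x0) (nat_lit 0xe8007400700039801fc00140002000000000000000) := Q_48 (nat_lit 115) (C_48 L118164 (C_48 L118695 (C_48 L118701 (C_48 L118705 N_48)))) (by decide +kernel)
theorem L118707 : W_48 (nat_lit 12) (nat_lit 0x1000580060000000000000000000000000000) (nat_lit 0x0) (nat_lit 0x5000f8007c00700039801fc00140002000000000000000) := Q_48 (nat_lit 147) (C_48 L118128 (C_48 L118132 (C_48 L118170 (C_48 L118706 N_48)))) (by decide +kernel)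
theorem L118708 : W_48 (nat_lit 2) (nat_lit 0x11000d80060000000000000000000000000000) (nat_lit 0x0) (nat_lit 0x4000200000000000000001000000000000000000000000) := D_48 (nat_lit 165) (nat_lit 96) (nat_lit 182) (nat_lit 4) (nat_lit 12) (nat_lit 9) (nat_lit 4) (nat_lit 12) (nat_lit 10) (by decide +kernel)
theorem L118709 : W_48 (nat_lit 2) (nat_lit 0x700011000d80060002000000000000000000000000) (nat_lit 0x0) (nat_lit 0x80004000200000000000000000000) := D_48 (nat_lit 98) (nat_lit 81) (nat_lit 115) (nat_lit 6) (nat_lit 12) (nat_lit 8) (nat_lit 6) (nat_lit 12) (nat_lit 9) (by decide +kernel)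
theorem L118710 : W_48 (nat_lit 3) (nat_lit 0x700011000d80060000000000000000000000000000) (nat_lit 0x0) (nat_lit 0x20000000080006000200000000000000000000) := T_48 (nat_lit 97) (nat_lit 149) (nat_lit 7) (nat_lit 12) (nat_lit 5) L118709 (by decide +kernel)
theorem L118711 : W_48 (nat_lit 4) (nat_lit 0x300011000d80060000000000000000000000000000) (nat_lit 0x0) (nat_lit 0x8000400020000000080006000200000000000000000000) := T_48 (nat_lit 166) (nat_lit 183) (nat_lit 7) (nat_lit 12) (nat_lit 6) L118710 (by decide +kernel)
theorem L118712 : W_48 (nat_lit 5) (nat_lit 0x200011000d80060000000000000000000000000000) (nat_lit 0x0) (nat_lit 0xa000500020000000080006000200000000000000000000) := T_48 (nat_lit 164) (nat_lit 181) (nat_lit 5) (nat_lit 12) (nat_lit 6) L118711 (by decide +kernel)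
theorem L118713 : W_48 (nat_lit 6) (nat_lit 0x11000d80060000000000000000000000000000) (nat_lit 0x0) (nat_lit 0xe000700020000000080006000200000000000000000000) := T_48 (nat_lit 165) (nat_lit 182) (nat_lit 4) (nat_lit 12) (nat_lit 10) L118712 (by decide +kernel)
theorem L118714 : W_48 (nat_lit 2) (nat_lit 0x11000d80060000000000000000000000000000) (nat_lit 0x0) (nat_lit 0x200000000000000001000080000000000000000000) := D_48 (nat_lit 96) (nat_lit 79) (nat_lit 165) (nat_lit 7) (nat_lit 11) (nat_lit 4) (nat_lit 4) (nat_lit 12) (nat_lit 9) (by decide +kernel)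
theorem L118715 : W_48 (nat_lit 2) (nat_lit 0x11000d80060002000080000000000000000000) (nat_lit 0x0) (nat_lit 0x10000c000000000000000) := D_48 (nat_lit 80) (nat_lit 62) (nat_lit 63) (nat_lit 4) (nat_lit 12) (nat_lit 7) (nat_lit 5) (nat_lit 12) (nat_lit 3) (by decide +kernel)
theorem L118716 : W_48 (nat_lit 3) (nat_lit 0x11000d80060002000000000000000000000000) (nat_lit 0x0) (nat_lit 0x100018000c000000000000000) := T_48 (nat_lit 79) (nat_lit 96) (nat_lit 7) (nat_lit 11) (nat_lit 4) L118715 (by decide +kernel)
theorem L118717 : W_48 (nat_lit 2) (nat_lit 0x31000d80060002000000000000000000000000) (nat_lit 0x0) (nat_lit 0x1000000000000100008000000000000000) := D_48 (nat_lit 80) (nat_lit 132) (nat_lit 63) (nat_lit 7) (nat_lit 12) (nat_lit 4) (nat_lit 5) (nat_lit 12) (nat_lit 3) (by decide +kernel)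
theorem L118718 : W_48 (nat_lit 3) (nat_lit 0x11000d80060002000000000000000000000000) (nat_lit 0x0) (nat_lit 0x400020001000000000000100008000000000000000) := T_48 (nat_lit 149) (nat_lit 166) (nat_lit 7) (nat_lit 12) (nat_lit 5) L118717 (by decide +kernel)
theorem L118719 : W_48 (nat_lit 13) (nat_lit 0x11000d80060000000000000000000000000000) (nat_lit 0x0) (nat_lit 0x4000e000700038001fe00fe000c000000000000000) := Q_48 (nat_lit 97) (C_48 L118034 (C_48 L118716 (C_48 L118718 N_48))) (by decide +kernel)
theorem L118720 : W_48 (nat_lit 14) (nat_lit 0x1000d80060000000000000000000000000000) (nat_lit 0x0) (nat_lit 0xe0007000f000700038001fe00fe000c000000000000000) := Q_48 (nat_lit 148) (C_48 L118708 (C_48 L118713 (C_48 L118714 (C_48 L118719 N_48)))) (by decide +kernel)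
theorem L118721 : W_48 (nat_lit 5) (nat_lit 0x11000d80060000000000000000000000000000) (nat_lit 0x0) (nat_lit 0x40002000100009801e000300008000000000000000) := Q_48 (nat_lit 97) (C_48 L118718 (C_48 L118276 N_48)) (by decide +kernel)
theorem L118722 : W_48 (nat_lit 7) (nat_lit 0x1000d80060000000000000000000000000000) (nat_lit 0x0) (nat_lit 0xe00070003000100009801f000380008000000000000000) := Q_48 (nat_lit 148) (C_48 L118714 (C_48 L118713 (C_48 L118721 N_48))) (by decide +kernel)
theorem L118723 : W_48 (nat_lit 2) (nat_lit 0x1001d80060000000000000000000000000000) (nat_lit 0x0) (nat_lit 0x2000018000000000000000000000000000) := D_48 (nat_lit 112) (nat_lit 111) (nat_lit 133) (nat_lit 3) (nat_lit 9) (nat_lit 6) (nat_lit 0) (nat_lit 14) (nat_lit 7) (by decide +kernel)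
theorem L118724 : W_48 (nat_lit 2) (nat_lit 0x1001d801f0000000000000000000000000000) (nat_lit 0x0) (nat_lit 0x1c00000000000000000000000) := D_48 (nat_lit 95) (nat_lit 94) (nat_lit 96) (nat_lit 0) (nat_lit 13) (nat_lit 6) (nat_lit 0) (nat_lit 14) (nat_lit 6) (by decide +kernel)
theorem L118725 : W_48 (nat_lit 3) (nat_lit 0x1001d801e0000000000000000000000000000) (nat_lit 0x0) (nat_lit 0x18001c00000000000000000000000) := T_48 (nat_lit 112) (nat_lit 111) (nat_lit 3) (nat_lit 9) (nat_lit 6) L118724 (by decide +kernel)
theorem L118726 : W_48 (nat_lit 4) (nat_lit 0x1001d800e0000000000000000000000000000) (nat_lit 0x0) (nat_lit 0x318001c00000000000000000000000) := T_48 (nat_lit 116) (nat_lit 117) (nat_lit 1) (nat_lit 15) (nat_lit 6) L118725 (by decide +kernel)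
theorem L118727 : W_48 (nat_lit 2) (nat_lit 0x1001d800f0004800700002000000000000000) (nat_lit 0x0) (nat_lit 0x3000080000000000000000000) := D_48 (nat_lit 96) (nat_lit 97) (nat_lit 79) (nat_lit 2) (nat_lit 10) (nat_lit 5) (nat_lit 1) (nat_lit 14) (nat_lit 4) (by decide +kernel)
theorem L118728 : W_48 (nat_lit 3) (nat_lit 0x1001d800f0004800300002000000000000000) (nat_lit 0x0) (nat_lit 0x3000480020000000000000000) := T_48 (nat_lit 82) (nat_lit 65) (nat_lit 6) (nat_lit 13) (nat_lit 7) L118727 (by decide +kernel)
theorem L118729 : W_48 (nat_lit 4) (nat_lit 0x1001d800f0004800200002000000000000000) (nat_lit 0x0) (nat_lit 0x3000580028000000000000000) := T_48 (nat_lit 80) (nat_lit 63) (nat_lit 4) (nat_lit 13) (nat_lit 7) L118728 (by decide +kernel)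
theorem L118730 : W_48 (nat_lit 5) (nat_lit 0x1001d800f0004800000002000000000000000) (nat_lit 0x0) (nat_lit 0x3000780038000000000000000) := T_48 (nat_lit 81) (nat_lit 64) (nat_lit 5) (nat_lit 13) (nat_lit 3) L118729 (by decide +kernel)
theorem L118731 : W_48 (nat_lit 6) (nat_lit 0x1001d800f0004800000000000000000000000) (nat_lit 0x0) (nat_lit 0x30007c003a000000000000000) := T_48 (nat_lit 61) (nat_lit 78) (nat_lit 7) (nat_lit 10) (nat_lit 3) L118730 (by decide +kernel)
theorem L118732 : W_48 (nat_lit 7) (nat_lit 0x1001d800f0000800000000000000000000000) (nat_lit 0x0) (nat_lit 0xf0007c003a000000000000000) := T_48 (nat_lit 98) (nat_lit 99) (nat_lit 2) (nat_lit 10) (nat_lit 6) L118731 (by decide +kernel)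
theorem L118733 : W_48 (nat_lit 8) (nat_lit 0x1001d800f0000000000000000000000000000) (nat_lit 0x0) (nat_lit 0xfc007c003a000000000000000) := T_48 (nat_lit 95) (nat_lit 94) (nat_lit 0) (nat_lit 13) (nat_lit 6) L118732 (by decide +kernel)
theorem L118734 : W_48 (nat_lit 9) (nat_lit 0x1001d800e0000000000000000000000000000) (nat_lit 0x0) (nat_lit 0x1800fc007c003a000000000000000) := T_48 (nat_lit 112) (nat_lit 111) (nat_lit 3) (nat_lit 9) (nat_lit 6) L118733 (by decide +kernel)
theorem L118735 : W_48 (nat_lit 10) (nat_lit 0x1001d80060000000000000000000000000000) (nat_lit 0x0) (nat_lit 0x40002000000039801fc007c003a000000000000000) := Q_48 (nat_lit 115) (C_48 L118286 (C_48 L118726 (C_48 L118734 N_48))) (by decide +kernel)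
theorem L118736 : W_48 (nat_lit 11) (nat_lit 0x1000d80060000000000000000000000000000) (nat_lit 0x0) (nat_lit 0x10000c000e000700039801fc007c003a000000000000000) := Q_48 (nat_lit 132) (C_48 L118723 (C_48 L118538 (C_48 L118735 N_48))) (by decide +kernel)
theorem L118737 : W_48 (nat_lit 2) (nat_lit 0x700011002d80070002000200000000000000000000) (nat_lit 0x0) (nat_lit 0x100018000000000000000) := D_48 (nat_lit 80) (nat_lit 63) (nat_lit 64) (nat_lit 5) (nat_lit 12) (nat_lit 3) (nat_lit 6) (nat_lit 12) (nat_lit 7) (by decide +kernel)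
theorem L118738 : W_48 (nat_lit 3) (nat_lit 0x700011002d80070002000000000000000000000000) (nat_lit 0x0) (nat_lit 0x4000300018000000000000000) := T_48 (nat_lit 81) (nat_lit 98) (nat_lit 6) (nat_lit 12) (nat_lit 8) L118737 (by decide +kernel)
theorem L118739 : W_48 (nat_lit 4) (nat_lit 0x700011002d80070000000000000000000000000000) (nat_lit 0x0) (nat_lit 0x20000000000006000300018000000000000000) := T_48 (nat_lit 97) (nat_lit 149) (nat_lit 7) (nat_lit 12) (nat_lit 5) L118738 (by decide +kernel)
theorem L118740 : W_48 (nat_lit 5) (nat_lit 0x300011002d80070000000000000000000000000000) (nat_lit 0x0) (nat_lit 0x8000400020000000000006000300018000000000000000) := T_48 (nat_lit 166) (nat_lit 183) (nat_lit 7) (nat_lit 12) (nat_lit 6) L118739 (by decide +kernel)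
theorem L118741 : W_48 (nat_lit 6) (nat_lit 0x200011002d80070000000000000000000000000000) (nat_lit 0x0) (nat_lit 0xa000500020000000000006000300018000000000000000) := T_48 (nat_lit 164) (nat_lit 181) (nat_lit 5) (nat_lit 12) (nat_lit 6) L118740 (by decide +kernel)
theorem L118742 : W_48 (nat_lit 7) (nat_lit 0x11002d80070000000000000000000000000000) (nat_lit 0x0) (nat_lit 0xe000700020000000000006000300018000000000000000) := T_48 (nat_lit 165) (nat_lit 182) (nat_lit 4) (nat_lit 12) (nat_lit 10) L118741 (by decide +kernel)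
theorem L118743 : W_48 (nat_lit 8) (nat_lit 0x11000d80070000000000000000000000000000) (nat_lit 0x0) (nat_lit 0xe000700020003000000006000300018000000000000000) := T_48 (nat_lit 133) (nat_lit 132) (nat_lit 0) (nat_lit 14) (nat_lit 7) L118742 (by decide +kernel)
theorem L118744 : W_48 (nat_lit 9) (nat_lit 0x11000d80060000000000000000000000000000) (nat_lit 0x0) (nat_lit 0xe000700020003000018006000300018000000000000000) := T_48 (nat_lit 112) (nat_lit 111) (nat_lit 1) (nat_lit 12) (nat_lit 6) L118743 (by decide +kernel)
theorem L118745 : W_48 (nat_lit 2) (nat_lit 0x11000d80070003000000000000000000000000) (nat_lit 0x0) (nat_lit 0xc000200000000000000000000) := D_48 (nat_lit 98) (nat_lit 99) (nat_lit 81) (nat_lit 1) (nat_lit 14) (nat_lit 5) (nat_lit 6) (nat_lit 12) (nat_lit 8) (by decide +kernel)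
theorem L118746 : W_48 (nat_lit 3) (nat_lit 0x11000d80060003000000000000000000000000) (nat_lit 0x0) (nat_lit 0x1800c000200000000000000000000) := T_48 (nat_lit 112) (nat_lit 111) (nat_lit 1) (nat_lit 12) (nat_lit 6) L118745 (by decide +kernel)
theorem L118747 : W_48 (nat_lit 4) (nat_lit 0x11000d80060002000000000000000000000000) (nat_lit 0x0) (nat_lit 0x1800d000280000000000000000000) := T_48 (nat_lit 96) (nat_lit 79) (nat_lit 7) (nat_lit 11) (nat_lit 4) L118746 (by decide +kernel)
theorem L118748 : W_48 (nat_lit 5) (nat_lit 0x11000d80060000000000000000000000000000) (nat_lit 0x0) (nat_lit 0x40002000100001800f000380008000000000000000) := Q_48 (nat_lit 97) (C_48 L118718 (C_48 L118747 N_48)) (by decide +kernel)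
theorem L118749 : W_48 (nat_lit 10) (nat_lit 0x1000d80060000000000000000000000000000) (nat_lit 0x0) (nat_lit 0xe00070003000300001800f000380018000000000000000) := Q_48 (nat_lit 148) (C_48 L118714 (C_48 L118744 (C_48 L118748 N_48))) (by decide +kernel)
theorem L118750 : W_48 (nat_lit 2) (nat_lit 0x11001d80060000000000000000000000000000) (nat_lit 0x0) (nat_lit 0x4000200000000000000001000000000000000000000000) := D_48 (nat_lit 165) (nat_lit 96) (nat_lit 182) (nat_lit 4) (nat_lit 12) (nat_lit 9) (nat_lit 4) (nat_lit 12) (nat_lit 10) (by decide +kernel)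
theorem L118751 : W_48 (nat_lit 2) (nat_lit 0x700031005d80060000000000000000000000000000) (nat_lit 0x0) (nat_lit 0xc0040000000000000000000000000000000000000) := D_48 (nat_lit 163) (nat_lit 150) (nat_lit 162) (nat_lit 2) (nat_lit 10) (nat_lit 9) (nat_lit 2) (nat_lit 9) (nat_lit 9) (by decide +kernel)
theorem L118752 : W_48 (nat_lit 3) (nat_lit 0x700011005d80060000000000000000000000000000) (nat_lit 0x0) (nat_lit 0xc0060000000000002000000000000000000000000) := T_48 (nat_lit 149) (nat_lit 97) (nat_lit 7) (nat_lit 12) (nat_lit 5) L118751 (by decide +kernel)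
theorem L118753 : W_48 (nat_lit 4) (nat_lit 0x300011005d80060000000000000000000000000000) (nat_lit 0x0) (nat_lit 0x80004c0060000000000002000000000000000000000000) := T_48 (nat_lit 166) (nat_lit 183) (nat_lit 7) (nat_lit 12) (nat_lit 6) L118752 (by decide +kernel)
theorem L118754 : W_48 (nat_lit 5) (nat_lit 0x200011005d80060000000000000000000000000000) (nat_lit 0x0) (nat_lit 0xa0005c0060000000000002000000000000000000000000) := T_48 (nat_lit 164) (nat_lit 181) (nat_lit 5) (nat_lit 12) (nat_lit 6) L118753 (by decide +kernel)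
theorem L118755 : W_48 (nat_lit 6) (nat_lit 0x11005d80060000000000000000000000000000) (nat_lit 0x0) (nat_lit 0xe0007c0060000000000002000000000000000000000000) := T_48 (nat_lit 165) (nat_lit 182) (nat_lit 4) (nat_lit 12) (nat_lit 10) L118754 (by decide +kernel)
theorem L118756 : W_48 (nat_lit 7) (nat_lit 0x11001d80060000000000000000000000000000) (nat_lit 0x0) (nat_lit 0xe0007c0060006000000002000000000000000000000000) := T_48 (nat_lit 134) (nat_lit 133) (nat_lit 0) (nat_lit 15) (nat_lit 7) L118755 (by decide +kernel)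
theorem L118757 : W_48 (nat_lit 2) (nat_lit 0x11001d80060000000000000000000000000000) (nat_lit 0x0) (nat_lit 0x200000000000000001000080000000000000000000) := D_48 (nat_lit 96) (nat_lit 79) (nat_lit 165) (nat_lit 7) (nat_lit 11) (nat_lit 4) (nat_lit 4) (nat_lit 12) (nat_lit 9) (by decide +kernel)
theorem L118758 : W_48 (nat_lit 2) (nat_lit 0x10000000051003d801e0009000000000000000000000000) (nat_lit 0x0) (nat_lit 0x20000000000000000400020000000000000000) := D_48 (nat_lit 82) (nat_lit 65) (nat_lit 149) (nat_lit 5) (nat_lit 14) (nat_lit 3) (nat_lit 5) (nat_lit 14) (nat_lit 4) (by decide +kernel)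
theorem L118759 : W_48 (nat_lit 3) (nat_lit 0x10000000051003d801e0001000000000000000000000000) (nat_lit 0x0) (nat_lit 0x20000000000018000400020000000000000000) := T_48 (nat_lit 99) (nat_lit 100) (nat_lit 2) (nat_lit 11) (nat_lit 6) L118758 (by decide +kernel)
theorem L118760 : W_48 (nat_lit 4) (nat_lit 0x51003d801e0001000000000000000000000000) (nat_lit 0x0) (nat_lit 0x10000800020000000000018000400020000000000000000) := T_48 (nat_lit 184) (nat_lit 167) (nat_lit 4) (nat_lit 14) (nat_lit 10) L118759 (by decide +kernel)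
theorem L118761 : W_48 (nat_lit 5) (nat_lit 0x11003d801e0001000000000000000000000000) (nat_lit 0x0) (nat_lit 0x100008000e0000000000018000400020000000000000000) := T_48 (nat_lit 150) (nat_lit 151) (nat_lit 3) (nat_lit 11) (nat_lit 7) L118760 (by decide +kernel)
theorem L118762 : W_48 (nat_lit 6) (nat_lit 0x11003d80160001000000000000000000000000) (nat_lit 0x0) (nat_lit 0x100008000e0000000080018800400020000000000000000) := T_48 (nat_lit 115) (nat_lit 95) (nat_lit 0) (nat_lit 14) (nat_lit 6) L118761 (by decide +kernel)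
theorem L118763 : W_48 (nat_lit 7) (nat_lit 0x11003d80060001000000000000000000000000) (nat_lit 0x0) (nat_lit 0x100008000e0000000380018800400020000000000000000) := T_48 (nat_lit 116) (nat_lit 117) (nat_lit 2) (nat_lit 11) (nat_lit 7) L118762 (by decide +kernel)
theorem L118764 : W_48 (nat_lit 8) (nat_lit 0x11001d80060001000000000000000000000000) (nat_lit 0x0) (nat_lit 0x100008000e0006000380018800400020000000000000000) := T_48 (nat_lit 133) (nat_lit 134) (nat_lit 0) (nat_lit 15) (nat_lit 7) L118763 (by decide +kernel)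
theorem L118765 : W_48 (nat_lit 9) (nat_lit 0x11001d80060000000000000000000000000000) (nat_lit 0x0) (nat_lit 0x100008000e0006000380019800480020000000000000000) := T_48 (nat_lit 96) (nat_lit 79) (nat_lit 7) (nat_lit 11) (nat_lit 4) L118764 (by decide +kernel)
theorem L118766 : W_48 (nat_lit 10) (nat_lit 0x1001d80060000000000000000000000000000) (nat_lit 0x0) (nat_lit 0x1e000fc00f000600038001b800480020000000000000000) := Q_48 (nat_lit 148) (C_48 L118750 (C_48 L118756 (C_48 L118757 (C_48 L118765 N_48)))) (by decide +kernel)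
theorem L118767 : W_48 (nat_lit 2) (nat_lit 0x1001d80060001000000000000000000000000) (nat_lit 0x0) (nat_lit 0x10000000000000000080004000000000000000) := D_48 (nat_lit 79) (nat_lit 148) (nat_lit 62) (nat_lit 7) (nat_lit 11) (nat_lit 4) (nat_lit 7) (nat_lit 11) (nat_lit 3) (by decide +kernel)
theorem L118768 : W_48 (nat_lit 2) (nat_lit 0x1001d80070003000380000000000000000000) (nat_lit 0x0) (nat_lit 0xc00400000000000000000000) := D_48 (nat_lit 95) (nat_lit 94) (nat_lit 82) (nat_lit 2) (nat_lit 9) (nat_lit 5) (nat_lit 1) (nat_lit 14) (nat_lit 4) (by decide +kernel)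
theorem L118769 : W_48 (nat_lit 3) (nat_lit 0x1001d80070003000180000000000000000000) (nat_lit 0x0) (nat_lit 0xc00600010000000000000000) := T_48 (nat_lit 81) (nat_lit 64) (nat_lit 6) (nat_lit 12) (nat_lit 7) L118768 (by decide +kernel)
theorem L118770 : W_48 (nat_lit 4) (nat_lit 0x1001d80070001000180000000000000000000) (nat_lit 0x0) (nat_lit 0x20000000000002c00600010000000000000000) := T_48 (nat_lit 97) (nat_lit 149) (nat_lit 7) (nat_lit 12) (nat_lit 4) L118769 (by decide +kernel)
theorem L118771 : W_48 (nat_lit 5) (nat_lit 0x1001d80070001000080000000000000000000) (nat_lit 0x0) (nat_lit 0x20000000000002c00700018000000000000000) := T_48 (nat_lit 80) (nat_lit 63) (nat_lit 6) (nat_lit 11) (nat_lit 7) L118770 (by decide +kernel)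
theorem L118772 : W_48 (nat_lit 6) (nat_lit 0x1001d80070001000000000000000000000000) (nat_lit 0x0) (nat_lit 0x20000000000002c0078001c000000000000000) := T_48 (nat_lit 79) (nat_lit 62) (nat_lit 7) (nat_lit 11) (nat_lit 3) L118771 (by decide +kernel)
theorem L118773 : W_48 (nat_lit 7) (nat_lit 0x1001d80060001000000000000000000000000) (nat_lit 0x0) (nat_lit 0x20000000018002c0078001c000000000000000) := T_48 (nat_lit 112) (nat_lit 111) (nat_lit 3) (nat_lit 9) (nat_lit 6) L118772 (by decide +kernel)
theorem L118774 : W_48 (nat_lit 2) (nat_lit 0x400200001001d80068001c00000000000000000000000) (nat_lit 0x0) (nat_lit 0x180002000000000000000000000000) := D_48 (nat_lit 115) (nat_lit 116) (nat_lit 97) (nat_lit 0) (nat_lit 14) (nat_lit 6) (nat_lit 3) (nat_lit 9) (nat_lit 5) (by decide +kernel)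
theorem L118775 : W_48 (nat_lit 3) (nat_lit 0x400200001001d80068001400000000000000000000000) (nat_lit 0x0) (nat_lit 0x180002a00000000000000000000000) := T_48 (nat_lit 95) (nat_lit 93) (nat_lit 3) (nat_lit 8) (nat_lit 5) L118774 (by decide +kernel)
theorem L118776 : W_48 (nat_lit 4) (nat_lit 0x200001001d80068001400000000000000000000000) (nat_lit 0x0) (nat_lit 0x400020000000000180002a00000000000000000000000) := T_48 (nat_lit 178) (nat_lit 161) (nat_lit 6) (nat_lit 8) (nat_lit 10) L118775 (by decide +kernel)
theorem L118777 : W_48 (nat_lit 5) (nat_lit 0x200001001d80068001000000000000000000000000) (nat_lit 0x0) (nat_lit 0x400020000000000180002e00020000000000000000000) := T_48 (nat_lit 94) (nat_lit 77) (nat_lit 5) (nat_lit 9) (nat_lit 4) L118776 (by decide +kernel)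
theorem L118778 : W_48 (nat_lit 6) (nat_lit 0x200001001d80060001000000000000000000000000) (nat_lit 0x0) (nat_lit 0x400020000000000198002e00020000000000000000000) := T_48 (nat_lit 111) (nat_lit 112) (nat_lit 3) (nat_lit 9) (nat_lit 6) L118777 (by decide +kernel)
theorem L118779 : W_48 (nat_lit 7) (nat_lit 0x1001d80060001000000000000000000000000) (nat_lit 0x0) (nat_lit 0x400220010000000198002e00020000000000000000000) := T_48 (nat_lit 165) (nat_lit 148) (nat_lit 4) (nat_lit 12) (nat_lit 9) L118778 (by decide +kernel)
theorem L118780 : W_48 (nat_lit 8) (nat_lit 0x1001d80060000000000000000000000000000) (nat_lit 0x0) (nat_lit 0x400220030000000198003e007a001c000000000000000) := Q_48 (nat_lit 96) (C_48 L118767 (C_48 L118773 (C_48 L118779 N_48))) (by decide +kernel)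
theorem L118781 : W_48 (nat_lit 11) (nat_lit 0x1000d80060000000000000000000000000000) (nat_lit 0x0) (nat_lit 0x1e400fe00f000700039801be007a003c000000000000000) := Q_48 (nat_lit 132) (C_48 L118723 (C_48 L118766 (C_48 L118780 N_48))) (by decide +kernel)
theorem L118782 : W_48 (nat_lit 2) (nat_lit 0x1001d800f000b4001e0000000000000000000) (nat_lit 0x0) (nat_lit 0x300010000000000000000000000000) := D_48 (nat_lit 116) (nat_lit 100) (nat_lit 117) (nat_lit 2) (nat_lit 11) (nat_lit 6) (nat_lit 1) (nat_lit 15) (nat_lit 6) (by decide +kernel)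
theorem L118783 : W_48 (nat_lit 3) (nat_lit 0x1001d8007000b4001e0000000000000000000) (nat_lit 0x0) (nat_lit 0x380010800000000000000000000000) := T_48 (nat_lit 115) (nat_lit 95) (nat_lit 3) (nat_lit 9) (nat_lit 5) L118782 (by decide +kernel)
theorem L118784 : W_48 (nat_lit 4) (nat_lit 0x1001d8007000b0001e0000000000000000000) (nat_lit 0x0) (nat_lit 0x380010e00000000000000000000000) := T_48 (nat_lit 94) (nat_lit 93) (nat_lit 1) (nat_lit 12) (nat_lit 4) L118783 (by decide +kernel)
theorem L118785 : W_48 (nat_lit 5) (nat_lit 0x1001d8007000b0001c0000000000000000000) (nat_lit 0x0) (nat_lit 0x380010e00030000000000000000000) := T_48 (nat_lit 77) (nat_lit 76) (nat_lit 3) (nat_lit 8) (nat_lit 4) L118784 (by decide +kernel)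
theorem L118786 : W_48 (nat_lit 6) (nat_lit 0x1001d8007000b000180000000000000000000) (nat_lit 0x0) (nat_lit 0x380010e00070002000000000000000) := T_48 (nat_lit 78) (nat_lit 61) (nat_lit 4) (nat_lit 11) (nat_lit 7) L118785 (by decide +kernel)
theorem L118787 : W_48 (nat_lit 7) (nat_lit 0x1001d80070003000180000000000000000000) (nat_lit 0x0) (nat_lit 0x38001ce00070002000000000000000) := T_48 (nat_lit 99) (nat_lit 98) (nat_lit 1) (nat_lit 14) (nat_lit 5) L118786 (by decide +kernel)
theorem L118788 : W_48 (nat_lit 8) (nat_lit 0x1001d80070001000180000000000000000000) (nat_lit 0x0) (nat_lit 0x2000000038001ee00070002000000000000000) := T_48 (nat_lit 97) (nat_lit 149) (nat_lit 7) (nat_lit 12) (nat_lit 4) L118787 (by decide +kernel)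
theorem L118789 : W_48 (nat_lit 9) (nat_lit 0x1001d80070001000080000000000000000000) (nat_lit 0x0) (nat_lit 0x2000000038001ee0017000a000000000000000) := T_48 (nat_lit 80) (nat_lit 63) (nat_lit 6) (nat_lit 11) (nat_lit 7) L118788 (by decide +kernel)
theorem L118790 : W_48 (nat_lit 10) (nat_lit 0x1001d80070001000000000000000000000000) (nat_lit 0x0) (nat_lit 0x2000000038001ee001f000e000000000000000) := T_48 (nat_lit 79) (nat_lit 62) (nat_lit 7) (nat_lit 11) (nat_lit 3) L118789 (by decide +kernel)
theorem L118791 : W_48 (nat_lit 11) (nat_lit 0x1000d80070001000000000000000000000000) (nat_lit 0x0) (nat_lit 0x2000300038001ee001f000e000000000000000) := T_48 (nat_lit 132) (nat_lit 133) (nat_lit 0) (nat_lit 14) (nat_lit 7) L118790 (by decide +kernel)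
theorem L118792 : W_48 (nat_lit 12) (nat_lit 0x1000d80060001000000000000000000000000) (nat_lit 0x0) (nat_lit 0x2000300039801ee001f000e000000000000000) := T_48 (nat_lit 112) (nat_lit 111) (nat_lit 1) (nat_lit 12) (nat_lit 6) L118791 (by decide +kernel)
theorem L118793 : W_48 (nat_lit 2) (nat_lit 0x400200001000d80068001c00000000000000000000000) (nat_lit 0x0) (nat_lit 0x180002000000000000000000000000) := D_48 (nat_lit 115) (nat_lit 116) (nat_lit 97) (nat_lit 0) (nat_lit 14) (nat_lit 6) (nat_lit 3) (nat_lit 9) (nat_lit 5) (by decide +kernel)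
theorem L118794 : W_48 (nat_lit 3) (nat_lit 0x400200001000d80068001400000000000000000000000) (nat_lit 0x0) (nat_lit 0x180002a00000000000000000000000) := T_48 (nat_lit 95) (nat_lit 93) (nat_lit 3) (nat_lit 8) (nat_lit 5) L118793 (by decide +kernel)
theorem L118795 : W_48 (nat_lit 4) (nat_lit 0x400200001000d80068001000000000000000000000000) (nat_lit 0x0) (nat_lit 0x180002e00020000000000000000000) := T_48 (nat_lit 94) (nat_lit 77) (nat_lit 5) (nat_lit 9) (nat_lit 4) L118794 (by decide +kernel)
theorem L118796 : W_48 (nat_lit 5) (nat_lit 0x200001000d80068001000000000000000000000000) (nat_lit 0x0) (nat_lit 0x400020000000000180002e00020000000000000000000) := T_48 (nat_lit 178) (nat_lit 161) (nat_lit 6) (nat_lit 8) (nat_lit 10) L118795 (by decide +kernel)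
theorem L118797 : W_48 (nat_lit 6) (nat_lit 0x200001000d80060001000000000000000000000000) (nat_lit 0x0) (nat_lit 0x400020000000000198002e00020000000000000000000) := T_48 (nat_lit 111) (nat_lit 112) (nat_lit 1) (nat_lit 12) (nat_lit 6) L118796 (by decide +kernel)
theorem L118798 : W_48 (nat_lit 7) (nat_lit 0x1000d80060001000000000000000000000000) (nat_lit 0x0) (nat_lit 0x400220010000000198002e00020000000000000000000) := T_48 (nat_lit 165) (nat_lit 148) (nat_lit 4) (nat_lit 12) (nat_lit 9) L118797 (by decide +kernel)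
theorem L118799 : W_48 (nat_lit 13) (nat_lit 0x1000d80060000000000000000000000000000) (nat_lit 0x0) (nat_lit 0x40022003000300039801fe001f000e000000000000000) := Q_48 (nat_lit 96) (C_48 L117773 (C_48 L118792 (C_48 L118798 N_48))) (by decide +kernel)
theorem L118800 : W_48 (nat_lit 2) (nat_lit 0x400000011000d80068001c00000000000000000000000) (nat_lit 0x0) (nat_lit 0x180002000000000000000000000000) := D_48 (nat_lit 115) (nat_lit 116) (nat_lit 97) (nat_lit 0) (nat_lit 14) (nat_lit 6) (nat_lit 3) (nat_lit 9) (nat_lit 5) (by decide +kernel)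
theorem L118801 : W_48 (nat_lit 3) (nat_lit 0x400000011000d80068001400000000000000000000000) (nat_lit 0x0) (nat_lit 0x180002a00000000000000000000000) := T_48 (nat_lit 95) (nat_lit 93) (nat_lit 3) (nat_lit 8) (nat_lit 5) L118800 (by decide +kernel)
theorem L118802 : W_48 (nat_lit 4) (nat_lit 0x400000011000d80068001000000000000000000000000) (nat_lit 0x0) (nat_lit 0x180002e00020000000000000000000) := T_48 (nat_lit 94) (nat_lit 77) (nat_lit 5) (nat_lit 9) (nat_lit 4) L118801 (by decide +kernel)
theorem L118803 : W_48 (nat_lit 5) (nat_lit 0x11000d80068001000000000000000000000000) (nat_lit 0x0) (nat_lit 0x400020000000000180002e00020000000000000000000) := T_48 (nat_lit 178) (nat_lit 161) (nat_lit 6) (nat_lit 8) (nat_lit 10) L118802 (by decide +kernel)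
theorem L118804 : W_48 (nat_lit 6) (nat_lit 0x11000d80068000000000000000000000000000) (nat_lit 0x0) (nat_lit 0x400020000000000180003e000a0000000000000000000) := T_48 (nat_lit 96) (nat_lit 79) (nat_lit 7) (nat_lit 11) (nat_lit 4) L118803 (by decide +kernel)
theorem L118805 : W_48 (nat_lit 7) (nat_lit 0x11000d80060000000000000000000000000000) (nat_lit 0x0) (nat_lit 0x400020000000000198003e000a0000000000000000000) := T_48 (nat_lit 111) (nat_lit 112) (nat_lit 1) (nat_lit 12) (nat_lit 6) L118804 (by decide +kernel)
theorem L118806 : W_48 (nat_lit 8) (nat_lit 0x1000d80060000000000000000000000000000) (nat_lit 0x0) (nat_lit 0xe400720030000000198007e002a0000000000000000000) := Q_48 (nat_lit 148) (C_48 L118714 (C_48 L118713 (C_48 L118805 N_48))) (by decide +kernel)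
theorem L118807 : W_48 (nat_lit 10) (nat_lit 0x1000d80060000000000000000000000000000) (nat_lit 0x0) (nat_lit 0x40022001000700039801fe007a001c000000000000000) := Q_48 (nat_lit 96) (C_48 L117773 (C_48 L118798 (C_48 L118569 N_48))) (by decide +kernel)
theorem L118808 : W_48 (nat_lit 15) (nat_lit 0x1000580060000000000000000000000000000) (nat_lit 0x0) (nat_lit 0x1e400fe00f000780039801fe00ff003e000000000000000) := Q_48 (nat_lit 131) (C_48 L118368 (C_48 L118720 (C_48 L118722 (C_48 L118736 (C_48 L118749 (C_48 L118781 (C_48 L118799 (C_48 L118806 (C_48 L118807 N_48))))))))) (by decide +kernel)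
theorem L118809 : W_48 (nat_lit 11) (nat_lit 0x9000580060000000000000000000000000000) (nat_lit 0x0) (nat_lit 0x6800f400780009800fe003c000e000700020000000) := Q_48 (nat_lit 96) (C_48 L118671 (C_48 L118682 (C_48 L118663 (C_48 L117851 N_48)))) (by decide +kernel)
theorem L118810 : W_48 (nat_lit 12) (nat_lit 0x1000580060000000000000000000000000000) (nat_lit 0x0) (nat_lit 0x50007800fc00780009800fe003c000e000700020000000) := Q_48 (nat_lit 147) (C_48 L118128 (C_48 L118132 (C_48 L118170 (C_48 L118809 N_48)))) (by decide +kernel)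
theorem L118811 : W_48 (nat_lit 16) (nat_lit 0x1000580020000000000000000000000000000) (nat_lit 0x0) (nat_lit 0x28073c03fe01fe00fc0078007d803ff80ff807ee03f00020000000) := Q_48 (nat_lit 114) (C_48 L117933 (C_48 L117947 (C_48 L117951 (C_48 L117952 (C_48 L118057 (C_48 L118066 (C_48 L118126 (C_48 L118171 (C_48 L118179 (C_48 L118395 (C_48 L118483 (C_48 L118537 (C_48 L118587 (C_48 L118655 (C_48 L118684 (C_48 L118707 (C_48 L118808 (C_48 L118810 N_48)))))))))))))))))) (by decide +kernel)
theorem L118812 : W_48 (nat_lit 2) (nat_lit 0x20001000580068000000000000000000000000000) (nat_lit 0x0) (nat_lit 0x4000400020000000000000000000) := D_48 (nat_lit 94) (nat_lit 77) (nat_lit 110) (nat_lit 5) (nat_lit 9) (nat_lit 4) (nat_lit 6) (nat_lit 8) (nat_lit 9) (by decide +kernel)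
theorem L118813 : W_48 (nat_lit 3) (nat_lit 0x1000580068000000000000000000000000000) (nat_lit 0x0) (nat_lit 0x400020000000000004000400020000000000000000000) := T_48 (nat_lit 161) (nat_lit 178) (nat_lit 6) (nat_lit 8) (nat_lit 10) L118812 (by decide +kernel)
theorem L118814 : W_48 (nat_lit 4) (nat_lit 0x1000580028000000000000000000000000000) (nat_lit 0x0) (nat_lit 0x400020000000000054000400020000000000000000000) := T_48 (nat_lit 114) (nat_lit 112) (nat_lit 1) (nat_lit 12) (nat_lit 6) L118813 (by decide +kernel)
theorem L118815 : W_48 (nat_lit 2) (nat_lit 0x1000580028000400000000000000000000000) (nat_lit 0x0) (nat_lit 0x400020000000000004000000000000000000000000000) := D_48 (nat_lit 161) (nat_lit 178) (nat_lit 110) (nat_lit 6) (nat_lit 8) (nat_lit 10) (nat_lit 6) (nat_lit 8) (nat_lit 9) (by decide +kernel)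
theorem L118816 : W_48 (nat_lit 3) (nat_lit 0x1000580028000000000000000000000000000) (nat_lit 0x0) (nat_lit 0x400020000000000004000400020000000000000000000) := T_48 (nat_lit 94) (nat_lit 77) (nat_lit 5) (nat_lit 9) (nat_lit 4) L118815 (by decide +kernel)
theorem L118817 : W_48 (nat_lit 2) (nat_lit 0x40000000100058003e001080000000000000000000000) (nat_lit 0x0) (nat_lit 0x1800040000000000000000000000) := D_48 (nat_lit 108) (nat_lit 107) (nat_lit 90) (nat_lit 3) (nat_lit 5) (nat_lit 6) (nat_lit 0) (nat_lit 9) (nat_lit 6) (by decide +kernel)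
theorem L118818 : W_48 (nat_lit 3) (nat_lit 0x40000000100058003e001000000000000000000000000) (nat_lit 0x0) (nat_lit 0x18001c0000000000000000000000) := T_48 (nat_lit 91) (nat_lit 92) (nat_lit 0) (nat_lit 10) (nat_lit 6) L118817 (by decide +kernel)
theorem L118819 : W_48 (nat_lit 4) (nat_lit 0x40000000100058003c001000000000000000000000000) (nat_lit 0x0) (nat_lit 0x38009c0000000000000000000000) := T_48 (nat_lit 109) (nat_lit 95) (nat_lit 2) (nat_lit 7) (nat_lit 6) L118818 (by decide +kernel)
theorem L118820 : W_48 (nat_lit 5) (nat_lit 0x40000000100058003c000000000000000000000000000) (nat_lit 0x0) (nat_lit 0x38039c0000000000000000000000) := T_48 (nat_lit 96) (nat_lit 97) (nat_lit 2) (nat_lit 8) (nat_lit 6) L118819 (by decide +kernel)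
theorem L118821 : W_48 (nat_lit 6) (nat_lit 0x400000001000580038000000000000000000000000000) (nat_lit 0x0) (nat_lit 0x8000078039c0000000000000000000000) := T_48 (nat_lit 110) (nat_lit 131) (nat_lit 3) (nat_lit 8) (nat_lit 6) L118820 (by decide +kernel)
theorem L118822 : W_48 (nat_lit 7) (nat_lit 0x400000001000580028000000000000000000000000000) (nat_lit 0x0) (nat_lit 0x8000578039c0000000000000000000000) := T_48 (nat_lit 112) (nat_lit 114) (nat_lit 1) (nat_lit 12) (nat_lit 6) L118821 (by decide +kernel)
theorem L118823 : W_48 (nat_lit 8) (nat_lit 0x1000580028000000000000000000000000000) (nat_lit 0x0) (nat_lit 0x4000200000008000578039c0000000000000000000000) := T_48 (nat_lit 178) (nat_lit 161) (nat_lit 6) (nat_lit 8) (nat_lit 10) L118822 (by decide +kernel)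
theorem L118824 : W_48 (nat_lit 2) (nat_lit 0x2400fc0029000580068000000020000000000000000000) (nat_lit 0x0) (nat_lit 0x38000000000000000000000000000000000000000000000) := D_48 (nat_lit 184) (nat_lit 183) (nat_lit 185) (nat_lit 3) (nat_lit 10) (nat_lit 9) (nat_lit 3) (nat_lit 11) (nat_lit 9) (by decide +kernel)
theorem L118825 : W_48 (nat_lit 3) (nat_lit 0x24007c0029000580068000000020000000000000000000) (nat_lit 0x0) (nat_lit 0x38000800004000000000000000000000000000000000000) := T_48 (nat_lit 167) (nat_lit 146) (nat_lit 0) (nat_lit 14) (nat_lit 9) L118824 (by decide +kernel)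
theorem L118826 : W_48 (nat_lit 4) (nat_lit 0x24003c0029000580068000000020000000000000000000) (nat_lit 0x0) (nat_lit 0x38000c00044000000000000000000000000000000000000) := T_48 (nat_lit 166) (nat_lit 150) (nat_lit 2) (nat_lit 10) (nat_lit 9) L118825 (by decide +kernel)
theorem L118827 : W_48 (nat_lit 5) (nat_lit 0x24003c0009000580068000000020000000000000000000) (nat_lit 0x0) (nat_lit 0x38000c00074000000000000000000000000000000000000) := T_48 (nat_lit 149) (nat_lit 148) (nat_lit 2) (nat_lit 9) (nat_lit 9) L118826 (by decide +kernel)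
theorem L118828 : W_48 (nat_lit 6) (nat_lit 0x2400380009000580068000000020000000000000000000) (nat_lit 0x0) (nat_lit 0x38800c40074000000000000000000000000000000000000) := T_48 (nat_lit 162) (nat_lit 179) (nat_lit 1) (nat_lit 12) (nat_lit 9) L118827 (by decide +kernel)
theorem L118829 : W_48 (nat_lit 7) (nat_lit 0x2000380009000580068000000020000000000000000000) (nat_lit 0x0) (nat_lit 0x38c00c60074000000000000000000000000000000000000) := T_48 (nat_lit 178) (nat_lit 161) (nat_lit 6) (nat_lit 8) (nat_lit 10) L118828 (by decide +kernel)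
theorem L118830 : W_48 (nat_lit 8) (nat_lit 0x380009000580068000000020000000000000000000) (nat_lit 0x0) (nat_lit 0x3ac00c60074000800000000000000000000000000000000) := T_48 (nat_lit 181) (nat_lit 131) (nat_lit 6) (nat_lit 11) (nat_lit 10) L118829 (by decide +kernel)
theorem L118831 : W_48 (nat_lit 9) (nat_lit 0x180009000580068000000020000000000000000000) (nat_lit 0x0) (nat_lit 0x3ec00e60074000800000000000000000000000000000000) := T_48 (nat_lit 165) (nat_lit 182) (nat_lit 7) (nat_lit 11) (nat_lit 6) L118830 (by decide +kernel)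
theorem L118832 : W_48 (nat_lit 10) (nat_lit 0x100009000580068000000020000000000000000000) (nat_lit 0x0) (nat_lit 0x3fc00ee0074000800000000000000000000000000000000) := T_48 (nat_lit 163) (nat_lit 180) (nat_lit 5) (nat_lit 11) (nat_lit 6) L118831 (by decide +kernel)
theorem L118833 : W_48 (nat_lit 11) (nat_lit 0x9000580068000000020000000000000000000) (nat_lit 0x0) (nat_lit 0x3fc00fe0074000800000002000000000000000000000000) := T_48 (nat_lit 164) (nat_lit 97) (nat_lit 6) (nat_lit 11) (nat_lit 9) L118832 (by decide +kernel)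
theorem L118834 : W_48 (nat_lit 12) (nat_lit 0x9000580068000000000000000000000000000) (nat_lit 0x0) (nat_lit 0x3fc00fe0074000800000002400020000000000000000000) := T_48 (nat_lit 77) (nat_lit 94) (nat_lit 5) (nat_lit 9) (nat_lit 4) L118833 (by decide +kernel)
theorem L118835 : W_48 (nat_lit 13) (nat_lit 0x9000580028000000000000000000000000000) (nat_lit 0x0) (nat_lit 0x3fc00fe0074000800050002400020000000000000000000) := T_48 (nat_lit 114) (nat_lit 112) (nat_lit 1) (nat_lit 12) (nat_lit 6) L118834 (by decide +kernel)
theorem L118836 : W_48 (nat_lit 8) (nat_lit 0x9000580028000000000000000000000000000) (nat_lit 0x0) (nat_lit 0x400070003800140008000400038001c000e000200000000000) := Q_48 (nat_lit 96) (C_48 L117629 (C_48 L117600 (C_48 L117612 (C_48 L117618 (C_48 L117624 N_48))))) (by decide +kernel)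
theorem L118837 : W_48 (nat_lit 2) (nat_lit 0x2400100009000580068000000020000000000000000000) (nat_lit 0x0) (nat_lit 0x80004000200000000000000000000000000000000000000000) := D_48 (nat_lit 182) (nat_lit 165) (nat_lit 199) (nat_lit 7) (nat_lit 11) (nat_lit 6) (nat_lit 7) (nat_lit 11) (nat_lit 7) (by decide +kernel)
theorem L118838 : W_48 (nat_lit 3) (nat_lit 0x400100009000580068000000020000000000000000000) (nat_lit 0x0) (nat_lit 0x80006000200000000800000000000000000000000000000000) := T_48 (nat_lit 181) (nat_lit 131) (nat_lit 6) (nat_lit 11) (nat_lit 10) L118837 (by decide +kernel)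
theorem L118839 : W_48 (nat_lit 4) (nat_lit 0x400000009000580068000000020000000000000000000) (nat_lit 0x0) (nat_lit 0x80006000300000000800000002000000000000000000000000) := T_48 (nat_lit 164) (nat_lit 97) (nat_lit 6) (nat_lit 11) (nat_lit 9) L118838 (by decide +kernel)
theorem L118840 : W_48 (nat_lit 5) (nat_lit 0x400000009000580068000000000000000000000000000) (nat_lit 0x0) (nat_lit 0x80006000300000000800000002400020000000000000000000) := T_48 (nat_lit 77) (nat_lit 94) (nat_lit 5) (nat_lit 9) (nat_lit 4) L118839 (by decide +kernel)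
theorem L118841 : W_48 (nat_lit 6) (nat_lit 0x400000009000580028000000000000000000000000000) (nat_lit 0x0) (nat_lit 0x80006000300000000800050002400020000000000000000000) := T_48 (nat_lit 114) (nat_lit 112) (nat_lit 1) (nat_lit 12) (nat_lit 6) L118840 (by decide +kernel)
theorem L118842 : W_48 (nat_lit 7) (nat_lit 0x9000580028000000000000000000000000000) (nat_lit 0x0) (nat_lit 0x80006400320000000800050002400020000000000000000000) := T_48 (nat_lit 178) (nat_lit 161) (nat_lit 6) (nat_lit 8) (nat_lit 10) L118841 (by decide +kernel)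
theorem L118843 : W_48 (nat_lit 2) (nat_lit 0xd000580028003800020000000000000000000) (nat_lit 0x0) (nat_lit 0x50004000000000000000000000000) := D_48 (nat_lit 112) (nat_lit 98) (nat_lit 114) (nat_lit 1) (nat_lit 13) (nat_lit 5) (nat_lit 1) (nat_lit 12) (nat_lit 6) (by decide +kernel)
theorem L118844 : W_48 (nat_lit 3) (nat_lit 0xd000580028003000020000000000000000000) (nat_lit 0x0) (nat_lit 0x50004800040000000000000000000) := T_48 (nat_lit 95) (nat_lit 78) (nat_lit 4) (nat_lit 11) (nat_lit 8) L118843 (by decide +kernel)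
theorem L118845 : W_48 (nat_lit 4) (nat_lit 0x9000580028003000020000000000000000000) (nat_lit 0x0) (nat_lit 0x80004000000050004800040000000000000000000) := T_48 (nat_lit 146) (nat_lit 163) (nat_lit 5) (nat_lit 11) (nat_lit 5) L118844 (by decide +kernel)
theorem L118846 : W_48 (nat_lit 5) (nat_lit 0x9000580028001000020000000000000000000) (nat_lit 0x0) (nat_lit 0x80004000000050006800140000000000000000000) := T_48 (nat_lit 97) (nat_lit 80) (nat_lit 6) (nat_lit 11) (nat_lit 8) L118845 (by decide +kernel)
theorem L118847 : W_48 (nat_lit 6) (nat_lit 0x9000580028001000000000000000000000000) (nat_lit 0x0) (nat_lit 0x80004000000050006c00160000000000000000000) := T_48 (nat_lit 77) (nat_lit 94) (nat_lit 5) (nat_lit 9) (nat_lit 4) L118846 (by decide +kernel)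
theorem L118848 : W_48 (nat_lit 2) (nat_lit 0x4000000190005800280010000a0000000000000000000) (nat_lit 0x0) (nat_lit 0x800040002000000000000000) := D_48 (nat_lit 78) (nat_lit 95) (nat_lit 61) (nat_lit 4) (nat_lit 11) (nat_lit 8) (nat_lit 4) (nat_lit 11) (nat_lit 7) (by decide +kernel)
theorem L118849 : W_48 (nat_lit 3) (nat_lit 0x400000019000580028001000020000000000000000000) (nat_lit 0x0) (nat_lit 0x8000000008000c0002000000000000000) := T_48 (nat_lit 79) (nat_lit 131) (nat_lit 7) (nat_lit 11) (nat_lit 4) L118848 (by decide +kernel)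
theorem L118850 : W_48 (nat_lit 4) (nat_lit 0x400000009000580028001000020000000000000000000) (nat_lit 0x0) (nat_lit 0x2000100008000000008000c0002000000000000000) := T_48 (nat_lit 148) (nat_lit 165) (nat_lit 7) (nat_lit 11) (nat_lit 5) L118849 (by decide +kernel)
theorem L118851 : W_48 (nat_lit 5) (nat_lit 0x400000009000580028001000000000000000000000000) (nat_lit 0x0) (nat_lit 0x200010000800000000c000e0002000000000000000) := T_48 (nat_lit 77) (nat_lit 94) (nat_lit 5) (nat_lit 9) (nat_lit 4) L118850 (by decide +kernel)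
theorem L118852 : W_48 (nat_lit 6) (nat_lit 0x9000580028001000000000000000000000000) (nat_lit 0x0) (nat_lit 0x400220010000800000000c000e0002000000000000000) := T_48 (nat_lit 178) (nat_lit 161) (nat_lit 6) (nat_lit 8) (nat_lit 10) L118851 (by decide +kernel)
theorem L118853 : W_48 (nat_lit 7) (nat_lit 0x9000580028000000000000000000000000000) (nat_lit 0x0) (nat_lit 0x4002a0014000800050007c001e000a000000000000000) := Q_48 (nat_lit 96) (C_48 L117612 (C_48 L117600 (C_48 L118847 (C_48 L118852 N_48)))) (by decide +kernel)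
theorem L118854 : W_48 (nat_lit 2) (nat_lit 0x400180009000580038001000020000000000000000000) (nat_lit 0x0) (nat_lit 0x4000200010000000000000000000000000000000000000) := D_48 (nat_lit 165) (nat_lit 182) (nat_lit 148) (nat_lit 7) (nat_lit 11) (nat_lit 6) (nat_lit 7) (nat_lit 11) (nat_lit 5) (by decide +kernel)
theorem L118855 : W_48 (nat_lit 3) (nat_lit 0x400180009000580038000000020000000000000000000) (nat_lit 0x0) (nat_lit 0x4000200014000000000001000000000000000000000000) := T_48 (nat_lit 96) (nat_lit 146) (nat_lit 5) (nat_lit 11) (nat_lit 5) L118854 (by decide +kernel)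
theorem L118856 : W_48 (nat_lit 4) (nat_lit 0x400100009000580038000000020000000000000000000) (nat_lit 0x0) (nat_lit 0x5000280014000000000001000000000000000000000000) := T_48 (nat_lit 163) (nat_lit 180) (nat_lit 5) (nat_lit 11) (nat_lit 6) L118855 (by decide +kernel)
theorem L118857 : W_48 (nat_lit 5) (nat_lit 0x400000009000580038000000020000000000000000000) (nat_lit 0x0) (nat_lit 0x5000380014000000000001800000000000000000000000) := T_48 (nat_lit 164) (nat_lit 95) (nat_lit 4) (nat_lit 11) (nat_lit 9) L118856 (by decide +kernel)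
theorem L118858 : W_48 (nat_lit 6) (nat_lit 0x400000009000580028000000020000000000000000000) (nat_lit 0x0) (nat_lit 0x5000380014000000050001800000000000000000000000) := T_48 (nat_lit 112) (nat_lit 114) (nat_lit 1) (nat_lit 12) (nat_lit 6) L118857 (by decide +kernel)
theorem L118859 : W_48 (nat_lit 7) (nat_lit 0x400000009000580028000000000000000000000000000) (nat_lit 0x0) (nat_lit 0x5000380014000000050001c00020000000000000000000) := T_48 (nat_lit 77) (nat_lit 94) (nat_lit 5) (nat_lit 9) (nat_lit 4) L118858 (by decide +kernel)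
theorem L118860 : W_48 (nat_lit 8) (nat_lit 0x9000580028000000000000000000000000000) (nat_lit 0x0) (nat_lit 0x54003a0014000000050001c00020000000000000000000) := T_48 (nat_lit 178) (nat_lit 161) (nat_lit 6) (nat_lit 8) (nat_lit 10) L118859 (by decide +kernel)
theorem L118861 : W_48 (nat_lit 7) (nat_lit 0x9000580028000000000000000000000000000) (nat_lit 0x0) (nat_lit 0x44003a0014000800010007c001e000a000000000000000) := Q_48 (nat_lit 96) (C_48 L118852 (C_48 L117730 (C_48 L117612 (C_48 L117726 N_48)))) (by decide +kernel)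
theorem L118862 : W_48 (nat_lit 2) (nat_lit 0x400180009000d80168001800020000000000000000000) (nat_lit 0x0) (nat_lit 0x10000000000000000080004000000000000000) := D_48 (nat_lit 79) (nat_lit 62) (nat_lit 148) (nat_lit 7) (nat_lit 11) (nat_lit 3) (nat_lit 7) (nat_lit 11) (nat_lit 4) (by decide +kernel)
theorem L118863 : W_48 (nat_lit 3) (nat_lit 0x400180009000580168001800020000000000000000000) (nat_lit 0x0) (nat_lit 0x2000000010000800000000000080004000000000000000) := T_48 (nat_lit 131) (nat_lit 181) (nat_lit 6) (nat_lit 11) (nat_lit 10) L118862 (by decide +kernel)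
theorem L118864 : W_48 (nat_lit 4) (nat_lit 0x400180009000580068001800020000000000000000000) (nat_lit 0x0) (nat_lit 0x2000000010000800180000000080004000000000000000) := T_48 (nat_lit 116) (nat_lit 115) (nat_lit 0) (nat_lit 14) (nat_lit 6) L118863 (by decide +kernel)
theorem L118865 : W_48 (nat_lit 5) (nat_lit 0x400180009000580068001000020000000000000000000) (nat_lit 0x0) (nat_lit 0x20000000100008001800008000c0004000000000000000) := T_48 (nat_lit 95) (nat_lit 78) (nat_lit 4) (nat_lit 11) (nat_lit 8) L118864 (by decide +kernel)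
theorem L118866 : W_48 (nat_lit 6) (nat_lit 0x400180009000580068000000020000000000000000000) (nat_lit 0x0) (nat_lit 0x20000000140008001800018000c0004000000000000000) := T_48 (nat_lit 96) (nat_lit 146) (nat_lit 5) (nat_lit 11) (nat_lit 5) L118865 (by decide +kernel)
theorem L118867 : W_48 (nat_lit 7) (nat_lit 0x400100009000580068000000020000000000000000000) (nat_lit 0x0) (nat_lit 0x30000800140008001800018000c0004000000000000000) := T_48 (nat_lit 163) (nat_lit 180) (nat_lit 5) (nat_lit 11) (nat_lit 6) L118866 (by decide +kernel)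
theorem L118868 : W_48 (nat_lit 8) (nat_lit 0x400000009000580068000000020000000000000000000) (nat_lit 0x0) (nat_lit 0x30001800140008001800038000c0004000000000000000) := T_48 (nat_lit 164) (nat_lit 97) (nat_lit 6) (nat_lit 11) (nat_lit 9) L118867 (by decide +kernel)
theorem L118869 : W_48 (nat_lit 9) (nat_lit 0x9000580068000000020000000000000000000) (nat_lit 0x0) (nat_lit 0x34001a00140008001800038000c0004000000000000000) := T_48 (nat_lit 178) (nat_lit 161) (nat_lit 6) (nat_lit 8) (nat_lit 10) L118868 (by decide +kernel)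
theorem L118870 : W_48 (nat_lit 10) (nat_lit 0x9000580028000000020000000000000000000) (nat_lit 0x0) (nat_lit 0x34001a00140008001d00038000c0004000000000000000) := T_48 (nat_lit 114) (nat_lit 112) (nat_lit 1) (nat_lit 12) (nat_lit 6) L118869 (by decide +kernel)
theorem L118871 : W_48 (nat_lit 11) (nat_lit 0x9000580028000000000000000000000000000) (nat_lit 0x0) (nat_lit 0x34001a00140008001d0003c000e0004000000000000000) := T_48 (nat_lit 77) (nat_lit 94) (nat_lit 5) (nat_lit 9) (nat_lit 4) L118870 (by decide +kernel)
theorem L118872 : W_48 (nat_lit 14) (nat_lit 0x1000580028000000000000000000000000000) (nat_lit 0x0) (nat_lit 0xc003fc00fe007c0008001d0007c001e000e000200000000000) := Q_48 (nat_lit 147) (C_48 L118835 (C_48 L118836 (C_48 L118842 (C_48 L118853 (C_48 L118860 (C_48 L118861 (C_48 L118871 N_48))))))) (by decide +kernel)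
theorem L118873 : W_48 (nat_lit 2) (nat_lit 0x100058003e001080020000000000000000000) (nat_lit 0x0) (nat_lit 0x1800040000000000000000000000) := D_48 (nat_lit 108) (nat_lit 107) (nat_lit 90) (nat_lit 3) (nat_lit 5) (nat_lit 6) (nat_lit 0) (nat_lit 9) (nat_lit 6) (by decide +kernel)
theorem L118874 : W_48 (nat_lit 3) (nat_lit 0x100058003e001000020000000000000000000) (nat_lit 0x0) (nat_lit 0x18001c0000000000000000000000) := T_48 (nat_lit 91) (nat_lit 92) (nat_lit 0) (nat_lit 10) (nat_lit 6) L118873 (by decide +kernel)
theorem L118875 : W_48 (nat_lit 4) (nat_lit 0x100058003c001000020000000000000000000) (nat_lit 0x0) (nat_lit 0x38009c0000000000000000000000) := T_48 (nat_lit 109) (nat_lit 95) (nat_lit 2) (nat_lit 7) (nat_lit 6) L118874 (by decide +kernel)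
theorem L118876 : W_48 (nat_lit 5) (nat_lit 0x100058003c000000020000000000000000000) (nat_lit 0x0) (nat_lit 0x38039c0000000000000000000000) := T_48 (nat_lit 96) (nat_lit 97) (nat_lit 2) (nat_lit 8) (nat_lit 6) L118875 (by decide +kernel)
theorem L118877 : W_48 (nat_lit 6) (nat_lit 0x1000580038000000020000000000000000000) (nat_lit 0x0) (nat_lit 0x8000078039c0000000000000000000000) := T_48 (nat_lit 110) (nat_lit 131) (nat_lit 3) (nat_lit 8) (nat_lit 6) L118876 (by decide +kernel)
theorem L118878 : W_48 (nat_lit 7) (nat_lit 0x1000580038000000000000000000000000000) (nat_lit 0x0) (nat_lit 0x800007803dc0020000000000000000000) := T_48 (nat_lit 77) (nat_lit 94) (nat_lit 5) (nat_lit 9) (nat_lit 4) L118877 (by decide +kernel)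
theorem L118879 : W_48 (nat_lit 8) (nat_lit 0x1000580028000000000000000000000000000) (nat_lit 0x0) (nat_lit 0x800057803dc0020000000000000000000) := T_48 (nat_lit 112) (nat_lit 114) (nat_lit 1) (nat_lit 12) (nat_lit 6) L118878 (by decide +kernel)
theorem L118880 : W_48 (nat_lit 15) (nat_lit 0x1000580020000000000000000000000000000) (nat_lit 0x0) (nat_lit 0xc003fc00fe007c0008001df807dc01e000e000200000000000) := Q_48 (nat_lit 111) (C_48 L118814 (C_48 L117582 (C_48 L118816 (C_48 L118823 (C_48 L118872 (C_48 L118879 N_48)))))) (by decide +kernel)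
theorem L118881 : W_48 (nat_lit 2) (nat_lit 0xe00060001000580020000000000000000000000000000) (nat_lit 0x0) (nat_lit 0x180080000000000000000000000000000000000000000) := D_48 (nat_lit 176) (nat_lit 163) (nat_lit 175) (nat_lit 2) (nat_lit 6) (nat_lit 10) (nat_lit 2) (nat_lit 5) (nat_lit 10) (by decide +kernel)
theorem L118882 : W_48 (nat_lit 3) (nat_lit 0xe00020001000580020000000000000000000000000000) (nat_lit 0x0) (nat_lit 0x1800c0000000000004000000000000000000000000000) := T_48 (nat_lit 162) (nat_lit 110) (nat_lit 7) (nat_lit 8) (nat_lit 6) L118881 (by decide +kernel)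
theorem L118883 : W_48 (nat_lit 4) (nat_lit 0x600020001000580020000000000000000000000000000) (nat_lit 0x0) (nat_lit 0x100009800c0000000000004000000000000000000000000000) := T_48 (nat_lit 179) (nat_lit 196) (nat_lit 7) (nat_lit 8) (nat_lit 7) L118882 (by decide +kernel)
theorem L118884 : W_48 (nat_lit 5) (nat_lit 0x400020001000580020000000000000000000000000000) (nat_lit 0x0) (nat_lit 0x14000b800c0000000000004000000000000000000000000000) := T_48 (nat_lit 177) (nat_lit 194) (nat_lit 5) (nat_lit 8) (nat_lit 7) L118883 (by decide +kernel)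
theorem L118885 : W_48 (nat_lit 6) (nat_lit 0x20001000580020000000000000000000000000000) (nat_lit 0x0) (nat_lit 0x14000f800c000000000000c000000000000000000000000000) := T_48 (nat_lit 178) (nat_lit 111) (nat_lit 6) (nat_lit 8) (nat_lit 10) L118884 (by decide +kernel)
theorem L118886 : W_48 (nat_lit 3) (nat_lit 0x4000400020001000580020000000000000000000000000000) (nat_lit 0x0) (nat_lit 0x280018000800000000000000000000000000000000000000000000) := T_48 (nat_lit 196) (nat_lit 179) (nat_lit 7) (nat_lit 8) (nat_lit 7) L117465 (by decide +kernel)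
theorem L118887 : W_48 (nat_lit 4) (nat_lit 0x400020001000580020000000000000000000000000000) (nat_lit 0x0) (nat_lit 0x28001c000a00000000000000000000000000000000000000000000) := T_48 (nat_lit 194) (nat_lit 177) (nat_lit 5) (nat_lit 8) (nat_lit 7) L118886 (by decide +kernel)
theorem L118888 : W_48 (nat_lit 5) (nat_lit 0x20001000580020000000000000000000000000000) (nat_lit 0x0) (nat_lit 0x28001c000e00000000000000008000000000000000000000000000) := T_48 (nat_lit 178) (nat_lit 111) (nat_lit 6) (nat_lit 8) (nat_lit 10) L118887 (by decide +kernel)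
theorem L118889 : W_48 (nat_lit 2) (nat_lit 0x60001000580024000300000000000000000000000) (nat_lit 0x0) (nat_lit 0x8000400020000000000000000000) := D_48 (nat_lit 94) (nat_lit 111) (nat_lit 77) (nat_lit 6) (nat_lit 8) (nat_lit 9) (nat_lit 6) (nat_lit 8) (nat_lit 8) (by decide +kernel)
theorem L118890 : W_48 (nat_lit 3) (nat_lit 0x60001000580024000100000000000000000000000) (nat_lit 0x0) (nat_lit 0x8000600028000000000000000000) := T_48 (nat_lit 93) (nat_lit 75) (nat_lit 4) (nat_lit 8) (nat_lit 8) L118889 (by decide +kernel)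
theorem L118891 : W_48 (nat_lit 4) (nat_lit 0x20001000580024000100000000000000000000000) (nat_lit 0x0) (nat_lit 0x800040000000000008000600028000000000000000000) := T_48 (nat_lit 162) (nat_lit 179) (nat_lit 7) (nat_lit 8) (nat_lit 6) L118890 (by decide +kernel)
theorem L118892 : W_48 (nat_lit 5) (nat_lit 0x20001000580024000000000000000000000000000) (nat_lit 0x0) (nat_lit 0x80004000000000000a000700028000000000000000000) := T_48 (nat_lit 92) (nat_lit 109) (nat_lit 4) (nat_lit 8) (nat_lit 9) L118891 (by decide +kernel)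
theorem L118893 : W_48 (nat_lit 2) (nat_lit 0x20001000d8002c001000080004000000000000000) (nat_lit 0x0) (nat_lit 0x100008000400000000000) := D_48 (nat_lit 63) (nat_lit 46) (nat_lit 80) (nat_lit 6) (nat_lit 11) (nat_lit 6) (nat_lit 6) (nat_lit 11) (nat_lit 7) (by decide +kernel)
theorem L118894 : W_48 (nat_lit 3) (nat_lit 0x20001000d8002c001000080000000000000000000) (nat_lit 0x0) (nat_lit 0x4000000010000c000400000000000) := T_48 (nat_lit 62) (nat_lit 114) (nat_lit 7) (nat_lit 11) (nat_lit 3) L118893 (by decide +kernel)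
theorem L118895 : W_48 (nat_lit 4) (nat_lit 0x2000100058002c001000080000000000000000000) (nat_lit 0x0) (nat_lit 0x1000080004000000010000c000400000000000) := T_48 (nat_lit 131) (nat_lit 148) (nat_lit 7) (nat_lit 11) (nat_lit 4) L118894 (by decide +kernel)
theorem L118896 : W_48 (nat_lit 5) (nat_lit 0x20001000580024001000080000000000000000000) (nat_lit 0x0) (nat_lit 0x1000080004800040010000c000400000000000) := T_48 (nat_lit 111) (nat_lit 94) (nat_lit 6) (nat_lit 8) (nat_lit 9) L118895 (by decide +kernel)
theorem L118897 : W_48 (nat_lit 2) (nat_lit 0x20001000d80024001000180004000000000000000) (nat_lit 0x0) (nat_lit 0x40002000100000000000) := D_48 (nat_lit 61) (nat_lit 44) (nat_lit 78) (nat_lit 4) (nat_lit 11) (nat_lit 6) (nat_lit 4) (nat_lit 11) (nat_lit 7) (by decide +kernel)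
theorem L118898 : W_48 (nat_lit 3) (nat_lit 0x20001000d80024001000180000000000000000000) (nat_lit 0x0) (nat_lit 0x40000000040006000100000000000) := T_48 (nat_lit 62) (nat_lit 114) (nat_lit 7) (nat_lit 11) (nat_lit 3) L118897 (by decide +kernel)
theorem L118899 : W_48 (nat_lit 4) (nat_lit 0x20001000580024001000180000000000000000000) (nat_lit 0x0) (nat_lit 0x10000800040000000040006000100000000000) := T_48 (nat_lit 131) (nat_lit 148) (nat_lit 7) (nat_lit 11) (nat_lit 4) L118898 (by decide +kernel)
theorem L118900 : W_48 (nat_lit 5) (nat_lit 0x20001000580024001000080000000000000000000) (nat_lit 0x0) (nat_lit 0x1000080004000000014000e000100000000000) := T_48 (nat_lit 80) (nat_lit 63) (nat_lit 6) (nat_lit 11) (nat_lit 7) L118899 (by decide +kernel)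
theorem L118901 : W_48 (nat_lit 2) (nat_lit 0x600010005800268074003c0010000000000000000) (nat_lit 0x0) (nat_lit 0x800040000000000000000800000000000) := D_48 (nat_lit 114) (nat_lit 131) (nat_lit 47) (nat_lit 6) (nat_lit 12) (nat_lit 7) (nat_lit 5) (nat_lit 13) (nat_lit 2) (by decide +kernel)
theorem L118902 : W_48 (nat_lit 3) (nat_lit 0x600010005800268054003c0010000000000000000) (nat_lit 0x0) (nat_lit 0x800040002000020000000800000000000) := T_48 (nat_lit 97) (nat_lit 77) (nat_lit 3) (nat_lit 9) (nat_lit 4) L118901 (by decide +kernel)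
theorem L118903 : W_48 (nat_lit 4) (nat_lit 0x600010005800268014003c0010000000000000000) (nat_lit 0x0) (nat_lit 0x80004000e000020000000800000000000) := T_48 (nat_lit 98) (nat_lit 99) (nat_lit 3) (nat_lit 10) (nat_lit 4) L118902 (by decide +kernel)
theorem L118904 : W_48 (nat_lit 5) (nat_lit 0x600010005800268014003c0000000000000000000) (nat_lit 0x0) (nat_lit 0x80004000e000020030000800000000000) := T_48 (nat_lit 64) (nat_lit 65) (nat_lit 2) (nat_lit 10) (nat_lit 4) L118903 (by decide +kernel)
theorem L118905 : W_48 (nat_lit 6) (nat_lit 0x200010005800268014003c0000000000000000000) (nat_lit 0x0) (nat_lit 0x80004000000080004000e000020030000800000000000) := T_48 (nat_lit 162) (nat_lit 179) (nat_lit 7) (nat_lit 8) (nat_lit 6) L118904 (by decide +kernel)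
theorem L118906 : W_48 (nat_lit 7) (nat_lit 0x200010005800268014001c0000000000000000000) (nat_lit 0x0) (nat_lit 0x80004000000080004000e800220030000800000000000) := T_48 (nat_lit 81) (nat_lit 95) (nat_lit 1) (nat_lit 13) (nat_lit 4) L118905 (by decide +kernel)
theorem L118907 : W_48 (nat_lit 8) (nat_lit 0x200010005800260014001c0000000000000000000) (nat_lit 0x0) (nat_lit 0x80004000000080004180e800220030000800000000000) := T_48 (nat_lit 107) (nat_lit 108) (nat_lit 3) (nat_lit 5) (nat_lit 6) L118906 (by decide +kernel)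
theorem L118908 : W_48 (nat_lit 9) (nat_lit 0x200010005800240014001c0000000000000000000) (nat_lit 0x0) (nat_lit 0x80004000000080004380e900220030000800000000000) := T_48 (nat_lit 109) (nat_lit 92) (nat_lit 4) (nat_lit 8) (nat_lit 9) L118907 (by decide +kernel)
theorem L118909 : W_48 (nat_lit 10) (nat_lit 0x200010005800240010001c0000000000000000000) (nat_lit 0x0) (nat_lit 0x80004000000080004b80ed00220030000800000000000) := T_48 (nat_lit 94) (nat_lit 111) (nat_lit 6) (nat_lit 8) (nat_lit 9) L118908 (by decide +kernel)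
theorem L118910 : W_48 (nat_lit 11) (nat_lit 0x200010005800240010000c0000000000000000000) (nat_lit 0x0) (nat_lit 0x80004000000080004b80ed00320038000800000000000) := T_48 (nat_lit 80) (nat_lit 63) (nat_lit 6) (nat_lit 11) (nat_lit 7) L118909 (by decide +kernel)
theorem L118911 : W_48 (nat_lit 12) (nat_lit 0x20001000580024001000080000000000000000000) (nat_lit 0x0) (nat_lit 0x80004000000080004b80ed0036003a000800000000000) := T_48 (nat_lit 78) (nat_lit 61) (nat_lit 4) (nat_lit 11) (nat_lit 7) L118910 (by decide +kernel)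
theorem L118912 : W_48 (nat_lit 2) (nat_lit 0x60001000d8002c0010000c0004000600010000000) (nat_lit 0x0) (nat_lit 0x100008000400) := D_48 (nat_lit 27) (nat_lit 10) (nat_lit 44) (nat_lit 4) (nat_lit 11) (nat_lit 4) (nat_lit 4) (nat_lit 11) (nat_lit 5) (by decide +kernel)
theorem L118913 : W_48 (nat_lit 3) (nat_lit 0x60001000d8002c0010000c0004000600000000000) (nat_lit 0x0) (nat_lit 0x800000000000100018000400) := T_48 (nat_lit 28) (nat_lit 95) (nat_lit 5) (nat_lit 11) (nat_lit 1) L118912 (by decide +kernel)
theorem L118914 : W_48 (nat_lit 4) (nat_lit 0x60001000d8002c0010000c0004000400000000000) (nat_lit 0x0) (nat_lit 0x800000000000300038000400) := T_48 (nat_lit 45) (nat_lit 29) (nat_lit 6) (nat_lit 11) (nat_lit 5) L118913 (by decide +kernel)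
theorem L118915 : W_48 (nat_lit 5) (nat_lit 0x60001000d800240010000c0004000400000000000) (nat_lit 0x0) (nat_lit 0x8000c00000000000300038000400) := T_48 (nat_lit 111) (nat_lit 94) (nat_lit 6) (nat_lit 8) (nat_lit 9) L118914 (by decide +kernel)
theorem L118916 : W_48 (nat_lit 6) (nat_lit 0x60001000d800240010000c0004000000000000000) (nat_lit 0x0) (nat_lit 0x8000c00000008000700038000400) := T_48 (nat_lit 46) (nat_lit 63) (nat_lit 6) (nat_lit 11) (nat_lit 6) L118915 (by decide +kernel)
theorem L118917 : W_48 (nat_lit 7) (nat_lit 0x60001000d800240010000c0000000000000000000) (nat_lit 0x0) (nat_lit 0x48000c0000000c000700038000400) := T_48 (nat_lit 62) (nat_lit 114) (nat_lit 7) (nat_lit 11) (nat_lit 3) L118916 (by decide +kernel)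
theorem L118918 : W_48 (nat_lit 8) (nat_lit 0x600010005800240010000c0000000000000000000) (nat_lit 0x0) (nat_lit 0x10000800048000c0000000c000700038000400) := T_48 (nat_lit 131) (nat_lit 148) (nat_lit 7) (nat_lit 11) (nat_lit 4) L118917 (by decide +kernel)
theorem L118919 : W_48 (nat_lit 9) (nat_lit 0x60001000580024001000080000000000000000000) (nat_lit 0x0) (nat_lit 0x10000800048000c0004000e000700038000400) := T_48 (nat_lit 78) (nat_lit 61) (nat_lit 4) (nat_lit 11) (nat_lit 7) L118918 (by decide +kernel)
theorem L118920 : W_48 (nat_lit 10) (nat_lit 0x20001000580024001000080000000000000000000) (nat_lit 0x0) (nat_lit 0x800040010000800048000c0004000e000700038000400) := T_48 (nat_lit 162) (nat_lit 179) (nat_lit 7) (nat_lit 8) (nat_lit 6) L118919 (by decide +kernel)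
theorem L118921 : W_48 (nat_lit 2) (nat_lit 0x600010005800268074003c0010000000000000000) (nat_lit 0x0) (nat_lit 0x40000000000000000800040000000) := D_48 (nat_lit 47) (nat_lit 30) (nat_lit 114) (nat_lit 5) (nat_lit 13) (nat_lit 1) (nat_lit 5) (nat_lit 13) (nat_lit 2) (by decide +kernel)
theorem L118922 : W_48 (nat_lit 3) (nat_lit 0x600010005800268074003c0000000000000000000) (nat_lit 0x0) (nat_lit 0x40000000000030000800040000000) := T_48 (nat_lit 64) (nat_lit 65) (nat_lit 2) (nat_lit 10) (nat_lit 4) L118921 (by decide +kernel)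
theorem L118923 : W_48 (nat_lit 4) (nat_lit 0x600010005800268054003c0000000000000000000) (nat_lit 0x0) (nat_lit 0x40002000020030000800040000000) := T_48 (nat_lit 97) (nat_lit 77) (nat_lit 3) (nat_lit 9) (nat_lit 4) L118922 (by decide +kernel)
theorem L118924 : W_48 (nat_lit 5) (nat_lit 0x600010005800268014003c0000000000000000000) (nat_lit 0x0) (nat_lit 0x4000e000020030000800040000000) := T_48 (nat_lit 98) (nat_lit 99) (nat_lit 3) (nat_lit 10) (nat_lit 4) L118923 (by decide +kernel)
theorem L118925 : W_48 (nat_lit 6) (nat_lit 0x600010005800268014001c0000000000000000000) (nat_lit 0x0) (nat_lit 0x4000e800220030000800040000000) := T_48 (nat_lit 81) (nat_lit 95) (nat_lit 1) (nat_lit 13) (nat_lit 4) L118924 (by decide +kernel)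
theorem L118926 : W_48 (nat_lit 7) (nat_lit 0x600010005800268010001c0000000000000000000) (nat_lit 0x0) (nat_lit 0x4800ec00220030000800040000000) := T_48 (nat_lit 94) (nat_lit 111) (nat_lit 6) (nat_lit 8) (nat_lit 9) L118925 (by decide +kernel)
theorem L118927 : W_48 (nat_lit 8) (nat_lit 0x600010005800268010000c0000000000000000000) (nat_lit 0x0) (nat_lit 0x4800ec00320038000800040000000) := T_48 (nat_lit 80) (nat_lit 63) (nat_lit 6) (nat_lit 11) (nat_lit 7) L118926 (by decide +kernel)
theorem L118928 : W_48 (nat_lit 9) (nat_lit 0x60001000580026801000080000000000000000000) (nat_lit 0x0) (nat_lit 0x4800ec0036003a000800040000000) := T_48 (nat_lit 78) (nat_lit 61) (nat_lit 4) (nat_lit 11) (nat_lit 7) L118927 (by decide +kernel)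
theorem L118929 : W_48 (nat_lit 10) (nat_lit 0x20001000580026801000080000000000000000000) (nat_lit 0x0) (nat_lit 0x80004000000000004800ec0036003a000800040000000) := T_48 (nat_lit 162) (nat_lit 179) (nat_lit 7) (nat_lit 8) (nat_lit 6) L118928 (by decide +kernel)
theorem L118930 : W_48 (nat_lit 11) (nat_lit 0x20001000580026001000080000000000000000000) (nat_lit 0x0) (nat_lit 0x80004000000000004980ec0036003a000800040000000) := T_48 (nat_lit 107) (nat_lit 108) (nat_lit 3) (nat_lit 5) (nat_lit 6) L118929 (by decide +kernel)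
theorem L118931 : W_48 (nat_lit 12) (nat_lit 0x20001000580024001000080000000000000000000) (nat_lit 0x0) (nat_lit 0x80004000000000004b80ed0036003a000800040000000) := T_48 (nat_lit 109) (nat_lit 92) (nat_lit 4) (nat_lit 8) (nat_lit 9) L118930 (by decide +kernel)
theorem L118932 : W_48 (nat_lit 2) (nat_lit 0x60001000d8002e80100008000a000000000000000) (nat_lit 0x0) (nat_lit 0x4000500000000000) := D_48 (nat_lit 62) (nat_lit 44) (nat_lit 46) (nat_lit 4) (nat_lit 11) (nat_lit 6) (nat_lit 6) (nat_lit 11) (nat_lit 6) (by decide +kernel)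
theorem L118933 : W_48 (nat_lit 3) (nat_lit 0x60001000d8002e801000080002000000000000000) (nat_lit 0x0) (nat_lit 0x10000c000500000000000) := T_48 (nat_lit 63) (nat_lit 80) (nat_lit 6) (nat_lit 11) (nat_lit 7) L118932 (by decide +kernel)
theorem L118934 : W_48 (nat_lit 4) (nat_lit 0x60001000d8002e801000080000000000000000000) (nat_lit 0x0) (nat_lit 0x14000e000500000000000) := T_48 (nat_lit 61) (nat_lit 78) (nat_lit 4) (nat_lit 11) (nat_lit 7) L118933 (by decide +kernel)
theorem L118935 : W_48 (nat_lit 5) (nat_lit 0x20001000d8002e801000080000000000000000000) (nat_lit 0x0) (nat_lit 0x80004000000000000000000014000e000500000000000) := T_48 (nat_lit 162) (nat_lit 179) (nat_lit 7) (nat_lit 8) (nat_lit 6) L118934 (by decide +kernel)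
theorem L118936 : W_48 (nat_lit 6) (nat_lit 0x20001000d8002e001000080000000000000000000) (nat_lit 0x0) (nat_lit 0x80004000000000000180000014000e000500000000000) := T_48 (nat_lit 107) (nat_lit 108) (nat_lit 3) (nat_lit 5) (nat_lit 6) L118935 (by decide +kernel)
theorem L118937 : W_48 (nat_lit 7) (nat_lit 0x20001000d8002c001000080000000000000000000) (nat_lit 0x0) (nat_lit 0x80004000000000000380010014000e000500000000000) := T_48 (nat_lit 109) (nat_lit 92) (nat_lit 4) (nat_lit 8) (nat_lit 9) L118936 (by decide +kernel)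
theorem L118938 : W_48 (nat_lit 8) (nat_lit 0x2000100058002c001000080000000000000000000) (nat_lit 0x0) (nat_lit 0x80004001000080000380010014000e000500000000000) := T_48 (nat_lit 131) (nat_lit 148) (nat_lit 7) (nat_lit 11) (nat_lit 4) L118937 (by decide +kernel)
theorem L118939 : W_48 (nat_lit 9) (nat_lit 0x20001000580024001000080000000000000000000) (nat_lit 0x0) (nat_lit 0x80004001000080000b80050014000e000500000000000) := T_48 (nat_lit 111) (nat_lit 94) (nat_lit 6) (nat_lit 8) (nat_lit 9) L118938 (by decide +kernel)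
theorem L118940 : W_48 (nat_lit 2) (nat_lit 0x20001000d8002c001000080004000000000000000) (nat_lit 0x0) (nat_lit 0x40002000100000000000) := D_48 (nat_lit 61) (nat_lit 44) (nat_lit 78) (nat_lit 4) (nat_lit 11) (nat_lit 6) (nat_lit 4) (nat_lit 11) (nat_lit 7) (by decide +kernel)
theorem L118941 : W_48 (nat_lit 3) (nat_lit 0x20001000d8002c001000080000000000000000000) (nat_lit 0x0) (nat_lit 0x40000000040006000100000000000) := T_48 (nat_lit 62) (nat_lit 114) (nat_lit 7) (nat_lit 11) (nat_lit 3) L118940 (by decide +kernel)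
theorem L118942 : W_48 (nat_lit 4) (nat_lit 0x2000100058002c001000080000000000000000000) (nat_lit 0x0) (nat_lit 0x10000800040000000040006000100000000000) := T_48 (nat_lit 131) (nat_lit 148) (nat_lit 7) (nat_lit 11) (nat_lit 4) L118941 (by decide +kernel)
theorem L118943 : W_48 (nat_lit 5) (nat_lit 0x20001000580024001000080000000000000000000) (nat_lit 0x0) (nat_lit 0x10000800048000400040006000100000000000) := T_48 (nat_lit 111) (nat_lit 94) (nat_lit 6) (nat_lit 8) (nat_lit 9) L118942 (by decide +kernel)
theorem L118944 : W_48 (nat_lit 13) (nat_lit 0x20001000580024001000000000000000000000000) (nat_lit 0x0) (nat_lit 0x80004001000080004b80ed003e003e000f00078000400) := Q_48 (nat_lit 79) (C_48 L118896 (C_48 L118900 (C_48 L118911 (C_48 L118920 (C_48 L118931 (C_48 L118939 (C_48 L118943 N_48))))))) (by decide +kernel)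
theorem L118945 : W_48 (nat_lit 2) (nat_lit 0x20019000580026801000080000000000000000000) (nat_lit 0x0) (nat_lit 0x2000100008000000000000000) := D_48 (nat_lit 80) (nat_lit 63) (nat_lit 97) (nat_lit 6) (nat_lit 11) (nat_lit 7) (nat_lit 6) (nat_lit 11) (nat_lit 8) (by decide +kernel)
theorem L118946 : W_48 (nat_lit 3) (nat_lit 0x20019000580026801000000000000000000000000) (nat_lit 0x0) (nat_lit 0x800000002000180008000000000000000) := T_48 (nat_lit 79) (nat_lit 131) (nat_lit 7) (nat_lit 11) (nat_lit 4) L118945 (by decide +kernel)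
theorem L118947 : W_48 (nat_lit 4) (nat_lit 0x20009000580026801000000000000000000000000) (nat_lit 0x0) (nat_lit 0x200010000800000002000180008000000000000000) := T_48 (nat_lit 148) (nat_lit 165) (nat_lit 7) (nat_lit 11) (nat_lit 5) L118946 (by decide +kernel)
theorem L118948 : W_48 (nat_lit 5) (nat_lit 0x20009000580026001000000000000000000000000) (nat_lit 0x0) (nat_lit 0x200010000800001802000180008000000000000000) := T_48 (nat_lit 107) (nat_lit 108) (nat_lit 3) (nat_lit 5) (nat_lit 6) L118947 (by decide +kernel)
theorem L118949 : W_48 (nat_lit 6) (nat_lit 0x20009000580024001000000000000000000000000) (nat_lit 0x0) (nat_lit 0x200010000800003802100180008000000000000000) := T_48 (nat_lit 109) (nat_lit 92) (nat_lit 4) (nat_lit 8) (nat_lit 9) L118948 (by decide +kernel)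
theorem L118950 : W_48 (nat_lit 2) (nat_lit 0x20019000580024003000080000000000000000000) (nat_lit 0x0) (nat_lit 0x800040002000000000000000) := D_48 (nat_lit 78) (nat_lit 61) (nat_lit 95) (nat_lit 4) (nat_lit 11) (nat_lit 7) (nat_lit 4) (nat_lit 11) (nat_lit 8) (by decide +kernel)
theorem L118951 : W_48 (nat_lit 3) (nat_lit 0x20019000580024003000000000000000000000000) (nat_lit 0x0) (nat_lit 0x8000000008000c0002000000000000000) := T_48 (nat_lit 79) (nat_lit 131) (nat_lit 7) (nat_lit 11) (nat_lit 4) L118950 (by decide +kernel)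
theorem L118952 : W_48 (nat_lit 4) (nat_lit 0x20009000580024003000000000000000000000000) (nat_lit 0x0) (nat_lit 0x2000100008000000008000c0002000000000000000) := T_48 (nat_lit 148) (nat_lit 165) (nat_lit 7) (nat_lit 11) (nat_lit 5) L118951 (by decide +kernel)
theorem L118953 : W_48 (nat_lit 5) (nat_lit 0x20009000580024001000000000000000000000000) (nat_lit 0x0) (nat_lit 0x2000100008000000028001c0002000000000000000) := T_48 (nat_lit 97) (nat_lit 80) (nat_lit 6) (nat_lit 11) (nat_lit 8) L118952 (by decide +kernel)
theorem L118954 : W_48 (nat_lit 2) (nat_lit 0x120009000580026803000000000000000000000000) (nat_lit 0x0) (nat_lit 0x1000080004000000000000000000000000000000000000) := D_48 (nat_lit 163) (nat_lit 180) (nat_lit 146) (nat_lit 5) (nat_lit 11) (nat_lit 6) (nat_lit 5) (nat_lit 11) (nat_lit 5) (by decide +kernel)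
theorem L118955 : W_48 (nat_lit 3) (nat_lit 0x20009000580026803000000000000000000000000) (nat_lit 0x0) (nat_lit 0x1000180004000000040000000000000000000000000000) := T_48 (nat_lit 164) (nat_lit 114) (nat_lit 6) (nat_lit 11) (nat_lit 9) L118954 (by decide +kernel)
theorem L118956 : W_48 (nat_lit 4) (nat_lit 0x20009000580026003000000000000000000000000) (nat_lit 0x0) (nat_lit 0x1000180004000000041800000000000000000000000000) := T_48 (nat_lit 107) (nat_lit 108) (nat_lit 3) (nat_lit 5) (nat_lit 6) L118955 (by decide +kernel)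
theorem L118957 : W_48 (nat_lit 5) (nat_lit 0x20009000580024003000000000000000000000000) (nat_lit 0x0) (nat_lit 0x1000180004000000043800100000000000000000000000) := T_48 (nat_lit 109) (nat_lit 92) (nat_lit 4) (nat_lit 8) (nat_lit 9) L118956 (by decide +kernel)
theorem L118958 : W_48 (nat_lit 6) (nat_lit 0x20009000580024001000000000000000000000000) (nat_lit 0x0) (nat_lit 0x1000180004000000043802100100000000000000000000) := T_48 (nat_lit 97) (nat_lit 80) (nat_lit 6) (nat_lit 11) (nat_lit 8) L118957 (by decide +kernel)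
theorem L118959 : W_48 (nat_lit 2) (nat_lit 0x20019000580024001000080000000000000000000) (nat_lit 0x0) (nat_lit 0x800040002000000000000000) := D_48 (nat_lit 78) (nat_lit 95) (nat_lit 61) (nat_lit 4) (nat_lit 11) (nat_lit 8) (nat_lit 4) (nat_lit 11) (nat_lit 7) (by decide +kernel)
theorem L118960 : W_48 (nat_lit 3) (nat_lit 0x20019000580024001000000000000000000000000) (nat_lit 0x0) (nat_lit 0x8000000008000c0002000000000000000) := T_48 (nat_lit 79) (nat_lit 131) (nat_lit 7) (nat_lit 11) (nat_lit 4) L118959 (by decide +kernel)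
theorem L118961 : W_48 (nat_lit 4) (nat_lit 0x20009000580024001000000000000000000000000) (nat_lit 0x0) (nat_lit 0x2000100008000000008000c0002000000000000000) := T_48 (nat_lit 148) (nat_lit 165) (nat_lit 7) (nat_lit 11) (nat_lit 5) L118960 (by decide +kernel)
theorem L118962 : W_48 (nat_lit 7) (nat_lit 0x20001000580024001000000000000000000000000) (nat_lit 0x0) (nat_lit 0x100038001c0008000438029001c000a000000000000000) := Q_48 (nat_lit 147) (C_48 L118949 (C_48 L118953 (C_48 L118958 (C_48 L118961 N_48)))) (by decide +kernel)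
theorem L118963 : W_48 (nat_lit 2) (nat_lit 0x16000d000580024003000000000000000000000000) (nat_lit 0x0) (nat_lit 0x4000200010000000000000000000000000000000000000) := D_48 (nat_lit 165) (nat_lit 148) (nat_lit 182) (nat_lit 7) (nat_lit 11) (nat_lit 5) (nat_lit 7) (nat_lit 11) (nat_lit 6) (by decide +kernel)
theorem L118964 : W_48 (nat_lit 3) (nat_lit 0x6000d000580024003000000000000000000000000) (nat_lit 0x0) (nat_lit 0x4000300010000000040000000000000000000000000000) := T_48 (nat_lit 164) (nat_lit 114) (nat_lit 6) (nat_lit 11) (nat_lit 9) L118963 (by decide +kernel)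
theorem L118965 : W_48 (nat_lit 4) (nat_lit 0x60009000580024003000000000000000000000000) (nat_lit 0x0) (nat_lit 0x4000380014000000040000000000000000000000000000) := T_48 (nat_lit 146) (nat_lit 163) (nat_lit 5) (nat_lit 11) (nat_lit 5) L118964 (by decide +kernel)
theorem L118966 : W_48 (nat_lit 5) (nat_lit 0x60009000580024001000000000000000000000000) (nat_lit 0x0) (nat_lit 0x4000380014000000040002000100000000000000000000) := T_48 (nat_lit 97) (nat_lit 80) (nat_lit 6) (nat_lit 11) (nat_lit 8) L118965 (by decide +kernel)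
theorem L118967 : W_48 (nat_lit 6) (nat_lit 0x20009000580024001000000000000000000000000) (nat_lit 0x0) (nat_lit 0x48003c0014000000040002000100000000000000000000) := T_48 (nat_lit 162) (nat_lit 179) (nat_lit 7) (nat_lit 8) (nat_lit 6) L118966 (by decide +kernel)
theorem L118968 : W_48 (nat_lit 2) (nat_lit 0x6000d000580024003c00000000000000000000000) (nat_lit 0x0) (nat_lit 0x1000000000000c0000000000000000000000000000) := D_48 (nat_lit 114) (nat_lit 115) (nat_lit 164) (nat_lit 3) (nat_lit 9) (nat_lit 5) (nat_lit 6) (nat_lit 11) (nat_lit 9) (by decide +kernel)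
theorem L118969 : W_48 (nat_lit 3) (nat_lit 0x6000d000580024003800000000000000000000000) (nat_lit 0x0) (nat_lit 0x1000000000000c8000400000000000000000000000) := T_48 (nat_lit 94) (nat_lit 111) (nat_lit 1) (nat_lit 12) (nat_lit 5) L118968 (by decide +kernel)
theorem L118970 : W_48 (nat_lit 4) (nat_lit 0x6000d000580024001800000000000000000000000) (nat_lit 0x0) (nat_lit 0x1000000000000c8002400100000000000000000000) := T_48 (nat_lit 97) (nat_lit 80) (nat_lit 6) (nat_lit 11) (nat_lit 8) L118969 (by decide +kernel)
theorem L118971 : W_48 (nat_lit 5) (nat_lit 0x60009000580024001800000000000000000000000) (nat_lit 0x0) (nat_lit 0x1800040000000c8002400100000000000000000000) := T_48 (nat_lit 146) (nat_lit 163) (nat_lit 5) (nat_lit 11) (nat_lit 5) L118970 (by decide +kernel)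
theorem L118972 : W_48 (nat_lit 6) (nat_lit 0x20009000580024001800000000000000000000000) (nat_lit 0x0) (nat_lit 0x8001c00040000000c8002400100000000000000000000) := T_48 (nat_lit 162) (nat_lit 179) (nat_lit 7) (nat_lit 8) (nat_lit 6) L118971 (by decide +kernel)
theorem L118973 : W_48 (nat_lit 7) (nat_lit 0x20009000580024001000000000000000000000000) (nat_lit 0x0) (nat_lit 0x8001c00040000000c8002c00140000000000000000000) := T_48 (nat_lit 95) (nat_lit 78) (nat_lit 4) (nat_lit 11) (nat_lit 8) L118972 (by decide +kernel)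
theorem L118974 : W_48 (nat_lit 8) (nat_lit 0x20001000580024001000000000000000000000000) (nat_lit 0x0) (nat_lit 0x48003c001c0008000c8002c001c0002000000000000000) := Q_48 (nat_lit 147) (C_48 L118961 (C_48 L118967 (C_48 L118973 N_48))) (by decide +kernel)
theorem L118975 : W_48 (nat_lit 2) (nat_lit 0x60019000580024001000000000000000000000000) (nat_lit 0x0) (nat_lit 0x180004000000000000000000000000000000000000) := D_48 (nat_lit 163) (nat_lit 146) (nat_lit 164) (nat_lit 5) (nat_lit 11) (nat_lit 5) (nat_lit 2) (nat_lit 8) (nat_lit 9) (by decide +kernel)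
theorem L118976 : W_48 (nat_lit 3) (nat_lit 0x60009000580024001000000000000000000000000) (nat_lit 0x0) (nat_lit 0x380014000000000000000000000000000000000000) := T_48 (nat_lit 148) (nat_lit 165) (nat_lit 7) (nat_lit 11) (nat_lit 5) L118975 (by decide +kernel)
theorem L118977 : W_48 (nat_lit 4) (nat_lit 0x20009000580024001000000000000000000000000) (nat_lit 0x0) (nat_lit 0x8003c0014000000000000000000000000000000000000) := T_48 (nat_lit 162) (nat_lit 179) (nat_lit 7) (nat_lit 8) (nat_lit 6) L118976 (by decide +kernel)
theorem L118978 : W_48 (nat_lit 7) (nat_lit 0x20001000580024001000000000000000000000000) (nat_lit 0x0) (nat_lit 0x58003c001c000800043802100180008000000000000000) := Q_48 (nat_lit 147) (C_48 L118949 (C_48 L118967 (C_48 L118958 (C_48 L118977 N_48)))) (by decide +kernel)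
theorem L118979 : W_48 (nat_lit 2) (nat_lit 0x6000d000580024001000180000000000000000000) (nat_lit 0x0) (nat_lit 0x800040002000000000000000) := D_48 (nat_lit 78) (nat_lit 61) (nat_lit 95) (nat_lit 4) (nat_lit 11) (nat_lit 7) (nat_lit 4) (nat_lit 11) (nat_lit 8) (by decide +kernel)
theorem L118980 : W_48 (nat_lit 3) (nat_lit 0x6000d000580024001000100000000000000000000) (nat_lit 0x0) (nat_lit 0x8000c000a000000000000000) := T_48 (nat_lit 79) (nat_lit 63) (nat_lit 6) (nat_lit 11) (nat_lit 7) L118979 (by decide +kernel)
theorem L118981 : W_48 (nat_lit 4) (nat_lit 0x60009000580024001000100000000000000000000) (nat_lit 0x0) (nat_lit 0x800040000000000008000c000a000000000000000) := T_48 (nat_lit 146) (nat_lit 163) (nat_lit 5) (nat_lit 11) (nat_lit 5) L118980 (by decide +kernel)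
theorem L118982 : W_48 (nat_lit 5) (nat_lit 0x60009000580024001000000000000000000000000) (nat_lit 0x0) (nat_lit 0x800040000000000028001c000a000000000000000) := T_48 (nat_lit 80) (nat_lit 97) (nat_lit 6) (nat_lit 11) (nat_lit 8) L118981 (by decide +kernel)
theorem L118983 : W_48 (nat_lit 6) (nat_lit 0x20009000580024001000000000000000000000000) (nat_lit 0x0) (nat_lit 0x8000c00040000000000028001c000a000000000000000) := T_48 (nat_lit 162) (nat_lit 179) (nat_lit 7) (nat_lit 8) (nat_lit 6) L118982 (by decide +kernel)
theorem L118984 : W_48 (nat_lit 2) (nat_lit 0x20009000580024003c00000000000000000000000) (nat_lit 0x0) (nat_lit 0x1000000000000c0000000000000000000000000000) := D_48 (nat_lit 114) (nat_lit 115) (nat_lit 164) (nat_lit 3) (nat_lit 9) (nat_lit 5) (nat_lit 6) (nat_lit 11) (nat_lit 9) (by decide +kernel)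
theorem L118985 : W_48 (nat_lit 3) (nat_lit 0x20009000580024003800000000000000000000000) (nat_lit 0x0) (nat_lit 0x1000000000000c8000400000000000000000000000) := T_48 (nat_lit 94) (nat_lit 111) (nat_lit 1) (nat_lit 12) (nat_lit 5) L118984 (by decide +kernel)
theorem L118986 : W_48 (nat_lit 4) (nat_lit 0x20009000580024001800000000000000000000000) (nat_lit 0x0) (nat_lit 0x1000000000000c8002400100000000000000000000) := T_48 (nat_lit 97) (nat_lit 80) (nat_lit 6) (nat_lit 11) (nat_lit 8) L118985 (by decide +kernel)
theorem L118987 : W_48 (nat_lit 5) (nat_lit 0x20009000580024001000000000000000000000000) (nat_lit 0x0) (nat_lit 0x1000000000000c8002c00140000000000000000000) := T_48 (nat_lit 95) (nat_lit 78) (nat_lit 4) (nat_lit 11) (nat_lit 8) L118986 (by decide +kernel)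
theorem L118988 : W_48 (nat_lit 2) (nat_lit 0x1a000900058002c001000000000000000000000000) (nat_lit 0x0) (nat_lit 0x800040000800000000000000000000000000000000000) := D_48 (nat_lit 162) (nat_lit 143) (nat_lit 179) (nat_lit 0) (nat_lit 11) (nat_lit 9) (nat_lit 7) (nat_lit 8) (nat_lit 6) (by decide +kernel)
theorem L118989 : W_48 (nat_lit 3) (nat_lit 0xa000900058002c001000000000000000000000000) (nat_lit 0x0) (nat_lit 0x1800140000800000000000000000000000000000000000) := T_48 (nat_lit 164) (nat_lit 180) (nat_lit 5) (nat_lit 11) (nat_lit 6) L118988 (by decide +kernel)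
theorem L118990 : W_48 (nat_lit 4) (nat_lit 0xa0009000580024001000000000000000000000000) (nat_lit 0x0) (nat_lit 0x1800140000800000008000400000000000000000000000) := T_48 (nat_lit 111) (nat_lit 94) (nat_lit 6) (nat_lit 8) (nat_lit 9) L118989 (by decide +kernel)
theorem L118991 : W_48 (nat_lit 5) (nat_lit 0x20009000580024001000000000000000000000000) (nat_lit 0x0) (nat_lit 0x18001c0004800000008000400000000000000000000000) := T_48 (nat_lit 163) (nat_lit 146) (nat_lit 5) (nat_lit 11) (nat_lit 5) L118990 (by decide +kernel)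
theorem L118992 : W_48 (nat_lit 7) (nat_lit 0x20001000580024001000000000000000000000000) (nat_lit 0x0) (nat_lit 0x18001c000c8000000cb802d001c000a000000000000000) := Q_48 (nat_lit 147) (C_48 L118983 (C_48 L118958 (C_48 L118987 (C_48 L118991 N_48)))) (by decide +kernel)
theorem L118993 : W_48 (nat_lit 2) (nat_lit 0xe000900058002c0010001c0000000000000000000) (nat_lit 0x0) (nat_lit 0x1000100000800000000000000000000000000000000000) := D_48 (nat_lit 164) (nat_lit 143) (nat_lit 180) (nat_lit 0) (nat_lit 11) (nat_lit 9) (nat_lit 5) (nat_lit 11) (nat_lit 6) (by decide +kernel)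
theorem L118994 : W_48 (nat_lit 3) (nat_lit 0xa000900058002c0010001c0000000000000000000) (nat_lit 0x0) (nat_lit 0x1800140000800000000000000000000000000000000000) := T_48 (nat_lit 162) (nat_lit 179) (nat_lit 7) (nat_lit 8) (nat_lit 6) L118993 (by decide +kernel)
theorem L118995 : W_48 (nat_lit 4) (nat_lit 0x2000900058002c0010001c0000000000000000000) (nat_lit 0x0) (nat_lit 0x18001c0004800000000000000000000000000000000000) := T_48 (nat_lit 163) (nat_lit 146) (nat_lit 5) (nat_lit 11) (nat_lit 5) L118994 (by decide +kernel)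
theorem L118996 : W_48 (nat_lit 5) (nat_lit 0x200090005800240010001c0000000000000000000) (nat_lit 0x0) (nat_lit 0x18001c0004800000008000400000000000000000000000) := T_48 (nat_lit 111) (nat_lit 94) (nat_lit 6) (nat_lit 8) (nat_lit 9) L118995 (by decide +kernel)
theorem L118997 : W_48 (nat_lit 6) (nat_lit 0x200010005800240010001c0000000000000000000) (nat_lit 0x0) (nat_lit 0x18001c000c800000008000c00000000000000000000000) := T_48 (nat_lit 147) (nat_lit 95) (nat_lit 4) (nat_lit 11) (nat_lit 8) L118996 (by decide +kernel)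
theorem L118998 : W_48 (nat_lit 7) (nat_lit 0x200010005800240010000c0000000000000000000) (nat_lit 0x0) (nat_lit 0x18001c000c800000008000c00100008000000000000000) := T_48 (nat_lit 80) (nat_lit 63) (nat_lit 6) (nat_lit 11) (nat_lit 7) L118997 (by decide +kernel)
theorem L118999 : W_48 (nat_lit 8) (nat_lit 0x20001000580024001000080000000000000000000) (nat_lit 0x0) (nat_lit 0x18001c000c800000008000c0014000a000000000000000) := T_48 (nat_lit 78) (nat_lit 61) (nat_lit 4) (nat_lit 11) (nat_lit 7) L118998 (by decide +kernel)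
theorem L119000 : W_48 (nat_lit 9) (nat_lit 0x20001000580024001000000000000000000000000) (nat_lit 0x0) (nat_lit 0x18001c001c800800048000c001c000e000500000000000) := Q_48 (nat_lit 79) (C_48 L118943 (C_48 L118900 (C_48 L118896 (C_48 L118999 N_48)))) (by decide +kernel)
theorem L119001 : W_48 (nat_lit 2) (nat_lit 0x6001d0015800a4007c00200000000000000000000) (nat_lit 0x0) (nat_lit 0x60002000000000000000000000000000000000) := D_48 (nat_lit 133) (nat_lit 149) (nat_lit 150) (nat_lit 2) (nat_lit 10) (nat_lit 8) (nat_lit 7) (nat_lit 13) (nat_lit 4) (by decide +kernel)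
theorem L119002 : W_48 (nat_lit 3) (nat_lit 0x6001d0005800a4007c00200000000000000000000) (nat_lit 0x0) (nat_lit 0x60003800000000000000000000000000000000) := T_48 (nat_lit 132) (nat_lit 131) (nat_lit 5) (nat_lit 13) (nat_lit 4) L119001 (by decide +kernel)
theorem L119003 : W_48 (nat_lit 4) (nat_lit 0x600190005800a4007c00200000000000000000000) (nat_lit 0x0) (nat_lit 0x80064003800000000000000000000000000000000) := T_48 (nat_lit 146) (nat_lit 163) (nat_lit 5) (nat_lit 11) (nat_lit 5) L119002 (by decide +kernel)
theorem L119004 : W_48 (nat_lit 5) (nat_lit 0x600190005800a4007c00000000000000000000000) (nat_lit 0x0) (nat_lit 0x80064003800000000000600000000000000000000) := T_48 (nat_lit 81) (nat_lit 82) (nat_lit 2) (nat_lit 10) (nat_lit 5) L119003 (by decide +kernel)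
theorem L119005 : W_48 (nat_lit 6) (nat_lit 0x600190005800a4003c00000000000000000000000) (nat_lit 0x0) (nat_lit 0x80064003800100004000600000000000000000000) := T_48 (nat_lit 98) (nat_lit 116) (nat_lit 3) (nat_lit 10) (nat_lit 5) L119004 (by decide +kernel)
theorem L119006 : W_48 (nat_lit 7) (nat_lit 0x600090005800a4003c00000000000000000000000) (nat_lit 0x0) (nat_lit 0x280074003800100004000600000000000000000000) := T_48 (nat_lit 148) (nat_lit 165) (nat_lit 7) (nat_lit 11) (nat_lit 5) L119005 (by decide +kernel)
theorem L119007 : W_48 (nat_lit 8) (nat_lit 0x60009000580024003c00000000000000000000000) (nat_lit 0x0) (nat_lit 0x2800740038001c0004000600000000000000000000) := T_48 (nat_lit 115) (nat_lit 114) (nat_lit 3) (nat_lit 9) (nat_lit 5) L119006 (by decide +kernel)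
theorem L119008 : W_48 (nat_lit 9) (nat_lit 0x60009000580024003400000000000000000000000) (nat_lit 0x0) (nat_lit 0x2800740038001c0004800640000000000000000000) := T_48 (nat_lit 95) (nat_lit 78) (nat_lit 4) (nat_lit 11) (nat_lit 8) L119007 (by decide +kernel)
theorem L119009 : W_48 (nat_lit 10) (nat_lit 0x60009000580024001400000000000000000000000) (nat_lit 0x0) (nat_lit 0x2800740038001c0006800740000000000000000000) := T_48 (nat_lit 97) (nat_lit 80) (nat_lit 6) (nat_lit 11) (nat_lit 8) L119008 (by decide +kernel)
theorem L119010 : W_48 (nat_lit 11) (nat_lit 0x20009000580024001400000000000000000000000) (nat_lit 0x0) (nat_lit 0x8002c00740038001c0006800740000000000000000000) := T_48 (nat_lit 162) (nat_lit 179) (nat_lit 7) (nat_lit 8) (nat_lit 6) L119009 (by decide +kernel)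
theorem L119011 : W_48 (nat_lit 12) (nat_lit 0x20009000580024001000000000000000000000000) (nat_lit 0x0) (nat_lit 0x8002c00740038001c8006c00740000000000000000000) := T_48 (nat_lit 94) (nat_lit 111) (nat_lit 6) (nat_lit 8) (nat_lit 9) L119010 (by decide +kernel)
theorem L119012 : W_48 (nat_lit 13) (nat_lit 0x20001000580024001000000000000000000000000) (nat_lit 0x0) (nat_lit 0x8003c007c0038001c8006c00740000000000000000000) := Q_48 (nat_lit 147) (C_48 L119011 (C_48 L118987 (C_48 L118977 N_48))) (by decide +kernel)
theorem L119013 : W_48 (nat_lit 6) (nat_lit 0x20001000580024001000000000000000000000000) (nat_lit 0x0) (nat_lit 0x18003c001c800800008000c000c0002000000000000000) := Q_48 (nat_lit 147) (C_48 L118961 (C_48 L118991 N_48)) (by decide +kernel)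
theorem L119014 : W_48 (nat_lit 14) (nat_lit 0x20001000580024000000000000000000000000000) (nat_lit 0x0) (nat_lit 0x58003c007c8038001cb80fd007e003e000f00078000400) := Q_48 (nat_lit 96) (C_48 L118944 (C_48 L118962 (C_48 L118974 (C_48 L118978 (C_48 L118992 (C_48 L119000 (C_48 L119012 (C_48 L119013 N_48)))))))) (by decide +kernel)
theorem L119015 : W_48 (nat_lit 2) (nat_lit 0x20001000580024000500000000000000000000000) (nat_lit 0x0) (nat_lit 0x200028000000000000000000) := D_48 (nat_lit 93) (nat_lit 77) (nat_lit 75) (nat_lit 6) (nat_lit 8) (nat_lit 8) (nat_lit 4) (nat_lit 8) (nat_lit 8) (by decide +kernel)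
theorem L119016 : W_48 (nat_lit 3) (nat_lit 0x20001000580024000400000000000000000000000) (nat_lit 0x0) (nat_lit 0x2000300028000000000000000000) := T_48 (nat_lit 92) (nat_lit 109) (nat_lit 4) (nat_lit 8) (nat_lit 9) L119015 (by decide +kernel)
theorem L119017 : W_48 (nat_lit 4) (nat_lit 0x20001000580024000000000000000000000000000) (nat_lit 0x0) (nat_lit 0xa000700028000000000000000000) := T_48 (nat_lit 94) (nat_lit 111) (nat_lit 6) (nat_lit 8) (nat_lit 9) L119016 (by decide +kernel)
theorem L119018 : W_48 (nat_lit 2) (nat_lit 0x20001000580024000200000000000000000000000) (nat_lit 0x0) (nat_lit 0x8000400020000000000000000000) := D_48 (nat_lit 94) (nat_lit 111) (nat_lit 77) (nat_lit 6) (nat_lit 8) (nat_lit 9) (nat_lit 6) (nat_lit 8) (nat_lit 8) (by decide +kernel)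
theorem L119019 : W_48 (nat_lit 2) (nat_lit 0x60001000580024000200028000000000000000000) (nat_lit 0x0) (nat_lit 0x10001400000000000000) := D_48 (nat_lit 76) (nat_lit 58) (nat_lit 60) (nat_lit 4) (nat_lit 8) (nat_lit 7) (nat_lit 6) (nat_lit 8) (nat_lit 7) (by decide +kernel)
theorem L119020 : W_48 (nat_lit 3) (nat_lit 0x60001000580024000200008000000000000000000) (nat_lit 0x0) (nat_lit 0x400030001400000000000000) := T_48 (nat_lit 77) (nat_lit 94) (nat_lit 6) (nat_lit 8) (nat_lit 8) L119019 (by decide +kernel)
theorem L119021 : W_48 (nat_lit 4) (nat_lit 0x60001000580024000200000000000000000000000) (nat_lit 0x0) (nat_lit 0x500038001400000000000000) := T_48 (nat_lit 75) (nat_lit 92) (nat_lit 4) (nat_lit 8) (nat_lit 8) L119020 (by decide +kernel)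
theorem L119022 : W_48 (nat_lit 5) (nat_lit 0x20001000580024000200000000000000000000000) (nat_lit 0x0) (nat_lit 0x800040000000000000000500038001400000000000000) := T_48 (nat_lit 162) (nat_lit 179) (nat_lit 7) (nat_lit 8) (nat_lit 6) L119021 (by decide +kernel)
theorem L119023 : W_48 (nat_lit 2) (nat_lit 0x60001000580024000200018001000000000000000) (nat_lit 0x0) (nat_lit 0x8000000000000800080000000000) := D_48 (nat_lit 59) (nat_lit 111) (nat_lit 43) (nat_lit 7) (nat_lit 8) (nat_lit 3) (nat_lit 6) (nat_lit 8) (nat_lit 6) (by decide +kernel)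
theorem L119024 : W_48 (nat_lit 3) (nat_lit 0x60001000580024000200018000000000000000000) (nat_lit 0x0) (nat_lit 0x8000000020001800080000000000) := T_48 (nat_lit 60) (nat_lit 77) (nat_lit 6) (nat_lit 8) (nat_lit 7) L119023 (by decide +kernel)
theorem L119025 : W_48 (nat_lit 4) (nat_lit 0x60001000580024000200008000000000000000000) (nat_lit 0x0) (nat_lit 0x8000000030001c00080000000000) := T_48 (nat_lit 76) (nat_lit 58) (nat_lit 4) (nat_lit 8) (nat_lit 7) L119024 (by decide +kernel)
theorem L119026 : W_48 (nat_lit 5) (nat_lit 0x60001000580024000200000000000000000000000) (nat_lit 0x0) (nat_lit 0x8000100038001c00080000000000) := T_48 (nat_lit 75) (nat_lit 92) (nat_lit 4) (nat_lit 8) (nat_lit 8) L119025 (by decide +kernel)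
theorem L119027 : W_48 (nat_lit 6) (nat_lit 0x20001000580024000200000000000000000000000) (nat_lit 0x0) (nat_lit 0x800040000000000008000100038001c00080000000000) := T_48 (nat_lit 162) (nat_lit 179) (nat_lit 7) (nat_lit 8) (nat_lit 6) L119026 (by decide +kernel)
theorem L119028 : W_48 (nat_lit 2) (nat_lit 0x2000100058002c000200008000000000000000000) (nat_lit 0x0) (nat_lit 0x10000c00000000000000) := D_48 (nat_lit 76) (nat_lit 58) (nat_lit 59) (nat_lit 4) (nat_lit 8) (nat_lit 7) (nat_lit 7) (nat_lit 8) (nat_lit 3) (by decide +kernel)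
theorem L119029 : W_48 (nat_lit 3) (nat_lit 0x20001000580024000200008000000000000000000) (nat_lit 0x0) (nat_lit 0x8000400010000c00000000000000) := T_48 (nat_lit 111) (nat_lit 94) (nat_lit 6) (nat_lit 8) (nat_lit 9) L119028 (by decide +kernel)
theorem L119030 : W_48 (nat_lit 4) (nat_lit 0x20001000580024000200000000000000000000000) (nat_lit 0x0) (nat_lit 0x8000500018000c00000000000000) := T_48 (nat_lit 75) (nat_lit 92) (nat_lit 4) (nat_lit 8) (nat_lit 8) L119029 (by decide +kernel)
theorem L119031 : W_48 (nat_lit 7) (nat_lit 0x20001000580024000000000000000000000000000) (nat_lit 0x0) (nat_lit 0x800040000000000008000700038001c00080000000000) := Q_48 (nat_lit 93) (C_48 L119018 (C_48 L119022 (C_48 L119027 (C_48 L119030 N_48)))) (by decide +kernel)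
theorem L119032 : W_48 (nat_lit 2) (nat_lit 0x60001000580024001f00000000000000000000000) (nat_lit 0x0) (nat_lit 0x1c0000000000000000000) := D_48 (nat_lit 79) (nat_lit 80) (nat_lit 78) (nat_lit 2) (nat_lit 8) (nat_lit 5) (nat_lit 2) (nat_lit 7) (nat_lit 5) (by decide +kernel)
theorem L119033 : W_48 (nat_lit 3) (nat_lit 0x60001000580024001700000000000000000000000) (nat_lit 0x0) (nat_lit 0x400008001c0000000000000000000) := T_48 (nat_lit 95) (nat_lit 114) (nat_lit 3) (nat_lit 8) (nat_lit 5) L119032 (by decide +kernel)
theorem L119034 : W_48 (nat_lit 4) (nat_lit 0x60001000580024001300000000000000000000000) (nat_lit 0x0) (nat_lit 0x40000c001e0000000000000000000) := T_48 (nat_lit 94) (nat_lit 77) (nat_lit 6) (nat_lit 8) (nat_lit 8) L119033 (by decide +kernel)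
theorem L119035 : W_48 (nat_lit 5) (nat_lit 0x60001000580024001100000000000000000000000) (nat_lit 0x0) (nat_lit 0x40000e001e8000000000000000000) := T_48 (nat_lit 93) (nat_lit 75) (nat_lit 4) (nat_lit 8) (nat_lit 8) L119034 (by decide +kernel)
theorem L119036 : W_48 (nat_lit 6) (nat_lit 0x20001000580024001100000000000000000000000) (nat_lit 0x0) (nat_lit 0x800040000000000040000e001e8000000000000000000) := T_48 (nat_lit 162) (nat_lit 179) (nat_lit 7) (nat_lit 8) (nat_lit 6) L119035 (by decide +kernel)
theorem L119037 : W_48 (nat_lit 7) (nat_lit 0x20001000580024001000000000000000000000000) (nat_lit 0x0) (nat_lit 0x800040000000000042000f001e8000000000000000000) := T_48 (nat_lit 92) (nat_lit 109) (nat_lit 4) (nat_lit 8) (nat_lit 9) L119036 (by decide +kernel)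
theorem L119038 : W_48 (nat_lit 7) (nat_lit 0x20001000580024001000000000000000000000000) (nat_lit 0x0) (nat_lit 0x8003c001c0008000000028001c000a000000000000000) := Q_48 (nat_lit 147) (C_48 L118983 (C_48 L118961 (C_48 L118977 N_48))) (by decide +kernel)
theorem L119039 : W_48 (nat_lit 2) (nat_lit 0xe0009000580024001f00000000000000000000000) (nat_lit 0x0) (nat_lit 0x300010000000000000000000000000000000000000) := D_48 (nat_lit 148) (nat_lit 165) (nat_lit 164) (nat_lit 7) (nat_lit 11) (nat_lit 5) (nat_lit 2) (nat_lit 8) (nat_lit 9) (by decide +kernel)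
theorem L119040 : W_48 (nat_lit 3) (nat_lit 0x60009000580024001f00000000000000000000000) (nat_lit 0x0) (nat_lit 0x380014000000000000000000000000000000000000) := T_48 (nat_lit 163) (nat_lit 146) (nat_lit 5) (nat_lit 11) (nat_lit 5) L119039 (by decide +kernel)
theorem L119041 : W_48 (nat_lit 4) (nat_lit 0x60001000580024001f00000000000000000000000) (nat_lit 0x0) (nat_lit 0x38001c000000000000000040000000000000000000) := T_48 (nat_lit 147) (nat_lit 78) (nat_lit 4) (nat_lit 11) (nat_lit 8) L119040 (by decide +kernel)
theorem L119042 : W_48 (nat_lit 5) (nat_lit 0x60001000580024001700000000000000000000000) (nat_lit 0x0) (nat_lit 0x38001c000000040000800040000000000000000000) := T_48 (nat_lit 95) (nat_lit 114) (nat_lit 3) (nat_lit 8) (nat_lit 5) L119041 (by decide +kernel)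
theorem L119043 : W_48 (nat_lit 6) (nat_lit 0x60001000580024001300000000000000000000000) (nat_lit 0x0) (nat_lit 0x38001c000000040000c00060000000000000000000) := T_48 (nat_lit 94) (nat_lit 77) (nat_lit 6) (nat_lit 8) (nat_lit 8) L119042 (by decide +kernel)
theorem L119044 : W_48 (nat_lit 7) (nat_lit 0x60001000580024001100000000000000000000000) (nat_lit 0x0) (nat_lit 0x38001c000000040000e00068000000000000000000) := T_48 (nat_lit 93) (nat_lit 75) (nat_lit 4) (nat_lit 8) (nat_lit 8) L119043 (by decide +kernel)
theorem L119045 : W_48 (nat_lit 8) (nat_lit 0x60001000580024001000000000000000000000000) (nat_lit 0x0) (nat_lit 0x38001c000000042000f00068000000000000000000) := T_48 (nat_lit 92) (nat_lit 109) (nat_lit 4) (nat_lit 8) (nat_lit 9) L119044 (by decide +kernel)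
theorem L119046 : W_48 (nat_lit 9) (nat_lit 0x20001000580024001000000000000000000000000) (nat_lit 0x0) (nat_lit 0x8003c001c000000042000f00068000000000000000000) := T_48 (nat_lit 162) (nat_lit 179) (nat_lit 7) (nat_lit 8) (nat_lit 6) L119045 (by decide +kernel)
theorem L119047 : W_48 (nat_lit 10) (nat_lit 0x20001000580024000000000000000000000000000) (nat_lit 0x0) (nat_lit 0x58003c001c000800043803f001e800a000000000000000) := Q_48 (nat_lit 96) (C_48 L119037 (C_48 L118978 (C_48 L118962 (C_48 L119038 (C_48 L119046 N_48))))) (by decide +kernel)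
theorem L119048 : W_48 (nat_lit 2) (nat_lit 0x320009000580026801000000000000000000000000) (nat_lit 0x0) (nat_lit 0x40002000100000000000000000000) := D_48 (nat_lit 97) (nat_lit 80) (nat_lit 114) (nat_lit 6) (nat_lit 11) (nat_lit 8) (nat_lit 6) (nat_lit 11) (nat_lit 9) (by decide +kernel)
theorem L119049 : W_48 (nat_lit 3) (nat_lit 0x320009000580026800000000000000000000000000) (nat_lit 0x0) (nat_lit 0x10000000040003000100000000000000000000) := T_48 (nat_lit 96) (nat_lit 148) (nat_lit 7) (nat_lit 11) (nat_lit 5) L119048 (by decide +kernel)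
theorem L119050 : W_48 (nat_lit 4) (nat_lit 0x120009000580026800000000000000000000000000) (nat_lit 0x0) (nat_lit 0x4000200010000000040003000100000000000000000000) := T_48 (nat_lit 165) (nat_lit 182) (nat_lit 7) (nat_lit 11) (nat_lit 6) L119049 (by decide +kernel)
theorem L119051 : W_48 (nat_lit 5) (nat_lit 0x120009000580026000000000000000000000000000) (nat_lit 0x0) (nat_lit 0x4000200010000000041803000100000000000000000000) := T_48 (nat_lit 107) (nat_lit 108) (nat_lit 3) (nat_lit 5) (nat_lit 6) L119050 (by decide +kernel)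
theorem L119052 : W_48 (nat_lit 6) (nat_lit 0x120009000580024000000000000000000000000000) (nat_lit 0x0) (nat_lit 0x4000200010000000043803100100000000000000000000) := T_48 (nat_lit 109) (nat_lit 92) (nat_lit 4) (nat_lit 8) (nat_lit 9) L119051 (by decide +kernel)
theorem L119053 : W_48 (nat_lit 2) (nat_lit 0x320009000580064001000000000000000000000000) (nat_lit 0x0) (nat_lit 0x1000080004000000000000000000000000000000000000) := D_48 (nat_lit 163) (nat_lit 146) (nat_lit 180) (nat_lit 5) (nat_lit 11) (nat_lit 5) (nat_lit 5) (nat_lit 11) (nat_lit 6) (by decide +kernel)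
theorem L119054 : W_48 (nat_lit 3) (nat_lit 0x320009000580064000000000000000000000000000) (nat_lit 0x0) (nat_lit 0x1000080014000000000001000000000000000000000000) := T_48 (nat_lit 96) (nat_lit 148) (nat_lit 7) (nat_lit 11) (nat_lit 5) L119053 (by decide +kernel)
theorem L119055 : W_48 (nat_lit 4) (nat_lit 0x120009000580064000000000000000000000000000) (nat_lit 0x0) (nat_lit 0x5000280014000000000001000000000000000000000000) := T_48 (nat_lit 165) (nat_lit 182) (nat_lit 7) (nat_lit 11) (nat_lit 6) L119054 (by decide +kernel)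
theorem L119056 : W_48 (nat_lit 5) (nat_lit 0x120009000580024000000000000000000000000000) (nat_lit 0x0) (nat_lit 0x5000280014000000040003000000000000000000000000) := T_48 (nat_lit 114) (nat_lit 97) (nat_lit 6) (nat_lit 11) (nat_lit 9) L119055 (by decide +kernel)
theorem L119057 : W_48 (nat_lit 2) (nat_lit 0x2000120009000580066800000000000000000000000000) (nat_lit 0x0) (nat_lit 0x20001000080000000000000000000000000000000000000000) := D_48 (nat_lit 180) (nat_lit 197) (nat_lit 163) (nat_lit 5) (nat_lit 11) (nat_lit 7) (nat_lit 5) (nat_lit 11) (nat_lit 6) (by decide +kernel)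
theorem L119058 : W_48 (nat_lit 3) (nat_lit 0x120009000580066800000000000000000000000000) (nat_lit 0x0) (nat_lit 0x20003000080000000800000000000000000000000000000000) := T_48 (nat_lit 181) (nat_lit 131) (nat_lit 6) (nat_lit 11) (nat_lit 10) L119057 (by decide +kernel)
theorem L119059 : W_48 (nat_lit 4) (nat_lit 0x120009000580066000000000000000000000000000) (nat_lit 0x0) (nat_lit 0x20003000080000000800001800000000000000000000000000) := T_48 (nat_lit 107) (nat_lit 108) (nat_lit 3) (nat_lit 5) (nat_lit 6) L119058 (by decide +kernel)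
theorem L119060 : W_48 (nat_lit 5) (nat_lit 0x120009000580064000000000000000000000000000) (nat_lit 0x0) (nat_lit 0x20003000080000000800003800100000000000000000000000) := T_48 (nat_lit 109) (nat_lit 92) (nat_lit 4) (nat_lit 8) (nat_lit 9) L119059 (by decide +kernel)
theorem L119061 : W_48 (nat_lit 6) (nat_lit 0x120009000580024000000000000000000000000000) (nat_lit 0x0) (nat_lit 0x20003000080000000800043802100000000000000000000000) := T_48 (nat_lit 114) (nat_lit 97) (nat_lit 6) (nat_lit 11) (nat_lit 9) L119060 (by decide +kernel)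
theorem L119062 : W_48 (nat_lit 2) (nat_lit 0x320009000580026801000000000000000000000000) (nat_lit 0x0) (nat_lit 0x1000080004000000000000000000000000000000000000) := D_48 (nat_lit 163) (nat_lit 146) (nat_lit 180) (nat_lit 5) (nat_lit 11) (nat_lit 5) (nat_lit 5) (nat_lit 11) (nat_lit 6) (by decide +kernel)
theorem L119063 : W_48 (nat_lit 3) (nat_lit 0x320009000580026800000000000000000000000000) (nat_lit 0x0) (nat_lit 0x1000080014000000000001000000000000000000000000) := T_48 (nat_lit 96) (nat_lit 148) (nat_lit 7) (nat_lit 11) (nat_lit 5) L119062 (by decide +kernel)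
theorem L119064 : W_48 (nat_lit 4) (nat_lit 0x120009000580026800000000000000000000000000) (nat_lit 0x0) (nat_lit 0x5000280014000000000001000000000000000000000000) := T_48 (nat_lit 165) (nat_lit 182) (nat_lit 7) (nat_lit 11) (nat_lit 6) L119063 (by decide +kernel)
theorem L119065 : W_48 (nat_lit 5) (nat_lit 0x120009000580026000000000000000000000000000) (nat_lit 0x0) (nat_lit 0x5000280014000000001801000000000000000000000000) := T_48 (nat_lit 107) (nat_lit 108) (nat_lit 3) (nat_lit 5) (nat_lit 6) L119064 (by decide +kernel)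
theorem L119066 : W_48 (nat_lit 6) (nat_lit 0x120009000580024000000000000000000000000000) (nat_lit 0x0) (nat_lit 0x5000280014000000003801100000000000000000000000) := T_48 (nat_lit 109) (nat_lit 92) (nat_lit 4) (nat_lit 8) (nat_lit 9) L119065 (by decide +kernel)
theorem L119067 : W_48 (nat_lit 2) (nat_lit 0x220009000580024003000000000000000000000000) (nat_lit 0x0) (nat_lit 0x4000100000000000040000000000000000000000000000) := D_48 (nat_lit 164) (nat_lit 114) (nat_lit 182) (nat_lit 6) (nat_lit 11) (nat_lit 9) (nat_lit 7) (nat_lit 11) (nat_lit 6) (by decide +kernel)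
theorem L119068 : W_48 (nat_lit 3) (nat_lit 0x20009000580024003000000000000000000000000) (nat_lit 0x0) (nat_lit 0x4000300010000000040000000000000000000000000000) := T_48 (nat_lit 165) (nat_lit 148) (nat_lit 7) (nat_lit 11) (nat_lit 5) L119067 (by decide +kernel)
theorem L119069 : W_48 (nat_lit 4) (nat_lit 0x20009000580024001000000000000000000000000) (nat_lit 0x0) (nat_lit 0x4000300010000000040002000100000000000000000000) := T_48 (nat_lit 97) (nat_lit 80) (nat_lit 6) (nat_lit 11) (nat_lit 8) L119068 (by decide +kernel)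
theorem L119070 : W_48 (nat_lit 2) (nat_lit 0x60001000d80024003000180004000100000000000) (nat_lit 0x0) (nat_lit 0x200018000000) := D_48 (nat_lit 45) (nat_lit 27) (nat_lit 28) (nat_lit 4) (nat_lit 11) (nat_lit 5) (nat_lit 7) (nat_lit 11) (nat_lit 1) (by decide +kernel)
theorem L119071 : W_48 (nat_lit 3) (nat_lit 0x60001000d80024001000180004000100000000000) (nat_lit 0x0) (nat_lit 0x8000000000002000000000000200018000000) := T_48 (nat_lit 97) (nat_lit 147) (nat_lit 6) (nat_lit 11) (nat_lit 8) L119070 (by decide +kernel)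
theorem L119072 : W_48 (nat_lit 4) (nat_lit 0x60001000d80024001000180004000000000000000) (nat_lit 0x0) (nat_lit 0x8000000000002000000002000300018000000) := T_48 (nat_lit 44) (nat_lit 61) (nat_lit 4) (nat_lit 11) (nat_lit 6) L119071 (by decide +kernel)
theorem L119073 : W_48 (nat_lit 5) (nat_lit 0x60001000d80024001000180000000000000000000) (nat_lit 0x0) (nat_lit 0x8000000040002000000006000300018000000) := T_48 (nat_lit 62) (nat_lit 114) (nat_lit 7) (nat_lit 11) (nat_lit 3) L119072 (by decide +kernel)
theorem L119074 : W_48 (nat_lit 6) (nat_lit 0x60001000580024001000180000000000000000000) (nat_lit 0x0) (nat_lit 0x18000800040002000000006000300018000000) := T_48 (nat_lit 131) (nat_lit 148) (nat_lit 7) (nat_lit 11) (nat_lit 4) L119073 (by decide +kernel)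
theorem L119075 : W_48 (nat_lit 7) (nat_lit 0x60001000580024001000080000000000000000000) (nat_lit 0x0) (nat_lit 0x1800080004000200010000e000300018000000) := T_48 (nat_lit 80) (nat_lit 63) (nat_lit 6) (nat_lit 11) (nat_lit 7) L119074 (by decide +kernel)
theorem L119076 : W_48 (nat_lit 8) (nat_lit 0x20001000580024001000080000000000000000000) (nat_lit 0x0) (nat_lit 0x80004001800080004000200010000e000300018000000) := T_48 (nat_lit 162) (nat_lit 179) (nat_lit 7) (nat_lit 8) (nat_lit 6) L119075 (by decide +kernel)
theorem L119077 : W_48 (nat_lit 2) (nat_lit 0x60009000580024001000180000000000000000000) (nat_lit 0x0) (nat_lit 0x800040002000000000000000) := D_48 (nat_lit 78) (nat_lit 61) (nat_lit 95) (nat_lit 4) (nat_lit 11) (nat_lit 7) (nat_lit 4) (nat_lit 11) (nat_lit 8) (by decide +kernel)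
theorem L119078 : W_48 (nat_lit 3) (nat_lit 0x60001000580024001000180000000000000000000) (nat_lit 0x0) (nat_lit 0x8000000000002800040002000000000000000) := T_48 (nat_lit 147) (nat_lit 97) (nat_lit 6) (nat_lit 11) (nat_lit 8) L119077 (by decide +kernel)
theorem L119079 : W_48 (nat_lit 4) (nat_lit 0x20001000580024001000180000000000000000000) (nat_lit 0x0) (nat_lit 0x800040008000000000002800040002000000000000000) := T_48 (nat_lit 162) (nat_lit 179) (nat_lit 7) (nat_lit 8) (nat_lit 6) L119078 (by decide +kernel)
theorem L119080 : W_48 (nat_lit 5) (nat_lit 0x20001000580024001000080000000000000000000) (nat_lit 0x0) (nat_lit 0x80004000800000000000280014000a000000000000000) := T_48 (nat_lit 80) (nat_lit 63) (nat_lit 6) (nat_lit 11) (nat_lit 7) L119079 (by decide +kernel)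
theorem L119081 : W_48 (nat_lit 2) (nat_lit 0x600090005800240010000c0000000000000000000) (nat_lit 0x0) (nat_lit 0x200010000800000000000000000000000000000000) := D_48 (nat_lit 148) (nat_lit 131) (nat_lit 165) (nat_lit 7) (nat_lit 11) (nat_lit 4) (nat_lit 7) (nat_lit 11) (nat_lit 5) (by decide +kernel)
theorem L119082 : W_48 (nat_lit 3) (nat_lit 0x600010005800240010000c0000000000000000000) (nat_lit 0x0) (nat_lit 0x200018000800000000800000000000000000000000) := T_48 (nat_lit 147) (nat_lit 95) (nat_lit 4) (nat_lit 11) (nat_lit 8) L119081 (by decide +kernel)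
theorem L119083 : W_48 (nat_lit 4) (nat_lit 0x200010005800240010000c0000000000000000000) (nat_lit 0x0) (nat_lit 0x800240018000800000000800000000000000000000000) := T_48 (nat_lit 162) (nat_lit 179) (nat_lit 7) (nat_lit 8) (nat_lit 6) L119082 (by decide +kernel)
theorem L119084 : W_48 (nat_lit 5) (nat_lit 0x20001000580024001000080000000000000000000) (nat_lit 0x0) (nat_lit 0x800240018000800000000800040002000000000000000) := T_48 (nat_lit 78) (nat_lit 61) (nat_lit 4) (nat_lit 11) (nat_lit 7) L119083 (by decide +kernel)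
theorem L119085 : W_48 (nat_lit 2) (nat_lit 0x20001000d80024001000080004000000000000000) (nat_lit 0x0) (nat_lit 0x100008000400000000000) := D_48 (nat_lit 63) (nat_lit 46) (nat_lit 80) (nat_lit 6) (nat_lit 11) (nat_lit 6) (nat_lit 6) (nat_lit 11) (nat_lit 7) (by decide +kernel)
theorem L119086 : W_48 (nat_lit 3) (nat_lit 0x20001000d80024001000080000000000000000000) (nat_lit 0x0) (nat_lit 0x4000000010000c000400000000000) := T_48 (nat_lit 62) (nat_lit 114) (nat_lit 7) (nat_lit 11) (nat_lit 3) L119085 (by decide +kernel)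
theorem L119087 : W_48 (nat_lit 4) (nat_lit 0x20001000580024001000080000000000000000000) (nat_lit 0x0) (nat_lit 0x1000080004000000010000c000400000000000) := T_48 (nat_lit 131) (nat_lit 148) (nat_lit 7) (nat_lit 11) (nat_lit 4) L119086 (by decide +kernel)
theorem L119088 : W_48 (nat_lit 9) (nat_lit 0x20001000580024001000000000000000000000000) (nat_lit 0x0) (nat_lit 0x8002400180008000400028001c000e000700018000000) := Q_48 (nat_lit 79) (C_48 L118900 (C_48 L119076 (C_48 L119080 (C_48 L119084 (C_48 L119087 N_48))))) (by decide +kernel)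
theorem L119089 : W_48 (nat_lit 2) (nat_lit 0x1e0001000580024000000000000000000000000000) (nat_lit 0x0) (nat_lit 0x1000000018000000000000000000000000000000000000) := D_48 (nat_lit 147) (nat_lit 148) (nat_lit 180) (nat_lit 2) (nat_lit 8) (nat_lit 9) (nat_lit 5) (nat_lit 11) (nat_lit 6) (by decide +kernel)
theorem L119090 : W_48 (nat_lit 3) (nat_lit 0x160001000580024000000000000000000000000000) (nat_lit 0x0) (nat_lit 0x1000080018800000000000000000000000000000000000) := T_48 (nat_lit 163) (nat_lit 143) (nat_lit 0) (nat_lit 11) (nat_lit 9) L119089 (by decide +kernel)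
theorem L119091 : W_48 (nat_lit 4) (nat_lit 0x120001000580024000000000000000000000000000) (nat_lit 0x0) (nat_lit 0x18000c0018800000000000000000000000000000000000) := T_48 (nat_lit 162) (nat_lit 179) (nat_lit 7) (nat_lit 8) (nat_lit 6) L119090 (by decide +kernel)
theorem L119092 : W_48 (nat_lit 7) (nat_lit 0x120001000580024000000000000000000000000000) (nat_lit 0x0) (nat_lit 0x2000700028001c000800043803100100000000000000000000) := Q_48 (nat_lit 147) (C_48 L119066 (C_48 L119056 (C_48 L119052 (C_48 L119061 N_48)))) (by decide +kernel)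
theorem L119093 : W_48 (nat_lit 2) (nat_lit 0x360009000d80064001000040000000000000000000) (nat_lit 0x0) (nat_lit 0x80006000000000000000) := D_48 (nat_lit 79) (nat_lit 61) (nat_lit 62) (nat_lit 4) (nat_lit 11) (nat_lit 7) (nat_lit 7) (nat_lit 11) (nat_lit 3) (by decide +kernel)
theorem L119094 : W_48 (nat_lit 3) (nat_lit 0x360009000580064001000040000000000000000000) (nat_lit 0x0) (nat_lit 0x2000000000000800000000000080006000000000000000) := T_48 (nat_lit 131) (nat_lit 181) (nat_lit 6) (nat_lit 11) (nat_lit 10) L119093 (by decide +kernel)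
theorem L119095 : W_48 (nat_lit 4) (nat_lit 0x360009000580064001000000000000000000000000) (nat_lit 0x0) (nat_lit 0x20000000000008000000008000c0006000000000000000) := T_48 (nat_lit 78) (nat_lit 95) (nat_lit 4) (nat_lit 11) (nat_lit 8) L119094 (by decide +kernel)
theorem L119096 : W_48 (nat_lit 5) (nat_lit 0x360009000580064000000000000000000000000000) (nat_lit 0x0) (nat_lit 0x20000000100008000000018000c0006000000000000000) := T_48 (nat_lit 96) (nat_lit 148) (nat_lit 7) (nat_lit 11) (nat_lit 5) L119095 (by decide +kernel)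
theorem L119097 : W_48 (nat_lit 6) (nat_lit 0x160009000580064000000000000000000000000000) (nat_lit 0x0) (nat_lit 0x60002000100008000000018000c0006000000000000000) := T_48 (nat_lit 165) (nat_lit 182) (nat_lit 7) (nat_lit 11) (nat_lit 6) L119096 (by decide +kernel)
theorem L119098 : W_48 (nat_lit 7) (nat_lit 0x160009000580024000000000000000000000000000) (nat_lit 0x0) (nat_lit 0x60002000100008000400038000c0006000000000000000) := T_48 (nat_lit 114) (nat_lit 97) (nat_lit 6) (nat_lit 11) (nat_lit 9) L119097 (by decide +kernel)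
theorem L119099 : W_48 (nat_lit 8) (nat_lit 0x120009000580024000000000000000000000000000) (nat_lit 0x0) (nat_lit 0x68002400100008000400038000c0006000000000000000) := T_48 (nat_lit 162) (nat_lit 179) (nat_lit 7) (nat_lit 8) (nat_lit 6) L119098 (by decide +kernel)
theorem L119100 : W_48 (nat_lit 2) (nat_lit 0x2000120009000580066800000000000000000000000000) (nat_lit 0x0) (nat_lit 0x80004000200000000000000000000000000000000000000000) := D_48 (nat_lit 182) (nat_lit 165) (nat_lit 199) (nat_lit 7) (nat_lit 11) (nat_lit 6) (nat_lit 7) (nat_lit 11) (nat_lit 7) (by decide +kernel)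
theorem L119101 : W_48 (nat_lit 3) (nat_lit 0x120009000580066800000000000000000000000000) (nat_lit 0x0) (nat_lit 0x80006000200000000800000000000000000000000000000000) := T_48 (nat_lit 181) (nat_lit 131) (nat_lit 6) (nat_lit 11) (nat_lit 10) L119100 (by decide +kernel)
theorem L119102 : W_48 (nat_lit 4) (nat_lit 0x120009000580066000000000000000000000000000) (nat_lit 0x0) (nat_lit 0x80006000200000000800001800000000000000000000000000) := T_48 (nat_lit 107) (nat_lit 108) (nat_lit 3) (nat_lit 5) (nat_lit 6) L119101 (by decide +kernel)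
theorem L119103 : W_48 (nat_lit 5) (nat_lit 0x120009000580064000000000000000000000000000) (nat_lit 0x0) (nat_lit 0x80006000200000000800003800100000000000000000000000) := T_48 (nat_lit 109) (nat_lit 92) (nat_lit 4) (nat_lit 8) (nat_lit 9) L119102 (by decide +kernel)
theorem L119104 : W_48 (nat_lit 6) (nat_lit 0x120009000580024000000000000000000000000000) (nat_lit 0x0) (nat_lit 0x80006000200000000800043802100000000000000000000000) := T_48 (nat_lit 114) (nat_lit 97) (nat_lit 6) (nat_lit 11) (nat_lit 9) L119103 (by decide +kernel)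
theorem L119105 : W_48 (nat_lit 2) (nat_lit 0x20006000160009000d80026800000000000000000000000000) (nat_lit 0x0) (nat_lit 0x400040000000000010000000000000000000000000000000000000) := D_48 (nat_lit 198) (nat_lit 148) (nat_lit 214) (nat_lit 6) (nat_lit 11) (nat_lit 11) (nat_lit 5) (nat_lit 11) (nat_lit 8) (by decide +kernel)
theorem L119106 : W_48 (nat_lit 3) (nat_lit 0x6000160009000d80026800000000000000000000000000) (nat_lit 0x0) (nat_lit 0x400060001000000010000000000000000000000000000000000000) := T_48 (nat_lit 197) (nat_lit 180) (nat_lit 5) (nat_lit 11) (nat_lit 7) L119105 (by decide +kernel)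
theorem L119107 : W_48 (nat_lit 4) (nat_lit 0x6000160009000580026800000000000000000000000000) (nat_lit 0x0) (nat_lit 0x400060001000000010000800040000000000000000000000000000) := T_48 (nat_lit 131) (nat_lit 114) (nat_lit 6) (nat_lit 11) (nat_lit 10) L119106 (by decide +kernel)
theorem L119108 : W_48 (nat_lit 5) (nat_lit 0x4000160009000580026800000000000000000000000000) (nat_lit 0x0) (nat_lit 0x4000e0003000000010000800040000000000000000000000000000) := T_48 (nat_lit 181) (nat_lit 199) (nat_lit 7) (nat_lit 11) (nat_lit 7) L119107 (by decide +kernel)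
theorem L119109 : W_48 (nat_lit 6) (nat_lit 0x160009000580026800000000000000000000000000) (nat_lit 0x0) (nat_lit 0x4000e0007000200010000800040000000000000000000000000000) := T_48 (nat_lit 182) (nat_lit 165) (nat_lit 7) (nat_lit 11) (nat_lit 6) L119108 (by decide +kernel)
theorem L119110 : W_48 (nat_lit 7) (nat_lit 0x120009000580026800000000000000000000000000) (nat_lit 0x0) (nat_lit 0x4000e0007800240010000800040000000000000000000000000000) := T_48 (nat_lit 162) (nat_lit 179) (nat_lit 7) (nat_lit 8) (nat_lit 6) L119109 (by decide +kernel)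
theorem L119111 : W_48 (nat_lit 8) (nat_lit 0x120009000580026000000000000000000000000000) (nat_lit 0x0) (nat_lit 0x4000e0007800240010000800041800000000000000000000000000) := T_48 (nat_lit 107) (nat_lit 108) (nat_lit 3) (nat_lit 5) (nat_lit 6) L119110 (by decide +kernel)
theorem L119112 : W_48 (nat_lit 9) (nat_lit 0x120009000580024000000000000000000000000000) (nat_lit 0x0) (nat_lit 0x4000e0007800240010000800043800100000000000000000000000) := T_48 (nat_lit 109) (nat_lit 92) (nat_lit 4) (nat_lit 8) (nat_lit 9) L119111 (by decide +kernel)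
theorem L119113 : W_48 (nat_lit 2) (nat_lit 0x320009000580024001000140000000000000000000) (nat_lit 0x0) (nat_lit 0x8000a000000000000000) := D_48 (nat_lit 79) (nat_lit 63) (nat_lit 61) (nat_lit 6) (nat_lit 11) (nat_lit 7) (nat_lit 4) (nat_lit 11) (nat_lit 7) (by decide +kernel)
theorem L119114 : W_48 (nat_lit 3) (nat_lit 0x320009000580024001000100000000000000000000) (nat_lit 0x0) (nat_lit 0x8000c000a000000000000000) := T_48 (nat_lit 78) (nat_lit 95) (nat_lit 4) (nat_lit 11) (nat_lit 8) L119113 (by decide +kernel)
theorem L119115 : W_48 (nat_lit 4) (nat_lit 0x320009000580024001000000000000000000000000) (nat_lit 0x0) (nat_lit 0x28001c000a000000000000000) := T_48 (nat_lit 80) (nat_lit 97) (nat_lit 6) (nat_lit 11) (nat_lit 8) L119114 (by decide +kernel)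
theorem L119116 : W_48 (nat_lit 5) (nat_lit 0x320009000580024000000000000000000000000000) (nat_lit 0x0) (nat_lit 0x100000000000038001c000a000000000000000) := T_48 (nat_lit 96) (nat_lit 148) (nat_lit 7) (nat_lit 11) (nat_lit 5) L119115 (by decide +kernel)
theorem L119117 : W_48 (nat_lit 6) (nat_lit 0x120009000580024000000000000000000000000000) (nat_lit 0x0) (nat_lit 0x40002000100000000000038001c000a000000000000000) := T_48 (nat_lit 165) (nat_lit 182) (nat_lit 7) (nat_lit 11) (nat_lit 6) L119116 (by decide +kernel)
theorem L119118 : W_48 (nat_lit 2) (nat_lit 0x160019000580026803000040000000000000000000) (nat_lit 0x0) (nat_lit 0x800000000000080002000000000000000) := D_48 (nat_lit 79) (nat_lit 131) (nat_lit 61) (nat_lit 7) (nat_lit 11) (nat_lit 4) (nat_lit 4) (nat_lit 11) (nat_lit 7) (by decide +kernel)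
theorem L119119 : W_48 (nat_lit 3) (nat_lit 0x160009000580026803000040000000000000000000) (nat_lit 0x0) (nat_lit 0x200010000800000000000080002000000000000000) := T_48 (nat_lit 148) (nat_lit 165) (nat_lit 7) (nat_lit 11) (nat_lit 5) L119118 (by decide +kernel)
theorem L119120 : W_48 (nat_lit 4) (nat_lit 0x160009000580026803000000000000000000000000) (nat_lit 0x0) (nat_lit 0x2000100008000000008000c0002000000000000000) := T_48 (nat_lit 78) (nat_lit 95) (nat_lit 4) (nat_lit 11) (nat_lit 8) L119119 (by decide +kernel)
theorem L119121 : W_48 (nat_lit 5) (nat_lit 0x160009000580026802000000000000000000000000) (nat_lit 0x0) (nat_lit 0x2000100008000000018001c0002000000000000000) := T_48 (nat_lit 96) (nat_lit 80) (nat_lit 6) (nat_lit 11) (nat_lit 8) L119120 (by decide +kernel)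
theorem L119122 : W_48 (nat_lit 6) (nat_lit 0x120009000580026802000000000000000000000000) (nat_lit 0x0) (nat_lit 0x8002400100008000000018001c0002000000000000000) := T_48 (nat_lit 162) (nat_lit 179) (nat_lit 7) (nat_lit 8) (nat_lit 6) L119121 (by decide +kernel)
theorem L119123 : W_48 (nat_lit 7) (nat_lit 0x120009000580026800000000000000000000000000) (nat_lit 0x0) (nat_lit 0x8002400100008000400038001c0002000000000000000) := T_48 (nat_lit 97) (nat_lit 114) (nat_lit 6) (nat_lit 11) (nat_lit 9) L119122 (by decide +kernel)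
theorem L119124 : W_48 (nat_lit 8) (nat_lit 0x120009000580026000000000000000000000000000) (nat_lit 0x0) (nat_lit 0x8002400100008000418038001c0002000000000000000) := T_48 (nat_lit 107) (nat_lit 108) (nat_lit 3) (nat_lit 5) (nat_lit 6) L119123 (by decide +kernel)
theorem L119125 : W_48 (nat_lit 9) (nat_lit 0x120009000580024000000000000000000000000000) (nat_lit 0x0) (nat_lit 0x8002400100008000438039001c0002000000000000000) := T_48 (nat_lit 109) (nat_lit 92) (nat_lit 4) (nat_lit 8) (nat_lit 9) L119124 (by decide +kernel)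
theorem L119126 : W_48 (nat_lit 2) (nat_lit 0xa0002000160009000580066800000000000000000000000000) (nat_lit 0x0) (nat_lit 0x1400040000000000000000000000000000000000000000000000000) := D_48 (nat_lit 198) (nat_lit 214) (nat_lit 216) (nat_lit 5) (nat_lit 11) (nat_lit 8) (nat_lit 7) (nat_lit 11) (nat_lit 8) (by decide +kernel)
theorem L119127 : W_48 (nat_lit 3) (nat_lit 0x20002000160009000580066800000000000000000000000000) (nat_lit 0x0) (nat_lit 0x14000c0004000000000000000000000000000000000000000000000) := T_48 (nat_lit 199) (nat_lit 182) (nat_lit 7) (nat_lit 11) (nat_lit 7) L119126 (by decide +kernel)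
theorem L119128 : W_48 (nat_lit 4) (nat_lit 0x2000160009000580066800000000000000000000000000) (nat_lit 0x0) (nat_lit 0x14000e0005000000000000000000000000000000000000000000000) := T_48 (nat_lit 197) (nat_lit 180) (nat_lit 5) (nat_lit 11) (nat_lit 7) L119127 (by decide +kernel)
theorem L119129 : W_48 (nat_lit 5) (nat_lit 0x160009000580066800000000000000000000000000) (nat_lit 0x0) (nat_lit 0x14000e0007000000000000800000000000000000000000000000000) := T_48 (nat_lit 181) (nat_lit 131) (nat_lit 6) (nat_lit 11) (nat_lit 10) L119128 (by decide +kernel)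
theorem L119130 : W_48 (nat_lit 6) (nat_lit 0x160009000580026800000000000000000000000000) (nat_lit 0x0) (nat_lit 0x14000e0007000000000000800040002000000000000000000000000) := T_48 (nat_lit 114) (nat_lit 97) (nat_lit 6) (nat_lit 11) (nat_lit 9) L119129 (by decide +kernel)
theorem L119131 : W_48 (nat_lit 7) (nat_lit 0x160009000580026000000000000000000000000000) (nat_lit 0x0) (nat_lit 0x14000e0007000000000000800041802000000000000000000000000) := T_48 (nat_lit 107) (nat_lit 108) (nat_lit 3) (nat_lit 5) (nat_lit 6) L119130 (by decide +kernel)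
theorem L119132 : W_48 (nat_lit 8) (nat_lit 0x160009000580024000000000000000000000000000) (nat_lit 0x0) (nat_lit 0x14000e0007000000000000800043802100000000000000000000000) := T_48 (nat_lit 109) (nat_lit 92) (nat_lit 4) (nat_lit 8) (nat_lit 9) L119131 (by decide +kernel)
theorem L119133 : W_48 (nat_lit 9) (nat_lit 0x120009000580024000000000000000000000000000) (nat_lit 0x0) (nat_lit 0x14000e0007800040000000800043802100000000000000000000000) := T_48 (nat_lit 162) (nat_lit 179) (nat_lit 7) (nat_lit 8) (nat_lit 6) L119132 (by decide +kernel)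
theorem L119134 : W_48 (nat_lit 10) (nat_lit 0x120001000580024000000000000000000000000000) (nat_lit 0x0) (nat_lit 0x14000e00078002400180008000438039001c000e000000000000000) := Q_48 (nat_lit 147) (C_48 L119052 (C_48 L119099 (C_48 L119104 (C_48 L119112 (C_48 L119117 (C_48 L119125 (C_48 L119133 N_48))))))) (by decide +kernel)
theorem L119135 : W_48 (nat_lit 2) (nat_lit 0x20001e0009000580026800000000000000000000000000) (nat_lit 0x0) (nat_lit 0x800040002000000000000000000000000) := D_48 (nat_lit 114) (nat_lit 97) (nat_lit 131) (nat_lit 6) (nat_lit 11) (nat_lit 9) (nat_lit 6) (nat_lit 11) (nat_lit 10) (by decide +kernel)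
theorem L119136 : W_48 (nat_lit 3) (nat_lit 0x20001e0001000580026800000000000000000000000000) (nat_lit 0x0) (nat_lit 0x18000800040002000000000000000000000000) := T_48 (nat_lit 147) (nat_lit 148) (nat_lit 2) (nat_lit 8) (nat_lit 9) L119135 (by decide +kernel)
theorem L119137 : W_48 (nat_lit 4) (nat_lit 0x1e0001000580026800000000000000000000000000) (nat_lit 0x0) (nat_lit 0x6000000018000800040002000000000000000000000000) := T_48 (nat_lit 181) (nat_lit 182) (nat_lit 3) (nat_lit 8) (nat_lit 9) L119136 (by decide +kernel)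
theorem L119138 : W_48 (nat_lit 5) (nat_lit 0x1e0001000580026000000000000000000000000000) (nat_lit 0x0) (nat_lit 0x6000000018000800041802000000000000000000000000) := T_48 (nat_lit 107) (nat_lit 108) (nat_lit 3) (nat_lit 5) (nat_lit 6) L119137 (by decide +kernel)
theorem L119139 : W_48 (nat_lit 6) (nat_lit 0x1e0001000580024000000000000000000000000000) (nat_lit 0x0) (nat_lit 0x6000000018000800043802100000000000000000000000) := T_48 (nat_lit 109) (nat_lit 92) (nat_lit 4) (nat_lit 8) (nat_lit 9) L119138 (by decide +kernel)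
theorem L119140 : W_48 (nat_lit 7) (nat_lit 0x160001000580024000000000000000000000000000) (nat_lit 0x0) (nat_lit 0x6000080018800800043802100000000000000000000000) := T_48 (nat_lit 163) (nat_lit 143) (nat_lit 0) (nat_lit 11) (nat_lit 9) L119139 (by decide +kernel)
theorem L119141 : W_48 (nat_lit 8) (nat_lit 0x120001000580024000000000000000000000000000) (nat_lit 0x0) (nat_lit 0x68000c0018800800043802100000000000000000000000) := T_48 (nat_lit 162) (nat_lit 179) (nat_lit 7) (nat_lit 8) (nat_lit 6) L119140 (by decide +kernel)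
theorem L119142 : W_48 (nat_lit 3) (nat_lit 0x20001e0001000580026800000000000000000000000000) (nat_lit 0x0) (nat_lit 0x1000000008000800040002000000000000000000000000) := T_48 (nat_lit 147) (nat_lit 180) (nat_lit 5) (nat_lit 11) (nat_lit 6) L119135 (by decide +kernel)
theorem L119143 : W_48 (nat_lit 4) (nat_lit 0x1e0001000580026800000000000000000000000000) (nat_lit 0x0) (nat_lit 0x7000000008000800040002000000000000000000000000) := T_48 (nat_lit 181) (nat_lit 182) (nat_lit 3) (nat_lit 8) (nat_lit 9) L119142 (by decide +kernel)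
theorem L119144 : W_48 (nat_lit 5) (nat_lit 0x160001000580026800000000000000000000000000) (nat_lit 0x0) (nat_lit 0x7000080008800800040002000000000000000000000000) := T_48 (nat_lit 163) (nat_lit 143) (nat_lit 0) (nat_lit 11) (nat_lit 9) L119143 (by decide +kernel)
theorem L119145 : W_48 (nat_lit 6) (nat_lit 0x120001000580026800000000000000000000000000) (nat_lit 0x0) (nat_lit 0x78000c0008800800040002000000000000000000000000) := T_48 (nat_lit 162) (nat_lit 179) (nat_lit 7) (nat_lit 8) (nat_lit 6) L119144 (by decide +kernel)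
theorem L119146 : W_48 (nat_lit 7) (nat_lit 0x120001000580026000000000000000000000000000) (nat_lit 0x0) (nat_lit 0x78000c0008800800041802000000000000000000000000) := T_48 (nat_lit 107) (nat_lit 108) (nat_lit 3) (nat_lit 5) (nat_lit 6) L119145 (by decide +kernel)
theorem L119147 : W_48 (nat_lit 8) (nat_lit 0x120001000580024000000000000000000000000000) (nat_lit 0x0) (nat_lit 0x78000c0008800800043802100000000000000000000000) := T_48 (nat_lit 109) (nat_lit 92) (nat_lit 4) (nat_lit 8) (nat_lit 9) L119146 (by decide +kernel)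
theorem L119148 : W_48 (nat_lit 2) (nat_lit 0x40003e0001000580026800000000000000000000000000) (nat_lit 0x0) (nat_lit 0x30000800000000000000000000000000000000) := D_48 (nat_lit 148) (nat_lit 149) (nat_lit 131) (nat_lit 2) (nat_lit 9) (nat_lit 9) (nat_lit 4) (nat_lit 12) (nat_lit 10) (by decide +kernel)
theorem L119149 : W_48 (nat_lit 3) (nat_lit 0x40001e0001000580026800000000000000000000000000) (nat_lit 0x0) (nat_lit 0x8000200030000800000000000000000000000000000000) := T_48 (nat_lit 165) (nat_lit 183) (nat_lit 3) (nat_lit 9) (nat_lit 9) L119148 (by decide +kernel)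
theorem L119150 : W_48 (nat_lit 4) (nat_lit 0x1e0001000580026800000000000000000000000000) (nat_lit 0x0) (nat_lit 0xe000200030000800000000000000000000000000000000) := T_48 (nat_lit 182) (nat_lit 181) (nat_lit 3) (nat_lit 8) (nat_lit 9) L119149 (by decide +kernel)
theorem L119151 : W_48 (nat_lit 5) (nat_lit 0x1e0001000580026000000000000000000000000000) (nat_lit 0x0) (nat_lit 0xe000200030000800001800000000000000000000000000) := T_48 (nat_lit 107) (nat_lit 108) (nat_lit 3) (nat_lit 5) (nat_lit 6) L119150 (by decide +kernel)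
theorem L119152 : W_48 (nat_lit 6) (nat_lit 0x1e0001000580024000000000000000000000000000) (nat_lit 0x0) (nat_lit 0xe000200030000800003800100000000000000000000000) := T_48 (nat_lit 109) (nat_lit 92) (nat_lit 4) (nat_lit 8) (nat_lit 9) L119151 (by decide +kernel)
theorem L119153 : W_48 (nat_lit 7) (nat_lit 0x160001000580024000000000000000000000000000) (nat_lit 0x0) (nat_lit 0xe000280030800800003800100000000000000000000000) := T_48 (nat_lit 163) (nat_lit 143) (nat_lit 0) (nat_lit 11) (nat_lit 9) L119152 (by decide +kernel)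
theorem L119154 : W_48 (nat_lit 8) (nat_lit 0x120001000580024000000000000000000000000000) (nat_lit 0x0) (nat_lit 0xe8002c0030800800003800100000000000000000000000) := T_48 (nat_lit 162) (nat_lit 179) (nat_lit 7) (nat_lit 8) (nat_lit 6) L119153 (by decide +kernel)
theorem L119155 : W_48 (nat_lit 11) (nat_lit 0x20001000580024000000000000000000000000000) (nat_lit 0x0) (nat_lit 0x14000e000f8003c003c8008000438039001c000e000000000000000) := Q_48 (nat_lit 164) (C_48 L119091 (C_48 L119092 (C_48 L119134 (C_48 L119141 (C_48 L119147 (C_48 L119154 N_48)))))) (by decide +kernel)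
theorem L119156 : W_48 (nat_lit 2) (nat_lit 0x20001000580024001600000000000000000000000) (nat_lit 0x0) (nat_lit 0x42000800000000000000000000000) := D_48 (nat_lit 95) (nat_lit 114) (nat_lit 109) (nat_lit 3) (nat_lit 8) (nat_lit 5) (nat_lit 1) (nat_lit 11) (nat_lit 5) (by decide +kernel)
theorem L119157 : W_48 (nat_lit 3) (nat_lit 0x20001000580024001400000000000000000000000) (nat_lit 0x0) (nat_lit 0x42000a00020000000000000000000) := T_48 (nat_lit 93) (nat_lit 77) (nat_lit 6) (nat_lit 8) (nat_lit 8) L119156 (by decide +kernel)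
theorem L119158 : W_48 (nat_lit 4) (nat_lit 0x20001000580024001000000000000000000000000) (nat_lit 0x0) (nat_lit 0x4a000e00020000000000000000000) := T_48 (nat_lit 94) (nat_lit 111) (nat_lit 6) (nat_lit 8) (nat_lit 9) L119157 (by decide +kernel)
theorem L119159 : W_48 (nat_lit 2) (nat_lit 0x2001900058002c001000080000000000000000000) (nat_lit 0x0) (nat_lit 0x2000100008000000000000000) := D_48 (nat_lit 80) (nat_lit 63) (nat_lit 97) (nat_lit 6) (nat_lit 11) (nat_lit 7) (nat_lit 6) (nat_lit 11) (nat_lit 8) (by decide +kernel)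
theorem L119160 : W_48 (nat_lit 3) (nat_lit 0x2001900058002c001000000000000000000000000) (nat_lit 0x0) (nat_lit 0x800000002000180008000000000000000) := T_48 (nat_lit 79) (nat_lit 131) (nat_lit 7) (nat_lit 11) (nat_lit 4) L119159 (by decide +kernel)
theorem L119161 : W_48 (nat_lit 4) (nat_lit 0x2000900058002c001000000000000000000000000) (nat_lit 0x0) (nat_lit 0x200010000800000002000180008000000000000000) := T_48 (nat_lit 148) (nat_lit 165) (nat_lit 7) (nat_lit 11) (nat_lit 5) L119160 (by decide +kernel)
theorem L119162 : W_48 (nat_lit 5) (nat_lit 0x20009000580024001000000000000000000000000) (nat_lit 0x0) (nat_lit 0x200010000800008002400180008000000000000000) := T_48 (nat_lit 111) (nat_lit 94) (nat_lit 6) (nat_lit 8) (nat_lit 9) L119161 (by decide +kernel)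
theorem L119163 : W_48 (nat_lit 6) (nat_lit 0x20001000580024001000000000000000000000000) (nat_lit 0x0) (nat_lit 0x58003c001c800800048002400180008000000000000000) := Q_48 (nat_lit 147) (C_48 L119069 (C_48 L119162 (C_48 L118991 N_48))) (by decide +kernel)
theorem L119164 : W_48 (nat_lit 10) (nat_lit 0x20001000580024000000000000000000000000000) (nat_lit 0x0) (nat_lit 0x58003c001c80080004a003e001e000e000700018000000) := Q_48 (nat_lit 96) (C_48 L119088 (C_48 L119158 (C_48 L119163 (C_48 L119038 N_48)))) (by decide +kernel)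
theorem L119165 : W_48 (nat_lit 15) (nat_lit 0x20001000580020000000000000000000000000000) (nat_lit 0x0) (nat_lit 0x14000e000f8003c007c8038001cf80ff007f803fc00f80078000400) := Q_48 (nat_lit 110) (C_48 L118892 (C_48 L119014 (C_48 L119017 (C_48 L119031 (C_48 L119047 (C_48 L119155 (C_48 L119164 N_48))))))) (by decide +kernel)
theorem L119166 : W_48 (nat_lit 2) (nat_lit 0x800060001000580020000000000000000000000000000) (nat_lit 0x0) (nat_lit 0x200010000400000000000000000000000000000000000000000000) := D_48 (nat_lit 196) (nat_lit 213) (nat_lit 178) (nat_lit 4) (nat_lit 9) (nat_lit 12) (nat_lit 7) (nat_lit 8) (nat_lit 7) (by decide +kernel)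
theorem L119167 : W_48 (nat_lit 3) (nat_lit 0x60001000580020000000000000000000000000000) (nat_lit 0x0) (nat_lit 0x200010000c00000000000000004000000000000000000000000000) := T_48 (nat_lit 179) (nat_lit 110) (nat_lit 7) (nat_lit 8) (nat_lit 6) L119166 (by decide +kernel)
theorem L119168 : W_48 (nat_lit 8) (nat_lit 0x160001000580020000000000000000000000000000) (nat_lit 0x0) (nat_lit 0xe800280030800800007800100000000000000000000000) := T_48 (nat_lit 110) (nat_lit 179) (nat_lit 7) (nat_lit 8) (nat_lit 6) L119153 (by decide +kernel)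
theorem L119169 : W_48 (nat_lit 2) (nat_lit 0x1e0001000580020000000000000000000000000000) (nat_lit 0x0) (nat_lit 0x1000000018000000000000000000000000000000000000) := D_48 (nat_lit 147) (nat_lit 148) (nat_lit 180) (nat_lit 2) (nat_lit 8) (nat_lit 9) (nat_lit 5) (nat_lit 11) (nat_lit 6) (by decide +kernel)
theorem L119170 : W_48 (nat_lit 3) (nat_lit 0x160001000580020000000000000000000000000000) (nat_lit 0x0) (nat_lit 0x1000080018800000000000000000000000000000000000) := T_48 (nat_lit 163) (nat_lit 143) (nat_lit 0) (nat_lit 11) (nat_lit 9) L119169 (by decide +kernel)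
theorem L119171 : W_48 (nat_lit 2) (nat_lit 0x160009000580020000000000000000000000000000) (nat_lit 0x0) (nat_lit 0x1000080010000000000000000000000000000000000000) := D_48 (nat_lit 163) (nat_lit 148) (nat_lit 180) (nat_lit 2) (nat_lit 8) (nat_lit 9) (nat_lit 5) (nat_lit 11) (nat_lit 6) (by decide +kernel)
theorem L119172 : W_48 (nat_lit 9) (nat_lit 0x160009000580020000000000000000000000000000) (nat_lit 0x0) (nat_lit 0x14000e0007800000000000800047802100000000000000000000000) := T_48 (nat_lit 110) (nat_lit 179) (nat_lit 7) (nat_lit 8) (nat_lit 6) L119132 (by decide +kernel)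
theorem L119173 : W_48 (nat_lit 2) (nat_lit 0x1e0009000580060000000000000000000000000000) (nat_lit 0x0) (nat_lit 0x6000000000000800000000000000000000000000000000) := D_48 (nat_lit 181) (nat_lit 131) (nat_lit 182) (nat_lit 6) (nat_lit 11) (nat_lit 10) (nat_lit 3) (nat_lit 8) (nat_lit 9) (by decide +kernel)
theorem L119174 : W_48 (nat_lit 3) (nat_lit 0x160009000580060000000000000000000000000000) (nat_lit 0x0) (nat_lit 0x6000080010000800000000000000000000000000000000) := T_48 (nat_lit 163) (nat_lit 148) (nat_lit 2) (nat_lit 8) (nat_lit 9) L119173 (by decide +kernel)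
theorem L119175 : W_48 (nat_lit 4) (nat_lit 0x160009000580020000000000000000000000000000) (nat_lit 0x0) (nat_lit 0x6000080010000800040002000000000000000000000000) := T_48 (nat_lit 114) (nat_lit 97) (nat_lit 6) (nat_lit 11) (nat_lit 9) L119174 (by decide +kernel)
theorem L119176 : W_48 (nat_lit 10) (nat_lit 0x160001000580020000000000000000000000000000) (nat_lit 0x0) (nat_lit 0x14000e0007800080018000800047802100000000000000000000000) := Q_48 (nat_lit 147) (C_48 L119171 (C_48 L119172 (C_48 L119175 N_48))) (by decide +kernel)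
theorem L119177 : W_48 (nat_lit 8) (nat_lit 0x160009000580020000000000000000000000000000) (nat_lit 0x0) (nat_lit 0x68002000100008000440038000c0006000000000000000) := T_48 (nat_lit 110) (nat_lit 179) (nat_lit 7) (nat_lit 8) (nat_lit 6) L119098 (by decide +kernel)
theorem L119178 : W_48 (nat_lit 2) (nat_lit 0x360009000580020001000000000000000000000000) (nat_lit 0x0) (nat_lit 0x40002000100000000000000000000) := D_48 (nat_lit 97) (nat_lit 80) (nat_lit 114) (nat_lit 6) (nat_lit 11) (nat_lit 8) (nat_lit 6) (nat_lit 11) (nat_lit 9) (by decide +kernel)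
theorem L119179 : W_48 (nat_lit 3) (nat_lit 0x360009000580020000000000000000000000000000) (nat_lit 0x0) (nat_lit 0x10000000040003000100000000000000000000) := T_48 (nat_lit 96) (nat_lit 148) (nat_lit 7) (nat_lit 11) (nat_lit 5) L119178 (by decide +kernel)
theorem L119180 : W_48 (nat_lit 4) (nat_lit 0x160009000580020000000000000000000000000000) (nat_lit 0x0) (nat_lit 0x4000200010000000040003000100000000000000000000) := T_48 (nat_lit 165) (nat_lit 182) (nat_lit 7) (nat_lit 11) (nat_lit 6) L119179 (by decide +kernel)
theorem L119181 : W_48 (nat_lit 7) (nat_lit 0x160009000580026000000000000000000000000000) (nat_lit 0x0) (nat_lit 0x4000e0007000200010000800041800000000000000000000000000) := T_48 (nat_lit 107) (nat_lit 108) (nat_lit 3) (nat_lit 5) (nat_lit 6) L119109 (by decide +kernel)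
theorem L119182 : W_48 (nat_lit 8) (nat_lit 0x160009000580024000000000000000000000000000) (nat_lit 0x0) (nat_lit 0x4000e0007000200010000800043800100000000000000000000000) := T_48 (nat_lit 109) (nat_lit 92) (nat_lit 4) (nat_lit 8) (nat_lit 9) L119181 (by decide +kernel)
theorem L119183 : W_48 (nat_lit 9) (nat_lit 0x160009000580020000000000000000000000000000) (nat_lit 0x0) (nat_lit 0x4000e0007800200010000800047800100000000000000000000000) := T_48 (nat_lit 110) (nat_lit 179) (nat_lit 7) (nat_lit 8) (nat_lit 6) L119182 (by decide +kernel)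
theorem L119184 : W_48 (nat_lit 2) (nat_lit 0x3600090005800240031000e0000000000000000000) (nat_lit 0x0) (nat_lit 0x600008000000000000000000) := D_48 (nat_lit 93) (nat_lit 75) (nat_lit 94) (nat_lit 4) (nat_lit 8) (nat_lit 8) (nat_lit 6) (nat_lit 8) (nat_lit 8) (by decide +kernel)
theorem L119185 : W_48 (nat_lit 3) (nat_lit 0x3600090005800240031000c0000000000000000000) (nat_lit 0x0) (nat_lit 0x600038000000000000000000) := T_48 (nat_lit 77) (nat_lit 76) (nat_lit 3) (nat_lit 8) (nat_lit 4) L119184 (by decide +kernel)
theorem L119186 : W_48 (nat_lit 4) (nat_lit 0x360009000580024003100040000000000000000000) (nat_lit 0x0) (nat_lit 0x6000b8002000000000000000) := T_48 (nat_lit 79) (nat_lit 61) (nat_lit 4) (nat_lit 11) (nat_lit 7) L119185 (by decide +kernel)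
theorem L119187 : W_48 (nat_lit 5) (nat_lit 0x360009000580024003000040000000000000000000) (nat_lit 0x0) (nat_lit 0x20007000b8002000000000000000) := T_48 (nat_lit 92) (nat_lit 109) (nat_lit 4) (nat_lit 8) (nat_lit 9) L119186 (by decide +kernel)
theorem L119188 : W_48 (nat_lit 6) (nat_lit 0x360009000580020003000040000000000000000000) (nat_lit 0x0) (nat_lit 0x8000000000000000060007000b8002000000000000000) := T_48 (nat_lit 110) (nat_lit 179) (nat_lit 7) (nat_lit 8) (nat_lit 6) L119187 (by decide +kernel)
theorem L119189 : W_48 (nat_lit 7) (nat_lit 0x360009000580020003000000000000000000000000) (nat_lit 0x0) (nat_lit 0x800000000000000006000f000f8002000000000000000) := T_48 (nat_lit 78) (nat_lit 95) (nat_lit 4) (nat_lit 11) (nat_lit 8) L119188 (by decide +kernel)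
theorem L119190 : W_48 (nat_lit 8) (nat_lit 0x360009000580020001000000000000000000000000) (nat_lit 0x0) (nat_lit 0x800000000000000006002f001f8002000000000000000) := T_48 (nat_lit 97) (nat_lit 80) (nat_lit 6) (nat_lit 11) (nat_lit 8) L119189 (by decide +kernel)
theorem L119191 : W_48 (nat_lit 9) (nat_lit 0x360009000580020000000000000000000000000000) (nat_lit 0x0) (nat_lit 0x800000010000000006003f001f8002000000000000000) := T_48 (nat_lit 96) (nat_lit 148) (nat_lit 7) (nat_lit 11) (nat_lit 5) L119190 (by decide +kernel)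
theorem L119192 : W_48 (nat_lit 10) (nat_lit 0x160009000580020000000000000000000000000000) (nat_lit 0x0) (nat_lit 0x4800200010000000006003f001f8002000000000000000) := T_48 (nat_lit 165) (nat_lit 182) (nat_lit 7) (nat_lit 11) (nat_lit 6) L119191 (by decide +kernel)
theorem L119193 : W_48 (nat_lit 6) (nat_lit 0x160009000580026800000000000000000000000000) (nat_lit 0x0) (nat_lit 0x2000100008000400038001c0002000000000000000) := T_48 (nat_lit 97) (nat_lit 114) (nat_lit 6) (nat_lit 11) (nat_lit 9) L119121 (by decide +kernel)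
theorem L119194 : W_48 (nat_lit 7) (nat_lit 0x160009000580026000000000000000000000000000) (nat_lit 0x0) (nat_lit 0x2000100008000418038001c0002000000000000000) := T_48 (nat_lit 107) (nat_lit 108) (nat_lit 3) (nat_lit 5) (nat_lit 6) L119193 (by decide +kernel)
theorem L119195 : W_48 (nat_lit 8) (nat_lit 0x160009000580024000000000000000000000000000) (nat_lit 0x0) (nat_lit 0x2000100008000438039001c0002000000000000000) := T_48 (nat_lit 109) (nat_lit 92) (nat_lit 4) (nat_lit 8) (nat_lit 9) L119194 (by decide +kernel)
theorem L119196 : W_48 (nat_lit 9) (nat_lit 0x160009000580020000000000000000000000000000) (nat_lit 0x0) (nat_lit 0x8002000100008000478039001c0002000000000000000) := T_48 (nat_lit 110) (nat_lit 179) (nat_lit 7) (nat_lit 8) (nat_lit 6) L119195 (by decide +kernel)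
theorem L119197 : W_48 (nat_lit 11) (nat_lit 0x160001000580020000000000000000000000000000) (nat_lit 0x0) (nat_lit 0x14000e0007800200018000800047803f001f8006000000000000000) := Q_48 (nat_lit 147) (C_48 L119172 (C_48 L119177 (C_48 L119180 (C_48 L119183 (C_48 L119192 (C_48 L119196 N_48)))))) (by decide +kernel)
theorem L119198 : W_48 (nat_lit 6) (nat_lit 0x160001000580026000000000000000000000000000) (nat_lit 0x0) (nat_lit 0x7000080008800800041802000000000000000000000000) := T_48 (nat_lit 107) (nat_lit 108) (nat_lit 3) (nat_lit 5) (nat_lit 6) L119144 (by decide +kernel)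
theorem L119199 : W_48 (nat_lit 7) (nat_lit 0x160001000580024000000000000000000000000000) (nat_lit 0x0) (nat_lit 0x7000080008800800043802100000000000000000000000) := T_48 (nat_lit 109) (nat_lit 92) (nat_lit 4) (nat_lit 8) (nat_lit 9) L119198 (by decide +kernel)
theorem L119200 : W_48 (nat_lit 8) (nat_lit 0x160001000580020000000000000000000000000000) (nat_lit 0x0) (nat_lit 0x7800080008800800047802100000000000000000000000) := T_48 (nat_lit 110) (nat_lit 179) (nat_lit 7) (nat_lit 8) (nat_lit 6) L119199 (by decide +kernel)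
theorem L119201 : W_48 (nat_lit 12) (nat_lit 0x60001000580020000000000000000000000000000) (nat_lit 0x0) (nat_lit 0x14000e000f800380038800800047803f001f8006000000000000000) := Q_48 (nat_lit 164) (C_48 L119168 (C_48 L119170 (C_48 L119176 (C_48 L119197 (C_48 L119200 N_48))))) (by decide +kernel)
theorem L119202 : W_48 (nat_lit 2) (nat_lit 0x3e0009000580060000000000000000000000000000) (nat_lit 0x0) (nat_lit 0xe00000000000000000000000000000000000000000000) := D_48 (nat_lit 178) (nat_lit 177) (nat_lit 179) (nat_lit 1) (nat_lit 11) (nat_lit 9) (nat_lit 1) (nat_lit 12) (nat_lit 9) (by decide +kernel)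
theorem L119203 : W_48 (nat_lit 3) (nat_lit 0x360009000580060000000000000000000000000000) (nat_lit 0x0) (nat_lit 0x1e00080000000000000000000000000000000000000000) := T_48 (nat_lit 163) (nat_lit 180) (nat_lit 5) (nat_lit 11) (nat_lit 6) L119202 (by decide +kernel)
theorem L119204 : W_48 (nat_lit 4) (nat_lit 0x360009000580020000000000000000000000000000) (nat_lit 0x0) (nat_lit 0x1e00080000000000040002000000000000000000000000) := T_48 (nat_lit 114) (nat_lit 97) (nat_lit 6) (nat_lit 11) (nat_lit 9) L119203 (by decide +kernel)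
theorem L119205 : W_48 (nat_lit 5) (nat_lit 0x160009000580020000000000000000000000000000) (nat_lit 0x0) (nat_lit 0x5e00280000000000040002000000000000000000000000) := T_48 (nat_lit 165) (nat_lit 182) (nat_lit 7) (nat_lit 11) (nat_lit 6) L119204 (by decide +kernel)
theorem L119206 : W_48 (nat_lit 6) (nat_lit 0x160001000580020000000000000000000000000000) (nat_lit 0x0) (nat_lit 0x7e00280018000800040003000100000000000000000000) := Q_48 (nat_lit 147) (C_48 L119180 (C_48 L119175 (C_48 L119205 (C_48 L119171 N_48)))) (by decide +kernel)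
theorem L119207 : W_48 (nat_lit 2) (nat_lit 0x800060002000360009000580060000000000000000000000000000) (nat_lit 0x0) (nat_lit 0x20001000080000000000000000000000000000000000000000000000000) := D_48 (nat_lit 216) (nat_lit 199) (nat_lit 233) (nat_lit 7) (nat_lit 11) (nat_lit 8) (nat_lit 7) (nat_lit 11) (nat_lit 9) (by decide +kernel)
theorem L119208 : W_48 (nat_lit 3) (nat_lit 0x60002000360009000580060000000000000000000000000000) (nat_lit 0x0) (nat_lit 0x20001800080000000000010000000000000000000000000000000000000) := T_48 (nat_lit 215) (nat_lit 148) (nat_lit 6) (nat_lit 11) (nat_lit 12) L119207 (by decide +kernel)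
theorem L119209 : W_48 (nat_lit 4) (nat_lit 0x20002000360009000580060000000000000000000000000000) (nat_lit 0x0) (nat_lit 0x20001c000c0000000000010000000000000000000000000000000000000) := T_48 (nat_lit 198) (nat_lit 214) (nat_lit 5) (nat_lit 11) (nat_lit 8) L119208 (by decide +kernel)
theorem L119210 : W_48 (nat_lit 5) (nat_lit 0x2000360009000580060000000000000000000000000000) (nat_lit 0x0) (nat_lit 0x20001c000e0001000000010000000000000000000000000000000000000) := T_48 (nat_lit 197) (nat_lit 180) (nat_lit 5) (nat_lit 11) (nat_lit 7) L119209 (by decide +kernel)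
theorem L119211 : W_48 (nat_lit 6) (nat_lit 0x360009000580060000000000000000000000000000) (nat_lit 0x0) (nat_lit 0x20001c000e0003000000010000800000000000000000000000000000000) := T_48 (nat_lit 181) (nat_lit 131) (nat_lit 6) (nat_lit 11) (nat_lit 10) L119210 (by decide +kernel)
theorem L119212 : W_48 (nat_lit 7) (nat_lit 0x160009000580060000000000000000000000000000) (nat_lit 0x0) (nat_lit 0x20001c000e0007000200010000800000000000000000000000000000000) := T_48 (nat_lit 165) (nat_lit 182) (nat_lit 7) (nat_lit 11) (nat_lit 6) L119211 (by decide +kernel)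
theorem L119213 : W_48 (nat_lit 8) (nat_lit 0x160009000580020000000000000000000000000000) (nat_lit 0x0) (nat_lit 0x20001c000e0007000200010000800040002000000000000000000000000) := T_48 (nat_lit 114) (nat_lit 97) (nat_lit 6) (nat_lit 11) (nat_lit 9) L119212 (by decide +kernel)
theorem L119214 : W_48 (nat_lit 2) (nat_lit 0x1800070002000360009000580060000000000000000000000000000) (nat_lit 0x0) (nat_lit 0x200000000c00000000000000000000000000000000000000000000) := D_48 (nat_lit 179) (nat_lit 213) (nat_lit 178) (nat_lit 4) (nat_lit 9) (nat_lit 12) (nat_lit 7) (nat_lit 8) (nat_lit 7) (by decide +kernel)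
theorem L119215 : W_48 (nat_lit 3) (nat_lit 0x1800060002000360009000580060000000000000000000000000000) (nat_lit 0x0) (nat_lit 0x200018000c00000000000000000000000000000000000000000000) := T_48 (nat_lit 196) (nat_lit 195) (nat_lit 3) (nat_lit 8) (nat_lit 11) L119214 (by decide +kernel)
theorem L119216 : W_48 (nat_lit 4) (nat_lit 0x1000060002000360009000580060000000000000000000000000000) (nat_lit 0x0) (nat_lit 0x20000a00018000c00000000000000000000000000000000000000000000) := T_48 (nat_lit 215) (nat_lit 233) (nat_lit 7) (nat_lit 11) (nat_lit 9) L119215 (by decide +kernel)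
theorem L119217 : W_48 (nat_lit 5) (nat_lit 0x60002000360009000580060000000000000000000000000000) (nat_lit 0x0) (nat_lit 0x20001a00098000c00000000000000000000000000000000000000000000) := T_48 (nat_lit 216) (nat_lit 199) (nat_lit 7) (nat_lit 11) (nat_lit 8) L119216 (by decide +kernel)
theorem L119218 : W_48 (nat_lit 6) (nat_lit 0x20002000360009000580060000000000000000000000000000) (nat_lit 0x0) (nat_lit 0x20001e000d8000c00000000000000000000000000000000000000000000) := T_48 (nat_lit 198) (nat_lit 214) (nat_lit 5) (nat_lit 11) (nat_lit 8) L119217 (by decide +kernel)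
theorem L119219 : W_48 (nat_lit 7) (nat_lit 0x2000360009000580060000000000000000000000000000) (nat_lit 0x0) (nat_lit 0x20001e000f8001c00000000000000000000000000000000000000000000) := T_48 (nat_lit 197) (nat_lit 180) (nat_lit 5) (nat_lit 11) (nat_lit 7) L119218 (by decide +kernel)
theorem L119220 : W_48 (nat_lit 8) (nat_lit 0x360009000580060000000000000000000000000000) (nat_lit 0x0) (nat_lit 0x20001e000f8003c00000000000800000000000000000000000000000000) := T_48 (nat_lit 181) (nat_lit 131) (nat_lit 6) (nat_lit 11) (nat_lit 10) L119219 (by decide +kernel)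
theorem L119221 : W_48 (nat_lit 9) (nat_lit 0x160009000580060000000000000000000000000000) (nat_lit 0x0) (nat_lit 0x20001e000f8007c00200000000800000000000000000000000000000000) := T_48 (nat_lit 165) (nat_lit 182) (nat_lit 7) (nat_lit 11) (nat_lit 6) L119220 (by decide +kernel)
theorem L119222 : W_48 (nat_lit 10) (nat_lit 0x160009000580020000000000000000000000000000) (nat_lit 0x0) (nat_lit 0x20001e000f8007c00200000000800040002000000000000000000000000) := T_48 (nat_lit 114) (nat_lit 97) (nat_lit 6) (nat_lit 11) (nat_lit 9) L119221 (by decide +kernel)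
theorem L119223 : W_48 (nat_lit 2) (nat_lit 0x6000160009000580020000000000000000000000000000) (nat_lit 0x0) (nat_lit 0x20001800000000000000000000000000000000000000000000) := D_48 (nat_lit 180) (nat_lit 179) (nat_lit 197) (nat_lit 0) (nat_lit 12) (nat_lit 10) (nat_lit 5) (nat_lit 11) (nat_lit 7) (by decide +kernel)
theorem L119224 : W_48 (nat_lit 3) (nat_lit 0x4000160009000580020000000000000000000000000000) (nat_lit 0x0) (nat_lit 0xa0003800000000000000000000000000000000000000000000) := T_48 (nat_lit 181) (nat_lit 199) (nat_lit 7) (nat_lit 11) (nat_lit 7) L119223 (by decide +kernel)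
theorem L119225 : W_48 (nat_lit 4) (nat_lit 0x160009000580020000000000000000000000000000) (nat_lit 0x0) (nat_lit 0xa0007800200000000000000000000000000000000000000000) := T_48 (nat_lit 182) (nat_lit 165) (nat_lit 7) (nat_lit 11) (nat_lit 6) L119224 (by decide +kernel)
theorem L119226 : W_48 (nat_lit 4) (nat_lit 0x1800060002000160009000580060000000000000000000000000000) (nat_lit 0x0) (nat_lit 0x200018000c00200010000000000000000000000000000000000000) := T_48 (nat_lit 165) (nat_lit 148) (nat_lit 6) (nat_lit 11) (nat_lit 12) L119215 (by decide +kernel)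
theorem L119227 : W_48 (nat_lit 5) (nat_lit 0x1000060002000160009000580060000000000000000000000000000) (nat_lit 0x0) (nat_lit 0x20000a00018000c00200010000000000000000000000000000000000000) := T_48 (nat_lit 215) (nat_lit 233) (nat_lit 7) (nat_lit 11) (nat_lit 9) L119226 (by decide +kernel)
theorem L119228 : W_48 (nat_lit 6) (nat_lit 0x60002000160009000580060000000000000000000000000000) (nat_lit 0x0) (nat_lit 0x20001a00098000c00200010000000000000000000000000000000000000) := T_48 (nat_lit 216) (nat_lit 199) (nat_lit 7) (nat_lit 11) (nat_lit 8) L119227 (by decide +kernel)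
theorem L119229 : W_48 (nat_lit 7) (nat_lit 0x20002000160009000580060000000000000000000000000000) (nat_lit 0x0) (nat_lit 0x20001e000d8000c00200010000000000000000000000000000000000000) := T_48 (nat_lit 198) (nat_lit 214) (nat_lit 5) (nat_lit 11) (nat_lit 8) L119228 (by decide +kernel)
theorem L119230 : W_48 (nat_lit 8) (nat_lit 0x2000160009000580060000000000000000000000000000) (nat_lit 0x0) (nat_lit 0x20001e000f8001c00200010000000000000000000000000000000000000) := T_48 (nat_lit 197) (nat_lit 180) (nat_lit 5) (nat_lit 11) (nat_lit 7) L119229 (by decide +kernel)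
theorem L119231 : W_48 (nat_lit 9) (nat_lit 0x160009000580060000000000000000000000000000) (nat_lit 0x0) (nat_lit 0x20001e000f8003c00200010000800000000000000000000000000000000) := T_48 (nat_lit 181) (nat_lit 131) (nat_lit 6) (nat_lit 11) (nat_lit 10) L119230 (by decide +kernel)
theorem L119232 : W_48 (nat_lit 10) (nat_lit 0x160009000580020000000000000000000000000000) (nat_lit 0x0) (nat_lit 0x20001e000f8003c00200010000800040002000000000000000000000000) := T_48 (nat_lit 114) (nat_lit 97) (nat_lit 6) (nat_lit 11) (nat_lit 9) L119231 (by decide +kernel)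
theorem L119233 : W_48 (nat_lit 2) (nat_lit 0x3000160009000580060000000000000000000000000000) (nat_lit 0x0) (nat_lit 0x80004800000000000000000000000000000000000000000000) := D_48 (nat_lit 182) (nat_lit 179) (nat_lit 199) (nat_lit 0) (nat_lit 12) (nat_lit 10) (nat_lit 7) (nat_lit 11) (nat_lit 7) (by decide +kernel)
theorem L119234 : W_48 (nat_lit 3) (nat_lit 0x2000160009000580060000000000000000000000000000) (nat_lit 0x0) (nat_lit 0xa0005800000000000000000000000000000000000000000000) := T_48 (nat_lit 180) (nat_lit 197) (nat_lit 5) (nat_lit 11) (nat_lit 7) L119233 (by decide +kernel)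
theorem L119235 : W_48 (nat_lit 4) (nat_lit 0x160009000580060000000000000000000000000000) (nat_lit 0x0) (nat_lit 0xa0007800000000000800000000000000000000000000000000) := T_48 (nat_lit 181) (nat_lit 131) (nat_lit 6) (nat_lit 11) (nat_lit 10) L119234 (by decide +kernel)
theorem L119236 : W_48 (nat_lit 5) (nat_lit 0x160009000580020000000000000000000000000000) (nat_lit 0x0) (nat_lit 0xa0007800000000000800040002000000000000000000000000) := T_48 (nat_lit 114) (nat_lit 97) (nat_lit 6) (nat_lit 11) (nat_lit 9) L119235 (by decide +kernel)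
theorem L119237 : W_48 (nat_lit 11) (nat_lit 0x160001000580020000000000000000000000000000) (nat_lit 0x0) (nat_lit 0x20001e000f8007c00200018000800040003000100000000000000000000) := Q_48 (nat_lit 147) (C_48 L119180 (C_48 L119213 (C_48 L119222 (C_48 L119225 (C_48 L119232 (C_48 L119236 N_48)))))) (by decide +kernel)
theorem L119238 : W_48 (nat_lit 2) (nat_lit 0x4001e0001000580020000000000000000000000000000) (nat_lit 0x0) (nat_lit 0x10000800200000000000000000000000000000000000000000) := D_48 (nat_lit 179) (nat_lit 165) (nat_lit 196) (nat_lit 1) (nat_lit 12) (nat_lit 9) (nat_lit 7) (nat_lit 8) (nat_lit 7) (by decide +kernel)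
theorem L119239 : W_48 (nat_lit 3) (nat_lit 0x1e0001000580020000000000000000000000000000) (nat_lit 0x0) (nat_lit 0x10000e00200000000000000000000000000000000000000000) := T_48 (nat_lit 178) (nat_lit 177) (nat_lit 1) (nat_lit 11) (nat_lit 9) L119238 (by decide +kernel)
theorem L119240 : W_48 (nat_lit 4) (nat_lit 0x160001000580020000000000000000000000000000) (nat_lit 0x0) (nat_lit 0x10000e00280000800000000000000000000000000000000000) := T_48 (nat_lit 163) (nat_lit 143) (nat_lit 0) (nat_lit 11) (nat_lit 9) L119239 (by decide +kernel)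
theorem L119241 : W_48 (nat_lit 12) (nat_lit 0x60001000580020000000000000000000000000000) (nat_lit 0x0) (nat_lit 0x20001e000f8007e00380018800800040003000100000000000000000000) := Q_48 (nat_lit 164) (C_48 L119170 (C_48 L119206 (C_48 L119237 (C_48 L119240 N_48)))) (by decide +kernel)
theorem L119242 : W_48 (nat_lit 2) (nat_lit 0x1e0009000580020000000000000000000000000000) (nat_lit 0x0) (nat_lit 0x6000200000000000000000000000000000000000000000) := D_48 (nat_lit 182) (nat_lit 165) (nat_lit 181) (nat_lit 7) (nat_lit 11) (nat_lit 6) (nat_lit 3) (nat_lit 8) (nat_lit 9) (by decide +kernel)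
theorem L119243 : W_48 (nat_lit 3) (nat_lit 0x160009000580020000000000000000000000000000) (nat_lit 0x0) (nat_lit 0x7000280000000000000000000000000000000000000000) := T_48 (nat_lit 163) (nat_lit 180) (nat_lit 5) (nat_lit 11) (nat_lit 6) L119242 (by decide +kernel)
theorem L119244 : W_48 (nat_lit 9) (nat_lit 0x160001000580020000000000000000000000000000) (nat_lit 0x0) (nat_lit 0x20001c000e0007000280018000800040003000100000000000000000000) := Q_48 (nat_lit 147) (C_48 L119213 (C_48 L119180 (C_48 L119243 (C_48 L119171 N_48)))) (by decide +kernel)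
theorem L119245 : W_48 (nat_lit 2) (nat_lit 0x4000160009000580060000000000000000000000000000) (nat_lit 0x0) (nat_lit 0x80002000000000000800000000000000000000000000000000) := D_48 (nat_lit 181) (nat_lit 131) (nat_lit 199) (nat_lit 6) (nat_lit 11) (nat_lit 10) (nat_lit 7) (nat_lit 11) (nat_lit 7) (by decide +kernel)
theorem L119246 : W_48 (nat_lit 3) (nat_lit 0x160009000580060000000000000000000000000000) (nat_lit 0x0) (nat_lit 0x80006000200000000800000000000000000000000000000000) := T_48 (nat_lit 182) (nat_lit 165) (nat_lit 7) (nat_lit 11) (nat_lit 6) L119245 (by decide +kernel)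
theorem L119247 : W_48 (nat_lit 4) (nat_lit 0x160009000580020000000000000000000000000000) (nat_lit 0x0) (nat_lit 0x80006000200000000800040002000000000000000000000000) := T_48 (nat_lit 114) (nat_lit 97) (nat_lit 6) (nat_lit 11) (nat_lit 9) L119246 (by decide +kernel)
theorem L119248 : W_48 (nat_lit 2) (nat_lit 0x20006000160009000d80020000000000000000000000000000) (nat_lit 0x0) (nat_lit 0x400040000000000010000000000000000000000000000000000000) := D_48 (nat_lit 198) (nat_lit 148) (nat_lit 214) (nat_lit 6) (nat_lit 11) (nat_lit 11) (nat_lit 5) (nat_lit 11) (nat_lit 8) (by decide +kernel)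
theorem L119249 : W_48 (nat_lit 3) (nat_lit 0x6000160009000d80020000000000000000000000000000) (nat_lit 0x0) (nat_lit 0x400060001000000010000000000000000000000000000000000000) := T_48 (nat_lit 197) (nat_lit 180) (nat_lit 5) (nat_lit 11) (nat_lit 7) L119248 (by decide +kernel)
theorem L119250 : W_48 (nat_lit 4) (nat_lit 0x6000160009000580020000000000000000000000000000) (nat_lit 0x0) (nat_lit 0x400060001000000010000800040000000000000000000000000000) := T_48 (nat_lit 131) (nat_lit 114) (nat_lit 6) (nat_lit 11) (nat_lit 10) L119249 (by decide +kernel)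
theorem L119251 : W_48 (nat_lit 5) (nat_lit 0x4000160009000580020000000000000000000000000000) (nat_lit 0x0) (nat_lit 0x4000e0003000000010000800040000000000000000000000000000) := T_48 (nat_lit 181) (nat_lit 199) (nat_lit 7) (nat_lit 11) (nat_lit 7) L119250 (by decide +kernel)
theorem L119252 : W_48 (nat_lit 6) (nat_lit 0x160009000580020000000000000000000000000000) (nat_lit 0x0) (nat_lit 0x4000e0007000200010000800040000000000000000000000000000) := T_48 (nat_lit 182) (nat_lit 165) (nat_lit 7) (nat_lit 11) (nat_lit 6) L119251 (by decide +kernel)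
theorem L119253 : W_48 (nat_lit 2) (nat_lit 0x360009000580020001000140000000000000000000) (nat_lit 0x0) (nat_lit 0x8000a000000000000000) := D_48 (nat_lit 79) (nat_lit 63) (nat_lit 61) (nat_lit 6) (nat_lit 11) (nat_lit 7) (nat_lit 4) (nat_lit 11) (nat_lit 7) (by decide +kernel)
theorem L119254 : W_48 (nat_lit 3) (nat_lit 0x360009000580020001000100000000000000000000) (nat_lit 0x0) (nat_lit 0x8000c000a000000000000000) := T_48 (nat_lit 78) (nat_lit 95) (nat_lit 4) (nat_lit 11) (nat_lit 8) L119253 (by decide +kernel)
theorem L119255 : W_48 (nat_lit 4) (nat_lit 0x360009000580020001000000000000000000000000) (nat_lit 0x0) (nat_lit 0x28001c000a000000000000000) := T_48 (nat_lit 80) (nat_lit 97) (nat_lit 6) (nat_lit 11) (nat_lit 8) L119254 (by decide +kernel)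
theorem L119256 : W_48 (nat_lit 5) (nat_lit 0x360009000580020000000000000000000000000000) (nat_lit 0x0) (nat_lit 0x100000000000038001c000a000000000000000) := T_48 (nat_lit 96) (nat_lit 148) (nat_lit 7) (nat_lit 11) (nat_lit 5) L119255 (by decide +kernel)
theorem L119257 : W_48 (nat_lit 6) (nat_lit 0x160009000580020000000000000000000000000000) (nat_lit 0x0) (nat_lit 0x40002000100000000000038001c000a000000000000000) := T_48 (nat_lit 165) (nat_lit 182) (nat_lit 7) (nat_lit 11) (nat_lit 6) L119256 (by decide +kernel)
theorem L119258 : W_48 (nat_lit 2) (nat_lit 0x160019000580020003000040000000000000000000) (nat_lit 0x0) (nat_lit 0x800000000000080002000000000000000) := D_48 (nat_lit 79) (nat_lit 131) (nat_lit 61) (nat_lit 7) (nat_lit 11) (nat_lit 4) (nat_lit 4) (nat_lit 11) (nat_lit 7) (by decide +kernel)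
theorem L119259 : W_48 (nat_lit 3) (nat_lit 0x160009000580020003000040000000000000000000) (nat_lit 0x0) (nat_lit 0x200010000800000000000080002000000000000000) := T_48 (nat_lit 148) (nat_lit 165) (nat_lit 7) (nat_lit 11) (nat_lit 5) L119258 (by decide +kernel)
theorem L119260 : W_48 (nat_lit 4) (nat_lit 0x160009000580020003000000000000000000000000) (nat_lit 0x0) (nat_lit 0x2000100008000000008000c0002000000000000000) := T_48 (nat_lit 78) (nat_lit 95) (nat_lit 4) (nat_lit 11) (nat_lit 8) L119259 (by decide +kernel)
theorem L119261 : W_48 (nat_lit 5) (nat_lit 0x160009000580020002000000000000000000000000) (nat_lit 0x0) (nat_lit 0x2000100008000000018001c0002000000000000000) := T_48 (nat_lit 96) (nat_lit 80) (nat_lit 6) (nat_lit 11) (nat_lit 8) L119260 (by decide +kernel)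
theorem L119262 : W_48 (nat_lit 6) (nat_lit 0x160009000580020000000000000000000000000000) (nat_lit 0x0) (nat_lit 0x2000100008000400038001c0002000000000000000) := T_48 (nat_lit 97) (nat_lit 114) (nat_lit 6) (nat_lit 11) (nat_lit 9) L119261 (by decide +kernel)
theorem L119263 : W_48 (nat_lit 2) (nat_lit 0xa0002000160009000580060000000000000000000000000000) (nat_lit 0x0) (nat_lit 0x1400040000000000000000000000000000000000000000000000000) := D_48 (nat_lit 198) (nat_lit 214) (nat_lit 216) (nat_lit 5) (nat_lit 11) (nat_lit 8) (nat_lit 7) (nat_lit 11) (nat_lit 8) (by decide +kernel)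
theorem L119264 : W_48 (nat_lit 3) (nat_lit 0x20002000160009000580060000000000000000000000000000) (nat_lit 0x0) (nat_lit 0x14000c0004000000000000000000000000000000000000000000000) := T_48 (nat_lit 199) (nat_lit 182) (nat_lit 7) (nat_lit 11) (nat_lit 7) L119263 (by decide +kernel)
theorem L119265 : W_48 (nat_lit 4) (nat_lit 0x2000160009000580060000000000000000000000000000) (nat_lit 0x0) (nat_lit 0x14000e0005000000000000000000000000000000000000000000000) := T_48 (nat_lit 197) (nat_lit 180) (nat_lit 5) (nat_lit 11) (nat_lit 7) L119264 (by decide +kernel)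
theorem L119266 : W_48 (nat_lit 5) (nat_lit 0x160009000580060000000000000000000000000000) (nat_lit 0x0) (nat_lit 0x14000e0007000000000000800000000000000000000000000000000) := T_48 (nat_lit 181) (nat_lit 131) (nat_lit 6) (nat_lit 11) (nat_lit 10) L119265 (by decide +kernel)
theorem L119267 : W_48 (nat_lit 6) (nat_lit 0x160009000580020000000000000000000000000000) (nat_lit 0x0) (nat_lit 0x14000e0007000000000000800040002000000000000000000000000) := T_48 (nat_lit 114) (nat_lit 97) (nat_lit 6) (nat_lit 11) (nat_lit 9) L119266 (by decide +kernel)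
theorem L119268 : W_48 (nat_lit 9) (nat_lit 0x160001000580020000000000000000000000000000) (nat_lit 0x0) (nat_lit 0x20001c000e00070002000180008000400038001c000a000000000000000) := Q_48 (nat_lit 147) (C_48 L119213 (C_48 L119180 (C_48 L119247 (C_48 L119252 (C_48 L119257 (C_48 L119262 (C_48 L119267 N_48))))))) (by decide +kernel)
theorem L119269 : W_48 (nat_lit 2) (nat_lit 0x24001e0009000580020000000000000000000000000000) (nat_lit 0x0) (nat_lit 0x800040002000000000000000000000000) := D_48 (nat_lit 114) (nat_lit 97) (nat_lit 131) (nat_lit 6) (nat_lit 11) (nat_lit 9) (nat_lit 6) (nat_lit 11) (nat_lit 10) (by decide +kernel)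
theorem L119270 : W_48 (nat_lit 3) (nat_lit 0x24001e0001000580020000000000000000000000000000) (nat_lit 0x0) (nat_lit 0x18000800040002000000000000000000000000) := T_48 (nat_lit 147) (nat_lit 148) (nat_lit 2) (nat_lit 8) (nat_lit 9) L119269 (by decide +kernel)
theorem L119271 : W_48 (nat_lit 4) (nat_lit 0x4001e0001000580020000000000000000000000000000) (nat_lit 0x0) (nat_lit 0x6000000018000800040002000000000000000000000000) := T_48 (nat_lit 181) (nat_lit 182) (nat_lit 3) (nat_lit 8) (nat_lit 9) L119270 (by decide +kernel)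
theorem L119272 : W_48 (nat_lit 5) (nat_lit 0x1e0001000580020000000000000000000000000000) (nat_lit 0x0) (nat_lit 0x6600000018000800040002000000000000000000000000) := T_48 (nat_lit 178) (nat_lit 177) (nat_lit 1) (nat_lit 11) (nat_lit 9) L119271 (by decide +kernel)
theorem L119273 : W_48 (nat_lit 6) (nat_lit 0x160001000580020000000000000000000000000000) (nat_lit 0x0) (nat_lit 0x6600080018800800040002000000000000000000000000) := T_48 (nat_lit 163) (nat_lit 143) (nat_lit 0) (nat_lit 11) (nat_lit 9) L119272 (by decide +kernel)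
theorem L119274 : W_48 (nat_lit 2) (nat_lit 0x4001e0009000580020000000000000000000000000000) (nat_lit 0x0) (nat_lit 0x6000200000000000000000000000000000000000000000) := D_48 (nat_lit 182) (nat_lit 181) (nat_lit 165) (nat_lit 3) (nat_lit 8) (nat_lit 9) (nat_lit 7) (nat_lit 11) (nat_lit 6) (by decide +kernel)
theorem L119275 : W_48 (nat_lit 3) (nat_lit 0x4001e0001000580020000000000000000000000000000) (nat_lit 0x0) (nat_lit 0x7000200008000000000000000000000000000000000000) := T_48 (nat_lit 147) (nat_lit 180) (nat_lit 5) (nat_lit 11) (nat_lit 6) L119274 (by decide +kernel)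
theorem L119276 : W_48 (nat_lit 4) (nat_lit 0x1e0001000580020000000000000000000000000000) (nat_lit 0x0) (nat_lit 0x7600200008000000000000000000000000000000000000) := T_48 (nat_lit 178) (nat_lit 177) (nat_lit 1) (nat_lit 11) (nat_lit 9) L119275 (by decide +kernel)
theorem L119277 : W_48 (nat_lit 5) (nat_lit 0x160001000580020000000000000000000000000000) (nat_lit 0x0) (nat_lit 0x7600280008800000000000000000000000000000000000) := T_48 (nat_lit 163) (nat_lit 143) (nat_lit 0) (nat_lit 11) (nat_lit 9) L119276 (by decide +kernel)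
theorem L119278 : W_48 (nat_lit 2) (nat_lit 0x44003e0001000580020000000000000000000000000000) (nat_lit 0x0) (nat_lit 0x30000800000000000000000000000000000000) := D_48 (nat_lit 148) (nat_lit 149) (nat_lit 131) (nat_lit 2) (nat_lit 9) (nat_lit 9) (nat_lit 4) (nat_lit 12) (nat_lit 10) (by decide +kernel)
theorem L119279 : W_48 (nat_lit 3) (nat_lit 0x44001e0001000580020000000000000000000000000000) (nat_lit 0x0) (nat_lit 0x8000200030000800000000000000000000000000000000) := T_48 (nat_lit 165) (nat_lit 183) (nat_lit 3) (nat_lit 9) (nat_lit 9) L119278 (by decide +kernel)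
theorem L119280 : W_48 (nat_lit 4) (nat_lit 0x4001e0001000580020000000000000000000000000000) (nat_lit 0x0) (nat_lit 0xe000200030000800000000000000000000000000000000) := T_48 (nat_lit 182) (nat_lit 181) (nat_lit 3) (nat_lit 8) (nat_lit 9) L119279 (by decide +kernel)
theorem L119281 : W_48 (nat_lit 5) (nat_lit 0x1e0001000580020000000000000000000000000000) (nat_lit 0x0) (nat_lit 0xe600200030000800000000000000000000000000000000) := T_48 (nat_lit 178) (nat_lit 177) (nat_lit 1) (nat_lit 11) (nat_lit 9) L119280 (by decide +kernel)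
theorem L119282 : W_48 (nat_lit 6) (nat_lit 0x160001000580020000000000000000000000000000) (nat_lit 0x0) (nat_lit 0xe600280030800800000000000000000000000000000000) := T_48 (nat_lit 163) (nat_lit 143) (nat_lit 0) (nat_lit 11) (nat_lit 9) L119281 (by decide +kernel)
theorem L119283 : W_48 (nat_lit 10) (nat_lit 0x60001000580020000000000000000000000000000) (nat_lit 0x0) (nat_lit 0x20001c000e000f6003800388008000400038001c000a000000000000000) := Q_48 (nat_lit 164) (C_48 L119170 (C_48 L119244 (C_48 L119268 (C_48 L119273 (C_48 L119277 (C_48 L119282 N_48)))))) (by decide +kernel)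
theorem L119284 : W_48 (nat_lit 13) (nat_lit 0x20001000580020000000000000000000000000000) (nat_lit 0x0) (nat_lit 0x20001e000f800fe003c0038800800047803f001f800e000000000000000) := Q_48 (nat_lit 162) (C_48 L119167 (C_48 L119201 (C_48 L119241 (C_48 L119283 N_48)))) (by decide +kernel)
theorem L119285 : W_48 (nat_lit 2) (nat_lit 0x20001000580028000000000000000000000000000) (nat_lit 0x0) (nat_lit 0x4000400020000000000000000000) := D_48 (nat_lit 94) (nat_lit 110) (nat_lit 77) (nat_lit 6) (nat_lit 8) (nat_lit 9) (nat_lit 5) (nat_lit 9) (nat_lit 4) (by decide +kernel)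
theorem L119286 : W_48 (nat_lit 3) (nat_lit 0x20001000580020000000000000000000000000000) (nat_lit 0x0) (nat_lit 0x40000000000000000c000400020000000000000000000) := T_48 (nat_lit 111) (nat_lit 178) (nat_lit 6) (nat_lit 8) (nat_lit 10) L119285 (by decide +kernel)
theorem L119287 : W_48 (nat_lit 16) (nat_lit 0x1000580020000000000000000000000000000) (nat_lit 0x0) (nat_lit 0x20001e800fc00ff803e007c8038001cf80ff007f803fc00f80078000400) := Q_48 (nat_lit 161) (C_48 L118885 (C_48 L118888 (C_48 L119165 (C_48 L119284 (C_48 L119286 N_48))))) (by decide +kernel)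
theorem L119288 : W_48 (nat_lit 2) (nat_lit 0x1000d800200010000c0004000000000000000) (nat_lit 0x0) (nat_lit 0x100008000400000000000) := D_48 (nat_lit 63) (nat_lit 46) (nat_lit 80) (nat_lit 6) (nat_lit 11) (nat_lit 6) (nat_lit 6) (nat_lit 11) (nat_lit 7) (by decide +kernel)
theorem L119289 : W_48 (nat_lit 3) (nat_lit 0x1000d800200010000c0000000000000000000) (nat_lit 0x0) (nat_lit 0x4000000010000c000400000000000) := T_48 (nat_lit 62) (nat_lit 114) (nat_lit 7) (nat_lit 11) (nat_lit 3) L119288 (by decide +kernel)
theorem L119290 : W_48 (nat_lit 4) (nat_lit 0x10005800200010000c0000000000000000000) (nat_lit 0x0) (nat_lit 0x1000080004000000010000c000400000000000) := T_48 (nat_lit 131) (nat_lit 148) (nat_lit 7) (nat_lit 11) (nat_lit 4) L119289 (by decide +kernel)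
theorem L119291 : W_48 (nat_lit 5) (nat_lit 0x1000580020001000080000000000000000000) (nat_lit 0x0) (nat_lit 0x1000080004000000014000e000400000000000) := T_48 (nat_lit 78) (nat_lit 61) (nat_lit 4) (nat_lit 11) (nat_lit 7) L119290 (by decide +kernel)
theorem L119292 : W_48 (nat_lit 2) (nat_lit 0x1000d80020001a00580004000300010000000) (nat_lit 0x0) (nat_lit 0x400020001000) := D_48 (nat_lit 29) (nat_lit 12) (nat_lit 46) (nat_lit 6) (nat_lit 11) (nat_lit 4) (nat_lit 6) (nat_lit 11) (nat_lit 5) (by decide +kernel)
theorem L119293 : W_48 (nat_lit 3) (nat_lit 0x1000d80020001a00580004000300000000000) (nat_lit 0x0) (nat_lit 0x2000000000000400030001000) := T_48 (nat_lit 28) (nat_lit 97) (nat_lit 7) (nat_lit 11) (nat_lit 1) L119292 (by decide +kernel)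
theorem L119294 : W_48 (nat_lit 4) (nat_lit 0x1000d80020001a00180004000300000000000) (nat_lit 0x0) (nat_lit 0x2000600000000400030001000) := T_48 (nat_lit 82) (nat_lit 81) (nat_lit 1) (nat_lit 14) (nat_lit 4) L119293 (by decide +kernel)
theorem L119295 : W_48 (nat_lit 5) (nat_lit 0x1000d80020001800180004000300000000000) (nat_lit 0x0) (nat_lit 0x2600600000000400030001000) := T_48 (nat_lit 93) (nat_lit 94) (nat_lit 2) (nat_lit 8) (nat_lit 5) L119294 (by decide +kernel)
theorem L119296 : W_48 (nat_lit 6) (nat_lit 0x1000d80020001000180004000300000000000) (nat_lit 0x0) (nat_lit 0x10002e00600000000400030001000) := T_48 (nat_lit 95) (nat_lit 112) (nat_lit 5) (nat_lit 11) (nat_lit 2) L119295 (by decide +kernel)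
theorem L119297 : W_48 (nat_lit 7) (nat_lit 0x1000d80020001000180004000100000000000) (nat_lit 0x0) (nat_lit 0x10002e00600000000600038001000) := T_48 (nat_lit 45) (nat_lit 27) (nat_lit 4) (nat_lit 11) (nat_lit 5) L119296 (by decide +kernel)
theorem L119298 : W_48 (nat_lit 8) (nat_lit 0x1000d80020001000180004000000000000000) (nat_lit 0x0) (nat_lit 0x10002e00600002000700038001000) := T_48 (nat_lit 44) (nat_lit 61) (nat_lit 4) (nat_lit 11) (nat_lit 6) L119297 (by decide +kernel)
theorem L119299 : W_48 (nat_lit 9) (nat_lit 0x1000d80020001000180000000000000000000) (nat_lit 0x0) (nat_lit 0x50002e00600006000700038001000) := T_48 (nat_lit 62) (nat_lit 114) (nat_lit 7) (nat_lit 11) (nat_lit 3) L119298 (by decide +kernel)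
theorem L119300 : W_48 (nat_lit 10) (nat_lit 0x1000580020001000180000000000000000000) (nat_lit 0x0) (nat_lit 0x10000800050002e00600006000700038001000) := T_48 (nat_lit 131) (nat_lit 148) (nat_lit 7) (nat_lit 11) (nat_lit 4) L119299 (by decide +kernel)
theorem L119301 : W_48 (nat_lit 11) (nat_lit 0x1000580020001000080000000000000000000) (nat_lit 0x0) (nat_lit 0x10000800050002e0070000e000700038001000) := T_48 (nat_lit 80) (nat_lit 63) (nat_lit 6) (nat_lit 11) (nat_lit 7) L119300 (by decide +kernel)
theorem L119302 : W_48 (nat_lit 2) (nat_lit 0x10005800600010000d000c000200000000000) (nat_lit 0x0) (nat_lit 0x10000800000000000000010000000) := D_48 (nat_lit 95) (nat_lit 112) (nat_lit 28) (nat_lit 5) (nat_lit 11) (nat_lit 2) (nat_lit 5) (nat_lit 11) (nat_lit 1) (by decide +kernel)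
theorem L119303 : W_48 (nat_lit 3) (nat_lit 0x10005800600010000d000c000000000000000) (nat_lit 0x0) (nat_lit 0x10002800000000000200010000000) := T_48 (nat_lit 45) (nat_lit 97) (nat_lit 7) (nat_lit 11) (nat_lit 2) L119302 (by decide +kernel)
theorem L119304 : W_48 (nat_lit 4) (nat_lit 0x10005800200010000d000c000000000000000) (nat_lit 0x0) (nat_lit 0x800050002800000000000200010000000) := T_48 (nat_lit 114) (nat_lit 131) (nat_lit 7) (nat_lit 11) (nat_lit 3) L119303 (by decide +kernel)
theorem L119305 : W_48 (nat_lit 5) (nat_lit 0x10005800200010000c000c000000000000000) (nat_lit 0x0) (nat_lit 0x800050002800030000000200010000000) := T_48 (nat_lit 76) (nat_lit 77) (nat_lit 2) (nat_lit 8) (nat_lit 4) L119304 (by decide +kernel)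
theorem L119306 : W_48 (nat_lit 6) (nat_lit 0x10005800200010000c0008000000000000000) (nat_lit 0x0) (nat_lit 0x800050002800030004000600010000000) := T_48 (nat_lit 62) (nat_lit 46) (nat_lit 6) (nat_lit 11) (nat_lit 6) L119305 (by decide +kernel)
theorem L119307 : W_48 (nat_lit 7) (nat_lit 0x10005800200010000c0000000000000000000) (nat_lit 0x0) (nat_lit 0x80005000280013000c000600010000000) := T_48 (nat_lit 63) (nat_lit 80) (nat_lit 6) (nat_lit 11) (nat_lit 7) L119306 (by decide +kernel)
theorem L119308 : W_48 (nat_lit 8) (nat_lit 0x1000580020001000080000000000000000000) (nat_lit 0x0) (nat_lit 0x80005000280017000e000600010000000) := T_48 (nat_lit 78) (nat_lit 61) (nat_lit 4) (nat_lit 11) (nat_lit 7) L119307 (by decide +kernel)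
theorem L119309 : W_48 (nat_lit 2) (nat_lit 0x1000d80020001000080004000000000000000) (nat_lit 0x0) (nat_lit 0x40002000100000000000) := D_48 (nat_lit 61) (nat_lit 78) (nat_lit 44) (nat_lit 4) (nat_lit 11) (nat_lit 7) (nat_lit 4) (nat_lit 11) (nat_lit 6) (by decide +kernel)
theorem L119310 : W_48 (nat_lit 3) (nat_lit 0x1000d80020001000080000000000000000000) (nat_lit 0x0) (nat_lit 0x40000000040006000100000000000) := T_48 (nat_lit 62) (nat_lit 114) (nat_lit 7) (nat_lit 11) (nat_lit 3) L119309 (by decide +kernel)
theorem L119311 : W_48 (nat_lit 4) (nat_lit 0x1000580020001000080000000000000000000) (nat_lit 0x0) (nat_lit 0x10000800040000000040006000100000000000) := T_48 (nat_lit 131) (nat_lit 148) (nat_lit 7) (nat_lit 11) (nat_lit 4) L119310 (by decide +kernel)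
theorem L119312 : W_48 (nat_lit 2) (nat_lit 0x100058002000100008000a000000000000000) (nat_lit 0x0) (nat_lit 0x4000500000000000) := D_48 (nat_lit 62) (nat_lit 44) (nat_lit 46) (nat_lit 4) (nat_lit 11) (nat_lit 6) (nat_lit 6) (nat_lit 11) (nat_lit 6) (by decide +kernel)
theorem L119313 : W_48 (nat_lit 3) (nat_lit 0x1000580020001000080002000000000000000) (nat_lit 0x0) (nat_lit 0x10000c000500000000000) := T_48 (nat_lit 63) (nat_lit 80) (nat_lit 6) (nat_lit 11) (nat_lit 7) L119312 (by decide +kernel)
theorem L119314 : W_48 (nat_lit 4) (nat_lit 0x1000580020001000080000000000000000000) (nat_lit 0x0) (nat_lit 0x14000e000500000000000) := T_48 (nat_lit 61) (nat_lit 78) (nat_lit 4) (nat_lit 11) (nat_lit 7) L119313 (by decide +kernel)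
theorem L119315 : W_48 (nat_lit 2) (nat_lit 0x1000d80020001000080008000000000000000) (nat_lit 0x0) (nat_lit 0x40000000000004000400000000000) := D_48 (nat_lit 62) (nat_lit 114) (nat_lit 46) (nat_lit 7) (nat_lit 11) (nat_lit 3) (nat_lit 6) (nat_lit 11) (nat_lit 6) (by decide +kernel)
theorem L119316 : W_48 (nat_lit 3) (nat_lit 0x1000580020001000080008000000000000000) (nat_lit 0x0) (nat_lit 0x10000800040000000000004000400000000000) := T_48 (nat_lit 131) (nat_lit 148) (nat_lit 7) (nat_lit 11) (nat_lit 4) L119315 (by decide +kernel)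
theorem L119317 : W_48 (nat_lit 4) (nat_lit 0x1000580020001000080000000000000000000) (nat_lit 0x0) (nat_lit 0x1000080004000000010000c000400000000000) := T_48 (nat_lit 63) (nat_lit 80) (nat_lit 6) (nat_lit 11) (nat_lit 7) L119316 (by decide +kernel)
theorem L119318 : W_48 (nat_lit 2) (nat_lit 0x1002d800a00054003e0011000000000000000) (nat_lit 0x0) (nat_lit 0x40001000010000000000000000000000000000) := D_48 (nat_lit 132) (nat_lit 112) (nat_lit 150) (nat_lit 0) (nat_lit 14) (nat_lit 7) (nat_lit 7) (nat_lit 13) (nat_lit 4) (by decide +kernel)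
theorem L119319 : W_48 (nat_lit 3) (nat_lit 0x1000d800a00054003e0011000000000000000) (nat_lit 0x0) (nat_lit 0x40003000110000000000000000000000000000) := T_48 (nat_lit 133) (nat_lit 116) (nat_lit 7) (nat_lit 13) (nat_lit 3) L119318 (by decide +kernel)
theorem L119320 : W_48 (nat_lit 4) (nat_lit 0x1000d800200054003e0011000000000000000) (nat_lit 0x0) (nat_lit 0x400030001d0000000000000000000000000000) := T_48 (nat_lit 115) (nat_lit 114) (nat_lit 5) (nat_lit 13) (nat_lit 3) L119319 (by decide +kernel)
theorem L119321 : W_48 (nat_lit 5) (nat_lit 0x1000d800200054003e0001000000000000000) (nat_lit 0x0) (nat_lit 0x400030001d0000000000030000000000000000) := T_48 (nat_lit 64) (nat_lit 65) (nat_lit 2) (nat_lit 10) (nat_lit 4) L119320 (by decide +kernel)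
theorem L119322 : W_48 (nat_lit 6) (nat_lit 0x1000d800200054003e0000000000000000000) (nat_lit 0x0) (nat_lit 0x400030001d0000000000031800000000000000) := T_48 (nat_lit 60) (nat_lit 59) (nat_lit 0) (nat_lit 12) (nat_lit 4) L119321 (by decide +kernel)
theorem L119323 : W_48 (nat_lit 7) (nat_lit 0x1000d800200054003c0000000000000000000) (nat_lit 0x0) (nat_lit 0x400030001d0002000020031800000000000000) := T_48 (nat_lit 77) (nat_lit 97) (nat_lit 3) (nat_lit 9) (nat_lit 4) L119322 (by decide +kernel)
theorem L119324 : W_48 (nat_lit 8) (nat_lit 0x1000d800200014003c0000000000000000000) (nat_lit 0x0) (nat_lit 0x400030001d000e000020031800000000000000) := T_48 (nat_lit 98) (nat_lit 99) (nat_lit 3) (nat_lit 10) (nat_lit 4) L119323 (by decide +kernel)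
theorem L119325 : W_48 (nat_lit 9) (nat_lit 0x1000d800200014001c0000000000000000000) (nat_lit 0x0) (nat_lit 0x400030001d000e800220031800000000000000) := T_48 (nat_lit 81) (nat_lit 95) (nat_lit 1) (nat_lit 13) (nat_lit 4) L119324 (by decide +kernel)
theorem L119326 : W_48 (nat_lit 10) (nat_lit 0x1000d800200014000c0000000000000000000) (nat_lit 0x0) (nat_lit 0x400030001d000e800320039800000000000000) := T_48 (nat_lit 80) (nat_lit 63) (nat_lit 6) (nat_lit 11) (nat_lit 7) L119325 (by decide +kernel)
theorem L119327 : W_48 (nat_lit 11) (nat_lit 0x1000d80020001400080000000000000000000) (nat_lit 0x0) (nat_lit 0x400030001d000e80036003b800000000000000) := T_48 (nat_lit 78) (nat_lit 61) (nat_lit 4) (nat_lit 11) (nat_lit 7) L119326 (by decide +kernel)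
theorem L119328 : W_48 (nat_lit 12) (nat_lit 0x1000580020001400080000000000000000000) (nat_lit 0x0) (nat_lit 0x500038001d000e80036003b800000000000000) := T_48 (nat_lit 131) (nat_lit 148) (nat_lit 7) (nat_lit 11) (nat_lit 4) L119327 (by decide +kernel)
theorem L119329 : W_48 (nat_lit 2) (nat_lit 0x1000580020001600180000000000000000000) (nat_lit 0x0) (nat_lit 0x60002000000000000000) := D_48 (nat_lit 78) (nat_lit 77) (nat_lit 61) (nat_lit 1) (nat_lit 12) (nat_lit 4) (nat_lit 4) (nat_lit 11) (nat_lit 7) (by decide +kernel)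
theorem L119330 : W_48 (nat_lit 3) (nat_lit 0x1000580020001400180000000000000000000) (nat_lit 0x0) (nat_lit 0xa00060002000000000000000) := T_48 (nat_lit 93) (nat_lit 95) (nat_lit 2) (nat_lit 8) (nat_lit 5) L119329 (by decide +kernel)
theorem L119331 : W_48 (nat_lit 4) (nat_lit 0x1000580020001400080000000000000000000) (nat_lit 0x0) (nat_lit 0xa0016000a000000000000000) := T_48 (nat_lit 80) (nat_lit 63) (nat_lit 6) (nat_lit 11) (nat_lit 7) L119330 (by decide +kernel)
theorem L119332 : W_48 (nat_lit 2) (nat_lit 0x1000d800200014001e0000000000000000000) (nat_lit 0x0) (nat_lit 0x6000010000000000000000000) := D_48 (nat_lit 97) (nat_lit 76) (nat_lit 98) (nat_lit 3) (nat_lit 8) (nat_lit 4) (nat_lit 3) (nat_lit 9) (nat_lit 4) (by decide +kernel)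
theorem L119333 : W_48 (nat_lit 3) (nat_lit 0x1000d800200014001c0000000000000000000) (nat_lit 0x0) (nat_lit 0x6200030000000000000000000) := T_48 (nat_lit 77) (nat_lit 93) (nat_lit 1) (nat_lit 12) (nat_lit 4) L119332 (by decide +kernel)
theorem L119334 : W_48 (nat_lit 4) (nat_lit 0x1000d80020001400180000000000000000000) (nat_lit 0x0) (nat_lit 0x6200070002000000000000000) := T_48 (nat_lit 78) (nat_lit 61) (nat_lit 4) (nat_lit 11) (nat_lit 7) L119333 (by decide +kernel)
theorem L119335 : W_48 (nat_lit 5) (nat_lit 0x1000d80020001400080000000000000000000) (nat_lit 0x0) (nat_lit 0x620017000a000000000000000) := T_48 (nat_lit 80) (nat_lit 63) (nat_lit 6) (nat_lit 11) (nat_lit 7) L119334 (by decide +kernel)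
theorem L119336 : W_48 (nat_lit 6) (nat_lit 0x1000580020001400080000000000000000000) (nat_lit 0x0) (nat_lit 0x1000080000000620017000a000000000000000) := T_48 (nat_lit 131) (nat_lit 148) (nat_lit 7) (nat_lit 11) (nat_lit 4) L119335 (by decide +kernel)
theorem L119337 : W_48 (nat_lit 2) (nat_lit 0x1000d800200014001c0000000000000000000) (nat_lit 0x0) (nat_lit 0xa00200000000000000000000) := D_48 (nat_lit 95) (nat_lit 93) (nat_lit 81) (nat_lit 2) (nat_lit 8) (nat_lit 5) (nat_lit 1) (nat_lit 13) (nat_lit 4) (by decide +kernel)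
theorem L119338 : W_48 (nat_lit 3) (nat_lit 0x1000d800200014000c0000000000000000000) (nat_lit 0x0) (nat_lit 0xa00300008000000000000000) := T_48 (nat_lit 80) (nat_lit 63) (nat_lit 6) (nat_lit 11) (nat_lit 7) L119337 (by decide +kernel)
theorem L119339 : W_48 (nat_lit 4) (nat_lit 0x10005800200014000c0000000000000000000) (nat_lit 0x0) (nat_lit 0x10000800000000a00300008000000000000000) := T_48 (nat_lit 131) (nat_lit 148) (nat_lit 7) (nat_lit 11) (nat_lit 4) L119338 (by decide +kernel)
theorem L119340 : W_48 (nat_lit 5) (nat_lit 0x1000580020001400080000000000000000000) (nat_lit 0x0) (nat_lit 0x10000800000000a0034000a000000000000000) := T_48 (nat_lit 78) (nat_lit 61) (nat_lit 4) (nat_lit 11) (nat_lit 7) L119339 (by decide +kernel)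
theorem L119341 : W_48 (nat_lit 2) (nat_lit 0x1000580020001c00180000000000000000000) (nat_lit 0x0) (nat_lit 0x2000600000000000000000000) := D_48 (nat_lit 81) (nat_lit 82) (nat_lit 97) (nat_lit 1) (nat_lit 14) (nat_lit 4) (nat_lit 2) (nat_lit 9) (nat_lit 5) (by decide +kernel)
theorem L119342 : W_48 (nat_lit 3) (nat_lit 0x1000580020001400180000000000000000000) (nat_lit 0x0) (nat_lit 0x2a00600000000000000000000) := T_48 (nat_lit 95) (nat_lit 93) (nat_lit 2) (nat_lit 8) (nat_lit 5) L119341 (by decide +kernel)
theorem L119343 : W_48 (nat_lit 4) (nat_lit 0x1000580020001400080000000000000000000) (nat_lit 0x0) (nat_lit 0x2a00700008000000000000000) := T_48 (nat_lit 80) (nat_lit 63) (nat_lit 6) (nat_lit 11) (nat_lit 7) L119342 (by decide +kernel)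
theorem L119344 : W_48 (nat_lit 2) (nat_lit 0x1000d80024001600080000000000000000000) (nat_lit 0x0) (nat_lit 0x42000800000000000000000000000) := D_48 (nat_lit 95) (nat_lit 114) (nat_lit 109) (nat_lit 3) (nat_lit 8) (nat_lit 5) (nat_lit 1) (nat_lit 11) (nat_lit 5) (by decide +kernel)
theorem L119345 : W_48 (nat_lit 3) (nat_lit 0x1000d80020001600080000000000000000000) (nat_lit 0x0) (nat_lit 0x46000800020000000000000000000) := T_48 (nat_lit 110) (nat_lit 77) (nat_lit 6) (nat_lit 8) (nat_lit 8) L119344 (by decide +kernel)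
theorem L119346 : W_48 (nat_lit 4) (nat_lit 0x1000580020001600080000000000000000000) (nat_lit 0x0) (nat_lit 0x10000800046000800020000000000000000000) := T_48 (nat_lit 131) (nat_lit 148) (nat_lit 7) (nat_lit 11) (nat_lit 4) L119345 (by decide +kernel)
theorem L119347 : W_48 (nat_lit 2) (nat_lit 0x1000580020001e00080000000000000000000) (nat_lit 0x0) (nat_lit 0x10000100040000000000000000000) := D_48 (nat_lit 92) (nat_lit 112) (nat_lit 78) (nat_lit 3) (nat_lit 7) (nat_lit 5) (nat_lit 2) (nat_lit 7) (nat_lit 5) (by decide +kernel)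
theorem L119348 : W_48 (nat_lit 3) (nat_lit 0x1000580020001600080000000000000000000) (nat_lit 0x0) (nat_lit 0x50000900040000000000000000000) := T_48 (nat_lit 95) (nat_lit 114) (nat_lit 3) (nat_lit 8) (nat_lit 5) L119347 (by decide +kernel)
theorem L119349 : W_48 (nat_lit 2) (nat_lit 0x1000d800200016000e0000000000000000000) (nat_lit 0x0) (nat_lit 0x2100010000000000000000000) := D_48 (nat_lit 76) (nat_lit 97) (nat_lit 92) (nat_lit 3) (nat_lit 8) (nat_lit 4) (nat_lit 1) (nat_lit 11) (nat_lit 4) (by decide +kernel)
theorem L119350 : W_48 (nat_lit 3) (nat_lit 0x1000d800200016000a0000000000000000000) (nat_lit 0x0) (nat_lit 0x2100050002000000000000000) := T_48 (nat_lit 78) (nat_lit 61) (nat_lit 4) (nat_lit 11) (nat_lit 7) L119349 (by decide +kernel)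
theorem L119351 : W_48 (nat_lit 4) (nat_lit 0x1000d80020001600080000000000000000000) (nat_lit 0x0) (nat_lit 0x4002100070002000000000000000) := T_48 (nat_lit 77) (nat_lit 110) (nat_lit 6) (nat_lit 8) (nat_lit 8) L119350 (by decide +kernel)
theorem L119352 : W_48 (nat_lit 5) (nat_lit 0x1000580020001600080000000000000000000) (nat_lit 0x0) (nat_lit 0x10000800004002100070002000000000000000) := T_48 (nat_lit 131) (nat_lit 148) (nat_lit 7) (nat_lit 11) (nat_lit 4) L119351 (by decide +kernel)
theorem L119353 : W_48 (nat_lit 6) (nat_lit 0x1000580020001400080000000000000000000) (nat_lit 0x0) (nat_lit 0x10000800056002b00070002000000000000000) := Q_48 (nat_lit 93) (C_48 L119346 (C_48 L119348 (C_48 L119352 N_48))) (by decide +kernel)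
theorem L119354 : W_48 (nat_lit 13) (nat_lit 0x1000580020001000080000000000000000000) (nat_lit 0x0) (nat_lit 0x500038001d600ef0077003b800000000000000) := Q_48 (nat_lit 94) (C_48 L119328 (C_48 L119331 (C_48 L119336 (C_48 L119340 (C_48 L119343 (C_48 L119353 N_48)))))) (by decide +kernel)
theorem L119355 : W_48 (nat_lit 14) (nat_lit 0x1000580020001000000000000000000000000) (nat_lit 0x0) (nat_lit 0x500038001d600ef007f003f800700038001000) := Q_48 (nat_lit 79) (C_48 L119291 (C_48 L119301 (C_48 L119308 (C_48 L119311 (C_48 L119314 (C_48 L119317 (C_48 L119354 N_48))))))) (by decide +kernel)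
theorem L119356 : W_48 (nat_lit 2) (nat_lit 0x2000180009000d800200010001c0000000000000000000) (nat_lit 0x0) (nat_lit 0x80004000200000000000000000000000000000000000000000) := D_48 (nat_lit 182) (nat_lit 165) (nat_lit 199) (nat_lit 7) (nat_lit 11) (nat_lit 6) (nat_lit 7) (nat_lit 11) (nat_lit 7) (by decide +kernel)
theorem L119357 : W_48 (nat_lit 3) (nat_lit 0x180009000d800200010001c0000000000000000000) (nat_lit 0x0) (nat_lit 0x80006000200000000000040000000000000000000000000000) := T_48 (nat_lit 181) (nat_lit 114) (nat_lit 6) (nat_lit 11) (nat_lit 10) L119356 (by decide +kernel)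
theorem L119358 : W_48 (nat_lit 4) (nat_lit 0x80009000d800200010001c0000000000000000000) (nat_lit 0x0) (nat_lit 0x80007000300000000000040000000000000000000000000000) := T_48 (nat_lit 164) (nat_lit 180) (nat_lit 5) (nat_lit 11) (nat_lit 6) L119357 (by decide +kernel)
theorem L119359 : W_48 (nat_lit 5) (nat_lit 0x9000d800200010001c0000000000000000000) (nat_lit 0x0) (nat_lit 0x80007000380004000000040000000000000000000000000000) := T_48 (nat_lit 163) (nat_lit 146) (nat_lit 5) (nat_lit 11) (nat_lit 5) L119358 (by decide +kernel)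
theorem L119360 : W_48 (nat_lit 6) (nat_lit 0x1000d800200010001c0000000000000000000) (nat_lit 0x0) (nat_lit 0x8000700038000c000000040002000000000000000000000000) := T_48 (nat_lit 147) (nat_lit 97) (nat_lit 6) (nat_lit 11) (nat_lit 8) L119359 (by decide +kernel)
theorem L119361 : W_48 (nat_lit 7) (nat_lit 0x10005800200010001c0000000000000000000) (nat_lit 0x0) (nat_lit 0x8000700038001c000800040002000000000000000000000000) := T_48 (nat_lit 131) (nat_lit 148) (nat_lit 7) (nat_lit 11) (nat_lit 4) L119360 (by decide +kernel)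
theorem L119362 : W_48 (nat_lit 8) (nat_lit 0x10005800200010000c0000000000000000000) (nat_lit 0x0) (nat_lit 0x8000700038001c000800040002000100008000000000000000) := T_48 (nat_lit 80) (nat_lit 63) (nat_lit 6) (nat_lit 11) (nat_lit 7) L119361 (by decide +kernel)
theorem L119363 : W_48 (nat_lit 9) (nat_lit 0x1000580020001000080000000000000000000) (nat_lit 0x0) (nat_lit 0x8000700038001c00080004000200014000a000000000000000) := T_48 (nat_lit 78) (nat_lit 61) (nat_lit 4) (nat_lit 11) (nat_lit 7) L119362 (by decide +kernel)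
theorem L119364 : W_48 (nat_lit 10) (nat_lit 0x1000580020001000000000000000000000000) (nat_lit 0x0) (nat_lit 0x8000700038001c0008000400020001c000e000500000000000) := Q_48 (nat_lit 79) (C_48 L119317 (C_48 L119314 (C_48 L119311 (C_48 L119363 N_48)))) (by decide +kernel)
theorem L119365 : W_48 (nat_lit 2) (nat_lit 0x1d000580020001000080000000000000000000) (nat_lit 0x0) (nat_lit 0x2000100008000000000000000) := D_48 (nat_lit 80) (nat_lit 63) (nat_lit 97) (nat_lit 6) (nat_lit 11) (nat_lit 7) (nat_lit 6) (nat_lit 11) (nat_lit 8) (by decide +kernel)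
theorem L119366 : W_48 (nat_lit 3) (nat_lit 0x1d000580020001000000000000000000000000) (nat_lit 0x0) (nat_lit 0x800000002000180008000000000000000) := T_48 (nat_lit 79) (nat_lit 131) (nat_lit 7) (nat_lit 11) (nat_lit 4) L119365 (by decide +kernel)
theorem L119367 : W_48 (nat_lit 4) (nat_lit 0xd000580020001000000000000000000000000) (nat_lit 0x0) (nat_lit 0x200010000800000002000180008000000000000000) := T_48 (nat_lit 148) (nat_lit 165) (nat_lit 7) (nat_lit 11) (nat_lit 5) L119366 (by decide +kernel)
theorem L119368 : W_48 (nat_lit 5) (nat_lit 0x9000580020001000000000000000000000000) (nat_lit 0x0) (nat_lit 0x280014000800000002000180008000000000000000) := T_48 (nat_lit 146) (nat_lit 163) (nat_lit 5) (nat_lit 11) (nat_lit 5) L119367 (by decide +kernel)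
theorem L119369 : W_48 (nat_lit 2) (nat_lit 0x19000d80060007000000000000000000000000) (nat_lit 0x0) (nat_lit 0x10018000000000000000000000000) := D_48 (nat_lit 99) (nat_lit 100) (nat_lit 112) (nat_lit 1) (nat_lit 15) (nat_lit 5) (nat_lit 1) (nat_lit 14) (nat_lit 5) (by decide +kernel)
theorem L119370 : W_48 (nat_lit 3) (nat_lit 0x19000d80060003000000000000000000000000) (nat_lit 0x0) (nat_lit 0x1001c000200000000000000000000) := T_48 (nat_lit 98) (nat_lit 81) (nat_lit 6) (nat_lit 12) (nat_lit 8) L119369 (by decide +kernel)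
theorem L119371 : W_48 (nat_lit 4) (nat_lit 0x19000d80020003000000000000000000000000) (nat_lit 0x0) (nat_lit 0x10000000000005001c000200000000000000000000) := T_48 (nat_lit 114) (nat_lit 164) (nat_lit 6) (nat_lit 11) (nat_lit 9) L119370 (by decide +kernel)
theorem L119372 : W_48 (nat_lit 5) (nat_lit 0x19000580020003000000000000000000000000) (nat_lit 0x0) (nat_lit 0x10000000080005001c000280000000000000000000) := T_48 (nat_lit 131) (nat_lit 79) (nat_lit 7) (nat_lit 11) (nat_lit 4) L119371 (by decide +kernel)
theorem L119373 : W_48 (nat_lit 6) (nat_lit 0x9000580020003000000000000000000000000) (nat_lit 0x0) (nat_lit 0x30001000080005001c000280000000000000000000) := T_48 (nat_lit 148) (nat_lit 165) (nat_lit 7) (nat_lit 11) (nat_lit 5) L119372 (by decide +kernel)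
theorem L119374 : W_48 (nat_lit 7) (nat_lit 0x9000580020001000000000000000000000000) (nat_lit 0x0) (nat_lit 0x30001000080005001e000380000000000000000000) := T_48 (nat_lit 97) (nat_lit 80) (nat_lit 6) (nat_lit 11) (nat_lit 8) L119373 (by decide +kernel)
theorem L119375 : W_48 (nat_lit 2) (nat_lit 0x80009000580020003000000000000000000000000) (nat_lit 0x0) (nat_lit 0x1000100000000000040000000000000000000000000000) := D_48 (nat_lit 164) (nat_lit 114) (nat_lit 180) (nat_lit 6) (nat_lit 11) (nat_lit 9) (nat_lit 5) (nat_lit 11) (nat_lit 6) (by decide +kernel)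
theorem L119376 : W_48 (nat_lit 3) (nat_lit 0x9000580020003000000000000000000000000) (nat_lit 0x0) (nat_lit 0x1000180004000000040000000000000000000000000000) := T_48 (nat_lit 163) (nat_lit 146) (nat_lit 5) (nat_lit 11) (nat_lit 5) L119375 (by decide +kernel)
theorem L119377 : W_48 (nat_lit 4) (nat_lit 0x9000580020001000000000000000000000000) (nat_lit 0x0) (nat_lit 0x1000180004000000040002000100000000000000000000) := T_48 (nat_lit 97) (nat_lit 80) (nat_lit 6) (nat_lit 11) (nat_lit 8) L119376 (by decide +kernel)
theorem L119378 : W_48 (nat_lit 2) (nat_lit 0x180019000d80020001000000000000000000000000) (nat_lit 0x0) (nat_lit 0x40002000000000000000040000000000000000000000000000) := D_48 (nat_lit 181) (nat_lit 114) (nat_lit 198) (nat_lit 6) (nat_lit 11) (nat_lit 10) (nat_lit 6) (nat_lit 11) (nat_lit 11) (by decide +kernel)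
theorem L119379 : W_48 (nat_lit 3) (nat_lit 0x80019000d80020001000000000000000000000000) (nat_lit 0x0) (nat_lit 0x40003000100000000000040000000000000000000000000000) := T_48 (nat_lit 164) (nat_lit 180) (nat_lit 5) (nat_lit 11) (nat_lit 6) L119378 (by decide +kernel)
theorem L119380 : W_48 (nat_lit 4) (nat_lit 0x19000d80020001000000000000000000000000) (nat_lit 0x0) (nat_lit 0x40003000180004000000040000000000000000000000000000) := T_48 (nat_lit 163) (nat_lit 146) (nat_lit 5) (nat_lit 11) (nat_lit 5) L119379 (by decide +kernel)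
theorem L119381 : W_48 (nat_lit 5) (nat_lit 0x19000580020001000000000000000000000000) (nat_lit 0x0) (nat_lit 0x40003000180004000800040000000080000000000000000000) := T_48 (nat_lit 131) (nat_lit 79) (nat_lit 7) (nat_lit 11) (nat_lit 4) L119380 (by decide +kernel)
theorem L119382 : W_48 (nat_lit 6) (nat_lit 0x9000580020001000000000000000000000000) (nat_lit 0x0) (nat_lit 0x40003000380014000800040000000080000000000000000000) := T_48 (nat_lit 148) (nat_lit 165) (nat_lit 7) (nat_lit 11) (nat_lit 5) L119381 (by decide +kernel)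
theorem L119383 : W_48 (nat_lit 8) (nat_lit 0x1000580020001000000000000000000000000) (nat_lit 0x0) (nat_lit 0x4000300038001c00080005001e000380008000000000000000) := Q_48 (nat_lit 147) (C_48 L119368 (C_48 L119374 (C_48 L119377 (C_48 L119382 N_48)))) (by decide +kernel)
theorem L119384 : W_48 (nat_lit 2) (nat_lit 0x9000580020003800000000000000000000000) (nat_lit 0x0) (nat_lit 0x100000000000050000000000000000000000000000) := D_48 (nat_lit 164) (nat_lit 112) (nat_lit 114) (nat_lit 4) (nat_lit 11) (nat_lit 9) (nat_lit 6) (nat_lit 11) (nat_lit 9) (by decide +kernel)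
theorem L119385 : W_48 (nat_lit 3) (nat_lit 0x9000580020001800000000000000000000000) (nat_lit 0x0) (nat_lit 0x100000000000050002000100000000000000000000) := T_48 (nat_lit 97) (nat_lit 80) (nat_lit 6) (nat_lit 11) (nat_lit 8) L119384 (by decide +kernel)
theorem L119386 : W_48 (nat_lit 4) (nat_lit 0x9000580020001000000000000000000000000) (nat_lit 0x0) (nat_lit 0x100000000000050002800140000000000000000000) := T_48 (nat_lit 95) (nat_lit 78) (nat_lit 4) (nat_lit 11) (nat_lit 8) L119385 (by decide +kernel)
theorem L119387 : W_48 (nat_lit 2) (nat_lit 0xd0005800200010000c0000000000000000000) (nat_lit 0x0) (nat_lit 0x2000100008000000000000000) := D_48 (nat_lit 80) (nat_lit 97) (nat_lit 63) (nat_lit 6) (nat_lit 11) (nat_lit 8) (nat_lit 6) (nat_lit 11) (nat_lit 7) (by decide +kernel)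
theorem L119388 : W_48 (nat_lit 3) (nat_lit 0xd000580020001000040000000000000000000) (nat_lit 0x0) (nat_lit 0x200018000a000000000000000) := T_48 (nat_lit 79) (nat_lit 61) (nat_lit 4) (nat_lit 11) (nat_lit 7) L119387 (by decide +kernel)
theorem L119389 : W_48 (nat_lit 4) (nat_lit 0x9000580020001000040000000000000000000) (nat_lit 0x0) (nat_lit 0x8000400000000000200018000a000000000000000) := T_48 (nat_lit 146) (nat_lit 163) (nat_lit 5) (nat_lit 11) (nat_lit 5) L119388 (by decide +kernel)
theorem L119390 : W_48 (nat_lit 5) (nat_lit 0x9000580020001000000000000000000000000) (nat_lit 0x0) (nat_lit 0x800040000000000028001c000a000000000000000) := T_48 (nat_lit 78) (nat_lit 95) (nat_lit 4) (nat_lit 11) (nat_lit 8) L119389 (by decide +kernel)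
theorem L119391 : W_48 (nat_lit 2) (nat_lit 0x80009000580020001800000000000000000000000) (nat_lit 0x0) (nat_lit 0x1000100000000000010000000000000000000000000000) := D_48 (nat_lit 164) (nat_lit 112) (nat_lit 180) (nat_lit 4) (nat_lit 11) (nat_lit 9) (nat_lit 5) (nat_lit 11) (nat_lit 6) (by decide +kernel)
theorem L119392 : W_48 (nat_lit 3) (nat_lit 0x9000580020001800000000000000000000000) (nat_lit 0x0) (nat_lit 0x1000180004000000010000000000000000000000000000) := T_48 (nat_lit 163) (nat_lit 146) (nat_lit 5) (nat_lit 11) (nat_lit 5) L119391 (by decide +kernel)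
theorem L119393 : W_48 (nat_lit 4) (nat_lit 0x9000580020001000000000000000000000000) (nat_lit 0x0) (nat_lit 0x1000180004000000010000800040000000000000000000) := T_48 (nat_lit 95) (nat_lit 78) (nat_lit 4) (nat_lit 11) (nat_lit 8) L119392 (by decide +kernel)
theorem L119394 : W_48 (nat_lit 6) (nat_lit 0x1000580020001000000000000000000000000) (nat_lit 0x0) (nat_lit 0x100018000c0000000500028001c000a000000000000000) := Q_48 (nat_lit 147) (C_48 L119377 (C_48 L119386 (C_48 L119390 (C_48 L119393 N_48)))) (by decide +kernel)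
theorem L119395 : W_48 (nat_lit 2) (nat_lit 0x90005800200010001c0000000000000000000) (nat_lit 0x0) (nat_lit 0x200010000800000000000000000000000000000000) := D_48 (nat_lit 148) (nat_lit 131) (nat_lit 165) (nat_lit 7) (nat_lit 11) (nat_lit 4) (nat_lit 7) (nat_lit 11) (nat_lit 5) (by decide +kernel)
theorem L119396 : W_48 (nat_lit 3) (nat_lit 0x10005800200010001c0000000000000000000) (nat_lit 0x0) (nat_lit 0x200018000800000000800000000000000000000000) := T_48 (nat_lit 147) (nat_lit 95) (nat_lit 4) (nat_lit 11) (nat_lit 8) L119395 (by decide +kernel)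
theorem L119397 : W_48 (nat_lit 4) (nat_lit 0x10005800200010000c0000000000000000000) (nat_lit 0x0) (nat_lit 0x200018000800000000800100008000000000000000) := T_48 (nat_lit 80) (nat_lit 63) (nat_lit 6) (nat_lit 11) (nat_lit 7) L119396 (by decide +kernel)
theorem L119398 : W_48 (nat_lit 5) (nat_lit 0x1000580020001000080000000000000000000) (nat_lit 0x0) (nat_lit 0x20001800080000000080014000a000000000000000) := T_48 (nat_lit 78) (nat_lit 61) (nat_lit 4) (nat_lit 11) (nat_lit 7) L119397 (by decide +kernel)
theorem L119399 : W_48 (nat_lit 6) (nat_lit 0x1000580020001000000000000000000000000) (nat_lit 0x0) (nat_lit 0x2000180008000400008001c000e000500000000000) := Q_48 (nat_lit 79) (C_48 L119317 (C_48 L119314 (C_48 L119311 (C_48 L119398 N_48)))) (by decide +kernel)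
theorem L119400 : W_48 (nat_lit 2) (nat_lit 0x1d00058012000f000000000000000000000000) (nat_lit 0x0) (nat_lit 0x80000800040000000000000000000) := D_48 (nat_lit 95) (nat_lit 115) (nat_lit 78) (nat_lit 3) (nat_lit 10) (nat_lit 5) (nat_lit 4) (nat_lit 11) (nat_lit 8) (by decide +kernel)
theorem L119401 : W_48 (nat_lit 3) (nat_lit 0x1d00058002000f000000000000000000000000) (nat_lit 0x0) (nat_lit 0x380000800040000000000000000000) := T_48 (nat_lit 116) (nat_lit 117) (nat_lit 3) (nat_lit 11) (nat_lit 5) L119400 (by decide +kernel)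
theorem L119402 : W_48 (nat_lit 4) (nat_lit 0x1900058002000f000000000000000000000000) (nat_lit 0x0) (nat_lit 0x80004000000380000800040000000000000000000) := T_48 (nat_lit 146) (nat_lit 163) (nat_lit 5) (nat_lit 11) (nat_lit 5) L119401 (by decide +kernel)
theorem L119403 : W_48 (nat_lit 5) (nat_lit 0x19000580020007000000000000000000000000) (nat_lit 0x0) (nat_lit 0x80004000000390008800040000000000000000000) := T_48 (nat_lit 99) (nat_lit 112) (nat_lit 1) (nat_lit 14) (nat_lit 5) L119402 (by decide +kernel)
theorem L119404 : W_48 (nat_lit 6) (nat_lit 0x9000580020007000000000000000000000000) (nat_lit 0x0) (nat_lit 0x280014000000390008800040000000000000000000) := T_48 (nat_lit 148) (nat_lit 165) (nat_lit 7) (nat_lit 11) (nat_lit 5) L119403 (by decide +kernel)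
theorem L119405 : W_48 (nat_lit 2) (nat_lit 0x1d0015800a4007c00220000000000000000000) (nat_lit 0x0) (nat_lit 0x60002000000000000000000000000000000000) := D_48 (nat_lit 133) (nat_lit 149) (nat_lit 150) (nat_lit 2) (nat_lit 10) (nat_lit 8) (nat_lit 7) (nat_lit 13) (nat_lit 4) (by decide +kernel)
theorem L119406 : W_48 (nat_lit 3) (nat_lit 0x1d0005800a4007c00220000000000000000000) (nat_lit 0x0) (nat_lit 0x60003800000000000000000000000000000000) := T_48 (nat_lit 132) (nat_lit 131) (nat_lit 5) (nat_lit 13) (nat_lit 4) L119405 (by decide +kernel)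
theorem L119407 : W_48 (nat_lit 4) (nat_lit 0x1d0005800a0007c00220000000000000000000) (nat_lit 0x0) (nat_lit 0x60003800004000200000000000000000000000) := T_48 (nat_lit 110) (nat_lit 93) (nat_lit 6) (nat_lit 8) (nat_lit 8) L119406 (by decide +kernel)
theorem L119408 : W_48 (nat_lit 5) (nat_lit 0x1d0005800a0007c00020000000000000000000) (nat_lit 0x0) (nat_lit 0x60003800004000200600000000000000000000) := T_48 (nat_lit 81) (nat_lit 82) (nat_lit 2) (nat_lit 10) (nat_lit 5) L119407 (by decide +kernel)
theorem L119409 : W_48 (nat_lit 6) (nat_lit 0x1d0005800a0007c00000000000000000000000) (nat_lit 0x0) (nat_lit 0x60003800004000200630000000000000000000) := T_48 (nat_lit 77) (nat_lit 76) (nat_lit 0) (nat_lit 12) (nat_lit 5) L119408 (by decide +kernel)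
theorem L119410 : W_48 (nat_lit 7) (nat_lit 0x1d0005800a0007800000000000000000000000) (nat_lit 0x0) (nat_lit 0x60003800044000600630000000000000000000) := T_48 (nat_lit 94) (nat_lit 114) (nat_lit 3) (nat_lit 9) (nat_lit 5) L119409 (by decide +kernel)
theorem L119411 : W_48 (nat_lit 8) (nat_lit 0x1d000580020007800000000000000000000000) (nat_lit 0x0) (nat_lit 0x600038001c4000600630000000000000000000) := T_48 (nat_lit 115) (nat_lit 116) (nat_lit 3) (nat_lit 10) (nat_lit 5) L119410 (by decide +kernel)
theorem L119412 : W_48 (nat_lit 9) (nat_lit 0x1d000580020007000000000000000000000000) (nat_lit 0x0) (nat_lit 0x600038001c4000e00670000000000000000000) := T_48 (nat_lit 95) (nat_lit 78) (nat_lit 4) (nat_lit 11) (nat_lit 8) L119411 (by decide +kernel)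
theorem L119413 : W_48 (nat_lit 10) (nat_lit 0xd000580020007000000000000000000000000) (nat_lit 0x0) (nat_lit 0x2000700038001c4000e00670000000000000000000) := T_48 (nat_lit 148) (nat_lit 165) (nat_lit 7) (nat_lit 11) (nat_lit 5) L119412 (by decide +kernel)
theorem L119414 : W_48 (nat_lit 11) (nat_lit 0x9000580020007000000000000000000000000) (nat_lit 0x0) (nat_lit 0x2800740038001c4000e00670000000000000000000) := T_48 (nat_lit 146) (nat_lit 163) (nat_lit 5) (nat_lit 11) (nat_lit 5) L119413 (by decide +kernel)
theorem L119415 : W_48 (nat_lit 2) (nat_lit 0x90005800a0007e00220000000000000000000) (nat_lit 0x0) (nat_lit 0x10008100000000000000000000000) := D_48 (nat_lit 112) (nat_lit 99) (nat_lit 92) (nat_lit 1) (nat_lit 14) (nat_lit 5) (nat_lit 3) (nat_lit 7) (nat_lit 5) (by decide +kernel)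
theorem L119416 : W_48 (nat_lit 3) (nat_lit 0x90005800a0007c00220000000000000000000) (nat_lit 0x0) (nat_lit 0x14008300000000000000000000000) := T_48 (nat_lit 93) (nat_lit 110) (nat_lit 6) (nat_lit 8) (nat_lit 8) L119415 (by decide +kernel)
theorem L119417 : W_48 (nat_lit 4) (nat_lit 0x90005800a0007c00020000000000000000000) (nat_lit 0x0) (nat_lit 0x14008300600000000000000000000) := T_48 (nat_lit 81) (nat_lit 82) (nat_lit 2) (nat_lit 10) (nat_lit 5) L119416 (by decide +kernel)
theorem L119418 : W_48 (nat_lit 5) (nat_lit 0x90005800a0007c00000000000000000000000) (nat_lit 0x0) (nat_lit 0x14008300630000000000000000000) := T_48 (nat_lit 77) (nat_lit 76) (nat_lit 0) (nat_lit 12) (nat_lit 5) L119417 (by decide +kernel)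
theorem L119419 : W_48 (nat_lit 6) (nat_lit 0x90005800a0007800000000000000000000000) (nat_lit 0x0) (nat_lit 0x54008700630000000000000000000) := T_48 (nat_lit 94) (nat_lit 114) (nat_lit 3) (nat_lit 9) (nat_lit 5) L119418 (by decide +kernel)
theorem L119420 : W_48 (nat_lit 7) (nat_lit 0x9000580020007800000000000000000000000) (nat_lit 0x0) (nat_lit 0x1d4008700630000000000000000000) := T_48 (nat_lit 115) (nat_lit 116) (nat_lit 3) (nat_lit 10) (nat_lit 5) L119419 (by decide +kernel)
theorem L119421 : W_48 (nat_lit 8) (nat_lit 0x9000580020007000000000000000000000000) (nat_lit 0x0) (nat_lit 0x1d4008f00670000000000000000000) := T_48 (nat_lit 95) (nat_lit 78) (nat_lit 4) (nat_lit 11) (nat_lit 8) L119420 (by decide +kernel)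
theorem L119422 : W_48 (nat_lit 2) (nat_lit 0x1d002d8016000f000400000000000000000000) (nat_lit 0x0) (nat_lit 0x80004000080000000000000000000000000000) := D_48 (nat_lit 134) (nat_lit 151) (nat_lit 115) (nat_lit 7) (nat_lit 14) (nat_lit 4) (nat_lit 3) (nat_lit 11) (nat_lit 6) (by decide +kernel)
theorem L119423 : W_48 (nat_lit 3) (nat_lit 0x1d000d8016000f000400000000000000000000) (nat_lit 0x0) (nat_lit 0x80007000080000000000000000000000000000) := T_48 (nat_lit 133) (nat_lit 132) (nat_lit 1) (nat_lit 14) (nat_lit 7) L119422 (by decide +kernel)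
theorem L119424 : W_48 (nat_lit 4) (nat_lit 0x1d00058016000f000400000000000000000000) (nat_lit 0x0) (nat_lit 0x80007800080000000200000000000000000000) := T_48 (nat_lit 131) (nat_lit 81) (nat_lit 6) (nat_lit 12) (nat_lit 8) L119423 (by decide +kernel)
theorem L119425 : W_48 (nat_lit 5) (nat_lit 0xd00058016000f000400000000000000000000) (nat_lit 0x0) (nat_lit 0x200090007800080000000200000000000000000000) := T_48 (nat_lit 148) (nat_lit 165) (nat_lit 7) (nat_lit 11) (nat_lit 5) L119424 (by decide +kernel)
theorem L119426 : W_48 (nat_lit 6) (nat_lit 0xd00058012000f000400000000000000000000) (nat_lit 0x0) (nat_lit 0x2000900078000c0010000200000000000000000000) := T_48 (nat_lit 114) (nat_lit 100) (nat_lit 1) (nat_lit 15) (nat_lit 5) L119425 (by decide +kernel)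
theorem L119427 : W_48 (nat_lit 7) (nat_lit 0xd00058012000f000000000000000000000000) (nat_lit 0x0) (nat_lit 0x2000900078000c0010000e00000000000000000000) := T_48 (nat_lit 82) (nat_lit 83) (nat_lit 2) (nat_lit 11) (nat_lit 5) L119426 (by decide +kernel)
theorem L119428 : W_48 (nat_lit 8) (nat_lit 0xd00058002000f000000000000000000000000) (nat_lit 0x0) (nat_lit 0x2000900078003c0010000e00000000000000000000) := T_48 (nat_lit 116) (nat_lit 117) (nat_lit 3) (nat_lit 11) (nat_lit 5) L119427 (by decide +kernel)
theorem L119429 : W_48 (nat_lit 9) (nat_lit 0x900058002000f000000000000000000000000) (nat_lit 0x0) (nat_lit 0x2800940078003c0010000e00000000000000000000) := T_48 (nat_lit 146) (nat_lit 163) (nat_lit 5) (nat_lit 11) (nat_lit 5) L119428 (by decide +kernel)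
theorem L119430 : W_48 (nat_lit 10) (nat_lit 0x9000580020007000000000000000000000000) (nat_lit 0x0) (nat_lit 0x2800940078003d0018000e00000000000000000000) := T_48 (nat_lit 99) (nat_lit 112) (nat_lit 1) (nat_lit 14) (nat_lit 5) L119429 (by decide +kernel)
theorem L119431 : W_48 (nat_lit 2) (nat_lit 0x1d002d8002000f800200000000000000000000) (nat_lit 0x0) (nat_lit 0x40000000300000000000000000000000000000) := D_48 (nat_lit 116) (nat_lit 117) (nat_lit 150) (nat_lit 3) (nat_lit 11) (nat_lit 5) (nat_lit 4) (nat_lit 14) (nat_lit 8) (by decide +kernel)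
theorem L119432 : W_48 (nat_lit 3) (nat_lit 0x1d002d80020007800200000000000000000000) (nat_lit 0x0) (nat_lit 0x40000000310008000000000000000000000000) := T_48 (nat_lit 99) (nat_lit 112) (nat_lit 1) (nat_lit 14) (nat_lit 5) L119431 (by decide +kernel)
theorem L119433 : W_48 (nat_lit 4) (nat_lit 0x1d000d80020007800200000000000000000000) (nat_lit 0x0) (nat_lit 0x40003000310008000000000000000000000000) := T_48 (nat_lit 133) (nat_lit 132) (nat_lit 1) (nat_lit 14) (nat_lit 7) L119432 (by decide +kernel)
theorem L119434 : W_48 (nat_lit 5) (nat_lit 0x1d000580020007800200000000000000000000) (nat_lit 0x0) (nat_lit 0x40003800350008000000000000000000000000) := T_48 (nat_lit 131) (nat_lit 114) (nat_lit 6) (nat_lit 12) (nat_lit 8) L119433 (by decide +kernel)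
theorem L119435 : W_48 (nat_lit 6) (nat_lit 0x19000580020007800200000000000000000000) (nat_lit 0x0) (nat_lit 0x80044003800350008000000000000000000000000) := T_48 (nat_lit 146) (nat_lit 163) (nat_lit 5) (nat_lit 11) (nat_lit 5) L119434 (by decide +kernel)
theorem L119436 : W_48 (nat_lit 7) (nat_lit 0x19000580020007800000000000000000000000) (nat_lit 0x0) (nat_lit 0x80044003800350008000600000000000000000000) := T_48 (nat_lit 81) (nat_lit 82) (nat_lit 2) (nat_lit 10) (nat_lit 5) L119435 (by decide +kernel)
theorem L119437 : W_48 (nat_lit 8) (nat_lit 0x19000580020007000000000000000000000000) (nat_lit 0x0) (nat_lit 0x80044003800350008800640000000000000000000) := T_48 (nat_lit 95) (nat_lit 78) (nat_lit 4) (nat_lit 11) (nat_lit 8) L119436 (by decide +kernel)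
theorem L119438 : W_48 (nat_lit 9) (nat_lit 0x9000580020007000000000000000000000000) (nat_lit 0x0) (nat_lit 0x280054003800350008800640000000000000000000) := T_48 (nat_lit 148) (nat_lit 165) (nat_lit 7) (nat_lit 11) (nat_lit 5) L119437 (by decide +kernel)
theorem L119439 : W_48 (nat_lit 2) (nat_lit 0x1900058002000f000400000000000000000000) (nat_lit 0x0) (nat_lit 0x800240000000000000000000) := D_48 (nat_lit 95) (nat_lit 81) (nat_lit 78) (nat_lit 2) (nat_lit 10) (nat_lit 5) (nat_lit 4) (nat_lit 11) (nat_lit 8) (by decide +kernel)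
theorem L119440 : W_48 (nat_lit 3) (nat_lit 0x1900058002000f000000000000000000000000) (nat_lit 0x0) (nat_lit 0x800e40000000000000000000) := T_48 (nat_lit 82) (nat_lit 83) (nat_lit 2) (nat_lit 11) (nat_lit 5) L119439 (by decide +kernel)
theorem L119441 : W_48 (nat_lit 4) (nat_lit 0x900058002000f000000000000000000000000) (nat_lit 0x0) (nat_lit 0x200010000000000000800e40000000000000000000) := T_48 (nat_lit 148) (nat_lit 165) (nat_lit 7) (nat_lit 11) (nat_lit 5) L119440 (by decide +kernel)
theorem L119442 : W_48 (nat_lit 5) (nat_lit 0x9000580020007000000000000000000000000) (nat_lit 0x0) (nat_lit 0x200010000000010008800e40000000000000000000) := T_48 (nat_lit 99) (nat_lit 112) (nat_lit 1) (nat_lit 14) (nat_lit 5) L119441 (by decide +kernel)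
theorem L119443 : W_48 (nat_lit 12) (nat_lit 0x9000580020003000000000000000000000000) (nat_lit 0x0) (nat_lit 0x2800f40078003d401cf00e70000000000000000000) := Q_48 (nat_lit 98) (C_48 L119404 (C_48 L119414 (C_48 L119421 (C_48 L119430 (C_48 L119438 (C_48 L119442 N_48)))))) (by decide +kernel)
theorem L119444 : W_48 (nat_lit 13) (nat_lit 0x9000580020001000000000000000000000000) (nat_lit 0x0) (nat_lit 0x2800f40078003d401ef00f70000000000000000000) := T_48 (nat_lit 97) (nat_lit 80) (nat_lit 6) (nat_lit 11) (nat_lit 8) L119443 (by decide +kernel)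
theorem L119445 : W_48 (nat_lit 14) (nat_lit 0x1000580020001000000000000000000000000) (nat_lit 0x0) (nat_lit 0x10003800fc0078003d401ef00f70000000000000000000) := Q_48 (nat_lit 147) (C_48 L119377 (C_48 L119393 (C_48 L119386 (C_48 L119444 N_48)))) (by decide +kernel)
theorem L119446 : W_48 (nat_lit 2) (nat_lit 0x100019000d80020001800000000000000000000000) (nat_lit 0x0) (nat_lit 0x2000000000000000040002000000000000000000000000) := D_48 (nat_lit 114) (nat_lit 97) (nat_lit 181) (nat_lit 6) (nat_lit 11) (nat_lit 9) (nat_lit 6) (nat_lit 11) (nat_lit 10) (by decide +kernel)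
theorem L119447 : W_48 (nat_lit 3) (nat_lit 0x19000d80020001800000000000000000000000) (nat_lit 0x0) (nat_lit 0x2000100000000000050002000000000000000000000000) := T_48 (nat_lit 164) (nat_lit 112) (nat_lit 4) (nat_lit 11) (nat_lit 9) L119446 (by decide +kernel)
theorem L119448 : W_48 (nat_lit 4) (nat_lit 0x19000580020001800000000000000000000000) (nat_lit 0x0) (nat_lit 0x2000100000000800050002000080000000000000000000) := T_48 (nat_lit 131) (nat_lit 79) (nat_lit 7) (nat_lit 11) (nat_lit 4) L119447 (by decide +kernel)
theorem L119449 : W_48 (nat_lit 5) (nat_lit 0x9000580020001800000000000000000000000) (nat_lit 0x0) (nat_lit 0x2000300010000800050002000080000000000000000000) := T_48 (nat_lit 148) (nat_lit 165) (nat_lit 7) (nat_lit 11) (nat_lit 5) L119448 (by decide +kernel)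
theorem L119450 : W_48 (nat_lit 6) (nat_lit 0x9000580020001000000000000000000000000) (nat_lit 0x0) (nat_lit 0x20003000100008000500028000c0000000000000000000) := T_48 (nat_lit 95) (nat_lit 78) (nat_lit 4) (nat_lit 11) (nat_lit 8) L119449 (by decide +kernel)
theorem L119451 : W_48 (nat_lit 2) (nat_lit 0xd0005800200010000c0000000000000000000) (nat_lit 0x0) (nat_lit 0x200010000800000000000000000000000000000000) := D_48 (nat_lit 148) (nat_lit 165) (nat_lit 131) (nat_lit 7) (nat_lit 11) (nat_lit 5) (nat_lit 7) (nat_lit 11) (nat_lit 4) (by decide +kernel)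
theorem L119452 : W_48 (nat_lit 3) (nat_lit 0xd000580020001000040000000000000000000) (nat_lit 0x0) (nat_lit 0x200010000800000000000080002000000000000000) := T_48 (nat_lit 79) (nat_lit 61) (nat_lit 4) (nat_lit 11) (nat_lit 7) L119451 (by decide +kernel)
theorem L119453 : W_48 (nat_lit 4) (nat_lit 0x9000580020001000040000000000000000000) (nat_lit 0x0) (nat_lit 0x280014000800000000000080002000000000000000) := T_48 (nat_lit 146) (nat_lit 163) (nat_lit 5) (nat_lit 11) (nat_lit 5) L119452 (by decide +kernel)
theorem L119454 : W_48 (nat_lit 5) (nat_lit 0x9000580020001000000000000000000000000) (nat_lit 0x0) (nat_lit 0x2800140008000000008000c0002000000000000000) := T_48 (nat_lit 78) (nat_lit 95) (nat_lit 4) (nat_lit 11) (nat_lit 8) L119453 (by decide +kernel)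
theorem L119455 : W_48 (nat_lit 7) (nat_lit 0x1000580020001000000000000000000000000) (nat_lit 0x0) (nat_lit 0x4000300038001c0008000500028000c0002000000000000000) := Q_48 (nat_lit 147) (C_48 L119382 (C_48 L119393 (C_48 L119450 (C_48 L119454 N_48)))) (by decide +kernel)
theorem L119456 : W_48 (nat_lit 2) (nat_lit 0x100009000580020003800000000000000000000000) (nat_lit 0x0) (nat_lit 0x4000200010000000000000000000000000000000000000) := D_48 (nat_lit 165) (nat_lit 148) (nat_lit 182) (nat_lit 7) (nat_lit 11) (nat_lit 5) (nat_lit 7) (nat_lit 11) (nat_lit 6) (by decide +kernel)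
theorem L119457 : W_48 (nat_lit 3) (nat_lit 0x9000580020003800000000000000000000000) (nat_lit 0x0) (nat_lit 0x4000300010000000010000000000000000000000000000) := T_48 (nat_lit 164) (nat_lit 112) (nat_lit 4) (nat_lit 11) (nat_lit 9) L119456 (by decide +kernel)
theorem L119458 : W_48 (nat_lit 4) (nat_lit 0x9000580020001800000000000000000000000) (nat_lit 0x0) (nat_lit 0x4000300010000000010002000100000000000000000000) := T_48 (nat_lit 97) (nat_lit 80) (nat_lit 6) (nat_lit 11) (nat_lit 8) L119457 (by decide +kernel)
theorem L119459 : W_48 (nat_lit 5) (nat_lit 0x9000580020001000000000000000000000000) (nat_lit 0x0) (nat_lit 0x4000300010000000010002800140000000000000000000) := T_48 (nat_lit 95) (nat_lit 78) (nat_lit 4) (nat_lit 11) (nat_lit 8) L119458 (by decide +kernel)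
theorem L119460 : W_48 (nat_lit 6) (nat_lit 0x1000580020001000000000000000000000000) (nat_lit 0x0) (nat_lit 0x500038001c0008000100028001c000a000000000000000) := Q_48 (nat_lit 147) (C_48 L119454 (C_48 L119459 (C_48 L119368 (C_48 L119393 N_48)))) (by decide +kernel)
theorem L119461 : W_48 (nat_lit 15) (nat_lit 0x1000580020000000000000000000000000000) (nat_lit 0x0) (nat_lit 0xc00070003800fc0078003d601ff00ff003f800700038001000) := Q_48 (nat_lit 96) (C_48 L119355 (C_48 L119364 (C_48 L119383 (C_48 L119394 (C_48 L119399 (C_48 L119445 (C_48 L119455 (C_48 L119460 N_48)))))))) (by decide +kernel)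
theorem L119462 : W_48 (nat_lit 2) (nat_lit 0xb9000d80160007800000000000000000000000) (nat_lit 0x0) (nat_lit 0x200018000000000000000000000000) := D_48 (nat_lit 99) (nat_lit 117) (nat_lit 100) (nat_lit 3) (nat_lit 11) (nat_lit 5) (nat_lit 1) (nat_lit 15) (nat_lit 5) (by decide +kernel)
theorem L119463 : W_48 (nat_lit 3) (nat_lit 0xb9000d80160003800000000000000000000000) (nat_lit 0x0) (nat_lit 0x20001c000200000000000000000000) := T_48 (nat_lit 98) (nat_lit 81) (nat_lit 6) (nat_lit 12) (nat_lit 8) L119462 (by decide +kernel)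
theorem L119464 : W_48 (nat_lit 4) (nat_lit 0x39000d80160003800000000000000000000000) (nat_lit 0x0) (nat_lit 0xc000000020001c000200000000000000000000) := T_48 (nat_lit 151) (nat_lit 150) (nat_lit 0) (nat_lit 15) (nat_lit 8) L119463 (by decide +kernel)
theorem L119465 : W_48 (nat_lit 5) (nat_lit 0x19000d80160003800000000000000000000000) (nat_lit 0x0) (nat_lit 0x4000e000000020001c000200000000000000000000) := T_48 (nat_lit 149) (nat_lit 166) (nat_lit 7) (nat_lit 12) (nat_lit 5) L119464 (by decide +kernel)
theorem L119466 : W_48 (nat_lit 6) (nat_lit 0x19000d80060003800000000000000000000000) (nat_lit 0x0) (nat_lit 0x4000e000000038001c000200000000000000000000) := T_48 (nat_lit 116) (nat_lit 115) (nat_lit 0) (nat_lit 14) (nat_lit 6) L119465 (by decide +kernel)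
theorem L119467 : W_48 (nat_lit 7) (nat_lit 0x19000d80020003800000000000000000000000) (nat_lit 0x0) (nat_lit 0x5000e00000003c001c000200000000000000000000) := T_48 (nat_lit 114) (nat_lit 164) (nat_lit 6) (nat_lit 11) (nat_lit 9) L119466 (by decide +kernel)
theorem L119468 : W_48 (nat_lit 8) (nat_lit 0x19000580020003800000000000000000000000) (nat_lit 0x0) (nat_lit 0x5000e00008003c001c000280000000000000000000) := T_48 (nat_lit 131) (nat_lit 79) (nat_lit 7) (nat_lit 11) (nat_lit 4) L119467 (by decide +kernel)
theorem L119469 : W_48 (nat_lit 9) (nat_lit 0x9000580020003800000000000000000000000) (nat_lit 0x0) (nat_lit 0x7000f00008003c001c000280000000000000000000) := T_48 (nat_lit 148) (nat_lit 165) (nat_lit 7) (nat_lit 11) (nat_lit 5) L119468 (by decide +kernel)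
theorem L119470 : W_48 (nat_lit 10) (nat_lit 0x9000580020001800000000000000000000000) (nat_lit 0x0) (nat_lit 0x7000f00008003c001e000380000000000000000000) := T_48 (nat_lit 97) (nat_lit 80) (nat_lit 6) (nat_lit 11) (nat_lit 8) L119469 (by decide +kernel)
theorem L119471 : W_48 (nat_lit 11) (nat_lit 0x9000580020001000000000000000000000000) (nat_lit 0x0) (nat_lit 0x7000f00008003c001e8003c0000000000000000000) := T_48 (nat_lit 95) (nat_lit 78) (nat_lit 4) (nat_lit 11) (nat_lit 8) L119470 (by decide +kernel)
theorem L119472 : W_48 (nat_lit 12) (nat_lit 0x9000580020000000000000000000000000000) (nat_lit 0x0) (nat_lit 0x400030007800f40008003c001f8003c000a000000000000000) := Q_48 (nat_lit 96) (C_48 L119454 (C_48 L119471 (C_48 L119382 (C_48 L119390 (C_48 L119377 N_48))))) (by decide +kernel)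
theorem L119473 : W_48 (nat_lit 2) (nat_lit 0x100009000580030000000000000000000000000000) (nat_lit 0x0) (nat_lit 0x48002000000000000000000000000) := D_48 (nat_lit 114) (nat_lit 111) (nat_lit 97) (nat_lit 1) (nat_lit 12) (nat_lit 6) (nat_lit 6) (nat_lit 11) (nat_lit 9) (by decide +kernel)
theorem L119474 : W_48 (nat_lit 3) (nat_lit 0x100009000580020000000000000000000000000000) (nat_lit 0x0) (nat_lit 0x58002800000000000000000000000) := T_48 (nat_lit 112) (nat_lit 95) (nat_lit 4) (nat_lit 11) (nat_lit 9) L119473 (by decide +kernel)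
theorem L119475 : W_48 (nat_lit 2) (nat_lit 0x300009000580020001000000000000000000000000) (nat_lit 0x0) (nat_lit 0x40002000100000000000000000000) := D_48 (nat_lit 97) (nat_lit 80) (nat_lit 114) (nat_lit 6) (nat_lit 11) (nat_lit 8) (nat_lit 6) (nat_lit 11) (nat_lit 9) (by decide +kernel)
theorem L119476 : W_48 (nat_lit 3) (nat_lit 0x300009000580020000000000000000000000000000) (nat_lit 0x0) (nat_lit 0x10000000040003000100000000000000000000) := T_48 (nat_lit 96) (nat_lit 148) (nat_lit 7) (nat_lit 11) (nat_lit 5) L119475 (by decide +kernel)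
theorem L119477 : W_48 (nat_lit 4) (nat_lit 0x100009000580020000000000000000000000000000) (nat_lit 0x0) (nat_lit 0x4000200010000000040003000100000000000000000000) := T_48 (nat_lit 165) (nat_lit 182) (nat_lit 7) (nat_lit 11) (nat_lit 6) L119476 (by decide +kernel)
theorem L119478 : W_48 (nat_lit 5) (nat_lit 0x100009000580030000000000000000000000000000) (nat_lit 0x0) (nat_lit 0x5000280014000000048001000000000000000000000000) := T_48 (nat_lit 114) (nat_lit 111) (nat_lit 1) (nat_lit 12) (nat_lit 6) L118168 (by decide +kernel)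
theorem L119479 : W_48 (nat_lit 6) (nat_lit 0x100009000580020000000000000000000000000000) (nat_lit 0x0) (nat_lit 0x5000280014000000058001800000000000000000000000) := T_48 (nat_lit 112) (nat_lit 95) (nat_lit 4) (nat_lit 11) (nat_lit 9) L119478 (by decide +kernel)
theorem L119480 : W_48 (nat_lit 2) (nat_lit 0x300009000580020001000000000000000000000000) (nat_lit 0x0) (nat_lit 0x1000080004000000000000000000000000000000000000) := D_48 (nat_lit 163) (nat_lit 180) (nat_lit 146) (nat_lit 5) (nat_lit 11) (nat_lit 6) (nat_lit 5) (nat_lit 11) (nat_lit 5) (by decide +kernel)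
theorem L119481 : W_48 (nat_lit 3) (nat_lit 0x300009000580020000000000000000000000000000) (nat_lit 0x0) (nat_lit 0x1000080014000000000001000000000000000000000000) := T_48 (nat_lit 96) (nat_lit 148) (nat_lit 7) (nat_lit 11) (nat_lit 5) L119480 (by decide +kernel)
theorem L119482 : W_48 (nat_lit 4) (nat_lit 0x100009000580020000000000000000000000000000) (nat_lit 0x0) (nat_lit 0x5000280014000000000001000000000000000000000000) := T_48 (nat_lit 165) (nat_lit 182) (nat_lit 7) (nat_lit 11) (nat_lit 6) L119481 (by decide +kernel)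
theorem L119483 : W_48 (nat_lit 7) (nat_lit 0x9000580020000000000000000000000000000) (nat_lit 0x0) (nat_lit 0x5000380014000000058003800100000000000000000000) := Q_48 (nat_lit 164) (C_48 L119474 (C_48 L119477 (C_48 L119479 (C_48 L119482 N_48)))) (by decide +kernel)
theorem L119484 : W_48 (nat_lit 2) (nat_lit 0x19000580020001000080000000000000000000) (nat_lit 0x0) (nat_lit 0x2000100008000000000000000) := D_48 (nat_lit 80) (nat_lit 63) (nat_lit 97) (nat_lit 6) (nat_lit 11) (nat_lit 7) (nat_lit 6) (nat_lit 11) (nat_lit 8) (by decide +kernel)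
theorem L119485 : W_48 (nat_lit 3) (nat_lit 0x19000580020001000000000000000000000000) (nat_lit 0x0) (nat_lit 0x800000002000180008000000000000000) := T_48 (nat_lit 79) (nat_lit 131) (nat_lit 7) (nat_lit 11) (nat_lit 4) L119484 (by decide +kernel)
theorem L119486 : W_48 (nat_lit 4) (nat_lit 0x9000580020001000000000000000000000000) (nat_lit 0x0) (nat_lit 0x200010000800000002000180008000000000000000) := T_48 (nat_lit 148) (nat_lit 165) (nat_lit 7) (nat_lit 11) (nat_lit 5) L119485 (by decide +kernel)
theorem L119487 : W_48 (nat_lit 2) (nat_lit 0x40000001900058003c001800580006800000000000000) (nat_lit 0x0) (nat_lit 0x300010000000000000000000) := D_48 (nat_lit 93) (nat_lit 92) (nat_lit 76) (nat_lit 0) (nat_lit 11) (nat_lit 6) (nat_lit 7) (nat_lit 8) (nat_lit 3) (by decide +kernel)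
theorem L119488 : W_48 (nat_lit 3) (nat_lit 0x400000019000580038001800580006800000000000000) (nat_lit 0x0) (nat_lit 0x6000300010000000000000000000) := T_48 (nat_lit 110) (nat_lit 109) (nat_lit 2) (nat_lit 7) (nat_lit 6) L119487 (by decide +kernel)
theorem L119489 : W_48 (nat_lit 4) (nat_lit 0x400000019000580038001800580006000000000000000) (nat_lit 0x0) (nat_lit 0x6000300010001800000000000000) := T_48 (nat_lit 59) (nat_lit 60) (nat_lit 3) (nat_lit 8) (nat_lit 3) L119488 (by decide +kernel)
theorem L119490 : W_48 (nat_lit 5) (nat_lit 0x400000019000580038001800580004000000000000000) (nat_lit 0x0) (nat_lit 0x6000300010003800100000000000) := T_48 (nat_lit 61) (nat_lit 44) (nat_lit 4) (nat_lit 11) (nat_lit 6) L119489 (by decide +kernel)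
theorem L119491 : W_48 (nat_lit 6) (nat_lit 0x19000580038001800580004000000000000000) (nat_lit 0x0) (nat_lit 0x400020000000000006000300010003800100000000000) := T_48 (nat_lit 178) (nat_lit 161) (nat_lit 6) (nat_lit 8) (nat_lit 10) L119490 (by decide +kernel)
theorem L119492 : W_48 (nat_lit 7) (nat_lit 0x19000580038001800580000000000000000000) (nat_lit 0x0) (nat_lit 0x400020000000000006000300010007800300000000000) := T_48 (nat_lit 62) (nat_lit 45) (nat_lit 5) (nat_lit 11) (nat_lit 2) L119491 (by decide +kernel)
theorem L119493 : W_48 (nat_lit 8) (nat_lit 0x19000580030001800580000000000000000000) (nat_lit 0x0) (nat_lit 0x40002000000000004e000300010007800300000000000) := T_48 (nat_lit 111) (nat_lit 114) (nat_lit 1) (nat_lit 12) (nat_lit 6) L119492 (by decide +kernel)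
theorem L119494 : W_48 (nat_lit 9) (nat_lit 0x19000580020001800580000000000000000000) (nat_lit 0x0) (nat_lit 0x40012000000000005e000300010007800300000000000) := T_48 (nat_lit 112) (nat_lit 164) (nat_lit 4) (nat_lit 11) (nat_lit 9) L119493 (by decide +kernel)
theorem L119495 : W_48 (nat_lit 10) (nat_lit 0x19000580020001800180000000000000000000) (nat_lit 0x0) (nat_lit 0x40012000000000005e000300610007800300000000000) := T_48 (nat_lit 82) (nat_lit 81) (nat_lit 1) (nat_lit 14) (nat_lit 4) L119494 (by decide +kernel)
theorem L119496 : W_48 (nat_lit 11) (nat_lit 0x19000580020001800080000000000000000000) (nat_lit 0x0) (nat_lit 0x40012000000000005e00030071000f800300000000000) := T_48 (nat_lit 80) (nat_lit 63) (nat_lit 6) (nat_lit 11) (nat_lit 7) L119495 (by decide +kernel)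
theorem L119497 : W_48 (nat_lit 12) (nat_lit 0x19000580020001800000000000000000000000) (nat_lit 0x0) (nat_lit 0x40012000000080005e00030079000f800300000000000) := T_48 (nat_lit 79) (nat_lit 131) (nat_lit 7) (nat_lit 11) (nat_lit 4) L119496 (by decide +kernel)
theorem L119498 : W_48 (nat_lit 13) (nat_lit 0x9000580020001800000000000000000000000) (nat_lit 0x0) (nat_lit 0x40032001000080005e00030079000f800300000000000) := T_48 (nat_lit 148) (nat_lit 165) (nat_lit 7) (nat_lit 11) (nat_lit 5) L119497 (by decide +kernel)
theorem L119499 : W_48 (nat_lit 14) (nat_lit 0x9000580020001000000000000000000000000) (nat_lit 0x0) (nat_lit 0x40032001000080005e000b007d000f800300000000000) := T_48 (nat_lit 95) (nat_lit 78) (nat_lit 4) (nat_lit 11) (nat_lit 8) L119498 (by decide +kernel)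
theorem L119500 : W_48 (nat_lit 15) (nat_lit 0x9000580020000000000000000000000000000) (nat_lit 0x0) (nat_lit 0x24007200f00008003de01fb007d000f800300000000000) := Q_48 (nat_lit 96) (C_48 L119471 (C_48 L119374 (C_48 L119486 (C_48 L119386 (C_48 L119499 (C_48 L119450 N_48)))))) (by decide +kernel)
theorem L119501 : W_48 (nat_lit 2) (nat_lit 0x2400fc0029000580068000000000000000000000000000) (nat_lit 0x0) (nat_lit 0x38000000000000000000000000000000000000000000000) := D_48 (nat_lit 184) (nat_lit 183) (nat_lit 185) (nat_lit 3) (nat_lit 10) (nat_lit 9) (nat_lit 3) (nat_lit 11) (nat_lit 9) (by decide +kernel)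
theorem L119502 : W_48 (nat_lit 3) (nat_lit 0x24007c0029000580068000000000000000000000000000) (nat_lit 0x0) (nat_lit 0x38000800004000000000000000000000000000000000000) := T_48 (nat_lit 167) (nat_lit 146) (nat_lit 0) (nat_lit 14) (nat_lit 9) L119501 (by decide +kernel)
theorem L119503 : W_48 (nat_lit 4) (nat_lit 0x24003c0029000580068000000000000000000000000000) (nat_lit 0x0) (nat_lit 0x38000c00044000000000000000000000000000000000000) := T_48 (nat_lit 166) (nat_lit 150) (nat_lit 2) (nat_lit 10) (nat_lit 9) L119502 (by decide +kernel)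
theorem L119504 : W_48 (nat_lit 5) (nat_lit 0x24003c0009000580068000000000000000000000000000) (nat_lit 0x0) (nat_lit 0x38000c00074000000000000000000000000000000000000) := T_48 (nat_lit 149) (nat_lit 148) (nat_lit 2) (nat_lit 9) (nat_lit 9) L119503 (by decide +kernel)
theorem L119505 : W_48 (nat_lit 6) (nat_lit 0x2400380009000580068000000000000000000000000000) (nat_lit 0x0) (nat_lit 0x38800c40074000000000000000000000000000000000000) := T_48 (nat_lit 162) (nat_lit 179) (nat_lit 1) (nat_lit 12) (nat_lit 9) L119504 (by decide +kernel)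
theorem L119506 : W_48 (nat_lit 7) (nat_lit 0x2000380009000580068000000000000000000000000000) (nat_lit 0x0) (nat_lit 0x38c00c60074000000000000000000000000000000000000) := T_48 (nat_lit 178) (nat_lit 161) (nat_lit 6) (nat_lit 8) (nat_lit 10) L119505 (by decide +kernel)
theorem L119507 : W_48 (nat_lit 8) (nat_lit 0x380009000580068000000000000000000000000000) (nat_lit 0x0) (nat_lit 0x3ac00c60074000800000000000000000000000000000000) := T_48 (nat_lit 181) (nat_lit 131) (nat_lit 6) (nat_lit 11) (nat_lit 10) L119506 (by decide +kernel)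
theorem L119508 : W_48 (nat_lit 9) (nat_lit 0x380009000580060000000000000000000000000000) (nat_lit 0x0) (nat_lit 0x3ac00c60074000800018000000000000000000000000000) := T_48 (nat_lit 111) (nat_lit 112) (nat_lit 1) (nat_lit 12) (nat_lit 6) L119507 (by decide +kernel)
theorem L119509 : W_48 (nat_lit 10) (nat_lit 0x380009000580020000000000000000000000000000) (nat_lit 0x0) (nat_lit 0x3ac00c60074000800058002000000000000000000000000) := T_48 (nat_lit 114) (nat_lit 97) (nat_lit 6) (nat_lit 11) (nat_lit 9) L119508 (by decide +kernel)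
theorem L119510 : W_48 (nat_lit 11) (nat_lit 0x180009000580020000000000000000000000000000) (nat_lit 0x0) (nat_lit 0x3ec00e60074000800058002000000000000000000000000) := T_48 (nat_lit 165) (nat_lit 182) (nat_lit 7) (nat_lit 11) (nat_lit 6) L119509 (by decide +kernel)
theorem L119511 : W_48 (nat_lit 12) (nat_lit 0x100009000580020000000000000000000000000000) (nat_lit 0x0) (nat_lit 0x3fc00ee0074000800058002000000000000000000000000) := T_48 (nat_lit 163) (nat_lit 180) (nat_lit 5) (nat_lit 11) (nat_lit 6) L119510 (by decide +kernel)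
theorem L119512 : W_48 (nat_lit 2) (nat_lit 0x2000100009000580070000000000000000000000000000) (nat_lit 0x0) (nat_lit 0x20001000080000000000000000000000000000000000000000) := D_48 (nat_lit 180) (nat_lit 197) (nat_lit 163) (nat_lit 5) (nat_lit 11) (nat_lit 7) (nat_lit 5) (nat_lit 11) (nat_lit 6) (by decide +kernel)
theorem L119513 : W_48 (nat_lit 3) (nat_lit 0x100009000580070000000000000000000000000000) (nat_lit 0x0) (nat_lit 0x20003000080000000800000000000000000000000000000000) := T_48 (nat_lit 181) (nat_lit 131) (nat_lit 6) (nat_lit 11) (nat_lit 10) L119512 (by decide +kernel)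
theorem L119514 : W_48 (nat_lit 4) (nat_lit 0x100009000580060000000000000000000000000000) (nat_lit 0x0) (nat_lit 0x20003000080000000800018000000000000000000000000000) := T_48 (nat_lit 112) (nat_lit 111) (nat_lit 1) (nat_lit 12) (nat_lit 6) L119513 (by decide +kernel)
theorem L119515 : W_48 (nat_lit 5) (nat_lit 0x100009000580020000000000000000000000000000) (nat_lit 0x0) (nat_lit 0x20003000080000000800058002000000000000000000000000) := T_48 (nat_lit 114) (nat_lit 97) (nat_lit 6) (nat_lit 11) (nat_lit 9) L119514 (by decide +kernel)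
theorem L119516 : W_48 (nat_lit 13) (nat_lit 0x9000580020000000000000000000000000000) (nat_lit 0x0) (nat_lit 0x2003fc00fe0074000800058003000100000000000000000000) := Q_48 (nat_lit 164) (C_48 L119511 (C_48 L119482 (C_48 L119477 (C_48 L119515 N_48)))) (by decide +kernel)
theorem L119517 : W_48 (nat_lit 2) (nat_lit 0x19000580170007800000000000000000000000) (nat_lit 0x0) (nat_lit 0x800000000000600000000000000000000) := D_48 (nat_lit 81) (nat_lit 131) (nat_lit 82) (nat_lit 6) (nat_lit 12) (nat_lit 8) (nat_lit 2) (nat_lit 10) (nat_lit 5) (by decide +kernel)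
theorem L119518 : W_48 (nat_lit 3) (nat_lit 0x9000580170007800000000000000000000000) (nat_lit 0x0) (nat_lit 0x200010000800000000000600000000000000000000) := T_48 (nat_lit 148) (nat_lit 165) (nat_lit 7) (nat_lit 11) (nat_lit 5) L119517 (by decide +kernel)
theorem L119519 : W_48 (nat_lit 4) (nat_lit 0x9000580170003800000000000000000000000) (nat_lit 0x0) (nat_lit 0x20001000080000000c000600000000000000000000) := T_48 (nat_lit 98) (nat_lit 99) (nat_lit 1) (nat_lit 14) (nat_lit 5) L119518 (by decide +kernel)
theorem L119520 : W_48 (nat_lit 5) (nat_lit 0x9000580170001800000000000000000000000) (nat_lit 0x0) (nat_lit 0x20001000080000000e000700000000000000000000) := T_48 (nat_lit 97) (nat_lit 80) (nat_lit 6) (nat_lit 11) (nat_lit 8) L119519 (by decide +kernel)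
theorem L119521 : W_48 (nat_lit 6) (nat_lit 0x9000580070001800000000000000000000000) (nat_lit 0x0) (nat_lit 0x20001000080018000e000700000000000000000000) := T_48 (nat_lit 116) (nat_lit 115) (nat_lit 0) (nat_lit 14) (nat_lit 6) L119520 (by decide +kernel)
theorem L119522 : W_48 (nat_lit 7) (nat_lit 0x9000580030001800000000000000000000000) (nat_lit 0x0) (nat_lit 0x2000100008001c800e000700000000000000000000) := T_48 (nat_lit 114) (nat_lit 111) (nat_lit 1) (nat_lit 12) (nat_lit 6) L119521 (by decide +kernel)
theorem L119523 : W_48 (nat_lit 8) (nat_lit 0x9000580030001000000000000000000000000) (nat_lit 0x0) (nat_lit 0x2000100008001c800e800740000000000000000000) := T_48 (nat_lit 95) (nat_lit 78) (nat_lit 4) (nat_lit 11) (nat_lit 8) L119522 (by decide +kernel)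
theorem L119524 : W_48 (nat_lit 2) (nat_lit 0x1d0005800b0007800200000000000000000000) (nat_lit 0x0) (nat_lit 0x1800040000000000000000000000000000) := D_48 (nat_lit 131) (nat_lit 132) (nat_lit 114) (nat_lit 5) (nat_lit 13) (nat_lit 4) (nat_lit 6) (nat_lit 12) (nat_lit 8) (by decide +kernel)
theorem L119525 : W_48 (nat_lit 3) (nat_lit 0x1d0005800b0007800000000000000000000000) (nat_lit 0x0) (nat_lit 0x1800040000000600000000000000000000) := T_48 (nat_lit 81) (nat_lit 82) (nat_lit 2) (nat_lit 10) (nat_lit 5) L119524 (by decide +kernel)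
theorem L119526 : W_48 (nat_lit 4) (nat_lit 0x1d000580030007800000000000000000000000) (nat_lit 0x0) (nat_lit 0x18001c0000000600000000000000000000) := T_48 (nat_lit 115) (nat_lit 116) (nat_lit 3) (nat_lit 10) (nat_lit 5) L119525 (by decide +kernel)
theorem L119527 : W_48 (nat_lit 5) (nat_lit 0x19000580030007800000000000000000000000) (nat_lit 0x0) (nat_lit 0x800040018001c0000000600000000000000000000) := T_48 (nat_lit 146) (nat_lit 163) (nat_lit 5) (nat_lit 11) (nat_lit 5) L119526 (by decide +kernel)
theorem L119528 : W_48 (nat_lit 6) (nat_lit 0x19000580030003800000000000000000000000) (nat_lit 0x0) (nat_lit 0x800040018001c000c000600000000000000000000) := T_48 (nat_lit 98) (nat_lit 99) (nat_lit 1) (nat_lit 14) (nat_lit 5) L119527 (by decide +kernel)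
theorem L119529 : W_48 (nat_lit 7) (nat_lit 0x19000580030001800000000000000000000000) (nat_lit 0x0) (nat_lit 0x800040018001c000e000700000000000000000000) := T_48 (nat_lit 97) (nat_lit 80) (nat_lit 6) (nat_lit 11) (nat_lit 8) L119528 (by decide +kernel)
theorem L119530 : W_48 (nat_lit 8) (nat_lit 0x19000580030001000000000000000000000000) (nat_lit 0x0) (nat_lit 0x800040018001c000e800740000000000000000000) := T_48 (nat_lit 95) (nat_lit 78) (nat_lit 4) (nat_lit 11) (nat_lit 8) L119529 (by decide +kernel)
theorem L119531 : W_48 (nat_lit 9) (nat_lit 0x9000580030001000000000000000000000000) (nat_lit 0x0) (nat_lit 0x2800140018001c000e800740000000000000000000) := T_48 (nat_lit 148) (nat_lit 165) (nat_lit 7) (nat_lit 11) (nat_lit 5) L119530 (by decide +kernel)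
theorem L119532 : W_48 (nat_lit 6) (nat_lit 0x1d000580070003000000000000000000000000) (nat_lit 0x0) (nat_lit 0x4000e000780000000c000200000000000000000000) := T_48 (nat_lit 98) (nat_lit 99) (nat_lit 1) (nat_lit 14) (nat_lit 5) L117846 (by decide +kernel)
theorem L119533 : W_48 (nat_lit 7) (nat_lit 0x1d000580070001000000000000000000000000) (nat_lit 0x0) (nat_lit 0x4000e000780000000e000300000000000000000000) := T_48 (nat_lit 97) (nat_lit 80) (nat_lit 6) (nat_lit 11) (nat_lit 8) L119532 (by decide +kernel)
theorem L119534 : W_48 (nat_lit 8) (nat_lit 0x1d000580030001000000000000000000000000) (nat_lit 0x0) (nat_lit 0x4000e000780004800e000300000000000000000000) := T_48 (nat_lit 114) (nat_lit 111) (nat_lit 1) (nat_lit 12) (nat_lit 6) L119533 (by decide +kernel)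
theorem L119535 : W_48 (nat_lit 9) (nat_lit 0xd000580030001000000000000000000000000) (nat_lit 0x0) (nat_lit 0x6000f000780004800e000300000000000000000000) := T_48 (nat_lit 148) (nat_lit 165) (nat_lit 7) (nat_lit 11) (nat_lit 5) L119534 (by decide +kernel)
theorem L119536 : W_48 (nat_lit 10) (nat_lit 0x9000580030001000000000000000000000000) (nat_lit 0x0) (nat_lit 0x6800f400780004800e000300000000000000000000) := T_48 (nat_lit 146) (nat_lit 163) (nat_lit 5) (nat_lit 11) (nat_lit 5) L119535 (by decide +kernel)
theorem L119537 : W_48 (nat_lit 2) (nat_lit 0x9000580030003000000000000000000000000) (nat_lit 0x0) (nat_lit 0x4c000000000000000000000000000) := D_48 (nat_lit 111) (nat_lit 110) (nat_lit 114) (nat_lit 2) (nat_lit 8) (nat_lit 6) (nat_lit 1) (nat_lit 12) (nat_lit 6) (by decide +kernel)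
theorem L119538 : W_48 (nat_lit 3) (nat_lit 0x9000580030001000000000000000000000000) (nat_lit 0x0) (nat_lit 0x4c002000100000000000000000000) := T_48 (nat_lit 97) (nat_lit 80) (nat_lit 6) (nat_lit 11) (nat_lit 8) L119537 (by decide +kernel)
theorem L119539 : W_48 (nat_lit 2) (nat_lit 0x1d0015800f0005800200028000000000000000) (nat_lit 0x0) (nat_lit 0x10001400000000000) := D_48 (nat_lit 64) (nat_lit 48) (nat_lit 46) (nat_lit 6) (nat_lit 13) (nat_lit 6) (nat_lit 4) (nat_lit 13) (nat_lit 6) (by decide +kernel)
theorem L119540 : W_48 (nat_lit 3) (nat_lit 0x1d0015800f0005800200020000000000000000) (nat_lit 0x0) (nat_lit 0x100018001400000000000) := T_48 (nat_lit 63) (nat_lit 80) (nat_lit 4) (nat_lit 13) (nat_lit 7) L119539 (by decide +kernel)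
theorem L119541 : W_48 (nat_lit 4) (nat_lit 0x1d0015800f0005800200000000000000000000) (nat_lit 0x0) (nat_lit 0x500038001400000000000) := T_48 (nat_lit 65) (nat_lit 82) (nat_lit 6) (nat_lit 13) (nat_lit 7) L119540 (by decide +kernel)
theorem L119542 : W_48 (nat_lit 5) (nat_lit 0x1d0015800f0005800000000000000000000000) (nat_lit 0x0) (nat_lit 0x800000000000700038001400000000000) := T_48 (nat_lit 81) (nat_lit 131) (nat_lit 5) (nat_lit 13) (nat_lit 4) L119541 (by decide +kernel)
theorem L119543 : W_48 (nat_lit 6) (nat_lit 0x1d0005800f0005800000000000000000000000) (nat_lit 0x0) (nat_lit 0x3800000000000700038001400000000000) := T_48 (nat_lit 132) (nat_lit 133) (nat_lit 3) (nat_lit 10) (nat_lit 6) L119542 (by decide +kernel)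
theorem L119544 : W_48 (nat_lit 7) (nat_lit 0x1d0005800f0001800000000000000000000000) (nat_lit 0x0) (nat_lit 0x380000000c000700038001400000000000) := T_48 (nat_lit 98) (nat_lit 99) (nat_lit 2) (nat_lit 10) (nat_lit 6) L119543 (by decide +kernel)
theorem L119545 : W_48 (nat_lit 8) (nat_lit 0x1d000580070001800000000000000000000000) (nat_lit 0x0) (nat_lit 0x380018000c000700038001400000000000) := T_48 (nat_lit 115) (nat_lit 116) (nat_lit 0) (nat_lit 14) (nat_lit 6) L119544 (by decide +kernel)
theorem L119546 : W_48 (nat_lit 9) (nat_lit 0x1d000580030001800000000000000000000000) (nat_lit 0x0) (nat_lit 0x38001c800c000700038001400000000000) := T_48 (nat_lit 114) (nat_lit 111) (nat_lit 1) (nat_lit 12) (nat_lit 6) L119545 (by decide +kernel)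
theorem L119547 : W_48 (nat_lit 10) (nat_lit 0x1d000580030001000000000000000000000000) (nat_lit 0x0) (nat_lit 0x38001c800c800740038001400000000000) := T_48 (nat_lit 95) (nat_lit 78) (nat_lit 4) (nat_lit 11) (nat_lit 8) L119546 (by decide +kernel)
theorem L119548 : W_48 (nat_lit 11) (nat_lit 0xd000580030001000000000000000000000000) (nat_lit 0x0) (nat_lit 0x2000100038001c800c800740038001400000000000) := T_48 (nat_lit 148) (nat_lit 165) (nat_lit 7) (nat_lit 11) (nat_lit 5) L119547 (by decide +kernel)
theorem L119549 : W_48 (nat_lit 12) (nat_lit 0x9000580030001000000000000000000000000) (nat_lit 0x0) (nat_lit 0x2800140038001c800c800740038001400000000000) := T_48 (nat_lit 146) (nat_lit 163) (nat_lit 5) (nat_lit 11) (nat_lit 5) L119548 (by decide +kernel)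
theorem L119550 : W_48 (nat_lit 2) (nat_lit 0x1d0015800f0005800200000000000000000000) (nat_lit 0x0) (nat_lit 0x2000400020000000000000000) := D_48 (nat_lit 82) (nat_lit 65) (nat_lit 97) (nat_lit 6) (nat_lit 13) (nat_lit 7) (nat_lit 2) (nat_lit 10) (nat_lit 5) (by decide +kernel)
theorem L119551 : W_48 (nat_lit 3) (nat_lit 0x1d0015800f0005800000000000000000000000) (nat_lit 0x0) (nat_lit 0x800000002000600020000000000000000) := T_48 (nat_lit 81) (nat_lit 131) (nat_lit 5) (nat_lit 13) (nat_lit 4) L119550 (by decide +kernel)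
theorem L119552 : W_48 (nat_lit 4) (nat_lit 0x1d0005800f0005800000000000000000000000) (nat_lit 0x0) (nat_lit 0x3800000002000600020000000000000000) := T_48 (nat_lit 132) (nat_lit 133) (nat_lit 3) (nat_lit 10) (nat_lit 6) L119551 (by decide +kernel)
theorem L119553 : W_48 (nat_lit 5) (nat_lit 0x1d0005800f0001800000000000000000000000) (nat_lit 0x0) (nat_lit 0x380000000e000600020000000000000000) := T_48 (nat_lit 98) (nat_lit 99) (nat_lit 2) (nat_lit 10) (nat_lit 6) L119552 (by decide +kernel)
theorem L119554 : W_48 (nat_lit 6) (nat_lit 0x1d000580070001800000000000000000000000) (nat_lit 0x0) (nat_lit 0x380018000e000600020000000000000000) := T_48 (nat_lit 115) (nat_lit 116) (nat_lit 0) (nat_lit 14) (nat_lit 6) L119553 (by decide +kernel)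
theorem L119555 : W_48 (nat_lit 7) (nat_lit 0x1d000580070001000000000000000000000000) (nat_lit 0x0) (nat_lit 0x380018000e800640020000000000000000) := T_48 (nat_lit 95) (nat_lit 78) (nat_lit 4) (nat_lit 11) (nat_lit 8) L119554 (by decide +kernel)
theorem L119556 : W_48 (nat_lit 8) (nat_lit 0xd000580070001000000000000000000000000) (nat_lit 0x0) (nat_lit 0x20001000380018000e800640020000000000000000) := T_48 (nat_lit 148) (nat_lit 165) (nat_lit 7) (nat_lit 11) (nat_lit 5) L119555 (by decide +kernel)
theorem L119557 : W_48 (nat_lit 9) (nat_lit 0x9000580070001000000000000000000000000) (nat_lit 0x0) (nat_lit 0x28001400380018000e800640020000000000000000) := T_48 (nat_lit 146) (nat_lit 163) (nat_lit 5) (nat_lit 11) (nat_lit 5) L119556 (by decide +kernel)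
theorem L119558 : W_48 (nat_lit 10) (nat_lit 0x9000580030001000000000000000000000000) (nat_lit 0x0) (nat_lit 0x2800140038001c800e800640020000000000000000) := T_48 (nat_lit 114) (nat_lit 111) (nat_lit 1) (nat_lit 12) (nat_lit 6) L119557 (by decide +kernel)
theorem L119559 : W_48 (nat_lit 2) (nat_lit 0x9000580030003800000000000000000000000) (nat_lit 0x0) (nat_lit 0xc004000000000000000000000000) := D_48 (nat_lit 111) (nat_lit 110) (nat_lit 98) (nat_lit 2) (nat_lit 8) (nat_lit 6) (nat_lit 1) (nat_lit 13) (nat_lit 5) (by decide +kernel)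
theorem L119560 : W_48 (nat_lit 3) (nat_lit 0x9000580030001800000000000000000000000) (nat_lit 0x0) (nat_lit 0xc006000100000000000000000000) := T_48 (nat_lit 97) (nat_lit 80) (nat_lit 6) (nat_lit 11) (nat_lit 8) L119559 (by decide +kernel)
theorem L119561 : W_48 (nat_lit 4) (nat_lit 0x9000580030001000000000000000000000000) (nat_lit 0x0) (nat_lit 0xc006800140000000000000000000) := T_48 (nat_lit 95) (nat_lit 78) (nat_lit 4) (nat_lit 11) (nat_lit 8) L119560 (by decide +kernel)
theorem L119562 : W_48 (nat_lit 13) (nat_lit 0x9000580020001000000000000000000000000) (nat_lit 0x0) (nat_lit 0x6800f40078001dc00e800740038001400000000000) := Q_48 (nat_lit 112) (C_48 L119523 (C_48 L119531 (C_48 L119536 (C_48 L119538 (C_48 L119549 (C_48 L119558 (C_48 L119561 N_48))))))) (by decide +kernel)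
theorem L119563 : W_48 (nat_lit 14) (nat_lit 0x9000580020000000000000000000000000000) (nat_lit 0x0) (nat_lit 0x6800f40078001dc00f8007c003a001400000000000) := Q_48 (nat_lit 96) (C_48 L119486 (C_48 L119390 (C_48 L119454 (C_48 L119562 N_48)))) (by decide +kernel)
theorem L119564 : W_48 (nat_lit 2) (nat_lit 0x1000300009000580060000000000000000000000000000) (nat_lit 0x0) (nat_lit 0x20002000000000000800000000000000000000000000000000) := D_48 (nat_lit 181) (nat_lit 131) (nat_lit 197) (nat_lit 6) (nat_lit 11) (nat_lit 10) (nat_lit 5) (nat_lit 11) (nat_lit 7) (by decide +kernel)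
theorem L119565 : W_48 (nat_lit 3) (nat_lit 0x300009000580060000000000000000000000000000) (nat_lit 0x0) (nat_lit 0x20003000080000000800000000000000000000000000000000) := T_48 (nat_lit 180) (nat_lit 163) (nat_lit 5) (nat_lit 11) (nat_lit 6) L119564 (by decide +kernel)
theorem L119566 : W_48 (nat_lit 4) (nat_lit 0x300009000580020000000000000000000000000000) (nat_lit 0x0) (nat_lit 0x20003000080000000800040002000000000000000000000000) := T_48 (nat_lit 114) (nat_lit 97) (nat_lit 6) (nat_lit 11) (nat_lit 9) L119565 (by decide +kernel)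
theorem L119567 : W_48 (nat_lit 5) (nat_lit 0x100009000580020000000000000000000000000000) (nat_lit 0x0) (nat_lit 0x20007000280000000800040002000000000000000000000000) := T_48 (nat_lit 165) (nat_lit 182) (nat_lit 7) (nat_lit 11) (nat_lit 6) L119566 (by decide +kernel)
theorem L119568 : W_48 (nat_lit 2) (nat_lit 0x400fc002900058003c000200000000800000000000000) (nat_lit 0x0) (nat_lit 0x38000000000000000000000000000000000000000000000) := D_48 (nat_lit 184) (nat_lit 183) (nat_lit 185) (nat_lit 3) (nat_lit 10) (nat_lit 9) (nat_lit 3) (nat_lit 11) (nat_lit 9) (by decide +kernel)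
theorem L119569 : W_48 (nat_lit 3) (nat_lit 0x4007c002900058003c000200000000800000000000000) (nat_lit 0x0) (nat_lit 0x38000800004000000000000000000000000000000000000) := T_48 (nat_lit 167) (nat_lit 146) (nat_lit 0) (nat_lit 14) (nat_lit 9) L119568 (by decide +kernel)
theorem L119570 : W_48 (nat_lit 4) (nat_lit 0x4003c002900058003c000200000000800000000000000) (nat_lit 0x0) (nat_lit 0x38000c00044000000000000000000000000000000000000) := T_48 (nat_lit 166) (nat_lit 150) (nat_lit 2) (nat_lit 10) (nat_lit 9) L119569 (by decide +kernel)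
theorem L119571 : W_48 (nat_lit 5) (nat_lit 0x4003c000900058003c000200000000800000000000000) (nat_lit 0x0) (nat_lit 0x38000c00074000000000000000000000000000000000000) := T_48 (nat_lit 149) (nat_lit 148) (nat_lit 2) (nat_lit 9) (nat_lit 9) L119570 (by decide +kernel)
theorem L119572 : W_48 (nat_lit 6) (nat_lit 0x4003c000900058003c000200000000000000000000000) (nat_lit 0x0) (nat_lit 0x38000c00074000000000000000010000800000000000000) := T_48 (nat_lit 59) (nat_lit 76) (nat_lit 7) (nat_lit 8) (nat_lit 3) L119571 (by decide +kernel)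
theorem L119573 : W_48 (nat_lit 7) (nat_lit 0x40038000900058003c000200000000000000000000000) (nat_lit 0x0) (nat_lit 0x38800c40074000000000000000010000800000000000000) := T_48 (nat_lit 162) (nat_lit 179) (nat_lit 1) (nat_lit 12) (nat_lit 9) L119572 (by decide +kernel)
theorem L119574 : W_48 (nat_lit 8) (nat_lit 0x38000900058003c000200000000000000000000000) (nat_lit 0x0) (nat_lit 0x38c00c60074000000000000000010000800000000000000) := T_48 (nat_lit 178) (nat_lit 161) (nat_lit 6) (nat_lit 8) (nat_lit 10) L119573 (by decide +kernel)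
theorem L119575 : W_48 (nat_lit 9) (nat_lit 0x38000900058003c000000000000000000000000000) (nat_lit 0x0) (nat_lit 0x38c00c60074000000000000300010000800000000000000) := T_48 (nat_lit 93) (nat_lit 92) (nat_lit 0) (nat_lit 11) (nat_lit 6) L119574 (by decide +kernel)
theorem L119576 : W_48 (nat_lit 10) (nat_lit 0x380009000580038000000000000000000000000000) (nat_lit 0x0) (nat_lit 0x38c00c60074000800004000300010000800000000000000) := T_48 (nat_lit 110) (nat_lit 131) (nat_lit 3) (nat_lit 8) (nat_lit 6) L119575 (by decide +kernel)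
theorem L119577 : W_48 (nat_lit 11) (nat_lit 0x380009000580030000000000000000000000000000) (nat_lit 0x0) (nat_lit 0x38c00c6007400080004c000300010000800000000000000) := T_48 (nat_lit 111) (nat_lit 114) (nat_lit 1) (nat_lit 12) (nat_lit 6) L119576 (by decide +kernel)
theorem L119578 : W_48 (nat_lit 12) (nat_lit 0x380009000580020000000000000000000000000000) (nat_lit 0x0) (nat_lit 0x38c00c6007400080005c000b00010000800000000000000) := T_48 (nat_lit 112) (nat_lit 95) (nat_lit 4) (nat_lit 11) (nat_lit 9) L119577 (by decide +kernel)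
theorem L119579 : W_48 (nat_lit 13) (nat_lit 0x180009000580020000000000000000000000000000) (nat_lit 0x0) (nat_lit 0x3cc00e6007400080005c000b00010000800000000000000) := T_48 (nat_lit 165) (nat_lit 182) (nat_lit 7) (nat_lit 11) (nat_lit 6) L119578 (by decide +kernel)
theorem L119580 : W_48 (nat_lit 14) (nat_lit 0x100009000580020000000000000000000000000000) (nat_lit 0x0) (nat_lit 0x3dc00ee007400080005c000b00010000800000000000000) := T_48 (nat_lit 163) (nat_lit 180) (nat_lit 5) (nat_lit 11) (nat_lit 6) L119579 (by decide +kernel)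
theorem L119581 : W_48 (nat_lit 2) (nat_lit 0x140064001a0009000580030000000000000000000000000000) (nat_lit 0x0) (nat_lit 0x280008000000000000000000000000000000000000000000000000) := D_48 (nat_lit 195) (nat_lit 211) (nat_lit 213) (nat_lit 5) (nat_lit 8) (nat_lit 8) (nat_lit 7) (nat_lit 8) (nat_lit 8) (by decide +kernel)
theorem L119582 : W_48 (nat_lit 3) (nat_lit 0x40064001a0009000580030000000000000000000000000000) (nat_lit 0x0) (nat_lit 0x280018000800000000000000000000000000000000000000000000) := T_48 (nat_lit 196) (nat_lit 179) (nat_lit 7) (nat_lit 8) (nat_lit 7) L119581 (by decide +kernel)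
theorem L119583 : W_48 (nat_lit 4) (nat_lit 0x64001a0009000580030000000000000000000000000000) (nat_lit 0x0) (nat_lit 0x28001c000a00000000000000000000000000000000000000000000) := T_48 (nat_lit 194) (nat_lit 177) (nat_lit 5) (nat_lit 8) (nat_lit 7) L119582 (by decide +kernel)
theorem L119584 : W_48 (nat_lit 5) (nat_lit 0x60001a0009000580030000000000000000000000000000) (nat_lit 0x0) (nat_lit 0x28001c000e00000000000000008000000000000000000000000000) := T_48 (nat_lit 178) (nat_lit 111) (nat_lit 6) (nat_lit 8) (nat_lit 10) L119583 (by decide +kernel)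
theorem L119585 : W_48 (nat_lit 6) (nat_lit 0x6000180009000580030000000000000000000000000000) (nat_lit 0x0) (nat_lit 0x28001c000e00060000000000008000000000000000000000000000) := T_48 (nat_lit 161) (nat_lit 162) (nat_lit 3) (nat_lit 8) (nat_lit 9) L119584 (by decide +kernel)
theorem L119586 : W_48 (nat_lit 7) (nat_lit 0x4000180009000580030000000000000000000000000000) (nat_lit 0x0) (nat_lit 0x28009c002e00060000000000008000000000000000000000000000) := T_48 (nat_lit 181) (nat_lit 199) (nat_lit 7) (nat_lit 11) (nat_lit 7) L119585 (by decide +kernel)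
theorem L119587 : W_48 (nat_lit 8) (nat_lit 0x180009000580030000000000000000000000000000) (nat_lit 0x0) (nat_lit 0x28009c006e00260000000000008000000000000000000000000000) := T_48 (nat_lit 182) (nat_lit 165) (nat_lit 7) (nat_lit 11) (nat_lit 6) L119586 (by decide +kernel)
theorem L119588 : W_48 (nat_lit 9) (nat_lit 0x100009000580030000000000000000000000000000) (nat_lit 0x0) (nat_lit 0x28009c007e002e0000000000008000000000000000000000000000) := T_48 (nat_lit 163) (nat_lit 180) (nat_lit 5) (nat_lit 11) (nat_lit 6) L119587 (by decide +kernel)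
theorem L119589 : W_48 (nat_lit 10) (nat_lit 0x100009000580020000000000000000000000000000) (nat_lit 0x0) (nat_lit 0x28009c007e002e0000000000018000800000000000000000000000) := T_48 (nat_lit 112) (nat_lit 95) (nat_lit 4) (nat_lit 11) (nat_lit 9) L119588 (by decide +kernel)
theorem L119590 : W_48 (nat_lit 15) (nat_lit 0x9000580020000000000000000000000000000) (nat_lit 0x0) (nat_lit 0x2800bc03fe00fe007400080005c002b00010000800000000000000) := Q_48 (nat_lit 164) (C_48 L119567 (C_48 L119474 (C_48 L119580 (C_48 L119589 N_48)))) (by decide +kernel)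
theorem L119591 : W_48 (nat_lit 6) (nat_lit 0x9000580020000000000000000000000000000) (nat_lit 0x0) (nat_lit 0x10001800040000000500038001c000a000000000000000) := Q_48 (nat_lit 96) (C_48 L119390 (C_48 L119393 (C_48 L119386 (C_48 L119377 N_48)))) (by decide +kernel)
theorem L119592 : W_48 (nat_lit 2) (nat_lit 0x300009000580020001000000000000000000000000) (nat_lit 0x0) (nat_lit 0x10000800040000000000000000000) := D_48 (nat_lit 95) (nat_lit 78) (nat_lit 112) (nat_lit 4) (nat_lit 11) (nat_lit 8) (nat_lit 4) (nat_lit 11) (nat_lit 9) (by decide +kernel)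
theorem L119593 : W_48 (nat_lit 3) (nat_lit 0x300009000580020000000000000000000000000000) (nat_lit 0x0) (nat_lit 0x10000000010001800040000000000000000000) := T_48 (nat_lit 96) (nat_lit 148) (nat_lit 7) (nat_lit 11) (nat_lit 5) L119592 (by decide +kernel)
theorem L119594 : W_48 (nat_lit 4) (nat_lit 0x100009000580020000000000000000000000000000) (nat_lit 0x0) (nat_lit 0x4000200010000000010001800040000000000000000000) := T_48 (nat_lit 165) (nat_lit 182) (nat_lit 7) (nat_lit 11) (nat_lit 6) L119593 (by decide +kernel)
theorem L119595 : W_48 (nat_lit 4) (nat_lit 0x100009000580030000000000000000000000000000) (nat_lit 0x0) (nat_lit 0x20003000080000000800048000000000000000000000000000) := T_48 (nat_lit 114) (nat_lit 111) (nat_lit 1) (nat_lit 12) (nat_lit 6) L119513 (by decide +kernel)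
theorem L119596 : W_48 (nat_lit 5) (nat_lit 0x100009000580020000000000000000000000000000) (nat_lit 0x0) (nat_lit 0x20003000080000000800058000800000000000000000000000) := T_48 (nat_lit 112) (nat_lit 95) (nat_lit 4) (nat_lit 11) (nat_lit 9) L119595 (by decide +kernel)
theorem L119597 : W_48 (nat_lit 11) (nat_lit 0x9000580020000000000000000000000000000) (nat_lit 0x0) (nat_lit 0x2800bc007e003e0014000800058001800040000000000000000000) := Q_48 (nat_lit 164) (C_48 L119589 (C_48 L119482 (C_48 L119594 (C_48 L119596 N_48)))) (by decide +kernel)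
theorem L119598 : W_48 (nat_lit 5) (nat_lit 0x9000580020000000000000000000000000000) (nat_lit 0x0) (nat_lit 0x10003800140008000100038001c0008000000000000000) := Q_48 (nat_lit 96) (C_48 L119486 (C_48 L119393 N_48)) (by decide +kernel)
theorem L119599 : W_48 (nat_lit 16) (nat_lit 0x1000580020000000000000000000000000000) (nat_lit 0x0) (nat_lit 0x2800fc03fe00fe00fc0078003de01fb007d003f801700000000000) := Q_48 (nat_lit 147) (C_48 L119472 (C_48 L119483 (C_48 L119500 (C_48 L119516 (C_48 L119563 (C_48 L119590 (C_48 L119591 (C_48 L119597 (C_48 L119598 N_48))))))))) (by decide +kernel)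
theorem L119600 : W_48 (nat_lit 2) (nat_lit 0x400000001000d80028001000180000000000000000000) (nat_lit 0x0) (nat_lit 0x50000000000004000000000000000) := D_48 (nat_lit 114) (nat_lit 62) (nat_lit 112) (nat_lit 7) (nat_lit 11) (nat_lit 3) (nat_lit 1) (nat_lit 12) (nat_lit 6) (by decide +kernel)
theorem L119601 : W_48 (nat_lit 3) (nat_lit 0x400000001000580028001000180000000000000000000) (nat_lit 0x0) (nat_lit 0x10000800050000000000004000000000000000) := T_48 (nat_lit 131) (nat_lit 148) (nat_lit 7) (nat_lit 11) (nat_lit 4) L119600 (by decide +kernel)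
theorem L119602 : W_48 (nat_lit 4) (nat_lit 0x400000001000580028001000080000000000000000000) (nat_lit 0x0) (nat_lit 0x1000080005000000010000c000000000000000) := T_48 (nat_lit 80) (nat_lit 63) (nat_lit 6) (nat_lit 11) (nat_lit 7) L119601 (by decide +kernel)
theorem L119603 : W_48 (nat_lit 5) (nat_lit 0x1000580028001000080000000000000000000) (nat_lit 0x0) (nat_lit 0x40002001000080005000000010000c000000000000000) := T_48 (nat_lit 178) (nat_lit 161) (nat_lit 6) (nat_lit 8) (nat_lit 10) L119602 (by decide +kernel)
theorem L119604 : W_48 (nat_lit 2) (nat_lit 0x400000009000580028001000180000000000000000000) (nat_lit 0x0) (nat_lit 0x800040002000000000000000) := D_48 (nat_lit 78) (nat_lit 95) (nat_lit 61) (nat_lit 4) (nat_lit 11) (nat_lit 8) (nat_lit 4) (nat_lit 11) (nat_lit 7) (by decide +kernel)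
theorem L119605 : W_48 (nat_lit 3) (nat_lit 0x400000001000580028001000180000000000000000000) (nat_lit 0x0) (nat_lit 0x8000000000002800040002000000000000000) := T_48 (nat_lit 147) (nat_lit 97) (nat_lit 6) (nat_lit 11) (nat_lit 8) L119604 (by decide +kernel)
theorem L119606 : W_48 (nat_lit 4) (nat_lit 0x1000580028001000180000000000000000000) (nat_lit 0x0) (nat_lit 0x400020008000000000002800040002000000000000000) := T_48 (nat_lit 178) (nat_lit 161) (nat_lit 6) (nat_lit 8) (nat_lit 10) L119605 (by decide +kernel)
theorem L119607 : W_48 (nat_lit 5) (nat_lit 0x1000580028001000080000000000000000000) (nat_lit 0x0) (nat_lit 0x40002000800000000000280014000a000000000000000) := T_48 (nat_lit 80) (nat_lit 63) (nat_lit 6) (nat_lit 11) (nat_lit 7) L119606 (by decide +kernel)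
theorem L119608 : W_48 (nat_lit 6) (nat_lit 0x1000580028001000000000000000000000000) (nat_lit 0x0) (nat_lit 0x4000200180008000500028001c000e000100000000000) := Q_48 (nat_lit 79) (C_48 L117670 (C_48 L119603 (C_48 L119607 N_48))) (by decide +kernel)
theorem L119609 : W_48 (nat_lit 6) (nat_lit 0x400000001000580028001400000000000000000000000) (nat_lit 0x0) (nat_lit 0x80000001d0000a000c0002000100000000000) := T_48 (nat_lit 114) (nat_lit 112) (nat_lit 1) (nat_lit 12) (nat_lit 6) L118175 (by decide +kernel)
theorem L119610 : W_48 (nat_lit 7) (nat_lit 0x400000001000580028001000000000000000000000000) (nat_lit 0x0) (nat_lit 0x80000001d0000e000e0002000100000000000) := T_48 (nat_lit 94) (nat_lit 77) (nat_lit 5) (nat_lit 9) (nat_lit 4) L119609 (by decide +kernel)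
theorem L119611 : W_48 (nat_lit 8) (nat_lit 0x1000580028001000000000000000000000000) (nat_lit 0x0) (nat_lit 0x4000200080000001d0000e000e0002000100000000000) := T_48 (nat_lit 178) (nat_lit 161) (nat_lit 6) (nat_lit 8) (nat_lit 10) L119610 (by decide +kernel)
theorem L119612 : W_48 (nat_lit 2) (nat_lit 0x400000001000d80028003400180000000000000000000) (nat_lit 0x0) (nat_lit 0xa00200000000000000000000) := D_48 (nat_lit 95) (nat_lit 81) (nat_lit 93) (nat_lit 2) (nat_lit 9) (nat_lit 5) (nat_lit 2) (nat_lit 8) (nat_lit 5) (by decide +kernel)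
theorem L119613 : W_48 (nat_lit 3) (nat_lit 0x400000001000d80028003000180000000000000000000) (nat_lit 0x0) (nat_lit 0xe00220000000000000000000) := T_48 (nat_lit 94) (nat_lit 77) (nat_lit 5) (nat_lit 9) (nat_lit 4) L119612 (by decide +kernel)
theorem L119614 : W_48 (nat_lit 4) (nat_lit 0x400000001000d80028001000180000000000000000000) (nat_lit 0x0) (nat_lit 0x8000000000002e00220000000000000000000) := T_48 (nat_lit 97) (nat_lit 147) (nat_lit 6) (nat_lit 11) (nat_lit 8) L119613 (by decide +kernel)
theorem L119615 : W_48 (nat_lit 5) (nat_lit 0x1000d80028001000180000000000000000000) (nat_lit 0x0) (nat_lit 0x400020008000000000002e00220000000000000000000) := T_48 (nat_lit 178) (nat_lit 161) (nat_lit 6) (nat_lit 8) (nat_lit 10) L119614 (by decide +kernel)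
theorem L119616 : W_48 (nat_lit 6) (nat_lit 0x1000d80028001000080000000000000000000) (nat_lit 0x0) (nat_lit 0x400020008000000000002e00320008000000000000000) := T_48 (nat_lit 80) (nat_lit 63) (nat_lit 6) (nat_lit 11) (nat_lit 7) L119615 (by decide +kernel)
theorem L119617 : W_48 (nat_lit 7) (nat_lit 0x1000580028001000080000000000000000000) (nat_lit 0x0) (nat_lit 0x400020018000800000002e00320008000000000000000) := T_48 (nat_lit 131) (nat_lit 148) (nat_lit 7) (nat_lit 11) (nat_lit 4) L119616 (by decide +kernel)
theorem L119618 : W_48 (nat_lit 2) (nat_lit 0x400000009000d800280010000e0008000000000000000) (nat_lit 0x0) (nat_lit 0x10004000400000000000) := D_48 (nat_lit 62) (nat_lit 46) (nat_lit 76) (nat_lit 6) (nat_lit 11) (nat_lit 6) (nat_lit 2) (nat_lit 8) (nat_lit 4) (by decide +kernel)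
theorem L119619 : W_48 (nat_lit 3) (nat_lit 0x400000009000d800280010000e0000000000000000000) (nat_lit 0x0) (nat_lit 0x11000c000400000000000) := T_48 (nat_lit 63) (nat_lit 80) (nat_lit 6) (nat_lit 11) (nat_lit 7) L119618 (by decide +kernel)
theorem L119620 : W_48 (nat_lit 4) (nat_lit 0x9000d800280010000e0000000000000000000) (nat_lit 0x0) (nat_lit 0x40002000000000000000000011000c000400000000000) := T_48 (nat_lit 178) (nat_lit 161) (nat_lit 6) (nat_lit 8) (nat_lit 10) L119619 (by decide +kernel)
theorem L119621 : W_48 (nat_lit 5) (nat_lit 0x1000d800280010000e0000000000000000000) (nat_lit 0x0) (nat_lit 0x40002000800000000000080011000c000400000000000) := T_48 (nat_lit 147) (nat_lit 95) (nat_lit 4) (nat_lit 11) (nat_lit 8) L119620 (by decide +kernel)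
theorem L119622 : W_48 (nat_lit 6) (nat_lit 0x10005800280010000e0000000000000000000) (nat_lit 0x0) (nat_lit 0x40002001800080000000080011000c000400000000000) := T_48 (nat_lit 131) (nat_lit 148) (nat_lit 7) (nat_lit 11) (nat_lit 4) L119621 (by decide +kernel)
theorem L119623 : W_48 (nat_lit 7) (nat_lit 0x10005800280010000a0000000000000000000) (nat_lit 0x0) (nat_lit 0x40002001800080000000080015000e000400000000000) := T_48 (nat_lit 78) (nat_lit 61) (nat_lit 4) (nat_lit 11) (nat_lit 7) L119622 (by decide +kernel)
theorem L119624 : W_48 (nat_lit 8) (nat_lit 0x1000580028001000080000000000000000000) (nat_lit 0x0) (nat_lit 0x400020018000800000000c0017000e000400000000000) := T_48 (nat_lit 77) (nat_lit 94) (nat_lit 5) (nat_lit 9) (nat_lit 4) L119623 (by decide +kernel)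
theorem L119625 : W_48 (nat_lit 2) (nat_lit 0x1000d800280010000f0000000000000000000) (nat_lit 0x0) (nat_lit 0x8000000000000800008000000000000000000) := D_48 (nat_lit 95) (nat_lit 75) (nat_lit 147) (nat_lit 3) (nat_lit 7) (nat_lit 4) (nat_lit 4) (nat_lit 11) (nat_lit 8) (by decide +kernel)
theorem L119626 : W_48 (nat_lit 3) (nat_lit 0x1000d800280010000e0000000000000000000) (nat_lit 0x0) (nat_lit 0x8000000000002800018000000000000000000) := T_48 (nat_lit 76) (nat_lit 97) (nat_lit 3) (nat_lit 8) (nat_lit 4) L119625 (by decide +kernel)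
theorem L119627 : W_48 (nat_lit 4) (nat_lit 0x1000d800280010000a0000000000000000000) (nat_lit 0x0) (nat_lit 0x8000000000002800058002000000000000000) := T_48 (nat_lit 78) (nat_lit 61) (nat_lit 4) (nat_lit 11) (nat_lit 7) L119626 (by decide +kernel)
theorem L119628 : W_48 (nat_lit 5) (nat_lit 0x10005800280010000a0000000000000000000) (nat_lit 0x0) (nat_lit 0x18000800000002800058002000000000000000) := T_48 (nat_lit 131) (nat_lit 148) (nat_lit 7) (nat_lit 11) (nat_lit 4) L119627 (by decide +kernel)
theorem L119629 : W_48 (nat_lit 6) (nat_lit 0x1000580028001000080000000000000000000) (nat_lit 0x0) (nat_lit 0x18000800000002c00078002000000000000000) := T_48 (nat_lit 77) (nat_lit 94) (nat_lit 5) (nat_lit 9) (nat_lit 4) L119628 (by decide +kernel)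
theorem L119630 : W_48 (nat_lit 2) (nat_lit 0x10005800280010001e0000000000000000000) (nat_lit 0x0) (nat_lit 0x6000010000000000000000000) := D_48 (nat_lit 97) (nat_lit 98) (nat_lit 76) (nat_lit 3) (nat_lit 9) (nat_lit 4) (nat_lit 3) (nat_lit 8) (nat_lit 4) (by decide +kernel)
theorem L119631 : W_48 (nat_lit 3) (nat_lit 0x10005800280010001c0000000000000000000) (nat_lit 0x0) (nat_lit 0x6400030000000000000000000) := T_48 (nat_lit 77) (nat_lit 94) (nat_lit 5) (nat_lit 9) (nat_lit 4) L119630 (by decide +kernel)
theorem L119632 : W_48 (nat_lit 4) (nat_lit 0x10005800280010000c0000000000000000000) (nat_lit 0x0) (nat_lit 0x6400130008000000000000000) := T_48 (nat_lit 80) (nat_lit 63) (nat_lit 6) (nat_lit 11) (nat_lit 7) L119631 (by decide +kernel)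
theorem L119633 : W_48 (nat_lit 5) (nat_lit 0x1000580028001000080000000000000000000) (nat_lit 0x0) (nat_lit 0x640017000a000000000000000) := T_48 (nat_lit 78) (nat_lit 61) (nat_lit 4) (nat_lit 11) (nat_lit 7) L119632 (by decide +kernel)
theorem L119634 : W_48 (nat_lit 9) (nat_lit 0x1000580028001000000000000000000000000) (nat_lit 0x0) (nat_lit 0x400020018000800000006e003f800e000400000000000) := Q_48 (nat_lit 79) (C_48 L119607 (C_48 L117711 (C_48 L119617 (C_48 L119624 (C_48 L119629 (C_48 L119633 N_48)))))) (by decide +kernel)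
theorem L119635 : W_48 (nat_lit 10) (nat_lit 0x1000580028000000000000000000000000000) (nat_lit 0x0) (nat_lit 0x4000200180008001d0007e003f800e000500000000000) := Q_48 (nat_lit 96) (C_48 L117712 (C_48 L119608 (C_48 L117707 (C_48 L119611 (C_48 L119634 N_48))))) (by decide +kernel)
theorem L119636 : W_48 (nat_lit 11) (nat_lit 0x1000580020000000000000000000000000000) (nat_lit 0x0) (nat_lit 0x4000200180008001df807fc03f800e000500000000000) := Q_48 (nat_lit 111) (C_48 L118816 (C_48 L118879 (C_48 L118823 (C_48 L119635 N_48)))) (by decide +kernel)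
theorem L119637 : W_48 (nat_lit 2) (nat_lit 0x40000000100058003c001800000000000000000000000) (nat_lit 0x0) (nat_lit 0x100008000000000000000040000000000000000000) := D_48 (nat_lit 147) (nat_lit 78) (nat_lit 164) (nat_lit 4) (nat_lit 11) (nat_lit 8) (nat_lit 4) (nat_lit 11) (nat_lit 9) (by decide +kernel)
theorem L119638 : W_48 (nat_lit 3) (nat_lit 0x40000000100058003c001000000000000000000000000) (nat_lit 0x0) (nat_lit 0x100008000000002000800040000000000000000000) := T_48 (nat_lit 95) (nat_lit 109) (nat_lit 2) (nat_lit 7) (nat_lit 6) L119637 (by decide +kernel)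
theorem L119639 : W_48 (nat_lit 4) (nat_lit 0x40000000100058003c000000000000000000000000000) (nat_lit 0x0) (nat_lit 0x100008000000002003800040000000000000000000) := T_48 (nat_lit 96) (nat_lit 97) (nat_lit 2) (nat_lit 8) (nat_lit 6) L119638 (by decide +kernel)
theorem L119640 : W_48 (nat_lit 5) (nat_lit 0x400000001000580038000000000000000000000000000) (nat_lit 0x0) (nat_lit 0x100008000800006003800040000000000000000000) := T_48 (nat_lit 110) (nat_lit 131) (nat_lit 3) (nat_lit 8) (nat_lit 6) L119639 (by decide +kernel)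
theorem L119641 : W_48 (nat_lit 6) (nat_lit 0x1000580038000000000000000000000000000) (nat_lit 0x0) (nat_lit 0x400120008000800006003800040000000000000000000) := T_48 (nat_lit 178) (nat_lit 161) (nat_lit 6) (nat_lit 8) (nat_lit 10) L119640 (by decide +kernel)
theorem L119642 : W_48 (nat_lit 7) (nat_lit 0x1000580028000000000000000000000000000) (nat_lit 0x0) (nat_lit 0x400120008000800056003800040000000000000000000) := T_48 (nat_lit 112) (nat_lit 114) (nat_lit 1) (nat_lit 12) (nat_lit 6) L119641 (by decide +kernel)
theorem L119643 : W_48 (nat_lit 12) (nat_lit 0x1000580020000000000000000000000000000) (nat_lit 0x0) (nat_lit 0x400074003a001c0008001de007e003f800e000700000000000) := Q_48 (nat_lit 111) (C_48 L118816 (C_48 L119635 (C_48 L117732 (C_48 L119642 N_48)))) (by decide +kernel)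
theorem L119644 : W_48 (nat_lit 2) (nat_lit 0x6001a0001000580060002000000000000000000000000) (nat_lit 0x0) (nat_lit 0x10001800000000000000000000000000000000000000000000) := D_48 (nat_lit 179) (nat_lit 180) (nat_lit 196) (nat_lit 2) (nat_lit 7) (nat_lit 10) (nat_lit 7) (nat_lit 8) (nat_lit 7) (by decide +kernel)
theorem L119645 : W_48 (nat_lit 3) (nat_lit 0x600120001000580060002000000000000000000000000) (nat_lit 0x0) (nat_lit 0x100018000c0000000000000000000000000000000000000000) := T_48 (nat_lit 163) (nat_lit 162) (nat_lit 1) (nat_lit 11) (nat_lit 9) L119644 (by decide +kernel)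
theorem L119646 : W_48 (nat_lit 4) (nat_lit 0x400120001000580060002000000000000000000000000) (nat_lit 0x0) (nat_lit 0x14001a000c0000000000000000000000000000000000000000) := T_48 (nat_lit 177) (nat_lit 194) (nat_lit 5) (nat_lit 8) (nat_lit 7) L119645 (by decide +kernel)
theorem L119647 : W_48 (nat_lit 5) (nat_lit 0x120001000580060002000000000000000000000000) (nat_lit 0x0) (nat_lit 0x14001e000c0000000000008000000000000000000000000000) := T_48 (nat_lit 178) (nat_lit 111) (nat_lit 6) (nat_lit 8) (nat_lit 10) L119646 (by decide +kernel)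
theorem L119648 : W_48 (nat_lit 6) (nat_lit 0x20001000580060002000000000000000000000000) (nat_lit 0x0) (nat_lit 0x14001e001c0008000000008000000000000000000000000000) := T_48 (nat_lit 164) (nat_lit 147) (nat_lit 6) (nat_lit 11) (nat_lit 9) L119647 (by decide +kernel)
theorem L119649 : W_48 (nat_lit 2) (nat_lit 0x3e00120001000580060002000000000000000000000000) (nat_lit 0x0) (nat_lit 0xe0000000000000000000000000000000000000000000000000) := D_48 (nat_lit 198) (nat_lit 197) (nat_lit 199) (nat_lit 3) (nat_lit 7) (nat_lit 10) (nat_lit 3) (nat_lit 8) (nat_lit 10) (by decide +kernel)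
theorem L119650 : W_48 (nat_lit 3) (nat_lit 0x1e00120001000580060002000000000000000000000000) (nat_lit 0x0) (nat_lit 0xe0002000200000000000000000000000000000000000000000) := T_48 (nat_lit 181) (nat_lit 165) (nat_lit 2) (nat_lit 8) (nat_lit 10) L119649 (by decide +kernel)
theorem L119651 : W_48 (nat_lit 4) (nat_lit 0xe00120001000580060002000000000000000000000000) (nat_lit 0x0) (nat_lit 0xe0003000280000000000000000000000000000000000000000) := T_48 (nat_lit 180) (nat_lit 163) (nat_lit 2) (nat_lit 7) (nat_lit 10) L119650 (by decide +kernel)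
theorem L119652 : W_48 (nat_lit 5) (nat_lit 0xe00020001000580060002000000000000000000000000) (nat_lit 0x0) (nat_lit 0xe0003000380008000000000000000000000000000000000000) := T_48 (nat_lit 164) (nat_lit 147) (nat_lit 6) (nat_lit 11) (nat_lit 9) L119651 (by decide +kernel)
theorem L119653 : W_48 (nat_lit 6) (nat_lit 0x600020001000580060002000000000000000000000000) (nat_lit 0x0) (nat_lit 0xf0003800380008000000000000000000000000000000000000) := T_48 (nat_lit 179) (nat_lit 196) (nat_lit 7) (nat_lit 8) (nat_lit 7) L119652 (by decide +kernel)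
theorem L119654 : W_48 (nat_lit 7) (nat_lit 0x400020001000580060002000000000000000000000000) (nat_lit 0x0) (nat_lit 0xf4003a00380008000000000000000000000000000000000000) := T_48 (nat_lit 177) (nat_lit 194) (nat_lit 5) (nat_lit 8) (nat_lit 7) L119653 (by decide +kernel)
theorem L119655 : W_48 (nat_lit 8) (nat_lit 0x20001000580060002000000000000000000000000) (nat_lit 0x0) (nat_lit 0xf4003e00380008000000008000000000000000000000000000) := T_48 (nat_lit 178) (nat_lit 111) (nat_lit 6) (nat_lit 8) (nat_lit 10) L119654 (by decide +kernel)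
theorem L119656 : W_48 (nat_lit 2) (nat_lit 0x160001000580064002500000000000000000000000) (nat_lit 0x0) (nat_lit 0x200028000000000000000000) := D_48 (nat_lit 93) (nat_lit 77) (nat_lit 75) (nat_lit 6) (nat_lit 8) (nat_lit 8) (nat_lit 4) (nat_lit 8) (nat_lit 8) (by decide +kernel)
theorem L119657 : W_48 (nat_lit 3) (nat_lit 0x160001000580064002400000000000000000000000) (nat_lit 0x0) (nat_lit 0x2000300028000000000000000000) := T_48 (nat_lit 92) (nat_lit 109) (nat_lit 4) (nat_lit 8) (nat_lit 9) L119656 (by decide +kernel)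
theorem L119658 : W_48 (nat_lit 4) (nat_lit 0x160001000580064002000000000000000000000000) (nat_lit 0x0) (nat_lit 0xa000700028000000000000000000) := T_48 (nat_lit 94) (nat_lit 111) (nat_lit 6) (nat_lit 8) (nat_lit 9) L119657 (by decide +kernel)
theorem L119659 : W_48 (nat_lit 5) (nat_lit 0x120001000580064002000000000000000000000000) (nat_lit 0x0) (nat_lit 0x80004000000000000a000700028000000000000000000) := T_48 (nat_lit 162) (nat_lit 179) (nat_lit 7) (nat_lit 8) (nat_lit 6) L119658 (by decide +kernel)
theorem L119660 : W_48 (nat_lit 6) (nat_lit 0x20001000580064002000000000000000000000000) (nat_lit 0x0) (nat_lit 0x80014000800000000a000700028000000000000000000) := T_48 (nat_lit 164) (nat_lit 147) (nat_lit 6) (nat_lit 11) (nat_lit 9) L119659 (by decide +kernel)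
theorem L119661 : W_48 (nat_lit 2) (nat_lit 0x40003e0001000580066802000000000000000000000000) (nat_lit 0x0) (nat_lit 0x30000800000000000000000000000000000000) := D_48 (nat_lit 148) (nat_lit 149) (nat_lit 131) (nat_lit 2) (nat_lit 9) (nat_lit 9) (nat_lit 4) (nat_lit 12) (nat_lit 10) (by decide +kernel)
theorem L119662 : W_48 (nat_lit 3) (nat_lit 0x40001e0001000580066802000000000000000000000000) (nat_lit 0x0) (nat_lit 0x8000200030000800000000000000000000000000000000) := T_48 (nat_lit 165) (nat_lit 183) (nat_lit 3) (nat_lit 9) (nat_lit 9) L119661 (by decide +kernel)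
theorem L119663 : W_48 (nat_lit 4) (nat_lit 0x1e0001000580066802000000000000000000000000) (nat_lit 0x0) (nat_lit 0xe000200030000800000000000000000000000000000000) := T_48 (nat_lit 182) (nat_lit 181) (nat_lit 3) (nat_lit 8) (nat_lit 9) L119662 (by decide +kernel)
theorem L119664 : W_48 (nat_lit 5) (nat_lit 0x160001000580066802000000000000000000000000) (nat_lit 0x0) (nat_lit 0xe000280030800800000000000000000000000000000000) := T_48 (nat_lit 163) (nat_lit 143) (nat_lit 0) (nat_lit 11) (nat_lit 9) L119663 (by decide +kernel)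
theorem L119665 : W_48 (nat_lit 6) (nat_lit 0x60001000580066802000000000000000000000000) (nat_lit 0x0) (nat_lit 0xe000380038800800000000000000000000000000000000) := T_48 (nat_lit 164) (nat_lit 147) (nat_lit 6) (nat_lit 11) (nat_lit 9) L119664 (by decide +kernel)
theorem L119666 : W_48 (nat_lit 7) (nat_lit 0x20001000580066802000000000000000000000000) (nat_lit 0x0) (nat_lit 0xe8003c0038800800000000000000000000000000000000) := T_48 (nat_lit 162) (nat_lit 179) (nat_lit 7) (nat_lit 8) (nat_lit 6) L119665 (by decide +kernel)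
theorem L119667 : W_48 (nat_lit 8) (nat_lit 0x20001000580066002000000000000000000000000) (nat_lit 0x0) (nat_lit 0xe8003c0038800800001800000000000000000000000000) := T_48 (nat_lit 107) (nat_lit 108) (nat_lit 3) (nat_lit 5) (nat_lit 6) L119666 (by decide +kernel)
theorem L119668 : W_48 (nat_lit 9) (nat_lit 0x20001000580064002000000000000000000000000) (nat_lit 0x0) (nat_lit 0xe8003c0038800800003800100000000000000000000000) := T_48 (nat_lit 109) (nat_lit 92) (nat_lit 4) (nat_lit 8) (nat_lit 9) L119667 (by decide +kernel)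
theorem L119669 : W_48 (nat_lit 2) (nat_lit 0x120001000580064002500000000000000000000000) (nat_lit 0x0) (nat_lit 0x200028000000000000000000) := D_48 (nat_lit 93) (nat_lit 75) (nat_lit 77) (nat_lit 4) (nat_lit 8) (nat_lit 8) (nat_lit 6) (nat_lit 8) (nat_lit 8) (by decide +kernel)
theorem L119670 : W_48 (nat_lit 3) (nat_lit 0x120001000580064002100000000000000000000000) (nat_lit 0x0) (nat_lit 0x8000600028000000000000000000) := T_48 (nat_lit 94) (nat_lit 111) (nat_lit 6) (nat_lit 8) (nat_lit 9) L119669 (by decide +kernel)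
theorem L119671 : W_48 (nat_lit 4) (nat_lit 0x120001000580064002000000000000000000000000) (nat_lit 0x0) (nat_lit 0xa000700028000000000000000000) := T_48 (nat_lit 92) (nat_lit 109) (nat_lit 4) (nat_lit 8) (nat_lit 9) L119670 (by decide +kernel)
theorem L119672 : W_48 (nat_lit 5) (nat_lit 0x20001000580064002000000000000000000000000) (nat_lit 0x0) (nat_lit 0x10000800000000a000700028000000000000000000) := T_48 (nat_lit 164) (nat_lit 147) (nat_lit 6) (nat_lit 11) (nat_lit 9) L119671 (by decide +kernel)
theorem L119673 : W_48 (nat_lit 2) (nat_lit 0x40003e000100058006c002000000000000000000000000) (nat_lit 0x0) (nat_lit 0x30000800000000000000000000000000000000) := D_48 (nat_lit 148) (nat_lit 149) (nat_lit 131) (nat_lit 2) (nat_lit 9) (nat_lit 9) (nat_lit 4) (nat_lit 12) (nat_lit 10) (by decide +kernel)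
theorem L119674 : W_48 (nat_lit 3) (nat_lit 0x40001e000100058006c002000000000000000000000000) (nat_lit 0x0) (nat_lit 0x8000200030000800000000000000000000000000000000) := T_48 (nat_lit 165) (nat_lit 183) (nat_lit 3) (nat_lit 9) (nat_lit 9) L119673 (by decide +kernel)
theorem L119675 : W_48 (nat_lit 4) (nat_lit 0x1e000100058006c002000000000000000000000000) (nat_lit 0x0) (nat_lit 0xe000200030000800000000000000000000000000000000) := T_48 (nat_lit 182) (nat_lit 181) (nat_lit 3) (nat_lit 8) (nat_lit 9) L119674 (by decide +kernel)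
theorem L119676 : W_48 (nat_lit 5) (nat_lit 0x16000100058006c002000000000000000000000000) (nat_lit 0x0) (nat_lit 0xe000280030800800000000000000000000000000000000) := T_48 (nat_lit 163) (nat_lit 143) (nat_lit 0) (nat_lit 11) (nat_lit 9) L119675 (by decide +kernel)
theorem L119677 : W_48 (nat_lit 6) (nat_lit 0x12000100058006c002000000000000000000000000) (nat_lit 0x0) (nat_lit 0xe8002c0030800800000000000000000000000000000000) := T_48 (nat_lit 162) (nat_lit 179) (nat_lit 7) (nat_lit 8) (nat_lit 6) L119676 (by decide +kernel)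
theorem L119678 : W_48 (nat_lit 7) (nat_lit 0x2000100058006c002000000000000000000000000) (nat_lit 0x0) (nat_lit 0xe8003c0038800800000000000000000000000000000000) := T_48 (nat_lit 164) (nat_lit 147) (nat_lit 6) (nat_lit 11) (nat_lit 9) L119677 (by decide +kernel)
theorem L119679 : W_48 (nat_lit 8) (nat_lit 0x20001000580064002000000000000000000000000) (nat_lit 0x0) (nat_lit 0xe8003c0038800800008000400000000000000000000000) := T_48 (nat_lit 111) (nat_lit 94) (nat_lit 6) (nat_lit 8) (nat_lit 9) L119678 (by decide +kernel)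
theorem L119680 : W_48 (nat_lit 2) (nat_lit 0x60001000580064002500000000000000000000000) (nat_lit 0x0) (nat_lit 0x200028000000000000000000) := D_48 (nat_lit 93) (nat_lit 77) (nat_lit 75) (nat_lit 6) (nat_lit 8) (nat_lit 8) (nat_lit 4) (nat_lit 8) (nat_lit 8) (by decide +kernel)
theorem L119681 : W_48 (nat_lit 3) (nat_lit 0x60001000580064002400000000000000000000000) (nat_lit 0x0) (nat_lit 0x2000300028000000000000000000) := T_48 (nat_lit 92) (nat_lit 109) (nat_lit 4) (nat_lit 8) (nat_lit 9) L119680 (by decide +kernel)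
theorem L119682 : W_48 (nat_lit 4) (nat_lit 0x60001000580064002000000000000000000000000) (nat_lit 0x0) (nat_lit 0xa000700028000000000000000000) := T_48 (nat_lit 94) (nat_lit 111) (nat_lit 6) (nat_lit 8) (nat_lit 9) L119681 (by decide +kernel)
theorem L119683 : W_48 (nat_lit 5) (nat_lit 0x20001000580064002000000000000000000000000) (nat_lit 0x0) (nat_lit 0x80004000000000000a000700028000000000000000000) := T_48 (nat_lit 162) (nat_lit 179) (nat_lit 7) (nat_lit 8) (nat_lit 6) L119682 (by decide +kernel)
theorem L119684 : W_48 (nat_lit 10) (nat_lit 0x20001000580060002000000000000000000000000) (nat_lit 0x0) (nat_lit 0xe8003c003880080000f800700028000000000000000000) := Q_48 (nat_lit 110) (C_48 L119660 (C_48 L119668 (C_48 L119672 (C_48 L119679 (C_48 L119683 N_48))))) (by decide +kernel)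
theorem L119685 : W_48 (nat_lit 5) (nat_lit 0xc00120001000580060002000000000000000000000000) (nat_lit 0x0) (nat_lit 0xe4003200280000000000000000000000000000000000000000) := T_48 (nat_lit 177) (nat_lit 194) (nat_lit 5) (nat_lit 8) (nat_lit 7) L119651 (by decide +kernel)
theorem L119686 : W_48 (nat_lit 6) (nat_lit 0x800120001000580060002000000000000000000000000) (nat_lit 0x0) (nat_lit 0xf4003600280000000000000000000000000000000000000000) := T_48 (nat_lit 178) (nat_lit 196) (nat_lit 7) (nat_lit 8) (nat_lit 7) L119685 (by decide +kernel)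
theorem L119687 : W_48 (nat_lit 7) (nat_lit 0x800020001000580060002000000000000000000000000) (nat_lit 0x0) (nat_lit 0xf4003600380008000000000000000000000000000000000000) := T_48 (nat_lit 164) (nat_lit 147) (nat_lit 6) (nat_lit 11) (nat_lit 9) L119686 (by decide +kernel)
theorem L119688 : W_48 (nat_lit 2) (nat_lit 0x2000000048003e0001000580060002000000000000000000000000) (nat_lit 0x0) (nat_lit 0x30000800000000000000000000000000000000) := D_48 (nat_lit 148) (nat_lit 149) (nat_lit 131) (nat_lit 2) (nat_lit 9) (nat_lit 9) (nat_lit 4) (nat_lit 12) (nat_lit 10) (by decide +kernel)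
theorem L119689 : W_48 (nat_lit 3) (nat_lit 0x2000000048001e0001000580060002000000000000000000000000) (nat_lit 0x0) (nat_lit 0x8000200030000800000000000000000000000000000000) := T_48 (nat_lit 165) (nat_lit 183) (nat_lit 3) (nat_lit 9) (nat_lit 9) L119688 (by decide +kernel)
theorem L119690 : W_48 (nat_lit 4) (nat_lit 0x2000000008001e0001000580060002000000000000000000000000) (nat_lit 0x0) (nat_lit 0xe000200030000800000000000000000000000000000000) := T_48 (nat_lit 182) (nat_lit 181) (nat_lit 3) (nat_lit 8) (nat_lit 9) L119689 (by decide +kernel)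
theorem L119691 : W_48 (nat_lit 5) (nat_lit 0x8001e0001000580060002000000000000000000000000) (nat_lit 0x0) (nat_lit 0x20001000e000200030000800000000000000000000000000000000) := T_48 (nat_lit 213) (nat_lit 196) (nat_lit 4) (nat_lit 9) (nat_lit 12) L119690 (by decide +kernel)
theorem L119692 : W_48 (nat_lit 6) (nat_lit 0x800160001000580060002000000000000000000000000) (nat_lit 0x0) (nat_lit 0x20001000e000280030800800000000000000000000000000000000) := T_48 (nat_lit 163) (nat_lit 143) (nat_lit 0) (nat_lit 11) (nat_lit 9) L119691 (by decide +kernel)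
theorem L119693 : W_48 (nat_lit 7) (nat_lit 0x800060001000580060002000000000000000000000000) (nat_lit 0x0) (nat_lit 0x20001000e000380038800800000000000000000000000000000000) := T_48 (nat_lit 164) (nat_lit 147) (nat_lit 6) (nat_lit 11) (nat_lit 9) L119692 (by decide +kernel)
theorem L119694 : W_48 (nat_lit 8) (nat_lit 0x800020001000580060002000000000000000000000000) (nat_lit 0x0) (nat_lit 0x20001000e0003c0038800800004000000000000000000000000000) := T_48 (nat_lit 162) (nat_lit 110) (nat_lit 7) (nat_lit 8) (nat_lit 6) L119693 (by decide +kernel)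
theorem L119695 : W_48 (nat_lit 2) (nat_lit 0x8001e0001000580060002000000000000000000000000) (nat_lit 0x0) (nat_lit 0x600200000000000000000000000000000000000000000) := D_48 (nat_lit 178) (nat_lit 177) (nat_lit 165) (nat_lit 1) (nat_lit 11) (nat_lit 9) (nat_lit 1) (nat_lit 12) (nat_lit 9) (by decide +kernel)
theorem L119696 : W_48 (nat_lit 3) (nat_lit 0x800160001000580060002000000000000000000000000) (nat_lit 0x0) (nat_lit 0x600280000800000000000000000000000000000000000) := T_48 (nat_lit 163) (nat_lit 143) (nat_lit 0) (nat_lit 11) (nat_lit 9) L119695 (by decide +kernel)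
theorem L119697 : W_48 (nat_lit 4) (nat_lit 0x800120001000580060002000000000000000000000000) (nat_lit 0x0) (nat_lit 0x6002c0000800000004000000000000000000000000000) := T_48 (nat_lit 162) (nat_lit 110) (nat_lit 7) (nat_lit 8) (nat_lit 6) L119696 (by decide +kernel)
theorem L119698 : W_48 (nat_lit 5) (nat_lit 0x800020001000580060002000000000000000000000000) (nat_lit 0x0) (nat_lit 0x6003c0008800000004000000000000000000000000000) := T_48 (nat_lit 164) (nat_lit 147) (nat_lit 6) (nat_lit 11) (nat_lit 9) L119697 (by decide +kernel)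
theorem L119699 : W_48 (nat_lit 2) (nat_lit 0x800060001000580060002000000000000000000000000) (nat_lit 0x0) (nat_lit 0x200010000400000000000000000000000000000000000000000000) := D_48 (nat_lit 196) (nat_lit 178) (nat_lit 213) (nat_lit 7) (nat_lit 8) (nat_lit 7) (nat_lit 4) (nat_lit 9) (nat_lit 12) (by decide +kernel)
theorem L119700 : W_48 (nat_lit 3) (nat_lit 0x800020001000580060002000000000000000000000000) (nat_lit 0x0) (nat_lit 0x200010000400040000000000004000000000000000000000000000) := T_48 (nat_lit 162) (nat_lit 110) (nat_lit 7) (nat_lit 8) (nat_lit 6) L119699 (by decide +kernel)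
theorem L119701 : W_48 (nat_lit 9) (nat_lit 0x20001000580060002000000000000000000000000) (nat_lit 0x0) (nat_lit 0x2000f400fe003c0038800800004000000000000000000000000000) := Q_48 (nat_lit 179) (C_48 L119687 (C_48 L119694 (C_48 L119698 (C_48 L119700 N_48)))) (by decide +kernel)
theorem L119702 : W_48 (nat_lit 2) (nat_lit 0x14000400120001000580060002000000000000000000000000) (nat_lit 0x0) (nat_lit 0x280008000000000000000000000000000000000000000000000000) := D_48 (nat_lit 195) (nat_lit 211) (nat_lit 213) (nat_lit 5) (nat_lit 8) (nat_lit 8) (nat_lit 7) (nat_lit 8) (nat_lit 8) (by decide +kernel)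
theorem L119703 : W_48 (nat_lit 3) (nat_lit 0x4000400120001000580060002000000000000000000000000) (nat_lit 0x0) (nat_lit 0x280018000800000000000000000000000000000000000000000000) := T_48 (nat_lit 196) (nat_lit 179) (nat_lit 7) (nat_lit 8) (nat_lit 7) L119702 (by decide +kernel)
theorem L119704 : W_48 (nat_lit 4) (nat_lit 0x400120001000580060002000000000000000000000000) (nat_lit 0x0) (nat_lit 0x28001c000a00000000000000000000000000000000000000000000) := T_48 (nat_lit 194) (nat_lit 177) (nat_lit 5) (nat_lit 8) (nat_lit 7) L119703 (by decide +kernel)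
theorem L119705 : W_48 (nat_lit 5) (nat_lit 0x120001000580060002000000000000000000000000) (nat_lit 0x0) (nat_lit 0x28001c000e00000000000000008000000000000000000000000000) := T_48 (nat_lit 178) (nat_lit 111) (nat_lit 6) (nat_lit 8) (nat_lit 10) L119704 (by decide +kernel)
theorem L119706 : W_48 (nat_lit 6) (nat_lit 0x20001000580060002000000000000000000000000) (nat_lit 0x0) (nat_lit 0x28001c000e00100008000000008000000000000000000000000000) := T_48 (nat_lit 164) (nat_lit 147) (nat_lit 6) (nat_lit 11) (nat_lit 9) L119705 (by decide +kernel)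
theorem L119707 : W_48 (nat_lit 2) (nat_lit 0x20001000580068002000000000000000000000000) (nat_lit 0x0) (nat_lit 0x4000400020000000000000000000) := D_48 (nat_lit 94) (nat_lit 110) (nat_lit 77) (nat_lit 6) (nat_lit 8) (nat_lit 9) (nat_lit 5) (nat_lit 9) (nat_lit 4) (by decide +kernel)
theorem L119708 : W_48 (nat_lit 3) (nat_lit 0x20001000580060002000000000000000000000000) (nat_lit 0x0) (nat_lit 0x40000000000000000c000400020000000000000000000) := T_48 (nat_lit 111) (nat_lit 178) (nat_lit 6) (nat_lit 8) (nat_lit 10) L119707 (by decide +kernel)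
theorem L119709 : W_48 (nat_lit 11) (nat_lit 0x1000580060002000000000000000000000000) (nat_lit 0x0) (nat_lit 0x2800fc00fe003e003880080000f800700028000000000000000000) := Q_48 (nat_lit 161) (C_48 L119648 (C_48 L119655 (C_48 L119684 (C_48 L119701 (C_48 L119706 (C_48 L119708 N_48)))))) (by decide +kernel)
theorem L119710 : W_48 (nat_lit 2) (nat_lit 0xb1000d8016000f000400000000000000000000) (nat_lit 0x0) (nat_lit 0x7000000000000000000000000000000000) := D_48 (nat_lit 133) (nat_lit 132) (nat_lit 134) (nat_lit 5) (nat_lit 14) (nat_lit 4) (nat_lit 7) (nat_lit 14) (nat_lit 4) (by decide +kernel)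
theorem L119711 : W_48 (nat_lit 3) (nat_lit 0xb1000d8016000f000000000000000000000000) (nat_lit 0x0) (nat_lit 0x7000000000000c00000000000000000000) := T_48 (nat_lit 82) (nat_lit 83) (nat_lit 2) (nat_lit 11) (nat_lit 5) L119710 (by decide +kernel)
theorem L119712 : W_48 (nat_lit 4) (nat_lit 0xb1000d8006000f000000000000000000000000) (nat_lit 0x0) (nat_lit 0x7000300000000c00000000000000000000) := T_48 (nat_lit 116) (nat_lit 117) (nat_lit 3) (nat_lit 11) (nat_lit 5) L119711 (by decide +kernel)
theorem L119713 : W_48 (nat_lit 5) (nat_lit 0x31000d8006000f000000000000000000000000) (nat_lit 0x0) (nat_lit 0xc0007000300000000c00000000000000000000) := T_48 (nat_lit 151) (nat_lit 150) (nat_lit 0) (nat_lit 15) (nat_lit 8) L119712 (by decide +kernel)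
theorem L119714 : W_48 (nat_lit 6) (nat_lit 0x11000d8006000f000000000000000000000000) (nat_lit 0x0) (nat_lit 0x4000e0007000300000000c00000000000000000000) := T_48 (nat_lit 149) (nat_lit 166) (nat_lit 7) (nat_lit 12) (nat_lit 5) L119713 (by decide +kernel)
theorem L119715 : W_48 (nat_lit 7) (nat_lit 0x11000d80060007000000000000000000000000) (nat_lit 0x0) (nat_lit 0x4000e0007000300018000c00000000000000000000) := T_48 (nat_lit 99) (nat_lit 100) (nat_lit 1) (nat_lit 15) (nat_lit 5) L119714 (by decide +kernel)
theorem L119716 : W_48 (nat_lit 8) (nat_lit 0x11000d80060003000000000000000000000000) (nat_lit 0x0) (nat_lit 0x4000e000700030001c000e00000000000000000000) := T_48 (nat_lit 98) (nat_lit 81) (nat_lit 6) (nat_lit 12) (nat_lit 8) L119715 (by decide +kernel)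
theorem L119717 : W_48 (nat_lit 9) (nat_lit 0x11000d80060002000000000000000000000000) (nat_lit 0x0) (nat_lit 0x4000e000700030001d000e80000000000000000000) := T_48 (nat_lit 96) (nat_lit 79) (nat_lit 7) (nat_lit 11) (nat_lit 4) L119716 (by decide +kernel)
theorem L119718 : W_48 (nat_lit 10) (nat_lit 0x1000d80060002000000000000000000000000) (nat_lit 0x0) (nat_lit 0x40006000f000700038001d000e80000000000000000000) := Q_48 (nat_lit 148) (C_48 L118023 (C_48 L118019 (C_48 L119717 N_48))) (by decide +kernel)
theorem L119719 : W_48 (nat_lit 2) (nat_lit 0x1005d8006000b0007d0020000000000000000) (nat_lit 0x0) (nat_lit 0x380000000000000000000000000000) := D_48 (nat_lit 116) (nat_lit 115) (nat_lit 117) (nat_lit 5) (nat_lit 14) (nat_lit 3) (nat_lit 7) (nat_lit 14) (nat_lit 3) (by decide +kernel)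
theorem L119720 : W_48 (nat_lit 3) (nat_lit 0x1005d800600030007d0020000000000000000) (nat_lit 0x0) (nat_lit 0x380018000000000000000000000000) := T_48 (nat_lit 99) (nat_lit 100) (nat_lit 3) (nat_lit 11) (nat_lit 4) L119719 (by decide +kernel)
theorem L119721 : W_48 (nat_lit 4) (nat_lit 0x1005d800600030007d0000000000000000000) (nat_lit 0x0) (nat_lit 0x380018000000060000000000000000) := T_48 (nat_lit 65) (nat_lit 66) (nat_lit 2) (nat_lit 11) (nat_lit 4) L119720 (by decide +kernel)
theorem L119722 : W_48 (nat_lit 5) (nat_lit 0x1005d800600030003d0000000000000000000) (nat_lit 0x0) (nat_lit 0x380018000c00060000000000000000) := T_48 (nat_lit 82) (nat_lit 83) (nat_lit 1) (nat_lit 15) (nat_lit 4) L119721 (by decide +kernel)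
theorem L119723 : W_48 (nat_lit 6) (nat_lit 0x1005d800600030001d0000000000000000000) (nat_lit 0x0) (nat_lit 0x380018000e00070000000000000000) := T_48 (nat_lit 81) (nat_lit 64) (nat_lit 6) (nat_lit 12) (nat_lit 7) L119722 (by decide +kernel)
theorem L119724 : W_48 (nat_lit 7) (nat_lit 0x1005d800600030001c0000000000000000000) (nat_lit 0x0) (nat_lit 0x380018000e30070000000000000000) := T_48 (nat_lit 76) (nat_lit 77) (nat_lit 3) (nat_lit 8) (nat_lit 4) L119723 (by decide +kernel)
theorem L119725 : W_48 (nat_lit 8) (nat_lit 0x1005d80060003000180000000000000000000) (nat_lit 0x0) (nat_lit 0x380018000e70072000000000000000) := T_48 (nat_lit 78) (nat_lit 61) (nat_lit 4) (nat_lit 11) (nat_lit 7) L119724 (by decide +kernel)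
theorem L119726 : W_48 (nat_lit 9) (nat_lit 0x1005d80060002000180000000000000000000) (nat_lit 0x0) (nat_lit 0x10000000380019000e70072000000000000000) := T_48 (nat_lit 96) (nat_lit 148) (nat_lit 7) (nat_lit 11) (nat_lit 4) L119725 (by decide +kernel)
theorem L119727 : W_48 (nat_lit 10) (nat_lit 0x1001d80060002000180000000000000000000) (nat_lit 0x0) (nat_lit 0x10006000380019000e70072000000000000000) := T_48 (nat_lit 134) (nat_lit 133) (nat_lit 0) (nat_lit 15) (nat_lit 7) L119726 (by decide +kernel)
theorem L119728 : W_48 (nat_lit 11) (nat_lit 0x1000d80060002000180000000000000000000) (nat_lit 0x0) (nat_lit 0x30007000380019000e70072000000000000000) := T_48 (nat_lit 132) (nat_lit 149) (nat_lit 7) (nat_lit 12) (nat_lit 4) L119727 (by decide +kernel)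
theorem L119729 : W_48 (nat_lit 12) (nat_lit 0x1000d80060002000100000000000000000000) (nat_lit 0x0) (nat_lit 0x30007000380019000ef0076000000000000000) := T_48 (nat_lit 79) (nat_lit 62) (nat_lit 4) (nat_lit 12) (nat_lit 7) L119728 (by decide +kernel)
theorem L119730 : W_48 (nat_lit 13) (nat_lit 0x1000d80060002000000000000000000000000) (nat_lit 0x0) (nat_lit 0x30007000380019000ff007e000000000000000) := T_48 (nat_lit 80) (nat_lit 63) (nat_lit 5) (nat_lit 12) (nat_lit 3) L119729 (by decide +kernel)
theorem L119731 : W_48 (nat_lit 14) (nat_lit 0x1000580060002000000000000000000000000) (nat_lit 0x0) (nat_lit 0x40006000f000780038001d000ff007e000000000000000) := Q_48 (nat_lit 131) (C_48 L118055 (C_48 L118012 (C_48 L118018 (C_48 L119718 (C_48 L119730 (C_48 L118051 N_48)))))) (by decide +kernel)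
theorem L119732 : W_48 (nat_lit 15) (nat_lit 0x1000580060000000000000000000000000000) (nat_lit 0x0) (nat_lit 0x2800fc00fe007e00f880780038f81f700ff807e000000000000000) := Q_48 (nat_lit 97) (C_48 L117954 (C_48 L118004 (C_48 L117956 (C_48 L119709 (C_48 L119731 N_48))))) (by decide +kernel)
theorem L119733 : W_48 (nat_lit 4) (nat_lit 0x1000580060000000000000000000000000000) (nat_lit 0x0) (nat_lit 0x40002000000000001c000400020000000000000000000) := T_48 (nat_lit 111) (nat_lit 112) (nat_lit 1) (nat_lit 12) (nat_lit 6) L118813 (by decide +kernel)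
theorem L119734 : W_48 (nat_lit 2) (nat_lit 0x1000d800680010001f0000800000000000000) (nat_lit 0x0) (nat_lit 0x4000300000000000000000000000) := D_48 (nat_lit 93) (nat_lit 92) (nat_lit 110) (nat_lit 1) (nat_lit 11) (nat_lit 4) (nat_lit 7) (nat_lit 8) (nat_lit 3) (by decide +kernel)
theorem L119735 : W_48 (nat_lit 3) (nat_lit 0x1000d800680010001e0000800000000000000) (nat_lit 0x0) (nat_lit 0x4000300010000400000000000000) := T_48 (nat_lit 76) (nat_lit 58) (nat_lit 0) (nat_lit 11) (nat_lit 4) L119734 (by decide +kernel)
theorem L119736 : W_48 (nat_lit 4) (nat_lit 0x1000d800680010001e0000000000000000000) (nat_lit 0x0) (nat_lit 0x4000300010001c00000000000000) := T_48 (nat_lit 59) (nat_lit 60) (nat_lit 0) (nat_lit 12) (nat_lit 4) L119735 (by decide +kernel)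
theorem L119737 : W_48 (nat_lit 5) (nat_lit 0x1000d800680010000e0000000000000000000) (nat_lit 0x0) (nat_lit 0x4000300110009c00000000000000) := T_48 (nat_lit 80) (nat_lit 63) (nat_lit 6) (nat_lit 11) (nat_lit 7) L119736 (by decide +kernel)
theorem L119738 : W_48 (nat_lit 6) (nat_lit 0x1000d800680010000a0000000000000000000) (nat_lit 0x0) (nat_lit 0x400030015000bc00000000000000) := T_48 (nat_lit 78) (nat_lit 61) (nat_lit 4) (nat_lit 11) (nat_lit 7) L119737 (by decide +kernel)
theorem L119739 : W_48 (nat_lit 7) (nat_lit 0x1000d80068001000080000000000000000000) (nat_lit 0x0) (nat_lit 0x400070017000bc00000000000000) := T_48 (nat_lit 77) (nat_lit 94) (nat_lit 5) (nat_lit 9) (nat_lit 4) L119738 (by decide +kernel)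
theorem L119740 : W_48 (nat_lit 2) (nat_lit 0x1001d80060001000000000000000000000000) (nat_lit 0x0) (nat_lit 0x6000010000000000000000000000000000) := D_48 (nat_lit 133) (nat_lit 134) (nat_lit 112) (nat_lit 0) (nat_lit 15) (nat_lit 7) (nat_lit 0) (nat_lit 14) (nat_lit 7) (by decide +kernel)
theorem L119741 : W_48 (nat_lit 8) (nat_lit 0x1000580068001000080000000000000000000) (nat_lit 0x0) (nat_lit 0x1000080000400070017000bc00000000000000) := T_48 (nat_lit 131) (nat_lit 148) (nat_lit 7) (nat_lit 11) (nat_lit 4) L119739 (by decide +kernel)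
theorem L119742 : W_48 (nat_lit 9) (nat_lit 0x1000580060001000080000000000000000000) (nat_lit 0x0) (nat_lit 0x1000080001c00070017000bc00000000000000) := T_48 (nat_lit 111) (nat_lit 112) (nat_lit 1) (nat_lit 12) (nat_lit 6) L119741 (by decide +kernel)
theorem L119743 : W_48 (nat_lit 10) (nat_lit 0x1000580060001000000000000000000000000) (nat_lit 0x0) (nat_lit 0x1000080001c0007001f000fc00500000000000) := Q_48 (nat_lit 79) (C_48 L118541 (C_48 L117829 (C_48 L117833 (C_48 L119742 N_48)))) (by decide +kernel)
theorem L119744 : W_48 (nat_lit 6) (nat_lit 0xd000580070007000000000000000000000000) (nat_lit 0x0) (nat_lit 0x6000f0007800000000000200000000000000000000) := T_48 (nat_lit 148) (nat_lit 165) (nat_lit 7) (nat_lit 11) (nat_lit 5) L117846 (by decide +kernel)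
theorem L119745 : W_48 (nat_lit 7) (nat_lit 0x9000580070007000000000000000000000000) (nat_lit 0x0) (nat_lit 0x6800f4007800000000000200000000000000000000) := T_48 (nat_lit 146) (nat_lit 163) (nat_lit 5) (nat_lit 11) (nat_lit 5) L119744 (by decide +kernel)
theorem L119746 : W_48 (nat_lit 8) (nat_lit 0x1000580070007000000000000000000000000) (nat_lit 0x0) (nat_lit 0x7800fc007800000000000200000000000000000000) := T_48 (nat_lit 147) (nat_lit 164) (nat_lit 6) (nat_lit 11) (nat_lit 9) L119745 (by decide +kernel)
theorem L119747 : W_48 (nat_lit 9) (nat_lit 0x1000580070003000000000000000000000000) (nat_lit 0x0) (nat_lit 0x7800fc00780000000c000200000000000000000000) := T_48 (nat_lit 98) (nat_lit 99) (nat_lit 1) (nat_lit 14) (nat_lit 5) L119746 (by decide +kernel)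
theorem L119748 : W_48 (nat_lit 10) (nat_lit 0x1000580060003000000000000000000000000) (nat_lit 0x0) (nat_lit 0x7800fc00780001800c000200000000000000000000) := T_48 (nat_lit 112) (nat_lit 111) (nat_lit 1) (nat_lit 12) (nat_lit 6) L119747 (by decide +kernel)
theorem L119749 : W_48 (nat_lit 11) (nat_lit 0x1000580060003000000000000000000000000) (nat_lit 0x0) (nat_lit 0x2000f000780031801c000f00018000000000000000) := Q_48 (nat_lit 131) (C_48 L117927 (C_48 L117930 (C_48 L117798 N_48))) (by decide +kernel)
theorem L119750 : W_48 (nat_lit 12) (nat_lit 0x1000580060001000000000000000000000000) (nat_lit 0x0) (nat_lit 0x7800fc00780031801e000f00018000000000000000) := Q_48 (nat_lit 97) (C_48 L117801 (C_48 L119748 (C_48 L119749 N_48))) (by decide +kernel)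
theorem L119751 : W_48 (nat_lit 2) (nat_lit 0x280009000580070001000000000000000000000000) (nat_lit 0x0) (nat_lit 0x5000100000000000000000000000000000000000000000) := D_48 (nat_lit 164) (nat_lit 180) (nat_lit 182) (nat_lit 5) (nat_lit 11) (nat_lit 6) (nat_lit 7) (nat_lit 11) (nat_lit 6) (by decide +kernel)
theorem L119752 : W_48 (nat_lit 3) (nat_lit 0x80009000580070001000000000000000000000000) (nat_lit 0x0) (nat_lit 0x5000300010000000000000000000000000000000000000) := T_48 (nat_lit 165) (nat_lit 148) (nat_lit 7) (nat_lit 11) (nat_lit 5) L119751 (by decide +kernel)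
theorem L119753 : W_48 (nat_lit 4) (nat_lit 0x9000580070001000000000000000000000000) (nat_lit 0x0) (nat_lit 0x5000380014000000000000000000000000000000000000) := T_48 (nat_lit 163) (nat_lit 146) (nat_lit 5) (nat_lit 11) (nat_lit 5) L119752 (by decide +kernel)
theorem L119754 : W_48 (nat_lit 5) (nat_lit 0x9000580060001000000000000000000000000) (nat_lit 0x0) (nat_lit 0x5000380014000000018000000000000000000000000000) := T_48 (nat_lit 112) (nat_lit 111) (nat_lit 1) (nat_lit 12) (nat_lit 6) L119753 (by decide +kernel)
theorem L119755 : W_48 (nat_lit 13) (nat_lit 0x1000580060001000000000000000000000000) (nat_lit 0x0) (nat_lit 0x500038001c00000001800e7801f800ee00700000000000) := Q_48 (nat_lit 147) (C_48 L117761 (C_48 L117897 (C_48 L117748 (C_48 L119754 N_48)))) (by decide +kernel)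
theorem L119756 : W_48 (nat_lit 11) (nat_lit 0x1000580060001000000000000000000000000) (nat_lit 0x0) (nat_lit 0x50007800fc00780001800e000300000000000000000000) := Q_48 (nat_lit 147) (C_48 L119754 (C_48 L117761 (C_48 L117748 (C_48 L117851 N_48)))) (by decide +kernel)
theorem L119757 : W_48 (nat_lit 14) (nat_lit 0x1000580060000000000000000000000000000) (nat_lit 0x0) (nat_lit 0x50007800fc00780031c01f780ff801fe00700000000000) := Q_48 (nat_lit 96) (C_48 L117772 (C_48 L117932 (C_48 L117800 (C_48 L117819 (C_48 L119743 (C_48 L119750 (C_48 L117877 (C_48 L119755 (C_48 L119756 N_48))))))))) (by decide +kernel)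
theorem L119758 : W_48 (nat_lit 2) (nat_lit 0x1000b1000d80060007000000000000000000000000) (nat_lit 0x0) (nat_lit 0x10018000000000000000000000000) := D_48 (nat_lit 99) (nat_lit 100) (nat_lit 112) (nat_lit 1) (nat_lit 15) (nat_lit 5) (nat_lit 1) (nat_lit 14) (nat_lit 5) (by decide +kernel)
theorem L119759 : W_48 (nat_lit 3) (nat_lit 0x1000b1000d80060003000000000000000000000000) (nat_lit 0x0) (nat_lit 0x1001c000200000000000000000000) := T_48 (nat_lit 98) (nat_lit 81) (nat_lit 6) (nat_lit 12) (nat_lit 8) L119758 (by decide +kernel)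
theorem L119760 : W_48 (nat_lit 4) (nat_lit 0x100031000d80060003000000000000000000000000) (nat_lit 0x0) (nat_lit 0xc000000001001c000200000000000000000000) := T_48 (nat_lit 151) (nat_lit 150) (nat_lit 0) (nat_lit 15) (nat_lit 8) L119759 (by decide +kernel)
theorem L119761 : W_48 (nat_lit 5) (nat_lit 0x100011000d80060003000000000000000000000000) (nat_lit 0x0) (nat_lit 0x4000e000000001001c000200000000000000000000) := T_48 (nat_lit 149) (nat_lit 166) (nat_lit 7) (nat_lit 12) (nat_lit 5) L119760 (by decide +kernel)
theorem L119762 : W_48 (nat_lit 6) (nat_lit 0x100001000d80060003000000000000000000000000) (nat_lit 0x0) (nat_lit 0x6000f000000001001c000200000000000000000000) := T_48 (nat_lit 148) (nat_lit 165) (nat_lit 4) (nat_lit 12) (nat_lit 9) L119761 (by decide +kernel)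
theorem L119763 : W_48 (nat_lit 7) (nat_lit 0x1000d80060003000000000000000000000000) (nat_lit 0x0) (nat_lit 0x7000f800000001001c000200000000000000000000) := T_48 (nat_lit 164) (nat_lit 147) (nat_lit 6) (nat_lit 11) (nat_lit 9) L119762 (by decide +kernel)
theorem L119764 : W_48 (nat_lit 11) (nat_lit 0x1000d80060001000000000000000000000000) (nat_lit 0x0) (nat_lit 0x7000f800700031001e000f00018000000000000000) := Q_48 (nat_lit 97) (C_48 L117927 (C_48 L117782 (C_48 L119763 N_48))) (by decide +kernel)
theorem L119765 : W_48 (nat_lit 2) (nat_lit 0x1001d80060003000b80000000000000000000) (nat_lit 0x0) (nat_lit 0x6000010000000000000000000000000000) := D_48 (nat_lit 133) (nat_lit 134) (nat_lit 112) (nat_lit 0) (nat_lit 15) (nat_lit 7) (nat_lit 0) (nat_lit 14) (nat_lit 7) (by decide +kernel)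
theorem L119766 : W_48 (nat_lit 3) (nat_lit 0x1000d80060003000b80000000000000000000) (nat_lit 0x0) (nat_lit 0x20007000010000000000000000000000000000) := T_48 (nat_lit 132) (nat_lit 149) (nat_lit 7) (nat_lit 12) (nat_lit 4) L119765 (by decide +kernel)
theorem L119767 : W_48 (nat_lit 4) (nat_lit 0x1000d80060003000380000000000000000000) (nat_lit 0x0) (nat_lit 0x20007000010000000c00000000000000000000) := T_48 (nat_lit 83) (nat_lit 82) (nat_lit 1) (nat_lit 15) (nat_lit 4) L119766 (by decide +kernel)
theorem L119768 : W_48 (nat_lit 5) (nat_lit 0x1000d80060003000180000000000000000000) (nat_lit 0x0) (nat_lit 0x20007000010000000e00010000000000000000) := T_48 (nat_lit 81) (nat_lit 64) (nat_lit 6) (nat_lit 12) (nat_lit 7) L119767 (by decide +kernel)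
theorem L119769 : W_48 (nat_lit 6) (nat_lit 0x1000d80060001000180000000000000000000) (nat_lit 0x0) (nat_lit 0x28007000010002000e00010000000000000000) := T_48 (nat_lit 97) (nat_lit 147) (nat_lit 6) (nat_lit 11) (nat_lit 8) L119768 (by decide +kernel)
theorem L119770 : W_48 (nat_lit 7) (nat_lit 0x1000d80060001000080000000000000000000) (nat_lit 0x0) (nat_lit 0x28007000010002000f00018000000000000000) := T_48 (nat_lit 80) (nat_lit 63) (nat_lit 6) (nat_lit 11) (nat_lit 7) L119769 (by decide +kernel)
theorem L119771 : W_48 (nat_lit 8) (nat_lit 0x1000d80060001000000000000000000000000) (nat_lit 0x0) (nat_lit 0x28007000010002000f8001c000000000000000) := T_48 (nat_lit 79) (nat_lit 62) (nat_lit 7) (nat_lit 11) (nat_lit 3) L119770 (by decide +kernel)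
theorem L119772 : W_48 (nat_lit 12) (nat_lit 0x1000580060001000000000000000000000000) (nat_lit 0x0) (nat_lit 0x7000f800780031001e000f8001c000000000000000) := Q_48 (nat_lit 131) (C_48 L119764 (C_48 L117773 (C_48 L119771 N_48))) (by decide +kernel)
theorem L119773 : W_48 (nat_lit 9) (nat_lit 0x1000d80060003000000000000000000000000) (nat_lit 0x0) (nat_lit 0x6000f000700030001c000e00000000000000000000) := T_48 (nat_lit 148) (nat_lit 165) (nat_lit 4) (nat_lit 12) (nat_lit 9) L119716 (by decide +kernel)
theorem L119774 : W_48 (nat_lit 11) (nat_lit 0x1000d80060001000000000000000000000000) (nat_lit 0x0) (nat_lit 0x6000f800700030001e000f00018000000000000000) := Q_48 (nat_lit 97) (C_48 L117927 (C_48 L117782 (C_48 L119773 N_48))) (by decide +kernel)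
theorem L119775 : W_48 (nat_lit 12) (nat_lit 0x1000580060001000000000000000000000000) (nat_lit 0x0) (nat_lit 0x6000f800780031001e000f8001c000000000000000) := Q_48 (nat_lit 131) (C_48 L119774 (C_48 L119771 (C_48 L117773 N_48))) (by decide +kernel)
theorem L119776 : W_48 (nat_lit 2) (nat_lit 0x10005800600010000c0004000200000000000) (nat_lit 0x0) (nat_lit 0x8000400020000000) := D_48 (nat_lit 46) (nat_lit 29) (nat_lit 63) (nat_lit 6) (nat_lit 11) (nat_lit 5) (nat_lit 6) (nat_lit 11) (nat_lit 6) (by decide +kernel)
theorem L119777 : W_48 (nat_lit 3) (nat_lit 0x10005800600010000c0004000000000000000) (nat_lit 0x0) (nat_lit 0x2000000008000600020000000) := T_48 (nat_lit 45) (nat_lit 97) (nat_lit 7) (nat_lit 11) (nat_lit 2) L119776 (by decide +kernel)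
theorem L119778 : W_48 (nat_lit 4) (nat_lit 0x10005800600010000c0000000000000000000) (nat_lit 0x0) (nat_lit 0x80000000200000000c000600020000000) := T_48 (nat_lit 62) (nat_lit 131) (nat_lit 7) (nat_lit 11) (nat_lit 3) L119777 (by decide +kernel)
theorem L119779 : W_48 (nat_lit 5) (nat_lit 0x1000580060001000080000000000000000000) (nat_lit 0x0) (nat_lit 0x80000000200004000e000600020000000) := T_48 (nat_lit 78) (nat_lit 61) (nat_lit 4) (nat_lit 11) (nat_lit 7) L119778 (by decide +kernel)
theorem L119780 : W_48 (nat_lit 2) (nat_lit 0x1000580060001000080004000000000000000) (nat_lit 0x0) (nat_lit 0x100008000400000000000) := D_48 (nat_lit 63) (nat_lit 80) (nat_lit 46) (nat_lit 6) (nat_lit 11) (nat_lit 7) (nat_lit 6) (nat_lit 11) (nat_lit 6) (by decide +kernel)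
theorem L119781 : W_48 (nat_lit 3) (nat_lit 0x1000580060001000080000000000000000000) (nat_lit 0x0) (nat_lit 0x80000000000010000c000400000000000) := T_48 (nat_lit 62) (nat_lit 131) (nat_lit 7) (nat_lit 11) (nat_lit 3) L119780 (by decide +kernel)
theorem L119782 : W_48 (nat_lit 2) (nat_lit 0x10005800600030001c0000000000000000000) (nat_lit 0x0) (nat_lit 0x4000030000000000000000000) := D_48 (nat_lit 77) (nat_lit 98) (nat_lit 76) (nat_lit 3) (nat_lit 9) (nat_lit 4) (nat_lit 3) (nat_lit 8) (nat_lit 4) (by decide +kernel)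
theorem L119783 : W_48 (nat_lit 3) (nat_lit 0x1000580060003000180000000000000000000) (nat_lit 0x0) (nat_lit 0x4000070002000000000000000) := T_48 (nat_lit 78) (nat_lit 61) (nat_lit 4) (nat_lit 11) (nat_lit 7) L119782 (by decide +kernel)
theorem L119784 : W_48 (nat_lit 4) (nat_lit 0x1000580060001000180000000000000000000) (nat_lit 0x0) (nat_lit 0x8000000000006000070002000000000000000) := T_48 (nat_lit 97) (nat_lit 147) (nat_lit 6) (nat_lit 11) (nat_lit 8) L119783 (by decide +kernel)
theorem L119785 : W_48 (nat_lit 5) (nat_lit 0x1000580060001000080000000000000000000) (nat_lit 0x0) (nat_lit 0x800000000000600017000a000000000000000) := T_48 (nat_lit 80) (nat_lit 63) (nat_lit 6) (nat_lit 11) (nat_lit 7) L119784 (by decide +kernel)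
theorem L119786 : W_48 (nat_lit 2) (nat_lit 0x1000580060001000080004000000000000000) (nat_lit 0x0) (nat_lit 0x40002000100000000000) := D_48 (nat_lit 61) (nat_lit 78) (nat_lit 44) (nat_lit 4) (nat_lit 11) (nat_lit 7) (nat_lit 4) (nat_lit 11) (nat_lit 6) (by decide +kernel)
theorem L119787 : W_48 (nat_lit 3) (nat_lit 0x1000580060001000080000000000000000000) (nat_lit 0x0) (nat_lit 0x800000000000040006000100000000000) := T_48 (nat_lit 62) (nat_lit 131) (nat_lit 7) (nat_lit 11) (nat_lit 3) L119786 (by decide +kernel)
theorem L119788 : W_48 (nat_lit 6) (nat_lit 0x1000580060001000000000000000000000000) (nat_lit 0x0) (nat_lit 0x80008000000060001f000e000700020000000) := Q_48 (nat_lit 79) (C_48 L119779 (C_48 L119781 (C_48 L119785 (C_48 L119787 N_48)))) (by decide +kernel)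
theorem L119789 : W_48 (nat_lit 2) (nat_lit 0x100058006000100008000a000000000000000) (nat_lit 0x0) (nat_lit 0x4000500000000000) := D_48 (nat_lit 62) (nat_lit 46) (nat_lit 44) (nat_lit 6) (nat_lit 11) (nat_lit 6) (nat_lit 4) (nat_lit 11) (nat_lit 6) (by decide +kernel)
theorem L119790 : W_48 (nat_lit 3) (nat_lit 0x1000580060001000080008000000000000000) (nat_lit 0x0) (nat_lit 0x40006000500000000000) := T_48 (nat_lit 61) (nat_lit 78) (nat_lit 4) (nat_lit 11) (nat_lit 7) L119789 (by decide +kernel)
theorem L119791 : W_48 (nat_lit 4) (nat_lit 0x1000580060001000080000000000000000000) (nat_lit 0x0) (nat_lit 0x14000e000500000000000) := T_48 (nat_lit 63) (nat_lit 80) (nat_lit 6) (nat_lit 11) (nat_lit 7) L119790 (by decide +kernel)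
theorem L119792 : W_48 (nat_lit 2) (nat_lit 0x9000580060001000080000000000000000000) (nat_lit 0x0) (nat_lit 0x200010000800000000000000000000000000000000) := D_48 (nat_lit 148) (nat_lit 131) (nat_lit 165) (nat_lit 7) (nat_lit 11) (nat_lit 4) (nat_lit 7) (nat_lit 11) (nat_lit 5) (by decide +kernel)
theorem L119793 : W_48 (nat_lit 2) (nat_lit 0x20001800090005800600010001c0000000000000000000) (nat_lit 0x0) (nat_lit 0x80004000200000000000000000000000000000000000000000) := D_48 (nat_lit 182) (nat_lit 165) (nat_lit 199) (nat_lit 7) (nat_lit 11) (nat_lit 6) (nat_lit 7) (nat_lit 11) (nat_lit 7) (by decide +kernel)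
theorem L119794 : W_48 (nat_lit 3) (nat_lit 0x1800090005800600010001c0000000000000000000) (nat_lit 0x0) (nat_lit 0x80006000200000000800000000000000000000000000000000) := T_48 (nat_lit 181) (nat_lit 131) (nat_lit 6) (nat_lit 11) (nat_lit 10) L119793 (by decide +kernel)
theorem L119795 : W_48 (nat_lit 4) (nat_lit 0x800090005800600010001c0000000000000000000) (nat_lit 0x0) (nat_lit 0x80007000300000000800000000000000000000000000000000) := T_48 (nat_lit 164) (nat_lit 180) (nat_lit 5) (nat_lit 11) (nat_lit 6) L119794 (by decide +kernel)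
theorem L119796 : W_48 (nat_lit 5) (nat_lit 0x800090005800600010000c0000000000000000000) (nat_lit 0x0) (nat_lit 0x80007000300000000800000000000100008000000000000000) := T_48 (nat_lit 80) (nat_lit 63) (nat_lit 6) (nat_lit 11) (nat_lit 7) L119795 (by decide +kernel)
theorem L119797 : W_48 (nat_lit 6) (nat_lit 0x90005800600010000c0000000000000000000) (nat_lit 0x0) (nat_lit 0x80007000380004000800000000000100008000000000000000) := T_48 (nat_lit 163) (nat_lit 146) (nat_lit 5) (nat_lit 11) (nat_lit 5) L119796 (by decide +kernel)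
theorem L119798 : W_48 (nat_lit 7) (nat_lit 0x9000580060001000080000000000000000000) (nat_lit 0x0) (nat_lit 0x8000700038000400080000000000014000a000000000000000) := T_48 (nat_lit 78) (nat_lit 61) (nat_lit 4) (nat_lit 11) (nat_lit 7) L119797 (by decide +kernel)
theorem L119799 : W_48 (nat_lit 2) (nat_lit 0x280009000580060001000080000000000000000000) (nat_lit 0x0) (nat_lit 0x5000100000000000000000000000000000000000000000) := D_48 (nat_lit 164) (nat_lit 180) (nat_lit 182) (nat_lit 5) (nat_lit 11) (nat_lit 6) (nat_lit 7) (nat_lit 11) (nat_lit 6) (by decide +kernel)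
theorem L119800 : W_48 (nat_lit 3) (nat_lit 0x80009000580060001000080000000000000000000) (nat_lit 0x0) (nat_lit 0x5000300010000000000000000000000000000000000000) := T_48 (nat_lit 165) (nat_lit 148) (nat_lit 7) (nat_lit 11) (nat_lit 5) L119799 (by decide +kernel)
theorem L119801 : W_48 (nat_lit 4) (nat_lit 0x9000580060001000080000000000000000000) (nat_lit 0x0) (nat_lit 0x5000380014000000000000000000000000000000000000) := T_48 (nat_lit 163) (nat_lit 146) (nat_lit 5) (nat_lit 11) (nat_lit 5) L119800 (by decide +kernel)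
theorem L119802 : W_48 (nat_lit 2) (nat_lit 0x180009000580060001000180000000000000000000) (nat_lit 0x0) (nat_lit 0x2000000010000800000000000000000000000000000000) := D_48 (nat_lit 131) (nat_lit 148) (nat_lit 181) (nat_lit 7) (nat_lit 11) (nat_lit 4) (nat_lit 6) (nat_lit 11) (nat_lit 10) (by decide +kernel)
theorem L119803 : W_48 (nat_lit 3) (nat_lit 0x80009000580060001000180000000000000000000) (nat_lit 0x0) (nat_lit 0x3000100010000800000000000000000000000000000000) := T_48 (nat_lit 164) (nat_lit 180) (nat_lit 5) (nat_lit 11) (nat_lit 6) L119802 (by decide +kernel)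
theorem L119804 : W_48 (nat_lit 4) (nat_lit 0x80009000580060001000080000000000000000000) (nat_lit 0x0) (nat_lit 0x3000100010000800000000000100008000000000000000) := T_48 (nat_lit 80) (nat_lit 63) (nat_lit 6) (nat_lit 11) (nat_lit 7) L119803 (by decide +kernel)
theorem L119805 : W_48 (nat_lit 5) (nat_lit 0x9000580060001000080000000000000000000) (nat_lit 0x0) (nat_lit 0x3000180014000800000000000100008000000000000000) := T_48 (nat_lit 163) (nat_lit 146) (nat_lit 5) (nat_lit 11) (nat_lit 5) L119804 (by decide +kernel)
theorem L119806 : W_48 (nat_lit 8) (nat_lit 0x1000580060001000080000000000000000000) (nat_lit 0x0) (nat_lit 0x8000700038001c00080000000000014000a000000000000000) := Q_48 (nat_lit 147) (C_48 L119792 (C_48 L119798 (C_48 L119801 (C_48 L119805 N_48)))) (by decide +kernel)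
theorem L119807 : W_48 (nat_lit 9) (nat_lit 0x1000580060001000000000000000000000000) (nat_lit 0x0) (nat_lit 0x8000700038001c0008000000000001c000e000500000000000) := Q_48 (nat_lit 79) (C_48 L119787 (C_48 L119781 (C_48 L119791 (C_48 L119806 N_48)))) (by decide +kernel)
theorem L119808 : W_48 (nat_lit 5) (nat_lit 0x19000d80060017000000000000000000000000) (nat_lit 0x0) (nat_lit 0x4800e4007000000000000000000000000000000000) := T_48 (nat_lit 146) (nat_lit 163) (nat_lit 5) (nat_lit 11) (nat_lit 5) L118410 (by decide +kernel)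
theorem L119809 : W_48 (nat_lit 6) (nat_lit 0x19000580060017000000000000000000000000) (nat_lit 0x0) (nat_lit 0x4800e4007800000000000200000000000000000000) := T_48 (nat_lit 131) (nat_lit 81) (nat_lit 6) (nat_lit 12) (nat_lit 8) L119808 (by decide +kernel)
theorem L119810 : W_48 (nat_lit 7) (nat_lit 0x9000580060017000000000000000000000000) (nat_lit 0x0) (nat_lit 0x6800f4007800000000000200000000000000000000) := T_48 (nat_lit 148) (nat_lit 165) (nat_lit 7) (nat_lit 11) (nat_lit 5) L119809 (by decide +kernel)
theorem L119811 : W_48 (nat_lit 8) (nat_lit 0x9000580060007000000000000000000000000) (nat_lit 0x0) (nat_lit 0x6800f4007800000018000200000000000000000000) := T_48 (nat_lit 100) (nat_lit 99) (nat_lit 1) (nat_lit 15) (nat_lit 5) L119810 (by decide +kernel)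
theorem L119812 : W_48 (nat_lit 9) (nat_lit 0x1000580060007000000000000000000000000) (nat_lit 0x0) (nat_lit 0x7800fc007800000018000200000000000000000000) := T_48 (nat_lit 147) (nat_lit 164) (nat_lit 6) (nat_lit 11) (nat_lit 9) L119811 (by decide +kernel)
theorem L119813 : W_48 (nat_lit 2) (nat_lit 0x1000580060007000000000000000000000000) (nat_lit 0x0) (nat_lit 0x10018000000000000000000000000) := D_48 (nat_lit 99) (nat_lit 100) (nat_lit 112) (nat_lit 1) (nat_lit 15) (nat_lit 5) (nat_lit 1) (nat_lit 14) (nat_lit 5) (by decide +kernel)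
theorem L119814 : W_48 (nat_lit 2) (nat_lit 0x3d002d80060007000000000000000000000000) (nat_lit 0x0) (nat_lit 0xc0004000000000000000000000000000000000) := D_48 (nat_lit 150) (nat_lit 134) (nat_lit 151) (nat_lit 2) (nat_lit 11) (nat_lit 8) (nat_lit 0) (nat_lit 15) (nat_lit 8) (by decide +kernel)
theorem L119815 : W_48 (nat_lit 3) (nat_lit 0x1d002d80060007000000000000000000000000) (nat_lit 0x0) (nat_lit 0x4000e0004000000000000000000000000000000000) := T_48 (nat_lit 149) (nat_lit 166) (nat_lit 7) (nat_lit 12) (nat_lit 5) L119814 (by decide +kernel)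
theorem L119816 : W_48 (nat_lit 4) (nat_lit 0x1d000d80060007000000000000000000000000) (nat_lit 0x0) (nat_lit 0x4000e0007000000000000000000000000000000000) := T_48 (nat_lit 133) (nat_lit 132) (nat_lit 1) (nat_lit 14) (nat_lit 7) L119815 (by decide +kernel)
theorem L119817 : W_48 (nat_lit 5) (nat_lit 0x1d000580060007000000000000000000000000) (nat_lit 0x0) (nat_lit 0x4000e0007800000000000200000000000000000000) := T_48 (nat_lit 131) (nat_lit 81) (nat_lit 6) (nat_lit 12) (nat_lit 8) L119816 (by decide +kernel)
theorem L119818 : W_48 (nat_lit 6) (nat_lit 0xd000580060007000000000000000000000000) (nat_lit 0x0) (nat_lit 0x6000f0007800000000000200000000000000000000) := T_48 (nat_lit 148) (nat_lit 165) (nat_lit 7) (nat_lit 11) (nat_lit 5) L119817 (by decide +kernel)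
theorem L119819 : W_48 (nat_lit 7) (nat_lit 0x9000580060007000000000000000000000000) (nat_lit 0x0) (nat_lit 0x6800f4007800000000000200000000000000000000) := T_48 (nat_lit 146) (nat_lit 163) (nat_lit 5) (nat_lit 11) (nat_lit 5) L119818 (by decide +kernel)
theorem L119820 : W_48 (nat_lit 8) (nat_lit 0x1000580060007000000000000000000000000) (nat_lit 0x0) (nat_lit 0x7800fc007800000000000200000000000000000000) := T_48 (nat_lit 147) (nat_lit 164) (nat_lit 6) (nat_lit 11) (nat_lit 9) L119819 (by decide +kernel)
theorem L119821 : W_48 (nat_lit 10) (nat_lit 0x1000580060003000000000000000000000000) (nat_lit 0x0) (nat_lit 0x7800fc00780001001c000200000000000000000000) := Q_48 (nat_lit 98) (C_48 L119812 (C_48 L119813 (C_48 L119820 N_48))) (by decide +kernel)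
theorem L119822 : W_48 (nat_lit 2) (nat_lit 0x1001d80060003000100000000000000000000) (nat_lit 0x0) (nat_lit 0x6000010000000000000000000000000000) := D_48 (nat_lit 133) (nat_lit 134) (nat_lit 112) (nat_lit 0) (nat_lit 15) (nat_lit 7) (nat_lit 0) (nat_lit 14) (nat_lit 7) (by decide +kernel)
theorem L119823 : W_48 (nat_lit 3) (nat_lit 0x1000d80060003000100000000000000000000) (nat_lit 0x0) (nat_lit 0x20007000010000000000000000000000000000) := T_48 (nat_lit 132) (nat_lit 149) (nat_lit 7) (nat_lit 12) (nat_lit 4) L119822 (by decide +kernel)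
theorem L119824 : W_48 (nat_lit 4) (nat_lit 0x1000d80060003000000000000000000000000) (nat_lit 0x0) (nat_lit 0x20007000010000000100008000000000000000) := T_48 (nat_lit 80) (nat_lit 63) (nat_lit 5) (nat_lit 12) (nat_lit 3) L119823 (by decide +kernel)
theorem L119825 : W_48 (nat_lit 2) (nat_lit 0x11000d80060007000000008000000000000000) (nat_lit 0x0) (nat_lit 0x10018000000000000000000000000) := D_48 (nat_lit 99) (nat_lit 100) (nat_lit 112) (nat_lit 1) (nat_lit 15) (nat_lit 5) (nat_lit 1) (nat_lit 14) (nat_lit 5) (by decide +kernel)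
theorem L119826 : W_48 (nat_lit 3) (nat_lit 0x11000d80060003000000008000000000000000) (nat_lit 0x0) (nat_lit 0x1001c000200000000000000000000) := T_48 (nat_lit 98) (nat_lit 81) (nat_lit 6) (nat_lit 12) (nat_lit 8) L119825 (by decide +kernel)
theorem L119827 : W_48 (nat_lit 4) (nat_lit 0x1000d80060003000000008000000000000000) (nat_lit 0x0) (nat_lit 0x20001000000001001c000200000000000000000000) := T_48 (nat_lit 148) (nat_lit 165) (nat_lit 4) (nat_lit 12) (nat_lit 9) L119826 (by decide +kernel)
theorem L119828 : W_48 (nat_lit 5) (nat_lit 0x1000d80060003000000000000000000000000) (nat_lit 0x0) (nat_lit 0x20001000000001001c000300008000000000000000) := T_48 (nat_lit 63) (nat_lit 80) (nat_lit 5) (nat_lit 12) (nat_lit 3) L119827 (by decide +kernel)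
theorem L119829 : W_48 (nat_lit 10) (nat_lit 0x1000580060003000000000000000000000000) (nat_lit 0x0) (nat_lit 0x6000f000780031001c000f00008000000000000000) := Q_48 (nat_lit 131) (C_48 L119773 (C_48 L119824 (C_48 L117918 (C_48 L119828 N_48)))) (by decide +kernel)
theorem L119830 : W_48 (nat_lit 11) (nat_lit 0x1000580060001000000000000000000000000) (nat_lit 0x0) (nat_lit 0x7800fc00780031001e000f00008000000000000000) := Q_48 (nat_lit 97) (C_48 L117801 (C_48 L119821 (C_48 L119829 N_48))) (by decide +kernel)
theorem L119831 : W_48 (nat_lit 2) (nat_lit 0x1000580060001000080006000400000000000) (nat_lit 0x0) (nat_lit 0x2000000000000200020000000) := D_48 (nat_lit 45) (nat_lit 97) (nat_lit 29) (nat_lit 7) (nat_lit 11) (nat_lit 2) (nat_lit 6) (nat_lit 11) (nat_lit 5) (by decide +kernel)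
theorem L119832 : W_48 (nat_lit 3) (nat_lit 0x1000580060001000080006000000000000000) (nat_lit 0x0) (nat_lit 0x2000000008000600020000000) := T_48 (nat_lit 46) (nat_lit 63) (nat_lit 6) (nat_lit 11) (nat_lit 6) L119831 (by decide +kernel)
theorem L119833 : W_48 (nat_lit 4) (nat_lit 0x1000580060001000080002000000000000000) (nat_lit 0x0) (nat_lit 0x200000000c000700020000000) := T_48 (nat_lit 62) (nat_lit 44) (nat_lit 4) (nat_lit 11) (nat_lit 6) L119832 (by decide +kernel)
theorem L119834 : W_48 (nat_lit 5) (nat_lit 0x1000580060001000080000000000000000000) (nat_lit 0x0) (nat_lit 0x200004000e000700020000000) := T_48 (nat_lit 61) (nat_lit 78) (nat_lit 4) (nat_lit 11) (nat_lit 7) L119833 (by decide +kernel)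
theorem L119835 : W_48 (nat_lit 2) (nat_lit 0x1000190005800600010000c0000000000000000000) (nat_lit 0x0) (nat_lit 0x1000080004000000000000000000000000000000000000) := D_48 (nat_lit 163) (nat_lit 180) (nat_lit 146) (nat_lit 5) (nat_lit 11) (nat_lit 6) (nat_lit 5) (nat_lit 11) (nat_lit 5) (by decide +kernel)
theorem L119836 : W_48 (nat_lit 3) (nat_lit 0x190005800600010000c0000000000000000000) (nat_lit 0x0) (nat_lit 0x1000180004000000000002000000000000000000000000) := T_48 (nat_lit 164) (nat_lit 97) (nat_lit 6) (nat_lit 11) (nat_lit 9) L119835 (by decide +kernel)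
theorem L119837 : W_48 (nat_lit 4) (nat_lit 0x110005800600010000c0000000000000000000) (nat_lit 0x0) (nat_lit 0x100038000c000000000002000000000000000000000000) := T_48 (nat_lit 147) (nat_lit 165) (nat_lit 7) (nat_lit 11) (nat_lit 5) L119836 (by decide +kernel)
theorem L119838 : W_48 (nat_lit 5) (nat_lit 0x10005800600010000c0000000000000000000) (nat_lit 0x0) (nat_lit 0x100038001c000800000002000000000000000000000000) := T_48 (nat_lit 148) (nat_lit 131) (nat_lit 7) (nat_lit 11) (nat_lit 4) L119837 (by decide +kernel)
theorem L119839 : W_48 (nat_lit 6) (nat_lit 0x1000580060001000080000000000000000000) (nat_lit 0x0) (nat_lit 0x100038001c000800000002000040002000000000000000) := T_48 (nat_lit 78) (nat_lit 61) (nat_lit 4) (nat_lit 11) (nat_lit 7) L119838 (by decide +kernel)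
theorem L119840 : W_48 (nat_lit 7) (nat_lit 0x1000580060001000000000000000000000000) (nat_lit 0x0) (nat_lit 0x100038001c0008000000020000c000e000700020000000) := Q_48 (nat_lit 79) (C_48 L119787 (C_48 L117829 (C_48 L119834 (C_48 L119839 N_48)))) (by decide +kernel)
theorem L119841 : W_48 (nat_lit 2) (nat_lit 0x1d000580060001000080006000400000000000) (nat_lit 0x0) (nat_lit 0x2000000000000200020000000) := D_48 (nat_lit 45) (nat_lit 97) (nat_lit 29) (nat_lit 7) (nat_lit 11) (nat_lit 2) (nat_lit 6) (nat_lit 11) (nat_lit 5) (by decide +kernel)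
theorem L119842 : W_48 (nat_lit 3) (nat_lit 0x1d000580060001000080006000000000000000) (nat_lit 0x0) (nat_lit 0x2000000008000600020000000) := T_48 (nat_lit 46) (nat_lit 63) (nat_lit 6) (nat_lit 11) (nat_lit 6) L119841 (by decide +kernel)
theorem L119843 : W_48 (nat_lit 4) (nat_lit 0x1d000580060001000080002000000000000000) (nat_lit 0x0) (nat_lit 0x200000000c000700020000000) := T_48 (nat_lit 62) (nat_lit 44) (nat_lit 4) (nat_lit 11) (nat_lit 6) L119842 (by decide +kernel)
theorem L119844 : W_48 (nat_lit 5) (nat_lit 0x1d000580060001000080000000000000000000) (nat_lit 0x0) (nat_lit 0x200004000e000700020000000) := T_48 (nat_lit 61) (nat_lit 78) (nat_lit 4) (nat_lit 11) (nat_lit 7) L119843 (by decide +kernel)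
theorem L119845 : W_48 (nat_lit 6) (nat_lit 0xd000580060001000080000000000000000000) (nat_lit 0x0) (nat_lit 0x20001000000000000200004000e000700020000000) := T_48 (nat_lit 148) (nat_lit 165) (nat_lit 7) (nat_lit 11) (nat_lit 5) L119844 (by decide +kernel)
theorem L119846 : W_48 (nat_lit 7) (nat_lit 0x9000580060001000080000000000000000000) (nat_lit 0x0) (nat_lit 0x28001400000000000200004000e000700020000000) := T_48 (nat_lit 146) (nat_lit 163) (nat_lit 5) (nat_lit 11) (nat_lit 5) L119845 (by decide +kernel)
theorem L119847 : W_48 (nat_lit 2) (nat_lit 0x9000580060003000080002000000000000000) (nat_lit 0x0) (nat_lit 0x4000300000000000) := D_48 (nat_lit 62) (nat_lit 44) (nat_lit 45) (nat_lit 4) (nat_lit 11) (nat_lit 6) (nat_lit 7) (nat_lit 11) (nat_lit 2) (by decide +kernel)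
theorem L119848 : W_48 (nat_lit 3) (nat_lit 0x9000580060001000080002000000000000000) (nat_lit 0x0) (nat_lit 0x2000100004000300000000000) := T_48 (nat_lit 97) (nat_lit 80) (nat_lit 6) (nat_lit 11) (nat_lit 8) L119847 (by decide +kernel)
theorem L119849 : W_48 (nat_lit 4) (nat_lit 0x9000580060001000080000000000000000000) (nat_lit 0x0) (nat_lit 0x2000140006000300000000000) := T_48 (nat_lit 61) (nat_lit 78) (nat_lit 4) (nat_lit 11) (nat_lit 7) L119848 (by decide +kernel)
theorem L119850 : W_48 (nat_lit 8) (nat_lit 0x9000580060001000000000000000000000000) (nat_lit 0x0) (nat_lit 0x2800140000000000020001c000e000700020000000) := Q_48 (nat_lit 79) (C_48 L117881 (C_48 L117878 (C_48 L119846 (C_48 L119849 N_48)))) (by decide +kernel)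
theorem L119851 : W_48 (nat_lit 2) (nat_lit 0x280009000580060001000000000000000000000000) (nat_lit 0x0) (nat_lit 0x5000100000000000000000000000000000000000000000) := D_48 (nat_lit 164) (nat_lit 180) (nat_lit 182) (nat_lit 5) (nat_lit 11) (nat_lit 6) (nat_lit 7) (nat_lit 11) (nat_lit 6) (by decide +kernel)
theorem L119852 : W_48 (nat_lit 3) (nat_lit 0x80009000580060001000000000000000000000000) (nat_lit 0x0) (nat_lit 0x5000300010000000000000000000000000000000000000) := T_48 (nat_lit 165) (nat_lit 148) (nat_lit 7) (nat_lit 11) (nat_lit 5) L119851 (by decide +kernel)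
theorem L119853 : W_48 (nat_lit 4) (nat_lit 0x9000580060001000000000000000000000000) (nat_lit 0x0) (nat_lit 0x5000380014000000000000000000000000000000000000) := T_48 (nat_lit 163) (nat_lit 146) (nat_lit 5) (nat_lit 11) (nat_lit 5) L119852 (by decide +kernel)
theorem L119854 : W_48 (nat_lit 9) (nat_lit 0x1000580060001000000000000000000000000) (nat_lit 0x0) (nat_lit 0x500038001c0000000000020001c000e000700020000000) := Q_48 (nat_lit 147) (C_48 L119850 (C_48 L117761 (C_48 L117748 (C_48 L119853 N_48)))) (by decide +kernel)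
theorem L119855 : W_48 (nat_lit 8) (nat_lit 0x1005d800600010001c0000000000000000000) (nat_lit 0x0) (nat_lit 0x2000000038001a000e30070000000000000000) := T_48 (nat_lit 97) (nat_lit 149) (nat_lit 7) (nat_lit 12) (nat_lit 4) L119724 (by decide +kernel)
theorem L119856 : W_48 (nat_lit 9) (nat_lit 0x1005d800600010000c0000000000000000000) (nat_lit 0x0) (nat_lit 0x2000000038001a000f30078000000000000000) := T_48 (nat_lit 80) (nat_lit 63) (nat_lit 6) (nat_lit 11) (nat_lit 7) L119855 (by decide +kernel)
theorem L119857 : W_48 (nat_lit 10) (nat_lit 0x1005d80060001000080000000000000000000) (nat_lit 0x0) (nat_lit 0x2000000038001a000f7007a000000000000000) := T_48 (nat_lit 78) (nat_lit 61) (nat_lit 4) (nat_lit 11) (nat_lit 7) L119856 (by decide +kernel)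
theorem L119858 : W_48 (nat_lit 11) (nat_lit 0x1001d80060001000080000000000000000000) (nat_lit 0x0) (nat_lit 0x2000600038001a000f7007a000000000000000) := T_48 (nat_lit 134) (nat_lit 133) (nat_lit 0) (nat_lit 15) (nat_lit 7) L119857 (by decide +kernel)
theorem L119859 : W_48 (nat_lit 12) (nat_lit 0x1001d80060001000000000000000000000000) (nat_lit 0x0) (nat_lit 0x2000600038001a000ff007e000000000000000) := T_48 (nat_lit 79) (nat_lit 62) (nat_lit 7) (nat_lit 11) (nat_lit 3) L119858 (by decide +kernel)
theorem L119860 : W_48 (nat_lit 2) (nat_lit 0x1001d80060003000bc0000000000000000000) (nat_lit 0x0) (nat_lit 0xc000020000000000000000000) := D_48 (nat_lit 98) (nat_lit 99) (nat_lit 77) (nat_lit 3) (nat_lit 10) (nat_lit 4) (nat_lit 3) (nat_lit 9) (nat_lit 4) (by decide +kernel)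
theorem L119861 : W_48 (nat_lit 3) (nat_lit 0x1001d80060003000b80000000000000000000) (nat_lit 0x0) (nat_lit 0xc000060002000000000000000) := T_48 (nat_lit 78) (nat_lit 61) (nat_lit 4) (nat_lit 11) (nat_lit 7) L119860 (by decide +kernel)
theorem L119862 : W_48 (nat_lit 4) (nat_lit 0x1001d80060003000380000000000000000000) (nat_lit 0x0) (nat_lit 0xc000c60002000000000000000) := T_48 (nat_lit 83) (nat_lit 82) (nat_lit 1) (nat_lit 15) (nat_lit 4) L119861 (by decide +kernel)
theorem L119863 : W_48 (nat_lit 5) (nat_lit 0x1001d80060003000180000000000000000000) (nat_lit 0x0) (nat_lit 0xc000e60012000000000000000) := T_48 (nat_lit 81) (nat_lit 64) (nat_lit 6) (nat_lit 12) (nat_lit 7) L119862 (by decide +kernel)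
theorem L119864 : W_48 (nat_lit 6) (nat_lit 0x1001d80060001000180000000000000000000) (nat_lit 0x0) (nat_lit 0x2000000000000e000e60012000000000000000) := T_48 (nat_lit 97) (nat_lit 149) (nat_lit 7) (nat_lit 12) (nat_lit 4) L119863 (by decide +kernel)
theorem L119865 : W_48 (nat_lit 7) (nat_lit 0x1001d80060001000080000000000000000000) (nat_lit 0x0) (nat_lit 0x2000000000000e000f6001a000000000000000) := T_48 (nat_lit 80) (nat_lit 63) (nat_lit 6) (nat_lit 11) (nat_lit 7) L119864 (by decide +kernel)
theorem L119866 : W_48 (nat_lit 8) (nat_lit 0x1001d80060001000000000000000000000000) (nat_lit 0x0) (nat_lit 0x2000000000000e000fe001e000000000000000) := T_48 (nat_lit 79) (nat_lit 62) (nat_lit 7) (nat_lit 11) (nat_lit 3) L119865 (by decide +kernel)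
theorem L119867 : W_48 (nat_lit 13) (nat_lit 0x1000d80060001000000000000000000000000) (nat_lit 0x0) (nat_lit 0x2000700039001e000ff007e000000000000000) := Q_48 (nat_lit 132) (C_48 L119859 (C_48 L119740 (C_48 L119866 N_48))) (by decide +kernel)
theorem L119868 : W_48 (nat_lit 10) (nat_lit 0x1000d80060001000000000000000000000000) (nat_lit 0x0) (nat_lit 0x6000f000700031001e000f00008000000000000000) := Q_48 (nat_lit 97) (C_48 L119773 (C_48 L119828 (C_48 L119824 N_48))) (by decide +kernel)
theorem L119869 : W_48 (nat_lit 14) (nat_lit 0x1000580060001000000000000000000000000) (nat_lit 0x0) (nat_lit 0x6000f000780039001e000ff007e000000000000000) := Q_48 (nat_lit 131) (C_48 L117773 (C_48 L119867 (C_48 L119868 N_48))) (by decide +kernel)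
theorem L119870 : W_48 (nat_lit 2) (nat_lit 0x1d000580060003000080002000000000000000) (nat_lit 0x0) (nat_lit 0x4000300000000000) := D_48 (nat_lit 62) (nat_lit 44) (nat_lit 45) (nat_lit 4) (nat_lit 11) (nat_lit 6) (nat_lit 7) (nat_lit 11) (nat_lit 2) (by decide +kernel)
theorem L119871 : W_48 (nat_lit 3) (nat_lit 0x1d000580060001000080002000000000000000) (nat_lit 0x0) (nat_lit 0x2000100004000300000000000) := T_48 (nat_lit 97) (nat_lit 80) (nat_lit 6) (nat_lit 11) (nat_lit 8) L119870 (by decide +kernel)
theorem L119872 : W_48 (nat_lit 4) (nat_lit 0x1d000580060001000080000000000000000000) (nat_lit 0x0) (nat_lit 0x2000140006000300000000000) := T_48 (nat_lit 61) (nat_lit 78) (nat_lit 4) (nat_lit 11) (nat_lit 7) L119871 (by decide +kernel)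
theorem L119873 : W_48 (nat_lit 5) (nat_lit 0x1d000580060001000000000000000000000000) (nat_lit 0x0) (nat_lit 0x8000000020001c0006000300000000000) := T_48 (nat_lit 79) (nat_lit 131) (nat_lit 7) (nat_lit 11) (nat_lit 4) L119872 (by decide +kernel)
theorem L119874 : W_48 (nat_lit 6) (nat_lit 0xd000580060001000000000000000000000000) (nat_lit 0x0) (nat_lit 0x2000100008000000020001c0006000300000000000) := T_48 (nat_lit 148) (nat_lit 165) (nat_lit 7) (nat_lit 11) (nat_lit 5) L119873 (by decide +kernel)
theorem L119875 : W_48 (nat_lit 7) (nat_lit 0x9000580060001000000000000000000000000) (nat_lit 0x0) (nat_lit 0x2800140008000000020001c0006000300000000000) := T_48 (nat_lit 146) (nat_lit 163) (nat_lit 5) (nat_lit 11) (nat_lit 5) L119874 (by decide +kernel)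
theorem L119876 : W_48 (nat_lit 8) (nat_lit 0x1000580060001000000000000000000000000) (nat_lit 0x0) (nat_lit 0x500038001c0008000000020001c0006000300000000000) := Q_48 (nat_lit 147) (C_48 L119875 (C_48 L119853 (C_48 L117748 N_48))) (by decide +kernel)
theorem L119877 : W_48 (nat_lit 15) (nat_lit 0x1000580060000000000000000000000000000) (nat_lit 0x0) (nat_lit 0x800070007800fc00780039001f000ff007e000700020000000) := Q_48 (nat_lit 96) (C_48 L117772 (C_48 L119772 (C_48 L119775 (C_48 L119788 (C_48 L119807 (C_48 L119830 (C_48 L119840 (C_48 L119854 (C_48 L119869 (C_48 L119876 N_48)))))))))) (by decide +kernel)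
theorem L119878 : W_48 (nat_lit 7) (nat_lit 0x120001000580068002000000000000000000000000) (nat_lit 0x0) (nat_lit 0xe8002c0030800800004000400000000000000000000000) := T_48 (nat_lit 110) (nat_lit 94) (nat_lit 6) (nat_lit 8) (nat_lit 9) L119677 (by decide +kernel)
theorem L119879 : W_48 (nat_lit 8) (nat_lit 0x100001000580068002000000000000000000000000) (nat_lit 0x0) (nat_lit 0xec002e0030800800004000400000000000000000000000) := T_48 (nat_lit 161) (nat_lit 178) (nat_lit 6) (nat_lit 8) (nat_lit 10) L119878 (by decide +kernel)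
theorem L119880 : W_48 (nat_lit 9) (nat_lit 0x1000580068002000000000000000000000000) (nat_lit 0x0) (nat_lit 0xec003e0038800800004000400000000000000000000000) := T_48 (nat_lit 164) (nat_lit 147) (nat_lit 6) (nat_lit 11) (nat_lit 9) L119879 (by decide +kernel)
theorem L119881 : W_48 (nat_lit 10) (nat_lit 0x1000580060002000000000000000000000000) (nat_lit 0x0) (nat_lit 0xec003e003880080001c000400000000000000000000000) := T_48 (nat_lit 111) (nat_lit 112) (nat_lit 1) (nat_lit 12) (nat_lit 6) L119880 (by decide +kernel)
theorem L119882 : W_48 (nat_lit 11) (nat_lit 0x1000580060002000000000000000000000000) (nat_lit 0x0) (nat_lit 0xc0006000f000780039801d000f8001c000000000000000) := Q_48 (nat_lit 131) (C_48 L119718 (C_48 L118393 (C_48 L118384 (C_48 L118055 N_48)))) (by decide +kernel)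
theorem L119883 : W_48 (nat_lit 12) (nat_lit 0x1000580060000000000000000000000000000) (nat_lit 0x0) (nat_lit 0xec007e00f880780039c01f400f8001c000000000000000) := Q_48 (nat_lit 97) (C_48 L117954 (C_48 L118004 (C_48 L117956 (C_48 L119881 (C_48 L119882 N_48))))) (by decide +kernel)
theorem L119884 : W_48 (nat_lit 16) (nat_lit 0x1000580020000000000000000000000000000) (nat_lit 0x0) (nat_lit 0x2800fc00fe007e00fc8078003df81f780ff807fe00700020000000) := Q_48 (nat_lit 114) (C_48 L117933 (C_48 L119732 (C_48 L119733 (C_48 L119757 (C_48 L119877 (C_48 L119883 N_48)))))) (by decide +kernel)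
theorem L119885 : W_48 (nat_lit 2) (nat_lit 0x800060002000300009000580070000000000000000000000000000) (nat_lit 0x0) (nat_lit 0x20001000080000000000000000000000000000000000000000000000000) := D_48 (nat_lit 216) (nat_lit 199) (nat_lit 233) (nat_lit 7) (nat_lit 11) (nat_lit 8) (nat_lit 7) (nat_lit 11) (nat_lit 9) (by decide +kernel)
theorem L119886 : W_48 (nat_lit 3) (nat_lit 0x60002000300009000580070000000000000000000000000000) (nat_lit 0x0) (nat_lit 0x20001800080000000000010000000000000000000000000000000000000) := T_48 (nat_lit 215) (nat_lit 148) (nat_lit 6) (nat_lit 11) (nat_lit 12) L119885 (by decide +kernel)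
theorem L119887 : W_48 (nat_lit 4) (nat_lit 0x20002000300009000580070000000000000000000000000000) (nat_lit 0x0) (nat_lit 0x20001c000c0000000000010000000000000000000000000000000000000) := T_48 (nat_lit 198) (nat_lit 214) (nat_lit 5) (nat_lit 11) (nat_lit 8) L119886 (by decide +kernel)
theorem L119888 : W_48 (nat_lit 5) (nat_lit 0x2000300009000580070000000000000000000000000000) (nat_lit 0x0) (nat_lit 0x20001c000e0001000000010000000000000000000000000000000000000) := T_48 (nat_lit 197) (nat_lit 180) (nat_lit 5) (nat_lit 11) (nat_lit 7) L119887 (by decide +kernel)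
theorem L119889 : W_48 (nat_lit 6) (nat_lit 0x300009000580070000000000000000000000000000) (nat_lit 0x0) (nat_lit 0x20001c000e0003000000010000800000000000000000000000000000000) := T_48 (nat_lit 181) (nat_lit 131) (nat_lit 6) (nat_lit 11) (nat_lit 10) L119888 (by decide +kernel)
theorem L119890 : W_48 (nat_lit 7) (nat_lit 0x300009000580060000000000000000000000000000) (nat_lit 0x0) (nat_lit 0x20001c000e0003000000010000800010000800000000000000000000000) := T_48 (nat_lit 112) (nat_lit 95) (nat_lit 4) (nat_lit 11) (nat_lit 9) L119889 (by decide +kernel)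
theorem L119891 : W_48 (nat_lit 8) (nat_lit 0x300009000580020000000000000000000000000000) (nat_lit 0x0) (nat_lit 0x20001c000e0003000000010000800050002800000000000000000000000) := T_48 (nat_lit 114) (nat_lit 97) (nat_lit 6) (nat_lit 11) (nat_lit 9) L119890 (by decide +kernel)
theorem L119892 : W_48 (nat_lit 9) (nat_lit 0x100009000580020000000000000000000000000000) (nat_lit 0x0) (nat_lit 0x20001c000e0007000200010000800050002800000000000000000000000) := T_48 (nat_lit 165) (nat_lit 182) (nat_lit 7) (nat_lit 11) (nat_lit 6) L119891 (by decide +kernel)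
theorem L119893 : W_48 (nat_lit 2) (nat_lit 0x4000100009000580060000000000000000000000000000) (nat_lit 0x0) (nat_lit 0x80002000000000000800000000000000000000000000000000) := D_48 (nat_lit 181) (nat_lit 131) (nat_lit 199) (nat_lit 6) (nat_lit 11) (nat_lit 10) (nat_lit 7) (nat_lit 11) (nat_lit 7) (by decide +kernel)
theorem L119894 : W_48 (nat_lit 3) (nat_lit 0x100009000580060000000000000000000000000000) (nat_lit 0x0) (nat_lit 0x80006000200000000800000000000000000000000000000000) := T_48 (nat_lit 182) (nat_lit 165) (nat_lit 7) (nat_lit 11) (nat_lit 6) L119893 (by decide +kernel)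
theorem L119895 : W_48 (nat_lit 4) (nat_lit 0x100009000580020000000000000000000000000000) (nat_lit 0x0) (nat_lit 0x80006000200000000800040002000000000000000000000000) := T_48 (nat_lit 114) (nat_lit 97) (nat_lit 6) (nat_lit 11) (nat_lit 9) L119894 (by decide +kernel)
theorem L119896 : W_48 (nat_lit 2) (nat_lit 0x10000f00059000d800f0000000000000000000000000000) (nat_lit 0x0) (nat_lit 0x20003000000000000000000000000000000000) := D_48 (nat_lit 132) (nat_lit 133) (nat_lit 149) (nat_lit 3) (nat_lit 10) (nat_lit 6) (nat_lit 7) (nat_lit 13) (nat_lit 6) (by decide +kernel)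
theorem L119897 : W_48 (nat_lit 3) (nat_lit 0x10000f00059000d80070000000000000000000000000000) (nat_lit 0x0) (nat_lit 0x20003000080004000000000000000000000000) := T_48 (nat_lit 115) (nat_lit 98) (nat_lit 6) (nat_lit 12) (nat_lit 9) L119896 (by decide +kernel)
theorem L119898 : W_48 (nat_lit 4) (nat_lit 0x10000f00059000580070000000000000000000000000000) (nat_lit 0x0) (nat_lit 0x8000000020003800080004000000000000000000000000) := T_48 (nat_lit 131) (nat_lit 183) (nat_lit 7) (nat_lit 12) (nat_lit 6) L119897 (by decide +kernel)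
theorem L119899 : W_48 (nat_lit 5) (nat_lit 0x10000f00059000580060000000000000000000000000000) (nat_lit 0x0) (nat_lit 0x8000000020003800090004800000000000000000000000) := T_48 (nat_lit 112) (nat_lit 95) (nat_lit 4) (nat_lit 11) (nat_lit 9) L119898 (by decide +kernel)
theorem L119900 : W_48 (nat_lit 6) (nat_lit 0x10000f00049000580060000000000000000000000000000) (nat_lit 0x0) (nat_lit 0x8001000030003800090004800000000000000000000000) := T_48 (nat_lit 148) (nat_lit 168) (nat_lit 0) (nat_lit 15) (nat_lit 9) L119899 (by decide +kernel)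
theorem L119901 : W_48 (nat_lit 7) (nat_lit 0x10000f00009000580060000000000000000000000000000) (nat_lit 0x0) (nat_lit 0x80010000f0003800090004800000000000000000000000) := T_48 (nat_lit 150) (nat_lit 151) (nat_lit 2) (nat_lit 11) (nat_lit 9) L119900 (by decide +kernel)
theorem L119902 : W_48 (nat_lit 8) (nat_lit 0xf00009000580060000000000000000000000000000) (nat_lit 0x0) (nat_lit 0x380010000f0003800090004800000000000000000000000) := T_48 (nat_lit 184) (nat_lit 185) (nat_lit 3) (nat_lit 11) (nat_lit 9) L119901 (by decide +kernel)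
theorem L119903 : W_48 (nat_lit 9) (nat_lit 0xf00009000580020000000000000000000000000000) (nat_lit 0x0) (nat_lit 0x380010000f00038000d0006800000000000000000000000) := T_48 (nat_lit 114) (nat_lit 97) (nat_lit 6) (nat_lit 11) (nat_lit 9) L119902 (by decide +kernel)
theorem L119904 : W_48 (nat_lit 10) (nat_lit 0x700009000580020000000000000000000000000000) (nat_lit 0x0) (nat_lit 0x380018000f40038000d0006800000000000000000000000) := T_48 (nat_lit 167) (nat_lit 146) (nat_lit 0) (nat_lit 14) (nat_lit 9) L119903 (by decide +kernel)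
theorem L119905 : W_48 (nat_lit 2) (nat_lit 0x10000f00009000580060000000000000000000000000000) (nat_lit 0x0) (nat_lit 0x9000080000000000000000000000000000000000000000) := D_48 (nat_lit 163) (nat_lit 183) (nat_lit 180) (nat_lit 3) (nat_lit 10) (nat_lit 9) (nat_lit 5) (nat_lit 11) (nat_lit 6) (by decide +kernel)
theorem L119906 : W_48 (nat_lit 3) (nat_lit 0xf00009000580060000000000000000000000000000) (nat_lit 0x0) (nat_lit 0x39000080000000000000000000000000000000000000000) := T_48 (nat_lit 184) (nat_lit 185) (nat_lit 3) (nat_lit 11) (nat_lit 9) L119905 (by decide +kernel)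
theorem L119907 : W_48 (nat_lit 4) (nat_lit 0xf00009000580020000000000000000000000000000) (nat_lit 0x0) (nat_lit 0x39000080000000000040002000000000000000000000000) := T_48 (nat_lit 114) (nat_lit 97) (nat_lit 6) (nat_lit 11) (nat_lit 9) L119906 (by decide +kernel)
theorem L119908 : W_48 (nat_lit 5) (nat_lit 0x700009000580020000000000000000000000000000) (nat_lit 0x0) (nat_lit 0x39000880004000000040002000000000000000000000000) := T_48 (nat_lit 167) (nat_lit 146) (nat_lit 0) (nat_lit 14) (nat_lit 9) L119907 (by decide +kernel)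
theorem L119909 : W_48 (nat_lit 2) (nat_lit 0x8000780029000580070000000000000000000000000000) (nat_lit 0x0) (nat_lit 0x40010000800000000000000000000000000000000) := D_48 (nat_lit 148) (nat_lit 162) (nat_lit 131) (nat_lit 2) (nat_lit 9) (nat_lit 9) (nat_lit 7) (nat_lit 12) (nat_lit 6) (by decide +kernel)
theorem L119910 : W_48 (nat_lit 3) (nat_lit 0x8000780009000580070000000000000000000000000000) (nat_lit 0x0) (nat_lit 0x40070000800000000000000000000000000000000) := T_48 (nat_lit 149) (nat_lit 150) (nat_lit 2) (nat_lit 10) (nat_lit 9) L119909 (by decide +kernel)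
theorem L119911 : W_48 (nat_lit 4) (nat_lit 0x780009000580070000000000000000000000000000) (nat_lit 0x0) (nat_lit 0x18000040070000800000000000000000000000000000000) := T_48 (nat_lit 183) (nat_lit 184) (nat_lit 3) (nat_lit 10) (nat_lit 9) L119910 (by decide +kernel)
theorem L119912 : W_48 (nat_lit 5) (nat_lit 0x700009000580070000000000000000000000000000) (nat_lit 0x0) (nat_lit 0x190000c0070000800000000000000000000000000000000) := T_48 (nat_lit 163) (nat_lit 180) (nat_lit 5) (nat_lit 11) (nat_lit 6) L119911 (by decide +kernel)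
theorem L119913 : W_48 (nat_lit 6) (nat_lit 0x700009000580060000000000000000000000000000) (nat_lit 0x0) (nat_lit 0x190000c0070000800010000800000000000000000000000) := T_48 (nat_lit 112) (nat_lit 95) (nat_lit 4) (nat_lit 11) (nat_lit 9) L119912 (by decide +kernel)
theorem L119914 : W_48 (nat_lit 7) (nat_lit 0x700009000580020000000000000000000000000000) (nat_lit 0x0) (nat_lit 0x190000c0070000800050002800000000000000000000000) := T_48 (nat_lit 114) (nat_lit 97) (nat_lit 6) (nat_lit 11) (nat_lit 9) L119913 (by decide +kernel)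
theorem L119915 : W_48 (nat_lit 2) (nat_lit 0x88007c0029000580020000000000000000000000000000) (nat_lit 0x0) (nat_lit 0x20000800000004000000000000000000000000000) := D_48 (nat_lit 161) (nat_lit 143) (nat_lit 110) (nat_lit 0) (nat_lit 11) (nat_lit 9) (nat_lit 7) (nat_lit 8) (nat_lit 6) (by decide +kernel)
theorem L119916 : W_48 (nat_lit 3) (nat_lit 0x80007c0029000580020000000000000000000000000000) (nat_lit 0x0) (nat_lit 0xc00020000800000004000000000000000000000000000) := T_48 (nat_lit 179) (nat_lit 178) (nat_lit 1) (nat_lit 12) (nat_lit 9) L119915 (by decide +kernel)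
theorem L119917 : W_48 (nat_lit 4) (nat_lit 0x8000780029000580020000000000000000000000000000) (nat_lit 0x0) (nat_lit 0xc00060010800000004000000000000000000000000000) := T_48 (nat_lit 162) (nat_lit 148) (nat_lit 2) (nat_lit 9) (nat_lit 9) L119916 (by decide +kernel)
theorem L119918 : W_48 (nat_lit 5) (nat_lit 0x8000780009000580020000000000000000000000000000) (nat_lit 0x0) (nat_lit 0xc00060070800000004000000000000000000000000000) := T_48 (nat_lit 149) (nat_lit 150) (nat_lit 2) (nat_lit 10) (nat_lit 9) L119917 (by decide +kernel)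
theorem L119919 : W_48 (nat_lit 6) (nat_lit 0x780009000580020000000000000000000000000000) (nat_lit 0x0) (nat_lit 0x18c00060070800000004000000000000000000000000000) := T_48 (nat_lit 183) (nat_lit 184) (nat_lit 3) (nat_lit 10) (nat_lit 9) L119918 (by decide +kernel)
theorem L119920 : W_48 (nat_lit 7) (nat_lit 0x700009000580020000000000000000000000000000) (nat_lit 0x0) (nat_lit 0x19c000e0070800000004000000000000000000000000000) := T_48 (nat_lit 163) (nat_lit 180) (nat_lit 5) (nat_lit 11) (nat_lit 6) L119919 (by decide +kernel)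
theorem L119921 : W_48 (nat_lit 2) (nat_lit 0x10000f00049000580060000000000000000000000000000) (nat_lit 0x0) (nat_lit 0x1000080020000000000000000000000000000000000000) := D_48 (nat_lit 163) (nat_lit 149) (nat_lit 180) (nat_lit 2) (nat_lit 10) (nat_lit 9) (nat_lit 5) (nat_lit 11) (nat_lit 6) (by decide +kernel)
theorem L119922 : W_48 (nat_lit 3) (nat_lit 0x10000f00009000580060000000000000000000000000000) (nat_lit 0x0) (nat_lit 0x10000800e0000000000000000000000000000000000000) := T_48 (nat_lit 150) (nat_lit 151) (nat_lit 2) (nat_lit 11) (nat_lit 9) L119921 (by decide +kernel)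
theorem L119923 : W_48 (nat_lit 4) (nat_lit 0xf00009000580060000000000000000000000000000) (nat_lit 0x0) (nat_lit 0x310000800e0000000000000000000000000000000000000) := T_48 (nat_lit 184) (nat_lit 185) (nat_lit 3) (nat_lit 11) (nat_lit 9) L119922 (by decide +kernel)
theorem L119924 : W_48 (nat_lit 5) (nat_lit 0xf00009000580020000000000000000000000000000) (nat_lit 0x0) (nat_lit 0x310000800e0000000040002000000000000000000000000) := T_48 (nat_lit 114) (nat_lit 97) (nat_lit 6) (nat_lit 11) (nat_lit 9) L119923 (by decide +kernel)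
theorem L119925 : W_48 (nat_lit 6) (nat_lit 0x700009000580020000000000000000000000000000) (nat_lit 0x0) (nat_lit 0x310008800e4000000040002000000000000000000000000) := T_48 (nat_lit 167) (nat_lit 146) (nat_lit 0) (nat_lit 14) (nat_lit 9) L119924 (by decide +kernel)
theorem L119926 : W_48 (nat_lit 2) (nat_lit 0xf00049000580060000000000000000000000000000) (nat_lit 0x0) (nat_lit 0x1000080020000000000000000000000000000000000000) := D_48 (nat_lit 163) (nat_lit 149) (nat_lit 180) (nat_lit 2) (nat_lit 10) (nat_lit 9) (nat_lit 5) (nat_lit 11) (nat_lit 6) (by decide +kernel)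
theorem L119927 : W_48 (nat_lit 3) (nat_lit 0xf00009000580060000000000000000000000000000) (nat_lit 0x0) (nat_lit 0x10000800e0000000000000000000000000000000000000) := T_48 (nat_lit 150) (nat_lit 151) (nat_lit 2) (nat_lit 11) (nat_lit 9) L119926 (by decide +kernel)
theorem L119928 : W_48 (nat_lit 4) (nat_lit 0xf00009000580020000000000000000000000000000) (nat_lit 0x0) (nat_lit 0x10000800e0000000040002000000000000000000000000) := T_48 (nat_lit 114) (nat_lit 97) (nat_lit 6) (nat_lit 11) (nat_lit 9) L119927 (by decide +kernel)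
theorem L119929 : W_48 (nat_lit 5) (nat_lit 0x700009000580020000000000000000000000000000) (nat_lit 0x0) (nat_lit 0x10008800e4000000040002000000000000000000000000) := T_48 (nat_lit 167) (nat_lit 146) (nat_lit 0) (nat_lit 14) (nat_lit 9) L119928 (by decide +kernel)
theorem L119930 : W_48 (nat_lit 11) (nat_lit 0x300009000580020000000000000000000000000000) (nat_lit 0x0) (nat_lit 0x39c01ce00f48038000d4006800000000000000000000000) := Q_48 (nat_lit 166) (C_48 L119904 (C_48 L119908 (C_48 L119914 (C_48 L119920 (C_48 L119925 (C_48 L119929 N_48)))))) (by decide +kernel)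
theorem L119931 : W_48 (nat_lit 12) (nat_lit 0x100009000580020000000000000000000000000000) (nat_lit 0x0) (nat_lit 0x3dc01ee00f48038000d4006800000000000000000000000) := T_48 (nat_lit 165) (nat_lit 182) (nat_lit 7) (nat_lit 11) (nat_lit 6) L119930 (by decide +kernel)
theorem L119932 : W_48 (nat_lit 2) (nat_lit 0x4000400060001a0009000d80020000000000000000000000000000) (nat_lit 0x0) (nat_lit 0x8000800000000000000004000000000000000000000000000000000000) := D_48 (nat_lit 215) (nat_lit 146) (nat_lit 231) (nat_lit 4) (nat_lit 11) (nat_lit 12) (nat_lit 5) (nat_lit 11) (nat_lit 9) (by decide +kernel)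
theorem L119933 : W_48 (nat_lit 3) (nat_lit 0x400060001a0009000d80020000000000000000000000000000) (nat_lit 0x0) (nat_lit 0x8000c00020000000000004000000000000000000000000000000000000) := T_48 (nat_lit 214) (nat_lit 197) (nat_lit 5) (nat_lit 11) (nat_lit 8) L119932 (by decide +kernel)
theorem L119934 : W_48 (nat_lit 4) (nat_lit 0x60001a0009000d80020000000000000000000000000000) (nat_lit 0x0) (nat_lit 0x8000c00060000000000014000000000000000000000000000000000000) := T_48 (nat_lit 198) (nat_lit 148) (nat_lit 6) (nat_lit 11) (nat_lit 11) L119933 (by decide +kernel)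
theorem L119935 : W_48 (nat_lit 5) (nat_lit 0x6000180009000d80020000000000000000000000000000) (nat_lit 0x0) (nat_lit 0x8000c00060000000060014000000000000000000000000000000000000) := T_48 (nat_lit 161) (nat_lit 162) (nat_lit 3) (nat_lit 8) (nat_lit 9) L119934 (by decide +kernel)
theorem L119936 : W_48 (nat_lit 6) (nat_lit 0x6000180009000580020000000000000000000000000000) (nat_lit 0x0) (nat_lit 0x8000c00060000000060014000800040000000000000000000000000000) := T_48 (nat_lit 131) (nat_lit 114) (nat_lit 6) (nat_lit 11) (nat_lit 10) L119935 (by decide +kernel)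
theorem L119937 : W_48 (nat_lit 7) (nat_lit 0x4000180009000580020000000000000000000000000000) (nat_lit 0x0) (nat_lit 0x8000c000e0002000060014000800040000000000000000000000000000) := T_48 (nat_lit 181) (nat_lit 199) (nat_lit 7) (nat_lit 11) (nat_lit 7) L119936 (by decide +kernel)
theorem L119938 : W_48 (nat_lit 8) (nat_lit 0x4000100009000580020000000000000000000000000000) (nat_lit 0x0) (nat_lit 0x8000c000e00030000e0014000800040000000000000000000000000000) := T_48 (nat_lit 163) (nat_lit 180) (nat_lit 5) (nat_lit 11) (nat_lit 6) L119937 (by decide +kernel)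
theorem L119939 : W_48 (nat_lit 9) (nat_lit 0x100009000580020000000000000000000000000000) (nat_lit 0x0) (nat_lit 0x8000c000e00070002e0014000800040000000000000000000000000000) := T_48 (nat_lit 182) (nat_lit 165) (nat_lit 7) (nat_lit 11) (nat_lit 6) L119938 (by decide +kernel)
theorem L119940 : W_48 (nat_lit 2) (nat_lit 0x5000100009000580070000000000000000000000000000) (nat_lit 0x0) (nat_lit 0xa0002000000000000000000000000000000000000000000000) := D_48 (nat_lit 181) (nat_lit 197) (nat_lit 199) (nat_lit 5) (nat_lit 11) (nat_lit 7) (nat_lit 7) (nat_lit 11) (nat_lit 7) (by decide +kernel)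
theorem L119941 : W_48 (nat_lit 3) (nat_lit 0x1000100009000580070000000000000000000000000000) (nat_lit 0x0) (nat_lit 0xa0006000200000000000000000000000000000000000000000) := T_48 (nat_lit 182) (nat_lit 165) (nat_lit 7) (nat_lit 11) (nat_lit 6) L119940 (by decide +kernel)
theorem L119942 : W_48 (nat_lit 4) (nat_lit 0x100009000580070000000000000000000000000000) (nat_lit 0x0) (nat_lit 0xa0007000280000000000000000000000000000000000000000) := T_48 (nat_lit 180) (nat_lit 163) (nat_lit 5) (nat_lit 11) (nat_lit 6) L119941 (by decide +kernel)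
theorem L119943 : W_48 (nat_lit 5) (nat_lit 0x100009000580030000000000000000000000000000) (nat_lit 0x0) (nat_lit 0xa0007000280000000000040002000000000000000000000000) := T_48 (nat_lit 114) (nat_lit 97) (nat_lit 6) (nat_lit 11) (nat_lit 9) L119942 (by decide +kernel)
theorem L119944 : W_48 (nat_lit 6) (nat_lit 0x100009000580020000000000000000000000000000) (nat_lit 0x0) (nat_lit 0xa0007000280000000000050002800000000000000000000000) := T_48 (nat_lit 112) (nat_lit 95) (nat_lit 4) (nat_lit 11) (nat_lit 9) L119943 (by decide +kernel)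
theorem L119945 : W_48 (nat_lit 2) (nat_lit 0x3000100009000580030000000000000000000000000000) (nat_lit 0x0) (nat_lit 0x80004000200000000000000000000000000000000000000000) := D_48 (nat_lit 182) (nat_lit 165) (nat_lit 199) (nat_lit 7) (nat_lit 11) (nat_lit 6) (nat_lit 7) (nat_lit 11) (nat_lit 7) (by decide +kernel)
theorem L119946 : W_48 (nat_lit 3) (nat_lit 0x1000100009000580030000000000000000000000000000) (nat_lit 0x0) (nat_lit 0xa0006000200000000000000000000000000000000000000000) := T_48 (nat_lit 181) (nat_lit 197) (nat_lit 5) (nat_lit 11) (nat_lit 7) L119945 (by decide +kernel)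
theorem L119947 : W_48 (nat_lit 4) (nat_lit 0x1000100009000580020000000000000000000000000000) (nat_lit 0x0) (nat_lit 0xa0006000200000000000010000800000000000000000000000) := T_48 (nat_lit 112) (nat_lit 95) (nat_lit 4) (nat_lit 11) (nat_lit 9) L119946 (by decide +kernel)
theorem L119948 : W_48 (nat_lit 5) (nat_lit 0x100009000580020000000000000000000000000000) (nat_lit 0x0) (nat_lit 0xa0007000280000000000010000800000000000000000000000) := T_48 (nat_lit 180) (nat_lit 163) (nat_lit 5) (nat_lit 11) (nat_lit 6) L119947 (by decide +kernel)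
theorem L119949 : W_48 (nat_lit 4) (nat_lit 0x100009000580060000000000000000000000000000) (nat_lit 0x0) (nat_lit 0x20003000080000000800010000800000000000000000000000) := T_48 (nat_lit 112) (nat_lit 95) (nat_lit 4) (nat_lit 11) (nat_lit 9) L119513 (by decide +kernel)
theorem L119950 : W_48 (nat_lit 5) (nat_lit 0x100009000580020000000000000000000000000000) (nat_lit 0x0) (nat_lit 0x20003000080000000800050002800000000000000000000000) := T_48 (nat_lit 114) (nat_lit 97) (nat_lit 6) (nat_lit 11) (nat_lit 9) L119949 (by decide +kernel)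
theorem L119951 : W_48 (nat_lit 13) (nat_lit 0x100001000580020000000000000000000000000000) (nat_lit 0x0) (nat_lit 0x28001c000e003fc01ee00fc8038000d4006800000000000000000000000) := Q_48 (nat_lit 147) (C_48 L119567 (C_48 L119892 (C_48 L119895 (C_48 L119931 (C_48 L119939 (C_48 L119944 (C_48 L119948 (C_48 L119950 N_48)))))))) (by decide +kernel)
theorem L119952 : W_48 (nat_lit 10) (nat_lit 0x100001000580020000000000000000000000000000) (nat_lit 0x0) (nat_lit 0x8000c000e00070002e001c000800058002800000000000000000000000) := Q_48 (nat_lit 147) (C_48 L119939 (C_48 L119950 (C_48 L119895 (C_48 L119474 (C_48 L119948 N_48))))) (by decide +kernel)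
theorem L119953 : W_48 (nat_lit 6) (nat_lit 0x100001000580020000000000000000000000000000) (nat_lit 0x0) (nat_lit 0xa0007000280008000800058002800000000000000000000000) := Q_48 (nat_lit 147) (C_48 L119895 (C_48 L119950 (C_48 L119474 (C_48 L119948 N_48)))) (by decide +kernel)
theorem L119954 : W_48 (nat_lit 2) (nat_lit 0xc000400120009000580060000000000000000000000000000) (nat_lit 0x0) (nat_lit 0x200010000800000000000000000000000000000000000000000000) := D_48 (nat_lit 196) (nat_lit 179) (nat_lit 213) (nat_lit 7) (nat_lit 8) (nat_lit 7) (nat_lit 7) (nat_lit 8) (nat_lit 8) (by decide +kernel)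
theorem L119955 : W_48 (nat_lit 3) (nat_lit 0x4000400120009000580060000000000000000000000000000) (nat_lit 0x0) (nat_lit 0x280018000800000000000000000000000000000000000000000000) := T_48 (nat_lit 195) (nat_lit 211) (nat_lit 5) (nat_lit 8) (nat_lit 8) L119954 (by decide +kernel)
theorem L119956 : W_48 (nat_lit 4) (nat_lit 0x4000400120009000580020000000000000000000000000000) (nat_lit 0x0) (nat_lit 0x280018000800000000000000040002000000000000000000000000) := T_48 (nat_lit 114) (nat_lit 97) (nat_lit 6) (nat_lit 11) (nat_lit 9) L119955 (by decide +kernel)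
theorem L119957 : W_48 (nat_lit 5) (nat_lit 0x400120009000580020000000000000000000000000000) (nat_lit 0x0) (nat_lit 0x28001c000a00000000000000040002000000000000000000000000) := T_48 (nat_lit 194) (nat_lit 177) (nat_lit 5) (nat_lit 8) (nat_lit 7) L119956 (by decide +kernel)
theorem L119958 : W_48 (nat_lit 6) (nat_lit 0x120009000580020000000000000000000000000000) (nat_lit 0x0) (nat_lit 0x28001c000e00000000000000048002000000000000000000000000) := T_48 (nat_lit 178) (nat_lit 111) (nat_lit 6) (nat_lit 8) (nat_lit 10) L119957 (by decide +kernel)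
theorem L119959 : W_48 (nat_lit 2) (nat_lit 0x3a0009000580060000000000000000000000000000) (nat_lit 0x0) (nat_lit 0x40010800000000000000000000000000000000000) := D_48 (nat_lit 162) (nat_lit 148) (nat_lit 143) (nat_lit 2) (nat_lit 8) (nat_lit 9) (nat_lit 0) (nat_lit 11) (nat_lit 9) (by decide +kernel)
theorem L119960 : W_48 (nat_lit 3) (nat_lit 0x320009000580060000000000000000000000000000) (nat_lit 0x0) (nat_lit 0x10000c0010800000000000000000000000000000000000) := T_48 (nat_lit 163) (nat_lit 180) (nat_lit 5) (nat_lit 11) (nat_lit 6) L119959 (by decide +kernel)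
theorem L119961 : W_48 (nat_lit 4) (nat_lit 0x320009000580020000000000000000000000000000) (nat_lit 0x0) (nat_lit 0x10000c0010800000040002000000000000000000000000) := T_48 (nat_lit 114) (nat_lit 97) (nat_lit 6) (nat_lit 11) (nat_lit 9) L119960 (by decide +kernel)
theorem L119962 : W_48 (nat_lit 5) (nat_lit 0x120009000580020000000000000000000000000000) (nat_lit 0x0) (nat_lit 0x50002c0010800000040002000000000000000000000000) := T_48 (nat_lit 165) (nat_lit 182) (nat_lit 7) (nat_lit 11) (nat_lit 6) L119961 (by decide +kernel)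
theorem L119963 : W_48 (nat_lit 2) (nat_lit 0x1a0009000580020000000000000000000000000000) (nat_lit 0x0) (nat_lit 0x40010800000000000000000000000000000000000) := D_48 (nat_lit 162) (nat_lit 148) (nat_lit 143) (nat_lit 2) (nat_lit 8) (nat_lit 9) (nat_lit 0) (nat_lit 11) (nat_lit 9) (by decide +kernel)
theorem L119964 : W_48 (nat_lit 3) (nat_lit 0x120009000580020000000000000000000000000000) (nat_lit 0x0) (nat_lit 0x10000c0010800000000000000000000000000000000000) := T_48 (nat_lit 163) (nat_lit 180) (nat_lit 5) (nat_lit 11) (nat_lit 6) L119963 (by decide +kernel)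
theorem L119965 : W_48 (nat_lit 7) (nat_lit 0x100009000580020000000000000000000000000000) (nat_lit 0x0) (nat_lit 0x28001c005e002e0010800000048002000000000000000000000000) := Q_48 (nat_lit 161) (C_48 L119958 (C_48 L119962 (C_48 L119964 N_48))) (by decide +kernel)
theorem L119966 : W_48 (nat_lit 2) (nat_lit 0xb0004c003400b20009000580020000000000000000000000000000) (nat_lit 0x0) (nat_lit 0x20001000080000000000000000000000000000000000000000000000000) := D_48 (nat_lit 216) (nat_lit 233) (nat_lit 199) (nat_lit 7) (nat_lit 11) (nat_lit 9) (nat_lit 7) (nat_lit 11) (nat_lit 8) (by decide +kernel)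
theorem L119967 : W_48 (nat_lit 3) (nat_lit 0xb0000c003400b20009000580020000000000000000000000000000) (nat_lit 0x0) (nat_lit 0x200010000c0000000000010000000000000000000000000000000000000) := T_48 (nat_lit 198) (nat_lit 148) (nat_lit 6) (nat_lit 11) (nat_lit 12) L119966 (by decide +kernel)
theorem L119968 : W_48 (nat_lit 4) (nat_lit 0x30000c003400b20009000580020000000000000000000000000000) (nat_lit 0x0) (nat_lit 0x20001c000c0000000000010000000000000000000000000000000000000) := T_48 (nat_lit 215) (nat_lit 214) (nat_lit 0) (nat_lit 11) (nat_lit 12) L119967 (by decide +kernel)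
theorem L119969 : W_48 (nat_lit 5) (nat_lit 0x20000c003400b20009000580020000000000000000000000000000) (nat_lit 0x0) (nat_lit 0x24001d000c0000000000010000000000000000000000000000000000000) := T_48 (nat_lit 212) (nat_lit 230) (nat_lit 7) (nat_lit 8) (nat_lit 9) L119968 (by decide +kernel)
theorem L119970 : W_48 (nat_lit 6) (nat_lit 0xc003400b20009000580020000000000000000000000000000) (nat_lit 0x0) (nat_lit 0x24001f000d0000000000010000000000000000000000000000000000000) := T_48 (nat_lit 213) (nat_lit 196) (nat_lit 7) (nat_lit 8) (nat_lit 8) L119969 (by decide +kernel)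
theorem L119971 : W_48 (nat_lit 7) (nat_lit 0x4003400b20009000580020000000000000000000000000000) (nat_lit 0x0) (nat_lit 0x24001f800d8000000000010000000000000000000000000000000000000) := T_48 (nat_lit 195) (nat_lit 211) (nat_lit 5) (nat_lit 8) (nat_lit 8) L119970 (by decide +kernel)
theorem L119972 : W_48 (nat_lit 8) (nat_lit 0x3400b20009000580020000000000000000000000000000) (nat_lit 0x0) (nat_lit 0x24001f800dc000200000010000000000000000000000000000000000000) := T_48 (nat_lit 194) (nat_lit 177) (nat_lit 5) (nat_lit 8) (nat_lit 7) L119971 (by decide +kernel)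
theorem L119973 : W_48 (nat_lit 9) (nat_lit 0x3400b00009000580020000000000000000000000000000) (nat_lit 0x0) (nat_lit 0x24001f800dc000200020010000000008000000000000000000000000000) := T_48 (nat_lit 161) (nat_lit 111) (nat_lit 6) (nat_lit 8) (nat_lit 10) L119972 (by decide +kernel)
theorem L119974 : W_48 (nat_lit 10) (nat_lit 0x3400300009000580020000000000000000000000000000) (nat_lit 0x0) (nat_lit 0x24001f800dc000200c20010000000008000000000000000000000000000) := T_48 (nat_lit 167) (nat_lit 166) (nat_lit 1) (nat_lit 14) (nat_lit 9) L119973 (by decide +kernel)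
theorem L119975 : W_48 (nat_lit 11) (nat_lit 0x3000300009000580020000000000000000000000000000) (nat_lit 0x0) (nat_lit 0x24001f800dc000e00c20010000000008000000000000000000000000000) := T_48 (nat_lit 178) (nat_lit 179) (nat_lit 2) (nat_lit 8) (nat_lit 10) L119974 (by decide +kernel)
theorem L119976 : W_48 (nat_lit 12) (nat_lit 0x1000300009000580020000000000000000000000000000) (nat_lit 0x0) (nat_lit 0x24001f800fc002e00c20010000000008000000000000000000000000000) := T_48 (nat_lit 181) (nat_lit 197) (nat_lit 5) (nat_lit 11) (nat_lit 7) L119975 (by decide +kernel)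
theorem L119977 : W_48 (nat_lit 13) (nat_lit 0x300009000580020000000000000000000000000000) (nat_lit 0x0) (nat_lit 0x24001f800fc003e00ca0010000000008000000000000000000000000000) := T_48 (nat_lit 180) (nat_lit 163) (nat_lit 5) (nat_lit 11) (nat_lit 6) L119976 (by decide +kernel)
theorem L119978 : W_48 (nat_lit 14) (nat_lit 0x100009000580020000000000000000000000000000) (nat_lit 0x0) (nat_lit 0x24001f800fc007e00ea0010000000008000000000000000000000000000) := T_48 (nat_lit 165) (nat_lit 182) (nat_lit 7) (nat_lit 11) (nat_lit 6) L119977 (by decide +kernel)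
theorem L119979 : W_48 (nat_lit 2) (nat_lit 0x1000100009000580060000000000000000000000000000) (nat_lit 0x0) (nat_lit 0x20002000000000000800000000000000000000000000000000) := D_48 (nat_lit 181) (nat_lit 197) (nat_lit 131) (nat_lit 5) (nat_lit 11) (nat_lit 7) (nat_lit 6) (nat_lit 11) (nat_lit 10) (by decide +kernel)
theorem L119980 : W_48 (nat_lit 3) (nat_lit 0x1000100009000580020000000000000000000000000000) (nat_lit 0x0) (nat_lit 0x20002000000000000800040002000000000000000000000000) := T_48 (nat_lit 114) (nat_lit 97) (nat_lit 6) (nat_lit 11) (nat_lit 9) L119979 (by decide +kernel)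
theorem L119981 : W_48 (nat_lit 4) (nat_lit 0x100009000580020000000000000000000000000000) (nat_lit 0x0) (nat_lit 0x20003000080000000800040002000000000000000000000000) := T_48 (nat_lit 180) (nat_lit 163) (nat_lit 5) (nat_lit 11) (nat_lit 6) L119980 (by decide +kernel)
theorem L119982 : W_48 (nat_lit 15) (nat_lit 0x100001000580020000000000000000000000000000) (nat_lit 0x0) (nat_lit 0x2c001f800fc007e00ee001c800800048002000000000000000000000000) := Q_48 (nat_lit 147) (C_48 L119939 (C_48 L119895 (C_48 L119965 (C_48 L119978 (C_48 L119981 N_48))))) (by decide +kernel)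
theorem L119983 : W_48 (nat_lit 7) (nat_lit 0x300009000580030000000000000000000000000000) (nat_lit 0x0) (nat_lit 0x20001c000e0003000000010000800048000000000000000000000000000) := T_48 (nat_lit 114) (nat_lit 111) (nat_lit 1) (nat_lit 12) (nat_lit 6) L119889 (by decide +kernel)
theorem L119984 : W_48 (nat_lit 8) (nat_lit 0x300009000580020000000000000000000000000000) (nat_lit 0x0) (nat_lit 0x20001c000e0003000000010000800058000800000000000000000000000) := T_48 (nat_lit 112) (nat_lit 95) (nat_lit 4) (nat_lit 11) (nat_lit 9) L119983 (by decide +kernel)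
theorem L119985 : W_48 (nat_lit 9) (nat_lit 0x100009000580020000000000000000000000000000) (nat_lit 0x0) (nat_lit 0x20001c000e0007000200010000800058000800000000000000000000000) := T_48 (nat_lit 165) (nat_lit 182) (nat_lit 7) (nat_lit 11) (nat_lit 6) L119984 (by decide +kernel)
theorem L119986 : W_48 (nat_lit 2) (nat_lit 0x2000100009000580020000000000000000000000000000) (nat_lit 0x0) (nat_lit 0x80004000200000000000000000000000000000000000000000) := D_48 (nat_lit 182) (nat_lit 199) (nat_lit 165) (nat_lit 7) (nat_lit 11) (nat_lit 7) (nat_lit 7) (nat_lit 11) (nat_lit 6) (by decide +kernel)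
theorem L119987 : W_48 (nat_lit 2) (nat_lit 0x1000060002000100019000580030000000000000000000000000000) (nat_lit 0x0) (nat_lit 0x20000800000000000200000000000000000000000000000000000000000) := D_48 (nat_lit 215) (nat_lit 165) (nat_lit 233) (nat_lit 6) (nat_lit 11) (nat_lit 12) (nat_lit 7) (nat_lit 11) (nat_lit 9) (by decide +kernel)
theorem L119988 : W_48 (nat_lit 3) (nat_lit 0x60002000100019000580030000000000000000000000000000) (nat_lit 0x0) (nat_lit 0x20001800080000000200000000000000000000000000000000000000000) := T_48 (nat_lit 216) (nat_lit 199) (nat_lit 7) (nat_lit 11) (nat_lit 8) L119987 (by decide +kernel)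
theorem L119989 : W_48 (nat_lit 4) (nat_lit 0x60002000100009000580030000000000000000000000000000) (nat_lit 0x0) (nat_lit 0x20001800080000000200010000800000000000000000000000000000000) := T_48 (nat_lit 148) (nat_lit 131) (nat_lit 6) (nat_lit 11) (nat_lit 11) L119988 (by decide +kernel)
theorem L119990 : W_48 (nat_lit 5) (nat_lit 0x20002000100009000580030000000000000000000000000000) (nat_lit 0x0) (nat_lit 0x20001c000c0000000200010000800000000000000000000000000000000) := T_48 (nat_lit 198) (nat_lit 214) (nat_lit 5) (nat_lit 11) (nat_lit 8) L119989 (by decide +kernel)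
theorem L119991 : W_48 (nat_lit 6) (nat_lit 0x20002000100009000580020000000000000000000000000000) (nat_lit 0x0) (nat_lit 0x20001c000c0000000200010000800010000800000000000000000000000) := T_48 (nat_lit 112) (nat_lit 95) (nat_lit 4) (nat_lit 11) (nat_lit 9) L119990 (by decide +kernel)
theorem L119992 : W_48 (nat_lit 7) (nat_lit 0x2000100009000580020000000000000000000000000000) (nat_lit 0x0) (nat_lit 0x20001c000e0001000200010000800010000800000000000000000000000) := T_48 (nat_lit 197) (nat_lit 180) (nat_lit 5) (nat_lit 11) (nat_lit 7) L119991 (by decide +kernel)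
theorem L119993 : W_48 (nat_lit 2) (nat_lit 0x3400b0000900058003c000200020000000000000000000) (nat_lit 0x0) (nat_lit 0x10001800000000000000) := D_48 (nat_lit 76) (nat_lit 60) (nat_lit 59) (nat_lit 6) (nat_lit 8) (nat_lit 7) (nat_lit 7) (nat_lit 8) (nat_lit 3) (by decide +kernel)
theorem L119994 : W_48 (nat_lit 3) (nat_lit 0x3400b0000900058003c000200000000000000000000000) (nat_lit 0x0) (nat_lit 0x400030001800000000000000) := T_48 (nat_lit 77) (nat_lit 94) (nat_lit 6) (nat_lit 8) (nat_lit 8) L119993 (by decide +kernel)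
theorem L119995 : W_48 (nat_lit 4) (nat_lit 0x3400b0000900058003c000000000000000000000000000) (nat_lit 0x0) (nat_lit 0x700030001800000000000000) := T_48 (nat_lit 93) (nat_lit 92) (nat_lit 0) (nat_lit 11) (nat_lit 6) L119994 (by decide +kernel)
theorem L119996 : W_48 (nat_lit 5) (nat_lit 0x3400b00009000580038000000000000000000000000000) (nat_lit 0x0) (nat_lit 0x800004000700030001800000000000000) := T_48 (nat_lit 110) (nat_lit 131) (nat_lit 3) (nat_lit 8) (nat_lit 6) L119995 (by decide +kernel)
theorem L119997 : W_48 (nat_lit 6) (nat_lit 0x3400b00009000580028000000000000000000000000000) (nat_lit 0x0) (nat_lit 0x800014000f00030001800000000000000) := T_48 (nat_lit 112) (nat_lit 95) (nat_lit 4) (nat_lit 11) (nat_lit 9) L119996 (by decide +kernel)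
theorem L119998 : W_48 (nat_lit 7) (nat_lit 0x3400b00009000580020000000000000000000000000000) (nat_lit 0x0) (nat_lit 0x2000000080001c000f00030001800000000000000) := T_48 (nat_lit 111) (nat_lit 161) (nat_lit 6) (nat_lit 8) (nat_lit 10) L119997 (by decide +kernel)
theorem L119999 : W_48 (nat_lit 8) (nat_lit 0x3400300009000580020000000000000000000000000000) (nat_lit 0x0) (nat_lit 0xc2000000080001c000f00030001800000000000000) := T_48 (nat_lit 167) (nat_lit 166) (nat_lit 1) (nat_lit 14) (nat_lit 9) L119998 (by decide +kernel)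
theorem L120000 : W_48 (nat_lit 9) (nat_lit 0x3000300009000580020000000000000000000000000000) (nat_lit 0x0) (nat_lit 0xc00c2000000080001c000f00030001800000000000000) := T_48 (nat_lit 178) (nat_lit 179) (nat_lit 2) (nat_lit 8) (nat_lit 10) L119999 (by decide +kernel)
theorem L120001 : W_48 (nat_lit 10) (nat_lit 0x3000100009000580020000000000000000000000000000) (nat_lit 0x0) (nat_lit 0x4c00e2000000080001c000f00030001800000000000000) := T_48 (nat_lit 165) (nat_lit 182) (nat_lit 7) (nat_lit 11) (nat_lit 6) L120000 (by decide +kernel)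
theorem L120002 : W_48 (nat_lit 11) (nat_lit 0x2000100009000580020000000000000000000000000000) (nat_lit 0x0) (nat_lit 0x20005c00e2000000080001c000f00030001800000000000000) := T_48 (nat_lit 180) (nat_lit 197) (nat_lit 5) (nat_lit 11) (nat_lit 7) L120001 (by decide +kernel)
theorem L120003 : W_48 (nat_lit 2) (nat_lit 0xc0003400100009000d80030000000000000000000000000000) (nat_lit 0x0) (nat_lit 0x2000000000000c000000000000000000000000000) := D_48 (nat_lit 111) (nat_lit 110) (nat_lit 161) (nat_lit 3) (nat_lit 8) (nat_lit 6) (nat_lit 6) (nat_lit 8) (nat_lit 10) (by decide +kernel)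
theorem L120004 : W_48 (nat_lit 3) (nat_lit 0xc0003000100009000d80030000000000000000000000000000) (nat_lit 0x0) (nat_lit 0xc0002000000000000c000000000000000000000000000) := T_48 (nat_lit 178) (nat_lit 179) (nat_lit 3) (nat_lit 8) (nat_lit 10) L120003 (by decide +kernel)
theorem L120005 : W_48 (nat_lit 4) (nat_lit 0xc0003000100009000580030000000000000000000000000000) (nat_lit 0x0) (nat_lit 0xc0002001000080000c000000000000000000000000000) := T_48 (nat_lit 131) (nat_lit 148) (nat_lit 6) (nat_lit 11) (nat_lit 11) L120004 (by decide +kernel)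
theorem L120006 : W_48 (nat_lit 5) (nat_lit 0x80003000100009000580030000000000000000000000000000) (nat_lit 0x0) (nat_lit 0x1000040000c0002001000080000c000000000000000000000000000) := T_48 (nat_lit 198) (nat_lit 216) (nat_lit 7) (nat_lit 11) (nat_lit 8) L120005 (by decide +kernel)
theorem L120007 : W_48 (nat_lit 6) (nat_lit 0x3000100009000580030000000000000000000000000000) (nat_lit 0x0) (nat_lit 0x10000c0004c0002001000080000c000000000000000000000000000) := T_48 (nat_lit 199) (nat_lit 182) (nat_lit 7) (nat_lit 11) (nat_lit 7) L120006 (by decide +kernel)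
theorem L120008 : W_48 (nat_lit 7) (nat_lit 0x2000100009000580030000000000000000000000000000) (nat_lit 0x0) (nat_lit 0x10000e0005c0002001000080000c000000000000000000000000000) := T_48 (nat_lit 180) (nat_lit 197) (nat_lit 5) (nat_lit 11) (nat_lit 7) L120007 (by decide +kernel)
theorem L120009 : W_48 (nat_lit 8) (nat_lit 0x2000100009000580020000000000000000000000000000) (nat_lit 0x0) (nat_lit 0x10000e0005c0002001000080001c000800000000000000000000000) := T_48 (nat_lit 112) (nat_lit 95) (nat_lit 4) (nat_lit 11) (nat_lit 9) L120008 (by decide +kernel)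
theorem L120010 : W_48 (nat_lit 12) (nat_lit 0x100009000580020000000000000000000000000000) (nat_lit 0x0) (nat_lit 0x20001c000e0007c00e2001000080001c000f00030001800000000000000) := Q_48 (nat_lit 181) (C_48 L119986 (C_48 L119992 (C_48 L120002 (C_48 L120009 N_48)))) (by decide +kernel)
theorem L120011 : W_48 (nat_lit 13) (nat_lit 0x100001000580020000000000000000000000000000) (nat_lit 0x0) (nat_lit 0x20001c000e0007c00e2001800080005c002f00030001800000000000000) := Q_48 (nat_lit 147) (C_48 L119895 (C_48 L119474 (C_48 L119985 (C_48 L120010 N_48)))) (by decide +kernel)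
theorem L120012 : W_48 (nat_lit 2) (nat_lit 0x600160001000580020000000000000000000000000000) (nat_lit 0x0) (nat_lit 0x10000800000000000000004000000000000000000000000000) := D_48 (nat_lit 179) (nat_lit 196) (nat_lit 110) (nat_lit 7) (nat_lit 8) (nat_lit 7) (nat_lit 7) (nat_lit 8) (nat_lit 6) (by decide +kernel)
theorem L120013 : W_48 (nat_lit 3) (nat_lit 0x600120001000580020000000000000000000000000000) (nat_lit 0x0) (nat_lit 0x100008000c0000000000004000000000000000000000000000) := T_48 (nat_lit 162) (nat_lit 163) (nat_lit 1) (nat_lit 11) (nat_lit 9) L120012 (by decide +kernel)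
theorem L120014 : W_48 (nat_lit 4) (nat_lit 0x400120001000580020000000000000000000000000000) (nat_lit 0x0) (nat_lit 0x14000a000c0000000000004000000000000000000000000000) := T_48 (nat_lit 177) (nat_lit 194) (nat_lit 5) (nat_lit 8) (nat_lit 7) L120013 (by decide +kernel)
theorem L120015 : W_48 (nat_lit 5) (nat_lit 0x120001000580020000000000000000000000000000) (nat_lit 0x0) (nat_lit 0x14000e000c000000000000c000000000000000000000000000) := T_48 (nat_lit 178) (nat_lit 111) (nat_lit 6) (nat_lit 8) (nat_lit 10) L120014 (by decide +kernel)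
theorem L120016 : W_48 (nat_lit 2) (nat_lit 0x14000400120001000580020000000000000000000000000000) (nat_lit 0x0) (nat_lit 0x280008000000000000000000000000000000000000000000000000) := D_48 (nat_lit 195) (nat_lit 211) (nat_lit 213) (nat_lit 5) (nat_lit 8) (nat_lit 8) (nat_lit 7) (nat_lit 8) (nat_lit 8) (by decide +kernel)
theorem L120017 : W_48 (nat_lit 3) (nat_lit 0x4000400120001000580020000000000000000000000000000) (nat_lit 0x0) (nat_lit 0x280018000800000000000000000000000000000000000000000000) := T_48 (nat_lit 196) (nat_lit 179) (nat_lit 7) (nat_lit 8) (nat_lit 7) L120016 (by decide +kernel)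
theorem L120018 : W_48 (nat_lit 4) (nat_lit 0x400120001000580020000000000000000000000000000) (nat_lit 0x0) (nat_lit 0x28001c000a00000000000000000000000000000000000000000000) := T_48 (nat_lit 194) (nat_lit 177) (nat_lit 5) (nat_lit 8) (nat_lit 7) L120017 (by decide +kernel)
theorem L120019 : W_48 (nat_lit 5) (nat_lit 0x120001000580020000000000000000000000000000) (nat_lit 0x0) (nat_lit 0x28001c000e00000000000000008000000000000000000000000000) := T_48 (nat_lit 178) (nat_lit 111) (nat_lit 6) (nat_lit 8) (nat_lit 10) L120018 (by decide +kernel)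
theorem L120020 : W_48 (nat_lit 2) (nat_lit 0x16000100058002e800000000000000000000000000) (nat_lit 0x0) (nat_lit 0x800050000000000000000000000000000) := D_48 (nat_lit 112) (nat_lit 131) (nat_lit 114) (nat_lit 3) (nat_lit 8) (nat_lit 6) (nat_lit 1) (nat_lit 12) (nat_lit 6) (by decide +kernel)
theorem L120021 : W_48 (nat_lit 3) (nat_lit 0x160001000580026800000000000000000000000000) (nat_lit 0x0) (nat_lit 0x800058000400000000000000000000000) := T_48 (nat_lit 111) (nat_lit 94) (nat_lit 6) (nat_lit 8) (nat_lit 9) L120020 (by decide +kernel)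
theorem L120022 : W_48 (nat_lit 4) (nat_lit 0x120001000580026800000000000000000000000000) (nat_lit 0x0) (nat_lit 0x800040000000800058000400000000000000000000000) := T_48 (nat_lit 162) (nat_lit 179) (nat_lit 7) (nat_lit 8) (nat_lit 6) L120021 (by decide +kernel)
theorem L120023 : W_48 (nat_lit 5) (nat_lit 0x120001000580026000000000000000000000000000) (nat_lit 0x0) (nat_lit 0x800040000000800059800400000000000000000000000) := T_48 (nat_lit 107) (nat_lit 108) (nat_lit 3) (nat_lit 5) (nat_lit 6) L120022 (by decide +kernel)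
theorem L120024 : W_48 (nat_lit 6) (nat_lit 0x120001000580024000000000000000000000000000) (nat_lit 0x0) (nat_lit 0x80004000000080005b800500000000000000000000000) := T_48 (nat_lit 109) (nat_lit 92) (nat_lit 4) (nat_lit 8) (nat_lit 9) L120023 (by decide +kernel)
theorem L120025 : W_48 (nat_lit 2) (nat_lit 0x12000100058002c000000000000000000000000000) (nat_lit 0x0) (nat_lit 0x800050000000000000000000000000000) := D_48 (nat_lit 112) (nat_lit 131) (nat_lit 114) (nat_lit 3) (nat_lit 8) (nat_lit 6) (nat_lit 1) (nat_lit 12) (nat_lit 6) (by decide +kernel)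
theorem L120026 : W_48 (nat_lit 3) (nat_lit 0x120001000580024000000000000000000000000000) (nat_lit 0x0) (nat_lit 0x800058000400000000000000000000000) := T_48 (nat_lit 111) (nat_lit 94) (nat_lit 6) (nat_lit 8) (nat_lit 9) L120025 (by decide +kernel)
theorem L120027 : W_48 (nat_lit 2) (nat_lit 0x1e000100058006e800000000000000000000000000) (nat_lit 0x0) (nat_lit 0x18000000000002000000000000000000000000) := D_48 (nat_lit 147) (nat_lit 148) (nat_lit 97) (nat_lit 2) (nat_lit 8) (nat_lit 9) (nat_lit 6) (nat_lit 11) (nat_lit 9) (by decide +kernel)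
theorem L120028 : W_48 (nat_lit 3) (nat_lit 0x1e000100058002e800000000000000000000000000) (nat_lit 0x0) (nat_lit 0x18000000050002000000000000000000000000) := T_48 (nat_lit 114) (nat_lit 112) (nat_lit 1) (nat_lit 12) (nat_lit 6) L120027 (by decide +kernel)
theorem L120029 : W_48 (nat_lit 4) (nat_lit 0x1e0001000580026800000000000000000000000000) (nat_lit 0x0) (nat_lit 0x18000000058002400000000000000000000000) := T_48 (nat_lit 111) (nat_lit 94) (nat_lit 6) (nat_lit 8) (nat_lit 9) L120028 (by decide +kernel)
theorem L120030 : W_48 (nat_lit 5) (nat_lit 0x160001000580026800000000000000000000000000) (nat_lit 0x0) (nat_lit 0x80018800000058002400000000000000000000000) := T_48 (nat_lit 163) (nat_lit 143) (nat_lit 0) (nat_lit 11) (nat_lit 9) L120029 (by decide +kernel)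
theorem L120031 : W_48 (nat_lit 6) (nat_lit 0x120001000580026800000000000000000000000000) (nat_lit 0x0) (nat_lit 0x8000c0018800000058002400000000000000000000000) := T_48 (nat_lit 162) (nat_lit 179) (nat_lit 7) (nat_lit 8) (nat_lit 6) L120030 (by decide +kernel)
theorem L120032 : W_48 (nat_lit 7) (nat_lit 0x120001000580026000000000000000000000000000) (nat_lit 0x0) (nat_lit 0x8000c0018800000059802400000000000000000000000) := T_48 (nat_lit 107) (nat_lit 108) (nat_lit 3) (nat_lit 5) (nat_lit 6) L120031 (by decide +kernel)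
theorem L120033 : W_48 (nat_lit 8) (nat_lit 0x120001000580024000000000000000000000000000) (nat_lit 0x0) (nat_lit 0x8000c001880000005b802500000000000000000000000) := T_48 (nat_lit 109) (nat_lit 92) (nat_lit 4) (nat_lit 8) (nat_lit 9) L120032 (by decide +kernel)
theorem L120034 : W_48 (nat_lit 9) (nat_lit 0x120001000580020000000000000000000000000000) (nat_lit 0x0) (nat_lit 0xe8002c003880080005f802500000000000000000000000) := Q_48 (nat_lit 110) (C_48 L120024 (C_48 L119154 (C_48 L120026 (C_48 L120033 N_48)))) (by decide +kernel)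
theorem L120035 : W_48 (nat_lit 2) (nat_lit 0x800160001000580020000000000000000000000000000) (nat_lit 0x0) (nat_lit 0x200010000400000000000000000000000000000000000000000000) := D_48 (nat_lit 196) (nat_lit 213) (nat_lit 178) (nat_lit 4) (nat_lit 9) (nat_lit 12) (nat_lit 7) (nat_lit 8) (nat_lit 7) (by decide +kernel)
theorem L120036 : W_48 (nat_lit 3) (nat_lit 0x160001000580020000000000000000000000000000) (nat_lit 0x0) (nat_lit 0x200010000c00000000000000004000000000000000000000000000) := T_48 (nat_lit 179) (nat_lit 110) (nat_lit 7) (nat_lit 8) (nat_lit 6) L120035 (by decide +kernel)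
theorem L120037 : W_48 (nat_lit 9) (nat_lit 0x120001000580020000000000000000000000000000) (nat_lit 0x0) (nat_lit 0x20001000ee002c0030800800007800100000000000000000000000) := Q_48 (nat_lit 162) (C_48 L120036 (C_48 L119168 (C_48 L119282 N_48))) (by decide +kernel)
theorem L120038 : W_48 (nat_lit 2) (nat_lit 0x120001000580028000000000000000000000000000) (nat_lit 0x0) (nat_lit 0x4000400020000000000000000000) := D_48 (nat_lit 94) (nat_lit 110) (nat_lit 77) (nat_lit 6) (nat_lit 8) (nat_lit 9) (nat_lit 5) (nat_lit 9) (nat_lit 4) (by decide +kernel)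
theorem L120039 : W_48 (nat_lit 3) (nat_lit 0x120001000580020000000000000000000000000000) (nat_lit 0x0) (nat_lit 0x40000000000000000c000400020000000000000000000) := T_48 (nat_lit 111) (nat_lit 178) (nat_lit 6) (nat_lit 8) (nat_lit 10) L120038 (by decide +kernel)
theorem L120040 : W_48 (nat_lit 10) (nat_lit 0x100001000580020000000000000000000000000000) (nat_lit 0x0) (nat_lit 0x28001c00ee002e003880080005f802500020000000000000000000) := Q_48 (nat_lit 161) (C_48 L120015 (C_48 L120019 (C_48 L120034 (C_48 L120037 (C_48 L120039 N_48))))) (by decide +kernel)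
theorem L120041 : W_48 (nat_lit 2) (nat_lit 0x14000400320009000580030000000000000000000000000000) (nat_lit 0x0) (nat_lit 0x280008000000000000000000000000000000000000000000000000) := D_48 (nat_lit 195) (nat_lit 211) (nat_lit 213) (nat_lit 5) (nat_lit 8) (nat_lit 8) (nat_lit 7) (nat_lit 8) (nat_lit 8) (by decide +kernel)
theorem L120042 : W_48 (nat_lit 3) (nat_lit 0x4000400320009000580030000000000000000000000000000) (nat_lit 0x0) (nat_lit 0x280018000800000000000000000000000000000000000000000000) := T_48 (nat_lit 196) (nat_lit 179) (nat_lit 7) (nat_lit 8) (nat_lit 7) L120041 (by decide +kernel)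
theorem L120043 : W_48 (nat_lit 4) (nat_lit 0x400320009000580030000000000000000000000000000) (nat_lit 0x0) (nat_lit 0x28001c000a00000000000000000000000000000000000000000000) := T_48 (nat_lit 194) (nat_lit 177) (nat_lit 5) (nat_lit 8) (nat_lit 7) L120042 (by decide +kernel)
theorem L120044 : W_48 (nat_lit 5) (nat_lit 0x320009000580030000000000000000000000000000) (nat_lit 0x0) (nat_lit 0x28001c000e00000000000000008000000000000000000000000000) := T_48 (nat_lit 178) (nat_lit 111) (nat_lit 6) (nat_lit 8) (nat_lit 10) L120043 (by decide +kernel)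
theorem L120045 : W_48 (nat_lit 6) (nat_lit 0x320009000580020000000000000000000000000000) (nat_lit 0x0) (nat_lit 0x28001c000e00000000000000018000800000000000000000000000) := T_48 (nat_lit 112) (nat_lit 95) (nat_lit 4) (nat_lit 11) (nat_lit 9) L120044 (by decide +kernel)
theorem L120046 : W_48 (nat_lit 7) (nat_lit 0x120009000580020000000000000000000000000000) (nat_lit 0x0) (nat_lit 0x28001c004e00200000000000018000800000000000000000000000) := T_48 (nat_lit 165) (nat_lit 182) (nat_lit 7) (nat_lit 11) (nat_lit 6) L120045 (by decide +kernel)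
theorem L120047 : W_48 (nat_lit 8) (nat_lit 0x100009000580020000000000000000000000000000) (nat_lit 0x0) (nat_lit 0x28001c005e002e0010800000018000800000000000000000000000) := Q_48 (nat_lit 161) (C_48 L120046 (C_48 L119964 N_48)) (by decide +kernel)
theorem L120048 : W_48 (nat_lit 15) (nat_lit 0x100001000580020000000000000000000000000000) (nat_lit 0x0) (nat_lit 0x28001c03de01ee00fc8038000dc006b00010000800000000000000) := Q_48 (nat_lit 147) (C_48 L119965 (C_48 L119580 (C_48 L119474 (C_48 L119931 (C_48 L120047 N_48))))) (by decide +kernel)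
theorem L120049 : W_48 (nat_lit 9) (nat_lit 0x120001000580020000000000000000000000000000) (nat_lit 0x0) (nat_lit 0xf8002c003880080005f800500000000000000000000000) := Q_48 (nat_lit 110) (C_48 L120026 (C_48 L119154 (C_48 L119091 N_48))) (by decide +kernel)
theorem L120050 : W_48 (nat_lit 10) (nat_lit 0x100001000580020000000000000000000000000000) (nat_lit 0x0) (nat_lit 0x28001c00fe002e003880080005f800500020000000000000000000) := Q_48 (nat_lit 161) (C_48 L120039 (C_48 L120049 (C_48 L120037 (C_48 L120019 N_48)))) (by decide +kernel)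
theorem L120051 : W_48 (nat_lit 15) (nat_lit 0x100001000580020000000000000000000000000000) (nat_lit 0x0) (nat_lit 0x24001f800fc007e00ee0018800000058002800000000000000000000000) := Q_48 (nat_lit 147) (C_48 L119978 (C_48 L120047 (C_48 L119948 (C_48 L119474 N_48)))) (by decide +kernel)
theorem L120052 : W_48 (nat_lit 2) (nat_lit 0x12000100058002c000100000000000000000000000) (nat_lit 0x0) (nat_lit 0x50000200000000000000000000000) := D_48 (nat_lit 112) (nat_lit 114) (nat_lit 93) (nat_lit 1) (nat_lit 12) (nat_lit 6) (nat_lit 0) (nat_lit 11) (nat_lit 6) (by decide +kernel)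
theorem L120053 : W_48 (nat_lit 3) (nat_lit 0x120001000580024000100000000000000000000000) (nat_lit 0x0) (nat_lit 0x58000600000000000000000000000) := T_48 (nat_lit 111) (nat_lit 94) (nat_lit 6) (nat_lit 8) (nat_lit 9) L120052 (by decide +kernel)
theorem L120054 : W_48 (nat_lit 4) (nat_lit 0x120001000580024000000000000000000000000000) (nat_lit 0x0) (nat_lit 0x5a000700000000000000000000000) := T_48 (nat_lit 92) (nat_lit 109) (nat_lit 4) (nat_lit 8) (nat_lit 9) L120053 (by decide +kernel)
theorem L120055 : W_48 (nat_lit 9) (nat_lit 0x120001000580020000000000000000000000000000) (nat_lit 0x0) (nat_lit 0xe8002c003080080005f800700000000000000000000000) := Q_48 (nat_lit 110) (C_48 L120026 (C_48 L119154 (C_48 L120054 N_48))) (by decide +kernel)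
theorem L120056 : W_48 (nat_lit 10) (nat_lit 0x100001000580020000000000000000000000000000) (nat_lit 0x0) (nat_lit 0x28001c00ee002e003080080005f800700020000000000000000000) := Q_48 (nat_lit 161) (C_48 L120039 (C_48 L120055 (C_48 L120037 (C_48 L120019 N_48)))) (by decide +kernel)
theorem L120057 : W_48 (nat_lit 2) (nat_lit 0x600360009000580020000000000000000000000000000) (nat_lit 0x0) (nat_lit 0x10000800000000000000004000000000000000000000000000) := D_48 (nat_lit 179) (nat_lit 196) (nat_lit 110) (nat_lit 7) (nat_lit 8) (nat_lit 7) (nat_lit 7) (nat_lit 8) (nat_lit 6) (by decide +kernel)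
theorem L120058 : W_48 (nat_lit 3) (nat_lit 0x600320009000580020000000000000000000000000000) (nat_lit 0x0) (nat_lit 0x100008000c0000000000004000000000000000000000000000) := T_48 (nat_lit 162) (nat_lit 163) (nat_lit 1) (nat_lit 11) (nat_lit 9) L120057 (by decide +kernel)
theorem L120059 : W_48 (nat_lit 4) (nat_lit 0x400320009000580020000000000000000000000000000) (nat_lit 0x0) (nat_lit 0x14000a000c0000000000004000000000000000000000000000) := T_48 (nat_lit 177) (nat_lit 194) (nat_lit 5) (nat_lit 8) (nat_lit 7) L120058 (by decide +kernel)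
theorem L120060 : W_48 (nat_lit 5) (nat_lit 0x320009000580020000000000000000000000000000) (nat_lit 0x0) (nat_lit 0x14000e000c000000000000c000000000000000000000000000) := T_48 (nat_lit 178) (nat_lit 111) (nat_lit 6) (nat_lit 8) (nat_lit 10) L120059 (by decide +kernel)
theorem L120061 : W_48 (nat_lit 6) (nat_lit 0x120009000580020000000000000000000000000000) (nat_lit 0x0) (nat_lit 0x14004e002c000000000000c000000000000000000000000000) := T_48 (nat_lit 165) (nat_lit 182) (nat_lit 7) (nat_lit 11) (nat_lit 6) L120060 (by decide +kernel)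
theorem L120062 : W_48 (nat_lit 2) (nat_lit 0x6000160009000580034000000000000000000000000000) (nat_lit 0x0) (nat_lit 0x800008000400000000000000000000000) := D_48 (nat_lit 111) (nat_lit 94) (nat_lit 131) (nat_lit 6) (nat_lit 8) (nat_lit 9) (nat_lit 3) (nat_lit 8) (nat_lit 6) (by decide +kernel)
theorem L120063 : W_48 (nat_lit 3) (nat_lit 0x6000160009000580030000000000000000000000000000) (nat_lit 0x0) (nat_lit 0x80000000000080000c000400000000000000000000000) := T_48 (nat_lit 110) (nat_lit 179) (nat_lit 7) (nat_lit 8) (nat_lit 6) L120062 (by decide +kernel)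
theorem L120064 : W_48 (nat_lit 4) (nat_lit 0x6000120009000580030000000000000000000000000000) (nat_lit 0x0) (nat_lit 0x8000c000000080000c000400000000000000000000000) := T_48 (nat_lit 162) (nat_lit 163) (nat_lit 3) (nat_lit 8) (nat_lit 9) L120063 (by decide +kernel)
theorem L120065 : W_48 (nat_lit 5) (nat_lit 0x4000120009000580030000000000000000000000000000) (nat_lit 0x0) (nat_lit 0x800028000c000000080000c000400000000000000000000000) := T_48 (nat_lit 181) (nat_lit 199) (nat_lit 7) (nat_lit 11) (nat_lit 7) L120064 (by decide +kernel)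
theorem L120066 : W_48 (nat_lit 6) (nat_lit 0x120009000580030000000000000000000000000000) (nat_lit 0x0) (nat_lit 0x800068002c000000080000c000400000000000000000000000) := T_48 (nat_lit 182) (nat_lit 165) (nat_lit 7) (nat_lit 11) (nat_lit 6) L120065 (by decide +kernel)
theorem L120067 : W_48 (nat_lit 7) (nat_lit 0x120009000580020000000000000000000000000000) (nat_lit 0x0) (nat_lit 0x800068002c000000080001c000c00000000000000000000000) := T_48 (nat_lit 112) (nat_lit 95) (nat_lit 4) (nat_lit 11) (nat_lit 9) L120066 (by decide +kernel)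
theorem L120068 : W_48 (nat_lit 2) (nat_lit 0x6800160009000580030000000000000000000000000000) (nat_lit 0x0) (nat_lit 0x200010000400000000000000000000000000000000000000000000) := D_48 (nat_lit 196) (nat_lit 213) (nat_lit 178) (nat_lit 4) (nat_lit 9) (nat_lit 12) (nat_lit 7) (nat_lit 8) (nat_lit 7) (by decide +kernel)
theorem L120069 : W_48 (nat_lit 3) (nat_lit 0x6000160009000580030000000000000000000000000000) (nat_lit 0x0) (nat_lit 0x200010000c00000000000000004000000000000000000000000000) := T_48 (nat_lit 179) (nat_lit 110) (nat_lit 7) (nat_lit 8) (nat_lit 6) L120068 (by decide +kernel)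
theorem L120070 : W_48 (nat_lit 4) (nat_lit 0x6000120009000580030000000000000000000000000000) (nat_lit 0x0) (nat_lit 0x200010000c000c0000000000004000000000000000000000000000) := T_48 (nat_lit 162) (nat_lit 163) (nat_lit 3) (nat_lit 8) (nat_lit 9) L120069 (by decide +kernel)
theorem L120071 : W_48 (nat_lit 5) (nat_lit 0x4000120009000580030000000000000000000000000000) (nat_lit 0x0) (nat_lit 0x200090002c000c0000000000004000000000000000000000000000) := T_48 (nat_lit 181) (nat_lit 199) (nat_lit 7) (nat_lit 11) (nat_lit 7) L120070 (by decide +kernel)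
theorem L120072 : W_48 (nat_lit 6) (nat_lit 0x4000120009000580020000000000000000000000000000) (nat_lit 0x0) (nat_lit 0x200090002c000c0000000000014000800000000000000000000000) := T_48 (nat_lit 112) (nat_lit 95) (nat_lit 4) (nat_lit 11) (nat_lit 9) L120071 (by decide +kernel)
theorem L120073 : W_48 (nat_lit 7) (nat_lit 0x120009000580020000000000000000000000000000) (nat_lit 0x0) (nat_lit 0x200090006c002c0000000000014000800000000000000000000000) := T_48 (nat_lit 182) (nat_lit 165) (nat_lit 7) (nat_lit 11) (nat_lit 6) L120072 (by decide +kernel)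
theorem L120074 : W_48 (nat_lit 2) (nat_lit 0x320009000580028000000000000000000000000000) (nat_lit 0x0) (nat_lit 0x4000400020000000000000000000) := D_48 (nat_lit 94) (nat_lit 110) (nat_lit 77) (nat_lit 6) (nat_lit 8) (nat_lit 9) (nat_lit 5) (nat_lit 9) (nat_lit 4) (by decide +kernel)
theorem L120075 : W_48 (nat_lit 3) (nat_lit 0x320009000580020000000000000000000000000000) (nat_lit 0x0) (nat_lit 0x40000000000000000c000400020000000000000000000) := T_48 (nat_lit 111) (nat_lit 178) (nat_lit 6) (nat_lit 8) (nat_lit 10) L120074 (by decide +kernel)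
theorem L120076 : W_48 (nat_lit 4) (nat_lit 0x120009000580020000000000000000000000000000) (nat_lit 0x0) (nat_lit 0x440020000000000000c000400020000000000000000000) := T_48 (nat_lit 165) (nat_lit 182) (nat_lit 7) (nat_lit 11) (nat_lit 6) L120075 (by decide +kernel)
theorem L120077 : W_48 (nat_lit 2) (nat_lit 0x600160009000580030000000000000000000000000000) (nat_lit 0x0) (nat_lit 0x10000800000000000000004000000000000000000000000000) := D_48 (nat_lit 179) (nat_lit 196) (nat_lit 110) (nat_lit 7) (nat_lit 8) (nat_lit 7) (nat_lit 7) (nat_lit 8) (nat_lit 6) (by decide +kernel)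
theorem L120078 : W_48 (nat_lit 3) (nat_lit 0x600120009000580030000000000000000000000000000) (nat_lit 0x0) (nat_lit 0x100008000c0000000000004000000000000000000000000000) := T_48 (nat_lit 162) (nat_lit 163) (nat_lit 1) (nat_lit 11) (nat_lit 9) L120077 (by decide +kernel)
theorem L120079 : W_48 (nat_lit 4) (nat_lit 0x400120009000580030000000000000000000000000000) (nat_lit 0x0) (nat_lit 0x14000a000c0000000000004000000000000000000000000000) := T_48 (nat_lit 177) (nat_lit 194) (nat_lit 5) (nat_lit 8) (nat_lit 7) L120078 (by decide +kernel)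
theorem L120080 : W_48 (nat_lit 5) (nat_lit 0x120009000580030000000000000000000000000000) (nat_lit 0x0) (nat_lit 0x14000e000c000000000000c000000000000000000000000000) := T_48 (nat_lit 178) (nat_lit 111) (nat_lit 6) (nat_lit 8) (nat_lit 10) L120079 (by decide +kernel)
theorem L120081 : W_48 (nat_lit 6) (nat_lit 0x120009000580020000000000000000000000000000) (nat_lit 0x0) (nat_lit 0x14000e000c000000000001c000800000000000000000000000) := T_48 (nat_lit 112) (nat_lit 95) (nat_lit 4) (nat_lit 11) (nat_lit 9) L120080 (by decide +kernel)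
theorem L120082 : W_48 (nat_lit 8) (nat_lit 0x100009000580020000000000000000000000000000) (nat_lit 0x0) (nat_lit 0x28009c006e002e000000080001c000c00020000000000000000000) := Q_48 (nat_lit 161) (C_48 L120046 (C_48 L120061 (C_48 L120067 (C_48 L120073 (C_48 L120076 (C_48 L120081 N_48)))))) (by decide +kernel)
theorem L120083 : W_48 (nat_lit 2) (nat_lit 0x14000400120009000580020000000000000000000000000000) (nat_lit 0x0) (nat_lit 0x280008000000000000000000000000000000000000000000000000) := D_48 (nat_lit 195) (nat_lit 211) (nat_lit 213) (nat_lit 5) (nat_lit 8) (nat_lit 8) (nat_lit 7) (nat_lit 8) (nat_lit 8) (by decide +kernel)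
theorem L120084 : W_48 (nat_lit 3) (nat_lit 0x4000400120009000580020000000000000000000000000000) (nat_lit 0x0) (nat_lit 0x280018000800000000000000000000000000000000000000000000) := T_48 (nat_lit 196) (nat_lit 179) (nat_lit 7) (nat_lit 8) (nat_lit 7) L120083 (by decide +kernel)
theorem L120085 : W_48 (nat_lit 4) (nat_lit 0x400120009000580020000000000000000000000000000) (nat_lit 0x0) (nat_lit 0x28001c000a00000000000000000000000000000000000000000000) := T_48 (nat_lit 194) (nat_lit 177) (nat_lit 5) (nat_lit 8) (nat_lit 7) L120084 (by decide +kernel)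
theorem L120086 : W_48 (nat_lit 5) (nat_lit 0x120009000580020000000000000000000000000000) (nat_lit 0x0) (nat_lit 0x28001c000e00000000000000008000000000000000000000000000) := T_48 (nat_lit 178) (nat_lit 111) (nat_lit 6) (nat_lit 8) (nat_lit 10) L120085 (by decide +kernel)
theorem L120087 : W_48 (nat_lit 6) (nat_lit 0x100009000580020000000000000000000000000000) (nat_lit 0x0) (nat_lit 0x28001c001e000e0010800000008000000000000000000000000000) := Q_48 (nat_lit 161) (C_48 L120086 (C_48 L119964 N_48)) (by decide +kernel)
theorem L120088 : W_48 (nat_lit 15) (nat_lit 0x100001000580020000000000000000000000000000) (nat_lit 0x0) (nat_lit 0x24001f800fc007e00ee001880080001c000f00030001800000000000000) := Q_48 (nat_lit 147) (C_48 L119978 (C_48 L120047 (C_48 L119948 (C_48 L120010 (C_48 L120082 (C_48 L120087 N_48)))))) (by decide +kernel)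
theorem L120089 : W_48 (nat_lit 7) (nat_lit 0x100001000580020000000000000000000000000000) (nat_lit 0x0) (nat_lit 0x28003c003e000e0018800800058002800000000000000000000000) := Q_48 (nat_lit 147) (C_48 L120087 (C_48 L119981 (C_48 L119474 N_48))) (by decide +kernel)
theorem L120090 : W_48 (nat_lit 16) (nat_lit 0x1000580020000000000000000000000000000) (nat_lit 0x0) (nat_lit 0x2c001f800fc03fe01fe00fc8038000df806f00030001800000000000000) := Q_48 (nat_lit 164) (C_48 L119951 (C_48 L119952 (C_48 L119953 (C_48 L119982 (C_48 L120011 (C_48 L120040 (C_48 L120048 (C_48 L120050 (C_48 L120051 (C_48 L120056 (C_48 L120088 (C_48 L120089 N_48)))))))))))) (by decide +kernel)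
theorem L120091 : W_48 (nat_lit 2) (nat_lit 0x2400300009000580068000000000000000000000000000) (nat_lit 0x0) (nat_lit 0x20001800000000000000000000000000000000000000000000) := D_48 (nat_lit 180) (nat_lit 197) (nat_lit 179) (nat_lit 5) (nat_lit 11) (nat_lit 7) (nat_lit 2) (nat_lit 8) (nat_lit 10) (by decide +kernel)
theorem L120092 : W_48 (nat_lit 3) (nat_lit 0x400300009000580068000000000000000000000000000) (nat_lit 0x0) (nat_lit 0x20003800000000000800000000000000000000000000000000) := T_48 (nat_lit 181) (nat_lit 131) (nat_lit 6) (nat_lit 11) (nat_lit 10) L120091 (by decide +kernel)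
theorem L120093 : W_48 (nat_lit 4) (nat_lit 0x400100009000580068000000000000000000000000000) (nat_lit 0x0) (nat_lit 0x20007800200000000800000000000000000000000000000000) := T_48 (nat_lit 165) (nat_lit 182) (nat_lit 7) (nat_lit 11) (nat_lit 6) L120092 (by decide +kernel)
theorem L120094 : W_48 (nat_lit 5) (nat_lit 0x400100009000580028000000000000000000000000000) (nat_lit 0x0) (nat_lit 0x20007800200000000800040002000000000000000000000000) := T_48 (nat_lit 114) (nat_lit 97) (nat_lit 6) (nat_lit 11) (nat_lit 9) L120093 (by decide +kernel)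
theorem L120095 : W_48 (nat_lit 6) (nat_lit 0x100009000580028000000000000000000000000000) (nat_lit 0x0) (nat_lit 0x20007c00220000000800040002000000000000000000000000) := T_48 (nat_lit 178) (nat_lit 161) (nat_lit 6) (nat_lit 8) (nat_lit 10) L120094 (by decide +kernel)
theorem L120096 : W_48 (nat_lit 2) (nat_lit 0x180009000580028001000020000000000000000000) (nat_lit 0x0) (nat_lit 0x40002000100000000000000000000) := D_48 (nat_lit 97) (nat_lit 114) (nat_lit 80) (nat_lit 6) (nat_lit 11) (nat_lit 9) (nat_lit 6) (nat_lit 11) (nat_lit 8) (by decide +kernel)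
theorem L120097 : W_48 (nat_lit 3) (nat_lit 0x180009000580028000000020000000000000000000) (nat_lit 0x0) (nat_lit 0x4000000040003000100000000000000000000) := T_48 (nat_lit 96) (nat_lit 146) (nat_lit 5) (nat_lit 11) (nat_lit 5) L120096 (by decide +kernel)
theorem L120098 : W_48 (nat_lit 4) (nat_lit 0x100009000580028000000020000000000000000000) (nat_lit 0x0) (nat_lit 0x1000080004000000040003000100000000000000000000) := T_48 (nat_lit 163) (nat_lit 180) (nat_lit 5) (nat_lit 11) (nat_lit 6) L120097 (by decide +kernel)
theorem L120099 : W_48 (nat_lit 5) (nat_lit 0x100009000580028000000000000000000000000000) (nat_lit 0x0) (nat_lit 0x1000080004000000040003400120000000000000000000) := T_48 (nat_lit 77) (nat_lit 94) (nat_lit 5) (nat_lit 9) (nat_lit 4) L120098 (by decide +kernel)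
theorem L120100 : W_48 (nat_lit 2) (nat_lit 0x400b0000d000580028003000060000000000000000000) (nat_lit 0x0) (nat_lit 0x90002000000000000000) := D_48 (nat_lit 79) (nat_lit 61) (nat_lit 76) (nat_lit 4) (nat_lit 11) (nat_lit 7) (nat_lit 3) (nat_lit 8) (nat_lit 4) (by decide +kernel)
theorem L120101 : W_48 (nat_lit 3) (nat_lit 0x400b0000d000580028003000020000000000000000000) (nat_lit 0x0) (nat_lit 0x8000d0002000000000000000) := T_48 (nat_lit 78) (nat_lit 95) (nat_lit 4) (nat_lit 11) (nat_lit 8) L120100 (by decide +kernel)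
theorem L120102 : W_48 (nat_lit 4) (nat_lit 0x40030000d000580028003000020000000000000000000) (nat_lit 0x0) (nat_lit 0xc000000000000000008000d0002000000000000000) := T_48 (nat_lit 167) (nat_lit 166) (nat_lit 0) (nat_lit 14) (nat_lit 9) L120101 (by decide +kernel)
theorem L120103 : W_48 (nat_lit 5) (nat_lit 0x400300009000580028003000020000000000000000000) (nat_lit 0x0) (nat_lit 0xc800040000000000008000d0002000000000000000) := T_48 (nat_lit 146) (nat_lit 163) (nat_lit 5) (nat_lit 11) (nat_lit 5) L120102 (by decide +kernel)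
theorem L120104 : W_48 (nat_lit 6) (nat_lit 0x400300009000580028002000020000000000000000000) (nat_lit 0x0) (nat_lit 0xc800040000000000018001d0002000000000000000) := T_48 (nat_lit 96) (nat_lit 80) (nat_lit 6) (nat_lit 11) (nat_lit 8) L120103 (by decide +kernel)
theorem L120105 : W_48 (nat_lit 7) (nat_lit 0x400300009000580028000000020000000000000000000) (nat_lit 0x0) (nat_lit 0xc800040000000400038001d0002000000000000000) := T_48 (nat_lit 97) (nat_lit 114) (nat_lit 6) (nat_lit 11) (nat_lit 9) L120104 (by decide +kernel)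
theorem L120106 : W_48 (nat_lit 8) (nat_lit 0x300009000580028000000020000000000000000000) (nat_lit 0x0) (nat_lit 0x400ca00040000000400038001d0002000000000000000) := T_48 (nat_lit 178) (nat_lit 161) (nat_lit 6) (nat_lit 8) (nat_lit 10) L120105 (by decide +kernel)
theorem L120107 : W_48 (nat_lit 9) (nat_lit 0x300009000580028000000000000000000000000000) (nat_lit 0x0) (nat_lit 0x400ca0004000000040003c001f0002000000000000000) := T_48 (nat_lit 77) (nat_lit 94) (nat_lit 5) (nat_lit 9) (nat_lit 4) L120106 (by decide +kernel)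
theorem L120108 : W_48 (nat_lit 10) (nat_lit 0x100009000580028000000000000000000000000000) (nat_lit 0x0) (nat_lit 0x4400ea0004000000040003c001f0002000000000000000) := T_48 (nat_lit 165) (nat_lit 182) (nat_lit 7) (nat_lit 11) (nat_lit 6) L120107 (by decide +kernel)
theorem L120109 : W_48 (nat_lit 2) (nat_lit 0x6000180009000580028001800020000000000000000000) (nat_lit 0x0) (nat_lit 0x400060000000000000000000000000000000000000000) := D_48 (nat_lit 161) (nat_lit 178) (nat_lit 162) (nat_lit 6) (nat_lit 8) (nat_lit 10) (nat_lit 3) (nat_lit 8) (nat_lit 9) (by decide +kernel)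
theorem L120110 : W_48 (nat_lit 3) (nat_lit 0x4000180009000580028001800020000000000000000000) (nat_lit 0x0) (nat_lit 0x80002400060000000000000000000000000000000000000000) := T_48 (nat_lit 181) (nat_lit 199) (nat_lit 7) (nat_lit 11) (nat_lit 7) L120109 (by decide +kernel)
theorem L120111 : W_48 (nat_lit 4) (nat_lit 0x4000180009000580028001800000000000000000000000) (nat_lit 0x0) (nat_lit 0x80002400060000000000000000400020000000000000000000) := T_48 (nat_lit 77) (nat_lit 94) (nat_lit 5) (nat_lit 9) (nat_lit 4) L120110 (by decide +kernel)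
theorem L120112 : W_48 (nat_lit 5) (nat_lit 0x180009000580028001800000000000000000000000) (nat_lit 0x0) (nat_lit 0x80006400260000000000000000400020000000000000000000) := T_48 (nat_lit 182) (nat_lit 165) (nat_lit 7) (nat_lit 11) (nat_lit 6) L120111 (by decide +kernel)
theorem L120113 : W_48 (nat_lit 6) (nat_lit 0x180009000580028001000000000000000000000000) (nat_lit 0x0) (nat_lit 0x80006400260000000000000000c00060000000000000000000) := T_48 (nat_lit 95) (nat_lit 78) (nat_lit 4) (nat_lit 11) (nat_lit 8) L120112 (by decide +kernel)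
theorem L120114 : W_48 (nat_lit 7) (nat_lit 0x180009000580028000000000000000000000000000) (nat_lit 0x0) (nat_lit 0x80006400260004000000000001c00060000000000000000000) := T_48 (nat_lit 96) (nat_lit 146) (nat_lit 5) (nat_lit 11) (nat_lit 5) L120113 (by decide +kernel)
theorem L120115 : W_48 (nat_lit 8) (nat_lit 0x100009000580028000000000000000000000000000) (nat_lit 0x0) (nat_lit 0x800074002e0004000000000001c00060000000000000000000) := T_48 (nat_lit 163) (nat_lit 180) (nat_lit 5) (nat_lit 11) (nat_lit 6) L120114 (by decide +kernel)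
theorem L120116 : W_48 (nat_lit 11) (nat_lit 0x9000580028000000000000000000000000000) (nat_lit 0x0) (nat_lit 0xa0007c00fe0004000800040003c001f0002000000000000000) := Q_48 (nat_lit 164) (C_48 L120095 (C_48 L120099 (C_48 L120108 (C_48 L120115 N_48)))) (by decide +kernel)
theorem L120117 : W_48 (nat_lit 2) (nat_lit 0x4000180009000580168001800020000000000000000000) (nat_lit 0x0) (nat_lit 0x80002000000000000800000000000000000000000000000000) := D_48 (nat_lit 181) (nat_lit 131) (nat_lit 199) (nat_lit 6) (nat_lit 11) (nat_lit 10) (nat_lit 7) (nat_lit 11) (nat_lit 7) (by decide +kernel)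
theorem L120118 : W_48 (nat_lit 3) (nat_lit 0x180009000580168001800020000000000000000000) (nat_lit 0x0) (nat_lit 0x80006000200000000800000000000000000000000000000000) := T_48 (nat_lit 182) (nat_lit 165) (nat_lit 7) (nat_lit 11) (nat_lit 6) L120117 (by decide +kernel)
theorem L120119 : W_48 (nat_lit 4) (nat_lit 0x180009000580068001800020000000000000000000) (nat_lit 0x0) (nat_lit 0x80006000200000000800180000000000000000000000000000) := T_48 (nat_lit 116) (nat_lit 115) (nat_lit 0) (nat_lit 14) (nat_lit 6) L120118 (by decide +kernel)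
theorem L120120 : W_48 (nat_lit 5) (nat_lit 0x180009000580068001000020000000000000000000) (nat_lit 0x0) (nat_lit 0x80006000200000000800180000800040000000000000000000) := T_48 (nat_lit 95) (nat_lit 78) (nat_lit 4) (nat_lit 11) (nat_lit 8) L120119 (by decide +kernel)
theorem L120121 : W_48 (nat_lit 6) (nat_lit 0x180009000580068000000020000000000000000000) (nat_lit 0x0) (nat_lit 0x80006000200004000800180001800040000000000000000000) := T_48 (nat_lit 96) (nat_lit 146) (nat_lit 5) (nat_lit 11) (nat_lit 5) L120120 (by decide +kernel)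
theorem L120122 : W_48 (nat_lit 7) (nat_lit 0x100009000580068000000020000000000000000000) (nat_lit 0x0) (nat_lit 0x80007000280004000800180001800040000000000000000000) := T_48 (nat_lit 163) (nat_lit 180) (nat_lit 5) (nat_lit 11) (nat_lit 6) L120121 (by decide +kernel)
theorem L120123 : W_48 (nat_lit 8) (nat_lit 0x9000580068000000020000000000000000000) (nat_lit 0x0) (nat_lit 0x80007000380004000800180003800040000000000000000000) := T_48 (nat_lit 164) (nat_lit 97) (nat_lit 6) (nat_lit 11) (nat_lit 9) L120122 (by decide +kernel)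
theorem L120124 : W_48 (nat_lit 9) (nat_lit 0x9000580068000000000000000000000000000) (nat_lit 0x0) (nat_lit 0x80007000380004000800180003c00060000000000000000000) := T_48 (nat_lit 77) (nat_lit 94) (nat_lit 5) (nat_lit 9) (nat_lit 4) L120123 (by decide +kernel)
theorem L120125 : W_48 (nat_lit 10) (nat_lit 0x9000580028000000000000000000000000000) (nat_lit 0x0) (nat_lit 0x800070003800040008001d0003c00060000000000000000000) := T_48 (nat_lit 114) (nat_lit 112) (nat_lit 1) (nat_lit 12) (nat_lit 6) L120124 (by decide +kernel)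
theorem L120126 : W_48 (nat_lit 5) (nat_lit 0x400000009000580068000000000000000000000000000) (nat_lit 0x0) (nat_lit 0x20007800300000000800000002000000000000000000000000) := T_48 (nat_lit 164) (nat_lit 97) (nat_lit 6) (nat_lit 11) (nat_lit 9) L120093 (by decide +kernel)
theorem L120127 : W_48 (nat_lit 6) (nat_lit 0x9000580068000000000000000000000000000) (nat_lit 0x0) (nat_lit 0x20007c00320000000800000002000000000000000000000000) := T_48 (nat_lit 178) (nat_lit 161) (nat_lit 6) (nat_lit 8) (nat_lit 10) L120126 (by decide +kernel)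
theorem L120128 : W_48 (nat_lit 7) (nat_lit 0x9000580028000000000000000000000000000) (nat_lit 0x0) (nat_lit 0x20007c00320000000800050002000000000000000000000000) := T_48 (nat_lit 114) (nat_lit 112) (nat_lit 1) (nat_lit 12) (nat_lit 6) L120127 (by decide +kernel)
theorem L120129 : W_48 (nat_lit 2) (nat_lit 0x9000580068003800000000000000000000000) (nat_lit 0x0) (nat_lit 0x80000400020000000000000000000) := D_48 (nat_lit 94) (nat_lit 115) (nat_lit 77) (nat_lit 3) (nat_lit 9) (nat_lit 5) (nat_lit 5) (nat_lit 9) (nat_lit 4) (by decide +kernel)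
theorem L120130 : W_48 (nat_lit 3) (nat_lit 0x9000580068003000000000000000000000000) (nat_lit 0x0) (nat_lit 0x80000c00060000000000000000000) := T_48 (nat_lit 95) (nat_lit 78) (nat_lit 4) (nat_lit 11) (nat_lit 8) L120129 (by decide +kernel)
theorem L120131 : W_48 (nat_lit 4) (nat_lit 0x9000580068001000000000000000000000000) (nat_lit 0x0) (nat_lit 0x80002c00160000000000000000000) := T_48 (nat_lit 97) (nat_lit 80) (nat_lit 6) (nat_lit 11) (nat_lit 8) L120130 (by decide +kernel)
theorem L120132 : W_48 (nat_lit 5) (nat_lit 0x9000580028001000000000000000000000000) (nat_lit 0x0) (nat_lit 0xd0002c00160000000000000000000) := T_48 (nat_lit 114) (nat_lit 112) (nat_lit 1) (nat_lit 12) (nat_lit 6) L120131 (by decide +kernel)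
theorem L120133 : W_48 (nat_lit 2) (nat_lit 0xd000580028003000060000000000000000000) (nat_lit 0x0) (nat_lit 0x90002000000000000000) := D_48 (nat_lit 79) (nat_lit 61) (nat_lit 76) (nat_lit 4) (nat_lit 11) (nat_lit 7) (nat_lit 3) (nat_lit 8) (nat_lit 4) (by decide +kernel)
theorem L120134 : W_48 (nat_lit 3) (nat_lit 0xd000580028003000020000000000000000000) (nat_lit 0x0) (nat_lit 0x8000d0002000000000000000) := T_48 (nat_lit 78) (nat_lit 95) (nat_lit 4) (nat_lit 11) (nat_lit 8) L120133 (by decide +kernel)
theorem L120135 : W_48 (nat_lit 4) (nat_lit 0xd000580028001000020000000000000000000) (nat_lit 0x0) (nat_lit 0x28001d0002000000000000000) := T_48 (nat_lit 97) (nat_lit 80) (nat_lit 6) (nat_lit 11) (nat_lit 8) L120134 (by decide +kernel)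
theorem L120136 : W_48 (nat_lit 5) (nat_lit 0x9000580028001000020000000000000000000) (nat_lit 0x0) (nat_lit 0x800040000000000028001d0002000000000000000) := T_48 (nat_lit 146) (nat_lit 163) (nat_lit 5) (nat_lit 11) (nat_lit 5) L120135 (by decide +kernel)
theorem L120137 : W_48 (nat_lit 6) (nat_lit 0x9000580028001000000000000000000000000) (nat_lit 0x0) (nat_lit 0x80004000000000002c001f0002000000000000000) := T_48 (nat_lit 77) (nat_lit 94) (nat_lit 5) (nat_lit 9) (nat_lit 4) L120136 (by decide +kernel)
theorem L120138 : W_48 (nat_lit 2) (nat_lit 0x40000000d0005800680030000c0000000000000000000) (nat_lit 0x0) (nat_lit 0x800000000000000004000200000000000) := D_48 (nat_lit 62) (nat_lit 45) (nat_lit 131) (nat_lit 7) (nat_lit 11) (nat_lit 2) (nat_lit 7) (nat_lit 11) (nat_lit 3) (by decide +kernel)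
theorem L120139 : W_48 (nat_lit 3) (nat_lit 0x40000000d000580068003000040000000000000000000) (nat_lit 0x0) (nat_lit 0x800000000000080006000200000000000) := T_48 (nat_lit 79) (nat_lit 61) (nat_lit 4) (nat_lit 11) (nat_lit 7) L120138 (by decide +kernel)
theorem L120140 : W_48 (nat_lit 4) (nat_lit 0x40000000d000580068003000000000000000000000000) (nat_lit 0x0) (nat_lit 0x8000000008000c0006000200000000000) := T_48 (nat_lit 78) (nat_lit 95) (nat_lit 4) (nat_lit 11) (nat_lit 8) L120139 (by decide +kernel)
theorem L120141 : W_48 (nat_lit 5) (nat_lit 0x40000000d000580068001000000000000000000000000) (nat_lit 0x0) (nat_lit 0x8000000028001c0006000200000000000) := T_48 (nat_lit 97) (nat_lit 80) (nat_lit 6) (nat_lit 11) (nat_lit 8) L120140 (by decide +kernel)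
theorem L120142 : W_48 (nat_lit 6) (nat_lit 0x400000009000580068001000000000000000000000000) (nat_lit 0x0) (nat_lit 0x800040008000000028001c0006000200000000000) := T_48 (nat_lit 146) (nat_lit 163) (nat_lit 5) (nat_lit 11) (nat_lit 5) L120141 (by decide +kernel)
theorem L120143 : W_48 (nat_lit 7) (nat_lit 0x400000009000580028001000000000000000000000000) (nat_lit 0x0) (nat_lit 0x800040008000500028001c0006000200000000000) := T_48 (nat_lit 114) (nat_lit 112) (nat_lit 1) (nat_lit 12) (nat_lit 6) L120142 (by decide +kernel)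
theorem L120144 : W_48 (nat_lit 8) (nat_lit 0x9000580028001000000000000000000000000) (nat_lit 0x0) (nat_lit 0x4000a00040008000500028001c0006000200000000000) := T_48 (nat_lit 178) (nat_lit 161) (nat_lit 6) (nat_lit 8) (nat_lit 10) L120143 (by decide +kernel)
theorem L120145 : W_48 (nat_lit 2) (nat_lit 0x40000000d0005800680010001a0002000000000000000) (nat_lit 0x0) (nat_lit 0x800000000000000004000100000000000) := D_48 (nat_lit 62) (nat_lit 131) (nat_lit 44) (nat_lit 7) (nat_lit 11) (nat_lit 3) (nat_lit 4) (nat_lit 11) (nat_lit 6) (by decide +kernel)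
theorem L120146 : W_48 (nat_lit 3) (nat_lit 0x40000000d0005800680010001a0000000000000000000) (nat_lit 0x0) (nat_lit 0x800000000000040006000100000000000) := T_48 (nat_lit 61) (nat_lit 78) (nat_lit 4) (nat_lit 11) (nat_lit 7) L120145 (by decide +kernel)
theorem L120147 : W_48 (nat_lit 4) (nat_lit 0x40000000d000580068001000120000000000000000000) (nat_lit 0x0) (nat_lit 0x8000000000000c000e000100000000000) := T_48 (nat_lit 79) (nat_lit 63) (nat_lit 6) (nat_lit 11) (nat_lit 7) L120146 (by decide +kernel)
theorem L120148 : W_48 (nat_lit 5) (nat_lit 0x40000000d000580068001000020000000000000000000) (nat_lit 0x0) (nat_lit 0x8000000020001c000e000100000000000) := T_48 (nat_lit 80) (nat_lit 97) (nat_lit 6) (nat_lit 11) (nat_lit 8) L120147 (by decide +kernel)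
theorem L120149 : W_48 (nat_lit 6) (nat_lit 0x400000009000580068001000020000000000000000000) (nat_lit 0x0) (nat_lit 0x800040008000000020001c000e000100000000000) := T_48 (nat_lit 146) (nat_lit 163) (nat_lit 5) (nat_lit 11) (nat_lit 5) L120148 (by decide +kernel)
theorem L120150 : W_48 (nat_lit 7) (nat_lit 0x400000009000580028001000020000000000000000000) (nat_lit 0x0) (nat_lit 0x800040008000500020001c000e000100000000000) := T_48 (nat_lit 114) (nat_lit 112) (nat_lit 1) (nat_lit 12) (nat_lit 6) L120149 (by decide +kernel)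
theorem L120151 : W_48 (nat_lit 8) (nat_lit 0x9000580028001000020000000000000000000) (nat_lit 0x0) (nat_lit 0x4000a00040008000500020001c000e000100000000000) := T_48 (nat_lit 178) (nat_lit 161) (nat_lit 6) (nat_lit 8) (nat_lit 10) L120150 (by decide +kernel)
theorem L120152 : W_48 (nat_lit 9) (nat_lit 0x9000580028001000000000000000000000000) (nat_lit 0x0) (nat_lit 0x4000a00040008000500024001e000e000100000000000) := T_48 (nat_lit 77) (nat_lit 94) (nat_lit 5) (nat_lit 9) (nat_lit 4) L120151 (by decide +kernel)
theorem L120153 : W_48 (nat_lit 2) (nat_lit 0x400000009000580038003000020000000000000000000) (nat_lit 0x0) (nat_lit 0xc800000000000000000000000) := D_48 (nat_lit 98) (nat_lit 99) (nat_lit 95) (nat_lit 1) (nat_lit 14) (nat_lit 5) (nat_lit 1) (nat_lit 13) (nat_lit 5) (by decide +kernel)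
theorem L120154 : W_48 (nat_lit 3) (nat_lit 0x400000009000580028003000020000000000000000000) (nat_lit 0x0) (nat_lit 0x5000c800000000000000000000000) := T_48 (nat_lit 112) (nat_lit 114) (nat_lit 1) (nat_lit 12) (nat_lit 6) L120153 (by decide +kernel)
theorem L120155 : W_48 (nat_lit 4) (nat_lit 0x9000580028003000020000000000000000000) (nat_lit 0x0) (nat_lit 0x40002000000000005000c800000000000000000000000) := T_48 (nat_lit 178) (nat_lit 161) (nat_lit 6) (nat_lit 8) (nat_lit 10) L120154 (by decide +kernel)
theorem L120156 : W_48 (nat_lit 5) (nat_lit 0x9000580028003000000000000000000000000) (nat_lit 0x0) (nat_lit 0x40002000000000005000cc00020000000000000000000) := T_48 (nat_lit 77) (nat_lit 94) (nat_lit 5) (nat_lit 9) (nat_lit 4) L120155 (by decide +kernel)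
theorem L120157 : W_48 (nat_lit 6) (nat_lit 0x9000580028001000000000000000000000000) (nat_lit 0x0) (nat_lit 0x40002000000000005000ec00120000000000000000000) := T_48 (nat_lit 97) (nat_lit 80) (nat_lit 6) (nat_lit 11) (nat_lit 8) L120156 (by decide +kernel)
theorem L120158 : W_48 (nat_lit 2) (nat_lit 0xd000580028001c00000000000000000000000) (nat_lit 0x0) (nat_lit 0x50000200000000000000000000000) := D_48 (nat_lit 114) (nat_lit 112) (nat_lit 93) (nat_lit 1) (nat_lit 12) (nat_lit 6) (nat_lit 3) (nat_lit 8) (nat_lit 5) (by decide +kernel)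
theorem L120159 : W_48 (nat_lit 3) (nat_lit 0xd000580028001800000000000000000000000) (nat_lit 0x0) (nat_lit 0x50000600020000000000000000000) := T_48 (nat_lit 94) (nat_lit 77) (nat_lit 5) (nat_lit 9) (nat_lit 4) L120158 (by decide +kernel)
theorem L120160 : W_48 (nat_lit 4) (nat_lit 0xd000580028001000000000000000000000000) (nat_lit 0x0) (nat_lit 0x50000e00060000000000000000000) := T_48 (nat_lit 95) (nat_lit 78) (nat_lit 4) (nat_lit 11) (nat_lit 8) L120159 (by decide +kernel)
theorem L120161 : W_48 (nat_lit 5) (nat_lit 0x9000580028001000000000000000000000000) (nat_lit 0x0) (nat_lit 0x80004000000050000e00060000000000000000000) := T_48 (nat_lit 146) (nat_lit 163) (nat_lit 5) (nat_lit 11) (nat_lit 5) L120160 (by decide +kernel)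
theorem L120162 : W_48 (nat_lit 10) (nat_lit 0x9000580028000000000000000000000000000) (nat_lit 0x0) (nat_lit 0x4000a00040008000d000fe001f000e000300000000000) := Q_48 (nat_lit 96) (C_48 L120132 (C_48 L120137 (C_48 L120144 (C_48 L120152 (C_48 L120157 (C_48 L120161 N_48)))))) (by decide +kernel)
theorem L120163 : W_48 (nat_lit 2) (nat_lit 0x1400300009000580038000000020000000000000000000) (nat_lit 0x0) (nat_lit 0x20002800000000000000000000000000000000000000000000) := D_48 (nat_lit 181) (nat_lit 179) (nat_lit 197) (nat_lit 2) (nat_lit 8) (nat_lit 10) (nat_lit 5) (nat_lit 11) (nat_lit 7) (by decide +kernel)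
theorem L120164 : W_48 (nat_lit 3) (nat_lit 0x1400100009000580038000000020000000000000000000) (nat_lit 0x0) (nat_lit 0x20006800200000000000000000000000000000000000000000) := T_48 (nat_lit 165) (nat_lit 182) (nat_lit 7) (nat_lit 11) (nat_lit 6) L120163 (by decide +kernel)
theorem L120165 : W_48 (nat_lit 4) (nat_lit 0x400100009000580038000000020000000000000000000) (nat_lit 0x0) (nat_lit 0x20007800280000000000000000000000000000000000000000) := T_48 (nat_lit 180) (nat_lit 163) (nat_lit 5) (nat_lit 11) (nat_lit 6) L120164 (by decide +kernel)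
theorem L120166 : W_48 (nat_lit 5) (nat_lit 0x400000009000580038000000020000000000000000000) (nat_lit 0x0) (nat_lit 0x20007800380000000000000000800000000000000000000000) := T_48 (nat_lit 164) (nat_lit 95) (nat_lit 4) (nat_lit 11) (nat_lit 9) L120165 (by decide +kernel)
theorem L120167 : W_48 (nat_lit 6) (nat_lit 0x400000009000580028000000020000000000000000000) (nat_lit 0x0) (nat_lit 0x20007800380000000000050000800000000000000000000000) := T_48 (nat_lit 112) (nat_lit 114) (nat_lit 1) (nat_lit 12) (nat_lit 6) L120166 (by decide +kernel)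
theorem L120168 : W_48 (nat_lit 7) (nat_lit 0x400000009000580028000000000000000000000000000) (nat_lit 0x0) (nat_lit 0x20007800380000000000050000c00020000000000000000000) := T_48 (nat_lit 77) (nat_lit 94) (nat_lit 5) (nat_lit 9) (nat_lit 4) L120167 (by decide +kernel)
theorem L120169 : W_48 (nat_lit 8) (nat_lit 0x9000580028000000000000000000000000000) (nat_lit 0x0) (nat_lit 0x20007c003a0000000000050000c00020000000000000000000) := T_48 (nat_lit 178) (nat_lit 161) (nat_lit 6) (nat_lit 8) (nat_lit 10) L120168 (by decide +kernel)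
theorem L120170 : W_48 (nat_lit 2) (nat_lit 0x400000009000580028003800000000000000000000000) (nat_lit 0x0) (nat_lit 0x100000000000010004000000000000000000000000) := D_48 (nat_lit 112) (nat_lit 98) (nat_lit 164) (nat_lit 1) (nat_lit 13) (nat_lit 5) (nat_lit 4) (nat_lit 11) (nat_lit 9) (by decide +kernel)
theorem L120171 : W_48 (nat_lit 3) (nat_lit 0x400000009000580028003000000000000000000000000) (nat_lit 0x0) (nat_lit 0x100000000000010004800040000000000000000000) := T_48 (nat_lit 95) (nat_lit 78) (nat_lit 4) (nat_lit 11) (nat_lit 8) L120170 (by decide +kernel)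
theorem L120172 : W_48 (nat_lit 4) (nat_lit 0x400000009000580028001000000000000000000000000) (nat_lit 0x0) (nat_lit 0x100000000000010006800140000000000000000000) := T_48 (nat_lit 97) (nat_lit 80) (nat_lit 6) (nat_lit 11) (nat_lit 8) L120171 (by decide +kernel)
theorem L120173 : W_48 (nat_lit 5) (nat_lit 0x9000580028001000000000000000000000000) (nat_lit 0x0) (nat_lit 0x400120000000000010006800140000000000000000000) := T_48 (nat_lit 178) (nat_lit 161) (nat_lit 6) (nat_lit 8) (nat_lit 10) L120172 (by decide +kernel)
theorem L120174 : W_48 (nat_lit 2) (nat_lit 0x1e0009000580028001000000000000000000000000) (nat_lit 0x0) (nat_lit 0x6000200000000000000000000000000000000000000000) := D_48 (nat_lit 182) (nat_lit 165) (nat_lit 181) (nat_lit 7) (nat_lit 11) (nat_lit 6) (nat_lit 3) (nat_lit 8) (nat_lit 9) (by decide +kernel)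
theorem L120175 : W_48 (nat_lit 3) (nat_lit 0x1a0009000580028001000000000000000000000000) (nat_lit 0x0) (nat_lit 0x6000240000800000000000000000000000000000000000) := T_48 (nat_lit 162) (nat_lit 143) (nat_lit 0) (nat_lit 11) (nat_lit 9) L120174 (by decide +kernel)
theorem L120176 : W_48 (nat_lit 4) (nat_lit 0xa0009000580028001000000000000000000000000) (nat_lit 0x0) (nat_lit 0x7000340000800000000000000000000000000000000000) := T_48 (nat_lit 164) (nat_lit 180) (nat_lit 5) (nat_lit 11) (nat_lit 6) L120175 (by decide +kernel)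
theorem L120177 : W_48 (nat_lit 5) (nat_lit 0x80009000580028001000000000000000000000000) (nat_lit 0x0) (nat_lit 0x7400360000800000000000000000000000000000000000) := T_48 (nat_lit 161) (nat_lit 178) (nat_lit 6) (nat_lit 8) (nat_lit 10) L120176 (by decide +kernel)
theorem L120178 : W_48 (nat_lit 6) (nat_lit 0x9000580028001000000000000000000000000) (nat_lit 0x0) (nat_lit 0x74003e0004800000000000000000000000000000000000) := T_48 (nat_lit 163) (nat_lit 146) (nat_lit 5) (nat_lit 11) (nat_lit 5) L120177 (by decide +kernel)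
theorem L120179 : W_48 (nat_lit 7) (nat_lit 0x9000580028000000000000000000000000000) (nat_lit 0x0) (nat_lit 0x74003e0004800000010007c001f0002000000000000000) := Q_48 (nat_lit 96) (C_48 L120173 (C_48 L120137 (C_48 L120178 N_48))) (by decide +kernel)
theorem L120180 : W_48 (nat_lit 12) (nat_lit 0x1000580028000000000000000000000000000) (nat_lit 0x0) (nat_lit 0xa0007c00fe000c8008001d000fe001f000e000300000000000) := Q_48 (nat_lit 147) (C_48 L118842 (C_48 L120116 (C_48 L120125 (C_48 L120128 (C_48 L120162 (C_48 L120169 (C_48 L120179 N_48))))))) (by decide +kernel)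
theorem L120181 : W_48 (nat_lit 13) (nat_lit 0x1000580020000000000000000000000000000) (nat_lit 0x0) (nat_lit 0xa0007c00fe000c8008001df80ffc01f000e000300000000000) := Q_48 (nat_lit 111) (C_48 L120180 (C_48 L119642 (C_48 L118879 (C_48 L118816 N_48)))) (by decide +kernel)
theorem L120182 : W_48 (nat_lit 2) (nat_lit 0x40000000d0005800280010000e0008000000000000000) (nat_lit 0x0) (nat_lit 0x10004000400000000000) := D_48 (nat_lit 62) (nat_lit 46) (nat_lit 76) (nat_lit 6) (nat_lit 11) (nat_lit 6) (nat_lit 2) (nat_lit 8) (nat_lit 4) (by decide +kernel)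
theorem L120183 : W_48 (nat_lit 3) (nat_lit 0x40000000d0005800280010000e0000000000000000000) (nat_lit 0x0) (nat_lit 0x11000c000400000000000) := T_48 (nat_lit 63) (nat_lit 80) (nat_lit 6) (nat_lit 11) (nat_lit 7) L120182 (by decide +kernel)
theorem L120184 : W_48 (nat_lit 4) (nat_lit 0x40000000d000580028001000060000000000000000000) (nat_lit 0x0) (nat_lit 0x19000e000400000000000) := T_48 (nat_lit 79) (nat_lit 61) (nat_lit 4) (nat_lit 11) (nat_lit 7) L120183 (by decide +kernel)
theorem L120185 : W_48 (nat_lit 5) (nat_lit 0x40000000d000580028001000040000000000000000000) (nat_lit 0x0) (nat_lit 0x4001b000e000400000000000) := T_48 (nat_lit 77) (nat_lit 94) (nat_lit 5) (nat_lit 9) (nat_lit 4) L120184 (by decide +kernel)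
theorem L120186 : W_48 (nat_lit 6) (nat_lit 0x40000000d000580028001000000000000000000000000) (nat_lit 0x0) (nat_lit 0xc001f000e000400000000000) := T_48 (nat_lit 78) (nat_lit 95) (nat_lit 4) (nat_lit 11) (nat_lit 8) L120185 (by decide +kernel)
theorem L120187 : W_48 (nat_lit 7) (nat_lit 0xd000580028001000000000000000000000000) (nat_lit 0x0) (nat_lit 0x400020000000000000000c001f000e000400000000000) := T_48 (nat_lit 178) (nat_lit 161) (nat_lit 6) (nat_lit 8) (nat_lit 10) L120186 (by decide +kernel)
theorem L120188 : W_48 (nat_lit 8) (nat_lit 0x9000580028001000000000000000000000000) (nat_lit 0x0) (nat_lit 0x4000a0004000000000000c001f000e000400000000000) := T_48 (nat_lit 146) (nat_lit 163) (nat_lit 5) (nat_lit 11) (nat_lit 5) L120187 (by decide +kernel)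
theorem L120189 : W_48 (nat_lit 9) (nat_lit 0x9000580028000000000000000000000000000) (nat_lit 0x0) (nat_lit 0x400074003e0014800800040001c001f000e000400000000000) := Q_48 (nat_lit 96) (C_48 L118852 (C_48 L120178 (C_48 L117624 (C_48 L120188 N_48)))) (by decide +kernel)
theorem L120190 : W_48 (nat_lit 2) (nat_lit 0x180009000580038001000020000000000000000000) (nat_lit 0x0) (nat_lit 0x4000200010000000000000000000000000000000000000) := D_48 (nat_lit 165) (nat_lit 182) (nat_lit 148) (nat_lit 7) (nat_lit 11) (nat_lit 6) (nat_lit 7) (nat_lit 11) (nat_lit 5) (by decide +kernel)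
theorem L120191 : W_48 (nat_lit 3) (nat_lit 0x180009000580038000000020000000000000000000) (nat_lit 0x0) (nat_lit 0x4000200014000000000001000000000000000000000000) := T_48 (nat_lit 96) (nat_lit 146) (nat_lit 5) (nat_lit 11) (nat_lit 5) L120190 (by decide +kernel)
theorem L120192 : W_48 (nat_lit 4) (nat_lit 0x100009000580038000000020000000000000000000) (nat_lit 0x0) (nat_lit 0x5000280014000000000001000000000000000000000000) := T_48 (nat_lit 163) (nat_lit 180) (nat_lit 5) (nat_lit 11) (nat_lit 6) L120191 (by decide +kernel)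
theorem L120193 : W_48 (nat_lit 5) (nat_lit 0x9000580038000000020000000000000000000) (nat_lit 0x0) (nat_lit 0x5000380014000000000001800000000000000000000000) := T_48 (nat_lit 164) (nat_lit 95) (nat_lit 4) (nat_lit 11) (nat_lit 9) L120192 (by decide +kernel)
theorem L120194 : W_48 (nat_lit 6) (nat_lit 0x9000580028000000020000000000000000000) (nat_lit 0x0) (nat_lit 0x5000380014000000050001800000000000000000000000) := T_48 (nat_lit 112) (nat_lit 114) (nat_lit 1) (nat_lit 12) (nat_lit 6) L120193 (by decide +kernel)
theorem L120195 : W_48 (nat_lit 7) (nat_lit 0x9000580028000000000000000000000000000) (nat_lit 0x0) (nat_lit 0x5000380014000000050001c00020000000000000000000) := T_48 (nat_lit 77) (nat_lit 94) (nat_lit 5) (nat_lit 9) (nat_lit 4) L120194 (by decide +kernel)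
theorem L120196 : W_48 (nat_lit 2) (nat_lit 0x400180009000580038001000000000000000000000000) (nat_lit 0x0) (nat_lit 0x4000200010000000000000000000000000000000000000) := D_48 (nat_lit 165) (nat_lit 182) (nat_lit 148) (nat_lit 7) (nat_lit 11) (nat_lit 6) (nat_lit 7) (nat_lit 11) (nat_lit 5) (by decide +kernel)
theorem L120197 : W_48 (nat_lit 3) (nat_lit 0x400180009000580038000000000000000000000000000) (nat_lit 0x0) (nat_lit 0x4000200014000000000001000000000000000000000000) := T_48 (nat_lit 96) (nat_lit 146) (nat_lit 5) (nat_lit 11) (nat_lit 5) L120196 (by decide +kernel)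
theorem L120198 : W_48 (nat_lit 4) (nat_lit 0x400100009000580038000000000000000000000000000) (nat_lit 0x0) (nat_lit 0x5000280014000000000001000000000000000000000000) := T_48 (nat_lit 163) (nat_lit 180) (nat_lit 5) (nat_lit 11) (nat_lit 6) L120197 (by decide +kernel)
theorem L120199 : W_48 (nat_lit 5) (nat_lit 0x400000009000580038000000000000000000000000000) (nat_lit 0x0) (nat_lit 0x5000380014000000000001800000000000000000000000) := T_48 (nat_lit 164) (nat_lit 95) (nat_lit 4) (nat_lit 11) (nat_lit 9) L120198 (by decide +kernel)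
theorem L120200 : W_48 (nat_lit 6) (nat_lit 0x9000580038000000000000000000000000000) (nat_lit 0x0) (nat_lit 0x54003a0014000000000001800000000000000000000000) := T_48 (nat_lit 178) (nat_lit 161) (nat_lit 6) (nat_lit 8) (nat_lit 10) L120199 (by decide +kernel)
theorem L120201 : W_48 (nat_lit 7) (nat_lit 0x9000580028000000000000000000000000000) (nat_lit 0x0) (nat_lit 0x54003a0014000000050001800000000000000000000000) := T_48 (nat_lit 112) (nat_lit 114) (nat_lit 1) (nat_lit 12) (nat_lit 6) L120200 (by decide +kernel)
theorem L120202 : W_48 (nat_lit 2) (nat_lit 0x9000580038000800020000000000000000000) (nat_lit 0x0) (nat_lit 0x1000040002000000000000000) := D_48 (nat_lit 78) (nat_lit 96) (nat_lit 61) (nat_lit 4) (nat_lit 11) (nat_lit 8) (nat_lit 7) (nat_lit 10) (nat_lit 3) (by decide +kernel)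
theorem L120203 : W_48 (nat_lit 3) (nat_lit 0x9000580038000000020000000000000000000) (nat_lit 0x0) (nat_lit 0x100000000000000001800040002000000000000000) := T_48 (nat_lit 95) (nat_lit 164) (nat_lit 4) (nat_lit 11) (nat_lit 9) L120202 (by decide +kernel)
theorem L120204 : W_48 (nat_lit 4) (nat_lit 0x9000580038000000000000000000000000000) (nat_lit 0x0) (nat_lit 0x100000000000000001c00060002000000000000000) := T_48 (nat_lit 77) (nat_lit 94) (nat_lit 5) (nat_lit 9) (nat_lit 4) L120203 (by decide +kernel)
theorem L120205 : W_48 (nat_lit 5) (nat_lit 0x9000580028000000000000000000000000000) (nat_lit 0x0) (nat_lit 0x100000000000050001c00060002000000000000000) := T_48 (nat_lit 112) (nat_lit 114) (nat_lit 1) (nat_lit 12) (nat_lit 6) L120204 (by decide +kernel)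
theorem L120206 : W_48 (nat_lit 2) (nat_lit 0x3000300009000580068001000000000000000000000000) (nat_lit 0x0) (nat_lit 0xc00020000000000000000000000000000000000000000) := D_48 (nat_lit 178) (nat_lit 179) (nat_lit 161) (nat_lit 2) (nat_lit 8) (nat_lit 10) (nat_lit 6) (nat_lit 8) (nat_lit 10) (by decide +kernel)
theorem L120207 : W_48 (nat_lit 3) (nat_lit 0x2000300009000580068001000000000000000000000000) (nat_lit 0x0) (nat_lit 0x20001c00020000000000000000000000000000000000000000) := T_48 (nat_lit 180) (nat_lit 197) (nat_lit 5) (nat_lit 11) (nat_lit 7) L120206 (by decide +kernel)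
theorem L120208 : W_48 (nat_lit 4) (nat_lit 0x300009000580068001000000000000000000000000) (nat_lit 0x0) (nat_lit 0x20003c00020000000800000000000000000000000000000000) := T_48 (nat_lit 181) (nat_lit 131) (nat_lit 6) (nat_lit 11) (nat_lit 10) L120207 (by decide +kernel)
theorem L120209 : W_48 (nat_lit 5) (nat_lit 0x300009000580068000000000000000000000000000) (nat_lit 0x0) (nat_lit 0x20003c00020010000800000001000000000000000000000000) := T_48 (nat_lit 96) (nat_lit 148) (nat_lit 7) (nat_lit 11) (nat_lit 5) L120208 (by decide +kernel)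
theorem L120210 : W_48 (nat_lit 6) (nat_lit 0x100009000580068000000000000000000000000000) (nat_lit 0x0) (nat_lit 0x20007c00220010000800000001000000000000000000000000) := T_48 (nat_lit 165) (nat_lit 182) (nat_lit 7) (nat_lit 11) (nat_lit 6) L120209 (by decide +kernel)
theorem L120211 : W_48 (nat_lit 7) (nat_lit 0x100009000580028000000000000000000000000000) (nat_lit 0x0) (nat_lit 0x20007c00220010000800050001000000000000000000000000) := T_48 (nat_lit 114) (nat_lit 112) (nat_lit 1) (nat_lit 12) (nat_lit 6) L120210 (by decide +kernel)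
theorem L120212 : W_48 (nat_lit 2) (nat_lit 0x300009000580028001000020000000000000000000) (nat_lit 0x0) (nat_lit 0x1000080004000000000000000000000000000000000000) := D_48 (nat_lit 163) (nat_lit 146) (nat_lit 180) (nat_lit 5) (nat_lit 11) (nat_lit 5) (nat_lit 5) (nat_lit 11) (nat_lit 6) (by decide +kernel)
theorem L120213 : W_48 (nat_lit 3) (nat_lit 0x300009000580028000000020000000000000000000) (nat_lit 0x0) (nat_lit 0x1000080014000000000001000000000000000000000000) := T_48 (nat_lit 96) (nat_lit 148) (nat_lit 7) (nat_lit 11) (nat_lit 5) L120212 (by decide +kernel)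
theorem L120214 : W_48 (nat_lit 4) (nat_lit 0x100009000580028000000020000000000000000000) (nat_lit 0x0) (nat_lit 0x5000280014000000000001000000000000000000000000) := T_48 (nat_lit 165) (nat_lit 182) (nat_lit 7) (nat_lit 11) (nat_lit 6) L120213 (by decide +kernel)
theorem L120215 : W_48 (nat_lit 5) (nat_lit 0x100009000580028000000000000000000000000000) (nat_lit 0x0) (nat_lit 0x5000280014000000000001400020000000000000000000) := T_48 (nat_lit 77) (nat_lit 94) (nat_lit 5) (nat_lit 9) (nat_lit 4) L120214 (by decide +kernel)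
theorem L120216 : W_48 (nat_lit 2) (nat_lit 0x2000100009000580068000000020000000000000000000) (nat_lit 0x0) (nat_lit 0x80004000200000000000000000000000000000000000000000) := D_48 (nat_lit 182) (nat_lit 165) (nat_lit 199) (nat_lit 7) (nat_lit 11) (nat_lit 6) (nat_lit 7) (nat_lit 11) (nat_lit 7) (by decide +kernel)
theorem L120217 : W_48 (nat_lit 3) (nat_lit 0x100009000580068000000020000000000000000000) (nat_lit 0x0) (nat_lit 0x80006000200000000800000000000000000000000000000000) := T_48 (nat_lit 181) (nat_lit 131) (nat_lit 6) (nat_lit 11) (nat_lit 10) L120216 (by decide +kernel)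
theorem L120218 : W_48 (nat_lit 4) (nat_lit 0x100009000580068000000000000000000000000000) (nat_lit 0x0) (nat_lit 0x80006000200000000800000000400020000000000000000000) := T_48 (nat_lit 77) (nat_lit 94) (nat_lit 5) (nat_lit 9) (nat_lit 4) L120217 (by decide +kernel)
theorem L120219 : W_48 (nat_lit 5) (nat_lit 0x100009000580028000000000000000000000000000) (nat_lit 0x0) (nat_lit 0x80006000200000000800050000400020000000000000000000) := T_48 (nat_lit 114) (nat_lit 112) (nat_lit 1) (nat_lit 12) (nat_lit 6) L120218 (by decide +kernel)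
theorem L120220 : W_48 (nat_lit 2) (nat_lit 0x180019000580028001000020000000000000000000) (nat_lit 0x0) (nat_lit 0x400060000000000000000000000000000000000000000) := D_48 (nat_lit 161) (nat_lit 178) (nat_lit 162) (nat_lit 6) (nat_lit 8) (nat_lit 10) (nat_lit 2) (nat_lit 8) (nat_lit 9) (by decide +kernel)
theorem L120221 : W_48 (nat_lit 3) (nat_lit 0x180009000580028001000020000000000000000000) (nat_lit 0x0) (nat_lit 0x400260010000000000000000000000000000000000000) := T_48 (nat_lit 148) (nat_lit 165) (nat_lit 7) (nat_lit 11) (nat_lit 5) L120220 (by decide +kernel)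
theorem L120222 : W_48 (nat_lit 4) (nat_lit 0x180009000580028001000000000000000000000000) (nat_lit 0x0) (nat_lit 0x400260010000000000000400020000000000000000000) := T_48 (nat_lit 77) (nat_lit 94) (nat_lit 5) (nat_lit 9) (nat_lit 4) L120221 (by decide +kernel)
theorem L120223 : W_48 (nat_lit 5) (nat_lit 0x180009000580028000000000000000000000000000) (nat_lit 0x0) (nat_lit 0x400260014000000000001400020000000000000000000) := T_48 (nat_lit 96) (nat_lit 146) (nat_lit 5) (nat_lit 11) (nat_lit 5) L120222 (by decide +kernel)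
theorem L120224 : W_48 (nat_lit 6) (nat_lit 0x100009000580028000000000000000000000000000) (nat_lit 0x0) (nat_lit 0x14002e0014000000000001400020000000000000000000) := T_48 (nat_lit 163) (nat_lit 180) (nat_lit 5) (nat_lit 11) (nat_lit 6) L120223 (by decide +kernel)
theorem L120225 : W_48 (nat_lit 2) (nat_lit 0x6000180009000580068001000020000000000000000000) (nat_lit 0x0) (nat_lit 0x400060000000000000000000000000000000000000000) := D_48 (nat_lit 161) (nat_lit 162) (nat_lit 178) (nat_lit 3) (nat_lit 8) (nat_lit 9) (nat_lit 6) (nat_lit 8) (nat_lit 10) (by decide +kernel)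
theorem L120226 : W_48 (nat_lit 3) (nat_lit 0x2000180009000580068001000020000000000000000000) (nat_lit 0x0) (nat_lit 0x80004400060000000000000000000000000000000000000000) := T_48 (nat_lit 182) (nat_lit 199) (nat_lit 7) (nat_lit 11) (nat_lit 7) L120225 (by decide +kernel)
theorem L120227 : W_48 (nat_lit 4) (nat_lit 0x2000180009000580068001000000000000000000000000) (nat_lit 0x0) (nat_lit 0x80004400060000000000000000400020000000000000000000) := T_48 (nat_lit 77) (nat_lit 94) (nat_lit 5) (nat_lit 9) (nat_lit 4) L120226 (by decide +kernel)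
theorem L120228 : W_48 (nat_lit 5) (nat_lit 0x180009000580068001000000000000000000000000) (nat_lit 0x0) (nat_lit 0x80006400060000000800000000400020000000000000000000) := T_48 (nat_lit 181) (nat_lit 131) (nat_lit 6) (nat_lit 11) (nat_lit 10) L120227 (by decide +kernel)
theorem L120229 : W_48 (nat_lit 6) (nat_lit 0x180009000580068000000000000000000000000000) (nat_lit 0x0) (nat_lit 0x80006400060004000800000001400020000000000000000000) := T_48 (nat_lit 96) (nat_lit 146) (nat_lit 5) (nat_lit 11) (nat_lit 5) L120228 (by decide +kernel)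
theorem L120230 : W_48 (nat_lit 7) (nat_lit 0x100009000580068000000000000000000000000000) (nat_lit 0x0) (nat_lit 0x800074000e0004000800000001400020000000000000000000) := T_48 (nat_lit 163) (nat_lit 180) (nat_lit 5) (nat_lit 11) (nat_lit 6) L120229 (by decide +kernel)
theorem L120231 : W_48 (nat_lit 8) (nat_lit 0x100009000580028000000000000000000000000000) (nat_lit 0x0) (nat_lit 0x800074000e0004000800050001400020000000000000000000) := T_48 (nat_lit 114) (nat_lit 112) (nat_lit 1) (nat_lit 12) (nat_lit 6) L120230 (by decide +kernel)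
theorem L120232 : W_48 (nat_lit 9) (nat_lit 0x9000580028000000000000000000000000000) (nat_lit 0x0) (nat_lit 0xa0007c003e0014000800050001400020000000000000000000) := Q_48 (nat_lit 164) (C_48 L120211 (C_48 L120215 (C_48 L120219 (C_48 L120224 (C_48 L120231 N_48))))) (by decide +kernel)
theorem L120233 : W_48 (nat_lit 2) (nat_lit 0x1d000580028001000080000000000000000000) (nat_lit 0x0) (nat_lit 0x800040002000000000000000) := D_48 (nat_lit 78) (nat_lit 95) (nat_lit 61) (nat_lit 4) (nat_lit 11) (nat_lit 8) (nat_lit 4) (nat_lit 11) (nat_lit 7) (by decide +kernel)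
theorem L120234 : W_48 (nat_lit 3) (nat_lit 0x1d000580028001000000000000000000000000) (nat_lit 0x0) (nat_lit 0x8000000008000c0002000000000000000) := T_48 (nat_lit 79) (nat_lit 131) (nat_lit 7) (nat_lit 11) (nat_lit 4) L120233 (by decide +kernel)
theorem L120235 : W_48 (nat_lit 4) (nat_lit 0xd000580028001000000000000000000000000) (nat_lit 0x0) (nat_lit 0x2000100008000000008000c0002000000000000000) := T_48 (nat_lit 148) (nat_lit 165) (nat_lit 7) (nat_lit 11) (nat_lit 5) L120234 (by decide +kernel)
theorem L120236 : W_48 (nat_lit 5) (nat_lit 0x9000580028001000000000000000000000000) (nat_lit 0x0) (nat_lit 0x2800140008000000008000c0002000000000000000) := T_48 (nat_lit 146) (nat_lit 163) (nat_lit 5) (nat_lit 11) (nat_lit 5) L120235 (by decide +kernel)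
theorem L120237 : W_48 (nat_lit 2) (nat_lit 0x1d0005800280010000e0008000000000000000) (nat_lit 0x0) (nat_lit 0x10004000400000000000) := D_48 (nat_lit 62) (nat_lit 76) (nat_lit 46) (nat_lit 2) (nat_lit 8) (nat_lit 4) (nat_lit 6) (nat_lit 11) (nat_lit 6) (by decide +kernel)
theorem L120238 : W_48 (nat_lit 3) (nat_lit 0x1d0005800280010000a0008000000000000000) (nat_lit 0x0) (nat_lit 0x50006000400000000000) := T_48 (nat_lit 78) (nat_lit 61) (nat_lit 4) (nat_lit 11) (nat_lit 7) L120237 (by decide +kernel)
theorem L120239 : W_48 (nat_lit 4) (nat_lit 0x1d0005800280010000a0000000000000000000) (nat_lit 0x0) (nat_lit 0x15000e000400000000000) := T_48 (nat_lit 63) (nat_lit 80) (nat_lit 6) (nat_lit 11) (nat_lit 7) L120238 (by decide +kernel)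
theorem L120240 : W_48 (nat_lit 5) (nat_lit 0x1d000580028001000020000000000000000000) (nat_lit 0x0) (nat_lit 0x8000000000001d000e000400000000000) := T_48 (nat_lit 79) (nat_lit 131) (nat_lit 7) (nat_lit 11) (nat_lit 4) L120239 (by decide +kernel)
theorem L120241 : W_48 (nat_lit 6) (nat_lit 0xd000580028001000020000000000000000000) (nat_lit 0x0) (nat_lit 0x2000100008000000000001d000e000400000000000) := T_48 (nat_lit 148) (nat_lit 165) (nat_lit 7) (nat_lit 11) (nat_lit 5) L120240 (by decide +kernel)
theorem L120242 : W_48 (nat_lit 7) (nat_lit 0x9000580028001000020000000000000000000) (nat_lit 0x0) (nat_lit 0x2800140008000000000001d000e000400000000000) := T_48 (nat_lit 146) (nat_lit 163) (nat_lit 5) (nat_lit 11) (nat_lit 5) L120241 (by decide +kernel)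
theorem L120243 : W_48 (nat_lit 8) (nat_lit 0x9000580028001000000000000000000000000) (nat_lit 0x0) (nat_lit 0x2800140008000000004001f000e000400000000000) := T_48 (nat_lit 77) (nat_lit 94) (nat_lit 5) (nat_lit 9) (nat_lit 4) L120242 (by decide +kernel)
theorem L120244 : W_48 (nat_lit 2) (nat_lit 0x40000001d0005800380010000a000c000200000000000) (nat_lit 0x0) (nat_lit 0x2000100008000000) := D_48 (nat_lit 44) (nat_lit 27) (nat_lit 61) (nat_lit 4) (nat_lit 11) (nat_lit 5) (nat_lit 4) (nat_lit 11) (nat_lit 6) (by decide +kernel)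
theorem L120245 : W_48 (nat_lit 3) (nat_lit 0x40000001d0005800380010000a000c000000000000000) (nat_lit 0x0) (nat_lit 0x800000002000300008000000) := T_48 (nat_lit 45) (nat_lit 95) (nat_lit 5) (nat_lit 11) (nat_lit 2) L120244 (by decide +kernel)
theorem L120246 : W_48 (nat_lit 4) (nat_lit 0x40000001d0005800380010000a0008000000000000000) (nat_lit 0x0) (nat_lit 0x800000006000700008000000) := T_48 (nat_lit 62) (nat_lit 46) (nat_lit 6) (nat_lit 11) (nat_lit 6) L120245 (by decide +kernel)
theorem L120247 : W_48 (nat_lit 5) (nat_lit 0x40000001d0005800280010000a0008000000000000000) (nat_lit 0x0) (nat_lit 0x50000800000006000700008000000) := T_48 (nat_lit 112) (nat_lit 114) (nat_lit 1) (nat_lit 12) (nat_lit 6) L120246 (by decide +kernel)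
theorem L120248 : W_48 (nat_lit 6) (nat_lit 0x40000001d0005800280010000a0000000000000000000) (nat_lit 0x0) (nat_lit 0x5000080010000e000700008000000) := T_48 (nat_lit 63) (nat_lit 80) (nat_lit 6) (nat_lit 11) (nat_lit 7) L120247 (by decide +kernel)
theorem L120249 : W_48 (nat_lit 7) (nat_lit 0x40000001d000580028001000020000000000000000000) (nat_lit 0x0) (nat_lit 0x80005000080018000e000700008000000) := T_48 (nat_lit 79) (nat_lit 131) (nat_lit 7) (nat_lit 11) (nat_lit 4) L120248 (by decide +kernel)
theorem L120250 : W_48 (nat_lit 8) (nat_lit 0x40000000d000580028001000020000000000000000000) (nat_lit 0x0) (nat_lit 0x20001000080005000080018000e000700008000000) := T_48 (nat_lit 148) (nat_lit 165) (nat_lit 7) (nat_lit 11) (nat_lit 5) L120249 (by decide +kernel)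
theorem L120251 : W_48 (nat_lit 9) (nat_lit 0x400000009000580028001000020000000000000000000) (nat_lit 0x0) (nat_lit 0x28001400080005000080018000e000700008000000) := T_48 (nat_lit 146) (nat_lit 163) (nat_lit 5) (nat_lit 11) (nat_lit 5) L120250 (by decide +kernel)
theorem L120252 : W_48 (nat_lit 10) (nat_lit 0x400000009000580028001000000000000000000000000) (nat_lit 0x0) (nat_lit 0x280014000800050000c001a000e000700008000000) := T_48 (nat_lit 77) (nat_lit 94) (nat_lit 5) (nat_lit 9) (nat_lit 4) L120251 (by decide +kernel)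
theorem L120253 : W_48 (nat_lit 11) (nat_lit 0x9000580028001000000000000000000000000) (nat_lit 0x0) (nat_lit 0x4002a0014000800050000c001a000e000700008000000) := T_48 (nat_lit 178) (nat_lit 161) (nat_lit 6) (nat_lit 8) (nat_lit 10) L120252 (by decide +kernel)
theorem L120254 : W_48 (nat_lit 12) (nat_lit 0x9000580028000000000000000000000000000) (nat_lit 0x0) (nat_lit 0x4002a0014000800050001e001f000e000700008000000) := Q_48 (nat_lit 96) (C_48 L118852 (C_48 L120188 (C_48 L120161 (C_48 L120236 (C_48 L120243 (C_48 L120253 N_48)))))) (by decide +kernel)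
theorem L120255 : W_48 (nat_lit 9) (nat_lit 0x9000580028000000000000000000000000000) (nat_lit 0x0) (nat_lit 0x74003e0014800800000001c001f000e000400000000000) := Q_48 (nat_lit 96) (C_48 L118852 (C_48 L120243 (C_48 L120236 (C_48 L120178 (C_48 L120188 N_48))))) (by decide +kernel)
theorem L120256 : W_48 (nat_lit 13) (nat_lit 0x1000580028000000000000000000000000000) (nat_lit 0x0) (nat_lit 0xe0007c003e001c800800050001e001f000e000700008000000) := Q_48 (nat_lit 147) (C_48 L120169 (C_48 L120189 (C_48 L120195 (C_48 L120201 (C_48 L120205 (C_48 L120232 (C_48 L120254 (C_48 L120255 N_48)))))))) (by decide +kernel)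
theorem L120257 : W_48 (nat_lit 2) (nat_lit 0x2000100058003c000000000000000000000000000) (nat_lit 0x0) (nat_lit 0x2000300000000000000000000000) := D_48 (nat_lit 92) (nat_lit 93) (nat_lit 109) (nat_lit 0) (nat_lit 11) (nat_lit 6) (nat_lit 4) (nat_lit 8) (nat_lit 9) (by decide +kernel)
theorem L120258 : W_48 (nat_lit 3) (nat_lit 0x20001000580038000000000000000000000000000) (nat_lit 0x0) (nat_lit 0x800006000300000000000000000000000) := T_48 (nat_lit 110) (nat_lit 131) (nat_lit 3) (nat_lit 8) (nat_lit 6) L120257 (by decide +kernel)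
theorem L120259 : W_48 (nat_lit 4) (nat_lit 0x1000580038000000000000000000000000000) (nat_lit 0x0) (nat_lit 0x400020000000800006000300000000000000000000000) := T_48 (nat_lit 161) (nat_lit 178) (nat_lit 6) (nat_lit 8) (nat_lit 10) L120258 (by decide +kernel)
theorem L120260 : W_48 (nat_lit 5) (nat_lit 0x1000580028000000000000000000000000000) (nat_lit 0x0) (nat_lit 0x400020000000800056000300000000000000000000000) := T_48 (nat_lit 112) (nat_lit 114) (nat_lit 1) (nat_lit 12) (nat_lit 6) L120259 (by decide +kernel)
theorem L120261 : W_48 (nat_lit 14) (nat_lit 0x1000580020000000000000000000000000000) (nat_lit 0x0) (nat_lit 0xe0007c003e001c80080005e001f001f000f800700008000000) := Q_48 (nat_lit 111) (C_48 L120256 (C_48 L118816 (C_48 L117737 (C_48 L120260 N_48)))) (by decide +kernel)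
theorem L120262 : W_48 (nat_lit 2) (nat_lit 0x400100019000580028003000060000000000000000000) (nat_lit 0x0) (nat_lit 0x90002000000000000000) := D_48 (nat_lit 79) (nat_lit 76) (nat_lit 61) (nat_lit 3) (nat_lit 8) (nat_lit 4) (nat_lit 4) (nat_lit 11) (nat_lit 7) (by decide +kernel)
theorem L120263 : W_48 (nat_lit 3) (nat_lit 0x400100019000580028003000040000000000000000000) (nat_lit 0x0) (nat_lit 0x4000b0002000000000000000) := T_48 (nat_lit 77) (nat_lit 94) (nat_lit 5) (nat_lit 9) (nat_lit 4) L120262 (by decide +kernel)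
theorem L120264 : W_48 (nat_lit 4) (nat_lit 0x400100019000580028003000000000000000000000000) (nat_lit 0x0) (nat_lit 0xc000f0002000000000000000) := T_48 (nat_lit 78) (nat_lit 95) (nat_lit 4) (nat_lit 11) (nat_lit 8) L120263 (by decide +kernel)
theorem L120265 : W_48 (nat_lit 5) (nat_lit 0x400000019000580028003000000000000000000000000) (nat_lit 0x0) (nat_lit 0x100000000000040000c000f0002000000000000000) := T_48 (nat_lit 164) (nat_lit 114) (nat_lit 6) (nat_lit 11) (nat_lit 9) L120264 (by decide +kernel)
theorem L120266 : W_48 (nat_lit 6) (nat_lit 0x400000009000580028003000000000000000000000000) (nat_lit 0x0) (nat_lit 0x300010000000040000c000f0002000000000000000) := T_48 (nat_lit 148) (nat_lit 165) (nat_lit 7) (nat_lit 11) (nat_lit 5) L120265 (by decide +kernel)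
theorem L120267 : W_48 (nat_lit 7) (nat_lit 0x400000009000580028001000000000000000000000000) (nat_lit 0x0) (nat_lit 0x300010000000040002c001f0002000000000000000) := T_48 (nat_lit 97) (nat_lit 80) (nat_lit 6) (nat_lit 11) (nat_lit 8) L120266 (by decide +kernel)
theorem L120268 : W_48 (nat_lit 8) (nat_lit 0x9000580028001000000000000000000000000) (nat_lit 0x0) (nat_lit 0x400320010000000040002c001f0002000000000000000) := T_48 (nat_lit 178) (nat_lit 161) (nat_lit 6) (nat_lit 8) (nat_lit 10) L120267 (by decide +kernel)
theorem L120269 : W_48 (nat_lit 9) (nat_lit 0x9000580028000000000000000000000000000) (nat_lit 0x0) (nat_lit 0x74003e0014800000040003c001f0002000000000000000) := Q_48 (nat_lit 96) (C_48 L120268 (C_48 L120137 (C_48 L120178 N_48))) (by decide +kernel)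
theorem L120270 : W_48 (nat_lit 2) (nat_lit 0x400180009000580068001000020000000000000000000) (nat_lit 0x0) (nat_lit 0x4000200010000000000000000000000000000000000000) := D_48 (nat_lit 165) (nat_lit 182) (nat_lit 148) (nat_lit 7) (nat_lit 11) (nat_lit 6) (nat_lit 7) (nat_lit 11) (nat_lit 5) (by decide +kernel)
theorem L120271 : W_48 (nat_lit 3) (nat_lit 0x400180009000580068000000020000000000000000000) (nat_lit 0x0) (nat_lit 0x4000200014000000000001000000000000000000000000) := T_48 (nat_lit 96) (nat_lit 146) (nat_lit 5) (nat_lit 11) (nat_lit 5) L120270 (by decide +kernel)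
theorem L120272 : W_48 (nat_lit 4) (nat_lit 0x400100009000580068000000020000000000000000000) (nat_lit 0x0) (nat_lit 0x5000280014000000000001000000000000000000000000) := T_48 (nat_lit 163) (nat_lit 180) (nat_lit 5) (nat_lit 11) (nat_lit 6) L120271 (by decide +kernel)
theorem L120273 : W_48 (nat_lit 5) (nat_lit 0x400000009000580068000000020000000000000000000) (nat_lit 0x0) (nat_lit 0x5000380014000000000003000000000000000000000000) := T_48 (nat_lit 164) (nat_lit 97) (nat_lit 6) (nat_lit 11) (nat_lit 9) L120272 (by decide +kernel)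
theorem L120274 : W_48 (nat_lit 6) (nat_lit 0x400000009000580028000000020000000000000000000) (nat_lit 0x0) (nat_lit 0x5000380014000000050003000000000000000000000000) := T_48 (nat_lit 114) (nat_lit 112) (nat_lit 1) (nat_lit 12) (nat_lit 6) L120273 (by decide +kernel)
theorem L120275 : W_48 (nat_lit 7) (nat_lit 0x400000009000580028000000000000000000000000000) (nat_lit 0x0) (nat_lit 0x5000380014000000050003400020000000000000000000) := T_48 (nat_lit 77) (nat_lit 94) (nat_lit 5) (nat_lit 9) (nat_lit 4) L120274 (by decide +kernel)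
theorem L120276 : W_48 (nat_lit 8) (nat_lit 0x9000580028000000000000000000000000000) (nat_lit 0x0) (nat_lit 0x54003a0014000000050003400020000000000000000000) := T_48 (nat_lit 178) (nat_lit 161) (nat_lit 6) (nat_lit 8) (nat_lit 10) L120275 (by decide +kernel)
theorem L120277 : W_48 (nat_lit 2) (nat_lit 0x1d000580028003800000000000000000000000) (nat_lit 0x0) (nat_lit 0x50004000000000000000000000000) := D_48 (nat_lit 112) (nat_lit 98) (nat_lit 114) (nat_lit 1) (nat_lit 13) (nat_lit 5) (nat_lit 1) (nat_lit 12) (nat_lit 6) (by decide +kernel)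
theorem L120278 : W_48 (nat_lit 3) (nat_lit 0x1d000580028003000000000000000000000000) (nat_lit 0x0) (nat_lit 0x50004800040000000000000000000) := T_48 (nat_lit 95) (nat_lit 78) (nat_lit 4) (nat_lit 11) (nat_lit 8) L120277 (by decide +kernel)
theorem L120279 : W_48 (nat_lit 4) (nat_lit 0xd000580028003000000000000000000000000) (nat_lit 0x0) (nat_lit 0x200010000000050004800040000000000000000000) := T_48 (nat_lit 148) (nat_lit 165) (nat_lit 7) (nat_lit 11) (nat_lit 5) L120278 (by decide +kernel)
theorem L120280 : W_48 (nat_lit 5) (nat_lit 0xd000580028001000000000000000000000000) (nat_lit 0x0) (nat_lit 0x200010000000050006800140000000000000000000) := T_48 (nat_lit 97) (nat_lit 80) (nat_lit 6) (nat_lit 11) (nat_lit 8) L120279 (by decide +kernel)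
theorem L120281 : W_48 (nat_lit 6) (nat_lit 0x9000580028001000000000000000000000000) (nat_lit 0x0) (nat_lit 0x280014000000050006800140000000000000000000) := T_48 (nat_lit 146) (nat_lit 163) (nat_lit 5) (nat_lit 11) (nat_lit 5) L120280 (by decide +kernel)
theorem L120282 : W_48 (nat_lit 2) (nat_lit 0x9000580028001000080000000000000000000) (nat_lit 0x0) (nat_lit 0x2000100008000000000000000) := D_48 (nat_lit 80) (nat_lit 97) (nat_lit 63) (nat_lit 6) (nat_lit 11) (nat_lit 8) (nat_lit 6) (nat_lit 11) (nat_lit 7) (by decide +kernel)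
theorem L120283 : W_48 (nat_lit 2) (nat_lit 0xd0005800680010000c000c000000000000000) (nat_lit 0x0) (nat_lit 0x400030000000000000000000) := D_48 (nat_lit 77) (nat_lit 76) (nat_lit 94) (nat_lit 2) (nat_lit 8) (nat_lit 4) (nat_lit 5) (nat_lit 9) (nat_lit 4) (by decide +kernel)
theorem L120284 : W_48 (nat_lit 3) (nat_lit 0xd0005800680010000c0008000000000000000) (nat_lit 0x0) (nat_lit 0x400030004000400000000000) := T_48 (nat_lit 62) (nat_lit 46) (nat_lit 6) (nat_lit 11) (nat_lit 6) L120283 (by decide +kernel)
theorem L120285 : W_48 (nat_lit 4) (nat_lit 0x90005800680010000c0008000000000000000) (nat_lit 0x0) (nat_lit 0x80004000000000000400030004000400000000000) := T_48 (nat_lit 146) (nat_lit 163) (nat_lit 5) (nat_lit 11) (nat_lit 5) L120284 (by decide +kernel)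
theorem L120286 : W_48 (nat_lit 5) (nat_lit 0x90005800680010000c0000000000000000000) (nat_lit 0x0) (nat_lit 0x8000400000000000040013000c000400000000000) := T_48 (nat_lit 63) (nat_lit 80) (nat_lit 6) (nat_lit 11) (nat_lit 7) L120285 (by decide +kernel)
theorem L120287 : W_48 (nat_lit 6) (nat_lit 0x9000580068001000080000000000000000000) (nat_lit 0x0) (nat_lit 0x8000400000000000040017000e000400000000000) := T_48 (nat_lit 78) (nat_lit 61) (nat_lit 4) (nat_lit 11) (nat_lit 7) L120286 (by decide +kernel)
theorem L120288 : W_48 (nat_lit 7) (nat_lit 0x9000580028001000080000000000000000000) (nat_lit 0x0) (nat_lit 0x8000400000005000040017000e000400000000000) := T_48 (nat_lit 114) (nat_lit 112) (nat_lit 1) (nat_lit 12) (nat_lit 6) L120287 (by decide +kernel)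
theorem L120289 : W_48 (nat_lit 8) (nat_lit 0x190005800680010000c0000000000000000000) (nat_lit 0x0) (nat_lit 0x8000400000000000278003800ce00000000000000) := T_48 (nat_lit 146) (nat_lit 163) (nat_lit 5) (nat_lit 11) (nat_lit 5) L117887 (by decide +kernel)
theorem L120290 : W_48 (nat_lit 9) (nat_lit 0x190005800280010000c0000000000000000000) (nat_lit 0x0) (nat_lit 0x8000400000005000278003800ce00000000000000) := T_48 (nat_lit 114) (nat_lit 112) (nat_lit 1) (nat_lit 12) (nat_lit 6) L120289 (by decide +kernel)
theorem L120291 : W_48 (nat_lit 10) (nat_lit 0x19000580028001000080000000000000000000) (nat_lit 0x0) (nat_lit 0x8000400000005000278007800ee00000000000000) := T_48 (nat_lit 78) (nat_lit 61) (nat_lit 4) (nat_lit 11) (nat_lit 7) L120290 (by decide +kernel)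
theorem L120292 : W_48 (nat_lit 11) (nat_lit 0x9000580028001000080000000000000000000) (nat_lit 0x0) (nat_lit 0x28001400000005000278007800ee00000000000000) := T_48 (nat_lit 148) (nat_lit 165) (nat_lit 7) (nat_lit 11) (nat_lit 5) L120291 (by decide +kernel)
theorem L120293 : W_48 (nat_lit 2) (nat_lit 0x90005800280030000a0000000000000000000) (nat_lit 0x0) (nat_lit 0x50002000000000000000) := D_48 (nat_lit 78) (nat_lit 76) (nat_lit 61) (nat_lit 3) (nat_lit 8) (nat_lit 4) (nat_lit 4) (nat_lit 11) (nat_lit 7) (by decide +kernel)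
theorem L120294 : W_48 (nat_lit 3) (nat_lit 0x90005800280010000a0000000000000000000) (nat_lit 0x0) (nat_lit 0x2000150002000000000000000) := T_48 (nat_lit 97) (nat_lit 80) (nat_lit 6) (nat_lit 11) (nat_lit 8) L120293 (by decide +kernel)
theorem L120295 : W_48 (nat_lit 4) (nat_lit 0x9000580028001000080000000000000000000) (nat_lit 0x0) (nat_lit 0x2400170002000000000000000) := T_48 (nat_lit 77) (nat_lit 94) (nat_lit 5) (nat_lit 9) (nat_lit 4) L120294 (by decide +kernel)
theorem L120296 : W_48 (nat_lit 12) (nat_lit 0x9000580028001000000000000000000000000) (nat_lit 0x0) (nat_lit 0x2800140000000500027801f800ee00400000000000) := Q_48 (nat_lit 79) (C_48 L120282 (C_48 L120288 (C_48 L120292 (C_48 L120295 N_48)))) (by decide +kernel)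
theorem L120297 : W_48 (nat_lit 13) (nat_lit 0x9000580028000000000000000000000000000) (nat_lit 0x0) (nat_lit 0x4002a001400000005000ff801f800ee00400000000000) := Q_48 (nat_lit 96) (C_48 L120157 (C_48 L120188 (C_48 L120161 (C_48 L120281 (C_48 L120296 N_48))))) (by decide +kernel)
theorem L120298 : W_48 (nat_lit 14) (nat_lit 0x1000580028000000000000000000000000000) (nat_lit 0x0) (nat_lit 0x20007c003e001c80000005000ff801f800ee00400000000000) := Q_48 (nat_lit 147) (C_48 L120169 (C_48 L120269 (C_48 L120205 (C_48 L120201 (C_48 L120276 (C_48 L120297 (C_48 L120179 N_48))))))) (by decide +kernel)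
theorem L120299 : W_48 (nat_lit 2) (nat_lit 0x400200009000580028003000000000000000000000000) (nat_lit 0x0) (nat_lit 0x4000100000000000040000000000000000000000000000) := D_48 (nat_lit 164) (nat_lit 114) (nat_lit 182) (nat_lit 6) (nat_lit 11) (nat_lit 9) (nat_lit 7) (nat_lit 11) (nat_lit 6) (by decide +kernel)
theorem L120300 : W_48 (nat_lit 3) (nat_lit 0x400000009000580028003000000000000000000000000) (nat_lit 0x0) (nat_lit 0x4000300010000000040000000000000000000000000000) := T_48 (nat_lit 165) (nat_lit 148) (nat_lit 7) (nat_lit 11) (nat_lit 5) L120299 (by decide +kernel)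
theorem L120301 : W_48 (nat_lit 4) (nat_lit 0x400000009000580028001000000000000000000000000) (nat_lit 0x0) (nat_lit 0x4000300010000000040002000100000000000000000000) := T_48 (nat_lit 97) (nat_lit 80) (nat_lit 6) (nat_lit 11) (nat_lit 8) L120300 (by decide +kernel)
theorem L120302 : W_48 (nat_lit 5) (nat_lit 0x9000580028001000000000000000000000000) (nat_lit 0x0) (nat_lit 0x4400320010000000040002000100000000000000000000) := T_48 (nat_lit 178) (nat_lit 161) (nat_lit 6) (nat_lit 8) (nat_lit 10) L120301 (by decide +kernel)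
theorem L120303 : W_48 (nat_lit 3) (nat_lit 0x400000009000580028001000100000000000000000000) (nat_lit 0x0) (nat_lit 0x8000c000a000000000000000) := T_48 (nat_lit 79) (nat_lit 63) (nat_lit 6) (nat_lit 11) (nat_lit 7) L119604 (by decide +kernel)
theorem L120304 : W_48 (nat_lit 4) (nat_lit 0x9000580028001000100000000000000000000) (nat_lit 0x0) (nat_lit 0x4000200000000000000008000c000a000000000000000) := T_48 (nat_lit 178) (nat_lit 161) (nat_lit 6) (nat_lit 8) (nat_lit 10) L120303 (by decide +kernel)
theorem L120305 : W_48 (nat_lit 5) (nat_lit 0x9000580028001000000000000000000000000) (nat_lit 0x0) (nat_lit 0x4000200000000000000028001c000a000000000000000) := T_48 (nat_lit 80) (nat_lit 97) (nat_lit 6) (nat_lit 11) (nat_lit 8) L120304 (by decide +kernel)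
theorem L120306 : W_48 (nat_lit 7) (nat_lit 0x1000580028001000000000000000000000000) (nat_lit 0x0) (nat_lit 0x74003e001c8000000400028001c000a000000000000000) := Q_48 (nat_lit 147) (C_48 L120302 (C_48 L117629 (C_48 L120305 (C_48 L120178 N_48)))) (by decide +kernel)
theorem L120307 : W_48 (nat_lit 4) (nat_lit 0x400000001000580038001000000000000000000000000) (nat_lit 0x0) (nat_lit 0x100008000000006002800040000000000000000000) := T_48 (nat_lit 110) (nat_lit 97) (nat_lit 2) (nat_lit 8) (nat_lit 6) L119638 (by decide +kernel)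
theorem L120308 : W_48 (nat_lit 5) (nat_lit 0x400000001000580028001000000000000000000000000) (nat_lit 0x0) (nat_lit 0x100008000000056002800040000000000000000000) := T_48 (nat_lit 112) (nat_lit 114) (nat_lit 1) (nat_lit 12) (nat_lit 6) L120307 (by decide +kernel)
theorem L120309 : W_48 (nat_lit 6) (nat_lit 0x1000580028001000000000000000000000000) (nat_lit 0x0) (nat_lit 0x400120008000000056002800040000000000000000000) := T_48 (nat_lit 178) (nat_lit 161) (nat_lit 6) (nat_lit 8) (nat_lit 10) L120308 (by decide +kernel)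
theorem L120310 : W_48 (nat_lit 4) (nat_lit 0x1000580038001000000000000000000000000) (nat_lit 0x0) (nat_lit 0x6002b80000000000000000000000) := T_48 (nat_lit 110) (nat_lit 97) (nat_lit 2) (nat_lit 8) (nat_lit 6) L117700 (by decide +kernel)
theorem L120311 : W_48 (nat_lit 5) (nat_lit 0x1000580028001000000000000000000000000) (nat_lit 0x0) (nat_lit 0x56002b80000000000000000000000) := T_48 (nat_lit 112) (nat_lit 114) (nat_lit 1) (nat_lit 12) (nat_lit 6) L120310 (by decide +kernel)
theorem L120312 : W_48 (nat_lit 2) (nat_lit 0x40028000900058003800b000000000000000000000000) (nat_lit 0x0) (nat_lit 0x5000100000000000000000000000000000000000000000) := D_48 (nat_lit 164) (nat_lit 180) (nat_lit 182) (nat_lit 5) (nat_lit 11) (nat_lit 6) (nat_lit 7) (nat_lit 11) (nat_lit 6) (by decide +kernel)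
theorem L120313 : W_48 (nat_lit 3) (nat_lit 0x40008000900058003800b000000000000000000000000) (nat_lit 0x0) (nat_lit 0x5000300010000000000000000000000000000000000000) := T_48 (nat_lit 165) (nat_lit 148) (nat_lit 7) (nat_lit 11) (nat_lit 5) L120312 (by decide +kernel)
theorem L120314 : W_48 (nat_lit 4) (nat_lit 0x40000000900058003800b000000000000000000000000) (nat_lit 0x0) (nat_lit 0x5000380014000000000000000000000000000000000000) := T_48 (nat_lit 163) (nat_lit 146) (nat_lit 5) (nat_lit 11) (nat_lit 5) L120313 (by decide +kernel)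
theorem L120315 : W_48 (nat_lit 5) (nat_lit 0x40000000100058003800b000000000000000000000000) (nat_lit 0x0) (nat_lit 0x500038001c000000000000000100000000000000000000) := T_48 (nat_lit 147) (nat_lit 80) (nat_lit 6) (nat_lit 11) (nat_lit 8) L120314 (by decide +kernel)
theorem L120316 : W_48 (nat_lit 6) (nat_lit 0x400000001000580038003000000000000000000000000) (nat_lit 0x0) (nat_lit 0x500038001c00000000000c000100000000000000000000) := T_48 (nat_lit 99) (nat_lit 98) (nat_lit 1) (nat_lit 14) (nat_lit 5) L120315 (by decide +kernel)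
theorem L120317 : W_48 (nat_lit 7) (nat_lit 0x400000001000580038001000000000000000000000000) (nat_lit 0x0) (nat_lit 0x500038001c00000000400e000100000000000000000000) := T_48 (nat_lit 97) (nat_lit 110) (nat_lit 2) (nat_lit 8) (nat_lit 6) L120316 (by decide +kernel)
theorem L120318 : W_48 (nat_lit 8) (nat_lit 0x1000580038001000000000000000000000000) (nat_lit 0x0) (nat_lit 0x54003a001c00000000400e000100000000000000000000) := T_48 (nat_lit 178) (nat_lit 161) (nat_lit 6) (nat_lit 8) (nat_lit 10) L120317 (by decide +kernel)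
theorem L120319 : W_48 (nat_lit 9) (nat_lit 0x1000580028001000000000000000000000000) (nat_lit 0x0) (nat_lit 0x54003a001c00000005400e000100000000000000000000) := T_48 (nat_lit 112) (nat_lit 114) (nat_lit 1) (nat_lit 12) (nat_lit 6) L120318 (by decide +kernel)
theorem L120320 : W_48 (nat_lit 2) (nat_lit 0x9000580038001000000000000000000000000) (nat_lit 0x0) (nat_lit 0x100000000000000000800040000000000000000000) := D_48 (nat_lit 95) (nat_lit 78) (nat_lit 164) (nat_lit 4) (nat_lit 11) (nat_lit 8) (nat_lit 4) (nat_lit 11) (nat_lit 9) (by decide +kernel)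
theorem L120321 : W_48 (nat_lit 3) (nat_lit 0x9000580028001000000000000000000000000) (nat_lit 0x0) (nat_lit 0x100000000000050000800040000000000000000000) := T_48 (nat_lit 112) (nat_lit 114) (nat_lit 1) (nat_lit 12) (nat_lit 6) L120320 (by decide +kernel)
theorem L120322 : W_48 (nat_lit 2) (nat_lit 0x9000580028001000080000000000000000000) (nat_lit 0x0) (nat_lit 0x800040002000000000000000) := D_48 (nat_lit 78) (nat_lit 95) (nat_lit 61) (nat_lit 4) (nat_lit 11) (nat_lit 8) (nat_lit 4) (nat_lit 11) (nat_lit 7) (by decide +kernel)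
theorem L120323 : W_48 (nat_lit 2) (nat_lit 0x19000580068001000080006000000000000000) (nat_lit 0x0) (nat_lit 0x100008000400000000000) := D_48 (nat_lit 63) (nat_lit 80) (nat_lit 46) (nat_lit 6) (nat_lit 11) (nat_lit 7) (nat_lit 6) (nat_lit 11) (nat_lit 6) (by decide +kernel)
theorem L120324 : W_48 (nat_lit 3) (nat_lit 0x19000580068001000080002000000000000000) (nat_lit 0x0) (nat_lit 0x10000c000500000000000) := T_48 (nat_lit 62) (nat_lit 44) (nat_lit 4) (nat_lit 11) (nat_lit 6) L120323 (by decide +kernel)
theorem L120325 : W_48 (nat_lit 4) (nat_lit 0x19000580028001000080002000000000000000) (nat_lit 0x0) (nat_lit 0x5000000010000c000500000000000) := T_48 (nat_lit 114) (nat_lit 112) (nat_lit 1) (nat_lit 12) (nat_lit 6) L120324 (by decide +kernel)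
theorem L120326 : W_48 (nat_lit 5) (nat_lit 0x19000580028001000080000000000000000000) (nat_lit 0x0) (nat_lit 0x5000000014000e000500000000000) := T_48 (nat_lit 61) (nat_lit 78) (nat_lit 4) (nat_lit 11) (nat_lit 7) L120325 (by decide +kernel)
theorem L120327 : W_48 (nat_lit 6) (nat_lit 0x9000580028001000080000000000000000000) (nat_lit 0x0) (nat_lit 0x20001000000005000000014000e000500000000000) := T_48 (nat_lit 148) (nat_lit 165) (nat_lit 7) (nat_lit 11) (nat_lit 5) L120326 (by decide +kernel)
theorem L120328 : W_48 (nat_lit 2) (nat_lit 0x1900058003800100008000c000100000000000) (nat_lit 0x0) (nat_lit 0x800000000000200008000000) := D_48 (nat_lit 45) (nat_lit 27) (nat_lit 95) (nat_lit 4) (nat_lit 11) (nat_lit 5) (nat_lit 5) (nat_lit 11) (nat_lit 2) (by decide +kernel)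
theorem L120329 : W_48 (nat_lit 3) (nat_lit 0x1900058002800100008000c000100000000000) (nat_lit 0x0) (nat_lit 0x50000800000000000200008000000) := T_48 (nat_lit 112) (nat_lit 114) (nat_lit 1) (nat_lit 12) (nat_lit 6) L120328 (by decide +kernel)
theorem L120330 : W_48 (nat_lit 4) (nat_lit 0x1900058002800100008000c000000000000000) (nat_lit 0x0) (nat_lit 0x50000800000002000300008000000) := T_48 (nat_lit 44) (nat_lit 61) (nat_lit 4) (nat_lit 11) (nat_lit 6) L120329 (by decide +kernel)
theorem L120331 : W_48 (nat_lit 5) (nat_lit 0x19000580028001000080008000000000000000) (nat_lit 0x0) (nat_lit 0x50000800000006000700008000000) := T_48 (nat_lit 62) (nat_lit 46) (nat_lit 6) (nat_lit 11) (nat_lit 6) L120330 (by decide +kernel)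
theorem L120332 : W_48 (nat_lit 6) (nat_lit 0x9000580028001000080008000000000000000) (nat_lit 0x0) (nat_lit 0x200010000000050000800000006000700008000000) := T_48 (nat_lit 148) (nat_lit 165) (nat_lit 7) (nat_lit 11) (nat_lit 5) L120331 (by decide +kernel)
theorem L120333 : W_48 (nat_lit 7) (nat_lit 0x9000580028001000080000000000000000000) (nat_lit 0x0) (nat_lit 0x20001000000005000080010000e000700008000000) := T_48 (nat_lit 63) (nat_lit 80) (nat_lit 6) (nat_lit 11) (nat_lit 7) L120332 (by decide +kernel)
theorem L120334 : W_48 (nat_lit 2) (nat_lit 0x40000001900058002800180008000c000000000000000) (nat_lit 0x0) (nat_lit 0x50000000000000000200000000000) := D_48 (nat_lit 112) (nat_lit 45) (nat_lit 114) (nat_lit 5) (nat_lit 11) (nat_lit 2) (nat_lit 1) (nat_lit 12) (nat_lit 6) (by decide +kernel)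
theorem L120335 : W_48 (nat_lit 3) (nat_lit 0x400000019000580028001800080008000000000000000) (nat_lit 0x0) (nat_lit 0x50000000000004000600000000000) := T_48 (nat_lit 62) (nat_lit 46) (nat_lit 6) (nat_lit 11) (nat_lit 6) L120334 (by decide +kernel)
theorem L120336 : W_48 (nat_lit 4) (nat_lit 0x400000009000580028001800080008000000000000000) (nat_lit 0x0) (nat_lit 0x200010000000050000000000004000600000000000) := T_48 (nat_lit 148) (nat_lit 165) (nat_lit 7) (nat_lit 11) (nat_lit 5) L120335 (by decide +kernel)
theorem L120337 : W_48 (nat_lit 5) (nat_lit 0x400000009000580028001800080000000000000000000) (nat_lit 0x0) (nat_lit 0x20001000000005000000010000c000600000000000) := T_48 (nat_lit 63) (nat_lit 80) (nat_lit 6) (nat_lit 11) (nat_lit 7) L120336 (by decide +kernel)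
theorem L120338 : W_48 (nat_lit 6) (nat_lit 0x400000009000580028001000080000000000000000000) (nat_lit 0x0) (nat_lit 0x20001000000005000080014000c000600000000000) := T_48 (nat_lit 95) (nat_lit 78) (nat_lit 4) (nat_lit 11) (nat_lit 8) L120337 (by decide +kernel)
theorem L120339 : W_48 (nat_lit 7) (nat_lit 0x9000580028001000080000000000000000000) (nat_lit 0x0) (nat_lit 0x40022001000000005000080014000c000600000000000) := T_48 (nat_lit 178) (nat_lit 161) (nat_lit 6) (nat_lit 8) (nat_lit 10) L120338 (by decide +kernel)
theorem L120340 : W_48 (nat_lit 8) (nat_lit 0x9000580028001000000000000000000000000) (nat_lit 0x0) (nat_lit 0x4002200100000000500008001c000e000700008000000) := Q_48 (nat_lit 79) (C_48 L120322 (C_48 L120327 (C_48 L120333 (C_48 L120339 N_48)))) (by decide +kernel)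
theorem L120341 : W_48 (nat_lit 9) (nat_lit 0x1000580028001000000000000000000000000) (nat_lit 0x0) (nat_lit 0x74003e001c8000000500008001c000e000700008000000) := Q_48 (nat_lit 147) (C_48 L120321 (C_48 L120178 (C_48 L120340 N_48))) (by decide +kernel)
theorem L120342 : W_48 (nat_lit 8) (nat_lit 0xd000580028003000000000000000000000000) (nat_lit 0x0) (nat_lit 0x1400cb000f8002c00000000000000) := T_48 (nat_lit 110) (nat_lit 112) (nat_lit 2) (nat_lit 8) (nat_lit 6) L117596 (by decide +kernel)
theorem L120343 : W_48 (nat_lit 9) (nat_lit 0xd000580028001000000000000000000000000) (nat_lit 0x0) (nat_lit 0x1400eb001f8002c00000000000000) := T_48 (nat_lit 97) (nat_lit 80) (nat_lit 6) (nat_lit 11) (nat_lit 8) L120342 (by decide +kernel)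
theorem L120344 : W_48 (nat_lit 10) (nat_lit 0x9000580028001000000000000000000000000) (nat_lit 0x0) (nat_lit 0x8000400000001400eb001f8002c00000000000000) := T_48 (nat_lit 146) (nat_lit 163) (nat_lit 5) (nat_lit 11) (nat_lit 5) L120343 (by decide +kernel)
theorem L120345 : W_48 (nat_lit 11) (nat_lit 0x1000580028001000000000000000000000000) (nat_lit 0x0) (nat_lit 0x74003e000c80000001400eb001f800ac00000000000000) := Q_48 (nat_lit 147) (C_48 L120305 (C_48 L120344 (C_48 L120178 N_48))) (by decide +kernel)
theorem L120346 : W_48 (nat_lit 12) (nat_lit 0x1000580028000000000000000000000000000) (nat_lit 0x0) (nat_lit 0x74003e001c80000005600fb801f800ec00700008000000) := Q_48 (nat_lit 96) (C_48 L120306 (C_48 L120309 (C_48 L120311 (C_48 L120319 (C_48 L120341 (C_48 L120345 N_48)))))) (by decide +kernel)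
theorem L120347 : W_48 (nat_lit 2) (nat_lit 0x100019000580028003000060000000000000000000) (nat_lit 0x0) (nat_lit 0x90002000000000000000) := D_48 (nat_lit 79) (nat_lit 61) (nat_lit 76) (nat_lit 4) (nat_lit 11) (nat_lit 7) (nat_lit 3) (nat_lit 8) (nat_lit 4) (by decide +kernel)
theorem L120348 : W_48 (nat_lit 3) (nat_lit 0x100019000580028003000020000000000000000000) (nat_lit 0x0) (nat_lit 0x8000d0002000000000000000) := T_48 (nat_lit 78) (nat_lit 95) (nat_lit 4) (nat_lit 11) (nat_lit 8) L120347 (by decide +kernel)
theorem L120349 : W_48 (nat_lit 4) (nat_lit 0x19000580028003000020000000000000000000) (nat_lit 0x0) (nat_lit 0x1000000000000400008000d0002000000000000000) := T_48 (nat_lit 164) (nat_lit 114) (nat_lit 6) (nat_lit 11) (nat_lit 9) L120348 (by decide +kernel)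
theorem L120350 : W_48 (nat_lit 5) (nat_lit 0x9000580028003000020000000000000000000) (nat_lit 0x0) (nat_lit 0x3000100000000400008000d0002000000000000000) := T_48 (nat_lit 148) (nat_lit 165) (nat_lit 7) (nat_lit 11) (nat_lit 5) L120349 (by decide +kernel)
theorem L120351 : W_48 (nat_lit 6) (nat_lit 0x9000580028001000020000000000000000000) (nat_lit 0x0) (nat_lit 0x3000100000000400028001d0002000000000000000) := T_48 (nat_lit 97) (nat_lit 80) (nat_lit 6) (nat_lit 11) (nat_lit 8) L120350 (by decide +kernel)
theorem L120352 : W_48 (nat_lit 7) (nat_lit 0x9000580028001000000000000000000000000) (nat_lit 0x0) (nat_lit 0x300010000000040002c001f0002000000000000000) := T_48 (nat_lit 77) (nat_lit 94) (nat_lit 5) (nat_lit 9) (nat_lit 4) L120351 (by decide +kernel)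
theorem L120353 : W_48 (nat_lit 2) (nat_lit 0x1d0005800280010001f0000800000000000000) (nat_lit 0x0) (nat_lit 0x4000300000000000000000000000) := D_48 (nat_lit 93) (nat_lit 92) (nat_lit 110) (nat_lit 1) (nat_lit 11) (nat_lit 4) (nat_lit 7) (nat_lit 8) (nat_lit 3) (by decide +kernel)
theorem L120354 : W_48 (nat_lit 3) (nat_lit 0x1d0005800280010001e0000800000000000000) (nat_lit 0x0) (nat_lit 0x4000300010000400000000000000) := T_48 (nat_lit 76) (nat_lit 58) (nat_lit 0) (nat_lit 11) (nat_lit 4) L120353 (by decide +kernel)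
theorem L120355 : W_48 (nat_lit 4) (nat_lit 0x1d0005800280010001e0000000000000000000) (nat_lit 0x0) (nat_lit 0x4000300010001c00000000000000) := T_48 (nat_lit 59) (nat_lit 60) (nat_lit 0) (nat_lit 12) (nat_lit 4) L120354 (by decide +kernel)
theorem L120356 : W_48 (nat_lit 5) (nat_lit 0x1d0005800280010001a0000000000000000000) (nat_lit 0x0) (nat_lit 0x4000300050003c00000000000000) := T_48 (nat_lit 78) (nat_lit 61) (nat_lit 4) (nat_lit 11) (nat_lit 7) L120355 (by decide +kernel)
theorem L120357 : W_48 (nat_lit 6) (nat_lit 0x1d000580028001000120000000000000000000) (nat_lit 0x0) (nat_lit 0x40003000d000bc00000000000000) := T_48 (nat_lit 79) (nat_lit 63) (nat_lit 6) (nat_lit 11) (nat_lit 7) L120356 (by decide +kernel)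
theorem L120358 : W_48 (nat_lit 7) (nat_lit 0x1d000580028001000020000000000000000000) (nat_lit 0x0) (nat_lit 0x40023001d000bc00000000000000) := T_48 (nat_lit 80) (nat_lit 97) (nat_lit 6) (nat_lit 11) (nat_lit 8) L120357 (by decide +kernel)
theorem L120359 : W_48 (nat_lit 8) (nat_lit 0xd000580028001000020000000000000000000) (nat_lit 0x0) (nat_lit 0x2000100000000040023001d000bc00000000000000) := T_48 (nat_lit 148) (nat_lit 165) (nat_lit 7) (nat_lit 11) (nat_lit 5) L120358 (by decide +kernel)
theorem L120360 : W_48 (nat_lit 9) (nat_lit 0xd000580028001000000000000000000000000) (nat_lit 0x0) (nat_lit 0x2000100000000040027001f000bc00000000000000) := T_48 (nat_lit 77) (nat_lit 94) (nat_lit 5) (nat_lit 9) (nat_lit 4) L120359 (by decide +kernel)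
theorem L120361 : W_48 (nat_lit 10) (nat_lit 0x9000580028001000000000000000000000000) (nat_lit 0x0) (nat_lit 0x2800140000000040027001f000bc00000000000000) := T_48 (nat_lit 146) (nat_lit 163) (nat_lit 5) (nat_lit 11) (nat_lit 5) L120360 (by decide +kernel)
theorem L120362 : W_48 (nat_lit 2) (nat_lit 0x10000d000580028003000000000000000000000000) (nat_lit 0x0) (nat_lit 0x4000200010000000000000000000000000000000000000) := D_48 (nat_lit 165) (nat_lit 148) (nat_lit 182) (nat_lit 7) (nat_lit 11) (nat_lit 5) (nat_lit 7) (nat_lit 11) (nat_lit 6) (by decide +kernel)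
theorem L120363 : W_48 (nat_lit 3) (nat_lit 0xd000580028003000000000000000000000000) (nat_lit 0x0) (nat_lit 0x4000300010000000040000000000000000000000000000) := T_48 (nat_lit 164) (nat_lit 114) (nat_lit 6) (nat_lit 11) (nat_lit 9) L120362 (by decide +kernel)
theorem L120364 : W_48 (nat_lit 4) (nat_lit 0x9000580028003000000000000000000000000) (nat_lit 0x0) (nat_lit 0x4000380014000000040000000000000000000000000000) := T_48 (nat_lit 146) (nat_lit 163) (nat_lit 5) (nat_lit 11) (nat_lit 5) L120363 (by decide +kernel)
theorem L120365 : W_48 (nat_lit 5) (nat_lit 0x9000580028001000000000000000000000000) (nat_lit 0x0) (nat_lit 0x4000380014000000040002000100000000000000000000) := T_48 (nat_lit 97) (nat_lit 80) (nat_lit 6) (nat_lit 11) (nat_lit 8) L120364 (by decide +kernel)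
theorem L120366 : W_48 (nat_lit 5) (nat_lit 0x1d0005800280010000e0000000000000000000) (nat_lit 0x0) (nat_lit 0x4000300110009c00000000000000) := T_48 (nat_lit 80) (nat_lit 63) (nat_lit 6) (nat_lit 11) (nat_lit 7) L120355 (by decide +kernel)
theorem L120367 : W_48 (nat_lit 6) (nat_lit 0x1d000580028001000060000000000000000000) (nat_lit 0x0) (nat_lit 0x400030019000bc00000000000000) := T_48 (nat_lit 79) (nat_lit 61) (nat_lit 4) (nat_lit 11) (nat_lit 7) L120366 (by decide +kernel)
theorem L120368 : W_48 (nat_lit 7) (nat_lit 0x1d000580028001000020000000000000000000) (nat_lit 0x0) (nat_lit 0x4000b001d000bc00000000000000) := T_48 (nat_lit 78) (nat_lit 95) (nat_lit 4) (nat_lit 11) (nat_lit 8) L120367 (by decide +kernel)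
theorem L120369 : W_48 (nat_lit 8) (nat_lit 0xd000580028001000020000000000000000000) (nat_lit 0x0) (nat_lit 0x200010000000004000b001d000bc00000000000000) := T_48 (nat_lit 148) (nat_lit 165) (nat_lit 7) (nat_lit 11) (nat_lit 5) L120368 (by decide +kernel)
theorem L120370 : W_48 (nat_lit 9) (nat_lit 0x9000580028001000020000000000000000000) (nat_lit 0x0) (nat_lit 0x280014000000004000b001d000bc00000000000000) := T_48 (nat_lit 146) (nat_lit 163) (nat_lit 5) (nat_lit 11) (nat_lit 5) L120369 (by decide +kernel)
theorem L120371 : W_48 (nat_lit 10) (nat_lit 0x9000580028001000000000000000000000000) (nat_lit 0x0) (nat_lit 0x280014000000004000f001f000bc00000000000000) := T_48 (nat_lit 77) (nat_lit 94) (nat_lit 5) (nat_lit 9) (nat_lit 4) L120370 (by decide +kernel)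
theorem L120372 : W_48 (nat_lit 2) (nat_lit 0x280009000580028001800020000000000000000000) (nat_lit 0x0) (nat_lit 0x5000100000000000000000000000000000000000000000) := D_48 (nat_lit 164) (nat_lit 180) (nat_lit 182) (nat_lit 5) (nat_lit 11) (nat_lit 6) (nat_lit 7) (nat_lit 11) (nat_lit 6) (by decide +kernel)
theorem L120373 : W_48 (nat_lit 3) (nat_lit 0x80009000580028001800020000000000000000000) (nat_lit 0x0) (nat_lit 0x5000300010000000000000000000000000000000000000) := T_48 (nat_lit 165) (nat_lit 148) (nat_lit 7) (nat_lit 11) (nat_lit 5) L120372 (by decide +kernel)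
theorem L120374 : W_48 (nat_lit 4) (nat_lit 0x9000580028001800020000000000000000000) (nat_lit 0x0) (nat_lit 0x5000380014000000000000000000000000000000000000) := T_48 (nat_lit 163) (nat_lit 146) (nat_lit 5) (nat_lit 11) (nat_lit 5) L120373 (by decide +kernel)
theorem L120375 : W_48 (nat_lit 5) (nat_lit 0x9000580028001800000000000000000000000) (nat_lit 0x0) (nat_lit 0x5000380014000000000000400020000000000000000000) := T_48 (nat_lit 77) (nat_lit 94) (nat_lit 5) (nat_lit 9) (nat_lit 4) L120374 (by decide +kernel)
theorem L120376 : W_48 (nat_lit 6) (nat_lit 0x9000580028001000000000000000000000000) (nat_lit 0x0) (nat_lit 0x5000380014000000000000c00060000000000000000000) := T_48 (nat_lit 95) (nat_lit 78) (nat_lit 4) (nat_lit 11) (nat_lit 8) L120375 (by decide +kernel)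
theorem L120377 : W_48 (nat_lit 11) (nat_lit 0x1000580028001000000000000000000000000) (nat_lit 0x0) (nat_lit 0x500038001c000000044002f001f000bc00000000000000) := Q_48 (nat_lit 147) (C_48 L120352 (C_48 L117629 (C_48 L120361 (C_48 L120365 (C_48 L120137 (C_48 L120371 (C_48 L120376 N_48))))))) (by decide +kernel)
theorem L120378 : W_48 (nat_lit 5) (nat_lit 0x1000580038001000020000000000000000000) (nat_lit 0x0) (nat_lit 0x78029c0000000000000000000000) := T_48 (nat_lit 110) (nat_lit 97) (nat_lit 2) (nat_lit 8) (nat_lit 6) L118875 (by decide +kernel)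
theorem L120379 : W_48 (nat_lit 6) (nat_lit 0x1000580028001000020000000000000000000) (nat_lit 0x0) (nat_lit 0x578029c0000000000000000000000) := T_48 (nat_lit 112) (nat_lit 114) (nat_lit 1) (nat_lit 12) (nat_lit 6) L120378 (by decide +kernel)
theorem L120380 : W_48 (nat_lit 7) (nat_lit 0x1000580028001000000000000000000000000) (nat_lit 0x0) (nat_lit 0x57802dc0020000000000000000000) := T_48 (nat_lit 77) (nat_lit 94) (nat_lit 5) (nat_lit 9) (nat_lit 4) L120379 (by decide +kernel)
theorem L120381 : W_48 (nat_lit 4) (nat_lit 0x1000580038001000020000000000000000000) (nat_lit 0x0) (nat_lit 0x4002300010001800000000000000) := T_48 (nat_lit 110) (nat_lit 97) (nat_lit 2) (nat_lit 8) (nat_lit 6) L117584 (by decide +kernel)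
theorem L120382 : W_48 (nat_lit 5) (nat_lit 0x1000580038001000000000000000000000000) (nat_lit 0x0) (nat_lit 0x4002700030001800000000000000) := T_48 (nat_lit 77) (nat_lit 94) (nat_lit 5) (nat_lit 9) (nat_lit 4) L120381 (by decide +kernel)
theorem L120383 : W_48 (nat_lit 6) (nat_lit 0x1000580028001000000000000000000000000) (nat_lit 0x0) (nat_lit 0x54002700030001800000000000000) := T_48 (nat_lit 112) (nat_lit 114) (nat_lit 1) (nat_lit 12) (nat_lit 6) L120382 (by decide +kernel)
theorem L120384 : W_48 (nat_lit 2) (nat_lit 0x280009000580168001c00000000000000000000000) (nat_lit 0x0) (nat_lit 0x5000100000000000000000000000000000000000000000) := D_48 (nat_lit 164) (nat_lit 180) (nat_lit 182) (nat_lit 5) (nat_lit 11) (nat_lit 6) (nat_lit 7) (nat_lit 11) (nat_lit 6) (by decide +kernel)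
theorem L120385 : W_48 (nat_lit 3) (nat_lit 0x80009000580168001c00000000000000000000000) (nat_lit 0x0) (nat_lit 0x5000300010000000000000000000000000000000000000) := T_48 (nat_lit 165) (nat_lit 148) (nat_lit 7) (nat_lit 11) (nat_lit 5) L120384 (by decide +kernel)
theorem L120386 : W_48 (nat_lit 4) (nat_lit 0x9000580168001c00000000000000000000000) (nat_lit 0x0) (nat_lit 0x5000380014000000000000000000000000000000000000) := T_48 (nat_lit 163) (nat_lit 146) (nat_lit 5) (nat_lit 11) (nat_lit 5) L120385 (by decide +kernel)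
theorem L120387 : W_48 (nat_lit 5) (nat_lit 0x1000580168001c00000000000000000000000) (nat_lit 0x0) (nat_lit 0x500038001c000000000000000040000000000000000000) := T_48 (nat_lit 147) (nat_lit 78) (nat_lit 4) (nat_lit 11) (nat_lit 8) L120386 (by decide +kernel)
theorem L120388 : W_48 (nat_lit 6) (nat_lit 0x1000580068001c00000000000000000000000) (nat_lit 0x0) (nat_lit 0x500038001c000000180000000040000000000000000000) := T_48 (nat_lit 116) (nat_lit 115) (nat_lit 0) (nat_lit 14) (nat_lit 6) L120387 (by decide +kernel)
theorem L120389 : W_48 (nat_lit 7) (nat_lit 0x1000580068001400000000000000000000000) (nat_lit 0x0) (nat_lit 0x500038001c000000180000a00040000000000000000000) := T_48 (nat_lit 95) (nat_lit 93) (nat_lit 3) (nat_lit 8) (nat_lit 5) L120388 (by decide +kernel)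
theorem L120390 : W_48 (nat_lit 8) (nat_lit 0x1000580068001000000000000000000000000) (nat_lit 0x0) (nat_lit 0x500038001c000000180000e00060000000000000000000) := T_48 (nat_lit 94) (nat_lit 77) (nat_lit 5) (nat_lit 9) (nat_lit 4) L120389 (by decide +kernel)
theorem L120391 : W_48 (nat_lit 9) (nat_lit 0x1000580028001000000000000000000000000) (nat_lit 0x0) (nat_lit 0x500038001c0000001d0000e00060000000000000000000) := T_48 (nat_lit 114) (nat_lit 112) (nat_lit 1) (nat_lit 12) (nat_lit 6) L120390 (by decide +kernel)
theorem L120392 : W_48 (nat_lit 2) (nat_lit 0xd00058002c003000000000000000000000000) (nat_lit 0x0) (nat_lit 0xc00040000000000000000000) := D_48 (nat_lit 95) (nat_lit 94) (nat_lit 78) (nat_lit 1) (nat_lit 12) (nat_lit 5) (nat_lit 4) (nat_lit 11) (nat_lit 8) (by decide +kernel)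
theorem L120393 : W_48 (nat_lit 3) (nat_lit 0xd000580028003000000000000000000000000) (nat_lit 0x0) (nat_lit 0x14000c00040000000000000000000) := T_48 (nat_lit 110) (nat_lit 112) (nat_lit 2) (nat_lit 8) (nat_lit 6) L120392 (by decide +kernel)
theorem L120394 : W_48 (nat_lit 4) (nat_lit 0xd000580028001000000000000000000000000) (nat_lit 0x0) (nat_lit 0x14002c00140000000000000000000) := T_48 (nat_lit 97) (nat_lit 80) (nat_lit 6) (nat_lit 11) (nat_lit 8) L120393 (by decide +kernel)
theorem L120395 : W_48 (nat_lit 5) (nat_lit 0x9000580028001000000000000000000000000) (nat_lit 0x0) (nat_lit 0x80004000000014002c00140000000000000000000) := T_48 (nat_lit 146) (nat_lit 163) (nat_lit 5) (nat_lit 11) (nat_lit 5) L120394 (by decide +kernel)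
theorem L120396 : W_48 (nat_lit 2) (nat_lit 0x1d00058002c003000000000000000000000000) (nat_lit 0x0) (nat_lit 0xc00020000000000000000000) := D_48 (nat_lit 94) (nat_lit 95) (nat_lit 77) (nat_lit 1) (nat_lit 12) (nat_lit 5) (nat_lit 5) (nat_lit 9) (nat_lit 4) (by decide +kernel)
theorem L120397 : W_48 (nat_lit 3) (nat_lit 0x1d000580028003000000000000000000000000) (nat_lit 0x0) (nat_lit 0x14000c00020000000000000000000) := T_48 (nat_lit 110) (nat_lit 112) (nat_lit 2) (nat_lit 8) (nat_lit 6) L120396 (by decide +kernel)
theorem L120398 : W_48 (nat_lit 4) (nat_lit 0x1d000580028001000000000000000000000000) (nat_lit 0x0) (nat_lit 0x14002c00120000000000000000000) := T_48 (nat_lit 97) (nat_lit 80) (nat_lit 6) (nat_lit 11) (nat_lit 8) L120397 (by decide +kernel)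
theorem L120399 : W_48 (nat_lit 5) (nat_lit 0x19000580028001000000000000000000000000) (nat_lit 0x0) (nat_lit 0x80004000000014002c00120000000000000000000) := T_48 (nat_lit 146) (nat_lit 163) (nat_lit 5) (nat_lit 11) (nat_lit 5) L120398 (by decide +kernel)
theorem L120400 : W_48 (nat_lit 6) (nat_lit 0x9000580028001000000000000000000000000) (nat_lit 0x0) (nat_lit 0x280014000000014002c00120000000000000000000) := T_48 (nat_lit 148) (nat_lit 165) (nat_lit 7) (nat_lit 11) (nat_lit 5) L120399 (by decide +kernel)
theorem L120401 : W_48 (nat_lit 11) (nat_lit 0x1000580028001000000000000000000000000) (nat_lit 0x0) (nat_lit 0x500038001c00000001400ef001f800bc00000000000000) := Q_48 (nat_lit 147) (C_48 L117730 (C_48 L120376 (C_48 L120344 (C_48 L120361 (C_48 L120395 (C_48 L120400 N_48)))))) (by decide +kernel)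
theorem L120402 : W_48 (nat_lit 12) (nat_lit 0x1000580028000000000000000000000000000) (nat_lit 0x0) (nat_lit 0x500038001c0000001d780ffc01f800bc00000000000000) := Q_48 (nat_lit 96) (C_48 L120377 (C_48 L120380 (C_48 L120311 (C_48 L117707 (C_48 L120383 (C_48 L120391 (C_48 L120401 N_48))))))) (by decide +kernel)
theorem L120403 : W_48 (nat_lit 3) (nat_lit 0x20001000580038000000000000000000000000000) (nat_lit 0x0) (nat_lit 0x6000700000000000000000000000) := T_48 (nat_lit 110) (nat_lit 94) (nat_lit 6) (nat_lit 8) (nat_lit 9) L120257 (by decide +kernel)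
theorem L120404 : W_48 (nat_lit 4) (nat_lit 0x20001000580028000000000000000000000000000) (nat_lit 0x0) (nat_lit 0x56000700000000000000000000000) := T_48 (nat_lit 112) (nat_lit 114) (nat_lit 1) (nat_lit 12) (nat_lit 6) L120403 (by decide +kernel)
theorem L120405 : W_48 (nat_lit 5) (nat_lit 0x1000580028000000000000000000000000000) (nat_lit 0x0) (nat_lit 0x400020000000000056000700000000000000000000000) := T_48 (nat_lit 161) (nat_lit 178) (nat_lit 6) (nat_lit 8) (nat_lit 10) L120404 (by decide +kernel)
theorem L120406 : W_48 (nat_lit 15) (nat_lit 0x1000580020000000000000000000000000000) (nat_lit 0x0) (nat_lit 0x20007c003e001c8000001df80ffc01f800fe00700008000000) := Q_48 (nat_lit 111) (C_48 L120298 (C_48 L118816 (C_48 L117743 (C_48 L120346 (C_48 L120402 (C_48 L120405 N_48)))))) (by decide +kernel)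
theorem L120407 : W_48 (nat_lit 6) (nat_lit 0x1000580028001000000000000000000000000) (nat_lit 0x0) (nat_lit 0x100008000400064001f000e000500000000000) := Q_48 (nat_lit 79) (C_48 L119633 (C_48 L117670 (C_48 L117650 N_48))) (by decide +kernel)
theorem L120408 : W_48 (nat_lit 2) (nat_lit 0x4000000010005800680010001c0004000600010000000) (nat_lit 0x0) (nat_lit 0x100008000400) := D_48 (nat_lit 27) (nat_lit 10) (nat_lit 44) (nat_lit 4) (nat_lit 11) (nat_lit 4) (nat_lit 4) (nat_lit 11) (nat_lit 5) (by decide +kernel)
theorem L120409 : W_48 (nat_lit 3) (nat_lit 0x4000000010005800680010001c0004000600000000000) (nat_lit 0x0) (nat_lit 0x800000000000100018000400) := T_48 (nat_lit 28) (nat_lit 95) (nat_lit 5) (nat_lit 11) (nat_lit 1) L120408 (by decide +kernel)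
theorem L120410 : W_48 (nat_lit 4) (nat_lit 0x4000000010005800680010001c0004000200000000000) (nat_lit 0x0) (nat_lit 0x800000000000500038000400) := T_48 (nat_lit 46) (nat_lit 29) (nat_lit 6) (nat_lit 11) (nat_lit 5) L120409 (by decide +kernel)
theorem L120411 : W_48 (nat_lit 5) (nat_lit 0x4000000010005800680010001c0004000000000000000) (nat_lit 0x0) (nat_lit 0x2800000000000700038000400) := T_48 (nat_lit 45) (nat_lit 97) (nat_lit 7) (nat_lit 11) (nat_lit 2) L120410 (by decide +kernel)
theorem L120412 : W_48 (nat_lit 6) (nat_lit 0x4000000010005800680010001c0000000000000000000) (nat_lit 0x0) (nat_lit 0x800000002800000004000700038000400) := T_48 (nat_lit 62) (nat_lit 131) (nat_lit 7) (nat_lit 11) (nat_lit 3) L120411 (by decide +kernel)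
theorem L120413 : W_48 (nat_lit 7) (nat_lit 0x4000000010005800280010001c0000000000000000000) (nat_lit 0x0) (nat_lit 0x800050002800000004000700038000400) := T_48 (nat_lit 114) (nat_lit 112) (nat_lit 1) (nat_lit 12) (nat_lit 6) L120412 (by decide +kernel)
theorem L120414 : W_48 (nat_lit 8) (nat_lit 0x400000001000580028001000180000000000000000000) (nat_lit 0x0) (nat_lit 0x800050002800040006000700038000400) := T_48 (nat_lit 78) (nat_lit 61) (nat_lit 4) (nat_lit 11) (nat_lit 7) L120413 (by decide +kernel)
theorem L120415 : W_48 (nat_lit 9) (nat_lit 0x400000001000580028001000080000000000000000000) (nat_lit 0x0) (nat_lit 0x80005000280014000e000700038000400) := T_48 (nat_lit 80) (nat_lit 63) (nat_lit 6) (nat_lit 11) (nat_lit 7) L120414 (by decide +kernel)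
theorem L120416 : W_48 (nat_lit 10) (nat_lit 0x1000580028001000080000000000000000000) (nat_lit 0x0) (nat_lit 0x40002000000080005000280014000e000700038000400) := T_48 (nat_lit 178) (nat_lit 161) (nat_lit 6) (nat_lit 8) (nat_lit 10) L120415 (by decide +kernel)
theorem L120417 : W_48 (nat_lit 2) (nat_lit 0x4000000010005800680010000d000c000200010000000) (nat_lit 0x0) (nat_lit 0x100008000400) := D_48 (nat_lit 27) (nat_lit 10) (nat_lit 44) (nat_lit 4) (nat_lit 11) (nat_lit 4) (nat_lit 4) (nat_lit 11) (nat_lit 5) (by decide +kernel)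
theorem L120418 : W_48 (nat_lit 3) (nat_lit 0x4000000010005800680010000d000c000200000000000) (nat_lit 0x0) (nat_lit 0x800000000000100018000400) := T_48 (nat_lit 28) (nat_lit 95) (nat_lit 5) (nat_lit 11) (nat_lit 1) L120417 (by decide +kernel)
theorem L120419 : W_48 (nat_lit 4) (nat_lit 0x4000000010005800680010000d000c000000000000000) (nat_lit 0x0) (nat_lit 0x2800000000000300018000400) := T_48 (nat_lit 45) (nat_lit 97) (nat_lit 7) (nat_lit 11) (nat_lit 2) L120418 (by decide +kernel)
theorem L120420 : W_48 (nat_lit 5) (nat_lit 0x4000000010005800680010000c000c000000000000000) (nat_lit 0x0) (nat_lit 0x2800030000000300018000400) := T_48 (nat_lit 76) (nat_lit 77) (nat_lit 2) (nat_lit 8) (nat_lit 4) L120419 (by decide +kernel)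
theorem L120421 : W_48 (nat_lit 6) (nat_lit 0x4000000010005800680010000c0008000000000000000) (nat_lit 0x0) (nat_lit 0x2800030004000700018000400) := T_48 (nat_lit 62) (nat_lit 46) (nat_lit 6) (nat_lit 11) (nat_lit 6) L120420 (by decide +kernel)
theorem L120422 : W_48 (nat_lit 7) (nat_lit 0x400000001000580068001000080008000000000000000) (nat_lit 0x0) (nat_lit 0x2800070006000700018000400) := T_48 (nat_lit 78) (nat_lit 61) (nat_lit 4) (nat_lit 11) (nat_lit 7) L120421 (by decide +kernel)
theorem L120423 : W_48 (nat_lit 8) (nat_lit 0x400000001000580068001000080000000000000000000) (nat_lit 0x0) (nat_lit 0x280017000e000700018000400) := T_48 (nat_lit 63) (nat_lit 80) (nat_lit 6) (nat_lit 11) (nat_lit 7) L120422 (by decide +kernel)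
theorem L120424 : W_48 (nat_lit 9) (nat_lit 0x1000580068001000080000000000000000000) (nat_lit 0x0) (nat_lit 0x40002000000000000000280017000e000700018000400) := T_48 (nat_lit 178) (nat_lit 161) (nat_lit 6) (nat_lit 8) (nat_lit 10) L120423 (by decide +kernel)
theorem L120425 : W_48 (nat_lit 10) (nat_lit 0x1000580028001000080000000000000000000) (nat_lit 0x0) (nat_lit 0x40002000000000005000280017000e000700018000400) := T_48 (nat_lit 114) (nat_lit 112) (nat_lit 1) (nat_lit 12) (nat_lit 6) L120424 (by decide +kernel)
theorem L120426 : W_48 (nat_lit 2) (nat_lit 0x1000d80028001000080006000000000000000) (nat_lit 0x0) (nat_lit 0x100008000400000000000) := D_48 (nat_lit 63) (nat_lit 80) (nat_lit 46) (nat_lit 6) (nat_lit 11) (nat_lit 7) (nat_lit 6) (nat_lit 11) (nat_lit 6) (by decide +kernel)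
theorem L120427 : W_48 (nat_lit 3) (nat_lit 0x1000d80028001000080002000000000000000) (nat_lit 0x0) (nat_lit 0x10000c000500000000000) := T_48 (nat_lit 62) (nat_lit 44) (nat_lit 4) (nat_lit 11) (nat_lit 6) L120426 (by decide +kernel)
theorem L120428 : W_48 (nat_lit 4) (nat_lit 0x1000580028001000080002000000000000000) (nat_lit 0x0) (nat_lit 0x1000080000000000010000c000500000000000) := T_48 (nat_lit 131) (nat_lit 148) (nat_lit 7) (nat_lit 11) (nat_lit 4) L120427 (by decide +kernel)
theorem L120429 : W_48 (nat_lit 5) (nat_lit 0x1000580028001000080000000000000000000) (nat_lit 0x0) (nat_lit 0x1000080000000000014000e000500000000000) := T_48 (nat_lit 61) (nat_lit 78) (nat_lit 4) (nat_lit 11) (nat_lit 7) L120428 (by decide +kernel)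
theorem L120430 : W_48 (nat_lit 2) (nat_lit 0x400000001005d8006800b0003d0000000000000000000) (nat_lit 0x0) (nat_lit 0x10800400000000000000000000) := D_48 (nat_lit 82) (nat_lit 100) (nat_lit 95) (nat_lit 3) (nat_lit 11) (nat_lit 4) (nat_lit 1) (nat_lit 14) (nat_lit 4) (by decide +kernel)
theorem L120431 : W_48 (nat_lit 3) (nat_lit 0x400000001005d8006800b0001d0000000000000000000) (nat_lit 0x0) (nat_lit 0x10800600010000000000000000) := T_48 (nat_lit 81) (nat_lit 64) (nat_lit 6) (nat_lit 12) (nat_lit 7) L120430 (by decide +kernel)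
theorem L120432 : W_48 (nat_lit 4) (nat_lit 0x400000001001d8006800b0001d0000000000000000000) (nat_lit 0x0) (nat_lit 0x6000000010800600010000000000000000) := T_48 (nat_lit 134) (nat_lit 133) (nat_lit 0) (nat_lit 15) (nat_lit 7) L120431 (by decide +kernel)
theorem L120433 : W_48 (nat_lit 5) (nat_lit 0x400000001000d8006800b0001d0000000000000000000) (nat_lit 0x0) (nat_lit 0x20007000000010800600010000000000000000) := T_48 (nat_lit 132) (nat_lit 149) (nat_lit 7) (nat_lit 12) (nat_lit 4) L120432 (by decide +kernel)
theorem L120434 : W_48 (nat_lit 6) (nat_lit 0x400000001000d8006800b0000d0000000000000000000) (nat_lit 0x0) (nat_lit 0x20007000000010800700018000000000000000) := T_48 (nat_lit 80) (nat_lit 63) (nat_lit 6) (nat_lit 11) (nat_lit 7) L120433 (by decide +kernel)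
theorem L120435 : W_48 (nat_lit 7) (nat_lit 0x40000000100058006800b0000d0000000000000000000) (nat_lit 0x0) (nat_lit 0x30007800000010800700018000000000000000) := T_48 (nat_lit 131) (nat_lit 148) (nat_lit 7) (nat_lit 11) (nat_lit 4) L120434 (by decide +kernel)
theorem L120436 : W_48 (nat_lit 8) (nat_lit 0x4000000010005800680030000d0000000000000000000) (nat_lit 0x0) (nat_lit 0x3000780000001c800700018000000000000000) := T_48 (nat_lit 99) (nat_lit 98) (nat_lit 0) (nat_lit 14) (nat_lit 5) L120435 (by decide +kernel)
theorem L120437 : W_48 (nat_lit 9) (nat_lit 0x4000000010005800680030000c0000000000000000000) (nat_lit 0x0) (nat_lit 0x3000780000001c800730018000000000000000) := T_48 (nat_lit 76) (nat_lit 77) (nat_lit 3) (nat_lit 8) (nat_lit 4) L120436 (by decide +kernel)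
theorem L120438 : W_48 (nat_lit 10) (nat_lit 0x400000001000580068003000080000000000000000000) (nat_lit 0x0) (nat_lit 0x3000780000001c80077001a000000000000000) := T_48 (nat_lit 78) (nat_lit 61) (nat_lit 4) (nat_lit 11) (nat_lit 7) L120437 (by decide +kernel)
theorem L120439 : W_48 (nat_lit 11) (nat_lit 0x400000001000580028003000080000000000000000000) (nat_lit 0x0) (nat_lit 0x3000780005001c80077001a000000000000000) := T_48 (nat_lit 114) (nat_lit 112) (nat_lit 1) (nat_lit 12) (nat_lit 6) L120438 (by decide +kernel)
theorem L120440 : W_48 (nat_lit 12) (nat_lit 0x1000580028003000080000000000000000000) (nat_lit 0x0) (nat_lit 0x40002003000780005001c80077001a000000000000000) := T_48 (nat_lit 178) (nat_lit 161) (nat_lit 6) (nat_lit 8) (nat_lit 10) L120439 (by decide +kernel)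
theorem L120441 : W_48 (nat_lit 2) (nat_lit 0x1000d800680030001c0000000000000000000) (nat_lit 0x0) (nat_lit 0x4000030000000000000000000) := D_48 (nat_lit 77) (nat_lit 98) (nat_lit 76) (nat_lit 3) (nat_lit 9) (nat_lit 4) (nat_lit 3) (nat_lit 8) (nat_lit 4) (by decide +kernel)
theorem L120442 : W_48 (nat_lit 3) (nat_lit 0x1000d80068003000180000000000000000000) (nat_lit 0x0) (nat_lit 0x4000070002000000000000000) := T_48 (nat_lit 78) (nat_lit 61) (nat_lit 4) (nat_lit 11) (nat_lit 7) L120441 (by decide +kernel)
theorem L120443 : W_48 (nat_lit 4) (nat_lit 0x1000d80028003000180000000000000000000) (nat_lit 0x0) (nat_lit 0x50004000070002000000000000000) := T_48 (nat_lit 114) (nat_lit 112) (nat_lit 1) (nat_lit 12) (nat_lit 6) L120442 (by decide +kernel)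
theorem L120444 : W_48 (nat_lit 5) (nat_lit 0x1000580028003000180000000000000000000) (nat_lit 0x0) (nat_lit 0x10000800050004000070002000000000000000) := T_48 (nat_lit 131) (nat_lit 148) (nat_lit 7) (nat_lit 11) (nat_lit 4) L120443 (by decide +kernel)
theorem L120445 : W_48 (nat_lit 6) (nat_lit 0x1000580028003000080000000000000000000) (nat_lit 0x0) (nat_lit 0x1000080005000400017000a000000000000000) := T_48 (nat_lit 80) (nat_lit 63) (nat_lit 6) (nat_lit 11) (nat_lit 7) L120444 (by decide +kernel)
theorem L120446 : W_48 (nat_lit 2) (nat_lit 0x400000001000d800280030001c0000000000000000000) (nat_lit 0x0) (nat_lit 0x4000030000000000000000000) := D_48 (nat_lit 77) (nat_lit 98) (nat_lit 76) (nat_lit 3) (nat_lit 9) (nat_lit 4) (nat_lit 3) (nat_lit 8) (nat_lit 4) (by decide +kernel)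
theorem L120447 : W_48 (nat_lit 3) (nat_lit 0x400000001000d80028003000180000000000000000000) (nat_lit 0x0) (nat_lit 0x4000070002000000000000000) := T_48 (nat_lit 78) (nat_lit 61) (nat_lit 4) (nat_lit 11) (nat_lit 7) L120446 (by decide +kernel)
theorem L120448 : W_48 (nat_lit 4) (nat_lit 0x400000001000580028003000180000000000000000000) (nat_lit 0x0) (nat_lit 0x10000800000004000070002000000000000000) := T_48 (nat_lit 131) (nat_lit 148) (nat_lit 7) (nat_lit 11) (nat_lit 4) L120447 (by decide +kernel)
theorem L120449 : W_48 (nat_lit 5) (nat_lit 0x400000001000580028003000080000000000000000000) (nat_lit 0x0) (nat_lit 0x1000080000000400017000a000000000000000) := T_48 (nat_lit 80) (nat_lit 63) (nat_lit 6) (nat_lit 11) (nat_lit 7) L120448 (by decide +kernel)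
theorem L120450 : W_48 (nat_lit 6) (nat_lit 0x1000580028003000080000000000000000000) (nat_lit 0x0) (nat_lit 0x40002001000080000000400017000a000000000000000) := T_48 (nat_lit 178) (nat_lit 161) (nat_lit 6) (nat_lit 8) (nat_lit 10) L120449 (by decide +kernel)
theorem L120451 : W_48 (nat_lit 2) (nat_lit 0x400000001000d8006800b0003c0000000000000000000) (nat_lit 0x0) (nat_lit 0x10800400000000000000000000) := D_48 (nat_lit 82) (nat_lit 100) (nat_lit 95) (nat_lit 3) (nat_lit 11) (nat_lit 4) (nat_lit 1) (nat_lit 14) (nat_lit 4) (by decide +kernel)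
theorem L120452 : W_48 (nat_lit 3) (nat_lit 0x400000001000d8006800b0001c0000000000000000000) (nat_lit 0x0) (nat_lit 0x10800600010000000000000000) := T_48 (nat_lit 81) (nat_lit 64) (nat_lit 6) (nat_lit 12) (nat_lit 7) L120451 (by decide +kernel)
theorem L120453 : W_48 (nat_lit 4) (nat_lit 0x40000000100058006800b0001c0000000000000000000) (nat_lit 0x0) (nat_lit 0x10000800000010800600010000000000000000) := T_48 (nat_lit 131) (nat_lit 148) (nat_lit 7) (nat_lit 11) (nat_lit 4) L120452 (by decide +kernel)
theorem L120454 : W_48 (nat_lit 5) (nat_lit 0x40000000100058006800b0000c0000000000000000000) (nat_lit 0x0) (nat_lit 0x10000800000010800700018000000000000000) := T_48 (nat_lit 80) (nat_lit 63) (nat_lit 6) (nat_lit 11) (nat_lit 7) L120453 (by decide +kernel)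
theorem L120455 : W_48 (nat_lit 6) (nat_lit 0x100058006800b0000c0000000000000000000) (nat_lit 0x0) (nat_lit 0x400020010000800000010800700018000000000000000) := T_48 (nat_lit 178) (nat_lit 161) (nat_lit 6) (nat_lit 8) (nat_lit 10) L120454 (by decide +kernel)
theorem L120456 : W_48 (nat_lit 7) (nat_lit 0x100058002800b0000c0000000000000000000) (nat_lit 0x0) (nat_lit 0x400020010000800050010800700018000000000000000) := T_48 (nat_lit 114) (nat_lit 112) (nat_lit 1) (nat_lit 12) (nat_lit 6) L120455 (by decide +kernel)
theorem L120457 : W_48 (nat_lit 8) (nat_lit 0x10005800280030000c0000000000000000000) (nat_lit 0x0) (nat_lit 0x40002001000080005001c800700018000000000000000) := T_48 (nat_lit 99) (nat_lit 98) (nat_lit 0) (nat_lit 14) (nat_lit 5) L120456 (by decide +kernel)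
theorem L120458 : W_48 (nat_lit 9) (nat_lit 0x1000580028003000080000000000000000000) (nat_lit 0x0) (nat_lit 0x40002001000080005001c80074001a000000000000000) := T_48 (nat_lit 78) (nat_lit 61) (nat_lit 4) (nat_lit 11) (nat_lit 7) L120457 (by decide +kernel)
theorem L120459 : W_48 (nat_lit 2) (nat_lit 0x400000001005d80068003000380000000000000000000) (nat_lit 0x0) (nat_lit 0x800c00000000000000000000) := D_48 (nat_lit 82) (nat_lit 83) (nat_lit 95) (nat_lit 1) (nat_lit 15) (nat_lit 4) (nat_lit 1) (nat_lit 14) (nat_lit 4) (by decide +kernel)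
theorem L120460 : W_48 (nat_lit 3) (nat_lit 0x400000001005d80068003000180000000000000000000) (nat_lit 0x0) (nat_lit 0x800e00010000000000000000) := T_48 (nat_lit 81) (nat_lit 64) (nat_lit 6) (nat_lit 12) (nat_lit 7) L120459 (by decide +kernel)
theorem L120461 : W_48 (nat_lit 4) (nat_lit 0x400000001001d80068003000180000000000000000000) (nat_lit 0x0) (nat_lit 0x6000000000800e00010000000000000000) := T_48 (nat_lit 134) (nat_lit 133) (nat_lit 0) (nat_lit 15) (nat_lit 7) L120460 (by decide +kernel)
theorem L120462 : W_48 (nat_lit 5) (nat_lit 0x400000001000d80068003000180000000000000000000) (nat_lit 0x0) (nat_lit 0x20007000000000800e00010000000000000000) := T_48 (nat_lit 132) (nat_lit 149) (nat_lit 7) (nat_lit 12) (nat_lit 4) L120461 (by decide +kernel)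
theorem L120463 : W_48 (nat_lit 6) (nat_lit 0x400000001000d80028003000180000000000000000000) (nat_lit 0x0) (nat_lit 0x20007000050000800e00010000000000000000) := T_48 (nat_lit 114) (nat_lit 112) (nat_lit 1) (nat_lit 12) (nat_lit 6) L120462 (by decide +kernel)
theorem L120464 : W_48 (nat_lit 7) (nat_lit 0x1000d80028003000180000000000000000000) (nat_lit 0x0) (nat_lit 0x400020020007000050000800e00010000000000000000) := T_48 (nat_lit 178) (nat_lit 161) (nat_lit 6) (nat_lit 8) (nat_lit 10) L120463 (by decide +kernel)
theorem L120465 : W_48 (nat_lit 8) (nat_lit 0x1000d80028003000080000000000000000000) (nat_lit 0x0) (nat_lit 0x400020020007000050000800f00018000000000000000) := T_48 (nat_lit 80) (nat_lit 63) (nat_lit 6) (nat_lit 11) (nat_lit 7) L120464 (by decide +kernel)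
theorem L120466 : W_48 (nat_lit 9) (nat_lit 0x1000580028003000080000000000000000000) (nat_lit 0x0) (nat_lit 0x400020030007800050000800f00018000000000000000) := T_48 (nat_lit 131) (nat_lit 148) (nat_lit 7) (nat_lit 11) (nat_lit 4) L120465 (by decide +kernel)
theorem L120467 : W_48 (nat_lit 2) (nat_lit 0x10005800680030000e0000000000000000000) (nat_lit 0x0) (nat_lit 0xc800000000000000000000000) := D_48 (nat_lit 98) (nat_lit 99) (nat_lit 95) (nat_lit 0) (nat_lit 14) (nat_lit 5) (nat_lit 0) (nat_lit 13) (nat_lit 5) (by decide +kernel)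
theorem L120468 : W_48 (nat_lit 3) (nat_lit 0x10005800680030000c0000000000000000000) (nat_lit 0x0) (nat_lit 0xc800030000000000000000000) := T_48 (nat_lit 77) (nat_lit 76) (nat_lit 3) (nat_lit 8) (nat_lit 4) L120467 (by decide +kernel)
theorem L120469 : W_48 (nat_lit 4) (nat_lit 0x1000580068003000080000000000000000000) (nat_lit 0x0) (nat_lit 0xc800070002000000000000000) := T_48 (nat_lit 78) (nat_lit 61) (nat_lit 4) (nat_lit 11) (nat_lit 7) L120468 (by decide +kernel)
theorem L120470 : W_48 (nat_lit 5) (nat_lit 0x1000580028003000080000000000000000000) (nat_lit 0x0) (nat_lit 0x5000c800070002000000000000000) := T_48 (nat_lit 114) (nat_lit 112) (nat_lit 1) (nat_lit 12) (nat_lit 6) L120469 (by decide +kernel)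
theorem L120471 : W_48 (nat_lit 13) (nat_lit 0x1000580028001000080000000000000000000) (nat_lit 0x0) (nat_lit 0x40002003000780005001e800f7001a000000000000000) := Q_48 (nat_lit 97) (C_48 L120440 (C_48 L120445 (C_48 L120450 (C_48 L120458 (C_48 L120466 (C_48 L120470 N_48)))))) (by decide +kernel)
theorem L120472 : W_48 (nat_lit 14) (nat_lit 0x1000580028001000000000000000000000000) (nat_lit 0x0) (nat_lit 0x40002003000780005001e800ff001e000700038000400) := Q_48 (nat_lit 79) (C_48 L119603 (C_48 L117670 (C_48 L120416 (C_48 L120425 (C_48 L120429 (C_48 L120471 N_48)))))) (by decide +kernel)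
theorem L120473 : W_48 (nat_lit 2) (nat_lit 0x400000001000580038001000580006800200010000000) (nat_lit 0x0) (nat_lit 0x400020001000) := D_48 (nat_lit 29) (nat_lit 12) (nat_lit 46) (nat_lit 6) (nat_lit 11) (nat_lit 4) (nat_lit 6) (nat_lit 11) (nat_lit 5) (by decide +kernel)
theorem L120474 : W_48 (nat_lit 3) (nat_lit 0x400000001000580038001000580006800200000000000) (nat_lit 0x0) (nat_lit 0x2000000000000400030001000) := T_48 (nat_lit 28) (nat_lit 97) (nat_lit 7) (nat_lit 11) (nat_lit 1) L120473 (by decide +kernel)
theorem L120475 : W_48 (nat_lit 4) (nat_lit 0x400000001000580038001000180006800200000000000) (nat_lit 0x0) (nat_lit 0x2000600000000400030001000) := T_48 (nat_lit 82) (nat_lit 81) (nat_lit 0) (nat_lit 14) (nat_lit 4) L120474 (by decide +kernel)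
theorem L120476 : W_48 (nat_lit 5) (nat_lit 0x400000001000580038001000180006800000000000000) (nat_lit 0x0) (nat_lit 0x2800600000000600030001000) := T_48 (nat_lit 45) (nat_lit 95) (nat_lit 5) (nat_lit 11) (nat_lit 2) L120475 (by decide +kernel)
theorem L120477 : W_48 (nat_lit 6) (nat_lit 0x400000001000580038001000180006000000000000000) (nat_lit 0x0) (nat_lit 0x2800600001800600030001000) := T_48 (nat_lit 59) (nat_lit 60) (nat_lit 3) (nat_lit 8) (nat_lit 3) L120476 (by decide +kernel)
theorem L120478 : W_48 (nat_lit 7) (nat_lit 0x400000001000580038001000180002000000000000000) (nat_lit 0x0) (nat_lit 0x2800600005800700030001000) := T_48 (nat_lit 62) (nat_lit 44) (nat_lit 4) (nat_lit 11) (nat_lit 6) L120477 (by decide +kernel)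
theorem L120479 : W_48 (nat_lit 8) (nat_lit 0x400000001000580028001000180002000000000000000) (nat_lit 0x0) (nat_lit 0x50002800600005800700030001000) := T_48 (nat_lit 112) (nat_lit 114) (nat_lit 1) (nat_lit 12) (nat_lit 6) L120478 (by decide +kernel)
theorem L120480 : W_48 (nat_lit 9) (nat_lit 0x400000001000580028001000180000000000000000000) (nat_lit 0x0) (nat_lit 0x50002800640007800700030001000) := T_48 (nat_lit 61) (nat_lit 78) (nat_lit 4) (nat_lit 11) (nat_lit 7) L120479 (by decide +kernel)
theorem L120481 : W_48 (nat_lit 10) (nat_lit 0x400000001000580028001000080000000000000000000) (nat_lit 0x0) (nat_lit 0x5000280074000f800700030001000) := T_48 (nat_lit 80) (nat_lit 63) (nat_lit 6) (nat_lit 11) (nat_lit 7) L120480 (by decide +kernel)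
theorem L120482 : W_48 (nat_lit 11) (nat_lit 0x1000580028001000080000000000000000000) (nat_lit 0x0) (nat_lit 0x40002000000000005000280074000f800700030001000) := T_48 (nat_lit 178) (nat_lit 161) (nat_lit 6) (nat_lit 8) (nat_lit 10) L120481 (by decide +kernel)
theorem L120483 : W_48 (nat_lit 2) (nat_lit 0x400000001000d80168001a003c0000000000000000000) (nat_lit 0x0) (nat_lit 0x2000000030000000000000000) := D_48 (nat_lit 64) (nat_lit 97) (nat_lit 65) (nat_lit 6) (nat_lit 12) (nat_lit 7) (nat_lit 2) (nat_lit 10) (nat_lit 4) (by decide +kernel)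
theorem L120484 : W_48 (nat_lit 3) (nat_lit 0x400000001000d80168001a00380000000000000000000) (nat_lit 0x0) (nat_lit 0x2000040032000000000000000) := T_48 (nat_lit 78) (nat_lit 61) (nat_lit 4) (nat_lit 11) (nat_lit 7) L120483 (by decide +kernel)
theorem L120485 : W_48 (nat_lit 4) (nat_lit 0x400000001000d80168001a00180000000000000000000) (nat_lit 0x0) (nat_lit 0x2000640032000000000000000) := T_48 (nat_lit 81) (nat_lit 82) (nat_lit 1) (nat_lit 14) (nat_lit 4) L120484 (by decide +kernel)
theorem L120486 : W_48 (nat_lit 5) (nat_lit 0x400000001000d80168001a00080000000000000000000) (nat_lit 0x0) (nat_lit 0x200074003a000000000000000) := T_48 (nat_lit 80) (nat_lit 63) (nat_lit 6) (nat_lit 11) (nat_lit 7) L120485 (by decide +kernel)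
theorem L120487 : W_48 (nat_lit 6) (nat_lit 0x1000d80168001a00080000000000000000000) (nat_lit 0x0) (nat_lit 0x40002000000000000000200074003a000000000000000) := T_48 (nat_lit 178) (nat_lit 161) (nat_lit 6) (nat_lit 8) (nat_lit 10) L120486 (by decide +kernel)
theorem L120488 : W_48 (nat_lit 7) (nat_lit 0x1000580168001a00080000000000000000000) (nat_lit 0x0) (nat_lit 0x40002001000080000000200074003a000000000000000) := T_48 (nat_lit 131) (nat_lit 148) (nat_lit 7) (nat_lit 11) (nat_lit 4) L120487 (by decide +kernel)
theorem L120489 : W_48 (nat_lit 8) (nat_lit 0x1000580168001800080000000000000000000) (nat_lit 0x0) (nat_lit 0x40002001000080000000260074003a000000000000000) := T_48 (nat_lit 93) (nat_lit 94) (nat_lit 3) (nat_lit 8) (nat_lit 5) L120488 (by decide +kernel)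
theorem L120490 : W_48 (nat_lit 9) (nat_lit 0x1000580068001800080000000000000000000) (nat_lit 0x0) (nat_lit 0x40002001000080018000260074003a000000000000000) := T_48 (nat_lit 116) (nat_lit 115) (nat_lit 0) (nat_lit 14) (nat_lit 6) L120489 (by decide +kernel)
theorem L120491 : W_48 (nat_lit 10) (nat_lit 0x1000580028001800080000000000000000000) (nat_lit 0x0) (nat_lit 0x4000200100008001d000260074003a000000000000000) := T_48 (nat_lit 114) (nat_lit 112) (nat_lit 1) (nat_lit 12) (nat_lit 6) L120490 (by decide +kernel)
theorem L120492 : W_48 (nat_lit 2) (nat_lit 0x400000001000d801680018001c0000000000000000000) (nat_lit 0x0) (nat_lit 0x400600000000000000000000) := D_48 (nat_lit 81) (nat_lit 82) (nat_lit 94) (nat_lit 1) (nat_lit 14) (nat_lit 4) (nat_lit 1) (nat_lit 13) (nat_lit 4) (by decide +kernel)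
theorem L120493 : W_48 (nat_lit 3) (nat_lit 0x400000001000d801680018000c0000000000000000000) (nat_lit 0x0) (nat_lit 0x400700008000000000000000) := T_48 (nat_lit 80) (nat_lit 63) (nat_lit 6) (nat_lit 11) (nat_lit 7) L120492 (by decide +kernel)
theorem L120494 : W_48 (nat_lit 4) (nat_lit 0x1000d801680018000c0000000000000000000) (nat_lit 0x0) (nat_lit 0x400020000000000000000400700008000000000000000) := T_48 (nat_lit 178) (nat_lit 161) (nat_lit 6) (nat_lit 8) (nat_lit 10) L120493 (by decide +kernel)
theorem L120495 : W_48 (nat_lit 5) (nat_lit 0x10005801680018000c0000000000000000000) (nat_lit 0x0) (nat_lit 0x400020010000800000000400700008000000000000000) := T_48 (nat_lit 131) (nat_lit 148) (nat_lit 7) (nat_lit 11) (nat_lit 4) L120494 (by decide +kernel)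
theorem L120496 : W_48 (nat_lit 6) (nat_lit 0x10005800680018000c0000000000000000000) (nat_lit 0x0) (nat_lit 0x400020010000800180000400700008000000000000000) := T_48 (nat_lit 116) (nat_lit 115) (nat_lit 0) (nat_lit 14) (nat_lit 6) L120495 (by decide +kernel)
theorem L120497 : W_48 (nat_lit 7) (nat_lit 0x10005800280018000c0000000000000000000) (nat_lit 0x0) (nat_lit 0x4000200100008001d0000400700008000000000000000) := T_48 (nat_lit 114) (nat_lit 112) (nat_lit 1) (nat_lit 12) (nat_lit 6) L120496 (by decide +kernel)
theorem L120498 : W_48 (nat_lit 8) (nat_lit 0x1000580028001800080000000000000000000) (nat_lit 0x0) (nat_lit 0x4000200100008001d000040074000a000000000000000) := T_48 (nat_lit 78) (nat_lit 61) (nat_lit 4) (nat_lit 11) (nat_lit 7) L120497 (by decide +kernel)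
theorem L120499 : W_48 (nat_lit 2) (nat_lit 0x1001d80168007a003c0000000000000000000) (nat_lit 0x0) (nat_lit 0x6000200000000000000000000000000000) := D_48 (nat_lit 133) (nat_lit 117) (nat_lit 134) (nat_lit 2) (nat_lit 11) (nat_lit 7) (nat_lit 0) (nat_lit 15) (nat_lit 7) (by decide +kernel)
theorem L120500 : W_48 (nat_lit 3) (nat_lit 0x1000d80168007a003c0000000000000000000) (nat_lit 0x0) (nat_lit 0x20007000200000000000000000000000000000) := T_48 (nat_lit 132) (nat_lit 149) (nat_lit 7) (nat_lit 12) (nat_lit 4) L120499 (by decide +kernel)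
theorem L120501 : W_48 (nat_lit 4) (nat_lit 0x1000d80168003a003c0000000000000000000) (nat_lit 0x0) (nat_lit 0x2000700020000c000000000000000000000000) := T_48 (nat_lit 98) (nat_lit 99) (nat_lit 3) (nat_lit 10) (nat_lit 4) L120500 (by decide +kernel)
theorem L120502 : W_48 (nat_lit 5) (nat_lit 0x1000d80168003a00380000000000000000000) (nat_lit 0x0) (nat_lit 0x2000700020000c000040002000000000000000) := T_48 (nat_lit 78) (nat_lit 61) (nat_lit 4) (nat_lit 11) (nat_lit 7) L120501 (by decide +kernel)
theorem L120503 : W_48 (nat_lit 6) (nat_lit 0x1000d80168001a00380000000000000000000) (nat_lit 0x0) (nat_lit 0x2000700020000e000040012000000000000000) := T_48 (nat_lit 97) (nat_lit 64) (nat_lit 6) (nat_lit 12) (nat_lit 7) L120502 (by decide +kernel)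
theorem L120504 : W_48 (nat_lit 7) (nat_lit 0x1000580168001a00380000000000000000000) (nat_lit 0x0) (nat_lit 0x3000780020000e000040012000000000000000) := T_48 (nat_lit 131) (nat_lit 148) (nat_lit 7) (nat_lit 11) (nat_lit 4) L120503 (by decide +kernel)
theorem L120505 : W_48 (nat_lit 8) (nat_lit 0x1000580068001a00380000000000000000000) (nat_lit 0x0) (nat_lit 0x3000780038000e000040012000000000000000) := T_48 (nat_lit 116) (nat_lit 115) (nat_lit 0) (nat_lit 14) (nat_lit 6) L120504 (by decide +kernel)
theorem L120506 : W_48 (nat_lit 9) (nat_lit 0x1000580028001a00380000000000000000000) (nat_lit 0x0) (nat_lit 0x300078003d000e000040012000000000000000) := T_48 (nat_lit 114) (nat_lit 112) (nat_lit 1) (nat_lit 12) (nat_lit 6) L120505 (by decide +kernel)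
theorem L120507 : W_48 (nat_lit 10) (nat_lit 0x1000580028001a00180000000000000000000) (nat_lit 0x0) (nat_lit 0x300078003d000e000640012000000000000000) := T_48 (nat_lit 81) (nat_lit 82) (nat_lit 1) (nat_lit 14) (nat_lit 4) L120506 (by decide +kernel)
theorem L120508 : W_48 (nat_lit 11) (nat_lit 0x1000580028001800180000000000000000000) (nat_lit 0x0) (nat_lit 0x300078003d000e600640012000000000000000) := T_48 (nat_lit 93) (nat_lit 94) (nat_lit 2) (nat_lit 8) (nat_lit 5) L120507 (by decide +kernel)
theorem L120509 : W_48 (nat_lit 12) (nat_lit 0x1000580028001800080000000000000000000) (nat_lit 0x0) (nat_lit 0x300078003d000e60074001a000000000000000) := T_48 (nat_lit 80) (nat_lit 63) (nat_lit 6) (nat_lit 11) (nat_lit 7) L120508 (by decide +kernel)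
theorem L120510 : W_48 (nat_lit 2) (nat_lit 0x10005800280018001c0000000000000000000) (nat_lit 0x0) (nat_lit 0x600200000000000000000000) := D_48 (nat_lit 94) (nat_lit 93) (nat_lit 81) (nat_lit 2) (nat_lit 8) (nat_lit 5) (nat_lit 1) (nat_lit 13) (nat_lit 4) (by decide +kernel)
theorem L120511 : W_48 (nat_lit 3) (nat_lit 0x10005800280018000c0000000000000000000) (nat_lit 0x0) (nat_lit 0x600300008000000000000000) := T_48 (nat_lit 80) (nat_lit 63) (nat_lit 6) (nat_lit 11) (nat_lit 7) L120510 (by decide +kernel)
theorem L120512 : W_48 (nat_lit 4) (nat_lit 0x1000580028001800080000000000000000000) (nat_lit 0x0) (nat_lit 0x60034000a000000000000000) := T_48 (nat_lit 78) (nat_lit 61) (nat_lit 4) (nat_lit 11) (nat_lit 7) L120511 (by decide +kernel)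
theorem L120513 : W_48 (nat_lit 2) (nat_lit 0x400000001000d801680018003c0000000000000000000) (nat_lit 0x0) (nat_lit 0x2000000030000000000000000) := D_48 (nat_lit 64) (nat_lit 97) (nat_lit 65) (nat_lit 6) (nat_lit 12) (nat_lit 7) (nat_lit 2) (nat_lit 10) (nat_lit 4) (by decide +kernel)
theorem L120514 : W_48 (nat_lit 3) (nat_lit 0x4000000010005801680018003c0000000000000000000) (nat_lit 0x0) (nat_lit 0x10000800000002000000030000000000000000) := T_48 (nat_lit 131) (nat_lit 148) (nat_lit 7) (nat_lit 11) (nat_lit 4) L120513 (by decide +kernel)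
theorem L120515 : W_48 (nat_lit 4) (nat_lit 0x4000000010005801680018001c0000000000000000000) (nat_lit 0x0) (nat_lit 0x10000800000002000600030000000000000000) := T_48 (nat_lit 81) (nat_lit 82) (nat_lit 1) (nat_lit 14) (nat_lit 4) L120514 (by decide +kernel)
theorem L120516 : W_48 (nat_lit 5) (nat_lit 0x4000000010005801680018000c0000000000000000000) (nat_lit 0x0) (nat_lit 0x10000800000002000700038000000000000000) := T_48 (nat_lit 80) (nat_lit 63) (nat_lit 6) (nat_lit 11) (nat_lit 7) L120515 (by decide +kernel)
theorem L120517 : W_48 (nat_lit 6) (nat_lit 0x400000001000580168001800080000000000000000000) (nat_lit 0x0) (nat_lit 0x1000080000000200074003a000000000000000) := T_48 (nat_lit 78) (nat_lit 61) (nat_lit 4) (nat_lit 11) (nat_lit 7) L120516 (by decide +kernel)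
theorem L120518 : W_48 (nat_lit 7) (nat_lit 0x400000001000580068001800080000000000000000000) (nat_lit 0x0) (nat_lit 0x1000080018000200074003a000000000000000) := T_48 (nat_lit 116) (nat_lit 115) (nat_lit 0) (nat_lit 14) (nat_lit 6) L120517 (by decide +kernel)
theorem L120519 : W_48 (nat_lit 8) (nat_lit 0x400000001000580028001800080000000000000000000) (nat_lit 0x0) (nat_lit 0x100008001d000200074003a000000000000000) := T_48 (nat_lit 114) (nat_lit 112) (nat_lit 1) (nat_lit 12) (nat_lit 6) L120518 (by decide +kernel)
theorem L120520 : W_48 (nat_lit 9) (nat_lit 0x1000580028001800080000000000000000000) (nat_lit 0x0) (nat_lit 0x4000200100008001d000200074003a000000000000000) := T_48 (nat_lit 178) (nat_lit 161) (nat_lit 6) (nat_lit 8) (nat_lit 10) L120519 (by decide +kernel)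
theorem L120521 : W_48 (nat_lit 2) (nat_lit 0x400000001001d80168003a00380000000000000000000) (nat_lit 0x0) (nat_lit 0x6000200000000000000000000000000000) := D_48 (nat_lit 133) (nat_lit 117) (nat_lit 134) (nat_lit 2) (nat_lit 11) (nat_lit 7) (nat_lit 0) (nat_lit 15) (nat_lit 7) (by decide +kernel)
theorem L120522 : W_48 (nat_lit 3) (nat_lit 0x400000001000d80168003a00380000000000000000000) (nat_lit 0x0) (nat_lit 0x20007000200000000000000000000000000000) := T_48 (nat_lit 132) (nat_lit 149) (nat_lit 7) (nat_lit 12) (nat_lit 4) L120521 (by decide +kernel)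
theorem L120523 : W_48 (nat_lit 4) (nat_lit 0x400000001000d80168001a00380000000000000000000) (nat_lit 0x0) (nat_lit 0x20007000200002000000010000000000000000) := T_48 (nat_lit 97) (nat_lit 64) (nat_lit 6) (nat_lit 12) (nat_lit 7) L120522 (by decide +kernel)
theorem L120524 : W_48 (nat_lit 5) (nat_lit 0x400000001000d80168001a00180000000000000000000) (nat_lit 0x0) (nat_lit 0x20007000200002000600010000000000000000) := T_48 (nat_lit 81) (nat_lit 82) (nat_lit 1) (nat_lit 14) (nat_lit 4) L120523 (by decide +kernel)
theorem L120525 : W_48 (nat_lit 6) (nat_lit 0x400000001000d80168001a00080000000000000000000) (nat_lit 0x0) (nat_lit 0x20007000200002000700018000000000000000) := T_48 (nat_lit 80) (nat_lit 63) (nat_lit 6) (nat_lit 11) (nat_lit 7) L120524 (by decide +kernel)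
theorem L120526 : W_48 (nat_lit 7) (nat_lit 0x1000d80168001a00080000000000000000000) (nat_lit 0x0) (nat_lit 0x400020020007000200002000700018000000000000000) := T_48 (nat_lit 178) (nat_lit 161) (nat_lit 6) (nat_lit 8) (nat_lit 10) L120525 (by decide +kernel)
theorem L120527 : W_48 (nat_lit 8) (nat_lit 0x1000d80168001800080000000000000000000) (nat_lit 0x0) (nat_lit 0x400020020007000200002600700018000000000000000) := T_48 (nat_lit 93) (nat_lit 94) (nat_lit 3) (nat_lit 8) (nat_lit 5) L120526 (by decide +kernel)
theorem L120528 : W_48 (nat_lit 9) (nat_lit 0x1000d80068001800080000000000000000000) (nat_lit 0x0) (nat_lit 0x400020020007000380002600700018000000000000000) := T_48 (nat_lit 116) (nat_lit 115) (nat_lit 0) (nat_lit 14) (nat_lit 6) L120527 (by decide +kernel)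
theorem L120529 : W_48 (nat_lit 10) (nat_lit 0x1000d80028001800080000000000000000000) (nat_lit 0x0) (nat_lit 0x4000200200070003d0002600700018000000000000000) := T_48 (nat_lit 114) (nat_lit 112) (nat_lit 1) (nat_lit 12) (nat_lit 6) L120528 (by decide +kernel)
theorem L120530 : W_48 (nat_lit 11) (nat_lit 0x1000580028001800080000000000000000000) (nat_lit 0x0) (nat_lit 0x4000200300078003d0002600700018000000000000000) := T_48 (nat_lit 131) (nat_lit 148) (nat_lit 7) (nat_lit 11) (nat_lit 4) L120529 (by decide +kernel)
theorem L120531 : W_48 (nat_lit 2) (nat_lit 0x1000d800e80018000c0000000000000000000) (nat_lit 0x0) (nat_lit 0x2600000000000000000000000) := D_48 (nat_lit 94) (nat_lit 93) (nat_lit 97) (nat_lit 3) (nat_lit 8) (nat_lit 5) (nat_lit 3) (nat_lit 9) (nat_lit 5) (by decide +kernel)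
theorem L120532 : W_48 (nat_lit 3) (nat_lit 0x1000d800680018000c0000000000000000000) (nat_lit 0x0) (nat_lit 0x180002600000000000000000000000) := T_48 (nat_lit 115) (nat_lit 116) (nat_lit 0) (nat_lit 14) (nat_lit 6) L120531 (by decide +kernel)
theorem L120533 : W_48 (nat_lit 4) (nat_lit 0x1000d800280018000c0000000000000000000) (nat_lit 0x0) (nat_lit 0x1d0002600000000000000000000000) := T_48 (nat_lit 114) (nat_lit 112) (nat_lit 1) (nat_lit 12) (nat_lit 6) L120532 (by decide +kernel)
theorem L120534 : W_48 (nat_lit 5) (nat_lit 0x10005800280018000c0000000000000000000) (nat_lit 0x0) (nat_lit 0x100008001d0002600000000000000000000000) := T_48 (nat_lit 131) (nat_lit 148) (nat_lit 7) (nat_lit 11) (nat_lit 4) L120533 (by decide +kernel)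
theorem L120535 : W_48 (nat_lit 6) (nat_lit 0x1000580028001800080000000000000000000) (nat_lit 0x0) (nat_lit 0x100008001d0002600040002000000000000000) := T_48 (nat_lit 78) (nat_lit 61) (nat_lit 4) (nat_lit 11) (nat_lit 7) L120534 (by decide +kernel)
theorem L120536 : W_48 (nat_lit 13) (nat_lit 0x1000580028001000080000000000000000000) (nat_lit 0x0) (nat_lit 0x4000200300078003d000ee0074003a000000000000000) := Q_48 (nat_lit 95) (C_48 L120491 (C_48 L120498 (C_48 L120509 (C_48 L120512 (C_48 L120520 (C_48 L120530 (C_48 L120535 N_48))))))) (by decide +kernel)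
theorem L120537 : W_48 (nat_lit 14) (nat_lit 0x1000580028001000000000000000000000000) (nat_lit 0x0) (nat_lit 0x4000200300078003d000ee007c003f800700038001400) := Q_48 (nat_lit 79) (C_48 L120429 (C_48 L119603 (C_48 L120416 (C_48 L117670 (C_48 L120482 (C_48 L120536 N_48)))))) (by decide +kernel)
theorem L120538 : W_48 (nat_lit 2) (nat_lit 0x1000580068001000180004000000000000000) (nat_lit 0x0) (nat_lit 0x40002000100000000000) := D_48 (nat_lit 61) (nat_lit 44) (nat_lit 78) (nat_lit 4) (nat_lit 11) (nat_lit 6) (nat_lit 4) (nat_lit 11) (nat_lit 7) (by decide +kernel)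
theorem L120539 : W_48 (nat_lit 3) (nat_lit 0x1000580068001000180000000000000000000) (nat_lit 0x0) (nat_lit 0x800000000000040006000100000000000) := T_48 (nat_lit 62) (nat_lit 131) (nat_lit 7) (nat_lit 11) (nat_lit 3) L120538 (by decide +kernel)
theorem L120540 : W_48 (nat_lit 4) (nat_lit 0x1000580068001000080000000000000000000) (nat_lit 0x0) (nat_lit 0x80000000000014000e000100000000000) := T_48 (nat_lit 80) (nat_lit 63) (nat_lit 6) (nat_lit 11) (nat_lit 7) L120539 (by decide +kernel)
theorem L120541 : W_48 (nat_lit 5) (nat_lit 0x1000580028001000080000000000000000000) (nat_lit 0x0) (nat_lit 0x80005000000014000e000100000000000) := T_48 (nat_lit 114) (nat_lit 112) (nat_lit 1) (nat_lit 12) (nat_lit 6) L120540 (by decide +kernel)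
theorem L120542 : W_48 (nat_lit 2) (nat_lit 0x4000000010005800680011001f0000800000000000000) (nat_lit 0x0) (nat_lit 0x880008000000000000000000) := D_48 (nat_lit 75) (nat_lit 95) (nat_lit 91) (nat_lit 3) (nat_lit 7) (nat_lit 4) (nat_lit 1) (nat_lit 10) (nat_lit 4) (by decide +kernel)
theorem L120543 : W_48 (nat_lit 3) (nat_lit 0x4000000010005800680010001f0000800000000000000) (nat_lit 0x0) (nat_lit 0xb80008000000000000000000) := T_48 (nat_lit 92) (nat_lit 93) (nat_lit 1) (nat_lit 11) (nat_lit 4) L120542 (by decide +kernel)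
theorem L120544 : W_48 (nat_lit 4) (nat_lit 0x4000000010005800680010001e0000800000000000000) (nat_lit 0x0) (nat_lit 0xb80018000400000000000000) := T_48 (nat_lit 76) (nat_lit 58) (nat_lit 0) (nat_lit 11) (nat_lit 4) L120543 (by decide +kernel)
theorem L120545 : W_48 (nat_lit 5) (nat_lit 0x10005800680010001e0000800000000000000) (nat_lit 0x0) (nat_lit 0x400020000000000000000b80018000400000000000000) := T_48 (nat_lit 178) (nat_lit 161) (nat_lit 6) (nat_lit 8) (nat_lit 10) L120544 (by decide +kernel)
theorem L120546 : W_48 (nat_lit 6) (nat_lit 0x10005800680010001e0000000000000000000) (nat_lit 0x0) (nat_lit 0x400020000000000000000b80018001c00000000000000) := T_48 (nat_lit 59) (nat_lit 60) (nat_lit 0) (nat_lit 12) (nat_lit 4) L120545 (by decide +kernel)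
theorem L120547 : W_48 (nat_lit 7) (nat_lit 0x10005800680010001c0000000000000000000) (nat_lit 0x0) (nat_lit 0x400020000000000000000f80038001c00000000000000) := T_48 (nat_lit 77) (nat_lit 94) (nat_lit 5) (nat_lit 9) (nat_lit 4) L120546 (by decide +kernel)
theorem L120548 : W_48 (nat_lit 8) (nat_lit 0x10005800280010001c0000000000000000000) (nat_lit 0x0) (nat_lit 0x400020000000000050000f80038001c00000000000000) := T_48 (nat_lit 114) (nat_lit 112) (nat_lit 1) (nat_lit 12) (nat_lit 6) L120547 (by decide +kernel)
theorem L120549 : W_48 (nat_lit 9) (nat_lit 0x10005800280010000c0000000000000000000) (nat_lit 0x0) (nat_lit 0x400020000000000050000f80138009c00000000000000) := T_48 (nat_lit 80) (nat_lit 63) (nat_lit 6) (nat_lit 11) (nat_lit 7) L120548 (by decide +kernel)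
theorem L120550 : W_48 (nat_lit 10) (nat_lit 0x1000580028001000080000000000000000000) (nat_lit 0x0) (nat_lit 0x400020000000000050000f8017800bc00000000000000) := T_48 (nat_lit 78) (nat_lit 61) (nat_lit 4) (nat_lit 11) (nat_lit 7) L120549 (by decide +kernel)
theorem L120551 : W_48 (nat_lit 11) (nat_lit 0x1000580028001000000000000000000000000) (nat_lit 0x0) (nat_lit 0x400020010000800050000f801f800fc00500000000000) := Q_48 (nat_lit 79) (C_48 L120429 (C_48 L119603 (C_48 L120541 (C_48 L117670 (C_48 L120550 N_48))))) (by decide +kernel)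
theorem L120552 : W_48 (nat_lit 2) (nat_lit 0x400000001000d80028001c00180000000000000000000) (nat_lit 0x0) (nat_lit 0x2000600000000000000000000) := D_48 (nat_lit 81) (nat_lit 82) (nat_lit 97) (nat_lit 1) (nat_lit 14) (nat_lit 4) (nat_lit 2) (nat_lit 9) (nat_lit 5) (by decide +kernel)
theorem L120553 : W_48 (nat_lit 3) (nat_lit 0x400000001000d80028001400180000000000000000000) (nat_lit 0x0) (nat_lit 0x2a00600000000000000000000) := T_48 (nat_lit 95) (nat_lit 93) (nat_lit 2) (nat_lit 8) (nat_lit 5) L120552 (by decide +kernel)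
theorem L120554 : W_48 (nat_lit 4) (nat_lit 0x400000001000d80028001000180000000000000000000) (nat_lit 0x0) (nat_lit 0x2e00620000000000000000000) := T_48 (nat_lit 94) (nat_lit 77) (nat_lit 5) (nat_lit 9) (nat_lit 4) L120553 (by decide +kernel)
theorem L120555 : W_48 (nat_lit 5) (nat_lit 0x400000001000580028001000180000000000000000000) (nat_lit 0x0) (nat_lit 0x10000800000002e00620000000000000000000) := T_48 (nat_lit 131) (nat_lit 148) (nat_lit 7) (nat_lit 11) (nat_lit 4) L120554 (by decide +kernel)
theorem L120556 : W_48 (nat_lit 6) (nat_lit 0x400000001000580028001000080000000000000000000) (nat_lit 0x0) (nat_lit 0x10000800000002e00720008000000000000000) := T_48 (nat_lit 80) (nat_lit 63) (nat_lit 6) (nat_lit 11) (nat_lit 7) L120555 (by decide +kernel)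
theorem L120557 : W_48 (nat_lit 7) (nat_lit 0x1000580028001000080000000000000000000) (nat_lit 0x0) (nat_lit 0x400020010000800000002e00720008000000000000000) := T_48 (nat_lit 178) (nat_lit 161) (nat_lit 6) (nat_lit 8) (nat_lit 10) L120556 (by decide +kernel)
theorem L120558 : W_48 (nat_lit 2) (nat_lit 0x400000001000d800280010000f8000000000000000000) (nat_lit 0x0) (nat_lit 0x380000000000000000000000) := D_48 (nat_lit 92) (nat_lit 91) (nat_lit 93) (nat_lit 1) (nat_lit 10) (nat_lit 4) (nat_lit 1) (nat_lit 11) (nat_lit 4) (by decide +kernel)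
theorem L120559 : W_48 (nat_lit 3) (nat_lit 0x400000001000d800280010000f0000000000000000000) (nat_lit 0x0) (nat_lit 0xb80008000000000000000000) := T_48 (nat_lit 75) (nat_lit 95) (nat_lit 3) (nat_lit 7) (nat_lit 4) L120558 (by decide +kernel)
theorem L120560 : W_48 (nat_lit 4) (nat_lit 0x400000001000d800280010000e0000000000000000000) (nat_lit 0x0) (nat_lit 0x2b80018000000000000000000) := T_48 (nat_lit 76) (nat_lit 97) (nat_lit 3) (nat_lit 8) (nat_lit 4) L120559 (by decide +kernel)
theorem L120561 : W_48 (nat_lit 5) (nat_lit 0x400000001000d800280010000a0000000000000000000) (nat_lit 0x0) (nat_lit 0x2b80058002000000000000000) := T_48 (nat_lit 78) (nat_lit 61) (nat_lit 4) (nat_lit 11) (nat_lit 7) L120560 (by decide +kernel)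
theorem L120562 : W_48 (nat_lit 6) (nat_lit 0x4000000010005800280010000a0000000000000000000) (nat_lit 0x0) (nat_lit 0x10000800000002b80058002000000000000000) := T_48 (nat_lit 131) (nat_lit 148) (nat_lit 7) (nat_lit 11) (nat_lit 4) L120561 (by decide +kernel)
theorem L120563 : W_48 (nat_lit 7) (nat_lit 0x10005800280010000a0000000000000000000) (nat_lit 0x0) (nat_lit 0x400020010000800000002b80058002000000000000000) := T_48 (nat_lit 178) (nat_lit 161) (nat_lit 6) (nat_lit 8) (nat_lit 10) L120562 (by decide +kernel)
theorem L120564 : W_48 (nat_lit 8) (nat_lit 0x1000580028001000080000000000000000000) (nat_lit 0x0) (nat_lit 0x400020010000800000002f80078002000000000000000) := T_48 (nat_lit 77) (nat_lit 94) (nat_lit 5) (nat_lit 9) (nat_lit 4) L120563 (by decide +kernel)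
theorem L120565 : W_48 (nat_lit 9) (nat_lit 0x1000580028001000000000000000000000000) (nat_lit 0x0) (nat_lit 0x400020010000800000006f807f800e000500000000000) := Q_48 (nat_lit 79) (C_48 L120429 (C_48 L120557 (C_48 L119633 (C_48 L120564 N_48)))) (by decide +kernel)
theorem L120566 : W_48 (nat_lit 15) (nat_lit 0x1000580028000000000000000000000000000) (nat_lit 0x0) (nat_lit 0x4000200300078003d001ff80ff803fc00700038001400) := Q_48 (nat_lit 96) (C_48 L120407 (C_48 L117707 (C_48 L120472 (C_48 L120537 (C_48 L120551 (C_48 L120565 N_48)))))) (by decide +kernel)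
theorem L120567 : W_48 (nat_lit 16) (nat_lit 0x1000580020000000000000000000000000000) (nat_lit 0x0) (nat_lit 0x4000200300078003df81ffc0ff803fc00700038001400) := Q_48 (nat_lit 111) (C_48 L120566 (C_48 L118879 (C_48 L118816 (C_48 L120260 N_48)))) (by decide +kernel)
theorem L120568 : W_48 (nat_lit 7) (nat_lit 0x1000580028001000000000000000000000000) (nat_lit 0x0) (nat_lit 0x74003e001c8008000000028001c000a000000000000000) := Q_48 (nat_lit 147) (C_48 L120305 (C_48 L120236 (C_48 L120178 N_48))) (by decide +kernel)
theorem L120569 : W_48 (nat_lit 2) (nat_lit 0x400000011000580028001000180000000000000000000) (nat_lit 0x0) (nat_lit 0x200008000000000002000000000000000000000000) := D_48 (nat_lit 147) (nat_lit 97) (nat_lit 165) (nat_lit 6) (nat_lit 11) (nat_lit 8) (nat_lit 7) (nat_lit 11) (nat_lit 5) (by decide +kernel)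
theorem L120570 : W_48 (nat_lit 3) (nat_lit 0x400000001000580028001000180000000000000000000) (nat_lit 0x0) (nat_lit 0x200018000800000002000000000000000000000000) := T_48 (nat_lit 148) (nat_lit 131) (nat_lit 7) (nat_lit 11) (nat_lit 4) L120569 (by decide +kernel)
theorem L120571 : W_48 (nat_lit 4) (nat_lit 0x400000001000580028001000080000000000000000000) (nat_lit 0x0) (nat_lit 0x200018000800000002000100008000000000000000) := T_48 (nat_lit 80) (nat_lit 63) (nat_lit 6) (nat_lit 11) (nat_lit 7) L120570 (by decide +kernel)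
theorem L120572 : W_48 (nat_lit 5) (nat_lit 0x1000580028001000080000000000000000000) (nat_lit 0x0) (nat_lit 0x400220018000800000002000100008000000000000000) := T_48 (nat_lit 178) (nat_lit 161) (nat_lit 6) (nat_lit 8) (nat_lit 10) L120571 (by decide +kernel)
theorem L120573 : W_48 (nat_lit 2) (nat_lit 0x400000001000d800280011000f0004400000000000000) (nat_lit 0x0) (nat_lit 0x80008000200000000000000) := D_48 (nat_lit 75) (nat_lit 91) (nat_lit 57) (nat_lit 1) (nat_lit 10) (nat_lit 4) (nat_lit 0) (nat_lit 10) (nat_lit 4) (by decide +kernel)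
theorem L120574 : W_48 (nat_lit 3) (nat_lit 0x400000001000d800280011000f0004000000000000000) (nat_lit 0x0) (nat_lit 0x80008000e00000000000000) := T_48 (nat_lit 58) (nat_lit 59) (nat_lit 0) (nat_lit 11) (nat_lit 4) L120573 (by decide +kernel)
theorem L120575 : W_48 (nat_lit 4) (nat_lit 0x400000001000d800280010000f0004000000000000000) (nat_lit 0x0) (nat_lit 0x380008000e00000000000000) := T_48 (nat_lit 92) (nat_lit 93) (nat_lit 1) (nat_lit 11) (nat_lit 4) L120574 (by decide +kernel)
theorem L120576 : W_48 (nat_lit 5) (nat_lit 0x400000001000d800280010000f0000000000000000000) (nat_lit 0x0) (nat_lit 0x38000800ce00000000000000) := T_48 (nat_lit 62) (nat_lit 63) (nat_lit 2) (nat_lit 8) (nat_lit 4) L120575 (by decide +kernel)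
theorem L120577 : W_48 (nat_lit 6) (nat_lit 0x400000001000d800280010000e0000000000000000000) (nat_lit 0x0) (nat_lit 0x238001800ce00000000000000) := T_48 (nat_lit 76) (nat_lit 97) (nat_lit 3) (nat_lit 8) (nat_lit 4) L120576 (by decide +kernel)
theorem L120578 : W_48 (nat_lit 7) (nat_lit 0x400000001000d800280010000c0000000000000000000) (nat_lit 0x0) (nat_lit 0x278003800ce00000000000000) := T_48 (nat_lit 77) (nat_lit 94) (nat_lit 5) (nat_lit 9) (nat_lit 4) L120577 (by decide +kernel)
theorem L120579 : W_48 (nat_lit 8) (nat_lit 0x400000001000d80028001000080000000000000000000) (nat_lit 0x0) (nat_lit 0x278007800ee00000000000000) := T_48 (nat_lit 78) (nat_lit 61) (nat_lit 4) (nat_lit 11) (nat_lit 7) L120578 (by decide +kernel)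
theorem L120580 : W_48 (nat_lit 9) (nat_lit 0x1000d80028001000080000000000000000000) (nat_lit 0x0) (nat_lit 0x40002000000000000000278007800ee00000000000000) := T_48 (nat_lit 178) (nat_lit 161) (nat_lit 6) (nat_lit 8) (nat_lit 10) L120579 (by decide +kernel)
theorem L120581 : W_48 (nat_lit 10) (nat_lit 0x1000580028001000080000000000000000000) (nat_lit 0x0) (nat_lit 0x40002001000080000000278007800ee00000000000000) := T_48 (nat_lit 131) (nat_lit 148) (nat_lit 7) (nat_lit 11) (nat_lit 4) L120580 (by decide +kernel)
theorem L120582 : W_48 (nat_lit 2) (nat_lit 0x400000001000d800280011000f0000400000000000000) (nat_lit 0x0) (nat_lit 0x80008000200000000000000) := D_48 (nat_lit 75) (nat_lit 91) (nat_lit 57) (nat_lit 1) (nat_lit 10) (nat_lit 4) (nat_lit 0) (nat_lit 10) (nat_lit 4) (by decide +kernel)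
theorem L120583 : W_48 (nat_lit 3) (nat_lit 0x400000001000d800280011000f0000000000000000000) (nat_lit 0x0) (nat_lit 0x80008000e00000000000000) := T_48 (nat_lit 58) (nat_lit 59) (nat_lit 0) (nat_lit 11) (nat_lit 4) L120582 (by decide +kernel)
theorem L120584 : W_48 (nat_lit 4) (nat_lit 0x400000001000d800280010000f0000000000000000000) (nat_lit 0x0) (nat_lit 0x380008000e00000000000000) := T_48 (nat_lit 92) (nat_lit 93) (nat_lit 1) (nat_lit 11) (nat_lit 4) L120583 (by decide +kernel)
theorem L120585 : W_48 (nat_lit 5) (nat_lit 0x400000001000d800280010000e0000000000000000000) (nat_lit 0x0) (nat_lit 0x2380018000e00000000000000) := T_48 (nat_lit 76) (nat_lit 97) (nat_lit 3) (nat_lit 8) (nat_lit 4) L120584 (by decide +kernel)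
theorem L120586 : W_48 (nat_lit 6) (nat_lit 0x400000001000d800280010000a0000000000000000000) (nat_lit 0x0) (nat_lit 0x2380058002e00000000000000) := T_48 (nat_lit 78) (nat_lit 61) (nat_lit 4) (nat_lit 11) (nat_lit 7) L120585 (by decide +kernel)
theorem L120587 : W_48 (nat_lit 7) (nat_lit 0x1000d800280010000a0000000000000000000) (nat_lit 0x0) (nat_lit 0x400020000000000000002380058002e00000000000000) := T_48 (nat_lit 178) (nat_lit 161) (nat_lit 6) (nat_lit 8) (nat_lit 10) L120586 (by decide +kernel)
theorem L120588 : W_48 (nat_lit 8) (nat_lit 0x10005800280010000a0000000000000000000) (nat_lit 0x0) (nat_lit 0x400020010000800000002380058002e00000000000000) := T_48 (nat_lit 131) (nat_lit 148) (nat_lit 7) (nat_lit 11) (nat_lit 4) L120587 (by decide +kernel)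
theorem L120589 : W_48 (nat_lit 9) (nat_lit 0x1000580028001000080000000000000000000) (nat_lit 0x0) (nat_lit 0x400020010000800000002780078002e00000000000000) := T_48 (nat_lit 77) (nat_lit 94) (nat_lit 5) (nat_lit 9) (nat_lit 4) L120588 (by decide +kernel)
theorem L120590 : W_48 (nat_lit 11) (nat_lit 0x1000580028001000000000000000000000000) (nat_lit 0x0) (nat_lit 0x4002200180008000000067801f800ee00500000000000) := Q_48 (nat_lit 79) (C_48 L120429 (C_48 L120572 (C_48 L119633 (C_48 L120581 (C_48 L120589 N_48))))) (by decide +kernel)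
theorem L120591 : W_48 (nat_lit 2) (nat_lit 0x19000580028001000120000000000000000000) (nat_lit 0x0) (nat_lit 0x800000000000080008000000000000000) := D_48 (nat_lit 79) (nat_lit 131) (nat_lit 63) (nat_lit 7) (nat_lit 11) (nat_lit 4) (nat_lit 6) (nat_lit 11) (nat_lit 7) (by decide +kernel)
theorem L120592 : W_48 (nat_lit 3) (nat_lit 0x9000580028001000120000000000000000000) (nat_lit 0x0) (nat_lit 0x200010000800000000000080008000000000000000) := T_48 (nat_lit 148) (nat_lit 165) (nat_lit 7) (nat_lit 11) (nat_lit 5) L120591 (by decide +kernel)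
theorem L120593 : W_48 (nat_lit 4) (nat_lit 0x9000580028001000020000000000000000000) (nat_lit 0x0) (nat_lit 0x200010000800000002000180008000000000000000) := T_48 (nat_lit 80) (nat_lit 97) (nat_lit 6) (nat_lit 11) (nat_lit 8) L120592 (by decide +kernel)
theorem L120594 : W_48 (nat_lit 5) (nat_lit 0x9000580028001000000000000000000000000) (nat_lit 0x0) (nat_lit 0x2000100008000000024001a0008000000000000000) := T_48 (nat_lit 77) (nat_lit 94) (nat_lit 5) (nat_lit 9) (nat_lit 4) L120593 (by decide +kernel)
theorem L120595 : W_48 (nat_lit 2) (nat_lit 0x1a000900058003800b000020000000000000000000) (nat_lit 0x0) (nat_lit 0x40010800000000000000000000000000000000000) := D_48 (nat_lit 162) (nat_lit 148) (nat_lit 143) (nat_lit 2) (nat_lit 8) (nat_lit 9) (nat_lit 0) (nat_lit 11) (nat_lit 9) (by decide +kernel)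
theorem L120596 : W_48 (nat_lit 3) (nat_lit 0x18000900058003800b000020000000000000000000) (nat_lit 0x0) (nat_lit 0x400060010800000000000000000000000000000000000) := T_48 (nat_lit 161) (nat_lit 178) (nat_lit 6) (nat_lit 8) (nat_lit 10) L120595 (by decide +kernel)
theorem L120597 : W_48 (nat_lit 4) (nat_lit 0x180009000580038003000020000000000000000000) (nat_lit 0x0) (nat_lit 0x40006001080000000000c000000000000000000000000) := T_48 (nat_lit 99) (nat_lit 98) (nat_lit 1) (nat_lit 14) (nat_lit 5) L120596 (by decide +kernel)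
theorem L120598 : W_48 (nat_lit 5) (nat_lit 0x180009000580028003000020000000000000000000) (nat_lit 0x0) (nat_lit 0x40006001080000001000c800000000000000000000000) := T_48 (nat_lit 112) (nat_lit 95) (nat_lit 4) (nat_lit 11) (nat_lit 9) L120597 (by decide +kernel)
theorem L120599 : W_48 (nat_lit 6) (nat_lit 0x80009000580028003000020000000000000000000) (nat_lit 0x0) (nat_lit 0x140016001080000001000c800000000000000000000000) := T_48 (nat_lit 164) (nat_lit 180) (nat_lit 5) (nat_lit 11) (nat_lit 6) L120598 (by decide +kernel)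
theorem L120600 : W_48 (nat_lit 7) (nat_lit 0x80009000580028001000020000000000000000000) (nat_lit 0x0) (nat_lit 0x140016001080000001000e800100000000000000000000) := T_48 (nat_lit 97) (nat_lit 80) (nat_lit 6) (nat_lit 11) (nat_lit 8) L120599 (by decide +kernel)
theorem L120601 : W_48 (nat_lit 8) (nat_lit 0x9000580028001000020000000000000000000) (nat_lit 0x0) (nat_lit 0x14001e001480000001000e800100000000000000000000) := T_48 (nat_lit 163) (nat_lit 146) (nat_lit 5) (nat_lit 11) (nat_lit 5) L120600 (by decide +kernel)
theorem L120602 : W_48 (nat_lit 9) (nat_lit 0x9000580028001000000000000000000000000) (nat_lit 0x0) (nat_lit 0x14001e001480000001000ec00120000000000000000000) := T_48 (nat_lit 77) (nat_lit 94) (nat_lit 5) (nat_lit 9) (nat_lit 4) L120601 (by decide +kernel)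
theorem L120603 : W_48 (nat_lit 10) (nat_lit 0x1000580028001000000000000000000000000) (nat_lit 0x0) (nat_lit 0x74003e001c80080001000ec001a0008000000000000000) := Q_48 (nat_lit 147) (C_48 L120594 (C_48 L120178 (C_48 L120602 N_48))) (by decide +kernel)
theorem L120604 : W_48 (nat_lit 7) (nat_lit 0x1000580028001000000000000000000000000) (nat_lit 0x0) (nat_lit 0x74003e000c800000000002c001f000a000000000000000) := Q_48 (nat_lit 147) (C_48 L120305 (C_48 L120137 (C_48 L120178 N_48))) (by decide +kernel)
theorem L120605 : W_48 (nat_lit 2) (nat_lit 0x400080019000580028001c00180000000000000000000) (nat_lit 0x0) (nat_lit 0x1000100000000000010000000000000000000000000000) := D_48 (nat_lit 164) (nat_lit 180) (nat_lit 112) (nat_lit 5) (nat_lit 11) (nat_lit 6) (nat_lit 4) (nat_lit 11) (nat_lit 9) (by decide +kernel)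
theorem L120606 : W_48 (nat_lit 3) (nat_lit 0x400080019000580028001400180000000000000000000) (nat_lit 0x0) (nat_lit 0x1000100000000000010000a00000000000000000000000) := T_48 (nat_lit 95) (nat_lit 93) (nat_lit 2) (nat_lit 8) (nat_lit 5) L120605 (by decide +kernel)
theorem L120607 : W_48 (nat_lit 4) (nat_lit 0x400000019000580028001400180000000000000000000) (nat_lit 0x0) (nat_lit 0x1000180004000000010000a00000000000000000000000) := T_48 (nat_lit 163) (nat_lit 146) (nat_lit 5) (nat_lit 11) (nat_lit 5) L120606 (by decide +kernel)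
theorem L120608 : W_48 (nat_lit 5) (nat_lit 0x400000011000580028001400180000000000000000000) (nat_lit 0x0) (nat_lit 0x100038000c000000010000a00000000000000000000000) := T_48 (nat_lit 147) (nat_lit 165) (nat_lit 7) (nat_lit 11) (nat_lit 5) L120607 (by decide +kernel)
theorem L120609 : W_48 (nat_lit 6) (nat_lit 0x400000011000580028001000180000000000000000000) (nat_lit 0x0) (nat_lit 0x100038000c000000010000e00020000000000000000000) := T_48 (nat_lit 94) (nat_lit 77) (nat_lit 5) (nat_lit 9) (nat_lit 4) L120608 (by decide +kernel)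
theorem L120610 : W_48 (nat_lit 7) (nat_lit 0x400000001000580028001000180000000000000000000) (nat_lit 0x0) (nat_lit 0x100038001c000800010000e00020000000000000000000) := T_48 (nat_lit 148) (nat_lit 131) (nat_lit 7) (nat_lit 11) (nat_lit 4) L120609 (by decide +kernel)
theorem L120611 : W_48 (nat_lit 8) (nat_lit 0x400000001000580028001000080000000000000000000) (nat_lit 0x0) (nat_lit 0x100038001c000800010000e00120008000000000000000) := T_48 (nat_lit 80) (nat_lit 63) (nat_lit 6) (nat_lit 11) (nat_lit 7) L120610 (by decide +kernel)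
theorem L120612 : W_48 (nat_lit 9) (nat_lit 0x1000580028001000080000000000000000000) (nat_lit 0x0) (nat_lit 0x14003a001c000800010000e00120008000000000000000) := T_48 (nat_lit 178) (nat_lit 161) (nat_lit 6) (nat_lit 8) (nat_lit 10) L120611 (by decide +kernel)
theorem L120613 : W_48 (nat_lit 2) (nat_lit 0x40000000d0005800280010000c000c000000000000000) (nat_lit 0x0) (nat_lit 0x400030000000000000000000) := D_48 (nat_lit 77) (nat_lit 76) (nat_lit 94) (nat_lit 2) (nat_lit 8) (nat_lit 4) (nat_lit 5) (nat_lit 9) (nat_lit 4) (by decide +kernel)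
theorem L120614 : W_48 (nat_lit 3) (nat_lit 0x40000000d0005800280010000c0008000000000000000) (nat_lit 0x0) (nat_lit 0x400030004000400000000000) := T_48 (nat_lit 62) (nat_lit 46) (nat_lit 6) (nat_lit 11) (nat_lit 6) L120613 (by decide +kernel)
theorem L120615 : W_48 (nat_lit 4) (nat_lit 0x4000000090005800280010000c0008000000000000000) (nat_lit 0x0) (nat_lit 0x80004000000000000400030004000400000000000) := T_48 (nat_lit 146) (nat_lit 163) (nat_lit 5) (nat_lit 11) (nat_lit 5) L120614 (by decide +kernel)
theorem L120616 : W_48 (nat_lit 5) (nat_lit 0x4000000090005800280010000c0000000000000000000) (nat_lit 0x0) (nat_lit 0x8000400000000000040013000c000400000000000) := T_48 (nat_lit 63) (nat_lit 80) (nat_lit 6) (nat_lit 11) (nat_lit 7) L120615 (by decide +kernel)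
theorem L120617 : W_48 (nat_lit 6) (nat_lit 0x4000000010005800280010000c0000000000000000000) (nat_lit 0x0) (nat_lit 0x8000c000000000000c0013000c000400000000000) := T_48 (nat_lit 147) (nat_lit 95) (nat_lit 4) (nat_lit 11) (nat_lit 8) L120616 (by decide +kernel)
theorem L120618 : W_48 (nat_lit 7) (nat_lit 0x10005800280010000c0000000000000000000) (nat_lit 0x0) (nat_lit 0x4000a000c000000000000c0013000c000400000000000) := T_48 (nat_lit 178) (nat_lit 161) (nat_lit 6) (nat_lit 8) (nat_lit 10) L120617 (by decide +kernel)
theorem L120619 : W_48 (nat_lit 8) (nat_lit 0x1000580028001000080000000000000000000) (nat_lit 0x0) (nat_lit 0x4000a000c000000000000c0017000e000400000000000) := T_48 (nat_lit 78) (nat_lit 61) (nat_lit 4) (nat_lit 11) (nat_lit 7) L120618 (by decide +kernel)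
theorem L120620 : W_48 (nat_lit 2) (nat_lit 0x400000001000d800280018000f0004000000000000000) (nat_lit 0x0) (nat_lit 0x10000000000000000200010000000) := D_48 (nat_lit 45) (nat_lit 28) (nat_lit 112) (nat_lit 5) (nat_lit 11) (nat_lit 1) (nat_lit 5) (nat_lit 11) (nat_lit 2) (by decide +kernel)
theorem L120621 : W_48 (nat_lit 3) (nat_lit 0x400000001000d800280018000f0000000000000000000) (nat_lit 0x0) (nat_lit 0x1000000000000c000200010000000) := T_48 (nat_lit 62) (nat_lit 63) (nat_lit 2) (nat_lit 8) (nat_lit 4) L120620 (by decide +kernel)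
theorem L120622 : W_48 (nat_lit 4) (nat_lit 0x400000001000d800280018000e0000000000000000000) (nat_lit 0x0) (nat_lit 0x1000000001800c000200010000000) := T_48 (nat_lit 76) (nat_lit 75) (nat_lit 3) (nat_lit 7) (nat_lit 4) L120621 (by decide +kernel)
theorem L120623 : W_48 (nat_lit 5) (nat_lit 0x400000001000d800280010000e0000000000000000000) (nat_lit 0x0) (nat_lit 0x800000001000080001800c000200010000000) := T_48 (nat_lit 95) (nat_lit 147) (nat_lit 4) (nat_lit 11) (nat_lit 8) L120622 (by decide +kernel)
theorem L120624 : W_48 (nat_lit 6) (nat_lit 0x400000001000d800280010000a0000000000000000000) (nat_lit 0x0) (nat_lit 0x800000001000080005800e000200010000000) := T_48 (nat_lit 78) (nat_lit 61) (nat_lit 4) (nat_lit 11) (nat_lit 7) L120623 (by decide +kernel)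
theorem L120625 : W_48 (nat_lit 7) (nat_lit 0x4000000010005800280010000a0000000000000000000) (nat_lit 0x0) (nat_lit 0x1800080001000080005800e000200010000000) := T_48 (nat_lit 131) (nat_lit 148) (nat_lit 7) (nat_lit 11) (nat_lit 4) L120624 (by decide +kernel)
theorem L120626 : W_48 (nat_lit 8) (nat_lit 0x10005800280010000a0000000000000000000) (nat_lit 0x0) (nat_lit 0x40002001800080001000080005800e000200010000000) := T_48 (nat_lit 178) (nat_lit 161) (nat_lit 6) (nat_lit 8) (nat_lit 10) L120625 (by decide +kernel)
theorem L120627 : W_48 (nat_lit 9) (nat_lit 0x1000580028001000080000000000000000000) (nat_lit 0x0) (nat_lit 0x400020018000800010000c0007800e000200010000000) := T_48 (nat_lit 77) (nat_lit 94) (nat_lit 5) (nat_lit 9) (nat_lit 4) L120626 (by decide +kernel)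
theorem L120628 : W_48 (nat_lit 2) (nat_lit 0x90005800280010000e0000000000000000000) (nat_lit 0x0) (nat_lit 0x200010000800000000000000000000000000000000) := D_48 (nat_lit 148) (nat_lit 131) (nat_lit 165) (nat_lit 7) (nat_lit 11) (nat_lit 4) (nat_lit 7) (nat_lit 11) (nat_lit 5) (by decide +kernel)
theorem L120629 : W_48 (nat_lit 3) (nat_lit 0x10005800280010000e0000000000000000000) (nat_lit 0x0) (nat_lit 0x200018000800000000800000000000000000000000) := T_48 (nat_lit 147) (nat_lit 95) (nat_lit 4) (nat_lit 11) (nat_lit 8) L120628 (by decide +kernel)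
theorem L120630 : W_48 (nat_lit 4) (nat_lit 0x10005800280010000c0000000000000000000) (nat_lit 0x0) (nat_lit 0x200018000800000000c00020000000000000000000) := T_48 (nat_lit 77) (nat_lit 94) (nat_lit 5) (nat_lit 9) (nat_lit 4) L120629 (by decide +kernel)
theorem L120631 : W_48 (nat_lit 5) (nat_lit 0x1000580028001000080000000000000000000) (nat_lit 0x0) (nat_lit 0x200018000800000000c00060002000000000000000) := T_48 (nat_lit 78) (nat_lit 61) (nat_lit 4) (nat_lit 11) (nat_lit 7) L120630 (by decide +kernel)
theorem L120632 : W_48 (nat_lit 10) (nat_lit 0x1000580028001000000000000000000000000) (nat_lit 0x0) (nat_lit 0x14003a001c000800010000e001f800e000700010000000) := Q_48 (nat_lit 79) (C_48 L120429 (C_48 L120612 (C_48 L120619 (C_48 L120627 (C_48 L120631 N_48))))) (by decide +kernel)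
theorem L120633 : W_48 (nat_lit 2) (nat_lit 0x40000001d0015800a8007800200000000000000000000) (nat_lit 0x0) (nat_lit 0x60002000000000000000000000000000000000) := D_48 (nat_lit 133) (nat_lit 149) (nat_lit 150) (nat_lit 2) (nat_lit 10) (nat_lit 8) (nat_lit 7) (nat_lit 13) (nat_lit 4) (by decide +kernel)
theorem L120634 : W_48 (nat_lit 3) (nat_lit 0x40000001d0005800a8007800200000000000000000000) (nat_lit 0x0) (nat_lit 0x60003800000000000000000000000000000000) := T_48 (nat_lit 132) (nat_lit 131) (nat_lit 5) (nat_lit 13) (nat_lit 4) L120633 (by decide +kernel)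
theorem L120635 : W_48 (nat_lit 4) (nat_lit 0x4000000190005800a8007800200000000000000000000) (nat_lit 0x0) (nat_lit 0x80064003800000000000000000000000000000000) := T_48 (nat_lit 146) (nat_lit 163) (nat_lit 5) (nat_lit 11) (nat_lit 5) L120634 (by decide +kernel)
theorem L120636 : W_48 (nat_lit 5) (nat_lit 0x400000019000580028007800200000000000000000000) (nat_lit 0x0) (nat_lit 0x80064003800180000000000000000000000000000) := T_48 (nat_lit 115) (nat_lit 116) (nat_lit 3) (nat_lit 10) (nat_lit 5) L120635 (by decide +kernel)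
theorem L120637 : W_48 (nat_lit 6) (nat_lit 0x400000019000580028007800000000000000000000000) (nat_lit 0x0) (nat_lit 0x80064003800180000000600000000000000000000) := T_48 (nat_lit 81) (nat_lit 82) (nat_lit 2) (nat_lit 10) (nat_lit 5) L120636 (by decide +kernel)
theorem L120638 : W_48 (nat_lit 7) (nat_lit 0x400000009000580028007800000000000000000000000) (nat_lit 0x0) (nat_lit 0x280074003800180000000600000000000000000000) := T_48 (nat_lit 148) (nat_lit 165) (nat_lit 7) (nat_lit 11) (nat_lit 5) L120637 (by decide +kernel)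
theorem L120639 : W_48 (nat_lit 8) (nat_lit 0x400000009000580028003800000000000000000000000) (nat_lit 0x0) (nat_lit 0x280074003800190004000600000000000000000000) := T_48 (nat_lit 98) (nat_lit 112) (nat_lit 1) (nat_lit 13) (nat_lit 5) L120638 (by decide +kernel)
theorem L120640 : W_48 (nat_lit 9) (nat_lit 0x400000009000580028001800000000000000000000000) (nat_lit 0x0) (nat_lit 0x280074003800190006000700000000000000000000) := T_48 (nat_lit 97) (nat_lit 80) (nat_lit 6) (nat_lit 11) (nat_lit 8) L120639 (by decide +kernel)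
theorem L120641 : W_48 (nat_lit 10) (nat_lit 0x400000009000580028001000000000000000000000000) (nat_lit 0x0) (nat_lit 0x280074003800190006800740000000000000000000) := T_48 (nat_lit 95) (nat_lit 78) (nat_lit 4) (nat_lit 11) (nat_lit 8) L120640 (by decide +kernel)
theorem L120642 : W_48 (nat_lit 11) (nat_lit 0x9000580028001000000000000000000000000) (nat_lit 0x0) (nat_lit 0x4002a0074003800190006800740000000000000000000) := T_48 (nat_lit 178) (nat_lit 161) (nat_lit 6) (nat_lit 8) (nat_lit 10) L120641 (by decide +kernel)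
theorem L120643 : W_48 (nat_lit 12) (nat_lit 0x1000580028001000000000000000000000000) (nat_lit 0x0) (nat_lit 0x74003e007c80380019000ec00760000000000000000000) := Q_48 (nat_lit 147) (C_48 L120173 (C_48 L120376 (C_48 L120602 (C_48 L120178 (C_48 L120642 N_48))))) (by decide +kernel)
theorem L120644 : W_48 (nat_lit 2) (nat_lit 0x400100009000580028001800020000000000000000000) (nat_lit 0x0) (nat_lit 0x1000080004000000000000000000000000000000000000) := D_48 (nat_lit 163) (nat_lit 146) (nat_lit 180) (nat_lit 5) (nat_lit 11) (nat_lit 5) (nat_lit 5) (nat_lit 11) (nat_lit 6) (by decide +kernel)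
theorem L120645 : W_48 (nat_lit 3) (nat_lit 0x400000009000580028001800020000000000000000000) (nat_lit 0x0) (nat_lit 0x1000180004000000010000000000000000000000000000) := T_48 (nat_lit 164) (nat_lit 112) (nat_lit 4) (nat_lit 11) (nat_lit 9) L120644 (by decide +kernel)
theorem L120646 : W_48 (nat_lit 4) (nat_lit 0x400000009000580028001800000000000000000000000) (nat_lit 0x0) (nat_lit 0x1000180004000000010000400020000000000000000000) := T_48 (nat_lit 77) (nat_lit 94) (nat_lit 5) (nat_lit 9) (nat_lit 4) L120645 (by decide +kernel)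
theorem L120647 : W_48 (nat_lit 5) (nat_lit 0x400000009000580028001000000000000000000000000) (nat_lit 0x0) (nat_lit 0x1000180004000000010000c00060000000000000000000) := T_48 (nat_lit 95) (nat_lit 78) (nat_lit 4) (nat_lit 11) (nat_lit 8) L120646 (by decide +kernel)
theorem L120648 : W_48 (nat_lit 6) (nat_lit 0x9000580028001000000000000000000000000) (nat_lit 0x0) (nat_lit 0x14001a0004000000010000c00060000000000000000000) := T_48 (nat_lit 178) (nat_lit 161) (nat_lit 6) (nat_lit 8) (nat_lit 10) L120647 (by decide +kernel)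
theorem L120649 : W_48 (nat_lit 7) (nat_lit 0x1000580028001000000000000000000000000) (nat_lit 0x0) (nat_lit 0x74003e001c800800010000c000e0002000000000000000) := Q_48 (nat_lit 147) (C_48 L118852 (C_48 L120376 (C_48 L120236 (C_48 L120178 (C_48 L120648 N_48))))) (by decide +kernel)
theorem L120650 : W_48 (nat_lit 13) (nat_lit 0x1000580028000000000000000000000000000) (nat_lit 0x0) (nat_lit 0x74003e007c80380019000ff807f800ee00700010000000) := Q_48 (nat_lit 96) (C_48 L120565 (C_48 L117731 (C_48 L120568 (C_48 L120590 (C_48 L120603 (C_48 L120604 (C_48 L120632 (C_48 L120643 (C_48 L120649 N_48))))))))) (by decide +kernel)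
theorem L120651 : W_48 (nat_lit 2) (nat_lit 0x400000009000580038000800000000000000000000000) (nat_lit 0x0) (nat_lit 0x1000040002000000000000000) := D_48 (nat_lit 78) (nat_lit 96) (nat_lit 61) (nat_lit 4) (nat_lit 11) (nat_lit 8) (nat_lit 7) (nat_lit 10) (nat_lit 3) (by decide +kernel)
theorem L120652 : W_48 (nat_lit 3) (nat_lit 0x400000009000580038000000000000000000000000000) (nat_lit 0x0) (nat_lit 0x100000000000000001800040002000000000000000) := T_48 (nat_lit 95) (nat_lit 164) (nat_lit 4) (nat_lit 11) (nat_lit 9) L120651 (by decide +kernel)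
theorem L120653 : W_48 (nat_lit 4) (nat_lit 0x9000580038000000000000000000000000000) (nat_lit 0x0) (nat_lit 0x400120000000000000001800040002000000000000000) := T_48 (nat_lit 178) (nat_lit 161) (nat_lit 6) (nat_lit 8) (nat_lit 10) L120652 (by decide +kernel)
theorem L120654 : W_48 (nat_lit 2) (nat_lit 0x180009000580038001000000000000000000000000) (nat_lit 0x0) (nat_lit 0x4000200010000000000000000000000000000000000000) := D_48 (nat_lit 165) (nat_lit 182) (nat_lit 148) (nat_lit 7) (nat_lit 11) (nat_lit 6) (nat_lit 7) (nat_lit 11) (nat_lit 5) (by decide +kernel)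
theorem L120655 : W_48 (nat_lit 3) (nat_lit 0x180009000580038000000000000000000000000000) (nat_lit 0x0) (nat_lit 0x4000200014000000000001000000000000000000000000) := T_48 (nat_lit 96) (nat_lit 146) (nat_lit 5) (nat_lit 11) (nat_lit 5) L120654 (by decide +kernel)
theorem L120656 : W_48 (nat_lit 4) (nat_lit 0x100009000580038000000000000000000000000000) (nat_lit 0x0) (nat_lit 0x5000280014000000000001000000000000000000000000) := T_48 (nat_lit 163) (nat_lit 180) (nat_lit 5) (nat_lit 11) (nat_lit 6) L120655 (by decide +kernel)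
theorem L120657 : W_48 (nat_lit 5) (nat_lit 0x9000580038000000000000000000000000000) (nat_lit 0x0) (nat_lit 0x5000380014000000000001800000000000000000000000) := T_48 (nat_lit 164) (nat_lit 95) (nat_lit 4) (nat_lit 11) (nat_lit 9) L120656 (by decide +kernel)
theorem L120658 : W_48 (nat_lit 2) (nat_lit 0x400000019000580038001000100000000000000000000) (nat_lit 0x0) (nat_lit 0x800000000000080008000000000000000) := D_48 (nat_lit 79) (nat_lit 131) (nat_lit 63) (nat_lit 7) (nat_lit 11) (nat_lit 4) (nat_lit 6) (nat_lit 11) (nat_lit 7) (by decide +kernel)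
theorem L120659 : W_48 (nat_lit 3) (nat_lit 0x400000009000580038001000100000000000000000000) (nat_lit 0x0) (nat_lit 0x200010000800000000000080008000000000000000) := T_48 (nat_lit 148) (nat_lit 165) (nat_lit 7) (nat_lit 11) (nat_lit 5) L120658 (by decide +kernel)
theorem L120660 : W_48 (nat_lit 4) (nat_lit 0x400000009000580038001000000000000000000000000) (nat_lit 0x0) (nat_lit 0x200010000800000002000180008000000000000000) := T_48 (nat_lit 80) (nat_lit 97) (nat_lit 6) (nat_lit 11) (nat_lit 8) L120659 (by decide +kernel)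
theorem L120661 : W_48 (nat_lit 5) (nat_lit 0x9000580038001000000000000000000000000) (nat_lit 0x0) (nat_lit 0x400220010000800000002000180008000000000000000) := T_48 (nat_lit 178) (nat_lit 161) (nat_lit 6) (nat_lit 8) (nat_lit 10) L120660 (by decide +kernel)
theorem L120662 : W_48 (nat_lit 2) (nat_lit 0x19000580038001000080000000000000000000) (nat_lit 0x0) (nat_lit 0x2000100008000000000000000) := D_48 (nat_lit 80) (nat_lit 63) (nat_lit 97) (nat_lit 6) (nat_lit 11) (nat_lit 7) (nat_lit 6) (nat_lit 11) (nat_lit 8) (by decide +kernel)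
theorem L120663 : W_48 (nat_lit 3) (nat_lit 0x19000580038001000000000000000000000000) (nat_lit 0x0) (nat_lit 0x800000002000180008000000000000000) := T_48 (nat_lit 79) (nat_lit 131) (nat_lit 7) (nat_lit 11) (nat_lit 4) L120662 (by decide +kernel)
theorem L120664 : W_48 (nat_lit 4) (nat_lit 0x9000580038001000000000000000000000000) (nat_lit 0x0) (nat_lit 0x200010000800000002000180008000000000000000) := T_48 (nat_lit 148) (nat_lit 165) (nat_lit 7) (nat_lit 11) (nat_lit 5) L120663 (by decide +kernel)
theorem L120665 : W_48 (nat_lit 2) (nat_lit 0x1e0009000580038001000000000000000000000000) (nat_lit 0x0) (nat_lit 0x6000200000000000000000000000000000000000000000) := D_48 (nat_lit 182) (nat_lit 165) (nat_lit 181) (nat_lit 7) (nat_lit 11) (nat_lit 6) (nat_lit 3) (nat_lit 8) (nat_lit 9) (by decide +kernel)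
theorem L120666 : W_48 (nat_lit 3) (nat_lit 0x1a0009000580038001000000000000000000000000) (nat_lit 0x0) (nat_lit 0x6000240000800000000000000000000000000000000000) := T_48 (nat_lit 162) (nat_lit 143) (nat_lit 0) (nat_lit 11) (nat_lit 9) L120665 (by decide +kernel)
theorem L120667 : W_48 (nat_lit 4) (nat_lit 0xa0009000580038001000000000000000000000000) (nat_lit 0x0) (nat_lit 0x7000340000800000000000000000000000000000000000) := T_48 (nat_lit 164) (nat_lit 180) (nat_lit 5) (nat_lit 11) (nat_lit 6) L120666 (by decide +kernel)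
theorem L120668 : W_48 (nat_lit 5) (nat_lit 0x80009000580038001000000000000000000000000) (nat_lit 0x0) (nat_lit 0x7400360000800000000000000000000000000000000000) := T_48 (nat_lit 161) (nat_lit 178) (nat_lit 6) (nat_lit 8) (nat_lit 10) L120667 (by decide +kernel)
theorem L120669 : W_48 (nat_lit 6) (nat_lit 0x9000580038001000000000000000000000000) (nat_lit 0x0) (nat_lit 0x74003e0004800000000000000000000000000000000000) := T_48 (nat_lit 163) (nat_lit 146) (nat_lit 5) (nat_lit 11) (nat_lit 5) L120668 (by decide +kernel)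
theorem L120670 : W_48 (nat_lit 2) (nat_lit 0x1a0009000580038001000000000000000000000000) (nat_lit 0x0) (nat_lit 0x40010800000000000000000000000000000000000) := D_48 (nat_lit 162) (nat_lit 148) (nat_lit 143) (nat_lit 2) (nat_lit 8) (nat_lit 9) (nat_lit 0) (nat_lit 11) (nat_lit 9) (by decide +kernel)
theorem L120671 : W_48 (nat_lit 3) (nat_lit 0xa0009000580038001000000000000000000000000) (nat_lit 0x0) (nat_lit 0x1000140010800000000000000000000000000000000000) := T_48 (nat_lit 164) (nat_lit 180) (nat_lit 5) (nat_lit 11) (nat_lit 6) L120670 (by decide +kernel)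
theorem L120672 : W_48 (nat_lit 4) (nat_lit 0x80009000580038001000000000000000000000000) (nat_lit 0x0) (nat_lit 0x1400160010800000000000000000000000000000000000) := T_48 (nat_lit 161) (nat_lit 178) (nat_lit 6) (nat_lit 8) (nat_lit 10) L120671 (by decide +kernel)
theorem L120673 : W_48 (nat_lit 5) (nat_lit 0x9000580038001000000000000000000000000) (nat_lit 0x0) (nat_lit 0x14001e0014800000000000000000000000000000000000) := T_48 (nat_lit 163) (nat_lit 146) (nat_lit 5) (nat_lit 11) (nat_lit 5) L120672 (by decide +kernel)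
theorem L120674 : W_48 (nat_lit 7) (nat_lit 0x9000580038000000000000000000000000000) (nat_lit 0x0) (nat_lit 0x74003e0014800800000003000180008000000000000000) := Q_48 (nat_lit 96) (C_48 L120661 (C_48 L120664 (C_48 L120669 (C_48 L120673 N_48)))) (by decide +kernel)
theorem L120675 : W_48 (nat_lit 2) (nat_lit 0x400000009000580038003000000000000000000000000) (nat_lit 0x0) (nat_lit 0xc800000000000000000000000) := D_48 (nat_lit 98) (nat_lit 99) (nat_lit 95) (nat_lit 1) (nat_lit 14) (nat_lit 5) (nat_lit 1) (nat_lit 13) (nat_lit 5) (by decide +kernel)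
theorem L120676 : W_48 (nat_lit 3) (nat_lit 0x400000009000580038001000000000000000000000000) (nat_lit 0x0) (nat_lit 0xe800100000000000000000000) := T_48 (nat_lit 97) (nat_lit 80) (nat_lit 6) (nat_lit 11) (nat_lit 8) L120675 (by decide +kernel)
theorem L120677 : W_48 (nat_lit 4) (nat_lit 0x9000580038001000000000000000000000000) (nat_lit 0x0) (nat_lit 0x40002000000000000000e800100000000000000000000) := T_48 (nat_lit 178) (nat_lit 161) (nat_lit 6) (nat_lit 8) (nat_lit 10) L120676 (by decide +kernel)
theorem L120678 : W_48 (nat_lit 2) (nat_lit 0x40000001d000580038001000080000000000000000000) (nat_lit 0x0) (nat_lit 0x800040002000000000000000) := D_48 (nat_lit 78) (nat_lit 95) (nat_lit 61) (nat_lit 4) (nat_lit 11) (nat_lit 8) (nat_lit 4) (nat_lit 11) (nat_lit 7) (by decide +kernel)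
theorem L120679 : W_48 (nat_lit 3) (nat_lit 0x40000001d000580038001000000000000000000000000) (nat_lit 0x0) (nat_lit 0x8000000008000c0002000000000000000) := T_48 (nat_lit 79) (nat_lit 131) (nat_lit 7) (nat_lit 11) (nat_lit 4) L120678 (by decide +kernel)
theorem L120680 : W_48 (nat_lit 4) (nat_lit 0x40000000d000580038001000000000000000000000000) (nat_lit 0x0) (nat_lit 0x2000100008000000008000c0002000000000000000) := T_48 (nat_lit 148) (nat_lit 165) (nat_lit 7) (nat_lit 11) (nat_lit 5) L120679 (by decide +kernel)
theorem L120681 : W_48 (nat_lit 5) (nat_lit 0xd000580038001000000000000000000000000) (nat_lit 0x0) (nat_lit 0x4002200100008000000008000c0002000000000000000) := T_48 (nat_lit 178) (nat_lit 161) (nat_lit 6) (nat_lit 8) (nat_lit 10) L120680 (by decide +kernel)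
theorem L120682 : W_48 (nat_lit 6) (nat_lit 0x9000580038001000000000000000000000000) (nat_lit 0x0) (nat_lit 0x4002a00140008000000008000c0002000000000000000) := T_48 (nat_lit 146) (nat_lit 163) (nat_lit 5) (nat_lit 11) (nat_lit 5) L120681 (by decide +kernel)
theorem L120683 : W_48 (nat_lit 7) (nat_lit 0x9000580038000000000000000000000000000) (nat_lit 0x0) (nat_lit 0x4002a001400080000000f8001c000a000000000000000) := Q_48 (nat_lit 96) (C_48 L120664 (C_48 L120677 (C_48 L120682 N_48))) (by decide +kernel)
theorem L120684 : W_48 (nat_lit 2) (nat_lit 0x400fc0029000580038000000000000000000000000000) (nat_lit 0x0) (nat_lit 0x38000000000000000000000000000000000000000000000) := D_48 (nat_lit 184) (nat_lit 183) (nat_lit 185) (nat_lit 3) (nat_lit 10) (nat_lit 9) (nat_lit 3) (nat_lit 11) (nat_lit 9) (by decide +kernel)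
theorem L120685 : W_48 (nat_lit 3) (nat_lit 0x4007c0029000580038000000000000000000000000000) (nat_lit 0x0) (nat_lit 0x38000800004000000000000000000000000000000000000) := T_48 (nat_lit 167) (nat_lit 146) (nat_lit 0) (nat_lit 14) (nat_lit 9) L120684 (by decide +kernel)
theorem L120686 : W_48 (nat_lit 4) (nat_lit 0x4003c0029000580038000000000000000000000000000) (nat_lit 0x0) (nat_lit 0x38000c00044000000000000000000000000000000000000) := T_48 (nat_lit 166) (nat_lit 150) (nat_lit 2) (nat_lit 10) (nat_lit 9) L120685 (by decide +kernel)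
theorem L120687 : W_48 (nat_lit 5) (nat_lit 0x4003c0009000580038000000000000000000000000000) (nat_lit 0x0) (nat_lit 0x38000c00074000000000000000000000000000000000000) := T_48 (nat_lit 149) (nat_lit 148) (nat_lit 2) (nat_lit 9) (nat_lit 9) L120686 (by decide +kernel)
theorem L120688 : W_48 (nat_lit 6) (nat_lit 0x400380009000580038000000000000000000000000000) (nat_lit 0x0) (nat_lit 0x38800c40074000000000000000000000000000000000000) := T_48 (nat_lit 162) (nat_lit 179) (nat_lit 1) (nat_lit 12) (nat_lit 9) L120687 (by decide +kernel)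
theorem L120689 : W_48 (nat_lit 7) (nat_lit 0x400180009000580038000000000000000000000000000) (nat_lit 0x0) (nat_lit 0x3c800e40074000000000000000000000000000000000000) := T_48 (nat_lit 165) (nat_lit 182) (nat_lit 7) (nat_lit 11) (nat_lit 6) L120688 (by decide +kernel)
theorem L120690 : W_48 (nat_lit 8) (nat_lit 0x400100009000580038000000000000000000000000000) (nat_lit 0x0) (nat_lit 0x3d800ec0074000000000000000000000000000000000000) := T_48 (nat_lit 163) (nat_lit 180) (nat_lit 5) (nat_lit 11) (nat_lit 6) L120689 (by decide +kernel)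
theorem L120691 : W_48 (nat_lit 9) (nat_lit 0x400000009000580038000000000000000000000000000) (nat_lit 0x0) (nat_lit 0x3d800fc0074000000000000800000000000000000000000) := T_48 (nat_lit 164) (nat_lit 95) (nat_lit 4) (nat_lit 11) (nat_lit 9) L120690 (by decide +kernel)
theorem L120692 : W_48 (nat_lit 10) (nat_lit 0x9000580038000000000000000000000000000) (nat_lit 0x0) (nat_lit 0x3dc00fe0074000000000000800000000000000000000000) := T_48 (nat_lit 178) (nat_lit 161) (nat_lit 6) (nat_lit 8) (nat_lit 10) L120691 (by decide +kernel)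
theorem L120693 : W_48 (nat_lit 11) (nat_lit 0x1000580038000000000000000000000000000) (nat_lit 0x0) (nat_lit 0x3fc00fe007c80080000000f8001c000a000000000000000) := Q_48 (nat_lit 147) (C_48 L120653 (C_48 L120657 (C_48 L120674 (C_48 L120683 (C_48 L120692 N_48))))) (by decide +kernel)
theorem L120694 : W_48 (nat_lit 5) (nat_lit 0x100058003c000000000000000000000000000) (nat_lit 0x0) (nat_lit 0x400120008000000002003800040000000000000000000) := T_48 (nat_lit 178) (nat_lit 161) (nat_lit 6) (nat_lit 8) (nat_lit 10) L119639 (by decide +kernel)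
theorem L120695 : W_48 (nat_lit 7) (nat_lit 0x100058003c001200000000000000000000000) (nat_lit 0x0) (nat_lit 0x4000200000000000000008000f8007c00000000000000) := T_48 (nat_lit 178) (nat_lit 161) (nat_lit 6) (nat_lit 8) (nat_lit 10) L117265 (by decide +kernel)
theorem L120696 : W_48 (nat_lit 8) (nat_lit 0x100058003c001000000000000000000000000) (nat_lit 0x0) (nat_lit 0x400020000000000000000b000f8007c00000000000000) := T_48 (nat_lit 93) (nat_lit 92) (nat_lit 0) (nat_lit 11) (nat_lit 6) L120695 (by decide +kernel)
theorem L120697 : W_48 (nat_lit 9) (nat_lit 0x100058003c000000000000000000000000000) (nat_lit 0x0) (nat_lit 0x400020000000000000003b000f8007c00000000000000) := T_48 (nat_lit 96) (nat_lit 97) (nat_lit 2) (nat_lit 8) (nat_lit 6) L120696 (by decide +kernel)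
theorem L120698 : W_48 (nat_lit 2) (nat_lit 0x100058003c000100000000000000000000000) (nat_lit 0x0) (nat_lit 0x400020000000000002000000000000000000000000000) := D_48 (nat_lit 161) (nat_lit 178) (nat_lit 109) (nat_lit 6) (nat_lit 8) (nat_lit 10) (nat_lit 4) (nat_lit 8) (nat_lit 9) (by decide +kernel)
theorem L120699 : W_48 (nat_lit 3) (nat_lit 0x100058003c000000000000000000000000000) (nat_lit 0x0) (nat_lit 0x400020000000000002000300000000000000000000000) := T_48 (nat_lit 92) (nat_lit 93) (nat_lit 0) (nat_lit 11) (nat_lit 6) L120698 (by decide +kernel)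
theorem L120700 : W_48 (nat_lit 10) (nat_lit 0x1000580038000000000000000000000000000) (nat_lit 0x0) (nat_lit 0x400120008000000006003b800f8007c00000000000000) := Q_48 (nat_lit 110) (C_48 L117701 (C_48 L120694 (C_48 L120697 (C_48 L120699 N_48)))) (by decide +kernel)
theorem L120701 : W_48 (nat_lit 12) (nat_lit 0x1000580028000000000000000000000000000) (nat_lit 0x0) (nat_lit 0x3fc00fe007c80080001600fb801f800fc00000000000000) := Q_48 (nat_lit 112) (C_48 L120259 (C_48 L119641 (C_48 L117269 (C_48 L117702 (C_48 L120693 (C_48 L120700 N_48)))))) (by decide +kernel)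
theorem L120702 : W_48 (nat_lit 4) (nat_lit 0x100058002c000000020000000000000000000) (nat_lit 0x0) (nat_lit 0x800010000300010001800000000000000) := T_48 (nat_lit 112) (nat_lit 131) (nat_lit 3) (nat_lit 8) (nat_lit 6) L117734 (by decide +kernel)
theorem L120703 : W_48 (nat_lit 5) (nat_lit 0x100058002c000000000000000000000000000) (nat_lit 0x0) (nat_lit 0x800010000700030001800000000000000) := T_48 (nat_lit 77) (nat_lit 94) (nat_lit 5) (nat_lit 9) (nat_lit 4) L120702 (by decide +kernel)
theorem L120704 : W_48 (nat_lit 2) (nat_lit 0x14005a002f000780004000000010000000000) (nat_lit 0x0) (nat_lit 0x4000a00000000000000000000000000000000000) := D_48 (nat_lit 141) (nat_lit 158) (nat_lit 143) (nat_lit 5) (nat_lit 6) (nat_lit 5) (nat_lit 2) (nat_lit 5) (nat_lit 8) (by decide +kernel)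
theorem L120705 : W_48 (nat_lit 3) (nat_lit 0x10005a002f000780004000000010000000000) (nat_lit 0x0) (nat_lit 0xc000e00000000000000000000000000000000000) := T_48 (nat_lit 142) (nat_lit 159) (nat_lit 6) (nat_lit 6) (nat_lit 9) L120704 (by decide +kernel)
theorem L120706 : W_48 (nat_lit 4) (nat_lit 0x10005a002f000780004000000000000000000) (nat_lit 0x0) (nat_lit 0xc000e00000000000000000000200010000000000) := T_48 (nat_lit 40) (nat_lit 57) (nat_lit 7) (nat_lit 6) (nat_lit 2) L120705 (by decide +kernel)
theorem L120707 : W_48 (nat_lit 5) (nat_lit 0x100058002f000780004000000000000000000) (nat_lit 0x0) (nat_lit 0xc000e00030000000000000000200010000000000) := T_48 (nat_lit 125) (nat_lit 124) (nat_lit 1) (nat_lit 9) (nat_lit 6) L120706 (by decide +kernel)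
theorem L120708 : W_48 (nat_lit 6) (nat_lit 0x100058002d000780004000000000000000000) (nat_lit 0x0) (nat_lit 0xc000e00030002000800000000200010000000000) := T_48 (nat_lit 109) (nat_lit 95) (nat_lit 2) (nat_lit 6) (nat_lit 6) L120707 (by decide +kernel)
theorem L120709 : W_48 (nat_lit 7) (nat_lit 0x100058002d000780000000000000000000000) (nat_lit 0x0) (nat_lit 0xc000e00030002000800006000200010000000000) := T_48 (nat_lit 74) (nat_lit 73) (nat_lit 0) (nat_lit 9) (nat_lit 5) L120708 (by decide +kernel)
theorem L120710 : W_48 (nat_lit 8) (nat_lit 0x100058002c000780000000000000000000000) (nat_lit 0x0) (nat_lit 0xc000e00030003800800006000200010000000000) := T_48 (nat_lit 108) (nat_lit 107) (nat_lit 1) (nat_lit 9) (nat_lit 5) L120709 (by decide +kernel)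
theorem L120711 : W_48 (nat_lit 9) (nat_lit 0x100058002c000700000000000000000000000) (nat_lit 0x0) (nat_lit 0xc000e000300038008c0006000200010000000000) := T_48 (nat_lit 91) (nat_lit 90) (nat_lit 3) (nat_lit 5) (nat_lit 5) L120710 (by decide +kernel)
theorem L120712 : W_48 (nat_lit 10) (nat_lit 0x100058002c000600000000000000000000000) (nat_lit 0x0) (nat_lit 0xc000e000300038009c000e000200010000000000) := T_48 (nat_lit 92) (nat_lit 75) (nat_lit 4) (nat_lit 8) (nat_lit 8) L120711 (by decide +kernel)
theorem L120713 : W_48 (nat_lit 11) (nat_lit 0x100058002c000200000000000000000000000) (nat_lit 0x0) (nat_lit 0xc000e00030003800dc002e000200010000000000) := T_48 (nat_lit 94) (nat_lit 77) (nat_lit 6) (nat_lit 8) (nat_lit 8) L120712 (by decide +kernel)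
theorem L120714 : W_48 (nat_lit 2) (nat_lit 0x100058002c000200010000000000000000000) (nat_lit 0x0) (nat_lit 0x400020001000000000000000) := D_48 (nat_lit 77) (nat_lit 94) (nat_lit 60) (nat_lit 6) (nat_lit 8) (nat_lit 8) (nat_lit 6) (nat_lit 8) (nat_lit 7) (by decide +kernel)
theorem L120715 : W_48 (nat_lit 3) (nat_lit 0x100058002c000200000000000000000000000) (nat_lit 0x0) (nat_lit 0x400030001800000000000000) := T_48 (nat_lit 76) (nat_lit 59) (nat_lit 7) (nat_lit 8) (nat_lit 3) L120714 (by decide +kernel)
theorem L120716 : W_48 (nat_lit 12) (nat_lit 0x100058002c000000000000000000000000000) (nat_lit 0x0) (nat_lit 0xc000e00030003800fc003e001e00010000000000) := Q_48 (nat_lit 93) (C_48 L117590 (C_48 L120713 (C_48 L120715 N_48))) (by decide +kernel)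
theorem L120717 : W_48 (nat_lit 6) (nat_lit 0x100058002c000000020000000000000000000) (nat_lit 0x0) (nat_lit 0x8000138039c0000000000000000000000) := T_48 (nat_lit 112) (nat_lit 131) (nat_lit 3) (nat_lit 8) (nat_lit 6) L118876 (by decide +kernel)
theorem L120718 : W_48 (nat_lit 7) (nat_lit 0x100058002c000000000000000000000000000) (nat_lit 0x0) (nat_lit 0x800013803dc0020000000000000000000) := T_48 (nat_lit 77) (nat_lit 94) (nat_lit 5) (nat_lit 9) (nat_lit 4) L120717 (by decide +kernel)
theorem L120719 : W_48 (nat_lit 5) (nat_lit 0x100058002c000000000000000000000000000) (nat_lit 0x0) (nat_lit 0x800012003b80000000000000000000000) := T_48 (nat_lit 112) (nat_lit 131) (nat_lit 3) (nat_lit 8) (nat_lit 6) L117701 (by decide +kernel)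
theorem L120720 : W_48 (nat_lit 2) (nat_lit 0x100058003c001800000000000000000000000) (nat_lit 0x0) (nat_lit 0x100008000000000000000040000000000000000000) := D_48 (nat_lit 147) (nat_lit 78) (nat_lit 164) (nat_lit 4) (nat_lit 11) (nat_lit 8) (nat_lit 4) (nat_lit 11) (nat_lit 9) (by decide +kernel)
theorem L120721 : W_48 (nat_lit 3) (nat_lit 0x100058003c001000000000000000000000000) (nat_lit 0x0) (nat_lit 0x100008000000002000800040000000000000000000) := T_48 (nat_lit 95) (nat_lit 109) (nat_lit 2) (nat_lit 7) (nat_lit 6) L120720 (by decide +kernel)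
theorem L120722 : W_48 (nat_lit 4) (nat_lit 0x100058003c000000000000000000000000000) (nat_lit 0x0) (nat_lit 0x100008000000002003800040000000000000000000) := T_48 (nat_lit 96) (nat_lit 97) (nat_lit 2) (nat_lit 8) (nat_lit 6) L120721 (by decide +kernel)
theorem L120723 : W_48 (nat_lit 5) (nat_lit 0x100058002c000000000000000000000000000) (nat_lit 0x0) (nat_lit 0x100008000800012003800040000000000000000000) := T_48 (nat_lit 112) (nat_lit 131) (nat_lit 3) (nat_lit 8) (nat_lit 6) L120722 (by decide +kernel)
theorem L120724 : W_48 (nat_lit 13) (nat_lit 0x1000580028000000000000000000000000000) (nat_lit 0x0) (nat_lit 0x10c008e00830017803fc007e001e00010000000000) := Q_48 (nat_lit 110) (C_48 L120703 (C_48 L120716 (C_48 L120718 (C_48 L120719 (C_48 L120723 N_48))))) (by decide +kernel)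
theorem L120725 : W_48 (nat_lit 2) (nat_lit 0x6000100058003e800000000000000000000000000) (nat_lit 0x0) (nat_lit 0x3800000000000000000000000) := D_48 (nat_lit 96) (nat_lit 97) (nat_lit 95) (nat_lit 2) (nat_lit 8) (nat_lit 6) (nat_lit 2) (nat_lit 7) (nat_lit 6) (by decide +kernel)
theorem L120726 : W_48 (nat_lit 3) (nat_lit 0x6000100058002e800000000000000000000000000) (nat_lit 0x0) (nat_lit 0x800010003800000000000000000000000) := T_48 (nat_lit 112) (nat_lit 131) (nat_lit 3) (nat_lit 8) (nat_lit 6) L120725 (by decide +kernel)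
theorem L120727 : W_48 (nat_lit 4) (nat_lit 0x2000100058002e800000000000000000000000000) (nat_lit 0x0) (nat_lit 0x800040000000800010003800000000000000000000000) := T_48 (nat_lit 162) (nat_lit 179) (nat_lit 7) (nat_lit 8) (nat_lit 6) L120726 (by decide +kernel)
theorem L120728 : W_48 (nat_lit 5) (nat_lit 0x2000100058002e000000000000000000000000000) (nat_lit 0x0) (nat_lit 0x800040000000800011803800000000000000000000000) := T_48 (nat_lit 107) (nat_lit 108) (nat_lit 3) (nat_lit 5) (nat_lit 6) L120727 (by decide +kernel)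
theorem L120729 : W_48 (nat_lit 6) (nat_lit 0x2000100058002c000000000000000000000000000) (nat_lit 0x0) (nat_lit 0x800040000000800013803900000000000000000000000) := T_48 (nat_lit 109) (nat_lit 92) (nat_lit 4) (nat_lit 8) (nat_lit 9) L120728 (by decide +kernel)
theorem L120730 : W_48 (nat_lit 7) (nat_lit 0x20001000580028000000000000000000000000000) (nat_lit 0x0) (nat_lit 0x800040000000800017803d00000000000000000000000) := T_48 (nat_lit 110) (nat_lit 94) (nat_lit 6) (nat_lit 8) (nat_lit 9) L120729 (by decide +kernel)
theorem L120731 : W_48 (nat_lit 8) (nat_lit 0x1000580028000000000000000000000000000) (nat_lit 0x0) (nat_lit 0xc00060000000800017803d00000000000000000000000) := T_48 (nat_lit 161) (nat_lit 178) (nat_lit 6) (nat_lit 8) (nat_lit 10) L120730 (by decide +kernel)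
theorem L120732 : W_48 (nat_lit 14) (nat_lit 0x1000580020000000000000000000000000000) (nat_lit 0x0) (nat_lit 0x3fc00fec07ce0383019f80ffc07fe00fe00710010000000) := Q_48 (nat_lit 111) (C_48 L120650 (C_48 L118816 (C_48 L117746 (C_48 L120701 (C_48 L120724 (C_48 L120731 N_48)))))) (by decide +kernel)
theorem L120733 : W_48 (nat_lit 17) (nat_lit 0x1000580000000000000000000000000000000) (nat_lit 0x0) (nat_lit 0x2c001f807fc03ff81fec0fce078307ff83ffc0ffe07fe03f90078001400) := Q_48 (nat_lit 113) (C_48 L117747 (C_48 L118811 (C_48 L118880 (C_48 L119287 (C_48 L119461 (C_48 L119599 (C_48 L119636 (C_48 L119643 (C_48 L119884 (C_48 L120090 (C_48 L120181 (C_48 L120261 (C_48 L120406 (C_48 L120567 (C_48 L120732 N_48))))))))))))))) (by decide +kernel)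
theorem L120734 : W_48 (nat_lit 6) (nat_lit 0x1000580000000000000000000000000000000) (nat_lit 0x0) (nat_lit 0x20018800a0000e000400020000000000000000000) := T_48 (nat_lit 129) (nat_lit 143) (nat_lit 1) (nat_lit 11) (nat_lit 7) L117565 (by decide +kernel)
theorem L120735 : W_48 (nat_lit 6) (nat_lit 0x1000580000000000000000000000000000000) (nat_lit 0x0) (nat_lit 0x400020000800a0006e000400000000000000000000000) := T_48 (nat_lit 129) (nat_lit 143) (nat_lit 1) (nat_lit 11) (nat_lit 7) L117483 (by decide +kernel)
theorem L120736 : W_48 (nat_lit 11) (nat_lit 0x1000580000000000000000000000000000000) (nat_lit 0x0) (nat_lit 0x34001a001c80020007e007f001e0004000000000000000) := T_48 (nat_lit 129) (nat_lit 143) (nat_lit 1) (nat_lit 11) (nat_lit 7) L117561 (by decide +kernel)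
theorem L120737 : W_48 (nat_lit 18) (nat_lit 0x1000180000000000000000000000000000000) (nat_lit 0x0) (nat_lit 0x2c001f807fc03ff81fec0fce07e307ff83ffc0ffe07fe03f90078001400) := Q_48 (nat_lit 130) (C_48 L117569 (C_48 L117570 (C_48 L120733 (C_48 L120734 (C_48 L120735 (C_48 L120736 N_48)))))) (by decide +kernel)
theorem L120738 : W_48 (nat_lit 2) (nat_lit 0x100018000c000000000000000000000000000) (nat_lit 0x0) (nat_lit 0x20000000000000000400020000000000000000000) := D_48 (nat_lit 94) (nat_lit 77) (nat_lit 161) (nat_lit 5) (nat_lit 9) (nat_lit 4) (nat_lit 6) (nat_lit 8) (nat_lit 9) (by decide +kernel)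
theorem L120739 : W_48 (nat_lit 2) (nat_lit 0x100018000e000000000000000000000000000) (nat_lit 0x0) (nat_lit 0x600001000000000000000000000000000) := D_48 (nat_lit 129) (nat_lit 130) (nat_lit 108) (nat_lit 0) (nat_lit 11) (nat_lit 7) (nat_lit 3) (nat_lit 6) (nat_lit 6) (by decide +kernel)
theorem L120740 : W_48 (nat_lit 5) (nat_lit 0x6000100018000f000080000000000000000000000) (nat_lit 0x0) (nat_lit 0x70070003800000000000000000000000) := T_48 (nat_lit 125) (nat_lit 124) (nat_lit 1) (nat_lit 9) (nat_lit 6) L116386 (by decide +kernel)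
theorem L120741 : W_48 (nat_lit 6) (nat_lit 0x6000100018000f000000000000000000000000000) (nat_lit 0x0) (nat_lit 0x700700038c0000000000000000000000) := T_48 (nat_lit 91) (nat_lit 90) (nat_lit 0) (nat_lit 9) (nat_lit 6) L120740 (by decide +kernel)
theorem L120742 : W_48 (nat_lit 7) (nat_lit 0x2000100018000f000000000000000000000000000) (nat_lit 0x0) (nat_lit 0x8000400000000700700038c0000000000000000000000) := T_48 (nat_lit 162) (nat_lit 179) (nat_lit 7) (nat_lit 8) (nat_lit 6) L120741 (by decide +kernel)
theorem L120743 : W_48 (nat_lit 8) (nat_lit 0x2000100018000e000000000000000000000000000) (nat_lit 0x0) (nat_lit 0x8000400000000700718038c0000000000000000000000) := T_48 (nat_lit 108) (nat_lit 107) (nat_lit 3) (nat_lit 5) (nat_lit 6) L120742 (by decide +kernel)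
theorem L120744 : W_48 (nat_lit 9) (nat_lit 0x100018000e000000000000000000000000000) (nat_lit 0x0) (nat_lit 0x8000600000000700718039c0000000000000000000000) := T_48 (nat_lit 161) (nat_lit 92) (nat_lit 4) (nat_lit 8) (nat_lit 9) L120743 (by decide +kernel)
theorem L120745 : W_48 (nat_lit 2) (nat_lit 0x100018000e000100000000000000000000000) (nat_lit 0x0) (nat_lit 0x200008000400000000000000) := D_48 (nat_lit 75) (nat_lit 93) (nat_lit 58) (nat_lit 4) (nat_lit 8) (nat_lit 8) (nat_lit 7) (nat_lit 7) (nat_lit 3) (by decide +kernel)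
theorem L120746 : W_48 (nat_lit 3) (nat_lit 0x100018000e000000000000000000000000000) (nat_lit 0x0) (nat_lit 0x20000000000000000300008000400000000000000) := T_48 (nat_lit 92) (nat_lit 161) (nat_lit 4) (nat_lit 8) (nat_lit 9) L120745 (by decide +kernel)
theorem L120747 : W_48 (nat_lit 10) (nat_lit 0x100018000c000000000000000000000000000) (nat_lit 0x0) (nat_lit 0x800060000000670073803bc0008000400000000000000) := Q_48 (nat_lit 109) (C_48 L120739 (C_48 L120744 (C_48 L120746 N_48))) (by decide +kernel)
theorem L120748 : W_48 (nat_lit 2) (nat_lit 0x10001a000f000080020000000000000000000) (nat_lit 0x0) (nat_lit 0x40010000100000000000000000000000) := D_48 (nat_lit 112) (nat_lit 126) (nat_lit 92) (nat_lit 2) (nat_lit 6) (nat_lit 7) (nat_lit 0) (nat_lit 10) (nat_lit 6) (by decide +kernel)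
theorem L120749 : W_48 (nat_lit 3) (nat_lit 0x10001a000f000000020000000000000000000) (nat_lit 0x0) (nat_lit 0x400100001c0000000000000000000000) := T_48 (nat_lit 91) (nat_lit 90) (nat_lit 0) (nat_lit 9) (nat_lit 6) L120748 (by decide +kernel)
theorem L120750 : W_48 (nat_lit 4) (nat_lit 0x100018000f000000020000000000000000000) (nat_lit 0x0) (nat_lit 0x700100001c0000000000000000000000) := T_48 (nat_lit 125) (nat_lit 124) (nat_lit 1) (nat_lit 9) (nat_lit 6) L120749 (by decide +kernel)
theorem L120751 : W_48 (nat_lit 5) (nat_lit 0x100018000e000000020000000000000000000) (nat_lit 0x0) (nat_lit 0x700118001c0000000000000000000000) := T_48 (nat_lit 108) (nat_lit 107) (nat_lit 3) (nat_lit 5) (nat_lit 6) L120750 (by decide +kernel)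
theorem L120752 : W_48 (nat_lit 6) (nat_lit 0x100018000e000000000000000000000000000) (nat_lit 0x0) (nat_lit 0x700118005c0020000000000000000000) := T_48 (nat_lit 77) (nat_lit 94) (nat_lit 5) (nat_lit 9) (nat_lit 4) L120751 (by decide +kernel)
theorem L120753 : W_48 (nat_lit 2) (nat_lit 0x100018001e000000000000000000000000000) (nat_lit 0x0) (nat_lit 0x60020000000000000000000000000000) := D_48 (nat_lit 126) (nat_lit 125) (nat_lit 113) (nat_lit 2) (nat_lit 6) (nat_lit 7) (nat_lit 1) (nat_lit 11) (nat_lit 6) (by decide +kernel)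
theorem L120754 : W_48 (nat_lit 2) (nat_lit 0x100018001e000000000000000000000000000) (nat_lit 0x0) (nat_lit 0x40060000000000000000000000000000) := D_48 (nat_lit 113) (nat_lit 126) (nat_lit 114) (nat_lit 1) (nat_lit 11) (nat_lit 6) (nat_lit 1) (nat_lit 12) (nat_lit 6) (by decide +kernel)
theorem L120755 : W_48 (nat_lit 2) (nat_lit 0x100058001e000000000000000000000000000) (nat_lit 0x0) (nat_lit 0x800060000000000000000000000000000) := D_48 (nat_lit 113) (nat_lit 114) (nat_lit 131) (nat_lit 1) (nat_lit 12) (nat_lit 6) (nat_lit 3) (nat_lit 8) (nat_lit 6) (by decide +kernel)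
theorem L120756 : W_48 (nat_lit 3) (nat_lit 0x100018001e000000000000000000000000000) (nat_lit 0x0) (nat_lit 0xe00060000000000000000000000000000) := T_48 (nat_lit 130) (nat_lit 129) (nat_lit 3) (nat_lit 7) (nat_lit 6) L120755 (by decide +kernel)
theorem L120757 : W_48 (nat_lit 2) (nat_lit 0x10005a001e000900000000000000000000000) (nat_lit 0x0) (nat_lit 0x200008000400000000000000) := D_48 (nat_lit 75) (nat_lit 93) (nat_lit 58) (nat_lit 4) (nat_lit 8) (nat_lit 8) (nat_lit 7) (nat_lit 7) (nat_lit 3) (by decide +kernel)
theorem L120758 : W_48 (nat_lit 3) (nat_lit 0x10005a001e000800000000000000000000000) (nat_lit 0x0) (nat_lit 0x380008000400000000000000) := T_48 (nat_lit 92) (nat_lit 91) (nat_lit 0) (nat_lit 10) (nat_lit 6) L120757 (by decide +kernel)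
theorem L120759 : W_48 (nat_lit 4) (nat_lit 0x10005a001e000000000000000000000000000) (nat_lit 0x0) (nat_lit 0x1b80008000400000000000000) := T_48 (nat_lit 95) (nat_lit 96) (nat_lit 2) (nat_lit 7) (nat_lit 6) L120758 (by decide +kernel)
theorem L120760 : W_48 (nat_lit 5) (nat_lit 0x10001a001e000000000000000000000000000) (nat_lit 0x0) (nat_lit 0x600000001b80008000400000000000000) := T_48 (nat_lit 130) (nat_lit 129) (nat_lit 3) (nat_lit 7) (nat_lit 6) L120759 (by decide +kernel)
theorem L120761 : W_48 (nat_lit 6) (nat_lit 0x100018001e000000000000000000000000000) (nat_lit 0x0) (nat_lit 0x660000001b80008000400000000000000) := T_48 (nat_lit 125) (nat_lit 126) (nat_lit 2) (nat_lit 6) (nat_lit 7) L120760 (by decide +kernel)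
theorem L120762 : W_48 (nat_lit 7) (nat_lit 0x100018000e000000000000000000000000000) (nat_lit 0x0) (nat_lit 0xe60070001b80008000400000000000000) := Q_48 (nat_lit 112) (C_48 L120753 (C_48 L120754 (C_48 L120756 (C_48 L120761 N_48)))) (by decide +kernel)
theorem L120763 : W_48 (nat_lit 8) (nat_lit 0x100018000c000000000000000000000000000) (nat_lit 0x0) (nat_lit 0xe70073801fc0028000400000000000000) := Q_48 (nat_lit 109) (C_48 L120739 (C_48 L120752 (C_48 L120762 N_48))) (by decide +kernel)
theorem L120764 : W_48 (nat_lit 11) (nat_lit 0x1000180008000000000000000000000000000) (nat_lit 0x0) (nat_lit 0x800060000000e70077803fc0028000400000000000000) := Q_48 (nat_lit 110) (C_48 L120738 (C_48 L120747 (C_48 L120763 N_48))) (by decide +kernel)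
theorem L120765 : W_48 (nat_lit 2) (nat_lit 0x10001a001c000200008000000000000000000) (nat_lit 0x0) (nat_lit 0x10000c00000000000000) := D_48 (nat_lit 76) (nat_lit 59) (nat_lit 58) (nat_lit 7) (nat_lit 8) (nat_lit 3) (nat_lit 4) (nat_lit 8) (nat_lit 7) (by decide +kernel)
theorem L120766 : W_48 (nat_lit 3) (nat_lit 0x10001a001c000200000000000000000000000) (nat_lit 0x0) (nat_lit 0x100018000c00000000000000) := T_48 (nat_lit 75) (nat_lit 92) (nat_lit 4) (nat_lit 8) (nat_lit 8) L120765 (by decide +kernel)
theorem L120767 : W_48 (nat_lit 2) (nat_lit 0x4000000010001f0008000000000000000000000000000) (nat_lit 0x0) (nat_lit 0x700000000000000000000000000000000000) := D_48 (nat_lit 141) (nat_lit 140) (nat_lit 142) (nat_lit 1) (nat_lit 8) (nat_lit 7) (nat_lit 1) (nat_lit 9) (nat_lit 7) (by decide +kernel)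
theorem L120768 : W_48 (nat_lit 3) (nat_lit 0x4000000010001e0008000000000000000000000000000) (nat_lit 0x0) (nat_lit 0x700010004000000000000000000000000000) := T_48 (nat_lit 124) (nat_lit 110) (nat_lit 2) (nat_lit 5) (nat_lit 7) L120767 (by decide +kernel)
theorem L120769 : W_48 (nat_lit 4) (nat_lit 0x4000000010001c0008000000000000000000000000000) (nat_lit 0x0) (nat_lit 0x700030014000000000000000000000000000) := T_48 (nat_lit 125) (nat_lit 112) (nat_lit 2) (nat_lit 6) (nat_lit 7) L120768 (by decide +kernel)
theorem L120770 : W_48 (nat_lit 5) (nat_lit 0x10001c0008000000000000000000000000000) (nat_lit 0x0) (nat_lit 0x400020000700030014000000000000000000000000000) := T_48 (nat_lit 178) (nat_lit 161) (nat_lit 6) (nat_lit 8) (nat_lit 10) L120769 (by decide +kernel)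
theorem L120773 : W_48 (nat_lit 4) (nat_lit 0x10001c0008000000000000000000000000000) (nat_lit 0x0) (nat_lit 0x700030014000000000000000000000000000) := T_48 (nat_lit 125) (nat_lit 112) (nat_lit 2) (nat_lit 6) (nat_lit 7) L120772 (by decide +kernel)
theorem L120774 : W_48 (nat_lit 2) (nat_lit 0x4000000090003c0028000000000000000000000000000) (nat_lit 0x0) (nat_lit 0x10000400040000000000000000000000000000) := D_48 (nat_lit 130) (nat_lit 148) (nat_lit 114) (nat_lit 3) (nat_lit 8) (nat_lit 7) (nat_lit 2) (nat_lit 8) (nat_lit 7) (by decide +kernel)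
theorem L120775 : W_48 (nat_lit 3) (nat_lit 0x4000000090003c0008000000000000000000000000000) (nat_lit 0x0) (nat_lit 0x10000400070000000000000000000000000000) := T_48 (nat_lit 113) (nat_lit 112) (nat_lit 2) (nat_lit 7) (nat_lit 7) L120774 (by decide +kernel)
theorem L120776 : W_48 (nat_lit 4) (nat_lit 0x4000000010003c0008000000000000000000000000000) (nat_lit 0x0) (nat_lit 0x1c000400070000000000000000000000000000) := T_48 (nat_lit 147) (nat_lit 146) (nat_lit 3) (nat_lit 7) (nat_lit 7) L120775 (by decide +kernel)
theorem L120777 : W_48 (nat_lit 5) (nat_lit 0x10003c0008000000000000000000000000000) (nat_lit 0x0) (nat_lit 0x40002001c000400070000000000000000000000000000) := T_48 (nat_lit 178) (nat_lit 161) (nat_lit 6) (nat_lit 8) (nat_lit 10) L120776 (by decide +kernel)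
theorem L120778 : W_48 (nat_lit 2) (nat_lit 0x10000000050003c001e000000000000000000000000000) (nat_lit 0x0) (nat_lit 0x180008000000000000000000) := D_48 (nat_lit 92) (nat_lit 91) (nat_lit 75) (nat_lit 0) (nat_lit 10) (nat_lit 6) (nat_lit 7) (nat_lit 7) (nat_lit 4) (by decide +kernel)
theorem L120779 : W_48 (nat_lit 3) (nat_lit 0x10000000050003c001a000000000000000000000000000) (nat_lit 0x0) (nat_lit 0x400004000180008000000000000000000) := T_48 (nat_lit 110) (nat_lit 130) (nat_lit 3) (nat_lit 7) (nat_lit 6) L120778 (by decide +kernel)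
theorem L120780 : W_48 (nat_lit 4) (nat_lit 0x10000000050003c0018000000000000000000000000000) (nat_lit 0x0) (nat_lit 0x400007000180008000000000000000000) := T_48 (nat_lit 109) (nat_lit 108) (nat_lit 0) (nat_lit 10) (nat_lit 7) L120779 (by decide +kernel)
theorem L120781 : W_48 (nat_lit 5) (nat_lit 0x50003c0018000000000000000000000000000) (nat_lit 0x0) (nat_lit 0x1000080000000400007000180008000000000000000000) := T_48 (nat_lit 180) (nat_lit 163) (nat_lit 4) (nat_lit 10) (nat_lit 10) L120780 (by decide +kernel)
theorem L120782 : W_48 (nat_lit 6) (nat_lit 0x50003c0008000000000000000000000000000) (nat_lit 0x0) (nat_lit 0x1000080000000400037000180008000000000000000000) := T_48 (nat_lit 112) (nat_lit 113) (nat_lit 2) (nat_lit 7) (nat_lit 7) L120781 (by decide +kernel)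
theorem L120783 : W_48 (nat_lit 7) (nat_lit 0x10003c0008000000000000000000000000000) (nat_lit 0x0) (nat_lit 0x100008000c000400037000180008000000000000000000) := T_48 (nat_lit 146) (nat_lit 147) (nat_lit 3) (nat_lit 7) (nat_lit 7) L120782 (by decide +kernel)
theorem L120784 : W_48 (nat_lit 2) (nat_lit 0x4000000010007c000a000000008000000000000000000) (nat_lit 0x0) (nat_lit 0x1c000000000000000000000000000000000000) := D_48 (nat_lit 147) (nat_lit 146) (nat_lit 148) (nat_lit 3) (nat_lit 7) (nat_lit 7) (nat_lit 3) (nat_lit 8) (nat_lit 7) (by decide +kernel)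
theorem L120785 : W_48 (nat_lit 3) (nat_lit 0x4000000010003c000a000000008000000000000000000) (nat_lit 0x0) (nat_lit 0x1c000400004000000000000000000000000000) := T_48 (nat_lit 130) (nat_lit 110) (nat_lit 0) (nat_lit 11) (nat_lit 7) L120784 (by decide +kernel)
theorem L120786 : W_48 (nat_lit 4) (nat_lit 0x4000000010003c000a000000000000000000000000000) (nat_lit 0x0) (nat_lit 0x1c000400004000100008000000000000000000) := T_48 (nat_lit 75) (nat_lit 92) (nat_lit 7) (nat_lit 7) (nat_lit 4) L120785 (by decide +kernel)
theorem L120787 : W_48 (nat_lit 5) (nat_lit 0x10003c000a000000000000000000000000000) (nat_lit 0x0) (nat_lit 0x40002001c000400004000100008000000000000000000) := T_48 (nat_lit 178) (nat_lit 161) (nat_lit 6) (nat_lit 8) (nat_lit 10) L120786 (by decide +kernel)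
theorem L120788 : W_48 (nat_lit 6) (nat_lit 0x10003c0008000000000000000000000000000) (nat_lit 0x0) (nat_lit 0x40002001c000400007000100008000000000000000000) := T_48 (nat_lit 109) (nat_lit 108) (nat_lit 0) (nat_lit 10) (nat_lit 7) L120787 (by decide +kernel)
theorem L120789 : W_48 (nat_lit 2) (nat_lit 0x10000200050003c001a000000000000000000000000000) (nat_lit 0x0) (nat_lit 0x4000100008000000000000000000) := D_48 (nat_lit 92) (nat_lit 75) (nat_lit 110) (nat_lit 7) (nat_lit 7) (nat_lit 4) (nat_lit 4) (nat_lit 8) (nat_lit 9) (by decide +kernel)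
theorem L120790 : W_48 (nat_lit 3) (nat_lit 0x10000200050003c0018000000000000000000000000000) (nat_lit 0x0) (nat_lit 0x7000100008000000000000000000) := T_48 (nat_lit 109) (nat_lit 108) (nat_lit 0) (nat_lit 10) (nat_lit 7) L120789 (by decide +kernel)
theorem L120791 : W_48 (nat_lit 4) (nat_lit 0x10000000050003c0018000000000000000000000000000) (nat_lit 0x0) (nat_lit 0x400020000000000007000100008000000000000000000) := T_48 (nat_lit 161) (nat_lit 178) (nat_lit 6) (nat_lit 8) (nat_lit 10) L120790 (by decide +kernel)
theorem L120792 : W_48 (nat_lit 5) (nat_lit 0x50003c0018000000000000000000000000000) (nat_lit 0x0) (nat_lit 0x14000a0000000000007000100008000000000000000000) := T_48 (nat_lit 180) (nat_lit 163) (nat_lit 4) (nat_lit 10) (nat_lit 10) L120791 (by decide +kernel)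
theorem L120793 : W_48 (nat_lit 6) (nat_lit 0x50003c0008000000000000000000000000000) (nat_lit 0x0) (nat_lit 0x14000a0000000000037000100008000000000000000000) := T_48 (nat_lit 112) (nat_lit 113) (nat_lit 2) (nat_lit 7) (nat_lit 7) L120792 (by decide +kernel)
theorem L120794 : W_48 (nat_lit 7) (nat_lit 0x10003c0008000000000000000000000000000) (nat_lit 0x0) (nat_lit 0x14000a000c000000037000100008000000000000000000) := T_48 (nat_lit 146) (nat_lit 147) (nat_lit 3) (nat_lit 7) (nat_lit 7) L120793 (by decide +kernel)
theorem L120795 : W_48 (nat_lit 2) (nat_lit 0x10003c001e000000000000000000000000000) (nat_lit 0x0) (nat_lit 0x400020000000000000000100000000000000000000000) := D_48 (nat_lit 161) (nat_lit 178) (nat_lit 92) (nat_lit 6) (nat_lit 8) (nat_lit 10) (nat_lit 4) (nat_lit 8) (nat_lit 9) (by decide +kernel)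
theorem L120796 : W_48 (nat_lit 3) (nat_lit 0x10003c001a000000000000000000000000000) (nat_lit 0x0) (nat_lit 0x400020000000400004000100000000000000000000000) := T_48 (nat_lit 110) (nat_lit 130) (nat_lit 3) (nat_lit 7) (nat_lit 6) L120795 (by decide +kernel)
theorem L120797 : W_48 (nat_lit 4) (nat_lit 0x10003c000a000000000000000000000000000) (nat_lit 0x0) (nat_lit 0x400020000000400034000100000000000000000000000) := T_48 (nat_lit 112) (nat_lit 113) (nat_lit 2) (nat_lit 7) (nat_lit 7) L120796 (by decide +kernel)
theorem L120798 : W_48 (nat_lit 5) (nat_lit 0x10003c0008000000000000000000000000000) (nat_lit 0x0) (nat_lit 0x400020000000400037000100000000000000000000000) := T_48 (nat_lit 109) (nat_lit 108) (nat_lit 0) (nat_lit 10) (nat_lit 7) L120797 (by decide +kernel)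
theorem L120799 : W_48 (nat_lit 8) (nat_lit 0x10001c0008000000000000000000000000000) (nat_lit 0x0) (nat_lit 0x14000a001c000600077000180008000000000000000000) := Q_48 (nat_lit 129) (C_48 L120777 (C_48 L120783 (C_48 L120788 (C_48 L120794 (C_48 L120798 N_48))))) (by decide +kernel)
theorem L120800 : W_48 (nat_lit 2) (nat_lit 0x4000000010001c000b000000008000000000000000000) (nat_lit 0x0) (nat_lit 0x20000c00000000000000000000000000) := D_48 (nat_lit 107) (nat_lit 125) (nat_lit 106) (nat_lit 0) (nat_lit 9) (nat_lit 7) (nat_lit 3) (nat_lit 4) (nat_lit 6) (by decide +kernel)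
theorem L120801 : W_48 (nat_lit 3) (nat_lit 0x4000000010001c000a000000008000000000000000000) (nat_lit 0x0) (nat_lit 0x220001c00000000000000000000000000) := T_48 (nat_lit 108) (nat_lit 129) (nat_lit 0) (nat_lit 10) (nat_lit 7) L120800 (by decide +kernel)
theorem L120802 : W_48 (nat_lit 4) (nat_lit 0x4000000010001c000a000000000000000000000000000) (nat_lit 0x0) (nat_lit 0x220001c00100008000000000000000000) := T_48 (nat_lit 75) (nat_lit 92) (nat_lit 7) (nat_lit 7) (nat_lit 4) L120801 (by decide +kernel)
theorem L120803 : W_48 (nat_lit 5) (nat_lit 0x10001c000a000000000000000000000000000) (nat_lit 0x0) (nat_lit 0x400020000000220001c00100008000000000000000000) := T_48 (nat_lit 178) (nat_lit 161) (nat_lit 6) (nat_lit 8) (nat_lit 10) L120802 (by decide +kernel)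
theorem L120804 : W_48 (nat_lit 2) (nat_lit 0x200010001c000a000000000000000000000000000) (nat_lit 0x0) (nat_lit 0x4000100008000000000000000000) := D_48 (nat_lit 92) (nat_lit 75) (nat_lit 110) (nat_lit 7) (nat_lit 7) (nat_lit 4) (nat_lit 4) (nat_lit 8) (nat_lit 9) (by decide +kernel)
theorem L120805 : W_48 (nat_lit 3) (nat_lit 0x10001c000a000000000000000000000000000) (nat_lit 0x0) (nat_lit 0x400020000000000004000100008000000000000000000) := T_48 (nat_lit 161) (nat_lit 178) (nat_lit 6) (nat_lit 8) (nat_lit 10) L120804 (by decide +kernel)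
theorem L120806 : W_48 (nat_lit 2) (nat_lit 0x10007c000a000000008000000000000000000) (nat_lit 0x0) (nat_lit 0x1c000000000000000000000000000000000000) := D_48 (nat_lit 147) (nat_lit 146) (nat_lit 148) (nat_lit 3) (nat_lit 7) (nat_lit 7) (nat_lit 3) (nat_lit 8) (nat_lit 7) (by decide +kernel)
theorem L120807 : W_48 (nat_lit 3) (nat_lit 0x10003c000a000000008000000000000000000) (nat_lit 0x0) (nat_lit 0x1c000400004000000000000000000000000000) := T_48 (nat_lit 130) (nat_lit 110) (nat_lit 0) (nat_lit 11) (nat_lit 7) L120806 (by decide +kernel)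
theorem L120808 : W_48 (nat_lit 4) (nat_lit 0x10001c000a000000008000000000000000000) (nat_lit 0x0) (nat_lit 0x1c000600005000000000000000000000000000) := T_48 (nat_lit 129) (nat_lit 108) (nat_lit 0) (nat_lit 10) (nat_lit 7) L120807 (by decide +kernel)
theorem L120809 : W_48 (nat_lit 5) (nat_lit 0x10001c000a000000000000000000000000000) (nat_lit 0x0) (nat_lit 0x1c000600005000100008000000000000000000) := T_48 (nat_lit 75) (nat_lit 92) (nat_lit 7) (nat_lit 7) (nat_lit 4) L120808 (by decide +kernel)
theorem L120810 : W_48 (nat_lit 2) (nat_lit 0x4000000090003c000a000000000000000000000000000) (nat_lit 0x0) (nat_lit 0x10000400004000000000000000000000000000) := D_48 (nat_lit 130) (nat_lit 110) (nat_lit 148) (nat_lit 0) (nat_lit 11) (nat_lit 7) (nat_lit 3) (nat_lit 8) (nat_lit 7) (by decide +kernel)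
theorem L120811 : W_48 (nat_lit 3) (nat_lit 0x4000000010003c000a000000000000000000000000000) (nat_lit 0x0) (nat_lit 0x1c000400004000000000000000000000000000) := T_48 (nat_lit 147) (nat_lit 146) (nat_lit 3) (nat_lit 7) (nat_lit 7) L120810 (by decide +kernel)
theorem L120812 : W_48 (nat_lit 4) (nat_lit 0x10003c000a000000000000000000000000000) (nat_lit 0x0) (nat_lit 0x40002001c000400004000000000000000000000000000) := T_48 (nat_lit 178) (nat_lit 161) (nat_lit 6) (nat_lit 8) (nat_lit 10) L120811 (by decide +kernel)
theorem L120813 : W_48 (nat_lit 5) (nat_lit 0x10001c000a000000000000000000000000000) (nat_lit 0x0) (nat_lit 0x40002001c000600005000000000000000000000000000) := T_48 (nat_lit 129) (nat_lit 108) (nat_lit 0) (nat_lit 10) (nat_lit 7) L120812 (by decide +kernel)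
theorem L120814 : W_48 (nat_lit 6) (nat_lit 0x10001c0008000000000000000000000000000) (nat_lit 0x0) (nat_lit 0x40002001c000620007c00100008000000000000000000) := Q_48 (nat_lit 109) (C_48 L120803 (C_48 L120805 (C_48 L120809 (C_48 L120813 N_48)))) (by decide +kernel)
theorem L120815 : W_48 (nat_lit 2) (nat_lit 0x4000000014001e000b000000000000000000000000000) (nat_lit 0x0) (nat_lit 0x8000000000000000100008000000000000000000) := D_48 (nat_lit 92) (nat_lit 75) (nat_lit 159) (nat_lit 7) (nat_lit 7) (nat_lit 4) (nat_lit 6) (nat_lit 6) (nat_lit 9) (by decide +kernel)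
theorem L120816 : W_48 (nat_lit 3) (nat_lit 0x4000000014001e0009000000000000000000000000000) (nat_lit 0x0) (nat_lit 0x8000000200002000100008000000000000000000) := T_48 (nat_lit 109) (nat_lit 129) (nat_lit 0) (nat_lit 10) (nat_lit 7) L120815 (by decide +kernel)
theorem L120817 : W_48 (nat_lit 4) (nat_lit 0x4000000014001e0008000000000000000000000000000) (nat_lit 0x0) (nat_lit 0x8000000200003800100008000000000000000000) := T_48 (nat_lit 108) (nat_lit 107) (nat_lit 0) (nat_lit 9) (nat_lit 7) L120816 (by decide +kernel)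
theorem L120818 : W_48 (nat_lit 5) (nat_lit 0x4000000010001e0008000000000000000000000000000) (nat_lit 0x0) (nat_lit 0x8000600200003800100008000000000000000000) := T_48 (nat_lit 142) (nat_lit 141) (nat_lit 1) (nat_lit 9) (nat_lit 7) L120817 (by decide +kernel)
theorem L120819 : W_48 (nat_lit 6) (nat_lit 0x4000000010001c0008000000000000000000000000000) (nat_lit 0x0) (nat_lit 0x8000600220013800100008000000000000000000) := T_48 (nat_lit 125) (nat_lit 112) (nat_lit 2) (nat_lit 6) (nat_lit 7) L120818 (by decide +kernel)
theorem L120820 : W_48 (nat_lit 7) (nat_lit 0x10001c0008000000000000000000000000000) (nat_lit 0x0) (nat_lit 0x400028000600220013800100008000000000000000000) := T_48 (nat_lit 178) (nat_lit 161) (nat_lit 6) (nat_lit 8) (nat_lit 10) L120819 (by decide +kernel)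
theorem L120821 : W_48 (nat_lit 9) (nat_lit 0x1000180008000000000000000000000000000) (nat_lit 0x0) (nat_lit 0x14000a801c700670077c00180008000000000000000000) := Q_48 (nat_lit 126) (C_48 L120770 (C_48 L120773 (C_48 L120799 (C_48 L120814 (C_48 L120820 N_48))))) (by decide +kernel)
theorem L120822 : W_48 (nat_lit 2) (nat_lit 0x40000000d000380018000400000000000000000000000) (nat_lit 0x0) (nat_lit 0x30000400000000000000000000000000000000) := D_48 (nat_lit 148) (nat_lit 149) (nat_lit 130) (nat_lit 0) (nat_lit 13) (nat_lit 8) (nat_lit 3) (nat_lit 8) (nat_lit 7) (by decide +kernel)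
theorem L120823 : W_48 (nat_lit 3) (nat_lit 0x400000005000380018000400000000000000000000000) (nat_lit 0x0) (nat_lit 0x38000440000000000000000000000000000000) := T_48 (nat_lit 147) (nat_lit 126) (nat_lit 3) (nat_lit 7) (nat_lit 7) L120822 (by decide +kernel)
theorem L120824 : W_48 (nat_lit 4) (nat_lit 0x400000001000380018000400000000000000000000000) (nat_lit 0x0) (nat_lit 0x8003c000440000000000000000000000000000000) := T_48 (nat_lit 146) (nat_lit 163) (nat_lit 4) (nat_lit 10) (nat_lit 9) L120823 (by decide +kernel)
theorem L120825 : W_48 (nat_lit 5) (nat_lit 0x400000001000380018000000000000000000000000000) (nat_lit 0x0) (nat_lit 0x8003c000440000000400020000000000000000000) := T_48 (nat_lit 94) (nat_lit 77) (nat_lit 5) (nat_lit 9) (nat_lit 4) L120824 (by decide +kernel)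
theorem L120826 : W_48 (nat_lit 6) (nat_lit 0x1000380018000000000000000000000000000) (nat_lit 0x0) (nat_lit 0x4000a003c000440000000400020000000000000000000) := T_48 (nat_lit 178) (nat_lit 161) (nat_lit 6) (nat_lit 8) (nat_lit 10) L120825 (by decide +kernel)
theorem L120827 : W_48 (nat_lit 2) (nat_lit 0x12001f0008000000020000000000000000000) (nat_lit 0x0) (nat_lit 0x1c00000000000000000000000000) := D_48 (nat_lit 107) (nat_lit 106) (nat_lit 108) (nat_lit 0) (nat_lit 8) (nat_lit 7) (nat_lit 0) (nat_lit 9) (nat_lit 7) (by decide +kernel)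
theorem L120828 : W_48 (nat_lit 3) (nat_lit 0x12001e0008000000020000000000000000000) (nat_lit 0x0) (nat_lit 0x100010001c00000000000000000000000000) := T_48 (nat_lit 124) (nat_lit 140) (nat_lit 1) (nat_lit 8) (nat_lit 7) L120827 (by decide +kernel)
theorem L120829 : W_48 (nat_lit 4) (nat_lit 0x12001e0008000000000000000000000000000) (nat_lit 0x0) (nat_lit 0x100010001c00400020000000000000000000) := T_48 (nat_lit 77) (nat_lit 94) (nat_lit 5) (nat_lit 9) (nat_lit 4) L120828 (by decide +kernel)
theorem L120830 : W_48 (nat_lit 5) (nat_lit 0x10001e0008000000000000000000000000000) (nat_lit 0x0) (nat_lit 0x700010001c00400020000000000000000000) := T_48 (nat_lit 141) (nat_lit 142) (nat_lit 1) (nat_lit 9) (nat_lit 7) L120829 (by decide +kernel)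
theorem L120831 : W_48 (nat_lit 6) (nat_lit 0x10001c0008000000000000000000000000000) (nat_lit 0x0) (nat_lit 0x700030011c00400020000000000000000000) := T_48 (nat_lit 125) (nat_lit 112) (nat_lit 2) (nat_lit 6) (nat_lit 7) L120830 (by decide +kernel)
theorem L120832 : W_48 (nat_lit 2) (nat_lit 0x10007c002a000000020000000000000000000) (nat_lit 0x0) (nat_lit 0x1c000000000000000000000000000000000000) := D_48 (nat_lit 147) (nat_lit 146) (nat_lit 148) (nat_lit 3) (nat_lit 7) (nat_lit 7) (nat_lit 3) (nat_lit 8) (nat_lit 7) (by decide +kernel)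
theorem L120833 : W_48 (nat_lit 3) (nat_lit 0x10003c002a000000020000000000000000000) (nat_lit 0x0) (nat_lit 0x1c000400040000000000000000000000000000) := T_48 (nat_lit 130) (nat_lit 114) (nat_lit 2) (nat_lit 8) (nat_lit 7) L120832 (by decide +kernel)
theorem L120834 : W_48 (nat_lit 4) (nat_lit 0x10003c0028000000020000000000000000000) (nat_lit 0x0) (nat_lit 0x1c000400043000000000000000000000000000) := T_48 (nat_lit 109) (nat_lit 108) (nat_lit 0) (nat_lit 10) (nat_lit 7) L120833 (by decide +kernel)
theorem L120835 : W_48 (nat_lit 5) (nat_lit 0x10003c0008000000020000000000000000000) (nat_lit 0x0) (nat_lit 0x1c000400073000000000000000000000000000) := T_48 (nat_lit 113) (nat_lit 112) (nat_lit 2) (nat_lit 7) (nat_lit 7) L120834 (by decide +kernel)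
theorem L120836 : W_48 (nat_lit 6) (nat_lit 0x10003c0008000000000000000000000000000) (nat_lit 0x0) (nat_lit 0x1c000400073000400020000000000000000000) := T_48 (nat_lit 77) (nat_lit 94) (nat_lit 5) (nat_lit 9) (nat_lit 4) L120835 (by decide +kernel)
theorem L120837 : W_48 (nat_lit 2) (nat_lit 0x50003c001a000000008000000000000000000) (nat_lit 0x0) (nat_lit 0x1000080000000000000000400000000000000000000000) := D_48 (nat_lit 163) (nat_lit 94) (nat_lit 180) (nat_lit 4) (nat_lit 10) (nat_lit 9) (nat_lit 4) (nat_lit 10) (nat_lit 10) (by decide +kernel)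
theorem L120838 : W_48 (nat_lit 2) (nat_lit 0x4000000050003c000a000400008000000000000000000) (nat_lit 0x0) (nat_lit 0x1000080000000000010000000000000000000000000000) := D_48 (nat_lit 163) (nat_lit 112) (nat_lit 180) (nat_lit 4) (nat_lit 10) (nat_lit 9) (nat_lit 4) (nat_lit 10) (nat_lit 10) (by decide +kernel)
theorem L120839 : W_48 (nat_lit 3) (nat_lit 0x4000000010003c000a000400008000000000000000000) (nat_lit 0x0) (nat_lit 0x100008000c000000010000000000000000000000000000) := T_48 (nat_lit 146) (nat_lit 147) (nat_lit 3) (nat_lit 7) (nat_lit 7) L120838 (by decide +kernel)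
theorem L120840 : W_48 (nat_lit 4) (nat_lit 0x4000000010003c000a000400000000000000000000000) (nat_lit 0x0) (nat_lit 0x100008000c000000010000100008000000000000000000) := T_48 (nat_lit 75) (nat_lit 92) (nat_lit 7) (nat_lit 7) (nat_lit 4) L120839 (by decide +kernel)
theorem L120841 : W_48 (nat_lit 2) (nat_lit 0x200010001c00088007c000c000000000000000000) (nat_lit 0x0) (nat_lit 0x30010000000000000000000) := D_48 (nat_lit 89) (nat_lit 88) (nat_lit 76) (nat_lit 2) (nat_lit 3) (nat_lit 5) (nat_lit 2) (nat_lit 4) (nat_lit 5) (by decide +kernel)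
theorem L120842 : W_48 (nat_lit 2) (nat_lit 0x200010001c0038000500000000000000000000000) (nat_lit 0x0) (nat_lit 0xa80000000000000000000000) := D_48 (nat_lit 93) (nat_lit 91) (nat_lit 95) (nat_lit 3) (nat_lit 6) (nat_lit 5) (nat_lit 3) (nat_lit 7) (nat_lit 5) (by decide +kernel)
theorem L120843 : W_48 (nat_lit 3) (nat_lit 0x200010001c0018000500000000000000000000000) (nat_lit 0x0) (nat_lit 0x60000a80000000000000000000000) := T_48 (nat_lit 113) (nat_lit 114) (nat_lit 1) (nat_lit 12) (nat_lit 6) L120842 (by decide +kernel)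
theorem L120844 : W_48 (nat_lit 2) (nat_lit 0x200010001c0008000f00008000000000000000000) (nat_lit 0x0) (nat_lit 0x30000080000000000000000000000) := D_48 (nat_lit 112) (nat_lit 91) (nat_lit 113) (nat_lit 3) (nat_lit 6) (nat_lit 5) (nat_lit 3) (nat_lit 7) (nat_lit 5) (by decide +kernel)
theorem L120845 : W_48 (nat_lit 3) (nat_lit 0x200010001c0008000700008000000000000000000) (nat_lit 0x0) (nat_lit 0x30000880004000000000000000000) := T_48 (nat_lit 95) (nat_lit 74) (nat_lit 0) (nat_lit 10) (nat_lit 5) L120844 (by decide +kernel)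
theorem L120846 : W_48 (nat_lit 4) (nat_lit 0x200010001c0008000700000000000000000000000) (nat_lit 0x0) (nat_lit 0x3200088000c000000000000000000) := T_48 (nat_lit 75) (nat_lit 109) (nat_lit 7) (nat_lit 7) (nat_lit 4) L120845 (by decide +kernel)
theorem L120847 : W_48 (nat_lit 2) (nat_lit 0x200010001c0009000780000000000000000000000) (nat_lit 0x0) (nat_lit 0x2000800008000000000000000000) := D_48 (nat_lit 109) (nat_lit 75) (nat_lit 95) (nat_lit 7) (nat_lit 7) (nat_lit 4) (nat_lit 1) (nat_lit 10) (nat_lit 5) (by decide +kernel)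
theorem L120848 : W_48 (nat_lit 3) (nat_lit 0x200010001c0008000780000000000000000000000) (nat_lit 0x0) (nat_lit 0x3800800008000000000000000000) := T_48 (nat_lit 108) (nat_lit 107) (nat_lit 1) (nat_lit 9) (nat_lit 5) L120847 (by decide +kernel)
theorem L120849 : W_48 (nat_lit 4) (nat_lit 0x200010001c0008000700000000000000000000000) (nat_lit 0x0) (nat_lit 0x13800880008000000000000000000) := T_48 (nat_lit 91) (nat_lit 112) (nat_lit 3) (nat_lit 6) (nat_lit 5) L120848 (by decide +kernel)
theorem L120850 : W_48 (nat_lit 3) (nat_lit 0x200010001c00088007c0004000000000000000000) (nat_lit 0x0) (nat_lit 0x830018000000000000000000) := T_48 (nat_lit 75) (nat_lit 95) (nat_lit 0) (nat_lit 10) (nat_lit 5) L120841 (by decide +kernel)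
theorem L120851 : W_48 (nat_lit 4) (nat_lit 0x200010001c0008800780004000000000000000000) (nat_lit 0x0) (nat_lit 0x400870018000000000000000000) := T_48 (nat_lit 90) (nat_lit 106) (nat_lit 1) (nat_lit 8) (nat_lit 5) L120850 (by decide +kernel)
theorem L120852 : W_48 (nat_lit 5) (nat_lit 0x200010001c0008800780000000000000000000000) (nat_lit 0x0) (nat_lit 0x40087001e000000000000000000) := T_48 (nat_lit 74) (nat_lit 73) (nat_lit 0) (nat_lit 9) (nat_lit 5) L120851 (by decide +kernel)
theorem L120853 : W_48 (nat_lit 6) (nat_lit 0x200010001c0008000780000000000000000000000) (nat_lit 0x0) (nat_lit 0x1c0087001e000000000000000000) := T_48 (nat_lit 107) (nat_lit 108) (nat_lit 1) (nat_lit 9) (nat_lit 5) L120852 (by decide +kernel)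
theorem L120854 : W_48 (nat_lit 7) (nat_lit 0x200010001c0008000700000000000000000000000) (nat_lit 0x0) (nat_lit 0x11c008f001e000000000000000000) := T_48 (nat_lit 91) (nat_lit 112) (nat_lit 3) (nat_lit 6) (nat_lit 5) L120853 (by decide +kernel)
theorem L120855 : W_48 (nat_lit 2) (nat_lit 0x200010001c0008001f00008000000000000000000) (nat_lit 0x0) (nat_lit 0x1c0000000000000000000) := D_48 (nat_lit 79) (nat_lit 78) (nat_lit 80) (nat_lit 2) (nat_lit 7) (nat_lit 5) (nat_lit 2) (nat_lit 8) (nat_lit 5) (by decide +kernel)
theorem L120856 : W_48 (nat_lit 3) (nat_lit 0x200010001c0008000f00008000000000000000000) (nat_lit 0x0) (nat_lit 0x10001d0000000000000000000) := T_48 (nat_lit 96) (nat_lit 76) (nat_lit 0) (nat_lit 11) (nat_lit 5) L120855 (by decide +kernel)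
theorem L120857 : W_48 (nat_lit 4) (nat_lit 0x200010001c0008000700008000000000000000000) (nat_lit 0x0) (nat_lit 0x18001d4000000000000000000) := T_48 (nat_lit 95) (nat_lit 74) (nat_lit 0) (nat_lit 10) (nat_lit 5) L120856 (by decide +kernel)
theorem L120858 : W_48 (nat_lit 5) (nat_lit 0x200010001c0008000700000000000000000000000) (nat_lit 0x0) (nat_lit 0x20018001dc000000000000000000) := T_48 (nat_lit 75) (nat_lit 109) (nat_lit 7) (nat_lit 7) (nat_lit 4) L120857 (by decide +kernel)
theorem L120859 : W_48 (nat_lit 2) (nat_lit 0x200010001c0009000780004000000000000000000) (nat_lit 0x0) (nat_lit 0x2000800000000200000000000000) := D_48 (nat_lit 109) (nat_lit 95) (nat_lit 57) (nat_lit 1) (nat_lit 10) (nat_lit 5) (nat_lit 7) (nat_lit 6) (nat_lit 3) (by decide +kernel)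
theorem L120860 : W_48 (nat_lit 3) (nat_lit 0x200010001c0009000780000000000000000000000) (nat_lit 0x0) (nat_lit 0x2000800006000200000000000000) := T_48 (nat_lit 74) (nat_lit 73) (nat_lit 0) (nat_lit 9) (nat_lit 5) L120859 (by decide +kernel)
theorem L120861 : W_48 (nat_lit 4) (nat_lit 0x200010001c0008000780000000000000000000000) (nat_lit 0x0) (nat_lit 0x3800800006000200000000000000) := T_48 (nat_lit 108) (nat_lit 107) (nat_lit 1) (nat_lit 9) (nat_lit 5) L120860 (by decide +kernel)
theorem L120862 : W_48 (nat_lit 5) (nat_lit 0x200010001c0008000700000000000000000000000) (nat_lit 0x0) (nat_lit 0x13800880006000200000000000000) := T_48 (nat_lit 91) (nat_lit 112) (nat_lit 3) (nat_lit 6) (nat_lit 5) L120861 (by decide +kernel)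
theorem L120863 : W_48 (nat_lit 2) (nat_lit 0x200010001c0009000780004000000000000000000) (nat_lit 0x0) (nat_lit 0x2000000008000200000000000000) := D_48 (nat_lit 109) (nat_lit 75) (nat_lit 57) (nat_lit 7) (nat_lit 7) (nat_lit 4) (nat_lit 7) (nat_lit 6) (nat_lit 3) (by decide +kernel)
theorem L120864 : W_48 (nat_lit 3) (nat_lit 0x200010001c0009000780000000000000000000000) (nat_lit 0x0) (nat_lit 0x200000000e000200000000000000) := T_48 (nat_lit 74) (nat_lit 73) (nat_lit 0) (nat_lit 9) (nat_lit 5) L120863 (by decide +kernel)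
theorem L120865 : W_48 (nat_lit 4) (nat_lit 0x200010001c0008000780000000000000000000000) (nat_lit 0x0) (nat_lit 0x380000000e000200000000000000) := T_48 (nat_lit 108) (nat_lit 107) (nat_lit 1) (nat_lit 9) (nat_lit 5) L120864 (by decide +kernel)
theorem L120866 : W_48 (nat_lit 5) (nat_lit 0x200010001c0008000700000000000000000000000) (nat_lit 0x0) (nat_lit 0x1380008000e000200000000000000) := T_48 (nat_lit 91) (nat_lit 112) (nat_lit 3) (nat_lit 6) (nat_lit 5) L120865 (by decide +kernel)
theorem L120867 : W_48 (nat_lit 8) (nat_lit 0x200010001c0008000500000000000000000000000) (nat_lit 0x0) (nat_lit 0x33c01af01de000200000000000000) := Q_48 (nat_lit 93) (C_48 L120846 (C_48 L120849 (C_48 L120854 (C_48 L120858 (C_48 L120862 (C_48 L120866 N_48)))))) (by decide +kernel)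
theorem L120868 : W_48 (nat_lit 9) (nat_lit 0x1000380008000000000000000000000000000) (nat_lit 0x0) (nat_lit 0x14001a003c0004400f0007c000e0002000000000000000) := Q_48 (nat_lit 112) (C_48 L120826 (C_48 L117362 (C_48 L117343 N_48))) (by decide +kernel)
theorem L120869 : W_48 (nat_lit 2) (nat_lit 0x12003e0008800000020000000000000000000) (nat_lit 0x0) (nat_lit 0x100010000400000000000000000000000000) := D_48 (nat_lit 124) (nat_lit 140) (nat_lit 106) (nat_lit 1) (nat_lit 8) (nat_lit 7) (nat_lit 0) (nat_lit 8) (nat_lit 7) (by decide +kernel)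
theorem L120870 : W_48 (nat_lit 3) (nat_lit 0x12003e0008000000020000000000000000000) (nat_lit 0x0) (nat_lit 0x100010001c00000000000000000000000000) := T_48 (nat_lit 107) (nat_lit 108) (nat_lit 0) (nat_lit 9) (nat_lit 7) L120869 (by decide +kernel)
theorem L120871 : W_48 (nat_lit 4) (nat_lit 0x10003e0008000000020000000000000000000) (nat_lit 0x0) (nat_lit 0x700010001c00000000000000000000000000) := T_48 (nat_lit 141) (nat_lit 142) (nat_lit 1) (nat_lit 9) (nat_lit 7) L120870 (by decide +kernel)
theorem L120872 : W_48 (nat_lit 5) (nat_lit 0x10003c0008000000020000000000000000000) (nat_lit 0x0) (nat_lit 0x700030011c00000000000000000000000000) := T_48 (nat_lit 125) (nat_lit 112) (nat_lit 2) (nat_lit 6) (nat_lit 7) L120871 (by decide +kernel)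
theorem L120873 : W_48 (nat_lit 6) (nat_lit 0x10003c0008000000000000000000000000000) (nat_lit 0x0) (nat_lit 0x700030011c00400020000000000000000000) := T_48 (nat_lit 77) (nat_lit 94) (nat_lit 5) (nat_lit 9) (nat_lit 4) L120872 (by decide +kernel)
theorem L120874 : W_48 (nat_lit 5) (nat_lit 0x4000000010003c0008000400000000000000000000000) (nat_lit 0x0) (nat_lit 0x100008000c000000013000100008000000000000000000) := T_48 (nat_lit 109) (nat_lit 108) (nat_lit 0) (nat_lit 10) (nat_lit 7) L120840 (by decide +kernel)
theorem L120875 : W_48 (nat_lit 6) (nat_lit 0x4000000010003c0008000000000000000000000000000) (nat_lit 0x0) (nat_lit 0x100008000c000000013000500028000000000000000000) := T_48 (nat_lit 94) (nat_lit 77) (nat_lit 5) (nat_lit 9) (nat_lit 4) L120874 (by decide +kernel)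
theorem L120876 : W_48 (nat_lit 7) (nat_lit 0x10003c0008000000000000000000000000000) (nat_lit 0x0) (nat_lit 0x14000a000c000000013000500028000000000000000000) := T_48 (nat_lit 178) (nat_lit 161) (nat_lit 6) (nat_lit 8) (nat_lit 10) L120875 (by decide +kernel)
theorem L120877 : W_48 (nat_lit 2) (nat_lit 0x400000001003f80108000000020000000000000000000) (nat_lit 0x0) (nat_lit 0xe0000000000000000000000000000000000000) := D_48 (nat_lit 150) (nat_lit 149) (nat_lit 151) (nat_lit 3) (nat_lit 10) (nat_lit 7) (nat_lit 3) (nat_lit 11) (nat_lit 7) (by decide +kernel)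
theorem L120878 : W_48 (nat_lit 3) (nat_lit 0x400000001001f80108000000020000000000000000000) (nat_lit 0x0) (nat_lit 0xe0002000200000000000000000000000000000) := T_48 (nat_lit 133) (nat_lit 117) (nat_lit 2) (nat_lit 11) (nat_lit 7) L120877 (by decide +kernel)
theorem L120879 : W_48 (nat_lit 4) (nat_lit 0x400000001001f80108000000000000000000000000000) (nat_lit 0x0) (nat_lit 0xe0002000200000400020000000000000000000) := T_48 (nat_lit 77) (nat_lit 94) (nat_lit 5) (nat_lit 9) (nat_lit 4) L120878 (by decide +kernel)
theorem L120880 : W_48 (nat_lit 5) (nat_lit 0x400000001001f80008000000000000000000000000000) (nat_lit 0x0) (nat_lit 0xe0002000380000400020000000000000000000) := T_48 (nat_lit 116) (nat_lit 115) (nat_lit 2) (nat_lit 10) (nat_lit 7) L120879 (by decide +kernel)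
theorem L120881 : W_48 (nat_lit 2) (nat_lit 0x11000780038000000000000000000000000000) (nat_lit 0x0) (nat_lit 0x20001800000000000000000000000000000000) := D_48 (nat_lit 131) (nat_lit 132) (nat_lit 149) (nat_lit 0) (nat_lit 13) (nat_lit 7) (nat_lit 3) (nat_lit 9) (nat_lit 7) (by decide +kernel)
theorem L120882 : W_48 (nat_lit 3) (nat_lit 0x11000780028000000000000000000000000000) (nat_lit 0x0) (nat_lit 0x20001840010000000000000000000000000000) := T_48 (nat_lit 112) (nat_lit 126) (nat_lit 2) (nat_lit 7) (nat_lit 7) L120881 (by decide +kernel)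
theorem L120883 : W_48 (nat_lit 4) (nat_lit 0x1000780028000000000000000000000000000) (nat_lit 0x0) (nat_lit 0x38001840010000000000000000000000000000) := T_48 (nat_lit 148) (nat_lit 147) (nat_lit 3) (nat_lit 8) (nat_lit 7) L120882 (by decide +kernel)
theorem L120884 : W_48 (nat_lit 2) (nat_lit 0x400000009001f80108000000020000000000000000000) (nat_lit 0x0) (nat_lit 0x4002000200000000000000000000000000000) := D_48 (nat_lit 133) (nat_lit 146) (nat_lit 117) (nat_lit 1) (nat_lit 14) (nat_lit 7) (nat_lit 2) (nat_lit 11) (nat_lit 7) (by decide +kernel)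
theorem L120885 : W_48 (nat_lit 3) (nat_lit 0x400000009001f80008000000020000000000000000000) (nat_lit 0x0) (nat_lit 0x4002000380000000000000000000000000000) := T_48 (nat_lit 116) (nat_lit 115) (nat_lit 2) (nat_lit 10) (nat_lit 7) L120884 (by decide +kernel)
theorem L120886 : W_48 (nat_lit 5) (nat_lit 0x1000780008000000000000000000000000000) (nat_lit 0x0) (nat_lit 0x38001840070000000000000000000000000000) := T_48 (nat_lit 113) (nat_lit 114) (nat_lit 2) (nat_lit 8) (nat_lit 7) L120883 (by decide +kernel)
theorem L120887 : W_48 (nat_lit 2) (nat_lit 0x400000001000f80008000000000000000000000000000) (nat_lit 0x0) (nat_lit 0x38000000000000000000000000000000000000) := D_48 (nat_lit 148) (nat_lit 147) (nat_lit 149) (nat_lit 3) (nat_lit 8) (nat_lit 7) (nat_lit 3) (nat_lit 9) (nat_lit 7) (by decide +kernel)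
theorem L120888 : W_48 (nat_lit 6) (nat_lit 0x400000001000f80008000000000000000000000000000) (nat_lit 0x0) (nat_lit 0xe0003000390000400020000000000000000000) := T_48 (nat_lit 132) (nat_lit 112) (nat_lit 0) (nat_lit 13) (nat_lit 7) L120880 (by decide +kernel)
theorem L120889 : W_48 (nat_lit 4) (nat_lit 0x400000009000f80008000000020000000000000000000) (nat_lit 0x0) (nat_lit 0x4003000390000000000000000000000000000) := T_48 (nat_lit 132) (nat_lit 112) (nat_lit 0) (nat_lit 13) (nat_lit 7) L120885 (by decide +kernel)
theorem L120890 : W_48 (nat_lit 5) (nat_lit 0x400000001000f80008000000020000000000000000000) (nat_lit 0x0) (nat_lit 0x1c003000390000000000000000000000000000) := T_48 (nat_lit 147) (nat_lit 148) (nat_lit 3) (nat_lit 8) (nat_lit 7) L120889 (by decide +kernel)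
theorem L120891 : W_48 (nat_lit 6) (nat_lit 0x400000001000f80008000000000000000000000000000) (nat_lit 0x0) (nat_lit 0x1c003000390000400020000000000000000000) := T_48 (nat_lit 77) (nat_lit 94) (nat_lit 5) (nat_lit 9) (nat_lit 4) L120890 (by decide +kernel)
theorem L120892 : W_48 (nat_lit 7) (nat_lit 0x400000001000780008000000000000000000000000000) (nat_lit 0x0) (nat_lit 0xfc003800390000400020000000000000000000) := Q_48 (nat_lit 131) (C_48 L120887 (C_48 L120888 (C_48 L120891 N_48))) (by decide +kernel)
theorem L120893 : W_48 (nat_lit 2) (nat_lit 0x200012001e0008800400000000000000000000000) (nat_lit 0x0) (nat_lit 0x100010000400000000000000000000000000) := D_48 (nat_lit 124) (nat_lit 106) (nat_lit 140) (nat_lit 0) (nat_lit 8) (nat_lit 7) (nat_lit 1) (nat_lit 8) (nat_lit 7) (by decide +kernel)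
theorem L120894 : W_48 (nat_lit 3) (nat_lit 0x200010001e0008800400000000000000000000000) (nat_lit 0x0) (nat_lit 0x700010000400000000000000000000000000) := T_48 (nat_lit 141) (nat_lit 142) (nat_lit 1) (nat_lit 9) (nat_lit 7) L120893 (by decide +kernel)
theorem L120895 : W_48 (nat_lit 4) (nat_lit 0x200010001e0008000400000000000000000000000) (nat_lit 0x0) (nat_lit 0x700010001c00000000000000000000000000) := T_48 (nat_lit 107) (nat_lit 108) (nat_lit 0) (nat_lit 9) (nat_lit 7) L120894 (by decide +kernel)
theorem L120896 : W_48 (nat_lit 5) (nat_lit 0x200010001c0008000400000000000000000000000) (nat_lit 0x0) (nat_lit 0x700030011c00000000000000000000000000) := T_48 (nat_lit 125) (nat_lit 112) (nat_lit 2) (nat_lit 6) (nat_lit 7) L120895 (by decide +kernel)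
theorem L120897 : W_48 (nat_lit 2) (nat_lit 0xc0004000200010001c0000000000000000000000000000000) (nat_lit 0x0) (nat_lit 0x200010000800000000000000000000000000000000000000000000) := D_48 (nat_lit 196) (nat_lit 179) (nat_lit 213) (nat_lit 7) (nat_lit 8) (nat_lit 7) (nat_lit 7) (nat_lit 8) (nat_lit 8) (by decide +kernel)
theorem L120898 : W_48 (nat_lit 3) (nat_lit 0x40004000200010001c0000000000000000000000000000000) (nat_lit 0x0) (nat_lit 0x280018000800000000000000000000000000000000000000000000) := T_48 (nat_lit 195) (nat_lit 211) (nat_lit 5) (nat_lit 8) (nat_lit 8) L120897 (by decide +kernel)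
theorem L120899 : W_48 (nat_lit 4) (nat_lit 0x4000400020001000180000000000000000000000000000000) (nat_lit 0x0) (nat_lit 0x280018000800000000000040002000000000000000000000000000) := T_48 (nat_lit 126) (nat_lit 109) (nat_lit 4) (nat_lit 8) (nat_lit 10) L120898 (by decide +kernel)
theorem L120900 : W_48 (nat_lit 5) (nat_lit 0x400020001000180000000000000000000000000000000) (nat_lit 0x0) (nat_lit 0x28001c000a00000000000040002000000000000000000000000000) := T_48 (nat_lit 194) (nat_lit 177) (nat_lit 5) (nat_lit 8) (nat_lit 7) L120899 (by decide +kernel)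
theorem L120901 : W_48 (nat_lit 4) (nat_lit 0xc00020001000180000000000000000000000000000000) (nat_lit 0x0) (nat_lit 0x40003800c0000000000004000000000000000000000000000) := T_48 (nat_lit 162) (nat_lit 110) (nat_lit 7) (nat_lit 8) (nat_lit 6) L2102 (by decide +kernel)
theorem L120902 : W_48 (nat_lit 5) (nat_lit 0x400020001000180000000000000000000000000000000) (nat_lit 0x0) (nat_lit 0x14000b800c0000000000004000000000000000000000000000) := T_48 (nat_lit 179) (nat_lit 196) (nat_lit 7) (nat_lit 8) (nat_lit 7) L120901 (by decide +kernel)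
theorem L120903 : W_48 (nat_lit 2) (nat_lit 0xc00020001000180002000000000000000000000000000) (nat_lit 0x0) (nat_lit 0x40000000000004000100000000000000000000000) := D_48 (nat_lit 110) (nat_lit 162) (nat_lit 92) (nat_lit 7) (nat_lit 8) (nat_lit 6) (nat_lit 4) (nat_lit 8) (nat_lit 9) (by decide +kernel)
theorem L120904 : W_48 (nat_lit 3) (nat_lit 0x400020001000180002000000000000000000000000000) (nat_lit 0x0) (nat_lit 0x10000800040000000000004000100000000000000000000000) := T_48 (nat_lit 179) (nat_lit 196) (nat_lit 7) (nat_lit 8) (nat_lit 7) L120903 (by decide +kernel)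
theorem L120905 : W_48 (nat_lit 4) (nat_lit 0x400020001000180000000000000000000000000000000) (nat_lit 0x0) (nat_lit 0x10000800040000000040006000100000000000000000000000) := T_48 (nat_lit 109) (nat_lit 126) (nat_lit 4) (nat_lit 8) (nat_lit 10) L120904 (by decide +kernel)
theorem L120906 : W_48 (nat_lit 2) (nat_lit 0x14000400020001000180004000300000000000000000000000) (nat_lit 0x0) (nat_lit 0x280008000000000000000000000000000000000000000000000000) := D_48 (nat_lit 195) (nat_lit 213) (nat_lit 211) (nat_lit 7) (nat_lit 8) (nat_lit 8) (nat_lit 5) (nat_lit 8) (nat_lit 8) (by decide +kernel)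
theorem L120907 : W_48 (nat_lit 2) (nat_lit 0x400020001000580006800000000000000000000000000) (nat_lit 0x0) (nat_lit 0x10000800040000000000000000000000000000000000000000) := D_48 (nat_lit 179) (nat_lit 162) (nat_lit 196) (nat_lit 7) (nat_lit 8) (nat_lit 6) (nat_lit 7) (nat_lit 8) (nat_lit 7) (by decide +kernel)
theorem L120908 : W_48 (nat_lit 2) (nat_lit 0x20001000180003000700000000000000000000000) (nat_lit 0x0) (nat_lit 0xc00080000000000000000000000) := D_48 (nat_lit 107) (nat_lit 106) (nat_lit 91) (nat_lit 2) (nat_lit 4) (nat_lit 6) (nat_lit 1) (nat_lit 9) (nat_lit 5) (by decide +kernel)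
theorem L120909 : W_48 (nat_lit 2) (nat_lit 0x20001000180002001f00008000000000000000000) (nat_lit 0x0) (nat_lit 0x70000000000000000000000000000) := D_48 (nat_lit 113) (nat_lit 112) (nat_lit 114) (nat_lit 3) (nat_lit 7) (nat_lit 5) (nat_lit 3) (nat_lit 8) (nat_lit 5) (by decide +kernel)
theorem L120910 : W_48 (nat_lit 3) (nat_lit 0x20001000180002000f00008000000000000000000) (nat_lit 0x0) (nat_lit 0x70001000010000000000000000000) := T_48 (nat_lit 96) (nat_lit 76) (nat_lit 0) (nat_lit 11) (nat_lit 5) L120909 (by decide +kernel)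
theorem L120911 : W_48 (nat_lit 4) (nat_lit 0x20001000180002000f00000000000000000000000) (nat_lit 0x0) (nat_lit 0x7000100001c000000000000000000) := T_48 (nat_lit 75) (nat_lit 74) (nat_lit 0) (nat_lit 10) (nat_lit 5) L120910 (by decide +kernel)
theorem L120912 : W_48 (nat_lit 5) (nat_lit 0x20001000180002000700000000000000000000000) (nat_lit 0x0) (nat_lit 0x7100180001c000000000000000000) := T_48 (nat_lit 95) (nat_lit 108) (nat_lit 1) (nat_lit 10) (nat_lit 5) L120911 (by decide +kernel)
theorem L120913 : W_48 (nat_lit 2) (nat_lit 0x20001000180002000f80040000000000000000000) (nat_lit 0x0) (nat_lit 0xe000000000000000000) := D_48 (nat_lit 74) (nat_lit 73) (nat_lit 75) (nat_lit 0) (nat_lit 9) (nat_lit 5) (nat_lit 0) (nat_lit 10) (nat_lit 5) (by decide +kernel)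
theorem L120914 : W_48 (nat_lit 3) (nat_lit 0x20001000180002000f00040000000000000000000) (nat_lit 0x0) (nat_lit 0x8002e000000000000000000) := T_48 (nat_lit 91) (nat_lit 77) (nat_lit 2) (nat_lit 6) (nat_lit 5) L120913 (by decide +kernel)
theorem L120915 : W_48 (nat_lit 4) (nat_lit 0x20001000180002000f00000000000000000000000) (nat_lit 0x0) (nat_lit 0x800ee000000000000000000) := T_48 (nat_lit 78) (nat_lit 79) (nat_lit 2) (nat_lit 7) (nat_lit 5) L120914 (by decide +kernel)
theorem L120916 : W_48 (nat_lit 2) (nat_lit 0x20001000180003000780034000300000000000000) (nat_lit 0x0) (nat_lit 0xc00020000000000) := D_48 (nat_lit 58) (nat_lit 41) (nat_lit 59) (nat_lit 6) (nat_lit 6) (nat_lit 6) (nat_lit 3) (nat_lit 5) (nat_lit 3) (by decide +kernel)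
theorem L120917 : W_48 (nat_lit 3) (nat_lit 0x20001000180003000780024000300000000000000) (nat_lit 0x0) (nat_lit 0x18000c00020000000000) := T_48 (nat_lit 76) (nat_lit 75) (nat_lit 0) (nat_lit 9) (nat_lit 4) L120916 (by decide +kernel)
theorem L120918 : W_48 (nat_lit 4) (nat_lit 0x20001000180003000780024000200000000000000) (nat_lit 0x0) (nat_lit 0x18000d00028000000000) := T_48 (nat_lit 56) (nat_lit 39) (nat_lit 4) (nat_lit 6) (nat_lit 6) L120917 (by decide +kernel)
theorem L120919 : W_48 (nat_lit 5) (nat_lit 0x20001000180003000780004000200000000000000) (nat_lit 0x0) (nat_lit 0x78000d00028000000000) := T_48 (nat_lit 77) (nat_lit 78) (nat_lit 2) (nat_lit 6) (nat_lit 5) L120918 (by decide +kernel)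
theorem L120920 : W_48 (nat_lit 6) (nat_lit 0x20001000180003000780004000000000000000000) (nat_lit 0x0) (nat_lit 0x78000f00038000000000) := T_48 (nat_lit 57) (nat_lit 40) (nat_lit 7) (nat_lit 6) (nat_lit 2) L120919 (by decide +kernel)
theorem L120921 : W_48 (nat_lit 7) (nat_lit 0x20001000180002000780004000000000000000000) (nat_lit 0x0) (nat_lit 0x1800000078000f00038000000000) := T_48 (nat_lit 108) (nat_lit 107) (nat_lit 1) (nat_lit 9) (nat_lit 5) L120920 (by decide +kernel)
theorem L120922 : W_48 (nat_lit 8) (nat_lit 0x20001000180002000780000000000000000000000) (nat_lit 0x0) (nat_lit 0x180000007e000f00038000000000) := T_48 (nat_lit 74) (nat_lit 73) (nat_lit 0) (nat_lit 9) (nat_lit 5) L120921 (by decide +kernel)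
theorem L120923 : W_48 (nat_lit 5) (nat_lit 0x20001000180002000700000000000000000000000) (nat_lit 0x0) (nat_lit 0x10008800ee000000000000000000) := T_48 (nat_lit 95) (nat_lit 108) (nat_lit 1) (nat_lit 10) (nat_lit 5) L120915 (by decide +kernel)
theorem L120924 : W_48 (nat_lit 2) (nat_lit 0xc000400020001000580006801600000000000000000000000) (nat_lit 0x0) (nat_lit 0x200010000800000000000000000000000000000000000000000000) := D_48 (nat_lit 196) (nat_lit 179) (nat_lit 213) (nat_lit 7) (nat_lit 8) (nat_lit 7) (nat_lit 7) (nat_lit 8) (nat_lit 8) (by decide +kernel)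
theorem L120925 : W_48 (nat_lit 3) (nat_lit 0x4000400020001000580006801600000000000000000000000) (nat_lit 0x0) (nat_lit 0x280018000800000000000000000000000000000000000000000000) := T_48 (nat_lit 195) (nat_lit 211) (nat_lit 5) (nat_lit 8) (nat_lit 8) L120924 (by decide +kernel)
theorem L120926 : W_48 (nat_lit 4) (nat_lit 0x400020001000580006801600000000000000000000000) (nat_lit 0x0) (nat_lit 0x28001c000a00000000000000000000000000000000000000000000) := T_48 (nat_lit 194) (nat_lit 177) (nat_lit 5) (nat_lit 8) (nat_lit 7) L120925 (by decide +kernel)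
theorem L120927 : W_48 (nat_lit 5) (nat_lit 0x400020001000180006801600000000000000000000000) (nat_lit 0x0) (nat_lit 0x28001c000a00000000000600000000000000000000000000000000) := T_48 (nat_lit 130) (nat_lit 129) (nat_lit 0) (nat_lit 11) (nat_lit 7) L120926 (by decide +kernel)
theorem L120928 : W_48 (nat_lit 6) (nat_lit 0x400020001000180006800600000000000000000000000) (nat_lit 0x0) (nat_lit 0x28001c000a00000000000600000001800000000000000000000000) := T_48 (nat_lit 96) (nat_lit 95) (nat_lit 1) (nat_lit 11) (nat_lit 5) L120927 (by decide +kernel)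
theorem L120929 : W_48 (nat_lit 2) (nat_lit 0x20001000180004000500000000000000000000000) (nat_lit 0x0) (nat_lit 0x200028000000000000000000) := D_48 (nat_lit 93) (nat_lit 75) (nat_lit 77) (nat_lit 4) (nat_lit 8) (nat_lit 8) (nat_lit 6) (nat_lit 8) (nat_lit 8) (by decide +kernel)
theorem L120930 : W_48 (nat_lit 2) (nat_lit 0xe000600010003c0000000000000000000000000000000) (nat_lit 0x0) (nat_lit 0x180080000000000000000000000000000000000000000) := D_48 (nat_lit 176) (nat_lit 163) (nat_lit 175) (nat_lit 2) (nat_lit 6) (nat_lit 10) (nat_lit 2) (nat_lit 5) (nat_lit 10) (by decide +kernel)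
theorem L120931 : W_48 (nat_lit 3) (nat_lit 0xc000600010003c0000000000000000000000000000000) (nat_lit 0x0) (nat_lit 0x4000380080000000000000000000000000000000000000000) := T_48 (nat_lit 177) (nat_lit 194) (nat_lit 5) (nat_lit 8) (nat_lit 7) L120930 (by decide +kernel)
theorem L120932 : W_48 (nat_lit 4) (nat_lit 0xc000200010003c0000000000000000000000000000000) (nat_lit 0x0) (nat_lit 0x40003800c0000000000004000000000000000000000000000) := T_48 (nat_lit 162) (nat_lit 110) (nat_lit 7) (nat_lit 8) (nat_lit 6) L120931 (by decide +kernel)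
theorem L120933 : W_48 (nat_lit 5) (nat_lit 0x4000200010003c0000000000000000000000000000000) (nat_lit 0x0) (nat_lit 0x14000b800c0000000000004000000000000000000000000000) := T_48 (nat_lit 179) (nat_lit 196) (nat_lit 7) (nat_lit 8) (nat_lit 7) L120932 (by decide +kernel)
theorem L120934 : W_48 (nat_lit 2) (nat_lit 0x20001000180000000700000000000000000000000) (nat_lit 0x0) (nat_lit 0x4000000028000000000000000000) := D_48 (nat_lit 110) (nat_lit 75) (nat_lit 77) (nat_lit 4) (nat_lit 8) (nat_lit 8) (nat_lit 6) (nat_lit 8) (nat_lit 8) (by decide +kernel)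
theorem L120935 : W_48 (nat_lit 2) (nat_lit 0x200010001800000007c0024000000000000000000) (nat_lit 0x0) (nat_lit 0x1c00000000000000000000000000) := D_48 (nat_lit 107) (nat_lit 106) (nat_lit 108) (nat_lit 1) (nat_lit 8) (nat_lit 5) (nat_lit 1) (nat_lit 9) (nat_lit 5) (by decide +kernel)
theorem L120936 : W_48 (nat_lit 3) (nat_lit 0x20001000180000000780024000000000000000000) (nat_lit 0x0) (nat_lit 0x1c00040010000000000000000000) := T_48 (nat_lit 90) (nat_lit 76) (nat_lit 2) (nat_lit 5) (nat_lit 5) L120935 (by decide +kernel)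
theorem L120937 : W_48 (nat_lit 4) (nat_lit 0x20001000180000000780004000000000000000000) (nat_lit 0x0) (nat_lit 0x1c00040070000000000000000000) := T_48 (nat_lit 77) (nat_lit 78) (nat_lit 2) (nat_lit 6) (nat_lit 5) L120936 (by decide +kernel)
theorem L120938 : W_48 (nat_lit 5) (nat_lit 0x20001000180000000780000000000000000000000) (nat_lit 0x0) (nat_lit 0x1c00040076000000000000000000) := T_48 (nat_lit 74) (nat_lit 73) (nat_lit 0) (nat_lit 9) (nat_lit 5) L120937 (by decide +kernel)
theorem L120939 : W_48 (nat_lit 2) (nat_lit 0x2000100018000100078002c000000000000000000) (nat_lit 0x0) (nat_lit 0x20000000000000000400020000000000) := D_48 (nat_lit 58) (nat_lit 41) (nat_lit 125) (nat_lit 5) (nat_lit 7) (nat_lit 2) (nat_lit 6) (nat_lit 6) (nat_lit 7) (by decide +kernel)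
theorem L120940 : W_48 (nat_lit 3) (nat_lit 0x2000100018000000078002c000000000000000000) (nat_lit 0x0) (nat_lit 0x20001800000000000400020000000000) := T_48 (nat_lit 108) (nat_lit 107) (nat_lit 1) (nat_lit 9) (nat_lit 5) L120939 (by decide +kernel)
theorem L120941 : W_48 (nat_lit 4) (nat_lit 0x20001000180000000780024000000000000000000) (nat_lit 0x0) (nat_lit 0x20001800800008000400020000000000) := T_48 (nat_lit 75) (nat_lit 95) (nat_lit 0) (nat_lit 10) (nat_lit 5) L120940 (by decide +kernel)
theorem L120942 : W_48 (nat_lit 5) (nat_lit 0x20001000180000000780004000000000000000000) (nat_lit 0x0) (nat_lit 0x20001800800068000400020000000000) := T_48 (nat_lit 77) (nat_lit 78) (nat_lit 2) (nat_lit 6) (nat_lit 5) L120941 (by decide +kernel)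
theorem L120943 : W_48 (nat_lit 6) (nat_lit 0x20001000180000000780000000000000000000000) (nat_lit 0x0) (nat_lit 0x2000180080006e000400020000000000) := T_48 (nat_lit 74) (nat_lit 73) (nat_lit 0) (nat_lit 9) (nat_lit 5) L120942 (by decide +kernel)
theorem L120944 : W_48 (nat_lit 2) (nat_lit 0x200010001800000007c0020000000000000000000) (nat_lit 0x0) (nat_lit 0x7000000000000000000) := D_48 (nat_lit 73) (nat_lit 74) (nat_lit 72) (nat_lit 0) (nat_lit 9) (nat_lit 5) (nat_lit 0) (nat_lit 8) (nat_lit 5) (by decide +kernel)
theorem L120945 : W_48 (nat_lit 3) (nat_lit 0x20001000180000000780020000000000000000000) (nat_lit 0x0) (nat_lit 0x40017000000000000000000) := T_48 (nat_lit 90) (nat_lit 76) (nat_lit 2) (nat_lit 5) (nat_lit 5) L120944 (by decide +kernel)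
theorem L120946 : W_48 (nat_lit 4) (nat_lit 0x20001000180000000780000000000000000000000) (nat_lit 0x0) (nat_lit 0x40077000000000000000000) := T_48 (nat_lit 77) (nat_lit 78) (nat_lit 2) (nat_lit 6) (nat_lit 5) L120945 (by decide +kernel)
theorem L120947 : W_48 (nat_lit 2) (nat_lit 0x20001000180021000f80084000000000000000000) (nat_lit 0x0) (nat_lit 0x40001000100000000000000000000) := D_48 (nat_lit 96) (nat_lit 80) (nat_lit 114) (nat_lit 2) (nat_lit 8) (nat_lit 5) (nat_lit 3) (nat_lit 8) (nat_lit 5) (by decide +kernel)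
theorem L120948 : W_48 (nat_lit 3) (nat_lit 0x20001000180001000f80084000000000000000000) (nat_lit 0x0) (nat_lit 0x70001000100000000000000000000) := T_48 (nat_lit 113) (nat_lit 112) (nat_lit 3) (nat_lit 7) (nat_lit 5) L120947 (by decide +kernel)
theorem L120949 : W_48 (nat_lit 4) (nat_lit 0x20001000180001000f80004000000000000000000) (nat_lit 0x0) (nat_lit 0x700010001c0000000000000000000) := T_48 (nat_lit 79) (nat_lit 78) (nat_lit 2) (nat_lit 7) (nat_lit 5) L120948 (by decide +kernel)
theorem L120950 : W_48 (nat_lit 5) (nat_lit 0x20001000180001000780004000000000000000000) (nat_lit 0x0) (nat_lit 0x700018001c8000000000000000000) := T_48 (nat_lit 95) (nat_lit 75) (nat_lit 0) (nat_lit 10) (nat_lit 5) L120949 (by decide +kernel)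
theorem L120951 : W_48 (nat_lit 6) (nat_lit 0x20001000180000000780004000000000000000000) (nat_lit 0x0) (nat_lit 0x718018001c8000000000000000000) := T_48 (nat_lit 108) (nat_lit 107) (nat_lit 1) (nat_lit 9) (nat_lit 5) L120950 (by decide +kernel)
theorem L120952 : W_48 (nat_lit 7) (nat_lit 0x20001000180000000780000000000000000000000) (nat_lit 0x0) (nat_lit 0x718018001ce000000000000000000) := T_48 (nat_lit 74) (nat_lit 73) (nat_lit 0) (nat_lit 9) (nat_lit 5) L120951 (by decide +kernel)
theorem L120953 : W_48 (nat_lit 2) (nat_lit 0x2000100018000100078000c000000000000000000) (nat_lit 0x0) (nat_lit 0x20000000000000000400020000000000) := D_48 (nat_lit 58) (nat_lit 41) (nat_lit 125) (nat_lit 5) (nat_lit 7) (nat_lit 2) (nat_lit 6) (nat_lit 6) (nat_lit 7) (by decide +kernel)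
theorem L120954 : W_48 (nat_lit 3) (nat_lit 0x20001000180001000780004000000000000000000) (nat_lit 0x0) (nat_lit 0x20000000800008000400020000000000) := T_48 (nat_lit 75) (nat_lit 95) (nat_lit 0) (nat_lit 10) (nat_lit 5) L120953 (by decide +kernel)
theorem L120955 : W_48 (nat_lit 4) (nat_lit 0x20001000180000000780004000000000000000000) (nat_lit 0x0) (nat_lit 0x20001800800008000400020000000000) := T_48 (nat_lit 108) (nat_lit 107) (nat_lit 1) (nat_lit 9) (nat_lit 5) L120954 (by decide +kernel)
theorem L120956 : W_48 (nat_lit 5) (nat_lit 0x20001000180000000780000000000000000000000) (nat_lit 0x0) (nat_lit 0x2000180080000e000400020000000000) := T_48 (nat_lit 74) (nat_lit 73) (nat_lit 0) (nat_lit 9) (nat_lit 5) L120955 (by decide +kernel)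
theorem L120957 : W_48 (nat_lit 2) (nat_lit 0x200010001800000007c0020000000000000000000) (nat_lit 0x0) (nat_lit 0x1c00000000000000000000000000) := D_48 (nat_lit 107) (nat_lit 106) (nat_lit 108) (nat_lit 1) (nat_lit 8) (nat_lit 5) (nat_lit 1) (nat_lit 9) (nat_lit 5) (by decide +kernel)
theorem L120958 : W_48 (nat_lit 3) (nat_lit 0x20001000180000000780020000000000000000000) (nat_lit 0x0) (nat_lit 0x1c00040010000000000000000000) := T_48 (nat_lit 90) (nat_lit 76) (nat_lit 2) (nat_lit 5) (nat_lit 5) L120957 (by decide +kernel)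
theorem L120959 : W_48 (nat_lit 4) (nat_lit 0x20001000180000000780000000000000000000000) (nat_lit 0x0) (nat_lit 0x1c00040070000000000000000000) := T_48 (nat_lit 77) (nat_lit 78) (nat_lit 2) (nat_lit 6) (nat_lit 5) L120958 (by decide +kernel)
theorem L120960 : W_48 (nat_lit 8) (nat_lit 0x20001000180000000700000000000000000000000) (nat_lit 0x0) (nat_lit 0x20071c018c01ff000400020000000000) := Q_48 (nat_lit 91) (C_48 L120938 (C_48 L120943 (C_48 L120946 (C_48 L120952 (C_48 L120956 (C_48 L120959 N_48)))))) (by decide +kernel)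
theorem L120961 : W_48 (nat_lit 4) (nat_lit 0x20001000180000000700020000000000000000000) (nat_lit 0x0) (nat_lit 0x1c000c0050000000000000000000) := T_48 (nat_lit 91) (nat_lit 78) (nat_lit 2) (nat_lit 6) (nat_lit 5) L120958 (by decide +kernel)
theorem L120962 : W_48 (nat_lit 5) (nat_lit 0x20001000180000000700000000000000000000000) (nat_lit 0x0) (nat_lit 0x5c000c0070000000000000000000) := T_48 (nat_lit 77) (nat_lit 110) (nat_lit 6) (nat_lit 8) (nat_lit 8) L120961 (by decide +kernel)
theorem L120963 : W_48 (nat_lit 2) (nat_lit 0x20001000180000001f00008000000000000000000) (nat_lit 0x0) (nat_lit 0x70000000000000000000000000000) := D_48 (nat_lit 113) (nat_lit 112) (nat_lit 114) (nat_lit 3) (nat_lit 7) (nat_lit 5) (nat_lit 3) (nat_lit 8) (nat_lit 5) (by decide +kernel)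
theorem L120964 : W_48 (nat_lit 3) (nat_lit 0x20001000180000000f00008000000000000000000) (nat_lit 0x0) (nat_lit 0x70001000010000000000000000000) := T_48 (nat_lit 96) (nat_lit 76) (nat_lit 0) (nat_lit 11) (nat_lit 5) L120963 (by decide +kernel)
theorem L120965 : W_48 (nat_lit 4) (nat_lit 0x20001000180000000700008000000000000000000) (nat_lit 0x0) (nat_lit 0x70001800014000000000000000000) := T_48 (nat_lit 95) (nat_lit 74) (nat_lit 0) (nat_lit 10) (nat_lit 5) L120964 (by decide +kernel)
theorem L120966 : W_48 (nat_lit 5) (nat_lit 0x20001000180000000700000000000000000000000) (nat_lit 0x0) (nat_lit 0x7400180001c000000000000000000) := T_48 (nat_lit 75) (nat_lit 110) (nat_lit 4) (nat_lit 8) (nat_lit 8) L120965 (by decide +kernel)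
theorem L120967 : W_48 (nat_lit 2) (nat_lit 0x20001000180000800780002000000000000000000) (nat_lit 0x0) (nat_lit 0x400040001000000000000000000) := D_48 (nat_lit 90) (nat_lit 72) (nat_lit 106) (nat_lit 0) (nat_lit 8) (nat_lit 5) (nat_lit 1) (nat_lit 8) (nat_lit 5) (by decide +kernel)
theorem L120968 : W_48 (nat_lit 3) (nat_lit 0x20001000180000000780002000000000000000000) (nat_lit 0x0) (nat_lit 0x1c00040001000000000000000000) := T_48 (nat_lit 107) (nat_lit 108) (nat_lit 1) (nat_lit 9) (nat_lit 5) L120967 (by decide +kernel)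
theorem L120969 : W_48 (nat_lit 4) (nat_lit 0x20001000180000000780000000000000000000000) (nat_lit 0x0) (nat_lit 0x1c00040007000000000000000000) := T_48 (nat_lit 73) (nat_lit 74) (nat_lit 0) (nat_lit 9) (nat_lit 5) L120968 (by decide +kernel)
theorem L120970 : W_48 (nat_lit 2) (nat_lit 0x20001000180000000f80040000000000000000000) (nat_lit 0x0) (nat_lit 0xe000000000000000000) := D_48 (nat_lit 74) (nat_lit 75) (nat_lit 73) (nat_lit 0) (nat_lit 10) (nat_lit 5) (nat_lit 0) (nat_lit 9) (nat_lit 5) (by decide +kernel)
theorem L120971 : W_48 (nat_lit 3) (nat_lit 0x20001000180000000f00040000000000000000000) (nat_lit 0x0) (nat_lit 0x8002e000000000000000000) := T_48 (nat_lit 91) (nat_lit 77) (nat_lit 2) (nat_lit 6) (nat_lit 5) L120970 (by decide +kernel)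
theorem L120972 : W_48 (nat_lit 4) (nat_lit 0x20001000180000000f00000000000000000000000) (nat_lit 0x0) (nat_lit 0x800ee000000000000000000) := T_48 (nat_lit 78) (nat_lit 79) (nat_lit 2) (nat_lit 7) (nat_lit 5) L120971 (by decide +kernel)
theorem L120973 : W_48 (nat_lit 2) (nat_lit 0x20001000180020000f00088000000000000000000) (nat_lit 0x0) (nat_lit 0x40001000100000000000000000000) := D_48 (nat_lit 96) (nat_lit 114) (nat_lit 80) (nat_lit 3) (nat_lit 8) (nat_lit 5) (nat_lit 2) (nat_lit 8) (nat_lit 5) (by decide +kernel)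
theorem L120974 : W_48 (nat_lit 3) (nat_lit 0x20001000180020000f00008000000000000000000) (nat_lit 0x0) (nat_lit 0x400010001c0000000000000000000) := T_48 (nat_lit 79) (nat_lit 78) (nat_lit 2) (nat_lit 7) (nat_lit 5) L120973 (by decide +kernel)
theorem L120975 : W_48 (nat_lit 4) (nat_lit 0x20001000180000000f00008000000000000000000) (nat_lit 0x0) (nat_lit 0x700010001c0000000000000000000) := T_48 (nat_lit 113) (nat_lit 112) (nat_lit 3) (nat_lit 7) (nat_lit 5) L120974 (by decide +kernel)
theorem L120976 : W_48 (nat_lit 5) (nat_lit 0x20001000180000000f00000000000000000000000) (nat_lit 0x0) (nat_lit 0x700010001cc000000000000000000) := T_48 (nat_lit 75) (nat_lit 74) (nat_lit 0) (nat_lit 10) (nat_lit 5) L120975 (by decide +kernel)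
theorem L120977 : W_48 (nat_lit 2) (nat_lit 0x20001000180020000f00080000000000000000000) (nat_lit 0x0) (nat_lit 0x40001000100000000000000000000) := D_48 (nat_lit 96) (nat_lit 114) (nat_lit 80) (nat_lit 3) (nat_lit 8) (nat_lit 5) (nat_lit 2) (nat_lit 8) (nat_lit 5) (by decide +kernel)
theorem L120978 : W_48 (nat_lit 3) (nat_lit 0x20001000180020000f00000000000000000000000) (nat_lit 0x0) (nat_lit 0x400010001c0000000000000000000) := T_48 (nat_lit 79) (nat_lit 78) (nat_lit 2) (nat_lit 7) (nat_lit 5) L120977 (by decide +kernel)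
theorem L120979 : W_48 (nat_lit 2) (nat_lit 0x200010003c0004000500000000000000000000000) (nat_lit 0x0) (nat_lit 0x200028000000000000000000) := D_48 (nat_lit 93) (nat_lit 75) (nat_lit 77) (nat_lit 4) (nat_lit 8) (nat_lit 8) (nat_lit 6) (nat_lit 8) (nat_lit 8) (by decide +kernel)
theorem L120983 : W_48 (nat_lit 3) (nat_lit 0x20001000580006800000000000000000000000000) (nat_lit 0x0) (nat_lit 0x10000c00040000000040000000000000000000000000000000) := T_48 (nat_lit 178) (nat_lit 126) (nat_lit 4) (nat_lit 8) (nat_lit 10) L120907 (by decide +kernel)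
theorem L120984 : W_48 (nat_lit 4) (nat_lit 0x1000580006800000000000000000000000000) (nat_lit 0x0) (nat_lit 0x10000c00060000000040000000100000000000000000000000) := T_48 (nat_lit 161) (nat_lit 92) (nat_lit 4) (nat_lit 8) (nat_lit 9) L120983 (by decide +kernel)
theorem L120985 : W_48 (nat_lit 5) (nat_lit 0x1000180006800000000000000000000000000) (nat_lit 0x0) (nat_lit 0x10000c00060000000640000000100000000000000000000000) := T_48 (nat_lit 130) (nat_lit 129) (nat_lit 0) (nat_lit 11) (nat_lit 7) L120984 (by decide +kernel)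
theorem L120986 : W_48 (nat_lit 6) (nat_lit 0x1000180006000000000000000000000000000) (nat_lit 0x0) (nat_lit 0x10000c00060000000640001800100000000000000000000000) := T_48 (nat_lit 107) (nat_lit 108) (nat_lit 3) (nat_lit 5) (nat_lit 6) L120985 (by decide +kernel)
theorem L120987 : W_48 (nat_lit 2) (nat_lit 0x800020001000180006800000000000000000000000000) (nat_lit 0x0) (nat_lit 0x10000400000000000040000000000000000000000000000000) := D_48 (nat_lit 178) (nat_lit 126) (nat_lit 196) (nat_lit 4) (nat_lit 8) (nat_lit 10) (nat_lit 7) (nat_lit 8) (nat_lit 7) (by decide +kernel)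
theorem L120988 : W_48 (nat_lit 3) (nat_lit 0x20001000180006800000000000000000000000000) (nat_lit 0x0) (nat_lit 0x10000c00040000000040000000000000000000000000000000) := T_48 (nat_lit 179) (nat_lit 162) (nat_lit 7) (nat_lit 8) (nat_lit 6) L120987 (by decide +kernel)
theorem L120989 : W_48 (nat_lit 4) (nat_lit 0x20001000180006000000000000000000000000000) (nat_lit 0x0) (nat_lit 0x10000c00040000000040001800000000000000000000000000) := T_48 (nat_lit 107) (nat_lit 108) (nat_lit 3) (nat_lit 5) (nat_lit 6) L120988 (by decide +kernel)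
theorem L120990 : W_48 (nat_lit 5) (nat_lit 0x1000180006000000000000000000000000000) (nat_lit 0x0) (nat_lit 0x10000c00060000000040001800100000000000000000000000) := T_48 (nat_lit 161) (nat_lit 92) (nat_lit 4) (nat_lit 8) (nat_lit 9) L120989 (by decide +kernel)
theorem L120993 : W_48 (nat_lit 7) (nat_lit 0x1000180004000000000000000000000000000) (nat_lit 0x0) (nat_lit 0x10000c00060000000640003800300008000400000000000000) := Q_48 (nat_lit 109) (C_48 L120982 (C_48 L120986 (C_48 L120990 (C_48 L120992 N_48)))) (by decide +kernel)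
theorem L120994 : W_48 (nat_lit 9) (nat_lit 0x2000100018000c000000000000000000000000000) (nat_lit 0x0) (nat_lit 0x8000400000000700738039c0000000000000000000000) := T_48 (nat_lit 109) (nat_lit 92) (nat_lit 4) (nat_lit 8) (nat_lit 9) L120743 (by decide +kernel)
theorem L120995 : W_48 (nat_lit 10) (nat_lit 0x100018000c000000000000000000000000000) (nat_lit 0x0) (nat_lit 0xc000600000000700738039c0000000000000000000000) := T_48 (nat_lit 161) (nat_lit 178) (nat_lit 6) (nat_lit 8) (nat_lit 10) L120994 (by decide +kernel)
theorem L120996 : W_48 (nat_lit 2) (nat_lit 0x10005c001e000800020002000000000000000) (nat_lit 0x0) (nat_lit 0x180008000000000000000000) := D_48 (nat_lit 92) (nat_lit 91) (nat_lit 75) (nat_lit 0) (nat_lit 10) (nat_lit 6) (nat_lit 7) (nat_lit 7) (nat_lit 4) (by decide +kernel)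
theorem L120997 : W_48 (nat_lit 3) (nat_lit 0x100058001e000800020002000000000000000) (nat_lit 0x0) (nat_lit 0x60000000180008000000000000000000) := T_48 (nat_lit 126) (nat_lit 125) (nat_lit 2) (nat_lit 6) (nat_lit 7) L120996 (by decide +kernel)
theorem L120998 : W_48 (nat_lit 4) (nat_lit 0x100058001e000800020000000000000000000) (nat_lit 0x0) (nat_lit 0x60000000180048002000000000000000) := T_48 (nat_lit 61) (nat_lit 78) (nat_lit 5) (nat_lit 10) (nat_lit 3) L120997 (by decide +kernel)
theorem L120999 : W_48 (nat_lit 5) (nat_lit 0x100018001e000800020000000000000000000) (nat_lit 0x0) (nat_lit 0x660000000180048002000000000000000) := T_48 (nat_lit 130) (nat_lit 129) (nat_lit 3) (nat_lit 7) (nat_lit 6) L120998 (by decide +kernel)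
theorem L121000 : W_48 (nat_lit 6) (nat_lit 0x100018001e000000020000000000000000000) (nat_lit 0x0) (nat_lit 0x660000001980048002000000000000000) := T_48 (nat_lit 95) (nat_lit 96) (nat_lit 2) (nat_lit 7) (nat_lit 6) L120999 (by decide +kernel)
theorem L121001 : W_48 (nat_lit 7) (nat_lit 0x100018001e000000000000000000000000000) (nat_lit 0x0) (nat_lit 0x660000001d80068002000000000000000) := T_48 (nat_lit 77) (nat_lit 94) (nat_lit 5) (nat_lit 9) (nat_lit 4) L121000 (by decide +kernel)
theorem L121002 : W_48 (nat_lit 8) (nat_lit 0x100018000e000000000000000000000000000) (nat_lit 0x0) (nat_lit 0xe60070001d80068002000000000000000) := Q_48 (nat_lit 112) (C_48 L120756 (C_48 L120754 (C_48 L121001 N_48))) (by decide +kernel)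
theorem L121003 : W_48 (nat_lit 9) (nat_lit 0x100018000c000000000000000000000000000) (nat_lit 0x0) (nat_lit 0xe70073801dc0068002000000000000000) := Q_48 (nat_lit 109) (C_48 L120752 (C_48 L120739 (C_48 L121002 N_48))) (by decide +kernel)
theorem L121004 : W_48 (nat_lit 11) (nat_lit 0x1000180004000000000000000000000000000) (nat_lit 0x0) (nat_lit 0xc00060000000e7007b803dc0068002000000000000000) := Q_48 (nat_lit 111) (C_48 L120738 (C_48 L120995 (C_48 L121003 N_48))) (by decide +kernel)
theorem L121005 : W_48 (nat_lit 2) (nat_lit 0x1000180004000700000000000000000000000) (nat_lit 0x0) (nat_lit 0x2000000000000a000000000000000000000000000) := D_48 (nat_lit 161) (nat_lit 111) (nat_lit 109) (nat_lit 6) (nat_lit 8) (nat_lit 9) (nat_lit 4) (nat_lit 8) (nat_lit 9) (by decide +kernel)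
theorem L121006 : W_48 (nat_lit 3) (nat_lit 0x1000180004000300000000000000000000000) (nat_lit 0x0) (nat_lit 0x2000000000000a000400020000000000000000000) := T_48 (nat_lit 94) (nat_lit 77) (nat_lit 6) (nat_lit 8) (nat_lit 8) L121005 (by decide +kernel)
theorem L121007 : W_48 (nat_lit 4) (nat_lit 0x1000180004000200000000000000000000000) (nat_lit 0x0) (nat_lit 0x2000000000000a000500028000000000000000000) := T_48 (nat_lit 92) (nat_lit 75) (nat_lit 4) (nat_lit 8) (nat_lit 8) L121006 (by decide +kernel)
theorem L121008 : W_48 (nat_lit 2) (nat_lit 0x100018000c000700000000000000000000000) (nat_lit 0x0) (nat_lit 0x100000c0000000000000000000000) := D_48 (nat_lit 91) (nat_lit 112) (nat_lit 90) (nat_lit 3) (nat_lit 6) (nat_lit 5) (nat_lit 3) (nat_lit 5) (nat_lit 5) (by decide +kernel)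
theorem L121009 : W_48 (nat_lit 3) (nat_lit 0x100018000c000600000000000000000000000) (nat_lit 0x0) (nat_lit 0x100001c0008000000000000000000) := T_48 (nat_lit 92) (nat_lit 75) (nat_lit 4) (nat_lit 8) (nat_lit 8) L121008 (by decide +kernel)
theorem L121010 : W_48 (nat_lit 4) (nat_lit 0x1000180004000600000000000000000000000) (nat_lit 0x0) (nat_lit 0x200000000000180001c0008000000000000000000) := T_48 (nat_lit 111) (nat_lit 161) (nat_lit 6) (nat_lit 8) (nat_lit 9) L121009 (by decide +kernel)
theorem L121011 : W_48 (nat_lit 5) (nat_lit 0x1000180004000200000000000000000000000) (nat_lit 0x0) (nat_lit 0x200000000000180005c0028000000000000000000) := T_48 (nat_lit 94) (nat_lit 77) (nat_lit 6) (nat_lit 8) (nat_lit 8) L121010 (by decide +kernel)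
theorem L121012 : W_48 (nat_lit 2) (nat_lit 0x1000180006000700000000000000000000000) (nat_lit 0x0) (nat_lit 0x1800800000000000000000000000) := D_48 (nat_lit 108) (nat_lit 107) (nat_lit 95) (nat_lit 3) (nat_lit 5) (nat_lit 6) (nat_lit 1) (nat_lit 10) (nat_lit 5) (by decide +kernel)
theorem L121013 : W_48 (nat_lit 3) (nat_lit 0x1000180004000700000000000000000000000) (nat_lit 0x0) (nat_lit 0x20000000000003800800000000000000000000000) := T_48 (nat_lit 109) (nat_lit 161) (nat_lit 4) (nat_lit 8) (nat_lit 9) L121012 (by decide +kernel)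
theorem L121014 : W_48 (nat_lit 4) (nat_lit 0x1000180004000600000000000000000000000) (nat_lit 0x0) (nat_lit 0x20000000000003800900008000000000000000000) := T_48 (nat_lit 92) (nat_lit 75) (nat_lit 4) (nat_lit 8) (nat_lit 8) L121013 (by decide +kernel)
theorem L121015 : W_48 (nat_lit 5) (nat_lit 0x1000180004000200000000000000000000000) (nat_lit 0x0) (nat_lit 0x20000000000003800d00028000000000000000000) := T_48 (nat_lit 94) (nat_lit 77) (nat_lit 6) (nat_lit 8) (nat_lit 8) L121014 (by decide +kernel)
theorem L121016 : W_48 (nat_lit 3) (nat_lit 0x4000400020001000180004000300000000000000000000000) (nat_lit 0x0) (nat_lit 0x280018000800000000000000000000000000000000000000000000) := T_48 (nat_lit 196) (nat_lit 179) (nat_lit 7) (nat_lit 8) (nat_lit 7) L120906 (by decide +kernel)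
theorem L121017 : W_48 (nat_lit 4) (nat_lit 0x400020001000180004000300000000000000000000000) (nat_lit 0x0) (nat_lit 0x28001c000a00000000000000000000000000000000000000000000) := T_48 (nat_lit 194) (nat_lit 177) (nat_lit 5) (nat_lit 8) (nat_lit 7) L121016 (by decide +kernel)
theorem L121018 : W_48 (nat_lit 5) (nat_lit 0x20001000180004000300000000000000000000000) (nat_lit 0x0) (nat_lit 0x28001c000e00000000000000008000000000000000000000000000) := T_48 (nat_lit 178) (nat_lit 111) (nat_lit 6) (nat_lit 8) (nat_lit 10) L121017 (by decide +kernel)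
theorem L121019 : W_48 (nat_lit 6) (nat_lit 0x1000180004000300000000000000000000000) (nat_lit 0x0) (nat_lit 0x28001c000e0002000000000000a000000000000000000000000000) := T_48 (nat_lit 161) (nat_lit 109) (nat_lit 4) (nat_lit 8) (nat_lit 9) L121018 (by decide +kernel)
theorem L121020 : W_48 (nat_lit 7) (nat_lit 0x1000180004000200000000000000000000000) (nat_lit 0x0) (nat_lit 0x28001c000e0002000000000000a000100008000000000000000000) := T_48 (nat_lit 92) (nat_lit 75) (nat_lit 4) (nat_lit 8) (nat_lit 8) L121019 (by decide +kernel)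
theorem L121021 : W_48 (nat_lit 7) (nat_lit 0x20001000180006800600000000000000000000000) (nat_lit 0x0) (nat_lit 0x28001c000e00000000000640000001800000000000000000000000) := T_48 (nat_lit 178) (nat_lit 126) (nat_lit 4) (nat_lit 8) (nat_lit 10) L120928 (by decide +kernel)
theorem L121022 : W_48 (nat_lit 8) (nat_lit 0x20001000180006000600000000000000000000000) (nat_lit 0x0) (nat_lit 0x28001c000e00000000000640001801800000000000000000000000) := T_48 (nat_lit 107) (nat_lit 108) (nat_lit 3) (nat_lit 5) (nat_lit 6) L121021 (by decide +kernel)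
theorem L121023 : W_48 (nat_lit 9) (nat_lit 0x20001000180004000600000000000000000000000) (nat_lit 0x0) (nat_lit 0x28001c000e00000000000640003801900000000000000000000000) := T_48 (nat_lit 109) (nat_lit 92) (nat_lit 4) (nat_lit 8) (nat_lit 9) L121022 (by decide +kernel)
theorem L121024 : W_48 (nat_lit 10) (nat_lit 0x1000180004000600000000000000000000000) (nat_lit 0x0) (nat_lit 0x28001c000e0002000000064000b801900000000000000000000000) := T_48 (nat_lit 161) (nat_lit 111) (nat_lit 6) (nat_lit 8) (nat_lit 9) L121023 (by decide +kernel)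
theorem L121025 : W_48 (nat_lit 11) (nat_lit 0x1000180004000200000000000000000000000) (nat_lit 0x0) (nat_lit 0x28001c000e0002000000064000b801d00020000000000000000000) := T_48 (nat_lit 94) (nat_lit 77) (nat_lit 6) (nat_lit 8) (nat_lit 8) L121024 (by decide +kernel)
theorem L121026 : W_48 (nat_lit 2) (nat_lit 0x1000180004000340030000800000000000000) (nat_lit 0x0) (nat_lit 0x40002000000000000000040000000000) := D_48 (nat_lit 109) (nat_lit 126) (nat_lit 42) (nat_lit 5) (nat_lit 8) (nat_lit 3) (nat_lit 5) (nat_lit 8) (nat_lit 2) (by decide +kernel)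
theorem L121027 : W_48 (nat_lit 3) (nat_lit 0x1000180004000340030000000000000000000) (nat_lit 0x0) (nat_lit 0x4000a000000000000800040000000000) := T_48 (nat_lit 59) (nat_lit 111) (nat_lit 7) (nat_lit 8) (nat_lit 3) L121026 (by decide +kernel)
theorem L121028 : W_48 (nat_lit 4) (nat_lit 0x1000180004000300030000000000000000000) (nat_lit 0x0) (nat_lit 0x4000a0000c0000000800040000000000) := T_48 (nat_lit 90) (nat_lit 91) (nat_lit 2) (nat_lit 5) (nat_lit 5) L121027 (by decide +kernel)
theorem L121029 : W_48 (nat_lit 5) (nat_lit 0x1000180004000300020000000000000000000) (nat_lit 0x0) (nat_lit 0x4000a0000c0010001800040000000000) := T_48 (nat_lit 76) (nat_lit 60) (nat_lit 6) (nat_lit 8) (nat_lit 7) L121028 (by decide +kernel)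
theorem L121030 : W_48 (nat_lit 6) (nat_lit 0x1000180004000200020000000000000000000) (nat_lit 0x0) (nat_lit 0x4000a0001c0018001800040000000000) := T_48 (nat_lit 92) (nat_lit 75) (nat_lit 4) (nat_lit 8) (nat_lit 8) L121029 (by decide +kernel)
theorem L121031 : W_48 (nat_lit 7) (nat_lit 0x1000180004000200000000000000000000000) (nat_lit 0x0) (nat_lit 0x4000a0005c0038001800040000000000) := T_48 (nat_lit 77) (nat_lit 94) (nat_lit 6) (nat_lit 8) (nat_lit 8) L121030 (by decide +kernel)
theorem L121032 : W_48 (nat_lit 2) (nat_lit 0x1000180004000200030000400000000000000) (nat_lit 0x0) (nat_lit 0x8000000000000800020000000000) := D_48 (nat_lit 59) (nat_lit 111) (nat_lit 41) (nat_lit 7) (nat_lit 8) (nat_lit 3) (nat_lit 4) (nat_lit 8) (nat_lit 6) (by decide +kernel)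
theorem L121033 : W_48 (nat_lit 3) (nat_lit 0x1000180004000200030000000000000000000) (nat_lit 0x0) (nat_lit 0x8000000008000c00020000000000) := T_48 (nat_lit 58) (nat_lit 75) (nat_lit 4) (nat_lit 8) (nat_lit 7) L121032 (by decide +kernel)
theorem L121034 : W_48 (nat_lit 4) (nat_lit 0x1000180004000200020000000000000000000) (nat_lit 0x0) (nat_lit 0x8000000018001c00020000000000) := T_48 (nat_lit 76) (nat_lit 60) (nat_lit 6) (nat_lit 8) (nat_lit 7) L121033 (by decide +kernel)
theorem L121035 : W_48 (nat_lit 5) (nat_lit 0x1000180004000200000000000000000000000) (nat_lit 0x0) (nat_lit 0x8000400038001c00020000000000) := T_48 (nat_lit 77) (nat_lit 94) (nat_lit 6) (nat_lit 8) (nat_lit 8) L121034 (by decide +kernel)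
theorem L121036 : W_48 (nat_lit 12) (nat_lit 0x1000180004000000000000000000000000000) (nat_lit 0x0) (nat_lit 0x28001c000e0002000000064001b801fc0038001c00060000000000) := Q_48 (nat_lit 93) (C_48 L121007 (C_48 L121011 (C_48 L121015 (C_48 L121020 (C_48 L121025 (C_48 L121031 (C_48 L121035 N_48))))))) (by decide +kernel)
theorem L121037 : W_48 (nat_lit 2) (nat_lit 0x1000180004000200028000000000000000000) (nat_lit 0x0) (nat_lit 0x10001400000000000000) := D_48 (nat_lit 76) (nat_lit 58) (nat_lit 60) (nat_lit 4) (nat_lit 8) (nat_lit 7) (nat_lit 6) (nat_lit 8) (nat_lit 7) (by decide +kernel)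
theorem L121038 : W_48 (nat_lit 3) (nat_lit 0x1000180004000200008000000000000000000) (nat_lit 0x0) (nat_lit 0x400030001400000000000000) := T_48 (nat_lit 77) (nat_lit 94) (nat_lit 6) (nat_lit 8) (nat_lit 8) L121037 (by decide +kernel)
theorem L121039 : W_48 (nat_lit 4) (nat_lit 0x1000180004000200000000000000000000000) (nat_lit 0x0) (nat_lit 0x500038001400000000000000) := T_48 (nat_lit 75) (nat_lit 92) (nat_lit 4) (nat_lit 8) (nat_lit 8) L121038 (by decide +kernel)
theorem L121044 : W_48 (nat_lit 2) (nat_lit 0x1000180004000200010000000000000000000) (nat_lit 0x0) (nat_lit 0x400020001000000000000000) := D_48 (nat_lit 77) (nat_lit 94) (nat_lit 60) (nat_lit 6) (nat_lit 8) (nat_lit 8) (nat_lit 6) (nat_lit 8) (nat_lit 7) (by decide +kernel)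
theorem L121045 : W_48 (nat_lit 2) (nat_lit 0x1000180004000200010000800000000000000) (nat_lit 0x0) (nat_lit 0x20001000080000000000) := D_48 (nat_lit 60) (nat_lit 43) (nat_lit 77) (nat_lit 6) (nat_lit 8) (nat_lit 6) (nat_lit 6) (nat_lit 8) (nat_lit 7) (by decide +kernel)
theorem L121046 : W_48 (nat_lit 3) (nat_lit 0x1000180004000200010000000000000000000) (nat_lit 0x0) (nat_lit 0x8000000020001800080000000000) := T_48 (nat_lit 59) (nat_lit 111) (nat_lit 7) (nat_lit 8) (nat_lit 3) L121045 (by decide +kernel)
theorem L121047 : W_48 (nat_lit 2) (nat_lit 0x1000180004000600010000000000000000000) (nat_lit 0x0) (nat_lit 0x20000000000008000000000000800000000000000) := D_48 (nat_lit 111) (nat_lit 161) (nat_lit 59) (nat_lit 6) (nat_lit 8) (nat_lit 9) (nat_lit 7) (nat_lit 8) (nat_lit 3) (by decide +kernel)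
theorem L121048 : W_48 (nat_lit 3) (nat_lit 0x1000180004000200010000000000000000000) (nat_lit 0x0) (nat_lit 0x20000000000008000400020000800000000000000) := T_48 (nat_lit 94) (nat_lit 77) (nat_lit 6) (nat_lit 8) (nat_lit 8) L121047 (by decide +kernel)
theorem L121049 : W_48 (nat_lit 2) (nat_lit 0x10001800040002000100008000a0000000000) (nat_lit 0x0) (nat_lit 0x40005000000) := D_48 (nat_lit 42) (nat_lit 26) (nat_lit 24) (nat_lit 6) (nat_lit 8) (nat_lit 5) (nat_lit 4) (nat_lit 8) (nat_lit 5) (by decide +kernel)
theorem L121050 : W_48 (nat_lit 3) (nat_lit 0x1000180004000200010000800080000000000) (nat_lit 0x0) (nat_lit 0x400060005000000) := T_48 (nat_lit 41) (nat_lit 58) (nat_lit 4) (nat_lit 8) (nat_lit 6) L121049 (by decide +kernel)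
theorem L121051 : W_48 (nat_lit 4) (nat_lit 0x1000180004000200010000800000000000000) (nat_lit 0x0) (nat_lit 0x14000e0005000000) := T_48 (nat_lit 43) (nat_lit 60) (nat_lit 6) (nat_lit 8) (nat_lit 6) L121050 (by decide +kernel)
theorem L121052 : W_48 (nat_lit 5) (nat_lit 0x1000180004000200010000000000000000000) (nat_lit 0x0) (nat_lit 0x8000000000001c000e0005000000) := T_48 (nat_lit 59) (nat_lit 111) (nat_lit 7) (nat_lit 8) (nat_lit 3) L121051 (by decide +kernel)
theorem L121053 : W_48 (nat_lit 6) (nat_lit 0x1000180004000200000000000000000000000) (nat_lit 0x0) (nat_lit 0x20000000000008000400030001c000e0005000000) := Q_48 (nat_lit 76) (C_48 L121044 (C_48 L121046 (C_48 L121048 (C_48 L121052 N_48)))) (by decide +kernel)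
theorem L121054 : W_48 (nat_lit 2) (nat_lit 0x100018000c000200018000000000000000000) (nat_lit 0x0) (nat_lit 0x400020000000000000000400000000000000000000000) := D_48 (nat_lit 161) (nat_lit 178) (nat_lit 94) (nat_lit 6) (nat_lit 8) (nat_lit 10) (nat_lit 6) (nat_lit 8) (nat_lit 9) (by decide +kernel)
theorem L121055 : W_48 (nat_lit 3) (nat_lit 0x1000180004000200018000000000000000000) (nat_lit 0x0) (nat_lit 0x400020000000000008000400000000800000000000000) := T_48 (nat_lit 111) (nat_lit 59) (nat_lit 7) (nat_lit 8) (nat_lit 3) L121054 (by decide +kernel)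
theorem L121056 : W_48 (nat_lit 4) (nat_lit 0x1000180004000200008000000000000000000) (nat_lit 0x0) (nat_lit 0x400020000000000008000400010000c00000000000000) := T_48 (nat_lit 76) (nat_lit 58) (nat_lit 4) (nat_lit 8) (nat_lit 7) L121055 (by decide +kernel)
theorem L121057 : W_48 (nat_lit 5) (nat_lit 0x1000180004000200000000000000000000000) (nat_lit 0x0) (nat_lit 0x400020000000000008000500018000c00000000000000) := T_48 (nat_lit 75) (nat_lit 92) (nat_lit 4) (nat_lit 8) (nat_lit 8) L121056 (by decide +kernel)
theorem L121058 : W_48 (nat_lit 7) (nat_lit 0x1000180004000000000000000000000000000) (nat_lit 0x0) (nat_lit 0x4000200000000000180007c0038001c000e0005000000) := Q_48 (nat_lit 93) (C_48 L121035 (C_48 L121011 (C_48 L121039 (C_48 L121043 (C_48 L121053 (C_48 L121057 N_48)))))) (by decide +kernel)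
theorem L121059 : W_48 (nat_lit 11) (nat_lit 0x1000180004000000000000000000000000000) (nat_lit 0x0) (nat_lit 0x800060000000e7007b803fc0068002400000000000000) := Q_48 (nat_lit 111) (C_48 L121003 (C_48 L120738 (C_48 L120747 N_48))) (by decide +kernel)
theorem L121060 : W_48 (nat_lit 5) (nat_lit 0x1000380004000000000000000000000000000) (nat_lit 0x0) (nat_lit 0x20018000c0000a000400020000000000000000000) := T_48 (nat_lit 130) (nat_lit 109) (nat_lit 0) (nat_lit 11) (nat_lit 7) L117564 (by decide +kernel)
theorem L121061 : W_48 (nat_lit 2) (nat_lit 0x100038000c000000000000000000000000000) (nat_lit 0x0) (nat_lit 0x20000000000000000400020000000000000000000) := D_48 (nat_lit 94) (nat_lit 77) (nat_lit 161) (nat_lit 5) (nat_lit 9) (nat_lit 4) (nat_lit 6) (nat_lit 8) (nat_lit 9) (by decide +kernel)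
theorem L121062 : W_48 (nat_lit 2) (nat_lit 0x4000000090007c000c000000000000000000000000000) (nat_lit 0x0) (nat_lit 0x20030000000000000000000000000000) := D_48 (nat_lit 112) (nat_lit 113) (nat_lit 125) (nat_lit 2) (nat_lit 7) (nat_lit 7) (nat_lit 2) (nat_lit 6) (nat_lit 7) (by decide +kernel)
theorem L121063 : W_48 (nat_lit 3) (nat_lit 0x40000000900078000c000000000000000000000000000) (nat_lit 0x0) (nat_lit 0x4000060030000000000000000000000000000) := T_48 (nat_lit 126) (nat_lit 146) (nat_lit 3) (nat_lit 7) (nat_lit 7) L121062 (by decide +kernel)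
theorem L121064 : W_48 (nat_lit 4) (nat_lit 0x40000000100078000c000000000000000000000000000) (nat_lit 0x0) (nat_lit 0x1c000060030000000000000000000000000000) := T_48 (nat_lit 147) (nat_lit 148) (nat_lit 3) (nat_lit 8) (nat_lit 7) L121063 (by decide +kernel)
theorem L121065 : W_48 (nat_lit 5) (nat_lit 0x100078000c000000000000000000000000000) (nat_lit 0x0) (nat_lit 0x40002001c000060030000000000000000000000000000) := T_48 (nat_lit 178) (nat_lit 161) (nat_lit 6) (nat_lit 8) (nat_lit 10) L121064 (by decide +kernel)
theorem L121066 : W_48 (nat_lit 6) (nat_lit 0x100038000c000000000000000000000000000) (nat_lit 0x0) (nat_lit 0x40002001c000c60030000000000000000000000000000) := T_48 (nat_lit 130) (nat_lit 131) (nat_lit 0) (nat_lit 12) (nat_lit 7) L121065 (by decide +kernel)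
theorem L121067 : W_48 (nat_lit 2) (nat_lit 0x90007c000c000000020000000000000000000) (nat_lit 0x0) (nat_lit 0x20030000000000000000000000000000) := D_48 (nat_lit 112) (nat_lit 113) (nat_lit 125) (nat_lit 2) (nat_lit 7) (nat_lit 7) (nat_lit 2) (nat_lit 6) (nat_lit 7) (by decide +kernel)
theorem L121068 : W_48 (nat_lit 3) (nat_lit 0x900078000c000000020000000000000000000) (nat_lit 0x0) (nat_lit 0x4000060030000000000000000000000000000) := T_48 (nat_lit 126) (nat_lit 146) (nat_lit 3) (nat_lit 7) (nat_lit 7) L121067 (by decide +kernel)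
theorem L121069 : W_48 (nat_lit 4) (nat_lit 0x100078000c000000020000000000000000000) (nat_lit 0x0) (nat_lit 0x1c000060030000000000000000000000000000) := T_48 (nat_lit 147) (nat_lit 148) (nat_lit 3) (nat_lit 8) (nat_lit 7) L121068 (by decide +kernel)
theorem L121070 : W_48 (nat_lit 5) (nat_lit 0x100078000c000000000000000000000000000) (nat_lit 0x0) (nat_lit 0x1c000060030000400020000000000000000000) := T_48 (nat_lit 77) (nat_lit 94) (nat_lit 5) (nat_lit 9) (nat_lit 4) L121069 (by decide +kernel)
theorem L121071 : W_48 (nat_lit 6) (nat_lit 0x100038000c000000000000000000000000000) (nat_lit 0x0) (nat_lit 0x1c000c60030000400020000000000000000000) := T_48 (nat_lit 130) (nat_lit 131) (nat_lit 0) (nat_lit 12) (nat_lit 7) L121070 (by decide +kernel)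
theorem L121072 : W_48 (nat_lit 7) (nat_lit 0x1000380004000000000000000000000000000) (nat_lit 0x0) (nat_lit 0x40002001c000c60038000400020000000000000000000) := Q_48 (nat_lit 111) (C_48 L121061 (C_48 L121066 (C_48 L121071 N_48))) (by decide +kernel)
theorem L121073 : W_48 (nat_lit 5) (nat_lit 0x1000380004000000000000000000000000000) (nat_lit 0x0) (nat_lit 0x38000c000e2000000000000000000000000000) := T_48 (nat_lit 130) (nat_lit 109) (nat_lit 0) (nat_lit 11) (nat_lit 7) L117468 (by decide +kernel)
theorem L121074 : W_48 (nat_lit 2) (nat_lit 0x200050003c0016000000000000000000000000000) (nat_lit 0x0) (nat_lit 0x20008000400000000000000000000000) := D_48 (nat_lit 111) (nat_lit 125) (nat_lit 94) (nat_lit 2) (nat_lit 6) (nat_lit 7) (nat_lit 6) (nat_lit 8) (nat_lit 9) (by decide +kernel)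
theorem L121075 : W_48 (nat_lit 3) (nat_lit 0x200050003c0006000000000000000000000000000) (nat_lit 0x0) (nat_lit 0x20038000400000000000000000000000) := T_48 (nat_lit 112) (nat_lit 113) (nat_lit 2) (nat_lit 7) (nat_lit 7) L121074 (by decide +kernel)
theorem L121076 : W_48 (nat_lit 4) (nat_lit 0x50003c0006000000000000000000000000000) (nat_lit 0x0) (nat_lit 0x20000000020038000500000000000000000000000) := T_48 (nat_lit 161) (nat_lit 92) (nat_lit 4) (nat_lit 8) (nat_lit 9) L121075 (by decide +kernel)
theorem L121077 : W_48 (nat_lit 5) (nat_lit 0x10003c0006000000000000000000000000000) (nat_lit 0x0) (nat_lit 0x2000c000020038000500000000000000000000000) := T_48 (nat_lit 146) (nat_lit 147) (nat_lit 3) (nat_lit 7) (nat_lit 7) L121076 (by decide +kernel)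
theorem L121078 : W_48 (nat_lit 6) (nat_lit 0x10003c0004000000000000000000000000000) (nat_lit 0x0) (nat_lit 0x2000c00002003b000500000000000000000000000) := T_48 (nat_lit 109) (nat_lit 108) (nat_lit 0) (nat_lit 10) (nat_lit 7) L121077 (by decide +kernel)
theorem L121079 : W_48 (nat_lit 2) (nat_lit 0x12003e0014800000000000000000000000000) (nat_lit 0x0) (nat_lit 0x100010000400000000000000000000000000) := D_48 (nat_lit 124) (nat_lit 140) (nat_lit 106) (nat_lit 1) (nat_lit 8) (nat_lit 7) (nat_lit 0) (nat_lit 8) (nat_lit 7) (by decide +kernel)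
theorem L121080 : W_48 (nat_lit 3) (nat_lit 0x12003e0014000000000000000000000000000) (nat_lit 0x0) (nat_lit 0x100010001c00000000000000000000000000) := T_48 (nat_lit 107) (nat_lit 108) (nat_lit 0) (nat_lit 9) (nat_lit 7) L121079 (by decide +kernel)
theorem L121081 : W_48 (nat_lit 4) (nat_lit 0x10003e0014000000000000000000000000000) (nat_lit 0x0) (nat_lit 0x700010001c00000000000000000000000000) := T_48 (nat_lit 141) (nat_lit 142) (nat_lit 1) (nat_lit 9) (nat_lit 7) L121080 (by decide +kernel)
theorem L121082 : W_48 (nat_lit 5) (nat_lit 0x10003c0014000000000000000000000000000) (nat_lit 0x0) (nat_lit 0x700030009c00000000000000000000000000) := T_48 (nat_lit 125) (nat_lit 111) (nat_lit 2) (nat_lit 6) (nat_lit 7) L121081 (by decide +kernel)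
theorem L121083 : W_48 (nat_lit 6) (nat_lit 0x10003c0004000000000000000000000000000) (nat_lit 0x0) (nat_lit 0x700030039c00000000000000000000000000) := T_48 (nat_lit 112) (nat_lit 113) (nat_lit 2) (nat_lit 7) (nat_lit 7) L121082 (by decide +kernel)
theorem L121084 : W_48 (nat_lit 2) (nat_lit 0x50003c0006000000000000000000000000000) (nat_lit 0x0) (nat_lit 0x400020000000000000000100000000000000000000000) := D_48 (nat_lit 161) (nat_lit 178) (nat_lit 92) (nat_lit 4) (nat_lit 8) (nat_lit 10) (nat_lit 4) (nat_lit 8) (nat_lit 9) (by decide +kernel)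
theorem L121085 : W_48 (nat_lit 3) (nat_lit 0x50003c0004000000000000000000000000000) (nat_lit 0x0) (nat_lit 0x400020000000000003000100000000000000000000000) := T_48 (nat_lit 109) (nat_lit 108) (nat_lit 0) (nat_lit 10) (nat_lit 7) L121084 (by decide +kernel)
theorem L121086 : W_48 (nat_lit 4) (nat_lit 0x10003c0004000000000000000000000000000) (nat_lit 0x0) (nat_lit 0x40002000c000000003000100000000000000000000000) := T_48 (nat_lit 146) (nat_lit 147) (nat_lit 3) (nat_lit 7) (nat_lit 7) L121085 (by decide +kernel)
theorem L121087 : W_48 (nat_lit 2) (nat_lit 0x52003f0016800000000000000000000000000) (nat_lit 0x0) (nat_lit 0x400020000000000000000100000000000000000000000) := D_48 (nat_lit 161) (nat_lit 92) (nat_lit 178) (nat_lit 4) (nat_lit 8) (nat_lit 9) (nat_lit 4) (nat_lit 8) (nat_lit 10) (by decide +kernel)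
theorem L121088 : W_48 (nat_lit 3) (nat_lit 0x52003f0014800000000000000000000000000) (nat_lit 0x0) (nat_lit 0x400020000000008002000100000000000000000000000) := T_48 (nat_lit 109) (nat_lit 123) (nat_lit 2) (nat_lit 4) (nat_lit 7) L121087 (by decide +kernel)
theorem L121089 : W_48 (nat_lit 4) (nat_lit 0x52003f0014000000000000000000000000000) (nat_lit 0x0) (nat_lit 0x400020000000008002c00100000000000000000000000) := T_48 (nat_lit 107) (nat_lit 106) (nat_lit 0) (nat_lit 8) (nat_lit 7) L121088 (by decide +kernel)
theorem L121090 : W_48 (nat_lit 5) (nat_lit 0x52003e0014000000000000000000000000000) (nat_lit 0x0) (nat_lit 0x400020000100018002c00100000000000000000000000) := T_48 (nat_lit 124) (nat_lit 140) (nat_lit 1) (nat_lit 8) (nat_lit 7) L121089 (by decide +kernel)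
theorem L121091 : W_48 (nat_lit 6) (nat_lit 0x12003e0014000000000000000000000000000) (nat_lit 0x0) (nat_lit 0x40002000c100018002c00100000000000000000000000) := T_48 (nat_lit 146) (nat_lit 147) (nat_lit 3) (nat_lit 7) (nat_lit 7) L121090 (by decide +kernel)
theorem L121092 : W_48 (nat_lit 7) (nat_lit 0x10003e0014000000000000000000000000000) (nat_lit 0x0) (nat_lit 0x40002000c700018002c00100000000000000000000000) := T_48 (nat_lit 141) (nat_lit 142) (nat_lit 1) (nat_lit 9) (nat_lit 7) L121091 (by decide +kernel)
theorem L121093 : W_48 (nat_lit 8) (nat_lit 0x10003c0014000000000000000000000000000) (nat_lit 0x0) (nat_lit 0x40002000c70003800ac00100000000000000000000000) := T_48 (nat_lit 125) (nat_lit 111) (nat_lit 2) (nat_lit 6) (nat_lit 7) L121092 (by decide +kernel)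
theorem L121094 : W_48 (nat_lit 9) (nat_lit 0x10003c0004000000000000000000000000000) (nat_lit 0x0) (nat_lit 0x40002000c70003803ac00100000000000000000000000) := T_48 (nat_lit 112) (nat_lit 113) (nat_lit 2) (nat_lit 7) (nat_lit 7) L121093 (by decide +kernel)
theorem L121095 : W_48 (nat_lit 10) (nat_lit 0x1000380004000000000000000000000000000) (nat_lit 0x0) (nat_lit 0x40002000c70007803bc00500000000000000000000000) := Q_48 (nat_lit 126) (C_48 L121078 (C_48 L121083 (C_48 L121086 (C_48 L121094 N_48)))) (by decide +kernel)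
theorem L121096 : W_48 (nat_lit 5) (nat_lit 0x1000380004000000000000000000000000000) (nat_lit 0x0) (nat_lit 0x400020000000c0006a000400000000000000000000000) := T_48 (nat_lit 130) (nat_lit 109) (nat_lit 0) (nat_lit 11) (nat_lit 7) L117482 (by decide +kernel)
theorem L121097 : W_48 (nat_lit 11) (nat_lit 0x1000180004000000000000000000000000000) (nat_lit 0x0) (nat_lit 0x40002003c700e780fbc00500020000000000000000000) := Q_48 (nat_lit 129) (C_48 L121060 (C_48 L121072 (C_48 L121073 (C_48 L121095 (C_48 L121096 N_48))))) (by decide +kernel)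
theorem L121098 : W_48 (nat_lit 2) (nat_lit 0x100018001c000000000000000000000000000) (nat_lit 0x0) (nat_lit 0x40060000000000000000000000000000) := D_48 (nat_lit 113) (nat_lit 126) (nat_lit 114) (nat_lit 1) (nat_lit 11) (nat_lit 6) (nat_lit 1) (nat_lit 12) (nat_lit 6) (by decide +kernel)
theorem L121099 : W_48 (nat_lit 2) (nat_lit 0x100018003c000200020000000000000000000) (nat_lit 0x0) (nat_lit 0x10001800000000000000) := D_48 (nat_lit 76) (nat_lit 59) (nat_lit 60) (nat_lit 7) (nat_lit 8) (nat_lit 3) (nat_lit 6) (nat_lit 8) (nat_lit 7) (by decide +kernel)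
theorem L121100 : W_48 (nat_lit 3) (nat_lit 0x100018003c000000020000000000000000000) (nat_lit 0x0) (nat_lit 0x300010001800000000000000) := T_48 (nat_lit 93) (nat_lit 92) (nat_lit 0) (nat_lit 11) (nat_lit 6) L121099 (by decide +kernel)
theorem L121101 : W_48 (nat_lit 4) (nat_lit 0x100018001c000000020000000000000000000) (nat_lit 0x0) (nat_lit 0x60000300010001800000000000000) := T_48 (nat_lit 113) (nat_lit 114) (nat_lit 1) (nat_lit 12) (nat_lit 6) L121100 (by decide +kernel)
theorem L121102 : W_48 (nat_lit 5) (nat_lit 0x100018001c000000000000000000000000000) (nat_lit 0x0) (nat_lit 0x60000700030001800000000000000) := T_48 (nat_lit 77) (nat_lit 94) (nat_lit 5) (nat_lit 9) (nat_lit 4) L121101 (by decide +kernel)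
theorem L121103 : W_48 (nat_lit 4) (nat_lit 0x100018001c000200000000000000000000000) (nat_lit 0x0) (nat_lit 0x60000000100018000c00000000000000) := T_48 (nat_lit 125) (nat_lit 126) (nat_lit 2) (nat_lit 6) (nat_lit 7) L120766 (by decide +kernel)
theorem L121104 : W_48 (nat_lit 2) (nat_lit 0x100018001c000600000000800000000000000) (nat_lit 0x0) (nat_lit 0x180008000000000000000000) := D_48 (nat_lit 92) (nat_lit 91) (nat_lit 75) (nat_lit 3) (nat_lit 6) (nat_lit 5) (nat_lit 4) (nat_lit 8) (nat_lit 8) (by decide +kernel)
theorem L121105 : W_48 (nat_lit 3) (nat_lit 0x100018001c000200000000800000000000000) (nat_lit 0x0) (nat_lit 0x580028000000000000000000) := T_48 (nat_lit 94) (nat_lit 77) (nat_lit 6) (nat_lit 8) (nat_lit 8) L121104 (by decide +kernel)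
theorem L121106 : W_48 (nat_lit 4) (nat_lit 0x100018001c000200000000000000000000000) (nat_lit 0x0) (nat_lit 0x580038000800000000000000) := T_48 (nat_lit 59) (nat_lit 76) (nat_lit 7) (nat_lit 8) (nat_lit 3) L121105 (by decide +kernel)
theorem L121107 : W_48 (nat_lit 2) (nat_lit 0x100018001c000300000000000000000000000) (nat_lit 0x0) (nat_lit 0x4c0000000000000000000000) := D_48 (nat_lit 91) (nat_lit 94) (nat_lit 90) (nat_lit 3) (nat_lit 6) (nat_lit 5) (nat_lit 3) (nat_lit 5) (nat_lit 5) (by decide +kernel)
theorem L121108 : W_48 (nat_lit 3) (nat_lit 0x100018001c000200000000000000000000000) (nat_lit 0x0) (nat_lit 0x5c0008000000000000000000) := T_48 (nat_lit 92) (nat_lit 75) (nat_lit 4) (nat_lit 8) (nat_lit 8) L121107 (by decide +kernel)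
theorem L121109 : W_48 (nat_lit 2) (nat_lit 0x10001a001c000200010000000000000000000) (nat_lit 0x0) (nat_lit 0x400020001000000000000000) := D_48 (nat_lit 77) (nat_lit 94) (nat_lit 60) (nat_lit 6) (nat_lit 8) (nat_lit 8) (nat_lit 6) (nat_lit 8) (nat_lit 7) (by decide +kernel)
theorem L121110 : W_48 (nat_lit 3) (nat_lit 0x10001a001c000200000000000000000000000) (nat_lit 0x0) (nat_lit 0x400030001800000000000000) := T_48 (nat_lit 76) (nat_lit 59) (nat_lit 7) (nat_lit 8) (nat_lit 3) L121109 (by decide +kernel)
theorem L121111 : W_48 (nat_lit 4) (nat_lit 0x100018001c000200000000000000000000000) (nat_lit 0x0) (nat_lit 0x60000000400030001800000000000000) := T_48 (nat_lit 125) (nat_lit 126) (nat_lit 2) (nat_lit 6) (nat_lit 7) L121110 (by decide +kernel)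
theorem L121112 : W_48 (nat_lit 5) (nat_lit 0x100018001c000000000000000000000000000) (nat_lit 0x0) (nat_lit 0x600000007c0038001c00000000000000) := Q_48 (nat_lit 93) (C_48 L121103 (C_48 L121106 (C_48 L121108 (C_48 L121111 N_48)))) (by decide +kernel)
theorem L121113 : W_48 (nat_lit 6) (nat_lit 0x100018000c000000000000000000000000000) (nat_lit 0x0) (nat_lit 0x600700007c0038001c00000000000000) := Q_48 (nat_lit 112) (C_48 L121098 (C_48 L121102 (C_48 L121112 N_48))) (by decide +kernel)
theorem L121114 : W_48 (nat_lit 2) (nat_lit 0x100038000c000000000000000000000000000) (nat_lit 0x0) (nat_lit 0xc00002000000000000000000000000000) := D_48 (nat_lit 130) (nat_lit 109) (nat_lit 131) (nat_lit 0) (nat_lit 11) (nat_lit 7) (nat_lit 0) (nat_lit 12) (nat_lit 7) (by decide +kernel)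
theorem L121115 : W_48 (nat_lit 2) (nat_lit 0x100038001c000000000000000000000000000) (nat_lit 0x0) (nat_lit 0x40060000000000000000000000000000) := D_48 (nat_lit 113) (nat_lit 126) (nat_lit 114) (nat_lit 2) (nat_lit 7) (nat_lit 7) (nat_lit 1) (nat_lit 12) (nat_lit 6) (by decide +kernel)
theorem L121116 : W_48 (nat_lit 2) (nat_lit 0x100038005e000800020000000000000000000) (nat_lit 0x0) (nat_lit 0x40003000000000000000) := D_48 (nat_lit 78) (nat_lit 60) (nat_lit 61) (nat_lit 4) (nat_lit 10) (nat_lit 7) (nat_lit 5) (nat_lit 10) (nat_lit 3) (by decide +kernel)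
theorem L121117 : W_48 (nat_lit 3) (nat_lit 0x100038005e000000020000000000000000000) (nat_lit 0x0) (nat_lit 0x1800040003000000000000000) := T_48 (nat_lit 95) (nat_lit 96) (nat_lit 2) (nat_lit 7) (nat_lit 6) L121116 (by decide +kernel)
theorem L121118 : W_48 (nat_lit 4) (nat_lit 0x100038005c000000020000000000000000000) (nat_lit 0x0) (nat_lit 0x3001800040003000000000000000) := T_48 (nat_lit 109) (nat_lit 108) (nat_lit 3) (nat_lit 6) (nat_lit 6) L121117 (by decide +kernel)
theorem L121119 : W_48 (nat_lit 5) (nat_lit 0x100038001c000000020000000000000000000) (nat_lit 0x0) (nat_lit 0x63001800040003000000000000000) := T_48 (nat_lit 114) (nat_lit 113) (nat_lit 1) (nat_lit 12) (nat_lit 6) L121118 (by decide +kernel)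
theorem L121120 : W_48 (nat_lit 6) (nat_lit 0x100038001c000000000000000000000000000) (nat_lit 0x0) (nat_lit 0x63001c00060003000000000000000) := T_48 (nat_lit 77) (nat_lit 94) (nat_lit 5) (nat_lit 9) (nat_lit 4) L121119 (by decide +kernel)
theorem L121121 : W_48 (nat_lit 2) (nat_lit 0x2d00038001d000c00000000000000000000000) (nat_lit 0x0) (nat_lit 0x3000080000000000000000000) := D_48 (nat_lit 96) (nat_lit 79) (nat_lit 97) (nat_lit 6) (nat_lit 10) (nat_lit 8) (nat_lit 1) (nat_lit 12) (nat_lit 5) (by decide +kernel)
theorem L121122 : W_48 (nat_lit 3) (nat_lit 0x2d00038001d000400000000000000000000000) (nat_lit 0x0) (nat_lit 0x100000000000000003800080000000000000000000) := T_48 (nat_lit 95) (nat_lit 164) (nat_lit 7) (nat_lit 10) (nat_lit 5) L121121 (by decide +kernel)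
theorem L121123 : W_48 (nat_lit 4) (nat_lit 0xd00038001d000400000000000000000000000) (nat_lit 0x0) (nat_lit 0x100030000000000003800080000000000000000000) := T_48 (nat_lit 149) (nat_lit 148) (nat_lit 0) (nat_lit 13) (nat_lit 8) L121122 (by decide +kernel)
theorem L121124 : W_48 (nat_lit 5) (nat_lit 0x500038001d000400000000000000000000000) (nat_lit 0x0) (nat_lit 0x100038000040000003800080000000000000000000) := T_48 (nat_lit 147) (nat_lit 126) (nat_lit 3) (nat_lit 7) (nat_lit 7) L121123 (by decide +kernel)
theorem L121125 : W_48 (nat_lit 6) (nat_lit 0x100038001d000400000000000000000000000) (nat_lit 0x0) (nat_lit 0x18003c000040000003800080000000000000000000) := T_48 (nat_lit 146) (nat_lit 163) (nat_lit 4) (nat_lit 10) (nat_lit 9) L121124 (by decide +kernel)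
theorem L121126 : W_48 (nat_lit 7) (nat_lit 0x100038001d000000000000000000000000000) (nat_lit 0x0) (nat_lit 0x18003c000040000003c000a0000000000000000000) := T_48 (nat_lit 94) (nat_lit 77) (nat_lit 5) (nat_lit 9) (nat_lit 4) L121125 (by decide +kernel)
theorem L121127 : W_48 (nat_lit 8) (nat_lit 0x100038001c000000000000000000000000000) (nat_lit 0x0) (nat_lit 0x18003c000040003003c000a0000000000000000000) := T_48 (nat_lit 108) (nat_lit 109) (nat_lit 3) (nat_lit 6) (nat_lit 6) L121126 (by decide +kernel)
theorem L121128 : W_48 (nat_lit 9) (nat_lit 0x100038000c000000000000000000000000000) (nat_lit 0x0) (nat_lit 0x18003c000040073003c000e0003000000000000000) := Q_48 (nat_lit 112) (C_48 L121115 (C_48 L121120 (C_48 L121127 N_48))) (by decide +kernel)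
theorem L121129 : W_48 (nat_lit 2) (nat_lit 0x10007c002c000000020000000000000000000) (nat_lit 0x0) (nat_lit 0x1c000000000000000000000000000000000000) := D_48 (nat_lit 147) (nat_lit 148) (nat_lit 146) (nat_lit 3) (nat_lit 8) (nat_lit 7) (nat_lit 3) (nat_lit 7) (nat_lit 7) (by decide +kernel)
theorem L121130 : W_48 (nat_lit 3) (nat_lit 0x100078002c000000020000000000000000000) (nat_lit 0x0) (nat_lit 0x1c000040010000000000000000000000000000) := T_48 (nat_lit 126) (nat_lit 112) (nat_lit 2) (nat_lit 7) (nat_lit 7) L121129 (by decide +kernel)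
theorem L121131 : W_48 (nat_lit 4) (nat_lit 0x100078000c000000020000000000000000000) (nat_lit 0x0) (nat_lit 0x1c000040070000000000000000000000000000) := T_48 (nat_lit 113) (nat_lit 114) (nat_lit 2) (nat_lit 8) (nat_lit 7) L121130 (by decide +kernel)
theorem L121132 : W_48 (nat_lit 5) (nat_lit 0x100038000c000000020000000000000000000) (nat_lit 0x0) (nat_lit 0x1c000c40070000000000000000000000000000) := T_48 (nat_lit 130) (nat_lit 131) (nat_lit 0) (nat_lit 12) (nat_lit 7) L121131 (by decide +kernel)
theorem L121133 : W_48 (nat_lit 6) (nat_lit 0x100038000c000000000000000000000000000) (nat_lit 0x0) (nat_lit 0x1c000c40070000400020000000000000000000) := T_48 (nat_lit 77) (nat_lit 94) (nat_lit 5) (nat_lit 9) (nat_lit 4) L121132 (by decide +kernel)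
theorem L121134 : W_48 (nat_lit 10) (nat_lit 0x100018000c000000000000000000000000000) (nat_lit 0x0) (nat_lit 0x18003c000e40073003c000e0003000000000000000) := Q_48 (nat_lit 129) (C_48 L121114 (C_48 L121128 (C_48 L121133 N_48))) (by decide +kernel)
theorem L121135 : W_48 (nat_lit 2) (nat_lit 0x100018000e000000000000000000000000000) (nat_lit 0x0) (nat_lit 0x200001800000000000000000000000000) := D_48 (nat_lit 108) (nat_lit 129) (nat_lit 107) (nat_lit 3) (nat_lit 6) (nat_lit 6) (nat_lit 3) (nat_lit 5) (nat_lit 6) (by decide +kernel)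
theorem L121136 : W_48 (nat_lit 2) (nat_lit 0x100018000e000400000000000000000000000) (nat_lit 0x0) (nat_lit 0x1800800000000000000000000000) := D_48 (nat_lit 108) (nat_lit 107) (nat_lit 95) (nat_lit 3) (nat_lit 5) (nat_lit 6) (nat_lit 2) (nat_lit 6) (nat_lit 6) (by decide +kernel)
theorem L121137 : W_48 (nat_lit 3) (nat_lit 0x100018000e000000000000000000000000000) (nat_lit 0x0) (nat_lit 0x1800c00020000000000000000000) := T_48 (nat_lit 94) (nat_lit 77) (nat_lit 5) (nat_lit 9) (nat_lit 4) L121136 (by decide +kernel)
theorem L121138 : W_48 (nat_lit 2) (nat_lit 0xd00078002c000000020000000000000000000) (nat_lit 0x0) (nat_lit 0x1000080000000000000001000000000000000000000000) := D_48 (nat_lit 163) (nat_lit 180) (nat_lit 96) (nat_lit 6) (nat_lit 10) (nat_lit 10) (nat_lit 5) (nat_lit 11) (nat_lit 5) (by decide +kernel)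
theorem L121139 : W_48 (nat_lit 3) (nat_lit 0x900078002c000000020000000000000000000) (nat_lit 0x0) (nat_lit 0x1000080004000040000001000000000000000000000000) := T_48 (nat_lit 146) (nat_lit 126) (nat_lit 3) (nat_lit 7) (nat_lit 7) L121138 (by decide +kernel)
theorem L121140 : W_48 (nat_lit 4) (nat_lit 0x100078002c000000020000000000000000000) (nat_lit 0x0) (nat_lit 0x100008001c000040000001000000000000000000000000) := T_48 (nat_lit 147) (nat_lit 148) (nat_lit 3) (nat_lit 8) (nat_lit 7) L121139 (by decide +kernel)
theorem L121141 : W_48 (nat_lit 5) (nat_lit 0x100078000c000000020000000000000000000) (nat_lit 0x0) (nat_lit 0x100008001c000040060001000000000000000000000000) := T_48 (nat_lit 113) (nat_lit 114) (nat_lit 2) (nat_lit 8) (nat_lit 7) L121140 (by decide +kernel)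
theorem L121142 : W_48 (nat_lit 6) (nat_lit 0x100038000c000000020000000000000000000) (nat_lit 0x0) (nat_lit 0x100008001c000c40060001000000000000000000000000) := T_48 (nat_lit 130) (nat_lit 131) (nat_lit 0) (nat_lit 12) (nat_lit 7) L121141 (by decide +kernel)
theorem L121143 : W_48 (nat_lit 7) (nat_lit 0x100038000c000000000000000000000000000) (nat_lit 0x0) (nat_lit 0x100008001c000c40060001400020000000000000000000) := T_48 (nat_lit 77) (nat_lit 94) (nat_lit 5) (nat_lit 9) (nat_lit 4) L121142 (by decide +kernel)
theorem L121144 : W_48 (nat_lit 2) (nat_lit 0x100038000d000200020000000000000000000) (nat_lit 0x0) (nat_lit 0x10001800000000000000) := D_48 (nat_lit 76) (nat_lit 59) (nat_lit 60) (nat_lit 7) (nat_lit 8) (nat_lit 3) (nat_lit 6) (nat_lit 8) (nat_lit 7) (by decide +kernel)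
theorem L121145 : W_48 (nat_lit 3) (nat_lit 0x100038000d000200000000000000000000000) (nat_lit 0x0) (nat_lit 0x400030001800000000000000) := T_48 (nat_lit 77) (nat_lit 94) (nat_lit 6) (nat_lit 8) (nat_lit 8) L121144 (by decide +kernel)
theorem L121146 : W_48 (nat_lit 4) (nat_lit 0x100038000c000200000000000000000000000) (nat_lit 0x0) (nat_lit 0x3000400030001800000000000000) := T_48 (nat_lit 108) (nat_lit 109) (nat_lit 3) (nat_lit 6) (nat_lit 6) L121145 (by decide +kernel)
theorem L121147 : W_48 (nat_lit 2) (nat_lit 0x100038000c000200010000000000000000000) (nat_lit 0x0) (nat_lit 0x100008000400000000000000) := D_48 (nat_lit 75) (nat_lit 92) (nat_lit 58) (nat_lit 4) (nat_lit 8) (nat_lit 8) (nat_lit 4) (nat_lit 8) (nat_lit 7) (by decide +kernel)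
theorem L121148 : W_48 (nat_lit 3) (nat_lit 0x100038000c000200000000000000000000000) (nat_lit 0x0) (nat_lit 0x100018000c00000000000000) := T_48 (nat_lit 76) (nat_lit 59) (nat_lit 7) (nat_lit 8) (nat_lit 3) L121147 (by decide +kernel)
theorem L121149 : W_48 (nat_lit 2) (nat_lit 0x100038000d000380000000000000000000000) (nat_lit 0x0) (nat_lit 0x800400020000000000000000000) := D_48 (nat_lit 94) (nat_lit 107) (nat_lit 77) (nat_lit 1) (nat_lit 9) (nat_lit 5) (nat_lit 6) (nat_lit 8) (nat_lit 8) (by decide +kernel)
theorem L121150 : W_48 (nat_lit 3) (nat_lit 0x100038000c000380000000000000000000000) (nat_lit 0x0) (nat_lit 0x3800400020000000000000000000) := T_48 (nat_lit 108) (nat_lit 109) (nat_lit 3) (nat_lit 6) (nat_lit 6) L121149 (by decide +kernel)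
theorem L121151 : W_48 (nat_lit 4) (nat_lit 0x100038000c000300000000000000000000000) (nat_lit 0x0) (nat_lit 0x38004c0020000000000000000000) := T_48 (nat_lit 91) (nat_lit 90) (nat_lit 3) (nat_lit 5) (nat_lit 5) L121150 (by decide +kernel)
theorem L121152 : W_48 (nat_lit 5) (nat_lit 0x100038000c000200000000000000000000000) (nat_lit 0x0) (nat_lit 0x38005c0028000000000000000000) := T_48 (nat_lit 92) (nat_lit 75) (nat_lit 4) (nat_lit 8) (nat_lit 8) L121151 (by decide +kernel)
theorem L121153 : W_48 (nat_lit 6) (nat_lit 0x100038000c000000000000000000000000000) (nat_lit 0x0) (nat_lit 0x38007c0038001c00000000000000) := Q_48 (nat_lit 93) (C_48 L121146 (C_48 L121148 (C_48 L121152 N_48))) (by decide +kernel)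
theorem L121154 : W_48 (nat_lit 8) (nat_lit 0x100018000c000000000000000000000000000) (nat_lit 0x0) (nat_lit 0x100008001c000e400638017c0038001c00000000000000) := Q_48 (nat_lit 129) (C_48 L121114 (C_48 L121143 (C_48 L121153 N_48))) (by decide +kernel)
theorem L121155 : W_48 (nat_lit 2) (nat_lit 0x10001a000f000080000000000000000000000) (nat_lit 0x0) (nat_lit 0x40010000100000000000000000000000) := D_48 (nat_lit 112) (nat_lit 126) (nat_lit 92) (nat_lit 2) (nat_lit 6) (nat_lit 7) (nat_lit 0) (nat_lit 10) (nat_lit 6) (by decide +kernel)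
theorem L121156 : W_48 (nat_lit 3) (nat_lit 0x10001a000f000000000000000000000000000) (nat_lit 0x0) (nat_lit 0x400100001c0000000000000000000000) := T_48 (nat_lit 91) (nat_lit 90) (nat_lit 0) (nat_lit 9) (nat_lit 6) L121155 (by decide +kernel)
theorem L121157 : W_48 (nat_lit 4) (nat_lit 0x100018000f000000000000000000000000000) (nat_lit 0x0) (nat_lit 0x700100001c0000000000000000000000) := T_48 (nat_lit 125) (nat_lit 124) (nat_lit 1) (nat_lit 9) (nat_lit 6) L121156 (by decide +kernel)
theorem L121158 : W_48 (nat_lit 5) (nat_lit 0x100018000e000000000000000000000000000) (nat_lit 0x0) (nat_lit 0x700118001c0000000000000000000000) := T_48 (nat_lit 108) (nat_lit 107) (nat_lit 3) (nat_lit 5) (nat_lit 6) L121157 (by decide +kernel)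
theorem L121159 : W_48 (nat_lit 8) (nat_lit 0x100018000c000000000000000000000000000) (nat_lit 0x0) (nat_lit 0xe70073801bc0008000400000000000000) := Q_48 (nat_lit 109) (C_48 L120762 (C_48 L121135 (C_48 L121158 N_48))) (by decide +kernel)
theorem L121160 : W_48 (nat_lit 2) (nat_lit 0x100018005e000100020000000000000000000) (nat_lit 0x0) (nat_lit 0x200008000400000000000000) := D_48 (nat_lit 75) (nat_lit 93) (nat_lit 58) (nat_lit 4) (nat_lit 8) (nat_lit 8) (nat_lit 7) (nat_lit 7) (nat_lit 3) (by decide +kernel)
theorem L121161 : W_48 (nat_lit 3) (nat_lit 0x100018005e000000020000000000000000000) (nat_lit 0x0) (nat_lit 0x380008000400000000000000) := T_48 (nat_lit 92) (nat_lit 91) (nat_lit 0) (nat_lit 10) (nat_lit 6) L121160 (by decide +kernel)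
theorem L121162 : W_48 (nat_lit 4) (nat_lit 0x100018001e000000020000000000000000000) (nat_lit 0x0) (nat_lit 0x60000380008000400000000000000) := T_48 (nat_lit 114) (nat_lit 113) (nat_lit 1) (nat_lit 12) (nat_lit 6) L121161 (by decide +kernel)
theorem L121163 : W_48 (nat_lit 5) (nat_lit 0x100018001e000000000000000000000000000) (nat_lit 0x0) (nat_lit 0x60000780028000400000000000000) := T_48 (nat_lit 77) (nat_lit 94) (nat_lit 5) (nat_lit 9) (nat_lit 4) L121162 (by decide +kernel)
theorem L121164 : W_48 (nat_lit 2) (nat_lit 0x100058001e000900020002000000000000000) (nat_lit 0x0) (nat_lit 0x200008000400000000000000) := D_48 (nat_lit 75) (nat_lit 93) (nat_lit 58) (nat_lit 4) (nat_lit 8) (nat_lit 8) (nat_lit 7) (nat_lit 7) (nat_lit 3) (by decide +kernel)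
theorem L121165 : W_48 (nat_lit 3) (nat_lit 0x100058001e000800020002000000000000000) (nat_lit 0x0) (nat_lit 0x380008000400000000000000) := T_48 (nat_lit 92) (nat_lit 91) (nat_lit 0) (nat_lit 10) (nat_lit 6) L121164 (by decide +kernel)
theorem L121166 : W_48 (nat_lit 4) (nat_lit 0x100058001e000800000002000000000000000) (nat_lit 0x0) (nat_lit 0x780028000400000000000000) := T_48 (nat_lit 77) (nat_lit 94) (nat_lit 5) (nat_lit 9) (nat_lit 4) L121165 (by decide +kernel)
theorem L121167 : W_48 (nat_lit 5) (nat_lit 0x100058001e000800000000000000000000000) (nat_lit 0x0) (nat_lit 0x780068002400000000000000) := T_48 (nat_lit 61) (nat_lit 78) (nat_lit 5) (nat_lit 10) (nat_lit 3) L121166 (by decide +kernel)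
theorem L121168 : W_48 (nat_lit 6) (nat_lit 0x100018001e000800000000000000000000000) (nat_lit 0x0) (nat_lit 0x600000000780068002400000000000000) := T_48 (nat_lit 130) (nat_lit 129) (nat_lit 3) (nat_lit 7) (nat_lit 6) L121167 (by decide +kernel)
theorem L121169 : W_48 (nat_lit 7) (nat_lit 0x100018001e000000000000000000000000000) (nat_lit 0x0) (nat_lit 0x600000001f80068002400000000000000) := T_48 (nat_lit 95) (nat_lit 96) (nat_lit 2) (nat_lit 7) (nat_lit 6) L121168 (by decide +kernel)
theorem L121170 : W_48 (nat_lit 8) (nat_lit 0x100018000e000000000000000000000000000) (nat_lit 0x0) (nat_lit 0xe00070001f80068002400000000000000) := Q_48 (nat_lit 112) (C_48 L120756 (C_48 L121163 (C_48 L121169 N_48))) (by decide +kernel)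
theorem L121171 : W_48 (nat_lit 9) (nat_lit 0x100018000c000000000000000000000000000) (nat_lit 0x0) (nat_lit 0xe00073801f80068002400000000000000) := Q_48 (nat_lit 109) (C_48 L121170 (C_48 L121137 (C_48 L121135 N_48))) (by decide +kernel)
theorem L121172 : W_48 (nat_lit 2) (nat_lit 0x10003a001e000800020000000000000000000) (nat_lit 0x0) (nat_lit 0x40003000000000000000) := D_48 (nat_lit 78) (nat_lit 60) (nat_lit 61) (nat_lit 4) (nat_lit 10) (nat_lit 7) (nat_lit 5) (nat_lit 10) (nat_lit 3) (by decide +kernel)
theorem L121173 : W_48 (nat_lit 3) (nat_lit 0x10001a001e000800020000000000000000000) (nat_lit 0x0) (nat_lit 0x600000000000040003000000000000000) := T_48 (nat_lit 129) (nat_lit 130) (nat_lit 3) (nat_lit 7) (nat_lit 6) L121172 (by decide +kernel)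
theorem L121174 : W_48 (nat_lit 4) (nat_lit 0x10001a001e000000020000000000000000000) (nat_lit 0x0) (nat_lit 0x600000001800040003000000000000000) := T_48 (nat_lit 95) (nat_lit 96) (nat_lit 2) (nat_lit 7) (nat_lit 6) L121173 (by decide +kernel)
theorem L121175 : W_48 (nat_lit 5) (nat_lit 0x100018001e000000020000000000000000000) (nat_lit 0x0) (nat_lit 0x660000001800040003000000000000000) := T_48 (nat_lit 125) (nat_lit 126) (nat_lit 2) (nat_lit 6) (nat_lit 7) L121174 (by decide +kernel)
theorem L121176 : W_48 (nat_lit 6) (nat_lit 0x100018001e000000000000000000000000000) (nat_lit 0x0) (nat_lit 0x660000001c00060003000000000000000) := T_48 (nat_lit 77) (nat_lit 94) (nat_lit 5) (nat_lit 9) (nat_lit 4) L121175 (by decide +kernel)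
theorem L121177 : W_48 (nat_lit 2) (nat_lit 0x10001c001e000000000000000000000000000) (nat_lit 0x0) (nat_lit 0x180008000000000000000000) := D_48 (nat_lit 92) (nat_lit 75) (nat_lit 91) (nat_lit 7) (nat_lit 7) (nat_lit 4) (nat_lit 0) (nat_lit 10) (nat_lit 6) (by decide +kernel)
theorem L121178 : W_48 (nat_lit 3) (nat_lit 0x100018001e000000000000000000000000000) (nat_lit 0x0) (nat_lit 0x60000000180008000000000000000000) := T_48 (nat_lit 126) (nat_lit 125) (nat_lit 2) (nat_lit 6) (nat_lit 7) L121177 (by decide +kernel)
theorem L121179 : W_48 (nat_lit 8) (nat_lit 0x100018000e000000000000000000000000000) (nat_lit 0x0) (nat_lit 0x660010001f80068003400000000000000) := Q_48 (nat_lit 112) (C_48 L121001 (C_48 L121176 (C_48 L121169 (C_48 L121178 N_48)))) (by decide +kernel)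
theorem L121180 : W_48 (nat_lit 9) (nat_lit 0x100018000c000000000000000000000000000) (nat_lit 0x0) (nat_lit 0x670013801fc0068003400000000000000) := Q_48 (nat_lit 109) (C_48 L121179 (C_48 L121158 (C_48 L121137 N_48))) (by decide +kernel)
theorem L121181 : W_48 (nat_lit 11) (nat_lit 0x1000180004000000000000000000000000000) (nat_lit 0x0) (nat_lit 0x100018003c000e7007b803fc00f8003c00000000000000) := Q_48 (nat_lit 111) (C_48 L121003 (C_48 L121113 (C_48 L121134 (C_48 L121154 (C_48 L121159 (C_48 L121171 (C_48 L121180 N_48))))))) (by decide +kernel)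
theorem L121182 : W_48 (nat_lit 2) (nat_lit 0x52003f0014400000000000000000000000000) (nat_lit 0x0) (nat_lit 0x8002200000000000000000000000000) := D_48 (nat_lit 123) (nat_lit 109) (nat_lit 105) (nat_lit 2) (nat_lit 4) (nat_lit 7) (nat_lit 0) (nat_lit 7) (nat_lit 7) (by decide +kernel)
theorem L121183 : W_48 (nat_lit 3) (nat_lit 0x52003f0014000000000000000000000000000) (nat_lit 0x0) (nat_lit 0x8002e00000000000000000000000000) := T_48 (nat_lit 106) (nat_lit 107) (nat_lit 0) (nat_lit 8) (nat_lit 7) L121182 (by decide +kernel)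
theorem L121184 : W_48 (nat_lit 4) (nat_lit 0x52003e0014000000000000000000000000000) (nat_lit 0x0) (nat_lit 0x100018002e00000000000000000000000000) := T_48 (nat_lit 124) (nat_lit 140) (nat_lit 1) (nat_lit 8) (nat_lit 7) L121183 (by decide +kernel)
theorem L121185 : W_48 (nat_lit 5) (nat_lit 0x50003e0014000000000000000000000000000) (nat_lit 0x0) (nat_lit 0x700018002e00000000000000000000000000) := T_48 (nat_lit 141) (nat_lit 142) (nat_lit 1) (nat_lit 9) (nat_lit 7) L121184 (by decide +kernel)
theorem L121186 : W_48 (nat_lit 6) (nat_lit 0x50003c0014000000000000000000000000000) (nat_lit 0x0) (nat_lit 0x70003800ae00000000000000000000000000) := T_48 (nat_lit 125) (nat_lit 111) (nat_lit 2) (nat_lit 6) (nat_lit 7) L121185 (by decide +kernel)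
theorem L121187 : W_48 (nat_lit 7) (nat_lit 0x50003c0004000000000000000000000000000) (nat_lit 0x0) (nat_lit 0x70003803ae00000000000000000000000000) := T_48 (nat_lit 112) (nat_lit 113) (nat_lit 2) (nat_lit 7) (nat_lit 7) L121186 (by decide +kernel)
theorem L121188 : W_48 (nat_lit 8) (nat_lit 0x10003c0004000000000000000000000000000) (nat_lit 0x0) (nat_lit 0xc70003803ae00000000000000000000000000) := T_48 (nat_lit 146) (nat_lit 147) (nat_lit 3) (nat_lit 7) (nat_lit 7) L121187 (by decide +kernel)
theorem L121189 : W_48 (nat_lit 2) (nat_lit 0x200050003c0016000400000000000000000000000) (nat_lit 0x0) (nat_lit 0xa00020000000000000000000) := D_48 (nat_lit 77) (nat_lit 93) (nat_lit 95) (nat_lit 6) (nat_lit 8) (nat_lit 8) (nat_lit 4) (nat_lit 10) (nat_lit 8) (by decide +kernel)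
theorem L121190 : W_48 (nat_lit 3) (nat_lit 0x200050003c0016000000000000000000000000000) (nat_lit 0x0) (nat_lit 0x8000e00020000000000000000000) := T_48 (nat_lit 94) (nat_lit 111) (nat_lit 6) (nat_lit 8) (nat_lit 9) L121189 (by decide +kernel)
theorem L121191 : W_48 (nat_lit 4) (nat_lit 0x50003c0016000000000000000000000000000) (nat_lit 0x0) (nat_lit 0x400020000000000008000e00020000000000000000000) := T_48 (nat_lit 161) (nat_lit 178) (nat_lit 4) (nat_lit 8) (nat_lit 10) L121190 (by decide +kernel)
theorem L121192 : W_48 (nat_lit 5) (nat_lit 0x10003c0016000000000000000000000000000) (nat_lit 0x0) (nat_lit 0x40002000c000000008000e00020000000000000000000) := T_48 (nat_lit 146) (nat_lit 147) (nat_lit 3) (nat_lit 7) (nat_lit 7) L121191 (by decide +kernel)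
theorem L121193 : W_48 (nat_lit 6) (nat_lit 0x10003c0014000000000000000000000000000) (nat_lit 0x0) (nat_lit 0x40002000c00000000b000e00020000000000000000000) := T_48 (nat_lit 109) (nat_lit 108) (nat_lit 0) (nat_lit 10) (nat_lit 7) L121192 (by decide +kernel)
theorem L121194 : W_48 (nat_lit 7) (nat_lit 0x10003c0004000000000000000000000000000) (nat_lit 0x0) (nat_lit 0x40002000c00000003b000e00020000000000000000000) := T_48 (nat_lit 112) (nat_lit 113) (nat_lit 2) (nat_lit 7) (nat_lit 7) L121193 (by decide +kernel)
theorem L121195 : W_48 (nat_lit 2) (nat_lit 0x50003f0005000000000000000000000000000) (nat_lit 0x0) (nat_lit 0x700000000000000000000000000000000000) := D_48 (nat_lit 141) (nat_lit 140) (nat_lit 142) (nat_lit 1) (nat_lit 8) (nat_lit 7) (nat_lit 1) (nat_lit 9) (nat_lit 7) (by decide +kernel)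
theorem L121196 : W_48 (nat_lit 3) (nat_lit 0x50003e0005000000000000000000000000000) (nat_lit 0x0) (nat_lit 0x700010008000000000000000000000000000) := T_48 (nat_lit 124) (nat_lit 111) (nat_lit 2) (nat_lit 5) (nat_lit 7) L121195 (by decide +kernel)
theorem L121197 : W_48 (nat_lit 4) (nat_lit 0x10003e0005000000000000000000000000000) (nat_lit 0x0) (nat_lit 0xc700010008000000000000000000000000000) := T_48 (nat_lit 146) (nat_lit 147) (nat_lit 3) (nat_lit 7) (nat_lit 7) L121196 (by decide +kernel)
theorem L121198 : W_48 (nat_lit 5) (nat_lit 0x10003c0005000000000000000000000000000) (nat_lit 0x0) (nat_lit 0xc700030008800000000000000000000000000) := T_48 (nat_lit 125) (nat_lit 107) (nat_lit 0) (nat_lit 9) (nat_lit 7) L121197 (by decide +kernel)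
theorem L121199 : W_48 (nat_lit 6) (nat_lit 0x10003c0004000000000000000000000000000) (nat_lit 0x0) (nat_lit 0xc70003000b800000000000000000000000000) := T_48 (nat_lit 108) (nat_lit 109) (nat_lit 0) (nat_lit 10) (nat_lit 7) L121198 (by decide +kernel)
theorem L121200 : W_48 (nat_lit 2) (nat_lit 0x10003e0004000000000000000000000000000) (nat_lit 0x0) (nat_lit 0x3800000000000000000000000000) := D_48 (nat_lit 108) (nat_lit 109) (nat_lit 107) (nat_lit 0) (nat_lit 10) (nat_lit 7) (nat_lit 0) (nat_lit 9) (nat_lit 7) (by decide +kernel)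
theorem L121201 : W_48 (nat_lit 2) (nat_lit 0x50003f0014800000000000000000000000000) (nat_lit 0x0) (nat_lit 0x700000000000000000000000000000000000) := D_48 (nat_lit 141) (nat_lit 142) (nat_lit 140) (nat_lit 1) (nat_lit 9) (nat_lit 7) (nat_lit 1) (nat_lit 8) (nat_lit 7) (by decide +kernel)
theorem L121202 : W_48 (nat_lit 3) (nat_lit 0x50003e0014800000000000000000000000000) (nat_lit 0x0) (nat_lit 0x700010000400000000000000000000000000) := T_48 (nat_lit 124) (nat_lit 106) (nat_lit 0) (nat_lit 8) (nat_lit 7) L121201 (by decide +kernel)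
theorem L121203 : W_48 (nat_lit 4) (nat_lit 0x50003e0004800000000000000000000000000) (nat_lit 0x0) (nat_lit 0x700010030400000000000000000000000000) := T_48 (nat_lit 112) (nat_lit 113) (nat_lit 2) (nat_lit 7) (nat_lit 7) L121202 (by decide +kernel)
theorem L121204 : W_48 (nat_lit 5) (nat_lit 0x50003e0004000000000000000000000000000) (nat_lit 0x0) (nat_lit 0x700010031c00000000000000000000000000) := T_48 (nat_lit 107) (nat_lit 108) (nat_lit 0) (nat_lit 9) (nat_lit 7) L121203 (by decide +kernel)
theorem L121205 : W_48 (nat_lit 6) (nat_lit 0x10003e0004000000000000000000000000000) (nat_lit 0x0) (nat_lit 0xc700010031c00000000000000000000000000) := T_48 (nat_lit 146) (nat_lit 147) (nat_lit 3) (nat_lit 7) (nat_lit 7) L121204 (by decide +kernel)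
theorem L121206 : W_48 (nat_lit 2) (nat_lit 0x52003f0004400000000000000000000000000) (nat_lit 0x0) (nat_lit 0x8002200000000000000000000000000) := D_48 (nat_lit 123) (nat_lit 109) (nat_lit 105) (nat_lit 2) (nat_lit 4) (nat_lit 7) (nat_lit 0) (nat_lit 7) (nat_lit 7) (by decide +kernel)
theorem L121207 : W_48 (nat_lit 3) (nat_lit 0x52003f0004000000000000000000000000000) (nat_lit 0x0) (nat_lit 0x8002e00000000000000000000000000) := T_48 (nat_lit 106) (nat_lit 107) (nat_lit 0) (nat_lit 8) (nat_lit 7) L121206 (by decide +kernel)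
theorem L121208 : W_48 (nat_lit 4) (nat_lit 0x52003e0004000000000000000000000000000) (nat_lit 0x0) (nat_lit 0x100018002e00000000000000000000000000) := T_48 (nat_lit 124) (nat_lit 140) (nat_lit 1) (nat_lit 8) (nat_lit 7) L121207 (by decide +kernel)
theorem L121209 : W_48 (nat_lit 5) (nat_lit 0x12003e0004000000000000000000000000000) (nat_lit 0x0) (nat_lit 0xc100018002e00000000000000000000000000) := T_48 (nat_lit 146) (nat_lit 147) (nat_lit 3) (nat_lit 7) (nat_lit 7) L121208 (by decide +kernel)
theorem L121210 : W_48 (nat_lit 6) (nat_lit 0x10003e0004000000000000000000000000000) (nat_lit 0x0) (nat_lit 0xc700018002e00000000000000000000000000) := T_48 (nat_lit 141) (nat_lit 142) (nat_lit 1) (nat_lit 9) (nat_lit 7) L121209 (by decide +kernel)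
theorem L121211 : W_48 (nat_lit 2) (nat_lit 0x52003e0006000000000000000000000000000) (nat_lit 0x0) (nat_lit 0x100018000000000000000000000000000000) := D_48 (nat_lit 124) (nat_lit 123) (nat_lit 140) (nat_lit 2) (nat_lit 4) (nat_lit 7) (nat_lit 1) (nat_lit 8) (nat_lit 7) (by decide +kernel)
theorem L121212 : W_48 (nat_lit 3) (nat_lit 0x50003e0006000000000000000000000000000) (nat_lit 0x0) (nat_lit 0x700018000000000000000000000000000000) := T_48 (nat_lit 141) (nat_lit 142) (nat_lit 1) (nat_lit 9) (nat_lit 7) L121211 (by decide +kernel)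
theorem L121213 : W_48 (nat_lit 4) (nat_lit 0x50003e0004000000000000000000000000000) (nat_lit 0x0) (nat_lit 0x700018003000000000000000000000000000) := T_48 (nat_lit 109) (nat_lit 108) (nat_lit 0) (nat_lit 10) (nat_lit 7) L121212 (by decide +kernel)
theorem L121214 : W_48 (nat_lit 5) (nat_lit 0x10003e0004000000000000000000000000000) (nat_lit 0x0) (nat_lit 0xc700018003000000000000000000000000000) := T_48 (nat_lit 146) (nat_lit 147) (nat_lit 3) (nat_lit 7) (nat_lit 7) L121213 (by decide +kernel)
theorem L121215 : W_48 (nat_lit 7) (nat_lit 0x10003c0004000000000000000000000000000) (nat_lit 0x0) (nat_lit 0xc700038033e00000000000000000000000000) := Q_48 (nat_lit 125) (C_48 L121200 (C_48 L121205 (C_48 L121210 (C_48 L121214 N_48)))) (by decide +kernel)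
theorem L121216 : W_48 (nat_lit 9) (nat_lit 0x1000380004000000000000000000000000000) (nat_lit 0x0) (nat_lit 0x40002000c70007803be00e00020000000000000000000) := Q_48 (nat_lit 126) (C_48 L121188 (C_48 L121083 (C_48 L121194 (C_48 L121199 (C_48 L121215 N_48))))) (by decide +kernel)
theorem L121217 : W_48 (nat_lit 10) (nat_lit 0x1000180004000000000000000000000000000) (nat_lit 0x0) (nat_lit 0x40002003c700e780fbe00e00020000000000000000000) := Q_48 (nat_lit 129) (C_48 L121073 (C_48 L121096 (C_48 L121072 (C_48 L121216 (C_48 L121060 N_48))))) (by decide +kernel)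
theorem L121218 : W_48 (nat_lit 13) (nat_lit 0x1000180000000000000000000000000000000) (nat_lit 0x0) (nat_lit 0x28001c001e001e003c700e780ffe03fc00f8003c000e0005000000) := Q_48 (nat_lit 110) (C_48 L120993 (C_48 L121004 (C_48 L121036 (C_48 L121058 (C_48 L121059 (C_48 L121097 (C_48 L121181 (C_48 L121217 N_48)))))))) (by decide +kernel)
theorem L121219 : W_48 (nat_lit 13) (nat_lit 0x1000180000000000000000000000000000000) (nat_lit 0x0) (nat_lit 0x34001a80fcf03e700ffc07d800e8007000000000000000) := Q_48 (nat_lit 111) (C_48 L117446 (C_48 L120821 (C_48 L117305 (C_48 L117454 N_48)))) (by decide +kernel)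
theorem L121220 : W_48 (nat_lit 2) (nat_lit 0x50003c0002000100000000000000000000000) (nat_lit 0x0) (nat_lit 0x20000c00000000000000000000000000000000000) := D_48 (nat_lit 143) (nat_lit 142) (nat_lit 161) (nat_lit 1) (nat_lit 10) (nat_lit 7) (nat_lit 7) (nat_lit 7) (nat_lit 5) (by decide +kernel)
theorem L121221 : W_48 (nat_lit 3) (nat_lit 0x50003c0002000000000000000000000000000) (nat_lit 0x0) (nat_lit 0x20000c00000000000100008000000000000000000) := T_48 (nat_lit 92) (nat_lit 75) (nat_lit 7) (nat_lit 7) (nat_lit 4) L121220 (by decide +kernel)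
theorem L121222 : W_48 (nat_lit 4) (nat_lit 0x10003c0002000000000000000000000000000) (nat_lit 0x0) (nat_lit 0x2000cc00000000000100008000000000000000000) := T_48 (nat_lit 146) (nat_lit 147) (nat_lit 3) (nat_lit 7) (nat_lit 7) L121221 (by decide +kernel)
theorem L121223 : W_48 (nat_lit 5) (nat_lit 0x10003c0000000000000000000000000000000) (nat_lit 0x0) (nat_lit 0x2000cc00000003000100008000000000000000000) := T_48 (nat_lit 109) (nat_lit 108) (nat_lit 0) (nat_lit 10) (nat_lit 7) L121222 (by decide +kernel)
theorem L121224 : W_48 (nat_lit 2) (nat_lit 0x200050003c0012000000000000000000000000000) (nat_lit 0x0) (nat_lit 0x4000100008000000000000000000) := D_48 (nat_lit 92) (nat_lit 75) (nat_lit 110) (nat_lit 7) (nat_lit 7) (nat_lit 4) (nat_lit 4) (nat_lit 8) (nat_lit 9) (by decide +kernel)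
theorem L121225 : W_48 (nat_lit 3) (nat_lit 0x50003c0012000000000000000000000000000) (nat_lit 0x0) (nat_lit 0x400020000000000004000100008000000000000000000) := T_48 (nat_lit 161) (nat_lit 178) (nat_lit 4) (nat_lit 8) (nat_lit 10) L121224 (by decide +kernel)
theorem L121226 : W_48 (nat_lit 4) (nat_lit 0x50003c0010000000000000000000000000000) (nat_lit 0x0) (nat_lit 0x400020000000000007000100008000000000000000000) := T_48 (nat_lit 109) (nat_lit 108) (nat_lit 0) (nat_lit 10) (nat_lit 7) L121225 (by decide +kernel)
theorem L121227 : W_48 (nat_lit 5) (nat_lit 0x50003c0000000000000000000000000000000) (nat_lit 0x0) (nat_lit 0x400020000000000037000100008000000000000000000) := T_48 (nat_lit 112) (nat_lit 113) (nat_lit 2) (nat_lit 7) (nat_lit 7) L121226 (by decide +kernel)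
theorem L121228 : W_48 (nat_lit 6) (nat_lit 0x10003c0000000000000000000000000000000) (nat_lit 0x0) (nat_lit 0x40002000c000000037000100008000000000000000000) := T_48 (nat_lit 146) (nat_lit 147) (nat_lit 3) (nat_lit 7) (nat_lit 7) L121227 (by decide +kernel)
theorem L121229 : W_48 (nat_lit 4) (nat_lit 0x10003c0008000000000000000000000000000) (nat_lit 0x0) (nat_lit 0x8000c000000030000400020000000000000000000) := T_48 (nat_lit 112) (nat_lit 113) (nat_lit 2) (nat_lit 7) (nat_lit 7) L117364 (by decide +kernel)
theorem L121230 : W_48 (nat_lit 2) (nat_lit 0x200010003c0008000000000000000000000000000) (nat_lit 0x0) (nat_lit 0x4000400020000000000000000000) := D_48 (nat_lit 94) (nat_lit 77) (nat_lit 110) (nat_lit 5) (nat_lit 9) (nat_lit 4) (nat_lit 6) (nat_lit 8) (nat_lit 9) (by decide +kernel)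
theorem L121231 : W_48 (nat_lit 3) (nat_lit 0x10003c0008000000000000000000000000000) (nat_lit 0x0) (nat_lit 0x400020000000000004000400020000000000000000000) := T_48 (nat_lit 161) (nat_lit 178) (nat_lit 6) (nat_lit 8) (nat_lit 10) L121230 (by decide +kernel)
theorem L121232 : W_48 (nat_lit 4) (nat_lit 0x200058003c0008000000000000000000000000000) (nat_lit 0x0) (nat_lit 0x30001c0000000000030000000000000000000000000000) := T_48 (nat_lit 112) (nat_lit 113) (nat_lit 2) (nat_lit 7) (nat_lit 7) L117297 (by decide +kernel)
theorem L121233 : W_48 (nat_lit 5) (nat_lit 0x200018003c0008000000000000000000000000000) (nat_lit 0x0) (nat_lit 0x30001c000c000000030000000000000000000000000000) := T_48 (nat_lit 146) (nat_lit 147) (nat_lit 3) (nat_lit 7) (nat_lit 7) L121232 (by decide +kernel)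
theorem L121234 : W_48 (nat_lit 6) (nat_lit 0x18003c0008000000000000000000000000000) (nat_lit 0x0) (nat_lit 0x34001e000c000000030000000000000000000000000000) := T_48 (nat_lit 161) (nat_lit 178) (nat_lit 6) (nat_lit 8) (nat_lit 10) L121233 (by decide +kernel)
theorem L121235 : W_48 (nat_lit 7) (nat_lit 0x10003c0008000000000000000000000000000) (nat_lit 0x0) (nat_lit 0x34001e000cc00000030000000000000000000000000000) := T_48 (nat_lit 143) (nat_lit 142) (nat_lit 1) (nat_lit 10) (nat_lit 7) L121234 (by decide +kernel)
theorem L121236 : W_48 (nat_lit 8) (nat_lit 0x10003c0000000000000000000000000000000) (nat_lit 0x0) (nat_lit 0x34001e000cc0000003c000400020000000000000000000) := Q_48 (nat_lit 111) (C_48 L121229 (C_48 L121231 (C_48 L121235 N_48))) (by decide +kernel)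
theorem L121237 : W_48 (nat_lit 2) (nat_lit 0x58003c001a000180000000000000000000000) (nat_lit 0x0) (nat_lit 0x600010000000000000000000) := D_48 (nat_lit 93) (nat_lit 76) (nat_lit 94) (nat_lit 6) (nat_lit 7) (nat_lit 8) (nat_lit 3) (nat_lit 6) (nat_lit 5) (by decide +kernel)
theorem L121238 : W_48 (nat_lit 3) (nat_lit 0x58003c0012000180000000000000000000000) (nat_lit 0x0) (nat_lit 0xc000600010000000000000000000) := T_48 (nat_lit 111) (nat_lit 110) (nat_lit 0) (nat_lit 10) (nat_lit 6) L121237 (by decide +kernel)
theorem L121239 : W_48 (nat_lit 4) (nat_lit 0x58003c0012000100000000000000000000000) (nat_lit 0x0) (nat_lit 0xc000680014000000000000000000) := T_48 (nat_lit 91) (nat_lit 74) (nat_lit 4) (nat_lit 7) (nat_lit 8) L121238 (by decide +kernel)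
theorem L121240 : W_48 (nat_lit 5) (nat_lit 0x58003c0002000100000000000000000000000) (nat_lit 0x0) (nat_lit 0x3c000680014000000000000000000) := T_48 (nat_lit 112) (nat_lit 113) (nat_lit 2) (nat_lit 7) (nat_lit 7) L121239 (by decide +kernel)
theorem L121241 : W_48 (nat_lit 6) (nat_lit 0x58003c0002000000000000000000000000000) (nat_lit 0x0) (nat_lit 0x3c00078001c000000000000000000) := T_48 (nat_lit 92) (nat_lit 75) (nat_lit 7) (nat_lit 7) (nat_lit 4) L121240 (by decide +kernel)
theorem L121242 : W_48 (nat_lit 7) (nat_lit 0x50003c0002000000000000000000000000000) (nat_lit 0x0) (nat_lit 0xc0000003c00078001c000000000000000000) := T_48 (nat_lit 143) (nat_lit 142) (nat_lit 1) (nat_lit 10) (nat_lit 7) L121241 (by decide +kernel)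
theorem L121243 : W_48 (nat_lit 8) (nat_lit 0x50003c0000000000000000000000000000000) (nat_lit 0x0) (nat_lit 0xc0000003f00078001c000000000000000000) := T_48 (nat_lit 109) (nat_lit 108) (nat_lit 0) (nat_lit 10) (nat_lit 7) L121242 (by decide +kernel)
theorem L121244 : W_48 (nat_lit 9) (nat_lit 0x10003c0000000000000000000000000000000) (nat_lit 0x0) (nat_lit 0xcc0000003f00078001c000000000000000000) := T_48 (nat_lit 146) (nat_lit 147) (nat_lit 3) (nat_lit 7) (nat_lit 7) L121243 (by decide +kernel)
theorem L121245 : W_48 (nat_lit 2) (nat_lit 0x18003c0012000000000000000000000000000) (nat_lit 0x0) (nat_lit 0x400020000000000000000100000000000000000000000) := D_48 (nat_lit 161) (nat_lit 178) (nat_lit 92) (nat_lit 4) (nat_lit 8) (nat_lit 10) (nat_lit 7) (nat_lit 7) (nat_lit 5) (by decide +kernel)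
theorem L121246 : W_48 (nat_lit 3) (nat_lit 0x18003c0010000000000000000000000000000) (nat_lit 0x0) (nat_lit 0x400020000000000003000100000000000000000000000) := T_48 (nat_lit 109) (nat_lit 108) (nat_lit 0) (nat_lit 10) (nat_lit 7) L121245 (by decide +kernel)
theorem L121247 : W_48 (nat_lit 4) (nat_lit 0x10003c0010000000000000000000000000000) (nat_lit 0x0) (nat_lit 0x400020000c00000003000100000000000000000000000) := T_48 (nat_lit 143) (nat_lit 142) (nat_lit 1) (nat_lit 10) (nat_lit 7) L121246 (by decide +kernel)
theorem L121248 : W_48 (nat_lit 5) (nat_lit 0x10003c0000000000000000000000000000000) (nat_lit 0x0) (nat_lit 0x400020000c00000033000100000000000000000000000) := T_48 (nat_lit 112) (nat_lit 113) (nat_lit 2) (nat_lit 7) (nat_lit 7) L121247 (by decide +kernel)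
theorem L121249 : W_48 (nat_lit 10) (nat_lit 0x1000380000000000000000000000000000000) (nat_lit 0x0) (nat_lit 0x34001e000cc0004003f00078003c000000000000000000) := Q_48 (nat_lit 126) (C_48 L121223 (C_48 L121228 (C_48 L121236 (C_48 L121244 (C_48 L121248 N_48))))) (by decide +kernel)
theorem L121250 : W_48 (nat_lit 6) (nat_lit 0x1000380000000000000000000000000000000) (nat_lit 0x0) (nat_lit 0x400020000800c0006e000400000000000000000000000) := T_48 (nat_lit 130) (nat_lit 143) (nat_lit 1) (nat_lit 11) (nat_lit 7) L117483 (by decide +kernel)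
theorem L121251 : W_48 (nat_lit 12) (nat_lit 0x1000180000000000000000000000000000000) (nat_lit 0x0) (nat_lit 0x34001e00fcc03e401ff007f801fc004000000000000000) := Q_48 (nat_lit 129) (C_48 L117567 (C_48 L117568 (C_48 L117566 (C_48 L121249 (C_48 L121250 N_48))))) (by decide +kernel)
theorem L121252 : W_48 (nat_lit 2) (nat_lit 0x52003f0012400000008000000000000000000) (nat_lit 0x0) (nat_lit 0x8004200000000000000000000000000) := D_48 (nat_lit 123) (nat_lit 110) (nat_lit 105) (nat_lit 2) (nat_lit 4) (nat_lit 7) (nat_lit 0) (nat_lit 7) (nat_lit 7) (by decide +kernel)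
theorem L121253 : W_48 (nat_lit 3) (nat_lit 0x52003f0012000000008000000000000000000) (nat_lit 0x0) (nat_lit 0x8004e00000000000000000000000000) := T_48 (nat_lit 106) (nat_lit 107) (nat_lit 0) (nat_lit 8) (nat_lit 7) L121252 (by decide +kernel)
theorem L121254 : W_48 (nat_lit 4) (nat_lit 0x52003e0012000000008000000000000000000) (nat_lit 0x0) (nat_lit 0x100018004e00000000000000000000000000) := T_48 (nat_lit 124) (nat_lit 140) (nat_lit 1) (nat_lit 8) (nat_lit 7) L121253 (by decide +kernel)
theorem L121255 : W_48 (nat_lit 5) (nat_lit 0x52003e0012000000000000000000000000000) (nat_lit 0x0) (nat_lit 0x100018004e00100008000000000000000000) := T_48 (nat_lit 75) (nat_lit 92) (nat_lit 7) (nat_lit 7) (nat_lit 4) L121254 (by decide +kernel)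
theorem L121256 : W_48 (nat_lit 6) (nat_lit 0x12003e0012000000000000000000000000000) (nat_lit 0x0) (nat_lit 0xc100018004e00100008000000000000000000) := T_48 (nat_lit 146) (nat_lit 147) (nat_lit 3) (nat_lit 7) (nat_lit 7) L121255 (by decide +kernel)
theorem L121257 : W_48 (nat_lit 7) (nat_lit 0x10003e0012000000000000000000000000000) (nat_lit 0x0) (nat_lit 0xc700018004e00100008000000000000000000) := T_48 (nat_lit 141) (nat_lit 142) (nat_lit 1) (nat_lit 9) (nat_lit 7) L121256 (by decide +kernel)
theorem L121258 : W_48 (nat_lit 8) (nat_lit 0x10003c0012000000000000000000000000000) (nat_lit 0x0) (nat_lit 0xc70003800ce00100008000000000000000000) := T_48 (nat_lit 125) (nat_lit 111) (nat_lit 2) (nat_lit 6) (nat_lit 7) L121257 (by decide +kernel)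
theorem L121259 : W_48 (nat_lit 9) (nat_lit 0x10003c0002000000000000000000000000000) (nat_lit 0x0) (nat_lit 0xc70003803ce00100008000000000000000000) := T_48 (nat_lit 112) (nat_lit 113) (nat_lit 2) (nat_lit 7) (nat_lit 7) L121258 (by decide +kernel)
theorem L121260 : W_48 (nat_lit 10) (nat_lit 0x10003c0000000000000000000000000000000) (nat_lit 0x0) (nat_lit 0xc70003803fe00100008000000000000000000) := T_48 (nat_lit 109) (nat_lit 108) (nat_lit 0) (nat_lit 10) (nat_lit 7) L121259 (by decide +kernel)
theorem L121261 : W_48 (nat_lit 2) (nat_lit 0x50003e0010000000000000000000000000000) (nat_lit 0x0) (nat_lit 0xe00000000000000000000000000000000000) := D_48 (nat_lit 142) (nat_lit 141) (nat_lit 143) (nat_lit 1) (nat_lit 9) (nat_lit 7) (nat_lit 1) (nat_lit 10) (nat_lit 7) (by decide +kernel)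
theorem L121262 : W_48 (nat_lit 3) (nat_lit 0x50003c0010000000000000000000000000000) (nat_lit 0x0) (nat_lit 0xe00020008000000000000000000000000000) := T_48 (nat_lit 125) (nat_lit 111) (nat_lit 2) (nat_lit 6) (nat_lit 7) L121261 (by decide +kernel)
theorem L121263 : W_48 (nat_lit 4) (nat_lit 0x50003c0000000000000000000000000000000) (nat_lit 0x0) (nat_lit 0xe00020038000000000000000000000000000) := T_48 (nat_lit 112) (nat_lit 113) (nat_lit 2) (nat_lit 7) (nat_lit 7) L121262 (by decide +kernel)
theorem L121264 : W_48 (nat_lit 5) (nat_lit 0x10003c0000000000000000000000000000000) (nat_lit 0x0) (nat_lit 0xce00020038000000000000000000000000000) := T_48 (nat_lit 146) (nat_lit 147) (nat_lit 3) (nat_lit 7) (nat_lit 7) L121263 (by decide +kernel)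
theorem L121265 : W_48 (nat_lit 3) (nat_lit 0x50003c0012000000008000000000000000000) (nat_lit 0x0) (nat_lit 0x1000080000000020008000400000000000000000000000) := T_48 (nat_lit 111) (nat_lit 125) (nat_lit 2) (nat_lit 6) (nat_lit 7) L120837 (by decide +kernel)
theorem L121266 : W_48 (nat_lit 4) (nat_lit 0x50003c0002000000008000000000000000000) (nat_lit 0x0) (nat_lit 0x1000080000000020038000400000000000000000000000) := T_48 (nat_lit 112) (nat_lit 113) (nat_lit 2) (nat_lit 7) (nat_lit 7) L121265 (by decide +kernel)
theorem L121267 : W_48 (nat_lit 5) (nat_lit 0x50003c0002000000000000000000000000000) (nat_lit 0x0) (nat_lit 0x1000080000000020038000500008000000000000000000) := T_48 (nat_lit 75) (nat_lit 92) (nat_lit 7) (nat_lit 7) (nat_lit 4) L121266 (by decide +kernel)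
theorem L121268 : W_48 (nat_lit 6) (nat_lit 0x10003c0002000000000000000000000000000) (nat_lit 0x0) (nat_lit 0x100008000c000020038000500008000000000000000000) := T_48 (nat_lit 146) (nat_lit 147) (nat_lit 3) (nat_lit 7) (nat_lit 7) L121267 (by decide +kernel)
theorem L121269 : W_48 (nat_lit 7) (nat_lit 0x10003c0000000000000000000000000000000) (nat_lit 0x0) (nat_lit 0x100008000c00002003b000500008000000000000000000) := T_48 (nat_lit 109) (nat_lit 108) (nat_lit 0) (nat_lit 10) (nat_lit 7) L121268 (by decide +kernel)
theorem L121270 : W_48 (nat_lit 2) (nat_lit 0x10003e0010000000000000000000000000000) (nat_lit 0x0) (nat_lit 0xe00000000000000000000000000000000000) := D_48 (nat_lit 142) (nat_lit 141) (nat_lit 143) (nat_lit 1) (nat_lit 9) (nat_lit 7) (nat_lit 1) (nat_lit 10) (nat_lit 7) (by decide +kernel)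
theorem L121271 : W_48 (nat_lit 3) (nat_lit 0x10003c0010000000000000000000000000000) (nat_lit 0x0) (nat_lit 0xe00020008000000000000000000000000000) := T_48 (nat_lit 125) (nat_lit 111) (nat_lit 2) (nat_lit 6) (nat_lit 7) L121270 (by decide +kernel)
theorem L121272 : W_48 (nat_lit 4) (nat_lit 0x10003c0000000000000000000000000000000) (nat_lit 0x0) (nat_lit 0xe00020038000000000000000000000000000) := T_48 (nat_lit 112) (nat_lit 113) (nat_lit 2) (nat_lit 7) (nat_lit 7) L121271 (by decide +kernel)
theorem L121273 : W_48 (nat_lit 11) (nat_lit 0x1000380000000000000000000000000000000) (nat_lit 0x0) (nat_lit 0x10000a000cf0007803fe0078001c000000000000000000) := Q_48 (nat_lit 126) (C_48 L121223 (C_48 L121244 (C_48 L121260 (C_48 L121264 (C_48 L121269 (C_48 L121272 N_48)))))) (by decide +kernel)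
theorem L121274 : W_48 (nat_lit 2) (nat_lit 0x50007c002c000000000000000000000000000) (nat_lit 0x0) (nat_lit 0x20000000000000000400020000000000000000000) := D_48 (nat_lit 94) (nat_lit 77) (nat_lit 161) (nat_lit 7) (nat_lit 9) (nat_lit 4) (nat_lit 6) (nat_lit 8) (nat_lit 9) (by decide +kernel)
theorem L121275 : W_48 (nat_lit 3) (nat_lit 0x50007c0024000000000000000000000000000) (nat_lit 0x0) (nat_lit 0x20000000800008000400020000000000000000000) := T_48 (nat_lit 111) (nat_lit 131) (nat_lit 0) (nat_lit 12) (nat_lit 7) L121274 (by decide +kernel)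
theorem L121276 : W_48 (nat_lit 4) (nat_lit 0x10007c0024000000000000000000000000000) (nat_lit 0x0) (nat_lit 0x2000c000800008000400020000000000000000000) := T_48 (nat_lit 146) (nat_lit 147) (nat_lit 3) (nat_lit 7) (nat_lit 7) L121275 (by decide +kernel)
theorem L121277 : W_48 (nat_lit 5) (nat_lit 0x1000780024000000000000000000000000000) (nat_lit 0x0) (nat_lit 0x2000c000840018000400020000000000000000000) := T_48 (nat_lit 126) (nat_lit 112) (nat_lit 2) (nat_lit 7) (nat_lit 7) L121276 (by decide +kernel)
theorem L121278 : W_48 (nat_lit 6) (nat_lit 0x1000780004000000000000000000000000000) (nat_lit 0x0) (nat_lit 0x2000c000840078000400020000000000000000000) := T_48 (nat_lit 113) (nat_lit 114) (nat_lit 2) (nat_lit 8) (nat_lit 7) L121277 (by decide +kernel)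
theorem L121279 : W_48 (nat_lit 7) (nat_lit 0x1000780000000000000000000000000000000) (nat_lit 0x0) (nat_lit 0x2000c00084007e000400020000000000000000000) := T_48 (nat_lit 110) (nat_lit 109) (nat_lit 0) (nat_lit 11) (nat_lit 7) L121278 (by decide +kernel)
theorem L121280 : W_48 (nat_lit 2) (nat_lit 0x90007c0004000000000000000000000000000) (nat_lit 0x0) (nat_lit 0x70000000000000000000000000000) := D_48 (nat_lit 113) (nat_lit 112) (nat_lit 114) (nat_lit 2) (nat_lit 7) (nat_lit 7) (nat_lit 2) (nat_lit 8) (nat_lit 7) (by decide +kernel)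
theorem L121281 : W_48 (nat_lit 3) (nat_lit 0x9000780004000000000000000000000000000) (nat_lit 0x0) (nat_lit 0x4000040070000000000000000000000000000) := T_48 (nat_lit 126) (nat_lit 146) (nat_lit 3) (nat_lit 7) (nat_lit 7) L121280 (by decide +kernel)
theorem L121282 : W_48 (nat_lit 4) (nat_lit 0x1000780004000000000000000000000000000) (nat_lit 0x0) (nat_lit 0x1c000040070000000000000000000000000000) := T_48 (nat_lit 147) (nat_lit 148) (nat_lit 3) (nat_lit 8) (nat_lit 7) L121281 (by decide +kernel)
theorem L121283 : W_48 (nat_lit 5) (nat_lit 0x1000780000000000000000000000000000000) (nat_lit 0x0) (nat_lit 0x1c000040076000000000000000000000000000) := T_48 (nat_lit 110) (nat_lit 109) (nat_lit 0) (nat_lit 11) (nat_lit 7) L121282 (by decide +kernel)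
theorem L121284 : W_48 (nat_lit 2) (nat_lit 0x10007c0020000000000000000000000000000) (nat_lit 0x0) (nat_lit 0x7000000000000000000000000000) := D_48 (nat_lit 109) (nat_lit 108) (nat_lit 110) (nat_lit 0) (nat_lit 10) (nat_lit 7) (nat_lit 0) (nat_lit 11) (nat_lit 7) (by decide +kernel)
theorem L121285 : W_48 (nat_lit 3) (nat_lit 0x1000780020000000000000000000000000000) (nat_lit 0x0) (nat_lit 0x40017000000000000000000000000000) := T_48 (nat_lit 126) (nat_lit 112) (nat_lit 2) (nat_lit 7) (nat_lit 7) L121284 (by decide +kernel)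
theorem L121286 : W_48 (nat_lit 4) (nat_lit 0x1000780000000000000000000000000000000) (nat_lit 0x0) (nat_lit 0x40077000000000000000000000000000) := T_48 (nat_lit 113) (nat_lit 114) (nat_lit 2) (nat_lit 8) (nat_lit 7) L121285 (by decide +kernel)
theorem L121287 : W_48 (nat_lit 8) (nat_lit 0x1000380000000000000000000000000000000) (nat_lit 0x0) (nat_lit 0x2003c000c400ff000400020000000000000000000) := Q_48 (nat_lit 130) (C_48 L117472 (C_48 L117565 (C_48 L121279 (C_48 L121283 (C_48 L121286 N_48))))) (by decide +kernel)
theorem L121288 : W_48 (nat_lit 5) (nat_lit 0x1000380000000000000000000000000000000) (nat_lit 0x0) (nat_lit 0x800440077000000000000000000000000000) := T_48 (nat_lit 130) (nat_lit 143) (nat_lit 1) (nat_lit 11) (nat_lit 7) L121286 (by decide +kernel)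
theorem L121289 : W_48 (nat_lit 12) (nat_lit 0x1000180000000000000000000000000000000) (nat_lit 0x0) (nat_lit 0x10000a003cf00e780ffe0078003c000000000000000000) := Q_48 (nat_lit 129) (C_48 L121273 (C_48 L117567 (C_48 L121287 (C_48 L117568 (C_48 L121288 N_48))))) (by decide +kernel)
theorem L121290 : W_48 (nat_lit 2) (nat_lit 0xd000780024000000000000000000000000000) (nat_lit 0x0) (nat_lit 0x80000000000000001000080000000000000000000) := D_48 (nat_lit 96) (nat_lit 79) (nat_lit 163) (nat_lit 5) (nat_lit 11) (nat_lit 4) (nat_lit 5) (nat_lit 11) (nat_lit 5) (by decide +kernel)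
theorem L121291 : W_48 (nat_lit 3) (nat_lit 0xd000780004000000000000000000000000000) (nat_lit 0x0) (nat_lit 0x80000000000060001000080000000000000000000) := T_48 (nat_lit 113) (nat_lit 114) (nat_lit 2) (nat_lit 8) (nat_lit 7) L121290 (by decide +kernel)
theorem L121292 : W_48 (nat_lit 4) (nat_lit 0x9000780004000000000000000000000000000) (nat_lit 0x0) (nat_lit 0x80004000040060001000080000000000000000000) := T_48 (nat_lit 146) (nat_lit 126) (nat_lit 3) (nat_lit 7) (nat_lit 7) L121291 (by decide +kernel)
theorem L121293 : W_48 (nat_lit 5) (nat_lit 0x1000780004000000000000000000000000000) (nat_lit 0x0) (nat_lit 0x8001c000040060001000080000000000000000000) := T_48 (nat_lit 147) (nat_lit 148) (nat_lit 3) (nat_lit 8) (nat_lit 7) L121292 (by decide +kernel)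
theorem L121294 : W_48 (nat_lit 6) (nat_lit 0x1000780000000000000000000000000000000) (nat_lit 0x0) (nat_lit 0x8001c000040066001000080000000000000000000) := T_48 (nat_lit 110) (nat_lit 109) (nat_lit 0) (nat_lit 11) (nat_lit 7) L121293 (by decide +kernel)
theorem L121295 : W_48 (nat_lit 7) (nat_lit 0x1000380000000000000000000000000000000) (nat_lit 0x0) (nat_lit 0x4000a003c000c400ee0014000a0000000000000000000) := Q_48 (nat_lit 130) (C_48 L117472 (C_48 L117565 (C_48 L117483 (C_48 L121294 N_48)))) (by decide +kernel)
theorem L121296 : W_48 (nat_lit 2) (nat_lit 0x50003c0002000100000000000000000000000) (nat_lit 0x0) (nat_lit 0x400020000000000004000000000000000000000000000) := D_48 (nat_lit 161) (nat_lit 178) (nat_lit 110) (nat_lit 4) (nat_lit 8) (nat_lit 10) (nat_lit 4) (nat_lit 8) (nat_lit 9) (by decide +kernel)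
theorem L121297 : W_48 (nat_lit 3) (nat_lit 0x50003c0002000000000000000000000000000) (nat_lit 0x0) (nat_lit 0x400020000000000004000100008000000000000000000) := T_48 (nat_lit 92) (nat_lit 75) (nat_lit 7) (nat_lit 7) (nat_lit 4) L121296 (by decide +kernel)
theorem L121298 : W_48 (nat_lit 4) (nat_lit 0x10003c0002000000000000000000000000000) (nat_lit 0x0) (nat_lit 0x40002000c000000004000100008000000000000000000) := T_48 (nat_lit 146) (nat_lit 147) (nat_lit 3) (nat_lit 7) (nat_lit 7) L121297 (by decide +kernel)
theorem L121299 : W_48 (nat_lit 5) (nat_lit 0x10003c0000000000000000000000000000000) (nat_lit 0x0) (nat_lit 0x40002000c000000007000100008000000000000000000) := T_48 (nat_lit 109) (nat_lit 108) (nat_lit 0) (nat_lit 10) (nat_lit 7) L121298 (by decide +kernel)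
theorem L121301 : W_48 (nat_lit 2) (nat_lit 0x12003e0000800000000000000000000000000) (nat_lit 0x0) (nat_lit 0x100010000400000000000000000000000000) := D_48 (nat_lit 124) (nat_lit 106) (nat_lit 140) (nat_lit 0) (nat_lit 8) (nat_lit 7) (nat_lit 1) (nat_lit 8) (nat_lit 7) (by decide +kernel)
theorem L121302 : W_48 (nat_lit 3) (nat_lit 0x10003e0000800000000000000000000000000) (nat_lit 0x0) (nat_lit 0x700010000400000000000000000000000000) := T_48 (nat_lit 141) (nat_lit 142) (nat_lit 1) (nat_lit 9) (nat_lit 7) L121301 (by decide +kernel)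
theorem L121303 : W_48 (nat_lit 4) (nat_lit 0x10003e0000000000000000000000000000000) (nat_lit 0x0) (nat_lit 0x700010001c00000000000000000000000000) := T_48 (nat_lit 107) (nat_lit 108) (nat_lit 0) (nat_lit 9) (nat_lit 7) L121302 (by decide +kernel)
theorem L121304 : W_48 (nat_lit 2) (nat_lit 0x51003f0000800000000000000000000000000) (nat_lit 0x0) (nat_lit 0x880008000000000000000000000000000000) := D_48 (nat_lit 123) (nat_lit 143) (nat_lit 139) (nat_lit 3) (nat_lit 4) (nat_lit 7) (nat_lit 1) (nat_lit 7) (nat_lit 7) (by decide +kernel)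
theorem L121305 : W_48 (nat_lit 3) (nat_lit 0x50003f0000800000000000000000000000000) (nat_lit 0x0) (nat_lit 0xb80008000000000000000000000000000000) := T_48 (nat_lit 140) (nat_lit 141) (nat_lit 1) (nat_lit 8) (nat_lit 7) L121304 (by decide +kernel)
theorem L121306 : W_48 (nat_lit 4) (nat_lit 0x50003e0000800000000000000000000000000) (nat_lit 0x0) (nat_lit 0xb80018000400000000000000000000000000) := T_48 (nat_lit 124) (nat_lit 106) (nat_lit 0) (nat_lit 8) (nat_lit 7) L121305 (by decide +kernel)
theorem L121307 : W_48 (nat_lit 5) (nat_lit 0x10003e0000800000000000000000000000000) (nat_lit 0x0) (nat_lit 0xcb80018000400000000000000000000000000) := T_48 (nat_lit 146) (nat_lit 147) (nat_lit 3) (nat_lit 7) (nat_lit 7) L121306 (by decide +kernel)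
theorem L121308 : W_48 (nat_lit 6) (nat_lit 0x10003e0000000000000000000000000000000) (nat_lit 0x0) (nat_lit 0xcb80018001c00000000000000000000000000) := T_48 (nat_lit 107) (nat_lit 108) (nat_lit 0) (nat_lit 9) (nat_lit 7) L121307 (by decide +kernel)
theorem L121309 : W_48 (nat_lit 2) (nat_lit 0x58003e0000800000000000000000000000000) (nat_lit 0x0) (nat_lit 0x18000400000000000000000000000000) := D_48 (nat_lit 124) (nat_lit 123) (nat_lit 106) (nat_lit 3) (nat_lit 4) (nat_lit 7) (nat_lit 0) (nat_lit 8) (nat_lit 7) (by decide +kernel)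
theorem L121310 : W_48 (nat_lit 3) (nat_lit 0x58003e0000000000000000000000000000000) (nat_lit 0x0) (nat_lit 0x18001c00000000000000000000000000) := T_48 (nat_lit 107) (nat_lit 108) (nat_lit 0) (nat_lit 9) (nat_lit 7) L121309 (by decide +kernel)
theorem L121311 : W_48 (nat_lit 4) (nat_lit 0x50003e0000000000000000000000000000000) (nat_lit 0x0) (nat_lit 0xc00018001c00000000000000000000000000) := T_48 (nat_lit 143) (nat_lit 142) (nat_lit 1) (nat_lit 10) (nat_lit 7) L121310 (by decide +kernel)
theorem L121312 : W_48 (nat_lit 5) (nat_lit 0x10003e0000000000000000000000000000000) (nat_lit 0x0) (nat_lit 0xcc00018001c00000000000000000000000000) := T_48 (nat_lit 146) (nat_lit 147) (nat_lit 3) (nat_lit 7) (nat_lit 7) L121311 (by decide +kernel)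
theorem L121313 : W_48 (nat_lit 7) (nat_lit 0x10003c0000000000000000000000000000000) (nat_lit 0x0) (nat_lit 0xcf80038001c00000000000000000000000000) := Q_48 (nat_lit 125) (C_48 L121300 (C_48 L121303 (C_48 L121308 (C_48 L121312 N_48)))) (by decide +kernel)
theorem L121314 : W_48 (nat_lit 2) (nat_lit 0xe00058003c0004000100000000000000000000000) (nat_lit 0x0) (nat_lit 0x1000000000000000008000400000000000000000000000) := D_48 (nat_lit 111) (nat_lit 94) (nat_lit 180) (nat_lit 6) (nat_lit 8) (nat_lit 9) (nat_lit 4) (nat_lit 10) (nat_lit 10) (by decide +kernel)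
theorem L121315 : W_48 (nat_lit 3) (nat_lit 0xe00018003c0004000100000000000000000000000) (nat_lit 0x0) (nat_lit 0x100000000c000000008000400000000000000000000000) := T_48 (nat_lit 146) (nat_lit 147) (nat_lit 3) (nat_lit 7) (nat_lit 7) L121314 (by decide +kernel)
theorem L121316 : W_48 (nat_lit 4) (nat_lit 0xe00018003c0004000000000000000000000000000) (nat_lit 0x0) (nat_lit 0x100000000c00000000a000500000000000000000000000) := T_48 (nat_lit 92) (nat_lit 109) (nat_lit 7) (nat_lit 7) (nat_lit 5) L121315 (by decide +kernel)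
theorem L121317 : W_48 (nat_lit 5) (nat_lit 0x600018003c0004000000000000000000000000000) (nat_lit 0x0) (nat_lit 0x100018000c00000000a000500000000000000000000000) := T_48 (nat_lit 163) (nat_lit 164) (nat_lit 0) (nat_lit 11) (nat_lit 9) L121316 (by decide +kernel)
theorem L121318 : W_48 (nat_lit 6) (nat_lit 0x200018003c0004000000000000000000000000000) (nat_lit 0x0) (nat_lit 0x18001c000c00000000a000500000000000000000000000) := T_48 (nat_lit 162) (nat_lit 179) (nat_lit 7) (nat_lit 8) (nat_lit 6) L121317 (by decide +kernel)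
theorem L121319 : W_48 (nat_lit 7) (nat_lit 0x200010003c0004000000000000000000000000000) (nat_lit 0x0) (nat_lit 0x18001c000cc0000000a000500000000000000000000000) := T_48 (nat_lit 143) (nat_lit 142) (nat_lit 1) (nat_lit 10) (nat_lit 7) L121318 (by decide +kernel)
theorem L121320 : W_48 (nat_lit 2) (nat_lit 0xe00018003d000c000000000000000000000000000) (nat_lit 0x0) (nat_lit 0x100000000c000000000000000000000000000000000000) := D_48 (nat_lit 146) (nat_lit 147) (nat_lit 180) (nat_lit 3) (nat_lit 7) (nat_lit 7) (nat_lit 4) (nat_lit 10) (nat_lit 10) (by decide +kernel)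
theorem L121321 : W_48 (nat_lit 3) (nat_lit 0x600018003d000c000000000000000000000000000) (nat_lit 0x0) (nat_lit 0x100018000c000000000000000000000000000000000000) := T_48 (nat_lit 163) (nat_lit 164) (nat_lit 0) (nat_lit 11) (nat_lit 9) L121320 (by decide +kernel)
theorem L121322 : W_48 (nat_lit 4) (nat_lit 0x200018003d000c000000000000000000000000000) (nat_lit 0x0) (nat_lit 0x18001c000c000000000000000000000000000000000000) := T_48 (nat_lit 162) (nat_lit 179) (nat_lit 7) (nat_lit 8) (nat_lit 6) L121321 (by decide +kernel)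
theorem L121323 : W_48 (nat_lit 5) (nat_lit 0x200010003d000c000000000000000000000000000) (nat_lit 0x0) (nat_lit 0x18001c000cc00000000000000000000000000000000000) := T_48 (nat_lit 143) (nat_lit 142) (nat_lit 1) (nat_lit 10) (nat_lit 7) L121322 (by decide +kernel)
theorem L121324 : W_48 (nat_lit 6) (nat_lit 0x200010003c000c000000000000000000000000000) (nat_lit 0x0) (nat_lit 0x18001c000cc00030000000000000000000000000000000) := T_48 (nat_lit 124) (nat_lit 125) (nat_lit 2) (nat_lit 5) (nat_lit 7) L121323 (by decide +kernel)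
theorem L121325 : W_48 (nat_lit 7) (nat_lit 0x200010003c0004000000000000000000000000000) (nat_lit 0x0) (nat_lit 0x18001c000cc00030008000400000000000000000000000) := T_48 (nat_lit 111) (nat_lit 94) (nat_lit 6) (nat_lit 8) (nat_lit 9) L121324 (by decide +kernel)
theorem L121326 : W_48 (nat_lit 3) (nat_lit 0x200010003c0004000100000000000000000000000) (nat_lit 0x0) (nat_lit 0x8000600028000000000000000000) := T_48 (nat_lit 94) (nat_lit 111) (nat_lit 6) (nat_lit 8) (nat_lit 9) L120979 (by decide +kernel)
theorem L121327 : W_48 (nat_lit 4) (nat_lit 0x200010003c0004000000000000000000000000000) (nat_lit 0x0) (nat_lit 0xa000700028000000000000000000) := T_48 (nat_lit 92) (nat_lit 109) (nat_lit 4) (nat_lit 8) (nat_lit 9) L121326 (by decide +kernel)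
theorem L121328 : W_48 (nat_lit 2) (nat_lit 0x600010003c0004000300000000000000000000000) (nat_lit 0x0) (nat_lit 0xc00000000000000010000000000000000000) := D_48 (nat_lit 143) (nat_lit 142) (nat_lit 76) (nat_lit 1) (nat_lit 10) (nat_lit 7) (nat_lit 5) (nat_lit 8) (nat_lit 4) (by decide +kernel)
theorem L121329 : W_48 (nat_lit 3) (nat_lit 0x600010003c0004000100000000000000000000000) (nat_lit 0x0) (nat_lit 0xc00000000000200018000000000000000000) := T_48 (nat_lit 93) (nat_lit 75) (nat_lit 4) (nat_lit 8) (nat_lit 8) L121328 (by decide +kernel)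
theorem L121330 : W_48 (nat_lit 4) (nat_lit 0x200010003c0004000100000000000000000000000) (nat_lit 0x0) (nat_lit 0x800040000c00000000000200018000000000000000000) := T_48 (nat_lit 162) (nat_lit 179) (nat_lit 7) (nat_lit 8) (nat_lit 6) L121329 (by decide +kernel)
theorem L121331 : W_48 (nat_lit 5) (nat_lit 0x200010003c0004000000000000000000000000000) (nat_lit 0x0) (nat_lit 0x800040000c00000002000300018000000000000000000) := T_48 (nat_lit 92) (nat_lit 109) (nat_lit 4) (nat_lit 8) (nat_lit 9) L121330 (by decide +kernel)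
theorem L121332 : W_48 (nat_lit 8) (nat_lit 0x200010003c0000000000000000000000000000000) (nat_lit 0x0) (nat_lit 0x18001c000cc0003000e000700038000000000000000000) := Q_48 (nat_lit 110) (C_48 L121319 (C_48 L121325 (C_48 L121327 (C_48 L121331 N_48)))) (by decide +kernel)
theorem L121333 : W_48 (nat_lit 2) (nat_lit 0x200010003c0000000000000000000000000000000) (nat_lit 0x0) (nat_lit 0x40000000000000000a000000000000000000000000000) := D_48 (nat_lit 178) (nat_lit 111) (nat_lit 109) (nat_lit 6) (nat_lit 8) (nat_lit 10) (nat_lit 4) (nat_lit 8) (nat_lit 10) (by decide +kernel)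
theorem L121334 : W_48 (nat_lit 2) (nat_lit 0x200058003c0000000000000000000000000000000) (nat_lit 0x0) (nat_lit 0x8000400000000000000008000000000000000000000000000) := D_48 (nat_lit 178) (nat_lit 111) (nat_lit 195) (nat_lit 6) (nat_lit 8) (nat_lit 10) (nat_lit 4) (nat_lit 8) (nat_lit 11) (by decide +kernel)
theorem L121335 : W_48 (nat_lit 3) (nat_lit 0x200050003c0000000000000000000000000000000) (nat_lit 0x0) (nat_lit 0x8000400000000c00000008000000000000000000000000000) := T_48 (nat_lit 143) (nat_lit 142) (nat_lit 1) (nat_lit 10) (nat_lit 7) L121334 (by decide +kernel)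
theorem L121336 : W_48 (nat_lit 4) (nat_lit 0x200010003c0000000000000000000000000000000) (nat_lit 0x0) (nat_lit 0x800040000000cc00000008000000000000000000000000000) := T_48 (nat_lit 146) (nat_lit 147) (nat_lit 3) (nat_lit 7) (nat_lit 7) L121335 (by decide +kernel)
theorem L121337 : W_48 (nat_lit 6) (nat_lit 0x200010003c0000000000000000000000000000000) (nat_lit 0x0) (nat_lit 0x14000f800c0000000000006000000000000000000000000000) := T_48 (nat_lit 178) (nat_lit 109) (nat_lit 4) (nat_lit 8) (nat_lit 10) L120933 (by decide +kernel)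
theorem L121338 : W_48 (nat_lit 9) (nat_lit 0x10003c0000000000000000000000000000000) (nat_lit 0x0) (nat_lit 0x1c001f801e000cc0003000e000700038000000000000000000) := Q_48 (nat_lit 161) (C_48 L121332 (C_48 L121333 (C_48 L121336 (C_48 L121337 N_48)))) (by decide +kernel)
theorem L121339 : W_48 (nat_lit 2) (nat_lit 0x18003c0002000000000000000000000000000) (nat_lit 0x0) (nat_lit 0x20000000000000000100008000000000000000000) := D_48 (nat_lit 92) (nat_lit 75) (nat_lit 161) (nat_lit 7) (nat_lit 7) (nat_lit 4) (nat_lit 7) (nat_lit 7) (nat_lit 5) (by decide +kernel)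
theorem L121340 : W_48 (nat_lit 3) (nat_lit 0x10003c0002000000000000000000000000000) (nat_lit 0x0) (nat_lit 0x20000c00000000000100008000000000000000000) := T_48 (nat_lit 143) (nat_lit 142) (nat_lit 1) (nat_lit 10) (nat_lit 7) L121339 (by decide +kernel)
theorem L121341 : W_48 (nat_lit 4) (nat_lit 0x10003c0000000000000000000000000000000) (nat_lit 0x0) (nat_lit 0x20000c00000003000100008000000000000000000) := T_48 (nat_lit 109) (nat_lit 108) (nat_lit 0) (nat_lit 10) (nat_lit 7) L121340 (by decide +kernel)
theorem L121342 : W_48 (nat_lit 10) (nat_lit 0x1000380000000000000000000000000000000) (nat_lit 0x0) (nat_lit 0x1c001f801e000cf8007800fc00700038000000000000000000) := Q_48 (nat_lit 126) (C_48 L121223 (C_48 L121299 (C_48 L121313 (C_48 L121338 (C_48 L121341 N_48))))) (by decide +kernel)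
theorem L121343 : W_48 (nat_lit 11) (nat_lit 0x1000180000000000000000000000000000000) (nat_lit 0x0) (nat_lit 0x1c001f801e003cf80e780efc017000b8000000000000000000) := Q_48 (nat_lit 129) (C_48 L117567 (C_48 L121250 (C_48 L121295 (C_48 L121342 N_48)))) (by decide +kernel)
theorem L121344 : W_48 (nat_lit 5) (nat_lit 0x20001000180000000000000000000000000000000) (nat_lit 0x0) (nat_lit 0x10000c0004000000004000e000100000000000000000000000) := T_48 (nat_lit 178) (nat_lit 111) (nat_lit 6) (nat_lit 8) (nat_lit 10) L120905 (by decide +kernel)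
theorem L121345 : W_48 (nat_lit 2) (nat_lit 0x40004000200010001c0000000000000000000000000000000) (nat_lit 0x0) (nat_lit 0x80008000000000000800000000000000000000000000000000000) := D_48 (nat_lit 195) (nat_lit 143) (nat_lit 211) (nat_lit 4) (nat_lit 8) (nat_lit 11) (nat_lit 5) (nat_lit 8) (nat_lit 8) (by decide +kernel)
theorem L121346 : W_48 (nat_lit 3) (nat_lit 0x4000200010001c0000000000000000000000000000000) (nat_lit 0x0) (nat_lit 0x8000c000200000000800000000000000000000000000000000000) := T_48 (nat_lit 194) (nat_lit 177) (nat_lit 5) (nat_lit 8) (nat_lit 7) L121345 (by decide +kernel)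
theorem L121347 : W_48 (nat_lit 4) (nat_lit 0x400020001000180000000000000000000000000000000) (nat_lit 0x0) (nat_lit 0x8000c000200000000800040002000000000000000000000000000) := T_48 (nat_lit 126) (nat_lit 109) (nat_lit 4) (nat_lit 8) (nat_lit 10) L121346 (by decide +kernel)
theorem L121348 : W_48 (nat_lit 6) (nat_lit 0x20001000180000000000000000000000000000000) (nat_lit 0x0) (nat_lit 0x28001c000f800c0000800040006000100000000000000000000000) := Q_48 (nat_lit 178) (C_48 L120900 (C_48 L120905 (C_48 L120902 (C_48 L121347 N_48)))) (by decide +kernel)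
theorem L121349 : W_48 (nat_lit 5) (nat_lit 0x20001000180000000000000000000000000000000) (nat_lit 0x0) (nat_lit 0x8000c00060000000080004000a000000000000000000000000000) := T_48 (nat_lit 178) (nat_lit 111) (nat_lit 6) (nat_lit 8) (nat_lit 10) L121347 (by decide +kernel)
theorem L121350 : W_48 (nat_lit 6) (nat_lit 0x20001000180000000000000000000000000000000) (nat_lit 0x0) (nat_lit 0x14000f800c000000000000c000000000000000000000000000) := T_48 (nat_lit 178) (nat_lit 111) (nat_lit 6) (nat_lit 8) (nat_lit 10) L120902 (by decide +kernel)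
theorem L121351 : W_48 (nat_lit 2) (nat_lit 0x200012001f0008400400000000000000000000000) (nat_lit 0x0) (nat_lit 0x800008000200000000000000000000000000) := D_48 (nat_lit 123) (nat_lit 143) (nat_lit 105) (nat_lit 3) (nat_lit 4) (nat_lit 7) (nat_lit 0) (nat_lit 7) (nat_lit 7) (by decide +kernel)
theorem L121352 : W_48 (nat_lit 3) (nat_lit 0x200012001f0008000400000000000000000000000) (nat_lit 0x0) (nat_lit 0x800008000e00000000000000000000000000) := T_48 (nat_lit 106) (nat_lit 107) (nat_lit 0) (nat_lit 8) (nat_lit 7) L121351 (by decide +kernel)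
theorem L121353 : W_48 (nat_lit 4) (nat_lit 0x200012001e0008000400000000000000000000000) (nat_lit 0x0) (nat_lit 0x900018000e00000000000000000000000000) := T_48 (nat_lit 124) (nat_lit 140) (nat_lit 1) (nat_lit 8) (nat_lit 7) L121352 (by decide +kernel)
theorem L121354 : W_48 (nat_lit 5) (nat_lit 0x200010001e0008000400000000000000000000000) (nat_lit 0x0) (nat_lit 0xf00018000e00000000000000000000000000) := T_48 (nat_lit 141) (nat_lit 142) (nat_lit 1) (nat_lit 9) (nat_lit 7) L121353 (by decide +kernel)
theorem L121355 : W_48 (nat_lit 6) (nat_lit 0x200010001c0008000400000000000000000000000) (nat_lit 0x0) (nat_lit 0xf00038010e00000000000000000000000000) := T_48 (nat_lit 125) (nat_lit 112) (nat_lit 2) (nat_lit 6) (nat_lit 7) L121354 (by decide +kernel)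
theorem L121356 : W_48 (nat_lit 7) (nat_lit 0x200010001c0000000400000000000000000000000) (nat_lit 0x0) (nat_lit 0xf00038018e00000020000000000000000000) := T_48 (nat_lit 111) (nat_lit 77) (nat_lit 5) (nat_lit 9) (nat_lit 4) L121355 (by decide +kernel)
theorem L121357 : W_48 (nat_lit 6) (nat_lit 0x200010001c0000000400000000000000000000000) (nat_lit 0x0) (nat_lit 0x700030019c00000020000000000000000000) := T_48 (nat_lit 111) (nat_lit 77) (nat_lit 5) (nat_lit 9) (nat_lit 4) L120896 (by decide +kernel)
theorem L121358 : W_48 (nat_lit 2) (nat_lit 0x200010001c0000000500000000000000000000000) (nat_lit 0x0) (nat_lit 0x800000002000000008000000000000000000) := D_48 (nat_lit 109) (nat_lit 143) (nat_lit 75) (nat_lit 7) (nat_lit 7) (nat_lit 5) (nat_lit 7) (nat_lit 7) (nat_lit 4) (by decide +kernel)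
theorem L121359 : W_48 (nat_lit 9) (nat_lit 0x200010001c0000000500000000000000000000000) (nat_lit 0x0) (nat_lit 0x3bc01af01fe000200000000000000) := T_48 (nat_lit 111) (nat_lit 77) (nat_lit 5) (nat_lit 9) (nat_lit 4) L120867 (by decide +kernel)
theorem L121360 : W_48 (nat_lit 2) (nat_lit 0x200010001c00000007c0020000000000000000000) (nat_lit 0x0) (nat_lit 0x1c00000000000000000000000000) := D_48 (nat_lit 107) (nat_lit 106) (nat_lit 108) (nat_lit 1) (nat_lit 8) (nat_lit 5) (nat_lit 1) (nat_lit 9) (nat_lit 5) (by decide +kernel)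
theorem L121361 : W_48 (nat_lit 3) (nat_lit 0x200010001c0000000780020000000000000000000) (nat_lit 0x0) (nat_lit 0x1c00040010000000000000000000) := T_48 (nat_lit 90) (nat_lit 76) (nat_lit 2) (nat_lit 5) (nat_lit 5) L121360 (by decide +kernel)
theorem L121362 : W_48 (nat_lit 4) (nat_lit 0x200010001c0000000700020000000000000000000) (nat_lit 0x0) (nat_lit 0x1c000c0050000000000000000000) := T_48 (nat_lit 91) (nat_lit 78) (nat_lit 2) (nat_lit 6) (nat_lit 5) L121361 (by decide +kernel)
theorem L121363 : W_48 (nat_lit 5) (nat_lit 0x200010001c0000000700000000000000000000000) (nat_lit 0x0) (nat_lit 0x9c000c0070000000000000000000) := T_48 (nat_lit 77) (nat_lit 111) (nat_lit 5) (nat_lit 9) (nat_lit 4) L121362 (by decide +kernel)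
theorem L121364 : W_48 (nat_lit 2) (nat_lit 0x200010001c0000800780022000000000000000000) (nat_lit 0x0) (nat_lit 0x400040001000000000000000000) := D_48 (nat_lit 90) (nat_lit 106) (nat_lit 72) (nat_lit 1) (nat_lit 8) (nat_lit 5) (nat_lit 0) (nat_lit 8) (nat_lit 5) (by decide +kernel)
theorem L121365 : W_48 (nat_lit 3) (nat_lit 0x200010001c0000800780020000000000000000000) (nat_lit 0x0) (nat_lit 0x400040007000000000000000000) := T_48 (nat_lit 73) (nat_lit 74) (nat_lit 0) (nat_lit 9) (nat_lit 5) L121364 (by decide +kernel)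
theorem L121366 : W_48 (nat_lit 4) (nat_lit 0x200010001c0000000780020000000000000000000) (nat_lit 0x0) (nat_lit 0x1c00040007000000000000000000) := T_48 (nat_lit 107) (nat_lit 108) (nat_lit 1) (nat_lit 9) (nat_lit 5) L121365 (by decide +kernel)
theorem L121367 : W_48 (nat_lit 5) (nat_lit 0x200010001c0000000700020000000000000000000) (nat_lit 0x0) (nat_lit 0x1c000c0047000000000000000000) := T_48 (nat_lit 91) (nat_lit 78) (nat_lit 2) (nat_lit 6) (nat_lit 5) L121366 (by decide +kernel)
theorem L121368 : W_48 (nat_lit 6) (nat_lit 0x200010001c0000000700000000000000000000000) (nat_lit 0x0) (nat_lit 0x9c000c0067000000000000000000) := T_48 (nat_lit 77) (nat_lit 111) (nat_lit 5) (nat_lit 9) (nat_lit 4) L121367 (by decide +kernel)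
theorem L121369 : W_48 (nat_lit 2) (nat_lit 0x200010001c00000007c0024000000000000000000) (nat_lit 0x0) (nat_lit 0x1c00000000000000000000000000) := D_48 (nat_lit 107) (nat_lit 106) (nat_lit 108) (nat_lit 1) (nat_lit 8) (nat_lit 5) (nat_lit 1) (nat_lit 9) (nat_lit 5) (by decide +kernel)
theorem L121370 : W_48 (nat_lit 3) (nat_lit 0x200010001c0000000780024000000000000000000) (nat_lit 0x0) (nat_lit 0x1c00040010000000000000000000) := T_48 (nat_lit 90) (nat_lit 76) (nat_lit 2) (nat_lit 5) (nat_lit 5) L121369 (by decide +kernel)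
theorem L121371 : W_48 (nat_lit 4) (nat_lit 0x200010001c0000000780004000000000000000000) (nat_lit 0x0) (nat_lit 0x1c00040070000000000000000000) := T_48 (nat_lit 77) (nat_lit 78) (nat_lit 2) (nat_lit 6) (nat_lit 5) L121370 (by decide +kernel)
theorem L121372 : W_48 (nat_lit 5) (nat_lit 0x200010001c0000000780000000000000000000000) (nat_lit 0x0) (nat_lit 0x1c00040076000000000000000000) := T_48 (nat_lit 74) (nat_lit 73) (nat_lit 0) (nat_lit 9) (nat_lit 5) L121371 (by decide +kernel)
theorem L121373 : W_48 (nat_lit 2) (nat_lit 0x200010001c0001000780044000000000000000000) (nat_lit 0x0) (nat_lit 0x800088000000000000000000) := D_48 (nat_lit 95) (nat_lit 75) (nat_lit 79) (nat_lit 0) (nat_lit 10) (nat_lit 5) (nat_lit 2) (nat_lit 7) (nat_lit 5) (by decide +kernel)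
theorem L121374 : W_48 (nat_lit 3) (nat_lit 0x200010001c0001000780004000000000000000000) (nat_lit 0x0) (nat_lit 0x8000e8000000000000000000) := T_48 (nat_lit 78) (nat_lit 77) (nat_lit 2) (nat_lit 6) (nat_lit 5) L121373 (by decide +kernel)
theorem L121375 : W_48 (nat_lit 4) (nat_lit 0x200010001c0001000780000000000000000000000) (nat_lit 0x0) (nat_lit 0x8000ee000000000000000000) := T_48 (nat_lit 74) (nat_lit 73) (nat_lit 0) (nat_lit 9) (nat_lit 5) L121374 (by decide +kernel)
theorem L121376 : W_48 (nat_lit 5) (nat_lit 0x200010001c0000000780000000000000000000000) (nat_lit 0x0) (nat_lit 0x18008000ee000000000000000000) := T_48 (nat_lit 108) (nat_lit 107) (nat_lit 1) (nat_lit 9) (nat_lit 5) L121375 (by decide +kernel)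
theorem L121377 : W_48 (nat_lit 2) (nat_lit 0x200010001c00004007c002c000000000000000000) (nat_lit 0x0) (nat_lit 0x200030000000000000000000000) := D_48 (nat_lit 89) (nat_lit 105) (nat_lit 88) (nat_lit 1) (nat_lit 7) (nat_lit 5) (nat_lit 2) (nat_lit 3) (nat_lit 5) (by decide +kernel)
theorem L121378 : W_48 (nat_lit 3) (nat_lit 0x200010001c00004007c0024000000000000000000) (nat_lit 0x0) (nat_lit 0x200830008000000000000000000) := T_48 (nat_lit 75) (nat_lit 95) (nat_lit 0) (nat_lit 10) (nat_lit 5) L121377 (by decide +kernel)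
theorem L121379 : W_48 (nat_lit 4) (nat_lit 0x200010001c00000007c0024000000000000000000) (nat_lit 0x0) (nat_lit 0xe00830008000000000000000000) := T_48 (nat_lit 106) (nat_lit 107) (nat_lit 1) (nat_lit 8) (nat_lit 5) L121378 (by decide +kernel)
theorem L121380 : W_48 (nat_lit 5) (nat_lit 0x200010001c0000000780024000000000000000000) (nat_lit 0x0) (nat_lit 0xe00870018000000000000000000) := T_48 (nat_lit 90) (nat_lit 76) (nat_lit 2) (nat_lit 5) (nat_lit 5) L121379 (by decide +kernel)
theorem L121381 : W_48 (nat_lit 6) (nat_lit 0x200010001c0000000780004000000000000000000) (nat_lit 0x0) (nat_lit 0xe00870078000000000000000000) := T_48 (nat_lit 77) (nat_lit 78) (nat_lit 2) (nat_lit 6) (nat_lit 5) L121380 (by decide +kernel)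
theorem L121382 : W_48 (nat_lit 7) (nat_lit 0x200010001c0000000780000000000000000000000) (nat_lit 0x0) (nat_lit 0xe0087007e000000000000000000) := T_48 (nat_lit 74) (nat_lit 73) (nat_lit 0) (nat_lit 9) (nat_lit 5) L121381 (by decide +kernel)
theorem L121383 : W_48 (nat_lit 2) (nat_lit 0x200010001c0000001f80034000000000000000000) (nat_lit 0x0) (nat_lit 0x70000000000000000000000000000) := D_48 (nat_lit 113) (nat_lit 112) (nat_lit 114) (nat_lit 3) (nat_lit 7) (nat_lit 5) (nat_lit 3) (nat_lit 8) (nat_lit 5) (by decide +kernel)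
theorem L121384 : W_48 (nat_lit 3) (nat_lit 0x200010001c0000000f80034000000000000000000) (nat_lit 0x0) (nat_lit 0x70003000000000000000000000000) := T_48 (nat_lit 96) (nat_lit 97) (nat_lit 0) (nat_lit 12) (nat_lit 5) L121383 (by decide +kernel)
theorem L121385 : W_48 (nat_lit 4) (nat_lit 0x200010001c0000000780034000000000000000000) (nat_lit 0x0) (nat_lit 0x70003800008000000000000000000) := T_48 (nat_lit 95) (nat_lit 75) (nat_lit 3) (nat_lit 6) (nat_lit 4) L121384 (by decide +kernel)
theorem L121386 : W_48 (nat_lit 5) (nat_lit 0x200010001c0000000780024000000000000000000) (nat_lit 0x0) (nat_lit 0x70003840018000000000000000000) := T_48 (nat_lit 76) (nat_lit 90) (nat_lit 2) (nat_lit 5) (nat_lit 5) L121385 (by decide +kernel)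
theorem L121387 : W_48 (nat_lit 6) (nat_lit 0x200010001c0000000780004000000000000000000) (nat_lit 0x0) (nat_lit 0x70003840078000000000000000000) := T_48 (nat_lit 77) (nat_lit 78) (nat_lit 2) (nat_lit 6) (nat_lit 5) L121386 (by decide +kernel)
theorem L121388 : W_48 (nat_lit 7) (nat_lit 0x200010001c0000000780000000000000000000000) (nat_lit 0x0) (nat_lit 0x7000384007e000000000000000000) := T_48 (nat_lit 74) (nat_lit 73) (nat_lit 0) (nat_lit 9) (nat_lit 5) L121387 (by decide +kernel)
theorem L121389 : W_48 (nat_lit 2) (nat_lit 0x200010001c0021000f80084000000000000000000) (nat_lit 0x0) (nat_lit 0x40001000100000000000000000000) := D_48 (nat_lit 96) (nat_lit 80) (nat_lit 114) (nat_lit 2) (nat_lit 8) (nat_lit 5) (nat_lit 3) (nat_lit 8) (nat_lit 5) (by decide +kernel)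
theorem L121390 : W_48 (nat_lit 3) (nat_lit 0x200010001c0001000f80084000000000000000000) (nat_lit 0x0) (nat_lit 0x70001000100000000000000000000) := T_48 (nat_lit 113) (nat_lit 112) (nat_lit 3) (nat_lit 7) (nat_lit 5) L121389 (by decide +kernel)
theorem L121391 : W_48 (nat_lit 4) (nat_lit 0x200010001c0001000f80004000000000000000000) (nat_lit 0x0) (nat_lit 0x700010001c0000000000000000000) := T_48 (nat_lit 79) (nat_lit 78) (nat_lit 2) (nat_lit 7) (nat_lit 5) L121390 (by decide +kernel)
theorem L121392 : W_48 (nat_lit 5) (nat_lit 0x200010001c0001000780004000000000000000000) (nat_lit 0x0) (nat_lit 0x700018001c8000000000000000000) := T_48 (nat_lit 95) (nat_lit 75) (nat_lit 0) (nat_lit 10) (nat_lit 5) L121391 (by decide +kernel)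
theorem L121393 : W_48 (nat_lit 6) (nat_lit 0x200010001c0000000780004000000000000000000) (nat_lit 0x0) (nat_lit 0x718018001c8000000000000000000) := T_48 (nat_lit 108) (nat_lit 107) (nat_lit 1) (nat_lit 9) (nat_lit 5) L121392 (by decide +kernel)
theorem L121394 : W_48 (nat_lit 7) (nat_lit 0x200010001c0000000780000000000000000000000) (nat_lit 0x0) (nat_lit 0x718018001ce000000000000000000) := T_48 (nat_lit 74) (nat_lit 73) (nat_lit 0) (nat_lit 9) (nat_lit 5) L121393 (by decide +kernel)
theorem L121395 : W_48 (nat_lit 2) (nat_lit 0x200010001c00008007c000c000000000000000000) (nat_lit 0x0) (nat_lit 0x20030000000000000000000) := D_48 (nat_lit 76) (nat_lit 77) (nat_lit 89) (nat_lit 2) (nat_lit 5) (nat_lit 5) (nat_lit 2) (nat_lit 4) (nat_lit 5) (by decide +kernel)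
theorem L121396 : W_48 (nat_lit 3) (nat_lit 0x200010001c000080078000c000000000000000000) (nat_lit 0x0) (nat_lit 0x400060030000000000000000000) := T_48 (nat_lit 90) (nat_lit 106) (nat_lit 1) (nat_lit 8) (nat_lit 5) L121395 (by decide +kernel)
theorem L121397 : W_48 (nat_lit 4) (nat_lit 0x200010001c0000800780004000000000000000000) (nat_lit 0x0) (nat_lit 0x400860038000000000000000000) := T_48 (nat_lit 75) (nat_lit 95) (nat_lit 0) (nat_lit 10) (nat_lit 5) L121396 (by decide +kernel)
theorem L121398 : W_48 (nat_lit 5) (nat_lit 0x200010001c0000000780004000000000000000000) (nat_lit 0x0) (nat_lit 0x1c00860038000000000000000000) := T_48 (nat_lit 107) (nat_lit 108) (nat_lit 1) (nat_lit 9) (nat_lit 5) L121397 (by decide +kernel)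
theorem L121399 : W_48 (nat_lit 6) (nat_lit 0x200010001c0000000780000000000000000000000) (nat_lit 0x0) (nat_lit 0x1c0086003e000000000000000000) := T_48 (nat_lit 74) (nat_lit 73) (nat_lit 0) (nat_lit 9) (nat_lit 5) L121398 (by decide +kernel)
theorem L121400 : W_48 (nat_lit 4) (nat_lit 0x200010001c0000000780000000000000000000000) (nat_lit 0x0) (nat_lit 0x1c00040070000000000000000000) := T_48 (nat_lit 77) (nat_lit 78) (nat_lit 2) (nat_lit 6) (nat_lit 5) L121361 (by decide +kernel)
theorem L121401 : W_48 (nat_lit 8) (nat_lit 0x200010001c0000000700000000000000000000000) (nat_lit 0x0) (nat_lit 0x71e038f01fe000000000000000000) := Q_48 (nat_lit 91) (C_48 L121372 (C_48 L121376 (C_48 L121382 (C_48 L121388 (C_48 L121394 (C_48 L121399 (C_48 L121400 N_48))))))) (by decide +kernel)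
theorem L121402 : W_48 (nat_lit 2) (nat_lit 0x200010001c00000007c0020000000000000000000) (nat_lit 0x0) (nat_lit 0x7000000000000000000) := D_48 (nat_lit 73) (nat_lit 74) (nat_lit 72) (nat_lit 0) (nat_lit 9) (nat_lit 5) (nat_lit 0) (nat_lit 8) (nat_lit 5) (by decide +kernel)
theorem L121403 : W_48 (nat_lit 3) (nat_lit 0x200010001c0000000780020000000000000000000) (nat_lit 0x0) (nat_lit 0x40017000000000000000000) := T_48 (nat_lit 90) (nat_lit 76) (nat_lit 2) (nat_lit 5) (nat_lit 5) L121402 (by decide +kernel)
theorem L121404 : W_48 (nat_lit 4) (nat_lit 0x200010001c0000000700020000000000000000000) (nat_lit 0x0) (nat_lit 0xc0057000000000000000000) := T_48 (nat_lit 91) (nat_lit 78) (nat_lit 2) (nat_lit 6) (nat_lit 5) L121403 (by decide +kernel)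
theorem L121405 : W_48 (nat_lit 5) (nat_lit 0x200010001c0000000700000000000000000000000) (nat_lit 0x0) (nat_lit 0x80000c0077000000000000000000) := T_48 (nat_lit 77) (nat_lit 111) (nat_lit 5) (nat_lit 9) (nat_lit 4) L121404 (by decide +kernel)
theorem L121406 : W_48 (nat_lit 2) (nat_lit 0x200010001c0020001f00060000000000000000000) (nat_lit 0x0) (nat_lit 0x6000010000000000000000000) := D_48 (nat_lit 97) (nat_lit 98) (nat_lit 76) (nat_lit 0) (nat_lit 13) (nat_lit 5) (nat_lit 0) (nat_lit 12) (nat_lit 5) (by decide +kernel)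
theorem L121407 : W_48 (nat_lit 3) (nat_lit 0x200010001c0020000f00060000000000000000000) (nat_lit 0x0) (nat_lit 0x40007000010000000000000000000) := T_48 (nat_lit 96) (nat_lit 114) (nat_lit 3) (nat_lit 8) (nat_lit 5) L121406 (by decide +kernel)
theorem L121408 : W_48 (nat_lit 4) (nat_lit 0x200010001c0000000f00060000000000000000000) (nat_lit 0x0) (nat_lit 0x70007000010000000000000000000) := T_48 (nat_lit 113) (nat_lit 112) (nat_lit 3) (nat_lit 7) (nat_lit 5) L121407 (by decide +kernel)
theorem L121409 : W_48 (nat_lit 5) (nat_lit 0x200010001c0000000f00020000000000000000000) (nat_lit 0x0) (nat_lit 0x700070000d0000000000000000000) := T_48 (nat_lit 78) (nat_lit 79) (nat_lit 2) (nat_lit 7) (nat_lit 5) L121408 (by decide +kernel)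
theorem L121410 : W_48 (nat_lit 6) (nat_lit 0x200010001c0000000f00000000000000000000000) (nat_lit 0x0) (nat_lit 0x780070000f0000000000000000000) := T_48 (nat_lit 77) (nat_lit 111) (nat_lit 5) (nat_lit 9) (nat_lit 4) L121409 (by decide +kernel)
theorem L121411 : W_48 (nat_lit 2) (nat_lit 0x200010001c0000001f00028000000000000000000) (nat_lit 0x0) (nat_lit 0x1c0000000000000000000) := D_48 (nat_lit 79) (nat_lit 78) (nat_lit 80) (nat_lit 2) (nat_lit 7) (nat_lit 5) (nat_lit 2) (nat_lit 8) (nat_lit 5) (by decide +kernel)
theorem L121412 : W_48 (nat_lit 3) (nat_lit 0x200010001c0000000f00028000000000000000000) (nat_lit 0x0) (nat_lit 0x10001d0000000000000000000) := T_48 (nat_lit 96) (nat_lit 76) (nat_lit 0) (nat_lit 11) (nat_lit 5) L121411 (by decide +kernel)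
theorem L121413 : W_48 (nat_lit 4) (nat_lit 0x200010001c0000000f00008000000000000000000) (nat_lit 0x0) (nat_lit 0x80010001f0000000000000000000) := T_48 (nat_lit 77) (nat_lit 111) (nat_lit 5) (nat_lit 9) (nat_lit 4) L121412 (by decide +kernel)
theorem L121414 : W_48 (nat_lit 5) (nat_lit 0x200010001c0000000f00000000000000000000000) (nat_lit 0x0) (nat_lit 0x80010001fc000000000000000000) := T_48 (nat_lit 75) (nat_lit 74) (nat_lit 0) (nat_lit 10) (nat_lit 5) L121413 (by decide +kernel)
theorem L121415 : W_48 (nat_lit 2) (nat_lit 0x200010001c0010000f00040000000000000000000) (nat_lit 0x0) (nat_lit 0x8000000020002000000000000000) := D_48 (nat_lit 111) (nat_lit 77) (nat_lit 61) (nat_lit 5) (nat_lit 9) (nat_lit 4) (nat_lit 5) (nat_lit 10) (nat_lit 3) (by decide +kernel)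
theorem L121416 : W_48 (nat_lit 3) (nat_lit 0x200010001c0000000f00040000000000000000000) (nat_lit 0x0) (nat_lit 0x38000000020002000000000000000) := T_48 (nat_lit 112) (nat_lit 113) (nat_lit 3) (nat_lit 7) (nat_lit 5) L121415 (by decide +kernel)
theorem L121417 : W_48 (nat_lit 4) (nat_lit 0x200010001c0000000f00000000000000000000000) (nat_lit 0x0) (nat_lit 0x380000000e0002000000000000000) := T_48 (nat_lit 78) (nat_lit 79) (nat_lit 2) (nat_lit 7) (nat_lit 5) L121416 (by decide +kernel)
theorem L121418 : W_48 (nat_lit 2) (nat_lit 0x200010001c0020000f00048000000000000000000) (nat_lit 0x0) (nat_lit 0x40001000010000000000000000000) := D_48 (nat_lit 96) (nat_lit 114) (nat_lit 76) (nat_lit 3) (nat_lit 8) (nat_lit 5) (nat_lit 0) (nat_lit 11) (nat_lit 5) (by decide +kernel)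
theorem L121419 : W_48 (nat_lit 3) (nat_lit 0x200010001c0020000f00040000000000000000000) (nat_lit 0x0) (nat_lit 0x4000100001c000000000000000000) := T_48 (nat_lit 75) (nat_lit 74) (nat_lit 0) (nat_lit 10) (nat_lit 5) L121418 (by decide +kernel)
theorem L121420 : W_48 (nat_lit 4) (nat_lit 0x200010001c0000000f00040000000000000000000) (nat_lit 0x0) (nat_lit 0x7000100001c000000000000000000) := T_48 (nat_lit 113) (nat_lit 112) (nat_lit 3) (nat_lit 7) (nat_lit 5) L121419 (by decide +kernel)
theorem L121421 : W_48 (nat_lit 5) (nat_lit 0x200010001c0000000f00000000000000000000000) (nat_lit 0x0) (nat_lit 0x700010000dc000000000000000000) := T_48 (nat_lit 78) (nat_lit 79) (nat_lit 2) (nat_lit 7) (nat_lit 5) L121420 (by decide +kernel)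
theorem L121422 : W_48 (nat_lit 2) (nat_lit 0x200010001c0018003f00008000000000000000000) (nat_lit 0x0) (nat_lit 0x380000000000000000000) := D_48 (nat_lit 80) (nat_lit 79) (nat_lit 81) (nat_lit 2) (nat_lit 8) (nat_lit 5) (nat_lit 2) (nat_lit 9) (nat_lit 5) (by decide +kernel)
theorem L121423 : W_48 (nat_lit 3) (nat_lit 0x200010001c0018001f00008000000000000000000) (nat_lit 0x0) (nat_lit 0x6000380000000000000000000) := T_48 (nat_lit 97) (nat_lit 98) (nat_lit 1) (nat_lit 13) (nat_lit 5) L121422 (by decide +kernel)
theorem L121424 : W_48 (nat_lit 4) (nat_lit 0x200010001c0018000f00008000000000000000000) (nat_lit 0x0) (nat_lit 0x7000390000000000000000000) := T_48 (nat_lit 96) (nat_lit 76) (nat_lit 0) (nat_lit 11) (nat_lit 5) L121423 (by decide +kernel)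
theorem L121425 : W_48 (nat_lit 5) (nat_lit 0x200010001c0018000f00000000000000000000000) (nat_lit 0x0) (nat_lit 0x700039c000000000000000000) := T_48 (nat_lit 75) (nat_lit 74) (nat_lit 0) (nat_lit 10) (nat_lit 5) L121424 (by decide +kernel)
theorem L121426 : W_48 (nat_lit 6) (nat_lit 0x200010001c0010000f00000000000000000000000) (nat_lit 0x0) (nat_lit 0x80070003bc000000000000000000) := T_48 (nat_lit 111) (nat_lit 77) (nat_lit 5) (nat_lit 9) (nat_lit 4) L121425 (by decide +kernel)
theorem L121427 : W_48 (nat_lit 7) (nat_lit 0x200010001c0000000f00000000000000000000000) (nat_lit 0x0) (nat_lit 0x380070003bc000000000000000000) := T_48 (nat_lit 112) (nat_lit 113) (nat_lit 3) (nat_lit 7) (nat_lit 5) L121426 (by decide +kernel)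
theorem L121428 : W_48 (nat_lit 2) (nat_lit 0x200010001c0020000f00008000000000000000000) (nat_lit 0x0) (nat_lit 0x40001000010000000000000000000) := D_48 (nat_lit 96) (nat_lit 76) (nat_lit 114) (nat_lit 0) (nat_lit 11) (nat_lit 5) (nat_lit 3) (nat_lit 8) (nat_lit 5) (by decide +kernel)
theorem L121429 : W_48 (nat_lit 3) (nat_lit 0x200010001c0000000f00008000000000000000000) (nat_lit 0x0) (nat_lit 0x70001000010000000000000000000) := T_48 (nat_lit 113) (nat_lit 112) (nat_lit 3) (nat_lit 7) (nat_lit 5) L121428 (by decide +kernel)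
theorem L121430 : W_48 (nat_lit 4) (nat_lit 0x200010001c0000000f00000000000000000000000) (nat_lit 0x0) (nat_lit 0x7000100001c000000000000000000) := T_48 (nat_lit 75) (nat_lit 74) (nat_lit 0) (nat_lit 10) (nat_lit 5) L121429 (by decide +kernel)
theorem L121431 : W_48 (nat_lit 8) (nat_lit 0x200010001c0000000700000000000000000000000) (nat_lit 0x0) (nat_lit 0x780078003fc002000000000000000) := Q_48 (nat_lit 95) (C_48 L121410 (C_48 L121414 (C_48 L121417 (C_48 L121421 (C_48 L121427 (C_48 L121430 N_48)))))) (by decide +kernel)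
theorem L121432 : W_48 (nat_lit 2) (nat_lit 0x200010001c0010800f80002000000000000000000) (nat_lit 0x0) (nat_lit 0x400040001000000000000000000) := D_48 (nat_lit 90) (nat_lit 106) (nat_lit 72) (nat_lit 1) (nat_lit 8) (nat_lit 5) (nat_lit 0) (nat_lit 8) (nat_lit 5) (by decide +kernel)
theorem L121433 : W_48 (nat_lit 3) (nat_lit 0x200010001c0010800f80000000000000000000000) (nat_lit 0x0) (nat_lit 0x400040007000000000000000000) := T_48 (nat_lit 73) (nat_lit 74) (nat_lit 0) (nat_lit 9) (nat_lit 5) L121432 (by decide +kernel)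
theorem L121434 : W_48 (nat_lit 4) (nat_lit 0x200010001c0010000f80000000000000000000000) (nat_lit 0x0) (nat_lit 0x1c00040007000000000000000000) := T_48 (nat_lit 107) (nat_lit 108) (nat_lit 1) (nat_lit 9) (nat_lit 5) L121433 (by decide +kernel)
theorem L121435 : W_48 (nat_lit 5) (nat_lit 0x200010001c0010000f00000000000000000000000) (nat_lit 0x0) (nat_lit 0x9c000c0007000000000000000000) := T_48 (nat_lit 91) (nat_lit 111) (nat_lit 3) (nat_lit 6) (nat_lit 5) L121434 (by decide +kernel)
theorem L121436 : W_48 (nat_lit 6) (nat_lit 0x200010001c0000000f00000000000000000000000) (nat_lit 0x0) (nat_lit 0x39c000c0007000000000000000000) := T_48 (nat_lit 112) (nat_lit 113) (nat_lit 3) (nat_lit 7) (nat_lit 5) L121435 (by decide +kernel)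
theorem L121437 : W_48 (nat_lit 2) (nat_lit 0x200010001c0000000f00088000000000000000000) (nat_lit 0x0) (nat_lit 0x1000110000000000000000000) := D_48 (nat_lit 96) (nat_lit 80) (nat_lit 76) (nat_lit 2) (nat_lit 8) (nat_lit 5) (nat_lit 0) (nat_lit 11) (nat_lit 5) (by decide +kernel)
theorem L121438 : W_48 (nat_lit 3) (nat_lit 0x200010001c0000000f00080000000000000000000) (nat_lit 0x0) (nat_lit 0x100011c000000000000000000) := T_48 (nat_lit 75) (nat_lit 74) (nat_lit 0) (nat_lit 10) (nat_lit 5) L121437 (by decide +kernel)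
theorem L121439 : W_48 (nat_lit 4) (nat_lit 0x200010001c0000000f00000000000000000000000) (nat_lit 0x0) (nat_lit 0x10001dc000000000000000000) := T_48 (nat_lit 79) (nat_lit 78) (nat_lit 2) (nat_lit 7) (nat_lit 5) L121438 (by decide +kernel)
theorem L121440 : W_48 (nat_lit 2) (nat_lit 0x200010001c0010000f00040000000000000000000) (nat_lit 0x0) (nat_lit 0x8000080000002000000000000000) := D_48 (nat_lit 111) (nat_lit 91) (nat_lit 61) (nat_lit 3) (nat_lit 6) (nat_lit 5) (nat_lit 5) (nat_lit 10) (nat_lit 3) (by decide +kernel)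
theorem L121441 : W_48 (nat_lit 3) (nat_lit 0x200010001c0000000f00040000000000000000000) (nat_lit 0x0) (nat_lit 0x38000080000002000000000000000) := T_48 (nat_lit 112) (nat_lit 113) (nat_lit 3) (nat_lit 7) (nat_lit 5) L121440 (by decide +kernel)
theorem L121442 : W_48 (nat_lit 4) (nat_lit 0x200010001c0000000f00000000000000000000000) (nat_lit 0x0) (nat_lit 0x380000800c0002000000000000000) := T_48 (nat_lit 78) (nat_lit 79) (nat_lit 2) (nat_lit 7) (nat_lit 5) L121441 (by decide +kernel)
theorem L121443 : W_48 (nat_lit 7) (nat_lit 0x200010001c0000000700000000000000000000000) (nat_lit 0x0) (nat_lit 0x39c018c01df002000000000000000) := Q_48 (nat_lit 95) (C_48 L121436 (C_48 L121439 (C_48 L121442 N_48))) (by decide +kernel)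
theorem L121444 : W_48 (nat_lit 8) (nat_lit 0x200010001c0000000700000000000000000000000) (nat_lit 0x0) (nat_lit 0x19c008f003e000000000000000000) := T_48 (nat_lit 111) (nat_lit 77) (nat_lit 5) (nat_lit 9) (nat_lit 4) L120854 (by decide +kernel)
theorem L121445 : W_48 (nat_lit 9) (nat_lit 0x200010001c0000000500000000000000000000000) (nat_lit 0x0) (nat_lit 0x79e07af03ff002000000000000000) := Q_48 (nat_lit 93) (C_48 L121363 (C_48 L121368 (C_48 L121401 (C_48 L121405 (C_48 L121431 (C_48 L121443 (C_48 L121444 N_48))))))) (by decide +kernel)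
theorem L121446 : W_48 (nat_lit 2) (nat_lit 0x200010001c0022001f00060000000000000000000) (nat_lit 0x0) (nat_lit 0x6000010000000000000000000) := D_48 (nat_lit 97) (nat_lit 98) (nat_lit 76) (nat_lit 0) (nat_lit 13) (nat_lit 5) (nat_lit 0) (nat_lit 12) (nat_lit 5) (by decide +kernel)
theorem L121447 : W_48 (nat_lit 3) (nat_lit 0x200010001c0022000f00060000000000000000000) (nat_lit 0x0) (nat_lit 0x40007000010000000000000000000) := T_48 (nat_lit 96) (nat_lit 114) (nat_lit 3) (nat_lit 8) (nat_lit 5) L121446 (by decide +kernel)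
theorem L121448 : W_48 (nat_lit 4) (nat_lit 0x200010001c0002000f00060000000000000000000) (nat_lit 0x0) (nat_lit 0x70007000010000000000000000000) := T_48 (nat_lit 113) (nat_lit 112) (nat_lit 3) (nat_lit 7) (nat_lit 5) L121447 (by decide +kernel)
theorem L121449 : W_48 (nat_lit 5) (nat_lit 0x200010001c0002000f00040000000000000000000) (nat_lit 0x0) (nat_lit 0x70007080030000000000000000000) := T_48 (nat_lit 77) (nat_lit 91) (nat_lit 2) (nat_lit 6) (nat_lit 5) L121448 (by decide +kernel)
theorem L121450 : W_48 (nat_lit 6) (nat_lit 0x200010001c0002000f00000000000000000000000) (nat_lit 0x0) (nat_lit 0x700070800f0000000000000000000) := T_48 (nat_lit 78) (nat_lit 79) (nat_lit 2) (nat_lit 7) (nat_lit 5) L121449 (by decide +kernel)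
theorem L121451 : W_48 (nat_lit 7) (nat_lit 0x200010001c0002000700000000000000000000000) (nat_lit 0x0) (nat_lit 0x710078800f0000000000000000000) := T_48 (nat_lit 95) (nat_lit 108) (nat_lit 1) (nat_lit 10) (nat_lit 5) L121450 (by decide +kernel)
theorem L121452 : W_48 (nat_lit 8) (nat_lit 0x200010001c0000000700000000000000000000000) (nat_lit 0x0) (nat_lit 0x8000000730078800f0000000000000000000) := T_48 (nat_lit 109) (nat_lit 143) (nat_lit 7) (nat_lit 7) (nat_lit 5) L121451 (by decide +kernel)
theorem L121453 : W_48 (nat_lit 4) (nat_lit 0x200010001c0022000f00020000000000000000000) (nat_lit 0x0) (nat_lit 0x400070000d0000000000000000000) := T_48 (nat_lit 78) (nat_lit 79) (nat_lit 2) (nat_lit 7) (nat_lit 5) L121447 (by decide +kernel)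
theorem L121454 : W_48 (nat_lit 5) (nat_lit 0x200010001c0002000f00020000000000000000000) (nat_lit 0x0) (nat_lit 0x700070000d0000000000000000000) := T_48 (nat_lit 113) (nat_lit 112) (nat_lit 3) (nat_lit 7) (nat_lit 5) L121453 (by decide +kernel)
theorem L121455 : W_48 (nat_lit 6) (nat_lit 0x200010001c0002000f00000000000000000000000) (nat_lit 0x0) (nat_lit 0x780070000f0000000000000000000) := T_48 (nat_lit 77) (nat_lit 111) (nat_lit 5) (nat_lit 9) (nat_lit 4) L121454 (by decide +kernel)
theorem L121456 : W_48 (nat_lit 7) (nat_lit 0x200010001c0002000700000000000000000000000) (nat_lit 0x0) (nat_lit 0x790078000f0000000000000000000) := T_48 (nat_lit 95) (nat_lit 108) (nat_lit 1) (nat_lit 10) (nat_lit 5) L121455 (by decide +kernel)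
theorem L121457 : W_48 (nat_lit 8) (nat_lit 0x200010001c0000000700000000000000000000000) (nat_lit 0x0) (nat_lit 0x80000007b0078000f0000000000000000000) := T_48 (nat_lit 109) (nat_lit 143) (nat_lit 7) (nat_lit 7) (nat_lit 5) L121456 (by decide +kernel)
theorem L121458 : W_48 (nat_lit 2) (nat_lit 0x200010001c0012000f00040000000000000000000) (nat_lit 0x0) (nat_lit 0x8000080000002000000000000000) := D_48 (nat_lit 111) (nat_lit 91) (nat_lit 61) (nat_lit 3) (nat_lit 6) (nat_lit 5) (nat_lit 5) (nat_lit 10) (nat_lit 3) (by decide +kernel)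
theorem L121459 : W_48 (nat_lit 3) (nat_lit 0x200010001c0002000f00040000000000000000000) (nat_lit 0x0) (nat_lit 0x38000080000002000000000000000) := T_48 (nat_lit 112) (nat_lit 113) (nat_lit 3) (nat_lit 7) (nat_lit 5) L121458 (by decide +kernel)
theorem L121460 : W_48 (nat_lit 4) (nat_lit 0x200010001c0002000f00000000000000000000000) (nat_lit 0x0) (nat_lit 0x380000800c0002000000000000000) := T_48 (nat_lit 78) (nat_lit 79) (nat_lit 2) (nat_lit 7) (nat_lit 5) L121459 (by decide +kernel)
theorem L121461 : W_48 (nat_lit 5) (nat_lit 0x200010001c0002000700000000000000000000000) (nat_lit 0x0) (nat_lit 0x390008800c0002000000000000000) := T_48 (nat_lit 95) (nat_lit 108) (nat_lit 1) (nat_lit 10) (nat_lit 5) L121460 (by decide +kernel)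
theorem L121462 : W_48 (nat_lit 6) (nat_lit 0x200010001c0000000700000000000000000000000) (nat_lit 0x0) (nat_lit 0x80000003b0008800c0002000000000000000) := T_48 (nat_lit 109) (nat_lit 143) (nat_lit 7) (nat_lit 7) (nat_lit 5) L121461 (by decide +kernel)
theorem L121463 : W_48 (nat_lit 2) (nat_lit 0x200010001c0022001f00120000000000000000000) (nat_lit 0x0) (nat_lit 0x2000210000000000000000000) := D_48 (nat_lit 97) (nat_lit 76) (nat_lit 81) (nat_lit 0) (nat_lit 12) (nat_lit 5) (nat_lit 2) (nat_lit 9) (nat_lit 5) (by decide +kernel)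
theorem L121464 : W_48 (nat_lit 3) (nat_lit 0x200010001c0022001f00020000000000000000000) (nat_lit 0x0) (nat_lit 0x2000390000000000000000000) := T_48 (nat_lit 80) (nat_lit 79) (nat_lit 2) (nat_lit 8) (nat_lit 5) L121463 (by decide +kernel)
theorem L121465 : W_48 (nat_lit 4) (nat_lit 0x200010001c0022000f00020000000000000000000) (nat_lit 0x0) (nat_lit 0x40003000390000000000000000000) := T_48 (nat_lit 96) (nat_lit 114) (nat_lit 3) (nat_lit 8) (nat_lit 5) L121464 (by decide +kernel)
theorem L121466 : W_48 (nat_lit 5) (nat_lit 0x200010001c0002000f00020000000000000000000) (nat_lit 0x0) (nat_lit 0x70003000390000000000000000000) := T_48 (nat_lit 113) (nat_lit 112) (nat_lit 3) (nat_lit 7) (nat_lit 5) L121465 (by decide +kernel)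
theorem L121467 : W_48 (nat_lit 6) (nat_lit 0x200010001c0002000f00000000000000000000000) (nat_lit 0x0) (nat_lit 0x780030003b0000000000000000000) := T_48 (nat_lit 77) (nat_lit 111) (nat_lit 5) (nat_lit 9) (nat_lit 4) L121466 (by decide +kernel)
theorem L121468 : W_48 (nat_lit 7) (nat_lit 0x200010001c0002000700000000000000000000000) (nat_lit 0x0) (nat_lit 0x790038003b0000000000000000000) := T_48 (nat_lit 95) (nat_lit 108) (nat_lit 1) (nat_lit 10) (nat_lit 5) L121467 (by decide +kernel)
theorem L121469 : W_48 (nat_lit 8) (nat_lit 0x200010001c0000000700000000000000000000000) (nat_lit 0x0) (nat_lit 0x80000007b0038003b0000000000000000000) := T_48 (nat_lit 109) (nat_lit 143) (nat_lit 7) (nat_lit 7) (nat_lit 5) L121468 (by decide +kernel)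
theorem L121470 : W_48 (nat_lit 9) (nat_lit 0x200010001c0000000500000000000000000000000) (nat_lit 0x0) (nat_lit 0x80000007bc07ac03f7002000000000000000) := Q_48 (nat_lit 93) (C_48 L121405 (C_48 L121368 (C_48 L121452 (C_48 L121457 (C_48 L121462 (C_48 L121469 N_48)))))) (by decide +kernel)
theorem L121471 : W_48 (nat_lit 10) (nat_lit 0x200010001c0000000400000000000000000000000) (nat_lit 0x0) (nat_lit 0x80000007be07bf03ff002200000000000000) := Q_48 (nat_lit 92) (C_48 L121358 (C_48 L121359 (C_48 L121445 (C_48 L121470 N_48)))) (by decide +kernel)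
theorem L121472 : W_48 (nat_lit 2) (nat_lit 0x200012001fc001000400000000000000000000000) (nat_lit 0x0) (nat_lit 0x700000000000000000000000000) := D_48 (nat_lit 105) (nat_lit 106) (nat_lit 104) (nat_lit 0) (nat_lit 7) (nat_lit 7) (nat_lit 0) (nat_lit 6) (nat_lit 7) (by decide +kernel)
theorem L121473 : W_48 (nat_lit 3) (nat_lit 0x200012001f8001000400000000000000000000000) (nat_lit 0x0) (nat_lit 0x4002700000000000000000000000000) := T_48 (nat_lit 122) (nat_lit 109) (nat_lit 2) (nat_lit 3) (nat_lit 7) L121472 (by decide +kernel)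
theorem L121474 : W_48 (nat_lit 4) (nat_lit 0x200012001f0001000400000000000000000000000) (nat_lit 0x0) (nat_lit 0x80000c002700000000000000000000000000) := T_48 (nat_lit 123) (nat_lit 143) (nat_lit 3) (nat_lit 4) (nat_lit 7) L121473 (by decide +kernel)
theorem L121475 : W_48 (nat_lit 5) (nat_lit 0x200012001e0001000400000000000000000000000) (nat_lit 0x0) (nat_lit 0x90001c002700000000000000000000000000) := T_48 (nat_lit 124) (nat_lit 140) (nat_lit 1) (nat_lit 8) (nat_lit 7) L121474 (by decide +kernel)
theorem L121476 : W_48 (nat_lit 6) (nat_lit 0x200012001e0000000400000000000000000000000) (nat_lit 0x0) (nat_lit 0x90001c003f00000000000000000000000000) := T_48 (nat_lit 108) (nat_lit 107) (nat_lit 0) (nat_lit 9) (nat_lit 7) L121475 (by decide +kernel)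
theorem L121477 : W_48 (nat_lit 7) (nat_lit 0x200010001e0000000400000000000000000000000) (nat_lit 0x0) (nat_lit 0xf0001c003f00000000000000000000000000) := T_48 (nat_lit 141) (nat_lit 142) (nat_lit 1) (nat_lit 9) (nat_lit 7) L121476 (by decide +kernel)
theorem L121478 : W_48 (nat_lit 2) (nat_lit 0x200012001f0000000400020000000000000000000) (nat_lit 0x0) (nat_lit 0x1c00000000000000000000000000) := D_48 (nat_lit 107) (nat_lit 106) (nat_lit 108) (nat_lit 0) (nat_lit 8) (nat_lit 7) (nat_lit 0) (nat_lit 9) (nat_lit 7) (by decide +kernel)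
theorem L121479 : W_48 (nat_lit 3) (nat_lit 0x200012001e0000000400020000000000000000000) (nat_lit 0x0) (nat_lit 0x100010001c00000000000000000000000000) := T_48 (nat_lit 124) (nat_lit 140) (nat_lit 1) (nat_lit 8) (nat_lit 7) L121478 (by decide +kernel)
theorem L121480 : W_48 (nat_lit 4) (nat_lit 0x200012001e0000000400000000000000000000000) (nat_lit 0x0) (nat_lit 0x100010009c00000020000000000000000000) := T_48 (nat_lit 77) (nat_lit 111) (nat_lit 5) (nat_lit 9) (nat_lit 4) L121479 (by decide +kernel)
theorem L121481 : W_48 (nat_lit 5) (nat_lit 0x200010001e0000000400000000000000000000000) (nat_lit 0x0) (nat_lit 0x700010009c00000020000000000000000000) := T_48 (nat_lit 141) (nat_lit 142) (nat_lit 1) (nat_lit 9) (nat_lit 7) L121480 (by decide +kernel)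
theorem L121482 : W_48 (nat_lit 2) (nat_lit 0x200012001f0000400400020000000000000000000) (nat_lit 0x0) (nat_lit 0x800008000200000000000000000000000000) := D_48 (nat_lit 123) (nat_lit 143) (nat_lit 105) (nat_lit 3) (nat_lit 4) (nat_lit 7) (nat_lit 0) (nat_lit 7) (nat_lit 7) (by decide +kernel)
theorem L121483 : W_48 (nat_lit 3) (nat_lit 0x200012001f0000000400020000000000000000000) (nat_lit 0x0) (nat_lit 0x800008000e00000000000000000000000000) := T_48 (nat_lit 106) (nat_lit 107) (nat_lit 0) (nat_lit 8) (nat_lit 7) L121482 (by decide +kernel)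
theorem L121484 : W_48 (nat_lit 4) (nat_lit 0x200012001e0000000400020000000000000000000) (nat_lit 0x0) (nat_lit 0x900018000e00000000000000000000000000) := T_48 (nat_lit 124) (nat_lit 140) (nat_lit 1) (nat_lit 8) (nat_lit 7) L121483 (by decide +kernel)
theorem L121485 : W_48 (nat_lit 5) (nat_lit 0x200012001e0000000400000000000000000000000) (nat_lit 0x0) (nat_lit 0x900018008e00000020000000000000000000) := T_48 (nat_lit 77) (nat_lit 111) (nat_lit 5) (nat_lit 9) (nat_lit 4) L121484 (by decide +kernel)
theorem L121486 : W_48 (nat_lit 6) (nat_lit 0x200010001e0000000400000000000000000000000) (nat_lit 0x0) (nat_lit 0xf00018008e00000020000000000000000000) := T_48 (nat_lit 141) (nat_lit 142) (nat_lit 1) (nat_lit 9) (nat_lit 7) L121485 (by decide +kernel)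
theorem L121487 : W_48 (nat_lit 2) (nat_lit 0x200011001f0000800400020000000000000000000) (nat_lit 0x0) (nat_lit 0x880008000000000000000000000000000000) := D_48 (nat_lit 123) (nat_lit 143) (nat_lit 139) (nat_lit 3) (nat_lit 4) (nat_lit 7) (nat_lit 1) (nat_lit 7) (nat_lit 7) (by decide +kernel)
theorem L121488 : W_48 (nat_lit 3) (nat_lit 0x200010001f0000800400020000000000000000000) (nat_lit 0x0) (nat_lit 0xb80008000000000000000000000000000000) := T_48 (nat_lit 140) (nat_lit 141) (nat_lit 1) (nat_lit 8) (nat_lit 7) L121487 (by decide +kernel)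
theorem L121489 : W_48 (nat_lit 4) (nat_lit 0x200010001e0000800400020000000000000000000) (nat_lit 0x0) (nat_lit 0xb80018000400000000000000000000000000) := T_48 (nat_lit 124) (nat_lit 106) (nat_lit 0) (nat_lit 8) (nat_lit 7) L121488 (by decide +kernel)
theorem L121490 : W_48 (nat_lit 5) (nat_lit 0x200010001e0000800400000000000000000000000) (nat_lit 0x0) (nat_lit 0xb80018008400000020000000000000000000) := T_48 (nat_lit 77) (nat_lit 111) (nat_lit 5) (nat_lit 9) (nat_lit 4) L121489 (by decide +kernel)
theorem L121491 : W_48 (nat_lit 6) (nat_lit 0x200010001e0000000400000000000000000000000) (nat_lit 0x0) (nat_lit 0xb80018009c00000020000000000000000000) := T_48 (nat_lit 107) (nat_lit 108) (nat_lit 0) (nat_lit 9) (nat_lit 7) L121490 (by decide +kernel)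
theorem L121492 : W_48 (nat_lit 2) (nat_lit 0x200010001e0000000500000000000000000000000) (nat_lit 0x0) (nat_lit 0x800000002000000008000000000000000000) := D_48 (nat_lit 109) (nat_lit 75) (nat_lit 143) (nat_lit 7) (nat_lit 7) (nat_lit 4) (nat_lit 7) (nat_lit 7) (nat_lit 5) (by decide +kernel)
theorem L121493 : W_48 (nat_lit 2) (nat_lit 0x200010001e0001000500008000000000000000000) (nat_lit 0x0) (nat_lit 0x600000000000080000000000000000000000) := D_48 (nat_lit 142) (nat_lit 91) (nat_lit 141) (nat_lit 6) (nat_lit 6) (nat_lit 8) (nat_lit 1) (nat_lit 9) (nat_lit 7) (by decide +kernel)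
theorem L121494 : W_48 (nat_lit 3) (nat_lit 0x200010001e0001000500000000000000000000000) (nat_lit 0x0) (nat_lit 0x600000002000080008000000000000000000) := T_48 (nat_lit 75) (nat_lit 109) (nat_lit 7) (nat_lit 7) (nat_lit 4) L121493 (by decide +kernel)
theorem L121495 : W_48 (nat_lit 4) (nat_lit 0x200010001e0000000500000000000000000000000) (nat_lit 0x0) (nat_lit 0x600000003800080008000000000000000000) := T_48 (nat_lit 108) (nat_lit 107) (nat_lit 0) (nat_lit 9) (nat_lit 7) L121494 (by decide +kernel)
theorem L121496 : W_48 (nat_lit 2) (nat_lit 0x200014001e00010005c0020000000000000000000) (nat_lit 0x0) (nat_lit 0x200050000000000000000000) := D_48 (nat_lit 93) (nat_lit 76) (nat_lit 78) (nat_lit 2) (nat_lit 5) (nat_lit 5) (nat_lit 2) (nat_lit 6) (nat_lit 5) (by decide +kernel)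
theorem L121497 : W_48 (nat_lit 3) (nat_lit 0x200014001e0001000580020000000000000000000) (nat_lit 0x0) (nat_lit 0x240052000000000000000000) := T_48 (nat_lit 90) (nat_lit 73) (nat_lit 4) (nat_lit 6) (nat_lit 8) L121496 (by decide +kernel)
theorem L121498 : W_48 (nat_lit 4) (nat_lit 0x200014001e0001000500020000000000000000000) (nat_lit 0x0) (nat_lit 0x2c005a000000000000000000) := T_48 (nat_lit 91) (nat_lit 75) (nat_lit 6) (nat_lit 6) (nat_lit 8) L121497 (by decide +kernel)
theorem L121499 : W_48 (nat_lit 5) (nat_lit 0x200014001e0001000500000000000000000000000) (nat_lit 0x0) (nat_lit 0x80002c007a000000000000000000) := T_48 (nat_lit 77) (nat_lit 111) (nat_lit 5) (nat_lit 9) (nat_lit 4) L121498 (by decide +kernel)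
theorem L121500 : W_48 (nat_lit 6) (nat_lit 0x200014001e0000000500000000000000000000000) (nat_lit 0x0) (nat_lit 0x98002c007a000000000000000000) := T_48 (nat_lit 108) (nat_lit 107) (nat_lit 0) (nat_lit 9) (nat_lit 7) L121499 (by decide +kernel)
theorem L121501 : W_48 (nat_lit 7) (nat_lit 0x200010001e0000000500000000000000000000000) (nat_lit 0x0) (nat_lit 0x6000000098002c007a000000000000000000) := T_48 (nat_lit 142) (nat_lit 141) (nat_lit 1) (nat_lit 9) (nat_lit 7) L121500 (by decide +kernel)
theorem L121502 : W_48 (nat_lit 2) (nat_lit 0x200010001e0003000500000000000000000000000) (nat_lit 0x0) (nat_lit 0x8000600000000000000000000000000000000000) := D_48 (nat_lit 142) (nat_lit 159) (nat_lit 141) (nat_lit 6) (nat_lit 6) (nat_lit 9) (nat_lit 1) (nat_lit 9) (nat_lit 7) (by decide +kernel)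
theorem L121503 : W_48 (nat_lit 3) (nat_lit 0x200010001e0001000500000000000000000000000) (nat_lit 0x0) (nat_lit 0x8000e00000002000000000000000000000000000) := T_48 (nat_lit 109) (nat_lit 143) (nat_lit 7) (nat_lit 7) (nat_lit 5) L121502 (by decide +kernel)
theorem L121504 : W_48 (nat_lit 4) (nat_lit 0x200010001e0000000500000000000000000000000) (nat_lit 0x0) (nat_lit 0x8000e00000003800000000000000000000000000) := T_48 (nat_lit 108) (nat_lit 107) (nat_lit 0) (nat_lit 9) (nat_lit 7) L121503 (by decide +kernel)
theorem L121505 : W_48 (nat_lit 8) (nat_lit 0x200010001e0000000400000000000000000000000) (nat_lit 0x0) (nat_lit 0x8000e0000000b8003c007a000000000000000000) := Q_48 (nat_lit 92) (C_48 L121492 (C_48 L121495 (C_48 L121501 (C_48 L121504 N_48)))) (by decide +kernel)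
theorem L121506 : W_48 (nat_lit 2) (nat_lit 0x200010001f0000000400000000000000000000000) (nat_lit 0x0) (nat_lit 0x1c00000000000000000000000000) := D_48 (nat_lit 107) (nat_lit 108) (nat_lit 106) (nat_lit 0) (nat_lit 9) (nat_lit 7) (nat_lit 0) (nat_lit 8) (nat_lit 7) (by decide +kernel)
theorem L121507 : W_48 (nat_lit 2) (nat_lit 0x200010001f8000000400000000000000000000000) (nat_lit 0x0) (nat_lit 0xe00000000000000000000000000) := D_48 (nat_lit 106) (nat_lit 107) (nat_lit 105) (nat_lit 0) (nat_lit 8) (nat_lit 7) (nat_lit 0) (nat_lit 7) (nat_lit 7) (by decide +kernel)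
theorem L121508 : W_48 (nat_lit 3) (nat_lit 0x200010001f0000000400000000000000000000000) (nat_lit 0x0) (nat_lit 0x800008000e00000000000000000000000000) := T_48 (nat_lit 123) (nat_lit 143) (nat_lit 3) (nat_lit 4) (nat_lit 7) L121507 (by decide +kernel)
theorem L121509 : W_48 (nat_lit 2) (nat_lit 0x200010801f8000200400000000000000000000000) (nat_lit 0x0) (nat_lit 0x40004000100000000000000000000000000) := D_48 (nat_lit 122) (nat_lit 138) (nat_lit 104) (nat_lit 1) (nat_lit 6) (nat_lit 7) (nat_lit 0) (nat_lit 6) (nat_lit 7) (by decide +kernel)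
theorem L121510 : W_48 (nat_lit 3) (nat_lit 0x200010801f8000000400000000000000000000000) (nat_lit 0x0) (nat_lit 0x40004000700000000000000000000000000) := T_48 (nat_lit 105) (nat_lit 106) (nat_lit 0) (nat_lit 7) (nat_lit 7) L121509 (by decide +kernel)
theorem L121511 : W_48 (nat_lit 4) (nat_lit 0x200010001f8000000400000000000000000000000) (nat_lit 0x0) (nat_lit 0x1c0004000700000000000000000000000000) := T_48 (nat_lit 139) (nat_lit 140) (nat_lit 1) (nat_lit 7) (nat_lit 7) L121510 (by decide +kernel)
theorem L121512 : W_48 (nat_lit 5) (nat_lit 0x200010001f0000000400000000000000000000000) (nat_lit 0x0) (nat_lit 0x9c000c000700000000000000000000000000) := T_48 (nat_lit 123) (nat_lit 143) (nat_lit 3) (nat_lit 4) (nat_lit 7) L121511 (by decide +kernel)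
theorem L121513 : W_48 (nat_lit 2) (nat_lit 0x200010001fc001000400020000000000000000000) (nat_lit 0x0) (nat_lit 0x1c0000000000000000000000000000000000) := D_48 (nat_lit 139) (nat_lit 138) (nat_lit 140) (nat_lit 1) (nat_lit 6) (nat_lit 7) (nat_lit 1) (nat_lit 7) (nat_lit 7) (by decide +kernel)
theorem L121514 : W_48 (nat_lit 3) (nat_lit 0x200010001f8001000400020000000000000000000) (nat_lit 0x0) (nat_lit 0x1c0004002000000000000000000000000000) := T_48 (nat_lit 122) (nat_lit 109) (nat_lit 2) (nat_lit 3) (nat_lit 7) L121513 (by decide +kernel)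
theorem L121515 : W_48 (nat_lit 4) (nat_lit 0x200010001f0001000400020000000000000000000) (nat_lit 0x0) (nat_lit 0x9c000c002000000000000000000000000000) := T_48 (nat_lit 123) (nat_lit 143) (nat_lit 3) (nat_lit 4) (nat_lit 7) L121514 (by decide +kernel)
theorem L121516 : W_48 (nat_lit 5) (nat_lit 0x200010001f0000000400020000000000000000000) (nat_lit 0x0) (nat_lit 0x9c000c003800000000000000000000000000) := T_48 (nat_lit 108) (nat_lit 107) (nat_lit 0) (nat_lit 9) (nat_lit 7) L121515 (by decide +kernel)
theorem L121517 : W_48 (nat_lit 6) (nat_lit 0x200010001f0000000400000000000000000000000) (nat_lit 0x0) (nat_lit 0x9c000c00b800000020000000000000000000) := T_48 (nat_lit 77) (nat_lit 111) (nat_lit 5) (nat_lit 9) (nat_lit 4) L121516 (by decide +kernel)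
theorem L121518 : W_48 (nat_lit 7) (nat_lit 0x200010001e0000000400000000000000000000000) (nat_lit 0x0) (nat_lit 0x9c001c00bf00000020000000000000000000) := Q_48 (nat_lit 124) (C_48 L121506 (C_48 L121508 (C_48 L121512 (C_48 L121517 N_48)))) (by decide +kernel)
theorem L121519 : W_48 (nat_lit 2) (nat_lit 0x200010001e0002000400000000000000000000000) (nat_lit 0x0) (nat_lit 0x800000000000100008000000000000000000) := D_48 (nat_lit 92) (nat_lit 75) (nat_lit 143) (nat_lit 7) (nat_lit 7) (nat_lit 4) (nat_lit 7) (nat_lit 7) (nat_lit 5) (by decide +kernel)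
theorem L121520 : W_48 (nat_lit 2) (nat_lit 0x200012001fc002000400020000000000000000000) (nat_lit 0x0) (nat_lit 0x700000000000000000000000000) := D_48 (nat_lit 105) (nat_lit 106) (nat_lit 104) (nat_lit 0) (nat_lit 7) (nat_lit 7) (nat_lit 0) (nat_lit 6) (nat_lit 7) (by decide +kernel)
theorem L121521 : W_48 (nat_lit 3) (nat_lit 0x200012001f8002000400020000000000000000000) (nat_lit 0x0) (nat_lit 0x4001700000000000000000000000000) := T_48 (nat_lit 122) (nat_lit 108) (nat_lit 2) (nat_lit 3) (nat_lit 7) L121520 (by decide +kernel)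
theorem L121522 : W_48 (nat_lit 4) (nat_lit 0x200012001f0002000400020000000000000000000) (nat_lit 0x0) (nat_lit 0x80000c001700000000000000000000000000) := T_48 (nat_lit 123) (nat_lit 143) (nat_lit 3) (nat_lit 4) (nat_lit 7) L121521 (by decide +kernel)
theorem L121523 : W_48 (nat_lit 5) (nat_lit 0x200012001e0002000400020000000000000000000) (nat_lit 0x0) (nat_lit 0x90001c001700000000000000000000000000) := T_48 (nat_lit 124) (nat_lit 140) (nat_lit 1) (nat_lit 8) (nat_lit 7) L121522 (by decide +kernel)
theorem L121524 : W_48 (nat_lit 6) (nat_lit 0x200010001e0002000400020000000000000000000) (nat_lit 0x0) (nat_lit 0xf0001c001700000000000000000000000000) := T_48 (nat_lit 141) (nat_lit 142) (nat_lit 1) (nat_lit 9) (nat_lit 7) L121523 (by decide +kernel)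
theorem L121525 : W_48 (nat_lit 7) (nat_lit 0x200010001e0002000400000000000000000000000) (nat_lit 0x0) (nat_lit 0xf0001c009700000020000000000000000000) := T_48 (nat_lit 77) (nat_lit 111) (nat_lit 5) (nat_lit 9) (nat_lit 4) L121524 (by decide +kernel)
theorem L121526 : W_48 (nat_lit 2) (nat_lit 0x200014001e0002000500000000000000000000000) (nat_lit 0x0) (nat_lit 0x100008000000000001000000000000000000000000000) := D_48 (nat_lit 159) (nat_lit 176) (nat_lit 108) (nat_lit 6) (nat_lit 6) (nat_lit 10) (nat_lit 6) (nat_lit 6) (nat_lit 9) (by decide +kernel)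
theorem L121527 : W_48 (nat_lit 3) (nat_lit 0x200014001e0002000400000000000000000000000) (nat_lit 0x0) (nat_lit 0x100008000000000001000100008000000000000000000) := T_48 (nat_lit 92) (nat_lit 75) (nat_lit 7) (nat_lit 7) (nat_lit 4) L121526 (by decide +kernel)
theorem L121528 : W_48 (nat_lit 4) (nat_lit 0x200010001e0002000400000000000000000000000) (nat_lit 0x0) (nat_lit 0x100008000600000001000100008000000000000000000) := T_48 (nat_lit 142) (nat_lit 141) (nat_lit 1) (nat_lit 9) (nat_lit 7) L121527 (by decide +kernel)
theorem L121529 : W_48 (nat_lit 8) (nat_lit 0x200010001e0000000400000000000000000000000) (nat_lit 0x0) (nat_lit 0x100008000f0001c00b700100028000000000000000000) := Q_48 (nat_lit 109) (C_48 L121519 (C_48 L121525 (C_48 L121528 N_48))) (by decide +kernel)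
theorem L121530 : W_48 (nat_lit 9) (nat_lit 0x200010001c0000000400000000000000000000000) (nat_lit 0x0) (nat_lit 0x100008000fc003c00bf003c007a000000000000000000) := Q_48 (nat_lit 125) (C_48 L121477 (C_48 L121481 (C_48 L121486 (C_48 L121491 (C_48 L121505 (C_48 L121518 (C_48 L121529 N_48))))))) (by decide +kernel)
theorem L121531 : W_48 (nat_lit 2) (nat_lit 0x200012001e0000800400000000000000000000000) (nat_lit 0x0) (nat_lit 0x100010000400000000000000000000000000) := D_48 (nat_lit 124) (nat_lit 106) (nat_lit 140) (nat_lit 0) (nat_lit 8) (nat_lit 7) (nat_lit 1) (nat_lit 8) (nat_lit 7) (by decide +kernel)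
theorem L121532 : W_48 (nat_lit 3) (nat_lit 0x200010001e0000800400000000000000000000000) (nat_lit 0x0) (nat_lit 0x700010000400000000000000000000000000) := T_48 (nat_lit 141) (nat_lit 142) (nat_lit 1) (nat_lit 9) (nat_lit 7) L121531 (by decide +kernel)
theorem L121533 : W_48 (nat_lit 4) (nat_lit 0x200010001e0000000400000000000000000000000) (nat_lit 0x0) (nat_lit 0x700010001c00000000000000000000000000) := T_48 (nat_lit 107) (nat_lit 108) (nat_lit 0) (nat_lit 9) (nat_lit 7) L121532 (by decide +kernel)
theorem L121534 : W_48 (nat_lit 2) (nat_lit 0x200012001f0000400400000000000000000000000) (nat_lit 0x0) (nat_lit 0x800008000200000000000000000000000000) := D_48 (nat_lit 123) (nat_lit 143) (nat_lit 105) (nat_lit 3) (nat_lit 4) (nat_lit 7) (nat_lit 0) (nat_lit 7) (nat_lit 7) (by decide +kernel)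
theorem L121535 : W_48 (nat_lit 3) (nat_lit 0x200012001f0000000400000000000000000000000) (nat_lit 0x0) (nat_lit 0x800008000e00000000000000000000000000) := T_48 (nat_lit 106) (nat_lit 107) (nat_lit 0) (nat_lit 8) (nat_lit 7) L121534 (by decide +kernel)
theorem L121536 : W_48 (nat_lit 4) (nat_lit 0x200012001e0000000400000000000000000000000) (nat_lit 0x0) (nat_lit 0x900018000e00000000000000000000000000) := T_48 (nat_lit 124) (nat_lit 140) (nat_lit 1) (nat_lit 8) (nat_lit 7) L121535 (by decide +kernel)
theorem L121537 : W_48 (nat_lit 5) (nat_lit 0x200010001e0000000400000000000000000000000) (nat_lit 0x0) (nat_lit 0xf00018000e00000000000000000000000000) := T_48 (nat_lit 141) (nat_lit 142) (nat_lit 1) (nat_lit 9) (nat_lit 7) L121536 (by decide +kernel)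
theorem L121538 : W_48 (nat_lit 2) (nat_lit 0x200011001f0000800400000000000000000000000) (nat_lit 0x0) (nat_lit 0x880008000000000000000000000000000000) := D_48 (nat_lit 123) (nat_lit 143) (nat_lit 139) (nat_lit 3) (nat_lit 4) (nat_lit 7) (nat_lit 1) (nat_lit 7) (nat_lit 7) (by decide +kernel)
theorem L121539 : W_48 (nat_lit 3) (nat_lit 0x200010001f0000800400000000000000000000000) (nat_lit 0x0) (nat_lit 0xb80008000000000000000000000000000000) := T_48 (nat_lit 140) (nat_lit 141) (nat_lit 1) (nat_lit 8) (nat_lit 7) L121538 (by decide +kernel)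
theorem L121540 : W_48 (nat_lit 4) (nat_lit 0x200010001e0000800400000000000000000000000) (nat_lit 0x0) (nat_lit 0xb80018000400000000000000000000000000) := T_48 (nat_lit 124) (nat_lit 106) (nat_lit 0) (nat_lit 8) (nat_lit 7) L121539 (by decide +kernel)
theorem L121541 : W_48 (nat_lit 5) (nat_lit 0x200010001e0000000400000000000000000000000) (nat_lit 0x0) (nat_lit 0xb80018001c00000000000000000000000000) := T_48 (nat_lit 107) (nat_lit 108) (nat_lit 0) (nat_lit 9) (nat_lit 7) L121540 (by decide +kernel)
theorem L121542 : W_48 (nat_lit 2) (nat_lit 0x200014001e0001000580002000000000000000000) (nat_lit 0x0) (nat_lit 0x800000000000000004000100000000000000) := D_48 (nat_lit 74) (nat_lit 143) (nat_lit 56) (nat_lit 7) (nat_lit 6) (nat_lit 4) (nat_lit 4) (nat_lit 6) (nat_lit 7) (by decide +kernel)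
theorem L121543 : W_48 (nat_lit 3) (nat_lit 0x200014001e0001000580000000000000000000000) (nat_lit 0x0) (nat_lit 0x800000000000040006000100000000000000) := T_48 (nat_lit 73) (nat_lit 90) (nat_lit 4) (nat_lit 6) (nat_lit 8) L121542 (by decide +kernel)
theorem L121544 : W_48 (nat_lit 4) (nat_lit 0x200014001e0001000500000000000000000000000) (nat_lit 0x0) (nat_lit 0x8000000000000c000e000100000000000000) := T_48 (nat_lit 91) (nat_lit 75) (nat_lit 6) (nat_lit 6) (nat_lit 8) L121543 (by decide +kernel)
theorem L121545 : W_48 (nat_lit 5) (nat_lit 0x200010001e0001000500000000000000000000000) (nat_lit 0x0) (nat_lit 0xe000000000000c000e000100000000000000) := T_48 (nat_lit 142) (nat_lit 141) (nat_lit 1) (nat_lit 9) (nat_lit 7) L121544 (by decide +kernel)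
theorem L121546 : W_48 (nat_lit 6) (nat_lit 0x200010001e0000000500000000000000000000000) (nat_lit 0x0) (nat_lit 0xe000000018000c000e000100000000000000) := T_48 (nat_lit 108) (nat_lit 107) (nat_lit 0) (nat_lit 9) (nat_lit 7) L121545 (by decide +kernel)
theorem L121547 : W_48 (nat_lit 7) (nat_lit 0x200010001e0000000400000000000000000000000) (nat_lit 0x0) (nat_lit 0x8000e000000038001c000e000100000000000000) := Q_48 (nat_lit 92) (C_48 L121504 (C_48 L121495 (C_48 L121546 (C_48 L121492 N_48)))) (by decide +kernel)
theorem L121548 : W_48 (nat_lit 2) (nat_lit 0x200010001fc001000400000000000000000000000) (nat_lit 0x0) (nat_lit 0x1c0000000000000000000000000000000000) := D_48 (nat_lit 139) (nat_lit 138) (nat_lit 140) (nat_lit 1) (nat_lit 6) (nat_lit 7) (nat_lit 1) (nat_lit 7) (nat_lit 7) (by decide +kernel)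
theorem L121549 : W_48 (nat_lit 3) (nat_lit 0x200010001f8001000400000000000000000000000) (nat_lit 0x0) (nat_lit 0x1c0004002000000000000000000000000000) := T_48 (nat_lit 122) (nat_lit 109) (nat_lit 2) (nat_lit 3) (nat_lit 7) L121548 (by decide +kernel)
theorem L121550 : W_48 (nat_lit 4) (nat_lit 0x200010001f0001000400000000000000000000000) (nat_lit 0x0) (nat_lit 0x9c000c002000000000000000000000000000) := T_48 (nat_lit 123) (nat_lit 143) (nat_lit 3) (nat_lit 4) (nat_lit 7) L121549 (by decide +kernel)
theorem L121551 : W_48 (nat_lit 5) (nat_lit 0x200010001f0000000400000000000000000000000) (nat_lit 0x0) (nat_lit 0x9c000c003800000000000000000000000000) := T_48 (nat_lit 108) (nat_lit 107) (nat_lit 0) (nat_lit 9) (nat_lit 7) L121550 (by decide +kernel)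
theorem L121552 : W_48 (nat_lit 6) (nat_lit 0x200010001e0000000400000000000000000000000) (nat_lit 0x0) (nat_lit 0x9c001c003f00000000000000000000000000) := Q_48 (nat_lit 124) (C_48 L121512 (C_48 L121506 (C_48 L121551 N_48))) (by decide +kernel)
theorem L121553 : W_48 (nat_lit 2) (nat_lit 0x200012001fc002000400000000000000000000000) (nat_lit 0x0) (nat_lit 0x700000000000000000000000000) := D_48 (nat_lit 105) (nat_lit 106) (nat_lit 104) (nat_lit 0) (nat_lit 7) (nat_lit 7) (nat_lit 0) (nat_lit 6) (nat_lit 7) (by decide +kernel)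
theorem L121554 : W_48 (nat_lit 3) (nat_lit 0x200012001f8002000400000000000000000000000) (nat_lit 0x0) (nat_lit 0x4001700000000000000000000000000) := T_48 (nat_lit 122) (nat_lit 108) (nat_lit 2) (nat_lit 3) (nat_lit 7) L121553 (by decide +kernel)
theorem L121555 : W_48 (nat_lit 4) (nat_lit 0x200012001f0002000400000000000000000000000) (nat_lit 0x0) (nat_lit 0x80000c001700000000000000000000000000) := T_48 (nat_lit 123) (nat_lit 143) (nat_lit 3) (nat_lit 4) (nat_lit 7) L121554 (by decide +kernel)
theorem L121556 : W_48 (nat_lit 5) (nat_lit 0x200012001e0002000400000000000000000000000) (nat_lit 0x0) (nat_lit 0x90001c001700000000000000000000000000) := T_48 (nat_lit 124) (nat_lit 140) (nat_lit 1) (nat_lit 8) (nat_lit 7) L121555 (by decide +kernel)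
theorem L121557 : W_48 (nat_lit 6) (nat_lit 0x200010001e0002000400000000000000000000000) (nat_lit 0x0) (nat_lit 0xf0001c001700000000000000000000000000) := T_48 (nat_lit 141) (nat_lit 142) (nat_lit 1) (nat_lit 9) (nat_lit 7) L121556 (by decide +kernel)
theorem L121558 : W_48 (nat_lit 7) (nat_lit 0x200010001e0000000400000000000000000000000) (nat_lit 0x0) (nat_lit 0x100008000f0001c003700100008000000000000000000) := Q_48 (nat_lit 109) (C_48 L121528 (C_48 L121557 (C_48 L121519 N_48))) (by decide +kernel)
theorem L121559 : W_48 (nat_lit 8) (nat_lit 0x200010001c0000000400000000000000000000000) (nat_lit 0x0) (nat_lit 0x100008000fc003c003f001c000e000100000000000000) := Q_48 (nat_lit 125) (C_48 L121477 (C_48 L121533 (C_48 L121537 (C_48 L121541 (C_48 L121547 (C_48 L121552 (C_48 L121558 N_48))))))) (by decide +kernel)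
theorem L121560 : W_48 (nat_lit 2) (nat_lit 0x200010001e0000000400000000000000000000000) (nat_lit 0x0) (nat_lit 0x18000000020000000000000000000) := D_48 (nat_lit 111) (nat_lit 112) (nat_lit 77) (nat_lit 2) (nat_lit 6) (nat_lit 7) (nat_lit 5) (nat_lit 9) (nat_lit 4) (by decide +kernel)
theorem L121561 : W_48 (nat_lit 8) (nat_lit 0x200010001c0000000400000000000000000000000) (nat_lit 0x0) (nat_lit 0x100008000f0003c01b700100028000000000000000000) := Q_48 (nat_lit 125) (C_48 L121558 (C_48 L121560 N_48)) (by decide +kernel)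
theorem L121562 : W_48 (nat_lit 2) (nat_lit 0x200012401fc009100400000000000000000000000) (nat_lit 0x0) (nat_lit 0x20002000080000000000000000000000000) := D_48 (nat_lit 121) (nat_lit 137) (nat_lit 103) (nat_lit 1) (nat_lit 5) (nat_lit 7) (nat_lit 0) (nat_lit 5) (nat_lit 7) (by decide +kernel)
theorem L121563 : W_48 (nat_lit 3) (nat_lit 0x200012401fc009000400000000000000000000000) (nat_lit 0x0) (nat_lit 0x20002000380000000000000000000000000) := T_48 (nat_lit 104) (nat_lit 105) (nat_lit 0) (nat_lit 6) (nat_lit 7) L121562 (by decide +kernel)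
theorem L121564 : W_48 (nat_lit 4) (nat_lit 0x200012001fc009000400000000000000000000000) (nat_lit 0x0) (nat_lit 0xe0002000380000000000000000000000000) := T_48 (nat_lit 138) (nat_lit 139) (nat_lit 1) (nat_lit 6) (nat_lit 7) L121563 (by decide +kernel)
theorem L121565 : W_48 (nat_lit 5) (nat_lit 0x200012001f8009000400000000000000000000000) (nat_lit 0x0) (nat_lit 0xe0006002380000000000000000000000000) := T_48 (nat_lit 122) (nat_lit 109) (nat_lit 2) (nat_lit 3) (nat_lit 7) L121564 (by decide +kernel)
theorem L121566 : W_48 (nat_lit 6) (nat_lit 0x200012001f0009000400000000000000000000000) (nat_lit 0x0) (nat_lit 0x8e000e002380000000000000000000000000) := T_48 (nat_lit 123) (nat_lit 143) (nat_lit 3) (nat_lit 4) (nat_lit 7) L121565 (by decide +kernel)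
theorem L121567 : W_48 (nat_lit 7) (nat_lit 0x200012001e0009000400000000000000000000000) (nat_lit 0x0) (nat_lit 0x9e001e002380000000000000000000000000) := T_48 (nat_lit 124) (nat_lit 140) (nat_lit 1) (nat_lit 8) (nat_lit 7) L121566 (by decide +kernel)
theorem L121568 : W_48 (nat_lit 8) (nat_lit 0x200012001e0008000400000000000000000000000) (nat_lit 0x0) (nat_lit 0x9e001e003b80000000000000000000000000) := T_48 (nat_lit 108) (nat_lit 107) (nat_lit 0) (nat_lit 9) (nat_lit 7) L121567 (by decide +kernel)
theorem L121569 : W_48 (nat_lit 9) (nat_lit 0x200010001e0008000400000000000000000000000) (nat_lit 0x0) (nat_lit 0xfe001e003b80000000000000000000000000) := T_48 (nat_lit 141) (nat_lit 142) (nat_lit 1) (nat_lit 9) (nat_lit 7) L121568 (by decide +kernel)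
theorem L121570 : W_48 (nat_lit 10) (nat_lit 0x200010001c0008000400000000000000000000000) (nat_lit 0x0) (nat_lit 0xfe003e013b80000000000000000000000000) := T_48 (nat_lit 125) (nat_lit 112) (nat_lit 2) (nat_lit 6) (nat_lit 7) L121569 (by decide +kernel)
theorem L121571 : W_48 (nat_lit 11) (nat_lit 0x200010001c0000000400000000000000000000000) (nat_lit 0x0) (nat_lit 0xfe003e01bb80000020000000000000000000) := T_48 (nat_lit 111) (nat_lit 77) (nat_lit 5) (nat_lit 9) (nat_lit 4) L121570 (by decide +kernel)
theorem L121572 : W_48 (nat_lit 12) (nat_lit 0x20001000180000000400000000000000000000000) (nat_lit 0x0) (nat_lit 0x100008000fe007e07bf87bf03ff002300000000000000) := Q_48 (nat_lit 126) (C_48 L121356 (C_48 L121357 (C_48 L121471 (C_48 L121530 (C_48 L121559 (C_48 L121561 (C_48 L121571 N_48))))))) (by decide +kernel)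
theorem L121573 : W_48 (nat_lit 2) (nat_lit 0x20001000180000000400000000000000000000000) (nat_lit 0x0) (nat_lit 0xc000000020000000000000000000) := D_48 (nat_lit 111) (nat_lit 77) (nat_lit 110) (nat_lit 5) (nat_lit 9) (nat_lit 4) (nat_lit 6) (nat_lit 8) (nat_lit 9) (by decide +kernel)
theorem L121574 : W_48 (nat_lit 3) (nat_lit 0x20001000180000000500000000000000000000000) (nat_lit 0x0) (nat_lit 0x6000200028000000000000000000) := T_48 (nat_lit 110) (nat_lit 109) (nat_lit 4) (nat_lit 8) (nat_lit 9) L120929 (by decide +kernel)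
theorem L121575 : W_48 (nat_lit 2) (nat_lit 0x20001000180002000500000000000000000000000) (nat_lit 0x0) (nat_lit 0x800040000000000008000000000000000000) := D_48 (nat_lit 126) (nat_lit 75) (nat_lit 143) (nat_lit 7) (nat_lit 7) (nat_lit 4) (nat_lit 7) (nat_lit 7) (nat_lit 5) (by decide +kernel)
theorem L121576 : W_48 (nat_lit 3) (nat_lit 0x20001000180000000500000000000000000000000) (nat_lit 0x0) (nat_lit 0x800040006000000008000000000000000000) := T_48 (nat_lit 109) (nat_lit 110) (nat_lit 4) (nat_lit 8) (nat_lit 9) L121575 (by decide +kernel)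
theorem L121577 : W_48 (nat_lit 9) (nat_lit 0x20001000180000000500000000000000000000000) (nat_lit 0x0) (nat_lit 0x20075c01ac01ff000400020000000000) := Q_48 (nat_lit 93) (C_48 L120966 (C_48 L120962 (C_48 L120934 (C_48 L120960 N_48)))) (by decide +kernel)
theorem L121578 : W_48 (nat_lit 2) (nat_lit 0x200010001c0002000780004000000000000000000) (nat_lit 0x0) (nat_lit 0x1000000000000200010000000000) := D_48 (nat_lit 57) (nat_lit 108) (nat_lit 40) (nat_lit 7) (nat_lit 6) (nat_lit 3) (nat_lit 7) (nat_lit 6) (nat_lit 2) (by decide +kernel)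
theorem L121579 : W_48 (nat_lit 3) (nat_lit 0x20001000180002000780004000000000000000000) (nat_lit 0x0) (nat_lit 0x800040001000000000000200010000000000) := T_48 (nat_lit 126) (nat_lit 143) (nat_lit 7) (nat_lit 7) (nat_lit 5) L121578 (by decide +kernel)
theorem L121580 : W_48 (nat_lit 4) (nat_lit 0x20001000180002000780000000000000000000000) (nat_lit 0x0) (nat_lit 0x800040001000000006000200010000000000) := T_48 (nat_lit 74) (nat_lit 73) (nat_lit 0) (nat_lit 9) (nat_lit 5) L121579 (by decide +kernel)
theorem L121581 : W_48 (nat_lit 2) (nat_lit 0x20001000180002000780000000000000000000000) (nat_lit 0x0) (nat_lit 0x800040000000000008000000000000000000) := D_48 (nat_lit 126) (nat_lit 143) (nat_lit 75) (nat_lit 7) (nat_lit 7) (nat_lit 5) (nat_lit 7) (nat_lit 7) (nat_lit 4) (by decide +kernel)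
theorem L121582 : W_48 (nat_lit 9) (nat_lit 0x20001000180000000780000000000000000000000) (nat_lit 0x0) (nat_lit 0x80004000380000007e000f00038000000000) := Q_48 (nat_lit 109) (C_48 L121580 (C_48 L120922 (C_48 L121581 N_48))) (by decide +kernel)
theorem L121583 : W_48 (nat_lit 10) (nat_lit 0x20001000180000000700000000000000000000000) (nat_lit 0x0) (nat_lit 0x800040003c000c007f000f00038000000000) := Q_48 (nat_lit 91) (C_48 L121582 (C_48 L120969 (C_48 L120946 (C_48 L120959 N_48)))) (by decide +kernel)
theorem L121584 : W_48 (nat_lit 2) (nat_lit 0x20001000180002000700000000000000000000000) (nat_lit 0x0) (nat_lit 0x800040000000000008000000000000000000) := D_48 (nat_lit 126) (nat_lit 143) (nat_lit 75) (nat_lit 7) (nat_lit 7) (nat_lit 5) (nat_lit 7) (nat_lit 7) (nat_lit 4) (by decide +kernel)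
theorem L121585 : W_48 (nat_lit 2) (nat_lit 0x200010001c0022000f00080000000000000000000) (nat_lit 0x0) (nat_lit 0x40001000100000000000000000000) := D_48 (nat_lit 96) (nat_lit 80) (nat_lit 114) (nat_lit 2) (nat_lit 8) (nat_lit 5) (nat_lit 3) (nat_lit 8) (nat_lit 5) (by decide +kernel)
theorem L121586 : W_48 (nat_lit 3) (nat_lit 0x200010001c0002000f00080000000000000000000) (nat_lit 0x0) (nat_lit 0x70001000100000000000000000000) := T_48 (nat_lit 113) (nat_lit 112) (nat_lit 3) (nat_lit 7) (nat_lit 5) L121585 (by decide +kernel)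
theorem L121587 : W_48 (nat_lit 4) (nat_lit 0x200010001c0002000f00000000000000000000000) (nat_lit 0x0) (nat_lit 0x700010001c0000000000000000000) := T_48 (nat_lit 79) (nat_lit 78) (nat_lit 2) (nat_lit 7) (nat_lit 5) L121586 (by decide +kernel)
theorem L121588 : W_48 (nat_lit 5) (nat_lit 0x200010001c0002000700000000000000000000000) (nat_lit 0x0) (nat_lit 0x710018001c0000000000000000000) := T_48 (nat_lit 95) (nat_lit 108) (nat_lit 1) (nat_lit 10) (nat_lit 5) L121587 (by decide +kernel)
theorem L121589 : W_48 (nat_lit 6) (nat_lit 0x20001000180002000700000000000000000000000) (nat_lit 0x0) (nat_lit 0x8000400710018001c0000000000000000000) := T_48 (nat_lit 126) (nat_lit 143) (nat_lit 7) (nat_lit 7) (nat_lit 5) L121588 (by decide +kernel)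
theorem L121590 : W_48 (nat_lit 7) (nat_lit 0x20001000180000000700000000000000000000000) (nat_lit 0x0) (nat_lit 0x8000400730018801ee000000000000000000) := Q_48 (nat_lit 109) (C_48 L120923 (C_48 L121584 (C_48 L121589 N_48))) (by decide +kernel)
theorem L121591 : W_48 (nat_lit 4) (nat_lit 0x20001000180000000f00000000000000000000000) (nat_lit 0x0) (nat_lit 0x700010001c0000000000000000000) := T_48 (nat_lit 113) (nat_lit 112) (nat_lit 3) (nat_lit 7) (nat_lit 5) L120978 (by decide +kernel)
theorem L121592 : W_48 (nat_lit 4) (nat_lit 0x20001000180000000f00000000000000000000000) (nat_lit 0x0) (nat_lit 0x7000100001c000000000000000000) := T_48 (nat_lit 75) (nat_lit 74) (nat_lit 0) (nat_lit 10) (nat_lit 5) L120964 (by decide +kernel)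
theorem L121593 : W_48 (nat_lit 6) (nat_lit 0x20001000180000000700000000000000000000000) (nat_lit 0x0) (nat_lit 0x700018801fe000000000000000000) := Q_48 (nat_lit 95) (C_48 L120976 (C_48 L120972 (C_48 L121591 (C_48 L121592 N_48)))) (by decide +kernel)
theorem L121594 : W_48 (nat_lit 2) (nat_lit 0x20001000180021001f80124000000000000000000) (nat_lit 0x0) (nat_lit 0x2000210000000000000000000) := D_48 (nat_lit 97) (nat_lit 76) (nat_lit 81) (nat_lit 0) (nat_lit 12) (nat_lit 5) (nat_lit 2) (nat_lit 9) (nat_lit 5) (by decide +kernel)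
theorem L121595 : W_48 (nat_lit 3) (nat_lit 0x20001000180021001f80024000000000000000000) (nat_lit 0x0) (nat_lit 0x2000390000000000000000000) := T_48 (nat_lit 80) (nat_lit 79) (nat_lit 2) (nat_lit 8) (nat_lit 5) L121594 (by decide +kernel)
theorem L121596 : W_48 (nat_lit 4) (nat_lit 0x20001000180021000f80024000000000000000000) (nat_lit 0x0) (nat_lit 0x40003000390000000000000000000) := T_48 (nat_lit 96) (nat_lit 114) (nat_lit 3) (nat_lit 8) (nat_lit 5) L121595 (by decide +kernel)
theorem L121597 : W_48 (nat_lit 5) (nat_lit 0x20001000180001000f80024000000000000000000) (nat_lit 0x0) (nat_lit 0x70003000390000000000000000000) := T_48 (nat_lit 113) (nat_lit 112) (nat_lit 3) (nat_lit 7) (nat_lit 5) L121596 (by decide +kernel)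
theorem L121598 : W_48 (nat_lit 6) (nat_lit 0x20001000180001000780024000000000000000000) (nat_lit 0x0) (nat_lit 0x72003800390000000000000000000) := T_48 (nat_lit 95) (nat_lit 109) (nat_lit 1) (nat_lit 10) (nat_lit 5) L121597 (by decide +kernel)
theorem L121599 : W_48 (nat_lit 7) (nat_lit 0x20001000180001000780004000000000000000000) (nat_lit 0x0) (nat_lit 0x720038003f0000000000000000000) := T_48 (nat_lit 77) (nat_lit 78) (nat_lit 2) (nat_lit 6) (nat_lit 5) L121598 (by decide +kernel)
theorem L121600 : W_48 (nat_lit 8) (nat_lit 0x20001000180000000780004000000000000000000) (nat_lit 0x0) (nat_lit 0x738038003f0000000000000000000) := T_48 (nat_lit 108) (nat_lit 107) (nat_lit 1) (nat_lit 9) (nat_lit 5) L121599 (by decide +kernel)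
theorem L121601 : W_48 (nat_lit 9) (nat_lit 0x20001000180000000780000000000000000000000) (nat_lit 0x0) (nat_lit 0x738038003f6000000000000000000) := T_48 (nat_lit 74) (nat_lit 73) (nat_lit 0) (nat_lit 9) (nat_lit 5) L121600 (by decide +kernel)
theorem L121602 : W_48 (nat_lit 10) (nat_lit 0x20001000180000000700000000000000000000000) (nat_lit 0x0) (nat_lit 0x73c038c03f7000000000000000000) := Q_48 (nat_lit 91) (C_48 L120969 (C_48 L120946 (C_48 L121601 (C_48 L120959 N_48)))) (by decide +kernel)
theorem L121603 : W_48 (nat_lit 2) (nat_lit 0x20001000180000000f00008000000000000000000) (nat_lit 0x0) (nat_lit 0x40003000000000000000000000000000) := D_48 (nat_lit 109) (nat_lit 108) (nat_lit 126) (nat_lit 1) (nat_lit 10) (nat_lit 5) (nat_lit 7) (nat_lit 7) (nat_lit 4) (by decide +kernel)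
theorem L121604 : W_48 (nat_lit 3) (nat_lit 0x20001000180000000f00000000000000000000000) (nat_lit 0x0) (nat_lit 0x4000300000000c000000000000000000) := T_48 (nat_lit 75) (nat_lit 74) (nat_lit 0) (nat_lit 10) (nat_lit 5) L121603 (by decide +kernel)
theorem L121605 : W_48 (nat_lit 5) (nat_lit 0x20001000180000000700000000000000000000000) (nat_lit 0x0) (nat_lit 0x400730018001dc000000000000000000) := Q_48 (nat_lit 95) (C_48 L121592 (C_48 L121604 (C_48 L121591 N_48))) (by decide +kernel)
theorem L121606 : W_48 (nat_lit 3) (nat_lit 0x20001000180002000700000000000000000000000) (nat_lit 0x0) (nat_lit 0x1c00880000000000000000000000) := T_48 (nat_lit 108) (nat_lit 95) (nat_lit 1) (nat_lit 10) (nat_lit 5) L120908 (by decide +kernel)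
theorem L121607 : W_48 (nat_lit 6) (nat_lit 0x20001000180000000700000000000000000000000) (nat_lit 0x0) (nat_lit 0x800040073c0188001c000000000000000000) := Q_48 (nat_lit 109) (C_48 L121584 (C_48 L120912 (C_48 L121606 N_48))) (by decide +kernel)
theorem L121608 : W_48 (nat_lit 4) (nat_lit 0x20001000180000000700000000000000000000000) (nat_lit 0x0) (nat_lit 0x800040003c00880008000000000000000000) := Q_48 (nat_lit 109) (C_48 L121606 (C_48 L121584 N_48)) (by decide +kernel)
theorem L121609 : W_48 (nat_lit 11) (nat_lit 0x20001000180000000500000000000000000000000) (nat_lit 0x0) (nat_lit 0x800060073c03ac03ff000f00038000000000) := Q_48 (nat_lit 93) (C_48 L121583 (C_48 L120960 (C_48 L121590 (C_48 L121593 (C_48 L121602 (C_48 L121605 (C_48 L121607 (C_48 L121608 N_48)))))))) (by decide +kernel)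
theorem L121610 : W_48 (nat_lit 2) (nat_lit 0x20001000180000000700000000000000000000000) (nat_lit 0x0) (nat_lit 0x6000000020000000000000000000) := D_48 (nat_lit 110) (nat_lit 77) (nat_lit 109) (nat_lit 6) (nat_lit 8) (nat_lit 8) (nat_lit 4) (nat_lit 8) (nat_lit 9) (by decide +kernel)
theorem L121611 : W_48 (nat_lit 4) (nat_lit 0x20001000180000000700000000000000000000000) (nat_lit 0x0) (nat_lit 0x7c00880000000000000000000000) := T_48 (nat_lit 109) (nat_lit 110) (nat_lit 4) (nat_lit 8) (nat_lit 9) L121606 (by decide +kernel)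
theorem L121612 : W_48 (nat_lit 11) (nat_lit 0x20001000180000000500000000000000000000000) (nat_lit 0x0) (nat_lit 0x77c03ac03f7000000000000000000) := Q_48 (nat_lit 93) (C_48 L121602 (C_48 L120962 (C_48 L121610 (C_48 L121611 N_48)))) (by decide +kernel)
theorem L121613 : W_48 (nat_lit 12) (nat_lit 0x20001000180000000400000000000000000000000) (nat_lit 0x0) (nat_lit 0x800060077c03bc03ff000f00038000000000) := Q_48 (nat_lit 92) (C_48 L121574 (C_48 L121576 (C_48 L121577 (C_48 L121609 (C_48 L121612 N_48))))) (by decide +kernel)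
theorem L121614 : W_48 (nat_lit 7) (nat_lit 0x200010001c0000000400000000000000000000000) (nat_lit 0x0) (nat_lit 0xf0003801ce00000000000000000000000000) := T_48 (nat_lit 111) (nat_lit 110) (nat_lit 6) (nat_lit 8) (nat_lit 9) L121355 (by decide +kernel)
theorem L121615 : W_48 (nat_lit 6) (nat_lit 0x200010001c0000000400000000000000000000000) (nat_lit 0x0) (nat_lit 0x70003001dc00000000000000000000000000) := T_48 (nat_lit 111) (nat_lit 110) (nat_lit 6) (nat_lit 8) (nat_lit 9) L120896 (by decide +kernel)
theorem L121616 : W_48 (nat_lit 2) (nat_lit 0x200010001c0000000500000000000000000000000) (nat_lit 0x0) (nat_lit 0xe000000000000000000000000000) := D_48 (nat_lit 110) (nat_lit 111) (nat_lit 109) (nat_lit 6) (nat_lit 8) (nat_lit 9) (nat_lit 4) (nat_lit 8) (nat_lit 9) (by decide +kernel)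
theorem L121617 : W_48 (nat_lit 2) (nat_lit 0x200010001c0000000700000000000000000000000) (nat_lit 0x0) (nat_lit 0xc000000008000000000000000000) := D_48 (nat_lit 110) (nat_lit 111) (nat_lit 75) (nat_lit 6) (nat_lit 8) (nat_lit 9) (nat_lit 4) (nat_lit 8) (nat_lit 8) (by decide +kernel)
theorem L121618 : W_48 (nat_lit 4) (nat_lit 0x200010001c0000000700008000000000000000000) (nat_lit 0x0) (nat_lit 0x70001800014000000000000000000) := T_48 (nat_lit 95) (nat_lit 74) (nat_lit 0) (nat_lit 10) (nat_lit 5) L121429 (by decide +kernel)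
theorem L121619 : W_48 (nat_lit 5) (nat_lit 0x200010001c0000000700000000000000000000000) (nat_lit 0x0) (nat_lit 0x7400180001c000000000000000000) := T_48 (nat_lit 75) (nat_lit 110) (nat_lit 4) (nat_lit 8) (nat_lit 8) L121618 (by decide +kernel)
theorem L121620 : W_48 (nat_lit 2) (nat_lit 0x200010001c0008800780002000000000000000000) (nat_lit 0x0) (nat_lit 0x400040001000000000000000000) := D_48 (nat_lit 90) (nat_lit 106) (nat_lit 72) (nat_lit 1) (nat_lit 8) (nat_lit 5) (nat_lit 0) (nat_lit 8) (nat_lit 5) (by decide +kernel)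
theorem L121621 : W_48 (nat_lit 3) (nat_lit 0x200010001c0008800780000000000000000000000) (nat_lit 0x0) (nat_lit 0x400040007000000000000000000) := T_48 (nat_lit 73) (nat_lit 74) (nat_lit 0) (nat_lit 9) (nat_lit 5) L121620 (by decide +kernel)
theorem L121622 : W_48 (nat_lit 4) (nat_lit 0x200010001c0008000780000000000000000000000) (nat_lit 0x0) (nat_lit 0x1c00040007000000000000000000) := T_48 (nat_lit 107) (nat_lit 108) (nat_lit 1) (nat_lit 9) (nat_lit 5) L121621 (by decide +kernel)
theorem L121623 : W_48 (nat_lit 5) (nat_lit 0x200010001c0008000700000000000000000000000) (nat_lit 0x0) (nat_lit 0x11c000c0007000000000000000000) := T_48 (nat_lit 91) (nat_lit 112) (nat_lit 3) (nat_lit 6) (nat_lit 5) L121622 (by decide +kernel)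
theorem L121624 : W_48 (nat_lit 6) (nat_lit 0x200010001c0000000700000000000000000000000) (nat_lit 0x0) (nat_lit 0x1dc000c0007000000000000000000) := T_48 (nat_lit 111) (nat_lit 110) (nat_lit 6) (nat_lit 8) (nat_lit 9) L121623 (by decide +kernel)
theorem L121625 : W_48 (nat_lit 8) (nat_lit 0x200010001c0000000500000000000000000000000) (nat_lit 0x0) (nat_lit 0x7dc01ac01df002000000000000000) := Q_48 (nat_lit 93) (C_48 L121443 (C_48 L121617 (C_48 L121619 (C_48 L121624 N_48)))) (by decide +kernel)
theorem L121626 : W_48 (nat_lit 9) (nat_lit 0x200010001c0000000400000000000000000000000) (nat_lit 0x0) (nat_lit 0x80000007fc01bc01df002000000000000000) := Q_48 (nat_lit 92) (C_48 L121358 (C_48 L121616 (C_48 L121625 N_48))) (by decide +kernel)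
theorem L121627 : W_48 (nat_lit 4) (nat_lit 0x200010001c0008000500000000000000000000000) (nat_lit 0x0) (nat_lit 0x20070000a80000000000000000000000) := T_48 (nat_lit 112) (nat_lit 125) (nat_lit 2) (nat_lit 6) (nat_lit 7) L120843 (by decide +kernel)
theorem L121628 : W_48 (nat_lit 5) (nat_lit 0x200010001c0000000500000000000000000000000) (nat_lit 0x0) (nat_lit 0x2007c000a80000000000000000000000) := T_48 (nat_lit 111) (nat_lit 110) (nat_lit 6) (nat_lit 8) (nat_lit 9) L121627 (by decide +kernel)
theorem L121629 : W_48 (nat_lit 6) (nat_lit 0x200010001c0000000400000000000000000000000) (nat_lit 0x0) (nat_lit 0x80002007e000b80008000000000000000000) := Q_48 (nat_lit 92) (C_48 L121616 (C_48 L121358 (C_48 L121628 N_48))) (by decide +kernel)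
theorem L121630 : W_48 (nat_lit 10) (nat_lit 0x20001000180000000400000000000000000000000) (nat_lit 0x0) (nat_lit 0x100008000fc007c07ff01bc01df002100000000000000) := Q_48 (nat_lit 126) (C_48 L121614 (C_48 L121615 (C_48 L121626 (C_48 L121559 (C_48 L121629 N_48))))) (by decide +kernel)
theorem L121631 : W_48 (nat_lit 13) (nat_lit 0x20001000180000000000000000000000000000000) (nat_lit 0x0) (nat_lit 0x100008000fe007e07ff87ff03ff002f00038000000000) := Q_48 (nat_lit 94) (C_48 L121572 (C_48 L121573 (C_48 L121613 (C_48 L121630 N_48)))) (by decide +kernel)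
theorem L121632 : W_48 (nat_lit 14) (nat_lit 0x1000180000000000000000000000000000000) (nat_lit 0x0) (nat_lit 0x28001c000f800e8000fe007e07ff87ff03ff002f00038000000000) := Q_48 (nat_lit 161) (C_48 L121344 (C_48 L121348 (C_48 L121349 (C_48 L121350 (C_48 L121631 N_48))))) (by decide +kernel)
theorem L121633 : W_48 (nat_lit 2) (nat_lit 0x90007c0000000000000000000000000000000) (nat_lit 0x0) (nat_lit 0x7000000000000000000000000000) := D_48 (nat_lit 109) (nat_lit 108) (nat_lit 110) (nat_lit 0) (nat_lit 10) (nat_lit 7) (nat_lit 0) (nat_lit 11) (nat_lit 7) (by decide +kernel)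
theorem L121634 : W_48 (nat_lit 3) (nat_lit 0x9000780000000000000000000000000000000) (nat_lit 0x0) (nat_lit 0x4000040007000000000000000000000000000) := T_48 (nat_lit 126) (nat_lit 146) (nat_lit 3) (nat_lit 7) (nat_lit 7) L121633 (by decide +kernel)
theorem L121635 : W_48 (nat_lit 4) (nat_lit 0x1000780000000000000000000000000000000) (nat_lit 0x0) (nat_lit 0x1c000040007000000000000000000000000000) := T_48 (nat_lit 147) (nat_lit 148) (nat_lit 3) (nat_lit 8) (nat_lit 7) L121634 (by decide +kernel)
theorem L121636 : W_48 (nat_lit 7) (nat_lit 0x1000380000000000000000000000000000000) (nat_lit 0x0) (nat_lit 0x8003c000c400f7001000080000000000000000000) := Q_48 (nat_lit 130) (C_48 L117472 (C_48 L121294 (C_48 L121635 (C_48 L121286 N_48)))) (by decide +kernel)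
theorem L121637 : W_48 (nat_lit 2) (nat_lit 0x200010003c0002000000000000000000000000000) (nat_lit 0x0) (nat_lit 0xc00000000000100000000000000000000000) := D_48 (nat_lit 143) (nat_lit 142) (nat_lit 92) (nat_lit 1) (nat_lit 10) (nat_lit 7) (nat_lit 7) (nat_lit 7) (nat_lit 5) (by decide +kernel)
theorem L121638 : W_48 (nat_lit 3) (nat_lit 0x10003c0002000000000000000000000000000) (nat_lit 0x0) (nat_lit 0x400020000c00000000000100000000000000000000000) := T_48 (nat_lit 161) (nat_lit 178) (nat_lit 4) (nat_lit 8) (nat_lit 10) L121637 (by decide +kernel)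
theorem L121639 : W_48 (nat_lit 2) (nat_lit 0x50003c0012001800028000000000000000000) (nat_lit 0x0) (nat_lit 0x50001000000000000000) := D_48 (nat_lit 78) (nat_lit 60) (nat_lit 76) (nat_lit 4) (nat_lit 10) (nat_lit 7) (nat_lit 3) (nat_lit 7) (nat_lit 4) (by decide +kernel)
theorem L121640 : W_48 (nat_lit 3) (nat_lit 0x50003c0012001800008000000000000000000) (nat_lit 0x0) (nat_lit 0x400070001000000000000000) := T_48 (nat_lit 77) (nat_lit 94) (nat_lit 4) (nat_lit 10) (nat_lit 8) L121639 (by decide +kernel)
theorem L121641 : W_48 (nat_lit 4) (nat_lit 0x50003c0012000800008000000000000000000) (nat_lit 0x0) (nat_lit 0x14000f0001000000000000000) := T_48 (nat_lit 96) (nat_lit 79) (nat_lit 6) (nat_lit 10) (nat_lit 8) L121640 (by decide +kernel)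
theorem L121642 : W_48 (nat_lit 5) (nat_lit 0x50003c0012000800000000000000000000000) (nat_lit 0x0) (nat_lit 0x15000f8001000000000000000) := T_48 (nat_lit 75) (nat_lit 92) (nat_lit 7) (nat_lit 7) (nat_lit 4) L121641 (by decide +kernel)
theorem L121643 : W_48 (nat_lit 6) (nat_lit 0x10003c0012000800000000000000000000000) (nat_lit 0x0) (nat_lit 0xc0000000000015000f8001000000000000000) := T_48 (nat_lit 146) (nat_lit 147) (nat_lit 3) (nat_lit 7) (nat_lit 7) L121642 (by decide +kernel)
theorem L121644 : W_48 (nat_lit 2) (nat_lit 0x58003c00120008000a0000000000000000000) (nat_lit 0x0) (nat_lit 0x40005000000000000000) := D_48 (nat_lit 78) (nat_lit 60) (nat_lit 62) (nat_lit 4) (nat_lit 10) (nat_lit 7) (nat_lit 6) (nat_lit 10) (nat_lit 7) (by decide +kernel)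
theorem L121645 : W_48 (nat_lit 3) (nat_lit 0x58003c0012000800020000000000000000000) (nat_lit 0x0) (nat_lit 0x10000c0005000000000000000) := T_48 (nat_lit 79) (nat_lit 96) (nat_lit 6) (nat_lit 10) (nat_lit 8) L121644 (by decide +kernel)
theorem L121646 : W_48 (nat_lit 4) (nat_lit 0x58003c0012000800000000000000000000000) (nat_lit 0x0) (nat_lit 0x14000e0005000000000000000) := T_48 (nat_lit 77) (nat_lit 94) (nat_lit 4) (nat_lit 10) (nat_lit 8) L121645 (by decide +kernel)
theorem L121647 : W_48 (nat_lit 5) (nat_lit 0x18003c0012000800000000000000000000000) (nat_lit 0x0) (nat_lit 0xc0000000000014000e0005000000000000000) := T_48 (nat_lit 146) (nat_lit 147) (nat_lit 3) (nat_lit 7) (nat_lit 7) L121646 (by decide +kernel)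
theorem L121648 : W_48 (nat_lit 6) (nat_lit 0x10003c0012000800000000000000000000000) (nat_lit 0x0) (nat_lit 0xcc000000000014000e0005000000000000000) := T_48 (nat_lit 143) (nat_lit 142) (nat_lit 1) (nat_lit 10) (nat_lit 7) L121647 (by decide +kernel)
theorem L121649 : W_48 (nat_lit 2) (nat_lit 0x18003c00120008000e0000000000000000000) (nat_lit 0x0) (nat_lit 0xc000000000001000000000000000000000000) := D_48 (nat_lit 146) (nat_lit 147) (nat_lit 96) (nat_lit 3) (nat_lit 7) (nat_lit 7) (nat_lit 6) (nat_lit 10) (nat_lit 8) (by decide +kernel)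
theorem L121650 : W_48 (nat_lit 3) (nat_lit 0x18003c0012000800060000000000000000000) (nat_lit 0x0) (nat_lit 0xc000000000001000080004000000000000000) := T_48 (nat_lit 79) (nat_lit 62) (nat_lit 6) (nat_lit 10) (nat_lit 7) L121649 (by decide +kernel)
theorem L121651 : W_48 (nat_lit 4) (nat_lit 0x18003c0012000800040000000000000000000) (nat_lit 0x0) (nat_lit 0xc0000000000010000a0005000000000000000) := T_48 (nat_lit 77) (nat_lit 60) (nat_lit 4) (nat_lit 10) (nat_lit 7) L121650 (by decide +kernel)
theorem L121652 : W_48 (nat_lit 5) (nat_lit 0x10003c0012000800040000000000000000000) (nat_lit 0x0) (nat_lit 0xcc000000000010000a0005000000000000000) := T_48 (nat_lit 143) (nat_lit 142) (nat_lit 1) (nat_lit 10) (nat_lit 7) L121651 (by decide +kernel)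
theorem L121653 : W_48 (nat_lit 2) (nat_lit 0x50003c0012000800040000000000000000000) (nat_lit 0x0) (nat_lit 0x1000080004000000000000000) := D_48 (nat_lit 79) (nat_lit 62) (nat_lit 96) (nat_lit 6) (nat_lit 10) (nat_lit 7) (nat_lit 6) (nat_lit 10) (nat_lit 8) (by decide +kernel)
theorem L121654 : W_48 (nat_lit 3) (nat_lit 0x10003c0012000800040000000000000000000) (nat_lit 0x0) (nat_lit 0xc000000000001000080004000000000000000) := T_48 (nat_lit 146) (nat_lit 147) (nat_lit 3) (nat_lit 7) (nat_lit 7) L121653 (by decide +kernel)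
theorem L121655 : W_48 (nat_lit 2) (nat_lit 0x58003c0012000800068004000000000000000) (nat_lit 0x0) (nat_lit 0x10002000200000000000) := D_48 (nat_lit 61) (nat_lit 45) (nat_lit 76) (nat_lit 6) (nat_lit 10) (nat_lit 6) (nat_lit 2) (nat_lit 7) (nat_lit 4) (by decide +kernel)
theorem L121656 : W_48 (nat_lit 3) (nat_lit 0x58003c0012000800068000000000000000000) (nat_lit 0x0) (nat_lit 0x90006000200000000000) := T_48 (nat_lit 62) (nat_lit 79) (nat_lit 6) (nat_lit 10) (nat_lit 7) L121655 (by decide +kernel)
theorem L121657 : W_48 (nat_lit 4) (nat_lit 0x58003c0012000800048000000000000000000) (nat_lit 0x0) (nat_lit 0xb0007000200000000000) := T_48 (nat_lit 77) (nat_lit 60) (nat_lit 4) (nat_lit 10) (nat_lit 7) L121656 (by decide +kernel)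
theorem L121658 : W_48 (nat_lit 5) (nat_lit 0x18003c0012000800048000000000000000000) (nat_lit 0x0) (nat_lit 0xc0000000000000000b0007000200000000000) := T_48 (nat_lit 146) (nat_lit 147) (nat_lit 3) (nat_lit 7) (nat_lit 7) L121657 (by decide +kernel)
theorem L121659 : W_48 (nat_lit 6) (nat_lit 0x10003c0012000800048000000000000000000) (nat_lit 0x0) (nat_lit 0xcc000000000000000b0007000200000000000) := T_48 (nat_lit 143) (nat_lit 142) (nat_lit 1) (nat_lit 10) (nat_lit 7) L121658 (by decide +kernel)
theorem L121660 : W_48 (nat_lit 7) (nat_lit 0x10003c0012000800040000000000000000000) (nat_lit 0x0) (nat_lit 0xcc000000000001000b8007000200000000000) := T_48 (nat_lit 75) (nat_lit 92) (nat_lit 7) (nat_lit 7) (nat_lit 4) L121659 (by decide +kernel)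
theorem L121661 : W_48 (nat_lit 2) (nat_lit 0x18003c00120008000f8000000000000000000) (nat_lit 0x0) (nat_lit 0xe00000000000000) := D_48 (nat_lit 58) (nat_lit 59) (nat_lit 57) (nat_lit 0) (nat_lit 11) (nat_lit 4) (nat_lit 0) (nat_lit 10) (nat_lit 4) (by decide +kernel)
theorem L121662 : W_48 (nat_lit 3) (nat_lit 0x18003c00120008000e8000000000000000000) (nat_lit 0x0) (nat_lit 0x1000010000e00000000000000) := T_48 (nat_lit 76) (nat_lit 96) (nat_lit 3) (nat_lit 7) (nat_lit 4) L121661 (by decide +kernel)
theorem L121663 : W_48 (nat_lit 4) (nat_lit 0x18003c00120008000c8000000000000000000) (nat_lit 0x0) (nat_lit 0x1000030001e00000000000000) := T_48 (nat_lit 77) (nat_lit 60) (nat_lit 4) (nat_lit 10) (nat_lit 7) L121662 (by decide +kernel)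
theorem L121664 : W_48 (nat_lit 5) (nat_lit 0x18003c00120008000c0000000000000000000) (nat_lit 0x0) (nat_lit 0x1100038001e00000000000000) := T_48 (nat_lit 75) (nat_lit 92) (nat_lit 7) (nat_lit 7) (nat_lit 4) L121663 (by decide +kernel)
theorem L121665 : W_48 (nat_lit 6) (nat_lit 0x10003c00120008000c0000000000000000000) (nat_lit 0x0) (nat_lit 0xc00000000001100038001e00000000000000) := T_48 (nat_lit 143) (nat_lit 142) (nat_lit 1) (nat_lit 10) (nat_lit 7) L121664 (by decide +kernel)
theorem L121666 : W_48 (nat_lit 7) (nat_lit 0x10003c0012000800040000000000000000000) (nat_lit 0x0) (nat_lit 0xc000000000011000b8005e00000000000000) := T_48 (nat_lit 79) (nat_lit 62) (nat_lit 6) (nat_lit 10) (nat_lit 7) L121665 (by decide +kernel)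
theorem L121667 : W_48 (nat_lit 2) (nat_lit 0x58003c0012000800048007c00000000000000) (nat_lit 0x0) (nat_lit 0x70000000000) := D_48 (nat_lit 41) (nat_lit 40) (nat_lit 42) (nat_lit 0) (nat_lit 10) (nat_lit 3) (nat_lit 0) (nat_lit 11) (nat_lit 3) (by decide +kernel)
theorem L121668 : W_48 (nat_lit 3) (nat_lit 0x58003c0012000800048007800000000000000) (nat_lit 0x0) (nat_lit 0x4000400070000000000) := T_48 (nat_lit 58) (nat_lit 74) (nat_lit 1) (nat_lit 10) (nat_lit 3) L121667 (by decide +kernel)
theorem L121669 : W_48 (nat_lit 4) (nat_lit 0x58003c0012000800048007000000000000000) (nat_lit 0x0) (nat_lit 0x14000c00070000000000) := T_48 (nat_lit 59) (nat_lit 76) (nat_lit 1) (nat_lit 11) (nat_lit 3) L121668 (by decide +kernel)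
theorem L121670 : W_48 (nat_lit 5) (nat_lit 0x58003c0012000800040007000000000000000) (nat_lit 0x0) (nat_lit 0x10001c000c00070000000000) := T_48 (nat_lit 75) (nat_lit 92) (nat_lit 7) (nat_lit 7) (nat_lit 4) L121669 (by decide +kernel)
theorem L121671 : W_48 (nat_lit 6) (nat_lit 0x58003c0012000800040003000000000000000) (nat_lit 0x0) (nat_lit 0x10001c004c00270000000000) := T_48 (nat_lit 62) (nat_lit 45) (nat_lit 6) (nat_lit 10) (nat_lit 6) L121670 (by decide +kernel)
theorem L121672 : W_48 (nat_lit 7) (nat_lit 0x50003c0012000800040003000000000000000) (nat_lit 0x0) (nat_lit 0xc0000000000010001c004c00270000000000) := T_48 (nat_lit 143) (nat_lit 142) (nat_lit 1) (nat_lit 10) (nat_lit 7) L121671 (by decide +kernel)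
theorem L121673 : W_48 (nat_lit 8) (nat_lit 0x50003c0012000800040001000000000000000) (nat_lit 0x0) (nat_lit 0xc0000000000010001c006c002f0000000000) := T_48 (nat_lit 61) (nat_lit 43) (nat_lit 4) (nat_lit 10) (nat_lit 6) L121672 (by decide +kernel)
theorem L121674 : W_48 (nat_lit 9) (nat_lit 0x10003c0012000800040001000000000000000) (nat_lit 0x0) (nat_lit 0xcc0000000000010001c006c002f0000000000) := T_48 (nat_lit 146) (nat_lit 147) (nat_lit 3) (nat_lit 7) (nat_lit 7) L121673 (by decide +kernel)
theorem L121675 : W_48 (nat_lit 10) (nat_lit 0x10003c0012000800040000000000000000000) (nat_lit 0x0) (nat_lit 0xcc0000000000010003c007c002f0000000000) := T_48 (nat_lit 60) (nat_lit 77) (nat_lit 4) (nat_lit 10) (nat_lit 7) L121674 (by decide +kernel)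
theorem L121676 : W_48 (nat_lit 2) (nat_lit 0x10003c0012001800068000000000000000000) (nat_lit 0x0) (nat_lit 0xc000000000000000080000000000000000000) := D_48 (nat_lit 146) (nat_lit 147) (nat_lit 79) (nat_lit 3) (nat_lit 7) (nat_lit 7) (nat_lit 6) (nat_lit 10) (nat_lit 8) (by decide +kernel)
theorem L121677 : W_48 (nat_lit 3) (nat_lit 0x10003c0012000800068000000000000000000) (nat_lit 0x0) (nat_lit 0xc000000000001000090000000000000000000) := T_48 (nat_lit 96) (nat_lit 76) (nat_lit 3) (nat_lit 7) (nat_lit 4) L121676 (by decide +kernel)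
theorem L121678 : W_48 (nat_lit 4) (nat_lit 0x10003c0012000800048000000000000000000) (nat_lit 0x0) (nat_lit 0xc0000000000010000b0001000000000000000) := T_48 (nat_lit 77) (nat_lit 60) (nat_lit 4) (nat_lit 10) (nat_lit 7) L121677 (by decide +kernel)
theorem L121679 : W_48 (nat_lit 5) (nat_lit 0x10003c0012000800040000000000000000000) (nat_lit 0x0) (nat_lit 0xc0000000000011000b8001000000000000000) := T_48 (nat_lit 75) (nat_lit 92) (nat_lit 7) (nat_lit 7) (nat_lit 4) L121678 (by decide +kernel)
theorem L121680 : W_48 (nat_lit 11) (nat_lit 0x10003c0012000800000000000000000000000) (nat_lit 0x0) (nat_lit 0xcc000000000011000fc007e002f0000000000) := Q_48 (nat_lit 78) (C_48 L121652 (C_48 L121654 (C_48 L121660 (C_48 L121666 (C_48 L121675 (C_48 L121679 N_48)))))) (by decide +kernel)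
theorem L121681 : W_48 (nat_lit 2) (nat_lit 0x58003c0012001c00008000000000000000000) (nat_lit 0x0) (nat_lit 0x4000200010000000000000000000) := D_48 (nat_lit 93) (nat_lit 110) (nat_lit 76) (nat_lit 1) (nat_lit 11) (nat_lit 5) (nat_lit 0) (nat_lit 11) (nat_lit 5) (by decide +kernel)
theorem L121682 : W_48 (nat_lit 3) (nat_lit 0x58003c0012000c00008000000000000000000) (nat_lit 0x0) (nat_lit 0x4001200090000000000000000000) := T_48 (nat_lit 96) (nat_lit 79) (nat_lit 6) (nat_lit 10) (nat_lit 8) L121681 (by decide +kernel)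
theorem L121683 : W_48 (nat_lit 4) (nat_lit 0x58003c0012000800008000000000000000000) (nat_lit 0x0) (nat_lit 0x40016000b0000000000000000000) := T_48 (nat_lit 94) (nat_lit 77) (nat_lit 4) (nat_lit 10) (nat_lit 8) L121682 (by decide +kernel)
theorem L121684 : W_48 (nat_lit 5) (nat_lit 0x18003c0012000800008000000000000000000) (nat_lit 0x0) (nat_lit 0xc0000000040016000b0000000000000000000) := T_48 (nat_lit 146) (nat_lit 147) (nat_lit 3) (nat_lit 7) (nat_lit 7) L121683 (by decide +kernel)
theorem L121685 : W_48 (nat_lit 6) (nat_lit 0x18003c0012000800000000000000000000000) (nat_lit 0x0) (nat_lit 0xc0000000040017000b8000000000000000000) := T_48 (nat_lit 75) (nat_lit 92) (nat_lit 7) (nat_lit 7) (nat_lit 4) L121684 (by decide +kernel)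
theorem L121686 : W_48 (nat_lit 7) (nat_lit 0x10003c0012000800000000000000000000000) (nat_lit 0x0) (nat_lit 0xcc000000040017000b8000000000000000000) := T_48 (nat_lit 143) (nat_lit 142) (nat_lit 1) (nat_lit 10) (nat_lit 7) L121685 (by decide +kernel)
theorem L121687 : W_48 (nat_lit 2) (nat_lit 0x58003c00120009000c0000000000000000000) (nat_lit 0x0) (nat_lit 0x600010000000000000000000) := D_48 (nat_lit 93) (nat_lit 94) (nat_lit 76) (nat_lit 2) (nat_lit 7) (nat_lit 5) (nat_lit 6) (nat_lit 7) (nat_lit 8) (by decide +kernel)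
theorem L121688 : W_48 (nat_lit 3) (nat_lit 0x58003c0012000900080000000000000000000) (nat_lit 0x0) (nat_lit 0x600050004000000000000000) := T_48 (nat_lit 78) (nat_lit 62) (nat_lit 6) (nat_lit 10) (nat_lit 7) L121687 (by decide +kernel)
theorem L121689 : W_48 (nat_lit 4) (nat_lit 0x58003c0012000800080000000000000000000) (nat_lit 0x0) (nat_lit 0x700058004000000000000000) := T_48 (nat_lit 92) (nat_lit 75) (nat_lit 7) (nat_lit 7) (nat_lit 4) L121688 (by decide +kernel)
theorem L121690 : W_48 (nat_lit 5) (nat_lit 0x58003c0012000800000000000000000000000) (nat_lit 0x0) (nat_lit 0x17000d8004000000000000000) := T_48 (nat_lit 79) (nat_lit 96) (nat_lit 6) (nat_lit 10) (nat_lit 8) L121689 (by decide +kernel)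
theorem L121691 : W_48 (nat_lit 6) (nat_lit 0x50003c0012000800000000000000000000000) (nat_lit 0x0) (nat_lit 0xc000000000017000d8004000000000000000) := T_48 (nat_lit 143) (nat_lit 142) (nat_lit 1) (nat_lit 10) (nat_lit 7) L121690 (by decide +kernel)
theorem L121692 : W_48 (nat_lit 7) (nat_lit 0x10003c0012000800000000000000000000000) (nat_lit 0x0) (nat_lit 0xcc000000000017000d8004000000000000000) := T_48 (nat_lit 146) (nat_lit 147) (nat_lit 3) (nat_lit 7) (nat_lit 7) L121691 (by decide +kernel)
theorem L121693 : W_48 (nat_lit 4) (nat_lit 0x58003c0012000800028000000000000000000) (nat_lit 0x0) (nat_lit 0xd0007000200000000000) := T_48 (nat_lit 78) (nat_lit 60) (nat_lit 4) (nat_lit 10) (nat_lit 7) L121656 (by decide +kernel)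
theorem L121694 : W_48 (nat_lit 5) (nat_lit 0x58003c0012000800008000000000000000000) (nat_lit 0x0) (nat_lit 0x4000f0007000200000000000) := T_48 (nat_lit 77) (nat_lit 94) (nat_lit 4) (nat_lit 10) (nat_lit 8) L121693 (by decide +kernel)
theorem L121695 : W_48 (nat_lit 6) (nat_lit 0x18003c0012000800008000000000000000000) (nat_lit 0x0) (nat_lit 0xc0000000000004000f0007000200000000000) := T_48 (nat_lit 146) (nat_lit 147) (nat_lit 3) (nat_lit 7) (nat_lit 7) L121694 (by decide +kernel)
theorem L121696 : W_48 (nat_lit 7) (nat_lit 0x10003c0012000800008000000000000000000) (nat_lit 0x0) (nat_lit 0xcc000000000004000f0007000200000000000) := T_48 (nat_lit 143) (nat_lit 142) (nat_lit 1) (nat_lit 10) (nat_lit 7) L121695 (by decide +kernel)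
theorem L121697 : W_48 (nat_lit 8) (nat_lit 0x10003c0012000800000000000000000000000) (nat_lit 0x0) (nat_lit 0xcc000000000005000f8007000200000000000) := T_48 (nat_lit 75) (nat_lit 92) (nat_lit 7) (nat_lit 7) (nat_lit 4) L121696 (by decide +kernel)
theorem L121698 : W_48 (nat_lit 2) (nat_lit 0x10003c0012000800040005000000000000000) (nat_lit 0x0) (nat_lit 0x2000280000000000) := D_48 (nat_lit 61) (nat_lit 45) (nat_lit 43) (nat_lit 6) (nat_lit 10) (nat_lit 6) (nat_lit 4) (nat_lit 10) (nat_lit 6) (by decide +kernel)
theorem L121699 : W_48 (nat_lit 3) (nat_lit 0x10003c0012000800040004000000000000000) (nat_lit 0x0) (nat_lit 0x20003000280000000000) := T_48 (nat_lit 60) (nat_lit 77) (nat_lit 4) (nat_lit 10) (nat_lit 7) L121698 (by decide +kernel)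
theorem L121700 : W_48 (nat_lit 4) (nat_lit 0x10003c0012000800040000000000000000000) (nat_lit 0x0) (nat_lit 0xa0007000280000000000) := T_48 (nat_lit 62) (nat_lit 79) (nat_lit 6) (nat_lit 10) (nat_lit 7) L121699 (by decide +kernel)
theorem L121701 : W_48 (nat_lit 2) (nat_lit 0x10003c0012000b000c0000000000000000000) (nat_lit 0x0) (nat_lit 0x800000000000000030000000000000000000) := D_48 (nat_lit 76) (nat_lit 77) (nat_lit 143) (nat_lit 1) (nat_lit 11) (nat_lit 4) (nat_lit 6) (nat_lit 7) (nat_lit 8) (by decide +kernel)
theorem L121702 : W_48 (nat_lit 3) (nat_lit 0x10003c00120009000c0000000000000000000) (nat_lit 0x0) (nat_lit 0x800000000000600030000000000000000000) := T_48 (nat_lit 93) (nat_lit 94) (nat_lit 2) (nat_lit 7) (nat_lit 5) L121701 (by decide +kernel)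
theorem L121703 : W_48 (nat_lit 4) (nat_lit 0x10003c0012000900040000000000000000000) (nat_lit 0x0) (nat_lit 0x8000000000006000b0004000000000000000) := T_48 (nat_lit 79) (nat_lit 62) (nat_lit 6) (nat_lit 10) (nat_lit 7) L121702 (by decide +kernel)
theorem L121704 : W_48 (nat_lit 5) (nat_lit 0x10003c0012000800040000000000000000000) (nat_lit 0x0) (nat_lit 0x8000000000007000b8004000000000000000) := T_48 (nat_lit 92) (nat_lit 75) (nat_lit 7) (nat_lit 7) (nat_lit 4) L121703 (by decide +kernel)
theorem L121705 : W_48 (nat_lit 2) (nat_lit 0x18003c0012000800048007c00000000000000) (nat_lit 0x0) (nat_lit 0x70000000000) := D_48 (nat_lit 41) (nat_lit 40) (nat_lit 42) (nat_lit 0) (nat_lit 10) (nat_lit 3) (nat_lit 0) (nat_lit 11) (nat_lit 3) (by decide +kernel)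
theorem L121706 : W_48 (nat_lit 3) (nat_lit 0x18003c0012000800048007800000000000000) (nat_lit 0x0) (nat_lit 0x4000400070000000000) := T_48 (nat_lit 58) (nat_lit 74) (nat_lit 1) (nat_lit 10) (nat_lit 3) L121705 (by decide +kernel)
theorem L121707 : W_48 (nat_lit 4) (nat_lit 0x18003c0012000800048007000000000000000) (nat_lit 0x0) (nat_lit 0x14000c00070000000000) := T_48 (nat_lit 59) (nat_lit 76) (nat_lit 1) (nat_lit 11) (nat_lit 3) L121706 (by decide +kernel)
theorem L121708 : W_48 (nat_lit 5) (nat_lit 0x18003c0012000800048006000000000000000) (nat_lit 0x0) (nat_lit 0x14001c000f0000000000) := T_48 (nat_lit 60) (nat_lit 43) (nat_lit 4) (nat_lit 10) (nat_lit 6) L121707 (by decide +kernel)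
theorem L121709 : W_48 (nat_lit 6) (nat_lit 0x18003c0012000800048004000000000000000) (nat_lit 0x0) (nat_lit 0x14003c002f0000000000) := T_48 (nat_lit 61) (nat_lit 45) (nat_lit 6) (nat_lit 10) (nat_lit 6) L121708 (by decide +kernel)
theorem L121710 : W_48 (nat_lit 7) (nat_lit 0x18003c0012000800048000000000000000000) (nat_lit 0x0) (nat_lit 0x94007c002f0000000000) := T_48 (nat_lit 62) (nat_lit 79) (nat_lit 6) (nat_lit 10) (nat_lit 7) L121709 (by decide +kernel)
theorem L121711 : W_48 (nat_lit 8) (nat_lit 0x18003c0012000800040000000000000000000) (nat_lit 0x0) (nat_lit 0x10009c007c002f0000000000) := T_48 (nat_lit 75) (nat_lit 92) (nat_lit 7) (nat_lit 7) (nat_lit 4) L121710 (by decide +kernel)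
theorem L121712 : W_48 (nat_lit 9) (nat_lit 0x10003c0012000800040000000000000000000) (nat_lit 0x0) (nat_lit 0xc0000000000010009c007c002f0000000000) := T_48 (nat_lit 143) (nat_lit 142) (nat_lit 1) (nat_lit 10) (nat_lit 7) L121711 (by decide +kernel)
theorem L121713 : W_48 (nat_lit 2) (nat_lit 0x18003c001200080007c000000000000000000) (nat_lit 0x0) (nat_lit 0x700000000000000) := D_48 (nat_lit 57) (nat_lit 58) (nat_lit 56) (nat_lit 0) (nat_lit 10) (nat_lit 4) (nat_lit 0) (nat_lit 9) (nat_lit 4) (by decide +kernel)
theorem L121714 : W_48 (nat_lit 3) (nat_lit 0x18003c0012000800078000000000000000000) (nat_lit 0x0) (nat_lit 0x400004000700000000000000) := T_48 (nat_lit 74) (nat_lit 94) (nat_lit 3) (nat_lit 6) (nat_lit 4) L121713 (by decide +kernel)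
theorem L121715 : W_48 (nat_lit 4) (nat_lit 0x18003c0012000800068000000000000000000) (nat_lit 0x0) (nat_lit 0x1400014000700000000000000) := T_48 (nat_lit 76) (nat_lit 96) (nat_lit 3) (nat_lit 7) (nat_lit 4) L121714 (by decide +kernel)
theorem L121716 : W_48 (nat_lit 5) (nat_lit 0x18003c0012000800060000000000000000000) (nat_lit 0x0) (nat_lit 0x150001c000700000000000000) := T_48 (nat_lit 75) (nat_lit 92) (nat_lit 7) (nat_lit 7) (nat_lit 4) L121715 (by decide +kernel)
theorem L121717 : W_48 (nat_lit 6) (nat_lit 0x10003c0012000800060000000000000000000) (nat_lit 0x0) (nat_lit 0xc0000000000150001c000700000000000000) := T_48 (nat_lit 143) (nat_lit 142) (nat_lit 1) (nat_lit 10) (nat_lit 7) L121716 (by decide +kernel)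
theorem L121718 : W_48 (nat_lit 7) (nat_lit 0x10003c0012000800040000000000000000000) (nat_lit 0x0) (nat_lit 0xc0000000000150003c001700000000000000) := T_48 (nat_lit 77) (nat_lit 60) (nat_lit 4) (nat_lit 10) (nat_lit 7) L121717 (by decide +kernel)
theorem L121719 : W_48 (nat_lit 10) (nat_lit 0x10003c0012000800000000000000000000000) (nat_lit 0x0) (nat_lit 0xc000000000017000fc007f002f0000000000) := Q_48 (nat_lit 78) (C_48 L121700 (C_48 L121704 (C_48 L121712 (C_48 L121718 N_48)))) (by decide +kernel)
theorem L121720 : W_48 (nat_lit 2) (nat_lit 0x10003e0012000800000000000000000000000) (nat_lit 0x0) (nat_lit 0xe00000000000000000000000000000000000) := D_48 (nat_lit 142) (nat_lit 141) (nat_lit 143) (nat_lit 1) (nat_lit 9) (nat_lit 7) (nat_lit 1) (nat_lit 10) (nat_lit 7) (by decide +kernel)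
theorem L121721 : W_48 (nat_lit 2) (nat_lit 0x52003f0016800e00008000000000000000000) (nat_lit 0x0) (nat_lit 0x10000c00000000000000) := D_48 (nat_lit 76) (nat_lit 59) (nat_lit 58) (nat_lit 5) (nat_lit 8) (nat_lit 3) (nat_lit 4) (nat_lit 8) (nat_lit 7) (by decide +kernel)
theorem L121722 : W_48 (nat_lit 3) (nat_lit 0x52003f0016800e00000000000000000000000) (nat_lit 0x0) (nat_lit 0x100018000c00000000000000) := T_48 (nat_lit 75) (nat_lit 92) (nat_lit 7) (nat_lit 7) (nat_lit 4) L121721 (by decide +kernel)
theorem L121723 : W_48 (nat_lit 4) (nat_lit 0x52003f0016800c00000000000000000000000) (nat_lit 0x0) (nat_lit 0x1300018000c00000000000000) := T_48 (nat_lit 93) (nat_lit 96) (nat_lit 1) (nat_lit 11) (nat_lit 5) L121722 (by decide +kernel)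
theorem L121724 : W_48 (nat_lit 5) (nat_lit 0x52003f0016800800000000000000000000000) (nat_lit 0x0) (nat_lit 0x1700038000c00000000000000) := T_48 (nat_lit 94) (nat_lit 77) (nat_lit 4) (nat_lit 10) (nat_lit 8) L121723 (by decide +kernel)
theorem L121725 : W_48 (nat_lit 6) (nat_lit 0x52003f0012800800000000000000000000000) (nat_lit 0x0) (nat_lit 0x8004001700038000c00000000000000) := T_48 (nat_lit 110) (nat_lit 123) (nat_lit 2) (nat_lit 4) (nat_lit 7) L121724 (by decide +kernel)
theorem L121726 : W_48 (nat_lit 7) (nat_lit 0x52003f0012000800000000000000000000000) (nat_lit 0x0) (nat_lit 0x8004c01700038000c00000000000000) := T_48 (nat_lit 107) (nat_lit 106) (nat_lit 0) (nat_lit 8) (nat_lit 7) L121725 (by decide +kernel)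
theorem L121727 : W_48 (nat_lit 8) (nat_lit 0x52003e0012000800000000000000000000000) (nat_lit 0x0) (nat_lit 0x100018004c01700038000c00000000000000) := T_48 (nat_lit 124) (nat_lit 140) (nat_lit 1) (nat_lit 8) (nat_lit 7) L121726 (by decide +kernel)
theorem L121728 : W_48 (nat_lit 9) (nat_lit 0x12003e0012000800000000000000000000000) (nat_lit 0x0) (nat_lit 0xc100018004c01700038000c00000000000000) := T_48 (nat_lit 146) (nat_lit 147) (nat_lit 3) (nat_lit 7) (nat_lit 7) L121727 (by decide +kernel)
theorem L121729 : W_48 (nat_lit 10) (nat_lit 0x10003e0012000800000000000000000000000) (nat_lit 0x0) (nat_lit 0xc700018004c01700038000c00000000000000) := T_48 (nat_lit 141) (nat_lit 142) (nat_lit 1) (nat_lit 9) (nat_lit 7) L121728 (by decide +kernel)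
theorem L121730 : W_48 (nat_lit 2) (nat_lit 0x50003f001200084007e000200000000000000) (nat_lit 0x0) (nat_lit 0x800008004000000000000000000000000000) := D_48 (nat_lit 123) (nat_lit 143) (nat_lit 110) (nat_lit 3) (nat_lit 4) (nat_lit 7) (nat_lit 2) (nat_lit 4) (nat_lit 7) (by decide +kernel)
theorem L121731 : W_48 (nat_lit 3) (nat_lit 0x50003e001200084007e000200000000000000) (nat_lit 0x0) (nat_lit 0x800018004800000000000000000000000000) := T_48 (nat_lit 124) (nat_lit 107) (nat_lit 6) (nat_lit 5) (nat_lit 7) L121730 (by decide +kernel)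
theorem L121732 : W_48 (nat_lit 4) (nat_lit 0x50003e001200084007c000200000000000000) (nat_lit 0x0) (nat_lit 0x800018004800020002000000000000000000) := T_48 (nat_lit 73) (nat_lit 89) (nat_lit 1) (nat_lit 8) (nat_lit 4) L121731 (by decide +kernel)
theorem L121733 : W_48 (nat_lit 5) (nat_lit 0x50003e001200080007c000200000000000000) (nat_lit 0x0) (nat_lit 0x8000180048000e0002000000000000000000) := T_48 (nat_lit 90) (nat_lit 91) (nat_lit 1) (nat_lit 9) (nat_lit 4) L121732 (by decide +kernel)
theorem L121734 : W_48 (nat_lit 6) (nat_lit 0x50003e0012000800078000200000000000000) (nat_lit 0x0) (nat_lit 0x8000180048000e0006000100000000000000) := T_48 (nat_lit 74) (nat_lit 56) (nat_lit 0) (nat_lit 9) (nat_lit 4) L121733 (by decide +kernel)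
theorem L121735 : W_48 (nat_lit 7) (nat_lit 0x50003e0012000800078000000000000000000) (nat_lit 0x0) (nat_lit 0x8000180048000e0006000700000000000000) := T_48 (nat_lit 57) (nat_lit 58) (nat_lit 0) (nat_lit 10) (nat_lit 4) L121734 (by decide +kernel)
theorem L121736 : W_48 (nat_lit 8) (nat_lit 0x50003e0012000800068000000000000000000) (nat_lit 0x0) (nat_lit 0x8000180048010e0016000700000000000000) := T_48 (nat_lit 76) (nat_lit 96) (nat_lit 3) (nat_lit 7) (nat_lit 4) L121735 (by decide +kernel)
theorem L121737 : W_48 (nat_lit 9) (nat_lit 0x50003e0012000800028000000000000000000) (nat_lit 0x0) (nat_lit 0x8000180048010e0056001700000000000000) := T_48 (nat_lit 78) (nat_lit 60) (nat_lit 4) (nat_lit 10) (nat_lit 7) L121736 (by decide +kernel)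
theorem L121738 : W_48 (nat_lit 10) (nat_lit 0x50003e0012000800008000000000000000000) (nat_lit 0x0) (nat_lit 0x8000180048014e0076001700000000000000) := T_48 (nat_lit 77) (nat_lit 94) (nat_lit 4) (nat_lit 10) (nat_lit 8) L121737 (by decide +kernel)
theorem L121739 : W_48 (nat_lit 11) (nat_lit 0x10003e0012000800008000000000000000000) (nat_lit 0x0) (nat_lit 0xc8000180048014e0076001700000000000000) := T_48 (nat_lit 146) (nat_lit 147) (nat_lit 3) (nat_lit 7) (nat_lit 7) L121738 (by decide +kernel)
theorem L121740 : W_48 (nat_lit 12) (nat_lit 0x10003e0012000800000000000000000000000) (nat_lit 0x0) (nat_lit 0xc8000180048015e007e001700000000000000) := T_48 (nat_lit 75) (nat_lit 92) (nat_lit 7) (nat_lit 7) (nat_lit 4) L121739 (by decide +kernel)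
theorem L121741 : W_48 (nat_lit 13) (nat_lit 0x10003c0012000800000000000000000000000) (nat_lit 0x0) (nat_lit 0xcf00038004c017e007e001f00000000000000) := Q_48 (nat_lit 125) (C_48 L121720 (C_48 L121729 (C_48 L121740 N_48))) (by decide +kernel)
theorem L121742 : W_48 (nat_lit 14) (nat_lit 0x10003c0012000000000000000000000000000) (nat_lit 0x0) (nat_lit 0xcf00038004c01fe00fe007f002f0000000000) := Q_48 (nat_lit 95) (C_48 L121643 (C_48 L121648 (C_48 L121680 (C_48 L121686 (C_48 L121692 (C_48 L121697 (C_48 L121719 (C_48 L121741 N_48)))))))) (by decide +kernel)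
theorem L121743 : W_48 (nat_lit 15) (nat_lit 0x10003c0002000000000000000000000000000) (nat_lit 0x0) (nat_lit 0xcf00038034c01fe00fe007f002f0000000000) := T_48 (nat_lit 112) (nat_lit 113) (nat_lit 2) (nat_lit 7) (nat_lit 7) L121742 (by decide +kernel)
theorem L121744 : W_48 (nat_lit 2) (nat_lit 0x1800058003c0012000000000000000000000000000) (nat_lit 0x0) (nat_lit 0x800060000000000000000000000000000000000000000) := D_48 (nat_lit 162) (nat_lit 161) (nat_lit 179) (nat_lit 0) (nat_lit 11) (nat_lit 9) (nat_lit 5) (nat_lit 10) (nat_lit 6) (by decide +kernel)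
theorem L121745 : W_48 (nat_lit 3) (nat_lit 0x800058003c0012000000000000000000000000000) (nat_lit 0x0) (nat_lit 0x2800160000000000000000000000000000000000000000) := T_48 (nat_lit 164) (nat_lit 181) (nat_lit 7) (nat_lit 10) (nat_lit 6) L121744 (by decide +kernel)
theorem L121746 : W_48 (nat_lit 4) (nat_lit 0x800050003c0012000000000000000000000000000) (nat_lit 0x0) (nat_lit 0x2800160000c00000000000000000000000000000000000) := T_48 (nat_lit 143) (nat_lit 142) (nat_lit 1) (nat_lit 10) (nat_lit 7) L121745 (by decide +kernel)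
theorem L121747 : W_48 (nat_lit 5) (nat_lit 0x800050003c0002000000000000000000000000000) (nat_lit 0x0) (nat_lit 0x2800160000c00000030000000000000000000000000000) := T_48 (nat_lit 112) (nat_lit 113) (nat_lit 2) (nat_lit 7) (nat_lit 7) L121746 (by decide +kernel)
theorem L121748 : W_48 (nat_lit 2) (nat_lit 0xc001800050003c0012000000000000000000000000000) (nat_lit 0x0) (nat_lit 0x10001200000000000000000000000000000000000000000000) := D_48 (nat_lit 180) (nat_lit 177) (nat_lit 196) (nat_lit 2) (nat_lit 7) (nat_lit 10) (nat_lit 5) (nat_lit 10) (nat_lit 7) (by decide +kernel)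
theorem L121749 : W_48 (nat_lit 3) (nat_lit 0x4001800050003c0012000000000000000000000000000) (nat_lit 0x0) (nat_lit 0x10001a00040000000000000000000000000000000000000000) := T_48 (nat_lit 179) (nat_lit 162) (nat_lit 5) (nat_lit 10) (nat_lit 6) L121748 (by decide +kernel)
theorem L121750 : W_48 (nat_lit 4) (nat_lit 0x4000800050003c0012000000000000000000000000000) (nat_lit 0x0) (nat_lit 0x10003a00140000000000000000000000000000000000000000) := T_48 (nat_lit 164) (nat_lit 181) (nat_lit 7) (nat_lit 10) (nat_lit 6) L121749 (by decide +kernel)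
theorem L121751 : W_48 (nat_lit 5) (nat_lit 0x800050003c0012000000000000000000000000000) (nat_lit 0x0) (nat_lit 0x10003e00160000000000000000000000000000000000000000) := T_48 (nat_lit 178) (nat_lit 161) (nat_lit 4) (nat_lit 8) (nat_lit 10) L121750 (by decide +kernel)
theorem L121752 : W_48 (nat_lit 6) (nat_lit 0x800050003c0002000000000000000000000000000) (nat_lit 0x0) (nat_lit 0x10003e00160000000000030000000000000000000000000000) := T_48 (nat_lit 112) (nat_lit 113) (nat_lit 2) (nat_lit 7) (nat_lit 7) L121751 (by decide +kernel)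
theorem L121753 : W_48 (nat_lit 2) (nat_lit 0x34000800050003c0002000000000000000000000000000) (nat_lit 0x0) (nat_lit 0x100000000000030000000000000000000000000000) := D_48 (nat_lit 112) (nat_lit 164) (nat_lit 113) (nat_lit 7) (nat_lit 10) (nat_lit 6) (nat_lit 2) (nat_lit 7) (nat_lit 7) (by decide +kernel)
theorem L121754 : W_48 (nat_lit 3) (nat_lit 0x14000800050003c0002000000000000000000000000000) (nat_lit 0x0) (nat_lit 0x40002000100000000000030000000000000000000000000000) := T_48 (nat_lit 181) (nat_lit 198) (nat_lit 7) (nat_lit 10) (nat_lit 7) L121753 (by decide +kernel)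
theorem L121755 : W_48 (nat_lit 4) (nat_lit 0x10000800050003c0002000000000000000000000000000) (nat_lit 0x0) (nat_lit 0x40002400120000000000030000000000000000000000000000) := T_48 (nat_lit 178) (nat_lit 161) (nat_lit 4) (nat_lit 8) (nat_lit 10) L121754 (by decide +kernel)
theorem L121756 : W_48 (nat_lit 2) (nat_lit 0x38000800050003c0002000000000000000000000000000) (nat_lit 0x0) (nat_lit 0x100000000000030000000000000000000000000000) := D_48 (nat_lit 112) (nat_lit 164) (nat_lit 113) (nat_lit 7) (nat_lit 10) (nat_lit 6) (nat_lit 2) (nat_lit 7) (nat_lit 7) (by decide +kernel)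
theorem L121757 : W_48 (nat_lit 3) (nat_lit 0x18000800050003c0002000000000000000000000000000) (nat_lit 0x0) (nat_lit 0x40002000100000000000030000000000000000000000000000) := T_48 (nat_lit 181) (nat_lit 198) (nat_lit 7) (nat_lit 10) (nat_lit 7) L121756 (by decide +kernel)
theorem L121758 : W_48 (nat_lit 4) (nat_lit 0x10000800050003c0002000000000000000000000000000) (nat_lit 0x0) (nat_lit 0x50002800100000000000030000000000000000000000000000) := T_48 (nat_lit 179) (nat_lit 196) (nat_lit 5) (nat_lit 10) (nat_lit 7) L121757 (by decide +kernel)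
theorem L121759 : W_48 (nat_lit 2) (nat_lit 0x3c000800058003c0002000000000000000000000000000) (nat_lit 0x0) (nat_lit 0x200300000000000000000000000000000000000000000) := D_48 (nat_lit 164) (nat_lit 165) (nat_lit 177) (nat_lit 2) (nat_lit 8) (nat_lit 10) (nat_lit 2) (nat_lit 7) (nat_lit 10) (by decide +kernel)
theorem L121760 : W_48 (nat_lit 3) (nat_lit 0x38000800058003c0002000000000000000000000000000) (nat_lit 0x0) (nat_lit 0x600320000000000000000000000000000000000000000) := T_48 (nat_lit 178) (nat_lit 161) (nat_lit 4) (nat_lit 8) (nat_lit 10) L121759 (by decide +kernel)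
theorem L121761 : W_48 (nat_lit 4) (nat_lit 0x18000800058003c0002000000000000000000000000000) (nat_lit 0x0) (nat_lit 0x40002600320000000000000000000000000000000000000000) := T_48 (nat_lit 181) (nat_lit 198) (nat_lit 7) (nat_lit 10) (nat_lit 7) L121760 (by decide +kernel)
theorem L121762 : W_48 (nat_lit 5) (nat_lit 0x10000800058003c0002000000000000000000000000000) (nat_lit 0x0) (nat_lit 0x50002e00320000000000000000000000000000000000000000) := T_48 (nat_lit 179) (nat_lit 196) (nat_lit 5) (nat_lit 10) (nat_lit 7) L121761 (by decide +kernel)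
theorem L121763 : W_48 (nat_lit 6) (nat_lit 0x10000800050003c0002000000000000000000000000000) (nat_lit 0x0) (nat_lit 0x50002e00320000c00000000000000000000000000000000000) := T_48 (nat_lit 143) (nat_lit 142) (nat_lit 1) (nat_lit 10) (nat_lit 7) L121762 (by decide +kernel)
theorem L121764 : W_48 (nat_lit 2) (nat_lit 0x40001c000800058003c0012000000000000000000000000000) (nat_lit 0x0) (nat_lit 0x800020000200000000000000000000000000000000000000000000) := D_48 (nat_lit 197) (nat_lit 215) (nat_lit 177) (nat_lit 7) (nat_lit 10) (nat_lit 8) (nat_lit 3) (nat_lit 7) (nat_lit 10) (by decide +kernel)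
theorem L121765 : W_48 (nat_lit 3) (nat_lit 0x1c000800058003c0012000000000000000000000000000) (nat_lit 0x0) (nat_lit 0x800060002200000000000000000000000000000000000000000000) := T_48 (nat_lit 198) (nat_lit 181) (nat_lit 7) (nat_lit 10) (nat_lit 7) L121764 (by decide +kernel)
theorem L121766 : W_48 (nat_lit 4) (nat_lit 0x14000800058003c0012000000000000000000000000000) (nat_lit 0x0) (nat_lit 0x800070002a00000000000000000000000000000000000000000000) := T_48 (nat_lit 179) (nat_lit 196) (nat_lit 5) (nat_lit 10) (nat_lit 7) L121765 (by decide +kernel)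
theorem L121767 : W_48 (nat_lit 5) (nat_lit 0x14000800050003c0012000000000000000000000000000) (nat_lit 0x0) (nat_lit 0x800070002a00000000c00000000000000000000000000000000000) := T_48 (nat_lit 143) (nat_lit 142) (nat_lit 1) (nat_lit 10) (nat_lit 7) L121766 (by decide +kernel)
theorem L121768 : W_48 (nat_lit 6) (nat_lit 0x14000800050003c0002000000000000000000000000000) (nat_lit 0x0) (nat_lit 0x800070002a00000000c00000030000000000000000000000000000) := T_48 (nat_lit 112) (nat_lit 113) (nat_lit 2) (nat_lit 7) (nat_lit 7) L121767 (by decide +kernel)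
theorem L121769 : W_48 (nat_lit 7) (nat_lit 0x10000800050003c0002000000000000000000000000000) (nat_lit 0x0) (nat_lit 0x800070002e00020000c00000030000000000000000000000000000) := T_48 (nat_lit 178) (nat_lit 161) (nat_lit 4) (nat_lit 8) (nat_lit 10) L121768 (by decide +kernel)
theorem L121770 : W_48 (nat_lit 2) (nat_lit 0x22001f000800054003c0012000000000000000000000000000) (nat_lit 0x0) (nat_lit 0xc000000020000000000000000000000000000000) := D_48 (nat_lit 159) (nat_lit 158) (nat_lit 125) (nat_lit 0) (nat_lit 9) (nat_lit 10) (nat_lit 6) (nat_lit 6) (nat_lit 10) (by decide +kernel)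
theorem L121771 : W_48 (nat_lit 3) (nat_lit 0x22001e000800054003c0012000000000000000000000000000) (nat_lit 0x0) (nat_lit 0x100010000c000000020000000000000000000000000000000) := T_48 (nat_lit 176) (nat_lit 192) (nat_lit 1) (nat_lit 9) (nat_lit 10) L121770 (by decide +kernel)
theorem L121772 : W_48 (nat_lit 4) (nat_lit 0x2001e000800054003c0012000000000000000000000000000) (nat_lit 0x0) (nat_lit 0x6100010000c000000020000000000000000000000000000000) := T_48 (nat_lit 197) (nat_lit 198) (nat_lit 3) (nat_lit 7) (nat_lit 10) L121771 (by decide +kernel)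
theorem L121773 : W_48 (nat_lit 5) (nat_lit 0x1e000800054003c0012000000000000000000000000000) (nat_lit 0x0) (nat_lit 0x6700010000c000000020000000000000000000000000000000) := T_48 (nat_lit 193) (nat_lit 194) (nat_lit 1) (nat_lit 10) (nat_lit 10) L121772 (by decide +kernel)
theorem L121774 : W_48 (nat_lit 6) (nat_lit 0x1c000800054003c0012000000000000000000000000000) (nat_lit 0x0) (nat_lit 0x6700030010c000000020000000000000000000000000000000) := T_48 (nat_lit 177) (nat_lit 164) (nat_lit 2) (nat_lit 7) (nat_lit 10) L121773 (by decide +kernel)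
theorem L121775 : W_48 (nat_lit 7) (nat_lit 0x14000800054003c0012000000000000000000000000000) (nat_lit 0x0) (nat_lit 0x77000b0010c000000020000000000000000000000000000000) := T_48 (nat_lit 179) (nat_lit 196) (nat_lit 5) (nat_lit 10) (nat_lit 7) L121774 (by decide +kernel)
theorem L121776 : W_48 (nat_lit 8) (nat_lit 0x14000800050003c0012000000000000000000000000000) (nat_lit 0x0) (nat_lit 0x77000b0010c000c00020000000000000000000000000000000) := T_48 (nat_lit 142) (nat_lit 143) (nat_lit 1) (nat_lit 10) (nat_lit 7) L121775 (by decide +kernel)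
theorem L121777 : W_48 (nat_lit 9) (nat_lit 0x14000800050003c0002000000000000000000000000000) (nat_lit 0x0) (nat_lit 0x77000b0010c000c00020030000000000000000000000000000) := T_48 (nat_lit 112) (nat_lit 113) (nat_lit 2) (nat_lit 7) (nat_lit 7) L121776 (by decide +kernel)
theorem L121778 : W_48 (nat_lit 10) (nat_lit 0x10000800050003c0002000000000000000000000000000) (nat_lit 0x0) (nat_lit 0x77000f0012c000c00020030000000000000000000000000000) := T_48 (nat_lit 178) (nat_lit 161) (nat_lit 4) (nat_lit 8) (nat_lit 10) L121777 (by decide +kernel)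
theorem L121779 : W_48 (nat_lit 2) (nat_lit 0x1c000800058003c0012000000000000000000000000000) (nat_lit 0x0) (nat_lit 0x2200100000000000000000000000000000000000000000) := D_48 (nat_lit 164) (nat_lit 177) (nat_lit 181) (nat_lit 2) (nat_lit 7) (nat_lit 10) (nat_lit 7) (nat_lit 10) (nat_lit 6) (by decide +kernel)
theorem L121780 : W_48 (nat_lit 3) (nat_lit 0x14000800058003c0012000000000000000000000000000) (nat_lit 0x0) (nat_lit 0x10002a00100000000000000000000000000000000000000000) := T_48 (nat_lit 179) (nat_lit 196) (nat_lit 5) (nat_lit 10) (nat_lit 7) L121779 (by decide +kernel)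
theorem L121781 : W_48 (nat_lit 4) (nat_lit 0x14000800058003c0002000000000000000000000000000) (nat_lit 0x0) (nat_lit 0x10002a00100000000000030000000000000000000000000000) := T_48 (nat_lit 112) (nat_lit 113) (nat_lit 2) (nat_lit 7) (nat_lit 7) L121780 (by decide +kernel)
theorem L121782 : W_48 (nat_lit 5) (nat_lit 0x10000800058003c0002000000000000000000000000000) (nat_lit 0x0) (nat_lit 0x10002e00120000000000030000000000000000000000000000) := T_48 (nat_lit 178) (nat_lit 161) (nat_lit 4) (nat_lit 8) (nat_lit 10) L121781 (by decide +kernel)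
theorem L121783 : W_48 (nat_lit 6) (nat_lit 0x10000800050003c0002000000000000000000000000000) (nat_lit 0x0) (nat_lit 0x10002e00120000c00000030000000000000000000000000000) := T_48 (nat_lit 143) (nat_lit 142) (nat_lit 1) (nat_lit 10) (nat_lit 7) L121782 (by decide +kernel)
theorem L121784 : W_48 (nat_lit 11) (nat_lit 0x800050003c0002000000000000000000000000000) (nat_lit 0x0) (nat_lit 0x800077003f0032c000c00020030000000000000000000000000000) := Q_48 (nat_lit 180) (C_48 L121755 (C_48 L121758 (C_48 L121763 (C_48 L121769 (C_48 L121778 (C_48 L121783 N_48)))))) (by decide +kernel)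
theorem L121785 : W_48 (nat_lit 2) (nat_lit 0x8000e00058003c0002000000000000000000000000000) (nat_lit 0x0) (nat_lit 0x200010001000000000000000000000000000000000000000000000) := D_48 (nat_lit 196) (nat_lit 213) (nat_lit 180) (nat_lit 6) (nat_lit 9) (nat_lit 12) (nat_lit 5) (nat_lit 10) (nat_lit 7) (by decide +kernel)
theorem L121786 : W_48 (nat_lit 3) (nat_lit 0xe00058003c0002000000000000000000000000000) (nat_lit 0x0) (nat_lit 0x200010001800000000000000004000000000000000000000000000) := T_48 (nat_lit 179) (nat_lit 110) (nat_lit 7) (nat_lit 8) (nat_lit 6) L121785 (by decide +kernel)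
theorem L121787 : W_48 (nat_lit 4) (nat_lit 0xa00058003c0002000000000000000000000000000) (nat_lit 0x0) (nat_lit 0x200010001800140000000000004000000000000000000000000000) := T_48 (nat_lit 162) (nat_lit 164) (nat_lit 0) (nat_lit 11) (nat_lit 9) L121786 (by decide +kernel)
theorem L121788 : W_48 (nat_lit 5) (nat_lit 0xa00050003c0002000000000000000000000000000) (nat_lit 0x0) (nat_lit 0x200010001800140000c00000004000000000000000000000000000) := T_48 (nat_lit 143) (nat_lit 142) (nat_lit 1) (nat_lit 10) (nat_lit 7) L121787 (by decide +kernel)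
theorem L121789 : W_48 (nat_lit 6) (nat_lit 0x800050003c0002000000000000000000000000000) (nat_lit 0x0) (nat_lit 0x200010001c00160000c00000004000000000000000000000000000) := T_48 (nat_lit 161) (nat_lit 178) (nat_lit 4) (nat_lit 8) (nat_lit 10) L121788 (by decide +kernel)
theorem L121790 : W_48 (nat_lit 2) (nat_lit 0x28000800058003c0012000000000000000000000000000) (nat_lit 0x0) (nat_lit 0x50001000000000000000000000000000000000000000000000) := D_48 (nat_lit 180) (nat_lit 196) (nat_lit 198) (nat_lit 5) (nat_lit 10) (nat_lit 7) (nat_lit 7) (nat_lit 10) (nat_lit 7) (by decide +kernel)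
theorem L121791 : W_48 (nat_lit 3) (nat_lit 0x8000800058003c0012000000000000000000000000000) (nat_lit 0x0) (nat_lit 0x50003000100000000000000000000000000000000000000000) := T_48 (nat_lit 181) (nat_lit 164) (nat_lit 7) (nat_lit 10) (nat_lit 6) L121790 (by decide +kernel)
theorem L121792 : W_48 (nat_lit 4) (nat_lit 0x800058003c0012000000000000000000000000000) (nat_lit 0x0) (nat_lit 0x50003800140000000000000000000000000000000000000000) := T_48 (nat_lit 179) (nat_lit 162) (nat_lit 5) (nat_lit 10) (nat_lit 6) L121791 (by decide +kernel)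
theorem L121793 : W_48 (nat_lit 5) (nat_lit 0x800058003c0002000000000000000000000000000) (nat_lit 0x0) (nat_lit 0x50003800140000000000030000000000000000000000000000) := T_48 (nat_lit 112) (nat_lit 113) (nat_lit 2) (nat_lit 7) (nat_lit 7) L121792 (by decide +kernel)
theorem L121794 : W_48 (nat_lit 6) (nat_lit 0x800050003c0002000000000000000000000000000) (nat_lit 0x0) (nat_lit 0x50003800140000c00000030000000000000000000000000000) := T_48 (nat_lit 143) (nat_lit 142) (nat_lit 1) (nat_lit 10) (nat_lit 7) L121793 (by decide +kernel)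
theorem L121795 : W_48 (nat_lit 2) (nat_lit 0x1a00050003c0012000000000000000000000000000) (nat_lit 0x0) (nat_lit 0x40000c00000000000000000000000000000000000) := D_48 (nat_lit 143) (nat_lit 162) (nat_lit 142) (nat_lit 0) (nat_lit 11) (nat_lit 9) (nat_lit 1) (nat_lit 10) (nat_lit 7) (by decide +kernel)
theorem L121796 : W_48 (nat_lit 3) (nat_lit 0xa00050003c0012000000000000000000000000000) (nat_lit 0x0) (nat_lit 0x2000140000c00000000000000000000000000000000000) := T_48 (nat_lit 164) (nat_lit 181) (nat_lit 7) (nat_lit 10) (nat_lit 6) L121795 (by decide +kernel)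
theorem L121797 : W_48 (nat_lit 4) (nat_lit 0x800050003c0012000000000000000000000000000) (nat_lit 0x0) (nat_lit 0x2400160000c00000000000000000000000000000000000) := T_48 (nat_lit 161) (nat_lit 178) (nat_lit 4) (nat_lit 8) (nat_lit 10) L121796 (by decide +kernel)
theorem L121798 : W_48 (nat_lit 5) (nat_lit 0x800050003c0002000000000000000000000000000) (nat_lit 0x0) (nat_lit 0x2400160000c00000030000000000000000000000000000) := T_48 (nat_lit 112) (nat_lit 113) (nat_lit 2) (nat_lit 7) (nat_lit 7) L121797 (by decide +kernel)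
theorem L121799 : W_48 (nat_lit 4) (nat_lit 0xc000800058003c0012000000000000000000000000000) (nat_lit 0x0) (nat_lit 0x800070003200000000000000000000000000000000000000000000) := T_48 (nat_lit 180) (nat_lit 196) (nat_lit 5) (nat_lit 10) (nat_lit 7) L121765 (by decide +kernel)
theorem L121800 : W_48 (nat_lit 5) (nat_lit 0x4000800058003c0012000000000000000000000000000) (nat_lit 0x0) (nat_lit 0x800070003a00040000000000000000000000000000000000000000) := T_48 (nat_lit 179) (nat_lit 162) (nat_lit 5) (nat_lit 10) (nat_lit 6) L121799 (by decide +kernel)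
theorem L121801 : W_48 (nat_lit 6) (nat_lit 0x4000800058003c0002000000000000000000000000000) (nat_lit 0x0) (nat_lit 0x800070003a00040000000000030000000000000000000000000000) := T_48 (nat_lit 112) (nat_lit 113) (nat_lit 2) (nat_lit 7) (nat_lit 7) L121800 (by decide +kernel)
theorem L121802 : W_48 (nat_lit 7) (nat_lit 0x800058003c0002000000000000000000000000000) (nat_lit 0x0) (nat_lit 0x800070003e00060000000000030000000000000000000000000000) := T_48 (nat_lit 178) (nat_lit 161) (nat_lit 4) (nat_lit 8) (nat_lit 10) L121801 (by decide +kernel)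
theorem L121803 : W_48 (nat_lit 8) (nat_lit 0x800050003c0002000000000000000000000000000) (nat_lit 0x0) (nat_lit 0x800070003e00060000c00000030000000000000000000000000000) := T_48 (nat_lit 143) (nat_lit 142) (nat_lit 1) (nat_lit 10) (nat_lit 7) L121802 (by decide +kernel)
theorem L121804 : W_48 (nat_lit 12) (nat_lit 0x50003c0002000000000000000000000000000) (nat_lit 0x0) (nat_lit 0xa00077003f003ec000c00020034000000000000000000000000000) := Q_48 (nat_lit 163) (C_48 L121747 (C_48 L121752 (C_48 L121784 (C_48 L121789 (C_48 L121794 (C_48 L121798 (C_48 L121803 N_48))))))) (by decide +kernel)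
theorem L121805 : W_48 (nat_lit 13) (nat_lit 0x10003c0002000000000000000000000000000) (nat_lit 0x0) (nat_lit 0xa00077003f003ec00cc00020034000000000000000000000000000) := T_48 (nat_lit 146) (nat_lit 147) (nat_lit 3) (nat_lit 7) (nat_lit 7) L121804 (by decide +kernel)
theorem L121806 : W_48 (nat_lit 16) (nat_lit 0x10003c0000000000000000000000000000000) (nat_lit 0x0) (nat_lit 0xa00077003f003ec00cf00038036c01fe00fe007f002f0000000000) := Q_48 (nat_lit 109) (C_48 L121340 (C_48 L121298 (C_48 L121638 (C_48 L121743 (C_48 L121805 N_48))))) (by decide +kernel)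
theorem L121807 : W_48 (nat_lit 17) (nat_lit 0x1000380000000000000000000000000000000) (nat_lit 0x0) (nat_lit 0xa00077003f003ec00cf80078037c01fe00fe007f002f0000000000) := Q_48 (nat_lit 126) (C_48 L121341 (C_48 L121299 (C_48 L121313 (C_48 L121806 N_48)))) (by decide +kernel)
theorem L121808 : W_48 (nat_lit 5) (nat_lit 0x1000380000000000000000000000000000000) (nat_lit 0x0) (nat_lit 0x1c800440007000000000000000000000000000) := T_48 (nat_lit 130) (nat_lit 143) (nat_lit 1) (nat_lit 11) (nat_lit 7) L121635 (by decide +kernel)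
theorem L121809 : W_48 (nat_lit 18) (nat_lit 0x1000180000000000000000000000000000000) (nat_lit 0x0) (nat_lit 0xa00077003f003ec03cf80e780f7c01fe00fe007f002f0000000000) := Q_48 (nat_lit 129) (C_48 L121288 (C_48 L121636 (C_48 L117567 (C_48 L121807 (C_48 L121808 N_48))))) (by decide +kernel)
theorem L121810 : W_48 (nat_lit 8) (nat_lit 0x400000001000380008000000000000000000000000000) (nat_lit 0x0) (nat_lit 0xfc803c00390000400020000000000000000000) := T_48 (nat_lit 130) (nat_lit 143) (nat_lit 1) (nat_lit 11) (nat_lit 7) L120892 (by decide +kernel)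
theorem L121811 : W_48 (nat_lit 9) (nat_lit 0x1000380008000000000000000000000000000) (nat_lit 0x0) (nat_lit 0x4000200fc803c00390000400020000000000000000000) := T_48 (nat_lit 178) (nat_lit 161) (nat_lit 6) (nat_lit 8) (nat_lit 10) L121810 (by decide +kernel)
theorem L121812 : W_48 (nat_lit 12) (nat_lit 0x1000180008000000000000000000000000000) (nat_lit 0x0) (nat_lit 0x14001a00fc803e603f0007c000e0007000000000000000) := Q_48 (nat_lit 129) (C_48 L117378 (C_48 L120868 (C_48 L117383 (C_48 L117445 (C_48 L117423 (C_48 L121811 (C_48 L117438 N_48))))))) (by decide +kernel)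
theorem L121813 : W_48 (nat_lit 14) (nat_lit 0x1000180000000000000000000000000000000) (nat_lit 0x0) (nat_lit 0x3c001e00fcc03e603fc007f000f8007c00000000000000) := Q_48 (nat_lit 111) (C_48 L117303 (C_48 L117463 (C_48 L117305 (C_48 L117454 (C_48 L121812 N_48))))) (by decide +kernel)
theorem L121814 : W_48 (nat_lit 8) (nat_lit 0x1000380000000000000000000000000000000) (nat_lit 0x0) (nat_lit 0x40002000cf8007803fc00100008000000000000000000) := Q_48 (nat_lit 126) (C_48 L121341 (C_48 L121299 (C_48 L121313 (C_48 L121272 N_48)))) (by decide +kernel)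
theorem L121815 : W_48 (nat_lit 9) (nat_lit 0x1000180000000000000000000000000000000) (nat_lit 0x0) (nat_lit 0x4000a003cf80e780ffc01100088000000000000000000) := Q_48 (nat_lit 129) (C_48 L121808 (C_48 L121636 (C_48 L117567 (C_48 L121814 (C_48 L121288 N_48))))) (by decide +kernel)
theorem L121822 : W_48 (nat_lit 2) (nat_lit 0xd000780020000000000000000000000000000) (nat_lit 0x0) (nat_lit 0x80000000000000001000080000000000000000000) := D_48 (nat_lit 96) (nat_lit 79) (nat_lit 163) (nat_lit 5) (nat_lit 11) (nat_lit 4) (nat_lit 5) (nat_lit 11) (nat_lit 5) (by decide +kernel)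
theorem L121823 : W_48 (nat_lit 3) (nat_lit 0x9000780020000000000000000000000000000) (nat_lit 0x0) (nat_lit 0x80004000040000001000080000000000000000000) := T_48 (nat_lit 146) (nat_lit 126) (nat_lit 3) (nat_lit 7) (nat_lit 7) L121822 (by decide +kernel)
theorem L121824 : W_48 (nat_lit 4) (nat_lit 0x1000780020000000000000000000000000000) (nat_lit 0x0) (nat_lit 0x8001c000040000001000080000000000000000000) := T_48 (nat_lit 147) (nat_lit 148) (nat_lit 3) (nat_lit 8) (nat_lit 7) L121823 (by decide +kernel)
theorem L121825 : W_48 (nat_lit 5) (nat_lit 0x1000380020000000000000000000000000000) (nat_lit 0x0) (nat_lit 0x8001c000440040001000080000000000000000000) := T_48 (nat_lit 130) (nat_lit 114) (nat_lit 2) (nat_lit 8) (nat_lit 7) L121824 (by decide +kernel)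
theorem L121826 : W_48 (nat_lit 2) (nat_lit 0x1000380060000000000000000000000000000) (nat_lit 0x0) (nat_lit 0x98000000000000000000000000000) := D_48 (nat_lit 112) (nat_lit 115) (nat_lit 111) (nat_lit 1) (nat_lit 13) (nat_lit 6) (nat_lit 1) (nat_lit 12) (nat_lit 6) (by decide +kernel)
theorem L121827 : W_48 (nat_lit 3) (nat_lit 0x1000380020000000000000000000000000000) (nat_lit 0x0) (nat_lit 0x4000d8000000000000000000000000000) := T_48 (nat_lit 114) (nat_lit 130) (nat_lit 2) (nat_lit 8) (nat_lit 7) L121826 (by decide +kernel)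
theorem L121828 : W_48 (nat_lit 2) (nat_lit 0x1000380030000000000000000000000000000) (nat_lit 0x0) (nat_lit 0xc8000000000000000000000000000) := D_48 (nat_lit 114) (nat_lit 115) (nat_lit 111) (nat_lit 1) (nat_lit 13) (nat_lit 6) (nat_lit 1) (nat_lit 12) (nat_lit 6) (by decide +kernel)
theorem L121829 : W_48 (nat_lit 3) (nat_lit 0x1000380020000000000000000000000000000) (nat_lit 0x0) (nat_lit 0x400d8000000000000000000000000000) := T_48 (nat_lit 112) (nat_lit 126) (nat_lit 2) (nat_lit 7) (nat_lit 7) L121828 (by decide +kernel)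
theorem L121830 : W_48 (nat_lit 2) (nat_lit 0x5000380020000000000000000000000000000) (nat_lit 0x0) (nat_lit 0x8000040010000000000000000000000000000) := D_48 (nat_lit 126) (nat_lit 112) (nat_lit 147) (nat_lit 2) (nat_lit 7) (nat_lit 7) (nat_lit 3) (nat_lit 7) (nat_lit 7) (by decide +kernel)
theorem L121831 : W_48 (nat_lit 2) (nat_lit 0xd000380020000000000000000000000000000) (nat_lit 0x0) (nat_lit 0x30000400000000000000000000000000000000) := D_48 (nat_lit 148) (nat_lit 149) (nat_lit 130) (nat_lit 0) (nat_lit 13) (nat_lit 8) (nat_lit 3) (nat_lit 8) (nat_lit 7) (by decide +kernel)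
theorem L121832 : W_48 (nat_lit 3) (nat_lit 0x5000380020000000000000000000000000000) (nat_lit 0x0) (nat_lit 0x38000440000000000000000000000000000000) := T_48 (nat_lit 147) (nat_lit 126) (nat_lit 3) (nat_lit 7) (nat_lit 7) L121831 (by decide +kernel)
theorem L121833 : W_48 (nat_lit 2) (nat_lit 0x80005000380020000000000000000000000000000) (nat_lit 0x0) (nat_lit 0x1000000000000400008000000000000000000000000000) := D_48 (nat_lit 180) (nat_lit 111) (nat_lit 130) (nat_lit 4) (nat_lit 10) (nat_lit 10) (nat_lit 6) (nat_lit 10) (nat_lit 10) (by decide +kernel)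
theorem L121834 : W_48 (nat_lit 2) (nat_lit 0x1800080005000380020000000000000000000000000000) (nat_lit 0x0) (nat_lit 0x40000000000010001000000000000000000000000) := D_48 (nat_lit 112) (nat_lit 162) (nat_lit 96) (nat_lit 5) (nat_lit 10) (nat_lit 6) (nat_lit 6) (nat_lit 10) (nat_lit 9) (by decide +kernel)
theorem L121835 : W_48 (nat_lit 3) (nat_lit 0x1000080005000380020000000000000000000000000000) (nat_lit 0x0) (nat_lit 0x10000800040000000000010001000000000000000000000000) := T_48 (nat_lit 179) (nat_lit 196) (nat_lit 5) (nat_lit 10) (nat_lit 7) L121834 (by decide +kernel)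
theorem L121836 : W_48 (nat_lit 4) (nat_lit 0x80005000380020000000000000000000000000000) (nat_lit 0x0) (nat_lit 0x10001800040000000400010001000000000000000000000000) := T_48 (nat_lit 180) (nat_lit 130) (nat_lit 6) (nat_lit 10) (nat_lit 10) L121835 (by decide +kernel)
theorem L121837 : W_48 (nat_lit 4) (nat_lit 0x80005000380020000000000000000000000000000) (nat_lit 0x0) (nat_lit 0x10001800040000000000018001000000000000000000000000) := T_48 (nat_lit 180) (nat_lit 111) (nat_lit 4) (nat_lit 10) (nat_lit 10) L121835 (by decide +kernel)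
theorem L121838 : W_48 (nat_lit 2) (nat_lit 0x1c0005000380030000800000000000000000000000) (nat_lit 0x0) (nat_lit 0x8000400020000000000000000000) := D_48 (nat_lit 94) (nat_lit 77) (nat_lit 111) (nat_lit 4) (nat_lit 10) (nat_lit 8) (nat_lit 4) (nat_lit 10) (nat_lit 9) (by decide +kernel)
theorem L121839 : W_48 (nat_lit 3) (nat_lit 0x1c0005000380030000000000000000000000000000) (nat_lit 0x0) (nat_lit 0x8000000008000c00020000000000000000000) := T_48 (nat_lit 95) (nat_lit 147) (nat_lit 7) (nat_lit 10) (nat_lit 5) L121838 (by decide +kernel)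
theorem L121840 : W_48 (nat_lit 4) (nat_lit 0xc0005000380030000000000000000000000000000) (nat_lit 0x0) (nat_lit 0x2000100008000000008000c00020000000000000000000) := T_48 (nat_lit 164) (nat_lit 181) (nat_lit 7) (nat_lit 10) (nat_lit 6) L121839 (by decide +kernel)
theorem L121841 : W_48 (nat_lit 5) (nat_lit 0x80005000380030000000000000000000000000000) (nat_lit 0x0) (nat_lit 0x2800140008000000008000c00020000000000000000000) := T_48 (nat_lit 162) (nat_lit 179) (nat_lit 5) (nat_lit 10) (nat_lit 6) L121840 (by decide +kernel)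
theorem L121842 : W_48 (nat_lit 6) (nat_lit 0x80005000380020000000000000000000000000000) (nat_lit 0x0) (nat_lit 0x2800140008000000018001c00020000000000000000000) := T_48 (nat_lit 112) (nat_lit 96) (nat_lit 6) (nat_lit 10) (nat_lit 9) L121841 (by decide +kernel)
theorem L121843 : W_48 (nat_lit 7) (nat_lit 0x5000380020000000000000000000000000000) (nat_lit 0x0) (nat_lit 0x100038001c0008000400018001c00020000000000000000000) := Q_48 (nat_lit 163) (C_48 L121833 (C_48 L121836 (C_48 L121837 (C_48 L121842 N_48)))) (by decide +kernel)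
theorem L121844 : W_48 (nat_lit 2) (nat_lit 0x80005000380030000000000000000000000000000) (nat_lit 0x0) (nat_lit 0x1000000000000000008000400000000000000000000000) := D_48 (nat_lit 111) (nat_lit 94) (nat_lit 180) (nat_lit 4) (nat_lit 10) (nat_lit 9) (nat_lit 4) (nat_lit 10) (nat_lit 10) (by decide +kernel)
theorem L121845 : W_48 (nat_lit 3) (nat_lit 0x5000380030000000000000000000000000000) (nat_lit 0x0) (nat_lit 0x1000080000000000008001400000000000000000000000) := T_48 (nat_lit 163) (nat_lit 96) (nat_lit 6) (nat_lit 10) (nat_lit 9) L121844 (by decide +kernel)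
theorem L121846 : W_48 (nat_lit 4) (nat_lit 0x5000380020000000000000000000000000000) (nat_lit 0x0) (nat_lit 0x1000080000000040018001400000000000000000000000) := T_48 (nat_lit 112) (nat_lit 126) (nat_lit 2) (nat_lit 7) (nat_lit 7) L121845 (by decide +kernel)
theorem L121847 : W_48 (nat_lit 8) (nat_lit 0x1000380020000000000000000000000000000) (nat_lit 0x0) (nat_lit 0x100038001c003c000440018001c00020000000000000000000) := Q_48 (nat_lit 146) (C_48 L121830 (C_48 L121832 (C_48 L121843 (C_48 L121846 N_48)))) (by decide +kernel)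
theorem L121848 : W_48 (nat_lit 9) (nat_lit 0x1000380000000000000000000000000000000) (nat_lit 0x0) (nat_lit 0x100038001c003c0004400f8001c000a0000000000000000000) := Q_48 (nat_lit 113) (C_48 L121825 (C_48 L121827 (C_48 L121829 (C_48 L121847 N_48)))) (by decide +kernel)
theorem L121849 : W_48 (nat_lit 8) (nat_lit 0x1000380000000000000000000000000000000) (nat_lit 0x0) (nat_lit 0x10000a000cf0007003bc00500008000000000000000000) := Q_48 (nat_lit 126) (C_48 L121341 (C_48 L121821 (C_48 L121272 (C_48 L121269 N_48)))) (by decide +kernel)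
theorem L121850 : W_48 (nat_lit 2) (nat_lit 0x1800380000000000000000000000000000000) (nat_lit 0x0) (nat_lit 0x600040000000000000000000000000000000) := D_48 (nat_lit 142) (nat_lit 126) (nat_lit 141) (nat_lit 1) (nat_lit 10) (nat_lit 7) (nat_lit 2) (nat_lit 5) (nat_lit 8) (by decide +kernel)
theorem L121851 : W_48 (nat_lit 3) (nat_lit 0x1000380000000000000000000000000000000) (nat_lit 0x0) (nat_lit 0xe00440000000000000000000000000000000) := T_48 (nat_lit 143) (nat_lit 130) (nat_lit 1) (nat_lit 11) (nat_lit 7) L121850 (by decide +kernel)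
theorem L121852 : W_48 (nat_lit 10) (nat_lit 0x1000180000000000000000000000000000000) (nat_lit 0x0) (nat_lit 0x100038001e003cf00e700fbc01d000a8000000000000000000) := Q_48 (nat_lit 129) (C_48 L117567 (C_48 L121848 (C_48 L121849 (C_48 L121851 N_48)))) (by decide +kernel)
theorem L121853 : W_48 (nat_lit 2) (nat_lit 0x400000001000780008000000000000000000000000000) (nat_lit 0x0) (nat_lit 0x800006000000000000000000000000000) := D_48 (nat_lit 110) (nat_lit 131) (nat_lit 109) (nat_lit 0) (nat_lit 12) (nat_lit 7) (nat_lit 0) (nat_lit 11) (nat_lit 7) (by decide +kernel)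
theorem L121854 : W_48 (nat_lit 3) (nat_lit 0x400000001000380008000000000000000000000000000) (nat_lit 0x0) (nat_lit 0x800c00006000000000000000000000000000) := T_48 (nat_lit 130) (nat_lit 143) (nat_lit 1) (nat_lit 11) (nat_lit 7) L121853 (by decide +kernel)
theorem L121855 : W_48 (nat_lit 4) (nat_lit 0x1000380008000000000000000000000000000) (nat_lit 0x0) (nat_lit 0x400020000800c00006000000000000000000000000000) := T_48 (nat_lit 178) (nat_lit 161) (nat_lit 6) (nat_lit 8) (nat_lit 10) L121854 (by decide +kernel)
theorem L121856 : W_48 (nat_lit 2) (nat_lit 0x1000780008000000000000000000000000000) (nat_lit 0x0) (nat_lit 0x800006000000000000000000000000000) := D_48 (nat_lit 110) (nat_lit 109) (nat_lit 131) (nat_lit 0) (nat_lit 11) (nat_lit 7) (nat_lit 0) (nat_lit 12) (nat_lit 7) (by decide +kernel)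
theorem L121857 : W_48 (nat_lit 9) (nat_lit 0x1000380008000000000000000000000000000) (nat_lit 0x0) (nat_lit 0x240012003c001c40076003b000c0004000000000000000) := Q_48 (nat_lit 130) (C_48 L121856 (C_48 L120886 (C_48 L117514 N_48))) (by decide +kernel)
theorem L121858 : W_48 (nat_lit 3) (nat_lit 0x1000380008000000000000000000000000000) (nat_lit 0x0) (nat_lit 0x800c00006000000000000000000000000000) := T_48 (nat_lit 130) (nat_lit 143) (nat_lit 1) (nat_lit 11) (nat_lit 7) L121856 (by decide +kernel)
theorem L121859 : W_48 (nat_lit 2) (nat_lit 0x10003c0008000000000000000000000000000) (nat_lit 0x0) (nat_lit 0x20030000000000000000000000000000) := D_48 (nat_lit 112) (nat_lit 125) (nat_lit 113) (nat_lit 2) (nat_lit 6) (nat_lit 7) (nat_lit 2) (nat_lit 7) (nat_lit 7) (by decide +kernel)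
theorem L121860 : W_48 (nat_lit 2) (nat_lit 0x14000000058003e0009000000000000000000000000000) (nat_lit 0x0) (nat_lit 0x18004000000000000000000000000000) := D_48 (nat_lit 124) (nat_lit 110) (nat_lit 123) (nat_lit 2) (nat_lit 5) (nat_lit 7) (nat_lit 3) (nat_lit 4) (nat_lit 7) (by decide +kernel)
theorem L121861 : W_48 (nat_lit 3) (nat_lit 0x14000000058003c0009000000000000000000000000000) (nat_lit 0x0) (nat_lit 0x38004800000000000000000000000000) := T_48 (nat_lit 125) (nat_lit 107) (nat_lit 0) (nat_lit 9) (nat_lit 7) L121860 (by decide +kernel)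
theorem L121862 : W_48 (nat_lit 4) (nat_lit 0x14000000058003c0008000000000000000000000000000) (nat_lit 0x0) (nat_lit 0x38007800000000000000000000000000) := T_48 (nat_lit 108) (nat_lit 109) (nat_lit 0) (nat_lit 10) (nat_lit 7) L121861 (by decide +kernel)
theorem L121863 : W_48 (nat_lit 5) (nat_lit 0x14000000050003c0008000000000000000000000000000) (nat_lit 0x0) (nat_lit 0xc00038007800000000000000000000000000) := T_48 (nat_lit 143) (nat_lit 142) (nat_lit 1) (nat_lit 10) (nat_lit 7) L121862 (by decide +kernel)
theorem L121864 : W_48 (nat_lit 6) (nat_lit 0x4000000050003c0008000000000000000000000000000) (nat_lit 0x0) (nat_lit 0x1000080000c00038007800000000000000000000000000) := T_48 (nat_lit 180) (nat_lit 163) (nat_lit 4) (nat_lit 10) (nat_lit 10) L121863 (by decide +kernel)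
theorem L121865 : W_48 (nat_lit 7) (nat_lit 0x50003c0008000000000000000000000000000) (nat_lit 0x0) (nat_lit 0x14000a0000c00038007800000000000000000000000000) := T_48 (nat_lit 178) (nat_lit 161) (nat_lit 6) (nat_lit 8) (nat_lit 10) L121864 (by decide +kernel)
theorem L121866 : W_48 (nat_lit 8) (nat_lit 0x10003c0008000000000000000000000000000) (nat_lit 0x0) (nat_lit 0x14000a000cc00038007800000000000000000000000000) := T_48 (nat_lit 146) (nat_lit 147) (nat_lit 3) (nat_lit 7) (nat_lit 7) L121865 (by decide +kernel)
theorem L121867 : W_48 (nat_lit 9) (nat_lit 0x1000380008000000000000000000000000000) (nat_lit 0x0) (nat_lit 0x34001e000cc00078037800000000000000000000000000) := Q_48 (nat_lit 126) (C_48 L121235 (C_48 L121859 (C_48 L121866 N_48))) (by decide +kernel)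
theorem L121868 : W_48 (nat_lit 10) (nat_lit 0x1000180008000000000000000000000000000) (nat_lit 0x0) (nat_lit 0x34001e003cc01e78077803b000c0004000000000000000) := Q_48 (nat_lit 129) (C_48 L121855 (C_48 L121857 (C_48 L117383 (C_48 L121858 (C_48 L121867 N_48))))) (by decide +kernel)
theorem L121869 : W_48 (nat_lit 13) (nat_lit 0x1000180000000000000000000000000000000) (nat_lit 0x0) (nat_lit 0x34001e00fcc03e783ff807f000e0007000000000000000) := Q_48 (nat_lit 111) (C_48 L121868 (C_48 L117305 (C_48 L117454 (C_48 L121812 N_48)))) (by decide +kernel)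
theorem L121870 : W_48 (nat_lit 10) (nat_lit 0x1000380000000000000000000000000000000) (nat_lit 0x0) (nat_lit 0x100008000cf8007803fc0078001c000000000000000000) := Q_48 (nat_lit 126) (C_48 L121313 (C_48 L121821 (C_48 L121244 (C_48 L121272 (C_48 L121269 N_48))))) (by decide +kernel)
theorem L121871 : W_48 (nat_lit 11) (nat_lit 0x1000180000000000000000000000000000000) (nat_lit 0x0) (nat_lit 0x100038001c003cf80e780ffc01f800bc000000000000000000) := Q_48 (nat_lit 129) (C_48 L121851 (C_48 L121848 (C_48 L117567 (C_48 L121870 N_48)))) (by decide +kernel)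
theorem L121872 : W_48 (nat_lit 2) (nat_lit 0x14000000051003f0009000000000000000000000000000) (nat_lit 0x0) (nat_lit 0x880008000000000000000000000000000000) := D_48 (nat_lit 123) (nat_lit 139) (nat_lit 143) (nat_lit 1) (nat_lit 7) (nat_lit 7) (nat_lit 3) (nat_lit 4) (nat_lit 7) (by decide +kernel)
theorem L121873 : W_48 (nat_lit 3) (nat_lit 0x14000000050003f0009000000000000000000000000000) (nat_lit 0x0) (nat_lit 0xb80008000000000000000000000000000000) := T_48 (nat_lit 140) (nat_lit 141) (nat_lit 1) (nat_lit 8) (nat_lit 7) L121872 (by decide +kernel)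
theorem L121874 : W_48 (nat_lit 4) (nat_lit 0x14000000050003e0009000000000000000000000000000) (nat_lit 0x0) (nat_lit 0xb80018004000000000000000000000000000) := T_48 (nat_lit 124) (nat_lit 110) (nat_lit 2) (nat_lit 5) (nat_lit 7) L121873 (by decide +kernel)
theorem L121875 : W_48 (nat_lit 5) (nat_lit 0x14000000050003c0009000000000000000000000000000) (nat_lit 0x0) (nat_lit 0xb80038004800000000000000000000000000) := T_48 (nat_lit 125) (nat_lit 107) (nat_lit 0) (nat_lit 9) (nat_lit 7) L121874 (by decide +kernel)
theorem L121876 : W_48 (nat_lit 6) (nat_lit 0x4000000050003c0009000000000000000000000000000) (nat_lit 0x0) (nat_lit 0x1000080000b80038004800000000000000000000000000) := T_48 (nat_lit 180) (nat_lit 163) (nat_lit 4) (nat_lit 10) (nat_lit 10) L121875 (by decide +kernel)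
theorem L121877 : W_48 (nat_lit 7) (nat_lit 0x4000000050003c0008000000000000000000000000000) (nat_lit 0x0) (nat_lit 0x1000080000b80038007800000000000000000000000000) := T_48 (nat_lit 108) (nat_lit 109) (nat_lit 0) (nat_lit 10) (nat_lit 7) L121876 (by decide +kernel)
theorem L121878 : W_48 (nat_lit 8) (nat_lit 0x4000000010003c0008000000000000000000000000000) (nat_lit 0x0) (nat_lit 0x100008000cb80038007800000000000000000000000000) := T_48 (nat_lit 146) (nat_lit 147) (nat_lit 3) (nat_lit 7) (nat_lit 7) L121877 (by decide +kernel)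
theorem L121879 : W_48 (nat_lit 9) (nat_lit 0x10003c0008000000000000000000000000000) (nat_lit 0x0) (nat_lit 0x14000a000cb80038007800000000000000000000000000) := T_48 (nat_lit 178) (nat_lit 161) (nat_lit 6) (nat_lit 8) (nat_lit 10) L121878 (by decide +kernel)
theorem L121880 : W_48 (nat_lit 10) (nat_lit 0x1000380008000000000000000000000000000) (nat_lit 0x0) (nat_lit 0x14000a000cb80078037800100008000000000000000000) := Q_48 (nat_lit 126) (C_48 L121859 (C_48 L120794 (C_48 L121879 N_48))) (by decide +kernel)
theorem L121881 : W_48 (nat_lit 11) (nat_lit 0x1000180008000000000000000000000000000) (nat_lit 0x0) (nat_lit 0x34001a003cb81e78077803b000c8004000000000000000) := Q_48 (nat_lit 129) (C_48 L121858 (C_48 L121857 (C_48 L117383 (C_48 L121880 N_48)))) (by decide +kernel)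
theorem L121882 : W_48 (nat_lit 13) (nat_lit 0x1000180000000000000000000000000000000) (nat_lit 0x0) (nat_lit 0x3c001e00fcb83e783ff807fc00e8007400000000000000) := Q_48 (nat_lit 111) (C_48 L121881 (C_48 L120764 (C_48 L121812 (C_48 L117305 (C_48 L117454 N_48))))) (by decide +kernel)
theorem L121883 : W_48 (nat_lit 2) (nat_lit 0x10003c0008000000000000000000000000000) (nat_lit 0x0) (nat_lit 0xc00400000000000000000000000000000000) := D_48 (nat_lit 143) (nat_lit 142) (nat_lit 130) (nat_lit 1) (nat_lit 10) (nat_lit 7) (nat_lit 1) (nat_lit 11) (nat_lit 7) (by decide +kernel)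
theorem L121884 : W_48 (nat_lit 2) (nat_lit 0x4000000058003c001a000100000000000000000000000) (nat_lit 0x0) (nat_lit 0x4000080004000000000000000000) := D_48 (nat_lit 91) (nat_lit 110) (nat_lit 74) (nat_lit 0) (nat_lit 10) (nat_lit 6) (nat_lit 4) (nat_lit 7) (nat_lit 8) (by decide +kernel)
theorem L121885 : W_48 (nat_lit 3) (nat_lit 0x4000000058003c001a000000000000000000000000000) (nat_lit 0x0) (nat_lit 0x400018000c000000000000000000) := T_48 (nat_lit 92) (nat_lit 75) (nat_lit 7) (nat_lit 7) (nat_lit 4) L121884 (by decide +kernel)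
theorem L121886 : W_48 (nat_lit 4) (nat_lit 0x4000000058003c0018000000000000000000000000000) (nat_lit 0x0) (nat_lit 0x700018000c000000000000000000) := T_48 (nat_lit 109) (nat_lit 108) (nat_lit 0) (nat_lit 10) (nat_lit 7) L121885 (by decide +kernel)
theorem L121887 : W_48 (nat_lit 5) (nat_lit 0x4000000050003c0018000000000000000000000000000) (nat_lit 0x0) (nat_lit 0xc0000000700018000c000000000000000000) := T_48 (nat_lit 143) (nat_lit 142) (nat_lit 1) (nat_lit 10) (nat_lit 7) L121886 (by decide +kernel)
theorem L121888 : W_48 (nat_lit 6) (nat_lit 0x50003c0018000000000000000000000000000) (nat_lit 0x0) (nat_lit 0x400020000c0000000700018000c000000000000000000) := T_48 (nat_lit 178) (nat_lit 161) (nat_lit 6) (nat_lit 8) (nat_lit 10) L121887 (by decide +kernel)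
theorem L121889 : W_48 (nat_lit 7) (nat_lit 0x50003c0008000000000000000000000000000) (nat_lit 0x0) (nat_lit 0x400020000c0000003700018000c000000000000000000) := T_48 (nat_lit 112) (nat_lit 113) (nat_lit 2) (nat_lit 7) (nat_lit 7) L121888 (by decide +kernel)
theorem L121890 : W_48 (nat_lit 8) (nat_lit 0x10003c0008000000000000000000000000000) (nat_lit 0x0) (nat_lit 0x40002000cc0000003700018000c000000000000000000) := T_48 (nat_lit 146) (nat_lit 147) (nat_lit 3) (nat_lit 7) (nat_lit 7) L121889 (by decide +kernel)
theorem L121891 : W_48 (nat_lit 9) (nat_lit 0x10001c0008000000000000000000000000000) (nat_lit 0x0) (nat_lit 0x40002000cc0060003700018000c000000000000000000) := Q_48 (nat_lit 129) (C_48 L120798 (C_48 L121883 (C_48 L121890 N_48))) (by decide +kernel)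
theorem L121892 : W_48 (nat_lit 10) (nat_lit 0x1000180008000000000000000000000000000) (nat_lit 0x0) (nat_lit 0x40002801cf00670037c0018000c000000000000000000) := Q_48 (nat_lit 126) (C_48 L120820 (C_48 L120814 (C_48 L120773 (C_48 L121891 N_48)))) (by decide +kernel)
theorem L121893 : W_48 (nat_lit 2) (nat_lit 0x18001c0008000000000000000000000000000) (nat_lit 0x0) (nat_lit 0x400600000000000000000000000000000000) := D_48 (nat_lit 129) (nat_lit 142) (nat_lit 130) (nat_lit 1) (nat_lit 10) (nat_lit 7) (nat_lit 1) (nat_lit 11) (nat_lit 7) (by decide +kernel)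
theorem L121894 : W_48 (nat_lit 2) (nat_lit 0x50000d001c001e8009000180020000000000000000000) (nat_lit 0x0) (nat_lit 0x4000a00000000000000000000000000000000000000000000) := D_48 (nat_lit 177) (nat_lit 179) (nat_lit 194) (nat_lit 0) (nat_lit 9) (nat_lit 10) (nat_lit 7) (nat_lit 6) (nat_lit 7) (by decide +kernel)
theorem L121895 : W_48 (nat_lit 3) (nat_lit 0x40000d001c001e8009000180020000000000000000000) (nat_lit 0x0) (nat_lit 0x6000b00000000000000000000000000000000000000000000) := T_48 (nat_lit 176) (nat_lit 193) (nat_lit 6) (nat_lit 6) (nat_lit 11) L121894 (by decide +kernel)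
theorem L121896 : W_48 (nat_lit 4) (nat_lit 0x40000c001c001e8009000180020000000000000000000) (nat_lit 0x0) (nat_lit 0x6000b00003000000000000000000000000000000000000000) := T_48 (nat_lit 156) (nat_lit 157) (nat_lit 2) (nat_lit 3) (nat_lit 9) L121895 (by decide +kernel)
theorem L121897 : W_48 (nat_lit 5) (nat_lit 0x400008001c001e8009000180020000000000000000000) (nat_lit 0x0) (nat_lit 0x6000b80007000000000000000000000000000000000000000) := T_48 (nat_lit 158) (nat_lit 175) (nat_lit 5) (nat_lit 6) (nat_lit 6) L121896 (by decide +kernel)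
theorem L121898 : W_48 (nat_lit 6) (nat_lit 0x400000001c001e8009000180020000000000000000000) (nat_lit 0x0) (nat_lit 0x6000b8000f000000000002000000000000000000000000000) := T_48 (nat_lit 159) (nat_lit 109) (nat_lit 6) (nat_lit 6) (nat_lit 9) L121897 (by decide +kernel)
theorem L121899 : W_48 (nat_lit 7) (nat_lit 0x400000001c001e8009000080020000000000000000000) (nat_lit 0x0) (nat_lit 0x6000b8000f000000000002000100008000000000000000000) := T_48 (nat_lit 92) (nat_lit 75) (nat_lit 6) (nat_lit 6) (nat_lit 8) L121898 (by decide +kernel)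
theorem L121900 : W_48 (nat_lit 8) (nat_lit 0x400000001c001e8009000000020000000000000000000) (nat_lit 0x0) (nat_lit 0x6000b8000f00000000000200018000c000000000000000000) := T_48 (nat_lit 91) (nat_lit 74) (nat_lit 7) (nat_lit 6) (nat_lit 4) L121899 (by decide +kernel)
theorem L121901 : W_48 (nat_lit 9) (nat_lit 0x400000001c001e8009000000000000000000000000000) (nat_lit 0x0) (nat_lit 0x6000b8000f00000000000200058002c000000000000000000) := T_48 (nat_lit 77) (nat_lit 94) (nat_lit 5) (nat_lit 9) (nat_lit 4) L121900 (by decide +kernel)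
theorem L121902 : W_48 (nat_lit 10) (nat_lit 0x400000001c001e8008000000000000000000000000000) (nat_lit 0x0) (nat_lit 0x6000b8000f00000000000380058002c000000000000000000) := T_48 (nat_lit 108) (nat_lit 107) (nat_lit 0) (nat_lit 9) (nat_lit 7) L121901 (by decide +kernel)
theorem L121903 : W_48 (nat_lit 11) (nat_lit 0x4000000018001e8008000000000000000000000000000) (nat_lit 0x0) (nat_lit 0x6000b8000f00060000000380058002c000000000000000000) := T_48 (nat_lit 142) (nat_lit 141) (nat_lit 2) (nat_lit 5) (nat_lit 8) L121902 (by decide +kernel)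
theorem L121904 : W_48 (nat_lit 12) (nat_lit 0x4000000018001e0008000000000000000000000000000) (nat_lit 0x0) (nat_lit 0x6000b8000f00060001800380058002c000000000000000000) := T_48 (nat_lit 123) (nat_lit 124) (nat_lit 3) (nat_lit 4) (nat_lit 7) L121903 (by decide +kernel)
theorem L121905 : W_48 (nat_lit 13) (nat_lit 0x18001e0008000000000000000000000000000) (nat_lit 0x0) (nat_lit 0x6000f8002f00060001800380058002c000000000000000000) := T_48 (nat_lit 178) (nat_lit 161) (nat_lit 6) (nat_lit 8) (nat_lit 10) L121904 (by decide +kernel)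
theorem L121906 : W_48 (nat_lit 2) (nat_lit 0x4000000018001f0009000000004000000000000000000) (nat_lit 0x0) (nat_lit 0x700000000000000000000000000000000000) := D_48 (nat_lit 141) (nat_lit 142) (nat_lit 140) (nat_lit 2) (nat_lit 5) (nat_lit 8) (nat_lit 1) (nat_lit 8) (nat_lit 7) (by decide +kernel)
theorem L121907 : W_48 (nat_lit 3) (nat_lit 0x4000000018001e0009000000004000000000000000000) (nat_lit 0x0) (nat_lit 0x700018000000000000000000000000000000) := T_48 (nat_lit 124) (nat_lit 123) (nat_lit 3) (nat_lit 4) (nat_lit 7) L121906 (by decide +kernel)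
theorem L121908 : W_48 (nat_lit 4) (nat_lit 0x4000000018001e0009000000000000000000000000000) (nat_lit 0x0) (nat_lit 0x700018000000080004000000000000000000) := T_48 (nat_lit 74) (nat_lit 91) (nat_lit 7) (nat_lit 6) (nat_lit 4) L121907 (by decide +kernel)
theorem L121909 : W_48 (nat_lit 5) (nat_lit 0x18001e0009000000000000000000000000000) (nat_lit 0x0) (nat_lit 0x400020000700018000000080004000000000000000000) := T_48 (nat_lit 178) (nat_lit 161) (nat_lit 6) (nat_lit 8) (nat_lit 10) L121908 (by decide +kernel)
theorem L121910 : W_48 (nat_lit 6) (nat_lit 0x18001e0008000000000000000000000000000) (nat_lit 0x0) (nat_lit 0x400020000700018001800080004000000000000000000) := T_48 (nat_lit 108) (nat_lit 107) (nat_lit 0) (nat_lit 9) (nat_lit 7) L121909 (by decide +kernel)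
theorem L121911 : W_48 (nat_lit 2) (nat_lit 0x1c001e80090001c0020000000000000000000) (nat_lit 0x0) (nat_lit 0x28000000000002000000000000000000000000000) := D_48 (nat_lit 109) (nat_lit 159) (nat_lit 161) (nat_lit 6) (nat_lit 6) (nat_lit 9) (nat_lit 7) (nat_lit 7) (nat_lit 5) (by decide +kernel)
theorem L121912 : W_48 (nat_lit 3) (nat_lit 0x1c001e80090000c0020000000000000000000) (nat_lit 0x0) (nat_lit 0x28000000000002000100008000000000000000000) := T_48 (nat_lit 92) (nat_lit 75) (nat_lit 6) (nat_lit 6) (nat_lit 8) L121911 (by decide +kernel)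
theorem L121913 : W_48 (nat_lit 4) (nat_lit 0x1c001e8009000080020000000000000000000) (nat_lit 0x0) (nat_lit 0x2800000000000200014000a000000000000000000) := T_48 (nat_lit 90) (nat_lit 73) (nat_lit 4) (nat_lit 6) (nat_lit 8) L121912 (by decide +kernel)
theorem L121914 : W_48 (nat_lit 5) (nat_lit 0x1c001e0009000080020000000000000000000) (nat_lit 0x0) (nat_lit 0x2800000001800200014000a000000000000000000) := T_48 (nat_lit 123) (nat_lit 124) (nat_lit 3) (nat_lit 4) (nat_lit 7) L121913 (by decide +kernel)
theorem L121915 : W_48 (nat_lit 6) (nat_lit 0x1c001e0009000000020000000000000000000) (nat_lit 0x0) (nat_lit 0x280000000180020001c000e000000000000000000) := T_48 (nat_lit 91) (nat_lit 74) (nat_lit 7) (nat_lit 6) (nat_lit 4) L121914 (by decide +kernel)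
theorem L121916 : W_48 (nat_lit 7) (nat_lit 0x1c001e0009000000000000000000000000000) (nat_lit 0x0) (nat_lit 0x280000000180020005c002e000000000000000000) := T_48 (nat_lit 77) (nat_lit 94) (nat_lit 5) (nat_lit 9) (nat_lit 4) L121915 (by decide +kernel)
theorem L121917 : W_48 (nat_lit 8) (nat_lit 0x1c001e0008000000000000000000000000000) (nat_lit 0x0) (nat_lit 0x280000000180038005c002e000000000000000000) := T_48 (nat_lit 108) (nat_lit 107) (nat_lit 0) (nat_lit 9) (nat_lit 7) L121916 (by decide +kernel)
theorem L121918 : W_48 (nat_lit 9) (nat_lit 0x18001e0008000000000000000000000000000) (nat_lit 0x0) (nat_lit 0x280006000180038005c002e000000000000000000) := T_48 (nat_lit 142) (nat_lit 141) (nat_lit 2) (nat_lit 5) (nat_lit 8) L121917 (by decide +kernel)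
theorem L121919 : W_48 (nat_lit 2) (nat_lit 0x18001f0008000000000000000000000000000) (nat_lit 0x0) (nat_lit 0x700000000000000000000000000000000000) := D_48 (nat_lit 141) (nat_lit 142) (nat_lit 140) (nat_lit 2) (nat_lit 5) (nat_lit 8) (nat_lit 1) (nat_lit 8) (nat_lit 7) (by decide +kernel)
theorem L121920 : W_48 (nat_lit 3) (nat_lit 0x18001e0008000000000000000000000000000) (nat_lit 0x0) (nat_lit 0x700018000000000000000000000000000000) := T_48 (nat_lit 124) (nat_lit 123) (nat_lit 3) (nat_lit 4) (nat_lit 7) L121919 (by decide +kernel)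
theorem L121921 : W_48 (nat_lit 2) (nat_lit 0x18001f0008000000000000000000000000000) (nat_lit 0x0) (nat_lit 0x1c00000000000000000000000000) := D_48 (nat_lit 107) (nat_lit 108) (nat_lit 106) (nat_lit 0) (nat_lit 9) (nat_lit 7) (nat_lit 0) (nat_lit 8) (nat_lit 7) (by decide +kernel)
theorem L121922 : W_48 (nat_lit 3) (nat_lit 0x18001e0008000000000000000000000000000) (nat_lit 0x0) (nat_lit 0x18001c00000000000000000000000000) := T_48 (nat_lit 124) (nat_lit 123) (nat_lit 3) (nat_lit 4) (nat_lit 7) L121921 (by decide +kernel)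
theorem L121923 : W_48 (nat_lit 2) (nat_lit 0x50000d001c001e0009000180020000000000000000000) (nat_lit 0x0) (nat_lit 0x4000a00000000000000000000000000000000000000000000) := D_48 (nat_lit 177) (nat_lit 179) (nat_lit 194) (nat_lit 0) (nat_lit 9) (nat_lit 10) (nat_lit 7) (nat_lit 6) (nat_lit 7) (by decide +kernel)
theorem L121924 : W_48 (nat_lit 3) (nat_lit 0x40000d001c001e0009000180020000000000000000000) (nat_lit 0x0) (nat_lit 0x6000b00000000000000000000000000000000000000000000) := T_48 (nat_lit 176) (nat_lit 193) (nat_lit 6) (nat_lit 6) (nat_lit 11) L121923 (by decide +kernel)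
theorem L121925 : W_48 (nat_lit 4) (nat_lit 0x40000c001c001e0009000180020000000000000000000) (nat_lit 0x0) (nat_lit 0x6000b00003000000000000000000000000000000000000000) := T_48 (nat_lit 156) (nat_lit 157) (nat_lit 2) (nat_lit 3) (nat_lit 9) L121924 (by decide +kernel)
theorem L121926 : W_48 (nat_lit 5) (nat_lit 0x400008001c001e0009000180020000000000000000000) (nat_lit 0x0) (nat_lit 0x6000b80007000000000000000000000000000000000000000) := T_48 (nat_lit 158) (nat_lit 175) (nat_lit 5) (nat_lit 6) (nat_lit 6) L121925 (by decide +kernel)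
theorem L121927 : W_48 (nat_lit 6) (nat_lit 0x400000001c001e0009000180020000000000000000000) (nat_lit 0x0) (nat_lit 0x6000b8000f000000000002000000000000000000000000000) := T_48 (nat_lit 159) (nat_lit 109) (nat_lit 6) (nat_lit 6) (nat_lit 9) L121926 (by decide +kernel)
theorem L121928 : W_48 (nat_lit 7) (nat_lit 0x400000001c001e0009000080020000000000000000000) (nat_lit 0x0) (nat_lit 0x6000b8000f000000000002000100008000000000000000000) := T_48 (nat_lit 92) (nat_lit 75) (nat_lit 6) (nat_lit 6) (nat_lit 8) L121927 (by decide +kernel)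
theorem L121929 : W_48 (nat_lit 8) (nat_lit 0x400000001c001e0009000000020000000000000000000) (nat_lit 0x0) (nat_lit 0x6000b8000f00000000000200018000c000000000000000000) := T_48 (nat_lit 91) (nat_lit 74) (nat_lit 7) (nat_lit 6) (nat_lit 4) L121928 (by decide +kernel)
theorem L121930 : W_48 (nat_lit 9) (nat_lit 0x400000001c001e0008000000020000000000000000000) (nat_lit 0x0) (nat_lit 0x6000b8000f00000000000380018000c000000000000000000) := T_48 (nat_lit 108) (nat_lit 107) (nat_lit 0) (nat_lit 9) (nat_lit 7) L121929 (by decide +kernel)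
theorem L121931 : W_48 (nat_lit 10) (nat_lit 0x1c001e0008000000020000000000000000000) (nat_lit 0x0) (nat_lit 0x6000f8002f00000000000380018000c000000000000000000) := T_48 (nat_lit 178) (nat_lit 161) (nat_lit 6) (nat_lit 8) (nat_lit 10) L121930 (by decide +kernel)
theorem L121932 : W_48 (nat_lit 11) (nat_lit 0x18001e0008000000020000000000000000000) (nat_lit 0x0) (nat_lit 0x6000f8002f00060000000380018000c000000000000000000) := T_48 (nat_lit 142) (nat_lit 141) (nat_lit 2) (nat_lit 5) (nat_lit 8) L121931 (by decide +kernel)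
theorem L121933 : W_48 (nat_lit 12) (nat_lit 0x18001e0008000000000000000000000000000) (nat_lit 0x0) (nat_lit 0x6000f8002f00060000000380058002c000000000000000000) := T_48 (nat_lit 77) (nat_lit 94) (nat_lit 5) (nat_lit 9) (nat_lit 4) L121932 (by decide +kernel)
theorem L121934 : W_48 (nat_lit 14) (nat_lit 0x18001c0008000000000000000000000000000) (nat_lit 0x0) (nat_lit 0x6000f8002f000700038003c005c002e000000000000000000) := Q_48 (nat_lit 125) (C_48 L121905 (C_48 L121910 (C_48 L121918 (C_48 L121920 (C_48 L121922 (C_48 L121933 N_48)))))) (by decide +kernel)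
theorem L121935 : W_48 (nat_lit 2) (nat_lit 0x58003c000a000000020000000000000000000) (nat_lit 0x0) (nat_lit 0x400020000000000000000100000000000000000000000) := D_48 (nat_lit 161) (nat_lit 178) (nat_lit 92) (nat_lit 6) (nat_lit 8) (nat_lit 10) (nat_lit 7) (nat_lit 7) (nat_lit 5) (by decide +kernel)
theorem L121936 : W_48 (nat_lit 3) (nat_lit 0x58003c0008000000020000000000000000000) (nat_lit 0x0) (nat_lit 0x400020000000000003000100000000000000000000000) := T_48 (nat_lit 109) (nat_lit 108) (nat_lit 0) (nat_lit 10) (nat_lit 7) L121935 (by decide +kernel)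
theorem L121937 : W_48 (nat_lit 4) (nat_lit 0x18003c0008000000020000000000000000000) (nat_lit 0x0) (nat_lit 0x40002000c000000003000100000000000000000000000) := T_48 (nat_lit 146) (nat_lit 147) (nat_lit 3) (nat_lit 7) (nat_lit 7) L121936 (by decide +kernel)
theorem L121938 : W_48 (nat_lit 5) (nat_lit 0x18003c0008000000000000000000000000000) (nat_lit 0x0) (nat_lit 0x40002000c000000003000500020000000000000000000) := T_48 (nat_lit 77) (nat_lit 94) (nat_lit 5) (nat_lit 9) (nat_lit 4) L121937 (by decide +kernel)
theorem L121939 : W_48 (nat_lit 6) (nat_lit 0x18001c0008000000000000000000000000000) (nat_lit 0x0) (nat_lit 0x40002000c000600003000500020000000000000000000) := T_48 (nat_lit 129) (nat_lit 130) (nat_lit 1) (nat_lit 11) (nat_lit 7) L121938 (by decide +kernel)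
theorem L121940 : W_48 (nat_lit 15) (nat_lit 0x10001c0008000000000000000000000000000) (nat_lit 0x0) (nat_lit 0x6000f8002f00cf00638003c005c002e000000000000000000) := Q_48 (nat_lit 143) (C_48 L121893 (C_48 L121934 (C_48 L121939 N_48))) (by decide +kernel)
theorem L121941 : W_48 (nat_lit 2) (nat_lit 0x4000000058003c001a000500000000000000000000000) (nat_lit 0x0) (nat_lit 0x280010000000000000000000) := D_48 (nat_lit 93) (nat_lit 76) (nat_lit 91) (nat_lit 6) (nat_lit 7) (nat_lit 8) (nat_lit 3) (nat_lit 6) (nat_lit 5) (by decide +kernel)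
theorem L121942 : W_48 (nat_lit 3) (nat_lit 0x4000000058003c001a000400000000000000000000000) (nat_lit 0x0) (nat_lit 0x380018000000000000000000) := T_48 (nat_lit 92) (nat_lit 75) (nat_lit 7) (nat_lit 7) (nat_lit 4) L121941 (by decide +kernel)
theorem L121943 : W_48 (nat_lit 4) (nat_lit 0x4000000058003c001a000000000000000000000000000) (nat_lit 0x0) (nat_lit 0x780038000000000000000000) := T_48 (nat_lit 94) (nat_lit 77) (nat_lit 7) (nat_lit 9) (nat_lit 4) L121942 (by decide +kernel)
theorem L121944 : W_48 (nat_lit 5) (nat_lit 0x4000000058003c0018000000000000000000000000000) (nat_lit 0x0) (nat_lit 0x3000780038000000000000000000) := T_48 (nat_lit 109) (nat_lit 108) (nat_lit 0) (nat_lit 10) (nat_lit 7) L121943 (by decide +kernel)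
theorem L121945 : W_48 (nat_lit 6) (nat_lit 0x4000000018003c0018000000000000000000000000000) (nat_lit 0x0) (nat_lit 0xc000000003000780038000000000000000000) := T_48 (nat_lit 146) (nat_lit 147) (nat_lit 3) (nat_lit 7) (nat_lit 7) L121944 (by decide +kernel)
theorem L121946 : W_48 (nat_lit 7) (nat_lit 0x4000000018003c0008000000000000000000000000000) (nat_lit 0x0) (nat_lit 0xc000000033000780038000000000000000000) := T_48 (nat_lit 112) (nat_lit 113) (nat_lit 2) (nat_lit 7) (nat_lit 7) L121945 (by decide +kernel)
theorem L121947 : W_48 (nat_lit 8) (nat_lit 0x4000000010003c0008000000000000000000000000000) (nat_lit 0x0) (nat_lit 0xcc00000033000780038000000000000000000) := T_48 (nat_lit 143) (nat_lit 142) (nat_lit 1) (nat_lit 10) (nat_lit 7) L121946 (by decide +kernel)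
theorem L121948 : W_48 (nat_lit 9) (nat_lit 0x10003c0008000000000000000000000000000) (nat_lit 0x0) (nat_lit 0x40002000cc00000033000780038000000000000000000) := T_48 (nat_lit 178) (nat_lit 161) (nat_lit 6) (nat_lit 8) (nat_lit 10) L121947 (by decide +kernel)
theorem L121949 : W_48 (nat_lit 10) (nat_lit 0x10001c0008000000000000000000000000000) (nat_lit 0x0) (nat_lit 0x40002001cc00600073000780038000000000000000000) := Q_48 (nat_lit 129) (C_48 L120836 (C_48 L121883 (C_48 L121948 N_48))) (by decide +kernel)
theorem L121950 : W_48 (nat_lit 2) (nat_lit 0x4000000012001f0008400000020000000000000000000) (nat_lit 0x0) (nat_lit 0x800008000200000000000000000000000000) := D_48 (nat_lit 123) (nat_lit 143) (nat_lit 105) (nat_lit 3) (nat_lit 4) (nat_lit 7) (nat_lit 0) (nat_lit 7) (nat_lit 7) (by decide +kernel)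
theorem L121951 : W_48 (nat_lit 3) (nat_lit 0x4000000012001f0008000000020000000000000000000) (nat_lit 0x0) (nat_lit 0x800008000e00000000000000000000000000) := T_48 (nat_lit 106) (nat_lit 107) (nat_lit 0) (nat_lit 8) (nat_lit 7) L121950 (by decide +kernel)
theorem L121952 : W_48 (nat_lit 4) (nat_lit 0x4000000012001e0008000000020000000000000000000) (nat_lit 0x0) (nat_lit 0x900018000e00000000000000000000000000) := T_48 (nat_lit 124) (nat_lit 140) (nat_lit 1) (nat_lit 8) (nat_lit 7) L121951 (by decide +kernel)
theorem L121953 : W_48 (nat_lit 5) (nat_lit 0x4000000012001e0008000000000000000000000000000) (nat_lit 0x0) (nat_lit 0x900018000e00400020000000000000000000) := T_48 (nat_lit 77) (nat_lit 94) (nat_lit 5) (nat_lit 9) (nat_lit 4) L121952 (by decide +kernel)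
theorem L121954 : W_48 (nat_lit 6) (nat_lit 0x4000000010001e0008000000000000000000000000000) (nat_lit 0x0) (nat_lit 0xf00018000e00400020000000000000000000) := T_48 (nat_lit 141) (nat_lit 142) (nat_lit 1) (nat_lit 9) (nat_lit 7) L121953 (by decide +kernel)
theorem L121955 : W_48 (nat_lit 7) (nat_lit 0x4000000010001c0008000000000000000000000000000) (nat_lit 0x0) (nat_lit 0xf00038010e00400020000000000000000000) := T_48 (nat_lit 125) (nat_lit 112) (nat_lit 2) (nat_lit 6) (nat_lit 7) L121954 (by decide +kernel)
theorem L121956 : W_48 (nat_lit 8) (nat_lit 0x10001c0008000000000000000000000000000) (nat_lit 0x0) (nat_lit 0x400020000f00038010e00400020000000000000000000) := T_48 (nat_lit 178) (nat_lit 161) (nat_lit 6) (nat_lit 8) (nat_lit 10) L121955 (by decide +kernel)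
theorem L121957 : W_48 (nat_lit 2) (nat_lit 0x4000000010007e0009000000020000000000000000000) (nat_lit 0x0) (nat_lit 0x1c000000000000000000000000000000000000) := D_48 (nat_lit 147) (nat_lit 146) (nat_lit 148) (nat_lit 3) (nat_lit 7) (nat_lit 7) (nat_lit 3) (nat_lit 8) (nat_lit 7) (by decide +kernel)
theorem L121958 : W_48 (nat_lit 3) (nat_lit 0x4000000010003e0009000000020000000000000000000) (nat_lit 0x0) (nat_lit 0x1c800400000000000000000000000000000000) := T_48 (nat_lit 130) (nat_lit 143) (nat_lit 1) (nat_lit 11) (nat_lit 7) L121957 (by decide +kernel)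
theorem L121959 : W_48 (nat_lit 4) (nat_lit 0x4000000010001e0009000000020000000000000000000) (nat_lit 0x0) (nat_lit 0x1c800600002000000000000000000000000000) := T_48 (nat_lit 129) (nat_lit 109) (nat_lit 0) (nat_lit 10) (nat_lit 7) L121958 (by decide +kernel)
theorem L121960 : W_48 (nat_lit 5) (nat_lit 0x4000000010001e0008000000020000000000000000000) (nat_lit 0x0) (nat_lit 0x1c800600003800000000000000000000000000) := T_48 (nat_lit 108) (nat_lit 107) (nat_lit 0) (nat_lit 9) (nat_lit 7) L121959 (by decide +kernel)
theorem L121961 : W_48 (nat_lit 6) (nat_lit 0x4000000010001c0008000000020000000000000000000) (nat_lit 0x0) (nat_lit 0x1c800620013800000000000000000000000000) := T_48 (nat_lit 125) (nat_lit 112) (nat_lit 2) (nat_lit 6) (nat_lit 7) L121960 (by decide +kernel)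
theorem L121962 : W_48 (nat_lit 7) (nat_lit 0x4000000010001c0008000000000000000000000000000) (nat_lit 0x0) (nat_lit 0x1c800620013800400020000000000000000000) := T_48 (nat_lit 77) (nat_lit 94) (nat_lit 5) (nat_lit 9) (nat_lit 4) L121961 (by decide +kernel)
theorem L121963 : W_48 (nat_lit 8) (nat_lit 0x10001c0008000000000000000000000000000) (nat_lit 0x0) (nat_lit 0x40002001c800620013800400020000000000000000000) := T_48 (nat_lit 178) (nat_lit 161) (nat_lit 6) (nat_lit 8) (nat_lit 10) L121962 (by decide +kernel)
theorem L121964 : W_48 (nat_lit 16) (nat_lit 0x1000180008000000000000000000000000000) (nat_lit 0x0) (nat_lit 0x6000f8002f01cf00678073e007c003e000000000000000000) := Q_48 (nat_lit 126) (C_48 L120831 (C_48 L121940 (C_48 L121949 (C_48 L121956 (C_48 L120820 (C_48 L121963 N_48)))))) (by decide +kernel)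
theorem L121965 : W_48 (nat_lit 7) (nat_lit 0x1000380008000000000000000000000000000) (nat_lit 0x0) (nat_lit 0x1c000c400778007c0038001c00000000000000) := Q_48 (nat_lit 110) (C_48 L121153 (C_48 L121133 (C_48 L121114 N_48))) (by decide +kernel)
theorem L121966 : W_48 (nat_lit 2) (nat_lit 0x58003c001a000100020000000000000000000) (nat_lit 0x0) (nat_lit 0x4000080004000000000000000000) := D_48 (nat_lit 91) (nat_lit 110) (nat_lit 74) (nat_lit 0) (nat_lit 10) (nat_lit 6) (nat_lit 4) (nat_lit 7) (nat_lit 8) (by decide +kernel)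
theorem L121967 : W_48 (nat_lit 3) (nat_lit 0x58003c001a000000020000000000000000000) (nat_lit 0x0) (nat_lit 0x400018000c000000000000000000) := T_48 (nat_lit 92) (nat_lit 75) (nat_lit 7) (nat_lit 7) (nat_lit 4) L121966 (by decide +kernel)
theorem L121968 : W_48 (nat_lit 4) (nat_lit 0x58003c0018000000020000000000000000000) (nat_lit 0x0) (nat_lit 0x700018000c000000000000000000) := T_48 (nat_lit 109) (nat_lit 108) (nat_lit 0) (nat_lit 10) (nat_lit 7) L121967 (by decide +kernel)
theorem L121969 : W_48 (nat_lit 5) (nat_lit 0x18003c0018000000020000000000000000000) (nat_lit 0x0) (nat_lit 0xc00000000700018000c000000000000000000) := T_48 (nat_lit 146) (nat_lit 147) (nat_lit 3) (nat_lit 7) (nat_lit 7) L121968 (by decide +kernel)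
theorem L121970 : W_48 (nat_lit 6) (nat_lit 0x10003c0018000000020000000000000000000) (nat_lit 0x0) (nat_lit 0xcc0000000700018000c000000000000000000) := T_48 (nat_lit 143) (nat_lit 142) (nat_lit 1) (nat_lit 10) (nat_lit 7) L121969 (by decide +kernel)
theorem L121971 : W_48 (nat_lit 7) (nat_lit 0x10003c0008000000020000000000000000000) (nat_lit 0x0) (nat_lit 0xcc0000003700018000c000000000000000000) := T_48 (nat_lit 112) (nat_lit 113) (nat_lit 2) (nat_lit 7) (nat_lit 7) L121970 (by decide +kernel)
theorem L121972 : W_48 (nat_lit 8) (nat_lit 0x10003c0008000000000000000000000000000) (nat_lit 0x0) (nat_lit 0xcc0000003700058002c000000000000000000) := T_48 (nat_lit 77) (nat_lit 94) (nat_lit 5) (nat_lit 9) (nat_lit 4) L121971 (by decide +kernel)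
theorem L121973 : W_48 (nat_lit 2) (nat_lit 0x58003c000a4003c0021000000000000000000) (nat_lit 0x0) (nat_lit 0x200020000800000000000000000) := D_48 (nat_lit 89) (nat_lit 105) (nat_lit 71) (nat_lit 1) (nat_lit 7) (nat_lit 5) (nat_lit 0) (nat_lit 7) (nat_lit 5) (by decide +kernel)
theorem L121974 : W_48 (nat_lit 3) (nat_lit 0x58003c000a4003c0020000000000000000000) (nat_lit 0x0) (nat_lit 0x200020003800000000000000000) := T_48 (nat_lit 72) (nat_lit 73) (nat_lit 0) (nat_lit 8) (nat_lit 5) L121973 (by decide +kernel)
theorem L121975 : W_48 (nat_lit 4) (nat_lit 0x58003c000a0003c0020000000000000000000) (nat_lit 0x0) (nat_lit 0xe00020003800000000000000000) := T_48 (nat_lit 106) (nat_lit 107) (nat_lit 1) (nat_lit 8) (nat_lit 5) L121974 (by decide +kernel)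
theorem L121976 : W_48 (nat_lit 5) (nat_lit 0x58003c000a000380020000000000000000000) (nat_lit 0x0) (nat_lit 0x4e00060003800000000000000000) := T_48 (nat_lit 90) (nat_lit 110) (nat_lit 3) (nat_lit 5) (nat_lit 5) L121975 (by decide +kernel)
theorem L121977 : W_48 (nat_lit 6) (nat_lit 0x58003c000a000180020000000000000000000) (nat_lit 0x0) (nat_lit 0x4e00260013800000000000000000) := T_48 (nat_lit 93) (nat_lit 76) (nat_lit 6) (nat_lit 7) (nat_lit 8) L121976 (by decide +kernel)
theorem L121978 : W_48 (nat_lit 7) (nat_lit 0x58003c000a000100020000000000000000000) (nat_lit 0x0) (nat_lit 0x4e002e0017800000000000000000) := T_48 (nat_lit 91) (nat_lit 74) (nat_lit 4) (nat_lit 7) (nat_lit 8) L121977 (by decide +kernel)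
theorem L121979 : W_48 (nat_lit 8) (nat_lit 0x18003c000a000100020000000000000000000) (nat_lit 0x0) (nat_lit 0xc000000004e002e0017800000000000000000) := T_48 (nat_lit 146) (nat_lit 147) (nat_lit 3) (nat_lit 7) (nat_lit 7) L121978 (by decide +kernel)
theorem L121980 : W_48 (nat_lit 9) (nat_lit 0x10003c000a000100020000000000000000000) (nat_lit 0x0) (nat_lit 0xcc00000004e002e0017800000000000000000) := T_48 (nat_lit 143) (nat_lit 142) (nat_lit 1) (nat_lit 10) (nat_lit 7) L121979 (by decide +kernel)
theorem L121981 : W_48 (nat_lit 10) (nat_lit 0x10003c000a000000020000000000000000000) (nat_lit 0x0) (nat_lit 0xcc00000004e003e001f800000000000000000) := T_48 (nat_lit 92) (nat_lit 75) (nat_lit 7) (nat_lit 7) (nat_lit 4) L121980 (by decide +kernel)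
theorem L121982 : W_48 (nat_lit 11) (nat_lit 0x10003c000a000000000000000000000000000) (nat_lit 0x0) (nat_lit 0xcc00000004e007e003f800000000000000000) := T_48 (nat_lit 77) (nat_lit 94) (nat_lit 5) (nat_lit 9) (nat_lit 4) L121981 (by decide +kernel)
theorem L121983 : W_48 (nat_lit 12) (nat_lit 0x10003c0008000000000000000000000000000) (nat_lit 0x0) (nat_lit 0xcc00000007e007e003f800000000000000000) := T_48 (nat_lit 109) (nat_lit 108) (nat_lit 0) (nat_lit 10) (nat_lit 7) L121982 (by decide +kernel)
theorem L121984 : W_48 (nat_lit 13) (nat_lit 0x1000380008000000000000000000000000000) (nat_lit 0x0) (nat_lit 0xcc00060037e007e003f800000000000000000) := Q_48 (nat_lit 126) (C_48 L121859 (C_48 L121972 (C_48 L121983 N_48))) (by decide +kernel)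
theorem L121985 : W_48 (nat_lit 14) (nat_lit 0x1000180008000000000000000000000000000) (nat_lit 0x0) (nat_lit 0x1cf00e70077e007e003f801c00000000000000) := Q_48 (nat_lit 129) (C_48 L121858 (C_48 L121965 (C_48 L117401 (C_48 L121984 N_48)))) (by decide +kernel)
theorem L121986 : W_48 (nat_lit 17) (nat_lit 0x1000180000000000000000000000000000000) (nat_lit 0x0) (nat_lit 0x6000f8006f01cf00e7807fe03fe003f801c00000000000000) := Q_48 (nat_lit 111) (C_48 L121892 (C_48 L120764 (C_48 L117305 (C_48 L121964 (C_48 L121985 N_48))))) (by decide +kernel)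
theorem L121987 : W_48 (nat_lit 2) (nat_lit 0x14000000058003c000a000380000000000000000000000) (nat_lit 0x0) (nat_lit 0x14000040000000000000000000000) := D_48 (nat_lit 110) (nat_lit 90) (nat_lit 112) (nat_lit 3) (nat_lit 5) (nat_lit 5) (nat_lit 0) (nat_lit 10) (nat_lit 6) (by decide +kernel)
theorem L121988 : W_48 (nat_lit 3) (nat_lit 0x14000000058003c000a000300000000000000000000000) (nat_lit 0x0) (nat_lit 0x140000c0004000000000000000000) := T_48 (nat_lit 91) (nat_lit 74) (nat_lit 4) (nat_lit 7) (nat_lit 8) L121987 (by decide +kernel)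
theorem L121989 : W_48 (nat_lit 4) (nat_lit 0x14000000058003c000a000100000000000000000000000) (nat_lit 0x0) (nat_lit 0x140002c0014000000000000000000) := T_48 (nat_lit 93) (nat_lit 76) (nat_lit 6) (nat_lit 7) (nat_lit 8) L121988 (by decide +kernel)
theorem L121990 : W_48 (nat_lit 5) (nat_lit 0x14000000058003c000a000000000000000000000000000) (nat_lit 0x0) (nat_lit 0x140003c001c000000000000000000) := T_48 (nat_lit 92) (nat_lit 75) (nat_lit 7) (nat_lit 7) (nat_lit 4) L121989 (by decide +kernel)
theorem L121991 : W_48 (nat_lit 6) (nat_lit 0x4000000058003c000a000000000000000000000000000) (nat_lit 0x0) (nat_lit 0x10000800000000000140003c001c000000000000000000) := T_48 (nat_lit 180) (nat_lit 163) (nat_lit 4) (nat_lit 10) (nat_lit 10) L121990 (by decide +kernel)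
theorem L121992 : W_48 (nat_lit 7) (nat_lit 0x4000000058003c0008000000000000000000000000000) (nat_lit 0x0) (nat_lit 0x10000800000000000170003c001c000000000000000000) := T_48 (nat_lit 109) (nat_lit 108) (nat_lit 0) (nat_lit 10) (nat_lit 7) L121991 (by decide +kernel)
theorem L121993 : W_48 (nat_lit 8) (nat_lit 0x4000000018003c0008000000000000000000000000000) (nat_lit 0x0) (nat_lit 0x100008000c0000000170003c001c000000000000000000) := T_48 (nat_lit 146) (nat_lit 147) (nat_lit 3) (nat_lit 7) (nat_lit 7) L121992 (by decide +kernel)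
theorem L121994 : W_48 (nat_lit 9) (nat_lit 0x4000000010003c0008000000000000000000000000000) (nat_lit 0x0) (nat_lit 0x100008000cc000000170003c001c000000000000000000) := T_48 (nat_lit 143) (nat_lit 142) (nat_lit 1) (nat_lit 10) (nat_lit 7) L121993 (by decide +kernel)
theorem L121995 : W_48 (nat_lit 10) (nat_lit 0x10003c0008000000000000000000000000000) (nat_lit 0x0) (nat_lit 0x14000a000cc000000170003c001c000000000000000000) := T_48 (nat_lit 178) (nat_lit 161) (nat_lit 6) (nat_lit 8) (nat_lit 10) L121994 (by decide +kernel)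
theorem L121996 : W_48 (nat_lit 11) (nat_lit 0x10001c0008000000000000000000000000000) (nat_lit 0x0) (nat_lit 0x14000a001cc006000170003c001c000000000000000000) := Q_48 (nat_lit 129) (C_48 L120788 (C_48 L121883 (C_48 L121995 N_48))) (by decide +kernel)
theorem L121997 : W_48 (nat_lit 12) (nat_lit 0x1000180008000000000000000000000000000) (nat_lit 0x0) (nat_lit 0x14000a801cf00670017c003c001c000000000000000000) := Q_48 (nat_lit 126) (C_48 L120814 (C_48 L120820 (C_48 L120773 (C_48 L121996 N_48)))) (by decide +kernel)
theorem L121998 : W_48 (nat_lit 2) (nat_lit 0x100038000c000400000000000000000000000) (nat_lit 0x0) (nat_lit 0x400003000000000000000000000000000) := D_48 (nat_lit 109) (nat_lit 108) (nat_lit 130) (nat_lit 3) (nat_lit 6) (nat_lit 6) (nat_lit 0) (nat_lit 11) (nat_lit 7) (by decide +kernel)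
theorem L121999 : W_48 (nat_lit 3) (nat_lit 0x1000380008000400000000000000000000000) (nat_lit 0x0) (nat_lit 0x20000000400007000000000000000000000000000) := T_48 (nat_lit 110) (nat_lit 161) (nat_lit 6) (nat_lit 8) (nat_lit 9) L121998 (by decide +kernel)
theorem L122000 : W_48 (nat_lit 4) (nat_lit 0x1000380008000000000000000000000000000) (nat_lit 0x0) (nat_lit 0x20000000400007000400020000000000000000000) := T_48 (nat_lit 94) (nat_lit 77) (nat_lit 5) (nat_lit 9) (nat_lit 4) L121999 (by decide +kernel)
theorem L122001 : W_48 (nat_lit 2) (nat_lit 0x10003e0008000000020000000000000000000) (nat_lit 0x0) (nat_lit 0xe00000000000000000000000000000000000) := D_48 (nat_lit 142) (nat_lit 143) (nat_lit 141) (nat_lit 1) (nat_lit 10) (nat_lit 7) (nat_lit 1) (nat_lit 9) (nat_lit 7) (by decide +kernel)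
theorem L122002 : W_48 (nat_lit 3) (nat_lit 0x10003c0008000000020000000000000000000) (nat_lit 0x0) (nat_lit 0xe00020010000000000000000000000000000) := T_48 (nat_lit 125) (nat_lit 112) (nat_lit 2) (nat_lit 6) (nat_lit 7) L122001 (by decide +kernel)
theorem L122003 : W_48 (nat_lit 4) (nat_lit 0x10003c0008000000000000000000000000000) (nat_lit 0x0) (nat_lit 0xe00020010000400020000000000000000000) := T_48 (nat_lit 77) (nat_lit 94) (nat_lit 5) (nat_lit 9) (nat_lit 4) L122002 (by decide +kernel)
theorem L122004 : W_48 (nat_lit 2) (nat_lit 0x10000000050003e000a000000008000000000000000000) (nat_lit 0x0) (nat_lit 0xe00000000000000000000000000000000000) := D_48 (nat_lit 142) (nat_lit 143) (nat_lit 141) (nat_lit 1) (nat_lit 10) (nat_lit 7) (nat_lit 1) (nat_lit 9) (nat_lit 7) (by decide +kernel)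
theorem L122005 : W_48 (nat_lit 3) (nat_lit 0x10000000050003c000a000000008000000000000000000) (nat_lit 0x0) (nat_lit 0xe00020010000000000000000000000000000) := T_48 (nat_lit 125) (nat_lit 112) (nat_lit 2) (nat_lit 6) (nat_lit 7) L122004 (by decide +kernel)
theorem L122006 : W_48 (nat_lit 4) (nat_lit 0x10000000050003c000a000000000000000000000000000) (nat_lit 0x0) (nat_lit 0xe00020010000100008000000000000000000) := T_48 (nat_lit 75) (nat_lit 92) (nat_lit 7) (nat_lit 7) (nat_lit 4) L122005 (by decide +kernel)
theorem L122007 : W_48 (nat_lit 5) (nat_lit 0x50003c000a000000000000000000000000000) (nat_lit 0x0) (nat_lit 0x1000080000e00020010000100008000000000000000000) := T_48 (nat_lit 180) (nat_lit 163) (nat_lit 4) (nat_lit 10) (nat_lit 10) L122006 (by decide +kernel)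
theorem L122008 : W_48 (nat_lit 6) (nat_lit 0x50003c0008000000000000000000000000000) (nat_lit 0x0) (nat_lit 0x1000080000e00020013000100008000000000000000000) := T_48 (nat_lit 109) (nat_lit 108) (nat_lit 0) (nat_lit 10) (nat_lit 7) L122007 (by decide +kernel)
theorem L122009 : W_48 (nat_lit 7) (nat_lit 0x10003c0008000000000000000000000000000) (nat_lit 0x0) (nat_lit 0x100008000ce00020013000100008000000000000000000) := T_48 (nat_lit 146) (nat_lit 147) (nat_lit 3) (nat_lit 7) (nat_lit 7) L122008 (by decide +kernel)
theorem L122010 : W_48 (nat_lit 2) (nat_lit 0x10000000050003f800a000000028000000000000000000) (nat_lit 0x0) (nat_lit 0x380000000000000000000000000000000000) := D_48 (nat_lit 140) (nat_lit 139) (nat_lit 141) (nat_lit 1) (nat_lit 7) (nat_lit 7) (nat_lit 1) (nat_lit 8) (nat_lit 7) (by decide +kernel)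
theorem L122011 : W_48 (nat_lit 3) (nat_lit 0x10000000050003f000a000000028000000000000000000) (nat_lit 0x0) (nat_lit 0xb80008000000000000000000000000000000) := T_48 (nat_lit 123) (nat_lit 143) (nat_lit 3) (nat_lit 4) (nat_lit 7) L122010 (by decide +kernel)
theorem L122012 : W_48 (nat_lit 4) (nat_lit 0x10000000050003e000a000000028000000000000000000) (nat_lit 0x0) (nat_lit 0xb80018004000000000000000000000000000) := T_48 (nat_lit 124) (nat_lit 110) (nat_lit 2) (nat_lit 5) (nat_lit 7) L122011 (by decide +kernel)
theorem L122013 : W_48 (nat_lit 5) (nat_lit 0x10000000050003c000a000000028000000000000000000) (nat_lit 0x0) (nat_lit 0xb80038014000000000000000000000000000) := T_48 (nat_lit 125) (nat_lit 112) (nat_lit 2) (nat_lit 6) (nat_lit 7) L122012 (by decide +kernel)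
theorem L122014 : W_48 (nat_lit 6) (nat_lit 0x10000000050003c000a000000020000000000000000000) (nat_lit 0x0) (nat_lit 0xb80038014000100008000000000000000000) := T_48 (nat_lit 75) (nat_lit 92) (nat_lit 7) (nat_lit 7) (nat_lit 4) L122013 (by decide +kernel)
theorem L122015 : W_48 (nat_lit 7) (nat_lit 0x50003c000a000000020000000000000000000) (nat_lit 0x0) (nat_lit 0x1000080000b80038014000100008000000000000000000) := T_48 (nat_lit 180) (nat_lit 163) (nat_lit 4) (nat_lit 10) (nat_lit 10) L122014 (by decide +kernel)
theorem L122016 : W_48 (nat_lit 8) (nat_lit 0x50003c0008000000020000000000000000000) (nat_lit 0x0) (nat_lit 0x1000080000b80038017000100008000000000000000000) := T_48 (nat_lit 109) (nat_lit 108) (nat_lit 0) (nat_lit 10) (nat_lit 7) L122015 (by decide +kernel)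
theorem L122017 : W_48 (nat_lit 9) (nat_lit 0x10003c0008000000020000000000000000000) (nat_lit 0x0) (nat_lit 0x100008000cb80038017000100008000000000000000000) := T_48 (nat_lit 146) (nat_lit 147) (nat_lit 3) (nat_lit 7) (nat_lit 7) L122016 (by decide +kernel)
theorem L122018 : W_48 (nat_lit 10) (nat_lit 0x10003c0008000000000000000000000000000) (nat_lit 0x0) (nat_lit 0x100008000cb80038017000500028000000000000000000) := T_48 (nat_lit 77) (nat_lit 94) (nat_lit 5) (nat_lit 9) (nat_lit 4) L122017 (by decide +kernel)
theorem L122019 : W_48 (nat_lit 13) (nat_lit 0x1000380008000000000000000000000000000) (nat_lit 0x0) (nat_lit 0x100008000cf80078017e007e003f800000000000000000) := Q_48 (nat_lit 126) (C_48 L120873 (C_48 L121983 (C_48 L122003 (C_48 L122009 (C_48 L122018 N_48))))) (by decide +kernel)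
theorem L122020 : W_48 (nat_lit 14) (nat_lit 0x1000180008000000000000000000000000000) (nat_lit 0x0) (nat_lit 0x10000a001cf80e78017e007e003f800000000000000000) := Q_48 (nat_lit 129) (C_48 L121858 (C_48 L122000 (C_48 L117401 (C_48 L122019 N_48)))) (by decide +kernel)
theorem L122021 : W_48 (nat_lit 8) (nat_lit 0x10001c0008000000000000000000000000000) (nat_lit 0x0) (nat_lit 0x14000a000cc00600013000500028000000000000000000) := Q_48 (nat_lit 129) (C_48 L120876 (C_48 L121883 N_48)) (by decide +kernel)
theorem L122022 : W_48 (nat_lit 16) (nat_lit 0x1000180008000000000000000000000000000) (nat_lit 0x0) (nat_lit 0x6001f800af01cf00678013e005c002e000000000000000000) := Q_48 (nat_lit 126) (C_48 L121940 (C_48 L121963 (C_48 L120831 (C_48 L122021 (C_48 L121956 (C_48 L120820 N_48)))))) (by decide +kernel)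
theorem L122023 : W_48 (nat_lit 2) (nat_lit 0x90007c000c000000020000000000000000000) (nat_lit 0x0) (nat_lit 0x30010000000000000000000000000000) := D_48 (nat_lit 125) (nat_lit 112) (nat_lit 124) (nat_lit 2) (nat_lit 6) (nat_lit 7) (nat_lit 2) (nat_lit 5) (nat_lit 7) (by decide +kernel)
theorem L122024 : W_48 (nat_lit 3) (nat_lit 0x900078000c000000020000000000000000000) (nat_lit 0x0) (nat_lit 0x4000070010000000000000000000000000000) := T_48 (nat_lit 126) (nat_lit 146) (nat_lit 3) (nat_lit 7) (nat_lit 7) L122023 (by decide +kernel)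
theorem L122025 : W_48 (nat_lit 4) (nat_lit 0x100078000c000000020000000000000000000) (nat_lit 0x0) (nat_lit 0x1c000070010000000000000000000000000000) := T_48 (nat_lit 147) (nat_lit 148) (nat_lit 3) (nat_lit 8) (nat_lit 7) L122024 (by decide +kernel)
theorem L122026 : W_48 (nat_lit 5) (nat_lit 0x100038000c000000020000000000000000000) (nat_lit 0x0) (nat_lit 0x1c000c70010000000000000000000000000000) := T_48 (nat_lit 130) (nat_lit 131) (nat_lit 0) (nat_lit 12) (nat_lit 7) L122025 (by decide +kernel)
theorem L122027 : W_48 (nat_lit 6) (nat_lit 0x100038000c000000000000000000000000000) (nat_lit 0x0) (nat_lit 0x1c000c70010000400020000000000000000000) := T_48 (nat_lit 77) (nat_lit 94) (nat_lit 5) (nat_lit 9) (nat_lit 4) L122026 (by decide +kernel)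
theorem L122028 : W_48 (nat_lit 7) (nat_lit 0x1000380008000000000000000000000000000) (nat_lit 0x0) (nat_lit 0x1c000c700178007c0038001c00000000000000) := Q_48 (nat_lit 110) (C_48 L121153 (C_48 L121114 (C_48 L122027 N_48))) (by decide +kernel)
theorem L122029 : W_48 (nat_lit 14) (nat_lit 0x1000180008000000000000000000000000000) (nat_lit 0x0) (nat_lit 0x100008001cf80e78017e007e003f801c00000000000000) := Q_48 (nat_lit 129) (C_48 L121858 (C_48 L122019 (C_48 L122028 (C_48 L117401 N_48)))) (by decide +kernel)
theorem L122030 : W_48 (nat_lit 17) (nat_lit 0x1000180000000000000000000000000000000) (nat_lit 0x0) (nat_lit 0x6001f800af01cf80e7801fe007e003f801c00000000000000) := Q_48 (nat_lit 111) (C_48 L121997 (C_48 L117305 (C_48 L122020 (C_48 L122022 (C_48 L122029 N_48))))) (by decide +kernel)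
theorem L122031 : W_48 (nat_lit 6) (nat_lit 0x1000380008000000000000000000000000000) (nat_lit 0x0) (nat_lit 0x40002003c001c60076000000000000000000000000000) := Q_48 (nat_lit 130) (C_48 L121856 (C_48 L120886 (C_48 L117382 N_48))) (by decide +kernel)
theorem L122032 : W_48 (nat_lit 10) (nat_lit 0x1000180008000000000000000000000000000) (nat_lit 0x0) (nat_lit 0x34001e003cc01e78077800000000000000000000000000) := Q_48 (nat_lit 129) (C_48 L121858 (C_48 L121867 (C_48 L122031 (C_48 L117383 N_48)))) (by decide +kernel)
theorem L122033 : W_48 (nat_lit 13) (nat_lit 0x1000180000000000000000000000000000000) (nat_lit 0x0) (nat_lit 0x34001e00fcc03e783ff807c000e0007000000000000000) := Q_48 (nat_lit 111) (C_48 L122032 (C_48 L117305 (C_48 L117454 (C_48 L121812 N_48)))) (by decide +kernel)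
theorem L122034 : W_48 (nat_lit 19) (nat_lit 0x1000080000000000000000000000000000000) (nat_lit 0x0) (nat_lit 0x2c001f807ff03ff81fef0fcfe7f7e7fffbfff0fff87ff03ff807d001400) := Q_48 (nat_lit 128) (C_48 L117464 (C_48 L120737 (C_48 L121218 (C_48 L121219 (C_48 L121251 (C_48 L121289 (C_48 L121343 (C_48 L121632 (C_48 L121809 (C_48 L121813 (C_48 L121815 (C_48 L121852 (C_48 L121869 (C_48 L121871 (C_48 L121882 (C_48 L121986 (C_48 L122030 (C_48 L122033 N_48)))))))))))))))))) (by decide +kernel)
theorem L133143 : W_48 (nat_lit 2) (nat_lit 0xf000100008000c000000000000000000000000000) (nat_lit 0x0) (nat_lit 0x100000c00000000000000000000000000000000000) := D_48 (nat_lit 143) (nat_lit 164) (nat_lit 142) (nat_lit 0) (nat_lit 11) (nat_lit 9) (nat_lit 0) (nat_lit 10) (nat_lit 9) (by decide +kernel)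
theorem L133144 : W_48 (nat_lit 3) (nat_lit 0xe000100008000c000000000000000000000000000) (nat_lit 0x0) (nat_lit 0x200110000c00000000000000000000000000000000000) := T_48 (nat_lit 160) (nat_lit 177) (nat_lit 5) (nat_lit 8) (nat_lit 6) L133143 (by decide +kernel)
theorem L133145 : W_48 (nat_lit 4) (nat_lit 0xe0001000080004000000000000000000000000000) (nat_lit 0x0) (nat_lit 0x200110000c00000008000400000000000000000000000) := T_48 (nat_lit 111) (nat_lit 94) (nat_lit 6) (nat_lit 8) (nat_lit 9) L133144 (by decide +kernel)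
theorem L133146 : W_48 (nat_lit 11) (nat_lit 0x60001000080004000000000000000000000000000) (nat_lit 0x0) (nat_lit 0xf20039001cc0074003a003d00000000000000000000000) := Q_48 (nat_lit 163) (C_48 L100509 (C_48 L100513 (C_48 L100518 (C_48 L688 (C_48 L133145 N_48))))) (by decide +kernel)
theorem L133147 : W_48 (nat_lit 12) (nat_lit 0x20001000080004000000000000000000000000000) (nat_lit 0x0) (nat_lit 0xfa003d001cc0074003a003d00000000000000000000000) := T_48 (nat_lit 162) (nat_lit 179) (nat_lit 7) (nat_lit 8) (nat_lit 6) L133146 (by decide +kernel)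
theorem L133148 : W_48 (nat_lit 2) (nat_lit 0x7000100048003e000000000000000000000000000) (nat_lit 0x0) (nat_lit 0x3800000000000000000000000) := D_48 (nat_lit 96) (nat_lit 95) (nat_lit 97) (nat_lit 2) (nat_lit 7) (nat_lit 6) (nat_lit 2) (nat_lit 8) (nat_lit 6) (by decide +kernel)
theorem L133149 : W_48 (nat_lit 3) (nat_lit 0x7000100048003c000000000000000000000000000) (nat_lit 0x0) (nat_lit 0x200002003800000000000000000000000) := T_48 (nat_lit 109) (nat_lit 129) (nat_lit 3) (nat_lit 7) (nat_lit 6) L133148 (by decide +kernel)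
theorem L133150 : W_48 (nat_lit 4) (nat_lit 0x7000100008003c000000000000000000000000000) (nat_lit 0x0) (nat_lit 0xe00002003800000000000000000000000) := T_48 (nat_lit 130) (nat_lit 131) (nat_lit 3) (nat_lit 8) (nat_lit 6) L133149 (by decide +kernel)
theorem L133151 : W_48 (nat_lit 5) (nat_lit 0x6000100008003c000000000000000000000000000) (nat_lit 0x0) (nat_lit 0x200010000000e00002003800000000000000000000000) := T_48 (nat_lit 160) (nat_lit 177) (nat_lit 5) (nat_lit 8) (nat_lit 6) L133150 (by decide +kernel)
theorem L133152 : W_48 (nat_lit 6) (nat_lit 0x6000100008001c000000000000000000000000000) (nat_lit 0x0) (nat_lit 0x200010000000e40022003800000000000000000000000) := T_48 (nat_lit 113) (nat_lit 126) (nat_lit 1) (nat_lit 11) (nat_lit 6) L133151 (by decide +kernel)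
theorem L133153 : W_48 (nat_lit 7) (nat_lit 0x2000100008001c000000000000000000000000000) (nat_lit 0x0) (nat_lit 0xa00050000000e40022003800000000000000000000000) := T_48 (nat_lit 162) (nat_lit 179) (nat_lit 7) (nat_lit 8) (nat_lit 6) L133152 (by decide +kernel)
theorem L133154 : W_48 (nat_lit 2) (nat_lit 0x7000100029001f000040000000000000000000000) (nat_lit 0x0) (nat_lit 0x8000800020000000000000000000000) := D_48 (nat_lit 107) (nat_lit 123) (nat_lit 89) (nat_lit 1) (nat_lit 8) (nat_lit 6) (nat_lit 0) (nat_lit 8) (nat_lit 6) (by decide +kernel)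
theorem L133155 : W_48 (nat_lit 3) (nat_lit 0x7000100029001f000000000000000000000000000) (nat_lit 0x0) (nat_lit 0x80008000e0000000000000000000000) := T_48 (nat_lit 90) (nat_lit 91) (nat_lit 0) (nat_lit 9) (nat_lit 6) L133154 (by decide +kernel)
theorem L133156 : W_48 (nat_lit 4) (nat_lit 0x7000100028001f000000000000000000000000000) (nat_lit 0x0) (nat_lit 0x380008000e0000000000000000000000) := T_48 (nat_lit 124) (nat_lit 125) (nat_lit 1) (nat_lit 9) (nat_lit 6) L133155 (by decide +kernel)
theorem L133157 : W_48 (nat_lit 5) (nat_lit 0x7000100028001e000000000000000000000000000) (nat_lit 0x0) (nat_lit 0x1380018000e0000000000000000000000) := T_48 (nat_lit 108) (nat_lit 128) (nat_lit 3) (nat_lit 6) (nat_lit 6) L133156 (by decide +kernel)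
theorem L133158 : W_48 (nat_lit 6) (nat_lit 0x7000100008001e000000000000000000000000000) (nat_lit 0x0) (nat_lit 0x7380018000e0000000000000000000000) := T_48 (nat_lit 129) (nat_lit 130) (nat_lit 3) (nat_lit 7) (nat_lit 6) L133157 (by decide +kernel)
theorem L133159 : W_48 (nat_lit 7) (nat_lit 0x7000100008001c000000000000000000000000000) (nat_lit 0x0) (nat_lit 0x7380038001e0000000000000000000000) := T_48 (nat_lit 109) (nat_lit 92) (nat_lit 4) (nat_lit 8) (nat_lit 9) L133158 (by decide +kernel)
theorem L133160 : W_48 (nat_lit 8) (nat_lit 0x3000100008001c000000000000000000000000000) (nat_lit 0x0) (nat_lit 0x8000400000007380038001e0000000000000000000000) := T_48 (nat_lit 162) (nat_lit 179) (nat_lit 7) (nat_lit 8) (nat_lit 6) L133159 (by decide +kernel)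
theorem L133161 : W_48 (nat_lit 9) (nat_lit 0x2000100008001c000000000000000000000000000) (nat_lit 0x0) (nat_lit 0xa000500000007380038001e0000000000000000000000) := T_48 (nat_lit 160) (nat_lit 177) (nat_lit 5) (nat_lit 8) (nat_lit 6) L133160 (by decide +kernel)
theorem L133162 : W_48 (nat_lit 2) (nat_lit 0x7000100008007c000000000000000000000000000) (nat_lit 0x0) (nat_lit 0x1c00000000000000000000000000000000) := D_48 (nat_lit 131) (nat_lit 130) (nat_lit 132) (nat_lit 3) (nat_lit 8) (nat_lit 6) (nat_lit 3) (nat_lit 9) (nat_lit 6) (by decide +kernel)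
theorem L133163 : W_48 (nat_lit 3) (nat_lit 0x7000100008003c000000000000000000000000000) (nat_lit 0x0) (nat_lit 0x1d00040000000000000000000000000000) := T_48 (nat_lit 114) (nat_lit 128) (nat_lit 1) (nat_lit 12) (nat_lit 6) L133162 (by decide +kernel)
theorem L133164 : W_48 (nat_lit 4) (nat_lit 0x7000100008001c000000000000000000000000000) (nat_lit 0x0) (nat_lit 0x1d40060000000000000000000000000000) := T_48 (nat_lit 113) (nat_lit 126) (nat_lit 1) (nat_lit 11) (nat_lit 6) L133163 (by decide +kernel)
theorem L133165 : W_48 (nat_lit 5) (nat_lit 0x3000100008001c000000000000000000000000000) (nat_lit 0x0) (nat_lit 0x800040000001d40060000000000000000000000000000) := T_48 (nat_lit 162) (nat_lit 179) (nat_lit 7) (nat_lit 8) (nat_lit 6) L133164 (by decide +kernel)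
theorem L133166 : W_48 (nat_lit 6) (nat_lit 0x2000100008001c000000000000000000000000000) (nat_lit 0x0) (nat_lit 0xa00050000001d40060000000000000000000000000000) := T_48 (nat_lit 160) (nat_lit 177) (nat_lit 5) (nat_lit 8) (nat_lit 6) L133165 (by decide +kernel)
theorem L133167 : W_48 (nat_lit 10) (nat_lit 0x2000100008000c000000000000000000000000000) (nat_lit 0x0) (nat_lit 0xa00050000001f780738039e0000000000000000000000) := Q_48 (nat_lit 112) (C_48 L133153 (C_48 L133161 (C_48 L709 (C_48 L133166 N_48)))) (by decide +kernel)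
theorem L133168 : W_48 (nat_lit 11) (nat_lit 0x20001000080004000000000000000000000000000) (nat_lit 0x0) (nat_lit 0xa00050000001f7807b803de0000000000000000000000) := T_48 (nat_lit 111) (nat_lit 94) (nat_lit 6) (nat_lit 8) (nat_lit 9) L133167 (by decide +kernel)
theorem L133169 : W_48 (nat_lit 2) (nat_lit 0x60001000090007800000000000000000000000000) (nat_lit 0x0) (nat_lit 0x20008000400000000000000000000000) := D_48 (nat_lit 111) (nat_lit 94) (nat_lit 125) (nat_lit 6) (nat_lit 8) (nat_lit 9) (nat_lit 1) (nat_lit 9) (nat_lit 6) (by decide +kernel)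
theorem L133170 : W_48 (nat_lit 3) (nat_lit 0x60001000080007800000000000000000000000000) (nat_lit 0x0) (nat_lit 0x38008000400000000000000000000000) := T_48 (nat_lit 124) (nat_lit 123) (nat_lit 1) (nat_lit 8) (nat_lit 6) L133169 (by decide +kernel)
theorem L133171 : W_48 (nat_lit 4) (nat_lit 0x60001000080007000000000000000000000000000) (nat_lit 0x0) (nat_lit 0x138008800400000000000000000000000) := T_48 (nat_lit 107) (nat_lit 128) (nat_lit 3) (nat_lit 5) (nat_lit 6) L133170 (by decide +kernel)
theorem L133172 : W_48 (nat_lit 5) (nat_lit 0x20001000080007000000000000000000000000000) (nat_lit 0x0) (nat_lit 0x800040000000138008800400000000000000000000000) := T_48 (nat_lit 162) (nat_lit 179) (nat_lit 7) (nat_lit 8) (nat_lit 6) L133171 (by decide +kernel)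
theorem L133173 : W_48 (nat_lit 5) (nat_lit 0x30001000090007800020000000000000000000000) (nat_lit 0x0) (nat_lit 0x80004c000e00000000400010000000000000000000000) := T_48 (nat_lit 162) (nat_lit 179) (nat_lit 7) (nat_lit 8) (nat_lit 6) L776 (by decide +kernel)
theorem L133174 : W_48 (nat_lit 6) (nat_lit 0x30001000090007800000000000000000000000000) (nat_lit 0x0) (nat_lit 0x80004c000e00000000400070000000000000000000000) := T_48 (nat_lit 89) (nat_lit 90) (nat_lit 0) (nat_lit 8) (nat_lit 6) L133173 (by decide +kernel)
theorem L133175 : W_48 (nat_lit 7) (nat_lit 0x30001000080007800000000000000000000000000) (nat_lit 0x0) (nat_lit 0x80004c000e00018000400070000000000000000000000) := T_48 (nat_lit 124) (nat_lit 123) (nat_lit 1) (nat_lit 8) (nat_lit 6) L133174 (by decide +kernel)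
theorem L133176 : W_48 (nat_lit 8) (nat_lit 0x30001000080007000000000000000000000000000) (nat_lit 0x0) (nat_lit 0x80004c000e00118000c00070000000000000000000000) := T_48 (nat_lit 107) (nat_lit 128) (nat_lit 3) (nat_lit 5) (nat_lit 6) L133175 (by decide +kernel)
theorem L133177 : W_48 (nat_lit 9) (nat_lit 0x20001000080007000000000000000000000000000) (nat_lit 0x0) (nat_lit 0xa0005c000e00118000c00070000000000000000000000) := T_48 (nat_lit 160) (nat_lit 177) (nat_lit 5) (nat_lit 8) (nat_lit 6) L133176 (by decide +kernel)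
theorem L133178 : W_48 (nat_lit 7) (nat_lit 0x60001000080007000000000000000000000000000) (nat_lit 0x0) (nat_lit 0x20001c000e000300080004c0000000000000000000000) := T_48 (nat_lit 160) (nat_lit 177) (nat_lit 5) (nat_lit 8) (nat_lit 6) L786 (by decide +kernel)
theorem L133179 : W_48 (nat_lit 8) (nat_lit 0x20001000080007000000000000000000000000000) (nat_lit 0x0) (nat_lit 0xa0005c000e000300080004c0000000000000000000000) := T_48 (nat_lit 162) (nat_lit 179) (nat_lit 7) (nat_lit 8) (nat_lit 6) L133178 (by decide +kernel)
theorem L133180 : W_48 (nat_lit 10) (nat_lit 0x20001000080006000000000000000000000000000) (nat_lit 0x0) (nat_lit 0xa0005c000e00338009c004f0000000000000000000000) := Q_48 (nat_lit 108) (C_48 L133172 (C_48 L133177 (C_48 L133179 (C_48 L664 N_48)))) (by decide +kernel)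
theorem L133181 : W_48 (nat_lit 11) (nat_lit 0x20001000080004000000000000000000000000000) (nat_lit 0x0) (nat_lit 0xa0005c000e0033800bc005f0000000000000000000000) := T_48 (nat_lit 109) (nat_lit 92) (nat_lit 4) (nat_lit 8) (nat_lit 9) L133180 (by decide +kernel)
theorem L133182 : W_48 (nat_lit 2) (nat_lit 0x40001e0011000080006000000000000000000000000000) (nat_lit 0x0) (nat_lit 0x8000200020000000000000000000000000000000000000) := D_48 (nat_lit 165) (nat_lit 149) (nat_lit 183) (nat_lit 2) (nat_lit 9) (nat_lit 9) (nat_lit 3) (nat_lit 9) (nat_lit 9) (by decide +kernel)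
theorem L133183 : W_48 (nat_lit 3) (nat_lit 0x1e0011000080006000000000000000000000000000) (nat_lit 0x0) (nat_lit 0xe000200020000000000000000000000000000000000000) := T_48 (nat_lit 182) (nat_lit 181) (nat_lit 3) (nat_lit 8) (nat_lit 9) L133182 (by decide +kernel)
theorem L133184 : W_48 (nat_lit 4) (nat_lit 0x1e0001000080006000000000000000000000000000) (nat_lit 0x0) (nat_lit 0xe000200038000000000000000000000000000000000000) := T_48 (nat_lit 148) (nat_lit 147) (nat_lit 2) (nat_lit 8) (nat_lit 9) L133183 (by decide +kernel)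
theorem L133185 : W_48 (nat_lit 5) (nat_lit 0xe0001000080006000000000000000000000000000) (nat_lit 0x0) (nat_lit 0xe000300038800000000000000000000000000000000000) := T_48 (nat_lit 164) (nat_lit 143) (nat_lit 0) (nat_lit 11) (nat_lit 9) L133184 (by decide +kernel)
theorem L133186 : W_48 (nat_lit 6) (nat_lit 0xe0001000080004000000000000000000000000000) (nat_lit 0x0) (nat_lit 0xe000300038800000002000100000000000000000000000) := T_48 (nat_lit 109) (nat_lit 92) (nat_lit 4) (nat_lit 8) (nat_lit 9) L133185 (by decide +kernel)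
theorem L133187 : W_48 (nat_lit 4) (nat_lit 0x20001f0005000280006000000000000000000000000000) (nat_lit 0x0) (nat_lit 0x800040000000000000000540001800000000000000000000000000) := T_48 (nat_lit 215) (nat_lit 198) (nat_lit 4) (nat_lit 11) (nat_lit 12) L743 (by decide +kernel)
theorem L133188 : W_48 (nat_lit 5) (nat_lit 0x20001f0005000080006000000000000000000000000000) (nat_lit 0x0) (nat_lit 0x800040000000000000000740011800000000000000000000000000) := T_48 (nat_lit 129) (nat_lit 112) (nat_lit 7) (nat_lit 10) (nat_lit 6) L133187 (by decide +kernel)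
theorem L133189 : W_48 (nat_lit 6) (nat_lit 0x20001f0005000080004000000000000000000000000000) (nat_lit 0x0) (nat_lit 0x800040000000000000000740013800100000000000000000000000) := T_48 (nat_lit 109) (nat_lit 92) (nat_lit 4) (nat_lit 8) (nat_lit 9) L133188 (by decide +kernel)
theorem L133190 : W_48 (nat_lit 7) (nat_lit 0x20000f0005000080004000000000000000000000000000) (nat_lit 0x0) (nat_lit 0x800040004000100000000740013800100000000000000000000000) := T_48 (nat_lit 164) (nat_lit 182) (nat_lit 3) (nat_lit 8) (nat_lit 9) L133189 (by decide +kernel)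
theorem L133191 : W_48 (nat_lit 8) (nat_lit 0x20000f0001000080004000000000000000000000000000) (nat_lit 0x0) (nat_lit 0x80004000400010000c000740013800100000000000000000000000) := T_48 (nat_lit 146) (nat_lit 147) (nat_lit 2) (nat_lit 7) (nat_lit 9) L133190 (by decide +kernel)
theorem L133192 : W_48 (nat_lit 9) (nat_lit 0xf0001000080004000000000000000000000000000) (nat_lit 0x0) (nat_lit 0x80004000700010000c000740013800100000000000000000000000) := T_48 (nat_lit 181) (nat_lit 180) (nat_lit 3) (nat_lit 7) (nat_lit 9) L133191 (by decide +kernel)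
theorem L133193 : W_48 (nat_lit 10) (nat_lit 0xe0001000080004000000000000000000000000000) (nat_lit 0x0) (nat_lit 0x80004000720011000c000740013800100000000000000000000000) := T_48 (nat_lit 160) (nat_lit 177) (nat_lit 5) (nat_lit 8) (nat_lit 6) L133192 (by decide +kernel)
theorem L133194 : W_48 (nat_lit 12) (nat_lit 0x60001000080004000000000000000000000000000) (nat_lit 0x0) (nat_lit 0x80004000f38039803ce00770013800140000000000000000000000) := Q_48 (nat_lit 163) (C_48 L133186 (C_48 L1614 (C_48 L133193 (C_48 L765 (C_48 L705 N_48))))) (by decide +kernel)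
theorem L133195 : W_48 (nat_lit 13) (nat_lit 0x20001000080004000000000000000000000000000) (nat_lit 0x0) (nat_lit 0x80004000fb803d803ce00770013800140000000000000000000000) := T_48 (nat_lit 162) (nat_lit 179) (nat_lit 7) (nat_lit 8) (nat_lit 6) L133194 (by decide +kernel)
theorem L133196 : W_48 (nat_lit 12) (nat_lit 0x60001000080004000000000000000000000000000) (nat_lit 0x0) (nat_lit 0x40002000f38039803ce0047003b803d00000000000000000000000) := Q_48 (nat_lit 163) (C_48 L705 (C_48 L100259 (C_48 L133186 (C_48 L100265 N_48)))) (by decide +kernel)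
theorem L133197 : W_48 (nat_lit 13) (nat_lit 0x20001000080004000000000000000000000000000) (nat_lit 0x0) (nat_lit 0x40002000fb803d803ce0047003b803d00000000000000000000000) := T_48 (nat_lit 162) (nat_lit 179) (nat_lit 7) (nat_lit 8) (nat_lit 6) L133196 (by decide +kernel)
theorem L133198 : W_48 (nat_lit 5) (nat_lit 0x10000f000100008000c000000000000000000000000000) (nat_lit 0x0) (nat_lit 0xc000740030001000000000000000000000000) := T_48 (nat_lit 146) (nat_lit 147) (nat_lit 2) (nat_lit 7) (nat_lit 9) L725 (by decide +kernel)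
theorem L133199 : W_48 (nat_lit 6) (nat_lit 0xf000100008000c000000000000000000000000000) (nat_lit 0x0) (nat_lit 0x300000000c000740030001000000000000000000000000) := T_48 (nat_lit 180) (nat_lit 181) (nat_lit 3) (nat_lit 7) (nat_lit 9) L133198 (by decide +kernel)
theorem L133200 : W_48 (nat_lit 7) (nat_lit 0xe000100008000c000000000000000000000000000) (nat_lit 0x0) (nat_lit 0x320001000c000740030001000000000000000000000000) := T_48 (nat_lit 160) (nat_lit 177) (nat_lit 5) (nat_lit 8) (nat_lit 6) L133199 (by decide +kernel)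
theorem L133201 : W_48 (nat_lit 8) (nat_lit 0xe0001000080004000000000000000000000000000) (nat_lit 0x0) (nat_lit 0x320001000c000740038001400000000000000000000000) := T_48 (nat_lit 111) (nat_lit 94) (nat_lit 6) (nat_lit 8) (nat_lit 9) L133200 (by decide +kernel)
theorem L133202 : W_48 (nat_lit 11) (nat_lit 0xe0001000080004000000000000000000000000000) (nat_lit 0x0) (nat_lit 0x100008000e000300018800540078007400000000000000000000000) := T_48 (nat_lit 164) (nat_lit 143) (nat_lit 0) (nat_lit 11) (nat_lit 9) L110491 (by decide +kernel)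
theorem L133203 : W_48 (nat_lit 12) (nat_lit 0x60001000080004000000000000000000000000000) (nat_lit 0x0) (nat_lit 0x100008000f20039001cc00740078007400000000000000000000000) := Q_48 (nat_lit 163) (C_48 L705 (C_48 L133201 (C_48 L133202 N_48))) (by decide +kernel)
theorem L133204 : W_48 (nat_lit 13) (nat_lit 0x20001000080004000000000000000000000000000) (nat_lit 0x0) (nat_lit 0x100008000fa003d001cc00740078007400000000000000000000000) := T_48 (nat_lit 162) (nat_lit 179) (nat_lit 7) (nat_lit 8) (nat_lit 6) L133203 (by decide +kernel)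
theorem L133205 : W_48 (nat_lit 8) (nat_lit 0x2000100008000c000000000000000000000000000) (nat_lit 0x0) (nat_lit 0x200010000001f780738001e0000000000000000000000) := Q_48 (nat_lit 112) (C_48 L709 (C_48 L720 (C_48 L771 N_48))) (by decide +kernel)
theorem L133206 : W_48 (nat_lit 9) (nat_lit 0x20001000080004000000000000000000000000000) (nat_lit 0x0) (nat_lit 0x200010000001f7807b8005e0000000000000000000000) := T_48 (nat_lit 111) (nat_lit 94) (nat_lit 6) (nat_lit 8) (nat_lit 9) L133205 (by decide +kernel)
theorem L133207 : W_48 (nat_lit 2) (nat_lit 0x40001e00110002a003f001080000004000000000000000) (nat_lit 0x0) (nat_lit 0x8000200020000000000000000000000000000000000000) := D_48 (nat_lit 165) (nat_lit 149) (nat_lit 183) (nat_lit 2) (nat_lit 9) (nat_lit 9) (nat_lit 3) (nat_lit 9) (nat_lit 9) (by decide +kernel)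
theorem L133208 : W_48 (nat_lit 3) (nat_lit 0x1e00110002a003f001080000004000000000000000) (nat_lit 0x0) (nat_lit 0xe000200020000000000000000000000000000000000000) := T_48 (nat_lit 182) (nat_lit 181) (nat_lit 3) (nat_lit 8) (nat_lit 9) L133207 (by decide +kernel)
theorem L133209 : W_48 (nat_lit 4) (nat_lit 0x1e00010002a003f001080000004000000000000000) (nat_lit 0x0) (nat_lit 0xe000200038000000000000000000000000000000000000) := T_48 (nat_lit 148) (nat_lit 147) (nat_lit 2) (nat_lit 8) (nat_lit 9) L133208 (by decide +kernel)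
theorem L133210 : W_48 (nat_lit 5) (nat_lit 0xe00010002a003f001080000004000000000000000) (nat_lit 0x0) (nat_lit 0xe000300038800000000000000000000000000000000000) := T_48 (nat_lit 164) (nat_lit 143) (nat_lit 0) (nat_lit 11) (nat_lit 9) L133209 (by decide +kernel)
theorem L133211 : W_48 (nat_lit 6) (nat_lit 0x600010002a003f001080000004000000000000000) (nat_lit 0x0) (nat_lit 0xe00038003c800000000000000000000000000000000000) := T_48 (nat_lit 163) (nat_lit 146) (nat_lit 6) (nat_lit 10) (nat_lit 9) L133210 (by decide +kernel)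
theorem L133212 : W_48 (nat_lit 7) (nat_lit 0x600010002a003f001080000000000000000000000) (nat_lit 0x0) (nat_lit 0xe00038003c800000000000000080004000000000000000) := T_48 (nat_lit 62) (nat_lit 79) (nat_lit 5) (nat_lit 11) (nat_lit 3) L133211 (by decide +kernel)
theorem L133213 : W_48 (nat_lit 8) (nat_lit 0x600010002a001f001080000000000000000000000) (nat_lit 0x0) (nat_lit 0xe00038003c800000020002000080004000000000000000) := T_48 (nat_lit 113) (nat_lit 97) (nat_lit 2) (nat_lit 8) (nat_lit 6) L133212 (by decide +kernel)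
theorem L133214 : W_48 (nat_lit 9) (nat_lit 0x600010000a001f001080000000000000000000000) (nat_lit 0x0) (nat_lit 0xe00038003c800600020002000080004000000000000000) := T_48 (nat_lit 129) (nat_lit 130) (nat_lit 3) (nat_lit 7) (nat_lit 6) L133213 (by decide +kernel)
theorem L133215 : W_48 (nat_lit 10) (nat_lit 0x600010000a001f000080000000000000000000000) (nat_lit 0x0) (nat_lit 0xe00038003c800600020003800080004000000000000000) := T_48 (nat_lit 96) (nat_lit 95) (nat_lit 2) (nat_lit 7) (nat_lit 6) L133214 (by decide +kernel)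
theorem L133216 : W_48 (nat_lit 11) (nat_lit 0x200010000a001f000080000000000000000000000) (nat_lit 0x0) (nat_lit 0xe8003c003c800600020003800080004000000000000000) := T_48 (nat_lit 162) (nat_lit 179) (nat_lit 7) (nat_lit 8) (nat_lit 6) L133215 (by decide +kernel)
theorem L133217 : W_48 (nat_lit 12) (nat_lit 0x200010000a000f000080000000000000000000000) (nat_lit 0x0) (nat_lit 0xe8003c003c800640030003800080004000000000000000) := T_48 (nat_lit 112) (nat_lit 126) (nat_lit 1) (nat_lit 10) (nat_lit 6) L133216 (by decide +kernel)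
theorem L133218 : W_48 (nat_lit 13) (nat_lit 0x200010000a000f000000000000000000000000000) (nat_lit 0x0) (nat_lit 0xe8003c003c8006400300038c0080004000000000000000) := T_48 (nat_lit 91) (nat_lit 90) (nat_lit 0) (nat_lit 9) (nat_lit 6) L133217 (by decide +kernel)
theorem L133219 : W_48 (nat_lit 14) (nat_lit 0x2000100008000f000000000000000000000000000) (nat_lit 0x0) (nat_lit 0xe8003c003c8006700300038c0080004000000000000000) := T_48 (nat_lit 125) (nat_lit 124) (nat_lit 1) (nat_lit 9) (nat_lit 6) L133218 (by decide +kernel)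
theorem L133220 : W_48 (nat_lit 15) (nat_lit 0x20001000080007000000000000000000000000000) (nat_lit 0x0) (nat_lit 0xe8003c003c800670038003cc0080004000000000000000) := T_48 (nat_lit 111) (nat_lit 94) (nat_lit 6) (nat_lit 8) (nat_lit 9) L133219 (by decide +kernel)
theorem L133221 : W_48 (nat_lit 16) (nat_lit 0x20001000080006000000000000000000000000000) (nat_lit 0x0) (nat_lit 0xe8003c003c80077c039c03cc0080004000000000000000) := Q_48 (nat_lit 108) (C_48 L664 (C_48 L656 (C_48 L133220 N_48))) (by decide +kernel)
theorem L133222 : W_48 (nat_lit 17) (nat_lit 0x20001000080004000000000000000000000000000) (nat_lit 0x0) (nat_lit 0xe8003c003c80077c03bc03dc0080004000000000000000) := T_48 (nat_lit 109) (nat_lit 92) (nat_lit 4) (nat_lit 8) (nat_lit 9) L133221 (by decide +kernel)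
theorem L133223 : W_48 (nat_lit 18) (nat_lit 0x1000080004000000000000000000000000000) (nat_lit 0x0) (nat_lit 0x1c000e000fb803fc03ce01f7c07bc07df0080004000000000000000) := Q_48 (nat_lit 161) (C_48 L133147 (C_48 L133168 (C_48 L133181 (C_48 L133195 (C_48 L133197 (C_48 L133204 (C_48 L133206 (C_48 L133222 N_48)))))))) (by decide +kernel)
theorem L133226 : W_48 (nat_lit 10) (nat_lit 0x1000080006000200000000000000000000000) (nat_lit 0x0) (nat_lit 0x18000e00740009c001c000c000000000000000000) := Q_48 (nat_lit 128) (C_48 L132686 (C_48 L132978 (C_48 L133225 (C_48 L132699 (C_48 L132703 N_48))))) (by decide +kernel)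
theorem L133231 : W_48 (nat_lit 2) (nat_lit 0x1000080016000fa0004000000000000000000) (nat_lit 0x0) (nat_lit 0x10000800040000000000000000000000000000000) := D_48 (nat_lit 143) (nat_lit 160) (nat_lit 126) (nat_lit 5) (nat_lit 8) (nat_lit 5) (nat_lit 4) (nat_lit 7) (nat_lit 8) (by decide +kernel)
theorem L133232 : W_48 (nat_lit 3) (nat_lit 0x1000080016000fa0000000000000000000000) (nat_lit 0x0) (nat_lit 0x10000800040000000000006000000000000000000) := T_48 (nat_lit 74) (nat_lit 73) (nat_lit 0) (nat_lit 9) (nat_lit 5) L133231 (by decide +kernel)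
theorem L133233 : W_48 (nat_lit 4) (nat_lit 0x1000080016000f80000000000000000000000) (nat_lit 0x0) (nat_lit 0x10000800040000000060006000000000000000000) := T_48 (nat_lit 89) (nat_lit 90) (nat_lit 3) (nat_lit 4) (nat_lit 5) L133232 (by decide +kernel)
theorem L133234 : W_48 (nat_lit 5) (nat_lit 0x1000080016000f00000000000000000000000) (nat_lit 0x0) (nat_lit 0x100008000400080000e0006000000000000000000) := T_48 (nat_lit 91) (nat_lit 111) (nat_lit 3) (nat_lit 6) (nat_lit 5) L133233 (by decide +kernel)
theorem L133235 : W_48 (nat_lit 6) (nat_lit 0x1000080006000f00000000000000000000000) (nat_lit 0x0) (nat_lit 0x100008000400380000e0006000000000000000000) := T_48 (nat_lit 112) (nat_lit 113) (nat_lit 3) (nat_lit 7) (nat_lit 5) L133234 (by decide +kernel)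
theorem L133236 : W_48 (nat_lit 7) (nat_lit 0x1000080006000e00000000000000000000000) (nat_lit 0x0) (nat_lit 0x100008000400380001e000e000000000000000000) := T_48 (nat_lit 92) (nat_lit 75) (nat_lit 4) (nat_lit 8) (nat_lit 8) L133235 (by decide +kernel)
theorem L133237 : W_48 (nat_lit 8) (nat_lit 0x1000080006000600000000000000000000000) (nat_lit 0x0) (nat_lit 0x100008000400380019e000e000000000000000000) := T_48 (nat_lit 95) (nat_lit 96) (nat_lit 1) (nat_lit 11) (nat_lit 5) L133236 (by decide +kernel)
theorem L133238 : W_48 (nat_lit 9) (nat_lit 0x1000080006000200000000000000000000000) (nat_lit 0x0) (nat_lit 0x10000800040038001de002e000000000000000000) := T_48 (nat_lit 94) (nat_lit 77) (nat_lit 6) (nat_lit 8) (nat_lit 8) L133237 (by decide +kernel)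
theorem L133239 : W_48 (nat_lit 11) (nat_lit 0x1000080004000200000000000000000000000) (nat_lit 0x0) (nat_lit 0x18000e0074003bc01de002e000000000000000000) := Q_48 (nat_lit 109) (C_48 L133226 (C_48 L132707 (C_48 L133230 (C_48 L133238 N_48)))) (by decide +kernel)
theorem L133240 : W_48 (nat_lit 12) (nat_lit 0x1000080004000000000000000000000000000) (nat_lit 0x0) (nat_lit 0x18000e0074003bc01fe003e001c00060000000000) := Q_48 (nat_lit 93) (C_48 L133239 (C_48 L100170 (C_48 L100471 (C_48 L100180 (C_48 L100183 N_48))))) (by decide +kernel)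
theorem L133241 : W_48 (nat_lit 2) (nat_lit 0x10001000080004000600000000000000000000000) (nat_lit 0x0) (nat_lit 0x200020000000000008000000000000000000000000000) := D_48 (nat_lit 161) (nat_lit 177) (nat_lit 111) (nat_lit 5) (nat_lit 8) (nat_lit 6) (nat_lit 6) (nat_lit 8) (nat_lit 9) (by decide +kernel)
theorem L133242 : W_48 (nat_lit 3) (nat_lit 0x10001000080004000200000000000000000000000) (nat_lit 0x0) (nat_lit 0x200020000000000008000400020000000000000000000) := T_48 (nat_lit 94) (nat_lit 77) (nat_lit 6) (nat_lit 8) (nat_lit 8) L133241 (by decide +kernel)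
theorem L133243 : W_48 (nat_lit 4) (nat_lit 0x1000080004000200000000000000000000000) (nat_lit 0x0) (nat_lit 0x200030000800000008000400020000000000000000000) := T_48 (nat_lit 160) (nat_lit 143) (nat_lit 5) (nat_lit 8) (nat_lit 5) L133242 (by decide +kernel)
theorem L133244 : W_48 (nat_lit 2) (nat_lit 0x10001000080004000300000000000000000000000) (nat_lit 0x0) (nat_lit 0x200020000000000002000000000000000000000000000) := D_48 (nat_lit 161) (nat_lit 177) (nat_lit 109) (nat_lit 5) (nat_lit 8) (nat_lit 6) (nat_lit 4) (nat_lit 8) (nat_lit 9) (by decide +kernel)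
theorem L133245 : W_48 (nat_lit 3) (nat_lit 0x10001000080004000200000000000000000000000) (nat_lit 0x0) (nat_lit 0x200020000000000002000100008000000000000000000) := T_48 (nat_lit 92) (nat_lit 75) (nat_lit 4) (nat_lit 8) (nat_lit 8) L133244 (by decide +kernel)
theorem L133246 : W_48 (nat_lit 4) (nat_lit 0x1000080004000200000000000000000000000) (nat_lit 0x0) (nat_lit 0x200030000800000002000100008000000000000000000) := T_48 (nat_lit 160) (nat_lit 143) (nat_lit 5) (nat_lit 8) (nat_lit 5) L133245 (by decide +kernel)
theorem L133247 : W_48 (nat_lit 5) (nat_lit 0x1000080004000000000000000000000000000) (nat_lit 0x0) (nat_lit 0x20003000080000000a000700038001400000000000000) := Q_48 (nat_lit 93) (C_48 L100170 (C_48 L133243 (C_48 L133246 N_48))) (by decide +kernel)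
theorem L133248 : W_48 (nat_lit 5) (nat_lit 0x1000080004000000000000000000000000000) (nat_lit 0x0) (nat_lit 0x200030000800040002000700038001400000000000000) := Q_48 (nat_lit 93) (C_48 L100170 (C_48 L133246 (C_48 L100183 N_48))) (by decide +kernel)
theorem L133252 : W_48 (nat_lit 7) (nat_lit 0x1000080004000200000000000000000000000) (nat_lit 0x0) (nat_lit 0x2000000014000a000400038001c000e0000000000) := Q_48 (nat_lit 76) (C_48 L132999 (C_48 L133025 (C_48 L133251 N_48))) (by decide +kernel)
theorem L133253 : W_48 (nat_lit 9) (nat_lit 0x1000080004000000000000000000000000000) (nat_lit 0x0) (nat_lit 0x20003000080014000a000600038001c000e0000000000) := Q_48 (nat_lit 93) (C_48 L133252 (C_48 L133243 (C_48 L100183 (C_48 L133036 (C_48 L133034 N_48))))) (by decide +kernel)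
theorem L133254 : W_48 (nat_lit 2) (nat_lit 0x1000080004000200010000000000000000000) (nat_lit 0x0) (nat_lit 0x100008000400000000000000) := D_48 (nat_lit 75) (nat_lit 92) (nat_lit 58) (nat_lit 4) (nat_lit 8) (nat_lit 8) (nat_lit 4) (nat_lit 8) (nat_lit 7) (by decide +kernel)
theorem L133255 : W_48 (nat_lit 5) (nat_lit 0x1000080004000200010000800000000000000) (nat_lit 0x0) (nat_lit 0x2000000014000a000400000000400060000000000) := T_48 (nat_lit 58) (nat_lit 41) (nat_lit 4) (nat_lit 8) (nat_lit 6) L133023 (by decide +kernel)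
theorem L133256 : W_48 (nat_lit 2) (nat_lit 0x1000080006000200010001c00000000000000) (nat_lit 0x0) (nat_lit 0x20000000000000000100000000000040000000000) := D_48 (nat_lit 92) (nat_lit 42) (nat_lit 161) (nat_lit 5) (nat_lit 8) (nat_lit 2) (nat_lit 4) (nat_lit 8) (nat_lit 9) (by decide +kernel)
theorem L133257 : W_48 (nat_lit 3) (nat_lit 0x1000080004000200010001c00000000000000) (nat_lit 0x0) (nat_lit 0x20000000040002000100000000000040000000000) := T_48 (nat_lit 109) (nat_lit 126) (nat_lit 5) (nat_lit 8) (nat_lit 3) L133256 (by decide +kernel)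
theorem L133258 : W_48 (nat_lit 4) (nat_lit 0x1000080004000200010000c00000000000000) (nat_lit 0x0) (nat_lit 0x200000000400020001000000010000c0000000000) := T_48 (nat_lit 60) (nat_lit 43) (nat_lit 6) (nat_lit 8) (nat_lit 6) L133257 (by decide +kernel)
theorem L133259 : W_48 (nat_lit 5) (nat_lit 0x1000080004000200010000800000000000000) (nat_lit 0x0) (nat_lit 0x200000000400020001000000014000e0000000000) := T_48 (nat_lit 58) (nat_lit 41) (nat_lit 4) (nat_lit 8) (nat_lit 6) L133258 (by decide +kernel)
theorem L133260 : W_48 (nat_lit 2) (nat_lit 0x100008000c000200010000800000000000000) (nat_lit 0x0) (nat_lit 0x20000000000000000400000000000040000000000) := D_48 (nat_lit 94) (nat_lit 42) (nat_lit 161) (nat_lit 7) (nat_lit 8) (nat_lit 2) (nat_lit 6) (nat_lit 8) (nat_lit 9) (by decide +kernel)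
theorem L133261 : W_48 (nat_lit 3) (nat_lit 0x1000080004000200010000800000000000000) (nat_lit 0x0) (nat_lit 0x20000000100008000400000000000040000000000) := T_48 (nat_lit 111) (nat_lit 128) (nat_lit 7) (nat_lit 8) (nat_lit 3) L133260 (by decide +kernel)
theorem L133262 : W_48 (nat_lit 2) (nat_lit 0x1000080006000200010000c00040000000000) (nat_lit 0x0) (nat_lit 0x100008000400000000000000000000000) := D_48 (nat_lit 111) (nat_lit 128) (nat_lit 94) (nat_lit 7) (nat_lit 8) (nat_lit 3) (nat_lit 7) (nat_lit 8) (nat_lit 2) (by decide +kernel)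
theorem L133263 : W_48 (nat_lit 3) (nat_lit 0x1000080006000200010000c00000000000000) (nat_lit 0x0) (nat_lit 0x100008000500000000000040000000000) := T_48 (nat_lit 42) (nat_lit 92) (nat_lit 5) (nat_lit 8) (nat_lit 2) L133262 (by decide +kernel)
theorem L133264 : W_48 (nat_lit 4) (nat_lit 0x1000080004000200010000c00000000000000) (nat_lit 0x0) (nat_lit 0x14000a000500000000000040000000000) := T_48 (nat_lit 109) (nat_lit 126) (nat_lit 5) (nat_lit 8) (nat_lit 3) L133263 (by decide +kernel)
theorem L133265 : W_48 (nat_lit 5) (nat_lit 0x1000080004000200010000800000000000000) (nat_lit 0x0) (nat_lit 0x14000a000500000000400060000000000) := T_48 (nat_lit 58) (nat_lit 41) (nat_lit 4) (nat_lit 8) (nat_lit 6) L133264 (by decide +kernel)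
theorem L133266 : W_48 (nat_lit 2) (nat_lit 0x2000100008000c000200010000800000000000000) (nat_lit 0x0) (nat_lit 0x40002000100000000000000000000000) := D_48 (nat_lit 109) (nat_lit 126) (nat_lit 92) (nat_lit 5) (nat_lit 8) (nat_lit 3) (nat_lit 4) (nat_lit 8) (nat_lit 9) (by decide +kernel)
theorem L133267 : W_48 (nat_lit 3) (nat_lit 0x100008000c000200010000800000000000000) (nat_lit 0x0) (nat_lit 0x20000000040002000500000000000000000000000) := T_48 (nat_lit 161) (nat_lit 94) (nat_lit 6) (nat_lit 8) (nat_lit 9) L133266 (by decide +kernel)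
theorem L133268 : W_48 (nat_lit 4) (nat_lit 0x1000080004000200010000800000000000000) (nat_lit 0x0) (nat_lit 0x2000000014000a000500000000000000000000000) := T_48 (nat_lit 111) (nat_lit 128) (nat_lit 7) (nat_lit 8) (nat_lit 3) L133267 (by decide +kernel)
theorem L133269 : W_48 (nat_lit 6) (nat_lit 0x1000080004000200010000000000000000000) (nat_lit 0x0) (nat_lit 0x2000000014000a000500000001c000e0000000000) := Q_48 (nat_lit 59) (C_48 L133255 (C_48 L133259 (C_48 L133261 (C_48 L133265 (C_48 L133268 N_48))))) (by decide +kernel)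
theorem L133270 : W_48 (nat_lit 2) (nat_lit 0x1000080006000300010000000000000000000) (nat_lit 0x0) (nat_lit 0x40000000000000000800040000000000) := D_48 (nat_lit 59) (nat_lit 42) (nat_lit 126) (nat_lit 5) (nat_lit 8) (nat_lit 2) (nat_lit 5) (nat_lit 8) (nat_lit 3) (by decide +kernel)
theorem L133271 : W_48 (nat_lit 3) (nat_lit 0x1000080004000300010000000000000000000) (nat_lit 0x0) (nat_lit 0x20000000040002000000000000800040000000000) := T_48 (nat_lit 109) (nat_lit 161) (nat_lit 4) (nat_lit 8) (nat_lit 9) L133270 (by decide +kernel)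
theorem L133272 : W_48 (nat_lit 4) (nat_lit 0x1000080004000200010000000000000000000) (nat_lit 0x0) (nat_lit 0x20000000040002000100008000800040000000000) := T_48 (nat_lit 92) (nat_lit 75) (nat_lit 4) (nat_lit 8) (nat_lit 8) L133271 (by decide +kernel)
theorem L133273 : W_48 (nat_lit 7) (nat_lit 0x1000080004000200000000000000000000000) (nat_lit 0x0) (nat_lit 0x2000000014000a000500018001c000e0000000000) := Q_48 (nat_lit 76) (C_48 L133025 (C_48 L133254 (C_48 L133269 (C_48 L133272 N_48)))) (by decide +kernel)
theorem L133274 : W_48 (nat_lit 2) (nat_lit 0x1000080006000200010001800000000000000) (nat_lit 0x0) (nat_lit 0x20000000000000000100000000000040000000000) := D_48 (nat_lit 92) (nat_lit 42) (nat_lit 161) (nat_lit 5) (nat_lit 8) (nat_lit 2) (nat_lit 4) (nat_lit 8) (nat_lit 9) (by decide +kernel)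
theorem L133275 : W_48 (nat_lit 3) (nat_lit 0x1000080004000200010001800000000000000) (nat_lit 0x0) (nat_lit 0x20000000040002000100000000000040000000000) := T_48 (nat_lit 109) (nat_lit 126) (nat_lit 5) (nat_lit 8) (nat_lit 3) L133274 (by decide +kernel)
theorem L133276 : W_48 (nat_lit 4) (nat_lit 0x1000080004000200010001000000000000000) (nat_lit 0x0) (nat_lit 0x200000000400020001000000008000c0000000000) := T_48 (nat_lit 59) (nat_lit 43) (nat_lit 6) (nat_lit 8) (nat_lit 6) L133275 (by decide +kernel)
theorem L133277 : W_48 (nat_lit 5) (nat_lit 0x1000080004000200010000000000000000000) (nat_lit 0x0) (nat_lit 0x200000000400020001000200018000c0000000000) := T_48 (nat_lit 60) (nat_lit 77) (nat_lit 6) (nat_lit 8) (nat_lit 7) L133276 (by decide +kernel)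
theorem L133278 : W_48 (nat_lit 2) (nat_lit 0x100008000c000600010000000000000000000) (nat_lit 0x0) (nat_lit 0x100000000000000000800040000000000) := D_48 (nat_lit 59) (nat_lit 42) (nat_lit 128) (nat_lit 7) (nat_lit 8) (nat_lit 2) (nat_lit 7) (nat_lit 8) (nat_lit 3) (by decide +kernel)
theorem L133279 : W_48 (nat_lit 3) (nat_lit 0x1000080004000600010000000000000000000) (nat_lit 0x0) (nat_lit 0x20000000100008000000000000800040000000000) := T_48 (nat_lit 111) (nat_lit 161) (nat_lit 6) (nat_lit 8) (nat_lit 9) L133278 (by decide +kernel)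
theorem L133280 : W_48 (nat_lit 4) (nat_lit 0x1000080004000200010000000000000000000) (nat_lit 0x0) (nat_lit 0x20000000100008000400020000800040000000000) := T_48 (nat_lit 94) (nat_lit 77) (nat_lit 6) (nat_lit 8) (nat_lit 8) L133279 (by decide +kernel)
theorem L133281 : W_48 (nat_lit 7) (nat_lit 0x1000080004000200000000000000000000000) (nat_lit 0x0) (nat_lit 0x2000000014000a000500030001c000e0000000000) := Q_48 (nat_lit 76) (C_48 L133269 (C_48 L132999 (C_48 L133277 (C_48 L133280 N_48)))) (by decide +kernel)
theorem L133282 : W_48 (nat_lit 6) (nat_lit 0x1000080004000200000000000000000000000) (nat_lit 0x0) (nat_lit 0x20000000040002000100038001c000e0000000000) := Q_48 (nat_lit 76) (C_48 L133277 (C_48 L133254 (C_48 L133251 N_48))) (by decide +kernel)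
theorem L133283 : W_48 (nat_lit 8) (nat_lit 0x1000080004000000000000000000000000000) (nat_lit 0x0) (nat_lit 0x2000000014000a000700038001c000e0000000000) := Q_48 (nat_lit 93) (C_48 L133252 (C_48 L100170 (C_48 L100206 (C_48 L133273 (C_48 L133281 (C_48 L133282 N_48)))))) (by decide +kernel)
theorem L133284 : W_48 (nat_lit 9) (nat_lit 0x1000080004000000000000000000000000000) (nat_lit 0x0) (nat_lit 0x200030000800140008000700038001c000e0000000000) := Q_48 (nat_lit 93) (C_48 L100170 (C_48 L133034 (C_48 L133243 (C_48 L133036 N_48)))) (by decide +kernel)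
theorem L133285 : W_48 (nat_lit 2) (nat_lit 0x1000180007000000000000000000000000000) (nat_lit 0x0) (nat_lit 0x640000000000000000000000000000000) := D_48 (nat_lit 129) (nat_lit 130) (nat_lit 126) (nat_lit 0) (nat_lit 11) (nat_lit 7) (nat_lit 0) (nat_lit 10) (nat_lit 7) (by decide +kernel)
theorem L133286 : W_48 (nat_lit 3) (nat_lit 0x1000180006000000000000000000000000000) (nat_lit 0x0) (nat_lit 0x640001800000000000000000000000000) := T_48 (nat_lit 108) (nat_lit 107) (nat_lit 3) (nat_lit 5) (nat_lit 6) L133285 (by decide +kernel)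
theorem L133287 : W_48 (nat_lit 2) (nat_lit 0x1000180006000100000000000000000000000) (nat_lit 0x0) (nat_lit 0x200008000400000000000000) := D_48 (nat_lit 75) (nat_lit 93) (nat_lit 58) (nat_lit 4) (nat_lit 8) (nat_lit 8) (nat_lit 7) (nat_lit 7) (nat_lit 3) (by decide +kernel)
theorem L133288 : W_48 (nat_lit 3) (nat_lit 0x1000180006000000000000000000000000000) (nat_lit 0x0) (nat_lit 0x20000000000000000300008000400000000000000) := T_48 (nat_lit 92) (nat_lit 161) (nat_lit 4) (nat_lit 8) (nat_lit 9) L133287 (by decide +kernel)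
theorem L133289 : W_48 (nat_lit 5) (nat_lit 0x1000180004000000000000000000000000000) (nat_lit 0x0) (nat_lit 0x20000000640003800300008000400000000000000) := Q_48 (nat_lit 109) (C_48 L120982 (C_48 L133286 (C_48 L133288 N_48))) (by decide +kernel)
theorem L133290 : W_48 (nat_lit 2) (nat_lit 0x1000380006000000000000000000000000000) (nat_lit 0x0) (nat_lit 0x9800000000000000000000000000) := D_48 (nat_lit 108) (nat_lit 107) (nat_lit 111) (nat_lit 3) (nat_lit 5) (nat_lit 6) (nat_lit 3) (nat_lit 6) (nat_lit 6) (by decide +kernel)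
theorem L133291 : W_48 (nat_lit 3) (nat_lit 0x1000180006000000000000000000000000000) (nat_lit 0x0) (nat_lit 0x600009800000000000000000000000000) := T_48 (nat_lit 129) (nat_lit 130) (nat_lit 0) (nat_lit 11) (nat_lit 7) L133290 (by decide +kernel)
theorem L133292 : W_48 (nat_lit 2) (nat_lit 0x1000180006000100000000000000000000000) (nat_lit 0x0) (nat_lit 0x40000000000008000400000000000000) := D_48 (nat_lit 75) (nat_lit 58) (nat_lit 126) (nat_lit 7) (nat_lit 7) (nat_lit 3) (nat_lit 7) (nat_lit 7) (nat_lit 4) (by decide +kernel)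
theorem L133293 : W_48 (nat_lit 3) (nat_lit 0x1000180006000000000000000000000000000) (nat_lit 0x0) (nat_lit 0x20000000040000000100008000400000000000000) := T_48 (nat_lit 92) (nat_lit 161) (nat_lit 4) (nat_lit 8) (nat_lit 9) L133292 (by decide +kernel)
theorem L133294 : W_48 (nat_lit 4) (nat_lit 0x1000180004000000000000000000000000000) (nat_lit 0x0) (nat_lit 0x2000000064000b800100008000400000000000000) := Q_48 (nat_lit 109) (C_48 L133286 (C_48 L133291 (C_48 L133293 N_48))) (by decide +kernel)
theorem L133295 : W_48 (nat_lit 4) (nat_lit 0x1000180004000000000000000000000000000) (nat_lit 0x0) (nat_lit 0x2000000060000b800300008000400000000000000) := Q_48 (nat_lit 109) (C_48 L133291 (C_48 L133288 N_48)) (by decide +kernel)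
theorem L133296 : W_48 (nat_lit 2) (nat_lit 0x1800580004000200018000800000000000000) (nat_lit 0x0) (nat_lit 0x20001000080000000000) := D_48 (nat_lit 60) (nat_lit 43) (nat_lit 77) (nat_lit 6) (nat_lit 8) (nat_lit 6) (nat_lit 6) (nat_lit 8) (nat_lit 7) (by decide +kernel)
theorem L133297 : W_48 (nat_lit 3) (nat_lit 0x1800580004000200018000000000000000000) (nat_lit 0x0) (nat_lit 0x8000000020001800080000000000) := T_48 (nat_lit 59) (nat_lit 111) (nat_lit 7) (nat_lit 8) (nat_lit 3) L133296 (by decide +kernel)
theorem L133298 : W_48 (nat_lit 4) (nat_lit 0x1800580004000200010000000000000000000) (nat_lit 0x0) (nat_lit 0x8000000028001c00080000000000) := T_48 (nat_lit 75) (nat_lit 58) (nat_lit 4) (nat_lit 8) (nat_lit 7) L133297 (by decide +kernel)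
theorem L133299 : W_48 (nat_lit 5) (nat_lit 0x1800580004000200000000000000000000000) (nat_lit 0x0) (nat_lit 0x40008000000038001c00080000000000) := T_48 (nat_lit 76) (nat_lit 126) (nat_lit 5) (nat_lit 8) (nat_lit 4) L133298 (by decide +kernel)
theorem L133300 : W_48 (nat_lit 6) (nat_lit 0x1800580004000000000000000000000000000) (nat_lit 0x0) (nat_lit 0x10000000040008000200038001c00080000000000) := T_48 (nat_lit 93) (nat_lit 160) (nat_lit 5) (nat_lit 8) (nat_lit 5) L133299 (by decide +kernel)
theorem L133301 : W_48 (nat_lit 7) (nat_lit 0x1800180004000000000000000000000000000) (nat_lit 0x0) (nat_lit 0x10000000640008000200038001c00080000000000) := T_48 (nat_lit 130) (nat_lit 129) (nat_lit 1) (nat_lit 11) (nat_lit 7) L133300 (by decide +kernel)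
theorem L133302 : W_48 (nat_lit 2) (nat_lit 0x1a00580004000200010001400000000000000) (nat_lit 0x0) (nat_lit 0x8000a0000000000) := D_48 (nat_lit 59) (nat_lit 41) (nat_lit 43) (nat_lit 4) (nat_lit 8) (nat_lit 6) (nat_lit 6) (nat_lit 8) (nat_lit 6) (by decide +kernel)
theorem L133303 : W_48 (nat_lit 3) (nat_lit 0x1a00580004000200010000400000000000000) (nat_lit 0x0) (nat_lit 0x200018000a0000000000) := T_48 (nat_lit 60) (nat_lit 77) (nat_lit 6) (nat_lit 8) (nat_lit 7) L133302 (by decide +kernel)
theorem L133304 : W_48 (nat_lit 4) (nat_lit 0x1a00580004000200010000000000000000000) (nat_lit 0x0) (nat_lit 0x28001c000a0000000000) := T_48 (nat_lit 58) (nat_lit 75) (nat_lit 4) (nat_lit 8) (nat_lit 7) L133303 (by decide +kernel)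
theorem L133305 : W_48 (nat_lit 5) (nat_lit 0x1a00580004000200000000000000000000000) (nat_lit 0x0) (nat_lit 0x40000000000038001c000a0000000000) := T_48 (nat_lit 76) (nat_lit 126) (nat_lit 5) (nat_lit 8) (nat_lit 4) L133304 (by decide +kernel)
theorem L133306 : W_48 (nat_lit 6) (nat_lit 0x1a00580004000000000000000000000000000) (nat_lit 0x0) (nat_lit 0x10000000040000000200038001c000a0000000000) := T_48 (nat_lit 93) (nat_lit 160) (nat_lit 5) (nat_lit 8) (nat_lit 5) L133305 (by decide +kernel)
theorem L133307 : W_48 (nat_lit 7) (nat_lit 0x1a00180004000000000000000000000000000) (nat_lit 0x0) (nat_lit 0x10000000640000000200038001c000a0000000000) := T_48 (nat_lit 130) (nat_lit 129) (nat_lit 1) (nat_lit 11) (nat_lit 7) L133306 (by decide +kernel)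
theorem L133308 : W_48 (nat_lit 8) (nat_lit 0x1800180004000000000000000000000000000) (nat_lit 0x0) (nat_lit 0x10000600640000000200038001c000a0000000000) := T_48 (nat_lit 141) (nat_lit 142) (nat_lit 2) (nat_lit 5) (nat_lit 8) L133307 (by decide +kernel)
theorem L133309 : W_48 (nat_lit 2) (nat_lit 0x10001800180004000000000000000000000000000) (nat_lit 0x0) (nat_lit 0x4000200020000000000000000000000000000000000000000) := D_48 (nat_lit 177) (nat_lit 161) (nat_lit 194) (nat_lit 5) (nat_lit 8) (nat_lit 6) (nat_lit 6) (nat_lit 7) (nat_lit 11) (by decide +kernel)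
theorem L133310 : W_48 (nat_lit 3) (nat_lit 0x1800180004000000000000000000000000000) (nat_lit 0x0) (nat_lit 0x4000200030000000000000000200000000000000000000000) := T_48 (nat_lit 160) (nat_lit 93) (nat_lit 5) (nat_lit 8) (nat_lit 5) L133309 (by decide +kernel)
theorem L133311 : W_48 (nat_lit 9) (nat_lit 0x1000180004000000000000000000000000000) (nat_lit 0x0) (nat_lit 0x4000200030000e00640008000200038001c000a0000000000) := Q_48 (nat_lit 143) (C_48 L133301 (C_48 L133308 (C_48 L133310 (C_48 L133110 N_48)))) (by decide +kernel)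
theorem L133312 : W_48 (nat_lit 2) (nat_lit 0x1000380004000000000000000000000000000) (nat_lit 0x0) (nat_lit 0x800400002000000000000000000000000000) := D_48 (nat_lit 130) (nat_lit 109) (nat_lit 143) (nat_lit 0) (nat_lit 11) (nat_lit 7) (nat_lit 1) (nat_lit 11) (nat_lit 7) (by decide +kernel)
theorem L133313 : W_48 (nat_lit 2) (nat_lit 0x1000f80004000000000000000000000000000) (nat_lit 0x0) (nat_lit 0x38000000000000000000000000000000000000) := D_48 (nat_lit 148) (nat_lit 147) (nat_lit 149) (nat_lit 3) (nat_lit 8) (nat_lit 7) (nat_lit 3) (nat_lit 9) (nat_lit 7) (by decide +kernel)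
theorem L133314 : W_48 (nat_lit 3) (nat_lit 0x1000780004000000000000000000000000000) (nat_lit 0x0) (nat_lit 0x38000800008000000000000000000000000000) := T_48 (nat_lit 131) (nat_lit 111) (nat_lit 0) (nat_lit 12) (nat_lit 7) L133313 (by decide +kernel)
theorem L133315 : W_48 (nat_lit 4) (nat_lit 0x1000380004000000000000000000000000000) (nat_lit 0x0) (nat_lit 0x38000c0000a000000000000000000000000000) := T_48 (nat_lit 130) (nat_lit 109) (nat_lit 0) (nat_lit 11) (nat_lit 7) L133314 (by decide +kernel)
theorem L133316 : W_48 (nat_lit 4) (nat_lit 0x1000380004000000000000000000000000000) (nat_lit 0x0) (nat_lit 0x38800c00008000000000000000000000000000) := T_48 (nat_lit 130) (nat_lit 143) (nat_lit 1) (nat_lit 11) (nat_lit 7) L133314 (by decide +kernel)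
theorem L133317 : W_48 (nat_lit 2) (nat_lit 0x50003e0016000000008000000000000000000) (nat_lit 0x0) (nat_lit 0xe00000000000000000000000000000000000) := D_48 (nat_lit 142) (nat_lit 143) (nat_lit 141) (nat_lit 1) (nat_lit 10) (nat_lit 7) (nat_lit 1) (nat_lit 9) (nat_lit 7) (by decide +kernel)
theorem L133318 : W_48 (nat_lit 3) (nat_lit 0x50003c0016000000008000000000000000000) (nat_lit 0x0) (nat_lit 0xe00020008000000000000000000000000000) := T_48 (nat_lit 125) (nat_lit 111) (nat_lit 2) (nat_lit 6) (nat_lit 7) L133317 (by decide +kernel)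
theorem L133319 : W_48 (nat_lit 4) (nat_lit 0x50003c0006000000008000000000000000000) (nat_lit 0x0) (nat_lit 0xe00020038000000000000000000000000000) := T_48 (nat_lit 112) (nat_lit 113) (nat_lit 2) (nat_lit 7) (nat_lit 7) L133318 (by decide +kernel)
theorem L133320 : W_48 (nat_lit 5) (nat_lit 0x50003c0006000000000000000000000000000) (nat_lit 0x0) (nat_lit 0xe00020038000100008000000000000000000) := T_48 (nat_lit 75) (nat_lit 92) (nat_lit 7) (nat_lit 7) (nat_lit 4) L133319 (by decide +kernel)
theorem L133321 : W_48 (nat_lit 6) (nat_lit 0x10003c0006000000000000000000000000000) (nat_lit 0x0) (nat_lit 0xce00020038000100008000000000000000000) := T_48 (nat_lit 146) (nat_lit 147) (nat_lit 3) (nat_lit 7) (nat_lit 7) L133320 (by decide +kernel)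
theorem L133322 : W_48 (nat_lit 7) (nat_lit 0x10003c0004000000000000000000000000000) (nat_lit 0x0) (nat_lit 0xce0002003b000100008000000000000000000) := T_48 (nat_lit 109) (nat_lit 108) (nat_lit 0) (nat_lit 10) (nat_lit 7) L133321 (by decide +kernel)
theorem L133323 : W_48 (nat_lit 2) (nat_lit 0x50003f0016000000000000000000000000000) (nat_lit 0x0) (nat_lit 0x700000000000000000000000000000000000) := D_48 (nat_lit 141) (nat_lit 142) (nat_lit 140) (nat_lit 1) (nat_lit 9) (nat_lit 7) (nat_lit 1) (nat_lit 8) (nat_lit 7) (by decide +kernel)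
theorem L133324 : W_48 (nat_lit 3) (nat_lit 0x50003e0016000000000000000000000000000) (nat_lit 0x0) (nat_lit 0x700018000000000000000000000000000000) := T_48 (nat_lit 124) (nat_lit 123) (nat_lit 2) (nat_lit 4) (nat_lit 7) L133323 (by decide +kernel)
theorem L133325 : W_48 (nat_lit 4) (nat_lit 0x50003c0016000000000000000000000000000) (nat_lit 0x0) (nat_lit 0x700038008000000000000000000000000000) := T_48 (nat_lit 125) (nat_lit 111) (nat_lit 2) (nat_lit 6) (nat_lit 7) L133324 (by decide +kernel)
theorem L133326 : W_48 (nat_lit 5) (nat_lit 0x50003c0006000000000000000000000000000) (nat_lit 0x0) (nat_lit 0x700038038000000000000000000000000000) := T_48 (nat_lit 112) (nat_lit 113) (nat_lit 2) (nat_lit 7) (nat_lit 7) L133325 (by decide +kernel)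
theorem L133327 : W_48 (nat_lit 6) (nat_lit 0x50003c0004000000000000000000000000000) (nat_lit 0x0) (nat_lit 0x70003803b000000000000000000000000000) := T_48 (nat_lit 109) (nat_lit 108) (nat_lit 0) (nat_lit 10) (nat_lit 7) L133326 (by decide +kernel)
theorem L133328 : W_48 (nat_lit 7) (nat_lit 0x10003c0004000000000000000000000000000) (nat_lit 0x0) (nat_lit 0xc70003803b000000000000000000000000000) := T_48 (nat_lit 146) (nat_lit 147) (nat_lit 3) (nat_lit 7) (nat_lit 7) L133327 (by decide +kernel)
theorem L133329 : W_48 (nat_lit 2) (nat_lit 0x50003c0016000100000000000000000000000) (nat_lit 0x0) (nat_lit 0x20008000080000000000000000000000) := D_48 (nat_lit 111) (nat_lit 125) (nat_lit 91) (nat_lit 2) (nat_lit 6) (nat_lit 7) (nat_lit 0) (nat_lit 10) (nat_lit 6) (by decide +kernel)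
theorem L133330 : W_48 (nat_lit 3) (nat_lit 0x50003c0006000100000000000000000000000) (nat_lit 0x0) (nat_lit 0x20038000080000000000000000000000) := T_48 (nat_lit 112) (nat_lit 113) (nat_lit 2) (nat_lit 7) (nat_lit 7) L133329 (by decide +kernel)
theorem L133331 : W_48 (nat_lit 4) (nat_lit 0x50003c0006000000000000000000000000000) (nat_lit 0x0) (nat_lit 0x20038000180008000000000000000000) := T_48 (nat_lit 92) (nat_lit 75) (nat_lit 7) (nat_lit 7) (nat_lit 4) L133330 (by decide +kernel)
theorem L133332 : W_48 (nat_lit 5) (nat_lit 0x10003c0006000000000000000000000000000) (nat_lit 0x0) (nat_lit 0xc000020038000180008000000000000000000) := T_48 (nat_lit 146) (nat_lit 147) (nat_lit 3) (nat_lit 7) (nat_lit 7) L133331 (by decide +kernel)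
theorem L133333 : W_48 (nat_lit 6) (nat_lit 0x10003c0004000000000000000000000000000) (nat_lit 0x0) (nat_lit 0xc00002003b000180008000000000000000000) := T_48 (nat_lit 109) (nat_lit 108) (nat_lit 0) (nat_lit 10) (nat_lit 7) L133332 (by decide +kernel)
theorem L133334 : W_48 (nat_lit 8) (nat_lit 0x1000380004000000000000000000000000000) (nat_lit 0x0) (nat_lit 0x20001000cf0007803b000380008000000000000000000) := Q_48 (nat_lit 126) (C_48 L133322 (C_48 L122875 (C_48 L133328 (C_48 L133333 N_48)))) (by decide +kernel)
theorem L133335 : W_48 (nat_lit 9) (nat_lit 0x1000180004000000000000000000000000000) (nat_lit 0x0) (nat_lit 0x20001003cf00e7803b000380008000000000000000000) := Q_48 (nat_lit 129) (C_48 L133312 (C_48 L133315 (C_48 L133316 (C_48 L133334 N_48)))) (by decide +kernel)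
theorem L133336 : W_48 (nat_lit 2) (nat_lit 0x1a00180004000300010000800000000000000) (nat_lit 0x0) (nat_lit 0x20001000080000000000) := D_48 (nat_lit 60) (nat_lit 43) (nat_lit 77) (nat_lit 6) (nat_lit 8) (nat_lit 6) (nat_lit 6) (nat_lit 8) (nat_lit 7) (by decide +kernel)
theorem L133337 : W_48 (nat_lit 3) (nat_lit 0x1a00180004000300010000000000000000000) (nat_lit 0x0) (nat_lit 0x8000000020001800080000000000) := T_48 (nat_lit 59) (nat_lit 111) (nat_lit 7) (nat_lit 8) (nat_lit 3) L133336 (by decide +kernel)
theorem L133338 : W_48 (nat_lit 4) (nat_lit 0x1800180004000300010000000000000000000) (nat_lit 0x0) (nat_lit 0x600000008000000020001800080000000000) := T_48 (nat_lit 141) (nat_lit 142) (nat_lit 2) (nat_lit 5) (nat_lit 8) L133337 (by decide +kernel)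
theorem L133339 : W_48 (nat_lit 5) (nat_lit 0x1800180004000300000000000000000000000) (nat_lit 0x0) (nat_lit 0x600040008000000030001800080000000000) := T_48 (nat_lit 76) (nat_lit 126) (nat_lit 5) (nat_lit 8) (nat_lit 4) L133338 (by decide +kernel)
theorem L133340 : W_48 (nat_lit 6) (nat_lit 0x1000180004000300000000000000000000000) (nat_lit 0x0) (nat_lit 0x10000e00040008000000030001800080000000000) := T_48 (nat_lit 143) (nat_lit 160) (nat_lit 5) (nat_lit 8) (nat_lit 5) L133339 (by decide +kernel)
theorem L133341 : W_48 (nat_lit 7) (nat_lit 0x1000180004000200000000000000000000000) (nat_lit 0x0) (nat_lit 0x10000e00040008000100038001800080000000000) := T_48 (nat_lit 92) (nat_lit 75) (nat_lit 4) (nat_lit 8) (nat_lit 8) L133340 (by decide +kernel)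
theorem L133342 : W_48 (nat_lit 2) (nat_lit 0x1a00180006000300010001000000000000000) (nat_lit 0x0) (nat_lit 0x8000c0000000000) := D_48 (nat_lit 59) (nat_lit 43) (nat_lit 42) (nat_lit 6) (nat_lit 8) (nat_lit 6) (nat_lit 5) (nat_lit 8) (nat_lit 2) (by decide +kernel)
theorem L133343 : W_48 (nat_lit 3) (nat_lit 0x1a00180004000300010001000000000000000) (nat_lit 0x0) (nat_lit 0x200000000000020000000000008000c0000000000) := T_48 (nat_lit 109) (nat_lit 161) (nat_lit 4) (nat_lit 8) (nat_lit 9) L133342 (by decide +kernel)
theorem L133344 : W_48 (nat_lit 4) (nat_lit 0x1a00180004000300010000000000000000000) (nat_lit 0x0) (nat_lit 0x200000000000020000000200018000c0000000000) := T_48 (nat_lit 60) (nat_lit 77) (nat_lit 6) (nat_lit 8) (nat_lit 7) L133343 (by decide +kernel)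
theorem L133345 : W_48 (nat_lit 5) (nat_lit 0x1800180004000300010000000000000000000) (nat_lit 0x0) (nat_lit 0x200006000000020000000200018000c0000000000) := T_48 (nat_lit 141) (nat_lit 142) (nat_lit 2) (nat_lit 5) (nat_lit 8) L133344 (by decide +kernel)
theorem L133346 : W_48 (nat_lit 6) (nat_lit 0x1800180004000300000000000000000000000) (nat_lit 0x0) (nat_lit 0x200006000400020000000300018000c0000000000) := T_48 (nat_lit 76) (nat_lit 126) (nat_lit 5) (nat_lit 8) (nat_lit 4) L133345 (by decide +kernel)
theorem L133347 : W_48 (nat_lit 7) (nat_lit 0x1000180004000300000000000000000000000) (nat_lit 0x0) (nat_lit 0x30000e000400020000000300018000c0000000000) := T_48 (nat_lit 143) (nat_lit 160) (nat_lit 5) (nat_lit 8) (nat_lit 5) L133346 (by decide +kernel)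
theorem L133348 : W_48 (nat_lit 8) (nat_lit 0x1000180004000200000000000000000000000) (nat_lit 0x0) (nat_lit 0x30000e000400020001000380018000c0000000000) := T_48 (nat_lit 92) (nat_lit 75) (nat_lit 4) (nat_lit 8) (nat_lit 8) L133347 (by decide +kernel)
theorem L133349 : W_48 (nat_lit 2) (nat_lit 0x1c001a000f000300000000000000000000000) (nat_lit 0x0) (nat_lit 0x30000080000000000000000000000) := D_48 (nat_lit 112) (nat_lit 113) (nat_lit 91) (nat_lit 0) (nat_lit 11) (nat_lit 6) (nat_lit 0) (nat_lit 10) (nat_lit 6) (by decide +kernel)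
theorem L133350 : W_48 (nat_lit 3) (nat_lit 0x1c001a0007000300000000000000000000000) (nat_lit 0x0) (nat_lit 0x10038000080000000000000000000000) := T_48 (nat_lit 111) (nat_lit 124) (nat_lit 1) (nat_lit 9) (nat_lit 6) L133349 (by decide +kernel)
theorem L133351 : W_48 (nat_lit 4) (nat_lit 0x1c00180007000300000000000000000000000) (nat_lit 0x0) (nat_lit 0x8000000030038000080000000000000000000000) := T_48 (nat_lit 125) (nat_lit 159) (nat_lit 6) (nat_lit 6) (nat_lit 9) L133350 (by decide +kernel)
theorem L133352 : W_48 (nat_lit 5) (nat_lit 0x1c00180006000300000000000000000000000) (nat_lit 0x0) (nat_lit 0x8000000030039800080000000000000000000000) := T_48 (nat_lit 108) (nat_lit 107) (nat_lit 3) (nat_lit 5) (nat_lit 6) L133351 (by decide +kernel)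
theorem L133353 : W_48 (nat_lit 6) (nat_lit 0x1c00180004000300000000000000000000000) (nat_lit 0x0) (nat_lit 0x2800000003003b800080000000000000000000000) := T_48 (nat_lit 109) (nat_lit 161) (nat_lit 4) (nat_lit 8) (nat_lit 9) L133352 (by decide +kernel)
theorem L133354 : W_48 (nat_lit 7) (nat_lit 0x1800180004000300000000000000000000000) (nat_lit 0x0) (nat_lit 0x2800060003003b800080000000000000000000000) := T_48 (nat_lit 142) (nat_lit 141) (nat_lit 2) (nat_lit 5) (nat_lit 8) L133353 (by decide +kernel)
theorem L133355 : W_48 (nat_lit 8) (nat_lit 0x1000180004000300000000000000000000000) (nat_lit 0x0) (nat_lit 0x38000e0003003b800080000000000000000000000) := T_48 (nat_lit 143) (nat_lit 160) (nat_lit 5) (nat_lit 8) (nat_lit 5) L133354 (by decide +kernel)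
theorem L133356 : W_48 (nat_lit 9) (nat_lit 0x1000180004000200000000000000000000000) (nat_lit 0x0) (nat_lit 0x38000e0003003b800180008000000000000000000) := T_48 (nat_lit 92) (nat_lit 75) (nat_lit 4) (nat_lit 8) (nat_lit 8) L133355 (by decide +kernel)
theorem L133357 : W_48 (nat_lit 2) (nat_lit 0x1800180004000200018000800000000000000) (nat_lit 0x0) (nat_lit 0x20001000080000000000) := D_48 (nat_lit 60) (nat_lit 43) (nat_lit 77) (nat_lit 6) (nat_lit 8) (nat_lit 6) (nat_lit 6) (nat_lit 8) (nat_lit 7) (by decide +kernel)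
theorem L133358 : W_48 (nat_lit 3) (nat_lit 0x1800180004000200018000000000000000000) (nat_lit 0x0) (nat_lit 0x8000000020001800080000000000) := T_48 (nat_lit 59) (nat_lit 111) (nat_lit 7) (nat_lit 8) (nat_lit 3) L133357 (by decide +kernel)
theorem L133359 : W_48 (nat_lit 4) (nat_lit 0x1800180004000200010000000000000000000) (nat_lit 0x0) (nat_lit 0x8000000028001c00080000000000) := T_48 (nat_lit 75) (nat_lit 58) (nat_lit 4) (nat_lit 8) (nat_lit 7) L133358 (by decide +kernel)
theorem L133360 : W_48 (nat_lit 5) (nat_lit 0x1800180004000200000000000000000000000) (nat_lit 0x0) (nat_lit 0x40008000000038001c00080000000000) := T_48 (nat_lit 76) (nat_lit 126) (nat_lit 5) (nat_lit 8) (nat_lit 4) L133359 (by decide +kernel)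
theorem L133361 : W_48 (nat_lit 6) (nat_lit 0x1000180004000200000000000000000000000) (nat_lit 0x0) (nat_lit 0x10000800040008000000038001c00080000000000) := T_48 (nat_lit 143) (nat_lit 160) (nat_lit 5) (nat_lit 8) (nat_lit 5) L133360 (by decide +kernel)
theorem L133362 : W_48 (nat_lit 2) (nat_lit 0x1a00180004000200010000800000000000000) (nat_lit 0x0) (nat_lit 0x20001000080000000000) := D_48 (nat_lit 60) (nat_lit 43) (nat_lit 77) (nat_lit 6) (nat_lit 8) (nat_lit 6) (nat_lit 6) (nat_lit 8) (nat_lit 7) (by decide +kernel)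
theorem L133363 : W_48 (nat_lit 3) (nat_lit 0x1a00180004000200010000000000000000000) (nat_lit 0x0) (nat_lit 0x8000000020001800080000000000) := T_48 (nat_lit 59) (nat_lit 111) (nat_lit 7) (nat_lit 8) (nat_lit 3) L133362 (by decide +kernel)
theorem L133364 : W_48 (nat_lit 4) (nat_lit 0x1800180004000200010000000000000000000) (nat_lit 0x0) (nat_lit 0x600000008000000020001800080000000000) := T_48 (nat_lit 141) (nat_lit 142) (nat_lit 2) (nat_lit 5) (nat_lit 8) L133363 (by decide +kernel)
theorem L133365 : W_48 (nat_lit 5) (nat_lit 0x1800180004000200000000000000000000000) (nat_lit 0x0) (nat_lit 0x600040008000000030001800080000000000) := T_48 (nat_lit 76) (nat_lit 126) (nat_lit 5) (nat_lit 8) (nat_lit 4) L133364 (by decide +kernel)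
theorem L133366 : W_48 (nat_lit 6) (nat_lit 0x1000180004000200000000000000000000000) (nat_lit 0x0) (nat_lit 0x10000e00040008000000030001800080000000000) := T_48 (nat_lit 143) (nat_lit 160) (nat_lit 5) (nat_lit 8) (nat_lit 5) L133365 (by decide +kernel)
theorem L133367 : W_48 (nat_lit 10) (nat_lit 0x1000180004000000000000000000000000000) (nat_lit 0x0) (nat_lit 0x38000e0007003b800380038001c000c0000000000) := Q_48 (nat_lit 93) (C_48 L133341 (C_48 L133348 (C_48 L133356 (C_48 L133361 (C_48 L121043 (C_48 L133366 N_48)))))) (by decide +kernel)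
theorem L133368 : W_48 (nat_lit 4) (nat_lit 0x1000180004000000000000000000000000000) (nat_lit 0x0) (nat_lit 0x4000200030000e00640000000200000000000000000000000) := Q_48 (nat_lit 143) (C_48 L133110 (C_48 L133310 N_48)) (by decide +kernel)
theorem L133369 : W_48 (nat_lit 11) (nat_lit 0x1000080004000000000000000000000000000) (nat_lit 0x0) (nat_lit 0x400020003803cf00f7803b800380038001c000e0000000000) := Q_48 (nat_lit 128) (C_48 L133289 (C_48 L133294 (C_48 L133295 (C_48 L133311 (C_48 L133335 (C_48 L133367 (C_48 L133368 N_48))))))) (by decide +kernel)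
theorem L133370 : W_48 (nat_lit 19) (nat_lit 0x1000080000000000000000000000000000000) (nat_lit 0x0) (nat_lit 0x1c000e400fb803fc03cf01f7c07fc07ff00be005c000e0000000000) := Q_48 (nat_lit 110) (C_48 L133223 (C_48 L133240 (C_48 L133247 (C_48 L133248 (C_48 L133253 (C_48 L133283 (C_48 L133284 (C_48 L133369 N_48)))))))) (by decide +kernel)
end Crest.Agent.Helper32.Snaky.R1_0
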