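import Crest.Agent.Helper32.Snaky.Gen.R1_0_p1
set_option autoImplicit false
set_option maxRecDepth 100000
set_option linter.all false
set_option Elab.async false
namespace Crest.Agent.Helper32.Snaky.R1_0
@[reducible] def W_49 (d M Bz Z : Nat) : Prop := Crest.Agent.Helper32.Snaky.Wins (nat_lit 17) d M Bz Z
theorem D_49 {d M Bz Z : Nat} (m t1 t2 o1 x1 y1 o2 x2 y2 : Nat) (h : Crest.Agent.Helper32.Snaky.chkDoubleC (nat_lit 17) d M Bz Z m t1 t2 o1 x1 y1 o2 x2 y2 = true) : W_49 d M Bz Z := Crest.Agent.Helper32.Snaky.doubleC m t1 t2 o1 x1 y1 o2 x2 y2 h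
theorem T_49 {d M Bz Z cd cM cBz cZ : Nat} (m t o x y : Nat) (child : W_49 cd cM cBz cZ) (h : Crest.Agent.Helper32.Snaky.chkThreatC (nat_lit 17) d M Bz Z cd cM cBz cZ m t o x y = true) : W_49 d M Bz Z := Crest.Agent.Helper32.Snaky.threatC m t o x y child h
theorem Q_49 {d M Bz Z : Nat} (m : Nat) {l : List Crest.Agent.Helper32.Snaky.Spec} (kids : Crest.Agent.Helper32.Snaky.AllWins (nat_lit 17) l) (h : Crest.Agent.Helper32.Snaky.chkQuiet d M Bz Z m l = true) : W_49 d M Bz Z := Crest.Agent.Helper32.Snaky.quiet m kids h
theorem C_49 {cd cM cBz cZ : Nat} {l : List Crest.Agent.Helper32.Snaky.Spec} (h : W_49 cd cM cBz cZ) (hl : Crest.Agent.Helper32.Snaky.AllWins (nat_lit 17) l) : Crest.Agent.Helper32.Snaky.AllWins (nat_lit 17) ((cd, cM, cBz, cZ) :: l) := Crest.Agent.Helper32.Snaky.AllWins.cons h hl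
theorem N_49 : Crest.Agent.Helper32.Snaky.AllWins (nat_lit 17) [] := Crest.Agent.Helper32.Snaky.AllWins.nil
theorem L0 : W_49 (nat_lit 2) (nat_lit 0x80038001400080000000000000000000000000000000) (nat_lit 0x0) (nat_lit 0x100040000200000000000000000000000000000000000) := D_49 (nat_lit 162) (nat_lit 176) (nat_lit 141) (nat_lit 1) (nat_lit 9) (nat_lit 9) (nat_lit 0) (nat_lit 9) (nat_lit 9) (by decide +kernel)
theorem L17 : W_49 (nat_lit 7) (nat_lit 0x80038001400080000000000000000000000000000000) (nat_lit 0x0) (nat_lit 0x7000300004000380030001800040000000000000000000000) := Q_49 (nat_lit 125) (C_49 L6 (C_49 L9 (C_49 L14 (C_49 L16 N_49)))) (by decide +kernel)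
theorem L18 : W_49 (nat_lit 8) (nat_lit 0x80038001000080000000000000000000000000000000) (nat_lit 0x0) (nat_lit 0x7000300044000780030001800040000000000000000000000) := Q_49 (nat_lit 142) (C_49 L0 (C_49 L2 (C_49 L5 (C_49 L17 N_49)))) (by decide +kernel)
theorem L23 : W_49 (nat_lit 2) (nat_lit 0x8003c001200080000000000000000000000000000000) (nat_lit 0x0) (nat_lit 0x100040000400000000000000000000000000000000000) := D_49 (nat_lit 162) (nat_lit 176) (nat_lit 142) (nat_lit 1) (nat_lit 9) (nat_lit 9) (nat_lit 0) (nat_lit 9) (nat_lit 9) (by decide +kernel)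
theorem L24 : W_49 (nat_lit 3) (nat_lit 0x8003c001000080000000000000000000000000000000) (nat_lit 0x0) (nat_lit 0x100040000700000000000000000000000000000000000) := T_49 (nat_lit 141) (nat_lit 140) (nat_lit 0) (nat_lit 8) (nat_lit 9) L23 (by decide +kernel)
theorem L25 : W_49 (nat_lit 4) (nat_lit 0x80038001000080000000000000000000000000000000) (nat_lit 0x0) (nat_lit 0x140044000700000000000000000000000000000000000) := T_49 (nat_lit 158) (nat_lit 174) (nat_lit 1) (nat_lit 8) (nat_lit 9) L24 (by decide +kernel)
theorem L32 : W_49 (nat_lit 9) (nat_lit 0x38001000080000000000000000000000000000000) (nat_lit 0x0) (nat_lit 0x70003e0044000780030001800040000000000000000000000) := Q_49 (nat_lit 175) (C_49 L18 (C_49 L22 (C_49 L25 (C_49 L27 (C_49 L29 (C_49 L31 N_49)))))) (by decide +kernel)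
theorem L36 : W_49 (nat_lit 2) (nat_lit 0x1100078001400080000000000000000000000000000000) (nat_lit 0x0) (nat_lit 0x2200080000000000000000000000000000000000000000) := D_49 (nat_lit 163) (nat_lit 177) (nat_lit 181) (nat_lit 1) (nat_lit 10) (nat_lit 9) (nat_lit 3) (nat_lit 7) (nat_lit 9) (by decide +kernel)
theorem L37 : W_49 (nat_lit 3) (nat_lit 0x100078001400080000000000000000000000000000000) (nat_lit 0x0) (nat_lit 0x3a00080000000000000000000000000000000000000000) := T_49 (nat_lit 180) (nat_lit 179) (nat_lit 3) (nat_lit 6) (nat_lit 9) L36 (by decide +kernel)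
theorem L38 : W_49 (nat_lit 4) (nat_lit 0x78001400080000000000000000000000000000000) (nat_lit 0x0) (nat_lit 0x3b80080000000000000000000000000000000000000000) := T_49 (nat_lit 176) (nat_lit 175) (nat_lit 1) (nat_lit 9) (nat_lit 9) L37 (by decide +kernel)
theorem L39 : W_49 (nat_lit 5) (nat_lit 0x78001000080000000000000000000000000000000) (nat_lit 0x0) (nat_lit 0x3b80080000600000000000000000000000000000000000) := T_49 (nat_lit 142) (nat_lit 141) (nat_lit 0) (nat_lit 9) (nat_lit 9) L38 (by decide +kernel)
theorem L48 : W_49 (nat_lit 2) (nat_lit 0x20000000092007e001200080000000000000000000000000000000) (nat_lit 0x0) (nat_lit 0x210001000000000000000000000000000000000000000) := D_49 (nat_lit 156) (nat_lit 172) (nat_lit 177) (nat_lit 1) (nat_lit 6) (nat_lit 9) (nat_lit 3) (nat_lit 3) (nat_lit 9) (by decide +kernel)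
theorem L49 : W_49 (nat_lit 3) (nat_lit 0x20000000090007e001200080000000000000000000000000000000) (nat_lit 0x0) (nat_lit 0x270001000000000000000000000000000000000000000) := T_49 (nat_lit 173) (nat_lit 174) (nat_lit 1) (nat_lit 7) (nat_lit 9) L48 (by decide +kernel)
theorem L50 : W_49 (nat_lit 4) (nat_lit 0x20000000090007c001200080000000000000000000000000000000) (nat_lit 0x0) (nat_lit 0x270003000800000000000000000000000000000000000) := T_49 (nat_lit 157) (nat_lit 143) (nat_lit 2) (nat_lit 4) (nat_lit 9) L49 (by decide +kernel)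
theorem L51 : W_49 (nat_lit 5) (nat_lit 0x200000000900078001200080000000000000000000000000000000) (nat_lit 0x0) (nat_lit 0x270007000900000000000000000000000000000000000) := T_49 (nat_lit 158) (nat_lit 140) (nat_lit 0) (nat_lit 8) (nat_lit 9) L50 (by decide +kernel)
theorem L52 : W_49 (nat_lit 6) (nat_lit 0x900078001200080000000000000000000000000000000) (nat_lit 0x0) (nat_lit 0x200010000270007000900000000000000000000000000000000000) := T_49 (nat_lit 213) (nat_lit 196) (nat_lit 4) (nat_lit 9) (nat_lit 12) L51 (by decide +kernel)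
theorem L53 : W_49 (nat_lit 7) (nat_lit 0x900078001000080000000000000000000000000000000) (nat_lit 0x0) (nat_lit 0x200010000270007000f00000000000000000000000000000000000) := T_49 (nat_lit 141) (nat_lit 142) (nat_lit 0) (nat_lit 9) (nat_lit 9) L52 (by decide +kernel)
theorem L54 : W_49 (nat_lit 8) (nat_lit 0x100078001000080000000000000000000000000000000) (nat_lit 0x0) (nat_lit 0x200010001a70007000f00000000000000000000000000000000000) := T_49 (nat_lit 179) (nat_lit 180) (nat_lit 3) (nat_lit 6) (nat_lit 9) L53 (by decide +kernel)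
theorem L55 : W_49 (nat_lit 9) (nat_lit 0x78001000080000000000000000000000000000000) (nat_lit 0x0) (nat_lit 0x200010001bf0007000f00000000000000000000000000000000000) := T_49 (nat_lit 176) (nat_lit 175) (nat_lit 1) (nat_lit 9) (nat_lit 9) L54 (by decide +kernel)
theorem L56 : W_49 (nat_lit 10) (nat_lit 0x38001000080000000000000000000000000000000) (nat_lit 0x0) (nat_lit 0x200010003bf01c701cf00000000000000000000000000000000000) := Q_49 (nat_lit 162) (C_49 L35 (C_49 L39 (C_49 L44 (C_49 L47 (C_49 L55 N_49))))) (by decide +kernel)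
theorem L57 : W_49 (nat_lit 2) (nat_lit 0x3c001100080000000000000000000000000000000) (nat_lit 0x0) (nat_lit 0x2000880000000000000000000000000000000000) := D_49 (nat_lit 157) (nat_lit 143) (nat_lit 139) (nat_lit 2) (nat_lit 4) (nat_lit 9) (nat_lit 0) (nat_lit 7) (nat_lit 9) (by decide +kernel)
theorem L58 : W_49 (nat_lit 3) (nat_lit 0x3c001000080000000000000000000000000000000) (nat_lit 0x0) (nat_lit 0x2000b80000000000000000000000000000000000) := T_49 (nat_lit 140) (nat_lit 141) (nat_lit 0) (nat_lit 8) (nat_lit 9) L57 (by decide +kernel)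
theorem L59 : W_49 (nat_lit 2) (nat_lit 0x18003c001200080000000000000000000000000000000) (nat_lit 0x0) (nat_lit 0x40002000000000000000010000000000000000000000000000000) := D_49 (nat_lit 193) (nat_lit 210) (nat_lit 124) (nat_lit 4) (nat_lit 6) (nat_lit 12) (nat_lit 7) (nat_lit 5) (nat_lit 7) (by decide +kernel)
theorem L60 : W_49 (nat_lit 3) (nat_lit 0x8003c001200080000000000000000000000000000000) (nat_lit 0x0) (nat_lit 0x40002000100040000000010000000000000000000000000000000) := T_49 (nat_lit 176) (nat_lit 162) (nat_lit 1) (nat_lit 9) (nat_lit 9) L59 (by decide +kernel)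
theorem L61 : W_49 (nat_lit 4) (nat_lit 0x8003c001000080000000000000000000000000000000) (nat_lit 0x0) (nat_lit 0x40002000100040000300010000000000000000000000000000000) := T_49 (nat_lit 141) (nat_lit 140) (nat_lit 0) (nat_lit 8) (nat_lit 9) L60 (by decide +kernel)
theorem L62 : W_49 (nat_lit 5) (nat_lit 0x3c001000080000000000000000000000000000000) (nat_lit 0x0) (nat_lit 0x400020001c0040000300010000000000000000000000000000000) := T_49 (nat_lit 175) (nat_lit 174) (nat_lit 1) (nat_lit 8) (nat_lit 9) L61 (by decide +kernel)
theorem L63 : W_49 (nat_lit 2) (nat_lit 0x18003e001100080000000000000000000000000000000) (nat_lit 0x0) (nat_lit 0x200001800000000000000000000000000000000000000) := D_49 (nat_lit 156) (nat_lit 155) (nat_lit 177) (nat_lit 3) (nat_lit 2) (nat_lit 9) (nat_lit 3) (nat_lit 3) (nat_lit 9) (by decide +kernel)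
theorem L64 : W_49 (nat_lit 3) (nat_lit 0x8003e001100080000000000000000000000000000000) (nat_lit 0x0) (nat_lit 0x300041800000000000000000000000000000000000000) := T_49 (nat_lit 176) (nat_lit 162) (nat_lit 1) (nat_lit 9) (nat_lit 9) L63 (by decide +kernel)
theorem L65 : W_49 (nat_lit 4) (nat_lit 0x8003e001000080000000000000000000000000000000) (nat_lit 0x0) (nat_lit 0x300041800180000000000000000000000000000000000) := T_49 (nat_lit 140) (nat_lit 139) (nat_lit 0) (nat_lit 7) (nat_lit 9) L64 (by decide +kernel)
theorem L66 : W_49 (nat_lit 5) (nat_lit 0x8003c001000080000000000000000000000000000000) (nat_lit 0x0) (nat_lit 0x300043800980000000000000000000000000000000000) := T_49 (nat_lit 157) (nat_lit 143) (nat_lit 2) (nat_lit 4) (nat_lit 9) L65 (by decide +kernel)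
theorem L67 : W_49 (nat_lit 6) (nat_lit 0x3c001000080000000000000000000000000000000) (nat_lit 0x0) (nat_lit 0x3c0043800980000000000000000000000000000000000) := T_49 (nat_lit 175) (nat_lit 174) (nat_lit 1) (nat_lit 8) (nat_lit 9) L66 (by decide +kernel)
theorem L68 : W_49 (nat_lit 2) (nat_lit 0x18003e001000080000000000000000000000000000000) (nat_lit 0x0) (nat_lit 0x200001800000000000000000000000000000000000000) := D_49 (nat_lit 156) (nat_lit 155) (nat_lit 177) (nat_lit 3) (nat_lit 2) (nat_lit 9) (nat_lit 3) (nat_lit 3) (nat_lit 9) (by decide +kernel)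
theorem L69 : W_49 (nat_lit 3) (nat_lit 0x8003e001000080000000000000000000000000000000) (nat_lit 0x0) (nat_lit 0x300041800000000000000000000000000000000000000) := T_49 (nat_lit 176) (nat_lit 162) (nat_lit 1) (nat_lit 9) (nat_lit 9) L68 (by decide +kernel)
theorem L70 : W_49 (nat_lit 4) (nat_lit 0x8003c001000080000000000000000000000000000000) (nat_lit 0x0) (nat_lit 0x300043800800000000000000000000000000000000000) := T_49 (nat_lit 157) (nat_lit 143) (nat_lit 2) (nat_lit 4) (nat_lit 9) L69 (by decide +kernel)
theorem L71 : W_49 (nat_lit 5) (nat_lit 0x3c001000080000000000000000000000000000000) (nat_lit 0x0) (nat_lit 0x3c0043800800000000000000000000000000000000000) := T_49 (nat_lit 175) (nat_lit 174) (nat_lit 1) (nat_lit 8) (nat_lit 9) L70 (by decide +kernel)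
theorem L72 : W_49 (nat_lit 7) (nat_lit 0x38001000080000000000000000000000000000000) (nat_lit 0x0) (nat_lit 0x400020003c0047800b80010000000000000000000000000000000) := Q_49 (nat_lit 158) (C_49 L58 (C_49 L62 (C_49 L67 (C_49 L71 N_49)))) (by decide +kernel)
theorem L77 : W_49 (nat_lit 6) (nat_lit 0x38001000080000000000000000000000000000000) (nat_lit 0x0) (nat_lit 0x10000e0046000f80020001000000000000000000000000000) := Q_49 (nat_lit 158) (C_49 L58 (C_49 L74 (C_49 L76 N_49))) (by decide +kernel)
theorem L98 : W_49 (nat_lit 2) (nat_lit 0x20000600090007c001800080000000000000000000000000000000) (nat_lit 0x0) (nat_lit 0x400040002000000000000000000000000000) := D_49 (nat_lit 126) (nat_lit 109) (nat_lit 142) (nat_lit 5) (nat_lit 7) (nat_lit 6) (nat_lit 6) (nat_lit 6) (nat_lit 11) (by decide +kernel)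
theorem L99 : W_49 (nat_lit 3) (nat_lit 0x20000400090007c001800080000000000000000000000000000000) (nat_lit 0x0) (nat_lit 0x40002000000000000400040002000000000000000000000000000) := T_49 (nat_lit 193) (nat_lit 210) (nat_lit 6) (nat_lit 6) (nat_lit 12) L98 (by decide +kernel)
theorem L100 : W_49 (nat_lit 4) (nat_lit 0x400090007c001800080000000000000000000000000000000) (nat_lit 0x0) (nat_lit 0x240012000000000000400040002000000000000000000000000000) := T_49 (nat_lit 213) (nat_lit 196) (nat_lit 4) (nat_lit 9) (nat_lit 12) L99 (by decide +kernel)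
theorem L101 : W_49 (nat_lit 5) (nat_lit 0x400080007c001800080000000000000000000000000000000) (nat_lit 0x0) (nat_lit 0x240012000180000000400040002000000000000000000000000000) := T_49 (nat_lit 176) (nat_lit 175) (nat_lit 1) (nat_lit 9) (nat_lit 9) L100 (by decide +kernel)
theorem L102 : W_49 (nat_lit 6) (nat_lit 0x400080007c001000080000000000000000000000000000000) (nat_lit 0x0) (nat_lit 0x240012000180002000c00040002000000000000000000000000000) := T_49 (nat_lit 143) (nat_lit 157) (nat_lit 2) (nat_lit 4) (nat_lit 9) L101 (by decide +kernel)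
theorem L103 : W_49 (nat_lit 7) (nat_lit 0x400000007c001000080000000000000000000000000000000) (nat_lit 0x0) (nat_lit 0x240012001980002000c00040002000000000000000000000000000) := T_49 (nat_lit 179) (nat_lit 180) (nat_lit 3) (nat_lit 6) (nat_lit 9) L102 (by decide +kernel)
theorem L104 : W_49 (nat_lit 8) (nat_lit 0x4000000078001000080000000000000000000000000000000) (nat_lit 0x0) (nat_lit 0x2400120019f0007000dc0040002000000000000000000000000000) := Q_49 (nat_lit 158) (C_49 L96 (C_49 L97 (C_49 L103 N_49))) (by decide +kernel)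
theorem L105 : W_49 (nat_lit 9) (nat_lit 0x78001000080000000000000000000000000000000) (nat_lit 0x0) (nat_lit 0x200010002c0016001bf0007000dc0040002000000000000000000000000000) := Q_49 (nat_lit 194) (C_49 L87 (C_49 L91 (C_49 L104 N_49))) (by decide +kernel)
theorem L106 : W_49 (nat_lit 10) (nat_lit 0x38001000080000000000000000000000000000000) (nat_lit 0x0) (nat_lit 0x200010002c0016003bf01c7000dc0040002000000000000000000000000000) := Q_49 (nat_lit 162) (C_49 L80 (C_49 L83 (C_49 L86 (C_49 L105 N_49)))) (by decide +kernel)
theorem L117 : W_49 (nat_lit 6) (nat_lit 0x8000000028003c001400080000000000000000000000000000000) (nat_lit 0x0) (nat_lit 0x70003c00100000000300010000000000000000000000000000000) := T_49 (nat_lit 141) (nat_lit 140) (nat_lit 0) (nat_lit 8) (nat_lit 9) L116 (by decide +kernel)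
theorem L118 : W_49 (nat_lit 7) (nat_lit 0x8000000020003c001400080000000000000000000000000000000) (nat_lit 0x0) (nat_lit 0x70003c001c0000000300010000000000000000000000000000000) := T_49 (nat_lit 175) (nat_lit 174) (nat_lit 1) (nat_lit 8) (nat_lit 9) L117 (by decide +kernel)
theorem L119 : W_49 (nat_lit 8) (nat_lit 0x20003c001400080000000000000000000000000000000) (nat_lit 0x0) (nat_lit 0xf0007c001c0000000300010000000000000000000000000000000) := T_49 (nat_lit 211) (nat_lit 194) (nat_lit 6) (nat_lit 7) (nat_lit 12) L118 (by decide +kernel)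
theorem L120 : W_49 (nat_lit 2) (nat_lit 0x28003c0014000a0000000000000000000000000000000) (nat_lit 0x0) (nat_lit 0x20001000000000000200000000000000000000000000000000000) := D_49 (nat_lit 192) (nat_lit 209) (nat_lit 141) (nat_lit 6) (nat_lit 5) (nat_lit 12) (nat_lit 6) (nat_lit 5) (nat_lit 11) (by decide +kernel)
theorem L121 : W_49 (nat_lit 3) (nat_lit 0x28003c001400080000000000000000000000000000000) (nat_lit 0x0) (nat_lit 0x20001000000000000200020001000000000000000000000000000) := T_49 (nat_lit 125) (nat_lit 108) (nat_lit 7) (nat_lit 6) (nat_lit 6) L120 (by decide +kernel)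
theorem L122 : W_49 (nat_lit 4) (nat_lit 0x20003c001400080000000000000000000000000000000) (nat_lit 0x0) (nat_lit 0x200010000c0000000200020001000000000000000000000000000) := T_49 (nat_lit 175) (nat_lit 174) (nat_lit 1) (nat_lit 8) (nat_lit 9) L121 (by decide +kernel)
theorem L123 : W_49 (nat_lit 9) (nat_lit 0x20003c001000080000000000000000000000000000000) (nat_lit 0x0) (nat_lit 0xf0007c001c0000000700030001000000000000000000000000000) := Q_49 (nat_lit 142) (C_49 L112 (C_49 L119 (C_49 L122 N_49))) (by decide +kernel)
theorem L126 : W_49 (nat_lit 4) (nat_lit 0x28003c001800080000000000000000000000000000000) (nat_lit 0x0) (nat_lit 0x1000000000000700120001000000000000000000000000000) := T_49 (nat_lit 141) (nat_lit 140) (nat_lit 0) (nat_lit 8) (nat_lit 9) L125 (by decide +kernel)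
theorem L127 : W_49 (nat_lit 5) (nat_lit 0x20003c001800080000000000000000000000000000000) (nat_lit 0x0) (nat_lit 0x10000c0000000700120001000000000000000000000000000) := T_49 (nat_lit 175) (nat_lit 174) (nat_lit 1) (nat_lit 8) (nat_lit 9) L126 (by decide +kernel)
theorem L128 : W_49 (nat_lit 6) (nat_lit 0x20003c001000080000000000000000000000000000000) (nat_lit 0x0) (nat_lit 0x50000c0000000f00120001000000000000000000000000000) := T_49 (nat_lit 143) (nat_lit 194) (nat_lit 6) (nat_lit 7) (nat_lit 11) L127 (by decide +kernel)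
theorem L142 : W_49 (nat_lit 7) (nat_lit 0x20003c001000080000000000000000000000000000000) (nat_lit 0x0) (nat_lit 0x200030001c0000000f00138001800000000000000000000000000) := Q_49 (nat_lit 142) (C_49 L133 (C_49 L122 (C_49 L138 (C_49 L141 N_49)))) (by decide +kernel)
theorem L143 : W_49 (nat_lit 10) (nat_lit 0x3c001000080000000000000000000000000000000) (nat_lit 0x0) (nat_lit 0xf0007c003c0000000f00138001800000000000000000000000000) := Q_49 (nat_lit 177) (C_49 L110 (C_49 L123 (C_49 L128 (C_49 L142 N_49)))) (by decide +kernel)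
theorem L144 : W_49 (nat_lit 11) (nat_lit 0x38001000080000000000000000000000000000000) (nat_lit 0x0) (nat_lit 0xf0007c003e0006000f80138001800000000000000000000000000) := Q_49 (nat_lit 158) (C_49 L76 (C_49 L58 (C_49 L109 (C_49 L143 N_49)))) (by decide +kernel)
theorem L146 : W_49 (nat_lit 3) (nat_lit 0x38001400080000000000000000000000000000000) (nat_lit 0x0) (nat_lit 0x44000380000000000000000000000000000000000) := T_49 (nat_lit 141) (nat_lit 162) (nat_lit 0) (nat_lit 9) (nat_lit 9) L145 (by decide +kernel)
theorem L147 : W_49 (nat_lit 2) (nat_lit 0x4000100038001400080000000000000000000000000000000) (nat_lit 0x0) (nat_lit 0x80002000200000000000000000000000000000000000000000000) := D_49 (nat_lit 211) (nat_lit 177) (nat_lit 193) (nat_lit 6) (nat_lit 7) (nat_lit 12) (nat_lit 7) (nat_lit 6) (nat_lit 8) (by decide +kernel)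
theorem L148 : W_49 (nat_lit 2) (nat_lit 0x40006000100038001400080000000000000000000000000000000) (nat_lit 0x0) (nat_lit 0x400020001000000000000000000000000000000000000000000000000) := D_49 (nat_lit 209) (nat_lit 226) (nat_lit 192) (nat_lit 5) (nat_lit 6) (nat_lit 9) (nat_lit 5) (nat_lit 6) (nat_lit 8) (by decide +kernel)
theorem L149 : W_49 (nat_lit 3) (nat_lit 0x6000100038001400080000000000000000000000000000000) (nat_lit 0x0) (nat_lit 0x400060001000000000000800000000000000000000000000000000000) := T_49 (nat_lit 210) (nat_lit 143) (nat_lit 6) (nat_lit 6) (nat_lit 12) L148 (by decide +kernel)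
theorem L150 : W_49 (nat_lit 4) (nat_lit 0x4000100038001400080000000000000000000000000000000) (nat_lit 0x0) (nat_lit 0x4000e0003000000000000800000000000000000000000000000000000) := T_49 (nat_lit 193) (nat_lit 211) (nat_lit 7) (nat_lit 6) (nat_lit 8) L149 (by decide +kernel)
theorem L151 : W_49 (nat_lit 2) (nat_lit 0x4000100038001400080000000000000000000000000000000) (nat_lit 0x0) (nat_lit 0x80000000200000000000020000000000000000000000000000000) := D_49 (nat_lit 177) (nat_lit 125) (nat_lit 211) (nat_lit 7) (nat_lit 6) (nat_lit 7) (nat_lit 6) (nat_lit 7) (nat_lit 12) (by decide +kernel)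
theorem L152 : W_49 (nat_lit 2) (nat_lit 0x4000100038001400080000000000000000000000000000000) (nat_lit 0x0) (nat_lit 0x200000000800020000000000000000000000000000000) := D_49 (nat_lit 177) (nat_lit 125) (nat_lit 143) (nat_lit 7) (nat_lit 6) (nat_lit 7) (nat_lit 6) (nat_lit 7) (nat_lit 11) (by decide +kernel)
theorem L153 : W_49 (nat_lit 5) (nat_lit 0x100038001400080000000000000000000000000000000) (nat_lit 0x0) (nat_lit 0x4000e0007000200000000800020000000000000000000000000000000) := Q_49 (nat_lit 194) (C_49 L147 (C_49 L150 (C_49 L151 (C_49 L152 N_49)))) (by decide +kernel)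
theorem L154 : W_49 (nat_lit 2) (nat_lit 0x2000100038001400080000000000000000000000000000000) (nat_lit 0x0) (nat_lit 0x40000000000000000800040000000000000000000000000000000) := D_49 (nat_lit 143) (nat_lit 126) (nat_lit 210) (nat_lit 6) (nat_lit 6) (nat_lit 11) (nat_lit 6) (nat_lit 6) (nat_lit 12) (by decide +kernel)
theorem L155 : W_49 (nat_lit 2) (nat_lit 0x40003000100038001400080000000000000000000000000000000) (nat_lit 0x0) (nat_lit 0x1000080004000000000000000000000000000000000000000000000000) := D_49 (nat_lit 211) (nat_lit 194) (nat_lit 228) (nat_lit 7) (nat_lit 6) (nat_lit 8) (nat_lit 7) (nat_lit 6) (nat_lit 9) (by decide +kernel)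
theorem L156 : W_49 (nat_lit 3) (nat_lit 0x3000100038001400080000000000000000000000000000000) (nat_lit 0x0) (nat_lit 0x10000c0004000000000000800000000000000000000000000000000000) := T_49 (nat_lit 210) (nat_lit 143) (nat_lit 6) (nat_lit 6) (nat_lit 12) L155 (by decide +kernel)
theorem L157 : W_49 (nat_lit 4) (nat_lit 0x2000100038001400080000000000000000000000000000000) (nat_lit 0x0) (nat_lit 0x10000e0005000000000000800000000000000000000000000000000000) := T_49 (nat_lit 192) (nat_lit 209) (nat_lit 5) (nat_lit 6) (nat_lit 8) L156 (by decide +kernel)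
theorem L158 : W_49 (nat_lit 2) (nat_lit 0x68016000300078001400080000000000000000000000000000000) (nat_lit 0x0) (nat_lit 0x200000001800000000000000000000000000000000000000000000) := D_49 (nat_lit 179) (nat_lit 180) (nat_lit 213) (nat_lit 3) (nat_lit 6) (nat_lit 9) (nat_lit 4) (nat_lit 9) (nat_lit 12) (by decide +kernel)
theorem L159 : W_49 (nat_lit 3) (nat_lit 0x68016000300038001400080000000000000000000000000000000) (nat_lit 0x0) (nat_lit 0x2000000018000c0000000000000000000000000000000000000000) := T_49 (nat_lit 162) (nat_lit 163) (nat_lit 1) (nat_lit 10) (nat_lit 9) L158 (by decide +kernel)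
theorem L160 : W_49 (nat_lit 4) (nat_lit 0x68006000300038001400080000000000000000000000000000000) (nat_lit 0x0) (nat_lit 0x2000180018000c0000000000000000000000000000000000000000) := T_49 (nat_lit 196) (nat_lit 195) (nat_lit 1) (nat_lit 9) (nat_lit 11) L159 (by decide +kernel)
theorem L161 : W_49 (nat_lit 5) (nat_lit 0x68006000100038001400080000000000000000000000000000000) (nat_lit 0x0) (nat_lit 0x800200018001a000c0000000000000000000000000000000000000000) := T_49 (nat_lit 177) (nat_lit 227) (nat_lit 6) (nat_lit 6) (nat_lit 13) L160 (by decide +kernel)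
theorem L162 : W_49 (nat_lit 6) (nat_lit 0x60006000100038001400080000000000000000000000000000000) (nat_lit 0x0) (nat_lit 0x800218018001a000c0000000000000000000000000000000000000000) := T_49 (nat_lit 207) (nat_lit 208) (nat_lit 2) (nat_lit 3) (nat_lit 12) L161 (by decide +kernel)
theorem L163 : W_49 (nat_lit 7) (nat_lit 0x20006000100038001400080000000000000000000000000000000) (nat_lit 0x0) (nat_lit 0xc00258018001a000c0000000000000000000000000000000000000000) := T_49 (nat_lit 210) (nat_lit 226) (nat_lit 5) (nat_lit 6) (nat_lit 9) L162 (by decide +kernel)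
theorem L164 : W_49 (nat_lit 8) (nat_lit 0x6000100038001400080000000000000000000000000000000) (nat_lit 0x0) (nat_lit 0xc00278019001a000c0000000000000000000000000000000000000000) := T_49 (nat_lit 209) (nat_lit 192) (nat_lit 5) (nat_lit 6) (nat_lit 8) L163 (by decide +kernel)
theorem L165 : W_49 (nat_lit 9) (nat_lit 0x2000100038001400080000000000000000000000000000000) (nat_lit 0x0) (nat_lit 0xc002f801d001a000c0000000000000000000000000000000000000000) := T_49 (nat_lit 194) (nat_lit 211) (nat_lit 7) (nat_lit 6) (nat_lit 8) L164 (by decide +kernel)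
theorem L166 : W_49 (nat_lit 2) (nat_lit 0x3000100038001c00080000000000000000000000000000000) (nat_lit 0x0) (nat_lit 0x80004000200000000000000000000000000000000000000000000) := D_49 (nat_lit 194) (nat_lit 177) (nat_lit 211) (nat_lit 6) (nat_lit 7) (nat_lit 11) (nat_lit 7) (nat_lit 6) (nat_lit 8) (by decide +kernel)
theorem L167 : W_49 (nat_lit 3) (nat_lit 0x3000100038001400080000000000000000000000000000000) (nat_lit 0x0) (nat_lit 0x80004000200000000800040000000000000000000000000000000) := T_49 (nat_lit 143) (nat_lit 126) (nat_lit 6) (nat_lit 6) (nat_lit 11) L166 (by decide +kernel)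
theorem L168 : W_49 (nat_lit 4) (nat_lit 0x2000100038001400080000000000000000000000000000000) (nat_lit 0x0) (nat_lit 0xa0005000200000000800040000000000000000000000000000000) := T_49 (nat_lit 192) (nat_lit 209) (nat_lit 5) (nat_lit 6) (nat_lit 8) L167 (by decide +kernel)
theorem L169 : W_49 (nat_lit 10) (nat_lit 0x100038001400080000000000000000000000000000000) (nat_lit 0x0) (nat_lit 0x1c002f801f001a000c0000800040000000000000000000000000000000) := Q_49 (nat_lit 193) (C_49 L154 (C_49 L157 (C_49 L165 (C_49 L168 N_49)))) (by decide +kernel)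
theorem L170 : W_49 (nat_lit 2) (nat_lit 0x800060002000100038001400080000000000000000000000000000000) (nat_lit 0x0) (nat_lit 0x20001000080000000000000000000000000000000000000000000000000000) := D_49 (nat_lit 228) (nat_lit 211) (nat_lit 245) (nat_lit 7) (nat_lit 6) (nat_lit 9) (nat_lit 7) (nat_lit 6) (nat_lit 10) (by decide +kernel)
theorem L171 : W_49 (nat_lit 3) (nat_lit 0x60002000100038001400080000000000000000000000000000000) (nat_lit 0x0) (nat_lit 0x20001800080000000200000000000000000000000000000000000000000000) := T_49 (nat_lit 227) (nat_lit 177) (nat_lit 6) (nat_lit 6) (nat_lit 13) L170 (by decide +kernel)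
theorem L172 : W_49 (nat_lit 4) (nat_lit 0x20002000100038001400080000000000000000000000000000000) (nat_lit 0x0) (nat_lit 0x20001c000c0000000200000000000000000000000000000000000000000000) := T_49 (nat_lit 210) (nat_lit 226) (nat_lit 5) (nat_lit 6) (nat_lit 9) L171 (by decide +kernel)
theorem L173 : W_49 (nat_lit 5) (nat_lit 0x2000100038001400080000000000000000000000000000000) (nat_lit 0x0) (nat_lit 0x20001c000e0001000200000000000000000000000000000000000000000000) := T_49 (nat_lit 209) (nat_lit 192) (nat_lit 5) (nat_lit 6) (nat_lit 8) L172 (by decide +kernel)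
theorem L174 : W_49 (nat_lit 2) (nat_lit 0xa0002000100038001400080000000000000000000000000000000) (nat_lit 0x0) (nat_lit 0x1400040000000000000000000000000000000000000000000000000000) := D_49 (nat_lit 210) (nat_lit 226) (nat_lit 228) (nat_lit 5) (nat_lit 6) (nat_lit 9) (nat_lit 7) (nat_lit 6) (nat_lit 9) (by decide +kernel)
theorem L175 : W_49 (nat_lit 3) (nat_lit 0x20002000100038001400080000000000000000000000000000000) (nat_lit 0x0) (nat_lit 0x14000c0004000000000000000000000000000000000000000000000000) := T_49 (nat_lit 211) (nat_lit 194) (nat_lit 7) (nat_lit 6) (nat_lit 8) L174 (by decide +kernel)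
theorem L176 : W_49 (nat_lit 4) (nat_lit 0x2000100038001400080000000000000000000000000000000) (nat_lit 0x0) (nat_lit 0x14000e0005000000000000000000000000000000000000000000000000) := T_49 (nat_lit 209) (nat_lit 192) (nat_lit 5) (nat_lit 6) (nat_lit 8) L175 (by decide +kernel)
theorem L177 : W_49 (nat_lit 2) (nat_lit 0x60002000300038001400080000000000000000000000000000000) (nat_lit 0x0) (nat_lit 0x4000000000000000020001000000000000000000000000000) := D_49 (nat_lit 125) (nat_lit 108) (nat_lit 194) (nat_lit 7) (nat_lit 6) (nat_lit 6) (nat_lit 7) (nat_lit 6) (nat_lit 7) (by decide +kernel)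
theorem L178 : W_49 (nat_lit 3) (nat_lit 0x60002000100038001400080000000000000000000000000000000) (nat_lit 0x0) (nat_lit 0x800000004000200000000000020001000000000000000000000000000) := T_49 (nat_lit 177) (nat_lit 227) (nat_lit 6) (nat_lit 6) (nat_lit 13) L177 (by decide +kernel)
theorem L179 : W_49 (nat_lit 4) (nat_lit 0x20002000100038001400080000000000000000000000000000000) (nat_lit 0x0) (nat_lit 0xc00040004000200000000000020001000000000000000000000000000) := T_49 (nat_lit 210) (nat_lit 226) (nat_lit 5) (nat_lit 6) (nat_lit 9) L178 (by decide +kernel)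
theorem L180 : W_49 (nat_lit 5) (nat_lit 0x2000100038001400080000000000000000000000000000000) (nat_lit 0x0) (nat_lit 0xc00060005000200000000000020001000000000000000000000000000) := T_49 (nat_lit 209) (nat_lit 192) (nat_lit 5) (nat_lit 6) (nat_lit 8) L179 (by decide +kernel)
theorem L181 : W_49 (nat_lit 2) (nat_lit 0x60001000380014000e0000800000000000000000000000000) (nat_lit 0x0) (nat_lit 0x100001000040000000000000000000000) := D_49 (nat_lit 108) (nat_lit 90) (nat_lit 128) (nat_lit 4) (nat_lit 6) (nat_lit 9) (nat_lit 0) (nat_lit 9) (nat_lit 7) (by decide +kernel)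
theorem L182 : W_49 (nat_lit 3) (nat_lit 0x60001000380014000e0000000000000000000000000000000) (nat_lit 0x0) (nat_lit 0x110001800040000000000000000000000) := T_49 (nat_lit 107) (nat_lit 124) (nat_lit 4) (nat_lit 6) (nat_lit 10) L181 (by decide +kernel)
theorem L183 : W_49 (nat_lit 4) (nat_lit 0x60001000380014000a0000000000000000000000000000000) (nat_lit 0x0) (nat_lit 0x150003800040000000000000000000000) := T_49 (nat_lit 126) (nat_lit 109) (nat_lit 6) (nat_lit 6) (nat_lit 10) L182 (by decide +kernel)
theorem L184 : W_49 (nat_lit 5) (nat_lit 0x6000100038001400080000000000000000000000000000000) (nat_lit 0x0) (nat_lit 0x200000000000170003800040000000000000000000000) := T_49 (nat_lit 125) (nat_lit 177) (nat_lit 7) (nat_lit 6) (nat_lit 7) L183 (by decide +kernel)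
theorem L185 : W_49 (nat_lit 6) (nat_lit 0x2000100038001400080000000000000000000000000000000) (nat_lit 0x0) (nat_lit 0x80004000200000000000170003800040000000000000000000000) := T_49 (nat_lit 194) (nat_lit 211) (nat_lit 7) (nat_lit 6) (nat_lit 8) L184 (by decide +kernel)
theorem L186 : W_49 (nat_lit 7) (nat_lit 0x100038001400080000000000000000000000000000000) (nat_lit 0x0) (nat_lit 0x20001c000e0007000200000000000170003800040000000000000000000000) := Q_49 (nat_lit 193) (C_49 L173 (C_49 L176 (C_49 L180 (C_49 L185 N_49)))) (by decide +kernel)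
theorem L187 : W_49 (nat_lit 2) (nat_lit 0x70001000380014000e0000800000000000000000000000000) (nat_lit 0x0) (nat_lit 0x100001000040000000000000000000000) := D_49 (nat_lit 108) (nat_lit 90) (nat_lit 128) (nat_lit 4) (nat_lit 6) (nat_lit 9) (nat_lit 0) (nat_lit 9) (nat_lit 7) (by decide +kernel)
theorem L188 : W_49 (nat_lit 3) (nat_lit 0x70001000380014000e0000000000000000000000000000000) (nat_lit 0x0) (nat_lit 0x110001800040000000000000000000000) := T_49 (nat_lit 107) (nat_lit 124) (nat_lit 4) (nat_lit 6) (nat_lit 10) L187 (by decide +kernel)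
theorem L189 : W_49 (nat_lit 4) (nat_lit 0x70001000380014000c0000000000000000000000000000000) (nat_lit 0x0) (nat_lit 0x130003800040000000000000000000000) := T_49 (nat_lit 125) (nat_lit 109) (nat_lit 6) (nat_lit 6) (nat_lit 10) L188 (by decide +kernel)
theorem L190 : W_49 (nat_lit 5) (nat_lit 0x7000100038001400080000000000000000000000000000000) (nat_lit 0x0) (nat_lit 0x800170003800040000000000000000000000) := T_49 (nat_lit 126) (nat_lit 143) (nat_lit 6) (nat_lit 6) (nat_lit 11) L189 (by decide +kernel)
theorem L191 : W_49 (nat_lit 6) (nat_lit 0x3000100038001400080000000000000000000000000000000) (nat_lit 0x0) (nat_lit 0x80004000000000000800170003800040000000000000000000000) := T_49 (nat_lit 194) (nat_lit 211) (nat_lit 7) (nat_lit 6) (nat_lit 8) L190 (by decide +kernel)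
theorem L192 : W_49 (nat_lit 7) (nat_lit 0x2000100038001400080000000000000000000000000000000) (nat_lit 0x0) (nat_lit 0xa0005000000000000800170003800040000000000000000000000) := T_49 (nat_lit 192) (nat_lit 209) (nat_lit 5) (nat_lit 6) (nat_lit 8) L191 (by decide +kernel)
theorem L193 : W_49 (nat_lit 8) (nat_lit 0x100038001400080000000000000000000000000000000) (nat_lit 0x0) (nat_lit 0x14000e0007000000000000800170003800040000000000000000000000) := Q_49 (nat_lit 193) (C_49 L154 (C_49 L176 (C_49 L192 N_49))) (by decide +kernel)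
theorem L194 : W_49 (nat_lit 2) (nat_lit 0x3000b80014800f8000200000000000000000000000000) (nat_lit 0x0) (nat_lit 0x40004000100000000000000000000000000) := D_49 (nat_lit 122) (nat_lit 138) (nat_lit 104) (nat_lit 1) (nat_lit 6) (nat_lit 7) (nat_lit 0) (nat_lit 6) (nat_lit 7) (by decide +kernel)
theorem L195 : W_49 (nat_lit 3) (nat_lit 0x3000b80014800f8000000000000000000000000000000) (nat_lit 0x0) (nat_lit 0x40004000700000000000000000000000000) := T_49 (nat_lit 105) (nat_lit 106) (nat_lit 0) (nat_lit 7) (nat_lit 7) L194 (by decide +kernel)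
theorem L196 : W_49 (nat_lit 4) (nat_lit 0x3000b80014000f8000000000000000000000000000000) (nat_lit 0x0) (nat_lit 0x1c0004000700000000000000000000000000) := T_49 (nat_lit 139) (nat_lit 140) (nat_lit 1) (nat_lit 7) (nat_lit 7) L195 (by decide +kernel)
theorem L197 : W_49 (nat_lit 5) (nat_lit 0x3000b80014000f0000000000000000000000000000000) (nat_lit 0x0) (nat_lit 0x9c000c000700000000000000000000000000) := T_49 (nat_lit 123) (nat_lit 143) (nat_lit 3) (nat_lit 4) (nat_lit 7) L196 (by decide +kernel)
theorem L198 : W_49 (nat_lit 6) (nat_lit 0x3000b80014000e0000000000000000000000000000000) (nat_lit 0x0) (nat_lit 0x9c001c000f00000000000000000000000000) := T_49 (nat_lit 124) (nat_lit 107) (nat_lit 4) (nat_lit 6) (nat_lit 10) L197 (by decide +kernel)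
theorem L199 : W_49 (nat_lit 7) (nat_lit 0x3000b80014000a0000000000000000000000000000000) (nat_lit 0x0) (nat_lit 0x9c005c002f00000000000000000000000000) := T_49 (nat_lit 126) (nat_lit 109) (nat_lit 6) (nat_lit 6) (nat_lit 10) L198 (by decide +kernel)
theorem L200 : W_49 (nat_lit 8) (nat_lit 0x3000b8001400080000000000000000000000000000000) (nat_lit 0x0) (nat_lit 0x9c007c003f00000000000000000000000000) := T_49 (nat_lit 125) (nat_lit 108) (nat_lit 7) (nat_lit 6) (nat_lit 6) L199 (by decide +kernel)
theorem L201 : W_49 (nat_lit 9) (nat_lit 0x300038001400080000000000000000000000000000000) (nat_lit 0x0) (nat_lit 0xc00009c007c003f00000000000000000000000000) := T_49 (nat_lit 163) (nat_lit 162) (nat_lit 1) (nat_lit 10) (nat_lit 9) L200 (by decide +kernel)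
theorem L202 : W_49 (nat_lit 2) (nat_lit 0x300038001400080000000000000000000000000000000) (nat_lit 0x0) (nat_lit 0x80004000000000000000020000000000000000000000000000000) := D_49 (nat_lit 194) (nat_lit 125) (nat_lit 211) (nat_lit 7) (nat_lit 6) (nat_lit 7) (nat_lit 6) (nat_lit 7) (nat_lit 12) (by decide +kernel)
theorem L203 : W_49 (nat_lit 2) (nat_lit 0x300038001400080000000000000000000000000000000) (nat_lit 0x0) (nat_lit 0x80004000000000000800000000000000000000000000000000000) := D_49 (nat_lit 194) (nat_lit 211) (nat_lit 143) (nat_lit 6) (nat_lit 7) (nat_lit 12) (nat_lit 6) (nat_lit 7) (nat_lit 11) (by decide +kernel)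
theorem L204 : W_49 (nat_lit 10) (nat_lit 0x100038001400080000000000000000000000000000000) (nat_lit 0x0) (nat_lit 0x800040002000c00009c007c003f00000000000000000000000000) := Q_49 (nat_lit 177) (C_49 L201 (C_49 L202 (C_49 L203 N_49))) (by decide +kernel)
theorem L205 : W_49 (nat_lit 2) (nat_lit 0x100038001c000b0001000000000000000000000000000) (nat_lit 0x0) (nat_lit 0x48002000000000000000000000000000) := D_49 (nat_lit 126) (nat_lit 109) (nat_lit 123) (nat_lit 6) (nat_lit 6) (nat_lit 10) (nat_lit 3) (nat_lit 4) (nat_lit 7) (by decide +kernel)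
theorem L206 : W_49 (nat_lit 3) (nat_lit 0x1000380014000b0001000000000000000000000000000) (nat_lit 0x0) (nat_lit 0x800048002000080000000000000000000000) := T_49 (nat_lit 143) (nat_lit 91) (nat_lit 7) (nat_lit 6) (nat_lit 5) L205 (by decide +kernel)
theorem L207 : W_49 (nat_lit 4) (nat_lit 0x1000380014000b0000000000000000000000000000000) (nat_lit 0x0) (nat_lit 0x200000000800048003000080000000000000000000000) := T_49 (nat_lit 108) (nat_lit 177) (nat_lit 7) (nat_lit 6) (nat_lit 6) L206 (by decide +kernel)
theorem L208 : W_49 (nat_lit 5) (nat_lit 0x1000380014000a0000000000000000000000000000000) (nat_lit 0x0) (nat_lit 0x200000000800058003800080000000000000000000000) := T_49 (nat_lit 124) (nat_lit 107) (nat_lit 4) (nat_lit 6) (nat_lit 10) L207 (by decide +kernel)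
theorem L209 : W_49 (nat_lit 2) (nat_lit 0x600020001000380014000f0000000000000000000000000000000) (nat_lit 0x0) (nat_lit 0x800000004000200000000000000000000000000000000000000000000) := D_49 (nat_lit 177) (nat_lit 194) (nat_lit 227) (nat_lit 7) (nat_lit 6) (nat_lit 7) (nat_lit 6) (nat_lit 6) (nat_lit 13) (by decide +kernel)
theorem L210 : W_49 (nat_lit 3) (nat_lit 0x200020001000380014000f0000000000000000000000000000000) (nat_lit 0x0) (nat_lit 0xc00040004000200000000000000000000000000000000000000000000) := T_49 (nat_lit 210) (nat_lit 226) (nat_lit 5) (nat_lit 6) (nat_lit 9) L209 (by decide +kernel)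
theorem L211 : W_49 (nat_lit 4) (nat_lit 0x200020001000380014000e0000000000000000000000000000000) (nat_lit 0x0) (nat_lit 0xc00040004000200000000000010000800000000000000000000000000) := T_49 (nat_lit 124) (nat_lit 107) (nat_lit 4) (nat_lit 6) (nat_lit 10) L210 (by decide +kernel)
theorem L212 : W_49 (nat_lit 5) (nat_lit 0x20001000380014000e0000000000000000000000000000000) (nat_lit 0x0) (nat_lit 0xc00060005000200000000000010000800000000000000000000000000) := T_49 (nat_lit 209) (nat_lit 192) (nat_lit 5) (nat_lit 6) (nat_lit 8) L211 (by decide +kernel)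
theorem L213 : W_49 (nat_lit 6) (nat_lit 0x1000380014000e0000000000000000000000000000000) (nat_lit 0x0) (nat_lit 0xc00060007000200000000800010000800000000000000000000000000) := T_49 (nat_lit 193) (nat_lit 143) (nat_lit 6) (nat_lit 6) (nat_lit 11) L212 (by decide +kernel)
theorem L214 : W_49 (nat_lit 7) (nat_lit 0x1000380014000a0000000000000000000000000000000) (nat_lit 0x0) (nat_lit 0xc00060007000200000000800050002800000000000000000000000000) := T_49 (nat_lit 126) (nat_lit 109) (nat_lit 6) (nat_lit 6) (nat_lit 10) L213 (by decide +kernel)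
theorem L215 : W_49 (nat_lit 2) (nat_lit 0x1000380014000a0000000000000000000000000000000) (nat_lit 0x0) (nat_lit 0x4000200000000000000001000000000000000000000000000) := D_49 (nat_lit 177) (nat_lit 194) (nat_lit 108) (nat_lit 7) (nat_lit 6) (nat_lit 7) (nat_lit 7) (nat_lit 6) (nat_lit 6) (by decide +kernel)
theorem L216 : W_49 (nat_lit 2) (nat_lit 0x1000380014000f0000000000000000000000000000000) (nat_lit 0x0) (nat_lit 0x2000000000000800008000000000000000000000000000000) := D_49 (nat_lit 143) (nat_lit 193) (nat_lit 123) (nat_lit 6) (nat_lit 6) (nat_lit 11) (nat_lit 3) (nat_lit 4) (nat_lit 7) (by decide +kernel)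
theorem L217 : W_49 (nat_lit 3) (nat_lit 0x1000380014000b0000000000000000000000000000000) (nat_lit 0x0) (nat_lit 0x2000000000000800048002000000000000000000000000000) := T_49 (nat_lit 126) (nat_lit 109) (nat_lit 6) (nat_lit 6) (nat_lit 10) L216 (by decide +kernel)
theorem L218 : W_49 (nat_lit 4) (nat_lit 0x1000380014000a0000000000000000000000000000000) (nat_lit 0x0) (nat_lit 0x2000000000000800058002800000000000000000000000000) := T_49 (nat_lit 124) (nat_lit 107) (nat_lit 4) (nat_lit 6) (nat_lit 10) L217 (by decide +kernel)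
theorem L219 : W_49 (nat_lit 8) (nat_lit 0x100038001400080000000000000000000000000000000) (nat_lit 0x0) (nat_lit 0xc00060007000200000000800078003800080000000000000000000000) := Q_49 (nat_lit 125) (C_49 L208 (C_49 L214 (C_49 L215 (C_49 L218 N_49)))) (by decide +kernel)
theorem L220 : W_49 (nat_lit 2) (nat_lit 0x30001000380014000e0000800000000000000000000000000) (nat_lit 0x0) (nat_lit 0x200000000000000001000040000000000000000000000) := D_49 (nat_lit 108) (nat_lit 177) (nat_lit 90) (nat_lit 7) (nat_lit 6) (nat_lit 6) (nat_lit 4) (nat_lit 6) (nat_lit 9) (by decide +kernel)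
theorem L221 : W_49 (nat_lit 3) (nat_lit 0x30001000380014000e0000000000000000000000000000000) (nat_lit 0x0) (nat_lit 0x200000000000010001800040000000000000000000000) := T_49 (nat_lit 107) (nat_lit 124) (nat_lit 4) (nat_lit 6) (nat_lit 10) L220 (by decide +kernel)
theorem L222 : W_49 (nat_lit 4) (nat_lit 0x30001000380014000c0000000000000000000000000000000) (nat_lit 0x0) (nat_lit 0x200000000000030003800040000000000000000000000) := T_49 (nat_lit 125) (nat_lit 109) (nat_lit 6) (nat_lit 6) (nat_lit 10) L221 (by decide +kernel)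
theorem L223 : W_49 (nat_lit 5) (nat_lit 0x3000100038001400080000000000000000000000000000000) (nat_lit 0x0) (nat_lit 0x200000000800070003800040000000000000000000000) := T_49 (nat_lit 126) (nat_lit 143) (nat_lit 6) (nat_lit 6) (nat_lit 11) L222 (by decide +kernel)
theorem L224 : W_49 (nat_lit 6) (nat_lit 0x2000100038001400080000000000000000000000000000000) (nat_lit 0x0) (nat_lit 0x20001000200000000800070003800040000000000000000000000) := T_49 (nat_lit 192) (nat_lit 209) (nat_lit 5) (nat_lit 6) (nat_lit 8) L223 (by decide +kernel)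
theorem L225 : W_49 (nat_lit 7) (nat_lit 0x100038001400080000000000000000000000000000000) (nat_lit 0x0) (nat_lit 0x20001c000e0003000200000000800070003800040000000000000000000000) := Q_49 (nat_lit 193) (C_49 L173 (C_49 L154 (C_49 L224 N_49))) (by decide +kernel)
theorem L226 : W_49 (nat_lit 11) (nat_lit 0x38001400080000000000000000000000000000000) (nat_lit 0x0) (nat_lit 0x20001c002f801f001b000c00009c017c003f000c0000000000000000000000) := Q_49 (nat_lit 176) (C_49 L153 (C_49 L169 (C_49 L186 (C_49 L193 (C_49 L204 (C_49 L219 (C_49 L225 N_49))))))) (by decide +kernel)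
theorem L228 : W_49 (nat_lit 2) (nat_lit 0x400010003a001e00090000000000000000000000000000000) (nat_lit 0x0) (nat_lit 0x20000800040000000000000000000000) := D_49 (nat_lit 107) (nat_lit 90) (nat_lit 125) (nat_lit 7) (nat_lit 5) (nat_lit 5) (nat_lit 4) (nat_lit 6) (nat_lit 10) (by decide +kernel)
theorem L229 : W_49 (nat_lit 3) (nat_lit 0x400000003a001e00090000000000000000000000000000000) (nat_lit 0x0) (nat_lit 0x2000100000000000020000800040000000000000000000000) := T_49 (nat_lit 176) (nat_lit 193) (nat_lit 4) (nat_lit 6) (nat_lit 11) L228 (by decide +kernel)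
theorem L230 : W_49 (nat_lit 4) (nat_lit 0x400000003a001e00080000000000000000000000000000000) (nat_lit 0x0) (nat_lit 0x2000100000000000038000800040000000000000000000000) := T_49 (nat_lit 124) (nat_lit 123) (nat_lit 0) (nat_lit 8) (nat_lit 8) L229 (by decide +kernel)
theorem L231 : W_49 (nat_lit 5) (nat_lit 0x4000000038001e00080000000000000000000000000000000) (nat_lit 0x0) (nat_lit 0x2000100006000000038000800040000000000000000000000) := T_49 (nat_lit 157) (nat_lit 158) (nat_lit 2) (nat_lit 4) (nat_lit 9) L230 (by decide +kernel)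
theorem L232 : W_49 (nat_lit 6) (nat_lit 0x4000000038001c00080000000000000000000000000000000) (nat_lit 0x0) (nat_lit 0x2000100006000300038000800040000000000000000000000) := T_49 (nat_lit 141) (nat_lit 140) (nat_lit 3) (nat_lit 4) (nat_lit 8) L231 (by decide +kernel)
theorem L233 : W_49 (nat_lit 7) (nat_lit 0x38001c00080000000000000000000000000000000) (nat_lit 0x0) (nat_lit 0x6000300006000300038000800040000000000000000000000) := T_49 (nat_lit 194) (nat_lit 177) (nat_lit 6) (nat_lit 7) (nat_lit 11) L232 (by decide +kernel)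
theorem L234 : W_49 (nat_lit 2) (nat_lit 0x100038001c00080000000000000000000000000000000) (nat_lit 0x0) (nat_lit 0x40002000000000000000040000000000000000000000000000000) := D_49 (nat_lit 193) (nat_lit 210) (nat_lit 126) (nat_lit 6) (nat_lit 6) (nat_lit 12) (nat_lit 6) (nat_lit 6) (nat_lit 11) (by decide +kernel)
theorem L235 : W_49 (nat_lit 2) (nat_lit 0x400010003a001c00080000000000000000000000000000000) (nat_lit 0x0) (nat_lit 0xc0002000000000000000000000000000000000000000000000000) := D_49 (nat_lit 193) (nat_lit 211) (nat_lit 210) (nat_lit 7) (nat_lit 6) (nat_lit 8) (nat_lit 6) (nat_lit 6) (nat_lit 12) (by decide +kernel)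
theorem L236 : W_49 (nat_lit 3) (nat_lit 0x10003a001c00080000000000000000000000000000000) (nat_lit 0x0) (nat_lit 0xc0006000200000000000000000000000000000000000000000000) := T_49 (nat_lit 194) (nat_lit 177) (nat_lit 6) (nat_lit 7) (nat_lit 11) L235 (by decide +kernel)
theorem L237 : W_49 (nat_lit 4) (nat_lit 0x100038001c00080000000000000000000000000000000) (nat_lit 0x0) (nat_lit 0xc0006000200006000000000000000000000000000000000000000) := T_49 (nat_lit 157) (nat_lit 158) (nat_lit 2) (nat_lit 4) (nat_lit 9) L236 (by decide +kernel)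
theorem L238 : W_49 (nat_lit 2) (nat_lit 0x30003a001c000e0000000000000000000000000000000) (nat_lit 0x0) (nat_lit 0x18000800000000000000000000000000) := D_49 (nat_lit 124) (nat_lit 107) (nat_lit 123) (nat_lit 4) (nat_lit 6) (nat_lit 10) (nat_lit 3) (nat_lit 4) (nat_lit 7) (by decide +kernel)
theorem L239 : W_49 (nat_lit 3) (nat_lit 0x30003a001c000a0000000000000000000000000000000) (nat_lit 0x0) (nat_lit 0x58002800000000000000000000000000) := T_49 (nat_lit 126) (nat_lit 109) (nat_lit 6) (nat_lit 6) (nat_lit 10) L238 (by decide +kernel)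
theorem L240 : W_49 (nat_lit 4) (nat_lit 0x30003a001c00080000000000000000000000000000000) (nat_lit 0x0) (nat_lit 0x78003800000000000000000000000000) := T_49 (nat_lit 125) (nat_lit 108) (nat_lit 7) (nat_lit 6) (nat_lit 6) L239 (by decide +kernel)
theorem L241 : W_49 (nat_lit 5) (nat_lit 0x300038001c00080000000000000000000000000000000) (nat_lit 0x0) (nat_lit 0x6000000078003800000000000000000000000000) := T_49 (nat_lit 157) (nat_lit 158) (nat_lit 2) (nat_lit 4) (nat_lit 9) L240 (by decide +kernel)
theorem L242 : W_49 (nat_lit 6) (nat_lit 0x100038001c00080000000000000000000000000000000) (nat_lit 0x0) (nat_lit 0x4000200006000000078003800000000000000000000000000) := T_49 (nat_lit 177) (nat_lit 194) (nat_lit 6) (nat_lit 7) (nat_lit 11) L241 (by decide +kernel)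
theorem L243 : W_49 (nat_lit 7) (nat_lit 0x38001c00080000000000000000000000000000000) (nat_lit 0x0) (nat_lit 0xc0006000300006000000078003800000000000000000000000000) := Q_49 (nat_lit 176) (C_49 L234 (C_49 L237 (C_49 L242 N_49))) (by decide +kernel)
theorem L244 : W_49 (nat_lit 8) (nat_lit 0x38001400080000000000000000000000000000000) (nat_lit 0x0) (nat_lit 0xc0006000300006000b00178003800040000000000000000000000) := Q_49 (nat_lit 143) (C_49 L227 (C_49 L233 (C_49 L243 N_49))) (by decide +kernel)
theorem L245 : W_49 (nat_lit 4) (nat_lit 0x38001400080000000000000000000000000000000) (nat_lit 0x0) (nat_lit 0x38000c0000a00000000000000000000000000000000000) := T_49 (nat_lit 162) (nat_lit 141) (nat_lit 0) (nat_lit 9) (nat_lit 9) L34 (by decide +kernel)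
theorem L246 : W_49 (nat_lit 12) (nat_lit 0x38001000080000000000000000000000000000000) (nat_lit 0x0) (nat_lit 0x20001c002f801f003b000c6000fc017c003f000c0000000000000000000000) := Q_49 (nat_lit 142) (C_49 L146 (C_49 L226 (C_49 L244 (C_49 L245 N_49)))) (by decide +kernel)
theorem L247 : W_49 (nat_lit 2) (nat_lit 0x200078001000080000000000000000000000000000000) (nat_lit 0x0) (nat_lit 0x80004000000000000800000000000000000000000000000000000) := D_49 (nat_lit 194) (nat_lit 211) (nat_lit 143) (nat_lit 6) (nat_lit 7) (nat_lit 12) (nat_lit 6) (nat_lit 7) (nat_lit 11) (by decide +kernel)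
theorem L248 : W_49 (nat_lit 2) (nat_lit 0x200000000a000780014000a0000000000000000000000000000000) (nat_lit 0x0) (nat_lit 0x80004000100000000000000000000000000000000000000000000) := D_49 (nat_lit 194) (nat_lit 211) (nat_lit 176) (nat_lit 6) (nat_lit 7) (nat_lit 12) (nat_lit 7) (nat_lit 6) (nat_lit 7) (by decide +kernel)
theorem L249 : W_49 (nat_lit 3) (nat_lit 0x200000000a00078001400080000000000000000000000000000000) (nat_lit 0x0) (nat_lit 0x80004000100000000000020001000000000000000000000000000) := T_49 (nat_lit 125) (nat_lit 108) (nat_lit 7) (nat_lit 6) (nat_lit 6) L248 (by decide +kernel)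
theorem L250 : W_49 (nat_lit 4) (nat_lit 0xa00078001400080000000000000000000000000000000) (nat_lit 0x0) (nat_lit 0x280014000100000000000020001000000000000000000000000000) := T_49 (nat_lit 213) (nat_lit 196) (nat_lit 4) (nat_lit 9) (nat_lit 12) L249 (by decide +kernel)
theorem L251 : W_49 (nat_lit 5) (nat_lit 0xa00078001000080000000000000000000000000000000) (nat_lit 0x0) (nat_lit 0x280014000100000000600020001000000000000000000000000000) := T_49 (nat_lit 142) (nat_lit 141) (nat_lit 0) (nat_lit 9) (nat_lit 9) L250 (by decide +kernel)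
theorem L252 : W_49 (nat_lit 6) (nat_lit 0x200078001000080000000000000000000000000000000) (nat_lit 0x0) (nat_lit 0x280014001900000000600020001000000000000000000000000000) := T_49 (nat_lit 179) (nat_lit 180) (nat_lit 3) (nat_lit 6) (nat_lit 9) L251 (by decide +kernel)
theorem L253 : W_49 (nat_lit 2) (nat_lit 0x200000000b00078001c00080001000000000000000000000000000) (nat_lit 0x0) (nat_lit 0x40002000000000000000040000000000000000000000000000000) := D_49 (nat_lit 193) (nat_lit 126) (nat_lit 210) (nat_lit 6) (nat_lit 6) (nat_lit 11) (nat_lit 6) (nat_lit 6) (nat_lit 12) (by decide +kernel)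
theorem L254 : W_49 (nat_lit 3) (nat_lit 0x200000000b00078001400080001000000000000000000000000000) (nat_lit 0x0) (nat_lit 0x40006000000000000800040000000000000000000000000000000) := T_49 (nat_lit 143) (nat_lit 194) (nat_lit 6) (nat_lit 7) (nat_lit 11) L253 (by decide +kernel)
theorem L255 : W_49 (nat_lit 4) (nat_lit 0x200000000a00078001400080001000000000000000000000000000) (nat_lit 0x0) (nat_lit 0x40006000180000000800040000000000000000000000000000000) := T_49 (nat_lit 176) (nat_lit 175) (nat_lit 1) (nat_lit 9) (nat_lit 9) L254 (by decide +kernel)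
theorem L256 : W_49 (nat_lit 5) (nat_lit 0xa00078001400080001000000000000000000000000000) (nat_lit 0x0) (nat_lit 0x240016000180000000800040000000000000000000000000000000) := T_49 (nat_lit 213) (nat_lit 196) (nat_lit 4) (nat_lit 9) (nat_lit 12) L255 (by decide +kernel)
theorem L257 : W_49 (nat_lit 6) (nat_lit 0xa00078001400080000000000000000000000000000000) (nat_lit 0x0) (nat_lit 0x240016000180000000800060001000000000000000000000000000) := T_49 (nat_lit 108) (nat_lit 125) (nat_lit 7) (nat_lit 6) (nat_lit 6) L256 (by decide +kernel)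
theorem L258 : W_49 (nat_lit 7) (nat_lit 0x200078001400080000000000000000000000000000000) (nat_lit 0x0) (nat_lit 0x240016001980000000800060001000000000000000000000000000) := T_49 (nat_lit 179) (nat_lit 180) (nat_lit 3) (nat_lit 6) (nat_lit 9) L257 (by decide +kernel)
theorem L259 : W_49 (nat_lit 8) (nat_lit 0x200078001000080000000000000000000000000000000) (nat_lit 0x0) (nat_lit 0x240016001980000000e00060001000000000000000000000000000) := T_49 (nat_lit 142) (nat_lit 141) (nat_lit 0) (nat_lit 9) (nat_lit 9) L258 (by decide +kernel)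
theorem L268 : W_49 (nat_lit 10) (nat_lit 0x78001000080000000000000000000000000000000) (nat_lit 0x0) (nat_lit 0x2c0016001b80000000e00078003800000000000000000000000000) := Q_49 (nat_lit 177) (C_49 L247 (C_49 L252 (C_49 L259 (C_49 L267 N_49)))) (by decide +kernel)
theorem L269 : W_49 (nat_lit 11) (nat_lit 0x38001000080000000000000000000000000000000) (nat_lit 0x0) (nat_lit 0x2c0016003b801c0000e00078003800000000000000000000000000) := Q_49 (nat_lit 162) (C_49 L83 (C_49 L86 (C_49 L80 (C_49 L268 N_49)))) (by decide +kernel)
theorem L270 : W_49 (nat_lit 13) (nat_lit 0x30001000080000000000000000000000000000000) (nat_lit 0x0) (nat_lit 0x20001c002f801fc03bf01cf81cfc017c003f000c0000000000000000000000) := Q_49 (nat_lit 159) (C_49 L32 (C_49 L56 (C_49 L72 (C_49 L77 (C_49 L106 (C_49 L144 (C_49 L246 (C_49 L269 N_49)))))))) (by decide +kernel)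
theorem L274 : W_49 (nat_lit 2) (nat_lit 0x8007800120008000c000000000000000000000000000) (nat_lit 0x0) (nat_lit 0x40004000100000000000000000000000000000000000) := D_49 (nat_lit 158) (nat_lit 174) (nat_lit 140) (nat_lit 1) (nat_lit 8) (nat_lit 9) (nat_lit 0) (nat_lit 8) (nat_lit 9) (by decide +kernel)
theorem L275 : W_49 (nat_lit 3) (nat_lit 0x8007800100008000c000000000000000000000000000) (nat_lit 0x0) (nat_lit 0x40004000700000000000000000000000000000000000) := T_49 (nat_lit 141) (nat_lit 142) (nat_lit 0) (nat_lit 9) (nat_lit 9) L274 (by decide +kernel)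
theorem L276 : W_49 (nat_lit 4) (nat_lit 0x7800100008000c000000000000000000000000000) (nat_lit 0x0) (nat_lit 0x1c0004000700000000000000000000000000000000000) := T_49 (nat_lit 175) (nat_lit 176) (nat_lit 1) (nat_lit 9) (nat_lit 9) L275 (by decide +kernel)
theorem L277 : W_49 (nat_lit 5) (nat_lit 0x3800100008000c000000000000000000000000000) (nat_lit 0x0) (nat_lit 0x9c0044000700000000000000000000000000000000000) := T_49 (nat_lit 162) (nat_lit 179) (nat_lit 7) (nat_lit 8) (nat_lit 6) L276 (by decide +kernel)
theorem L278 : W_49 (nat_lit 6) (nat_lit 0x38001000080004000000000000000000000000000) (nat_lit 0x0) (nat_lit 0x9c0044000700000008000400000000000000000000000) := T_49 (nat_lit 111) (nat_lit 94) (nat_lit 6) (nat_lit 8) (nat_lit 9) L277 (by decide +kernel)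
theorem L279 : W_49 (nat_lit 7) (nat_lit 0x38001000080000000000000000000000000000000) (nat_lit 0x0) (nat_lit 0xbc004400070000000c000400000000000000000000000) := T_49 (nat_lit 110) (nat_lit 177) (nat_lit 5) (nat_lit 8) (nat_lit 6) L278 (by decide +kernel)
theorem L282 : W_49 (nat_lit 2) (nat_lit 0x78001000080000000000000000000000000000000) (nat_lit 0x0) (nat_lit 0xa00000000000000004000000000000000000000000000) := D_49 (nat_lit 110) (nat_lit 179) (nat_lit 177) (nat_lit 7) (nat_lit 8) (nat_lit 6) (nat_lit 5) (nat_lit 8) (nat_lit 6) (by decide +kernel)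
theorem L284 : W_49 (nat_lit 5) (nat_lit 0x38001000080000000000000000000000000000000) (nat_lit 0x0) (nat_lit 0x3b800c0000000000004000000000000000000000000000) := Q_49 (nat_lit 162) (C_49 L83 (C_49 L281 (C_49 L282 (C_49 L283 N_49)))) (by decide +kernel)
theorem L285 : W_49 (nat_lit 2) (nat_lit 0x8007c0012000b0004000000000000000000000000000) (nat_lit 0x0) (nat_lit 0x40008000400000000000000000000000) := D_49 (nat_lit 111) (nat_lit 126) (nat_lit 94) (nat_lit 2) (nat_lit 5) (nat_lit 7) (nat_lit 6) (nat_lit 8) (nat_lit 9) (by decide +kernel)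
theorem L286 : W_49 (nat_lit 3) (nat_lit 0x8007c001200090004000000000000000000000000000) (nat_lit 0x0) (nat_lit 0x60009000400000000000000000000000) := T_49 (nat_lit 125) (nat_lit 108) (nat_lit 6) (nat_lit 5) (nat_lit 10) L285 (by decide +kernel)
theorem L287 : W_49 (nat_lit 4) (nat_lit 0x8003c001200090004000000000000000000000000000) (nat_lit 0x0) (nat_lit 0x800040000000060009000400000000000000000000000) := T_49 (nat_lit 162) (nat_lit 179) (nat_lit 7) (nat_lit 8) (nat_lit 6) L286 (by decide +kernel)
theorem L288 : W_49 (nat_lit 5) (nat_lit 0x3c001200090004000000000000000000000000000) (nat_lit 0x0) (nat_lit 0x8c0040000000060009000400000000000000000000000) := T_49 (nat_lit 175) (nat_lit 174) (nat_lit 1) (nat_lit 8) (nat_lit 9) L287 (by decide +kernel)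
theorem L289 : W_49 (nat_lit 6) (nat_lit 0x3c001200090000000000000000000000000000000) (nat_lit 0x0) (nat_lit 0xac004000000006000d000400000000000000000000000) := T_49 (nat_lit 110) (nat_lit 177) (nat_lit 5) (nat_lit 8) (nat_lit 6) L288 (by decide +kernel)
theorem L290 : W_49 (nat_lit 2) (nat_lit 0x4003c001200090000000000000000000000000000000) (nat_lit 0x0) (nat_lit 0x20002000000000000800000000000000000000000000) := D_49 (nat_lit 157) (nat_lit 173) (nat_lit 107) (nat_lit 1) (nat_lit 7) (nat_lit 9) (nat_lit 5) (nat_lit 5) (nat_lit 6) (by decide +kernel)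
theorem L291 : W_49 (nat_lit 3) (nat_lit 0x3c001200090000000000000000000000000000000) (nat_lit 0x0) (nat_lit 0xe0002000000000000800000000000000000000000000) := T_49 (nat_lit 174) (nat_lit 175) (nat_lit 1) (nat_lit 8) (nat_lit 9) L290 (by decide +kernel)
theorem L292 : W_49 (nat_lit 2) (nat_lit 0x3c0012000b000d000000000000000000000000000) (nat_lit 0x0) (nat_lit 0x800080004000000000000000000) := D_49 (nat_lit 91) (nat_lit 74) (nat_lit 107) (nat_lit 5) (nat_lit 6) (nat_lit 4) (nat_lit 6) (nat_lit 5) (nat_lit 9) (by decide +kernel)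
theorem L293 : W_49 (nat_lit 3) (nat_lit 0x3c0012000b000c000000000000000000000000000) (nat_lit 0x0) (nat_lit 0x3800080004000000000000000000) := T_49 (nat_lit 108) (nat_lit 109) (nat_lit 1) (nat_lit 9) (nat_lit 6) L292 (by decide +kernel)
theorem L294 : W_49 (nat_lit 4) (nat_lit 0x3c00120009000c000000000000000000000000000) (nat_lit 0x0) (nat_lit 0x60003800080004000000000000000000) := T_49 (nat_lit 125) (nat_lit 126) (nat_lit 2) (nat_lit 5) (nat_lit 7) L293 (by decide +kernel)
theorem L295 : W_49 (nat_lit 5) (nat_lit 0x3c001200090004000000000000000000000000000) (nat_lit 0x0) (nat_lit 0x6000b800480004000000000000000000) := T_49 (nat_lit 111) (nat_lit 94) (nat_lit 6) (nat_lit 8) (nat_lit 9) L294 (by decide +kernel)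
theorem L296 : W_49 (nat_lit 6) (nat_lit 0x3c001200090000000000000000000000000000000) (nat_lit 0x0) (nat_lit 0x20000000000006000f800480004000000000000000000) := T_49 (nat_lit 110) (nat_lit 177) (nat_lit 5) (nat_lit 8) (nat_lit 6) L295 (by decide +kernel)
theorem L297 : W_49 (nat_lit 7) (nat_lit 0x3c001200080000000000000000000000000000000) (nat_lit 0x0) (nat_lit 0xae004200000007000f800480004000000000000000000) := Q_49 (nat_lit 124) (C_49 L289 (C_49 L291 (C_49 L296 N_49))) (by decide +kernel)
theorem L298 : W_49 (nat_lit 8) (nat_lit 0x38001200080000000000000000000000000000000) (nat_lit 0x0) (nat_lit 0xae004600010007000f800480004000000000000000000) := T_49 (nat_lit 158) (nat_lit 140) (nat_lit 0) (nat_lit 8) (nat_lit 9) L297 (by decide +kernel)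
theorem L302 : W_49 (nat_lit 2) (nat_lit 0x1000000004003e0012000b000d000000000000000000000000000) (nat_lit 0x0) (nat_lit 0x400000000000080004000000000000000000) := D_49 (nat_lit 91) (nat_lit 74) (nat_lit 142) (nat_lit 5) (nat_lit 6) (nat_lit 4) (nat_lit 5) (nat_lit 6) (nat_lit 5) (by decide +kernel)
theorem L303 : W_49 (nat_lit 3) (nat_lit 0x1000000004003e0012000b000c000000000000000000000000000) (nat_lit 0x0) (nat_lit 0x400000003000080004000000000000000000) := T_49 (nat_lit 108) (nat_lit 109) (nat_lit 1) (nat_lit 9) (nat_lit 6) L302 (by decide +kernel)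
theorem L304 : W_49 (nat_lit 4) (nat_lit 0x1000000004003e00120009000c000000000000000000000000000) (nat_lit 0x0) (nat_lit 0x400060003000080004000000000000000000) := T_49 (nat_lit 125) (nat_lit 126) (nat_lit 2) (nat_lit 5) (nat_lit 7) L303 (by decide +kernel)
theorem L305 : W_49 (nat_lit 5) (nat_lit 0x4003e00120009000c000000000000000000000000000) (nat_lit 0x0) (nat_lit 0x10000800000000000400060003000080004000000000000000000) := T_49 (nat_lit 208) (nat_lit 191) (nat_lit 6) (nat_lit 4) (nat_lit 12) L304 (by decide +kernel)
theorem L306 : W_49 (nat_lit 6) (nat_lit 0x4003e00120008000c000000000000000000000000000) (nat_lit 0x0) (nat_lit 0x10000800000000000400070003800080004000000000000000000) := T_49 (nat_lit 124) (nat_lit 107) (nat_lit 5) (nat_lit 5) (nat_lit 6) L305 (by decide +kernel)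
theorem L307 : W_49 (nat_lit 7) (nat_lit 0x4003c00120008000c000000000000000000000000000) (nat_lit 0x0) (nat_lit 0x10000800020002000400070003800080004000000000000000000) := T_49 (nat_lit 157) (nat_lit 173) (nat_lit 1) (nat_lit 7) (nat_lit 9) L306 (by decide +kernel)
theorem L308 : W_49 (nat_lit 8) (nat_lit 0x3c00120008000c000000000000000000000000000) (nat_lit 0x0) (nat_lit 0x100008000e0002000400070003800080004000000000000000000) := T_49 (nat_lit 174) (nat_lit 175) (nat_lit 1) (nat_lit 8) (nat_lit 9) L307 (by decide +kernel)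
theorem L309 : W_49 (nat_lit 9) (nat_lit 0x3c001200080004000000000000000000000000000) (nat_lit 0x0) (nat_lit 0x100008000e000200040007000b800480004000000000000000000) := T_49 (nat_lit 111) (nat_lit 94) (nat_lit 6) (nat_lit 8) (nat_lit 9) L308 (by decide +kernel)
theorem L310 : W_49 (nat_lit 10) (nat_lit 0x38001200080004000000000000000000000000000) (nat_lit 0x0) (nat_lit 0x100008000e000600050007000b800480004000000000000000000) := T_49 (nat_lit 158) (nat_lit 140) (nat_lit 0) (nat_lit 8) (nat_lit 9) L309 (by decide +kernel)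
theorem L311 : W_49 (nat_lit 11) (nat_lit 0x38001200080000000000000000000000000000000) (nat_lit 0x0) (nat_lit 0x100008002e000600050007000f800480004000000000000000000) := T_49 (nat_lit 110) (nat_lit 177) (nat_lit 5) (nat_lit 8) (nat_lit 6) L310 (by decide +kernel)
theorem L312 : W_49 (nat_lit 12) (nat_lit 0x38001000080000000000000000000000000000000) (nat_lit 0x0) (nat_lit 0x10000800ae004600078007000f800480004000000000000000000) := Q_49 (nat_lit 141) (C_49 L298 (C_49 L300 (C_49 L301 (C_49 L311 N_49)))) (by decide +kernel)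
theorem L316 : W_49 (nat_lit 5) (nat_lit 0x38001000080000000000000000000000000000000) (nat_lit 0x0) (nat_lit 0x19c0044000700000004000000000000000000000000000) := Q_49 (nat_lit 162) (C_49 L283 (C_49 L315 N_49)) (by decide +kernel)
theorem L338 : W_49 (nat_lit 2) (nat_lit 0x2000000009003f8014400e000c000000000000000000000000000) (nat_lit 0x0) (nat_lit 0x32000000000000000000000000000) := D_49 (nat_lit 112) (nat_lit 113) (nat_lit 109) (nat_lit 1) (nat_lit 11) (nat_lit 6) (nat_lit 1) (nat_lit 10) (nat_lit 6) (by decide +kernel)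
theorem L339 : W_49 (nat_lit 3) (nat_lit 0x2000000009003f8014400a000c000000000000000000000000000) (nat_lit 0x0) (nat_lit 0x50032000000000000000000000000000) := T_49 (nat_lit 126) (nat_lit 124) (nat_lit 2) (nat_lit 5) (nat_lit 7) L338 (by decide +kernel)
theorem L340 : W_49 (nat_lit 4) (nat_lit 0x2000000009003f80144008000c000000000000000000000000000) (nat_lit 0x0) (nat_lit 0x70033000000000000000000000000000) := T_49 (nat_lit 125) (nat_lit 108) (nat_lit 5) (nat_lit 6) (nat_lit 6) L339 (by decide +kernel)
theorem L341 : W_49 (nat_lit 5) (nat_lit 0x9003f80144008000c000000000000000000000000000) (nat_lit 0x0) (nat_lit 0x20001000000000000000070033000000000000000000000000000) := T_49 (nat_lit 209) (nat_lit 192) (nat_lit 6) (nat_lit 5) (nat_lit 12) L340 (by decide +kernel)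
theorem L342 : W_49 (nat_lit 6) (nat_lit 0x8003f80144008000c000000000000000000000000000) (nat_lit 0x0) (nat_lit 0x20001000018000000000070033000000000000000000000000000) := T_49 (nat_lit 172) (nat_lit 171) (nat_lit 1) (nat_lit 5) (nat_lit 9) L341 (by decide +kernel)
theorem L343 : W_49 (nat_lit 7) (nat_lit 0x8003f80104008000c000000000000000000000000000) (nat_lit 0x0) (nat_lit 0x20001000018000000600070033000000000000000000000000000) := T_49 (nat_lit 142) (nat_lit 141) (nat_lit 2) (nat_lit 2) (nat_lit 9) L342 (by decide +kernel)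
theorem L344 : W_49 (nat_lit 8) (nat_lit 0x8003f801040080004000000000000000000000000000) (nat_lit 0x0) (nat_lit 0x2000100001800000060007003b000400000000000000000000000) := T_49 (nat_lit 111) (nat_lit 94) (nat_lit 6) (nat_lit 8) (nat_lit 9) L343 (by decide +kernel)
theorem L345 : W_49 (nat_lit 9) (nat_lit 0x8003f001040080004000000000000000000000000000) (nat_lit 0x0) (nat_lit 0x2000100001800080062007003b000400000000000000000000000) := T_49 (nat_lit 155) (nat_lit 137) (nat_lit 0) (nat_lit 5) (nat_lit 9) L344 (by decide +kernel)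
theorem L346 : W_49 (nat_lit 10) (nat_lit 0x3f001040080004000000000000000000000000000) (nat_lit 0x0) (nat_lit 0x200010000d800080062007003b000400000000000000000000000) := T_49 (nat_lit 175) (nat_lit 174) (nat_lit 1) (nat_lit 8) (nat_lit 9) L345 (by decide +kernel)
theorem L347 : W_49 (nat_lit 11) (nat_lit 0x3f001000080004000000000000000000000000000) (nat_lit 0x0) (nat_lit 0x200010000d80008006e007003b000400000000000000000000000) := T_49 (nat_lit 138) (nat_lit 139) (nat_lit 0) (nat_lit 6) (nat_lit 9) L346 (by decide +kernel)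
theorem L348 : W_49 (nat_lit 12) (nat_lit 0x3f001000080000000000000000000000000000000) (nat_lit 0x0) (nat_lit 0x200010002d80008006e007003f000400000000000000000000000) := T_49 (nat_lit 110) (nat_lit 177) (nat_lit 5) (nat_lit 8) (nat_lit 6) L347 (by decide +kernel)
theorem L352 : W_49 (nat_lit 13) (nat_lit 0x3e001000080000000000000000000000000000000) (nat_lit 0x0) (nat_lit 0x200010003d80018006e007003f000400000000000000000000000) := Q_49 (nat_lit 156) (C_49 L337 (C_49 L348 (C_49 L351 N_49))) (by decide +kernel)
theorem L353 : W_49 (nat_lit 14) (nat_lit 0x3c001000080000000000000000000000000000000) (nat_lit 0x0) (nat_lit 0x200010003f80038006e007003f000400000000000000000000000) := Q_49 (nat_lit 157) (C_49 L75 (C_49 L331 (C_49 L336 (C_49 L352 N_49)))) (by decide +kernel)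
theorem L360 : W_49 (nat_lit 7) (nat_lit 0x3c001000080000000000000000000000000000000) (nat_lit 0x0) (nat_lit 0x3380038007e0000004000000000000000000000000000) := Q_49 (nat_lit 157) (C_49 L336 (C_49 L354 (C_49 L359 N_49))) (by decide +kernel)
theorem L361 : W_49 (nat_lit 10) (nat_lit 0x3c001000080000000000000000000000000000000) (nat_lit 0x0) (nat_lit 0xf0007c003c0000000700030005000000000000000000000000000) := T_49 (nat_lit 177) (nat_lit 110) (nat_lit 5) (nat_lit 8) (nat_lit 6) L123 (by decide +kernel)
theorem L362 : W_49 (nat_lit 15) (nat_lit 0x38001000080000000000000000000000000000000) (nat_lit 0x0) (nat_lit 0xf0007c003f80078007e007003f000400000000000000000000000) := Q_49 (nat_lit 158) (C_49 L109 (C_49 L322 (C_49 L328 (C_49 L353 (C_49 L360 (C_49 L361 N_49)))))) (by decide +kernel)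
theorem L363 : W_49 (nat_lit 2) (nat_lit 0x4000200038001400080000000000000000000000000000000) (nat_lit 0x0) (nat_lit 0x100000000000020001000000000000000000000000000) := D_49 (nat_lit 125) (nat_lit 108) (nat_lit 176) (nat_lit 7) (nat_lit 6) (nat_lit 6) (nat_lit 7) (nat_lit 6) (nat_lit 7) (by decide +kernel)
theorem L364 : W_49 (nat_lit 3) (nat_lit 0x200038001400080000000000000000000000000000000) (nat_lit 0x0) (nat_lit 0x80004000100000000000020001000000000000000000000000000) := T_49 (nat_lit 194) (nat_lit 211) (nat_lit 6) (nat_lit 7) (nat_lit 12) L363 (by decide +kernel)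
theorem L365 : W_49 (nat_lit 4) (nat_lit 0x38001400080000000000000000000000000000000) (nat_lit 0x0) (nat_lit 0x80004000300000000000020005000000000000000000000000000) := T_49 (nat_lit 177) (nat_lit 110) (nat_lit 5) (nat_lit 8) (nat_lit 6) L364 (by decide +kernel)
theorem L366 : W_49 (nat_lit 5) (nat_lit 0x38001000080000000000000000000000000000000) (nat_lit 0x0) (nat_lit 0x80004000300044000780020005000000000000000000000000000) := Q_49 (nat_lit 142) (C_49 L146 (C_49 L365 N_49)) (by decide +kernel)
theorem L367 : W_49 (nat_lit 16) (nat_lit 0x30001000080000000000000000000000000000000) (nat_lit 0x0) (nat_lit 0xf0007c03bf80cf8007e007003f8004c0004000000000000000000) := Q_49 (nat_lit 159) (C_49 L32 (C_49 L279 (C_49 L284 (C_49 L312 (C_49 L316 (C_49 L362 (C_49 L366 N_49))))))) (by decide +kernel)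
theorem L385 : W_49 (nat_lit 7) (nat_lit 0x70001000080000000000000000000000000000000) (nat_lit 0x0) (nat_lit 0x39c018c01cf00000000000000000000000000000000000) := Q_49 (nat_lit 163) (C_49 L378 (C_49 L383 (C_49 L384 N_49))) (by decide +kernel)
theorem L389 : W_49 (nat_lit 5) (nat_lit 0xf000580008000c000000000000000000000000000) (nat_lit 0x0) (nat_lit 0x3000000000000740030001000000000000000000000000) := T_49 (nat_lit 180) (nat_lit 181) (nat_lit 3) (nat_lit 7) (nat_lit 9) L388 (by decide +kernel)
theorem L390 : W_49 (nat_lit 6) (nat_lit 0xf000180008000c000000000000000000000000000) (nat_lit 0x0) (nat_lit 0x300000000c000740030001000000000000000000000000) := T_49 (nat_lit 146) (nat_lit 147) (nat_lit 2) (nat_lit 7) (nat_lit 9) L389 (by decide +kernel)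
theorem L391 : W_49 (nat_lit 7) (nat_lit 0x7000180008000c000000000000000000000000000) (nat_lit 0x0) (nat_lit 0x300018000c000740030001000000000000000000000000) := T_49 (nat_lit 163) (nat_lit 164) (nat_lit 0) (nat_lit 11) (nat_lit 9) L390 (by decide +kernel)
theorem L392 : W_49 (nat_lit 8) (nat_lit 0x7000100008000c000000000000000000000000000) (nat_lit 0x0) (nat_lit 0x300018000c800740030001200000000000000000000000) := T_49 (nat_lit 143) (nat_lit 93) (nat_lit 5) (nat_lit 8) (nat_lit 5) L391 (by decide +kernel)
theorem L393 : W_49 (nat_lit 9) (nat_lit 0x70001000080004000000000000000000000000000) (nat_lit 0x0) (nat_lit 0x300018000c800740038001600000000000000000000000) := T_49 (nat_lit 111) (nat_lit 94) (nat_lit 6) (nat_lit 8) (nat_lit 9) L392 (by decide +kernel)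
theorem L394 : W_49 (nat_lit 10) (nat_lit 0x70001000080000000000000000000000000000000) (nat_lit 0x0) (nat_lit 0x380018000c80074003c001600000000000000000000000) := T_49 (nat_lit 110) (nat_lit 179) (nat_lit 7) (nat_lit 8) (nat_lit 6) L393 (by decide +kernel)
theorem L396 : W_49 (nat_lit 7) (nat_lit 0xf0001800080004000000000000000000000000000) (nat_lit 0x0) (nat_lit 0x300000000c000740038001400000000000000000000000) := T_49 (nat_lit 111) (nat_lit 94) (nat_lit 6) (nat_lit 8) (nat_lit 9) L390 (by decide +kernel)
theorem L397 : W_49 (nat_lit 8) (nat_lit 0x70001800080004000000000000000000000000000) (nat_lit 0x0) (nat_lit 0x300018000c000740038001400000000000000000000000) := T_49 (nat_lit 163) (nat_lit 164) (nat_lit 0) (nat_lit 11) (nat_lit 9) L396 (by decide +kernel)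
theorem L398 : W_49 (nat_lit 9) (nat_lit 0x70001800080000000000000000000000000000000) (nat_lit 0x0) (nat_lit 0x300018000c00074003c001600000000000000000000000) := T_49 (nat_lit 110) (nat_lit 93) (nat_lit 5) (nat_lit 8) (nat_lit 5) L397 (by decide +kernel)
theorem L399 : W_49 (nat_lit 2) (nat_lit 0x10007a0018000c0000000200000000000000000000000) (nat_lit 0x0) (nat_lit 0x40002000000000000400000000000000000000000000000000000) := D_49 (nat_lit 193) (nat_lit 210) (nat_lit 142) (nat_lit 6) (nat_lit 6) (nat_lit 12) (nat_lit 6) (nat_lit 6) (nat_lit 11) (by decide +kernel)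
theorem L400 : W_49 (nat_lit 3) (nat_lit 0x10007a001800080000000200000000000000000000000) (nat_lit 0x0) (nat_lit 0x40002000000000000400040002000000000000000000000000000) := T_49 (nat_lit 126) (nat_lit 109) (nat_lit 5) (nat_lit 7) (nat_lit 6) L399 (by decide +kernel)
theorem L401 : W_49 (nat_lit 4) (nat_lit 0x7a001800080000000200000000000000000000000) (nat_lit 0x0) (nat_lit 0x40002000180000000400040002000000000000000000000000000) := T_49 (nat_lit 176) (nat_lit 175) (nat_lit 1) (nat_lit 9) (nat_lit 9) L400 (by decide +kernel)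
theorem L402 : W_49 (nat_lit 5) (nat_lit 0x78001800080000000200000000000000000000000) (nat_lit 0x0) (nat_lit 0x40002000180006000400040002000000000000000000000000000) := T_49 (nat_lit 157) (nat_lit 158) (nat_lit 2) (nat_lit 4) (nat_lit 9) L401 (by decide +kernel)
theorem L403 : W_49 (nat_lit 6) (nat_lit 0x78001800080000000000000000000000000000000) (nat_lit 0x0) (nat_lit 0x40002000180006000400040006000200000000000000000000000) := T_49 (nat_lit 93) (nat_lit 110) (nat_lit 5) (nat_lit 8) (nat_lit 5) L402 (by decide +kernel)
theorem L404 : W_49 (nat_lit 2) (nat_lit 0x100078001a00080000000000000000000000000000000) (nat_lit 0x0) (nat_lit 0x6000100000000000000000000000000000000000) := D_49 (nat_lit 158) (nat_lit 157) (nat_lit 140) (nat_lit 2) (nat_lit 4) (nat_lit 9) (nat_lit 0) (nat_lit 8) (nat_lit 9) (by decide +kernel)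
theorem L405 : W_49 (nat_lit 3) (nat_lit 0x100078001800080000000000000000000000000000000) (nat_lit 0x0) (nat_lit 0x6000700000000000000000000000000000000000) := T_49 (nat_lit 141) (nat_lit 142) (nat_lit 3) (nat_lit 5) (nat_lit 8) L404 (by decide +kernel)
theorem L406 : W_49 (nat_lit 4) (nat_lit 0x78001800080000000000000000000000000000000) (nat_lit 0x0) (nat_lit 0x180006000700000000000000000000000000000000000) := T_49 (nat_lit 176) (nat_lit 175) (nat_lit 1) (nat_lit 9) (nat_lit 9) L405 (by decide +kernel)
theorem L407 : W_49 (nat_lit 2) (nat_lit 0x4000000010007a0018000c001c000000000000000000000000000) (nat_lit 0x0) (nat_lit 0x130000000000000000000000000000000) := D_49 (nat_lit 125) (nat_lit 124) (nat_lit 128) (nat_lit 2) (nat_lit 5) (nat_lit 7) (nat_lit 2) (nat_lit 6) (nat_lit 7) (by decide +kernel)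
theorem L408 : W_49 (nat_lit 3) (nat_lit 0x4000000010007a0018000c000c000000000000000000000000000) (nat_lit 0x0) (nat_lit 0x130030000000000000000000000000000) := T_49 (nat_lit 112) (nat_lit 113) (nat_lit 1) (nat_lit 11) (nat_lit 6) L407 (by decide +kernel)
theorem L409 : W_49 (nat_lit 4) (nat_lit 0x10007a0018000c000c000000000000000000000000000) (nat_lit 0x0) (nat_lit 0x40002000000000000000130030000000000000000000000000000) := T_49 (nat_lit 210) (nat_lit 193) (nat_lit 6) (nat_lit 6) (nat_lit 12) L408 (by decide +kernel)
theorem L410 : W_49 (nat_lit 5) (nat_lit 0x10007a00180008000c000000000000000000000000000) (nat_lit 0x0) (nat_lit 0x40002000000000000000170032000000000000000000000000000) := T_49 (nat_lit 126) (nat_lit 109) (nat_lit 5) (nat_lit 7) (nat_lit 6) L409 (by decide +kernel)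
theorem L411 : W_49 (nat_lit 6) (nat_lit 0x10007a001800080004000000000000000000000000000) (nat_lit 0x0) (nat_lit 0x4000200000000000000017003a000400000000000000000000000) := T_49 (nat_lit 111) (nat_lit 94) (nat_lit 6) (nat_lit 8) (nat_lit 9) L410 (by decide +kernel)
theorem L412 : W_49 (nat_lit 7) (nat_lit 0x100078001800080004000000000000000000000000000) (nat_lit 0x0) (nat_lit 0x4000200000000600000017003a000400000000000000000000000) := T_49 (nat_lit 157) (nat_lit 158) (nat_lit 2) (nat_lit 4) (nat_lit 9) L411 (by decide +kernel)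
theorem L413 : W_49 (nat_lit 8) (nat_lit 0x100078001800080000000000000000000000000000000) (nat_lit 0x0) (nat_lit 0x4000200000000600000017003e000600000000000000000000000) := T_49 (nat_lit 110) (nat_lit 93) (nat_lit 5) (nat_lit 8) (nat_lit 5) L412 (by decide +kernel)
theorem L414 : W_49 (nat_lit 9) (nat_lit 0x78001800080000000000000000000000000000000) (nat_lit 0x0) (nat_lit 0x4000200018000600000017003e000600000000000000000000000) := T_49 (nat_lit 176) (nat_lit 175) (nat_lit 1) (nat_lit 9) (nat_lit 9) L413 (by decide +kernel)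
theorem L415 : W_49 (nat_lit 2) (nat_lit 0x7c001800080000000000000000000000000000000) (nat_lit 0x0) (nat_lit 0x700000000000000000000000000000000000) := D_49 (nat_lit 141) (nat_lit 142) (nat_lit 140) (nat_lit 3) (nat_lit 5) (nat_lit 8) (nat_lit 0) (nat_lit 8) (nat_lit 9) (by decide +kernel)
theorem L416 : W_49 (nat_lit 3) (nat_lit 0x78001800080000000000000000000000000000000) (nat_lit 0x0) (nat_lit 0x6000700000000000000000000000000000000000) := T_49 (nat_lit 158) (nat_lit 157) (nat_lit 2) (nat_lit 4) (nat_lit 9) L415 (by decide +kernel)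
theorem L417 : W_49 (nat_lit 2) (nat_lit 0x100078001c00080000000000000000000000000000000) (nat_lit 0x0) (nat_lit 0x2000000000000000040002000000000000000000000000000) := D_49 (nat_lit 126) (nat_lit 109) (nat_lit 193) (nat_lit 5) (nat_lit 7) (nat_lit 6) (nat_lit 6) (nat_lit 6) (nat_lit 11) (by decide +kernel)
theorem L418 : W_49 (nat_lit 3) (nat_lit 0x78001c00080000000000000000000000000000000) (nat_lit 0x0) (nat_lit 0x2000180000000000040002000000000000000000000000000) := T_49 (nat_lit 176) (nat_lit 175) (nat_lit 1) (nat_lit 9) (nat_lit 9) L417 (by decide +kernel)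
theorem L419 : W_49 (nat_lit 4) (nat_lit 0x78001800080000000000000000000000000000000) (nat_lit 0x0) (nat_lit 0x2000180000000600040002000000000000000000000000000) := T_49 (nat_lit 142) (nat_lit 141) (nat_lit 3) (nat_lit 5) (nat_lit 8) L418 (by decide +kernel)
theorem L420 : W_49 (nat_lit 10) (nat_lit 0x70001800080000000000000000000000000000000) (nat_lit 0x0) (nat_lit 0x4000200018000e00070017003e000600000000000000000000000) := Q_49 (nat_lit 159) (C_49 L403 (C_49 L406 (C_49 L414 (C_49 L416 (C_49 L419 N_49))))) (by decide +kernel)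
theorem L421 : W_49 (nat_lit 11) (nat_lit 0x70001000080000000000000000000000000000000) (nat_lit 0x0) (nat_lit 0x4000200318018e00cf0077003e001600000000000000000000000) := Q_49 (nat_lit 143) (C_49 L395 (C_49 L398 (C_49 L420 N_49))) (by decide +kernel)
theorem L426 : W_49 (nat_lit 12) (nat_lit 0x30001000080000000000000000000000000000000) (nat_lit 0x0) (nat_lit 0x2400120039c01ce01cf0077003e001600000000000000000000000) := Q_49 (nat_lit 162) (C_49 L373 (C_49 L385 (C_49 L394 (C_49 L421 (C_49 L425 N_49))))) (by decide +kernel)
theorem L427 : W_49 (nat_lit 17) (nat_lit 0x20001000080000000000000000000000000000000) (nat_lit 0x0) (nat_lit 0x20001c002f801fc03bf81df81cfe077c03ff016c0024000000000000000000) := Q_49 (nat_lit 160) (C_49 L270 (C_49 L273 (C_49 L367 (C_49 L426 N_49)))) (by decide +kernel)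
theorem L440 : W_49 (nat_lit 2) (nat_lit 0x2f000300018000e8000000000000000000000000000000) (nat_lit 0x0) (nat_lit 0x800c0000000000000000000000000000000000000000) := D_49 (nat_lit 162) (nat_lit 163) (nat_lit 175) (nat_lit 2) (nat_lit 6) (nat_lit 10) (nat_lit 2) (nat_lit 5) (nat_lit 10) (by decide +kernel)
theorem L441 : W_49 (nat_lit 3) (nat_lit 0x2e000300018000e8000000000000000000000000000000) (nat_lit 0x0) (nat_lit 0x20001800c0000000000000000000000000000000000000000) := T_49 (nat_lit 176) (nat_lit 193) (nat_lit 5) (nat_lit 7) (nat_lit 7) L440 (by decide +kernel)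
theorem L442 : W_49 (nat_lit 4) (nat_lit 0xe000300018000e8000000000000000000000000000000) (nat_lit 0x0) (nat_lit 0x20031800c0000000000000000000000000000000000000000) := T_49 (nat_lit 181) (nat_lit 180) (nat_lit 0) (nat_lit 11) (nat_lit 10) L441 (by decide +kernel)
theorem L443 : W_49 (nat_lit 5) (nat_lit 0x6000300018000e8000000000000000000000000000000) (nat_lit 0x0) (nat_lit 0x120039800c0000000000000000000000000000000000000000) := T_49 (nat_lit 179) (nat_lit 196) (nat_lit 7) (nat_lit 8) (nat_lit 7) L442 (by decide +kernel)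
theorem L444 : W_49 (nat_lit 6) (nat_lit 0x6000300018000e0000000000000000000000000000000) (nat_lit 0x0) (nat_lit 0x120039800c0000000018000000000000000000000000000000) := T_49 (nat_lit 123) (nat_lit 124) (nat_lit 3) (nat_lit 4) (nat_lit 7) L443 (by decide +kernel)
theorem L445 : W_49 (nat_lit 7) (nat_lit 0x6000300018000c0000000000000000000000000000000) (nat_lit 0x0) (nat_lit 0x120039800c0000000038001000000000000000000000000000) := T_49 (nat_lit 125) (nat_lit 108) (nat_lit 4) (nat_lit 7) (nat_lit 10) L444 (by decide +kernel)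
theorem L446 : W_49 (nat_lit 8) (nat_lit 0x600030001800080000000000000000000000000000000) (nat_lit 0x0) (nat_lit 0x120039800c0000000078003000000000000000000000000000) := T_49 (nat_lit 126) (nat_lit 109) (nat_lit 7) (nat_lit 7) (nat_lit 6) L445 (by decide +kernel)
theorem L447 : W_49 (nat_lit 9) (nat_lit 0x400030001800080000000000000000000000000000000) (nat_lit 0x0) (nat_lit 0x16003b800c0000000078003000000000000000000000000000) := T_49 (nat_lit 177) (nat_lit 194) (nat_lit 6) (nat_lit 7) (nat_lit 11) L446 (by decide +kernel)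
theorem L462 : W_49 (nat_lit 6) (nat_lit 0x2e00034001800080000000000000000000000000000000) (nat_lit 0x0) (nat_lit 0x20001c0002000000078003000000000000000000000000000) := T_49 (nat_lit 126) (nat_lit 109) (nat_lit 7) (nat_lit 7) (nat_lit 6) L461 (by decide +kernel)
theorem L463 : W_49 (nat_lit 7) (nat_lit 0x2c00034001800080000000000000000000000000000000) (nat_lit 0x0) (nat_lit 0x60003c0002000000078003000000000000000000000000000) := T_49 (nat_lit 177) (nat_lit 194) (nat_lit 6) (nat_lit 7) (nat_lit 11) L462 (by decide +kernel)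
theorem L464 : W_49 (nat_lit 8) (nat_lit 0xc00034001800080000000000000000000000000000000) (nat_lit 0x0) (nat_lit 0x60033c0002000000078003000000000000000000000000000) := T_49 (nat_lit 181) (nat_lit 180) (nat_lit 0) (nat_lit 11) (nat_lit 10) L463 (by decide +kernel)
theorem L465 : W_49 (nat_lit 9) (nat_lit 0xc00030001800080000000000000000000000000000000) (nat_lit 0x0) (nat_lit 0x60033c000e000000078003000000000000000000000000000) := T_49 (nat_lit 158) (nat_lit 159) (nat_lit 3) (nat_lit 5) (nat_lit 9) L464 (by decide +kernel)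
theorem L466 : W_49 (nat_lit 10) (nat_lit 0x400030001800080000000000000000000000000000000) (nat_lit 0x0) (nat_lit 0x16003bc000e000000078003000000000000000000000000000) := T_49 (nat_lit 179) (nat_lit 196) (nat_lit 7) (nat_lit 8) (nat_lit 7) L465 (by decide +kernel)
theorem L467 : W_49 (nat_lit 11) (nat_lit 0x400020001800080000000000000000000000000000000) (nat_lit 0x0) (nat_lit 0x76003bc01de000400078003000000000000000000000000000) := Q_49 (nat_lit 160) (C_49 L432 (C_49 L439 (C_49 L447 (C_49 L453 (C_49 L457 (C_49 L466 N_49)))))) (by decide +kernel)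
theorem L473 : W_49 (nat_lit 7) (nat_lit 0x400160001800580000000000000000000000000000000) (nat_lit 0x0) (nat_lit 0x40017001b8001c000000000000000000000000000000000000000) := T_49 (nat_lit 179) (nat_lit 196) (nat_lit 7) (nat_lit 8) (nat_lit 7) L472 (by decide +kernel)
theorem L474 : W_49 (nat_lit 8) (nat_lit 0x400060001800580000000000000000000000000000000) (nat_lit 0x0) (nat_lit 0x40017001b8019c000000000000000000000000000000000000000) := T_49 (nat_lit 164) (nat_lit 163) (nat_lit 0) (nat_lit 11) (nat_lit 9) L473 (by decide +kernel)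
theorem L475 : W_49 (nat_lit 9) (nat_lit 0x400060001800180000000000000000000000000000000) (nat_lit 0x0) (nat_lit 0x40017001b8019c000000600000000000000000000000000000000) := T_49 (nat_lit 130) (nat_lit 129) (nat_lit 1) (nat_lit 11) (nat_lit 7) L474 (by decide +kernel)
theorem L476 : W_49 (nat_lit 10) (nat_lit 0x400060001800080000000000000000000000000000000) (nat_lit 0x0) (nat_lit 0x40017001b8019c000000700008000000000000000000000000000) := T_49 (nat_lit 128) (nat_lit 111) (nat_lit 6) (nat_lit 8) (nat_lit 10) L475 (by decide +kernel)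
theorem L481 : W_49 (nat_lit 2) (nat_lit 0x700060001a00580000000000000000000000000000000) (nat_lit 0x0) (nat_lit 0x800180000000000000000000000000000000000000000) := D_49 (nat_lit 163) (nat_lit 164) (nat_lit 179) (nat_lit 1) (nat_lit 11) (nat_lit 9) (nat_lit 2) (nat_lit 6) (nat_lit 10) (by decide +kernel)
theorem L482 : W_49 (nat_lit 3) (nat_lit 0x600060001a00580000000000000000000000000000000) (nat_lit 0x0) (nat_lit 0x980180000000000000000000000000000000000000000) := T_49 (nat_lit 176) (nat_lit 175) (nat_lit 2) (nat_lit 5) (nat_lit 10) L481 (by decide +kernel)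
theorem L483 : W_49 (nat_lit 4) (nat_lit 0x400060001a00580000000000000000000000000000000) (nat_lit 0x0) (nat_lit 0x4000b80180000000000000000000000000000000000000000) := T_49 (nat_lit 177) (nat_lit 194) (nat_lit 5) (nat_lit 8) (nat_lit 7) L482 (by decide +kernel)
theorem L484 : W_49 (nat_lit 5) (nat_lit 0x400060001a00180000000000000000000000000000000) (nat_lit 0x0) (nat_lit 0x4000b80180000000600000000000000000000000000000000) := T_49 (nat_lit 130) (nat_lit 129) (nat_lit 1) (nat_lit 11) (nat_lit 7) L483 (by decide +kernel)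
theorem L485 : W_49 (nat_lit 6) (nat_lit 0x400060001a00080000000000000000000000000000000) (nat_lit 0x0) (nat_lit 0x4000b80180000000700008000000000000000000000000000) := T_49 (nat_lit 128) (nat_lit 111) (nat_lit 6) (nat_lit 8) (nat_lit 10) L484 (by decide +kernel)
theorem L486 : W_49 (nat_lit 7) (nat_lit 0x400060001800080000000000000000000000000000000) (nat_lit 0x0) (nat_lit 0x4000b80180000600700008000000000000000000000000000) := T_49 (nat_lit 141) (nat_lit 142) (nat_lit 3) (nat_lit 5) (nat_lit 8) L485 (by decide +kernel)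
theorem L498 : W_49 (nat_lit 11) (nat_lit 0x400020001800080000000000000000000000000000000) (nat_lit 0x0) (nat_lit 0x40017001b801dc000600700008000000000000000000000000000) := Q_49 (nat_lit 162) (C_49 L476 (C_49 L480 (C_49 L486 (C_49 L488 (C_49 L497 N_49))))) (by decide +kernel)
theorem L501 : W_49 (nat_lit 4) (nat_lit 0xc00020001800080000000000000000000000000000000) (nat_lit 0x0) (nat_lit 0x60034000a000000000000000000000000000) := T_49 (nat_lit 126) (nat_lit 109) (nat_lit 4) (nat_lit 8) (nat_lit 10) L500 (by decide +kernel)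
theorem L502 : W_49 (nat_lit 5) (nat_lit 0x400020001800080000000000000000000000000000000) (nat_lit 0x0) (nat_lit 0x1000080000000060034000a000000000000000000000000000) := T_49 (nat_lit 179) (nat_lit 196) (nat_lit 7) (nat_lit 8) (nat_lit 7) L501 (by decide +kernel)
theorem L515 : W_49 (nat_lit 12) (nat_lit 0x400020001000080000000000000000000000000000000) (nat_lit 0x0) (nat_lit 0x40077003bc01de00ce0077803b000000000000000000000000000) := Q_49 (nat_lit 143) (C_49 L467 (C_49 L498 (C_49 L502 (C_49 L511 (C_49 L514 N_49))))) (by decide +kernel)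
theorem L518 : W_49 (nat_lit 9) (nat_lit 0xe00020001000080000000000000000000000000000000) (nat_lit 0x0) (nat_lit 0x80030001c000c80074003a000000000000000000000000000) := T_49 (nat_lit 128) (nat_lit 111) (nat_lit 6) (nat_lit 8) (nat_lit 10) L517 (by decide +kernel)
theorem L519 : W_49 (nat_lit 10) (nat_lit 0x600020001000080000000000000000000000000000000) (nat_lit 0x0) (nat_lit 0x180038001c000c80074003a000000000000000000000000000) := T_49 (nat_lit 179) (nat_lit 196) (nat_lit 7) (nat_lit 8) (nat_lit 7) L518 (by decide +kernel)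
theorem L520 : W_49 (nat_lit 11) (nat_lit 0x400020001000080000000000000000000000000000000) (nat_lit 0x0) (nat_lit 0x1c003a001c000c80074003a000000000000000000000000000) := T_49 (nat_lit 177) (nat_lit 194) (nat_lit 5) (nat_lit 8) (nat_lit 7) L519 (by decide +kernel)
theorem L535 : W_49 (nat_lit 9) (nat_lit 0x400020001000080000000000000000000000000000000) (nat_lit 0x0) (nat_lit 0x2000700038001c00020001000080014000a000000000000000000000000000) := T_49 (nat_lit 177) (nat_lit 194) (nat_lit 5) (nat_lit 8) (nat_lit 7) L534 (by decide +kernel)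
theorem L545 : W_49 (nat_lit 3) (nat_lit 0x6000200018000c0000000000000000000000000000000) (nat_lit 0x0) (nat_lit 0x600300008000000000000000000000000000) := T_49 (nat_lit 128) (nat_lit 111) (nat_lit 6) (nat_lit 8) (nat_lit 10) L544 (by decide +kernel)
theorem L546 : W_49 (nat_lit 4) (nat_lit 0x6000200010000c0000000000000000000000000000000) (nat_lit 0x0) (nat_lit 0x8000000000000e00300008000000000000000000000000000) := T_49 (nat_lit 143) (nat_lit 195) (nat_lit 4) (nat_lit 8) (nat_lit 11) L545 (by decide +kernel)
theorem L547 : W_49 (nat_lit 5) (nat_lit 0x4000200010000c0000000000000000000000000000000) (nat_lit 0x0) (nat_lit 0xc000200000000e00300008000000000000000000000000000) := T_49 (nat_lit 177) (nat_lit 194) (nat_lit 5) (nat_lit 8) (nat_lit 7) L546 (by decide +kernel)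
theorem L548 : W_49 (nat_lit 6) (nat_lit 0x400020001000080000000000000000000000000000000) (nat_lit 0x0) (nat_lit 0xc000200000000e0034000a000000000000000000000000000) := T_49 (nat_lit 126) (nat_lit 109) (nat_lit 4) (nat_lit 8) (nat_lit 10) L547 (by decide +kernel)
theorem L549 : W_49 (nat_lit 3) (nat_lit 0xc000200010001c0000000000000000000000000000000) (nat_lit 0x0) (nat_lit 0x8000000000000e00200000000000000000000000000000000) := T_49 (nat_lit 143) (nat_lit 195) (nat_lit 4) (nat_lit 8) (nat_lit 11) L499 (by decide +kernel)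
theorem L550 : W_49 (nat_lit 4) (nat_lit 0xc00020001000180000000000000000000000000000000) (nat_lit 0x0) (nat_lit 0x8000000000000e00240002000000000000000000000000000) := T_49 (nat_lit 126) (nat_lit 109) (nat_lit 4) (nat_lit 8) (nat_lit 10) L549 (by decide +kernel)
theorem L551 : W_49 (nat_lit 5) (nat_lit 0x400020001000180000000000000000000000000000000) (nat_lit 0x0) (nat_lit 0x18000800000000e00240002000000000000000000000000000) := T_49 (nat_lit 179) (nat_lit 196) (nat_lit 7) (nat_lit 8) (nat_lit 7) L550 (by decide +kernel)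
theorem L552 : W_49 (nat_lit 6) (nat_lit 0x400020001000080000000000000000000000000000000) (nat_lit 0x0) (nat_lit 0x18000800000000e0034000a000000000000000000000000000) := T_49 (nat_lit 128) (nat_lit 111) (nat_lit 6) (nat_lit 8) (nat_lit 10) L551 (by decide +kernel)
theorem L553 : W_49 (nat_lit 13) (nat_lit 0x20001000080000000000000000000000000000000) (nat_lit 0x0) (nat_lit 0xa00070003c007f003fc01de00ce0077803b000000000000000000000000000) := Q_49 (nat_lit 178) (C_49 L515 (C_49 L520 (C_49 L524 (C_49 L527 (C_49 L535 (C_49 L543 (C_49 L548 (C_49 L552 N_49)))))))) (by decide +kernel)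
theorem L558 : W_49 (nat_lit 2) (nat_lit 0x6000200018000c0004000400000000000000000000000) (nat_lit 0x0) (nat_lit 0x200030000000000000000000) := D_49 (nat_lit 93) (nat_lit 77) (nat_lit 76) (nat_lit 6) (nat_lit 8) (nat_lit 8) (nat_lit 5) (nat_lit 8) (nat_lit 4) (by decide +kernel)
theorem L559 : W_49 (nat_lit 3) (nat_lit 0x6000200010000c0004000400000000000000000000000) (nat_lit 0x0) (nat_lit 0x8000000000000800000000000200030000000000000000000) := T_49 (nat_lit 143) (nat_lit 195) (nat_lit 4) (nat_lit 8) (nat_lit 11) L558 (by decide +kernel)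
theorem L560 : W_49 (nat_lit 4) (nat_lit 0x6000200010000c0004000000000000000000000000000) (nat_lit 0x0) (nat_lit 0x8000000000000800000008000600030000000000000000000) := T_49 (nat_lit 94) (nat_lit 111) (nat_lit 6) (nat_lit 8) (nat_lit 9) L559 (by decide +kernel)
theorem L561 : W_49 (nat_lit 5) (nat_lit 0x600020001000080004000000000000000000000000000) (nat_lit 0x0) (nat_lit 0x800000000000080004000a000600030000000000000000000) := T_49 (nat_lit 126) (nat_lit 109) (nat_lit 4) (nat_lit 8) (nat_lit 10) L560 (by decide +kernel)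
theorem L562 : W_49 (nat_lit 6) (nat_lit 0x600020001000080000000000000000000000000000000) (nat_lit 0x0) (nat_lit 0x800000001000080004000e000600030000000000000000000) := T_49 (nat_lit 110) (nat_lit 160) (nat_lit 5) (nat_lit 8) (nat_lit 6) L561 (by decide +kernel)
theorem L563 : W_49 (nat_lit 7) (nat_lit 0x400020001000080000000000000000000000000000000) (nat_lit 0x0) (nat_lit 0xc00020001000080004000e000600030000000000000000000) := T_49 (nat_lit 177) (nat_lit 194) (nat_lit 5) (nat_lit 8) (nat_lit 7) L562 (by decide +kernel)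
theorem L564 : W_49 (nat_lit 2) (nat_lit 0xc000200018000d002c000000000000000000000000000) (nat_lit 0x0) (nat_lit 0x10000000000000000200010000000000000000000) := D_49 (nat_lit 93) (nat_lit 76) (nat_lit 160) (nat_lit 5) (nat_lit 8) (nat_lit 4) (nat_lit 5) (nat_lit 8) (nat_lit 5) (by decide +kernel)
theorem L565 : W_49 (nat_lit 3) (nat_lit 0xc000200010000d002c000000000000000000000000000) (nat_lit 0x0) (nat_lit 0x8000000010000800000000000200010000000000000000000) := T_49 (nat_lit 143) (nat_lit 195) (nat_lit 4) (nat_lit 8) (nat_lit 11) L564 (by decide +kernel)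
theorem L566 : W_49 (nat_lit 4) (nat_lit 0xc000200010000d000c000000000000000000000000000) (nat_lit 0x0) (nat_lit 0x8000000010000800000030000200010000000000000000000) := T_49 (nat_lit 113) (nat_lit 112) (nat_lit 1) (nat_lit 11) (nat_lit 6) L565 (by decide +kernel)
theorem L567 : W_49 (nat_lit 5) (nat_lit 0xc000200010000c000c000000000000000000000000000) (nat_lit 0x0) (nat_lit 0x8000000010000800030030000200010000000000000000000) := T_49 (nat_lit 124) (nat_lit 125) (nat_lit 2) (nat_lit 5) (nat_lit 7) L566 (by decide +kernel)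
theorem L568 : W_49 (nat_lit 6) (nat_lit 0xc000200010000c0004000000000000000000000000000) (nat_lit 0x0) (nat_lit 0x8000000010000800030038000600010000000000000000000) := T_49 (nat_lit 111) (nat_lit 94) (nat_lit 6) (nat_lit 8) (nat_lit 9) L567 (by decide +kernel)
theorem L569 : W_49 (nat_lit 7) (nat_lit 0xc000200010000c0000000000000000000000000000000) (nat_lit 0x0) (nat_lit 0x800000005000080003003c000600010000000000000000000) := T_49 (nat_lit 110) (nat_lit 162) (nat_lit 7) (nat_lit 8) (nat_lit 6) L568 (by decide +kernel)
theorem L570 : W_49 (nat_lit 8) (nat_lit 0x4000200010000c0000000000000000000000000000000) (nat_lit 0x0) (nat_lit 0x1800080005000080003003c000600010000000000000000000) := T_49 (nat_lit 179) (nat_lit 196) (nat_lit 7) (nat_lit 8) (nat_lit 7) L569 (by decide +kernel)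
theorem L571 : W_49 (nat_lit 9) (nat_lit 0x400020001000080000000000000000000000000000000) (nat_lit 0x0) (nat_lit 0x1800080005000080007003e000600010000000000000000000) := T_49 (nat_lit 126) (nat_lit 109) (nat_lit 4) (nat_lit 8) (nat_lit 10) L570 (by decide +kernel)
theorem L572 : W_49 (nat_lit 10) (nat_lit 0x20001000080000000000000000000000000000000) (nat_lit 0x0) (nat_lit 0x28001c000e0005000080007003e000600030000000000000000000) := Q_49 (nat_lit 178) (C_49 L527 (C_49 L557 (C_49 L563 (C_49 L571 N_49)))) (by decide +kernel)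
theorem L582 : W_49 (nat_lit 5) (nat_lit 0x20001000080000000000000000000000000000000) (nat_lit 0x0) (nat_lit 0x28001c000e0005000000010000c000400000000000000000000000) := Q_49 (nat_lit 178) (C_49 L527 (C_49 L575 (C_49 L578 (C_49 L581 N_49)))) (by decide +kernel)
theorem L583 : W_49 (nat_lit 7) (nat_lit 0x20001000080000000000000000000000000000000) (nat_lit 0x0) (nat_lit 0x28001c000e00040000e0034000e000400000000000000000000000) := Q_49 (nat_lit 178) (C_49 L581 (C_49 L527 (C_49 L548 N_49))) (by decide +kernel)
theorem L599 : W_49 (nat_lit 10) (nat_lit 0x20001000080000000000000000000000000000000) (nat_lit 0x0) (nat_lit 0x600038001e000fc0050000800078007000200010000000000000000000) := Q_49 (nat_lit 178) (C_49 L527 (C_49 L575 (C_49 L589 (C_49 L594 (C_49 L598 N_49))))) (by decide +kernel)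
theorem L610 : W_49 (nat_lit 10) (nat_lit 0x20001000080000000000000000000000000000000) (nat_lit 0x0) (nat_lit 0x500038001e0007c0050000e0037800f000400000000000000000000000) := Q_49 (nat_lit 178) (C_49 L548 (C_49 L578 (C_49 L598 (C_49 L605 (C_49 L609 N_49))))) (by decide +kernel)
theorem L611 : W_49 (nat_lit 7) (nat_lit 0x20001000080000000000000000000000000000000) (nat_lit 0x0) (nat_lit 0x18000c00050000e0034000e000600010000000000000000000) := Q_49 (nat_lit 178) (C_49 L609 (C_49 L581 (C_49 L594 N_49))) (by decide +kernel)
theorem L612 : W_49 (nat_lit 8) (nat_lit 0x20001000080000000000000000000000000000000) (nat_lit 0x0) (nat_lit 0x600030001c000600010000e0034000e000400000000000000000000000) := Q_49 (nat_lit 178) (C_49 L609 (C_49 L578 (C_49 L589 N_49))) (by decide +kernel)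
theorem L613 : W_49 (nat_lit 13) (nat_lit 0x20001000080000000000000000000000000000000) (nat_lit 0x0) (nat_lit 0x40077003fc01de00ce0077803f000400000000000000000000000) := Q_49 (nat_lit 178) (C_49 L581 (C_49 L575 (C_49 L578 (C_49 L515 N_49)))) (by decide +kernel)
theorem L620 : W_49 (nat_lit 2) (nat_lit 0x4000700018000d002c000000000000000000000000000) (nat_lit 0x0) (nat_lit 0x80000600000000000000000000000000000000000) := D_49 (nat_lit 142) (nat_lit 141) (nat_lit 163) (nat_lit 3) (nat_lit 5) (nat_lit 8) (nat_lit 0) (nat_lit 10) (nat_lit 9) (by decide +kernel)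
theorem L621 : W_49 (nat_lit 3) (nat_lit 0x4000300018000d002c000000000000000000000000000) (nat_lit 0x0) (nat_lit 0x8000c0000600000000000000000000000000000000000) := T_49 (nat_lit 162) (nat_lit 179) (nat_lit 7) (nat_lit 8) (nat_lit 6) L620 (by decide +kernel)
theorem L622 : W_49 (nat_lit 4) (nat_lit 0x4000300018000d000c000000000000000000000000000) (nat_lit 0x0) (nat_lit 0x8000c0000600000030000000000000000000000000000) := T_49 (nat_lit 113) (nat_lit 112) (nat_lit 1) (nat_lit 11) (nat_lit 6) L621 (by decide +kernel)
theorem L623 : W_49 (nat_lit 5) (nat_lit 0x4000300018000c000c000000000000000000000000000) (nat_lit 0x0) (nat_lit 0x8000c0000600030030000000000000000000000000000) := T_49 (nat_lit 124) (nat_lit 125) (nat_lit 2) (nat_lit 5) (nat_lit 7) L622 (by decide +kernel)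
theorem L624 : W_49 (nat_lit 6) (nat_lit 0x40003000180008000c000000000000000000000000000) (nat_lit 0x0) (nat_lit 0x8000c0000600070032000000000000000000000000000) := T_49 (nat_lit 126) (nat_lit 109) (nat_lit 7) (nat_lit 7) (nat_lit 6) L623 (by decide +kernel)
theorem L625 : W_49 (nat_lit 7) (nat_lit 0x3000180008000c000000000000000000000000000) (nat_lit 0x0) (nat_lit 0xc000c0000600170032000000000000000000000000000) := T_49 (nat_lit 178) (nat_lit 128) (nat_lit 6) (nat_lit 8) (nat_lit 10) L624 (by decide +kernel)
theorem L626 : W_49 (nat_lit 8) (nat_lit 0x3000100008000c000000000000000000000000000) (nat_lit 0x0) (nat_lit 0xc000c0000e00170032000200000000000000000000000) := T_49 (nat_lit 143) (nat_lit 93) (nat_lit 5) (nat_lit 8) (nat_lit 5) L625 (by decide +kernel)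
theorem L627 : W_49 (nat_lit 9) (nat_lit 0x2000100008000c000000000000000000000000000) (nat_lit 0x0) (nat_lit 0xe000d0000e00170032000200000000000000000000000) := T_49 (nat_lit 160) (nat_lit 177) (nat_lit 5) (nat_lit 8) (nat_lit 6) L626 (by decide +kernel)
theorem L628 : W_49 (nat_lit 10) (nat_lit 0x20001000080004000000000000000000000000000) (nat_lit 0x0) (nat_lit 0xe000d0000e0017003a000600000000000000000000000) := T_49 (nat_lit 111) (nat_lit 94) (nat_lit 6) (nat_lit 8) (nat_lit 9) L627 (by decide +kernel)
theorem L644 : W_49 (nat_lit 2) (nat_lit 0x4000600018000d000c000000000000000000000000000) (nat_lit 0x0) (nat_lit 0x10000000000000000200010000000000000000000) := D_49 (nat_lit 93) (nat_lit 76) (nat_lit 160) (nat_lit 5) (nat_lit 8) (nat_lit 4) (nat_lit 5) (nat_lit 8) (nat_lit 5) (by decide +kernel)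
theorem L645 : W_49 (nat_lit 3) (nat_lit 0x4000600010000d000c000000000000000000000000000) (nat_lit 0x0) (nat_lit 0x8000000010000800000000000200010000000000000000000) := T_49 (nat_lit 143) (nat_lit 195) (nat_lit 4) (nat_lit 8) (nat_lit 11) L644 (by decide +kernel)
theorem L646 : W_49 (nat_lit 4) (nat_lit 0x4000600010000c000c000000000000000000000000000) (nat_lit 0x0) (nat_lit 0x8000000010000800030000000200010000000000000000000) := T_49 (nat_lit 124) (nat_lit 125) (nat_lit 2) (nat_lit 5) (nat_lit 7) L645 (by decide +kernel)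
theorem L647 : W_49 (nat_lit 5) (nat_lit 0x40006000100008000c000000000000000000000000000) (nat_lit 0x0) (nat_lit 0x8000000010000800070002000200010000000000000000000) := T_49 (nat_lit 126) (nat_lit 109) (nat_lit 4) (nat_lit 8) (nat_lit 10) L646 (by decide +kernel)
theorem L648 : W_49 (nat_lit 6) (nat_lit 0x6000100008000c000000000000000000000000000) (nat_lit 0x0) (nat_lit 0x8000400010000800170002000200010000000000000000000) := T_49 (nat_lit 178) (nat_lit 128) (nat_lit 6) (nat_lit 8) (nat_lit 10) L647 (by decide +kernel)
theorem L649 : W_49 (nat_lit 7) (nat_lit 0x2000100008000c000000000000000000000000000) (nat_lit 0x0) (nat_lit 0x8000c00050000800170002000200010000000000000000000) := T_49 (nat_lit 162) (nat_lit 179) (nat_lit 7) (nat_lit 8) (nat_lit 6) L648 (by decide +kernel)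
theorem L650 : W_49 (nat_lit 8) (nat_lit 0x20001000080004000000000000000000000000000) (nat_lit 0x0) (nat_lit 0x8000c0005000080017000a000600010000000000000000000) := T_49 (nat_lit 111) (nat_lit 94) (nat_lit 6) (nat_lit 8) (nat_lit 9) L649 (by decide +kernel)
theorem L651 : W_49 (nat_lit 11) (nat_lit 0x20001000080000000000000000000000000000000) (nat_lit 0x0) (nat_lit 0x18000c000e000d0000e0017003e000600010000000000000000000) := Q_49 (nat_lit 110) (C_49 L619 (C_49 L628 (C_49 L630 (C_49 L634 (C_49 L638 (C_49 L643 (C_49 L650 N_49))))))) (by decide +kernel)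
theorem L652 : W_49 (nat_lit 18) (nat_lit 0x1000080000000000000000000000000000000) (nat_lit 0x0) (nat_lit 0xa0007c003f807fc03ff81ff81cfe077c03ff016c0034000000000000000000) := Q_49 (nat_lit 161) (C_49 L427 (C_49 L553 (C_49 L572 (C_49 L582 (C_49 L583 (C_49 L599 (C_49 L610 (C_49 L611 (C_49 L612 (C_49 L613 (C_49 L651 N_49))))))))))) (by decide +kernel)
theorem L665 : W_49 (nat_lit 8) (nat_lit 0x20001000080006000000000000000000000000000) (nat_lit 0x0) (nat_lit 0xa0005000080037c019c004c0000000000000000000000) := Q_49 (nat_lit 108) (C_49 L656 (C_49 L662 (C_49 L664 N_49))) (by decide +kernel)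
theorem L666 : W_49 (nat_lit 9) (nat_lit 0x20001000080004000000000000000000000000000) (nat_lit 0x0) (nat_lit 0xa0005000080037c01bc005c0000000000000000000000) := T_49 (nat_lit 109) (nat_lit 92) (nat_lit 4) (nat_lit 8) (nat_lit 9) L665 (by decide +kernel)
theorem L667 : W_49 (nat_lit 2) (nat_lit 0x10000f0009000080004000000000000000000000000000) (nat_lit 0x0) (nat_lit 0x100010800000000000000000000000000000000000) := D_49 (nat_lit 164) (nat_lit 143) (nat_lit 148) (nat_lit 0) (nat_lit 11) (nat_lit 9) (nat_lit 2) (nat_lit 8) (nat_lit 9) (by decide +kernel)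
theorem L668 : W_49 (nat_lit 3) (nat_lit 0x10000f0001000080004000000000000000000000000000) (nat_lit 0x0) (nat_lit 0x10001c800000000000000000000000000000000000) := T_49 (nat_lit 147) (nat_lit 146) (nat_lit 2) (nat_lit 7) (nat_lit 9) L667 (by decide +kernel)
theorem L669 : W_49 (nat_lit 4) (nat_lit 0xf0001000080004000000000000000000000000000) (nat_lit 0x0) (nat_lit 0x300010001c800000000000000000000000000000000000) := T_49 (nat_lit 180) (nat_lit 181) (nat_lit 3) (nat_lit 7) (nat_lit 9) L668 (by decide +kernel)
theorem L670 : W_49 (nat_lit 5) (nat_lit 0xe0001000080004000000000000000000000000000) (nat_lit 0x0) (nat_lit 0x320011001c800000000000000000000000000000000000) := T_49 (nat_lit 160) (nat_lit 177) (nat_lit 5) (nat_lit 8) (nat_lit 6) L669 (by decide +kernel)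
theorem L671 : W_49 (nat_lit 2) (nat_lit 0x10001f000900008003e000000000000000000000000000) (nat_lit 0x0) (nat_lit 0x3800000000000000000000000) := D_49 (nat_lit 96) (nat_lit 97) (nat_lit 95) (nat_lit 2) (nat_lit 8) (nat_lit 6) (nat_lit 2) (nat_lit 7) (nat_lit 6) (by decide +kernel)
theorem L672 : W_49 (nat_lit 3) (nat_lit 0x10001f000900008002e000000000000000000000000000) (nat_lit 0x0) (nat_lit 0x40010003800000000000000000000000) := T_49 (nat_lit 112) (nat_lit 126) (nat_lit 1) (nat_lit 11) (nat_lit 6) L671 (by decide +kernel)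
theorem L673 : W_49 (nat_lit 4) (nat_lit 0x10001f000900008000e000000000000000000000000000) (nat_lit 0x0) (nat_lit 0x440030003800000000000000000000000) := T_49 (nat_lit 113) (nat_lit 130) (nat_lit 5) (nat_lit 11) (nat_lit 6) L672 (by decide +kernel)
theorem L674 : W_49 (nat_lit 5) (nat_lit 0x10000f000900008000e000000000000000000000000000) (nat_lit 0x0) (nat_lit 0x100010000440030003800000000000000000000000) := T_49 (nat_lit 164) (nat_lit 148) (nat_lit 2) (nat_lit 8) (nat_lit 9) L673 (by decide +kernel)
theorem L675 : W_49 (nat_lit 6) (nat_lit 0x10000f000100008000e000000000000000000000000000) (nat_lit 0x0) (nat_lit 0x10001c000440030003800000000000000000000000) := T_49 (nat_lit 147) (nat_lit 146) (nat_lit 2) (nat_lit 7) (nat_lit 9) L674 (by decide +kernel)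
theorem L676 : W_49 (nat_lit 7) (nat_lit 0xf000100008000e000000000000000000000000000) (nat_lit 0x0) (nat_lit 0x300010001c000440030003800000000000000000000000) := T_49 (nat_lit 180) (nat_lit 181) (nat_lit 3) (nat_lit 7) (nat_lit 9) L675 (by decide +kernel)
theorem L677 : W_49 (nat_lit 8) (nat_lit 0xe000100008000e000000000000000000000000000) (nat_lit 0x0) (nat_lit 0x320011001c000440030003800000000000000000000000) := T_49 (nat_lit 160) (nat_lit 177) (nat_lit 5) (nat_lit 8) (nat_lit 6) L676 (by decide +kernel)
theorem L678 : W_49 (nat_lit 9) (nat_lit 0xe000100008000c000000000000000000000000000) (nat_lit 0x0) (nat_lit 0x320011001c000440032003900000000000000000000000) := T_49 (nat_lit 109) (nat_lit 92) (nat_lit 4) (nat_lit 8) (nat_lit 9) L677 (by decide +kernel)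
theorem L679 : W_49 (nat_lit 10) (nat_lit 0xe0001000080004000000000000000000000000000) (nat_lit 0x0) (nat_lit 0x320011001c00044003a003d00000000000000000000000) := T_49 (nat_lit 111) (nat_lit 94) (nat_lit 6) (nat_lit 8) (nat_lit 9) L678 (by decide +kernel)
theorem L693 : W_49 (nat_lit 6) (nat_lit 0x10000f000540008000c000000000000000000000000000) (nat_lit 0x0) (nat_lit 0x180008000200070003800100000000000000000000000) := T_49 (nat_lit 109) (nat_lit 92) (nat_lit 4) (nat_lit 8) (nat_lit 9) L692 (by decide +kernel)
theorem L694 : W_49 (nat_lit 7) (nat_lit 0x10000f000500008000c000000000000000000000000000) (nat_lit 0x0) (nat_lit 0x180008000e00070003800100000000000000000000000) := T_49 (nat_lit 142) (nat_lit 143) (nat_lit 0) (nat_lit 10) (nat_lit 9) L693 (by decide +kernel)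
theorem L695 : W_49 (nat_lit 8) (nat_lit 0x10000f000100008000c000000000000000000000000000) (nat_lit 0x0) (nat_lit 0x18000800ce00070003800100000000000000000000000) := T_49 (nat_lit 146) (nat_lit 147) (nat_lit 2) (nat_lit 7) (nat_lit 9) L694 (by decide +kernel)
theorem L696 : W_49 (nat_lit 9) (nat_lit 0xf000100008000c000000000000000000000000000) (nat_lit 0x0) (nat_lit 0x318000800ce00070003800100000000000000000000000) := T_49 (nat_lit 180) (nat_lit 181) (nat_lit 3) (nat_lit 7) (nat_lit 9) L695 (by decide +kernel)
theorem L697 : W_49 (nat_lit 10) (nat_lit 0xe000100008000c000000000000000000000000000) (nat_lit 0x0) (nat_lit 0x338001800ce00070003800100000000000000000000000) := T_49 (nat_lit 160) (nat_lit 177) (nat_lit 5) (nat_lit 8) (nat_lit 6) L696 (by decide +kernel)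
theorem L698 : W_49 (nat_lit 11) (nat_lit 0xe0001000080004000000000000000000000000000) (nat_lit 0x0) (nat_lit 0x338001800ce0007000b800500000000000000000000000) := T_49 (nat_lit 111) (nat_lit 94) (nat_lit 6) (nat_lit 8) (nat_lit 9) L697 (by decide +kernel)
theorem L701 : W_49 (nat_lit 4) (nat_lit 0x1e0001000080006000000000000000000000000000) (nat_lit 0x0) (nat_lit 0x20001001c000000008000400000000000000000000000) := T_49 (nat_lit 111) (nat_lit 94) (nat_lit 6) (nat_lit 8) (nat_lit 9) L700 (by decide +kernel)
theorem L702 : W_49 (nat_lit 5) (nat_lit 0xe0001000080006000000000000000000000000000) (nat_lit 0x0) (nat_lit 0x20011001c800000008000400000000000000000000000) := T_49 (nat_lit 164) (nat_lit 143) (nat_lit 0) (nat_lit 11) (nat_lit 9) L701 (by decide +kernel)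
theorem L703 : W_49 (nat_lit 6) (nat_lit 0xe0001000080004000000000000000000000000000) (nat_lit 0x0) (nat_lit 0x20011001c80000000a000500000000000000000000000) := T_49 (nat_lit 109) (nat_lit 92) (nat_lit 4) (nat_lit 8) (nat_lit 9) L702 (by decide +kernel)
theorem L706 : W_49 (nat_lit 12) (nat_lit 0x60001000080004000000000000000000000000000) (nat_lit 0x0) (nat_lit 0xf38039801ce0047003b803d00000000000000000000000) := Q_49 (nat_lit 163) (C_49 L670 (C_49 L679 (C_49 L688 (C_49 L698 (C_49 L703 (C_49 L705 N_49)))))) (by decide +kernel)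
theorem L707 : W_49 (nat_lit 13) (nat_lit 0x20001000080004000000000000000000000000000) (nat_lit 0x0) (nat_lit 0xfb803d801ce0047003b803d00000000000000000000000) := T_49 (nat_lit 162) (nat_lit 179) (nat_lit 7) (nat_lit 8) (nat_lit 6) L706 (by decide +kernel)
theorem L710 : W_49 (nat_lit 2) (nat_lit 0x6000100048003c002000000000000000000000000) (nat_lit 0x0) (nat_lit 0x100040004000000000000000000000000) := D_49 (nat_lit 114) (nat_lit 128) (nat_lit 98) (nat_lit 1) (nat_lit 12) (nat_lit 6) (nat_lit 2) (nat_lit 9) (nat_lit 6) (by decide +kernel)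
theorem L711 : W_49 (nat_lit 3) (nat_lit 0x6000100048003c000000000000000000000000000) (nat_lit 0x0) (nat_lit 0x100040007000000000000000000000000) := T_49 (nat_lit 97) (nat_lit 96) (nat_lit 2) (nat_lit 8) (nat_lit 6) L710 (by decide +kernel)
theorem L712 : W_49 (nat_lit 4) (nat_lit 0x6000100008003c000000000000000000000000000) (nat_lit 0x0) (nat_lit 0xd00040007000000000000000000000000) := T_49 (nat_lit 130) (nat_lit 131) (nat_lit 3) (nat_lit 8) (nat_lit 6) L711 (by decide +kernel)
theorem L713 : W_49 (nat_lit 5) (nat_lit 0x2000100008003c000000000000000000000000000) (nat_lit 0x0) (nat_lit 0x800040000000d00040007000000000000000000000000) := T_49 (nat_lit 162) (nat_lit 179) (nat_lit 7) (nat_lit 8) (nat_lit 6) L712 (by decide +kernel)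
theorem L714 : W_49 (nat_lit 6) (nat_lit 0x2000100008001c000000000000000000000000000) (nat_lit 0x0) (nat_lit 0x800040000000d40060007000000000000000000000000) := T_49 (nat_lit 113) (nat_lit 126) (nat_lit 1) (nat_lit 11) (nat_lit 6) L713 (by decide +kernel)
theorem L721 : W_49 (nat_lit 8) (nat_lit 0x2000100008000c000000000000000000000000000) (nat_lit 0x0) (nat_lit 0x800040000000f780738071e0000000000000000000000) := Q_49 (nat_lit 112) (C_49 L709 (C_49 L714 (C_49 L720 N_49))) (by decide +kernel)
theorem L722 : W_49 (nat_lit 9) (nat_lit 0x20001000080004000000000000000000000000000) (nat_lit 0x0) (nat_lit 0x800040000000f7807b8075e0000000000000000000000) := T_49 (nat_lit 111) (nat_lit 94) (nat_lit 6) (nat_lit 8) (nat_lit 9) L721 (by decide +kernel)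
theorem L736 : W_49 (nat_lit 8) (nat_lit 0x1e000900008000c000000000000000000000000000) (nat_lit 0x0) (nat_lit 0x100008000e000200000000540070007000000000000000000000000) := T_49 (nat_lit 182) (nat_lit 181) (nat_lit 3) (nat_lit 8) (nat_lit 9) L735 (by decide +kernel)
theorem L737 : W_49 (nat_lit 9) (nat_lit 0x1e000100008000c000000000000000000000000000) (nat_lit 0x0) (nat_lit 0x100008000e000200018000540070007000000000000000000000000) := T_49 (nat_lit 147) (nat_lit 148) (nat_lit 2) (nat_lit 8) (nat_lit 9) L736 (by decide +kernel)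
theorem L738 : W_49 (nat_lit 10) (nat_lit 0xe000100008000c000000000000000000000000000) (nat_lit 0x0) (nat_lit 0x100008000e000300018800540070007000000000000000000000000) := T_49 (nat_lit 164) (nat_lit 143) (nat_lit 0) (nat_lit 11) (nat_lit 9) L737 (by decide +kernel)
theorem L739 : W_49 (nat_lit 11) (nat_lit 0xe0001000080004000000000000000000000000000) (nat_lit 0x0) (nat_lit 0x100008000e000300018800540078007400000000000000000000000) := T_49 (nat_lit 111) (nat_lit 94) (nat_lit 6) (nat_lit 8) (nat_lit 9) L738 (by decide +kernel)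
theorem L740 : W_49 (nat_lit 12) (nat_lit 0x60001000080004000000000000000000000000000) (nat_lit 0x0) (nat_lit 0x100008000f20039001cc00740078007400000000000000000000000) := Q_49 (nat_lit 163) (C_49 L670 (C_49 L705 (C_49 L729 (C_49 L739 N_49)))) (by decide +kernel)
theorem L741 : W_49 (nat_lit 13) (nat_lit 0x20001000080004000000000000000000000000000) (nat_lit 0x0) (nat_lit 0x100008000fa003d001cc00740078007400000000000000000000000) := T_49 (nat_lit 162) (nat_lit 179) (nat_lit 7) (nat_lit 8) (nat_lit 6) L740 (by decide +kernel)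
theorem L744 : W_49 (nat_lit 4) (nat_lit 0x8000000020001f0005000080006000000000000000000000000000) (nat_lit 0x0) (nat_lit 0x740011800000000000000000000000000) := T_49 (nat_lit 129) (nat_lit 112) (nat_lit 7) (nat_lit 10) (nat_lit 6) L743 (by decide +kernel)
theorem L745 : W_49 (nat_lit 5) (nat_lit 0x20001f0005000080006000000000000000000000000000) (nat_lit 0x0) (nat_lit 0x800040000000000000000740011800000000000000000000000000) := T_49 (nat_lit 215) (nat_lit 198) (nat_lit 4) (nat_lit 11) (nat_lit 12) L744 (by decide +kernel)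
theorem L746 : W_49 (nat_lit 6) (nat_lit 0x20000f0005000080006000000000000000000000000000) (nat_lit 0x0) (nat_lit 0x800040004000100000000740011800000000000000000000000000) := T_49 (nat_lit 164) (nat_lit 182) (nat_lit 3) (nat_lit 8) (nat_lit 9) L745 (by decide +kernel)
theorem L747 : W_49 (nat_lit 7) (nat_lit 0x20000f0001000080006000000000000000000000000000) (nat_lit 0x0) (nat_lit 0x80004000400010000c000740011800000000000000000000000000) := T_49 (nat_lit 146) (nat_lit 147) (nat_lit 2) (nat_lit 7) (nat_lit 9) L746 (by decide +kernel)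
theorem L748 : W_49 (nat_lit 8) (nat_lit 0xf0001000080006000000000000000000000000000) (nat_lit 0x0) (nat_lit 0x80004000700010000c000740011800000000000000000000000000) := T_49 (nat_lit 181) (nat_lit 180) (nat_lit 3) (nat_lit 7) (nat_lit 9) L747 (by decide +kernel)
theorem L749 : W_49 (nat_lit 9) (nat_lit 0xe0001000080006000000000000000000000000000) (nat_lit 0x0) (nat_lit 0x80004000720011000c000740011800000000000000000000000000) := T_49 (nat_lit 160) (nat_lit 177) (nat_lit 5) (nat_lit 8) (nat_lit 6) L748 (by decide +kernel)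
theorem L750 : W_49 (nat_lit 10) (nat_lit 0xe0001000080004000000000000000000000000000) (nat_lit 0x0) (nat_lit 0x80004000720011000c000740013800100000000000000000000000) := T_49 (nat_lit 109) (nat_lit 92) (nat_lit 4) (nat_lit 8) (nat_lit 9) L749 (by decide +kernel)
theorem L751 : W_49 (nat_lit 2) (nat_lit 0x40001e0011000080006000000000000000000000000000) (nat_lit 0x0) (nat_lit 0x8000200020000000000000000000000000000000000000) := D_49 (nat_lit 165) (nat_lit 183) (nat_lit 149) (nat_lit 3) (nat_lit 9) (nat_lit 9) (nat_lit 2) (nat_lit 9) (nat_lit 9) (by decide +kernel)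
theorem L752 : W_49 (nat_lit 3) (nat_lit 0x40001e0001000080006000000000000000000000000000) (nat_lit 0x0) (nat_lit 0x8000200038000000000000000000000000000000000000) := T_49 (nat_lit 148) (nat_lit 147) (nat_lit 2) (nat_lit 8) (nat_lit 9) L751 (by decide +kernel)
theorem L753 : W_49 (nat_lit 4) (nat_lit 0x1e0001000080006000000000000000000000000000) (nat_lit 0x0) (nat_lit 0xe000200038000000000000000000000000000000000000) := T_49 (nat_lit 182) (nat_lit 181) (nat_lit 3) (nat_lit 8) (nat_lit 9) L752 (by decide +kernel)
theorem L754 : W_49 (nat_lit 5) (nat_lit 0x1e0001000080004000000000000000000000000000) (nat_lit 0x0) (nat_lit 0xe000200038000000002000100000000000000000000000) := T_49 (nat_lit 109) (nat_lit 92) (nat_lit 4) (nat_lit 8) (nat_lit 9) L753 (by decide +kernel)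
theorem L755 : W_49 (nat_lit 6) (nat_lit 0xe0001000080004000000000000000000000000000) (nat_lit 0x0) (nat_lit 0xe000300038800000002000100000000000000000000000) := T_49 (nat_lit 164) (nat_lit 143) (nat_lit 0) (nat_lit 11) (nat_lit 9) L754 (by decide +kernel)
theorem L766 : W_49 (nat_lit 12) (nat_lit 0x60001000080004000000000000000000000000000) (nat_lit 0x0) (nat_lit 0x80004000f38039803ce00770013800140000000000000000000000) := Q_49 (nat_lit 163) (C_49 L670 (C_49 L705 (C_49 L750 (C_49 L755 (C_49 L765 N_49))))) (by decide +kernel)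
theorem L767 : W_49 (nat_lit 13) (nat_lit 0x20001000080004000000000000000000000000000) (nat_lit 0x0) (nat_lit 0x80004000fb803d803ce00770013800140000000000000000000000) := T_49 (nat_lit 162) (nat_lit 179) (nat_lit 7) (nat_lit 8) (nat_lit 6) L766 (by decide +kernel)
theorem L772 : W_49 (nat_lit 8) (nat_lit 0x2000100008000c000000000000000000000000000) (nat_lit 0x0) (nat_lit 0x200010000001f780738001e0000000000000000000000) := Q_49 (nat_lit 112) (C_49 L720 (C_49 L771 (C_49 L709 N_49))) (by decide +kernel)
theorem L773 : W_49 (nat_lit 9) (nat_lit 0x20001000080004000000000000000000000000000) (nat_lit 0x0) (nat_lit 0x200010000001f7807b8005e0000000000000000000000) := T_49 (nat_lit 111) (nat_lit 94) (nat_lit 6) (nat_lit 8) (nat_lit 9) L772 (by decide +kernel)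
theorem L777 : W_49 (nat_lit 5) (nat_lit 0x60001000090007800020000000000000000000000) (nat_lit 0x0) (nat_lit 0x20001c000e00000000400010000000000000000000000) := T_49 (nat_lit 160) (nat_lit 177) (nat_lit 5) (nat_lit 8) (nat_lit 6) L776 (by decide +kernel)
theorem L778 : W_49 (nat_lit 6) (nat_lit 0x60001000090007800000000000000000000000000) (nat_lit 0x0) (nat_lit 0x20001c000e00000000400070000000000000000000000) := T_49 (nat_lit 89) (nat_lit 90) (nat_lit 0) (nat_lit 8) (nat_lit 6) L777 (by decide +kernel)
theorem L779 : W_49 (nat_lit 7) (nat_lit 0x60001000080007800000000000000000000000000) (nat_lit 0x0) (nat_lit 0x20001c000e00018000400070000000000000000000000) := T_49 (nat_lit 124) (nat_lit 123) (nat_lit 1) (nat_lit 8) (nat_lit 6) L778 (by decide +kernel)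
theorem L780 : W_49 (nat_lit 8) (nat_lit 0x60001000080007000000000000000000000000000) (nat_lit 0x0) (nat_lit 0x20001c000e00118000c00070000000000000000000000) := T_49 (nat_lit 107) (nat_lit 128) (nat_lit 3) (nat_lit 5) (nat_lit 6) L779 (by decide +kernel)
theorem L781 : W_49 (nat_lit 9) (nat_lit 0x20001000080007000000000000000000000000000) (nat_lit 0x0) (nat_lit 0xa0005c000e00118000c00070000000000000000000000) := T_49 (nat_lit 162) (nat_lit 179) (nat_lit 7) (nat_lit 8) (nat_lit 6) L780 (by decide +kernel)
theorem L787 : W_49 (nat_lit 7) (nat_lit 0x30001000080007000000000000000000000000000) (nat_lit 0x0) (nat_lit 0x80004c000e000300080004c0000000000000000000000) := T_49 (nat_lit 162) (nat_lit 179) (nat_lit 7) (nat_lit 8) (nat_lit 6) L786 (by decide +kernel)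
theorem L788 : W_49 (nat_lit 8) (nat_lit 0x20001000080007000000000000000000000000000) (nat_lit 0x0) (nat_lit 0xa0005c000e000300080004c0000000000000000000000) := T_49 (nat_lit 160) (nat_lit 177) (nat_lit 5) (nat_lit 8) (nat_lit 6) L787 (by decide +kernel)
theorem L789 : W_49 (nat_lit 10) (nat_lit 0x20001000080006000000000000000000000000000) (nat_lit 0x0) (nat_lit 0xa0005c000e00338009c004f0000000000000000000000) := Q_49 (nat_lit 108) (C_49 L664 (C_49 L781 (C_49 L788 N_49))) (by decide +kernel)
theorem L790 : W_49 (nat_lit 11) (nat_lit 0x20001000080004000000000000000000000000000) (nat_lit 0x0) (nat_lit 0xa0005c000e0033800bc005f0000000000000000000000) := T_49 (nat_lit 109) (nat_lit 92) (nat_lit 4) (nat_lit 8) (nat_lit 9) L789 (by decide +kernel)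
theorem L791 : W_49 (nat_lit 14) (nat_lit 0x20001000080000000000000000000000000000000) (nat_lit 0x0) (nat_lit 0x18000c000fb803dc03ce01f7c07fc07df0000000000000000000000) := Q_49 (nat_lit 110) (C_49 L666 (C_49 L707 (C_49 L722 (C_49 L741 (C_49 L767 (C_49 L773 (C_49 L790 N_49))))))) (by decide +kernel)
theorem L796 : W_49 (nat_lit 2) (nat_lit 0xc000e0001a00580000000000000000000000000000000) (nat_lit 0x0) (nat_lit 0x4000300000000000000000000000000000000000000000000) := D_49 (nat_lit 177) (nat_lit 194) (nat_lit 176) (nat_lit 5) (nat_lit 8) (nat_lit 7) (nat_lit 2) (nat_lit 6) (nat_lit 10) (by decide +kernel)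
theorem L797 : W_49 (nat_lit 3) (nat_lit 0xc00060001a00580000000000000000000000000000000) (nat_lit 0x0) (nat_lit 0x4000300180000000000000000000000000000000000000000) := T_49 (nat_lit 163) (nat_lit 164) (nat_lit 0) (nat_lit 11) (nat_lit 9) L796 (by decide +kernel)
theorem L798 : W_49 (nat_lit 4) (nat_lit 0xc00060001a00180000000000000000000000000000000) (nat_lit 0x0) (nat_lit 0x4000300180000000600000000000000000000000000000000) := T_49 (nat_lit 130) (nat_lit 129) (nat_lit 1) (nat_lit 11) (nat_lit 7) L797 (by decide +kernel)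
theorem L799 : W_49 (nat_lit 5) (nat_lit 0xc00060001800180000000000000000000000000000000) (nat_lit 0x0) (nat_lit 0x4000300180000600600000000000000000000000000000000) := T_49 (nat_lit 141) (nat_lit 142) (nat_lit 3) (nat_lit 5) (nat_lit 8) L798 (by decide +kernel)
theorem L800 : W_49 (nat_lit 6) (nat_lit 0xc00060001800080000000000000000000000000000000) (nat_lit 0x0) (nat_lit 0x4000300180000600700008000000000000000000000000000) := T_49 (nat_lit 128) (nat_lit 111) (nat_lit 6) (nat_lit 8) (nat_lit 10) L799 (by decide +kernel)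
theorem L801 : W_49 (nat_lit 7) (nat_lit 0x400060001800080000000000000000000000000000000) (nat_lit 0x0) (nat_lit 0x14000b00180000600700008000000000000000000000000000) := T_49 (nat_lit 179) (nat_lit 196) (nat_lit 7) (nat_lit 8) (nat_lit 7) L800 (by decide +kernel)
theorem L805 : W_49 (nat_lit 5) (nat_lit 0xc00060001a00380000000000000000000000000000000) (nat_lit 0x0) (nat_lit 0x300019800c000000010000000000000000000000000000) := T_49 (nat_lit 163) (nat_lit 164) (nat_lit 0) (nat_lit 11) (nat_lit 9) L804 (by decide +kernel)
theorem L806 : W_49 (nat_lit 6) (nat_lit 0xc00060001a00180000000000000000000000000000000) (nat_lit 0x0) (nat_lit 0x300019800c000600010000000000000000000000000000) := T_49 (nat_lit 129) (nat_lit 130) (nat_lit 1) (nat_lit 11) (nat_lit 7) L805 (by decide +kernel)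
theorem L807 : W_49 (nat_lit 7) (nat_lit 0xc00060001800180000000000000000000000000000000) (nat_lit 0x0) (nat_lit 0x300019800c600600010000000000000000000000000000) := T_49 (nat_lit 141) (nat_lit 142) (nat_lit 3) (nat_lit 5) (nat_lit 8) L806 (by decide +kernel)
theorem L808 : W_49 (nat_lit 8) (nat_lit 0xc00060001800080000000000000000000000000000000) (nat_lit 0x0) (nat_lit 0x300019800c600700018000000000000000000000000000) := T_49 (nat_lit 128) (nat_lit 111) (nat_lit 6) (nat_lit 8) (nat_lit 10) L807 (by decide +kernel)
theorem L809 : W_49 (nat_lit 9) (nat_lit 0x400060001800080000000000000000000000000000000) (nat_lit 0x0) (nat_lit 0x1000380019800c600700018000000000000000000000000000) := T_49 (nat_lit 179) (nat_lit 196) (nat_lit 7) (nat_lit 8) (nat_lit 7) L808 (by decide +kernel)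
theorem L810 : W_49 (nat_lit 2) (nat_lit 0x2000f00068001800080000000000000000000000000000000) (nat_lit 0x0) (nat_lit 0x40000001000010000000000000000000000000000000000000000) := D_49 (nat_lit 160) (nat_lit 180) (nat_lit 210) (nat_lit 3) (nat_lit 6) (nat_lit 9) (nat_lit 6) (nat_lit 6) (nat_lit 12) (by decide +kernel)
theorem L811 : W_49 (nat_lit 3) (nat_lit 0x2000f00060001800080000000000000000000000000000000) (nat_lit 0x0) (nat_lit 0x4000000100001c000000000000000000000000000000000000000) := T_49 (nat_lit 159) (nat_lit 158) (nat_lit 0) (nat_lit 9) (nat_lit 10) L810 (by decide +kernel)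
theorem L812 : W_49 (nat_lit 4) (nat_lit 0xf00060001800080000000000000000000000000000000) (nat_lit 0x0) (nat_lit 0x4000300100001c000000000000000000000000000000000000000) := T_49 (nat_lit 193) (nat_lit 192) (nat_lit 1) (nat_lit 9) (nat_lit 10) L811 (by decide +kernel)
theorem L813 : W_49 (nat_lit 5) (nat_lit 0x700060001800080000000000000000000000000000000) (nat_lit 0x0) (nat_lit 0x4001300180001c000000000000000000000000000000000000000) := T_49 (nat_lit 179) (nat_lit 196) (nat_lit 7) (nat_lit 8) (nat_lit 7) L812 (by decide +kernel)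
theorem L814 : W_49 (nat_lit 6) (nat_lit 0x600060001800080000000000000000000000000000000) (nat_lit 0x0) (nat_lit 0x4001300198001c000000000000000000000000000000000000000) := T_49 (nat_lit 176) (nat_lit 175) (nat_lit 2) (nat_lit 5) (nat_lit 10) L813 (by decide +kernel)
theorem L815 : W_49 (nat_lit 7) (nat_lit 0x400060001800080000000000000000000000000000000) (nat_lit 0x0) (nat_lit 0x40017001b8001c000000000000000000000000000000000000000) := T_49 (nat_lit 177) (nat_lit 194) (nat_lit 5) (nat_lit 8) (nat_lit 7) L814 (by decide +kernel)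
theorem L816 : W_49 (nat_lit 11) (nat_lit 0x400020001800080000000000000000000000000000000) (nat_lit 0x0) (nat_lit 0x40017003b801dc00c600700018000000000000000000000000000) := Q_49 (nat_lit 162) (C_49 L795 (C_49 L480 (C_49 L801 (C_49 L809 (C_49 L815 N_49))))) (by decide +kernel)
theorem L817 : W_49 (nat_lit 2) (nat_lit 0x2f000340018000e8000000000000000000000000000000) (nat_lit 0x0) (nat_lit 0x800c0000000000000000000000000000000000000000) := D_49 (nat_lit 162) (nat_lit 163) (nat_lit 175) (nat_lit 2) (nat_lit 6) (nat_lit 10) (nat_lit 2) (nat_lit 5) (nat_lit 10) (by decide +kernel)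
theorem L818 : W_49 (nat_lit 3) (nat_lit 0x2e000340018000e8000000000000000000000000000000) (nat_lit 0x0) (nat_lit 0x20001800c0000000000000000000000000000000000000000) := T_49 (nat_lit 176) (nat_lit 193) (nat_lit 5) (nat_lit 7) (nat_lit 7) L817 (by decide +kernel)
theorem L819 : W_49 (nat_lit 4) (nat_lit 0x2e000340018000e0000000000000000000000000000000) (nat_lit 0x0) (nat_lit 0x20001800c0000000018000000000000000000000000000000) := T_49 (nat_lit 123) (nat_lit 124) (nat_lit 3) (nat_lit 4) (nat_lit 7) L818 (by decide +kernel)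
theorem L820 : W_49 (nat_lit 5) (nat_lit 0x2e000340018000c0000000000000000000000000000000) (nat_lit 0x0) (nat_lit 0x20001800c0000000038001000000000000000000000000000) := T_49 (nat_lit 125) (nat_lit 108) (nat_lit 4) (nat_lit 7) (nat_lit 10) L819 (by decide +kernel)
theorem L821 : W_49 (nat_lit 6) (nat_lit 0x2c000340018000c0000000000000000000000000000000) (nat_lit 0x0) (nat_lit 0x60003800c0000000038001000000000000000000000000000) := T_49 (nat_lit 177) (nat_lit 194) (nat_lit 6) (nat_lit 7) (nat_lit 11) L820 (by decide +kernel)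
theorem L822 : W_49 (nat_lit 7) (nat_lit 0x2c00034001800080000000000000000000000000000000) (nat_lit 0x0) (nat_lit 0x60003800c0000000078003000000000000000000000000000) := T_49 (nat_lit 126) (nat_lit 109) (nat_lit 7) (nat_lit 7) (nat_lit 6) L821 (by decide +kernel)
theorem L823 : W_49 (nat_lit 8) (nat_lit 0xc00034001800080000000000000000000000000000000) (nat_lit 0x0) (nat_lit 0x60033800c0000000078003000000000000000000000000000) := T_49 (nat_lit 181) (nat_lit 180) (nat_lit 0) (nat_lit 11) (nat_lit 10) L822 (by decide +kernel)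
theorem L824 : W_49 (nat_lit 9) (nat_lit 0xc00030001800080000000000000000000000000000000) (nat_lit 0x0) (nat_lit 0x60033800cc000000078003000000000000000000000000000) := T_49 (nat_lit 158) (nat_lit 159) (nat_lit 3) (nat_lit 5) (nat_lit 9) L823 (by decide +kernel)
theorem L825 : W_49 (nat_lit 10) (nat_lit 0x400030001800080000000000000000000000000000000) (nat_lit 0x0) (nat_lit 0x16003b800cc000000078003000000000000000000000000000) := T_49 (nat_lit 179) (nat_lit 196) (nat_lit 7) (nat_lit 8) (nat_lit 7) L824 (by decide +kernel)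
theorem L840 : W_49 (nat_lit 11) (nat_lit 0x400020001800080000000000000000000000000000000) (nat_lit 0x0) (nat_lit 0x16003bc00dc000000078003000000000000000000000000000) := Q_49 (nat_lit 160) (C_49 L825 (C_49 L829 (C_49 L453 (C_49 L835 (C_49 L839 N_49))))) (by decide +kernel)
theorem L841 : W_49 (nat_lit 12) (nat_lit 0x400020001000080000000000000000000000000000000) (nat_lit 0x0) (nat_lit 0x40017003bc01dc00ce0077801b000000000000000000000000000) := Q_49 (nat_lit 143) (C_49 L816 (C_49 L514 (C_49 L840 N_49))) (by decide +kernel)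
theorem L842 : W_49 (nat_lit 2) (nat_lit 0x4000c000200010000c0000000000000000000000000000000) (nat_lit 0x0) (nat_lit 0x80008000000000000800000000000000000000000000000000000) := D_49 (nat_lit 195) (nat_lit 211) (nat_lit 143) (nat_lit 5) (nat_lit 8) (nat_lit 8) (nat_lit 4) (nat_lit 8) (nat_lit 11) (by decide +kernel)
theorem L843 : W_49 (nat_lit 3) (nat_lit 0x4000c00020001000080000000000000000000000000000000) (nat_lit 0x0) (nat_lit 0x80008000000000000800040002000000000000000000000000000) := T_49 (nat_lit 126) (nat_lit 109) (nat_lit 4) (nat_lit 8) (nat_lit 10) L842 (by decide +kernel)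
theorem L844 : W_49 (nat_lit 4) (nat_lit 0xc00020001000080000000000000000000000000000000) (nat_lit 0x0) (nat_lit 0x8000c000200000000800040002000000000000000000000000000) := T_49 (nat_lit 194) (nat_lit 177) (nat_lit 5) (nat_lit 8) (nat_lit 7) L843 (by decide +kernel)
theorem L845 : W_49 (nat_lit 5) (nat_lit 0x400020001000080000000000000000000000000000000) (nat_lit 0x0) (nat_lit 0x8001c000a00000000800040002000000000000000000000000000) := T_49 (nat_lit 179) (nat_lit 196) (nat_lit 7) (nat_lit 8) (nat_lit 7) L844 (by decide +kernel)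
theorem L853 : W_49 (nat_lit 2) (nat_lit 0x80004000200010001c0000000000000000000000000000000) (nat_lit 0x0) (nat_lit 0x200010000800000000000000000000000000000000000000000000) := D_49 (nat_lit 196) (nat_lit 179) (nat_lit 213) (nat_lit 7) (nat_lit 8) (nat_lit 7) (nat_lit 7) (nat_lit 8) (nat_lit 8) (by decide +kernel)
theorem L854 : W_49 (nat_lit 3) (nat_lit 0x4000200010001c0000000000000000000000000000000) (nat_lit 0x0) (nat_lit 0x200018000800000000800000000000000000000000000000000000) := T_49 (nat_lit 195) (nat_lit 143) (nat_lit 4) (nat_lit 8) (nat_lit 11) L853 (by decide +kernel)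
theorem L855 : W_49 (nat_lit 4) (nat_lit 0x4000200010000c0000000000000000000000000000000) (nat_lit 0x0) (nat_lit 0x200018000800000000800100008000000000000000000000000000) := T_49 (nat_lit 128) (nat_lit 111) (nat_lit 6) (nat_lit 8) (nat_lit 10) L854 (by decide +kernel)
theorem L856 : W_49 (nat_lit 5) (nat_lit 0x400020001000080000000000000000000000000000000) (nat_lit 0x0) (nat_lit 0x20001800080000000080014000a000000000000000000000000000) := T_49 (nat_lit 126) (nat_lit 109) (nat_lit 4) (nat_lit 8) (nat_lit 10) L855 (by decide +kernel)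
theorem L859 : W_49 (nat_lit 5) (nat_lit 0x600020001000080000000000000000000000000000000) (nat_lit 0x0) (nat_lit 0x8000000000000e0034000a000000000000000000000000000) := T_49 (nat_lit 128) (nat_lit 111) (nat_lit 6) (nat_lit 8) (nat_lit 10) L858 (by decide +kernel)
theorem L860 : W_49 (nat_lit 6) (nat_lit 0x400020001000080000000000000000000000000000000) (nat_lit 0x0) (nat_lit 0xc000200000000e0034000a000000000000000000000000000) := T_49 (nat_lit 177) (nat_lit 194) (nat_lit 5) (nat_lit 8) (nat_lit 7) L859 (by decide +kernel)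
theorem L861 : W_49 (nat_lit 13) (nat_lit 0x20001000080000000000000000000000000000000) (nat_lit 0x0) (nat_lit 0x200070003c001f003fc01dc00ce0077801b000000000000000000000000000) := Q_49 (nat_lit 178) (C_49 L841 (C_49 L845 (C_49 L849 (C_49 L852 (C_49 L856 (C_49 L860 N_49)))))) (by decide +kernel)
theorem L872 : W_49 (nat_lit 2) (nat_lit 0xc000c00070001c00580000000000000000000000000000000) (nat_lit 0x0) (nat_lit 0x100000c000000000000000000000000000000000000000) := D_49 (nat_lit 159) (nat_lit 180) (nat_lit 158) (nat_lit 3) (nat_lit 6) (nat_lit 9) (nat_lit 3) (nat_lit 5) (nat_lit 9) (by decide +kernel)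
theorem L873 : W_49 (nat_lit 3) (nat_lit 0xc000400070001c00580000000000000000000000000000000) (nat_lit 0x0) (nat_lit 0x180000c000000000004000000000000000000000000000) := T_49 (nat_lit 179) (nat_lit 110) (nat_lit 7) (nat_lit 8) (nat_lit 6) L872 (by decide +kernel)
theorem L874 : W_49 (nat_lit 4) (nat_lit 0xc000400030001c00580000000000000000000000000000000) (nat_lit 0x0) (nat_lit 0x18000cc000000000004000000000000000000000000000) := T_49 (nat_lit 162) (nat_lit 163) (nat_lit 0) (nat_lit 10) (nat_lit 9) L873 (by decide +kernel)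
theorem L875 : W_49 (nat_lit 5) (nat_lit 0xc000400030001c00180000000000000000000000000000000) (nat_lit 0x0) (nat_lit 0x18000cc000000600004000000000000000000000000000) := T_49 (nat_lit 130) (nat_lit 129) (nat_lit 1) (nat_lit 11) (nat_lit 7) L874 (by decide +kernel)
theorem L876 : W_49 (nat_lit 6) (nat_lit 0xc000400020001c00180000000000000000000000000000000) (nat_lit 0x0) (nat_lit 0x1000000018000dc000000600004000000000000000000000000000) := T_49 (nat_lit 160) (nat_lit 212) (nat_lit 4) (nat_lit 8) (nat_lit 12) L875 (by decide +kernel)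
theorem L877 : W_49 (nat_lit 7) (nat_lit 0xc000400020001800180000000000000000000000000000000) (nat_lit 0x0) (nat_lit 0x1000000018000dc000600600004000000000000000000000000000) := T_49 (nat_lit 142) (nat_lit 141) (nat_lit 2) (nat_lit 5) (nat_lit 8) L876 (by decide +kernel)
theorem L878 : W_49 (nat_lit 8) (nat_lit 0xc000400020001000180000000000000000000000000000000) (nat_lit 0x0) (nat_lit 0x1000000018000dc000e00640004000000000000000000000000000) := T_49 (nat_lit 143) (nat_lit 126) (nat_lit 4) (nat_lit 8) (nat_lit 11) L877 (by decide +kernel)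
theorem L879 : W_49 (nat_lit 9) (nat_lit 0x4000400020001000180000000000000000000000000000000) (nat_lit 0x0) (nat_lit 0x1800080018000dc000e00640004000000000000000000000000000) := T_49 (nat_lit 195) (nat_lit 211) (nat_lit 5) (nat_lit 8) (nat_lit 8) L878 (by decide +kernel)
theorem L880 : W_49 (nat_lit 10) (nat_lit 0x400020001000180000000000000000000000000000000) (nat_lit 0x0) (nat_lit 0x18000c001a000dc000e00640004000000000000000000000000000) := T_49 (nat_lit 194) (nat_lit 177) (nat_lit 5) (nat_lit 8) (nat_lit 7) L879 (by decide +kernel)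
theorem L881 : W_49 (nat_lit 11) (nat_lit 0x400020001000080000000000000000000000000000000) (nat_lit 0x0) (nat_lit 0x18000c001a000dc000e0074000c000000000000000000000000000) := T_49 (nat_lit 128) (nat_lit 111) (nat_lit 6) (nat_lit 8) (nat_lit 10) L880 (by decide +kernel)
theorem L882 : W_49 (nat_lit 12) (nat_lit 0x20001000080000000000000000000000000000000) (nat_lit 0x0) (nat_lit 0x400038001c001e000dc000e0074000c000400000000000000000000000) := Q_49 (nat_lit 178) (C_49 L575 (C_49 L868 (C_49 L849 (C_49 L871 (C_49 L881 N_49))))) (by decide +kernel)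
theorem L883 : W_49 (nat_lit 2) (nat_lit 0x6000200010000c0008000000000000000000000000000) (nat_lit 0x0) (nat_lit 0x10000000000004000400000000000000000000000) := D_49 (nat_lit 110) (nat_lit 160) (nat_lit 94) (nat_lit 5) (nat_lit 8) (nat_lit 6) (nat_lit 6) (nat_lit 8) (nat_lit 9) (by decide +kernel)
theorem L884 : W_49 (nat_lit 3) (nat_lit 0x4000200010000c0008000000000000000000000000000) (nat_lit 0x0) (nat_lit 0x4000200010000000000004000400000000000000000000000) := T_49 (nat_lit 177) (nat_lit 194) (nat_lit 5) (nat_lit 8) (nat_lit 7) L883 (by decide +kernel)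
theorem L885 : W_49 (nat_lit 4) (nat_lit 0x4000200010000c0000000000000000000000000000000) (nat_lit 0x0) (nat_lit 0x400020001000000010000c000400000000000000000000000) := T_49 (nat_lit 111) (nat_lit 128) (nat_lit 6) (nat_lit 8) (nat_lit 10) L884 (by decide +kernel)
theorem L886 : W_49 (nat_lit 5) (nat_lit 0x400020001000080000000000000000000000000000000) (nat_lit 0x0) (nat_lit 0x400020001000000014000e000400000000000000000000000) := T_49 (nat_lit 126) (nat_lit 109) (nat_lit 4) (nat_lit 8) (nat_lit 10) L885 (by decide +kernel)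
theorem L887 : W_49 (nat_lit 6) (nat_lit 0x20001000080000000000000000000000000000000) (nat_lit 0x0) (nat_lit 0x28001c000e0005000000014000e000400000000000000000000000) := Q_49 (nat_lit 178) (C_49 L575 (C_49 L871 (C_49 L886 (C_49 L849 N_49)))) (by decide +kernel)
theorem L891 : W_49 (nat_lit 5) (nat_lit 0xc000200010000c0000000000000000000000000000000) (nat_lit 0x0) (nat_lit 0x300018000c000000040000800000004000000000000000000000000000) := T_49 (nat_lit 162) (nat_lit 110) (nat_lit 7) (nat_lit 8) (nat_lit 6) L890 (by decide +kernel)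
theorem L892 : W_49 (nat_lit 6) (nat_lit 0x4000200010000c0000000000000000000000000000000) (nat_lit 0x0) (nat_lit 0x300018001c000800040000800000004000000000000000000000000000) := T_49 (nat_lit 179) (nat_lit 196) (nat_lit 7) (nat_lit 8) (nat_lit 7) L891 (by decide +kernel)
theorem L893 : W_49 (nat_lit 7) (nat_lit 0x400020001000080000000000000000000000000000000) (nat_lit 0x0) (nat_lit 0x300018001c000800040000800040006000000000000000000000000000) := T_49 (nat_lit 126) (nat_lit 109) (nat_lit 4) (nat_lit 8) (nat_lit 10) L892 (by decide +kernel)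
theorem L894 : W_49 (nat_lit 2) (nat_lit 0xc00060001c000c0000000000000000000000000000000) (nat_lit 0x0) (nat_lit 0x190000000000000000000000000000000000000000) := D_49 (nat_lit 163) (nat_lit 164) (nat_lit 160) (nat_lit 0) (nat_lit 11) (nat_lit 9) (nat_lit 0) (nat_lit 10) (nat_lit 9) (by decide +kernel)
theorem L895 : W_49 (nat_lit 3) (nat_lit 0xc000600018000c0000000000000000000000000000000) (nat_lit 0x0) (nat_lit 0x190000600000000000000000000000000000000000) := T_49 (nat_lit 142) (nat_lit 141) (nat_lit 3) (nat_lit 5) (nat_lit 8) L894 (by decide +kernel)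
theorem L896 : W_49 (nat_lit 4) (nat_lit 0xc000600010000c0000000000000000000000000000000) (nat_lit 0x0) (nat_lit 0x8000000190000e00000000000000000000000000000000000) := T_49 (nat_lit 143) (nat_lit 195) (nat_lit 4) (nat_lit 8) (nat_lit 11) L895 (by decide +kernel)
theorem L897 : W_49 (nat_lit 5) (nat_lit 0xc000200010000c0000000000000000000000000000000) (nat_lit 0x0) (nat_lit 0x80000001d0000e00000004000000000000000000000000000) := T_49 (nat_lit 162) (nat_lit 110) (nat_lit 7) (nat_lit 8) (nat_lit 6) L896 (by decide +kernel)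
theorem L898 : W_49 (nat_lit 6) (nat_lit 0x4000200010000c0000000000000000000000000000000) (nat_lit 0x0) (nat_lit 0x180008001d0000e00000004000000000000000000000000000) := T_49 (nat_lit 179) (nat_lit 196) (nat_lit 7) (nat_lit 8) (nat_lit 7) L897 (by decide +kernel)
theorem L899 : W_49 (nat_lit 7) (nat_lit 0x400020001000080000000000000000000000000000000) (nat_lit 0x0) (nat_lit 0x180008001d0000e00040006000000000000000000000000000) := T_49 (nat_lit 126) (nat_lit 109) (nat_lit 4) (nat_lit 8) (nat_lit 10) L898 (by decide +kernel)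
theorem L900 : W_49 (nat_lit 10) (nat_lit 0x20001000080000000000000000000000000000000) (nat_lit 0x0) (nat_lit 0x700038001e000fc01d0000e00078007000000000000000000000000000) := Q_49 (nat_lit 178) (C_49 L575 (C_49 L589 (C_49 L845 (C_49 L893 (C_49 L899 (C_49 L598 N_49)))))) (by decide +kernel)
theorem L904 : W_49 (nat_lit 10) (nat_lit 0x20001000080000000000000000000000000000000) (nat_lit 0x0) (nat_lit 0x500038001e0007c0050000e0037800f000400000000000000000000000) := Q_49 (nat_lit 178) (C_49 L598 (C_49 L886 (C_49 L868 (C_49 L903 (C_49 L860 (C_49 L605 (C_49 L609 N_49))))))) (by decide +kernel)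
theorem L905 : W_49 (nat_lit 2) (nat_lit 0xc0002000100008000e000000000000000000000000000) (nat_lit 0x0) (nat_lit 0x4000200010000000000000000000000000000000000000000) := D_49 (nat_lit 177) (nat_lit 194) (nat_lit 160) (nat_lit 5) (nat_lit 8) (nat_lit 7) (nat_lit 5) (nat_lit 8) (nat_lit 6) (by decide +kernel)
theorem L906 : W_49 (nat_lit 3) (nat_lit 0x80002000100008000e000000000000000000000000000) (nat_lit 0x0) (nat_lit 0x14000600010000000000000000000000000000000000000000) := T_49 (nat_lit 178) (nat_lit 196) (nat_lit 7) (nat_lit 8) (nat_lit 7) L905 (by decide +kernel)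
theorem L907 : W_49 (nat_lit 4) (nat_lit 0x800020001000080006000000000000000000000000000) (nat_lit 0x0) (nat_lit 0x14000600010000000000008000400000000000000000000000) := T_49 (nat_lit 111) (nat_lit 94) (nat_lit 6) (nat_lit 8) (nat_lit 9) L906 (by decide +kernel)
theorem L908 : W_49 (nat_lit 5) (nat_lit 0x20001000080006000000000000000000000000000) (nat_lit 0x0) (nat_lit 0x14000e00050000000000008000400000000000000000000000) := T_49 (nat_lit 179) (nat_lit 162) (nat_lit 7) (nat_lit 8) (nat_lit 6) L907 (by decide +kernel)
theorem L909 : W_49 (nat_lit 6) (nat_lit 0x20001000080004000000000000000000000000000) (nat_lit 0x0) (nat_lit 0x14000e0005000000000000a000500000000000000000000000) := T_49 (nat_lit 109) (nat_lit 92) (nat_lit 4) (nat_lit 8) (nat_lit 9) L908 (by decide +kernel)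
theorem L910 : W_49 (nat_lit 2) (nat_lit 0x80003000100008000c000000000000000000000000000) (nat_lit 0x0) (nat_lit 0x10000400000000000100000000000000000000000000000000) := D_49 (nat_lit 178) (nat_lit 128) (nat_lit 196) (nat_lit 6) (nat_lit 8) (nat_lit 10) (nat_lit 7) (nat_lit 8) (nat_lit 7) (by decide +kernel)
theorem L911 : W_49 (nat_lit 3) (nat_lit 0x3000100008000c000000000000000000000000000) (nat_lit 0x0) (nat_lit 0x10000c00040000000100000000000000000000000000000000) := T_49 (nat_lit 179) (nat_lit 162) (nat_lit 7) (nat_lit 8) (nat_lit 6) L910 (by decide +kernel)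
theorem L912 : W_49 (nat_lit 4) (nat_lit 0x30001000080004000000000000000000000000000) (nat_lit 0x0) (nat_lit 0x10000c00040000000100008000400000000000000000000000) := T_49 (nat_lit 111) (nat_lit 94) (nat_lit 6) (nat_lit 8) (nat_lit 9) L911 (by decide +kernel)
theorem L913 : W_49 (nat_lit 5) (nat_lit 0x20001000080004000000000000000000000000000) (nat_lit 0x0) (nat_lit 0x10000e00050000000100008000400000000000000000000000) := T_49 (nat_lit 160) (nat_lit 177) (nat_lit 5) (nat_lit 8) (nat_lit 6) L912 (by decide +kernel)
theorem L916 : W_49 (nat_lit 4) (nat_lit 0x20001000080006000000000000000000000000000) (nat_lit 0x0) (nat_lit 0x14000e00050000000000000000000000000000000000000000) := T_49 (nat_lit 177) (nat_lit 160) (nat_lit 5) (nat_lit 8) (nat_lit 6) L915 (by decide +kernel)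
theorem L917 : W_49 (nat_lit 5) (nat_lit 0x20001000080004000000000000000000000000000) (nat_lit 0x0) (nat_lit 0x14000e00050000000000002000100000000000000000000000) := T_49 (nat_lit 109) (nat_lit 92) (nat_lit 4) (nat_lit 8) (nat_lit 9) L916 (by decide +kernel)
theorem L924 : W_49 (nat_lit 3) (nat_lit 0x6000100018000c000000000000000000000000000) (nat_lit 0x0) (nat_lit 0x200003800100000000000000000000000) := T_49 (nat_lit 109) (nat_lit 92) (nat_lit 4) (nat_lit 8) (nat_lit 9) L923 (by decide +kernel)
theorem L925 : W_49 (nat_lit 4) (nat_lit 0x6000100008000c000000000000000000000000000) (nat_lit 0x0) (nat_lit 0x400000000000300003800100000000000000000000000) := T_49 (nat_lit 128) (nat_lit 178) (nat_lit 6) (nat_lit 8) (nat_lit 10) L924 (by decide +kernel)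
theorem L926 : W_49 (nat_lit 5) (nat_lit 0x2000100008000c000000000000000000000000000) (nat_lit 0x0) (nat_lit 0xc00040000000300003800100000000000000000000000) := T_49 (nat_lit 162) (nat_lit 179) (nat_lit 7) (nat_lit 8) (nat_lit 6) L925 (by decide +kernel)
theorem L927 : W_49 (nat_lit 6) (nat_lit 0x20001000080004000000000000000000000000000) (nat_lit 0x0) (nat_lit 0xc0004000000030000b800500000000000000000000000) := T_49 (nat_lit 111) (nat_lit 94) (nat_lit 6) (nat_lit 8) (nat_lit 9) L926 (by decide +kernel)
theorem L928 : W_49 (nat_lit 12) (nat_lit 0x20001000080000000000000000000000000000000) (nat_lit 0x0) (nat_lit 0x14000e0005c000e0033800fc005f0000000000000000000000) := Q_49 (nat_lit 110) (C_49 L909 (C_49 L913 (C_49 L917 (C_49 L922 (C_49 L927 (C_49 L790 N_49)))))) (by decide +kernel)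
theorem L929 : W_49 (nat_lit 8) (nat_lit 0x20001000080000000000000000000000000000000) (nat_lit 0x0) (nat_lit 0x300018001c000c00040000e0034000e000400000000000000000000000) := Q_49 (nat_lit 178) (C_49 L893 (C_49 L871 (C_49 L609 N_49))) (by decide +kernel)
theorem L930 : W_49 (nat_lit 8) (nat_lit 0x20001000080000000000000000000000000000000) (nat_lit 0x0) (nat_lit 0x600030001c000600010000e0034000e000400000000000000000000000) := Q_49 (nat_lit 178) (C_49 L589 (C_49 L903 (C_49 L609 N_49))) (by decide +kernel)
theorem L931 : W_49 (nat_lit 15) (nat_lit 0x1000080000000000000000000000000000000) (nat_lit 0x0) (nat_lit 0x20007001bc00df00ffc03fc03ce01f7c07fc07df0000000000000000000000) := Q_49 (nat_lit 161) (C_49 L791 (C_49 L861 (C_49 L882 (C_49 L887 (C_49 L900 (C_49 L904 (C_49 L928 (C_49 L929 (C_49 L930 N_49))))))))) (by decide +kernel)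
theorem L937 : W_49 (nat_lit 7) (nat_lit 0xc00160001800080000000000000000000000000000000) (nat_lit 0x0) (nat_lit 0x4000700138001c000600000000000000000000000000000000000) := T_49 (nat_lit 141) (nat_lit 142) (nat_lit 3) (nat_lit 5) (nat_lit 8) L936 (by decide +kernel)
theorem L938 : W_49 (nat_lit 8) (nat_lit 0xc00060001800080000000000000000000000000000000) (nat_lit 0x0) (nat_lit 0x4000700138019c000600000000000000000000000000000000000) := T_49 (nat_lit 164) (nat_lit 163) (nat_lit 0) (nat_lit 11) (nat_lit 9) L937 (by decide +kernel)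
theorem L939 : W_49 (nat_lit 9) (nat_lit 0x400060001800080000000000000000000000000000000) (nat_lit 0x0) (nat_lit 0x40017001b8019c000600000000000000000000000000000000000) := T_49 (nat_lit 179) (nat_lit 196) (nat_lit 7) (nat_lit 8) (nat_lit 7) L938 (by decide +kernel)
theorem L943 : W_49 (nat_lit 2) (nat_lit 0xd000f0005a00380000000000000000000000000000000) (nat_lit 0x0) (nat_lit 0x8000c000000000000000000000000000000000000000) := D_49 (nat_lit 159) (nat_lit 175) (nat_lit 158) (nat_lit 1) (nat_lit 9) (nat_lit 9) (nat_lit 3) (nat_lit 5) (nat_lit 9) (by decide +kernel)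
theorem L944 : W_49 (nat_lit 3) (nat_lit 0xd000e0005a00380000000000000000000000000000000) (nat_lit 0x0) (nat_lit 0x8001c008000000000000000000000000000000000000) := T_49 (nat_lit 160) (nat_lit 147) (nat_lit 2) (nat_lit 7) (nat_lit 9) L943 (by decide +kernel)
theorem L945 : W_49 (nat_lit 4) (nat_lit 0xd000e0001a00380000000000000000000000000000000) (nat_lit 0x0) (nat_lit 0x8001c00c000000010000000000000000000000000000) := T_49 (nat_lit 146) (nat_lit 112) (nat_lit 5) (nat_lit 10) (nat_lit 6) L944 (by decide +kernel)
theorem L946 : W_49 (nat_lit 5) (nat_lit 0xc000e0001a00380000000000000000000000000000000) (nat_lit 0x0) (nat_lit 0x38001c00c000000010000000000000000000000000000) := T_49 (nat_lit 176) (nat_lit 177) (nat_lit 2) (nat_lit 6) (nat_lit 10) L945 (by decide +kernel)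
theorem L947 : W_49 (nat_lit 6) (nat_lit 0xc000e0001a00180000000000000000000000000000000) (nat_lit 0x0) (nat_lit 0x38001c00c000600010000000000000000000000000000) := T_49 (nat_lit 129) (nat_lit 130) (nat_lit 1) (nat_lit 11) (nat_lit 7) L946 (by decide +kernel)
theorem L948 : W_49 (nat_lit 7) (nat_lit 0xc000e0001a00080000000000000000000000000000000) (nat_lit 0x0) (nat_lit 0x38001c00c000700018000000000000000000000000000) := T_49 (nat_lit 128) (nat_lit 111) (nat_lit 6) (nat_lit 8) (nat_lit 10) L947 (by decide +kernel)
theorem L949 : W_49 (nat_lit 8) (nat_lit 0xc00060001a00080000000000000000000000000000000) (nat_lit 0x0) (nat_lit 0x38019c00c000700018000000000000000000000000000) := T_49 (nat_lit 163) (nat_lit 164) (nat_lit 0) (nat_lit 11) (nat_lit 9) L948 (by decide +kernel)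
theorem L950 : W_49 (nat_lit 9) (nat_lit 0x400060001a00080000000000000000000000000000000) (nat_lit 0x0) (nat_lit 0x10000b8019c00c000700018000000000000000000000000000) := T_49 (nat_lit 179) (nat_lit 196) (nat_lit 7) (nat_lit 8) (nat_lit 7) L949 (by decide +kernel)
theorem L951 : W_49 (nat_lit 10) (nat_lit 0x400060001800080000000000000000000000000000000) (nat_lit 0x0) (nat_lit 0x10000b8019c00c600700018000000000000000000000000000) := T_49 (nat_lit 141) (nat_lit 142) (nat_lit 3) (nat_lit 5) (nat_lit 8) L950 (by decide +kernel)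
theorem L959 : W_49 (nat_lit 11) (nat_lit 0x400020001800080000000000000000000000000000000) (nat_lit 0x0) (nat_lit 0x40017001b801dc00c600700018000000000000000000000000000) := Q_49 (nat_lit 162) (C_49 L939 (C_49 L942 (C_49 L480 (C_49 L951 (C_49 L488 (C_49 L958 N_49)))))) (by decide +kernel)
theorem L962 : W_49 (nat_lit 4) (nat_lit 0xe00020005a003c0000000000000000000000000000000) (nat_lit 0x0) (nat_lit 0x30001c0000000000030000000000000000000000000000) := T_49 (nat_lit 112) (nat_lit 113) (nat_lit 2) (nat_lit 7) (nat_lit 7) L961 (by decide +kernel)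
theorem L963 : W_49 (nat_lit 5) (nat_lit 0xe00020001a003c0000000000000000000000000000000) (nat_lit 0x0) (nat_lit 0x30001c000c000000030000000000000000000000000000) := T_49 (nat_lit 146) (nat_lit 147) (nat_lit 3) (nat_lit 7) (nat_lit 7) L962 (by decide +kernel)
theorem L964 : W_49 (nat_lit 6) (nat_lit 0xe00020001a00380000000000000000000000000000000) (nat_lit 0x0) (nat_lit 0x30001c000c000040032000000000000000000000000000) := T_49 (nat_lit 126) (nat_lit 109) (nat_lit 4) (nat_lit 8) (nat_lit 10) L963 (by decide +kernel)
theorem L965 : W_49 (nat_lit 7) (nat_lit 0xc00020001a00380000000000000000000000000000000) (nat_lit 0x0) (nat_lit 0x40032001c000c000040032000000000000000000000000000) := T_49 (nat_lit 177) (nat_lit 194) (nat_lit 5) (nat_lit 8) (nat_lit 7) L964 (by decide +kernel)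
theorem L966 : W_49 (nat_lit 8) (nat_lit 0x400020001a00380000000000000000000000000000000) (nat_lit 0x0) (nat_lit 0x14003a001c000c000040032000000000000000000000000000) := T_49 (nat_lit 179) (nat_lit 196) (nat_lit 7) (nat_lit 8) (nat_lit 7) L965 (by decide +kernel)
theorem L967 : W_49 (nat_lit 9) (nat_lit 0x400020001a00180000000000000000000000000000000) (nat_lit 0x0) (nat_lit 0x14003a001c000c000640032000000000000000000000000000) := T_49 (nat_lit 129) (nat_lit 130) (nat_lit 1) (nat_lit 11) (nat_lit 7) L966 (by decide +kernel)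
theorem L968 : W_49 (nat_lit 10) (nat_lit 0x400020001800180000000000000000000000000000000) (nat_lit 0x0) (nat_lit 0x14003a001c000c600640032000000000000000000000000000) := T_49 (nat_lit 141) (nat_lit 142) (nat_lit 2) (nat_lit 5) (nat_lit 8) L967 (by decide +kernel)
theorem L969 : W_49 (nat_lit 11) (nat_lit 0x400020001800080000000000000000000000000000000) (nat_lit 0x0) (nat_lit 0x14003a001c000c60074003a000000000000000000000000000) := T_49 (nat_lit 128) (nat_lit 111) (nat_lit 6) (nat_lit 8) (nat_lit 10) L968 (by decide +kernel)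
theorem L976 : W_49 (nat_lit 8) (nat_lit 0x400020001800080000000000000000000000000000000) (nat_lit 0x0) (nat_lit 0x16003bc01dc000400078003000000000000000000000000000) := Q_49 (nat_lit 160) (C_49 L432 (C_49 L975 (C_49 L835 (C_49 L453 (C_49 L457 N_49))))) (by decide +kernel)
theorem L977 : W_49 (nat_lit 2) (nat_lit 0xc00020001c00180000000000000000000000000000000) (nat_lit 0x0) (nat_lit 0x240002000000000000000000000000000) := D_49 (nat_lit 126) (nat_lit 109) (nat_lit 129) (nat_lit 4) (nat_lit 8) (nat_lit 10) (nat_lit 1) (nat_lit 10) (nat_lit 7) (by decide +kernel)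
theorem L978 : W_49 (nat_lit 3) (nat_lit 0xc00020001800180000000000000000000000000000000) (nat_lit 0x0) (nat_lit 0x600240002000000000000000000000000000) := T_49 (nat_lit 142) (nat_lit 141) (nat_lit 2) (nat_lit 5) (nat_lit 8) L977 (by decide +kernel)
theorem L979 : W_49 (nat_lit 4) (nat_lit 0xc00020001800080000000000000000000000000000000) (nat_lit 0x0) (nat_lit 0x60034000a000000000000000000000000000) := T_49 (nat_lit 128) (nat_lit 111) (nat_lit 6) (nat_lit 8) (nat_lit 10) L978 (by decide +kernel)
theorem L980 : W_49 (nat_lit 5) (nat_lit 0x400020001800080000000000000000000000000000000) (nat_lit 0x0) (nat_lit 0x1000080000000060034000a000000000000000000000000000) := T_49 (nat_lit 179) (nat_lit 196) (nat_lit 7) (nat_lit 8) (nat_lit 7) L979 (by decide +kernel)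
theorem L983 : W_49 (nat_lit 12) (nat_lit 0x400020001000080000000000000000000000000000000) (nat_lit 0x0) (nat_lit 0x40017003bc01dc00ce0077803b000000000000000000000000000) := Q_49 (nat_lit 143) (C_49 L959 (C_49 L969 (C_49 L976 (C_49 L980 (C_49 L982 (C_49 L511 N_49)))))) (by decide +kernel)
theorem L984 : W_49 (nat_lit 9) (nat_lit 0x600020001000180000000000000000000000000000000) (nat_lit 0x0) (nat_lit 0x180038001c000c800640032000000000000000000000000000) := T_49 (nat_lit 179) (nat_lit 196) (nat_lit 7) (nat_lit 8) (nat_lit 7) L517 (by decide +kernel)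
theorem L985 : W_49 (nat_lit 10) (nat_lit 0x400020001000180000000000000000000000000000000) (nat_lit 0x0) (nat_lit 0x1c003a001c000c800640032000000000000000000000000000) := T_49 (nat_lit 177) (nat_lit 194) (nat_lit 5) (nat_lit 8) (nat_lit 7) L984 (by decide +kernel)
theorem L986 : W_49 (nat_lit 11) (nat_lit 0x400020001000080000000000000000000000000000000) (nat_lit 0x0) (nat_lit 0x1c003a001c000c80074003a000000000000000000000000000) := T_49 (nat_lit 128) (nat_lit 111) (nat_lit 6) (nat_lit 8) (nat_lit 10) L985 (by decide +kernel)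
theorem L987 : W_49 (nat_lit 2) (nat_lit 0x140004000200010001c0000000000000000000000000000000) (nat_lit 0x0) (nat_lit 0x280008000000000000000000000000000000000000000000000000) := D_49 (nat_lit 195) (nat_lit 211) (nat_lit 213) (nat_lit 5) (nat_lit 8) (nat_lit 8) (nat_lit 7) (nat_lit 8) (nat_lit 8) (by decide +kernel)
theorem L988 : W_49 (nat_lit 3) (nat_lit 0x40004000200010001c0000000000000000000000000000000) (nat_lit 0x0) (nat_lit 0x280018000800000000000000000000000000000000000000000000) := T_49 (nat_lit 196) (nat_lit 179) (nat_lit 7) (nat_lit 8) (nat_lit 7) L987 (by decide +kernel)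
theorem L989 : W_49 (nat_lit 4) (nat_lit 0x4000200010001c0000000000000000000000000000000) (nat_lit 0x0) (nat_lit 0x28001c000a00000000000000000000000000000000000000000000) := T_49 (nat_lit 194) (nat_lit 177) (nat_lit 5) (nat_lit 8) (nat_lit 7) L988 (by decide +kernel)
theorem L990 : W_49 (nat_lit 5) (nat_lit 0x4000200010000c0000000000000000000000000000000) (nat_lit 0x0) (nat_lit 0x28001c000a00000000000100008000000000000000000000000000) := T_49 (nat_lit 128) (nat_lit 111) (nat_lit 6) (nat_lit 8) (nat_lit 10) L989 (by decide +kernel)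
theorem L991 : W_49 (nat_lit 6) (nat_lit 0x400020001000080000000000000000000000000000000) (nat_lit 0x0) (nat_lit 0x28001c000a0000000000014000a000000000000000000000000000) := T_49 (nat_lit 126) (nat_lit 109) (nat_lit 4) (nat_lit 8) (nat_lit 10) L990 (by decide +kernel)
theorem L995 : W_49 (nat_lit 5) (nat_lit 0x400020001000080000000000000000000000000000000) (nat_lit 0x0) (nat_lit 0x20001c000a00000000800040002000000000000000000000000000) := T_49 (nat_lit 177) (nat_lit 194) (nat_lit 5) (nat_lit 8) (nat_lit 7) L994 (by decide +kernel)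
theorem L996 : W_49 (nat_lit 2) (nat_lit 0x14000400020001000180000000000000000000000000000000) (nat_lit 0x0) (nat_lit 0x280008000000000000000000000000000000000000000000000000) := D_49 (nat_lit 195) (nat_lit 211) (nat_lit 213) (nat_lit 5) (nat_lit 8) (nat_lit 8) (nat_lit 7) (nat_lit 8) (nat_lit 8) (by decide +kernel)
theorem L997 : W_49 (nat_lit 3) (nat_lit 0x4000400020001000180000000000000000000000000000000) (nat_lit 0x0) (nat_lit 0x280018000800000000000000000000000000000000000000000000) := T_49 (nat_lit 196) (nat_lit 179) (nat_lit 7) (nat_lit 8) (nat_lit 7) L996 (by decide +kernel)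
theorem L998 : W_49 (nat_lit 4) (nat_lit 0x400020001000180000000000000000000000000000000) (nat_lit 0x0) (nat_lit 0x28001c000a00000000000000000000000000000000000000000000) := T_49 (nat_lit 194) (nat_lit 177) (nat_lit 5) (nat_lit 8) (nat_lit 7) L997 (by decide +kernel)
theorem L999 : W_49 (nat_lit 5) (nat_lit 0x400020001000080000000000000000000000000000000) (nat_lit 0x0) (nat_lit 0x28001c000a00000000000100008000000000000000000000000000) := T_49 (nat_lit 128) (nat_lit 111) (nat_lit 6) (nat_lit 8) (nat_lit 10) L998 (by decide +kernel)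
theorem L1007 : W_49 (nat_lit 13) (nat_lit 0x20001000080000000000000000000000000000000) (nat_lit 0x0) (nat_lit 0x200070003c001f003fc01dc00ce0077803b000000000000000000000000000) := Q_49 (nat_lit 178) (C_49 L983 (C_49 L986 (C_49 L991 (C_49 L995 (C_49 L999 (C_49 L1001 (C_49 L1004 (C_49 L1006 N_49)))))))) (by decide +kernel)
theorem L1018 : W_49 (nat_lit 6) (nat_lit 0x20001000080000000000000000000000000000000) (nat_lit 0x0) (nat_lit 0x28001c000e0005000000014000e000100000000000000000000000) := Q_49 (nat_lit 178) (C_49 L999 (C_49 L1011 (C_49 L1014 (C_49 L1017 N_49)))) (by decide +kernel)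
theorem L1024 : W_49 (nat_lit 4) (nat_lit 0x30001000080006000000000000000000000000000) (nat_lit 0x0) (nat_lit 0x8000c0000e00000000000200000000000000000000000) := T_49 (nat_lit 143) (nat_lit 93) (nat_lit 5) (nat_lit 8) (nat_lit 5) L1023 (by decide +kernel)
theorem L1025 : W_49 (nat_lit 5) (nat_lit 0x20001000080006000000000000000000000000000) (nat_lit 0x0) (nat_lit 0xa000d0000e00000000000200000000000000000000000) := T_49 (nat_lit 160) (nat_lit 177) (nat_lit 5) (nat_lit 8) (nat_lit 6) L1024 (by decide +kernel)
theorem L1026 : W_49 (nat_lit 6) (nat_lit 0x20001000080004000000000000000000000000000) (nat_lit 0x0) (nat_lit 0xa000d0000e00000002000300000000000000000000000) := T_49 (nat_lit 109) (nat_lit 92) (nat_lit 4) (nat_lit 8) (nat_lit 9) L1025 (by decide +kernel)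
theorem L1033 : W_49 (nat_lit 7) (nat_lit 0x20001000080000000000000000000000000000000) (nat_lit 0x0) (nat_lit 0x10000e000d0000e00040006000300008000000000000000000) := Q_49 (nat_lit 110) (C_49 L1021 (C_49 L1026 (C_49 L1029 (C_49 L1032 N_49)))) (by decide +kernel)
theorem L1034 : W_49 (nat_lit 2) (nat_lit 0x1c000e0001000080000000000000000000000000000000) (nat_lit 0x0) (nat_lit 0x300000800000000000000000000000000000000000) := D_49 (nat_lit 164) (nat_lit 143) (nat_lit 165) (nat_lit 0) (nat_lit 11) (nat_lit 9) (nat_lit 1) (nat_lit 12) (nat_lit 9) (by decide +kernel)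
theorem L1035 : W_49 (nat_lit 2) (nat_lit 0x1c001e8009000580000000000000000000000000000000) (nat_lit 0x0) (nat_lit 0x400020000000000004000000000000000000000000000000000000) := D_49 (nat_lit 197) (nat_lit 214) (nat_lit 146) (nat_lit 6) (nat_lit 10) (nat_lit 12) (nat_lit 6) (nat_lit 10) (nat_lit 11) (by decide +kernel)
theorem L1036 : W_49 (nat_lit 3) (nat_lit 0x1c001e8009000180000000000000000000000000000000) (nat_lit 0x0) (nat_lit 0x400020000000000004000400020000000000000000000000000000) := T_49 (nat_lit 130) (nat_lit 113) (nat_lit 5) (nat_lit 11) (nat_lit 6) L1035 (by decide +kernel)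
theorem L1037 : W_49 (nat_lit 4) (nat_lit 0x1c001e8001000180000000000000000000000000000000) (nat_lit 0x0) (nat_lit 0x40002000000000001c000400020000000000000000000000000000) := T_49 (nat_lit 147) (nat_lit 148) (nat_lit 2) (nat_lit 8) (nat_lit 9) L1036 (by decide +kernel)
theorem L1038 : W_49 (nat_lit 5) (nat_lit 0x1c001e8001000080000000000000000000000000000000) (nat_lit 0x0) (nat_lit 0x40002000000000001c000500028000000000000000000000000000) := T_49 (nat_lit 128) (nat_lit 111) (nat_lit 6) (nat_lit 8) (nat_lit 10) L1037 (by decide +kernel)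
theorem L1039 : W_49 (nat_lit 6) (nat_lit 0x1c000e8001000080000000000000000000000000000000) (nat_lit 0x0) (nat_lit 0x40002000000030001c000500028000000000000000000000000000) := T_49 (nat_lit 164) (nat_lit 165) (nat_lit 1) (nat_lit 12) (nat_lit 9) L1038 (by decide +kernel)
theorem L1040 : W_49 (nat_lit 7) (nat_lit 0x1c000e0001000080000000000000000000000000000000) (nat_lit 0x0) (nat_lit 0x40002000000031801c000500028000000000000000000000000000) := T_49 (nat_lit 159) (nat_lit 160) (nat_lit 3) (nat_lit 6) (nat_lit 9) L1039 (by decide +kernel)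
theorem L1041 : W_49 (nat_lit 2) (nat_lit 0x1c000f0005800180000000000000000000000000000000) (nat_lit 0x0) (nat_lit 0x600010000000000000000000000000000) := D_49 (nat_lit 129) (nat_lit 130) (nat_lit 112) (nat_lit 1) (nat_lit 11) (nat_lit 7) (nat_lit 5) (nat_lit 10) (nat_lit 6) (by decide +kernel)
theorem L1042 : W_49 (nat_lit 3) (nat_lit 0x1c000f0001800180000000000000000000000000000000) (nat_lit 0x0) (nat_lit 0xc000600010000000000000000000000000000) := T_49 (nat_lit 146) (nat_lit 147) (nat_lit 2) (nat_lit 7) (nat_lit 9) L1041 (by decide +kernel)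
theorem L1043 : W_49 (nat_lit 4) (nat_lit 0x1c000f0001000180000000000000000000000000000000) (nat_lit 0x0) (nat_lit 0xcc00600010000000000000000000000000000) := T_49 (nat_lit 143) (nat_lit 142) (nat_lit 0) (nat_lit 10) (nat_lit 9) L1042 (by decide +kernel)
theorem L1044 : W_49 (nat_lit 5) (nat_lit 0x1c000f0001000080000000000000000000000000000000) (nat_lit 0x0) (nat_lit 0xcc00700018000000000000000000000000000) := T_49 (nat_lit 128) (nat_lit 111) (nat_lit 6) (nat_lit 8) (nat_lit 10) L1043 (by decide +kernel)
theorem L1045 : W_49 (nat_lit 6) (nat_lit 0x1c000e0001000080000000000000000000000000000000) (nat_lit 0x0) (nat_lit 0x1800cc00700018000000000000000000000000000) := T_49 (nat_lit 160) (nat_lit 159) (nat_lit 3) (nat_lit 6) (nat_lit 9) L1044 (by decide +kernel)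
theorem L1046 : W_49 (nat_lit 8) (nat_lit 0x1c00060001000080000000000000000000000000000000) (nat_lit 0x0) (nat_lit 0x40002000000039801cc00700038000000000000000000000000000) := Q_49 (nat_lit 163) (C_49 L1034 (C_49 L1040 (C_49 L1045 N_49))) (by decide +kernel)
theorem L1047 : W_49 (nat_lit 9) (nat_lit 0x1c00020001000080000000000000000000000000000000) (nat_lit 0x0) (nat_lit 0x4000200000003d801cc0070003c000000000000000000000000000) := T_49 (nat_lit 162) (nat_lit 110) (nat_lit 7) (nat_lit 8) (nat_lit 6) L1046 (by decide +kernel)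
theorem L1048 : W_49 (nat_lit 2) (nat_lit 0x3c00020001000080000000000000000000000000000000) (nat_lit 0x0) (nat_lit 0x4000040000000000004000000000000000000000000000) := D_49 (nat_lit 162) (nat_lit 110) (nat_lit 182) (nat_lit 7) (nat_lit 8) (nat_lit 6) (nat_lit 0) (nat_lit 12) (nat_lit 10) (by decide +kernel)
theorem L1049 : W_49 (nat_lit 3) (nat_lit 0x1c00020001000080000000000000000000000000000000) (nat_lit 0x0) (nat_lit 0x6000050000000000004000000000000000000000000000) := T_49 (nat_lit 181) (nat_lit 160) (nat_lit 0) (nat_lit 11) (nat_lit 10) L1048 (by decide +kernel)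
theorem L1050 : W_49 (nat_lit 2) (nat_lit 0x2000000048003c001e0001000180000000000000000000000000000000) (nat_lit 0x0) (nat_lit 0x10000800000000000000004000000000000000000000000000000000000) := D_49 (nat_lit 215) (nat_lit 146) (nat_lit 232) (nat_lit 4) (nat_lit 11) (nat_lit 12) (nat_lit 4) (nat_lit 11) (nat_lit 13) (by decide +kernel)
theorem L1051 : W_49 (nat_lit 3) (nat_lit 0x2000000048003c00160001000180000000000000000000000000000000) (nat_lit 0x0) (nat_lit 0x10000800000000000080004800000000000000000000000000000000000) := T_49 (nat_lit 163) (nat_lit 143) (nat_lit 0) (nat_lit 11) (nat_lit 9) L1050 (by decide +kernel)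
theorem L1052 : W_49 (nat_lit 4) (nat_lit 0x2000000048003c00060001000180000000000000000000000000000000) (nat_lit 0x0) (nat_lit 0x10000800000000000380004800000000000000000000000000000000000) := T_49 (nat_lit 164) (nat_lit 165) (nat_lit 2) (nat_lit 8) (nat_lit 10) L1051 (by decide +kernel)
theorem L1053 : W_49 (nat_lit 5) (nat_lit 0x48003c00060001000180000000000000000000000000000000) (nat_lit 0x0) (nat_lit 0x12000900000000000380004800000000000000000000000000000000000) := T_49 (nat_lit 229) (nat_lit 212) (nat_lit 6) (nat_lit 8) (nat_lit 13) L1052 (by decide +kernel)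
theorem L1054 : W_49 (nat_lit 6) (nat_lit 0x8003c00060001000180000000000000000000000000000000) (nat_lit 0x0) (nat_lit 0x120009000c0000000380004800000000000000000000000000000000000) := T_49 (nat_lit 198) (nat_lit 199) (nat_lit 3) (nat_lit 8) (nat_lit 10) L1053 (by decide +kernel)
theorem L1055 : W_49 (nat_lit 7) (nat_lit 0x3c00060001000180000000000000000000000000000000) (nat_lit 0x0) (nat_lit 0x120009000cc000000380004800000000000000000000000000000000000) := T_49 (nat_lit 195) (nat_lit 194) (nat_lit 1) (nat_lit 11) (nat_lit 10) L1054 (by decide +kernel)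
theorem L1056 : W_49 (nat_lit 8) (nat_lit 0x1c00060001000180000000000000000000000000000000) (nat_lit 0x0) (nat_lit 0x120009000cc006000380004800000000000000000000000000000000000) := T_49 (nat_lit 181) (nat_lit 182) (nat_lit 0) (nat_lit 12) (nat_lit 10) L1055 (by decide +kernel)
theorem L1057 : W_49 (nat_lit 9) (nat_lit 0x1c00060001000080000000000000000000000000000000) (nat_lit 0x0) (nat_lit 0x120009000cc006000380004800100008000000000000000000000000000) := T_49 (nat_lit 128) (nat_lit 111) (nat_lit 6) (nat_lit 8) (nat_lit 10) L1056 (by decide +kernel)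
theorem L1058 : W_49 (nat_lit 10) (nat_lit 0x1c00020001000080000000000000000000000000000000) (nat_lit 0x0) (nat_lit 0x120009000cc0060003c000480010000c000000000000000000000000000) := T_49 (nat_lit 162) (nat_lit 110) (nat_lit 7) (nat_lit 8) (nat_lit 6) L1057 (by decide +kernel)
theorem L1059 : W_49 (nat_lit 2) (nat_lit 0x88003c00220001000180000000000000000000000000000000) (nat_lit 0x0) (nat_lit 0x100004000400000000000000000000000000000000000000000) := D_49 (nat_lit 182) (nat_lit 200) (nat_lit 166) (nat_lit 3) (nat_lit 9) (nat_lit 10) (nat_lit 2) (nat_lit 9) (nat_lit 10) (by decide +kernel)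
theorem L1060 : W_49 (nat_lit 3) (nat_lit 0x88003c00020001000180000000000000000000000000000000) (nat_lit 0x0) (nat_lit 0x100004000700000000000000000000000000000000000000000) := T_49 (nat_lit 165) (nat_lit 164) (nat_lit 2) (nat_lit 8) (nat_lit 10) L1059 (by decide +kernel)
theorem L1061 : W_49 (nat_lit 4) (nat_lit 0x8003c00020001000180000000000000000000000000000000) (nat_lit 0x0) (nat_lit 0x1c0004000700000000000000000000000000000000000000000) := T_49 (nat_lit 199) (nat_lit 198) (nat_lit 3) (nat_lit 8) (nat_lit 10) L1060 (by decide +kernel)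
theorem L1062 : W_49 (nat_lit 5) (nat_lit 0x3c00020001000180000000000000000000000000000000) (nat_lit 0x0) (nat_lit 0x1cc004000700000000000000000000000000000000000000000) := T_49 (nat_lit 195) (nat_lit 194) (nat_lit 1) (nat_lit 11) (nat_lit 10) L1061 (by decide +kernel)
theorem L1063 : W_49 (nat_lit 6) (nat_lit 0x1c00020001000180000000000000000000000000000000) (nat_lit 0x0) (nat_lit 0x1cc006000710000000000000000000000000000000000000000) := T_49 (nat_lit 181) (nat_lit 160) (nat_lit 0) (nat_lit 11) (nat_lit 10) L1062 (by decide +kernel)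
theorem L1064 : W_49 (nat_lit 7) (nat_lit 0x1c00020001000080000000000000000000000000000000) (nat_lit 0x0) (nat_lit 0x1cc006000710000000100008000000000000000000000000000) := T_49 (nat_lit 128) (nat_lit 111) (nat_lit 6) (nat_lit 8) (nat_lit 10) L1063 (by decide +kernel)
theorem L1065 : W_49 (nat_lit 11) (nat_lit 0xc00020001000080000000000000000000000000000000) (nat_lit 0x0) (nat_lit 0x12000d001ec0070007d801cc0070003c000000000000000000000000000) := Q_49 (nat_lit 180) (C_49 L1047 (C_49 L1049 (C_49 L1058 (C_49 L1064 N_49)))) (by decide +kernel)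
theorem L1066 : W_49 (nat_lit 12) (nat_lit 0x400020001000080000000000000000000000000000000) (nat_lit 0x0) (nat_lit 0x12000d001fc0078007d801cc0070003c000000000000000000000000000) := T_49 (nat_lit 179) (nat_lit 196) (nat_lit 7) (nat_lit 8) (nat_lit 7) L1065 (by decide +kernel)
theorem L1068 : W_49 (nat_lit 2) (nat_lit 0x380008000400030001000180000000000000000000000000000000) (nat_lit 0x0) (nat_lit 0x2000000000000200000000000000004000000000000000000000000000) := D_49 (nat_lit 177) (nat_lit 229) (nat_lit 110) (nat_lit 4) (nat_lit 8) (nat_lit 13) (nat_lit 5) (nat_lit 8) (nat_lit 6) (by decide +kernel)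
theorem L1069 : W_49 (nat_lit 3) (nat_lit 0x380008000400020001000180000000000000000000000000000000) (nat_lit 0x0) (nat_lit 0x2000000000000200010000800000004000000000000000000000000000) := T_49 (nat_lit 160) (nat_lit 143) (nat_lit 4) (nat_lit 8) (nat_lit 12) L1068 (by decide +kernel)
theorem L1070 : W_49 (nat_lit 4) (nat_lit 0x300008000400020001000180000000000000000000000000000000) (nat_lit 0x0) (nat_lit 0x3000080000000200010000800000004000000000000000000000000000) := T_49 (nat_lit 211) (nat_lit 228) (nat_lit 5) (nat_lit 8) (nat_lit 9) L1069 (by decide +kernel)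
theorem L1071 : W_49 (nat_lit 5) (nat_lit 0x200008000400020001000180000000000000000000000000000000) (nat_lit 0x0) (nat_lit 0x7000180000000200010000800000004000000000000000000000000000) := T_49 (nat_lit 212) (nat_lit 230) (nat_lit 7) (nat_lit 8) (nat_lit 9) L1070 (by decide +kernel)
theorem L1072 : W_49 (nat_lit 6) (nat_lit 0x8000400020001000180000000000000000000000000000000) (nat_lit 0x0) (nat_lit 0x7000380010000200010000800000004000000000000000000000000000) := T_49 (nat_lit 213) (nat_lit 196) (nat_lit 7) (nat_lit 8) (nat_lit 8) L1071 (by decide +kernel)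
theorem L1073 : W_49 (nat_lit 7) (nat_lit 0x8000400020001000080000000000000000000000000000000) (nat_lit 0x0) (nat_lit 0x700038001000020001000080010000c000000000000000000000000000) := T_49 (nat_lit 128) (nat_lit 111) (nat_lit 6) (nat_lit 8) (nat_lit 10) L1072 (by decide +kernel)
theorem L1081 : W_49 (nat_lit 8) (nat_lit 0x400020001000080000000000000000000000000000000) (nat_lit 0x0) (nat_lit 0x700038001c00020001000080010000c000000000000000000000000000) := Q_49 (nat_lit 195) (C_49 L1067 (C_49 L1073 (C_49 L1076 (C_49 L1080 N_49)))) (by decide +kernel)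
theorem L1082 : W_49 (nat_lit 2) (nat_lit 0xc00030001000180004000200000000000000000000000) (nat_lit 0x0) (nat_lit 0x2000100008000000000000000000) := D_49 (nat_lit 92) (nat_lit 75) (nat_lit 109) (nat_lit 4) (nat_lit 8) (nat_lit 8) (nat_lit 4) (nat_lit 8) (nat_lit 9) (by decide +kernel)
theorem L1083 : W_49 (nat_lit 3) (nat_lit 0xc00030001000180004000000000000000000000000000) (nat_lit 0x0) (nat_lit 0x800000002000300008000000000000000000) := T_49 (nat_lit 93) (nat_lit 143) (nat_lit 5) (nat_lit 8) (nat_lit 5) L1082 (by decide +kernel)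
theorem L1084 : W_49 (nat_lit 4) (nat_lit 0xc00020001000180004000000000000000000000000000) (nat_lit 0x0) (nat_lit 0x200010000800000002000300008000000000000000000) := T_49 (nat_lit 160) (nat_lit 177) (nat_lit 5) (nat_lit 8) (nat_lit 6) L1083 (by decide +kernel)
theorem L1085 : W_49 (nat_lit 5) (nat_lit 0xc00020001000180000000000000000000000000000000) (nat_lit 0x0) (nat_lit 0x200050000800000006000300008000000000000000000) := T_49 (nat_lit 110) (nat_lit 162) (nat_lit 7) (nat_lit 8) (nat_lit 6) L1084 (by decide +kernel)
theorem L1086 : W_49 (nat_lit 6) (nat_lit 0x400020001000180000000000000000000000000000000) (nat_lit 0x0) (nat_lit 0x10000a00050000800000006000300008000000000000000000) := T_49 (nat_lit 179) (nat_lit 196) (nat_lit 7) (nat_lit 8) (nat_lit 7) L1085 (by decide +kernel)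
theorem L1087 : W_49 (nat_lit 7) (nat_lit 0x400020001000080000000000000000000000000000000) (nat_lit 0x0) (nat_lit 0x10000a0005000080010000e000300008000000000000000000) := T_49 (nat_lit 128) (nat_lit 111) (nat_lit 6) (nat_lit 8) (nat_lit 10) L1086 (by decide +kernel)
theorem L1089 : W_49 (nat_lit 2) (nat_lit 0x400030001000080004000200000000000000000000000) (nat_lit 0x0) (nat_lit 0x2000100008000000000000000000) := D_49 (nat_lit 92) (nat_lit 75) (nat_lit 109) (nat_lit 4) (nat_lit 8) (nat_lit 8) (nat_lit 4) (nat_lit 8) (nat_lit 9) (by decide +kernel)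
theorem L1090 : W_49 (nat_lit 3) (nat_lit 0x400030001000080004000000000000000000000000000) (nat_lit 0x0) (nat_lit 0x800000002000300008000000000000000000) := T_49 (nat_lit 93) (nat_lit 143) (nat_lit 5) (nat_lit 8) (nat_lit 5) L1089 (by decide +kernel)
theorem L1091 : W_49 (nat_lit 4) (nat_lit 0x400030001000080000000000000000000000000000000) (nat_lit 0x0) (nat_lit 0x200000000800000006000300008000000000000000000) := T_49 (nat_lit 110) (nat_lit 177) (nat_lit 5) (nat_lit 8) (nat_lit 6) L1090 (by decide +kernel)
theorem L1094 : W_49 (nat_lit 2) (nat_lit 0x400038001800080000000000000000000000000000000) (nat_lit 0x0) (nat_lit 0x800006000000000000000000000000000000000000000) := D_49 (nat_lit 158) (nat_lit 157) (nat_lit 179) (nat_lit 2) (nat_lit 4) (nat_lit 9) (nat_lit 3) (nat_lit 5) (nat_lit 9) (by decide +kernel)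
theorem L1095 : W_49 (nat_lit 2) (nat_lit 0x10000000040003c001800180000000000000000000000000000000) (nat_lit 0x0) (nat_lit 0x700000000000000000000000000000000000) := D_49 (nat_lit 141) (nat_lit 142) (nat_lit 140) (nat_lit 2) (nat_lit 5) (nat_lit 8) (nat_lit 0) (nat_lit 8) (nat_lit 9) (by decide +kernel)
theorem L1096 : W_49 (nat_lit 3) (nat_lit 0x10000000040003c001800080000000000000000000000000000000) (nat_lit 0x0) (nat_lit 0x700100008000000000000000000000000000) := T_49 (nat_lit 128) (nat_lit 111) (nat_lit 6) (nat_lit 8) (nat_lit 10) L1095 (by decide +kernel)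
theorem L1097 : W_49 (nat_lit 4) (nat_lit 0x100000000400038001800080000000000000000000000000000000) (nat_lit 0x0) (nat_lit 0x6000700100008000000000000000000000000000) := T_49 (nat_lit 158) (nat_lit 157) (nat_lit 2) (nat_lit 4) (nat_lit 9) L1096 (by decide +kernel)
theorem L1098 : W_49 (nat_lit 5) (nat_lit 0x400038001800080000000000000000000000000000000) (nat_lit 0x0) (nat_lit 0x100008000000006000700100008000000000000000000000000000) := T_49 (nat_lit 212) (nat_lit 195) (nat_lit 4) (nat_lit 8) (nat_lit 12) L1097 (by decide +kernel)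
theorem L1099 : W_49 (nat_lit 2) (nat_lit 0x100002000d00078001c00580000000000000000000000000000000) (nat_lit 0x0) (nat_lit 0x20001000200000000000000000000000000000000000000000000) := D_49 (nat_lit 192) (nat_lit 209) (nat_lit 177) (nat_lit 5) (nat_lit 6) (nat_lit 8) (nat_lit 1) (nat_lit 9) (nat_lit 10) (by decide +kernel)
theorem L1100 : W_49 (nat_lit 3) (nat_lit 0x100000000d00078001c00580000000000000000000000000000000) (nat_lit 0x0) (nat_lit 0x60003000200000000000000000000000000000000000000000000) := T_49 (nat_lit 193) (nat_lit 210) (nat_lit 6) (nat_lit 6) (nat_lit 12) L1099 (by decide +kernel)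
theorem L1101 : W_49 (nat_lit 4) (nat_lit 0x100000000c00078001c00580000000000000000000000000000000) (nat_lit 0x0) (nat_lit 0x60003000380000000000000000000000000000000000000000000) := T_49 (nat_lit 176) (nat_lit 175) (nat_lit 1) (nat_lit 9) (nat_lit 9) L1100 (by decide +kernel)
theorem L1102 : W_49 (nat_lit 5) (nat_lit 0x100000000400078001c00580000000000000000000000000000000) (nat_lit 0x0) (nat_lit 0x60003001b80000000000000000000000000000000000000000000) := T_49 (nat_lit 179) (nat_lit 180) (nat_lit 3) (nat_lit 6) (nat_lit 9) L1101 (by decide +kernel)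
theorem L1103 : W_49 (nat_lit 6) (nat_lit 0x100000000400038001c00580000000000000000000000000000000) (nat_lit 0x0) (nat_lit 0x60003001b800c0000000000000000000000000000000000000000) := T_49 (nat_lit 162) (nat_lit 163) (nat_lit 0) (nat_lit 10) (nat_lit 9) L1102 (by decide +kernel)
theorem L1104 : W_49 (nat_lit 7) (nat_lit 0x100000000400038001c00180000000000000000000000000000000) (nat_lit 0x0) (nat_lit 0x60003001b800c0000000600000000000000000000000000000000) := T_49 (nat_lit 130) (nat_lit 129) (nat_lit 1) (nat_lit 11) (nat_lit 7) L1103 (by decide +kernel)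
theorem L1105 : W_49 (nat_lit 8) (nat_lit 0x100000000400038001800180000000000000000000000000000000) (nat_lit 0x0) (nat_lit 0x60003001b800c0000600600000000000000000000000000000000) := T_49 (nat_lit 142) (nat_lit 141) (nat_lit 2) (nat_lit 5) (nat_lit 8) L1104 (by decide +kernel)
theorem L1106 : W_49 (nat_lit 9) (nat_lit 0x100000000400038001800080000000000000000000000000000000) (nat_lit 0x0) (nat_lit 0x60003001b800c0000600700008000000000000000000000000000) := T_49 (nat_lit 128) (nat_lit 111) (nat_lit 6) (nat_lit 8) (nat_lit 10) L1105 (by decide +kernel)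
theorem L1107 : W_49 (nat_lit 10) (nat_lit 0x400038001800080000000000000000000000000000000) (nat_lit 0x0) (nat_lit 0x16000b001b800c0000600700008000000000000000000000000000) := T_49 (nat_lit 212) (nat_lit 195) (nat_lit 4) (nat_lit 8) (nat_lit 12) L1106 (by decide +kernel)
theorem L1108 : W_49 (nat_lit 11) (nat_lit 0x400030001800080000000000000000000000000000000) (nat_lit 0x0) (nat_lit 0x16000b001b800ce000700700008000000000000000000000000000) := Q_49 (nat_lit 159) (C_49 L1094 (C_49 L1098 (C_49 L1107 N_49))) (by decide +kernel)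
theorem L1109 : W_49 (nat_lit 2) (nat_lit 0x400038001a00180000000000000000000000000000000) (nat_lit 0x0) (nat_lit 0x6000100000000000000000000000000000000000) := D_49 (nat_lit 158) (nat_lit 140) (nat_lit 157) (nat_lit 0) (nat_lit 8) (nat_lit 9) (nat_lit 2) (nat_lit 4) (nat_lit 9) (by decide +kernel)
theorem L1110 : W_49 (nat_lit 3) (nat_lit 0x400038001800180000000000000000000000000000000) (nat_lit 0x0) (nat_lit 0x6000700000000000000000000000000000000000) := T_49 (nat_lit 141) (nat_lit 142) (nat_lit 2) (nat_lit 5) (nat_lit 8) L1109 (by decide +kernel)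
theorem L1111 : W_49 (nat_lit 4) (nat_lit 0x400038001800080000000000000000000000000000000) (nat_lit 0x0) (nat_lit 0x6000700100008000000000000000000000000000) := T_49 (nat_lit 128) (nat_lit 111) (nat_lit 6) (nat_lit 8) (nat_lit 10) L1110 (by decide +kernel)
theorem L1112 : W_49 (nat_lit 2) (nat_lit 0xf00078001c00580000000000000000000000000000000) (nat_lit 0x0) (nat_lit 0x40003000000000000000000000000000000000000000000000000) := D_49 (nat_lit 193) (nat_lit 210) (nat_lit 192) (nat_lit 6) (nat_lit 6) (nat_lit 12) (nat_lit 1) (nat_lit 9) (nat_lit 10) (by decide +kernel)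
theorem L1113 : W_49 (nat_lit 3) (nat_lit 0x700078001c00580000000000000000000000000000000) (nat_lit 0x0) (nat_lit 0x40003001800000000000000000000000000000000000000000000) := T_49 (nat_lit 179) (nat_lit 180) (nat_lit 3) (nat_lit 6) (nat_lit 9) L1112 (by decide +kernel)
theorem L1114 : W_49 (nat_lit 4) (nat_lit 0x600078001c00580000000000000000000000000000000) (nat_lit 0x0) (nat_lit 0x40003001980000000000000000000000000000000000000000000) := T_49 (nat_lit 176) (nat_lit 175) (nat_lit 2) (nat_lit 5) (nat_lit 10) L1113 (by decide +kernel)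
theorem L1115 : W_49 (nat_lit 5) (nat_lit 0x400078001c00580000000000000000000000000000000) (nat_lit 0x0) (nat_lit 0x40007001b80000000000000000000000000000000000000000000) := T_49 (nat_lit 177) (nat_lit 194) (nat_lit 6) (nat_lit 7) (nat_lit 11) L1114 (by decide +kernel)
theorem L1116 : W_49 (nat_lit 6) (nat_lit 0x400038001c00580000000000000000000000000000000) (nat_lit 0x0) (nat_lit 0x40007001b800c0000000000000000000000000000000000000000) := T_49 (nat_lit 162) (nat_lit 163) (nat_lit 0) (nat_lit 10) (nat_lit 9) L1115 (by decide +kernel)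
theorem L1117 : W_49 (nat_lit 7) (nat_lit 0x400038001c00180000000000000000000000000000000) (nat_lit 0x0) (nat_lit 0x40007001b800c0000000600000000000000000000000000000000) := T_49 (nat_lit 130) (nat_lit 129) (nat_lit 1) (nat_lit 11) (nat_lit 7) L1116 (by decide +kernel)
theorem L1118 : W_49 (nat_lit 8) (nat_lit 0x400038001800180000000000000000000000000000000) (nat_lit 0x0) (nat_lit 0x40007001b800c0000600600000000000000000000000000000000) := T_49 (nat_lit 142) (nat_lit 141) (nat_lit 2) (nat_lit 5) (nat_lit 8) L1117 (by decide +kernel)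
theorem L1119 : W_49 (nat_lit 9) (nat_lit 0x400038001800080000000000000000000000000000000) (nat_lit 0x0) (nat_lit 0x40007001b800c0000600700008000000000000000000000000000) := T_49 (nat_lit 128) (nat_lit 111) (nat_lit 6) (nat_lit 8) (nat_lit 10) L1118 (by decide +kernel)
theorem L1120 : W_49 (nat_lit 10) (nat_lit 0x400030001800080000000000000000000000000000000) (nat_lit 0x0) (nat_lit 0x40007001b800ce000700700008000000000000000000000000000) := Q_49 (nat_lit 159) (C_49 L1094 (C_49 L1111 (C_49 L1119 N_49))) (by decide +kernel)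
theorem L1121 : W_49 (nat_lit 2) (nat_lit 0xe000500078001c00580000000000000000000000000000000) (nat_lit 0x0) (nat_lit 0x1001800000000000000000000000000000000000000000000) := D_49 (nat_lit 179) (nat_lit 180) (nat_lit 192) (nat_lit 3) (nat_lit 6) (nat_lit 9) (nat_lit 2) (nat_lit 5) (nat_lit 11) (by decide +kernel)
theorem L1122 : W_49 (nat_lit 3) (nat_lit 0xc000500078001c00580000000000000000000000000000000) (nat_lit 0x0) (nat_lit 0x40003001800000000000000000000000000000000000000000000) := T_49 (nat_lit 193) (nat_lit 210) (nat_lit 6) (nat_lit 6) (nat_lit 12) L1121 (by decide +kernel)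
theorem L1123 : W_49 (nat_lit 4) (nat_lit 0x8000500078001c00580000000000000000000000000000000) (nat_lit 0x0) (nat_lit 0xc0007001800000000000000000000000000000000000000000000) := T_49 (nat_lit 194) (nat_lit 211) (nat_lit 5) (nat_lit 8) (nat_lit 8) L1122 (by decide +kernel)
theorem L1124 : W_49 (nat_lit 5) (nat_lit 0x8000400078001c00580000000000000000000000000000000) (nat_lit 0x0) (nat_lit 0xc0007001980000000000000000000000000000000000000000000) := T_49 (nat_lit 176) (nat_lit 175) (nat_lit 1) (nat_lit 9) (nat_lit 9) L1123 (by decide +kernel)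
theorem L1125 : W_49 (nat_lit 6) (nat_lit 0x400078001c00580000000000000000000000000000000) (nat_lit 0x0) (nat_lit 0x1c000f001980000000000000000000000000000000000000000000) := T_49 (nat_lit 195) (nat_lit 212) (nat_lit 4) (nat_lit 8) (nat_lit 12) L1124 (by decide +kernel)
theorem L1126 : W_49 (nat_lit 7) (nat_lit 0x400038001c00580000000000000000000000000000000) (nat_lit 0x0) (nat_lit 0x1c000f0019800c0000000000000000000000000000000000000000) := T_49 (nat_lit 162) (nat_lit 163) (nat_lit 0) (nat_lit 10) (nat_lit 9) L1125 (by decide +kernel)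
theorem L1127 : W_49 (nat_lit 8) (nat_lit 0x400038001c00180000000000000000000000000000000) (nat_lit 0x0) (nat_lit 0x1c000f0019800c0000000600000000000000000000000000000000) := T_49 (nat_lit 130) (nat_lit 129) (nat_lit 1) (nat_lit 11) (nat_lit 7) L1126 (by decide +kernel)
theorem L1128 : W_49 (nat_lit 9) (nat_lit 0x400038001800180000000000000000000000000000000) (nat_lit 0x0) (nat_lit 0x1c000f0019800c0000600600000000000000000000000000000000) := T_49 (nat_lit 142) (nat_lit 141) (nat_lit 2) (nat_lit 5) (nat_lit 8) L1127 (by decide +kernel)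
theorem L1129 : W_49 (nat_lit 10) (nat_lit 0x400038001800080000000000000000000000000000000) (nat_lit 0x0) (nat_lit 0x1c000f0019800c0000600700008000000000000000000000000000) := T_49 (nat_lit 128) (nat_lit 111) (nat_lit 6) (nat_lit 8) (nat_lit 10) L1128 (by decide +kernel)
theorem L1130 : W_49 (nat_lit 11) (nat_lit 0x400030001800080000000000000000000000000000000) (nat_lit 0x0) (nat_lit 0x1c000f0019800ce000700700008000000000000000000000000000) := Q_49 (nat_lit 159) (C_49 L1111 (C_49 L1094 (C_49 L1129 N_49))) (by decide +kernel)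
theorem L1131 : W_49 (nat_lit 12) (nat_lit 0x400030001000080000000000000000000000000000000) (nat_lit 0x0) (nat_lit 0x1e000f001b800ce000f00700008000000000000000000000000000) := Q_49 (nat_lit 143) (C_49 L1093 (C_49 L1108 (C_49 L1120 (C_49 L1130 N_49)))) (by decide +kernel)
theorem L1133 : W_49 (nat_lit 2) (nat_lit 0x25000f8009400180000000000000000000000000000000) (nat_lit 0x0) (nat_lit 0x4000100010000000000000000000000000000000000000) := D_49 (nat_lit 164) (nat_lit 182) (nat_lit 148) (nat_lit 3) (nat_lit 8) (nat_lit 9) (nat_lit 2) (nat_lit 8) (nat_lit 9) (by decide +kernel)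
theorem L1134 : W_49 (nat_lit 3) (nat_lit 0x25000f8001400180000000000000000000000000000000) (nat_lit 0x0) (nat_lit 0x400010001c000000000000000000000000000000000000) := T_49 (nat_lit 147) (nat_lit 146) (nat_lit 2) (nat_lit 7) (nat_lit 9) L1133 (by decide +kernel)
theorem L1135 : W_49 (nat_lit 4) (nat_lit 0x5000f8001400180000000000000000000000000000000) (nat_lit 0x0) (nat_lit 0x700010001c000000000000000000000000000000000000) := T_49 (nat_lit 181) (nat_lit 180) (nat_lit 3) (nat_lit 7) (nat_lit 9) L1134 (by decide +kernel)
theorem L1136 : W_49 (nat_lit 5) (nat_lit 0x500078001400180000000000000000000000000000000) (nat_lit 0x0) (nat_lit 0x700018001c800000000000000000000000000000000000) := T_49 (nat_lit 163) (nat_lit 143) (nat_lit 0) (nat_lit 10) (nat_lit 9) L1135 (by decide +kernel)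
theorem L1137 : W_49 (nat_lit 6) (nat_lit 0x500078001000180000000000000000000000000000000) (nat_lit 0x0) (nat_lit 0x700018001ce00000000000000000000000000000000000) := T_49 (nat_lit 142) (nat_lit 141) (nat_lit 0) (nat_lit 9) (nat_lit 9) L1136 (by decide +kernel)
theorem L1138 : W_49 (nat_lit 7) (nat_lit 0x400078001000180000000000000000000000000000000) (nat_lit 0x0) (nat_lit 0x718018001ce00000000000000000000000000000000000) := T_49 (nat_lit 176) (nat_lit 175) (nat_lit 1) (nat_lit 9) (nat_lit 9) L1137 (by decide +kernel)
theorem L1139 : W_49 (nat_lit 8) (nat_lit 0x400078001000080000000000000000000000000000000) (nat_lit 0x0) (nat_lit 0x718018001ce00100008000000000000000000000000000) := T_49 (nat_lit 128) (nat_lit 111) (nat_lit 6) (nat_lit 8) (nat_lit 10) L1138 (by decide +kernel)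
theorem L1143 : W_49 (nat_lit 9) (nat_lit 0x400070001000080000000000000000000000000000000) (nat_lit 0x0) (nat_lit 0x798018e01ce00100008000000000000000000000000000) := Q_49 (nat_lit 159) (C_49 L1132 (C_49 L1139 (C_49 L1142 N_49))) (by decide +kernel)
theorem L1149 : W_49 (nat_lit 2) (nat_lit 0x480078001200180000000000000000000000000000000) (nat_lit 0x0) (nat_lit 0x40004000100000000000000000000000000000000000) := D_49 (nat_lit 158) (nat_lit 174) (nat_lit 140) (nat_lit 1) (nat_lit 8) (nat_lit 9) (nat_lit 0) (nat_lit 8) (nat_lit 9) (by decide +kernel)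
theorem L1150 : W_49 (nat_lit 3) (nat_lit 0x480078001000180000000000000000000000000000000) (nat_lit 0x0) (nat_lit 0x40004000700000000000000000000000000000000000) := T_49 (nat_lit 141) (nat_lit 142) (nat_lit 0) (nat_lit 9) (nat_lit 9) L1149 (by decide +kernel)
theorem L1151 : W_49 (nat_lit 4) (nat_lit 0x400078001000180000000000000000000000000000000) (nat_lit 0x0) (nat_lit 0x1c0004000700000000000000000000000000000000000) := T_49 (nat_lit 175) (nat_lit 176) (nat_lit 1) (nat_lit 9) (nat_lit 9) L1150 (by decide +kernel)
theorem L1152 : W_49 (nat_lit 5) (nat_lit 0x400078001000080000000000000000000000000000000) (nat_lit 0x0) (nat_lit 0x1c0004000700100008000000000000000000000000000) := T_49 (nat_lit 128) (nat_lit 111) (nat_lit 6) (nat_lit 8) (nat_lit 10) L1151 (by decide +kernel)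
theorem L1159 : W_49 (nat_lit 2) (nat_lit 0x48007c001100180000000000000000000000000000000) (nat_lit 0x0) (nat_lit 0x2000880000000000000000000000000000000000) := D_49 (nat_lit 157) (nat_lit 143) (nat_lit 139) (nat_lit 2) (nat_lit 4) (nat_lit 9) (nat_lit 0) (nat_lit 7) (nat_lit 9) (by decide +kernel)
theorem L1160 : W_49 (nat_lit 3) (nat_lit 0x48007c001000180000000000000000000000000000000) (nat_lit 0x0) (nat_lit 0x2000b80000000000000000000000000000000000) := T_49 (nat_lit 140) (nat_lit 141) (nat_lit 0) (nat_lit 8) (nat_lit 9) L1159 (by decide +kernel)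
theorem L1161 : W_49 (nat_lit 4) (nat_lit 0x480078001000180000000000000000000000000000000) (nat_lit 0x0) (nat_lit 0x40006000b80000000000000000000000000000000000) := T_49 (nat_lit 158) (nat_lit 174) (nat_lit 1) (nat_lit 8) (nat_lit 9) L1160 (by decide +kernel)
theorem L1162 : W_49 (nat_lit 5) (nat_lit 0x400078001000180000000000000000000000000000000) (nat_lit 0x0) (nat_lit 0x1c0006000b80000000000000000000000000000000000) := T_49 (nat_lit 175) (nat_lit 176) (nat_lit 1) (nat_lit 9) (nat_lit 9) L1161 (by decide +kernel)
theorem L1163 : W_49 (nat_lit 6) (nat_lit 0x400078001000080000000000000000000000000000000) (nat_lit 0x0) (nat_lit 0x1c0006000b80100008000000000000000000000000000) := T_49 (nat_lit 128) (nat_lit 111) (nat_lit 6) (nat_lit 8) (nat_lit 10) L1162 (by decide +kernel)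
theorem L1164 : W_49 (nat_lit 2) (nat_lit 0x48007c001800180000000000000000000000000000000) (nat_lit 0x0) (nat_lit 0x180000400000000000000000000000000000000000) := D_49 (nat_lit 163) (nat_lit 142) (nat_lit 164) (nat_lit 0) (nat_lit 10) (nat_lit 9) (nat_lit 0) (nat_lit 11) (nat_lit 9) (by decide +kernel)
theorem L1165 : W_49 (nat_lit 3) (nat_lit 0x48007c001000180000000000000000000000000000000) (nat_lit 0x0) (nat_lit 0x182000c00000000000000000000000000000000000) := T_49 (nat_lit 143) (nat_lit 157) (nat_lit 2) (nat_lit 4) (nat_lit 9) L1164 (by decide +kernel)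
theorem L1166 : W_49 (nat_lit 4) (nat_lit 0x480078001000180000000000000000000000000000000) (nat_lit 0x0) (nat_lit 0x40186000c00000000000000000000000000000000000) := T_49 (nat_lit 158) (nat_lit 174) (nat_lit 1) (nat_lit 8) (nat_lit 9) L1165 (by decide +kernel)
theorem L1167 : W_49 (nat_lit 5) (nat_lit 0x480078001000080000000000000000000000000000000) (nat_lit 0x0) (nat_lit 0x40186000c00100008000000000000000000000000000) := T_49 (nat_lit 128) (nat_lit 111) (nat_lit 6) (nat_lit 8) (nat_lit 10) L1166 (by decide +kernel)
theorem L1168 : W_49 (nat_lit 6) (nat_lit 0x400078001000080000000000000000000000000000000) (nat_lit 0x0) (nat_lit 0x1c0186000c00100008000000000000000000000000000) := T_49 (nat_lit 175) (nat_lit 176) (nat_lit 1) (nat_lit 9) (nat_lit 9) L1167 (by decide +kernel)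
theorem L1169 : W_49 (nat_lit 2) (nat_lit 0x24000f8009400180000000000000000000000000000000) (nat_lit 0x0) (nat_lit 0x4000100010000000000000000000000000000000000000) := D_49 (nat_lit 164) (nat_lit 182) (nat_lit 148) (nat_lit 3) (nat_lit 8) (nat_lit 9) (nat_lit 2) (nat_lit 8) (nat_lit 9) (by decide +kernel)
theorem L1170 : W_49 (nat_lit 3) (nat_lit 0x24000f8001400180000000000000000000000000000000) (nat_lit 0x0) (nat_lit 0x400010001c000000000000000000000000000000000000) := T_49 (nat_lit 147) (nat_lit 146) (nat_lit 2) (nat_lit 7) (nat_lit 9) L1169 (by decide +kernel)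
theorem L1171 : W_49 (nat_lit 4) (nat_lit 0x4000f8001400180000000000000000000000000000000) (nat_lit 0x0) (nat_lit 0x700010001c000000000000000000000000000000000000) := T_49 (nat_lit 181) (nat_lit 180) (nat_lit 3) (nat_lit 7) (nat_lit 9) L1170 (by decide +kernel)
theorem L1172 : W_49 (nat_lit 5) (nat_lit 0x400078001400180000000000000000000000000000000) (nat_lit 0x0) (nat_lit 0x700018001c800000000000000000000000000000000000) := T_49 (nat_lit 163) (nat_lit 143) (nat_lit 0) (nat_lit 10) (nat_lit 9) L1171 (by decide +kernel)
theorem L1173 : W_49 (nat_lit 6) (nat_lit 0x400078001000180000000000000000000000000000000) (nat_lit 0x0) (nat_lit 0x700018001ce00000000000000000000000000000000000) := T_49 (nat_lit 142) (nat_lit 141) (nat_lit 0) (nat_lit 9) (nat_lit 9) L1172 (by decide +kernel)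
theorem L1174 : W_49 (nat_lit 7) (nat_lit 0x400078001000080000000000000000000000000000000) (nat_lit 0x0) (nat_lit 0x700018001ce00100008000000000000000000000000000) := T_49 (nat_lit 128) (nat_lit 111) (nat_lit 6) (nat_lit 8) (nat_lit 10) L1173 (by decide +kernel)
theorem L1175 : W_49 (nat_lit 9) (nat_lit 0x400070001000080000000000000000000000000000000) (nat_lit 0x0) (nat_lit 0x71c018e01cf80100008000000000000000000000000000) := Q_49 (nat_lit 159) (C_49 L1139 (C_49 L1152 (C_49 L1158 (C_49 L1163 (C_49 L1168 (C_49 L1174 N_49)))))) (by decide +kernel)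
theorem L1176 : W_49 (nat_lit 10) (nat_lit 0x400030001000080000000000000000000000000000000) (nat_lit 0x0) (nat_lit 0x79c01ce01cf8010000e000300008000000000000000000) := Q_49 (nat_lit 162) (C_49 L1143 (C_49 L1146 (C_49 L1148 (C_49 L1175 N_49)))) (by decide +kernel)
theorem L1177 : W_49 (nat_lit 13) (nat_lit 0x400020001000080000000000000000000000000000000) (nat_lit 0x0) (nat_lit 0x1e000f007bc01de01cf8070000e000300008000000000000000000) := Q_49 (nat_lit 160) (C_49 L1088 (C_49 L1091 (C_49 L1131 (C_49 L1176 N_49)))) (by decide +kernel)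
theorem L1178 : W_49 (nat_lit 14) (nat_lit 0x20001000080000000000000000000000000000000) (nat_lit 0x0) (nat_lit 0x17000fe01ff007fc07de01cf8070003e000300008000000000000000000) := Q_49 (nat_lit 178) (C_49 L1066 (C_49 L999 (C_49 L575 (C_49 L1081 (C_49 L1087 (C_49 L1177 N_49)))))) (by decide +kernel)
theorem L1179 : W_49 (nat_lit 7) (nat_lit 0x20001000080000000000000000000000000000000) (nat_lit 0x0) (nat_lit 0x28001c000e00040000e0034000e000100000000000000000000000) := Q_49 (nat_lit 178) (C_49 L1017 (C_49 L999 (C_49 L1006 N_49))) (by decide +kernel)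
theorem L1180 : W_49 (nat_lit 9) (nat_lit 0x20001000080000000000000000000000000000000) (nat_lit 0x0) (nat_lit 0x700038001c000e00010000e0034000e000100000000000000000000000) := Q_49 (nat_lit 178) (C_49 L1006 (C_49 L1014 (C_49 L1081 (C_49 L1004 N_49)))) (by decide +kernel)
theorem L1181 : W_49 (nat_lit 9) (nat_lit 0x20001000080000000000000000000000000000000) (nat_lit 0x0) (nat_lit 0x700038001c000600010000e0034000e000100000000000000000000000) := Q_49 (nat_lit 178) (C_49 L1006 (C_49 L1014 (C_49 L1081 (C_49 L609 N_49)))) (by decide +kernel)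
theorem L1182 : W_49 (nat_lit 2) (nat_lit 0xc00030001800180004000000000000000000000000000) (nat_lit 0x0) (nat_lit 0x100008000000000000000040000000000000000000000000000000) := D_49 (nat_lit 195) (nat_lit 212) (nat_lit 126) (nat_lit 4) (nat_lit 8) (nat_lit 12) (nat_lit 4) (nat_lit 8) (nat_lit 11) (by decide +kernel)
theorem L1183 : W_49 (nat_lit 3) (nat_lit 0xc00030001000180004000000000000000000000000000) (nat_lit 0x0) (nat_lit 0x100008000000000000800040000000200000000000000000000000) := T_49 (nat_lit 143) (nat_lit 93) (nat_lit 5) (nat_lit 8) (nat_lit 5) L1182 (by decide +kernel)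
theorem L1184 : W_49 (nat_lit 4) (nat_lit 0xc00020001000180004000000000000000000000000000) (nat_lit 0x0) (nat_lit 0x100008000200010000800040000000200000000000000000000000) := T_49 (nat_lit 160) (nat_lit 177) (nat_lit 5) (nat_lit 8) (nat_lit 6) L1183 (by decide +kernel)
theorem L1185 : W_49 (nat_lit 5) (nat_lit 0xc00020001000180000000000000000000000000000000) (nat_lit 0x0) (nat_lit 0x100008000200050000800040004000200000000000000000000000) := T_49 (nat_lit 110) (nat_lit 162) (nat_lit 7) (nat_lit 8) (nat_lit 6) L1184 (by decide +kernel)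
theorem L1186 : W_49 (nat_lit 6) (nat_lit 0x400020001000180000000000000000000000000000000) (nat_lit 0x0) (nat_lit 0x100018000a00050000800040004000200000000000000000000000) := T_49 (nat_lit 179) (nat_lit 196) (nat_lit 7) (nat_lit 8) (nat_lit 7) L1185 (by decide +kernel)
theorem L1187 : W_49 (nat_lit 7) (nat_lit 0x400020001000080000000000000000000000000000000) (nat_lit 0x0) (nat_lit 0x100018000a0005000080014000c000200000000000000000000000) := T_49 (nat_lit 128) (nat_lit 111) (nat_lit 6) (nat_lit 8) (nat_lit 10) L1186 (by decide +kernel)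
theorem L1188 : W_49 (nat_lit 2) (nat_lit 0xc000400030001c00580004000000000000000000000000000) (nat_lit 0x0) (nat_lit 0x8000c0000000000000000000000000000000000000000) := D_49 (nat_lit 162) (nat_lit 163) (nat_lit 179) (nat_lit 0) (nat_lit 10) (nat_lit 9) (nat_lit 7) (nat_lit 8) (nat_lit 6) (by decide +kernel)
theorem L1189 : W_49 (nat_lit 3) (nat_lit 0xc000400030001c00580000000000000000000000000000000) (nat_lit 0x0) (nat_lit 0x8000c0000000000004000200000000000000000000000) := T_49 (nat_lit 110) (nat_lit 93) (nat_lit 5) (nat_lit 8) (nat_lit 5) L1188 (by decide +kernel)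
theorem L1190 : W_49 (nat_lit 4) (nat_lit 0xc000400030001c00180000000000000000000000000000000) (nat_lit 0x0) (nat_lit 0x8000c0000000600004000200000000000000000000000) := T_49 (nat_lit 130) (nat_lit 129) (nat_lit 1) (nat_lit 11) (nat_lit 7) L1189 (by decide +kernel)
theorem L1191 : W_49 (nat_lit 5) (nat_lit 0xc000400020001c00180000000000000000000000000000000) (nat_lit 0x0) (nat_lit 0x1000000008000d0000000600004000200000000000000000000000) := T_49 (nat_lit 160) (nat_lit 212) (nat_lit 4) (nat_lit 8) (nat_lit 12) L1190 (by decide +kernel)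
theorem L1192 : W_49 (nat_lit 6) (nat_lit 0xc000400020001800180000000000000000000000000000000) (nat_lit 0x0) (nat_lit 0x1000000008000d0000600600004000200000000000000000000000) := T_49 (nat_lit 142) (nat_lit 141) (nat_lit 2) (nat_lit 5) (nat_lit 8) L1191 (by decide +kernel)
theorem L1193 : W_49 (nat_lit 7) (nat_lit 0xc000400020001000180000000000000000000000000000000) (nat_lit 0x0) (nat_lit 0x1000000008000d0000e00640004000200000000000000000000000) := T_49 (nat_lit 143) (nat_lit 126) (nat_lit 4) (nat_lit 8) (nat_lit 11) L1192 (by decide +kernel)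
theorem L1194 : W_49 (nat_lit 8) (nat_lit 0x4000400020001000180000000000000000000000000000000) (nat_lit 0x0) (nat_lit 0x1800080008000d0000e00640004000200000000000000000000000) := T_49 (nat_lit 195) (nat_lit 211) (nat_lit 5) (nat_lit 8) (nat_lit 8) L1193 (by decide +kernel)
theorem L1195 : W_49 (nat_lit 9) (nat_lit 0x4000400020001000080000000000000000000000000000000) (nat_lit 0x0) (nat_lit 0x1800080008000d0000e0074000c000200000000000000000000000) := T_49 (nat_lit 128) (nat_lit 111) (nat_lit 6) (nat_lit 8) (nat_lit 10) L1194 (by decide +kernel)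
theorem L1196 : W_49 (nat_lit 10) (nat_lit 0x400020001000080000000000000000000000000000000) (nat_lit 0x0) (nat_lit 0x18000c000a000d0000e0074000c000200000000000000000000000) := T_49 (nat_lit 194) (nat_lit 177) (nat_lit 5) (nat_lit 8) (nat_lit 7) L1195 (by decide +kernel)
theorem L1197 : W_49 (nat_lit 13) (nat_lit 0x20001000080000000000000000000000000000000) (nat_lit 0x0) (nat_lit 0x17000f801fc007e007d801ce0074003c000200000000000000000000000) := Q_49 (nat_lit 178) (C_49 L999 (C_49 L1081 (C_49 L575 (C_49 L1187 (C_49 L1066 (C_49 L1196 N_49)))))) (by decide +kernel)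
theorem L1202 : W_49 (nat_lit 7) (nat_lit 0x80038001400080000000000000000000000000000000) (nat_lit 0x0) (nat_lit 0x7000300004000380170003800000000000000000000000000) := Q_49 (nat_lit 125) (C_49 L6 (C_49 L14 (C_49 L1201 N_49))) (by decide +kernel)
theorem L1204 : W_49 (nat_lit 8) (nat_lit 0x80038001000080000000000000000000000000000000) (nat_lit 0x0) (nat_lit 0x7000300044000780170003800000000000000000000000000) := Q_49 (nat_lit 142) (C_49 L1202 (C_49 L1203 (C_49 L5 (C_49 L2 N_49)))) (by decide +kernel)
theorem L1208 : W_49 (nat_lit 9) (nat_lit 0x38001000080000000000000000000000000000000) (nat_lit 0x0) (nat_lit 0x70003e0044000780170003800000000000000000000000000) := Q_49 (nat_lit 175) (C_49 L1204 (C_49 L1207 (C_49 L29 (C_49 L22 (C_49 L31 N_49))))) (by decide +kernel)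
theorem L1213 : W_49 (nat_lit 2) (nat_lit 0x200000000b00078001400080000000000000000000000000000000) (nat_lit 0x0) (nat_lit 0x80004000000000000000020000000000000000000000000000000) := D_49 (nat_lit 194) (nat_lit 211) (nat_lit 125) (nat_lit 6) (nat_lit 7) (nat_lit 12) (nat_lit 7) (nat_lit 6) (nat_lit 7) (by decide +kernel)
theorem L1214 : W_49 (nat_lit 3) (nat_lit 0x200000000900078001400080000000000000000000000000000000) (nat_lit 0x0) (nat_lit 0x80004000200080000000020000000000000000000000000000000) := T_49 (nat_lit 177) (nat_lit 163) (nat_lit 1) (nat_lit 10) (nat_lit 9) L1213 (by decide +kernel)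
theorem L1215 : W_49 (nat_lit 4) (nat_lit 0x200000000800078001400080000000000000000000000000000000) (nat_lit 0x0) (nat_lit 0x80004000380080000000020000000000000000000000000000000) := T_49 (nat_lit 176) (nat_lit 175) (nat_lit 1) (nat_lit 9) (nat_lit 9) L1214 (by decide +kernel)
theorem L1216 : W_49 (nat_lit 5) (nat_lit 0x800078001400080000000000000000000000000000000) (nat_lit 0x0) (nat_lit 0x280014000380080000000020000000000000000000000000000000) := T_49 (nat_lit 213) (nat_lit 196) (nat_lit 4) (nat_lit 9) (nat_lit 12) L1215 (by decide +kernel)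
theorem L1217 : W_49 (nat_lit 6) (nat_lit 0x800078001000080000000000000000000000000000000) (nat_lit 0x0) (nat_lit 0x280014000380080000600020000000000000000000000000000000) := T_49 (nat_lit 142) (nat_lit 141) (nat_lit 0) (nat_lit 9) (nat_lit 9) L1216 (by decide +kernel)
theorem L1218 : W_49 (nat_lit 7) (nat_lit 0x78001000080000000000000000000000000000000) (nat_lit 0x0) (nat_lit 0x280014001b80080000600020000000000000000000000000000000) := T_49 (nat_lit 179) (nat_lit 180) (nat_lit 3) (nat_lit 6) (nat_lit 9) L1217 (by decide +kernel)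
theorem L1219 : W_49 (nat_lit 2) (nat_lit 0x1100078001400080000000000000000000000000000000) (nat_lit 0x0) (nat_lit 0x2000080000800000000000000000000000000000000000) := D_49 (nat_lit 163) (nat_lit 143) (nat_lit 181) (nat_lit 0) (nat_lit 10) (nat_lit 9) (nat_lit 3) (nat_lit 7) (nat_lit 9) (by decide +kernel)
theorem L1220 : W_49 (nat_lit 3) (nat_lit 0x100078001400080000000000000000000000000000000) (nat_lit 0x0) (nat_lit 0x3800080000800000000000000000000000000000000000) := T_49 (nat_lit 180) (nat_lit 179) (nat_lit 3) (nat_lit 6) (nat_lit 9) L1219 (by decide +kernel)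
theorem L1221 : W_49 (nat_lit 4) (nat_lit 0x100078001000080000000000000000000000000000000) (nat_lit 0x0) (nat_lit 0x3800080000e00000000000000000000000000000000000) := T_49 (nat_lit 142) (nat_lit 141) (nat_lit 0) (nat_lit 9) (nat_lit 9) L1220 (by decide +kernel)
theorem L1222 : W_49 (nat_lit 5) (nat_lit 0x78001000080000000000000000000000000000000) (nat_lit 0x0) (nat_lit 0x3980080000e00000000000000000000000000000000000) := T_49 (nat_lit 176) (nat_lit 175) (nat_lit 1) (nat_lit 9) (nat_lit 9) L1221 (by decide +kernel)
theorem L1233 : W_49 (nat_lit 12) (nat_lit 0x38001000080000000000000000000000000000000) (nat_lit 0x0) (nat_lit 0x2c0016003bf01c701cf00030000800000000000000000000000000) := Q_49 (nat_lit 162) (C_49 L1212 (C_49 L1218 (C_49 L47 (C_49 L44 (C_49 L1222 (C_49 L1232 (C_49 L35 N_49))))))) (by decide +kernel)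
theorem L1234 : W_49 (nat_lit 2) (nat_lit 0x1100078001400080000000000000000000000000000000) (nat_lit 0x0) (nat_lit 0x2200080000000000000000000000000000000000000000) := D_49 (nat_lit 163) (nat_lit 181) (nat_lit 177) (nat_lit 3) (nat_lit 7) (nat_lit 9) (nat_lit 1) (nat_lit 10) (nat_lit 9) (by decide +kernel)
theorem L1235 : W_49 (nat_lit 3) (nat_lit 0x1000078001400080000000000000000000000000000000) (nat_lit 0x0) (nat_lit 0x2380080000000000000000000000000000000000000000) := T_49 (nat_lit 176) (nat_lit 175) (nat_lit 1) (nat_lit 9) (nat_lit 9) L1234 (by decide +kernel)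
theorem L1236 : W_49 (nat_lit 4) (nat_lit 0x78001400080000000000000000000000000000000) (nat_lit 0x0) (nat_lit 0x3b80080000000000000000000000000000000000000000) := T_49 (nat_lit 180) (nat_lit 179) (nat_lit 3) (nat_lit 6) (nat_lit 9) L1235 (by decide +kernel)
theorem L1237 : W_49 (nat_lit 5) (nat_lit 0x78001000080000000000000000000000000000000) (nat_lit 0x0) (nat_lit 0x3b80080000600000000000000000000000000000000000) := T_49 (nat_lit 142) (nat_lit 141) (nat_lit 0) (nat_lit 9) (nat_lit 9) L1236 (by decide +kernel)
theorem L1238 : W_49 (nat_lit 12) (nat_lit 0x38001000080000000000000000000000000000000) (nat_lit 0x0) (nat_lit 0x240012003bf01c701cf00010000800000000000000000000000000) := Q_49 (nat_lit 162) (C_49 L35 (C_49 L1237 (C_49 L47 (C_49 L44 (C_49 L1232 N_49))))) (by decide +kernel)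
theorem L1255 : W_49 (nat_lit 6) (nat_lit 0x8000000020003c001600080000000000000000000000000000000) (nat_lit 0x0) (nat_lit 0x70003c001c0000000000010000000000000000000000000000000) := T_49 (nat_lit 175) (nat_lit 174) (nat_lit 1) (nat_lit 8) (nat_lit 9) L116 (by decide +kernel)
theorem L1256 : W_49 (nat_lit 7) (nat_lit 0x20003c001600080000000000000000000000000000000) (nat_lit 0x0) (nat_lit 0xf0007c001c0000000000010000000000000000000000000000000) := T_49 (nat_lit 211) (nat_lit 194) (nat_lit 6) (nat_lit 7) (nat_lit 12) L1255 (by decide +kernel)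
theorem L1257 : W_49 (nat_lit 8) (nat_lit 0x20003c001400080000000000000000000000000000000) (nat_lit 0x0) (nat_lit 0xf0007c001c0000000300010000000000000000000000000000000) := T_49 (nat_lit 141) (nat_lit 140) (nat_lit 0) (nat_lit 8) (nat_lit 9) L1256 (by decide +kernel)
theorem L1259 : W_49 (nat_lit 3) (nat_lit 0x28003c001400080000000000000000000000000000000) (nat_lit 0x0) (nat_lit 0x1000000000000300020001000000000000000000000000000) := T_49 (nat_lit 141) (nat_lit 140) (nat_lit 0) (nat_lit 8) (nat_lit 9) L1258 (by decide +kernel)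
theorem L1260 : W_49 (nat_lit 4) (nat_lit 0x20003c001400080000000000000000000000000000000) (nat_lit 0x0) (nat_lit 0x10000c0000000300020001000000000000000000000000000) := T_49 (nat_lit 175) (nat_lit 174) (nat_lit 1) (nat_lit 8) (nat_lit 9) L1259 (by decide +kernel)
theorem L1261 : W_49 (nat_lit 2) (nat_lit 0x8000000028003c0014000a0000000000000000000000000000000) (nat_lit 0x0) (nat_lit 0x20001000100000000000000000000000000000000000000000000) := D_49 (nat_lit 192) (nat_lit 209) (nat_lit 176) (nat_lit 6) (nat_lit 5) (nat_lit 12) (nat_lit 5) (nat_lit 6) (nat_lit 7) (by decide +kernel)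
theorem L1262 : W_49 (nat_lit 3) (nat_lit 0x8000000028003c001400080000000000000000000000000000000) (nat_lit 0x0) (nat_lit 0x20001000100000000000020001000000000000000000000000000) := T_49 (nat_lit 125) (nat_lit 108) (nat_lit 7) (nat_lit 6) (nat_lit 6) L1261 (by decide +kernel)
theorem L1263 : W_49 (nat_lit 4) (nat_lit 0x28003c001400080000000000000000000000000000000) (nat_lit 0x0) (nat_lit 0xa0005000100000000000020001000000000000000000000000000) := T_49 (nat_lit 211) (nat_lit 194) (nat_lit 6) (nat_lit 7) (nat_lit 12) L1262 (by decide +kernel)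
theorem L1264 : W_49 (nat_lit 5) (nat_lit 0x20003c001400080000000000000000000000000000000) (nat_lit 0x0) (nat_lit 0xa00050001c0000000000020001000000000000000000000000000) := T_49 (nat_lit 175) (nat_lit 174) (nat_lit 1) (nat_lit 8) (nat_lit 9) L1263 (by decide +kernel)
theorem L1265 : W_49 (nat_lit 2) (nat_lit 0x8000000030003c0016000e0000000000000000000000000000000) (nat_lit 0x0) (nat_lit 0x40002000000000000000010000000000000000000000000000000) := D_49 (nat_lit 193) (nat_lit 210) (nat_lit 124) (nat_lit 4) (nat_lit 6) (nat_lit 12) (nat_lit 4) (nat_lit 6) (nat_lit 11) (by decide +kernel)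
theorem L1266 : W_49 (nat_lit 3) (nat_lit 0x8000000020003c0016000e0000000000000000000000000000000) (nat_lit 0x0) (nat_lit 0x40002000100000000000010002000000000000000000000000000) := T_49 (nat_lit 176) (nat_lit 109) (nat_lit 6) (nat_lit 6) (nat_lit 10) L1265 (by decide +kernel)
theorem L1267 : W_49 (nat_lit 4) (nat_lit 0x8000000020003c0016000a0000000000000000000000000000000) (nat_lit 0x0) (nat_lit 0x40002000100000000000150002000000000000000000000000000) := T_49 (nat_lit 126) (nat_lit 128) (nat_lit 1) (nat_lit 9) (nat_lit 7) L1266 (by decide +kernel)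
theorem L1268 : W_49 (nat_lit 5) (nat_lit 0x8000000020003c0014000a0000000000000000000000000000000) (nat_lit 0x0) (nat_lit 0x40002000100000000300150002000000000000000000000000000) := T_49 (nat_lit 141) (nat_lit 140) (nat_lit 0) (nat_lit 8) (nat_lit 9) L1267 (by decide +kernel)
theorem L1269 : W_49 (nat_lit 6) (nat_lit 0x8000000020003c001400080000000000000000000000000000000) (nat_lit 0x0) (nat_lit 0x40002000100000000300170003000000000000000000000000000) := T_49 (nat_lit 125) (nat_lit 108) (nat_lit 7) (nat_lit 6) (nat_lit 6) L1268 (by decide +kernel)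
theorem L1270 : W_49 (nat_lit 7) (nat_lit 0x20003c001400080000000000000000000000000000000) (nat_lit 0x0) (nat_lit 0xc0006000100000000300170003000000000000000000000000000) := T_49 (nat_lit 211) (nat_lit 194) (nat_lit 6) (nat_lit 7) (nat_lit 12) L1269 (by decide +kernel)
theorem L1271 : W_49 (nat_lit 9) (nat_lit 0x20003c001000080000000000000000000000000000000) (nat_lit 0x0) (nat_lit 0xf0007c001c0000000700170003000000000000000000000000000) := Q_49 (nat_lit 142) (C_49 L1257 (C_49 L1260 (C_49 L1264 (C_49 L1270 N_49)))) (by decide +kernel)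
theorem L1272 : W_49 (nat_lit 5) (nat_lit 0x20003c001400080001000000000000000000000000000) (nat_lit 0x0) (nat_lit 0x2000100000000b00118000800000000000000000000000000) := T_49 (nat_lit 141) (nat_lit 140) (nat_lit 0) (nat_lit 8) (nat_lit 9) L131 (by decide +kernel)
theorem L1273 : W_49 (nat_lit 6) (nat_lit 0x20003c001400080000000000000000000000000000000) (nat_lit 0x0) (nat_lit 0x2000100000000b00138001800000000000000000000000000) := T_49 (nat_lit 108) (nat_lit 125) (nat_lit 7) (nat_lit 6) (nat_lit 6) L1272 (by decide +kernel)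
theorem L1274 : W_49 (nat_lit 7) (nat_lit 0x20003c001000080000000000000000000000000000000) (nat_lit 0x0) (nat_lit 0x200030001c0000000f00138001800000000000000000000000000) := Q_49 (nat_lit 142) (C_49 L138 (C_49 L1260 (C_49 L141 (C_49 L1273 N_49)))) (by decide +kernel)
theorem L1275 : W_49 (nat_lit 10) (nat_lit 0x3c001000080000000000000000000000000000000) (nat_lit 0x0) (nat_lit 0xf0007c003c0000000f00178003800000000000000000000000000) := Q_49 (nat_lit 177) (C_49 L110 (C_49 L1271 (C_49 L1274 N_49))) (by decide +kernel)
theorem L1276 : W_49 (nat_lit 11) (nat_lit 0x38001000080000000000000000000000000000000) (nat_lit 0x0) (nat_lit 0xf0007c003f0007800fc0178003800000000000000000000000000) := Q_49 (nat_lit 158) (C_49 L1241 (C_49 L1244 (C_49 L76 (C_49 L1252 (C_49 L1254 (C_49 L1275 N_49)))))) (by decide +kernel)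
theorem L1284 : W_49 (nat_lit 9) (nat_lit 0x38001000080000000000000000000000000000000) (nat_lit 0x0) (nat_lit 0x39e01c601cb80000000000000000000000000000000000) := Q_49 (nat_lit 158) (C_49 L1254 (C_49 L1244 (C_49 L76 (C_49 L1283 N_49)))) (by decide +kernel)
theorem L1295 : W_49 (nat_lit 12) (nat_lit 0x4000000078001000080000000000000000000000000000000) (nat_lit 0x0) (nat_lit 0x200010007c001b8019f0007000dc0040002000000000000000000000000000) := Q_49 (nat_lit 158) (C_49 L97 (C_49 L96 (C_49 L1294 N_49))) (by decide +kernel)
theorem L1296 : W_49 (nat_lit 2) (nat_lit 0x6000900078001800080000000000000000000000000000000) (nat_lit 0x0) (nat_lit 0x400040002000000000000000000000000000) := D_49 (nat_lit 126) (nat_lit 109) (nat_lit 142) (nat_lit 5) (nat_lit 7) (nat_lit 6) (nat_lit 6) (nat_lit 6) (nat_lit 11) (by decide +kernel)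
theorem L1297 : W_49 (nat_lit 3) (nat_lit 0x4000900078001800080000000000000000000000000000000) (nat_lit 0x0) (nat_lit 0x40002000000000000400040002000000000000000000000000000) := T_49 (nat_lit 193) (nat_lit 210) (nat_lit 6) (nat_lit 6) (nat_lit 12) L1296 (by decide +kernel)
theorem L1298 : W_49 (nat_lit 4) (nat_lit 0x4000100078001800080000000000000000000000000000000) (nat_lit 0x0) (nat_lit 0x40002001800000000400040002000000000000000000000000000) := T_49 (nat_lit 179) (nat_lit 180) (nat_lit 3) (nat_lit 6) (nat_lit 9) L1297 (by decide +kernel)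
theorem L1299 : W_49 (nat_lit 5) (nat_lit 0x4000100078001000080000000000000000000000000000000) (nat_lit 0x0) (nat_lit 0x40002001a00000000c00040002000000000000000000000000000) := T_49 (nat_lit 143) (nat_lit 177) (nat_lit 6) (nat_lit 7) (nat_lit 11) L1298 (by decide +kernel)
theorem L1300 : W_49 (nat_lit 6) (nat_lit 0x4000000078001000080000000000000000000000000000000) (nat_lit 0x0) (nat_lit 0x40002001b80000000c00040002000000000000000000000000000) := T_49 (nat_lit 176) (nat_lit 175) (nat_lit 1) (nat_lit 9) (nat_lit 9) L1299 (by decide +kernel)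
theorem L1301 : W_49 (nat_lit 13) (nat_lit 0x78001000080000000000000000000000000000000) (nat_lit 0x0) (nat_lit 0x200010007c001f801bf0007000dc0040002000000000000000000000000000) := Q_49 (nat_lit 194) (C_49 L87 (C_49 L91 (C_49 L1295 (C_49 L1300 N_49)))) (by decide +kernel)
theorem L1302 : W_49 (nat_lit 14) (nat_lit 0x38001000080000000000000000000000000000000) (nat_lit 0x0) (nat_lit 0x200010007c001f803bf01c7000dc0040002000000000000000000000000000) := Q_49 (nat_lit 162) (C_49 L80 (C_49 L83 (C_49 L86 (C_49 L1301 N_49)))) (by decide +kernel)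
theorem L1313 : W_49 (nat_lit 2) (nat_lit 0x400000003c001e00090000000000000000000000000000000) (nat_lit 0x0) (nat_lit 0x2000100000000000000000800000000000000000000000000) := D_49 (nat_lit 176) (nat_lit 193) (nat_lit 107) (nat_lit 4) (nat_lit 6) (nat_lit 11) (nat_lit 7) (nat_lit 5) (nat_lit 6) (by decide +kernel)
theorem L1314 : W_49 (nat_lit 3) (nat_lit 0x400000003c001e00080000000000000000000000000000000) (nat_lit 0x0) (nat_lit 0x2000100000000000018000800000000000000000000000000) := T_49 (nat_lit 124) (nat_lit 123) (nat_lit 0) (nat_lit 8) (nat_lit 8) L1313 (by decide +kernel)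
theorem L1315 : W_49 (nat_lit 4) (nat_lit 0x400000003c001a00080000000000000000000000000000000) (nat_lit 0x0) (nat_lit 0x2000100000000400118000800000000000000000000000000) := T_49 (nat_lit 142) (nat_lit 128) (nat_lit 2) (nat_lit 5) (nat_lit 8) L1314 (by decide +kernel)
theorem L1316 : W_49 (nat_lit 5) (nat_lit 0x400000003c001800080000000000000000000000000000000) (nat_lit 0x0) (nat_lit 0x2000100000000700118000800000000000000000000000000) := T_49 (nat_lit 141) (nat_lit 140) (nat_lit 0) (nat_lit 8) (nat_lit 9) L1315 (by decide +kernel)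
theorem L1317 : W_49 (nat_lit 6) (nat_lit 0x3c001800080000000000000000000000000000000) (nat_lit 0x0) (nat_lit 0x6000300000000700118000800000000000000000000000000) := T_49 (nat_lit 194) (nat_lit 177) (nat_lit 6) (nat_lit 7) (nat_lit 11) L1316 (by decide +kernel)
theorem L1318 : W_49 (nat_lit 7) (nat_lit 0x38001800080000000000000000000000000000000) (nat_lit 0x0) (nat_lit 0x6000300006000700118000800000000000000000000000000) := T_49 (nat_lit 158) (nat_lit 157) (nat_lit 2) (nat_lit 4) (nat_lit 9) L1317 (by decide +kernel)
theorem L1320 : W_49 (nat_lit 2) (nat_lit 0x40000000380018000c0003800000000000000000000000000) (nat_lit 0x0) (nat_lit 0x320000000000000000000000000000000) := D_49 (nat_lit 128) (nat_lit 129) (nat_lit 125) (nat_lit 0) (nat_lit 10) (nat_lit 7) (nat_lit 0) (nat_lit 9) (nat_lit 7) (by decide +kernel)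
theorem L1321 : W_49 (nat_lit 3) (nat_lit 0x40000000380018000c0003000000000000000000000000000) (nat_lit 0x0) (nat_lit 0x320000c00000000000000000000000000) := T_49 (nat_lit 107) (nat_lit 106) (nat_lit 3) (nat_lit 4) (nat_lit 6) L1320 (by decide +kernel)
theorem L1322 : W_49 (nat_lit 4) (nat_lit 0x40000000380018000c0002000000000000000000000000000) (nat_lit 0x0) (nat_lit 0x320001c00080000000000000000000000) := T_49 (nat_lit 108) (nat_lit 91) (nat_lit 4) (nat_lit 7) (nat_lit 9) L1321 (by decide +kernel)
theorem L1323 : W_49 (nat_lit 5) (nat_lit 0x40000000380018000c0000000000000000000000000000000) (nat_lit 0x0) (nat_lit 0x100000000000320003c00080000000000000000000000) := T_49 (nat_lit 109) (nat_lit 176) (nat_lit 5) (nat_lit 7) (nat_lit 6) L1322 (by decide +kernel)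
theorem L1324 : W_49 (nat_lit 6) (nat_lit 0x380018000c0000000000000000000000000000000) (nat_lit 0x0) (nat_lit 0x4000300000000000320003c00080000000000000000000000) := T_49 (nat_lit 194) (nat_lit 177) (nat_lit 6) (nat_lit 7) (nat_lit 11) L1323 (by decide +kernel)
theorem L1325 : W_49 (nat_lit 2) (nat_lit 0x20003c001a000f0000000000000000000000000000000) (nat_lit 0x0) (nat_lit 0x2000100000000000000000800000000000000000000000000) := D_49 (nat_lit 176) (nat_lit 193) (nat_lit 107) (nat_lit 5) (nat_lit 7) (nat_lit 7) (nat_lit 7) (nat_lit 5) (nat_lit 6) (by decide +kernel)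
theorem L1326 : W_49 (nat_lit 3) (nat_lit 0x20003c001a000e0000000000000000000000000000000) (nat_lit 0x0) (nat_lit 0x2000100000000000018000800000000000000000000000000) := T_49 (nat_lit 124) (nat_lit 123) (nat_lit 3) (nat_lit 4) (nat_lit 7) L1325 (by decide +kernel)
theorem L1327 : W_49 (nat_lit 4) (nat_lit 0x20003c001a000c0000000000000000000000000000000) (nat_lit 0x0) (nat_lit 0x2000100000000000038001800000000000000000000000000) := T_49 (nat_lit 125) (nat_lit 108) (nat_lit 4) (nat_lit 7) (nat_lit 10) L1326 (by decide +kernel)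
theorem L1328 : W_49 (nat_lit 5) (nat_lit 0x20003c0018000c0000000000000000000000000000000) (nat_lit 0x0) (nat_lit 0x2000100000000300038001800000000000000000000000000) := T_49 (nat_lit 141) (nat_lit 140) (nat_lit 0) (nat_lit 8) (nat_lit 9) L1327 (by decide +kernel)
theorem L1329 : W_49 (nat_lit 6) (nat_lit 0x3c0018000c0000000000000000000000000000000) (nat_lit 0x0) (nat_lit 0x6000300000000300038001800000000000000000000000000) := T_49 (nat_lit 177) (nat_lit 194) (nat_lit 6) (nat_lit 7) (nat_lit 11) L1328 (by decide +kernel)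
theorem L1330 : W_49 (nat_lit 7) (nat_lit 0x380018000c0000000000000000000000000000000) (nat_lit 0x0) (nat_lit 0x6000300006000300038001800000000000000000000000000) := T_49 (nat_lit 158) (nat_lit 157) (nat_lit 2) (nat_lit 4) (nat_lit 9) L1329 (by decide +kernel)
theorem L1331 : W_49 (nat_lit 5) (nat_lit 0x40000000380018000c0000000000000000000000000000000) (nat_lit 0x0) (nat_lit 0x320003c00180000000000000000000000) := T_49 (nat_lit 109) (nat_lit 92) (nat_lit 7) (nat_lit 7) (nat_lit 5) L1322 (by decide +kernel)
theorem L1332 : W_49 (nat_lit 6) (nat_lit 0x380018000c0000000000000000000000000000000) (nat_lit 0x0) (nat_lit 0x4000200000000000320003c00180000000000000000000000) := T_49 (nat_lit 194) (nat_lit 177) (nat_lit 6) (nat_lit 7) (nat_lit 11) L1331 (by decide +kernel)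
theorem L1333 : W_49 (nat_lit 8) (nat_lit 0x38001800080000000000000000000000000000000) (nat_lit 0x0) (nat_lit 0x6000300006000300378003c00180000000000000000000000) := Q_49 (nat_lit 126) (C_49 L1319 (C_49 L1324 (C_49 L1330 (C_49 L1332 N_49)))) (by decide +kernel)
theorem L1344 : W_49 (nat_lit 9) (nat_lit 0x38001800080000000000000000000000000000000) (nat_lit 0x0) (nat_lit 0x60003000c6000400378003c00180000000000000000000000) := Q_49 (nat_lit 126) (C_49 L1319 (C_49 L1332 (C_49 L1324 (C_49 L1343 N_49)))) (by decide +kernel)
theorem L1352 : W_49 (nat_lit 2) (nat_lit 0x4000000038001c000c0003800000000000000000000000000) (nat_lit 0x0) (nat_lit 0x320000000000000000000000000000000) := D_49 (nat_lit 128) (nat_lit 129) (nat_lit 125) (nat_lit 1) (nat_lit 10) (nat_lit 7) (nat_lit 0) (nat_lit 9) (nat_lit 7) (by decide +kernel)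
theorem L1353 : W_49 (nat_lit 3) (nat_lit 0x4000000038001c000c0003000000000000000000000000000) (nat_lit 0x0) (nat_lit 0x320000c00000000000000000000000000) := T_49 (nat_lit 107) (nat_lit 106) (nat_lit 3) (nat_lit 4) (nat_lit 6) L1352 (by decide +kernel)
theorem L1354 : W_49 (nat_lit 4) (nat_lit 0x4000000038001c000c0002000000000000000000000000000) (nat_lit 0x0) (nat_lit 0x320001c00080000000000000000000000) := T_49 (nat_lit 108) (nat_lit 91) (nat_lit 4) (nat_lit 7) (nat_lit 9) L1353 (by decide +kernel)
theorem L1355 : W_49 (nat_lit 5) (nat_lit 0x38001c000c0002000000000000000000000000000) (nat_lit 0x0) (nat_lit 0x4000200000000000320001c00080000000000000000000000) := T_49 (nat_lit 194) (nat_lit 177) (nat_lit 6) (nat_lit 7) (nat_lit 11) L1354 (by decide +kernel)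
theorem L1356 : W_49 (nat_lit 6) (nat_lit 0x38001c000c0000000000000000000000000000000) (nat_lit 0x0) (nat_lit 0x4000200000000000320003c00180000000000000000000000) := T_49 (nat_lit 109) (nat_lit 92) (nat_lit 7) (nat_lit 7) (nat_lit 5) L1355 (by decide +kernel)
theorem L1357 : W_49 (nat_lit 7) (nat_lit 0x38001c00080000000000000000000000000000000) (nat_lit 0x0) (nat_lit 0x6000300000000000378003c00180000000000000000000000) := Q_49 (nat_lit 126) (C_49 L1346 (C_49 L1347 (C_49 L1351 (C_49 L1356 N_49)))) (by decide +kernel)
theorem L1358 : W_49 (nat_lit 8) (nat_lit 0x38001800080000000000000000000000000000000) (nat_lit 0x0) (nat_lit 0x60003000c0000700378003c00180000000000000000000000) := Q_49 (nat_lit 142) (C_49 L1345 (C_49 L227 (C_49 L1357 N_49))) (by decide +kernel)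
theorem L1359 : W_49 (nat_lit 10) (nat_lit 0x38001000080000000000000000000000000000000) (nat_lit 0x0) (nat_lit 0x6003b001c6000f00378003c00180000000000000000000000) := Q_49 (nat_lit 143) (C_49 L1306 (C_49 L1312 (C_49 L1318 (C_49 L1333 (C_49 L1336 (C_49 L1344 (C_49 L1358 N_49))))))) (by decide +kernel)
theorem L1362 : W_49 (nat_lit 2) (nat_lit 0x200004000b00078001000080000000000000000000000000000000) (nat_lit 0x0) (nat_lit 0x600020000000000000000000000000000000) := D_49 (nat_lit 142) (nat_lit 141) (nat_lit 125) (nat_lit 0) (nat_lit 9) (nat_lit 9) (nat_lit 7) (nat_lit 6) (nat_lit 7) (by decide +kernel)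
theorem L1363 : W_49 (nat_lit 3) (nat_lit 0x200004000a00078001000080000000000000000000000000000000) (nat_lit 0x0) (nat_lit 0x180000000600020000000000000000000000000000000) := T_49 (nat_lit 176) (nat_lit 175) (nat_lit 1) (nat_lit 9) (nat_lit 9) L1362 (by decide +kernel)
theorem L1364 : W_49 (nat_lit 4) (nat_lit 0x4000a00078001000080000000000000000000000000000000) (nat_lit 0x0) (nat_lit 0x200010000180000000600020000000000000000000000000000000) := T_49 (nat_lit 213) (nat_lit 196) (nat_lit 4) (nat_lit 9) (nat_lit 12) L1363 (by decide +kernel)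
theorem L1365 : W_49 (nat_lit 5) (nat_lit 0xa00078001000080000000000000000000000000000000) (nat_lit 0x0) (nat_lit 0x280014000180000000600020000000000000000000000000000000) := T_49 (nat_lit 194) (nat_lit 211) (nat_lit 6) (nat_lit 7) (nat_lit 12) L1364 (by decide +kernel)
theorem L1366 : W_49 (nat_lit 6) (nat_lit 0x200078001000080000000000000000000000000000000) (nat_lit 0x0) (nat_lit 0x280014001980000000600020000000000000000000000000000000) := T_49 (nat_lit 179) (nat_lit 180) (nat_lit 3) (nat_lit 6) (nat_lit 9) L1365 (by decide +kernel)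
theorem L1367 : W_49 (nat_lit 10) (nat_lit 0x78001000080000000000000000000000000000000) (nat_lit 0x0) (nat_lit 0x280016001b80000000e00078003800000000000000000000000000) := Q_49 (nat_lit 177) (C_49 L1361 (C_49 L1366 (C_49 L267 N_49))) (by decide +kernel)
theorem L1368 : W_49 (nat_lit 11) (nat_lit 0x38001000080000000000000000000000000000000) (nat_lit 0x0) (nat_lit 0x280016003b801c0000e00078003800000000000000000000000000) := Q_49 (nat_lit 162) (C_49 L83 (C_49 L80 (C_49 L86 (C_49 L1367 N_49)))) (by decide +kernel)
theorem L1369 : W_49 (nat_lit 15) (nat_lit 0x30001000080000000000000000000000000000000) (nat_lit 0x0) (nat_lit 0x200010007f001fc03bf01cf81cfc0378003c00180000000000000000000000) := Q_49 (nat_lit 159) (C_49 L1208 (C_49 L1233 (C_49 L1238 (C_49 L1276 (C_49 L1284 (C_49 L1302 (C_49 L1359 (C_49 L1360 (C_49 L1368 N_49))))))))) (by decide +kernel)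
theorem L1370 : W_49 (nat_lit 2) (nat_lit 0x8007c001400088007800020000000000000000000000) (nat_lit 0x0) (nat_lit 0x4000400010000000000000000000000) := D_49 (nat_lit 106) (nat_lit 122) (nat_lit 88) (nat_lit 1) (nat_lit 7) (nat_lit 6) (nat_lit 0) (nat_lit 7) (nat_lit 6) (by decide +kernel)
theorem L1371 : W_49 (nat_lit 3) (nat_lit 0x8007c001400088007800000000000000000000000000) (nat_lit 0x0) (nat_lit 0x4000400070000000000000000000000) := T_49 (nat_lit 89) (nat_lit 90) (nat_lit 0) (nat_lit 8) (nat_lit 6) L1370 (by decide +kernel)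
theorem L1372 : W_49 (nat_lit 4) (nat_lit 0x8007c001400080007800000000000000000000000000) (nat_lit 0x0) (nat_lit 0x1c000400070000000000000000000000) := T_49 (nat_lit 123) (nat_lit 124) (nat_lit 1) (nat_lit 8) (nat_lit 6) L1371 (by decide +kernel)
theorem L1373 : W_49 (nat_lit 5) (nat_lit 0x8007c001400080007000000000000000000000000000) (nat_lit 0x0) (nat_lit 0x11c000c00070000000000000000000000) := T_49 (nat_lit 107) (nat_lit 128) (nat_lit 3) (nat_lit 5) (nat_lit 6) L1372 (by decide +kernel)
theorem L1374 : W_49 (nat_lit 6) (nat_lit 0x8007c001400080006000000000000000000000000000) (nat_lit 0x0) (nat_lit 0x13c001c00070000000000000000000000) := T_49 (nat_lit 108) (nat_lit 125) (nat_lit 5) (nat_lit 6) (nat_lit 6) L1373 (by decide +kernel)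
theorem L1375 : W_49 (nat_lit 7) (nat_lit 0x80078001400080006000000000000000000000000000) (nat_lit 0x0) (nat_lit 0x4000400000013c001c00070000000000000000000000) := T_49 (nat_lit 158) (nat_lit 174) (nat_lit 1) (nat_lit 8) (nat_lit 9) L1374 (by decide +kernel)
theorem L1376 : W_49 (nat_lit 8) (nat_lit 0x80078001000080006000000000000000000000000000) (nat_lit 0x0) (nat_lit 0x4000400060013c001c00070000000000000000000000) := T_49 (nat_lit 142) (nat_lit 141) (nat_lit 0) (nat_lit 9) (nat_lit 9) L1375 (by decide +kernel)
theorem L1377 : W_49 (nat_lit 9) (nat_lit 0x78001000080006000000000000000000000000000) (nat_lit 0x0) (nat_lit 0x1c000400060013c001c00070000000000000000000000) := T_49 (nat_lit 175) (nat_lit 176) (nat_lit 1) (nat_lit 9) (nat_lit 9) L1376 (by decide +kernel)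
theorem L1378 : W_49 (nat_lit 10) (nat_lit 0x38001000080006000000000000000000000000000) (nat_lit 0x0) (nat_lit 0x9c004400060013c001c00070000000000000000000000) := T_49 (nat_lit 162) (nat_lit 179) (nat_lit 7) (nat_lit 8) (nat_lit 6) L1377 (by decide +kernel)
theorem L1379 : W_49 (nat_lit 11) (nat_lit 0x38001000080004000000000000000000000000000) (nat_lit 0x0) (nat_lit 0x9c004400060013c003c00170000000000000000000000) := T_49 (nat_lit 109) (nat_lit 92) (nat_lit 4) (nat_lit 8) (nat_lit 9) L1378 (by decide +kernel)
theorem L1380 : W_49 (nat_lit 12) (nat_lit 0x38001000080000000000000000000000000000000) (nat_lit 0x0) (nat_lit 0xbc004400060013c007c00170000000000000000000000) := T_49 (nat_lit 110) (nat_lit 177) (nat_lit 5) (nat_lit 8) (nat_lit 6) L1379 (by decide +kernel)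
theorem L1387 : W_49 (nat_lit 2) (nat_lit 0x8003f001000080000000000000000000000000000000) (nat_lit 0x0) (nat_lit 0x300000800000000000000000000000000000000000000) := D_49 (nat_lit 176) (nat_lit 177) (nat_lit 155) (nat_lit 3) (nat_lit 3) (nat_lit 9) (nat_lit 3) (nat_lit 2) (nat_lit 9) (by decide +kernel)
theorem L1388 : W_49 (nat_lit 3) (nat_lit 0x3f001000080000000000000000000000000000000) (nat_lit 0x0) (nat_lit 0x3c0000800000000000000000000000000000000000000) := T_49 (nat_lit 175) (nat_lit 174) (nat_lit 1) (nat_lit 8) (nat_lit 9) L1387 (by decide +kernel)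
theorem L1400 : W_49 (nat_lit 13) (nat_lit 0x3e001000080000000000000000000000000000000) (nat_lit 0x0) (nat_lit 0x3d80018006e017c007c00100000000000000000000000) := Q_49 (nat_lit 156) (C_49 L337 (C_49 L1388 (C_49 L351 (C_49 L1399 N_49)))) (by decide +kernel)
theorem L1401 : W_49 (nat_lit 14) (nat_lit 0x3c001000080000000000000000000000000000000) (nat_lit 0x0) (nat_lit 0x3f80038006e017c007c00100000000000000000000000) := Q_49 (nat_lit 157) (C_49 L75 (C_49 L331 (C_49 L336 (C_49 L1400 N_49)))) (by decide +kernel)
theorem L1403 : W_49 (nat_lit 10) (nat_lit 0x3c001000080000000000000000000000000000000) (nat_lit 0x0) (nat_lit 0xf0007c003c0000000700170007000000000000000000000000000) := T_49 (nat_lit 177) (nat_lit 110) (nat_lit 5) (nat_lit 8) (nat_lit 6) L1271 (by decide +kernel)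
theorem L1404 : W_49 (nat_lit 15) (nat_lit 0x38001000080000000000000000000000000000000) (nat_lit 0x0) (nat_lit 0xf0007c003f80078007e017c007c00100000000000000000000000) := Q_49 (nat_lit 158) (C_49 L1244 (C_49 L322 (C_49 L328 (C_49 L1401 (C_49 L1402 (C_49 L1403 N_49)))))) (by decide +kernel)
theorem L1405 : W_49 (nat_lit 2) (nat_lit 0x80078001200080004000000000000000000000000000) (nat_lit 0x0) (nat_lit 0x40004000100000000000000000000000000000000000) := D_49 (nat_lit 158) (nat_lit 174) (nat_lit 140) (nat_lit 1) (nat_lit 8) (nat_lit 9) (nat_lit 0) (nat_lit 8) (nat_lit 9) (by decide +kernel)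
theorem L1406 : W_49 (nat_lit 3) (nat_lit 0x80078001000080004000000000000000000000000000) (nat_lit 0x0) (nat_lit 0x40004000700000000000000000000000000000000000) := T_49 (nat_lit 141) (nat_lit 142) (nat_lit 0) (nat_lit 9) (nat_lit 9) L1405 (by decide +kernel)
theorem L1407 : W_49 (nat_lit 4) (nat_lit 0x78001000080004000000000000000000000000000) (nat_lit 0x0) (nat_lit 0x1c0004000700000000000000000000000000000000000) := T_49 (nat_lit 175) (nat_lit 176) (nat_lit 1) (nat_lit 9) (nat_lit 9) L1406 (by decide +kernel)
theorem L1408 : W_49 (nat_lit 5) (nat_lit 0x38001000080004000000000000000000000000000) (nat_lit 0x0) (nat_lit 0x9c0044000700000000000000000000000000000000000) := T_49 (nat_lit 162) (nat_lit 179) (nat_lit 7) (nat_lit 8) (nat_lit 6) L1407 (by decide +kernel)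
theorem L1409 : W_49 (nat_lit 6) (nat_lit 0x38001000080000000000000000000000000000000) (nat_lit 0x0) (nat_lit 0xbc0044000700000004000000000000000000000000000) := T_49 (nat_lit 110) (nat_lit 177) (nat_lit 5) (nat_lit 8) (nat_lit 6) L1408 (by decide +kernel)
theorem L1411 : W_49 (nat_lit 2) (nat_lit 0x78001000080000000000000000000000000000000) (nat_lit 0x0) (nat_lit 0x1800000000000000004000000000000000000000000000) := D_49 (nat_lit 179) (nat_lit 180) (nat_lit 110) (nat_lit 3) (nat_lit 6) (nat_lit 9) (nat_lit 7) (nat_lit 8) (nat_lit 6) (by decide +kernel)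
theorem L1412 : W_49 (nat_lit 5) (nat_lit 0x38001000080000000000000000000000000000000) (nat_lit 0x0) (nat_lit 0x3b800c0000000000004000000000000000000000000000) := Q_49 (nat_lit 162) (C_49 L1410 (C_49 L281 (C_49 L83 (C_49 L1411 N_49)))) (by decide +kernel)
theorem L1415 : W_49 (nat_lit 5) (nat_lit 0x38001000080000000000000000000000000000000) (nat_lit 0x0) (nat_lit 0x19c0044000700000004000000000000000000000000000) := Q_49 (nat_lit 162) (C_49 L1411 (C_49 L1414 N_49)) (by decide +kernel)
theorem L1416 : W_49 (nat_lit 2) (nat_lit 0x78001200080000000000000000000000000000000) (nat_lit 0x0) (nat_lit 0x1800000000000000004000000000000000000000000000) := D_49 (nat_lit 179) (nat_lit 110) (nat_lit 180) (nat_lit 7) (nat_lit 8) (nat_lit 6) (nat_lit 3) (nat_lit 6) (nat_lit 9) (by decide +kernel)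
theorem L1417 : W_49 (nat_lit 2) (nat_lit 0x3e001200090001c00000000000000000000000000) (nat_lit 0x0) (nat_lit 0x60002000000000000000000000000000) := D_49 (nat_lit 126) (nat_lit 109) (nat_lit 125) (nat_lit 3) (nat_lit 4) (nat_lit 6) (nat_lit 0) (nat_lit 8) (nat_lit 7) (by decide +kernel)
theorem L1418 : W_49 (nat_lit 3) (nat_lit 0x3e001200090001800000000000000000000000000) (nat_lit 0x0) (nat_lit 0x60002400020000000000000000000000) := T_49 (nat_lit 106) (nat_lit 89) (nat_lit 4) (nat_lit 5) (nat_lit 9) L1417 (by decide +kernel)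
theorem L1419 : W_49 (nat_lit 4) (nat_lit 0x3c001200090001800000000000000000000000000) (nat_lit 0x0) (nat_lit 0x40002000000060002400020000000000000000000000) := T_49 (nat_lit 157) (nat_lit 174) (nat_lit 5) (nat_lit 5) (nat_lit 6) L1418 (by decide +kernel)
theorem L1420 : W_49 (nat_lit 5) (nat_lit 0x3c001200090000800000000000000000000000000) (nat_lit 0x0) (nat_lit 0x400020000000600034000a0000000000000000000000) := T_49 (nat_lit 108) (nat_lit 91) (nat_lit 6) (nat_lit 5) (nat_lit 9) L1419 (by decide +kernel)
theorem L1421 : W_49 (nat_lit 2) (nat_lit 0x7e001200090004800360000000000000000000000) (nat_lit 0x0) (nat_lit 0x8000080004000000000000000000) := D_49 (nat_lit 91) (nat_lit 111) (nat_lit 74) (nat_lit 3) (nat_lit 5) (nat_lit 5) (nat_lit 6) (nat_lit 5) (nat_lit 8) (by decide +kernel)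
theorem L1422 : W_49 (nat_lit 3) (nat_lit 0x7e001200090004800320000000000000000000000) (nat_lit 0x0) (nat_lit 0x80000c0005000000000000000000) := T_49 (nat_lit 90) (nat_lit 72) (nat_lit 4) (nat_lit 5) (nat_lit 8) L1421 (by decide +kernel)
theorem L1423 : W_49 (nat_lit 4) (nat_lit 0x7e001200090004800300000000000000000000000) (nat_lit 0x0) (nat_lit 0x84000e0005000000000000000000) := T_49 (nat_lit 89) (nat_lit 106) (nat_lit 4) (nat_lit 5) (nat_lit 9) L1422 (by decide +kernel)
theorem L1424 : W_49 (nat_lit 5) (nat_lit 0x7c001200090004800300000000000000000000000) (nat_lit 0x0) (nat_lit 0x400020000000000084000e0005000000000000000000) := T_49 (nat_lit 157) (nat_lit 174) (nat_lit 5) (nat_lit 5) (nat_lit 6) L1423 (by decide +kernel)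
theorem L1425 : W_49 (nat_lit 6) (nat_lit 0x3c001200080000800000000000000000000000000) (nat_lit 0x0) (nat_lit 0x1400020000000700034000a0000000000000000000000) := T_49 (nat_lit 124) (nat_lit 176) (nat_lit 7) (nat_lit 5) (nat_lit 6) L1420 (by decide +kernel)
theorem L1426 : W_49 (nat_lit 7) (nat_lit 0x38001200080000800000000000000000000000000) (nat_lit 0x0) (nat_lit 0x1400060001000700034000a0000000000000000000000) := T_49 (nat_lit 158) (nat_lit 140) (nat_lit 0) (nat_lit 8) (nat_lit 9) L1425 (by decide +kernel)
theorem L1427 : W_49 (nat_lit 2) (nat_lit 0x3c001200080007800000000000000000000000000) (nat_lit 0x0) (nat_lit 0x100000000000018000000000000000000000000000000) := D_49 (nat_lit 124) (nat_lit 123) (nat_lit 176) (nat_lit 1) (nat_lit 8) (nat_lit 6) (nat_lit 7) (nat_lit 5) (nat_lit 6) (by decide +kernel)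
theorem L1428 : W_49 (nat_lit 3) (nat_lit 0x3c001200080006800000000000000000000000000) (nat_lit 0x0) (nat_lit 0x100000000000118001000000000000000000000000000) := T_49 (nat_lit 108) (nat_lit 128) (nat_lit 3) (nat_lit 5) (nat_lit 6) L1427 (by decide +kernel)
theorem L1429 : W_49 (nat_lit 4) (nat_lit 0x3c001200080004800000000000000000000000000) (nat_lit 0x0) (nat_lit 0x100000000000118003000100000000000000000000000) := T_49 (nat_lit 109) (nat_lit 92) (nat_lit 4) (nat_lit 8) (nat_lit 9) L1428 (by decide +kernel)
theorem L1430 : W_49 (nat_lit 5) (nat_lit 0x3c001200080000800000000000000000000000000) (nat_lit 0x0) (nat_lit 0x300000000000118007000100000000000000000000000) := T_49 (nat_lit 110) (nat_lit 177) (nat_lit 5) (nat_lit 8) (nat_lit 6) L1429 (by decide +kernel)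
theorem L1431 : W_49 (nat_lit 6) (nat_lit 0x38001200080000800000000000000000000000000) (nat_lit 0x0) (nat_lit 0x300004000100118007000100000000000000000000000) := T_49 (nat_lit 158) (nat_lit 140) (nat_lit 0) (nat_lit 8) (nat_lit 9) L1430 (by decide +kernel)
theorem L1432 : W_49 (nat_lit 2) (nat_lit 0x7e0012000900048000c0000000000000000000000) (nat_lit 0x0) (nat_lit 0x400020001000000000000000000) := D_49 (nat_lit 89) (nat_lit 72) (nat_lit 106) (nat_lit 4) (nat_lit 5) (nat_lit 8) (nat_lit 4) (nat_lit 5) (nat_lit 9) (by decide +kernel)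
theorem L1433 : W_49 (nat_lit 3) (nat_lit 0x7e001200090004800080000000000000000000000) (nat_lit 0x0) (nat_lit 0x400060005000000000000000000) := T_49 (nat_lit 90) (nat_lit 74) (nat_lit 6) (nat_lit 5) (nat_lit 8) L1432 (by decide +kernel)
theorem L1434 : W_49 (nat_lit 4) (nat_lit 0x7c001200090004800080000000000000000000000) (nat_lit 0x0) (nat_lit 0x40002000000000000400060005000000000000000000) := T_49 (nat_lit 157) (nat_lit 174) (nat_lit 5) (nat_lit 5) (nat_lit 6) L1433 (by decide +kernel)
theorem L1435 : W_49 (nat_lit 5) (nat_lit 0x7c001200090004800000000000000000000000000) (nat_lit 0x0) (nat_lit 0x400020000000000014000e0005000000000000000000) := T_49 (nat_lit 91) (nat_lit 108) (nat_lit 6) (nat_lit 5) (nat_lit 9) L1434 (by decide +kernel)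
theorem L1436 : W_49 (nat_lit 6) (nat_lit 0x7c001200080004800000000000000000000000000) (nat_lit 0x0) (nat_lit 0x1400020000000100014000e0005000000000000000000) := T_49 (nat_lit 124) (nat_lit 176) (nat_lit 7) (nat_lit 5) (nat_lit 6) L1435 (by decide +kernel)
theorem L1437 : W_49 (nat_lit 7) (nat_lit 0x3c001200080004800000000000000000000000000) (nat_lit 0x0) (nat_lit 0x9400420000000100014000e0005000000000000000000) := T_49 (nat_lit 162) (nat_lit 179) (nat_lit 7) (nat_lit 8) (nat_lit 6) L1436 (by decide +kernel)
theorem L1438 : W_49 (nat_lit 8) (nat_lit 0x38001200080004800000000000000000000000000) (nat_lit 0x0) (nat_lit 0x9400460001000100014000e0005000000000000000000) := T_49 (nat_lit 158) (nat_lit 140) (nat_lit 0) (nat_lit 8) (nat_lit 9) L1437 (by decide +kernel)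
theorem L1439 : W_49 (nat_lit 9) (nat_lit 0x38001200080000800000000000000000000000000) (nat_lit 0x0) (nat_lit 0xb400460001000100054000e0005000000000000000000) := T_49 (nat_lit 110) (nat_lit 177) (nat_lit 5) (nat_lit 8) (nat_lit 6) L1438 (by decide +kernel)
theorem L1440 : W_49 (nat_lit 6) (nat_lit 0x7c001200080004800300000000000000000000000) (nat_lit 0x0) (nat_lit 0x1400020000000100084000e0005000000000000000000) := T_49 (nat_lit 124) (nat_lit 176) (nat_lit 7) (nat_lit 5) (nat_lit 6) L1424 (by decide +kernel)
theorem L1441 : W_49 (nat_lit 7) (nat_lit 0x7c001200080004800100000000000000000000000) (nat_lit 0x0) (nat_lit 0x1400020000000100084002e000d000000000000000000) := T_49 (nat_lit 93) (nat_lit 75) (nat_lit 4) (nat_lit 8) (nat_lit 8) L1440 (by decide +kernel)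
theorem L1442 : W_49 (nat_lit 8) (nat_lit 0x3c001200080004800100000000000000000000000) (nat_lit 0x0) (nat_lit 0x9400420000000100084002e000d000000000000000000) := T_49 (nat_lit 162) (nat_lit 179) (nat_lit 7) (nat_lit 8) (nat_lit 6) L1441 (by decide +kernel)
theorem L1443 : W_49 (nat_lit 9) (nat_lit 0x3c001200080004800000000000000000000000000) (nat_lit 0x0) (nat_lit 0x94004200000001000a4003e000d000000000000000000) := T_49 (nat_lit 92) (nat_lit 109) (nat_lit 4) (nat_lit 8) (nat_lit 9) L1442 (by decide +kernel)
theorem L1444 : W_49 (nat_lit 10) (nat_lit 0x3c001200080000800000000000000000000000000) (nat_lit 0x0) (nat_lit 0xb4004200000001000e4003e000d000000000000000000) := T_49 (nat_lit 110) (nat_lit 177) (nat_lit 5) (nat_lit 8) (nat_lit 6) L1443 (by decide +kernel)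
theorem L1445 : W_49 (nat_lit 11) (nat_lit 0x38001200080000800000000000000000000000000) (nat_lit 0x0) (nat_lit 0xb4004600010001000e4003e000d000000000000000000) := T_49 (nat_lit 158) (nat_lit 140) (nat_lit 0) (nat_lit 8) (nat_lit 9) L1444 (by decide +kernel)
theorem L1446 : W_49 (nat_lit 2) (nat_lit 0x3c001200080007c00000000000000000000000000) (nat_lit 0x0) (nat_lit 0x70000000000000000000000) := D_49 (nat_lit 89) (nat_lit 90) (nat_lit 88) (nat_lit 0) (nat_lit 8) (nat_lit 6) (nat_lit 0) (nat_lit 7) (nat_lit 6) (by decide +kernel)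
theorem L1447 : W_49 (nat_lit 3) (nat_lit 0x3c001200080007800000000000000000000000000) (nat_lit 0x0) (nat_lit 0x40000400070000000000000000000000) := T_49 (nat_lit 106) (nat_lit 126) (nat_lit 3) (nat_lit 4) (nat_lit 6) L1446 (by decide +kernel)
theorem L1448 : W_49 (nat_lit 4) (nat_lit 0x3c001200080006800000000000000000000000000) (nat_lit 0x0) (nat_lit 0x140001400070000000000000000000000) := T_49 (nat_lit 108) (nat_lit 128) (nat_lit 3) (nat_lit 5) (nat_lit 6) L1447 (by decide +kernel)
theorem L1449 : W_49 (nat_lit 5) (nat_lit 0x3c001200080004800000000000000000000000000) (nat_lit 0x0) (nat_lit 0x140003400170000000000000000000000) := T_49 (nat_lit 109) (nat_lit 92) (nat_lit 4) (nat_lit 8) (nat_lit 9) L1448 (by decide +kernel)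
theorem L1450 : W_49 (nat_lit 6) (nat_lit 0x3c001200080000800000000000000000000000000) (nat_lit 0x0) (nat_lit 0x200000000000140007400170000000000000000000000) := T_49 (nat_lit 110) (nat_lit 177) (nat_lit 5) (nat_lit 8) (nat_lit 6) L1449 (by decide +kernel)
theorem L1451 : W_49 (nat_lit 7) (nat_lit 0x38001200080000800000000000000000000000000) (nat_lit 0x0) (nat_lit 0x200004000100140007400170000000000000000000000) := T_49 (nat_lit 158) (nat_lit 140) (nat_lit 0) (nat_lit 8) (nat_lit 9) L1450 (by decide +kernel)
theorem L1452 : W_49 (nat_lit 2) (nat_lit 0x38001200080007c00000000000000000000000000) (nat_lit 0x0) (nat_lit 0x1c000000000000000000000000000000) := D_49 (nat_lit 123) (nat_lit 122) (nat_lit 124) (nat_lit 1) (nat_lit 7) (nat_lit 6) (nat_lit 1) (nat_lit 8) (nat_lit 6) (by decide +kernel)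
theorem L1453 : W_49 (nat_lit 3) (nat_lit 0x38001200080007800000000000000000000000000) (nat_lit 0x0) (nat_lit 0x5c000400000000000000000000000000) := T_49 (nat_lit 106) (nat_lit 126) (nat_lit 3) (nat_lit 4) (nat_lit 6) L1452 (by decide +kernel)
theorem L1454 : W_49 (nat_lit 4) (nat_lit 0x38001200080006800000000000000000000000000) (nat_lit 0x0) (nat_lit 0x15c001400000000000000000000000000) := T_49 (nat_lit 108) (nat_lit 128) (nat_lit 3) (nat_lit 5) (nat_lit 6) L1453 (by decide +kernel)
theorem L1455 : W_49 (nat_lit 5) (nat_lit 0x38001200080004800000000000000000000000000) (nat_lit 0x0) (nat_lit 0x15c003400100000000000000000000000) := T_49 (nat_lit 109) (nat_lit 92) (nat_lit 4) (nat_lit 8) (nat_lit 9) L1454 (by decide +kernel)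
theorem L1456 : W_49 (nat_lit 6) (nat_lit 0x38001200080000800000000000000000000000000) (nat_lit 0x0) (nat_lit 0x20000000000015c007400100000000000000000000000) := T_49 (nat_lit 110) (nat_lit 177) (nat_lit 5) (nat_lit 8) (nat_lit 6) L1455 (by decide +kernel)
theorem L1457 : W_49 (nat_lit 12) (nat_lit 0x38001200080000000000000000000000000000000) (nat_lit 0x0) (nat_lit 0xb4004600010017c00fc003f000d000000000000000000) := Q_49 (nat_lit 107) (C_49 L1426 (C_49 L1431 (C_49 L1439 (C_49 L1445 (C_49 L1451 (C_49 L1456 N_49)))))) (by decide +kernel)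
theorem L1464 : W_49 (nat_lit 3) (nat_lit 0x38001200080000000000000000000000000000000) (nat_lit 0x0) (nat_lit 0x1800040000400000004000000000000000000000000000) := T_49 (nat_lit 162) (nat_lit 142) (nat_lit 0) (nat_lit 9) (nat_lit 9) L1416 (by decide +kernel)
theorem L1465 : W_49 (nat_lit 13) (nat_lit 0x38001000080000000000000000000000000000000) (nat_lit 0x0) (nat_lit 0x80004001b4004600078017c00fc003f000d000000000000000000) := Q_49 (nat_lit 141) (C_49 L301 (C_49 L1457 (C_49 L1463 (C_49 L1464 N_49)))) (by decide +kernel)
theorem L1477 : W_49 (nat_lit 16) (nat_lit 0x30001000080000000000000000000000000000000) (nat_lit 0x0) (nat_lit 0xf0007c03bf80cf8007e017c00fc003f000d000000000000000000) := Q_49 (nat_lit 159) (C_49 L1208 (C_49 L1380 (C_49 L1386 (C_49 L1404 (C_49 L1409 (C_49 L1412 (C_49 L1415 (C_49 L1465 (C_49 L1476 N_49))))))))) (by decide +kernel)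
theorem L1488 : W_49 (nat_lit 2) (nat_lit 0x800f8005200080000000000000000000000000000000) (nat_lit 0x0) (nat_lit 0x40004000100000000000000000000000000000000000) := D_49 (nat_lit 158) (nat_lit 140) (nat_lit 174) (nat_lit 0) (nat_lit 8) (nat_lit 9) (nat_lit 1) (nat_lit 8) (nat_lit 9) (by decide +kernel)
theorem L1489 : W_49 (nat_lit 3) (nat_lit 0xf8005200080000000000000000000000000000000) (nat_lit 0x0) (nat_lit 0x1c0004000100000000000000000000000000000000000) := T_49 (nat_lit 175) (nat_lit 176) (nat_lit 1) (nat_lit 9) (nat_lit 9) L1488 (by decide +kernel)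
theorem L1490 : W_49 (nat_lit 4) (nat_lit 0xf8005000080000000000000000000000000000000) (nat_lit 0x0) (nat_lit 0x1c0004000700000000000000000000000000000000000) := T_49 (nat_lit 141) (nat_lit 142) (nat_lit 0) (nat_lit 9) (nat_lit 9) L1489 (by decide +kernel)
theorem L1491 : W_49 (nat_lit 5) (nat_lit 0xf8001000080000000000000000000000000000000) (nat_lit 0x0) (nat_lit 0x1c000400c700000000000000000000000000000000000) := T_49 (nat_lit 146) (nat_lit 147) (nat_lit 2) (nat_lit 7) (nat_lit 9) L1490 (by decide +kernel)
theorem L1492 : W_49 (nat_lit 2) (nat_lit 0x800fc005100080000000000000000000000000000000) (nat_lit 0x0) (nat_lit 0x2000880000000000000000000000000000000000) := D_49 (nat_lit 157) (nat_lit 143) (nat_lit 139) (nat_lit 2) (nat_lit 4) (nat_lit 9) (nat_lit 0) (nat_lit 7) (nat_lit 9) (by decide +kernel)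
theorem L1493 : W_49 (nat_lit 3) (nat_lit 0x800fc005000080000000000000000000000000000000) (nat_lit 0x0) (nat_lit 0x2000b80000000000000000000000000000000000) := T_49 (nat_lit 140) (nat_lit 141) (nat_lit 0) (nat_lit 8) (nat_lit 9) L1492 (by decide +kernel)
theorem L1494 : W_49 (nat_lit 4) (nat_lit 0x800f8005000080000000000000000000000000000000) (nat_lit 0x0) (nat_lit 0x40006000b80000000000000000000000000000000000) := T_49 (nat_lit 158) (nat_lit 174) (nat_lit 1) (nat_lit 8) (nat_lit 9) L1493 (by decide +kernel)
theorem L1495 : W_49 (nat_lit 5) (nat_lit 0x800f8001000080000000000000000000000000000000) (nat_lit 0x0) (nat_lit 0x4000600cb80000000000000000000000000000000000) := T_49 (nat_lit 146) (nat_lit 147) (nat_lit 2) (nat_lit 7) (nat_lit 9) L1494 (by decide +kernel)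
theorem L1496 : W_49 (nat_lit 6) (nat_lit 0xf8001000080000000000000000000000000000000) (nat_lit 0x0) (nat_lit 0x1c000600cb80000000000000000000000000000000000) := T_49 (nat_lit 175) (nat_lit 176) (nat_lit 1) (nat_lit 9) (nat_lit 9) L1495 (by decide +kernel)
theorem L1497 : W_49 (nat_lit 2) (nat_lit 0x1000f8005800080004000000000000000000000000000) (nat_lit 0x0) (nat_lit 0x40002000100000000000000000000000) := D_49 (nat_lit 109) (nat_lit 126) (nat_lit 92) (nat_lit 5) (nat_lit 7) (nat_lit 6) (nat_lit 4) (nat_lit 8) (nat_lit 9) (by decide +kernel)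
theorem L1498 : W_49 (nat_lit 3) (nat_lit 0x1000f8005800080000000000000000000000000000000) (nat_lit 0x0) (nat_lit 0x40006000300000000000000000000000) := T_49 (nat_lit 110) (nat_lit 93) (nat_lit 5) (nat_lit 8) (nat_lit 5) L1497 (by decide +kernel)
theorem L1499 : W_49 (nat_lit 4) (nat_lit 0xf8005800080000000000000000000000000000000) (nat_lit 0x0) (nat_lit 0x180000000000040006000300000000000000000000000) := T_49 (nat_lit 176) (nat_lit 175) (nat_lit 1) (nat_lit 9) (nat_lit 9) L1498 (by decide +kernel)
theorem L1500 : W_49 (nat_lit 5) (nat_lit 0xf8005000080000000000000000000000000000000) (nat_lit 0x0) (nat_lit 0x180000000c00040006000300000000000000000000000) := T_49 (nat_lit 143) (nat_lit 142) (nat_lit 0) (nat_lit 10) (nat_lit 9) L1499 (by decide +kernel)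
theorem L1501 : W_49 (nat_lit 6) (nat_lit 0xf8001000080000000000000000000000000000000) (nat_lit 0x0) (nat_lit 0x18000000cc00040006000300000000000000000000000) := T_49 (nat_lit 146) (nat_lit 147) (nat_lit 2) (nat_lit 7) (nat_lit 9) L1500 (by decide +kernel)
theorem L1502 : W_49 (nat_lit 7) (nat_lit 0xf0001000080000000000000000000000000000000) (nat_lit 0x0) (nat_lit 0x1c000e00cf80040006000300000000000000000000000) := Q_49 (nat_lit 159) (C_49 L1487 (C_49 L1491 (C_49 L1496 (C_49 L1501 N_49)))) (by decide +kernel)
theorem L1503 : W_49 (nat_lit 8) (nat_lit 0x70001000080000000000000000000000000000000) (nat_lit 0x0) (nat_lit 0x71c018e01cf80040006000300000000000000000000000) := Q_49 (nat_lit 163) (C_49 L384 (C_49 L1483 (C_49 L1486 (C_49 L1502 N_49)))) (by decide +kernel)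
theorem L1507 : W_49 (nat_lit 2) (nat_lit 0x10000fc005800080000000000000000000000000000000) (nat_lit 0x0) (nat_lit 0x1c0000000000000000000000000000000000000000000) := D_49 (nat_lit 175) (nat_lit 176) (nat_lit 174) (nat_lit 1) (nat_lit 9) (nat_lit 9) (nat_lit 1) (nat_lit 8) (nat_lit 9) (by decide +kernel)
theorem L1508 : W_49 (nat_lit 3) (nat_lit 0x10000f8005800080000000000000000000000000000000) (nat_lit 0x0) (nat_lit 0x1c0006000000000000000000000000000000000000000) := T_49 (nat_lit 158) (nat_lit 157) (nat_lit 2) (nat_lit 4) (nat_lit 9) L1507 (by decide +kernel)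
theorem L1509 : W_49 (nat_lit 4) (nat_lit 0x10000f0005800080000000000000000000000000000000) (nat_lit 0x0) (nat_lit 0x9c000e000000000000000000000000000000000000000) := T_49 (nat_lit 159) (nat_lit 179) (nat_lit 3) (nat_lit 6) (nat_lit 9) L1508 (by decide +kernel)
theorem L1510 : W_49 (nat_lit 5) (nat_lit 0xf0005800080000000000000000000000000000000) (nat_lit 0x0) (nat_lit 0x39c000e000000000000000000000000000000000000000) := T_49 (nat_lit 180) (nat_lit 181) (nat_lit 3) (nat_lit 7) (nat_lit 9) L1509 (by decide +kernel)
theorem L1511 : W_49 (nat_lit 6) (nat_lit 0xf0001800080000000000000000000000000000000) (nat_lit 0x0) (nat_lit 0x39c000e00c000000000000000000000000000000000000) := T_49 (nat_lit 146) (nat_lit 147) (nat_lit 2) (nat_lit 7) (nat_lit 9) L1510 (by decide +kernel)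
theorem L1512 : W_49 (nat_lit 7) (nat_lit 0xf0001000080000000000000000000000000000000) (nat_lit 0x0) (nat_lit 0x39c000e00cc00000000000000000000000000000000000) := T_49 (nat_lit 143) (nat_lit 142) (nat_lit 0) (nat_lit 10) (nat_lit 9) L1511 (by decide +kernel)
theorem L1513 : W_49 (nat_lit 8) (nat_lit 0x70001000080000000000000000000000000000000) (nat_lit 0x0) (nat_lit 0x79c018e01cc00000000000000000000000000000000000) := Q_49 (nat_lit 163) (C_49 L1486 (C_49 L384 (C_49 L1512 N_49))) (by decide +kernel)
theorem L1514 : W_49 (nat_lit 9) (nat_lit 0x30001000080000000000000000000000000000000) (nat_lit 0x0) (nat_lit 0x2000100079c01ce01cf80040006000300008000000000000000000) := Q_49 (nat_lit 162) (C_49 L1480 (C_49 L373 (C_49 L1503 (C_49 L1506 (C_49 L1513 N_49))))) (by decide +kernel)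
theorem L1515 : W_49 (nat_lit 17) (nat_lit 0x20001000080000000000000000000000000000000) (nat_lit 0x0) (nat_lit 0x200010007f001fc07bf81df81cfe037c00fc003f000d000000000000000000) := Q_49 (nat_lit 160) (C_49 L1369 (C_49 L1477 (C_49 L1478 (C_49 L1479 (C_49 L1514 N_49))))) (by decide +kernel)
theorem L1516 : W_49 (nat_lit 13) (nat_lit 0x20001000080000000000000000000000000000000) (nat_lit 0x0) (nat_lit 0x12000d001fc007c007d801ce0074003e000100000000000000000000000) := Q_49 (nat_lit 178) (C_49 L609 (C_49 L1017 (C_49 L1066 N_49))) (by decide +kernel)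
theorem L1517 : W_49 (nat_lit 2) (nat_lit 0x200010000c0004000000000000000000000000000) (nat_lit 0x0) (nat_lit 0x400000000000000002000100000000000000000000000) := D_49 (nat_lit 109) (nat_lit 92) (nat_lit 178) (nat_lit 4) (nat_lit 8) (nat_lit 9) (nat_lit 4) (nat_lit 8) (nat_lit 10) (by decide +kernel)
theorem L1518 : W_49 (nat_lit 2) (nat_lit 0x6801600018001c0004000000000000000000000000000) (nat_lit 0x0) (nat_lit 0x600200000000000000000000000000000000) := D_49 (nat_lit 142) (nat_lit 141) (nat_lit 129) (nat_lit 3) (nat_lit 5) (nat_lit 8) (nat_lit 1) (nat_lit 10) (nat_lit 7) (by decide +kernel)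
theorem L1519 : W_49 (nat_lit 3) (nat_lit 0x6801600010001c0004000000000000000000000000000) (nat_lit 0x0) (nat_lit 0x8000000000000e00200000000000000000000000000000000) := T_49 (nat_lit 143) (nat_lit 195) (nat_lit 4) (nat_lit 8) (nat_lit 11) L1518 (by decide +kernel)
theorem L1520 : W_49 (nat_lit 4) (nat_lit 0x6800600010001c0004000000000000000000000000000) (nat_lit 0x0) (nat_lit 0x8000000180000e00200000000000000000000000000000000) := T_49 (nat_lit 164) (nat_lit 163) (nat_lit 1) (nat_lit 11) (nat_lit 9) L1519 (by decide +kernel)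
theorem L1521 : W_49 (nat_lit 5) (nat_lit 0x6000600010001c0004000000000000000000000000000) (nat_lit 0x0) (nat_lit 0x8000180180000e00200000000000000000000000000000000) := T_49 (nat_lit 175) (nat_lit 176) (nat_lit 2) (nat_lit 5) (nat_lit 10) L1520 (by decide +kernel)
theorem L1522 : W_49 (nat_lit 6) (nat_lit 0x4000600010001c0004000000000000000000000000000) (nat_lit 0x0) (nat_lit 0xc000380180000e00200000000000000000000000000000000) := T_49 (nat_lit 177) (nat_lit 194) (nat_lit 5) (nat_lit 8) (nat_lit 7) L1521 (by decide +kernel)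
theorem L1523 : W_49 (nat_lit 7) (nat_lit 0x4000600010000c0004000000000000000000000000000) (nat_lit 0x0) (nat_lit 0xc000380180000e00300008000000000000000000000000000) := T_49 (nat_lit 128) (nat_lit 111) (nat_lit 6) (nat_lit 8) (nat_lit 10) L1522 (by decide +kernel)
theorem L1524 : W_49 (nat_lit 8) (nat_lit 0x4000200010000c0004000000000000000000000000000) (nat_lit 0x0) (nat_lit 0xc000b801c0000e00300008000000000000000000000000000) := T_49 (nat_lit 162) (nat_lit 179) (nat_lit 7) (nat_lit 8) (nat_lit 6) L1523 (by decide +kernel)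
theorem L1525 : W_49 (nat_lit 9) (nat_lit 0x200010000c0004000000000000000000000000000) (nat_lit 0x0) (nat_lit 0xc000f801c0000e0030000a000000000000000000000000000) := T_49 (nat_lit 178) (nat_lit 109) (nat_lit 4) (nat_lit 8) (nat_lit 10) L1524 (by decide +kernel)
theorem L1526 : W_49 (nat_lit 2) (nat_lit 0x40004000600010001c0004000000000000000000000000000) (nat_lit 0x0) (nat_lit 0x80008000000000000800000000000000000000000000000000000) := D_49 (nat_lit 195) (nat_lit 143) (nat_lit 211) (nat_lit 4) (nat_lit 8) (nat_lit 11) (nat_lit 5) (nat_lit 8) (nat_lit 8) (by decide +kernel)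
theorem L1527 : W_49 (nat_lit 3) (nat_lit 0x4000600010001c0004000000000000000000000000000) (nat_lit 0x0) (nat_lit 0x8000c000200000000800000000000000000000000000000000000) := T_49 (nat_lit 194) (nat_lit 177) (nat_lit 5) (nat_lit 8) (nat_lit 7) L1526 (by decide +kernel)
theorem L1528 : W_49 (nat_lit 4) (nat_lit 0x600010001c0004000000000000000000000000000) (nat_lit 0x0) (nat_lit 0x8000c000600000000800000008000000000000000000000000000) := T_49 (nat_lit 178) (nat_lit 111) (nat_lit 6) (nat_lit 8) (nat_lit 10) L1527 (by decide +kernel)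
theorem L1529 : W_49 (nat_lit 5) (nat_lit 0x200010001c0004000000000000000000000000000) (nat_lit 0x0) (nat_lit 0x8000c000e00040000800000008000000000000000000000000000) := T_49 (nat_lit 162) (nat_lit 179) (nat_lit 7) (nat_lit 8) (nat_lit 6) L1528 (by decide +kernel)
theorem L1530 : W_49 (nat_lit 2) (nat_lit 0x200010001c000c000000000000000000000000000) (nat_lit 0x0) (nat_lit 0x30010000000000000000000000000000) := D_49 (nat_lit 125) (nat_lit 112) (nat_lit 124) (nat_lit 2) (nat_lit 6) (nat_lit 7) (nat_lit 2) (nat_lit 5) (nat_lit 7) (by decide +kernel)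
theorem L1531 : W_49 (nat_lit 3) (nat_lit 0x200010001c0004000000000000000000000000000) (nat_lit 0x0) (nat_lit 0x400000000000030018000000000000000000000000000) := T_49 (nat_lit 111) (nat_lit 178) (nat_lit 6) (nat_lit 8) (nat_lit 10) L1530 (by decide +kernel)
theorem L1532 : W_49 (nat_lit 2) (nat_lit 0x200010001e0004000000000000000000000000000) (nat_lit 0x0) (nat_lit 0x10018000000000000000000000000000) := D_49 (nat_lit 111) (nat_lit 112) (nat_lit 124) (nat_lit 2) (nat_lit 6) (nat_lit 7) (nat_lit 2) (nat_lit 5) (nat_lit 7) (by decide +kernel)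
theorem L1533 : W_49 (nat_lit 2) (nat_lit 0x600094003e0025000000000000000000000000000) (nat_lit 0x0) (nat_lit 0x10000400040000000000000000000000000000) := D_49 (nat_lit 130) (nat_lit 148) (nat_lit 114) (nat_lit 3) (nat_lit 8) (nat_lit 7) (nat_lit 2) (nat_lit 8) (nat_lit 7) (by decide +kernel)
theorem L1534 : W_49 (nat_lit 3) (nat_lit 0x600094003e0005000000000000000000000000000) (nat_lit 0x0) (nat_lit 0x10000400070000000000000000000000000000) := T_49 (nat_lit 113) (nat_lit 112) (nat_lit 2) (nat_lit 7) (nat_lit 7) L1533 (by decide +kernel)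
theorem L1535 : W_49 (nat_lit 4) (nat_lit 0x600014003e0005000000000000000000000000000) (nat_lit 0x0) (nat_lit 0x1c000400070000000000000000000000000000) := T_49 (nat_lit 147) (nat_lit 146) (nat_lit 3) (nat_lit 7) (nat_lit 7) L1534 (by decide +kernel)
theorem L1536 : W_49 (nat_lit 5) (nat_lit 0x600014001e0005000000000000000000000000000) (nat_lit 0x0) (nat_lit 0x1c800600070000000000000000000000000000) := T_49 (nat_lit 129) (nat_lit 143) (nat_lit 1) (nat_lit 10) (nat_lit 7) L1535 (by decide +kernel)
theorem L1537 : W_49 (nat_lit 6) (nat_lit 0x600014001e0004000000000000000000000000000) (nat_lit 0x0) (nat_lit 0x1c800600071800000000000000000000000000) := T_49 (nat_lit 108) (nat_lit 107) (nat_lit 0) (nat_lit 9) (nat_lit 7) L1536 (by decide +kernel)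
theorem L1538 : W_49 (nat_lit 7) (nat_lit 0x600010001e0004000000000000000000000000000) (nat_lit 0x0) (nat_lit 0x1ce00600071800000000000000000000000000) := T_49 (nat_lit 142) (nat_lit 141) (nat_lit 1) (nat_lit 9) (nat_lit 7) L1537 (by decide +kernel)
theorem L1539 : W_49 (nat_lit 8) (nat_lit 0x200010001e0004000000000000000000000000000) (nat_lit 0x0) (nat_lit 0x80004001ce00600071800000000000000000000000000) := T_49 (nat_lit 162) (nat_lit 179) (nat_lit 7) (nat_lit 8) (nat_lit 6) L1538 (by decide +kernel)
theorem L1540 : W_49 (nat_lit 2) (nat_lit 0x200014001f0004000000000000000000000000000) (nat_lit 0x0) (nat_lit 0x1c00000000000000000000000000) := D_49 (nat_lit 107) (nat_lit 106) (nat_lit 108) (nat_lit 0) (nat_lit 8) (nat_lit 7) (nat_lit 0) (nat_lit 9) (nat_lit 7) (by decide +kernel)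
theorem L1541 : W_49 (nat_lit 3) (nat_lit 0x200014001e0004000000000000000000000000000) (nat_lit 0x0) (nat_lit 0x10009c00000000000000000000000000) := T_49 (nat_lit 124) (nat_lit 111) (nat_lit 2) (nat_lit 5) (nat_lit 7) L1540 (by decide +kernel)
theorem L1542 : W_49 (nat_lit 4) (nat_lit 0x200010001e0004000000000000000000000000000) (nat_lit 0x0) (nat_lit 0x600010009c00000000000000000000000000) := T_49 (nat_lit 142) (nat_lit 141) (nat_lit 1) (nat_lit 9) (nat_lit 7) L1541 (by decide +kernel)
theorem L1543 : W_49 (nat_lit 9) (nat_lit 0x200010001c0004000000000000000000000000000) (nat_lit 0x0) (nat_lit 0x80004001ce00630079c00000000000000000000000000) := Q_49 (nat_lit 125) (C_49 L1532 (C_49 L1539 (C_49 L1542 N_49))) (by decide +kernel)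
theorem L1544 : W_49 (nat_lit 2) (nat_lit 0x200010003c0004000000000000000000000000000) (nat_lit 0x0) (nat_lit 0xc00400000000000000000000000000000000) := D_49 (nat_lit 143) (nat_lit 142) (nat_lit 130) (nat_lit 1) (nat_lit 10) (nat_lit 7) (nat_lit 1) (nat_lit 11) (nat_lit 7) (by decide +kernel)
theorem L1545 : W_49 (nat_lit 2) (nat_lit 0x600090003c0024000000000000000000000000000) (nat_lit 0x0) (nat_lit 0x10000400040000000000000000000000000000) := D_49 (nat_lit 130) (nat_lit 114) (nat_lit 148) (nat_lit 2) (nat_lit 8) (nat_lit 7) (nat_lit 3) (nat_lit 8) (nat_lit 7) (by decide +kernel)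
theorem L1546 : W_49 (nat_lit 3) (nat_lit 0x600010003c0024000000000000000000000000000) (nat_lit 0x0) (nat_lit 0x1c000400040000000000000000000000000000) := T_49 (nat_lit 147) (nat_lit 146) (nat_lit 3) (nat_lit 7) (nat_lit 7) L1545 (by decide +kernel)
theorem L1547 : W_49 (nat_lit 4) (nat_lit 0x600010003c0004000000000000000000000000000) (nat_lit 0x0) (nat_lit 0x1c000400070000000000000000000000000000) := T_49 (nat_lit 113) (nat_lit 112) (nat_lit 2) (nat_lit 7) (nat_lit 7) L1546 (by decide +kernel)
theorem L1548 : W_49 (nat_lit 5) (nat_lit 0x200010003c0004000000000000000000000000000) (nat_lit 0x0) (nat_lit 0x80004001c000400070000000000000000000000000000) := T_49 (nat_lit 162) (nat_lit 179) (nat_lit 7) (nat_lit 8) (nat_lit 6) L1547 (by decide +kernel)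
theorem L1550 : W_49 (nat_lit 2) (nat_lit 0x200012003e0014800000000000000000000000000) (nat_lit 0x0) (nat_lit 0x100010000400000000000000000000000000) := D_49 (nat_lit 124) (nat_lit 106) (nat_lit 140) (nat_lit 0) (nat_lit 8) (nat_lit 7) (nat_lit 1) (nat_lit 8) (nat_lit 7) (by decide +kernel)
theorem L1551 : W_49 (nat_lit 3) (nat_lit 0x200010003e0014800000000000000000000000000) (nat_lit 0x0) (nat_lit 0x700010000400000000000000000000000000) := T_49 (nat_lit 141) (nat_lit 142) (nat_lit 1) (nat_lit 9) (nat_lit 7) L1550 (by decide +kernel)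
theorem L1552 : W_49 (nat_lit 4) (nat_lit 0x200010003e0014000000000000000000000000000) (nat_lit 0x0) (nat_lit 0x700010001c00000000000000000000000000) := T_49 (nat_lit 107) (nat_lit 108) (nat_lit 0) (nat_lit 9) (nat_lit 7) L1551 (by decide +kernel)
theorem L1553 : W_49 (nat_lit 5) (nat_lit 0x200010003e0004000000000000000000000000000) (nat_lit 0x0) (nat_lit 0x700010031c00000000000000000000000000) := T_49 (nat_lit 112) (nat_lit 113) (nat_lit 2) (nat_lit 7) (nat_lit 7) L1552 (by decide +kernel)
theorem L1554 : W_49 (nat_lit 2) (nat_lit 0x600050003f8014800000000000000000000000000) (nat_lit 0x0) (nat_lit 0x380000000000000000000000000000000000) := D_49 (nat_lit 140) (nat_lit 139) (nat_lit 141) (nat_lit 1) (nat_lit 7) (nat_lit 7) (nat_lit 1) (nat_lit 8) (nat_lit 7) (by decide +kernel)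
theorem L1555 : W_49 (nat_lit 3) (nat_lit 0x600050003f0014800000000000000000000000000) (nat_lit 0x0) (nat_lit 0xb80008000000000000000000000000000000) := T_49 (nat_lit 123) (nat_lit 143) (nat_lit 3) (nat_lit 4) (nat_lit 7) L1554 (by decide +kernel)
theorem L1556 : W_49 (nat_lit 4) (nat_lit 0x600010003f0014800000000000000000000000000) (nat_lit 0x0) (nat_lit 0xcb80008000000000000000000000000000000) := T_49 (nat_lit 146) (nat_lit 147) (nat_lit 3) (nat_lit 7) (nat_lit 7) L1555 (by decide +kernel)
theorem L1557 : W_49 (nat_lit 5) (nat_lit 0x600010003e0014800000000000000000000000000) (nat_lit 0x0) (nat_lit 0xcb80018000400000000000000000000000000) := T_49 (nat_lit 124) (nat_lit 106) (nat_lit 0) (nat_lit 8) (nat_lit 7) L1556 (by decide +kernel)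
theorem L1558 : W_49 (nat_lit 6) (nat_lit 0x200010003e0014800000000000000000000000000) (nat_lit 0x0) (nat_lit 0x80004000cb80018000400000000000000000000000000) := T_49 (nat_lit 162) (nat_lit 179) (nat_lit 7) (nat_lit 8) (nat_lit 6) L1557 (by decide +kernel)
theorem L1559 : W_49 (nat_lit 7) (nat_lit 0x200010003e0014000000000000000000000000000) (nat_lit 0x0) (nat_lit 0x80004000cb80018001c00000000000000000000000000) := T_49 (nat_lit 107) (nat_lit 108) (nat_lit 0) (nat_lit 9) (nat_lit 7) L1558 (by decide +kernel)
theorem L1560 : W_49 (nat_lit 8) (nat_lit 0x200010003e0004000000000000000000000000000) (nat_lit 0x0) (nat_lit 0x80004000cb80018031c00000000000000000000000000) := T_49 (nat_lit 112) (nat_lit 113) (nat_lit 2) (nat_lit 7) (nat_lit 7) L1559 (by decide +kernel)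
theorem L1561 : W_49 (nat_lit 2) (nat_lit 0x80000001600018003f0004000000010000000000000000000) (nat_lit 0x0) (nat_lit 0x1c00000000000000000000000000) := D_49 (nat_lit 107) (nat_lit 108) (nat_lit 106) (nat_lit 0) (nat_lit 9) (nat_lit 7) (nat_lit 0) (nat_lit 8) (nat_lit 7) (by decide +kernel)
theorem L1562 : W_49 (nat_lit 3) (nat_lit 0x80000001600018003e0004000000010000000000000000000) (nat_lit 0x0) (nat_lit 0x18001c00000000000000000000000000) := T_49 (nat_lit 124) (nat_lit 123) (nat_lit 3) (nat_lit 4) (nat_lit 7) L1561 (by decide +kernel)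
theorem L1563 : W_49 (nat_lit 4) (nat_lit 0x1600018003e0004000000010000000000000000000) (nat_lit 0x0) (nat_lit 0x8000400000000000018001c00000000000000000000000000) := T_49 (nat_lit 195) (nat_lit 178) (nat_lit 4) (nat_lit 8) (nat_lit 11) L1562 (by decide +kernel)
theorem L1564 : W_49 (nat_lit 5) (nat_lit 0x1600018003e0004000000000000000000000000000) (nat_lit 0x0) (nat_lit 0x8000400000000000018001c00200010000000000000000000) := T_49 (nat_lit 76) (nat_lit 93) (nat_lit 5) (nat_lit 8) (nat_lit 4) L1563 (by decide +kernel)
theorem L1565 : W_49 (nat_lit 6) (nat_lit 0x600018003e0004000000000000000000000000000) (nat_lit 0x0) (nat_lit 0x8000400180000000018001c00200010000000000000000000) := T_49 (nat_lit 164) (nat_lit 163) (nat_lit 0) (nat_lit 11) (nat_lit 9) L1564 (by decide +kernel)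
theorem L1566 : W_49 (nat_lit 7) (nat_lit 0x600010003e0004000000000000000000000000000) (nat_lit 0x0) (nat_lit 0x8000400180000c00018001c00200010000000000000000000) := T_49 (nat_lit 143) (nat_lit 142) (nat_lit 1) (nat_lit 10) (nat_lit 7) L1565 (by decide +kernel)
theorem L1567 : W_49 (nat_lit 8) (nat_lit 0x200010003e0004000000000000000000000000000) (nat_lit 0x0) (nat_lit 0x8000c001c0000c00018001c00200010000000000000000000) := T_49 (nat_lit 162) (nat_lit 179) (nat_lit 7) (nat_lit 8) (nat_lit 6) L1566 (by decide +kernel)
theorem L1568 : W_49 (nat_lit 9) (nat_lit 0x200010003c0004000000000000000000000000000) (nat_lit 0x0) (nat_lit 0x8000c001c000cf80038031c00200010000000000000000000) := Q_49 (nat_lit 125) (C_49 L1549 (C_49 L1553 (C_49 L1560 (C_49 L1567 N_49)))) (by decide +kernel)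
theorem L1569 : W_49 (nat_lit 10) (nat_lit 0x200010001c0004000000000000000000000000000) (nat_lit 0x0) (nat_lit 0x8000c001c001cf80638071c00200010000000000000000000) := Q_49 (nat_lit 129) (C_49 L1544 (C_49 L1548 (C_49 L1568 N_49))) (by decide +kernel)
theorem L1570 : W_49 (nat_lit 11) (nat_lit 0x200010000c0004000000000000000000000000000) (nat_lit 0x0) (nat_lit 0x8000c000e001c001cf80738079c00200010000000000000000000) := Q_49 (nat_lit 128) (C_49 L1529 (C_49 L1531 (C_49 L1543 (C_49 L1569 N_49)))) (by decide +kernel)
theorem L1571 : W_49 (nat_lit 2) (nat_lit 0x200010000c0004000200000000000000000000000) (nat_lit 0x0) (nat_lit 0x2000100008000000000000000000) := D_49 (nat_lit 92) (nat_lit 109) (nat_lit 75) (nat_lit 4) (nat_lit 8) (nat_lit 9) (nat_lit 4) (nat_lit 8) (nat_lit 8) (by decide +kernel)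
theorem L1572 : W_49 (nat_lit 2) (nat_lit 0x600010000c0004000200010000800000000000000) (nat_lit 0x0) (nat_lit 0x8000400020000000000) := D_49 (nat_lit 58) (nat_lit 41) (nat_lit 75) (nat_lit 4) (nat_lit 8) (nat_lit 6) (nat_lit 4) (nat_lit 8) (nat_lit 7) (by decide +kernel)
theorem L1573 : W_49 (nat_lit 3) (nat_lit 0x600010000c0004000200010000000000000000000) (nat_lit 0x0) (nat_lit 0x2000000008000c00020000000000) := T_49 (nat_lit 59) (nat_lit 109) (nat_lit 5) (nat_lit 8) (nat_lit 3) L1572 (by decide +kernel)
theorem L1574 : W_49 (nat_lit 4) (nat_lit 0x600010000c0004000200000000000000000000000) (nat_lit 0x0) (nat_lit 0x800000002000000018000c00020000000000) := T_49 (nat_lit 76) (nat_lit 143) (nat_lit 5) (nat_lit 8) (nat_lit 4) L1573 (by decide +kernel)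
theorem L1575 : W_49 (nat_lit 5) (nat_lit 0x200010000c0004000200000000000000000000000) (nat_lit 0x0) (nat_lit 0x800040000800000002000000018000c00020000000000) := T_49 (nat_lit 162) (nat_lit 179) (nat_lit 7) (nat_lit 8) (nat_lit 6) L1574 (by decide +kernel)
theorem L1576 : W_49 (nat_lit 2) (nat_lit 0x200010000c0004000200010000000000000000000) (nat_lit 0x0) (nat_lit 0x2000100000000800000000000000) := D_49 (nat_lit 109) (nat_lit 59) (nat_lit 92) (nat_lit 5) (nat_lit 8) (nat_lit 3) (nat_lit 4) (nat_lit 8) (nat_lit 9) (by decide +kernel)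
theorem L1577 : W_49 (nat_lit 3) (nat_lit 0x200010000c0004000200000000000000000000000) (nat_lit 0x0) (nat_lit 0x800000002000100010000800000000000000) := T_49 (nat_lit 76) (nat_lit 143) (nat_lit 5) (nat_lit 8) (nat_lit 4) L1576 (by decide +kernel)
theorem L1578 : W_49 (nat_lit 2) (nat_lit 0x200010000c0004000200010000000000000000000) (nat_lit 0x0) (nat_lit 0x100008000400000000000000) := D_49 (nat_lit 75) (nat_lit 58) (nat_lit 92) (nat_lit 4) (nat_lit 8) (nat_lit 7) (nat_lit 4) (nat_lit 8) (nat_lit 8) (by decide +kernel)
theorem L1579 : W_49 (nat_lit 3) (nat_lit 0x200010000c0004000200000000000000000000000) (nat_lit 0x0) (nat_lit 0x800000000000100018000400000000000000) := T_49 (nat_lit 76) (nat_lit 143) (nat_lit 5) (nat_lit 8) (nat_lit 4) L1578 (by decide +kernel)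
theorem L1580 : W_49 (nat_lit 6) (nat_lit 0x200010000c0004000000000000000000000000000) (nat_lit 0x0) (nat_lit 0x800040000800000002000300018000c00020000000000) := Q_49 (nat_lit 93) (C_49 L1571 (C_49 L1575 (C_49 L1577 (C_49 L1579 N_49)))) (by decide +kernel)
theorem L1581 : W_49 (nat_lit 12) (nat_lit 0x20001000080004000000000000000000000000000) (nat_lit 0x0) (nat_lit 0x8000c000f801c001cf8077807bc00300018000c00020000000000) := Q_49 (nat_lit 126) (C_49 L1517 (C_49 L1525 (C_49 L1570 (C_49 L1580 N_49)))) (by decide +kernel)
theorem L1585 : W_49 (nat_lit 2) (nat_lit 0x400060001c000c0004000300000000000000000000000) (nat_lit 0x0) (nat_lit 0x300008000000000000000000000000000) := D_49 (nat_lit 128) (nat_lit 129) (nat_lit 111) (nat_lit 1) (nat_lit 10) (nat_lit 7) (nat_lit 6) (nat_lit 8) (nat_lit 10) (by decide +kernel)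
theorem L1586 : W_49 (nat_lit 3) (nat_lit 0x60001c000c0004000300000000000000000000000) (nat_lit 0x0) (nat_lit 0x8000400000000000300008000000000000000000000000000) := T_49 (nat_lit 178) (nat_lit 195) (nat_lit 4) (nat_lit 8) (nat_lit 11) L1585 (by decide +kernel)
theorem L1587 : W_49 (nat_lit 4) (nat_lit 0x600018000c0004000300000000000000000000000) (nat_lit 0x0) (nat_lit 0x8000400000000600300008000000000000000000000000000) := T_49 (nat_lit 142) (nat_lit 141) (nat_lit 3) (nat_lit 5) (nat_lit 8) L1586 (by decide +kernel)
theorem L1588 : W_49 (nat_lit 5) (nat_lit 0x60001800080004000300000000000000000000000) (nat_lit 0x0) (nat_lit 0x8000400000000600340008000000010000000000000000000) := T_49 (nat_lit 126) (nat_lit 76) (nat_lit 5) (nat_lit 8) (nat_lit 4) L1587 (by decide +kernel)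
theorem L1589 : W_49 (nat_lit 6) (nat_lit 0x60001000080004000300000000000000000000000) (nat_lit 0x0) (nat_lit 0x8000400010000e00340008000000010000000000000000000) := T_49 (nat_lit 143) (nat_lit 160) (nat_lit 5) (nat_lit 8) (nat_lit 5) L1588 (by decide +kernel)
theorem L1590 : W_49 (nat_lit 7) (nat_lit 0x60001000080004000100000000000000000000000) (nat_lit 0x0) (nat_lit 0x8000400010000e00340008000200018000000000000000000) := T_49 (nat_lit 93) (nat_lit 75) (nat_lit 4) (nat_lit 8) (nat_lit 8) L1589 (by decide +kernel)
theorem L1591 : W_49 (nat_lit 8) (nat_lit 0x20001000080004000100000000000000000000000) (nat_lit 0x0) (nat_lit 0x8000c00050000e00340008000200018000000000000000000) := T_49 (nat_lit 162) (nat_lit 179) (nat_lit 7) (nat_lit 8) (nat_lit 6) L1590 (by decide +kernel)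
theorem L1592 : W_49 (nat_lit 9) (nat_lit 0x20001000080004000000000000000000000000000) (nat_lit 0x0) (nat_lit 0x8000c00050000e0034000a000300018000000000000000000) := T_49 (nat_lit 92) (nat_lit 109) (nat_lit 4) (nat_lit 8) (nat_lit 9) L1591 (by decide +kernel)
theorem L1593 : W_49 (nat_lit 13) (nat_lit 0x20001000080000000000000000000000000000000) (nat_lit 0x0) (nat_lit 0x8000c000f801d001cf8077807fc00300018000c00020000000000) := Q_49 (nat_lit 110) (C_49 L1581 (C_49 L1584 (C_49 L1032 (C_49 L1029 (C_49 L1592 N_49))))) (by decide +kernel)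
theorem L1594 : W_49 (nat_lit 18) (nat_lit 0x1000080000000000000000000000000000000) (nat_lit 0x0) (nat_lit 0x20017000ff01ffc07ff87ff81cfe077c07fc003f001d000c00020000000000) := Q_49 (nat_lit 161) (C_49 L1007 (C_49 L1018 (C_49 L1033 (C_49 L1178 (C_49 L1179 (C_49 L1180 (C_49 L1181 (C_49 L1197 (C_49 L1515 (C_49 L1516 (C_49 L1593 N_49))))))))))) (by decide +kernel)
theorem L1740 : W_49 (nat_lit 5) (nat_lit 0x400020001000080000000000000000000000000000000) (nat_lit 0x0) (nat_lit 0x14000b800c0000000000004000000000000000000000000000) := T_49 (nat_lit 177) (nat_lit 194) (nat_lit 5) (nat_lit 8) (nat_lit 7) L1739 (by decide +kernel)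
theorem L1748 : W_49 (nat_lit 9) (nat_lit 0xc00020001000080000000000000000000000000000000) (nat_lit 0x0) (nat_lit 0x8000600038000f003200050000800040000000000000000000000000000000) := T_49 (nat_lit 194) (nat_lit 177) (nat_lit 5) (nat_lit 8) (nat_lit 7) L1747 (by decide +kernel)
theorem L1749 : W_49 (nat_lit 10) (nat_lit 0x400020001000080000000000000000000000000000000) (nat_lit 0x0) (nat_lit 0x8000600038001f003a00050000800040000000000000000000000000000000) := T_49 (nat_lit 179) (nat_lit 196) (nat_lit 7) (nat_lit 8) (nat_lit 7) L1748 (by decide +kernel)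
theorem L1750 : W_49 (nat_lit 2) (nat_lit 0xe00030001000080000000000000000000000000000000) (nat_lit 0x0) (nat_lit 0x100000c000000000000000000000000000000000000000) := D_49 (nat_lit 159) (nat_lit 158) (nat_lit 180) (nat_lit 3) (nat_lit 5) (nat_lit 9) (nat_lit 0) (nat_lit 10) (nat_lit 10) (by decide +kernel)
theorem L1751 : W_49 (nat_lit 3) (nat_lit 0x600030001000080000000000000000000000000000000) (nat_lit 0x0) (nat_lit 0x1000180000c000000000000000000000000000000000000000) := T_49 (nat_lit 179) (nat_lit 196) (nat_lit 7) (nat_lit 8) (nat_lit 7) L1750 (by decide +kernel)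
theorem L1752 : W_49 (nat_lit 4) (nat_lit 0x600020001000080000000000000000000000000000000) (nat_lit 0x0) (nat_lit 0x1000180001c000000000004000000000000000000000000000) := T_49 (nat_lit 160) (nat_lit 110) (nat_lit 5) (nat_lit 8) (nat_lit 6) L1751 (by decide +kernel)
theorem L1753 : W_49 (nat_lit 5) (nat_lit 0x400020001000080000000000000000000000000000000) (nat_lit 0x0) (nat_lit 0x14001a0001c000000000004000000000000000000000000000) := T_49 (nat_lit 177) (nat_lit 194) (nat_lit 5) (nat_lit 8) (nat_lit 7) L1752 (by decide +kernel)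
theorem L1761 : W_49 (nat_lit 2) (nat_lit 0x20000c000400020001800080000000000000000000000000000000) (nat_lit 0x0) (nat_lit 0x4000100000000000010000000000000000000000000000000000000000) := D_49 (nat_lit 212) (nat_lit 160) (nat_lit 230) (nat_lit 4) (nat_lit 8) (nat_lit 12) (nat_lit 7) (nat_lit 8) (nat_lit 9) (by decide +kernel)
theorem L1762 : W_49 (nat_lit 3) (nat_lit 0xc000400020001800080000000000000000000000000000000) (nat_lit 0x0) (nat_lit 0x4000300010000000010000000000000000000000000000000000000000) := T_49 (nat_lit 213) (nat_lit 196) (nat_lit 7) (nat_lit 8) (nat_lit 8) L1761 (by decide +kernel)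
theorem L1763 : W_49 (nat_lit 4) (nat_lit 0xc000400020001000080000000000000000000000000000000) (nat_lit 0x0) (nat_lit 0x4000300010000000010000800040000000000000000000000000000000) := T_49 (nat_lit 143) (nat_lit 126) (nat_lit 4) (nat_lit 8) (nat_lit 11) L1762 (by decide +kernel)
theorem L1764 : W_49 (nat_lit 5) (nat_lit 0x4000400020001000080000000000000000000000000000000) (nat_lit 0x0) (nat_lit 0x4000380018000000010000800040000000000000000000000000000000) := T_49 (nat_lit 195) (nat_lit 211) (nat_lit 5) (nat_lit 8) (nat_lit 8) L1763 (by decide +kernel)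
theorem L1765 : W_49 (nat_lit 6) (nat_lit 0x400020001000080000000000000000000000000000000) (nat_lit 0x0) (nat_lit 0x400038001c000200010000800040000000000000000000000000000000) := T_49 (nat_lit 194) (nat_lit 177) (nat_lit 5) (nat_lit 8) (nat_lit 7) L1764 (by decide +kernel)
theorem L1778 : W_49 (nat_lit 11) (nat_lit 0x20001000080000000000000000000000000000000) (nat_lit 0x0) (nat_lit 0x8000700038001f003f800dc000e00040004000700038001400000000000000) := Q_49 (nat_lit 178) (C_49 L1740 (C_49 L1749 (C_49 L1753 (C_49 L1760 (C_49 L1765 (C_49 L1770 (C_49 L1777 N_49))))))) (by decide +kernel)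
theorem L1779 : W_49 (nat_lit 9) (nat_lit 0x20001000080000000000000000000000000000000) (nat_lit 0x0) (nat_lit 0x28001c000f800d000080010000c000700038001400000000000000) := Q_49 (nat_lit 178) (C_49 L1740 (C_49 L527 (C_49 L1760 (C_49 L578 (C_49 L581 N_49))))) (by decide +kernel)
theorem L1780 : W_49 (nat_lit 5) (nat_lit 0x20001000080000000000000000000000000000000) (nat_lit 0x0) (nat_lit 0x28001c000e0005000000010000c000400000000000000000000000) := Q_49 (nat_lit 178) (C_49 L581 (C_49 L527 (C_49 L578 N_49))) (by decide +kernel)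
theorem L1781 : W_49 (nat_lit 2) (nat_lit 0xc0003000180008000c000000000000000000000000000) (nat_lit 0x0) (nat_lit 0x100008000000000000000040000000000000000000000000000000) := D_49 (nat_lit 195) (nat_lit 212) (nat_lit 126) (nat_lit 4) (nat_lit 8) (nat_lit 12) (nat_lit 4) (nat_lit 8) (nat_lit 11) (by decide +kernel)
theorem L1782 : W_49 (nat_lit 3) (nat_lit 0xc0003000100008000c000000000000000000000000000) (nat_lit 0x0) (nat_lit 0x100008000000000000800040000000200000000000000000000000) := T_49 (nat_lit 143) (nat_lit 93) (nat_lit 5) (nat_lit 8) (nat_lit 5) L1781 (by decide +kernel)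
theorem L1783 : W_49 (nat_lit 4) (nat_lit 0xc0002000100008000c000000000000000000000000000) (nat_lit 0x0) (nat_lit 0x100008000200010000800040000000200000000000000000000000) := T_49 (nat_lit 160) (nat_lit 177) (nat_lit 5) (nat_lit 8) (nat_lit 6) L1782 (by decide +kernel)
theorem L1784 : W_49 (nat_lit 5) (nat_lit 0xc00020001000080008000000000000000000000000000) (nat_lit 0x0) (nat_lit 0x100008000200010000800040004000600000000000000000000000) := T_49 (nat_lit 110) (nat_lit 94) (nat_lit 6) (nat_lit 8) (nat_lit 9) L1783 (by decide +kernel)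
theorem L1785 : W_49 (nat_lit 6) (nat_lit 0xc00020001000080000000000000000000000000000000) (nat_lit 0x0) (nat_lit 0x10000800020001000080014000c000600000000000000000000000) := T_49 (nat_lit 111) (nat_lit 128) (nat_lit 6) (nat_lit 8) (nat_lit 10) L1784 (by decide +kernel)
theorem L1786 : W_49 (nat_lit 7) (nat_lit 0x400020001000080000000000000000000000000000000) (nat_lit 0x0) (nat_lit 0x100018000a0001000080014000c000600000000000000000000000) := T_49 (nat_lit 179) (nat_lit 196) (nat_lit 7) (nat_lit 8) (nat_lit 7) L1785 (by decide +kernel)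
theorem L1787 : W_49 (nat_lit 8) (nat_lit 0x20001000080000000000000000000000000000000) (nat_lit 0x0) (nat_lit 0x100038001c000e0001000080014000c000600000000000000000000000) := Q_49 (nat_lit 178) (C_49 L527 (C_49 L578 (C_49 L1786 (C_49 L1770 N_49)))) (by decide +kernel)
theorem L1788 : W_49 (nat_lit 2) (nat_lit 0x2000000009000f8001000080000000000000000000000000000000) (nat_lit 0x0) (nat_lit 0x100000c00000000000000000000000000000000000) := D_49 (nat_lit 143) (nat_lit 164) (nat_lit 142) (nat_lit 0) (nat_lit 11) (nat_lit 9) (nat_lit 0) (nat_lit 10) (nat_lit 9) (by decide +kernel)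
theorem L1789 : W_49 (nat_lit 3) (nat_lit 0x200000000900078001000080000000000000000000000000000000) (nat_lit 0x0) (nat_lit 0x200180000c00000000000000000000000000000000000) := T_49 (nat_lit 163) (nat_lit 177) (nat_lit 1) (nat_lit 10) (nat_lit 9) L1788 (by decide +kernel)
theorem L1790 : W_49 (nat_lit 4) (nat_lit 0x900078001000080000000000000000000000000000000) (nat_lit 0x0) (nat_lit 0x200010000200180000c00000000000000000000000000000000000) := T_49 (nat_lit 213) (nat_lit 196) (nat_lit 4) (nat_lit 9) (nat_lit 12) L1789 (by decide +kernel)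
theorem L1791 : W_49 (nat_lit 5) (nat_lit 0x800078001000080000000000000000000000000000000) (nat_lit 0x0) (nat_lit 0x200010000380180000c00000000000000000000000000000000000) := T_49 (nat_lit 176) (nat_lit 175) (nat_lit 1) (nat_lit 9) (nat_lit 9) L1790 (by decide +kernel)
theorem L1792 : W_49 (nat_lit 6) (nat_lit 0x78001000080000000000000000000000000000000) (nat_lit 0x0) (nat_lit 0x200010001b80180000c00000000000000000000000000000000000) := T_49 (nat_lit 179) (nat_lit 180) (nat_lit 3) (nat_lit 6) (nat_lit 9) L1791 (by decide +kernel)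
theorem L1793 : W_49 (nat_lit 2) (nat_lit 0x1000f8001400080000000000000000000000000000000) (nat_lit 0x0) (nat_lit 0x3800000000000000000000000000000000000000000000) := D_49 (nat_lit 180) (nat_lit 179) (nat_lit 181) (nat_lit 3) (nat_lit 6) (nat_lit 9) (nat_lit 3) (nat_lit 7) (nat_lit 9) (by decide +kernel)
theorem L1794 : W_49 (nat_lit 3) (nat_lit 0x100078001400080000000000000000000000000000000) (nat_lit 0x0) (nat_lit 0x3a00080000000000000000000000000000000000000000) := T_49 (nat_lit 163) (nat_lit 177) (nat_lit 1) (nat_lit 10) (nat_lit 9) L1793 (by decide +kernel)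
theorem L1795 : W_49 (nat_lit 4) (nat_lit 0x100078001000080000000000000000000000000000000) (nat_lit 0x0) (nat_lit 0x3a00080000600000000000000000000000000000000000) := T_49 (nat_lit 142) (nat_lit 141) (nat_lit 0) (nat_lit 9) (nat_lit 9) L1794 (by decide +kernel)
theorem L1796 : W_49 (nat_lit 5) (nat_lit 0x78001000080000000000000000000000000000000) (nat_lit 0x0) (nat_lit 0x3b80080000600000000000000000000000000000000000) := T_49 (nat_lit 176) (nat_lit 175) (nat_lit 1) (nat_lit 9) (nat_lit 9) L1795 (by decide +kernel)
theorem L1805 : W_49 (nat_lit 4) (nat_lit 0x900078001400080000000000000000000000000000000) (nat_lit 0x0) (nat_lit 0x240012000000080000800040000000000000000000000000000000) := T_49 (nat_lit 213) (nat_lit 196) (nat_lit 4) (nat_lit 9) (nat_lit 12) L1804 (by decide +kernel)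
theorem L1806 : W_49 (nat_lit 5) (nat_lit 0x900078001000080000000000000000000000000000000) (nat_lit 0x0) (nat_lit 0x240012000000080000e00040000000000000000000000000000000) := T_49 (nat_lit 142) (nat_lit 141) (nat_lit 0) (nat_lit 9) (nat_lit 9) L1805 (by decide +kernel)
theorem L1807 : W_49 (nat_lit 6) (nat_lit 0x100078001000080000000000000000000000000000000) (nat_lit 0x0) (nat_lit 0x240012001800080000e00040000000000000000000000000000000) := T_49 (nat_lit 179) (nat_lit 180) (nat_lit 3) (nat_lit 6) (nat_lit 9) L1806 (by decide +kernel)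
theorem L1808 : W_49 (nat_lit 7) (nat_lit 0x78001000080000000000000000000000000000000) (nat_lit 0x0) (nat_lit 0x240012001980080000e00040000000000000000000000000000000) := T_49 (nat_lit 176) (nat_lit 175) (nat_lit 1) (nat_lit 9) (nat_lit 9) L1807 (by decide +kernel)
theorem L1809 : W_49 (nat_lit 12) (nat_lit 0x38001000080000000000000000000000000000000) (nat_lit 0x0) (nat_lit 0x240012003bf01c701cf00050000800000000000000000000000000) := Q_49 (nat_lit 162) (C_49 L1212 (C_49 L1792 (C_49 L1796 (C_49 L1802 (C_49 L47 (C_49 L1808 (C_49 L35 (C_49 L1232 N_49)))))))) (by decide +kernel)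
theorem L1810 : W_49 (nat_lit 12) (nat_lit 0x38001000080000000000000000000000000000000) (nat_lit 0x0) (nat_lit 0x240012003bf01c701cf00010000800000000000000000000000000) := Q_49 (nat_lit 162) (C_49 L1232 (C_49 L1802 (C_49 L1796 (C_49 L47 (C_49 L35 N_49))))) (by decide +kernel)
theorem L1811 : W_49 (nat_lit 2) (nat_lit 0x8003f001080080000000000000000000000000000000) (nat_lit 0x0) (nat_lit 0x300000800000000000000000000000000000000000000) := D_49 (nat_lit 176) (nat_lit 155) (nat_lit 177) (nat_lit 3) (nat_lit 2) (nat_lit 9) (nat_lit 3) (nat_lit 3) (nat_lit 9) (by decide +kernel)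
theorem L1812 : W_49 (nat_lit 3) (nat_lit 0x8003e001080080000000000000000000000000000000) (nat_lit 0x0) (nat_lit 0x300001800040000000000000000000000000000000000) := T_49 (nat_lit 156) (nat_lit 138) (nat_lit 0) (nat_lit 6) (nat_lit 9) L1811 (by decide +kernel)
theorem L1813 : W_49 (nat_lit 4) (nat_lit 0x8003e001000080000000000000000000000000000000) (nat_lit 0x0) (nat_lit 0x3000018001c0000000000000000000000000000000000) := T_49 (nat_lit 139) (nat_lit 140) (nat_lit 0) (nat_lit 7) (nat_lit 9) L1812 (by decide +kernel)
theorem L1814 : W_49 (nat_lit 5) (nat_lit 0x8003c001000080000000000000000000000000000000) (nat_lit 0x0) (nat_lit 0x3000038009c0000000000000000000000000000000000) := T_49 (nat_lit 157) (nat_lit 143) (nat_lit 2) (nat_lit 4) (nat_lit 9) L1813 (by decide +kernel)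
theorem L1815 : W_49 (nat_lit 6) (nat_lit 0x3c001000080000000000000000000000000000000) (nat_lit 0x0) (nat_lit 0x3c00038009c0000000000000000000000000000000000) := T_49 (nat_lit 175) (nat_lit 174) (nat_lit 1) (nat_lit 8) (nat_lit 9) L1814 (by decide +kernel)
theorem L1816 : W_49 (nat_lit 3) (nat_lit 0x3c001000080000000000000000000000000000000) (nat_lit 0x0) (nat_lit 0x2000b80000000000000000000000000000000000) := T_49 (nat_lit 157) (nat_lit 143) (nat_lit 2) (nat_lit 4) (nat_lit 9) L354 (by decide +kernel)
theorem L1817 : W_49 (nat_lit 2) (nat_lit 0x4003c001000080000000000000000000000000000000) (nat_lit 0x0) (nat_lit 0x20002000800000000000000000000000000000000000) := D_49 (nat_lit 157) (nat_lit 143) (nat_lit 173) (nat_lit 2) (nat_lit 4) (nat_lit 9) (nat_lit 1) (nat_lit 7) (nat_lit 9) (by decide +kernel)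
theorem L1818 : W_49 (nat_lit 3) (nat_lit 0x3c001000080000000000000000000000000000000) (nat_lit 0x0) (nat_lit 0xe0002000800000000000000000000000000000000000) := T_49 (nat_lit 174) (nat_lit 175) (nat_lit 1) (nat_lit 8) (nat_lit 9) L1817 (by decide +kernel)
theorem L1819 : W_49 (nat_lit 2) (nat_lit 0x380028003c001600080001000000000000000000000000000) (nat_lit 0x0) (nat_lit 0x400100000000000010000000000000000000000000000000) := D_49 (nat_lit 176) (nat_lit 124) (nat_lit 190) (nat_lit 7) (nat_lit 5) (nat_lit 7) (nat_lit 2) (nat_lit 3) (nat_lit 11) (by decide +kernel)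
theorem L1820 : W_49 (nat_lit 3) (nat_lit 0x180028003c001600080001000000000000000000000000000) (nat_lit 0x0) (nat_lit 0x40002400100000000000010000000000000000000000000000000) := T_49 (nat_lit 193) (nat_lit 210) (nat_lit 7) (nat_lit 5) (nat_lit 8) L1819 (by decide +kernel)
theorem L1821 : W_49 (nat_lit 4) (nat_lit 0x100028003c001600080001000000000000000000000000000) (nat_lit 0x0) (nat_lit 0x50002c00100000000000010000000000000000000000000000000) := T_49 (nat_lit 191) (nat_lit 208) (nat_lit 5) (nat_lit 5) (nat_lit 8) L1820 (by decide +kernel)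
theorem L1822 : W_49 (nat_lit 5) (nat_lit 0x28003c001600080001000000000000000000000000000) (nat_lit 0x0) (nat_lit 0x70003c00100000000000010000000000000000000000000000000) := T_49 (nat_lit 192) (nat_lit 209) (nat_lit 6) (nat_lit 5) (nat_lit 12) L1821 (by decide +kernel)
theorem L1823 : W_49 (nat_lit 6) (nat_lit 0x20003c001600080001000000000000000000000000000) (nat_lit 0x0) (nat_lit 0x70003c001c0000000000010000000000000000000000000000000) := T_49 (nat_lit 175) (nat_lit 174) (nat_lit 1) (nat_lit 8) (nat_lit 9) L1822 (by decide +kernel)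
theorem L1824 : W_49 (nat_lit 7) (nat_lit 0x20003c001600080000000000000000000000000000000) (nat_lit 0x0) (nat_lit 0x70003c001c0000000000030001000000000000000000000000000) := T_49 (nat_lit 108) (nat_lit 125) (nat_lit 7) (nat_lit 6) (nat_lit 6) L1823 (by decide +kernel)
theorem L1825 : W_49 (nat_lit 8) (nat_lit 0x20003c001400080000000000000000000000000000000) (nat_lit 0x0) (nat_lit 0x70003c001c0000000300030001000000000000000000000000000) := T_49 (nat_lit 141) (nat_lit 140) (nat_lit 0) (nat_lit 8) (nat_lit 9) L1824 (by decide +kernel)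
theorem L1826 : W_49 (nat_lit 2) (nat_lit 0x2000000028003c001e00090001000000000000000000000000000) (nat_lit 0x0) (nat_lit 0x8000c0000000000000000000000) := D_49 (nat_lit 107) (nat_lit 90) (nat_lit 91) (nat_lit 7) (nat_lit 5) (nat_lit 5) (nat_lit 6) (nat_lit 5) (nat_lit 9) (by decide +kernel)
theorem L1827 : W_49 (nat_lit 3) (nat_lit 0x2000000028003c001e00080001000000000000000000000000000) (nat_lit 0x0) (nat_lit 0x180008000c0000000000000000000000) := T_49 (nat_lit 124) (nat_lit 123) (nat_lit 0) (nat_lit 8) (nat_lit 8) L1826 (by decide +kernel)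
theorem L1828 : W_49 (nat_lit 4) (nat_lit 0x2000000028003c001600080001000000000000000000000000000) (nat_lit 0x0) (nat_lit 0x8001180008000c0000000000000000000000) := T_49 (nat_lit 143) (nat_lit 128) (nat_lit 2) (nat_lit 5) (nat_lit 8) L1827 (by decide +kernel)
theorem L1829 : W_49 (nat_lit 5) (nat_lit 0x2000000028003c001400080001000000000000000000000000000) (nat_lit 0x0) (nat_lit 0xb001180008000c0000000000000000000000) := T_49 (nat_lit 141) (nat_lit 140) (nat_lit 0) (nat_lit 8) (nat_lit 9) L1828 (by decide +kernel)
theorem L1830 : W_49 (nat_lit 6) (nat_lit 0x28003c001400080001000000000000000000000000000) (nat_lit 0x0) (nat_lit 0x20001000000000000b001180008000c0000000000000000000000) := T_49 (nat_lit 209) (nat_lit 192) (nat_lit 6) (nat_lit 5) (nat_lit 12) L1829 (by decide +kernel)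
theorem L1831 : W_49 (nat_lit 7) (nat_lit 0x28003c001400080000000000000000000000000000000) (nat_lit 0x0) (nat_lit 0x20001000000000000b001380018000c0000000000000000000000) := T_49 (nat_lit 108) (nat_lit 125) (nat_lit 7) (nat_lit 6) (nat_lit 6) L1830 (by decide +kernel)
theorem L1832 : W_49 (nat_lit 8) (nat_lit 0x20003c001400080000000000000000000000000000000) (nat_lit 0x0) (nat_lit 0x200010000c0000000b001380018000c0000000000000000000000) := T_49 (nat_lit 175) (nat_lit 174) (nat_lit 1) (nat_lit 8) (nat_lit 9) L1831 (by decide +kernel)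
theorem L1833 : W_49 (nat_lit 9) (nat_lit 0x20003c001000080000000000000000000000000000000) (nat_lit 0x0) (nat_lit 0x70003c001c0000000f001380018000c0000000000000000000000) := Q_49 (nat_lit 142) (C_49 L1825 (C_49 L141 (C_49 L138 (C_49 L1832 (C_49 L133 N_49))))) (by decide +kernel)
theorem L1834 : W_49 (nat_lit 2) (nat_lit 0x8000300028003c001600090000800000000000000000000000000) (nat_lit 0x0) (nat_lit 0x8000400020000000000000000000000) := D_49 (nat_lit 106) (nat_lit 123) (nat_lit 89) (nat_lit 4) (nat_lit 5) (nat_lit 10) (nat_lit 4) (nat_lit 5) (nat_lit 9) (by decide +kernel)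
theorem L1835 : W_49 (nat_lit 3) (nat_lit 0x8000300028003c001600090000000000000000000000000000000) (nat_lit 0x0) (nat_lit 0x8000c00060000000000000000000000) := T_49 (nat_lit 107) (nat_lit 90) (nat_lit 7) (nat_lit 5) (nat_lit 5) L1834 (by decide +kernel)
theorem L1836 : W_49 (nat_lit 4) (nat_lit 0x8000300028003c001600080000000000000000000000000000000) (nat_lit 0x0) (nat_lit 0x100000000000018000c00060000000000000000000000) := T_49 (nat_lit 124) (nat_lit 176) (nat_lit 7) (nat_lit 5) (nat_lit 7) L1835 (by decide +kernel)
theorem L1837 : W_49 (nat_lit 5) (nat_lit 0x8000100028003c001600080000000000000000000000000000000) (nat_lit 0x0) (nat_lit 0x40002000100000000000018000c00060000000000000000000000) := T_49 (nat_lit 193) (nat_lit 210) (nat_lit 7) (nat_lit 5) (nat_lit 8) L1836 (by decide +kernel)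
theorem L1838 : W_49 (nat_lit 6) (nat_lit 0x8000100028003c001400080000000000000000000000000000000) (nat_lit 0x0) (nat_lit 0x40002000100000000300018000c00060000000000000000000000) := T_49 (nat_lit 141) (nat_lit 140) (nat_lit 0) (nat_lit 8) (nat_lit 9) L1837 (by decide +kernel)
theorem L1839 : W_49 (nat_lit 7) (nat_lit 0x8000000028003c001400080000000000000000000000000000000) (nat_lit 0x0) (nat_lit 0x60003000100000000300018000c00060000000000000000000000) := T_49 (nat_lit 192) (nat_lit 209) (nat_lit 6) (nat_lit 5) (nat_lit 12) L1838 (by decide +kernel)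
theorem L1840 : W_49 (nat_lit 8) (nat_lit 0x28003c001400080000000000000000000000000000000) (nat_lit 0x0) (nat_lit 0xe0007000100000000300018000c00060000000000000000000000) := T_49 (nat_lit 211) (nat_lit 194) (nat_lit 6) (nat_lit 7) (nat_lit 12) L1839 (by decide +kernel)
theorem L1841 : W_49 (nat_lit 9) (nat_lit 0x20003c001400080000000000000000000000000000000) (nat_lit 0x0) (nat_lit 0xe00070001c0000000300018000c00060000000000000000000000) := T_49 (nat_lit 175) (nat_lit 174) (nat_lit 1) (nat_lit 8) (nat_lit 9) L1840 (by decide +kernel)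
theorem L1842 : W_49 (nat_lit 2) (nat_lit 0x20003c0016000a0000000000000000000000000000000) (nat_lit 0x0) (nat_lit 0x10000c0000000000000000000000000000000000000000000) := D_49 (nat_lit 175) (nat_lit 174) (nat_lit 192) (nat_lit 1) (nat_lit 8) (nat_lit 9) (nat_lit 6) (nat_lit 5) (nat_lit 11) (by decide +kernel)
theorem L1843 : W_49 (nat_lit 3) (nat_lit 0x20003c001600080000000000000000000000000000000) (nat_lit 0x0) (nat_lit 0x10000c0000000000020001000000000000000000000000000) := T_49 (nat_lit 125) (nat_lit 108) (nat_lit 7) (nat_lit 6) (nat_lit 6) L1842 (by decide +kernel)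
theorem L1844 : W_49 (nat_lit 4) (nat_lit 0x20003c001400080000000000000000000000000000000) (nat_lit 0x0) (nat_lit 0x10000c0000000300020001000000000000000000000000000) := T_49 (nat_lit 141) (nat_lit 140) (nat_lit 0) (nat_lit 8) (nat_lit 9) L1843 (by decide +kernel)
theorem L1845 : W_49 (nat_lit 2) (nat_lit 0x400020003c001400080000000000000000000000000000000) (nat_lit 0x0) (nat_lit 0x100000000000020001000000000000000000000000000) := D_49 (nat_lit 125) (nat_lit 108) (nat_lit 176) (nat_lit 7) (nat_lit 6) (nat_lit 6) (nat_lit 7) (nat_lit 6) (nat_lit 7) (by decide +kernel)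
theorem L1846 : W_49 (nat_lit 3) (nat_lit 0x20003c001400080000000000000000000000000000000) (nat_lit 0x0) (nat_lit 0x80004000100000000000020001000000000000000000000000000) := T_49 (nat_lit 194) (nat_lit 211) (nat_lit 6) (nat_lit 7) (nat_lit 12) L1845 (by decide +kernel)
theorem L1847 : W_49 (nat_lit 10) (nat_lit 0x20003c001000080000000000000000000000000000000) (nat_lit 0x0) (nat_lit 0xe00070001c0000000700038001c00060000000000000000000000) := Q_49 (nat_lit 142) (C_49 L141 (C_49 L1841 (C_49 L1844 (C_49 L1846 N_49)))) (by decide +kernel)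
theorem L1848 : W_49 (nat_lit 11) (nat_lit 0x3c001000080000000000000000000000000000000) (nat_lit 0x0) (nat_lit 0xf0007c003c0000000f00138001c000e0000000000000000000000) := Q_49 (nat_lit 177) (C_49 L110 (C_49 L1833 (C_49 L1847 N_49))) (by decide +kernel)
theorem L1849 : W_49 (nat_lit 12) (nat_lit 0x38001000080000000000000000000000000000000) (nat_lit 0x0) (nat_lit 0xf0007c003e0007800fc0138001c000e0000000000000000000000) := Q_49 (nat_lit 158) (C_49 L1241 (C_49 L1815 (C_49 L109 (C_49 L1816 (C_49 L1818 (C_49 L1848 N_49)))))) (by decide +kernel)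
theorem L1850 : W_49 (nat_lit 7) (nat_lit 0x80038001400080000000000000000000000000000000) (nat_lit 0x0) (nat_lit 0x7000300004000380030001800040000000000000000000000) := Q_49 (nat_lit 125) (C_49 L6 (C_49 L9 (C_49 L16 (C_49 L14 N_49)))) (by decide +kernel)
theorem L1851 : W_49 (nat_lit 3) (nat_lit 0x180038001400080000000000000000000000000000000) (nat_lit 0x0) (nat_lit 0x5000200000000000020001000000000000000000000000000) := T_49 (nat_lit 125) (nat_lit 192) (nat_lit 5) (nat_lit 6) (nat_lit 7) L15 (by decide +kernel)
theorem L1852 : W_49 (nat_lit 4) (nat_lit 0x80038001400080000000000000000000000000000000) (nat_lit 0x0) (nat_lit 0x5000300040000000020001000000000000000000000000000) := T_49 (nat_lit 176) (nat_lit 162) (nat_lit 1) (nat_lit 9) (nat_lit 9) L1851 (by decide +kernel)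
theorem L1853 : W_49 (nat_lit 8) (nat_lit 0x80038001000080000000000000000000000000000000) (nat_lit 0x0) (nat_lit 0x7000300044000780030001800040000000000000000000000) := Q_49 (nat_lit 142) (C_49 L1850 (C_49 L1203 (C_49 L1852 (C_49 L2 N_49)))) (by decide +kernel)
theorem L1854 : W_49 (nat_lit 9) (nat_lit 0x38001000080000000000000000000000000000000) (nat_lit 0x0) (nat_lit 0x70003e0044000780030001800040000000000000000000000) := Q_49 (nat_lit 175) (C_49 L1853 (C_49 L27 (C_49 L29 (C_49 L22 (C_49 L31 N_49))))) (by decide +kernel)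
theorem L1855 : W_49 (nat_lit 9) (nat_lit 0x38001000080000000000000000000000000000000) (nat_lit 0x0) (nat_lit 0x39e01c601cb80000000000000000000000000000000000) := Q_49 (nat_lit 158) (C_49 L1818 (C_49 L109 (C_49 L1816 (C_49 L1283 N_49)))) (by decide +kernel)
theorem L1859 : W_49 (nat_lit 2) (nat_lit 0x11000f8001000080000000000000000000000000000000) (nat_lit 0x0) (nat_lit 0x100000c00000000000000000000000000000000000) := D_49 (nat_lit 143) (nat_lit 142) (nat_lit 164) (nat_lit 0) (nat_lit 10) (nat_lit 9) (nat_lit 0) (nat_lit 11) (nat_lit 9) (by decide +kernel)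
theorem L1860 : W_49 (nat_lit 3) (nat_lit 0x1100078001000080000000000000000000000000000000) (nat_lit 0x0) (nat_lit 0x2000180000c00000000000000000000000000000000000) := T_49 (nat_lit 163) (nat_lit 181) (nat_lit 3) (nat_lit 7) (nat_lit 9) L1859 (by decide +kernel)
theorem L1861 : W_49 (nat_lit 4) (nat_lit 0x100078001000080000000000000000000000000000000) (nat_lit 0x0) (nat_lit 0x3800180000c00000000000000000000000000000000000) := T_49 (nat_lit 180) (nat_lit 179) (nat_lit 3) (nat_lit 6) (nat_lit 9) L1860 (by decide +kernel)
theorem L1862 : W_49 (nat_lit 5) (nat_lit 0x78001000080000000000000000000000000000000) (nat_lit 0x0) (nat_lit 0x3980180000c00000000000000000000000000000000000) := T_49 (nat_lit 176) (nat_lit 175) (nat_lit 1) (nat_lit 9) (nat_lit 9) L1861 (by decide +kernel)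
theorem L1863 : W_49 (nat_lit 2) (nat_lit 0x280006000900078001000080000000000000000000000000000000) (nat_lit 0x0) (nat_lit 0x20001000040000000000000000000000000000000000000000000000000000) := D_49 (nat_lit 228) (nat_lit 245) (nat_lit 210) (nat_lit 4) (nat_lit 7) (nat_lit 14) (nat_lit 7) (nat_lit 6) (nat_lit 9) (by decide +kernel)
theorem L1864 : W_49 (nat_lit 3) (nat_lit 0x280004000900078001000080000000000000000000000000000000) (nat_lit 0x0) (nat_lit 0x20001000040002000000000000400000000000000000000000000000000000) := T_49 (nat_lit 193) (nat_lit 142) (nat_lit 7) (nat_lit 6) (nat_lit 8) L1863 (by decide +kernel)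
theorem L1865 : W_49 (nat_lit 4) (nat_lit 0x280004000800078001000080000000000000000000000000000000) (nat_lit 0x0) (nat_lit 0x20001000040002000180000000400000000000000000000000000000000000) := T_49 (nat_lit 176) (nat_lit 175) (nat_lit 1) (nat_lit 9) (nat_lit 9) L1864 (by decide +kernel)
theorem L1866 : W_49 (nat_lit 5) (nat_lit 0x80004000800078001000080000000000000000000000000000000) (nat_lit 0x0) (nat_lit 0x20001000240012000180000000400000000000000000000000000000000000) := T_49 (nat_lit 213) (nat_lit 196) (nat_lit 4) (nat_lit 9) (nat_lit 12) L1865 (by decide +kernel)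
theorem L1867 : W_49 (nat_lit 6) (nat_lit 0x4000800078001000080000000000000000000000000000000) (nat_lit 0x0) (nat_lit 0x200010002c0012000380000000400000000000000000000000000000000000) := T_49 (nat_lit 211) (nat_lit 177) (nat_lit 6) (nat_lit 7) (nat_lit 12) L1866 (by decide +kernel)
theorem L1868 : W_49 (nat_lit 7) (nat_lit 0x4000000078001000080000000000000000000000000000000) (nat_lit 0x0) (nat_lit 0x200010002c0012001b80000000400000000000000000000000000000000000) := T_49 (nat_lit 179) (nat_lit 180) (nat_lit 3) (nat_lit 6) (nat_lit 9) L1867 (by decide +kernel)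
theorem L1875 : W_49 (nat_lit 2) (nat_lit 0x20000600090007c001800080000000000000000000000000000000) (nat_lit 0x0) (nat_lit 0x80000000000000000400040000000000000000000000000000000) := D_49 (nat_lit 142) (nat_lit 126) (nat_lit 211) (nat_lit 6) (nat_lit 6) (nat_lit 11) (nat_lit 7) (nat_lit 6) (nat_lit 8) (by decide +kernel)
theorem L1876 : W_49 (nat_lit 3) (nat_lit 0x20000400090007c001800080000000000000000000000000000000) (nat_lit 0x0) (nat_lit 0xc0002000000000000400040000000000000000000000000000000) := T_49 (nat_lit 193) (nat_lit 210) (nat_lit 6) (nat_lit 6) (nat_lit 12) L1875 (by decide +kernel)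
theorem L1877 : W_49 (nat_lit 4) (nat_lit 0x20000400090007c001000080000000000000000000000000000000) (nat_lit 0x0) (nat_lit 0xc0002000000002000c00040000000000000000000000000000000) := T_49 (nat_lit 143) (nat_lit 157) (nat_lit 2) (nat_lit 4) (nat_lit 9) L1876 (by decide +kernel)
theorem L1878 : W_49 (nat_lit 5) (nat_lit 0x400090007c001000080000000000000000000000000000000) (nat_lit 0x0) (nat_lit 0x2c0012000000002000c00040000000000000000000000000000000) := T_49 (nat_lit 213) (nat_lit 196) (nat_lit 4) (nat_lit 9) (nat_lit 12) L1877 (by decide +kernel)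
theorem L1879 : W_49 (nat_lit 6) (nat_lit 0x400080007c001000080000000000000000000000000000000) (nat_lit 0x0) (nat_lit 0x2c0012000180002000c00040000000000000000000000000000000) := T_49 (nat_lit 176) (nat_lit 175) (nat_lit 1) (nat_lit 9) (nat_lit 9) L1878 (by decide +kernel)
theorem L1880 : W_49 (nat_lit 7) (nat_lit 0x400000007c001000080000000000000000000000000000000) (nat_lit 0x0) (nat_lit 0x2c0012001980002000c00040000000000000000000000000000000) := T_49 (nat_lit 179) (nat_lit 180) (nat_lit 3) (nat_lit 6) (nat_lit 9) L1879 (by decide +kernel)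
theorem L1881 : W_49 (nat_lit 8) (nat_lit 0x4000000078001000080000000000000000000000000000000) (nat_lit 0x0) (nat_lit 0x2c00120019f0007000dc0040000000000000000000000000000000) := Q_49 (nat_lit 158) (C_49 L97 (C_49 L1870 (C_49 L1874 (C_49 L1880 N_49)))) (by decide +kernel)
theorem L1882 : W_49 (nat_lit 2) (nat_lit 0x4000080078001800080000000000000000000000000000000) (nat_lit 0x0) (nat_lit 0x40006000000000000000000000000000000000000000) := D_49 (nat_lit 158) (nat_lit 174) (nat_lit 157) (nat_lit 1) (nat_lit 8) (nat_lit 9) (nat_lit 2) (nat_lit 4) (nat_lit 9) (by decide +kernel)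
theorem L1883 : W_49 (nat_lit 3) (nat_lit 0x4000080078001000080000000000000000000000000000000) (nat_lit 0x0) (nat_lit 0x240006000800000000000000000000000000000000000) := T_49 (nat_lit 143) (nat_lit 177) (nat_lit 6) (nat_lit 7) (nat_lit 11) L1882 (by decide +kernel)
theorem L1884 : W_49 (nat_lit 4) (nat_lit 0x4000000078001000080000000000000000000000000000000) (nat_lit 0x0) (nat_lit 0x3c0006000800000000000000000000000000000000000) := T_49 (nat_lit 175) (nat_lit 176) (nat_lit 1) (nat_lit 9) (nat_lit 9) L1883 (by decide +kernel)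
theorem L1885 : W_49 (nat_lit 9) (nat_lit 0x78001000080000000000000000000000000000000) (nat_lit 0x0) (nat_lit 0x200010002c0016001bf0007000dc0040000000000000000000000000000000) := Q_49 (nat_lit 194) (C_49 L87 (C_49 L1868 (C_49 L1881 (C_49 L1884 N_49)))) (by decide +kernel)
theorem L1886 : W_49 (nat_lit 10) (nat_lit 0x38001000080000000000000000000000000000000) (nat_lit 0x0) (nat_lit 0x200010002c0016003bf01c701cdc0040000000000000000000000000000000) := Q_49 (nat_lit 162) (C_49 L1802 (C_49 L1858 (C_49 L86 (C_49 L1862 (C_49 L80 (C_49 L1885 N_49)))))) (by decide +kernel)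
theorem L1887 : W_49 (nat_lit 6) (nat_lit 0x38001000080000000000000000000000000000000) (nat_lit 0x0) (nat_lit 0x10000e0046000f80020001000000000000000000000000000) := Q_49 (nat_lit 158) (C_49 L1818 (C_49 L109 (C_49 L1816 (C_49 L74 N_49)))) (by decide +kernel)
theorem L1888 : W_49 (nat_lit 2) (nat_lit 0x2000f8001000080000000000000000000000000000000) (nat_lit 0x0) (nat_lit 0x3800000000000000000000000000000000000000000000) := D_49 (nat_lit 180) (nat_lit 179) (nat_lit 181) (nat_lit 3) (nat_lit 6) (nat_lit 9) (nat_lit 3) (nat_lit 7) (nat_lit 9) (by decide +kernel)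
theorem L1889 : W_49 (nat_lit 3) (nat_lit 0x200078001000080000000000000000000000000000000) (nat_lit 0x0) (nat_lit 0x3900080000000000000000000000000000000000000000) := T_49 (nat_lit 163) (nat_lit 176) (nat_lit 1) (nat_lit 10) (nat_lit 9) L1888 (by decide +kernel)
theorem L1890 : W_49 (nat_lit 2) (nat_lit 0x1200078001400080000000000000000000000000000000) (nat_lit 0x0) (nat_lit 0x2100080000000000000000000000000000000000000000) := D_49 (nat_lit 163) (nat_lit 181) (nat_lit 176) (nat_lit 3) (nat_lit 7) (nat_lit 9) (nat_lit 1) (nat_lit 10) (nat_lit 9) (by decide +kernel)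
theorem L1891 : W_49 (nat_lit 3) (nat_lit 0x200078001400080000000000000000000000000000000) (nat_lit 0x0) (nat_lit 0x3900080000000000000000000000000000000000000000) := T_49 (nat_lit 180) (nat_lit 179) (nat_lit 3) (nat_lit 6) (nat_lit 9) L1890 (by decide +kernel)
theorem L1892 : W_49 (nat_lit 2) (nat_lit 0x200078001400080000000000000000000000000000000) (nat_lit 0x0) (nat_lit 0x100080000800000000000000000000000000000000000) := D_49 (nat_lit 163) (nat_lit 143) (nat_lit 176) (nat_lit 0) (nat_lit 10) (nat_lit 9) (nat_lit 1) (nat_lit 10) (nat_lit 9) (by decide +kernel)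
theorem L1893 : W_49 (nat_lit 2) (nat_lit 0x80000001200078001400080000000000000000000000000000000) (nat_lit 0x0) (nat_lit 0x2100080000000000000000000000000000000000000000) := D_49 (nat_lit 163) (nat_lit 176) (nat_lit 181) (nat_lit 1) (nat_lit 10) (nat_lit 9) (nat_lit 3) (nat_lit 7) (nat_lit 9) (by decide +kernel)
theorem L1894 : W_49 (nat_lit 3) (nat_lit 0x80000000200078001400080000000000000000000000000000000) (nat_lit 0x0) (nat_lit 0x3900080000000000000000000000000000000000000000) := T_49 (nat_lit 180) (nat_lit 179) (nat_lit 3) (nat_lit 6) (nat_lit 9) L1893 (by decide +kernel)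
theorem L1895 : W_49 (nat_lit 2) (nat_lit 0x2000380014000a0000000000000000000000000000000) (nat_lit 0x0) (nat_lit 0x80004000100000000000000000000000000000000000000000000) := D_49 (nat_lit 194) (nat_lit 176) (nat_lit 211) (nat_lit 7) (nat_lit 6) (nat_lit 7) (nat_lit 6) (nat_lit 7) (nat_lit 12) (by decide +kernel)
theorem L1896 : W_49 (nat_lit 2) (nat_lit 0x200038001000080000000000000000000000000000000) (nat_lit 0x0) (nat_lit 0x80004000000000000800000000000000000000000000000000000) := D_49 (nat_lit 194) (nat_lit 143) (nat_lit 211) (nat_lit 6) (nat_lit 7) (nat_lit 11) (nat_lit 6) (nat_lit 7) (nat_lit 12) (by decide +kernel)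
theorem L1897 : W_49 (nat_lit 4) (nat_lit 0x80000000200038001400080000000000000000000000000000000) (nat_lit 0x0) (nat_lit 0x39000c0000200000000000000000000000000000000000) := T_49 (nat_lit 162) (nat_lit 141) (nat_lit 0) (nat_lit 9) (nat_lit 9) L1894 (by decide +kernel)
theorem L1898 : W_49 (nat_lit 5) (nat_lit 0x200038001400080000000000000000000000000000000) (nat_lit 0x0) (nat_lit 0x800040039000c0000200000000000000000000000000000000000) := T_49 (nat_lit 211) (nat_lit 194) (nat_lit 6) (nat_lit 7) (nat_lit 12) L1897 (by decide +kernel)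
theorem L1899 : W_49 (nat_lit 3) (nat_lit 0x200038001400080000000000000000000000000000000) (nat_lit 0x0) (nat_lit 0x80004000100000000000020001000000000000000000000000000) := T_49 (nat_lit 125) (nat_lit 108) (nat_lit 7) (nat_lit 6) (nat_lit 6) L1895 (by decide +kernel)
theorem L1900 : W_49 (nat_lit 4) (nat_lit 0x200038001400080000000000000000000000000000000) (nat_lit 0x0) (nat_lit 0x39000c0000200000000000000000000000000000000000) := T_49 (nat_lit 162) (nat_lit 141) (nat_lit 0) (nat_lit 9) (nat_lit 9) L1891 (by decide +kernel)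
theorem L1901 : W_49 (nat_lit 2) (nat_lit 0x80000000200038001600080001000000000000000000000000000) (nat_lit 0x0) (nat_lit 0x4000180000000000000000000000000000000000) := D_49 (nat_lit 140) (nat_lit 158) (nat_lit 139) (nat_lit 0) (nat_lit 8) (nat_lit 9) (nat_lit 3) (nat_lit 3) (nat_lit 8) (by decide +kernel)
theorem L1902 : W_49 (nat_lit 3) (nat_lit 0x80000000200038001400080001000000000000000000000000000) (nat_lit 0x0) (nat_lit 0x44000380000000000000000000000000000000000) := T_49 (nat_lit 141) (nat_lit 162) (nat_lit 0) (nat_lit 9) (nat_lit 9) L1901 (by decide +kernel)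
theorem L1903 : W_49 (nat_lit 4) (nat_lit 0x200038001400080001000000000000000000000000000) (nat_lit 0x0) (nat_lit 0x80004000000044000380000000000000000000000000000000000) := T_49 (nat_lit 211) (nat_lit 194) (nat_lit 6) (nat_lit 7) (nat_lit 12) L1902 (by decide +kernel)
theorem L1904 : W_49 (nat_lit 5) (nat_lit 0x200038001400080000000000000000000000000000000) (nat_lit 0x0) (nat_lit 0x80004000000044000380020001000000000000000000000000000) := T_49 (nat_lit 108) (nat_lit 125) (nat_lit 7) (nat_lit 6) (nat_lit 6) L1903 (by decide +kernel)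
theorem L1905 : W_49 (nat_lit 6) (nat_lit 0x200038001000080000000000000000000000000000000) (nat_lit 0x0) (nat_lit 0x800040039000c4000780020001000000000000000000000000000) := Q_49 (nat_lit 142) (C_49 L1898 (C_49 L1899 (C_49 L1900 (C_49 L1904 N_49)))) (by decide +kernel)
theorem L1906 : W_49 (nat_lit 3) (nat_lit 0x200078001000080000000000000000000000000000000) (nat_lit 0x0) (nat_lit 0x100080000e00000000000000000000000000000000000) := T_49 (nat_lit 142) (nat_lit 141) (nat_lit 0) (nat_lit 9) (nat_lit 9) L1892 (by decide +kernel)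
theorem L1907 : W_49 (nat_lit 2) (nat_lit 0x1200078001400080000000000000000000000000000000) (nat_lit 0x0) (nat_lit 0x2000080000800000000000000000000000000000000000) := D_49 (nat_lit 163) (nat_lit 181) (nat_lit 143) (nat_lit 3) (nat_lit 7) (nat_lit 9) (nat_lit 0) (nat_lit 10) (nat_lit 9) (by decide +kernel)
theorem L1908 : W_49 (nat_lit 3) (nat_lit 0x1200078001000080000000000000000000000000000000) (nat_lit 0x0) (nat_lit 0x2000080000e00000000000000000000000000000000000) := T_49 (nat_lit 142) (nat_lit 141) (nat_lit 0) (nat_lit 9) (nat_lit 9) L1907 (by decide +kernel)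
theorem L1909 : W_49 (nat_lit 4) (nat_lit 0x200078001000080000000000000000000000000000000) (nat_lit 0x0) (nat_lit 0x3800080000e00000000000000000000000000000000000) := T_49 (nat_lit 180) (nat_lit 179) (nat_lit 3) (nat_lit 6) (nat_lit 9) L1908 (by decide +kernel)
theorem L1910 : W_49 (nat_lit 2) (nat_lit 0x200000000a2007e001200080000000000000000000000000000000) (nat_lit 0x0) (nat_lit 0x110001000000000000000000000000000000000000000) := D_49 (nat_lit 156) (nat_lit 176) (nat_lit 172) (nat_lit 3) (nat_lit 3) (nat_lit 9) (nat_lit 1) (nat_lit 6) (nat_lit 9) (by decide +kernel)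
theorem L1911 : W_49 (nat_lit 3) (nat_lit 0x200000000a0007e001200080000000000000000000000000000000) (nat_lit 0x0) (nat_lit 0x170001000000000000000000000000000000000000000) := T_49 (nat_lit 173) (nat_lit 174) (nat_lit 1) (nat_lit 7) (nat_lit 9) L1910 (by decide +kernel)
theorem L1912 : W_49 (nat_lit 4) (nat_lit 0x200000000a0007c001200080000000000000000000000000000000) (nat_lit 0x0) (nat_lit 0x170003000800000000000000000000000000000000000) := T_49 (nat_lit 157) (nat_lit 143) (nat_lit 2) (nat_lit 4) (nat_lit 9) L1911 (by decide +kernel)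
theorem L1913 : W_49 (nat_lit 5) (nat_lit 0x200000000a00078001200080000000000000000000000000000000) (nat_lit 0x0) (nat_lit 0x170007000900000000000000000000000000000000000) := T_49 (nat_lit 158) (nat_lit 140) (nat_lit 0) (nat_lit 8) (nat_lit 9) L1912 (by decide +kernel)
theorem L1914 : W_49 (nat_lit 6) (nat_lit 0xa00078001200080000000000000000000000000000000) (nat_lit 0x0) (nat_lit 0x200010000170007000900000000000000000000000000000000000) := T_49 (nat_lit 213) (nat_lit 196) (nat_lit 4) (nat_lit 9) (nat_lit 12) L1913 (by decide +kernel)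
theorem L1915 : W_49 (nat_lit 7) (nat_lit 0xa00078001000080000000000000000000000000000000) (nat_lit 0x0) (nat_lit 0x200010000170007000f00000000000000000000000000000000000) := T_49 (nat_lit 141) (nat_lit 142) (nat_lit 0) (nat_lit 9) (nat_lit 9) L1914 (by decide +kernel)
theorem L1916 : W_49 (nat_lit 8) (nat_lit 0x200078001000080000000000000000000000000000000) (nat_lit 0x0) (nat_lit 0x200010001970007000f00000000000000000000000000000000000) := T_49 (nat_lit 179) (nat_lit 180) (nat_lit 3) (nat_lit 6) (nat_lit 9) L1915 (by decide +kernel)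
theorem L1917 : W_49 (nat_lit 9) (nat_lit 0x200038001000080000000000000000000000000000000) (nat_lit 0x0) (nat_lit 0x2000100039700c7000f00000000000000000000000000000000000) := Q_49 (nat_lit 162) (C_49 L1889 (C_49 L1906 (C_49 L1909 (C_49 L1916 N_49)))) (by decide +kernel)
theorem L1918 : W_49 (nat_lit 10) (nat_lit 0x38001000080000000000000000000000000000000) (nat_lit 0x0) (nat_lit 0x280014003b700c7000f80020001000000000000000000000000000) := Q_49 (nat_lit 177) (C_49 L1896 (C_49 L1905 (C_49 L1917 N_49))) (by decide +kernel)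
theorem L1919 : W_49 (nat_lit 2) (nat_lit 0x200006000900078001400080000000000000000000000000000000) (nat_lit 0x0) (nat_lit 0x40000000000000000800040000000000000000000000000000000) := D_49 (nat_lit 143) (nat_lit 210) (nat_lit 126) (nat_lit 6) (nat_lit 6) (nat_lit 12) (nat_lit 6) (nat_lit 6) (nat_lit 11) (by decide +kernel)
theorem L1920 : W_49 (nat_lit 3) (nat_lit 0x200004000900078001400080000000000000000000000000000000) (nat_lit 0x0) (nat_lit 0xc0002000000000000800040000000000000000000000000000000) := T_49 (nat_lit 193) (nat_lit 211) (nat_lit 7) (nat_lit 6) (nat_lit 8) L1919 (by decide +kernel)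
theorem L1921 : W_49 (nat_lit 4) (nat_lit 0x4000900078001400080000000000000000000000000000000) (nat_lit 0x0) (nat_lit 0x2c0012000000000000800040000000000000000000000000000000) := T_49 (nat_lit 213) (nat_lit 196) (nat_lit 4) (nat_lit 9) (nat_lit 12) L1920 (by decide +kernel)
theorem L1922 : W_49 (nat_lit 5) (nat_lit 0x4000900078001000080000000000000000000000000000000) (nat_lit 0x0) (nat_lit 0x2c0012000000000000e00040000000000000000000000000000000) := T_49 (nat_lit 142) (nat_lit 141) (nat_lit 0) (nat_lit 9) (nat_lit 9) L1921 (by decide +kernel)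
theorem L1923 : W_49 (nat_lit 6) (nat_lit 0x4000100078001000080000000000000000000000000000000) (nat_lit 0x0) (nat_lit 0x2c0012001800000000e00040000000000000000000000000000000) := T_49 (nat_lit 179) (nat_lit 180) (nat_lit 3) (nat_lit 6) (nat_lit 9) L1922 (by decide +kernel)
theorem L1924 : W_49 (nat_lit 7) (nat_lit 0x4000000078001000080000000000000000000000000000000) (nat_lit 0x0) (nat_lit 0x2c0012001980000000e00040000000000000000000000000000000) := T_49 (nat_lit 176) (nat_lit 175) (nat_lit 1) (nat_lit 9) (nat_lit 9) L1923 (by decide +kernel)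
theorem L1925 : W_49 (nat_lit 2) (nat_lit 0x4000200078001400080000000000000000000000000000000) (nat_lit 0x0) (nat_lit 0x100000000000020001000000000000000000000000000) := D_49 (nat_lit 125) (nat_lit 176) (nat_lit 108) (nat_lit 7) (nat_lit 6) (nat_lit 7) (nat_lit 7) (nat_lit 6) (nat_lit 6) (by decide +kernel)
theorem L1926 : W_49 (nat_lit 3) (nat_lit 0x4000000078001400080000000000000000000000000000000) (nat_lit 0x0) (nat_lit 0x300000000800020001000000000000000000000000000) := T_49 (nat_lit 177) (nat_lit 143) (nat_lit 6) (nat_lit 7) (nat_lit 11) L1925 (by decide +kernel)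
theorem L1927 : W_49 (nat_lit 4) (nat_lit 0x4000000078001000080000000000000000000000000000000) (nat_lit 0x0) (nat_lit 0x300000000e00020001000000000000000000000000000) := T_49 (nat_lit 142) (nat_lit 141) (nat_lit 0) (nat_lit 9) (nat_lit 9) L1926 (by decide +kernel)
theorem L1928 : W_49 (nat_lit 8) (nat_lit 0x78001000080000000000000000000000000000000) (nat_lit 0x0) (nat_lit 0x200010002c0016001b80000000e00060001000000000000000000000000000) := Q_49 (nat_lit 194) (C_49 L1868 (C_49 L87 (C_49 L1924 (C_49 L1927 N_49)))) (by decide +kernel)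
theorem L1929 : W_49 (nat_lit 9) (nat_lit 0x38001000080000000000000000000000000000000) (nat_lit 0x0) (nat_lit 0x200010002c0016003b801c0000e00060001000000000000000000000000000) := Q_49 (nat_lit 162) (C_49 L80 (C_49 L1858 (C_49 L86 (C_49 L1928 N_49)))) (by decide +kernel)
theorem L1930 : W_49 (nat_lit 13) (nat_lit 0x30001000080000000000000000000000000000000) (nat_lit 0x0) (nat_lit 0x200010002f0017c03bf01cf81cfc0178001c000e0000000000000000000000) := Q_49 (nat_lit 159) (C_49 L1809 (C_49 L1810 (C_49 L1849 (C_49 L1854 (C_49 L1855 (C_49 L1886 (C_49 L1887 (C_49 L1918 (C_49 L1929 N_49))))))))) (by decide +kernel)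
theorem L1931 : W_49 (nat_lit 2) (nat_lit 0x2000000008007c0014000e000c000000000000000000000000000) (nat_lit 0x0) (nat_lit 0x100030000000000000000000000000000) := D_49 (nat_lit 112) (nat_lit 113) (nat_lit 128) (nat_lit 1) (nat_lit 11) (nat_lit 6) (nat_lit 2) (nat_lit 6) (nat_lit 7) (by decide +kernel)
theorem L1932 : W_49 (nat_lit 3) (nat_lit 0x2000000008007c0014000a000c000000000000000000000000000) (nat_lit 0x0) (nat_lit 0x150030000000000000000000000000000) := T_49 (nat_lit 126) (nat_lit 124) (nat_lit 2) (nat_lit 5) (nat_lit 7) L1931 (by decide +kernel)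
theorem L1933 : W_49 (nat_lit 4) (nat_lit 0x8007c0014000a000c000000000000000000000000000) (nat_lit 0x0) (nat_lit 0x20001000000000000000150030000000000000000000000000000) := T_49 (nat_lit 209) (nat_lit 192) (nat_lit 6) (nat_lit 5) (nat_lit 12) L1932 (by decide +kernel)
theorem L1934 : W_49 (nat_lit 5) (nat_lit 0x8007c00140008000c000000000000000000000000000) (nat_lit 0x0) (nat_lit 0x20001000000000000000170031000000000000000000000000000) := T_49 (nat_lit 125) (nat_lit 108) (nat_lit 5) (nat_lit 6) (nat_lit 6) L1933 (by decide +kernel)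
theorem L1935 : W_49 (nat_lit 6) (nat_lit 0x8007800140008000c000000000000000000000000000) (nat_lit 0x0) (nat_lit 0x20001000040004000000170031000000000000000000000000000) := T_49 (nat_lit 158) (nat_lit 174) (nat_lit 1) (nat_lit 8) (nat_lit 9) L1934 (by decide +kernel)
theorem L1936 : W_49 (nat_lit 7) (nat_lit 0x8007800100008000c000000000000000000000000000) (nat_lit 0x0) (nat_lit 0x20001000040004000600170031000000000000000000000000000) := T_49 (nat_lit 142) (nat_lit 141) (nat_lit 0) (nat_lit 9) (nat_lit 9) L1935 (by decide +kernel)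
theorem L1937 : W_49 (nat_lit 8) (nat_lit 0x7800100008000c000000000000000000000000000) (nat_lit 0x0) (nat_lit 0x200010001c0004000600170031000000000000000000000000000) := T_49 (nat_lit 175) (nat_lit 176) (nat_lit 1) (nat_lit 9) (nat_lit 9) L1936 (by decide +kernel)
theorem L1938 : W_49 (nat_lit 9) (nat_lit 0x3800100008000c000000000000000000000000000) (nat_lit 0x0) (nat_lit 0x200010009c0044000600170031000000000000000000000000000) := T_49 (nat_lit 162) (nat_lit 179) (nat_lit 7) (nat_lit 8) (nat_lit 6) L1937 (by decide +kernel)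
theorem L1939 : W_49 (nat_lit 10) (nat_lit 0x38001000080004000000000000000000000000000) (nat_lit 0x0) (nat_lit 0x200010009c0044000600170039000400000000000000000000000) := T_49 (nat_lit 111) (nat_lit 94) (nat_lit 6) (nat_lit 8) (nat_lit 9) L1938 (by decide +kernel)
theorem L1940 : W_49 (nat_lit 11) (nat_lit 0x38001000080000000000000000000000000000000) (nat_lit 0x0) (nat_lit 0x20001000bc004400060017003d000400000000000000000000000) := T_49 (nat_lit 110) (nat_lit 177) (nat_lit 5) (nat_lit 8) (nat_lit 6) L1939 (by decide +kernel)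
theorem L1941 : W_49 (nat_lit 2) (nat_lit 0x3e001000080000000000000000000000000000000) (nat_lit 0x0) (nat_lit 0xe0000000000000000000000000000000000000000000) := D_49 (nat_lit 174) (nat_lit 175) (nat_lit 173) (nat_lit 1) (nat_lit 8) (nat_lit 9) (nat_lit 1) (nat_lit 7) (nat_lit 9) (by decide +kernel)
theorem L1942 : W_49 (nat_lit 2) (nat_lit 0x10003f001000080000000000000000000000000000000) (nat_lit 0x0) (nat_lit 0xc0000800000000000000000000000000000000000000) := D_49 (nat_lit 175) (nat_lit 155) (nat_lit 174) (nat_lit 3) (nat_lit 2) (nat_lit 9) (nat_lit 1) (nat_lit 8) (nat_lit 9) (by decide +kernel)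
theorem L1943 : W_49 (nat_lit 3) (nat_lit 0x3f001000080000000000000000000000000000000) (nat_lit 0x0) (nat_lit 0x3c0000800000000000000000000000000000000000000) := T_49 (nat_lit 176) (nat_lit 177) (nat_lit 3) (nat_lit 3) (nat_lit 9) L1942 (by decide +kernel)
theorem L1944 : W_49 (nat_lit 2) (nat_lit 0x2000000009003f8014400e000c000000000000000000000000000) (nat_lit 0x0) (nat_lit 0x100030000000000000000000000000000) := D_49 (nat_lit 112) (nat_lit 113) (nat_lit 128) (nat_lit 1) (nat_lit 11) (nat_lit 6) (nat_lit 2) (nat_lit 6) (nat_lit 7) (by decide +kernel)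
theorem L1945 : W_49 (nat_lit 3) (nat_lit 0x2000000009003f8014400a000c000000000000000000000000000) (nat_lit 0x0) (nat_lit 0x150030000000000000000000000000000) := T_49 (nat_lit 126) (nat_lit 124) (nat_lit 2) (nat_lit 5) (nat_lit 7) L1944 (by decide +kernel)
theorem L1946 : W_49 (nat_lit 4) (nat_lit 0x9003f8014400a000c000000000000000000000000000) (nat_lit 0x0) (nat_lit 0x20001000000000000000150030000000000000000000000000000) := T_49 (nat_lit 209) (nat_lit 192) (nat_lit 6) (nat_lit 5) (nat_lit 12) L1945 (by decide +kernel)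
theorem L1947 : W_49 (nat_lit 5) (nat_lit 0x9003f80144008000c000000000000000000000000000) (nat_lit 0x0) (nat_lit 0x20001000000000000000170031000000000000000000000000000) := T_49 (nat_lit 125) (nat_lit 108) (nat_lit 5) (nat_lit 6) (nat_lit 6) L1946 (by decide +kernel)
theorem L1948 : W_49 (nat_lit 6) (nat_lit 0x9003f80104008000c000000000000000000000000000) (nat_lit 0x0) (nat_lit 0x20001000000000000600170031000000000000000000000000000) := T_49 (nat_lit 142) (nat_lit 141) (nat_lit 2) (nat_lit 2) (nat_lit 9) L1947 (by decide +kernel)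
theorem L1949 : W_49 (nat_lit 7) (nat_lit 0x8003f80104008000c000000000000000000000000000) (nat_lit 0x0) (nat_lit 0x20001000018000000600170031000000000000000000000000000) := T_49 (nat_lit 172) (nat_lit 171) (nat_lit 1) (nat_lit 5) (nat_lit 9) L1948 (by decide +kernel)
theorem L1950 : W_49 (nat_lit 8) (nat_lit 0x8003f00104008000c000000000000000000000000000) (nat_lit 0x0) (nat_lit 0x20001000018000800620170031000000000000000000000000000) := T_49 (nat_lit 155) (nat_lit 137) (nat_lit 0) (nat_lit 5) (nat_lit 9) L1949 (by decide +kernel)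
theorem L1951 : W_49 (nat_lit 9) (nat_lit 0x8003f001040080004000000000000000000000000000) (nat_lit 0x0) (nat_lit 0x20001000018000800620170039000400000000000000000000000) := T_49 (nat_lit 111) (nat_lit 94) (nat_lit 6) (nat_lit 8) (nat_lit 9) L1950 (by decide +kernel)
theorem L1952 : W_49 (nat_lit 10) (nat_lit 0x8003f001000080004000000000000000000000000000) (nat_lit 0x0) (nat_lit 0x200010000180008006e0170039000400000000000000000000000) := T_49 (nat_lit 138) (nat_lit 139) (nat_lit 0) (nat_lit 6) (nat_lit 9) L1951 (by decide +kernel)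
theorem L1953 : W_49 (nat_lit 11) (nat_lit 0x8003f001000080000000000000000000000000000000) (nat_lit 0x0) (nat_lit 0x200010002180008006e017003d000400000000000000000000000) := T_49 (nat_lit 110) (nat_lit 177) (nat_lit 5) (nat_lit 8) (nat_lit 6) L1952 (by decide +kernel)
theorem L1954 : W_49 (nat_lit 12) (nat_lit 0x3f001000080000000000000000000000000000000) (nat_lit 0x0) (nat_lit 0x200010002d80008006e017003d000400000000000000000000000) := T_49 (nat_lit 175) (nat_lit 174) (nat_lit 1) (nat_lit 8) (nat_lit 9) L1953 (by decide +kernel)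
theorem L1955 : W_49 (nat_lit 13) (nat_lit 0x3e001000080000000000000000000000000000000) (nat_lit 0x0) (nat_lit 0x200010003d80018006e017003d000400000000000000000000000) := Q_49 (nat_lit 156) (C_49 L337 (C_49 L1943 (C_49 L351 (C_49 L1954 N_49)))) (by decide +kernel)
theorem L1956 : W_49 (nat_lit 14) (nat_lit 0x3c001000080000000000000000000000000000000) (nat_lit 0x0) (nat_lit 0x200010003f80038006e017003d000400000000000000000000000) := Q_49 (nat_lit 157) (C_49 L1941 (C_49 L331 (C_49 L336 (C_49 L1955 N_49)))) (by decide +kernel)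
theorem L1957 : W_49 (nat_lit 7) (nat_lit 0x3c001000080000000000000000000000000000000) (nat_lit 0x0) (nat_lit 0x3380038007e0000004000000000000000000000000000) := Q_49 (nat_lit 157) (C_49 L336 (C_49 L354 (C_49 L359 N_49))) (by decide +kernel)
theorem L1958 : W_49 (nat_lit 11) (nat_lit 0x3c001000080000000000000000000000000000000) (nat_lit 0x0) (nat_lit 0xe00070003c0000000700038005c00060000000000000000000000) := T_49 (nat_lit 177) (nat_lit 110) (nat_lit 5) (nat_lit 8) (nat_lit 6) L1847 (by decide +kernel)
theorem L1959 : W_49 (nat_lit 15) (nat_lit 0x38001000080000000000000000000000000000000) (nat_lit 0x0) (nat_lit 0xe00070003f80078007e017803dc00460000000000000000000000) := Q_49 (nat_lit 158) (C_49 L322 (C_49 L109 (C_49 L328 (C_49 L1956 (C_49 L1957 (C_49 L1958 N_49)))))) (by decide +kernel)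
theorem L1960 : W_49 (nat_lit 5) (nat_lit 0x38001000080000000000000000000000000000000) (nat_lit 0x0) (nat_lit 0x3b800c0000000000004000000000000000000000000000) := Q_49 (nat_lit 162) (C_49 L1858 (C_49 L281 (C_49 L283 N_49))) (by decide +kernel)
theorem L1961 : W_49 (nat_lit 2) (nat_lit 0x80007c001200080000000000000000000000000000000) (nat_lit 0x0) (nat_lit 0x1c0000000000000000000000000000000000000000000) := D_49 (nat_lit 175) (nat_lit 176) (nat_lit 174) (nat_lit 1) (nat_lit 9) (nat_lit 9) (nat_lit 1) (nat_lit 8) (nat_lit 9) (by decide +kernel)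
theorem L1962 : W_49 (nat_lit 3) (nat_lit 0x800078001200080000000000000000000000000000000) (nat_lit 0x0) (nat_lit 0x1c0004000100000000000000000000000000000000000) := T_49 (nat_lit 158) (nat_lit 140) (nat_lit 0) (nat_lit 8) (nat_lit 9) L1961 (by decide +kernel)
theorem L1963 : W_49 (nat_lit 4) (nat_lit 0x78001200080000000000000000000000000000000) (nat_lit 0x0) (nat_lit 0x19c0004000100000000000000000000000000000000000) := T_49 (nat_lit 179) (nat_lit 180) (nat_lit 3) (nat_lit 6) (nat_lit 9) L1962 (by decide +kernel)
theorem L1964 : W_49 (nat_lit 5) (nat_lit 0x78001000080000000000000000000000000000000) (nat_lit 0x0) (nat_lit 0x19c0004000700000000000000000000000000000000000) := T_49 (nat_lit 141) (nat_lit 142) (nat_lit 0) (nat_lit 9) (nat_lit 9) L1963 (by decide +kernel)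
theorem L1965 : W_49 (nat_lit 6) (nat_lit 0x38001000080000000000000000000000000000000) (nat_lit 0x0) (nat_lit 0x19c0044000700000004000000000000000000000000000) := Q_49 (nat_lit 162) (C_49 L283 (C_49 L1964 (C_49 L315 N_49))) (by decide +kernel)
theorem L1966 : W_49 (nat_lit 2) (nat_lit 0x4007e0012000800048007c0000000000000000000000) (nat_lit 0x0) (nat_lit 0x7000000000000000000) := D_49 (nat_lit 73) (nat_lit 72) (nat_lit 74) (nat_lit 0) (nat_lit 8) (nat_lit 5) (nat_lit 0) (nat_lit 9) (nat_lit 5) (by decide +kernel)
theorem L1967 : W_49 (nat_lit 3) (nat_lit 0x4007e001200080004800780000000000000000000000) (nat_lit 0x0) (nat_lit 0x400040007000000000000000000) := T_49 (nat_lit 90) (nat_lit 106) (nat_lit 1) (nat_lit 8) (nat_lit 5) L1966 (by decide +kernel)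
theorem L1968 : W_49 (nat_lit 4) (nat_lit 0x4007e001200080004800700000000000000000000000) (nat_lit 0x0) (nat_lit 0x14000c0007000000000000000000) := T_49 (nat_lit 91) (nat_lit 108) (nat_lit 1) (nat_lit 9) (nat_lit 5) L1967 (by decide +kernel)
theorem L1969 : W_49 (nat_lit 5) (nat_lit 0x4007e001200080004000700000000000000000000000) (nat_lit 0x0) (nat_lit 0x10001c000c0007000000000000000000) := T_49 (nat_lit 107) (nat_lit 124) (nat_lit 5) (nat_lit 5) (nat_lit 6) L1968 (by decide +kernel)
theorem L1970 : W_49 (nat_lit 6) (nat_lit 0x4007c001200080004000700000000000000000000000) (nat_lit 0x0) (nat_lit 0x20002000000010001c000c0007000000000000000000) := T_49 (nat_lit 157) (nat_lit 173) (nat_lit 1) (nat_lit 7) (nat_lit 9) L1969 (by decide +kernel)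
theorem L1971 : W_49 (nat_lit 7) (nat_lit 0x7c001200080004000700000000000000000000000) (nat_lit 0x0) (nat_lit 0xe0002000000010001c000c0007000000000000000000) := T_49 (nat_lit 174) (nat_lit 175) (nat_lit 1) (nat_lit 8) (nat_lit 9) L1970 (by decide +kernel)
theorem L1972 : W_49 (nat_lit 8) (nat_lit 0x78001200080004000700000000000000000000000) (nat_lit 0x0) (nat_lit 0xe0006000100010001c000c0007000000000000000000) := T_49 (nat_lit 158) (nat_lit 140) (nat_lit 0) (nat_lit 8) (nat_lit 9) L1971 (by decide +kernel)
theorem L1973 : W_49 (nat_lit 9) (nat_lit 0x78001200080004000600000000000000000000000) (nat_lit 0x0) (nat_lit 0xe0006000100010001c001c000f000000000000000000) := T_49 (nat_lit 92) (nat_lit 75) (nat_lit 4) (nat_lit 8) (nat_lit 8) L1972 (by decide +kernel)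
theorem L1974 : W_49 (nat_lit 10) (nat_lit 0x78001200080004000400000000000000000000000) (nat_lit 0x0) (nat_lit 0xe0006000100010001c003c002f000000000000000000) := T_49 (nat_lit 93) (nat_lit 77) (nat_lit 6) (nat_lit 8) (nat_lit 8) L1973 (by decide +kernel)
theorem L1975 : W_49 (nat_lit 11) (nat_lit 0x78001000080004000400000000000000000000000) (nat_lit 0x0) (nat_lit 0xe0006000700010001c003c002f000000000000000000) := T_49 (nat_lit 141) (nat_lit 142) (nat_lit 0) (nat_lit 9) (nat_lit 9) L1974 (by decide +kernel)
theorem L1976 : W_49 (nat_lit 12) (nat_lit 0x38001000080004000400000000000000000000000) (nat_lit 0x0) (nat_lit 0x8e0046000700010001c003c002f000000000000000000) := T_49 (nat_lit 162) (nat_lit 179) (nat_lit 7) (nat_lit 8) (nat_lit 6) L1975 (by decide +kernel)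
theorem L1977 : W_49 (nat_lit 13) (nat_lit 0x38001000080004000000000000000000000000000) (nat_lit 0x0) (nat_lit 0x8e0046000700010009c007c002f000000000000000000) := T_49 (nat_lit 94) (nat_lit 111) (nat_lit 6) (nat_lit 8) (nat_lit 9) L1976 (by decide +kernel)
theorem L1978 : W_49 (nat_lit 14) (nat_lit 0x38001000080000000000000000000000000000000) (nat_lit 0x0) (nat_lit 0xae004600070001000dc007c002f000000000000000000) := T_49 (nat_lit 110) (nat_lit 177) (nat_lit 5) (nat_lit 8) (nat_lit 6) L1977 (by decide +kernel)
theorem L1979 : W_49 (nat_lit 7) (nat_lit 0x38001000080000000000000000000000000000000) (nat_lit 0x0) (nat_lit 0x80004003b000c4000780020005000000000000000000000000000) := T_49 (nat_lit 177) (nat_lit 110) (nat_lit 5) (nat_lit 8) (nat_lit 6) L1905 (by decide +kernel)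
theorem L1980 : W_49 (nat_lit 16) (nat_lit 0x30001000080000000000000000000000000000000) (nat_lit 0x0) (nat_lit 0xe0007003bf80cf8007e017803dc007e002f000000000000000000) := Q_49 (nat_lit 159) (C_49 L1940 (C_49 L1854 (C_49 L1959 (C_49 L1960 (C_49 L1965 (C_49 L1978 (C_49 L1979 N_49))))))) (by decide +kernel)
theorem L1986 : W_49 (nat_lit 7) (nat_lit 0x70001000080004000000000000000000000000000) (nat_lit 0x0) (nat_lit 0x800100008000700038001c00080000000000) := T_49 (nat_lit 111) (nat_lit 94) (nat_lit 6) (nat_lit 8) (nat_lit 9) L1985 (by decide +kernel)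
theorem L1987 : W_49 (nat_lit 8) (nat_lit 0x70001000080000000000000000000000000000000) (nat_lit 0x0) (nat_lit 0x80000000080010000c000700038001c00080000000000) := T_49 (nat_lit 110) (nat_lit 179) (nat_lit 7) (nat_lit 8) (nat_lit 6) L1986 (by decide +kernel)
theorem L1993 : W_49 (nat_lit 7) (nat_lit 0x70001000080000000000000000000000000000000) (nat_lit 0x0) (nat_lit 0x39c018c01cf00000000000000000000000000000000000) := Q_49 (nat_lit 163) (C_49 L384 (C_49 L378 (C_49 L383 N_49))) (by decide +kernel)
theorem L1994 : W_49 (nat_lit 5) (nat_lit 0x10000f000180008000c000000000000000000000000000) (nat_lit 0x0) (nat_lit 0xc000740030001000000000000000000000000) := T_49 (nat_lit 146) (nat_lit 147) (nat_lit 2) (nat_lit 7) (nat_lit 9) L388 (by decide +kernel)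
theorem L1995 : W_49 (nat_lit 6) (nat_lit 0xf000180008000c000000000000000000000000000) (nat_lit 0x0) (nat_lit 0x300000000c000740030001000000000000000000000000) := T_49 (nat_lit 180) (nat_lit 181) (nat_lit 3) (nat_lit 7) (nat_lit 9) L1994 (by decide +kernel)
theorem L1996 : W_49 (nat_lit 7) (nat_lit 0xf0001800080004000000000000000000000000000) (nat_lit 0x0) (nat_lit 0x300000000c000740038001400000000000000000000000) := T_49 (nat_lit 111) (nat_lit 94) (nat_lit 6) (nat_lit 8) (nat_lit 9) L1995 (by decide +kernel)
theorem L1997 : W_49 (nat_lit 8) (nat_lit 0x70001800080004000000000000000000000000000) (nat_lit 0x0) (nat_lit 0x300018000c000740038001400000000000000000000000) := T_49 (nat_lit 163) (nat_lit 164) (nat_lit 0) (nat_lit 11) (nat_lit 9) L1996 (by decide +kernel)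
theorem L1998 : W_49 (nat_lit 9) (nat_lit 0x70001800080000000000000000000000000000000) (nat_lit 0x0) (nat_lit 0x300018000c00074003c001600000000000000000000000) := T_49 (nat_lit 110) (nat_lit 93) (nat_lit 5) (nat_lit 8) (nat_lit 5) L1997 (by decide +kernel)
theorem L1999 : W_49 (nat_lit 2) (nat_lit 0x80078001a00080000000000000000000000000000000) (nat_lit 0x0) (nat_lit 0x40006000000000000000000000000000000000000000) := D_49 (nat_lit 158) (nat_lit 157) (nat_lit 174) (nat_lit 2) (nat_lit 4) (nat_lit 9) (nat_lit 1) (nat_lit 8) (nat_lit 9) (by decide +kernel)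
theorem L2000 : W_49 (nat_lit 3) (nat_lit 0x78001a00080000000000000000000000000000000) (nat_lit 0x0) (nat_lit 0x1c0006000000000000000000000000000000000000000) := T_49 (nat_lit 175) (nat_lit 176) (nat_lit 1) (nat_lit 9) (nat_lit 9) L1999 (by decide +kernel)
theorem L2001 : W_49 (nat_lit 4) (nat_lit 0x78001800080000000000000000000000000000000) (nat_lit 0x0) (nat_lit 0x1c0006000600000000000000000000000000000000000) := T_49 (nat_lit 141) (nat_lit 142) (nat_lit 3) (nat_lit 5) (nat_lit 8) L2000 (by decide +kernel)
theorem L2002 : W_49 (nat_lit 2) (nat_lit 0x7c001800080000000000000000000000000000000) (nat_lit 0x0) (nat_lit 0x1c0000000000000000000000000000000000000000000) := D_49 (nat_lit 175) (nat_lit 176) (nat_lit 174) (nat_lit 1) (nat_lit 9) (nat_lit 9) (nat_lit 1) (nat_lit 8) (nat_lit 9) (by decide +kernel)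
theorem L2003 : W_49 (nat_lit 3) (nat_lit 0x78001800080000000000000000000000000000000) (nat_lit 0x0) (nat_lit 0x1c0006000000000000000000000000000000000000000) := T_49 (nat_lit 158) (nat_lit 157) (nat_lit 2) (nat_lit 4) (nat_lit 9) L2002 (by decide +kernel)
theorem L2004 : W_49 (nat_lit 2) (nat_lit 0x78001a00080000000000000000000000000000000) (nat_lit 0x0) (nat_lit 0x6000100000000000000000000000000000000000) := D_49 (nat_lit 158) (nat_lit 140) (nat_lit 157) (nat_lit 0) (nat_lit 8) (nat_lit 9) (nat_lit 2) (nat_lit 4) (nat_lit 9) (by decide +kernel)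
theorem L2005 : W_49 (nat_lit 3) (nat_lit 0x78001800080000000000000000000000000000000) (nat_lit 0x0) (nat_lit 0x6000700000000000000000000000000000000000) := T_49 (nat_lit 141) (nat_lit 142) (nat_lit 3) (nat_lit 5) (nat_lit 8) L2004 (by decide +kernel)
theorem L2006 : W_49 (nat_lit 2) (nat_lit 0x100078001c00080000000000000000000000000000000) (nat_lit 0x0) (nat_lit 0x40002000000000000000040000000000000000000000000000000) := D_49 (nat_lit 193) (nat_lit 126) (nat_lit 210) (nat_lit 6) (nat_lit 6) (nat_lit 11) (nat_lit 6) (nat_lit 6) (nat_lit 12) (by decide +kernel)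
theorem L2007 : W_49 (nat_lit 3) (nat_lit 0x78001c00080000000000000000000000000000000) (nat_lit 0x0) (nat_lit 0x40002000180000000000040000000000000000000000000000000) := T_49 (nat_lit 176) (nat_lit 175) (nat_lit 1) (nat_lit 9) (nat_lit 9) L2006 (by decide +kernel)
theorem L2008 : W_49 (nat_lit 4) (nat_lit 0x78001800080000000000000000000000000000000) (nat_lit 0x0) (nat_lit 0x40002000180000000600040000000000000000000000000000000) := T_49 (nat_lit 142) (nat_lit 141) (nat_lit 3) (nat_lit 5) (nat_lit 8) L2007 (by decide +kernel)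
theorem L2009 : W_49 (nat_lit 5) (nat_lit 0x70001800080000000000000000000000000000000) (nat_lit 0x0) (nat_lit 0x400020001c000e000700040000000000000000000000000000000) := Q_49 (nat_lit 159) (C_49 L2001 (C_49 L2003 (C_49 L2005 (C_49 L2008 N_49)))) (by decide +kernel)
theorem L2010 : W_49 (nat_lit 10) (nat_lit 0x70001000080000000000000000000000000000000) (nat_lit 0x0) (nat_lit 0x400020031c018e00cf0074003c001600000000000000000000000) := Q_49 (nat_lit 143) (C_49 L395 (C_49 L1998 (C_49 L2009 N_49))) (by decide +kernel)
theorem L2011 : W_49 (nat_lit 11) (nat_lit 0x30001000080000000000000000000000000000000) (nat_lit 0x0) (nat_lit 0x2400120039c01ce01cf0074003c001700038001c00080000000000) := Q_49 (nat_lit 162) (C_49 L1987 (C_49 L425 (C_49 L1992 (C_49 L373 (C_49 L1993 (C_49 L2010 N_49)))))) (by decide +kernel)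
theorem L2012 : W_49 (nat_lit 17) (nat_lit 0x20001000080000000000000000000000000000000) (nat_lit 0x0) (nat_lit 0x200010002f0017c03bf81df81cfe077803dc017e003f001c00080000000000) := Q_49 (nat_lit 160) (C_49 L1930 (C_49 L273 (C_49 L1980 (C_49 L2011 N_49)))) (by decide +kernel)
theorem L2016 : W_49 (nat_lit 2) (nat_lit 0x70001000080004000200028000000000000000000) (nat_lit 0x0) (nat_lit 0x10001400000000000000) := D_49 (nat_lit 76) (nat_lit 58) (nat_lit 60) (nat_lit 4) (nat_lit 8) (nat_lit 7) (nat_lit 6) (nat_lit 8) (nat_lit 7) (by decide +kernel)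
theorem L2017 : W_49 (nat_lit 3) (nat_lit 0x70001000080004000200008000000000000000000) (nat_lit 0x0) (nat_lit 0x400030001400000000000000) := T_49 (nat_lit 77) (nat_lit 94) (nat_lit 6) (nat_lit 8) (nat_lit 8) L2016 (by decide +kernel)
theorem L2018 : W_49 (nat_lit 4) (nat_lit 0x70001000080004000200000000000000000000000) (nat_lit 0x0) (nat_lit 0x500038001400000000000000) := T_49 (nat_lit 75) (nat_lit 92) (nat_lit 4) (nat_lit 8) (nat_lit 8) L2017 (by decide +kernel)
theorem L2019 : W_49 (nat_lit 5) (nat_lit 0x70001000080004000000000000000000000000000) (nat_lit 0x0) (nat_lit 0x800000000000700038001400000000000000) := T_49 (nat_lit 93) (nat_lit 143) (nat_lit 5) (nat_lit 8) (nat_lit 5) L2018 (by decide +kernel)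
theorem L2020 : W_49 (nat_lit 6) (nat_lit 0x60001000080004000000000000000000000000000) (nat_lit 0x0) (nat_lit 0x200010000800000000000700038001400000000000000) := T_49 (nat_lit 160) (nat_lit 177) (nat_lit 5) (nat_lit 8) (nat_lit 6) L2019 (by decide +kernel)
theorem L2021 : W_49 (nat_lit 7) (nat_lit 0x20001000080004000000000000000000000000000) (nat_lit 0x0) (nat_lit 0xa00050000800000000000700038001400000000000000) := T_49 (nat_lit 162) (nat_lit 179) (nat_lit 7) (nat_lit 8) (nat_lit 6) L2020 (by decide +kernel)
theorem L2022 : W_49 (nat_lit 8) (nat_lit 0x20001000080000000000000000000000000000000) (nat_lit 0x0) (nat_lit 0x10000e000d0000e0010000c000700038001c00000000000000) := Q_49 (nat_lit 110) (C_49 L2015 (C_49 L630 (C_49 L1731 (C_49 L2021 (C_49 L638 N_49))))) (by decide +kernel)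
theorem L2023 : W_49 (nat_lit 2) (nat_lit 0x8000400020001000080000000000000000000000000000000) (nat_lit 0x0) (nat_lit 0x200010000800000000000000000000000000000000000000000000) := D_49 (nat_lit 196) (nat_lit 179) (nat_lit 213) (nat_lit 7) (nat_lit 8) (nat_lit 7) (nat_lit 7) (nat_lit 8) (nat_lit 8) (by decide +kernel)
theorem L2024 : W_49 (nat_lit 2) (nat_lit 0x100008000400020001a00180000000000000000000000000000000) (nat_lit 0x0) (nat_lit 0x4000200010000000000000000000000000000000000000000000000000) := D_49 (nat_lit 213) (nat_lit 196) (nat_lit 230) (nat_lit 7) (nat_lit 8) (nat_lit 8) (nat_lit 7) (nat_lit 8) (nat_lit 9) (by decide +kernel)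
theorem L2025 : W_49 (nat_lit 3) (nat_lit 0x8000400020001a00180000000000000000000000000000000) (nat_lit 0x0) (nat_lit 0x4000300010000000010000000000000000000000000000000000000000) := T_49 (nat_lit 212) (nat_lit 160) (nat_lit 4) (nat_lit 8) (nat_lit 12) L2024 (by decide +kernel)
theorem L2026 : W_49 (nat_lit 4) (nat_lit 0x8000400020001800180000000000000000000000000000000) (nat_lit 0x0) (nat_lit 0x4000300010000000010000600000000000000000000000000000000000) := T_49 (nat_lit 141) (nat_lit 142) (nat_lit 2) (nat_lit 5) (nat_lit 8) L2025 (by decide +kernel)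
theorem L2027 : W_49 (nat_lit 5) (nat_lit 0x8000400020001000180000000000000000000000000000000) (nat_lit 0x0) (nat_lit 0x4000300010000000010000e00040000000000000000000000000000000) := T_49 (nat_lit 143) (nat_lit 126) (nat_lit 4) (nat_lit 8) (nat_lit 11) L2026 (by decide +kernel)
theorem L2028 : W_49 (nat_lit 6) (nat_lit 0x8000400020001000080000000000000000000000000000000) (nat_lit 0x0) (nat_lit 0x4000300010000000010000e00140008000000000000000000000000000) := T_49 (nat_lit 128) (nat_lit 111) (nat_lit 6) (nat_lit 8) (nat_lit 10) L2027 (by decide +kernel)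
theorem L2029 : W_49 (nat_lit 2) (nat_lit 0x2000100008000c00020001a00580000000000000000000000000000000) (nat_lit 0x0) (nat_lit 0x20001000080000000000000000000000000000000000000000000000000000) := D_49 (nat_lit 228) (nat_lit 245) (nat_lit 211) (nat_lit 5) (nat_lit 8) (nat_lit 10) (nat_lit 5) (nat_lit 8) (nat_lit 9) (by decide +kernel)
theorem L2030 : W_49 (nat_lit 3) (nat_lit 0x100008000c00020001a00580000000000000000000000000000000) (nat_lit 0x0) (nat_lit 0x20003000080000000000040000000000000000000000000000000000000000) := T_49 (nat_lit 229) (nat_lit 162) (nat_lit 6) (nat_lit 8) (nat_lit 13) L2029 (by decide +kernel)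
theorem L2031 : W_49 (nat_lit 4) (nat_lit 0x100008000400020001a00580000000000000000000000000000000) (nat_lit 0x0) (nat_lit 0x20003000080010000800040000000000000000000000000000000000000000) := T_49 (nat_lit 179) (nat_lit 196) (nat_lit 7) (nat_lit 8) (nat_lit 7) L2030 (by decide +kernel)
theorem L2032 : W_49 (nat_lit 5) (nat_lit 0x8000400020001a00580000000000000000000000000000000) (nat_lit 0x0) (nat_lit 0x20003000180010000800050000000000000000000000000000000000000000) := T_49 (nat_lit 212) (nat_lit 160) (nat_lit 4) (nat_lit 8) (nat_lit 12) L2031 (by decide +kernel)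
theorem L2033 : W_49 (nat_lit 6) (nat_lit 0x8000400020001a00180000000000000000000000000000000) (nat_lit 0x0) (nat_lit 0x20003000180010000800050000000600000000000000000000000000000000) := T_49 (nat_lit 130) (nat_lit 129) (nat_lit 1) (nat_lit 11) (nat_lit 7) L2032 (by decide +kernel)
theorem L2034 : W_49 (nat_lit 7) (nat_lit 0x8000400020001800180000000000000000000000000000000) (nat_lit 0x0) (nat_lit 0x20003000180010000800050000600600000000000000000000000000000000) := T_49 (nat_lit 141) (nat_lit 142) (nat_lit 2) (nat_lit 5) (nat_lit 8) L2033 (by decide +kernel)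
theorem L2035 : W_49 (nat_lit 8) (nat_lit 0x8000400020001800080000000000000000000000000000000) (nat_lit 0x0) (nat_lit 0x20003000180010000800050000600700008000000000000000000000000000) := T_49 (nat_lit 128) (nat_lit 111) (nat_lit 6) (nat_lit 8) (nat_lit 10) L2034 (by decide +kernel)
theorem L2036 : W_49 (nat_lit 9) (nat_lit 0x8000400020001000080000000000000000000000000000000) (nat_lit 0x0) (nat_lit 0x20003000180010000800050000e00740008000000000000000000000000000) := T_49 (nat_lit 143) (nat_lit 126) (nat_lit 4) (nat_lit 8) (nat_lit 11) L2035 (by decide +kernel)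
theorem L2037 : W_49 (nat_lit 2) (nat_lit 0x5000100008000400020001a00580000000000000000000000000000000) (nat_lit 0x0) (nat_lit 0xa0002000000000000000000000000000000000000000000000000000000000) := D_49 (nat_lit 229) (nat_lit 245) (nat_lit 247) (nat_lit 5) (nat_lit 8) (nat_lit 10) (nat_lit 7) (nat_lit 8) (nat_lit 10) (by decide +kernel)
theorem L2038 : W_49 (nat_lit 3) (nat_lit 0x1000100008000400020001a00580000000000000000000000000000000) (nat_lit 0x0) (nat_lit 0xa0006000200000000000000000000000000000000000000000000000000000) := T_49 (nat_lit 230) (nat_lit 213) (nat_lit 7) (nat_lit 8) (nat_lit 9) L2037 (by decide +kernel)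
theorem L2039 : W_49 (nat_lit 4) (nat_lit 0x100008000400020001a00580000000000000000000000000000000) (nat_lit 0x0) (nat_lit 0xa0007000280000000000000000000000000000000000000000000000000000) := T_49 (nat_lit 228) (nat_lit 211) (nat_lit 5) (nat_lit 8) (nat_lit 9) L2038 (by decide +kernel)
theorem L2040 : W_49 (nat_lit 5) (nat_lit 0x8000400020001a00580000000000000000000000000000000) (nat_lit 0x0) (nat_lit 0xa0007000380000000000010000000000000000000000000000000000000000) := T_49 (nat_lit 212) (nat_lit 160) (nat_lit 4) (nat_lit 8) (nat_lit 12) L2039 (by decide +kernel)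
theorem L2041 : W_49 (nat_lit 6) (nat_lit 0x8000400020001a00180000000000000000000000000000000) (nat_lit 0x0) (nat_lit 0xa0007000380000000000010000000600000000000000000000000000000000) := T_49 (nat_lit 130) (nat_lit 129) (nat_lit 1) (nat_lit 11) (nat_lit 7) L2040 (by decide +kernel)
theorem L2042 : W_49 (nat_lit 7) (nat_lit 0x8000400020001800180000000000000000000000000000000) (nat_lit 0x0) (nat_lit 0xa0007000380000000000010000600600000000000000000000000000000000) := T_49 (nat_lit 141) (nat_lit 142) (nat_lit 2) (nat_lit 5) (nat_lit 8) L2041 (by decide +kernel)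
theorem L2043 : W_49 (nat_lit 8) (nat_lit 0x8000400020001800080000000000000000000000000000000) (nat_lit 0x0) (nat_lit 0xa0007000380000000000010000600700008000000000000000000000000000) := T_49 (nat_lit 128) (nat_lit 111) (nat_lit 6) (nat_lit 8) (nat_lit 10) L2042 (by decide +kernel)
theorem L2044 : W_49 (nat_lit 9) (nat_lit 0x8000400020001000080000000000000000000000000000000) (nat_lit 0x0) (nat_lit 0xa0007000380000000000010000e00740008000000000000000000000000000) := T_49 (nat_lit 143) (nat_lit 126) (nat_lit 4) (nat_lit 8) (nat_lit 11) L2043 (by decide +kernel)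
theorem L2045 : W_49 (nat_lit 10) (nat_lit 0x400020001000080000000000000000000000000000000) (nat_lit 0x0) (nat_lit 0xa0007000380018000800050000e00740008000000000000000000000000000) := Q_49 (nat_lit 195) (C_49 L2023 (C_49 L2028 (C_49 L2036 (C_49 L2044 N_49)))) (by decide +kernel)
theorem L2046 : W_49 (nat_lit 2) (nat_lit 0x4000e0001000080000000000000000000000000000000) (nat_lit 0x0) (nat_lit 0x200100000800000000000000000000000000000000000) := D_49 (nat_lit 164) (nat_lit 143) (nat_lit 177) (nat_lit 0) (nat_lit 11) (nat_lit 9) (nat_lit 1) (nat_lit 11) (nat_lit 9) (by decide +kernel)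
theorem L2047 : W_49 (nat_lit 2) (nat_lit 0x4001e0001000180000000000000000000000000000000) (nat_lit 0x0) (nat_lit 0x10000800200000000000000000000000000000000000000000) := D_49 (nat_lit 179) (nat_lit 196) (nat_lit 165) (nat_lit 7) (nat_lit 8) (nat_lit 7) (nat_lit 1) (nat_lit 12) (nat_lit 9) (by decide +kernel)
theorem L2048 : W_49 (nat_lit 3) (nat_lit 0x4000e0001000180000000000000000000000000000000) (nat_lit 0x0) (nat_lit 0x10000a00300000000000000000000000000000000000000000) := T_49 (nat_lit 164) (nat_lit 177) (nat_lit 1) (nat_lit 11) (nat_lit 9) L2047 (by decide +kernel)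
theorem L2049 : W_49 (nat_lit 4) (nat_lit 0x4000e0001000080000000000000000000000000000000) (nat_lit 0x0) (nat_lit 0x10000a00300000000100008000000000000000000000000000) := T_49 (nat_lit 128) (nat_lit 111) (nat_lit 6) (nat_lit 8) (nat_lit 10) L2048 (by decide +kernel)
theorem L2050 : W_49 (nat_lit 2) (nat_lit 0xc000e0001000080000000000000000000000000000000) (nat_lit 0x0) (nat_lit 0x300000800000000000000000000000000000000000) := D_49 (nat_lit 164) (nat_lit 165) (nat_lit 143) (nat_lit 1) (nat_lit 12) (nat_lit 9) (nat_lit 0) (nat_lit 11) (nat_lit 9) (by decide +kernel)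
theorem L2051 : W_49 (nat_lit 3) (nat_lit 0x4000e0001000080000000000000000000000000000000) (nat_lit 0x0) (nat_lit 0x10000800300000800000000000000000000000000000000000) := T_49 (nat_lit 179) (nat_lit 196) (nat_lit 7) (nat_lit 8) (nat_lit 7) L2050 (by decide +kernel)
theorem L2052 : W_49 (nat_lit 2) (nat_lit 0x14000f0001000180000000000000000000000000000000) (nat_lit 0x0) (nat_lit 0x10000800008000000000000000000000000000000000000000) := D_49 (nat_lit 179) (nat_lit 159) (nat_lit 196) (nat_lit 3) (nat_lit 6) (nat_lit 9) (nat_lit 7) (nat_lit 8) (nat_lit 7) (by decide +kernel)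
theorem L2053 : W_49 (nat_lit 3) (nat_lit 0x4000f0001000180000000000000000000000000000000) (nat_lit 0x0) (nat_lit 0x10003800008000000000000000000000000000000000000000) := T_49 (nat_lit 180) (nat_lit 181) (nat_lit 3) (nat_lit 7) (nat_lit 9) L2052 (by decide +kernel)
theorem L2054 : W_49 (nat_lit 4) (nat_lit 0x4000f0001000080000000000000000000000000000000) (nat_lit 0x0) (nat_lit 0x10003800008000000100008000000000000000000000000000) := T_49 (nat_lit 128) (nat_lit 111) (nat_lit 6) (nat_lit 8) (nat_lit 10) L2053 (by decide +kernel)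
theorem L2055 : W_49 (nat_lit 2) (nat_lit 0x14000f0005000080000000000000000000000000000000) (nat_lit 0x0) (nat_lit 0x10000800008000000000000000000000000000000000000000) := D_49 (nat_lit 179) (nat_lit 159) (nat_lit 196) (nat_lit 3) (nat_lit 6) (nat_lit 9) (nat_lit 7) (nat_lit 8) (nat_lit 7) (by decide +kernel)
theorem L2056 : W_49 (nat_lit 3) (nat_lit 0x4000f0005000080000000000000000000000000000000) (nat_lit 0x0) (nat_lit 0x10003800008000000000000000000000000000000000000000) := T_49 (nat_lit 180) (nat_lit 181) (nat_lit 3) (nat_lit 7) (nat_lit 9) L2055 (by decide +kernel)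
theorem L2057 : W_49 (nat_lit 4) (nat_lit 0x4000f0001000080000000000000000000000000000000) (nat_lit 0x0) (nat_lit 0x1000380000800c000000000000000000000000000000000000) := T_49 (nat_lit 146) (nat_lit 147) (nat_lit 2) (nat_lit 7) (nat_lit 9) L2056 (by decide +kernel)
theorem L2058 : W_49 (nat_lit 2) (nat_lit 0x5000f8005000080000000000000000000000000000000) (nat_lit 0x0) (nat_lit 0xe00000000000000000000000000000000000) := D_49 (nat_lit 142) (nat_lit 141) (nat_lit 143) (nat_lit 0) (nat_lit 9) (nat_lit 9) (nat_lit 0) (nat_lit 10) (nat_lit 9) (by decide +kernel)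
theorem L2059 : W_49 (nat_lit 3) (nat_lit 0x5000f0005000080000000000000000000000000000000) (nat_lit 0x0) (nat_lit 0x80008000e00000000000000000000000000000000000) := T_49 (nat_lit 159) (nat_lit 175) (nat_lit 1) (nat_lit 9) (nat_lit 9) L2058 (by decide +kernel)
theorem L2060 : W_49 (nat_lit 4) (nat_lit 0x5000f0001000080000000000000000000000000000000) (nat_lit 0x0) (nat_lit 0x8000800ce00000000000000000000000000000000000) := T_49 (nat_lit 146) (nat_lit 147) (nat_lit 2) (nat_lit 7) (nat_lit 9) L2059 (by decide +kernel)
theorem L2061 : W_49 (nat_lit 5) (nat_lit 0x4000f0001000080000000000000000000000000000000) (nat_lit 0x0) (nat_lit 0x38000800ce00000000000000000000000000000000000) := T_49 (nat_lit 176) (nat_lit 177) (nat_lit 1) (nat_lit 10) (nat_lit 9) L2060 (by decide +kernel)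
theorem L2062 : W_49 (nat_lit 2) (nat_lit 0x1d000f0005000380000000000000000000000000000000) (nat_lit 0x0) (nat_lit 0xc00400000000000000000000000000000000) := D_49 (nat_lit 143) (nat_lit 142) (nat_lit 130) (nat_lit 0) (nat_lit 10) (nat_lit 9) (nat_lit 1) (nat_lit 11) (nat_lit 7) (by decide +kernel)
theorem L2063 : W_49 (nat_lit 3) (nat_lit 0x1d000f0005000180000000000000000000000000000000) (nat_lit 0x0) (nat_lit 0xc00600010000000000000000000000000000) := T_49 (nat_lit 129) (nat_lit 112) (nat_lit 5) (nat_lit 10) (nat_lit 6) L2062 (by decide +kernel)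
theorem L2064 : W_49 (nat_lit 4) (nat_lit 0x1d000f0005000080000000000000000000000000000000) (nat_lit 0x0) (nat_lit 0xc00700018000000000000000000000000000) := T_49 (nat_lit 128) (nat_lit 111) (nat_lit 6) (nat_lit 8) (nat_lit 10) L2063 (by decide +kernel)
theorem L2065 : W_49 (nat_lit 5) (nat_lit 0x1d000f0001000080000000000000000000000000000000) (nat_lit 0x0) (nat_lit 0xcc00700018000000000000000000000000000) := T_49 (nat_lit 146) (nat_lit 147) (nat_lit 2) (nat_lit 7) (nat_lit 9) L2064 (by decide +kernel)
theorem L2066 : W_49 (nat_lit 6) (nat_lit 0x1c000f0001000080000000000000000000000000000000) (nat_lit 0x0) (nat_lit 0x30000000cc00700018000000000000000000000000000) := T_49 (nat_lit 176) (nat_lit 177) (nat_lit 2) (nat_lit 6) (nat_lit 10) L2065 (by decide +kernel)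
theorem L2067 : W_49 (nat_lit 7) (nat_lit 0x14000f0001000080000000000000000000000000000000) (nat_lit 0x0) (nat_lit 0x10000b0000000cc00700018000000000000000000000000000) := T_49 (nat_lit 179) (nat_lit 196) (nat_lit 7) (nat_lit 8) (nat_lit 7) L2066 (by decide +kernel)
theorem L2068 : W_49 (nat_lit 8) (nat_lit 0x4000f0001000080000000000000000000000000000000) (nat_lit 0x0) (nat_lit 0x10003b0000000cc00700018000000000000000000000000000) := T_49 (nat_lit 180) (nat_lit 181) (nat_lit 3) (nat_lit 7) (nat_lit 9) L2067 (by decide +kernel)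
theorem L2069 : W_49 (nat_lit 9) (nat_lit 0x4000e0001000080000000000000000000000000000000) (nat_lit 0x0) (nat_lit 0x10003b8001800ce00700018000000000000000000000000000) := Q_49 (nat_lit 160) (C_49 L2054 (C_49 L2057 (C_49 L2061 (C_49 L2068 N_49)))) (by decide +kernel)
theorem L2070 : W_49 (nat_lit 10) (nat_lit 0x400060001000080000000000000000000000000000000) (nat_lit 0x0) (nat_lit 0x10003b8039800ce00700018000000000000000000000000000) := Q_49 (nat_lit 163) (C_49 L2046 (C_49 L2049 (C_49 L2051 (C_49 L2069 N_49)))) (by decide +kernel)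
theorem L2073 : W_49 (nat_lit 4) (nat_lit 0x400060001000080000000000000000000000000000000) (nat_lit 0x0) (nat_lit 0x4000380190000000000000000000000000000000000000000) := T_49 (nat_lit 177) (nat_lit 194) (nat_lit 5) (nat_lit 8) (nat_lit 7) L2072 (by decide +kernel)
theorem L2074 : W_49 (nat_lit 2) (nat_lit 0xc000f0001800580000000000000000000000000000000) (nat_lit 0x0) (nat_lit 0x3000008000000000000000000000000000000000000000) := D_49 (nat_lit 180) (nat_lit 181) (nat_lit 159) (nat_lit 3) (nat_lit 7) (nat_lit 9) (nat_lit 3) (nat_lit 6) (nat_lit 9) (by decide +kernel)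
theorem L2075 : W_49 (nat_lit 3) (nat_lit 0xc000e0001800580000000000000000000000000000000) (nat_lit 0x0) (nat_lit 0x3000018000400000000000000000000000000000000000) := T_49 (nat_lit 160) (nat_lit 142) (nat_lit 0) (nat_lit 10) (nat_lit 9) L2074 (by decide +kernel)
theorem L2076 : W_49 (nat_lit 4) (nat_lit 0xc000e0001800180000000000000000000000000000000) (nat_lit 0x0) (nat_lit 0x3000018000400600000000000000000000000000000000) := T_49 (nat_lit 130) (nat_lit 129) (nat_lit 1) (nat_lit 11) (nat_lit 7) L2075 (by decide +kernel)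
theorem L2077 : W_49 (nat_lit 5) (nat_lit 0xc000e0001800080000000000000000000000000000000) (nat_lit 0x0) (nat_lit 0x3000018000400700008000000000000000000000000000) := T_49 (nat_lit 128) (nat_lit 111) (nat_lit 6) (nat_lit 8) (nat_lit 10) L2076 (by decide +kernel)
theorem L2078 : W_49 (nat_lit 6) (nat_lit 0xc00060001800080000000000000000000000000000000) (nat_lit 0x0) (nat_lit 0x3000198000400700008000000000000000000000000000) := T_49 (nat_lit 163) (nat_lit 164) (nat_lit 0) (nat_lit 11) (nat_lit 9) L2077 (by decide +kernel)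
theorem L2079 : W_49 (nat_lit 7) (nat_lit 0x400060001800080000000000000000000000000000000) (nat_lit 0x0) (nat_lit 0x10003800198000400700008000000000000000000000000000) := T_49 (nat_lit 179) (nat_lit 196) (nat_lit 7) (nat_lit 8) (nat_lit 7) L2078 (by decide +kernel)
theorem L2080 : W_49 (nat_lit 2) (nat_lit 0xc000e0005800380000000000000000000000000000000) (nat_lit 0x0) (nat_lit 0x10008000040000000000000000000000000000000) := D_49 (nat_lit 147) (nat_lit 126) (nat_lit 160) (nat_lit 3) (nat_lit 7) (nat_lit 7) (nat_lit 2) (nat_lit 7) (nat_lit 9) (by decide +kernel)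
theorem L2081 : W_49 (nat_lit 3) (nat_lit 0xc000e0001800380000000000000000000000000000000) (nat_lit 0x0) (nat_lit 0x1000c000040010000000000000000000000000000) := T_49 (nat_lit 146) (nat_lit 112) (nat_lit 5) (nat_lit 10) (nat_lit 6) L2080 (by decide +kernel)
theorem L2082 : W_49 (nat_lit 4) (nat_lit 0xc000e0001800180000000000000000000000000000000) (nat_lit 0x0) (nat_lit 0x1000c000640010000000000000000000000000000) := T_49 (nat_lit 129) (nat_lit 130) (nat_lit 1) (nat_lit 11) (nat_lit 7) L2081 (by decide +kernel)
theorem L2083 : W_49 (nat_lit 5) (nat_lit 0xc000e0001800080000000000000000000000000000000) (nat_lit 0x0) (nat_lit 0x1000c000740018000000000000000000000000000) := T_49 (nat_lit 128) (nat_lit 111) (nat_lit 6) (nat_lit 8) (nat_lit 10) L2082 (by decide +kernel)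
theorem L2084 : W_49 (nat_lit 6) (nat_lit 0x4000e0001800080000000000000000000000000000000) (nat_lit 0x0) (nat_lit 0x1000080001000c000740018000000000000000000000000000) := T_49 (nat_lit 179) (nat_lit 196) (nat_lit 7) (nat_lit 8) (nat_lit 7) L2083 (by decide +kernel)
theorem L2085 : W_49 (nat_lit 7) (nat_lit 0x400060001800080000000000000000000000000000000) (nat_lit 0x0) (nat_lit 0x1000080019000c000740018000000000000000000000000000) := T_49 (nat_lit 163) (nat_lit 164) (nat_lit 0) (nat_lit 11) (nat_lit 9) L2084 (by decide +kernel)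
theorem L2088 : W_49 (nat_lit 2) (nat_lit 0x400060001c00180000000000000000000000000000000) (nat_lit 0x0) (nat_lit 0x640000000000000000000000000000000) := D_49 (nat_lit 129) (nat_lit 130) (nat_lit 126) (nat_lit 1) (nat_lit 11) (nat_lit 7) (nat_lit 1) (nat_lit 10) (nat_lit 7) (by decide +kernel)
theorem L2089 : W_49 (nat_lit 3) (nat_lit 0x400060001800180000000000000000000000000000000) (nat_lit 0x0) (nat_lit 0x600640000000000000000000000000000000) := T_49 (nat_lit 142) (nat_lit 141) (nat_lit 3) (nat_lit 5) (nat_lit 8) L2088 (by decide +kernel)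
theorem L2090 : W_49 (nat_lit 4) (nat_lit 0x400060001800080000000000000000000000000000000) (nat_lit 0x0) (nat_lit 0x600740008000000000000000000000000000) := T_49 (nat_lit 128) (nat_lit 111) (nat_lit 6) (nat_lit 8) (nat_lit 10) L2089 (by decide +kernel)
theorem L2091 : W_49 (nat_lit 8) (nat_lit 0x400060001000080000000000000000000000000000000) (nat_lit 0x0) (nat_lit 0x1000380019800ce00740018000000000000000000000000000) := Q_49 (nat_lit 143) (C_49 L2079 (C_49 L2085 (C_49 L2087 (C_49 L2090 N_49)))) (by decide +kernel)
theorem L2097 : W_49 (nat_lit 7) (nat_lit 0x700060001000180000000000000000000000000000000) (nat_lit 0x0) (nat_lit 0xf300780001c000000000000000000000000000000000000000) := T_49 (nat_lit 179) (nat_lit 196) (nat_lit 7) (nat_lit 8) (nat_lit 7) L2096 (by decide +kernel)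
theorem L2098 : W_49 (nat_lit 8) (nat_lit 0x600060001000180000000000000000000000000000000) (nat_lit 0x0) (nat_lit 0xf300798001c000000000000000000000000000000000000000) := T_49 (nat_lit 176) (nat_lit 175) (nat_lit 2) (nat_lit 5) (nat_lit 10) L2097 (by decide +kernel)
theorem L2099 : W_49 (nat_lit 9) (nat_lit 0x400060001000180000000000000000000000000000000) (nat_lit 0x0) (nat_lit 0xf7007b8001c000000000000000000000000000000000000000) := T_49 (nat_lit 177) (nat_lit 194) (nat_lit 5) (nat_lit 8) (nat_lit 7) L2098 (by decide +kernel)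
theorem L2100 : W_49 (nat_lit 10) (nat_lit 0x400060001000080000000000000000000000000000000) (nat_lit 0x0) (nat_lit 0xf7007b8001c000000100008000000000000000000000000000) := T_49 (nat_lit 128) (nat_lit 111) (nat_lit 6) (nat_lit 8) (nat_lit 10) L2099 (by decide +kernel)
theorem L2103 : W_49 (nat_lit 4) (nat_lit 0xc00060001000080000000000000000000000000000000) (nat_lit 0x0) (nat_lit 0x4000380080000000100008000000000000000000000000000) := T_49 (nat_lit 128) (nat_lit 111) (nat_lit 6) (nat_lit 8) (nat_lit 10) L2102 (by decide +kernel)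
theorem L2104 : W_49 (nat_lit 5) (nat_lit 0x400060001000080000000000000000000000000000000) (nat_lit 0x0) (nat_lit 0x14000b80080000000100008000000000000000000000000000) := T_49 (nat_lit 179) (nat_lit 196) (nat_lit 7) (nat_lit 8) (nat_lit 7) L2103 (by decide +kernel)
theorem L2105 : W_49 (nat_lit 11) (nat_lit 0x400020001000080000000000000000000000000000000) (nat_lit 0x0) (nat_lit 0xf7007b803dc00ce00740018000000000000000000000000000) := Q_49 (nat_lit 162) (C_49 L2070 (C_49 L2073 (C_49 L2091 (C_49 L2100 (C_49 L2104 N_49))))) (by decide +kernel)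
theorem L2106 : W_49 (nat_lit 2) (nat_lit 0x8000400020001000080000000000000000000000000000000) (nat_lit 0x0) (nat_lit 0x80004000200000000000000000000000000000000000000000000) := D_49 (nat_lit 194) (nat_lit 211) (nat_lit 177) (nat_lit 5) (nat_lit 8) (nat_lit 8) (nat_lit 5) (nat_lit 8) (nat_lit 7) (by decide +kernel)
theorem L2107 : W_49 (nat_lit 2) (nat_lit 0x4000100008000680160001800080000000000000000000000000000000) (nat_lit 0x0) (nat_lit 0x80002000000000000800000000000000000000000000000000000000000000) := D_49 (nat_lit 229) (nat_lit 179) (nat_lit 247) (nat_lit 6) (nat_lit 8) (nat_lit 13) (nat_lit 7) (nat_lit 8) (nat_lit 10) (by decide +kernel)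
theorem L2108 : W_49 (nat_lit 3) (nat_lit 0x100008000680160001800080000000000000000000000000000000) (nat_lit 0x0) (nat_lit 0x80006000200000000800000000000000000000000000000000000000000000) := T_49 (nat_lit 230) (nat_lit 213) (nat_lit 7) (nat_lit 8) (nat_lit 9) L2107 (by decide +kernel)
theorem L2109 : W_49 (nat_lit 4) (nat_lit 0x100008000600160001800080000000000000000000000000000000) (nat_lit 0x0) (nat_lit 0x80006000200000000980000000000000000000000000000000000000000000) := T_49 (nat_lit 175) (nat_lit 176) (nat_lit 2) (nat_lit 5) (nat_lit 10) L2108 (by decide +kernel)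
theorem L2110 : W_49 (nat_lit 5) (nat_lit 0x100008000400160001800080000000000000000000000000000000) (nat_lit 0x0) (nat_lit 0x80006000200004000b80000000000000000000000000000000000000000000) := T_49 (nat_lit 177) (nat_lit 194) (nat_lit 5) (nat_lit 8) (nat_lit 7) L2109 (by decide +kernel)
theorem L2111 : W_49 (nat_lit 6) (nat_lit 0x8000400160001800080000000000000000000000000000000) (nat_lit 0x0) (nat_lit 0x80006000300004000b80010000000000000000000000000000000000000000) := T_49 (nat_lit 212) (nat_lit 160) (nat_lit 4) (nat_lit 8) (nat_lit 12) L2110 (by decide +kernel)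
theorem L2112 : W_49 (nat_lit 7) (nat_lit 0x8000400060001800080000000000000000000000000000000) (nat_lit 0x0) (nat_lit 0x80006000300004000b80190000000000000000000000000000000000000000) := T_49 (nat_lit 164) (nat_lit 163) (nat_lit 0) (nat_lit 11) (nat_lit 9) L2111 (by decide +kernel)
theorem L2113 : W_49 (nat_lit 8) (nat_lit 0x8000400060001000080000000000000000000000000000000) (nat_lit 0x0) (nat_lit 0x80006000300004000b80190000800040000000000000000000000000000000) := T_49 (nat_lit 143) (nat_lit 126) (nat_lit 4) (nat_lit 8) (nat_lit 11) L2112 (by decide +kernel)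
theorem L2114 : W_49 (nat_lit 2) (nat_lit 0x8000700060001000080000000000000000000000000000000) (nat_lit 0x0) (nat_lit 0x190000000000000000000000000000000000000000) := D_49 (nat_lit 163) (nat_lit 164) (nat_lit 160) (nat_lit 1) (nat_lit 11) (nat_lit 9) (nat_lit 1) (nat_lit 10) (nat_lit 9) (by decide +kernel)
theorem L2115 : W_49 (nat_lit 3) (nat_lit 0x8000600060001000080000000000000000000000000000000) (nat_lit 0x0) (nat_lit 0x180190000000000000000000000000000000000000000) := T_49 (nat_lit 176) (nat_lit 175) (nat_lit 2) (nat_lit 5) (nat_lit 10) L2114 (by decide +kernel)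
theorem L2116 : W_49 (nat_lit 4) (nat_lit 0x8000400060001000080000000000000000000000000000000) (nat_lit 0x0) (nat_lit 0x4000380190000000000000000000000000000000000000000) := T_49 (nat_lit 177) (nat_lit 194) (nat_lit 5) (nat_lit 8) (nat_lit 7) L2115 (by decide +kernel)
theorem L2117 : W_49 (nat_lit 2) (nat_lit 0x4000100008000400060001a00580000000000000000000000000000000) (nat_lit 0x0) (nat_lit 0x80002000000000000800000000000000000000000000000000000000000000) := D_49 (nat_lit 229) (nat_lit 179) (nat_lit 247) (nat_lit 6) (nat_lit 8) (nat_lit 13) (nat_lit 7) (nat_lit 8) (nat_lit 10) (by decide +kernel)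
theorem L2118 : W_49 (nat_lit 3) (nat_lit 0x100008000400060001a00580000000000000000000000000000000) (nat_lit 0x0) (nat_lit 0x80006000200000000800000000000000000000000000000000000000000000) := T_49 (nat_lit 230) (nat_lit 213) (nat_lit 7) (nat_lit 8) (nat_lit 9) L2117 (by decide +kernel)
theorem L2119 : W_49 (nat_lit 4) (nat_lit 0x100008000400060001a00180000000000000000000000000000000) (nat_lit 0x0) (nat_lit 0x80006000200000000800000000000600000000000000000000000000000000) := T_49 (nat_lit 130) (nat_lit 129) (nat_lit 1) (nat_lit 11) (nat_lit 7) L2118 (by decide +kernel)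
theorem L2120 : W_49 (nat_lit 5) (nat_lit 0x8000400060001a00180000000000000000000000000000000) (nat_lit 0x0) (nat_lit 0x80006000300000000800010000000600000000000000000000000000000000) := T_49 (nat_lit 212) (nat_lit 160) (nat_lit 4) (nat_lit 8) (nat_lit 12) L2119 (by decide +kernel)
theorem L2121 : W_49 (nat_lit 6) (nat_lit 0x8000400060001800180000000000000000000000000000000) (nat_lit 0x0) (nat_lit 0x80006000300000000800010000600600000000000000000000000000000000) := T_49 (nat_lit 141) (nat_lit 142) (nat_lit 3) (nat_lit 5) (nat_lit 8) L2120 (by decide +kernel)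
theorem L2122 : W_49 (nat_lit 7) (nat_lit 0x8000400060001000180000000000000000000000000000000) (nat_lit 0x0) (nat_lit 0x80006000300000000800010000e00640000000000000000000000000000000) := T_49 (nat_lit 143) (nat_lit 126) (nat_lit 4) (nat_lit 8) (nat_lit 11) L2121 (by decide +kernel)
theorem L2123 : W_49 (nat_lit 8) (nat_lit 0x8000400060001000080000000000000000000000000000000) (nat_lit 0x0) (nat_lit 0x80006000300000000800010000e00740008000000000000000000000000000) := T_49 (nat_lit 128) (nat_lit 111) (nat_lit 6) (nat_lit 8) (nat_lit 10) L2122 (by decide +kernel)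
theorem L2124 : W_49 (nat_lit 2) (nat_lit 0x80006000e0001a00080000000000000000000000000000000) (nat_lit 0x0) (nat_lit 0x980000000000000000000000000000000000000000000) := D_49 (nat_lit 176) (nat_lit 179) (nat_lit 175) (nat_lit 2) (nat_lit 6) (nat_lit 10) (nat_lit 2) (nat_lit 5) (nat_lit 10) (by decide +kernel)
theorem L2125 : W_49 (nat_lit 3) (nat_lit 0x80004000e0001a00080000000000000000000000000000000) (nat_lit 0x0) (nat_lit 0x4000b80000000000000000000000000000000000000000000) := T_49 (nat_lit 177) (nat_lit 194) (nat_lit 5) (nat_lit 8) (nat_lit 7) L2124 (by decide +kernel)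
theorem L2126 : W_49 (nat_lit 4) (nat_lit 0x8000400060001a00080000000000000000000000000000000) (nat_lit 0x0) (nat_lit 0x4000b80180000000000000000000000000000000000000000) := T_49 (nat_lit 163) (nat_lit 164) (nat_lit 0) (nat_lit 11) (nat_lit 9) L2125 (by decide +kernel)
theorem L2127 : W_49 (nat_lit 5) (nat_lit 0x8000400060001800080000000000000000000000000000000) (nat_lit 0x0) (nat_lit 0x4000b80180000600000000000000000000000000000000000) := T_49 (nat_lit 141) (nat_lit 142) (nat_lit 3) (nat_lit 5) (nat_lit 8) L2126 (by decide +kernel)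
theorem L2128 : W_49 (nat_lit 6) (nat_lit 0x8000400060001000080000000000000000000000000000000) (nat_lit 0x0) (nat_lit 0x4000b80180000e00040000000000000000000000000000000) := T_49 (nat_lit 143) (nat_lit 126) (nat_lit 4) (nat_lit 8) (nat_lit 11) L2127 (by decide +kernel)
theorem L2129 : W_49 (nat_lit 9) (nat_lit 0x8000400020001000080000000000000000000000000000000) (nat_lit 0x0) (nat_lit 0x80006000300004000b801d0000e00740008000000000000000000000000000) := Q_49 (nat_lit 162) (C_49 L2113 (C_49 L2116 (C_49 L2123 (C_49 L2128 N_49)))) (by decide +kernel)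
theorem L2130 : W_49 (nat_lit 10) (nat_lit 0x400020001000080000000000000000000000000000000) (nat_lit 0x0) (nat_lit 0xa000700038000c000b801d0000e00740008000000000000000000000000000) := Q_49 (nat_lit 195) (C_49 L2044 (C_49 L2106 (C_49 L2129 N_49))) (by decide +kernel)
theorem L2131 : W_49 (nat_lit 12) (nat_lit 0x20001000080000000000000000000000000000000) (nat_lit 0x0) (nat_lit 0xa00070003800ff007f803dc00ce00740018000000000000000000000000000) := Q_49 (nat_lit 178) (C_49 L527 (C_49 L2045 (C_49 L2105 (C_49 L1765 (C_49 L2130 N_49))))) (by decide +kernel)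
theorem L2132 : W_49 (nat_lit 2) (nat_lit 0x60002000100088003c002200000000000000000000000) (nat_lit 0x0) (nat_lit 0x1000040004000000000000000000000000) := D_49 (nat_lit 114) (nat_lit 132) (nat_lit 98) (nat_lit 3) (nat_lit 9) (nat_lit 6) (nat_lit 2) (nat_lit 9) (nat_lit 6) (by decide +kernel)
theorem L2133 : W_49 (nat_lit 3) (nat_lit 0x60002000100088003c000200000000000000000000000) (nat_lit 0x0) (nat_lit 0x1000040007000000000000000000000000) := T_49 (nat_lit 97) (nat_lit 96) (nat_lit 2) (nat_lit 8) (nat_lit 6) L2132 (by decide +kernel)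
theorem L2134 : W_49 (nat_lit 4) (nat_lit 0x60002000100008003c000200000000000000000000000) (nat_lit 0x0) (nat_lit 0x1c00040007000000000000000000000000) := T_49 (nat_lit 131) (nat_lit 130) (nat_lit 3) (nat_lit 8) (nat_lit 6) L2133 (by decide +kernel)
theorem L2135 : W_49 (nat_lit 5) (nat_lit 0x60002000100008003c000000000000000000000000000) (nat_lit 0x0) (nat_lit 0x1c00040007300000000000000000000000) := T_49 (nat_lit 93) (nat_lit 92) (nat_lit 0) (nat_lit 11) (nat_lit 6) L2134 (by decide +kernel)
theorem L2136 : W_49 (nat_lit 6) (nat_lit 0x60002000100008001c000000000000000000000000000) (nat_lit 0x0) (nat_lit 0x1c40060007300000000000000000000000) := T_49 (nat_lit 113) (nat_lit 126) (nat_lit 1) (nat_lit 11) (nat_lit 6) L2135 (by decide +kernel)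
theorem L2137 : W_49 (nat_lit 7) (nat_lit 0x40002000100008001c000000000000000000000000000) (nat_lit 0x0) (nat_lit 0x4000200000000001c40060007300000000000000000000000) := T_49 (nat_lit 177) (nat_lit 194) (nat_lit 5) (nat_lit 8) (nat_lit 7) L2136 (by decide +kernel)
theorem L2138 : W_49 (nat_lit 8) (nat_lit 0x2000100008001c000000000000000000000000000) (nat_lit 0x0) (nat_lit 0x4000600000000001d40060007300000000000000000000000) := T_49 (nat_lit 178) (nat_lit 128) (nat_lit 6) (nat_lit 8) (nat_lit 10) L2137 (by decide +kernel)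
theorem L2139 : W_49 (nat_lit 2) (nat_lit 0x2000900078003c000200000000800000000000000) (nat_lit 0x0) (nat_lit 0x2000100000000000000000800000000000000000000000) := D_49 (nat_lit 164) (nat_lit 95) (nat_lit 181) (nat_lit 4) (nat_lit 11) (nat_lit 9) (nat_lit 4) (nat_lit 11) (nat_lit 10) (by decide +kernel)
theorem L2140 : W_49 (nat_lit 3) (nat_lit 0x2000100078003c000200000000800000000000000) (nat_lit 0x0) (nat_lit 0x2000100018000000000000800000000000000000000000) := T_49 (nat_lit 147) (nat_lit 148) (nat_lit 3) (nat_lit 8) (nat_lit 7) L2139 (by decide +kernel)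
theorem L2141 : W_49 (nat_lit 4) (nat_lit 0x2000100078003c000200000000000000000000000) (nat_lit 0x0) (nat_lit 0x2000100018000000000000800010000800000000000000) := T_49 (nat_lit 59) (nat_lit 76) (nat_lit 7) (nat_lit 8) (nat_lit 3) L2140 (by decide +kernel)
theorem L2142 : W_49 (nat_lit 5) (nat_lit 0x2000100058003c000200000000000000000000000) (nat_lit 0x0) (nat_lit 0x2000100018800200000000800010000800000000000000) := T_49 (nat_lit 129) (nat_lit 143) (nat_lit 1) (nat_lit 11) (nat_lit 7) L2141 (by decide +kernel)
theorem L2143 : W_49 (nat_lit 6) (nat_lit 0x2000100018003c000200000000000000000000000) (nat_lit 0x0) (nat_lit 0x2000100018800e00000000800010000800000000000000) := T_49 (nat_lit 130) (nat_lit 131) (nat_lit 3) (nat_lit 8) (nat_lit 6) L2142 (by decide +kernel)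
theorem L2144 : W_49 (nat_lit 7) (nat_lit 0x2000100018003c000000000000000000000000000) (nat_lit 0x0) (nat_lit 0x2000100018800e00000000b00010000800000000000000) := T_49 (nat_lit 93) (nat_lit 92) (nat_lit 0) (nat_lit 11) (nat_lit 6) L2143 (by decide +kernel)
theorem L2145 : W_49 (nat_lit 8) (nat_lit 0x2000100018001c000000000000000000000000000) (nat_lit 0x0) (nat_lit 0x2000100018800e00060000b00010000800000000000000) := T_49 (nat_lit 113) (nat_lit 114) (nat_lit 1) (nat_lit 12) (nat_lit 6) L2144 (by decide +kernel)
theorem L2146 : W_49 (nat_lit 9) (nat_lit 0x2000100008001c000000000000000000000000000) (nat_lit 0x0) (nat_lit 0x2400100018800f00060000b00010000800000000000000) := T_49 (nat_lit 128) (nat_lit 178) (nat_lit 6) (nat_lit 8) (nat_lit 10) L2145 (by decide +kernel)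
theorem L2147 : W_49 (nat_lit 2) (nat_lit 0x2000100088003c002200000000000000000000000) (nat_lit 0x0) (nat_lit 0x1000040004000000000000000000000000) := D_49 (nat_lit 114) (nat_lit 132) (nat_lit 98) (nat_lit 3) (nat_lit 9) (nat_lit 6) (nat_lit 2) (nat_lit 9) (nat_lit 6) (by decide +kernel)
theorem L2148 : W_49 (nat_lit 3) (nat_lit 0x2000100088003c000200000000000000000000000) (nat_lit 0x0) (nat_lit 0x1000040007000000000000000000000000) := T_49 (nat_lit 97) (nat_lit 96) (nat_lit 2) (nat_lit 8) (nat_lit 6) L2147 (by decide +kernel)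
theorem L2149 : W_49 (nat_lit 4) (nat_lit 0x2000100008003c000200000000000000000000000) (nat_lit 0x0) (nat_lit 0x1c00040007000000000000000000000000) := T_49 (nat_lit 131) (nat_lit 130) (nat_lit 3) (nat_lit 8) (nat_lit 6) L2148 (by decide +kernel)
theorem L2150 : W_49 (nat_lit 5) (nat_lit 0x2000100008003c000000000000000000000000000) (nat_lit 0x0) (nat_lit 0x1c00040007300000000000000000000000) := T_49 (nat_lit 93) (nat_lit 92) (nat_lit 0) (nat_lit 11) (nat_lit 6) L2149 (by decide +kernel)
theorem L2151 : W_49 (nat_lit 6) (nat_lit 0x2000100008001c000000000000000000000000000) (nat_lit 0x0) (nat_lit 0x1c40060007300000000000000000000000) := T_49 (nat_lit 113) (nat_lit 126) (nat_lit 1) (nat_lit 11) (nat_lit 6) L2150 (by decide +kernel)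
theorem L2152 : W_49 (nat_lit 2) (nat_lit 0x2000100008003c000000000000000000000000000) (nat_lit 0x0) (nat_lit 0x400000000000100040000000000000000000000000000) := D_49 (nat_lit 128) (nat_lit 178) (nat_lit 114) (nat_lit 6) (nat_lit 8) (nat_lit 10) (nat_lit 1) (nat_lit 12) (nat_lit 6) (by decide +kernel)
theorem L2153 : W_49 (nat_lit 3) (nat_lit 0x2000100008001c000000000000000000000000000) (nat_lit 0x0) (nat_lit 0x400000000000140060000000000000000000000000000) := T_49 (nat_lit 113) (nat_lit 126) (nat_lit 1) (nat_lit 11) (nat_lit 6) L2152 (by decide +kernel)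
theorem L2154 : W_49 (nat_lit 2) (nat_lit 0x40004000200010000c001c000000000000000000000000000) (nat_lit 0x0) (nat_lit 0x80008000000000000800000000000000000000000000000000000) := D_49 (nat_lit 195) (nat_lit 211) (nat_lit 143) (nat_lit 5) (nat_lit 8) (nat_lit 8) (nat_lit 4) (nat_lit 8) (nat_lit 11) (by decide +kernel)
theorem L2155 : W_49 (nat_lit 3) (nat_lit 0x400040002000100008001c000000000000000000000000000) (nat_lit 0x0) (nat_lit 0x80008000000000000800040020000000000000000000000000000) := T_49 (nat_lit 126) (nat_lit 113) (nat_lit 1) (nat_lit 11) (nat_lit 6) L2154 (by decide +kernel)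
theorem L2156 : W_49 (nat_lit 4) (nat_lit 0x40002000100008001c000000000000000000000000000) (nat_lit 0x0) (nat_lit 0x8000c000200000000800040020000000000000000000000000000) := T_49 (nat_lit 194) (nat_lit 177) (nat_lit 5) (nat_lit 8) (nat_lit 7) L2155 (by decide +kernel)
theorem L2157 : W_49 (nat_lit 5) (nat_lit 0x2000100008001c000000000000000000000000000) (nat_lit 0x0) (nat_lit 0x8000c000600000000800140020000000000000000000000000000) := T_49 (nat_lit 178) (nat_lit 128) (nat_lit 6) (nat_lit 8) (nat_lit 10) L2156 (by decide +kernel)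
theorem L2158 : W_49 (nat_lit 2) (nat_lit 0x2000100038001c000000000000000000000000000) (nat_lit 0x0) (nat_lit 0x800c00000000000000000000000000000000) := D_49 (nat_lit 130) (nat_lit 131) (nat_lit 143) (nat_lit 0) (nat_lit 12) (nat_lit 7) (nat_lit 1) (nat_lit 11) (nat_lit 7) (by decide +kernel)
theorem L2159 : W_49 (nat_lit 2) (nat_lit 0x1200090007a001c000000000000000000000000000) (nat_lit 0x0) (nat_lit 0x4000000000000800040000000000000000000) := D_49 (nat_lit 95) (nat_lit 78) (nat_lit 146) (nat_lit 7) (nat_lit 10) (nat_lit 4) (nat_lit 7) (nat_lit 10) (nat_lit 5) (by decide +kernel)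
theorem L2160 : W_49 (nat_lit 3) (nat_lit 0x200090007a001c000000000000000000000000000) (nat_lit 0x0) (nat_lit 0x2000100004000000000000800040000000000000000000) := T_49 (nat_lit 164) (nat_lit 181) (nat_lit 4) (nat_lit 11) (nat_lit 10) L2159 (by decide +kernel)
theorem L2161 : W_49 (nat_lit 4) (nat_lit 0x200010007a001c000000000000000000000000000) (nat_lit 0x0) (nat_lit 0x200010001c000000000000800040000000000000000000) := T_49 (nat_lit 147) (nat_lit 148) (nat_lit 3) (nat_lit 8) (nat_lit 7) L2160 (by decide +kernel)
theorem L2162 : W_49 (nat_lit 5) (nat_lit 0x200010003a001c000000000000000000000000000) (nat_lit 0x0) (nat_lit 0x200010001c000c00000000800040000000000000000000) := T_49 (nat_lit 130) (nat_lit 131) (nat_lit 0) (nat_lit 12) (nat_lit 7) L2161 (by decide +kernel)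
theorem L2163 : W_49 (nat_lit 6) (nat_lit 0x2000100038001c000000000000000000000000000) (nat_lit 0x0) (nat_lit 0x200010001c000c60000000800040000000000000000000) := T_49 (nat_lit 125) (nat_lit 126) (nat_lit 2) (nat_lit 6) (nat_lit 7) L2162 (by decide +kernel)
theorem L2164 : W_49 (nat_lit 2) (nat_lit 0xa00058003c001c000000000000000000000000000) (nat_lit 0x0) (nat_lit 0x2000140000000000000000000000000000000000000000) := D_49 (nat_lit 164) (nat_lit 162) (nat_lit 181) (nat_lit 0) (nat_lit 11) (nat_lit 9) (nat_lit 7) (nat_lit 10) (nat_lit 6) (by decide +kernel)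
theorem L2165 : W_49 (nat_lit 3) (nat_lit 0x200058003c001c000000000000000000000000000) (nat_lit 0x0) (nat_lit 0x30001c0000000000000000000000000000000000000000) := T_49 (nat_lit 163) (nat_lit 180) (nat_lit 4) (nat_lit 10) (nat_lit 10) L2164 (by decide +kernel)
theorem L2166 : W_49 (nat_lit 4) (nat_lit 0x200050003c001c000000000000000000000000000) (nat_lit 0x0) (nat_lit 0x30001c0000c00000000000000000000000000000000000) := T_49 (nat_lit 143) (nat_lit 142) (nat_lit 1) (nat_lit 10) (nat_lit 7) L2165 (by decide +kernel)
theorem L2167 : W_49 (nat_lit 5) (nat_lit 0x200010003c001c000000000000000000000000000) (nat_lit 0x0) (nat_lit 0x30001c000cc00000000000000000000000000000000000) := T_49 (nat_lit 146) (nat_lit 147) (nat_lit 3) (nat_lit 7) (nat_lit 7) L2166 (by decide +kernel)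
theorem L2168 : W_49 (nat_lit 6) (nat_lit 0x2000100038001c000000000000000000000000000) (nat_lit 0x0) (nat_lit 0x30001c000cc00060000000000000000000000000000000) := T_49 (nat_lit 126) (nat_lit 125) (nat_lit 2) (nat_lit 6) (nat_lit 7) L2167 (by decide +kernel)
theorem L2169 : W_49 (nat_lit 7) (nat_lit 0x2000100018001c000000000000000000000000000) (nat_lit 0x0) (nat_lit 0x30001c001cc00e60000000800040000000000000000000) := Q_49 (nat_lit 129) (C_49 L2158 (C_49 L2163 (C_49 L2168 N_49))) (by decide +kernel)
theorem L2170 : W_49 (nat_lit 8) (nat_lit 0x2000100008001c000000000000000000000000000) (nat_lit 0x0) (nat_lit 0x34001c001cc00f60000000800040000000000000000000) := T_49 (nat_lit 128) (nat_lit 178) (nat_lit 6) (nat_lit 8) (nat_lit 10) L2169 (by decide +kernel)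
theorem L2171 : W_49 (nat_lit 10) (nat_lit 0x2000100008000c000000000000000000000000000) (nat_lit 0x0) (nat_lit 0x8000c0036001c001cc01f60070007b00050000800000000000000) := Q_49 (nat_lit 112) (C_49 L2138 (C_49 L2146 (C_49 L2151 (C_49 L2153 (C_49 L2157 (C_49 L2170 N_49)))))) (by decide +kernel)
theorem L2172 : W_49 (nat_lit 11) (nat_lit 0x20001000080004000000000000000000000000000) (nat_lit 0x0) (nat_lit 0x8000c0036001c001cc01f60078007f00050000800000000000000) := T_49 (nat_lit 111) (nat_lit 94) (nat_lit 6) (nat_lit 8) (nat_lit 9) L2171 (by decide +kernel)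
theorem L2173 : W_49 (nat_lit 2) (nat_lit 0x30001000080004000400000000000000000000000) (nat_lit 0x0) (nat_lit 0x800000000000200020000000000000000000) := D_49 (nat_lit 93) (nat_lit 143) (nat_lit 77) (nat_lit 5) (nat_lit 8) (nat_lit 5) (nat_lit 6) (nat_lit 8) (nat_lit 8) (by decide +kernel)
theorem L2174 : W_49 (nat_lit 3) (nat_lit 0x20001000080004000400000000000000000000000) (nat_lit 0x0) (nat_lit 0x200010000800000000000200020000000000000000000) := T_49 (nat_lit 160) (nat_lit 177) (nat_lit 5) (nat_lit 8) (nat_lit 6) L2173 (by decide +kernel)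
theorem L2175 : W_49 (nat_lit 4) (nat_lit 0x20001000080004000000000000000000000000000) (nat_lit 0x0) (nat_lit 0x200010000800000008000600020000000000000000000) := T_49 (nat_lit 94) (nat_lit 111) (nat_lit 6) (nat_lit 8) (nat_lit 9) L2174 (by decide +kernel)
theorem L2176 : W_49 (nat_lit 2) (nat_lit 0x20002000100008000c000000000000000000000000000) (nat_lit 0x0) (nat_lit 0x4000400000000000100000000000000000000000000000000) := D_49 (nat_lit 178) (nat_lit 194) (nat_lit 128) (nat_lit 5) (nat_lit 8) (nat_lit 7) (nat_lit 6) (nat_lit 8) (nat_lit 10) (by decide +kernel)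
theorem L2177 : W_49 (nat_lit 3) (nat_lit 0x200020001000080004000000000000000000000000000) (nat_lit 0x0) (nat_lit 0x4000400000000000100008000400000000000000000000000) := T_49 (nat_lit 111) (nat_lit 94) (nat_lit 6) (nat_lit 8) (nat_lit 9) L2176 (by decide +kernel)
theorem L2178 : W_49 (nat_lit 4) (nat_lit 0x20001000080004000000000000000000000000000) (nat_lit 0x0) (nat_lit 0x4000600010000000100008000400000000000000000000000) := T_49 (nat_lit 177) (nat_lit 160) (nat_lit 5) (nat_lit 8) (nat_lit 6) L2177 (by decide +kernel)
theorem L2184 : W_49 (nat_lit 3) (nat_lit 0x30001000180004000200008000000000000000000) (nat_lit 0x0) (nat_lit 0x400000000000000008000000010000c00000000000000) := T_49 (nat_lit 111) (nat_lit 178) (nat_lit 6) (nat_lit 8) (nat_lit 10) L1726 (by decide +kernel)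
theorem L2185 : W_49 (nat_lit 4) (nat_lit 0x30001000180004000200000000000000000000000) (nat_lit 0x0) (nat_lit 0x400000000000000008000100018000c00000000000000) := T_49 (nat_lit 75) (nat_lit 92) (nat_lit 4) (nat_lit 8) (nat_lit 8) L2184 (by decide +kernel)
theorem L2186 : W_49 (nat_lit 5) (nat_lit 0x30001000180004000000000000000000000000000) (nat_lit 0x0) (nat_lit 0x400000000800000008000300018000c00000000000000) := T_49 (nat_lit 93) (nat_lit 143) (nat_lit 5) (nat_lit 8) (nat_lit 5) L2185 (by decide +kernel)
theorem L2187 : W_49 (nat_lit 6) (nat_lit 0x20001000180004000000000000000000000000000) (nat_lit 0x0) (nat_lit 0x600010000800000008000300018000c00000000000000) := T_49 (nat_lit 160) (nat_lit 177) (nat_lit 5) (nat_lit 8) (nat_lit 6) L2186 (by decide +kernel)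
theorem L2188 : W_49 (nat_lit 2) (nat_lit 0x400020001000180004000000000000000000000000000) (nat_lit 0x0) (nat_lit 0x4000200010000000000000000000000000000000000000000) := D_49 (nat_lit 177) (nat_lit 194) (nat_lit 160) (nat_lit 5) (nat_lit 8) (nat_lit 7) (nat_lit 5) (nat_lit 8) (nat_lit 6) (by decide +kernel)
theorem L2189 : W_49 (nat_lit 3) (nat_lit 0x20001000180004000000000000000000000000000) (nat_lit 0x0) (nat_lit 0x4000600010000000000008000000000000000000000000000) := T_49 (nat_lit 178) (nat_lit 111) (nat_lit 6) (nat_lit 8) (nat_lit 10) L2188 (by decide +kernel)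
theorem L2190 : W_49 (nat_lit 2) (nat_lit 0x30001c00180004000000000000000000000000000) (nat_lit 0x0) (nat_lit 0x640000000000000000000000000000000) := D_49 (nat_lit 129) (nat_lit 130) (nat_lit 126) (nat_lit 1) (nat_lit 11) (nat_lit 7) (nat_lit 1) (nat_lit 10) (nat_lit 7) (by decide +kernel)
theorem L2191 : W_49 (nat_lit 3) (nat_lit 0x30001800180004000000000000000000000000000) (nat_lit 0x0) (nat_lit 0x600640000000000000000000000000000000) := T_49 (nat_lit 142) (nat_lit 141) (nat_lit 2) (nat_lit 5) (nat_lit 8) L2190 (by decide +kernel)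
theorem L2192 : W_49 (nat_lit 4) (nat_lit 0x30001000180004000000000000000000000000000) (nat_lit 0x0) (nat_lit 0xe00640000000200000000000000000000000) := T_49 (nat_lit 143) (nat_lit 93) (nat_lit 5) (nat_lit 8) (nat_lit 5) L2191 (by decide +kernel)
theorem L2193 : W_49 (nat_lit 5) (nat_lit 0x20001000180004000000000000000000000000000) (nat_lit 0x0) (nat_lit 0x200010000e00640000000200000000000000000000000) := T_49 (nat_lit 160) (nat_lit 177) (nat_lit 5) (nat_lit 8) (nat_lit 6) L2192 (by decide +kernel)
theorem L2194 : W_49 (nat_lit 2) (nat_lit 0x8000400020001800180004000000000000000000000000000) (nat_lit 0x0) (nat_lit 0x100000000000010000000000000000200000000000000000000000) := D_49 (nat_lit 160) (nat_lit 93) (nat_lit 212) (nat_lit 5) (nat_lit 8) (nat_lit 5) (nat_lit 4) (nat_lit 8) (nat_lit 12) (by decide +kernel)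
theorem L2195 : W_49 (nat_lit 3) (nat_lit 0x400020001800180004000000000000000000000000000) (nat_lit 0x0) (nat_lit 0x100008000000010000000040000000200000000000000000000000) := T_49 (nat_lit 195) (nat_lit 126) (nat_lit 4) (nat_lit 8) (nat_lit 11) L2194 (by decide +kernel)
theorem L2196 : W_49 (nat_lit 4) (nat_lit 0x20001800180004000000000000000000000000000) (nat_lit 0x0) (nat_lit 0x100008000400010000000040008000200000000000000000000000) := T_49 (nat_lit 178) (nat_lit 111) (nat_lit 6) (nat_lit 8) (nat_lit 10) L2195 (by decide +kernel)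
theorem L2197 : W_49 (nat_lit 2) (nat_lit 0x20001a00180004000200018000000000000000000) (nat_lit 0x0) (nat_lit 0x400000000000000008000000000000800000000000000) := D_49 (nat_lit 111) (nat_lit 178) (nat_lit 59) (nat_lit 6) (nat_lit 8) (nat_lit 10) (nat_lit 7) (nat_lit 8) (nat_lit 3) (by decide +kernel)
theorem L2198 : W_49 (nat_lit 3) (nat_lit 0x20001a00180004000200008000000000000000000) (nat_lit 0x0) (nat_lit 0x400000000000000008000000010000c00000000000000) := T_49 (nat_lit 76) (nat_lit 58) (nat_lit 4) (nat_lit 8) (nat_lit 7) L2197 (by decide +kernel)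
theorem L2199 : W_49 (nat_lit 4) (nat_lit 0x20001800180004000200008000000000000000000) (nat_lit 0x0) (nat_lit 0x400000000600000008000000010000c00000000000000) := T_49 (nat_lit 141) (nat_lit 142) (nat_lit 2) (nat_lit 5) (nat_lit 8) L2198 (by decide +kernel)
theorem L2200 : W_49 (nat_lit 5) (nat_lit 0x20001800180004000200000000000000000000000) (nat_lit 0x0) (nat_lit 0x400000000600000008000100018000c00000000000000) := T_49 (nat_lit 75) (nat_lit 92) (nat_lit 4) (nat_lit 8) (nat_lit 8) L2199 (by decide +kernel)
theorem L2201 : W_49 (nat_lit 6) (nat_lit 0x20001800180004000000000000000000000000000) (nat_lit 0x0) (nat_lit 0x400010000600000008000300018000c00000000000000) := T_49 (nat_lit 93) (nat_lit 160) (nat_lit 5) (nat_lit 8) (nat_lit 5) L2200 (by decide +kernel)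
theorem L2202 : W_49 (nat_lit 2) (nat_lit 0x80018000400020001a00180004000000000000000000000000000) (nat_lit 0x0) (nat_lit 0x1000100000000000010000000000000000000000000000000000000000) := D_49 (nat_lit 212) (nat_lit 160) (nat_lit 228) (nat_lit 4) (nat_lit 8) (nat_lit 12) (nat_lit 5) (nat_lit 8) (nat_lit 9) (by decide +kernel)
theorem L2203 : W_49 (nat_lit 3) (nat_lit 0x18000400020001a00180004000000000000000000000000000) (nat_lit 0x0) (nat_lit 0x1000180004000000010000000000000000000000000000000000000000) := T_49 (nat_lit 211) (nat_lit 194) (nat_lit 5) (nat_lit 8) (nat_lit 8) L2202 (by decide +kernel)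
theorem L2204 : W_49 (nat_lit 4) (nat_lit 0x8000400020001a00180004000000000000000000000000000) (nat_lit 0x0) (nat_lit 0x1000380014000000010000000000000000000000000000000000000000) := T_49 (nat_lit 196) (nat_lit 213) (nat_lit 7) (nat_lit 8) (nat_lit 8) L2203 (by decide +kernel)
theorem L2205 : W_49 (nat_lit 5) (nat_lit 0x8000400020001800180004000000000000000000000000000) (nat_lit 0x0) (nat_lit 0x1000380014000000010000600000000000000000000000000000000000) := T_49 (nat_lit 141) (nat_lit 142) (nat_lit 2) (nat_lit 5) (nat_lit 8) L2204 (by decide +kernel)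
theorem L2206 : W_49 (nat_lit 6) (nat_lit 0x400020001800180004000000000000000000000000000) (nat_lit 0x0) (nat_lit 0x100038001c000000010000600040000000000000000000000000000000) := T_49 (nat_lit 195) (nat_lit 126) (nat_lit 4) (nat_lit 8) (nat_lit 11) L2205 (by decide +kernel)
theorem L2207 : W_49 (nat_lit 7) (nat_lit 0x20001800180004000000000000000000000000000) (nat_lit 0x0) (nat_lit 0x100038001c000400010000600040008000000000000000000000000000) := T_49 (nat_lit 178) (nat_lit 111) (nat_lit 6) (nat_lit 8) (nat_lit 10) L2206 (by decide +kernel)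
theorem L2208 : W_49 (nat_lit 2) (nat_lit 0x20001a00180004000200010000000000000000000) (nat_lit 0x0) (nat_lit 0x100008000400000000000000) := D_49 (nat_lit 75) (nat_lit 58) (nat_lit 92) (nat_lit 4) (nat_lit 8) (nat_lit 7) (nat_lit 4) (nat_lit 8) (nat_lit 8) (by decide +kernel)
theorem L2209 : W_49 (nat_lit 3) (nat_lit 0x20001a00180004000200000000000000000000000) (nat_lit 0x0) (nat_lit 0x40000000100018000400000000000000) := T_49 (nat_lit 76) (nat_lit 126) (nat_lit 5) (nat_lit 8) (nat_lit 4) L2208 (by decide +kernel)
theorem L2210 : W_49 (nat_lit 4) (nat_lit 0x20001a00180004000000000000000000000000000) (nat_lit 0x0) (nat_lit 0x10000000040000000300018000400000000000000) := T_49 (nat_lit 93) (nat_lit 160) (nat_lit 5) (nat_lit 8) (nat_lit 5) L2209 (by decide +kernel)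
theorem L2211 : W_49 (nat_lit 5) (nat_lit 0x20001800180004000000000000000000000000000) (nat_lit 0x0) (nat_lit 0x10000600040000000300018000400000000000000) := T_49 (nat_lit 141) (nat_lit 142) (nat_lit 2) (nat_lit 5) (nat_lit 8) L2210 (by decide +kernel)
theorem L2212 : W_49 (nat_lit 2) (nat_lit 0x280008000400020001a00580004000000000000000000000000000) (nat_lit 0x0) (nat_lit 0x5000100000000000000000000000000000000000000000000000000000) := D_49 (nat_lit 212) (nat_lit 228) (nat_lit 230) (nat_lit 5) (nat_lit 8) (nat_lit 9) (nat_lit 7) (nat_lit 8) (nat_lit 9) (by decide +kernel)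
theorem L2213 : W_49 (nat_lit 3) (nat_lit 0x80008000400020001a00580004000000000000000000000000000) (nat_lit 0x0) (nat_lit 0x5000300010000000000000000000000000000000000000000000000000) := T_49 (nat_lit 213) (nat_lit 196) (nat_lit 7) (nat_lit 8) (nat_lit 8) L2212 (by decide +kernel)
theorem L2214 : W_49 (nat_lit 4) (nat_lit 0x8000400020001a00580004000000000000000000000000000) (nat_lit 0x0) (nat_lit 0x5000380014000000000000000000000000000000000000000000000000) := T_49 (nat_lit 211) (nat_lit 194) (nat_lit 5) (nat_lit 8) (nat_lit 8) L2213 (by decide +kernel)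
theorem L2215 : W_49 (nat_lit 5) (nat_lit 0x400020001a00580004000000000000000000000000000) (nat_lit 0x0) (nat_lit 0x500038001c000000000000000040000000000000000000000000000000) := T_49 (nat_lit 195) (nat_lit 126) (nat_lit 4) (nat_lit 8) (nat_lit 11) L2214 (by decide +kernel)
theorem L2216 : W_49 (nat_lit 6) (nat_lit 0x20001a00580004000000000000000000000000000) (nat_lit 0x0) (nat_lit 0x500038001c000400000000000040008000000000000000000000000000) := T_49 (nat_lit 178) (nat_lit 111) (nat_lit 6) (nat_lit 8) (nat_lit 10) L2215 (by decide +kernel)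
theorem L2217 : W_49 (nat_lit 7) (nat_lit 0x20001800580004000000000000000000000000000) (nat_lit 0x0) (nat_lit 0x500038001c000400000000600040008000000000000000000000000000) := T_49 (nat_lit 141) (nat_lit 142) (nat_lit 2) (nat_lit 5) (nat_lit 8) L2216 (by decide +kernel)
theorem L2218 : W_49 (nat_lit 8) (nat_lit 0x20001800180004000000000000000000000000000) (nat_lit 0x0) (nat_lit 0x500038001c000400000000600640008000000000000000000000000000) := T_49 (nat_lit 130) (nat_lit 129) (nat_lit 1) (nat_lit 11) (nat_lit 7) L2217 (by decide +kernel)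
theorem L2219 : W_49 (nat_lit 9) (nat_lit 0x20001000180004000000000000000000000000000) (nat_lit 0x0) (nat_lit 0x500038001c000400010000e00640008000300018000c00000000000000) := Q_49 (nat_lit 143) (C_49 L2196 (C_49 L2201 (C_49 L2207 (C_49 L2211 (C_49 L2218 N_49))))) (by decide +kernel)
theorem L2220 : W_49 (nat_lit 2) (nat_lit 0x200050003f0014800000000000000000000000000) (nat_lit 0x0) (nat_lit 0x700000000000000000000000000000000000) := D_49 (nat_lit 141) (nat_lit 142) (nat_lit 140) (nat_lit 1) (nat_lit 9) (nat_lit 7) (nat_lit 1) (nat_lit 8) (nat_lit 7) (by decide +kernel)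
theorem L2221 : W_49 (nat_lit 3) (nat_lit 0x200050003e0014800000000000000000000000000) (nat_lit 0x0) (nat_lit 0x700010000400000000000000000000000000) := T_49 (nat_lit 124) (nat_lit 106) (nat_lit 0) (nat_lit 8) (nat_lit 7) L2220 (by decide +kernel)
theorem L2222 : W_49 (nat_lit 4) (nat_lit 0x200050003e0004800000000000000000000000000) (nat_lit 0x0) (nat_lit 0x700010030400000000000000000000000000) := T_49 (nat_lit 112) (nat_lit 113) (nat_lit 2) (nat_lit 7) (nat_lit 7) L2221 (by decide +kernel)
theorem L2223 : W_49 (nat_lit 5) (nat_lit 0x200050003e0004000000000000000000000000000) (nat_lit 0x0) (nat_lit 0x700010031c00000000000000000000000000) := T_49 (nat_lit 107) (nat_lit 108) (nat_lit 0) (nat_lit 9) (nat_lit 7) L2222 (by decide +kernel)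
theorem L2224 : W_49 (nat_lit 6) (nat_lit 0x200010003e0004000000000000000000000000000) (nat_lit 0x0) (nat_lit 0xc700010031c00000000000000000000000000) := T_49 (nat_lit 146) (nat_lit 147) (nat_lit 3) (nat_lit 7) (nat_lit 7) L2223 (by decide +kernel)
theorem L2225 : W_49 (nat_lit 2) (nat_lit 0x200051003f0014800000000000000000000000000) (nat_lit 0x0) (nat_lit 0x880008000000000000000000000000000000) := D_49 (nat_lit 123) (nat_lit 143) (nat_lit 139) (nat_lit 3) (nat_lit 4) (nat_lit 7) (nat_lit 1) (nat_lit 7) (nat_lit 7) (by decide +kernel)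
theorem L2226 : W_49 (nat_lit 3) (nat_lit 0x200050003f0014800000000000000000000000000) (nat_lit 0x0) (nat_lit 0xb80008000000000000000000000000000000) := T_49 (nat_lit 140) (nat_lit 141) (nat_lit 1) (nat_lit 8) (nat_lit 7) L2225 (by decide +kernel)
theorem L2227 : W_49 (nat_lit 4) (nat_lit 0x200050003e0014800000000000000000000000000) (nat_lit 0x0) (nat_lit 0xb80018000400000000000000000000000000) := T_49 (nat_lit 124) (nat_lit 106) (nat_lit 0) (nat_lit 8) (nat_lit 7) L2226 (by decide +kernel)
theorem L2228 : W_49 (nat_lit 5) (nat_lit 0x200050003e0004800000000000000000000000000) (nat_lit 0x0) (nat_lit 0xb80018030400000000000000000000000000) := T_49 (nat_lit 112) (nat_lit 113) (nat_lit 2) (nat_lit 7) (nat_lit 7) L2227 (by decide +kernel)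
theorem L2229 : W_49 (nat_lit 6) (nat_lit 0x200050003e0004000000000000000000000000000) (nat_lit 0x0) (nat_lit 0xb80018031c00000000000000000000000000) := T_49 (nat_lit 107) (nat_lit 108) (nat_lit 0) (nat_lit 9) (nat_lit 7) L2228 (by decide +kernel)
theorem L2230 : W_49 (nat_lit 7) (nat_lit 0x200010003e0004000000000000000000000000000) (nat_lit 0x0) (nat_lit 0xcb80018031c00000000000000000000000000) := T_49 (nat_lit 146) (nat_lit 147) (nat_lit 3) (nat_lit 7) (nat_lit 7) L2229 (by decide +kernel)
theorem L2231 : W_49 (nat_lit 2) (nat_lit 0x80000000200058003f0014000000010000000000000000000) (nat_lit 0x0) (nat_lit 0x1c00000000000000000000000000) := D_49 (nat_lit 107) (nat_lit 108) (nat_lit 106) (nat_lit 0) (nat_lit 9) (nat_lit 7) (nat_lit 0) (nat_lit 8) (nat_lit 7) (by decide +kernel)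
theorem L2232 : W_49 (nat_lit 3) (nat_lit 0x80000000200058003e0014000000010000000000000000000) (nat_lit 0x0) (nat_lit 0x18001c00000000000000000000000000) := T_49 (nat_lit 124) (nat_lit 123) (nat_lit 3) (nat_lit 4) (nat_lit 7) L2231 (by decide +kernel)
theorem L2233 : W_49 (nat_lit 4) (nat_lit 0x200058003e0014000000010000000000000000000) (nat_lit 0x0) (nat_lit 0x8000400000000000018001c00000000000000000000000000) := T_49 (nat_lit 195) (nat_lit 178) (nat_lit 4) (nat_lit 8) (nat_lit 11) L2232 (by decide +kernel)
theorem L2234 : W_49 (nat_lit 5) (nat_lit 0x200058003e0014000000000000000000000000000) (nat_lit 0x0) (nat_lit 0x8000400000000000018001c00200010000000000000000000) := T_49 (nat_lit 76) (nat_lit 93) (nat_lit 5) (nat_lit 8) (nat_lit 4) L2233 (by decide +kernel)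
theorem L2235 : W_49 (nat_lit 6) (nat_lit 0x200018003e0014000000000000000000000000000) (nat_lit 0x0) (nat_lit 0x800040000000c000018001c00200010000000000000000000) := T_49 (nat_lit 146) (nat_lit 147) (nat_lit 3) (nat_lit 7) (nat_lit 7) L2234 (by decide +kernel)
theorem L2236 : W_49 (nat_lit 7) (nat_lit 0x200010003e0014000000000000000000000000000) (nat_lit 0x0) (nat_lit 0x800040000000cc00018001c00200010000000000000000000) := T_49 (nat_lit 143) (nat_lit 142) (nat_lit 1) (nat_lit 10) (nat_lit 7) L2235 (by decide +kernel)
theorem L2237 : W_49 (nat_lit 8) (nat_lit 0x200010003e0004000000000000000000000000000) (nat_lit 0x0) (nat_lit 0x800040000000cc00018031c00200010000000000000000000) := T_49 (nat_lit 112) (nat_lit 113) (nat_lit 2) (nat_lit 7) (nat_lit 7) L2236 (by decide +kernel)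
theorem L2238 : W_49 (nat_lit 9) (nat_lit 0x200010003c0004000000000000000000000000000) (nat_lit 0x0) (nat_lit 0x800040000000cf80038031c00200010000000000000000000) := Q_49 (nat_lit 125) (C_49 L1549 (C_49 L2224 (C_49 L2230 (C_49 L2237 N_49)))) (by decide +kernel)
theorem L2239 : W_49 (nat_lit 2) (nat_lit 0x200010003c0014000000000000000000000000000) (nat_lit 0x0) (nat_lit 0x400000000000020008000000000000000000000000000) := D_49 (nat_lit 111) (nat_lit 125) (nat_lit 178) (nat_lit 2) (nat_lit 6) (nat_lit 7) (nat_lit 6) (nat_lit 8) (nat_lit 10) (by decide +kernel)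
theorem L2240 : W_49 (nat_lit 3) (nat_lit 0x200010003c0004000000000000000000000000000) (nat_lit 0x0) (nat_lit 0x400000000000020038000000000000000000000000000) := T_49 (nat_lit 112) (nat_lit 113) (nat_lit 2) (nat_lit 7) (nat_lit 7) L2239 (by decide +kernel)
theorem L2241 : W_49 (nat_lit 2) (nat_lit 0x4000200010003c0004000000000000000000000000000) (nat_lit 0x0) (nat_lit 0x8000000000000c00000000000000000000000000000000000) := D_49 (nat_lit 143) (nat_lit 142) (nat_lit 195) (nat_lit 1) (nat_lit 10) (nat_lit 7) (nat_lit 4) (nat_lit 8) (nat_lit 11) (by decide +kernel)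
theorem L2242 : W_49 (nat_lit 3) (nat_lit 0x200010003c0004000000000000000000000000000) (nat_lit 0x0) (nat_lit 0x8000400000000c00000008000000000000000000000000000) := T_49 (nat_lit 178) (nat_lit 111) (nat_lit 6) (nat_lit 8) (nat_lit 10) L2241 (by decide +kernel)
theorem L2243 : W_49 (nat_lit 2) (nat_lit 0x200010003e0014000000000000000000000000000) (nat_lit 0x0) (nat_lit 0xe00000000000000000000000000000000000) := D_49 (nat_lit 142) (nat_lit 141) (nat_lit 143) (nat_lit 1) (nat_lit 9) (nat_lit 7) (nat_lit 1) (nat_lit 10) (nat_lit 7) (by decide +kernel)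
theorem L2244 : W_49 (nat_lit 3) (nat_lit 0x200010003c0014000000000000000000000000000) (nat_lit 0x0) (nat_lit 0xe00020008000000000000000000000000000) := T_49 (nat_lit 125) (nat_lit 111) (nat_lit 2) (nat_lit 6) (nat_lit 7) L2243 (by decide +kernel)
theorem L2245 : W_49 (nat_lit 4) (nat_lit 0x200010003c0004000000000000000000000000000) (nat_lit 0x0) (nat_lit 0xe00020038000000000000000000000000000) := T_49 (nat_lit 112) (nat_lit 113) (nat_lit 2) (nat_lit 7) (nat_lit 7) L2244 (by decide +kernel)
theorem L2246 : W_49 (nat_lit 10) (nat_lit 0x20001000380004000000000000000000000000000) (nat_lit 0x0) (nat_lit 0x800040000000cf80078039c00200010000000000000000000) := Q_49 (nat_lit 126) (C_49 L2238 (C_49 L2240 (C_49 L2242 (C_49 L2245 N_49)))) (by decide +kernel)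
theorem L2247 : W_49 (nat_lit 2) (nat_lit 0x6000200010007c0024000000000000000000000000000) (nat_lit 0x0) (nat_lit 0x1c000000000000000000000000000000000000) := D_49 (nat_lit 147) (nat_lit 148) (nat_lit 146) (nat_lit 3) (nat_lit 8) (nat_lit 7) (nat_lit 3) (nat_lit 7) (nat_lit 7) (by decide +kernel)
theorem L2248 : W_49 (nat_lit 3) (nat_lit 0x600020001000780024000000000000000000000000000) (nat_lit 0x0) (nat_lit 0x1c000040010000000000000000000000000000) := T_49 (nat_lit 126) (nat_lit 112) (nat_lit 2) (nat_lit 7) (nat_lit 7) L2247 (by decide +kernel)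
theorem L2249 : W_49 (nat_lit 4) (nat_lit 0x600020001000780004000000000000000000000000000) (nat_lit 0x0) (nat_lit 0x1c000040070000000000000000000000000000) := T_49 (nat_lit 113) (nat_lit 114) (nat_lit 2) (nat_lit 8) (nat_lit 7) L2248 (by decide +kernel)
theorem L2250 : W_49 (nat_lit 5) (nat_lit 0x600020001000380004000000000000000000000000000) (nat_lit 0x0) (nat_lit 0x1c800440070000000000000000000000000000) := T_49 (nat_lit 130) (nat_lit 143) (nat_lit 1) (nat_lit 11) (nat_lit 7) L2249 (by decide +kernel)
theorem L2251 : W_49 (nat_lit 6) (nat_lit 0x400020001000380004000000000000000000000000000) (nat_lit 0x0) (nat_lit 0x400020000001c800440070000000000000000000000000000) := T_49 (nat_lit 177) (nat_lit 194) (nat_lit 5) (nat_lit 8) (nat_lit 7) L2250 (by decide +kernel)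
theorem L2252 : W_49 (nat_lit 7) (nat_lit 0x20001000380004000000000000000000000000000) (nat_lit 0x0) (nat_lit 0x400060000001c800440078000000000000000000000000000) := T_49 (nat_lit 178) (nat_lit 111) (nat_lit 6) (nat_lit 8) (nat_lit 10) L2251 (by decide +kernel)
theorem L2253 : W_49 (nat_lit 2) (nat_lit 0x20001000780004000000000000000000000000000) (nat_lit 0x0) (nat_lit 0x400000000000800008000000000000000000000000000) := D_49 (nat_lit 111) (nat_lit 131) (nat_lit 178) (nat_lit 0) (nat_lit 12) (nat_lit 7) (nat_lit 6) (nat_lit 8) (nat_lit 10) (by decide +kernel)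
theorem L2254 : W_49 (nat_lit 3) (nat_lit 0x20001000380004000000000000000000000000000) (nat_lit 0x0) (nat_lit 0x400000000800c00008000000000000000000000000000) := T_49 (nat_lit 130) (nat_lit 143) (nat_lit 1) (nat_lit 11) (nat_lit 7) L2253 (by decide +kernel)
theorem L2255 : W_49 (nat_lit 2) (nat_lit 0x200010007c002c000000000000000000000000000) (nat_lit 0x0) (nat_lit 0x1c000000000000000000000000000000000000) := D_49 (nat_lit 147) (nat_lit 146) (nat_lit 148) (nat_lit 3) (nat_lit 7) (nat_lit 7) (nat_lit 3) (nat_lit 8) (nat_lit 7) (by decide +kernel)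
theorem L2256 : W_49 (nat_lit 3) (nat_lit 0x2000100078002c000000000000000000000000000) (nat_lit 0x0) (nat_lit 0x1c000040010000000000000000000000000000) := T_49 (nat_lit 126) (nat_lit 112) (nat_lit 2) (nat_lit 7) (nat_lit 7) L2255 (by decide +kernel)
theorem L2257 : W_49 (nat_lit 4) (nat_lit 0x2000100078000c000000000000000000000000000) (nat_lit 0x0) (nat_lit 0x1c000040070000000000000000000000000000) := T_49 (nat_lit 113) (nat_lit 114) (nat_lit 2) (nat_lit 8) (nat_lit 7) L2256 (by decide +kernel)
theorem L2258 : W_49 (nat_lit 5) (nat_lit 0x2000100038000c000000000000000000000000000) (nat_lit 0x0) (nat_lit 0x1c000c40070000000000000000000000000000) := T_49 (nat_lit 130) (nat_lit 131) (nat_lit 0) (nat_lit 12) (nat_lit 7) L2257 (by decide +kernel)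
theorem L2259 : W_49 (nat_lit 6) (nat_lit 0x20001000380004000000000000000000000000000) (nat_lit 0x0) (nat_lit 0x40000001c000c40078000000000000000000000000000) := T_49 (nat_lit 111) (nat_lit 178) (nat_lit 6) (nat_lit 8) (nat_lit 10) L2258 (by decide +kernel)
theorem L2260 : W_49 (nat_lit 2) (nat_lit 0x200010007c0024000000000000000000000000000) (nat_lit 0x0) (nat_lit 0x1c000000000000000000000000000000000000) := D_49 (nat_lit 147) (nat_lit 148) (nat_lit 146) (nat_lit 3) (nat_lit 8) (nat_lit 7) (nat_lit 3) (nat_lit 7) (nat_lit 7) (by decide +kernel)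
theorem L2261 : W_49 (nat_lit 3) (nat_lit 0x20001000780024000000000000000000000000000) (nat_lit 0x0) (nat_lit 0x1c000040010000000000000000000000000000) := T_49 (nat_lit 126) (nat_lit 112) (nat_lit 2) (nat_lit 7) (nat_lit 7) L2260 (by decide +kernel)
theorem L2262 : W_49 (nat_lit 4) (nat_lit 0x20001000780004000000000000000000000000000) (nat_lit 0x0) (nat_lit 0x1c000040070000000000000000000000000000) := T_49 (nat_lit 113) (nat_lit 114) (nat_lit 2) (nat_lit 8) (nat_lit 7) L2261 (by decide +kernel)
theorem L2263 : W_49 (nat_lit 5) (nat_lit 0x20001000380004000000000000000000000000000) (nat_lit 0x0) (nat_lit 0x1c800440070000000000000000000000000000) := T_49 (nat_lit 130) (nat_lit 143) (nat_lit 1) (nat_lit 11) (nat_lit 7) L2262 (by decide +kernel)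
theorem L2264 : W_49 (nat_lit 11) (nat_lit 0x20001000180004000000000000000000000000000) (nat_lit 0x0) (nat_lit 0xc00060000001cf80e78079c00200010000000000000000000) := Q_49 (nat_lit 129) (C_49 L2246 (C_49 L2252 (C_49 L2254 (C_49 L2259 (C_49 L2263 N_49))))) (by decide +kernel)
theorem L2265 : W_49 (nat_lit 12) (nat_lit 0x20001000080004000000000000000000000000000) (nat_lit 0x0) (nat_lit 0x500038001c00060001001cf80f78079c00300018000c00000000000000) := Q_49 (nat_lit 128) (C_49 L2187 (C_49 L2189 (C_49 L2193 (C_49 L2219 (C_49 L2264 N_49))))) (by decide +kernel)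
theorem L2266 : W_49 (nat_lit 2) (nat_lit 0x20001800080004000600010000000000000000000) (nat_lit 0x0) (nat_lit 0x100008000400000000000000) := D_49 (nat_lit 75) (nat_lit 58) (nat_lit 92) (nat_lit 4) (nat_lit 8) (nat_lit 7) (nat_lit 4) (nat_lit 8) (nat_lit 8) (by decide +kernel)
theorem L2267 : W_49 (nat_lit 3) (nat_lit 0x20001800080004000600000000000000000000000) (nat_lit 0x0) (nat_lit 0x40000000100018000400000000000000) := T_49 (nat_lit 76) (nat_lit 126) (nat_lit 5) (nat_lit 8) (nat_lit 4) L2266 (by decide +kernel)
theorem L2268 : W_49 (nat_lit 4) (nat_lit 0x20001000080004000600000000000000000000000) (nat_lit 0x0) (nat_lit 0x10000800040000000100018000400000000000000) := T_49 (nat_lit 143) (nat_lit 160) (nat_lit 5) (nat_lit 8) (nat_lit 5) L2267 (by decide +kernel)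
theorem L2269 : W_49 (nat_lit 5) (nat_lit 0x20001000080004000400000000000000000000000) (nat_lit 0x0) (nat_lit 0x10000800040000000300038000400000000000000) := T_49 (nat_lit 93) (nat_lit 77) (nat_lit 6) (nat_lit 8) (nat_lit 8) L2268 (by decide +kernel)
theorem L2270 : W_49 (nat_lit 6) (nat_lit 0x20001000080004000000000000000000000000000) (nat_lit 0x0) (nat_lit 0x10000800040008000700038000400000000000000) := T_49 (nat_lit 94) (nat_lit 111) (nat_lit 6) (nat_lit 8) (nat_lit 9) L2269 (by decide +kernel)
theorem L2271 : W_49 (nat_lit 13) (nat_lit 0x20001000080000000000000000000000000000000) (nat_lit 0x0) (nat_lit 0x500038001c0036001d001cf81f7807dc07f00078001c00000000000000) := Q_49 (nat_lit 110) (C_49 L2172 (C_49 L1731 (C_49 L2175 (C_49 L2178 (C_49 L2183 (C_49 L2265 (C_49 L2270 N_49))))))) (by decide +kernel)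
theorem L2272 : W_49 (nat_lit 5) (nat_lit 0x60001000080004000200000000000000000000000) (nat_lit 0x0) (nat_lit 0x10000800040000000500038000400000000000000) := T_49 (nat_lit 94) (nat_lit 77) (nat_lit 6) (nat_lit 8) (nat_lit 8) L1711 (by decide +kernel)
theorem L2273 : W_49 (nat_lit 6) (nat_lit 0x20001000080004000200000000000000000000000) (nat_lit 0x0) (nat_lit 0x800050000800040000000500038000400000000000000) := T_49 (nat_lit 162) (nat_lit 179) (nat_lit 7) (nat_lit 8) (nat_lit 6) L2272 (by decide +kernel)
theorem L2274 : W_49 (nat_lit 2) (nat_lit 0x60001000080004000200018000000000000000000) (nat_lit 0x0) (nat_lit 0x400020001000000000000000) := D_49 (nat_lit 77) (nat_lit 94) (nat_lit 60) (nat_lit 6) (nat_lit 8) (nat_lit 8) (nat_lit 6) (nat_lit 8) (nat_lit 7) (by decide +kernel)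
theorem L2275 : W_49 (nat_lit 3) (nat_lit 0x60001000080004000200008000000000000000000) (nat_lit 0x0) (nat_lit 0x400030001400000000000000) := T_49 (nat_lit 76) (nat_lit 58) (nat_lit 4) (nat_lit 8) (nat_lit 7) L2274 (by decide +kernel)
theorem L2276 : W_49 (nat_lit 4) (nat_lit 0x20001000080004000200008000000000000000000) (nat_lit 0x0) (nat_lit 0x800040000000000000000400030001400000000000000) := T_49 (nat_lit 162) (nat_lit 179) (nat_lit 7) (nat_lit 8) (nat_lit 6) L2275 (by decide +kernel)
theorem L2277 : W_49 (nat_lit 5) (nat_lit 0x20001000080004000200000000000000000000000) (nat_lit 0x0) (nat_lit 0x800040000000000000000500038001400000000000000) := T_49 (nat_lit 75) (nat_lit 92) (nat_lit 4) (nat_lit 8) (nat_lit 8) L2276 (by decide +kernel)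
theorem L2278 : W_49 (nat_lit 5) (nat_lit 0x20001000080004000200000000000000000000000) (nat_lit 0x0) (nat_lit 0x10000800040000000500038000400000000000000) := T_49 (nat_lit 94) (nat_lit 77) (nat_lit 6) (nat_lit 8) (nat_lit 8) L2268 (by decide +kernel)
theorem L2279 : W_49 (nat_lit 2) (nat_lit 0x8000200018000c0004000300000000000000000000000) (nat_lit 0x0) (nat_lit 0x18000400000000000000000000000000000000000000000000) := D_49 (nat_lit 178) (nat_lit 196) (nat_lit 195) (nat_lit 7) (nat_lit 8) (nat_lit 7) (nat_lit 4) (nat_lit 8) (nat_lit 11) (by decide +kernel)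
theorem L2280 : W_49 (nat_lit 3) (nat_lit 0x800020001800080004000300000000000000000000000) (nat_lit 0x0) (nat_lit 0x18000400000000000040000000000010000000000000000000) := T_49 (nat_lit 126) (nat_lit 76) (nat_lit 5) (nat_lit 8) (nat_lit 4) L2279 (by decide +kernel)
theorem L2281 : W_49 (nat_lit 4) (nat_lit 0x800020001000080004000300000000000000000000000) (nat_lit 0x0) (nat_lit 0x18000400010000800040000000000010000000000000000000) := T_49 (nat_lit 143) (nat_lit 160) (nat_lit 5) (nat_lit 8) (nat_lit 5) L2280 (by decide +kernel)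
theorem L2282 : W_49 (nat_lit 5) (nat_lit 0x20001000080004000300000000000000000000000) (nat_lit 0x0) (nat_lit 0x18000c00050000800040000000000010000000000000000000) := T_49 (nat_lit 179) (nat_lit 162) (nat_lit 7) (nat_lit 8) (nat_lit 6) L2281 (by decide +kernel)
theorem L2283 : W_49 (nat_lit 6) (nat_lit 0x20001000080004000200000000000000000000000) (nat_lit 0x0) (nat_lit 0x18000c00050000800040000000100018000000000000000000) := T_49 (nat_lit 92) (nat_lit 75) (nat_lit 4) (nat_lit 8) (nat_lit 8) L2282 (by decide +kernel)
theorem L2284 : W_49 (nat_lit 2) (nat_lit 0x60001800080004000200020000000000000000000) (nat_lit 0x0) (nat_lit 0x40000000000010001000000000000000) := D_49 (nat_lit 76) (nat_lit 126) (nat_lit 60) (nat_lit 5) (nat_lit 8) (nat_lit 4) (nat_lit 6) (nat_lit 8) (nat_lit 7) (by decide +kernel)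
theorem L2285 : W_49 (nat_lit 3) (nat_lit 0x60001000080004000200020000000000000000000) (nat_lit 0x0) (nat_lit 0x10000800040000000000010001000000000000000) := T_49 (nat_lit 143) (nat_lit 160) (nat_lit 5) (nat_lit 8) (nat_lit 5) L2284 (by decide +kernel)
theorem L2286 : W_49 (nat_lit 4) (nat_lit 0x60001000080004000200000000000000000000000) (nat_lit 0x0) (nat_lit 0x10000800040000000400030001000000000000000) := T_49 (nat_lit 77) (nat_lit 94) (nat_lit 6) (nat_lit 8) (nat_lit 8) L2285 (by decide +kernel)
theorem L2287 : W_49 (nat_lit 5) (nat_lit 0x20001000080004000200000000000000000000000) (nat_lit 0x0) (nat_lit 0x800050000800040000000400030001000000000000000) := T_49 (nat_lit 162) (nat_lit 179) (nat_lit 7) (nat_lit 8) (nat_lit 6) L2286 (by decide +kernel)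
theorem L2288 : W_49 (nat_lit 2) (nat_lit 0x60001a00080005000780004000000000000000000) (nat_lit 0x0) (nat_lit 0x70000000000000000000000000000000) := D_49 (nat_lit 125) (nat_lit 124) (nat_lit 126) (nat_lit 5) (nat_lit 6) (nat_lit 4) (nat_lit 7) (nat_lit 6) (nat_lit 4) (by decide +kernel)
theorem L2289 : W_49 (nat_lit 3) (nat_lit 0x60001800080005000780004000000000000000000) (nat_lit 0x0) (nat_lit 0x600070000000000000000000000000000000) := T_49 (nat_lit 141) (nat_lit 142) (nat_lit 3) (nat_lit 5) (nat_lit 8) L2288 (by decide +kernel)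
theorem L2290 : W_49 (nat_lit 4) (nat_lit 0x60001000080005000780004000000000000000000) (nat_lit 0x0) (nat_lit 0x10000e00070000000000000000000000000000000) := T_49 (nat_lit 143) (nat_lit 160) (nat_lit 5) (nat_lit 8) (nat_lit 5) L2289 (by decide +kernel)
theorem L2291 : W_49 (nat_lit 5) (nat_lit 0x20001000080005000780004000000000000000000) (nat_lit 0x0) (nat_lit 0x800050000e00070000000000000000000000000000000) := T_49 (nat_lit 162) (nat_lit 179) (nat_lit 7) (nat_lit 8) (nat_lit 6) L2290 (by decide +kernel)
theorem L2292 : W_49 (nat_lit 6) (nat_lit 0x20001000080005000780000000000000000000000) (nat_lit 0x0) (nat_lit 0x800050000e00070000000000006000000000000000000) := T_49 (nat_lit 74) (nat_lit 73) (nat_lit 0) (nat_lit 9) (nat_lit 5) L2291 (by decide +kernel)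
theorem L2293 : W_49 (nat_lit 7) (nat_lit 0x20001000080004000780000000000000000000000) (nat_lit 0x0) (nat_lit 0x800050000e00070001800000006000000000000000000) := T_49 (nat_lit 108) (nat_lit 107) (nat_lit 1) (nat_lit 9) (nat_lit 5) L2292 (by decide +kernel)
theorem L2294 : W_49 (nat_lit 8) (nat_lit 0x20001000080004000380000000000000000000000) (nat_lit 0x0) (nat_lit 0x800050000e00070001800400026000000000000000000) := T_49 (nat_lit 94) (nat_lit 77) (nat_lit 6) (nat_lit 8) (nat_lit 8) L2293 (by decide +kernel)
theorem L2295 : W_49 (nat_lit 2) (nat_lit 0x600018000800048007c0004000000000000000000) (nat_lit 0x0) (nat_lit 0x600010000000000000000000000000000000) := D_49 (nat_lit 141) (nat_lit 142) (nat_lit 124) (nat_lit 3) (nat_lit 5) (nat_lit 8) (nat_lit 6) (nat_lit 5) (nat_lit 8) (by decide +kernel)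
theorem L2296 : W_49 (nat_lit 3) (nat_lit 0x200018000800048007c0004000000000000000000) (nat_lit 0x0) (nat_lit 0x800040000600010000000000000000000000000000000) := T_49 (nat_lit 162) (nat_lit 179) (nat_lit 7) (nat_lit 8) (nat_lit 6) L2295 (by decide +kernel)
theorem L2297 : W_49 (nat_lit 4) (nat_lit 0x20001800080004800780004000000000000000000) (nat_lit 0x0) (nat_lit 0x800040000600010000400040000000000000000000000) := T_49 (nat_lit 90) (nat_lit 106) (nat_lit 1) (nat_lit 8) (nat_lit 5) L2296 (by decide +kernel)
theorem L2298 : W_49 (nat_lit 5) (nat_lit 0x20001800080004800780000000000000000000000) (nat_lit 0x0) (nat_lit 0x800040000600010000400040006000000000000000000) := T_49 (nat_lit 74) (nat_lit 73) (nat_lit 0) (nat_lit 9) (nat_lit 5) L2297 (by decide +kernel)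
theorem L2299 : W_49 (nat_lit 6) (nat_lit 0x20001800080004000780000000000000000000000) (nat_lit 0x0) (nat_lit 0x800040000600010001c00040006000000000000000000) := T_49 (nat_lit 107) (nat_lit 108) (nat_lit 1) (nat_lit 9) (nat_lit 5) L2298 (by decide +kernel)
theorem L2300 : W_49 (nat_lit 7) (nat_lit 0x20001800080004000380000000000000000000000) (nat_lit 0x0) (nat_lit 0x800040000600010001c00440026000000000000000000) := T_49 (nat_lit 94) (nat_lit 77) (nat_lit 6) (nat_lit 8) (nat_lit 8) L2299 (by decide +kernel)
theorem L2301 : W_49 (nat_lit 8) (nat_lit 0x20001000080004000380000000000000000000000) (nat_lit 0x0) (nat_lit 0x800050000e00010001c00440026000000000000000000) := T_49 (nat_lit 143) (nat_lit 160) (nat_lit 5) (nat_lit 8) (nat_lit 5) L2300 (by decide +kernel)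
theorem L2302 : W_49 (nat_lit 2) (nat_lit 0x20001a000a0005000780004000000000000000000) (nat_lit 0x0) (nat_lit 0x4000400100000000000000000000000000000000) := D_49 (nat_lit 142) (nat_lit 128) (nat_lit 158) (nat_lit 2) (nat_lit 5) (nat_lit 8) (nat_lit 5) (nat_lit 6) (nat_lit 5) (by decide +kernel)
theorem L2303 : W_49 (nat_lit 3) (nat_lit 0x200018000a0005000780004000000000000000000) (nat_lit 0x0) (nat_lit 0x4000600110000000000000000000000000000000) := T_49 (nat_lit 141) (nat_lit 124) (nat_lit 5) (nat_lit 6) (nat_lit 4) L2302 (by decide +kernel)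
theorem L2304 : W_49 (nat_lit 4) (nat_lit 0x20001800080005000780004000000000000000000) (nat_lit 0x0) (nat_lit 0x4000600170000000000000000000000000000000) := T_49 (nat_lit 125) (nat_lit 126) (nat_lit 7) (nat_lit 6) (nat_lit 4) L2303 (by decide +kernel)
theorem L2305 : W_49 (nat_lit 5) (nat_lit 0x20001800080005000780000000000000000000000) (nat_lit 0x0) (nat_lit 0x4000600170000000000006000000000000000000) := T_49 (nat_lit 74) (nat_lit 73) (nat_lit 0) (nat_lit 9) (nat_lit 5) L2304 (by decide +kernel)
theorem L2306 : W_49 (nat_lit 6) (nat_lit 0x20001800080004000780000000000000000000000) (nat_lit 0x0) (nat_lit 0x4000600170001800000006000000000000000000) := T_49 (nat_lit 108) (nat_lit 107) (nat_lit 1) (nat_lit 9) (nat_lit 5) L2305 (by decide +kernel)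
theorem L2307 : W_49 (nat_lit 7) (nat_lit 0x20001800080004000380000000000000000000000) (nat_lit 0x0) (nat_lit 0x4000600170001800400026000000000000000000) := T_49 (nat_lit 94) (nat_lit 77) (nat_lit 6) (nat_lit 8) (nat_lit 8) L2306 (by decide +kernel)
theorem L2308 : W_49 (nat_lit 8) (nat_lit 0x20001000080004000380000000000000000000000) (nat_lit 0x0) (nat_lit 0x14000e00170001800400026000000000000000000) := T_49 (nat_lit 143) (nat_lit 160) (nat_lit 5) (nat_lit 8) (nat_lit 5) L2307 (by decide +kernel)
theorem L2309 : W_49 (nat_lit 2) (nat_lit 0x20001000080004800780002000000000000000000) (nat_lit 0x0) (nat_lit 0x400040001000000000000000000) := D_49 (nat_lit 90) (nat_lit 106) (nat_lit 72) (nat_lit 1) (nat_lit 8) (nat_lit 5) (nat_lit 0) (nat_lit 8) (nat_lit 5) (by decide +kernel)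
theorem L2310 : W_49 (nat_lit 3) (nat_lit 0x20001000080004800780000000000000000000000) (nat_lit 0x0) (nat_lit 0x400040007000000000000000000) := T_49 (nat_lit 73) (nat_lit 74) (nat_lit 0) (nat_lit 9) (nat_lit 5) L2309 (by decide +kernel)
theorem L2311 : W_49 (nat_lit 4) (nat_lit 0x20001000080004000780000000000000000000000) (nat_lit 0x0) (nat_lit 0x1c00040007000000000000000000) := T_49 (nat_lit 107) (nat_lit 108) (nat_lit 1) (nat_lit 9) (nat_lit 5) L2310 (by decide +kernel)
theorem L2312 : W_49 (nat_lit 5) (nat_lit 0x20001000080004000380000000000000000000000) (nat_lit 0x0) (nat_lit 0x1c00440027000000000000000000) := T_49 (nat_lit 94) (nat_lit 77) (nat_lit 6) (nat_lit 8) (nat_lit 8) L2311 (by decide +kernel)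
theorem L2313 : W_49 (nat_lit 2) (nat_lit 0x600010000800044003c0001000000000000000000) (nat_lit 0x0) (nat_lit 0x200020000800000000000000000) := D_49 (nat_lit 89) (nat_lit 71) (nat_lit 105) (nat_lit 0) (nat_lit 7) (nat_lit 5) (nat_lit 1) (nat_lit 7) (nat_lit 5) (by decide +kernel)
theorem L2314 : W_49 (nat_lit 3) (nat_lit 0x600010000800040003c0001000000000000000000) (nat_lit 0x0) (nat_lit 0xe00020000800000000000000000) := T_49 (nat_lit 106) (nat_lit 107) (nat_lit 1) (nat_lit 8) (nat_lit 5) L2313 (by decide +kernel)
theorem L2315 : W_49 (nat_lit 4) (nat_lit 0x600010000800040003c0000000000000000000000) (nat_lit 0x0) (nat_lit 0xe00020003800000000000000000) := T_49 (nat_lit 72) (nat_lit 73) (nat_lit 0) (nat_lit 8) (nat_lit 5) L2314 (by decide +kernel)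
theorem L2316 : W_49 (nat_lit 5) (nat_lit 0x200010000800040003c0000000000000000000000) (nat_lit 0x0) (nat_lit 0x800040000000000000e00020003800000000000000000) := T_49 (nat_lit 162) (nat_lit 179) (nat_lit 7) (nat_lit 8) (nat_lit 6) L2315 (by decide +kernel)
theorem L2317 : W_49 (nat_lit 2) (nat_lit 0x20001f000800048003e0001000000000000000000) (nat_lit 0x0) (nat_lit 0x7000000000000000000000000000000000000000) := D_49 (nat_lit 157) (nat_lit 156) (nat_lit 158) (nat_lit 1) (nat_lit 7) (nat_lit 8) (nat_lit 1) (nat_lit 8) (nat_lit 8) (by decide +kernel)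
theorem L2318 : W_49 (nat_lit 3) (nat_lit 0x20001e000800048003e0001000000000000000000) (nat_lit 0x0) (nat_lit 0x7000100040000000000000000000000000000000) := T_49 (nat_lit 140) (nat_lit 126) (nat_lit 2) (nat_lit 4) (nat_lit 8) L2317 (by decide +kernel)
theorem L2319 : W_49 (nat_lit 4) (nat_lit 0x20001a000800048003e0001000000000000000000) (nat_lit 0x0) (nat_lit 0x7000500140000000000000000000000000000000) := T_49 (nat_lit 142) (nat_lit 128) (nat_lit 2) (nat_lit 5) (nat_lit 8) L2318 (by decide +kernel)
theorem L2320 : W_49 (nat_lit 5) (nat_lit 0x200018000800048003e0001000000000000000000) (nat_lit 0x0) (nat_lit 0x7000700150000000000000000000000000000000) := T_49 (nat_lit 141) (nat_lit 124) (nat_lit 4) (nat_lit 5) (nat_lit 8) L2319 (by decide +kernel)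
theorem L2321 : W_49 (nat_lit 6) (nat_lit 0x200018000800048003c0001000000000000000000) (nat_lit 0x0) (nat_lit 0x7000700150000000020000800000000000000000) := T_49 (nat_lit 89) (nat_lit 71) (nat_lit 0) (nat_lit 7) (nat_lit 5) L2320 (by decide +kernel)
theorem L2322 : W_49 (nat_lit 7) (nat_lit 0x200018000800048003c0000000000000000000000) (nat_lit 0x0) (nat_lit 0x7000700150000000020003800000000000000000) := T_49 (nat_lit 72) (nat_lit 73) (nat_lit 0) (nat_lit 8) (nat_lit 5) L2321 (by decide +kernel)
theorem L2323 : W_49 (nat_lit 8) (nat_lit 0x200010000800048003c0000000000000000000000) (nat_lit 0x0) (nat_lit 0x17000f00150000000020003800000000000000000) := T_49 (nat_lit 143) (nat_lit 160) (nat_lit 5) (nat_lit 8) (nat_lit 5) L2322 (by decide +kernel)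
theorem L2324 : W_49 (nat_lit 9) (nat_lit 0x200010000800040003c0000000000000000000000) (nat_lit 0x0) (nat_lit 0x17000f00150000c00020003800000000000000000) := T_49 (nat_lit 107) (nat_lit 106) (nat_lit 1) (nat_lit 8) (nat_lit 5) L2323 (by decide +kernel)
theorem L2325 : W_49 (nat_lit 2) (nat_lit 0x160001a800880044003e0001000000000000000000) (nat_lit 0x0) (nat_lit 0x5000100000000000000000000000000000000000) := D_49 (nat_lit 140) (nat_lit 158) (nat_lit 156) (nat_lit 7) (nat_lit 4) (nat_lit 5) (nat_lit 5) (nat_lit 4) (nat_lit 5) (by decide +kernel)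
theorem L2326 : W_49 (nat_lit 3) (nat_lit 0x160001a000880044003e0001000000000000000000) (nat_lit 0x0) (nat_lit 0x5000180004000000000000000000000000000000) := T_49 (nat_lit 139) (nat_lit 122) (nat_lit 5) (nat_lit 4) (nat_lit 4) L2325 (by decide +kernel)
theorem L2327 : W_49 (nat_lit 4) (nat_lit 0x160001a000800044003e0001000000000000000000) (nat_lit 0x0) (nat_lit 0x500018001c000000000000000000000000000000) := T_49 (nat_lit 123) (nat_lit 124) (nat_lit 7) (nat_lit 4) (nat_lit 4) L2326 (by decide +kernel)
theorem L2328 : W_49 (nat_lit 5) (nat_lit 0x160001a000800040003e0001000000000000000000) (nat_lit 0x0) (nat_lit 0x500018001c000600000000000000000000000000) := T_49 (nat_lit 106) (nat_lit 105) (nat_lit 1) (nat_lit 7) (nat_lit 5) L2327 (by decide +kernel)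
theorem L2329 : W_49 (nat_lit 6) (nat_lit 0x60001a000800040003e0001000000000000000000) (nat_lit 0x0) (nat_lit 0x18500018001c000600000000000000000000000000) := T_49 (nat_lit 164) (nat_lit 163) (nat_lit 0) (nat_lit 11) (nat_lit 9) L2328 (by decide +kernel)
theorem L2330 : W_49 (nat_lit 7) (nat_lit 0x600018000800040003e0001000000000000000000) (nat_lit 0x0) (nat_lit 0x18500078001c000600000000000000000000000000) := T_49 (nat_lit 141) (nat_lit 142) (nat_lit 3) (nat_lit 5) (nat_lit 8) L2329 (by decide +kernel)
theorem L2331 : W_49 (nat_lit 8) (nat_lit 0x600010000800040003e0001000000000000000000) (nat_lit 0x0) (nat_lit 0x195000f8001c000600000000000000000000000000) := T_49 (nat_lit 143) (nat_lit 160) (nat_lit 5) (nat_lit 8) (nat_lit 5) L2330 (by decide +kernel)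
theorem L2332 : W_49 (nat_lit 9) (nat_lit 0x600010000800040003c0001000000000000000000) (nat_lit 0x0) (nat_lit 0x195000f8001c000600020000800000000000000000) := T_49 (nat_lit 89) (nat_lit 71) (nat_lit 0) (nat_lit 7) (nat_lit 5) L2331 (by decide +kernel)
theorem L2333 : W_49 (nat_lit 10) (nat_lit 0x200010000800040003c0001000000000000000000) (nat_lit 0x0) (nat_lit 0x8001d5000f8001c000600020000800000000000000000) := T_49 (nat_lit 162) (nat_lit 179) (nat_lit 7) (nat_lit 8) (nat_lit 6) L2332 (by decide +kernel)
theorem L2334 : W_49 (nat_lit 11) (nat_lit 0x200010000800040003c0000000000000000000000) (nat_lit 0x0) (nat_lit 0x8001d5000f8001c000600020003800000000000000000) := T_49 (nat_lit 72) (nat_lit 73) (nat_lit 0) (nat_lit 8) (nat_lit 5) L2333 (by decide +kernel)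
theorem L2335 : W_49 (nat_lit 2) (nat_lit 0x800180064001b000d00048003c0000000000000000000000) (nat_lit 0x0) (nat_lit 0x10001000000000000000008000000000000000000000000000000) := D_49 (nat_lit 192) (nat_lit 123) (nat_lit 208) (nat_lit 4) (nat_lit 5) (nat_lit 11) (nat_lit 5) (nat_lit 5) (nat_lit 8) (by decide +kernel)
theorem L2336 : W_49 (nat_lit 3) (nat_lit 0x180064001b000d00048003c0000000000000000000000) (nat_lit 0x0) (nat_lit 0x10001800040000000000008000000000000000000000000000000) := T_49 (nat_lit 191) (nat_lit 174) (nat_lit 5) (nat_lit 5) (nat_lit 7) L2335 (by decide +kernel)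
theorem L2337 : W_49 (nat_lit 4) (nat_lit 0x100064001b000d00048003c0000000000000000000000) (nat_lit 0x0) (nat_lit 0x100038000c0000000000008000000000000000000000000000000) := T_49 (nat_lit 175) (nat_lit 193) (nat_lit 7) (nat_lit 5) (nat_lit 7) L2336 (by decide +kernel)
theorem L2338 : W_49 (nat_lit 5) (nat_lit 0x64001b000d00048003c0000000000000000000000) (nat_lit 0x0) (nat_lit 0x100038001c0008000000008000000000000000000000000000000) := T_49 (nat_lit 176) (nat_lit 159) (nat_lit 7) (nat_lit 5) (nat_lit 6) L2337 (by decide +kernel)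
theorem L2339 : W_49 (nat_lit 6) (nat_lit 0x60001b000d00048003c0000000000000000000000) (nat_lit 0x0) (nat_lit 0x100038001c000c000000008001000000000000000000000000000) := T_49 (nat_lit 158) (nat_lit 108) (nat_lit 6) (nat_lit 5) (nat_lit 9) L2338 (by decide +kernel)
theorem L2340 : W_49 (nat_lit 7) (nat_lit 0x60001b000900048003c0000000000000000000000) (nat_lit 0x0) (nat_lit 0x100038001c000c000000068001000000000000000000000000000) := T_49 (nat_lit 126) (nat_lit 125) (nat_lit 1) (nat_lit 8) (nat_lit 7) L2339 (by decide +kernel)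
theorem L2341 : W_49 (nat_lit 8) (nat_lit 0x60001a000900048003c0000000000000000000000) (nat_lit 0x0) (nat_lit 0x100038001c000e000100068001000000000000000000000000000) := T_49 (nat_lit 140) (nat_lit 157) (nat_lit 5) (nat_lit 5) (nat_lit 5) L2340 (by decide +kernel)
theorem L2342 : W_49 (nat_lit 9) (nat_lit 0x60001a000800048003c0000000000000000000000) (nat_lit 0x0) (nat_lit 0x100038001c000e000100078001000000004000000000000000000) := T_49 (nat_lit 124) (nat_lit 74) (nat_lit 6) (nat_lit 5) (nat_lit 8) L2341 (by decide +kernel)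
theorem L2343 : W_49 (nat_lit 10) (nat_lit 0x600018000800048003c0000000000000000000000) (nat_lit 0x0) (nat_lit 0x100038001c000e000700078001000000004000000000000000000) := T_49 (nat_lit 141) (nat_lit 142) (nat_lit 3) (nat_lit 5) (nat_lit 8) L2342 (by decide +kernel)
theorem L2344 : W_49 (nat_lit 11) (nat_lit 0x600010000800048003c0000000000000000000000) (nat_lit 0x0) (nat_lit 0x100038001c001e000f00078001000000004000000000000000000) := T_49 (nat_lit 143) (nat_lit 160) (nat_lit 5) (nat_lit 8) (nat_lit 5) L2343 (by decide +kernel)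
theorem L2345 : W_49 (nat_lit 12) (nat_lit 0x600010000800040003c0000000000000000000000) (nat_lit 0x0) (nat_lit 0x100038001c001e000f00078001c00000004000000000000000000) := T_49 (nat_lit 107) (nat_lit 106) (nat_lit 1) (nat_lit 8) (nat_lit 5) L2344 (by decide +kernel)
theorem L2346 : W_49 (nat_lit 13) (nat_lit 0x200010000800040003c0000000000000000000000) (nat_lit 0x0) (nat_lit 0x100038009c005e000f00078001c00000004000000000000000000) := T_49 (nat_lit 162) (nat_lit 179) (nat_lit 7) (nat_lit 8) (nat_lit 6) L2345 (by decide +kernel)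
theorem L2347 : W_49 (nat_lit 2) (nat_lit 0x160001c000b00040003c0002000000000000000000) (nat_lit 0x0) (nat_lit 0x4c000000000000000000000000000000) := D_49 (nat_lit 123) (nat_lit 126) (nat_lit 122) (nat_lit 3) (nat_lit 4) (nat_lit 7) (nat_lit 3) (nat_lit 3) (nat_lit 7) (by decide +kernel)
theorem L2348 : W_49 (nat_lit 3) (nat_lit 0x160001c000a00040003c0002000000000000000000) (nat_lit 0x0) (nat_lit 0x5c000800000000000000000000000000) := T_49 (nat_lit 124) (nat_lit 107) (nat_lit 7) (nat_lit 5) (nat_lit 4) L2347 (by decide +kernel)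
theorem L2349 : W_49 (nat_lit 4) (nat_lit 0x160001c000800040003c0002000000000000000000) (nat_lit 0x0) (nat_lit 0x7c001800000000000000000000000000) := T_49 (nat_lit 125) (nat_lit 108) (nat_lit 4) (nat_lit 6) (nat_lit 8) L2348 (by decide +kernel)
theorem L2350 : W_49 (nat_lit 5) (nat_lit 0x160001c000800040003c0000000000000000000000) (nat_lit 0x0) (nat_lit 0x7c001800000003000000000000000000) := T_49 (nat_lit 73) (nat_lit 72) (nat_lit 0) (nat_lit 8) (nat_lit 5) L2349 (by decide +kernel)
theorem L2351 : W_49 (nat_lit 6) (nat_lit 0x60001c000800040003c0000000000000000000000) (nat_lit 0x0) (nat_lit 0x18000000007c001800000003000000000000000000) := T_49 (nat_lit 164) (nat_lit 163) (nat_lit 0) (nat_lit 11) (nat_lit 9) L2350 (by decide +kernel)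
theorem L2352 : W_49 (nat_lit 7) (nat_lit 0x600018000800040003c0000000000000000000000) (nat_lit 0x0) (nat_lit 0x18000060007c001800000003000000000000000000) := T_49 (nat_lit 142) (nat_lit 141) (nat_lit 3) (nat_lit 5) (nat_lit 8) L2351 (by decide +kernel)
theorem L2353 : W_49 (nat_lit 8) (nat_lit 0x200018000800040003c0000000000000000000000) (nat_lit 0x0) (nat_lit 0x8001c000060007c001800000003000000000000000000) := T_49 (nat_lit 162) (nat_lit 179) (nat_lit 7) (nat_lit 8) (nat_lit 6) L2352 (by decide +kernel)
theorem L2354 : W_49 (nat_lit 9) (nat_lit 0x200010000800040003c0000000000000000000000) (nat_lit 0x0) (nat_lit 0x8001d0000e0007c001800000003000000000000000000) := T_49 (nat_lit 143) (nat_lit 160) (nat_lit 5) (nat_lit 8) (nat_lit 5) L2353 (by decide +kernel)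
theorem L2355 : W_49 (nat_lit 14) (nat_lit 0x20001000080004000380000000000000000000000) (nat_lit 0x0) (nat_lit 0x100038009c01df000f8017c001e00060007800000000000000000) := Q_49 (nat_lit 90) (C_49 L2316 (C_49 L2324 (C_49 L2334 (C_49 L2346 (C_49 L2354 N_49))))) (by decide +kernel)
theorem L2356 : W_49 (nat_lit 2) (nat_lit 0x400020001000080004000380000000000000000000000) (nat_lit 0x0) (nat_lit 0x10000800040000000000000000000000000000000000000000) := D_49 (nat_lit 179) (nat_lit 196) (nat_lit 162) (nat_lit 7) (nat_lit 8) (nat_lit 7) (nat_lit 7) (nat_lit 8) (nat_lit 6) (by decide +kernel)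
theorem L2357 : W_49 (nat_lit 2) (nat_lit 0x18000400020001000080004000780004000000000000000000) (nat_lit 0x0) (nat_lit 0x10000800040000000000000000000000000000000) := D_49 (nat_lit 143) (nat_lit 160) (nat_lit 126) (nat_lit 5) (nat_lit 8) (nat_lit 5) (nat_lit 4) (nat_lit 8) (nat_lit 11) (by decide +kernel)
theorem L2358 : W_49 (nat_lit 3) (nat_lit 0x10000400020001000080004000780004000000000000000000) (nat_lit 0x0) (nat_lit 0x200008000000010000800040000000000000000000000000000000) := T_49 (nat_lit 195) (nat_lit 213) (nat_lit 7) (nat_lit 8) (nat_lit 8) L2357 (by decide +kernel)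
theorem L2359 : W_49 (nat_lit 4) (nat_lit 0x10000400020001000080004000780000000000000000000000) (nat_lit 0x0) (nat_lit 0x200008000000010000800040000000000006000000000000000000) := T_49 (nat_lit 74) (nat_lit 73) (nat_lit 0) (nat_lit 9) (nat_lit 5) L2358 (by decide +kernel)
theorem L2360 : W_49 (nat_lit 5) (nat_lit 0x10000400020001000080004000380000000000000000000000) (nat_lit 0x0) (nat_lit 0x200008000000010000800040000000400026000000000000000000) := T_49 (nat_lit 94) (nat_lit 77) (nat_lit 6) (nat_lit 8) (nat_lit 8) L2359 (by decide +kernel)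
theorem L2361 : W_49 (nat_lit 6) (nat_lit 0x400020001000080004000380000000000000000000000) (nat_lit 0x0) (nat_lit 0x200018000800010000800040000000400026000000000000000000) := T_49 (nat_lit 196) (nat_lit 179) (nat_lit 7) (nat_lit 8) (nat_lit 7) L2360 (by decide +kernel)
theorem L2362 : W_49 (nat_lit 2) (nat_lit 0x280008000400020001800080004000780004000000000000000000) (nat_lit 0x0) (nat_lit 0x5000100000000000000000000000000000000000000000000000000000) := D_49 (nat_lit 212) (nat_lit 230) (nat_lit 228) (nat_lit 7) (nat_lit 8) (nat_lit 9) (nat_lit 5) (nat_lit 8) (nat_lit 9) (by decide +kernel)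
theorem L2363 : W_49 (nat_lit 3) (nat_lit 0x200008000400020001800080004000780004000000000000000000) (nat_lit 0x0) (nat_lit 0x5000180004000000000000000000000000000000000000000000000000) := T_49 (nat_lit 211) (nat_lit 194) (nat_lit 5) (nat_lit 8) (nat_lit 8) L2362 (by decide +kernel)
theorem L2364 : W_49 (nat_lit 4) (nat_lit 0x8000400020001800080004000780004000000000000000000) (nat_lit 0x0) (nat_lit 0x5000380014000000000000000000000000000000000000000000000000) := T_49 (nat_lit 213) (nat_lit 196) (nat_lit 7) (nat_lit 8) (nat_lit 8) L2363 (by decide +kernel)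
theorem L2365 : W_49 (nat_lit 5) (nat_lit 0x8000400020001800080004000780000000000000000000000) (nat_lit 0x0) (nat_lit 0x5000380014000000000000000000000000000006000000000000000000) := T_49 (nat_lit 74) (nat_lit 73) (nat_lit 0) (nat_lit 9) (nat_lit 5) L2364 (by decide +kernel)
theorem L2366 : W_49 (nat_lit 6) (nat_lit 0x8000400020001800080004000380000000000000000000000) (nat_lit 0x0) (nat_lit 0x5000380014000000000000000000000000400026000000000000000000) := T_49 (nat_lit 94) (nat_lit 77) (nat_lit 6) (nat_lit 8) (nat_lit 8) L2365 (by decide +kernel)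
theorem L2367 : W_49 (nat_lit 7) (nat_lit 0x400020001800080004000380000000000000000000000) (nat_lit 0x0) (nat_lit 0x500038001c000000000000000040000000400026000000000000000000) := T_49 (nat_lit 195) (nat_lit 126) (nat_lit 4) (nat_lit 8) (nat_lit 11) L2366 (by decide +kernel)
theorem L2368 : W_49 (nat_lit 8) (nat_lit 0x400020001000080004000380000000000000000000000) (nat_lit 0x0) (nat_lit 0x500038001c000000010000800040000000400026000000000000000000) := T_49 (nat_lit 143) (nat_lit 160) (nat_lit 5) (nat_lit 8) (nat_lit 5) L2367 (by decide +kernel)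
theorem L2369 : W_49 (nat_lit 2) (nat_lit 0x400160001a000e0004000780004000000000000000000) (nat_lit 0x0) (nat_lit 0x100018000000000000000000000000000000) := D_49 (nat_lit 124) (nat_lit 140) (nat_lit 123) (nat_lit 1) (nat_lit 8) (nat_lit 7) (nat_lit 3) (nat_lit 4) (nat_lit 7) (by decide +kernel)
theorem L2370 : W_49 (nat_lit 3) (nat_lit 0x4001600018000e0004000780004000000000000000000) (nat_lit 0x0) (nat_lit 0x700018000000000000000000000000000000) := T_49 (nat_lit 141) (nat_lit 142) (nat_lit 3) (nat_lit 5) (nat_lit 8) L2369 (by decide +kernel)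
theorem L2371 : W_49 (nat_lit 4) (nat_lit 0x4001600018000c0004000780004000000000000000000) (nat_lit 0x0) (nat_lit 0x700038001000000000000000000000000000) := T_49 (nat_lit 125) (nat_lit 108) (nat_lit 7) (nat_lit 6) (nat_lit 4) L2370 (by decide +kernel)
theorem L2372 : W_49 (nat_lit 5) (nat_lit 0x4000600018000c0004000780004000000000000000000) (nat_lit 0x0) (nat_lit 0x180000700038001000000000000000000000000000) := T_49 (nat_lit 164) (nat_lit 163) (nat_lit 0) (nat_lit 11) (nat_lit 9) L2371 (by decide +kernel)
theorem L2373 : W_49 (nat_lit 6) (nat_lit 0x400060001800080004000780004000000000000000000) (nat_lit 0x0) (nat_lit 0x8000000180000700078001000000000000000000000000000) := T_49 (nat_lit 126) (nat_lit 195) (nat_lit 4) (nat_lit 8) (nat_lit 11) L2372 (by decide +kernel)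
theorem L2374 : W_49 (nat_lit 7) (nat_lit 0x400060001000080004000780004000000000000000000) (nat_lit 0x0) (nat_lit 0x8000000190000f00078001000000000000000000000000000) := T_49 (nat_lit 143) (nat_lit 160) (nat_lit 5) (nat_lit 8) (nat_lit 5) L2373 (by decide +kernel)
theorem L2375 : W_49 (nat_lit 8) (nat_lit 0x400020001000080004000780004000000000000000000) (nat_lit 0x0) (nat_lit 0x80008001d0000f00078001000000000000000000000000000) := T_49 (nat_lit 162) (nat_lit 179) (nat_lit 7) (nat_lit 8) (nat_lit 6) L2374 (by decide +kernel)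
theorem L2376 : W_49 (nat_lit 9) (nat_lit 0x400020001000080004000780000000000000000000000) (nat_lit 0x0) (nat_lit 0x80008001d0000f00078001000000006000000000000000000) := T_49 (nat_lit 74) (nat_lit 73) (nat_lit 0) (nat_lit 9) (nat_lit 5) L2375 (by decide +kernel)
theorem L2377 : W_49 (nat_lit 10) (nat_lit 0x400020001000080004000380000000000000000000000) (nat_lit 0x0) (nat_lit 0x80008001d0000f00078001000400026000000000000000000) := T_49 (nat_lit 94) (nat_lit 77) (nat_lit 6) (nat_lit 8) (nat_lit 8) L2376 (by decide +kernel)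
theorem L2378 : W_49 (nat_lit 11) (nat_lit 0x20001000080004000380000000000000000000000) (nat_lit 0x0) (nat_lit 0x500038001c000c001d0000f00078001000400026000000000000000000) := Q_49 (nat_lit 178) (C_49 L2356 (C_49 L2361 (C_49 L2368 (C_49 L2377 N_49)))) (by decide +kernel)
theorem L2379 : W_49 (nat_lit 2) (nat_lit 0x160001a000800048007c0001000000000000000000) (nat_lit 0x0) (nat_lit 0x10000000020000800000000000000000) := D_49 (nat_lit 89) (nat_lit 71) (nat_lit 124) (nat_lit 0) (nat_lit 7) (nat_lit 5) (nat_lit 4) (nat_lit 5) (nat_lit 8) (by decide +kernel)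
theorem L2380 : W_49 (nat_lit 3) (nat_lit 0x160001a000800048007c0000000000000000000000) (nat_lit 0x0) (nat_lit 0x10000000020003800000000000000000) := T_49 (nat_lit 72) (nat_lit 73) (nat_lit 0) (nat_lit 8) (nat_lit 5) L2379 (by decide +kernel)
theorem L2381 : W_49 (nat_lit 4) (nat_lit 0x160001a00080004800780000000000000000000000) (nat_lit 0x0) (nat_lit 0x10000400060003800000000000000000) := T_49 (nat_lit 90) (nat_lit 106) (nat_lit 1) (nat_lit 8) (nat_lit 5) L2380 (by decide +kernel)
theorem L2382 : W_49 (nat_lit 5) (nat_lit 0x60001a00080004800780000000000000000000000) (nat_lit 0x0) (nat_lit 0x180000000010000400060003800000000000000000) := T_49 (nat_lit 164) (nat_lit 163) (nat_lit 0) (nat_lit 11) (nat_lit 9) L2381 (by decide +kernel)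
theorem L2383 : W_49 (nat_lit 6) (nat_lit 0x60001800080004800780000000000000000000000) (nat_lit 0x0) (nat_lit 0x180000600010000400060003800000000000000000) := T_49 (nat_lit 141) (nat_lit 142) (nat_lit 3) (nat_lit 5) (nat_lit 8) L2382 (by decide +kernel)
theorem L2384 : W_49 (nat_lit 7) (nat_lit 0x20001800080004800780000000000000000000000) (nat_lit 0x0) (nat_lit 0x8001c0000600010000400060003800000000000000000) := T_49 (nat_lit 162) (nat_lit 179) (nat_lit 7) (nat_lit 8) (nat_lit 6) L2383 (by decide +kernel)
theorem L2385 : W_49 (nat_lit 8) (nat_lit 0x20001800080004000780000000000000000000000) (nat_lit 0x0) (nat_lit 0x8001c0000600010001c00060003800000000000000000) := T_49 (nat_lit 107) (nat_lit 108) (nat_lit 1) (nat_lit 9) (nat_lit 5) L2384 (by decide +kernel)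
theorem L2386 : W_49 (nat_lit 9) (nat_lit 0x20001800080004000380000000000000000000000) (nat_lit 0x0) (nat_lit 0x8001c0000600010001c00460023800000000000000000) := T_49 (nat_lit 94) (nat_lit 77) (nat_lit 6) (nat_lit 8) (nat_lit 8) L2385 (by decide +kernel)
theorem L2387 : W_49 (nat_lit 10) (nat_lit 0x20001000080004000380000000000000000000000) (nat_lit 0x0) (nat_lit 0x8001d0000e00010001c00460023800000000000000000) := T_49 (nat_lit 143) (nat_lit 160) (nat_lit 5) (nat_lit 8) (nat_lit 5) L2386 (by decide +kernel)
theorem L2388 : W_49 (nat_lit 2) (nat_lit 0x160001a800880044007e0001000000000000000000) (nat_lit 0x0) (nat_lit 0x5000100000000000000000000000000000000000) := D_49 (nat_lit 140) (nat_lit 158) (nat_lit 156) (nat_lit 7) (nat_lit 4) (nat_lit 5) (nat_lit 5) (nat_lit 4) (nat_lit 5) (by decide +kernel)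
theorem L2389 : W_49 (nat_lit 3) (nat_lit 0x160001a000880044007e0001000000000000000000) (nat_lit 0x0) (nat_lit 0x5000180004000000000000000000000000000000) := T_49 (nat_lit 139) (nat_lit 122) (nat_lit 5) (nat_lit 4) (nat_lit 4) L2388 (by decide +kernel)
theorem L2390 : W_49 (nat_lit 4) (nat_lit 0x160001a000800044007e0001000000000000000000) (nat_lit 0x0) (nat_lit 0x500018001c000000000000000000000000000000) := T_49 (nat_lit 123) (nat_lit 124) (nat_lit 7) (nat_lit 4) (nat_lit 4) L2389 (by decide +kernel)
theorem L2391 : W_49 (nat_lit 5) (nat_lit 0x160001a000800044007e0000000000000000000000) (nat_lit 0x0) (nat_lit 0x500018001c000000000001800000000000000000) := T_49 (nat_lit 72) (nat_lit 71) (nat_lit 0) (nat_lit 7) (nat_lit 5) L2390 (by decide +kernel)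
theorem L2392 : W_49 (nat_lit 6) (nat_lit 0x160001a000800044007c0000000000000000000000) (nat_lit 0x0) (nat_lit 0x500018001c000200020001800000000000000000) := T_49 (nat_lit 89) (nat_lit 105) (nat_lit 1) (nat_lit 7) (nat_lit 5) L2391 (by decide +kernel)
theorem L2393 : W_49 (nat_lit 7) (nat_lit 0x160001a000800044003c0000000000000000000000) (nat_lit 0x0) (nat_lit 0x500018001c000200420021800000000000000000) := T_49 (nat_lit 94) (nat_lit 77) (nat_lit 6) (nat_lit 8) (nat_lit 8) L2392 (by decide +kernel)
theorem L2394 : W_49 (nat_lit 8) (nat_lit 0x160001a000800040003c0000000000000000000000) (nat_lit 0x0) (nat_lit 0x500018001c000e00420021800000000000000000) := T_49 (nat_lit 106) (nat_lit 107) (nat_lit 1) (nat_lit 8) (nat_lit 5) L2393 (by decide +kernel)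
theorem L2395 : W_49 (nat_lit 9) (nat_lit 0x60001a000800040003c0000000000000000000000) (nat_lit 0x0) (nat_lit 0x18500018001c000e00420021800000000000000000) := T_49 (nat_lit 164) (nat_lit 163) (nat_lit 0) (nat_lit 11) (nat_lit 9) L2394 (by decide +kernel)
theorem L2396 : W_49 (nat_lit 10) (nat_lit 0x600018000800040003c0000000000000000000000) (nat_lit 0x0) (nat_lit 0x18500078001c000e00420021800000000000000000) := T_49 (nat_lit 141) (nat_lit 142) (nat_lit 3) (nat_lit 5) (nat_lit 8) L2395 (by decide +kernel)
theorem L2397 : W_49 (nat_lit 11) (nat_lit 0x200018000800040003c0000000000000000000000) (nat_lit 0x0) (nat_lit 0x8001c500078001c000e00420021800000000000000000) := T_49 (nat_lit 162) (nat_lit 179) (nat_lit 7) (nat_lit 8) (nat_lit 6) L2396 (by decide +kernel)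
theorem L2398 : W_49 (nat_lit 12) (nat_lit 0x200010000800040003c0000000000000000000000) (nat_lit 0x0) (nat_lit 0x8001d5000f8001c000e00420021800000000000000000) := T_49 (nat_lit 143) (nat_lit 160) (nat_lit 5) (nat_lit 8) (nat_lit 5) L2397 (by decide +kernel)
theorem L2399 : W_49 (nat_lit 2) (nat_lit 0x60001a000800040007c0004000000000000000000) (nat_lit 0x0) (nat_lit 0x10000c00000000000000000000000000) := D_49 (nat_lit 107) (nat_lit 124) (nat_lit 106) (nat_lit 6) (nat_lit 5) (nat_lit 8) (nat_lit 1) (nat_lit 8) (nat_lit 5) (by decide +kernel)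
theorem L2400 : W_49 (nat_lit 3) (nat_lit 0x600018000800040007c0004000000000000000000) (nat_lit 0x0) (nat_lit 0x600010000c00000000000000000000000000) := T_49 (nat_lit 141) (nat_lit 142) (nat_lit 3) (nat_lit 5) (nat_lit 8) L2399 (by decide +kernel)
theorem L2401 : W_49 (nat_lit 4) (nat_lit 0x200018000800040007c0004000000000000000000) (nat_lit 0x0) (nat_lit 0x800040000600010000c00000000000000000000000000) := T_49 (nat_lit 162) (nat_lit 179) (nat_lit 7) (nat_lit 8) (nat_lit 6) L2400 (by decide +kernel)
theorem L2402 : W_49 (nat_lit 5) (nat_lit 0x200010000800040007c0004000000000000000000) (nat_lit 0x0) (nat_lit 0x800050000e00010000c00000000000000000000000000) := T_49 (nat_lit 143) (nat_lit 160) (nat_lit 5) (nat_lit 8) (nat_lit 5) L2401 (by decide +kernel)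
theorem L2403 : W_49 (nat_lit 6) (nat_lit 0x200010000800040007c0000000000000000000000) (nat_lit 0x0) (nat_lit 0x800050000e00010000c00000006000000000000000000) := T_49 (nat_lit 74) (nat_lit 73) (nat_lit 0) (nat_lit 9) (nat_lit 5) L2402 (by decide +kernel)
theorem L2404 : W_49 (nat_lit 7) (nat_lit 0x200010000800040003c0000000000000000000000) (nat_lit 0x0) (nat_lit 0x800050000e00010000c00400026000000000000000000) := T_49 (nat_lit 94) (nat_lit 77) (nat_lit 6) (nat_lit 8) (nat_lit 8) L2403 (by decide +kernel)
theorem L2405 : W_49 (nat_lit 2) (nat_lit 0x200010000800040003c0002000000000000000000) (nat_lit 0x0) (nat_lit 0x400024000000000000000000) := D_49 (nat_lit 94) (nat_lit 77) (nat_lit 74) (nat_lit 6) (nat_lit 8) (nat_lit 8) (nat_lit 0) (nat_lit 9) (nat_lit 5) (by decide +kernel)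
theorem L2406 : W_49 (nat_lit 3) (nat_lit 0x200010000800040003c0000000000000000000000) (nat_lit 0x0) (nat_lit 0x400027000000000000000000) := T_49 (nat_lit 73) (nat_lit 72) (nat_lit 0) (nat_lit 8) (nat_lit 5) L2405 (by decide +kernel)
theorem L2407 : W_49 (nat_lit 13) (nat_lit 0x20001000080004000380000000000000000000000) (nat_lit 0x0) (nat_lit 0x8001d7000f8015c000e00460027800000000000000000) := Q_49 (nat_lit 90) (C_49 L2316 (C_49 L2334 (C_49 L2324 (C_49 L2398 (C_49 L2404 (C_49 L2406 N_49)))))) (by decide +kernel)
theorem L2408 : W_49 (nat_lit 2) (nat_lit 0xc00020001a000f0005000780000000000000000000000) (nat_lit 0x0) (nat_lit 0x4000400100000000000000000000000000000000) := D_49 (nat_lit 142) (nat_lit 128) (nat_lit 158) (nat_lit 2) (nat_lit 5) (nat_lit 8) (nat_lit 5) (nat_lit 6) (nat_lit 5) (by decide +kernel)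
theorem L2409 : W_49 (nat_lit 3) (nat_lit 0xc000200018000f0005000780000000000000000000000) (nat_lit 0x0) (nat_lit 0x4000700100000000000000000000000000000000) := T_49 (nat_lit 141) (nat_lit 140) (nat_lit 1) (nat_lit 8) (nat_lit 7) L2408 (by decide +kernel)
theorem L2410 : W_49 (nat_lit 4) (nat_lit 0xc000200018000e0005000780000000000000000000000) (nat_lit 0x0) (nat_lit 0x4000700118000000000000000000000000000000) := T_49 (nat_lit 124) (nat_lit 123) (nat_lit 3) (nat_lit 4) (nat_lit 7) L2409 (by decide +kernel)
theorem L2411 : W_49 (nat_lit 5) (nat_lit 0xc000200018000c0005000780000000000000000000000) (nat_lit 0x0) (nat_lit 0x4000700138000000000004000000000000000000) := T_49 (nat_lit 125) (nat_lit 74) (nat_lit 7) (nat_lit 6) (nat_lit 4) L2410 (by decide +kernel)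
theorem L2412 : W_49 (nat_lit 6) (nat_lit 0xc00020001800080005000780000000000000000000000) (nat_lit 0x0) (nat_lit 0x8000000004000700178000000000004000000000000000000) := T_49 (nat_lit 126) (nat_lit 195) (nat_lit 4) (nat_lit 8) (nat_lit 11) L2411 (by decide +kernel)
theorem L2413 : W_49 (nat_lit 7) (nat_lit 0x800020001800080005000780000000000000000000000) (nat_lit 0x0) (nat_lit 0x18000400004000700178000000000004000000000000000000) := T_49 (nat_lit 178) (nat_lit 196) (nat_lit 7) (nat_lit 8) (nat_lit 7) L2412 (by decide +kernel)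
theorem L2414 : W_49 (nat_lit 8) (nat_lit 0x20001800080005000780000000000000000000000) (nat_lit 0x0) (nat_lit 0x18000c00044000700178000000000004000000000000000000) := T_49 (nat_lit 179) (nat_lit 162) (nat_lit 7) (nat_lit 8) (nat_lit 6) L2413 (by decide +kernel)
theorem L2415 : W_49 (nat_lit 9) (nat_lit 0x20001000080005000780000000000000000000000) (nat_lit 0x0) (nat_lit 0x18000c00054000f00178000000000004000000000000000000) := T_49 (nat_lit 143) (nat_lit 160) (nat_lit 5) (nat_lit 8) (nat_lit 5) L2414 (by decide +kernel)
theorem L2416 : W_49 (nat_lit 10) (nat_lit 0x20001000080004000780000000000000000000000) (nat_lit 0x0) (nat_lit 0x18000c00054000f00178001800000004000000000000000000) := T_49 (nat_lit 108) (nat_lit 107) (nat_lit 1) (nat_lit 9) (nat_lit 5) L2415 (by decide +kernel)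
theorem L2417 : W_49 (nat_lit 11) (nat_lit 0x20001000080004000380000000000000000000000) (nat_lit 0x0) (nat_lit 0x18000c00054000f00178001800400024000000000000000000) := T_49 (nat_lit 94) (nat_lit 77) (nat_lit 6) (nat_lit 8) (nat_lit 8) L2416 (by decide +kernel)
theorem L2418 : W_49 (nat_lit 15) (nat_lit 0x20001000080004000300000000000000000000000) (nat_lit 0x0) (nat_lit 0x500039001f800dc01df000f8017c001e004e0027800000000000000000) := Q_49 (nat_lit 91) (C_49 L2294 (C_49 L2301 (C_49 L2308 (C_49 L2312 (C_49 L2355 (C_49 L2378 (C_49 L2387 (C_49 L2407 (C_49 L2417 N_49))))))))) (by decide +kernel)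
theorem L2419 : W_49 (nat_lit 16) (nat_lit 0x20001000080004000200000000000000000000000) (nat_lit 0x0) (nat_lit 0x500039001f800dc01df000f8017c001e005e002f800000000000000000) := T_49 (nat_lit 92) (nat_lit 75) (nat_lit 4) (nat_lit 8) (nat_lit 8) L2418 (by decide +kernel)
theorem L2420 : W_49 (nat_lit 17) (nat_lit 0x20001000080004000000000000000000000000000) (nat_lit 0x0) (nat_lit 0x500039001f800dc01df000f8017c001e007e003f801400000000000000) := Q_49 (nat_lit 93) (C_49 L2273 (C_49 L2277 (C_49 L2278 (C_49 L2283 (C_49 L2287 (C_49 L2419 N_49)))))) (by decide +kernel)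
theorem L2421 : W_49 (nat_lit 2) (nat_lit 0x160001a00080004000200010000000000000000000) (nat_lit 0x0) (nat_lit 0x100008000400000000000000) := D_49 (nat_lit 75) (nat_lit 58) (nat_lit 92) (nat_lit 4) (nat_lit 8) (nat_lit 7) (nat_lit 4) (nat_lit 8) (nat_lit 8) (by decide +kernel)
theorem L2422 : W_49 (nat_lit 3) (nat_lit 0x160001a00080004000200000000000000000000000) (nat_lit 0x0) (nat_lit 0x40000000100018000400000000000000) := T_49 (nat_lit 76) (nat_lit 126) (nat_lit 5) (nat_lit 8) (nat_lit 4) L2421 (by decide +kernel)
theorem L2423 : W_49 (nat_lit 4) (nat_lit 0x160001a00080004000000000000000000000000000) (nat_lit 0x0) (nat_lit 0x10000000040000000300018000400000000000000) := T_49 (nat_lit 93) (nat_lit 160) (nat_lit 5) (nat_lit 8) (nat_lit 5) L2422 (by decide +kernel)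
theorem L2424 : W_49 (nat_lit 5) (nat_lit 0x60001a00080004000000000000000000000000000) (nat_lit 0x0) (nat_lit 0x190000000040000000300018000400000000000000) := T_49 (nat_lit 164) (nat_lit 163) (nat_lit 0) (nat_lit 11) (nat_lit 9) L2423 (by decide +kernel)
theorem L2425 : W_49 (nat_lit 6) (nat_lit 0x60001800080004000000000000000000000000000) (nat_lit 0x0) (nat_lit 0x190000600040000000300018000400000000000000) := T_49 (nat_lit 141) (nat_lit 142) (nat_lit 3) (nat_lit 5) (nat_lit 8) L2424 (by decide +kernel)
theorem L2426 : W_49 (nat_lit 7) (nat_lit 0x20001800080004000000000000000000000000000) (nat_lit 0x0) (nat_lit 0x8001d0000600040000000300018000400000000000000) := T_49 (nat_lit 162) (nat_lit 179) (nat_lit 7) (nat_lit 8) (nat_lit 6) L2425 (by decide +kernel)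
theorem L2428 : W_49 (nat_lit 2) (nat_lit 0x20001800080004000200010000000000000000000) (nat_lit 0x0) (nat_lit 0x100008000400000000000000) := D_49 (nat_lit 75) (nat_lit 58) (nat_lit 92) (nat_lit 4) (nat_lit 8) (nat_lit 7) (nat_lit 4) (nat_lit 8) (nat_lit 8) (by decide +kernel)
theorem L2429 : W_49 (nat_lit 3) (nat_lit 0x20001800080004000200000000000000000000000) (nat_lit 0x0) (nat_lit 0x40000000100018000400000000000000) := T_49 (nat_lit 76) (nat_lit 126) (nat_lit 5) (nat_lit 8) (nat_lit 4) L2428 (by decide +kernel)
theorem L2430 : W_49 (nat_lit 4) (nat_lit 0x20001800080004000000000000000000000000000) (nat_lit 0x0) (nat_lit 0x10000000040000000300018000400000000000000) := T_49 (nat_lit 93) (nat_lit 160) (nat_lit 5) (nat_lit 8) (nat_lit 5) L2429 (by decide +kernel)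
theorem L2434 : W_49 (nat_lit 2) (nat_lit 0xc00020001c00180004000000000000000000000000000) (nat_lit 0x0) (nat_lit 0x640000000000000000000000000000000) := D_49 (nat_lit 129) (nat_lit 130) (nat_lit 126) (nat_lit 1) (nat_lit 11) (nat_lit 7) (nat_lit 1) (nat_lit 10) (nat_lit 7) (by decide +kernel)
theorem L2435 : W_49 (nat_lit 3) (nat_lit 0xc00020001800180004000000000000000000000000000) (nat_lit 0x0) (nat_lit 0x600640000000000000000000000000000000) := T_49 (nat_lit 142) (nat_lit 141) (nat_lit 2) (nat_lit 5) (nat_lit 8) L2434 (by decide +kernel)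
theorem L2436 : W_49 (nat_lit 4) (nat_lit 0xc00020001800080004000000000000000000000000000) (nat_lit 0x0) (nat_lit 0x600740008000000000000000000000000000) := T_49 (nat_lit 128) (nat_lit 111) (nat_lit 6) (nat_lit 8) (nat_lit 10) L2435 (by decide +kernel)
theorem L2437 : W_49 (nat_lit 5) (nat_lit 0x800020001800080004000000000000000000000000000) (nat_lit 0x0) (nat_lit 0x10000400000000600740008000000000000000000000000000) := T_49 (nat_lit 178) (nat_lit 196) (nat_lit 7) (nat_lit 8) (nat_lit 7) L2436 (by decide +kernel)
theorem L2438 : W_49 (nat_lit 6) (nat_lit 0x20001800080004000000000000000000000000000) (nat_lit 0x0) (nat_lit 0x10000c00040000600740008000000000000000000000000000) := T_49 (nat_lit 179) (nat_lit 162) (nat_lit 7) (nat_lit 8) (nat_lit 6) L2437 (by decide +kernel)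
theorem L2439 : W_49 (nat_lit 8) (nat_lit 0x20001000080004000000000000000000000000000) (nat_lit 0x0) (nat_lit 0x10000c001d0000e00740008000300018000400000000000000) := Q_49 (nat_lit 143) (C_49 L2426 (C_49 L2427 (C_49 L2430 (C_49 L2433 (C_49 L2438 N_49))))) (by decide +kernel)
theorem L2440 : W_49 (nat_lit 18) (nat_lit 0x20001000080000000000000000000000000000000) (nat_lit 0x0) (nat_lit 0x500039001f800dc01df000f8077c00de007e003f801400000000000000) := Q_49 (nat_lit 110) (C_49 L2015 (C_49 L2270 (C_49 L2420 (C_49 L2439 N_49)))) (by decide +kernel)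
theorem L2441 : W_49 (nat_lit 2) (nat_lit 0x400020001600080000000000000000000000000000000) (nat_lit 0x0) (nat_lit 0x800100008000000000000000000000000000) := D_49 (nat_lit 128) (nat_lit 111) (nat_lit 143) (nat_lit 6) (nat_lit 8) (nat_lit 10) (nat_lit 2) (nat_lit 5) (nat_lit 8) (by decide +kernel)
theorem L2442 : W_49 (nat_lit 2) (nat_lit 0x600022001e00088000000000000000000000000000000) (nat_lit 0x0) (nat_lit 0x1000100004000000000000000000000000000000) := D_49 (nat_lit 140) (nat_lit 156) (nat_lit 122) (nat_lit 1) (nat_lit 7) (nat_lit 8) (nat_lit 0) (nat_lit 7) (nat_lit 8) (by decide +kernel)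
theorem L2443 : W_49 (nat_lit 3) (nat_lit 0x600022001e00080000000000000000000000000000000) (nat_lit 0x0) (nat_lit 0x100010001c000000000000000000000000000000) := T_49 (nat_lit 123) (nat_lit 124) (nat_lit 0) (nat_lit 8) (nat_lit 8) L2442 (by decide +kernel)
theorem L2444 : W_49 (nat_lit 4) (nat_lit 0x600020001e00080000000000000000000000000000000) (nat_lit 0x0) (nat_lit 0x700010001c000000000000000000000000000000) := T_49 (nat_lit 157) (nat_lit 158) (nat_lit 1) (nat_lit 8) (nat_lit 8) L2443 (by decide +kernel)
theorem L2445 : W_49 (nat_lit 5) (nat_lit 0x600020001600080000000000000000000000000000000) (nat_lit 0x0) (nat_lit 0x4700090001c000000000000000000000000000000) := T_49 (nat_lit 143) (nat_lit 162) (nat_lit 3) (nat_lit 5) (nat_lit 8) L2444 (by decide +kernel)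
theorem L2446 : W_49 (nat_lit 6) (nat_lit 0x400020001600080000000000000000000000000000000) (nat_lit 0x0) (nat_lit 0x400020004700090001c000000000000000000000000000000) := T_49 (nat_lit 177) (nat_lit 194) (nat_lit 5) (nat_lit 8) (nat_lit 7) L2445 (by decide +kernel)
theorem L2447 : W_49 (nat_lit 2) (nat_lit 0x1000780020001600180000000000000000000000000000000) (nat_lit 0x0) (nat_lit 0x6000000020000000000000000000000000000000) := D_49 (nat_lit 158) (nat_lit 157) (nat_lit 125) (nat_lit 0) (nat_lit 8) (nat_lit 10) (nat_lit 6) (nat_lit 5) (nat_lit 11) (by decide +kernel)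
theorem L2448 : W_49 (nat_lit 3) (nat_lit 0x780020001600180000000000000000000000000000000) (nat_lit 0x0) (nat_lit 0x1800000006000000020000000000000000000000000000000) := T_49 (nat_lit 192) (nat_lit 191) (nat_lit 1) (nat_lit 8) (nat_lit 10) L2447 (by decide +kernel)
theorem L2449 : W_49 (nat_lit 4) (nat_lit 0x680020001600180000000000000000000000000000000) (nat_lit 0x0) (nat_lit 0x1800100046000000020000000000000000000000000000000) := T_49 (nat_lit 176) (nat_lit 162) (nat_lit 2) (nat_lit 5) (nat_lit 10) L2448 (by decide +kernel)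
theorem L2450 : W_49 (nat_lit 5) (nat_lit 0x480020001600180000000000000000000000000000000) (nat_lit 0x0) (nat_lit 0x5800300046000000020000000000000000000000000000000) := T_49 (nat_lit 177) (nat_lit 194) (nat_lit 5) (nat_lit 8) (nat_lit 7) L2449 (by decide +kernel)
theorem L2451 : W_49 (nat_lit 6) (nat_lit 0x480020001600080000000000000000000000000000000) (nat_lit 0x0) (nat_lit 0x5800300046000000120008000000000000000000000000000) := T_49 (nat_lit 128) (nat_lit 111) (nat_lit 6) (nat_lit 8) (nat_lit 10) L2450 (by decide +kernel)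
theorem L2452 : W_49 (nat_lit 2) (nat_lit 0x9000780024001600080000000000000000000000000000000) (nat_lit 0x0) (nat_lit 0x40002000000000000000010000000000000000000000000000000) := D_49 (nat_lit 193) (nat_lit 124) (nat_lit 210) (nat_lit 7) (nat_lit 5) (nat_lit 7) (nat_lit 7) (nat_lit 5) (nat_lit 8) (by decide +kernel)
theorem L2453 : W_49 (nat_lit 3) (nat_lit 0x9000780020001600080000000000000000000000000000000) (nat_lit 0x0) (nat_lit 0x40002000000006000000010000000000000000000000000000000) := T_49 (nat_lit 158) (nat_lit 157) (nat_lit 0) (nat_lit 8) (nat_lit 10) L2452 (by decide +kernel)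
theorem L2454 : W_49 (nat_lit 4) (nat_lit 0x1000780020001600080000000000000000000000000000000) (nat_lit 0x0) (nat_lit 0x4001a000000006000000010000000000000000000000000000000) := T_49 (nat_lit 195) (nat_lit 196) (nat_lit 3) (nat_lit 5) (nat_lit 10) L2453 (by decide +kernel)
theorem L2455 : W_49 (nat_lit 5) (nat_lit 0x780020001600080000000000000000000000000000000) (nat_lit 0x0) (nat_lit 0x4001b800000006000000010000000000000000000000000000000) := T_49 (nat_lit 192) (nat_lit 191) (nat_lit 1) (nat_lit 8) (nat_lit 10) L2454 (by decide +kernel)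
theorem L2456 : W_49 (nat_lit 6) (nat_lit 0x680020001600080000000000000000000000000000000) (nat_lit 0x0) (nat_lit 0x4001b800100046000000010000000000000000000000000000000) := T_49 (nat_lit 176) (nat_lit 162) (nat_lit 2) (nat_lit 5) (nat_lit 10) L2455 (by decide +kernel)
theorem L2457 : W_49 (nat_lit 7) (nat_lit 0x480020001600080000000000000000000000000000000) (nat_lit 0x0) (nat_lit 0x4001f800300046000000010000000000000000000000000000000) := T_49 (nat_lit 177) (nat_lit 194) (nat_lit 5) (nat_lit 8) (nat_lit 7) L2456 (by decide +kernel)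
theorem L2458 : W_49 (nat_lit 2) (nat_lit 0x1f000480020001600180000000000000000000000000000000) (nat_lit 0x0) (nat_lit 0x60000000000004000000000000000000000000000000000000000) := D_49 (nat_lit 210) (nat_lit 209) (nat_lit 158) (nat_lit 1) (nat_lit 9) (nat_lit 11) (nat_lit 7) (nat_lit 5) (nat_lit 8) (by decide +kernel)
theorem L2459 : W_49 (nat_lit 3) (nat_lit 0x1e000480020001600180000000000000000000000000000000) (nat_lit 0x0) (nat_lit 0x60001000040004000000000000000000000000000000000000000) := T_49 (nat_lit 192) (nat_lit 174) (nat_lit 0) (nat_lit 8) (nat_lit 11) L2458 (by decide +kernel)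
theorem L2460 : W_49 (nat_lit 4) (nat_lit 0x1c000480020001600180000000000000000000000000000000) (nat_lit 0x0) (nat_lit 0x60003000140004000000000000000000000000000000000000000) := T_49 (nat_lit 193) (nat_lit 176) (nat_lit 0) (nat_lit 9) (nat_lit 11) L2459 (by decide +kernel)
theorem L2461 : W_49 (nat_lit 5) (nat_lit 0xc000480020001600180000000000000000000000000000000) (nat_lit 0x0) (nat_lit 0x260013000140004000000000000000000000000000000000000000) := T_49 (nat_lit 196) (nat_lit 213) (nat_lit 7) (nat_lit 8) (nat_lit 8) L2460 (by decide +kernel)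
theorem L2462 : W_49 (nat_lit 6) (nat_lit 0x4000480020001600180000000000000000000000000000000) (nat_lit 0x0) (nat_lit 0x2e001b000140004000000000000000000000000000000000000000) := T_49 (nat_lit 195) (nat_lit 211) (nat_lit 5) (nat_lit 8) (nat_lit 8) L2461 (by decide +kernel)
theorem L2463 : W_49 (nat_lit 7) (nat_lit 0x480020001600180000000000000000000000000000000) (nat_lit 0x0) (nat_lit 0x2e001f000340004000000000000000000000000000000000000000) := T_49 (nat_lit 194) (nat_lit 177) (nat_lit 5) (nat_lit 8) (nat_lit 7) L2462 (by decide +kernel)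
theorem L2464 : W_49 (nat_lit 8) (nat_lit 0x480020001600080000000000000000000000000000000) (nat_lit 0x0) (nat_lit 0x2e001f000340004000000100008000000000000000000000000000) := T_49 (nat_lit 128) (nat_lit 111) (nat_lit 6) (nat_lit 8) (nat_lit 10) L2463 (by decide +kernel)
theorem L2465 : W_49 (nat_lit 2) (nat_lit 0x20003000480024001600180000000000000000000000000000000) (nat_lit 0x0) (nat_lit 0x200010000800000000000000000000000000000000000000000000000) := D_49 (nat_lit 208) (nat_lit 225) (nat_lit 191) (nat_lit 5) (nat_lit 5) (nat_lit 9) (nat_lit 5) (nat_lit 5) (nat_lit 8) (by decide +kernel)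
theorem L2466 : W_49 (nat_lit 3) (nat_lit 0x3000480024001600180000000000000000000000000000000) (nat_lit 0x0) (nat_lit 0x200030000800000008000000000000000000000000000000000000000) := T_49 (nat_lit 209) (nat_lit 159) (nat_lit 6) (nat_lit 5) (nat_lit 12) L2465 (by decide +kernel)
theorem L2467 : W_49 (nat_lit 4) (nat_lit 0x1000480024001600180000000000000000000000000000000) (nat_lit 0x0) (nat_lit 0x200070002800000008000000000000000000000000000000000000000) := T_49 (nat_lit 193) (nat_lit 210) (nat_lit 7) (nat_lit 5) (nat_lit 8) L2466 (by decide +kernel)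
theorem L2468 : W_49 (nat_lit 5) (nat_lit 0x1000480024001600080000000000000000000000000000000) (nat_lit 0x0) (nat_lit 0x200070002800000008000000100008000000000000000000000000000) := T_49 (nat_lit 128) (nat_lit 111) (nat_lit 6) (nat_lit 8) (nat_lit 10) L2467 (by decide +kernel)
theorem L2469 : W_49 (nat_lit 2) (nat_lit 0x1800480024001600090000000000000000000000000000000) (nat_lit 0x0) (nat_lit 0x100008000400000000000000000000000000) := D_49 (nat_lit 123) (nat_lit 106) (nat_lit 140) (nat_lit 4) (nat_lit 5) (nat_lit 10) (nat_lit 4) (nat_lit 5) (nat_lit 11) (by decide +kernel)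
theorem L2470 : W_49 (nat_lit 3) (nat_lit 0x1800480024001600080000000000000000000000000000000) (nat_lit 0x0) (nat_lit 0x40000000100018000400000000000000000000000000) := T_49 (nat_lit 124) (nat_lit 174) (nat_lit 5) (nat_lit 5) (nat_lit 7) L2469 (by decide +kernel)
theorem L2471 : W_49 (nat_lit 4) (nat_lit 0x1000480024001600080000000000000000000000000000000) (nat_lit 0x0) (nat_lit 0x10000800040000000100018000400000000000000000000000000) := T_49 (nat_lit 191) (nat_lit 208) (nat_lit 5) (nat_lit 5) (nat_lit 8) L2470 (by decide +kernel)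
theorem L2472 : W_49 (nat_lit 2) (nat_lit 0x3000480024001600090000000000000000000000000000000) (nat_lit 0x0) (nat_lit 0x100008000400000000000000000000000000) := D_49 (nat_lit 123) (nat_lit 106) (nat_lit 140) (nat_lit 4) (nat_lit 5) (nat_lit 10) (nat_lit 4) (nat_lit 5) (nat_lit 11) (by decide +kernel)
theorem L2473 : W_49 (nat_lit 3) (nat_lit 0x3000480024001600080000000000000000000000000000000) (nat_lit 0x0) (nat_lit 0x100000000100018000400000000000000000000000000) := T_49 (nat_lit 124) (nat_lit 176) (nat_lit 7) (nat_lit 5) (nat_lit 7) L2472 (by decide +kernel)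
theorem L2474 : W_49 (nat_lit 4) (nat_lit 0x1000480024001600080000000000000000000000000000000) (nat_lit 0x0) (nat_lit 0x40002000100000000100018000400000000000000000000000000) := T_49 (nat_lit 193) (nat_lit 210) (nat_lit 7) (nat_lit 5) (nat_lit 8) L2473 (by decide +kernel)
theorem L2475 : W_49 (nat_lit 6) (nat_lit 0x480024001600080000000000000000000000000000000) (nat_lit 0x0) (nat_lit 0x200070003800140008000100118008400000000000000000000000000) := Q_49 (nat_lit 192) (C_49 L2468 (C_49 L2471 (C_49 L2474 N_49))) (by decide +kernel)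
theorem L2476 : W_49 (nat_lit 5) (nat_lit 0x480024001600080000000000000000000000000000000) (nat_lit 0x0) (nat_lit 0x40003000100000000100038000400000000000000000000000000) := T_49 (nat_lit 192) (nat_lit 125) (nat_lit 6) (nat_lit 5) (nat_lit 11) L2474 (by decide +kernel)
theorem L2477 : W_49 (nat_lit 6) (nat_lit 0x480024001600080000000000000000000000000000000) (nat_lit 0x0) (nat_lit 0x200070003800000008000000120008000000000000000000000000000) := T_49 (nat_lit 192) (nat_lit 125) (nat_lit 6) (nat_lit 5) (nat_lit 11) L2468 (by decide +kernel)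
theorem L2478 : W_49 (nat_lit 5) (nat_lit 0x480024001600080000000000000000000000000000000) (nat_lit 0x0) (nat_lit 0x10001800040000000100038000400000000000000000000000000) := T_49 (nat_lit 192) (nat_lit 125) (nat_lit 6) (nat_lit 5) (nat_lit 11) L2471 (by decide +kernel)
theorem L2479 : W_49 (nat_lit 2) (nat_lit 0x4c00240016001b0000800000000000000000000000000) (nat_lit 0x0) (nat_lit 0x8000400020000000000000000000000) := D_49 (nat_lit 106) (nat_lit 89) (nat_lit 123) (nat_lit 4) (nat_lit 5) (nat_lit 9) (nat_lit 4) (nat_lit 5) (nat_lit 10) (by decide +kernel)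
theorem L2480 : W_49 (nat_lit 3) (nat_lit 0x4c00240016001b0000000000000000000000000000000) (nat_lit 0x0) (nat_lit 0x2000000008000c00020000000000000000000000) := T_49 (nat_lit 107) (nat_lit 157) (nat_lit 5) (nat_lit 5) (nat_lit 6) L2479 (by decide +kernel)
theorem L2481 : W_49 (nat_lit 4) (nat_lit 0x4800240016001b0000000000000000000000000000000) (nat_lit 0x0) (nat_lit 0x800040002000000008000c00020000000000000000000000) := T_49 (nat_lit 174) (nat_lit 191) (nat_lit 5) (nat_lit 5) (nat_lit 7) L2480 (by decide +kernel)
theorem L2482 : W_49 (nat_lit 5) (nat_lit 0x480024001600190000000000000000000000000000000) (nat_lit 0x0) (nat_lit 0x800040002000000028001c00020000000000000000000000) := T_49 (nat_lit 125) (nat_lit 108) (nat_lit 6) (nat_lit 5) (nat_lit 10) L2481 (by decide +kernel)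
theorem L2483 : W_49 (nat_lit 6) (nat_lit 0x480024001600090000000000000000000000000000000) (nat_lit 0x0) (nat_lit 0x800040002000000128009c00020000000000000000000000) := T_49 (nat_lit 128) (nat_lit 111) (nat_lit 6) (nat_lit 8) (nat_lit 10) L2482 (by decide +kernel)
theorem L2484 : W_49 (nat_lit 2) (nat_lit 0x58002400160009a000000000000000000000000000000) (nat_lit 0x0) (nat_lit 0x200042000000000000000000000000000000000000000) := D_49 (nat_lit 177) (nat_lit 157) (nat_lit 162) (nat_lit 0) (nat_lit 8) (nat_lit 10) (nat_lit 2) (nat_lit 5) (nat_lit 10) (by decide +kernel)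
theorem L2485 : W_49 (nat_lit 3) (nat_lit 0x48002400160009a000000000000000000000000000000) (nat_lit 0x0) (nat_lit 0x2000300042000000000000000000000000000000000000000) := T_49 (nat_lit 176) (nat_lit 193) (nat_lit 7) (nat_lit 5) (nat_lit 7) L2484 (by decide +kernel)
theorem L2486 : W_49 (nat_lit 4) (nat_lit 0x480024001600098000000000000000000000000000000) (nat_lit 0x0) (nat_lit 0x2000300042000000006000000000000000000000000000000) := T_49 (nat_lit 121) (nat_lit 122) (nat_lit 3) (nat_lit 2) (nat_lit 7) L2485 (by decide +kernel)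
theorem L2487 : W_49 (nat_lit 5) (nat_lit 0x480024001600090000000000000000000000000000000) (nat_lit 0x0) (nat_lit 0x200030004200000000e000400000000000000000000000000) := T_49 (nat_lit 123) (nat_lit 106) (nat_lit 4) (nat_lit 5) (nat_lit 10) L2486 (by decide +kernel)
theorem L2488 : W_49 (nat_lit 2) (nat_lit 0x4005e002d0016001ba000000000000000000000000000000) (nat_lit 0x0) (nat_lit 0x1c0000000000000000000000000000000000) := D_49 (nat_lit 139) (nat_lit 138) (nat_lit 140) (nat_lit 4) (nat_lit 3) (nat_lit 11) (nat_lit 6) (nat_lit 3) (nat_lit 11) (by decide +kernel)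
theorem L2489 : W_49 (nat_lit 3) (nat_lit 0x4005e002c0016001ba000000000000000000000000000000) (nat_lit 0x0) (nat_lit 0x18001c0000000000000000000000000000000000) := T_49 (nat_lit 156) (nat_lit 155) (nat_lit 0) (nat_lit 6) (nat_lit 10) L2488 (by decide +kernel)
theorem L2490 : W_49 (nat_lit 4) (nat_lit 0x5e002c0016001ba000000000000000000000000000000) (nat_lit 0x0) (nat_lit 0x6000000018001c0000000000000000000000000000000000) := T_49 (nat_lit 190) (nat_lit 189) (nat_lit 1) (nat_lit 6) (nat_lit 10) L2489 (by decide +kernel)
theorem L2491 : W_49 (nat_lit 5) (nat_lit 0x5c002c0016001ba000000000000000000000000000000) (nat_lit 0x0) (nat_lit 0x6000300018001c0000000000000000000000000000000000) := T_49 (nat_lit 173) (nat_lit 172) (nat_lit 2) (nat_lit 2) (nat_lit 10) L2490 (by decide +kernel)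
theorem L2492 : W_49 (nat_lit 6) (nat_lit 0x58002c0016001ba000000000000000000000000000000) (nat_lit 0x0) (nat_lit 0xe000700018001c0000000000000000000000000000000000) := T_49 (nat_lit 174) (nat_lit 191) (nat_lit 5) (nat_lit 5) (nat_lit 7) L2491 (by decide +kernel)
theorem L2493 : W_49 (nat_lit 7) (nat_lit 0x5800240016001ba000000000000000000000000000000) (nat_lit 0x0) (nat_lit 0xe000700098001c0000000800000000000000000000000000) := T_49 (nat_lit 159) (nat_lit 107) (nat_lit 7) (nat_lit 5) (nat_lit 6) L2492 (by decide +kernel)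
theorem L2494 : W_49 (nat_lit 8) (nat_lit 0x4800240016001ba000000000000000000000000000000) (nat_lit 0x0) (nat_lit 0x2e001700098001c0000000800000000000000000000000000) := T_49 (nat_lit 176) (nat_lit 193) (nat_lit 7) (nat_lit 5) (nat_lit 7) L2493 (by decide +kernel)
theorem L2495 : W_49 (nat_lit 9) (nat_lit 0x4800240016001b8000000000000000000000000000000) (nat_lit 0x0) (nat_lit 0x2e001700098001c0006000800000000000000000000000000) := T_49 (nat_lit 121) (nat_lit 122) (nat_lit 3) (nat_lit 2) (nat_lit 7) L2494 (by decide +kernel)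
theorem L2496 : W_49 (nat_lit 10) (nat_lit 0x4800240016001b0000000000000000000000000000000) (nat_lit 0x0) (nat_lit 0x2e001700098001c000e000c00000000000000000000000000) := T_49 (nat_lit 123) (nat_lit 106) (nat_lit 4) (nat_lit 5) (nat_lit 10) L2495 (by decide +kernel)
theorem L2497 : W_49 (nat_lit 11) (nat_lit 0x4800240016000b0000000000000000000000000000000) (nat_lit 0x0) (nat_lit 0x2e001700098001c010e008c00000000000000000000000000) := T_49 (nat_lit 128) (nat_lit 111) (nat_lit 6) (nat_lit 8) (nat_lit 10) L2496 (by decide +kernel)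
theorem L2498 : W_49 (nat_lit 12) (nat_lit 0x480024001600090000000000000000000000000000000) (nat_lit 0x0) (nat_lit 0x2e001700098001c012e009c00000000000000000000000000) := T_49 (nat_lit 125) (nat_lit 108) (nat_lit 6) (nat_lit 5) (nat_lit 10) L2497 (by decide +kernel)
theorem L2499 : W_49 (nat_lit 2) (nat_lit 0x4c0024001600090000800000000000000000000000000) (nat_lit 0x0) (nat_lit 0x2000100008000000000000000000000000000000000000000) := D_49 (nat_lit 176) (nat_lit 193) (nat_lit 159) (nat_lit 7) (nat_lit 5) (nat_lit 7) (nat_lit 7) (nat_lit 5) (nat_lit 6) (by decide +kernel)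
theorem L2500 : W_49 (nat_lit 3) (nat_lit 0x4c0024001600090000000000000000000000000000000) (nat_lit 0x0) (nat_lit 0x200010000a000000000000800000000000000000000000000) := T_49 (nat_lit 107) (nat_lit 157) (nat_lit 5) (nat_lit 5) (nat_lit 6) L2499 (by decide +kernel)
theorem L2501 : W_49 (nat_lit 4) (nat_lit 0x480024001600090000000000000000000000000000000) (nat_lit 0x0) (nat_lit 0x280014000a000000000000800000000000000000000000000) := T_49 (nat_lit 174) (nat_lit 191) (nat_lit 5) (nat_lit 5) (nat_lit 7) L2500 (by decide +kernel)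
theorem L2502 : W_49 (nat_lit 13) (nat_lit 0x480024001600080000000000000000000000000000000) (nat_lit 0x0) (nat_lit 0x2e0037004b8001c013e009c00020000000000000000000000) := Q_49 (nat_lit 124) (C_49 L2483 (C_49 L2487 (C_49 L2498 (C_49 L2501 N_49)))) (by decide +kernel)
theorem L2503 : W_49 (nat_lit 14) (nat_lit 0x480020001600080000000000000000000000000000000) (nat_lit 0x0) (nat_lit 0x200070003e0037004f8001c013e009c00020000000000000000000000) := Q_49 (nat_lit 158) (C_49 L2475 (C_49 L2476 (C_49 L2477 (C_49 L2478 (C_49 L2502 N_49))))) (by decide +kernel)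
theorem L2504 : W_49 (nat_lit 2) (nat_lit 0x5c00240016801bc000200000000000000000000000000) (nat_lit 0x0) (nat_lit 0x3000100000000000000000000000000000000000) := D_49 (nat_lit 157) (nat_lit 140) (nat_lit 156) (nat_lit 4) (nat_lit 4) (nat_lit 10) (nat_lit 7) (nat_lit 3) (nat_lit 6) (by decide +kernel)
theorem L2505 : W_49 (nat_lit 3) (nat_lit 0x5c00240016801bc000000000000000000000000000000) (nat_lit 0x0) (nat_lit 0x3000100000000300000000000000000000000000) := T_49 (nat_lit 105) (nat_lit 104) (nat_lit 0) (nat_lit 6) (nat_lit 7) L2504 (by decide +kernel)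
theorem L2506 : W_49 (nat_lit 4) (nat_lit 0x5c00240016001bc000000000000000000000000000000) (nat_lit 0x0) (nat_lit 0x30001c0000000300000000000000000000000000) := T_49 (nat_lit 139) (nat_lit 138) (nat_lit 1) (nat_lit 6) (nat_lit 7) L2505 (by decide +kernel)
theorem L2507 : W_49 (nat_lit 5) (nat_lit 0x5c00240016001b8000000000000000000000000000000) (nat_lit 0x0) (nat_lit 0x30001c0006000300000000000000000000000000) := T_49 (nat_lit 122) (nat_lit 121) (nat_lit 3) (nat_lit 2) (nat_lit 7) L2506 (by decide +kernel)
theorem L2508 : W_49 (nat_lit 6) (nat_lit 0x5c00240016001b0000000000000000000000000000000) (nat_lit 0x0) (nat_lit 0x30001c000e000700000000000000000000000000) := T_49 (nat_lit 123) (nat_lit 106) (nat_lit 4) (nat_lit 5) (nat_lit 10) L2507 (by decide +kernel)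
theorem L2509 : W_49 (nat_lit 7) (nat_lit 0x5800240016001b0000000000000000000000000000000) (nat_lit 0x0) (nat_lit 0x8000400030001c000e000700000000000000000000000000) := T_49 (nat_lit 174) (nat_lit 191) (nat_lit 5) (nat_lit 5) (nat_lit 7) L2508 (by decide +kernel)
theorem L2510 : W_49 (nat_lit 8) (nat_lit 0x580024001600190000000000000000000000000000000) (nat_lit 0x0) (nat_lit 0x8000400030001c002e001700000000000000000000000000) := T_49 (nat_lit 125) (nat_lit 108) (nat_lit 6) (nat_lit 5) (nat_lit 10) L2509 (by decide +kernel)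
theorem L2511 : W_49 (nat_lit 9) (nat_lit 0x480024001600190000000000000000000000000000000) (nat_lit 0x0) (nat_lit 0x28001400030001c002e001700000000000000000000000000) := T_49 (nat_lit 176) (nat_lit 193) (nat_lit 7) (nat_lit 5) (nat_lit 7) L2510 (by decide +kernel)
theorem L2512 : W_49 (nat_lit 10) (nat_lit 0x480024001600090000000000000000000000000000000) (nat_lit 0x0) (nat_lit 0x28001400030001c012e009700000000000000000000000000) := T_49 (nat_lit 128) (nat_lit 111) (nat_lit 6) (nat_lit 8) (nat_lit 10) L2511 (by decide +kernel)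
theorem L2513 : W_49 (nat_lit 2) (nat_lit 0x58002400160009a000800000000000000000000000000) (nat_lit 0x0) (nat_lit 0x20001000080000000000000000000000) := D_49 (nat_lit 108) (nat_lit 91) (nat_lit 125) (nat_lit 6) (nat_lit 5) (nat_lit 9) (nat_lit 6) (nat_lit 5) (nat_lit 10) (by decide +kernel)
theorem L2514 : W_49 (nat_lit 3) (nat_lit 0x58002400160009a000000000000000000000000000000) (nat_lit 0x0) (nat_lit 0x8000000020001800080000000000000000000000) := T_49 (nat_lit 107) (nat_lit 159) (nat_lit 7) (nat_lit 5) (nat_lit 6) L2513 (by decide +kernel)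
theorem L2515 : W_49 (nat_lit 4) (nat_lit 0x48002400160009a000000000000000000000000000000) (nat_lit 0x0) (nat_lit 0x2000100008000000020001800080000000000000000000000) := T_49 (nat_lit 176) (nat_lit 193) (nat_lit 7) (nat_lit 5) (nat_lit 7) L2514 (by decide +kernel)
theorem L2516 : W_49 (nat_lit 5) (nat_lit 0x480024001600098000000000000000000000000000000) (nat_lit 0x0) (nat_lit 0x2000100008000000026001800080000000000000000000000) := T_49 (nat_lit 121) (nat_lit 122) (nat_lit 3) (nat_lit 2) (nat_lit 7) L2515 (by decide +kernel)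
theorem L2517 : W_49 (nat_lit 6) (nat_lit 0x480024001600090000000000000000000000000000000) (nat_lit 0x0) (nat_lit 0x200010000800000002e001c00080000000000000000000000) := T_49 (nat_lit 123) (nat_lit 106) (nat_lit 4) (nat_lit 5) (nat_lit 10) L2516 (by decide +kernel)
theorem L2518 : W_49 (nat_lit 11) (nat_lit 0x480024001600080000000000000000000000000000000) (nat_lit 0x0) (nat_lit 0x280014000b0001c013e009f000a0000000000000000000000) := Q_49 (nat_lit 124) (C_49 L2483 (C_49 L2501 (C_49 L2512 (C_49 L2517 N_49)))) (by decide +kernel)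
theorem L2519 : W_49 (nat_lit 12) (nat_lit 0x480020001600080000000000000000000000000000000) (nat_lit 0x0) (nat_lit 0x20007000380014000f0001c013e009f000a0000000000000000000000) := Q_49 (nat_lit 158) (C_49 L2478 (C_49 L2475 (C_49 L2477 (C_49 L2518 (C_49 L2476 N_49))))) (by decide +kernel)
theorem L2520 : W_49 (nat_lit 2) (nat_lit 0x30000d800480024001600190000000000000000000000000000000) (nat_lit 0x0) (nat_lit 0x100008000400000000000000000000000000) := D_49 (nat_lit 123) (nat_lit 106) (nat_lit 140) (nat_lit 4) (nat_lit 5) (nat_lit 10) (nat_lit 4) (nat_lit 5) (nat_lit 11) (by decide +kernel)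
theorem L2521 : W_49 (nat_lit 3) (nat_lit 0x30000d800480024001600180000000000000000000000000000000) (nat_lit 0x0) (nat_lit 0x40000000100018000400000000000000000000000000) := T_49 (nat_lit 124) (nat_lit 174) (nat_lit 5) (nat_lit 5) (nat_lit 7) L2520 (by decide +kernel)
theorem L2522 : W_49 (nat_lit 4) (nat_lit 0x30000d000480024001600180000000000000000000000000000000) (nat_lit 0x0) (nat_lit 0x10000800040000000100018000400000000000000000000000000) := T_49 (nat_lit 191) (nat_lit 208) (nat_lit 5) (nat_lit 5) (nat_lit 8) L2521 (by decide +kernel)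
theorem L2523 : W_49 (nat_lit 5) (nat_lit 0x30000d000480020001600180000000000000000000000000000000) (nat_lit 0x0) (nat_lit 0x10000800040004000100038000400000000000000000000000000) := T_49 (nat_lit 158) (nat_lit 125) (nat_lit 6) (nat_lit 5) (nat_lit 11) L2522 (by decide +kernel)
theorem L2524 : W_49 (nat_lit 6) (nat_lit 0x30000c000480020001600180000000000000000000000000000000) (nat_lit 0x0) (nat_lit 0x10003800040004000100038000400000000000000000000000000) := T_49 (nat_lit 192) (nat_lit 193) (nat_lit 3) (nat_lit 5) (nat_lit 11) L2523 (by decide +kernel)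
theorem L2525 : W_49 (nat_lit 7) (nat_lit 0x20000c000480020001600180000000000000000000000000000000) (nat_lit 0x0) (nat_lit 0x4000110003800040004000100038000400000000000000000000000000) := T_49 (nat_lit 212) (nat_lit 230) (nat_lit 7) (nat_lit 8) (nat_lit 9) L2524 (by decide +kernel)
theorem L2526 : W_49 (nat_lit 8) (nat_lit 0xc000480020001600180000000000000000000000000000000) (nat_lit 0x0) (nat_lit 0x4000310013800040004000100038000400000000000000000000000000) := T_49 (nat_lit 213) (nat_lit 196) (nat_lit 7) (nat_lit 8) (nat_lit 8) L2525 (by decide +kernel)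
theorem L2527 : W_49 (nat_lit 9) (nat_lit 0x4000480020001600180000000000000000000000000000000) (nat_lit 0x0) (nat_lit 0x400039001b800040004000100038000400000000000000000000000000) := T_49 (nat_lit 195) (nat_lit 211) (nat_lit 5) (nat_lit 8) (nat_lit 8) L2526 (by decide +kernel)
theorem L2528 : W_49 (nat_lit 10) (nat_lit 0x480020001600180000000000000000000000000000000) (nat_lit 0x0) (nat_lit 0x400039001f800240004000100038000400000000000000000000000000) := T_49 (nat_lit 194) (nat_lit 177) (nat_lit 5) (nat_lit 8) (nat_lit 7) L2527 (by decide +kernel)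
theorem L2529 : W_49 (nat_lit 11) (nat_lit 0x480020001600080000000000000000000000000000000) (nat_lit 0x0) (nat_lit 0x400039001f800240004000100138008400000000000000000000000000) := T_49 (nat_lit 128) (nat_lit 111) (nat_lit 6) (nat_lit 8) (nat_lit 10) L2528 (by decide +kernel)
theorem L2530 : W_49 (nat_lit 2) (nat_lit 0x9000780028001600080000000000000000000000000000000) (nat_lit 0x0) (nat_lit 0x20002000000000000000010000000000000000000000000000000) := D_49 (nat_lit 193) (nat_lit 124) (nat_lit 209) (nat_lit 4) (nat_lit 6) (nat_lit 11) (nat_lit 5) (nat_lit 6) (nat_lit 8) (by decide +kernel)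
theorem L2531 : W_49 (nat_lit 3) (nat_lit 0x9000780020001600080000000000000000000000000000000) (nat_lit 0x0) (nat_lit 0x20002000000008000000030000000000000000000000000000000) := T_49 (nat_lit 159) (nat_lit 125) (nat_lit 5) (nat_lit 6) (nat_lit 7) L2530 (by decide +kernel)
theorem L2532 : W_49 (nat_lit 4) (nat_lit 0x1000780020001600080000000000000000000000000000000) (nat_lit 0x0) (nat_lit 0x2001a000000008000000030000000000000000000000000000000) := T_49 (nat_lit 195) (nat_lit 196) (nat_lit 3) (nat_lit 5) (nat_lit 10) L2531 (by decide +kernel)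
theorem L2533 : W_49 (nat_lit 5) (nat_lit 0x780020001600080000000000000000000000000000000) (nat_lit 0x0) (nat_lit 0x2001b800000008000000030000000000000000000000000000000) := T_49 (nat_lit 192) (nat_lit 191) (nat_lit 1) (nat_lit 8) (nat_lit 10) L2532 (by decide +kernel)
theorem L2534 : W_49 (nat_lit 6) (nat_lit 0x680020001600080000000000000000000000000000000) (nat_lit 0x0) (nat_lit 0x2001b800100048000000030000000000000000000000000000000) := T_49 (nat_lit 176) (nat_lit 162) (nat_lit 2) (nat_lit 5) (nat_lit 10) L2533 (by decide +kernel)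
theorem L2535 : W_49 (nat_lit 7) (nat_lit 0x480020001600080000000000000000000000000000000) (nat_lit 0x0) (nat_lit 0x2001f800300048000000030000000000000000000000000000000) := T_49 (nat_lit 177) (nat_lit 194) (nat_lit 5) (nat_lit 8) (nat_lit 7) L2534 (by decide +kernel)
theorem L2536 : W_49 (nat_lit 2) (nat_lit 0x8000780024001600190000800000000000000000000000000) (nat_lit 0x0) (nat_lit 0x20001000080000000000000000000000) := D_49 (nat_lit 108) (nat_lit 91) (nat_lit 125) (nat_lit 6) (nat_lit 5) (nat_lit 9) (nat_lit 6) (nat_lit 5) (nat_lit 10) (by decide +kernel)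
theorem L2537 : W_49 (nat_lit 3) (nat_lit 0x8000780024001600190000000000000000000000000000000) (nat_lit 0x0) (nat_lit 0x8000000020001800080000000000000000000000) := T_49 (nat_lit 107) (nat_lit 159) (nat_lit 7) (nat_lit 5) (nat_lit 6) L2536 (by decide +kernel)
theorem L2538 : W_49 (nat_lit 4) (nat_lit 0x8000780024001600180000000000000000000000000000000) (nat_lit 0x0) (nat_lit 0x2000000008000000030001800080000000000000000000000) := T_49 (nat_lit 124) (nat_lit 193) (nat_lit 7) (nat_lit 5) (nat_lit 7) L2537 (by decide +kernel)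
theorem L2539 : W_49 (nat_lit 5) (nat_lit 0x780024001600180000000000000000000000000000000) (nat_lit 0x0) (nat_lit 0x1a000000008000000030001800080000000000000000000000) := T_49 (nat_lit 195) (nat_lit 196) (nat_lit 3) (nat_lit 5) (nat_lit 10) L2538 (by decide +kernel)
theorem L2540 : W_49 (nat_lit 6) (nat_lit 0x780020001600180000000000000000000000000000000) (nat_lit 0x0) (nat_lit 0x1a00000000e000000030001800080000000000000000000000) := T_49 (nat_lit 158) (nat_lit 157) (nat_lit 0) (nat_lit 8) (nat_lit 10) L2539 (by decide +kernel)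
theorem L2541 : W_49 (nat_lit 7) (nat_lit 0x680020001600180000000000000000000000000000000) (nat_lit 0x0) (nat_lit 0x1a00010004e000000030001800080000000000000000000000) := T_49 (nat_lit 176) (nat_lit 162) (nat_lit 2) (nat_lit 5) (nat_lit 10) L2540 (by decide +kernel)
theorem L2542 : W_49 (nat_lit 8) (nat_lit 0x480020001600180000000000000000000000000000000) (nat_lit 0x0) (nat_lit 0x1e00030004e000000030001800080000000000000000000000) := T_49 (nat_lit 177) (nat_lit 194) (nat_lit 5) (nat_lit 8) (nat_lit 7) L2541 (by decide +kernel)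
theorem L2543 : W_49 (nat_lit 9) (nat_lit 0x480020001600080000000000000000000000000000000) (nat_lit 0x0) (nat_lit 0x1e00030004e000000130009800080000000000000000000000) := T_49 (nat_lit 128) (nat_lit 111) (nat_lit 6) (nat_lit 8) (nat_lit 10) L2542 (by decide +kernel)
theorem L2544 : W_49 (nat_lit 15) (nat_lit 0x400020001600080000000000000000000000000000000) (nat_lit 0x0) (nat_lit 0x42003f001fe003f004f8001c013e009f000a0000000000000000000000) := Q_49 (nat_lit 175) (C_49 L2451 (C_49 L2457 (C_49 L2464 (C_49 L2503 (C_49 L2519 (C_49 L2529 (C_49 L2535 (C_49 L2543 N_49)))))))) (by decide +kernel)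
theorem L2545 : W_49 (nat_lit 16) (nat_lit 0x400020001200080000000000000000000000000000000) (nat_lit 0x0) (nat_lit 0x42003f001fe003f004f800dc013e009f000a0000000000000000000000) := Q_49 (nat_lit 142) (C_49 L2441 (C_49 L2446 (C_49 L2544 N_49))) (by decide +kernel)
theorem L2546 : W_49 (nat_lit 2) (nat_lit 0x400020001b000d002c800340002000280000000000000) (nat_lit 0x0) (nat_lit 0x100014000000000) := D_49 (nat_lit 56) (nat_lit 38) (nat_lit 40) (nat_lit 4) (nat_lit 5) (nat_lit 6) (nat_lit 6) (nat_lit 5) (nat_lit 6) (by decide +kernel)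
theorem L2547 : W_49 (nat_lit 3) (nat_lit 0x400020001b000d002c800340002000080000000000000) (nat_lit 0x0) (nat_lit 0x4000300014000000000) := T_49 (nat_lit 57) (nat_lit 74) (nat_lit 6) (nat_lit 5) (nat_lit 7) L2546 (by decide +kernel)
theorem L2548 : W_49 (nat_lit 4) (nat_lit 0x400020001b000d002c800340002000000000000000000) (nat_lit 0x0) (nat_lit 0x5000380014000000000) := T_49 (nat_lit 55) (nat_lit 72) (nat_lit 4) (nat_lit 5) (nat_lit 7) L2547 (by decide +kernel)
theorem L2549 : W_49 (nat_lit 5) (nat_lit 0x400020001b000d002c800340000000000000000000000) (nat_lit 0x0) (nat_lit 0x8000000000007000380014000000000) := T_49 (nat_lit 73) (nat_lit 123) (nat_lit 5) (nat_lit 5) (nat_lit 4) L2548 (by decide +kernel)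
theorem L2550 : W_49 (nat_lit 6) (nat_lit 0x400020001a000d002c800340000000000000000000000) (nat_lit 0x0) (nat_lit 0x2000100008000000000007000380014000000000) := T_49 (nat_lit 140) (nat_lit 157) (nat_lit 5) (nat_lit 5) (nat_lit 5) L2549 (by decide +kernel)
theorem L2551 : W_49 (nat_lit 7) (nat_lit 0x400020001a000d002c800300000000000000000000000) (nat_lit 0x0) (nat_lit 0x20001000080000000c0007000380014000000000) := T_49 (nat_lit 90) (nat_lit 91) (nat_lit 3) (nat_lit 5) (nat_lit 5) L2550 (by decide +kernel)
theorem L2552 : W_49 (nat_lit 8) (nat_lit 0x400020001a000d002c800200000000000000000000000) (nat_lit 0x0) (nat_lit 0x20001000080000001c000f000380014000000000) := T_49 (nat_lit 92) (nat_lit 75) (nat_lit 4) (nat_lit 8) (nat_lit 8) L2551 (by decide +kernel)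
theorem L2553 : W_49 (nat_lit 9) (nat_lit 0x400020001a000d002c800000000000000000000000000) (nat_lit 0x0) (nat_lit 0x20001000080000003c001f000380014000000000) := T_49 (nat_lit 93) (nat_lit 76) (nat_lit 5) (nat_lit 8) (nat_lit 4) L2552 (by decide +kernel)
theorem L2554 : W_49 (nat_lit 2) (nat_lit 0x4000200016000a0000000000000000000000000000000) (nat_lit 0x0) (nat_lit 0x140008000000000000000000000000000) := D_49 (nat_lit 128) (nat_lit 111) (nat_lit 126) (nat_lit 6) (nat_lit 8) (nat_lit 10) (nat_lit 1) (nat_lit 9) (nat_lit 7) (by decide +kernel)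
theorem L2555 : W_49 (nat_lit 2) (nat_lit 0x4000200016000e0000000000000000000000000000000) (nat_lit 0x0) (nat_lit 0x180010000000000000000000000000000000) := D_49 (nat_lit 140) (nat_lit 124) (nat_lit 139) (nat_lit 1) (nat_lit 8) (nat_lit 7) (nat_lit 2) (nat_lit 3) (nat_lit 8) (by decide +kernel)
theorem L2556 : W_49 (nat_lit 3) (nat_lit 0x4000200016000a0000000000000000000000000000000) (nat_lit 0x0) (nat_lit 0x180150000000000000000000000000000000) := T_49 (nat_lit 126) (nat_lit 128) (nat_lit 1) (nat_lit 9) (nat_lit 7) L2555 (by decide +kernel)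
theorem L2557 : W_49 (nat_lit 2) (nat_lit 0x4000200016000b0000800000000000000000000000000) (nat_lit 0x0) (nat_lit 0x8000000000000000040002000000000000000000) := D_49 (nat_lit 90) (nat_lit 159) (nat_lit 73) (nat_lit 7) (nat_lit 5) (nat_lit 5) (nat_lit 7) (nat_lit 5) (nat_lit 4) (by decide +kernel)
theorem L2558 : W_49 (nat_lit 2) (nat_lit 0x7800200016000a0000000000000000000000000000000) (nat_lit 0x0) (nat_lit 0x1800000008000000000000000000000000000000000000000) := D_49 (nat_lit 192) (nat_lit 191) (nat_lit 159) (nat_lit 1) (nat_lit 8) (nat_lit 10) (nat_lit 5) (nat_lit 6) (nat_lit 7) (by decide +kernel)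
theorem L2559 : W_49 (nat_lit 3) (nat_lit 0x6800200016000a0000000000000000000000000000000) (nat_lit 0x0) (nat_lit 0x1800100048000000000000000000000000000000000000000) := T_49 (nat_lit 176) (nat_lit 162) (nat_lit 2) (nat_lit 5) (nat_lit 10) L2558 (by decide +kernel)
theorem L2560 : W_49 (nat_lit 2) (nat_lit 0x10005800200016000a0000000000000000000000000000000) (nat_lit 0x0) (nat_lit 0x800200040000000000000000000000000000000000000000) := D_49 (nat_lit 177) (nat_lit 162) (nat_lit 191) (nat_lit 2) (nat_lit 5) (nat_lit 10) (nat_lit 1) (nat_lit 8) (nat_lit 10) (by decide +kernel)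
theorem L2561 : W_49 (nat_lit 3) (nat_lit 0x10004800200016000a0000000000000000000000000000000) (nat_lit 0x0) (nat_lit 0x800300048000000000000000000000000000000000000000) := T_49 (nat_lit 176) (nat_lit 159) (nat_lit 5) (nat_lit 6) (nat_lit 7) L2560 (by decide +kernel)
theorem L2562 : W_49 (nat_lit 2) (nat_lit 0x4800240016001a0000000000000000000000000000000) (nat_lit 0x0) (nat_lit 0x10001000080000000000000000000000) := D_49 (nat_lit 108) (nat_lit 91) (nat_lit 124) (nat_lit 5) (nat_lit 6) (nat_lit 5) (nat_lit 6) (nat_lit 5) (nat_lit 10) (by decide +kernel)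
theorem L2563 : W_49 (nat_lit 3) (nat_lit 0x4800200016001a0000000000000000000000000000000) (nat_lit 0x0) (nat_lit 0x1000000004000000010001000080000000000000000000000) := T_49 (nat_lit 158) (nat_lit 192) (nat_lit 6) (nat_lit 5) (nat_lit 11) L2562 (by decide +kernel)
theorem L2564 : W_49 (nat_lit 2) (nat_lit 0x4800200016000b0000000000000000000000000000000) (nat_lit 0x0) (nat_lit 0x1000000004000000000001000000000000000000000000000) := D_49 (nat_lit 158) (nat_lit 108) (nat_lit 192) (nat_lit 6) (nat_lit 5) (nat_lit 10) (nat_lit 6) (nat_lit 5) (nat_lit 11) (by decide +kernel)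
theorem L2565 : W_49 (nat_lit 2) (nat_lit 0x4800268016000f00048000c0000000000000000000000) (nat_lit 0x0) (nat_lit 0x2000300000000000000000000000000000000000000000000) := D_49 (nat_lit 176) (nat_lit 177) (nat_lit 193) (nat_lit 0) (nat_lit 8) (nat_lit 10) (nat_lit 7) (nat_lit 5) (nat_lit 7) (by decide +kernel)
theorem L2566 : W_49 (nat_lit 3) (nat_lit 0x4000268016000f00048000c0000000000000000000000) (nat_lit 0x0) (nat_lit 0x3000380000000000000000000000000000000000000000000) := T_49 (nat_lit 175) (nat_lit 192) (nat_lit 6) (nat_lit 5) (nat_lit 11) L2565 (by decide +kernel)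
theorem L2567 : W_49 (nat_lit 4) (nat_lit 0x4000260016000f00048000c0000000000000000000000) (nat_lit 0x0) (nat_lit 0x3000380001800000000000000000000000000000000000000) := T_49 (nat_lit 155) (nat_lit 156) (nat_lit 2) (nat_lit 2) (nat_lit 9) L2566 (by decide +kernel)
theorem L2568 : W_49 (nat_lit 5) (nat_lit 0x4000240016000f00048000c0000000000000000000000) (nat_lit 0x0) (nat_lit 0x30003c0003800000000000000000000000000000000000000) := T_49 (nat_lit 157) (nat_lit 174) (nat_lit 5) (nat_lit 5) (nat_lit 6) L2567 (by decide +kernel)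
theorem L2569 : W_49 (nat_lit 6) (nat_lit 0x4000200016000f00048000c0000000000000000000000) (nat_lit 0x0) (nat_lit 0x30003c0007800000000001000000000000000000000000000) := T_49 (nat_lit 158) (nat_lit 108) (nat_lit 6) (nat_lit 5) (nat_lit 9) L2568 (by decide +kernel)
theorem L2570 : W_49 (nat_lit 7) (nat_lit 0x4000200016000f0004800040000000000000000000000) (nat_lit 0x0) (nat_lit 0x30003c0007800000000001000080004000000000000000000) := T_49 (nat_lit 91) (nat_lit 74) (nat_lit 6) (nat_lit 5) (nat_lit 8) L2569 (by decide +kernel)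
theorem L2571 : W_49 (nat_lit 8) (nat_lit 0x4000200016000f0004800000000000000000000000000) (nat_lit 0x0) (nat_lit 0x30003c00078000000000010000c0006000000000000000000) := T_49 (nat_lit 90) (nat_lit 73) (nat_lit 7) (nat_lit 5) (nat_lit 4) L2570 (by decide +kernel)
theorem L2572 : W_49 (nat_lit 9) (nat_lit 0x4000200016000f0000800000000000000000000000000) (nat_lit 0x0) (nat_lit 0x30003c000780000000000d0000c0006000000000000000000) := T_49 (nat_lit 110) (nat_lit 111) (nat_lit 2) (nat_lit 5) (nat_lit 7) L2571 (by decide +kernel)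
theorem L2573 : W_49 (nat_lit 10) (nat_lit 0x4000200016000f0000000000000000000000000000000) (nat_lit 0x0) (nat_lit 0x30003c000780000000000dc000c0006000000000000000000) := T_49 (nat_lit 107) (nat_lit 106) (nat_lit 0) (nat_lit 8) (nat_lit 7) L2572 (by decide +kernel)
theorem L2574 : W_49 (nat_lit 2) (nat_lit 0x4000200016000f0000800000000000000000000000000) (nat_lit 0x0) (nat_lit 0x100008000000000000000040000000000000000000000) := D_49 (nat_lit 159) (nat_lit 176) (nat_lit 90) (nat_lit 4) (nat_lit 6) (nat_lit 10) (nat_lit 7) (nat_lit 5) (nat_lit 5) (by decide +kernel)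
theorem L2575 : W_49 (nat_lit 3) (nat_lit 0x4000200016000f0000000000000000000000000000000) (nat_lit 0x0) (nat_lit 0x100008000000000000c00040000000000000000000000) := T_49 (nat_lit 107) (nat_lit 106) (nat_lit 0) (nat_lit 8) (nat_lit 7) L2574 (by decide +kernel)
theorem L2576 : W_49 (nat_lit 2) (nat_lit 0x1000480024001700080000000000000000000000000000000) (nat_lit 0x0) (nat_lit 0x2000000000000a000000000000000000000000000000000000000) := D_49 (nat_lit 209) (nat_lit 159) (nat_lit 157) (nat_lit 6) (nat_lit 5) (nat_lit 12) (nat_lit 4) (nat_lit 5) (nat_lit 12) (by decide +kernel)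
theorem L2577 : W_49 (nat_lit 3) (nat_lit 0x1000480024001600080000000000000000000000000000000) (nat_lit 0x0) (nat_lit 0x2000000000000a000100008000000000000000000000000000000) := T_49 (nat_lit 140) (nat_lit 123) (nat_lit 4) (nat_lit 5) (nat_lit 11) L2576 (by decide +kernel)
theorem L2578 : W_49 (nat_lit 2) (nat_lit 0x20001000480024001600080000000000000000000000000000000) (nat_lit 0x0) (nat_lit 0x200010000800000000000000000000000000000000000000000000000) := D_49 (nat_lit 208) (nat_lit 225) (nat_lit 191) (nat_lit 5) (nat_lit 5) (nat_lit 9) (nat_lit 5) (nat_lit 5) (nat_lit 8) (by decide +kernel)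
theorem L2579 : W_49 (nat_lit 3) (nat_lit 0x1000480024001600080000000000000000000000000000000) (nat_lit 0x0) (nat_lit 0x200030000800000008000000000000000000000000000000000000000) := T_49 (nat_lit 209) (nat_lit 159) (nat_lit 6) (nat_lit 5) (nat_lit 12) L2578 (by decide +kernel)
theorem L2580 : W_49 (nat_lit 2) (nat_lit 0x400020001200080000000400000000000000000000000) (nat_lit 0x0) (nat_lit 0x10000c000000000000000000000000000) := D_49 (nat_lit 111) (nat_lit 128) (nat_lit 110) (nat_lit 6) (nat_lit 8) (nat_lit 10) (nat_lit 6) (nat_lit 8) (nat_lit 9) (by decide +kernel)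
theorem L2581 : W_49 (nat_lit 2) (nat_lit 0x400022001e0008800400160001a000000000000000000) (nat_lit 0x0) (nat_lit 0x1000100004000000000000000000000000000000) := D_49 (nat_lit 140) (nat_lit 156) (nat_lit 122) (nat_lit 1) (nat_lit 7) (nat_lit 8) (nat_lit 0) (nat_lit 7) (nat_lit 8) (by decide +kernel)
theorem L2582 : W_49 (nat_lit 3) (nat_lit 0x400022001e0008000400160001a000000000000000000) (nat_lit 0x0) (nat_lit 0x100010001c000000000000000000000000000000) := T_49 (nat_lit 123) (nat_lit 124) (nat_lit 0) (nat_lit 8) (nat_lit 8) L2581 (by decide +kernel)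
theorem L2583 : W_49 (nat_lit 4) (nat_lit 0x400020001e0008000400160001a000000000000000000) (nat_lit 0x0) (nat_lit 0x700010001c000000000000000000000000000000) := T_49 (nat_lit 157) (nat_lit 158) (nat_lit 1) (nat_lit 8) (nat_lit 8) L2582 (by decide +kernel)
theorem L2584 : W_49 (nat_lit 5) (nat_lit 0x400020001a0008000400160001a000000000000000000) (nat_lit 0x0) (nat_lit 0x4700050001c000000000000000000000000000000) := T_49 (nat_lit 142) (nat_lit 162) (nat_lit 3) (nat_lit 5) (nat_lit 8) L2583 (by decide +kernel)
theorem L2585 : W_49 (nat_lit 6) (nat_lit 0x400020001a0008000400060001a000000000000000000) (nat_lit 0x0) (nat_lit 0x4700050001c000001800000000000000000000000) := T_49 (nat_lit 96) (nat_lit 95) (nat_lit 0) (nat_lit 11) (nat_lit 5) L2584 (by decide +kernel)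
theorem L2586 : W_49 (nat_lit 7) (nat_lit 0x40002000120008000400060001a000000000000000000) (nat_lit 0x0) (nat_lit 0x47000d0005c000001800000000000000000000000) := T_49 (nat_lit 143) (nat_lit 126) (nat_lit 5) (nat_lit 8) (nat_lit 4) L2585 (by decide +kernel)
theorem L2587 : W_49 (nat_lit 8) (nat_lit 0x400020001200080004000600018000000000000000000) (nat_lit 0x0) (nat_lit 0x47000d0005c000001800006000000000000000000) := T_49 (nat_lit 73) (nat_lit 74) (nat_lit 3) (nat_lit 5) (nat_lit 4) L2586 (by decide +kernel)
theorem L2588 : W_49 (nat_lit 9) (nat_lit 0x400020001200080004000600008000000000000000000) (nat_lit 0x0) (nat_lit 0x47000d0005c000001800016000400000000000000) := T_49 (nat_lit 76) (nat_lit 58) (nat_lit 4) (nat_lit 8) (nat_lit 7) L2587 (by decide +kernel)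
theorem L2589 : W_49 (nat_lit 10) (nat_lit 0x400020001200080004000600000000000000000000000) (nat_lit 0x0) (nat_lit 0x47000d0005c00000190001e000400000000000000) := T_49 (nat_lit 75) (nat_lit 92) (nat_lit 4) (nat_lit 8) (nat_lit 8) L2588 (by decide +kernel)
theorem L2590 : W_49 (nat_lit 11) (nat_lit 0x400020001200080004000400000000000000000000000) (nat_lit 0x0) (nat_lit 0x47000d0005c000001b0003e000400000000000000) := T_49 (nat_lit 93) (nat_lit 77) (nat_lit 6) (nat_lit 8) (nat_lit 8) L2589 (by decide +kernel)
theorem L2591 : W_49 (nat_lit 12) (nat_lit 0x400020001200080000000400000000000000000000000) (nat_lit 0x0) (nat_lit 0x47000d0005c00c001b0003e000400000000000000) := T_49 (nat_lit 110) (nat_lit 111) (nat_lit 6) (nat_lit 8) (nat_lit 9) L2590 (by decide +kernel)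
theorem L2592 : W_49 (nat_lit 2) (nat_lit 0x4800240012000d0000c00400000000000000000000000) (nat_lit 0x0) (nat_lit 0x2000100008000000000000000000000000000000000000000) := D_49 (nat_lit 176) (nat_lit 159) (nat_lit 193) (nat_lit 7) (nat_lit 5) (nat_lit 6) (nat_lit 7) (nat_lit 5) (nat_lit 7) (by decide +kernel)
theorem L2593 : W_49 (nat_lit 3) (nat_lit 0x4000240012000d0000c00400000000000000000000000) (nat_lit 0x0) (nat_lit 0x2000180008000000008000000000000000000000000000000) := T_49 (nat_lit 175) (nat_lit 123) (nat_lit 4) (nat_lit 5) (nat_lit 10) L2592 (by decide +kernel)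
theorem L2594 : W_49 (nat_lit 4) (nat_lit 0x400024001200090000c00400000000000000000000000) (nat_lit 0x0) (nat_lit 0x2000180008000000068000000000000000000000000000000) := T_49 (nat_lit 126) (nat_lit 125) (nat_lit 0) (nat_lit 8) (nat_lit 7) L2593 (by decide +kernel)
theorem L2595 : W_49 (nat_lit 5) (nat_lit 0x400024001200090000800400000000000000000000000) (nat_lit 0x0) (nat_lit 0x2000180008000000068000400020000000000000000000000) := T_49 (nat_lit 106) (nat_lit 89) (nat_lit 4) (nat_lit 5) (nat_lit 9) L2594 (by decide +kernel)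
theorem L2596 : W_49 (nat_lit 2) (nat_lit 0x40002c001200090000800440000000000000000000000) (nat_lit 0x0) (nat_lit 0x1000080004000000000000000000) := D_49 (nat_lit 91) (nat_lit 74) (nat_lit 108) (nat_lit 6) (nat_lit 5) (nat_lit 8) (nat_lit 6) (nat_lit 5) (nat_lit 9) (by decide +kernel)
theorem L2597 : W_49 (nat_lit 3) (nat_lit 0x40002c001200090000800400000000000000000000000) (nat_lit 0x0) (nat_lit 0x4000000010000c0004000000000000000000) := T_49 (nat_lit 90) (nat_lit 142) (nat_lit 7) (nat_lit 5) (nat_lit 5) L2596 (by decide +kernel)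
theorem L2598 : W_49 (nat_lit 4) (nat_lit 0x400024001200090000800400000000000000000000000) (nat_lit 0x0) (nat_lit 0x1000080004000000010000c0004000000000000000000) := T_49 (nat_lit 159) (nat_lit 176) (nat_lit 7) (nat_lit 5) (nat_lit 6) L2597 (by decide +kernel)
theorem L2599 : W_49 (nat_lit 2) (nat_lit 0x4800240012000d0000c00400000000000000000000000) (nat_lit 0x0) (nat_lit 0x800040002000000000000000000000000000000000000000) := D_49 (nat_lit 174) (nat_lit 157) (nat_lit 191) (nat_lit 5) (nat_lit 5) (nat_lit 6) (nat_lit 5) (nat_lit 5) (nat_lit 7) (by decide +kernel)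
theorem L2600 : W_49 (nat_lit 3) (nat_lit 0x4000240012000d0000c00400000000000000000000000) (nat_lit 0x0) (nat_lit 0x8000c0002000000008000000000000000000000000000000) := T_49 (nat_lit 175) (nat_lit 123) (nat_lit 4) (nat_lit 5) (nat_lit 10) L2599 (by decide +kernel)
theorem L2601 : W_49 (nat_lit 4) (nat_lit 0x400024001200090000c00400000000000000000000000) (nat_lit 0x0) (nat_lit 0x8000c0002000000068000000000000000000000000000000) := T_49 (nat_lit 126) (nat_lit 125) (nat_lit 0) (nat_lit 8) (nat_lit 7) L2600 (by decide +kernel)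
theorem L2602 : W_49 (nat_lit 5) (nat_lit 0x400024001200090000800400000000000000000000000) (nat_lit 0x0) (nat_lit 0x8000c0002000000068000400020000000000000000000000) := T_49 (nat_lit 106) (nat_lit 89) (nat_lit 4) (nat_lit 5) (nat_lit 9) L2601 (by decide +kernel)
theorem L2603 : W_49 (nat_lit 6) (nat_lit 0x400020001200090000800400000000000000000000000) (nat_lit 0x0) (nat_lit 0x28001c000e0004000680014000e0004000000000000000000) := Q_49 (nat_lit 158) (C_49 L2595 (C_49 L2598 (C_49 L2602 N_49))) (by decide +kernel)
theorem L2604 : W_49 (nat_lit 2) (nat_lit 0x48002c001200090000c00400000000000000000000000) (nat_lit 0x0) (nat_lit 0x20001000080000000000000000000000) := D_49 (nat_lit 108) (nat_lit 91) (nat_lit 125) (nat_lit 6) (nat_lit 5) (nat_lit 9) (nat_lit 6) (nat_lit 5) (nat_lit 10) (by decide +kernel)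
theorem L2605 : W_49 (nat_lit 3) (nat_lit 0x40002c001200090000c00400000000000000000000000) (nat_lit 0x0) (nat_lit 0x80000000000028001000080000000000000000000000) := T_49 (nat_lit 175) (nat_lit 123) (nat_lit 4) (nat_lit 5) (nat_lit 10) L2604 (by decide +kernel)
theorem L2606 : W_49 (nat_lit 4) (nat_lit 0x400024001200090000c00400000000000000000000000) (nat_lit 0x0) (nat_lit 0x180008000000028001000080000000000000000000000) := T_49 (nat_lit 159) (nat_lit 176) (nat_lit 7) (nat_lit 5) (nat_lit 6) L2605 (by decide +kernel)
theorem L2607 : W_49 (nat_lit 5) (nat_lit 0x400024001200090000800400000000000000000000000) (nat_lit 0x0) (nat_lit 0x1800080000000280014000a0000000000000000000000) := T_49 (nat_lit 106) (nat_lit 89) (nat_lit 4) (nat_lit 5) (nat_lit 9) L2606 (by decide +kernel)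
theorem L2608 : W_49 (nat_lit 2) (nat_lit 0x400024001200090001c00400000000000000000000000) (nat_lit 0x0) (nat_lit 0x80000000000028000000000000000000000000000000) := D_49 (nat_lit 175) (nat_lit 125) (nat_lit 123) (nat_lit 6) (nat_lit 5) (nat_lit 10) (nat_lit 4) (nat_lit 5) (nat_lit 10) (by decide +kernel)
theorem L2609 : W_49 (nat_lit 3) (nat_lit 0x400024001200090001800400000000000000000000000) (nat_lit 0x0) (nat_lit 0x80000000000028000400020000000000000000000000) := T_49 (nat_lit 106) (nat_lit 89) (nat_lit 4) (nat_lit 5) (nat_lit 9) L2608 (by decide +kernel)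
theorem L2610 : W_49 (nat_lit 4) (nat_lit 0x400024001200090000800400000000000000000000000) (nat_lit 0x0) (nat_lit 0x800000000000280014000a0000000000000000000000) := T_49 (nat_lit 108) (nat_lit 91) (nat_lit 6) (nat_lit 5) (nat_lit 9) L2609 (by decide +kernel)
theorem L2611 : W_49 (nat_lit 2) (nat_lit 0x40002c001200090000800440000000000000000000000) (nat_lit 0x0) (nat_lit 0x40002000100000000000000000000000000000000000) := D_49 (nat_lit 157) (nat_lit 174) (nat_lit 140) (nat_lit 5) (nat_lit 5) (nat_lit 6) (nat_lit 5) (nat_lit 5) (nat_lit 5) (by decide +kernel)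
theorem L2612 : W_49 (nat_lit 3) (nat_lit 0x40002c001200090000800400000000000000000000000) (nat_lit 0x0) (nat_lit 0x40002000500000000000040000000000000000000000) := T_49 (nat_lit 90) (nat_lit 142) (nat_lit 7) (nat_lit 5) (nat_lit 5) L2611 (by decide +kernel)
theorem L2613 : W_49 (nat_lit 4) (nat_lit 0x400024001200090000800400000000000000000000000) (nat_lit 0x0) (nat_lit 0x14000a000500000000000040000000000000000000000) := T_49 (nat_lit 159) (nat_lit 176) (nat_lit 7) (nat_lit 5) (nat_lit 6) L2612 (by decide +kernel)
theorem L2614 : W_49 (nat_lit 6) (nat_lit 0x400020001200090000800400000000000000000000000) (nat_lit 0x0) (nat_lit 0x1c000e0005000280014000e0004000000000000000000) := Q_49 (nat_lit 158) (C_49 L2598 (C_49 L2607 (C_49 L2610 (C_49 L2613 N_49)))) (by decide +kernel)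
theorem L2615 : W_49 (nat_lit 2) (nat_lit 0x48002c001200090000c00400000000000000000000000) (nat_lit 0x0) (nat_lit 0x800040002000000000000000000000000000000000000000) := D_49 (nat_lit 174) (nat_lit 157) (nat_lit 191) (nat_lit 5) (nat_lit 5) (nat_lit 6) (nat_lit 5) (nat_lit 5) (nat_lit 7) (by decide +kernel)
theorem L2616 : W_49 (nat_lit 3) (nat_lit 0x40002c001200090000c00400000000000000000000000) (nat_lit 0x0) (nat_lit 0x8000c0002000000008000000000000000000000000000000) := T_49 (nat_lit 175) (nat_lit 123) (nat_lit 4) (nat_lit 5) (nat_lit 10) L2615 (by decide +kernel)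
theorem L2617 : W_49 (nat_lit 4) (nat_lit 0x400024001200090000c00400000000000000000000000) (nat_lit 0x0) (nat_lit 0x8001c000a000000008000000000000000000000000000000) := T_49 (nat_lit 159) (nat_lit 176) (nat_lit 7) (nat_lit 5) (nat_lit 6) L2616 (by decide +kernel)
theorem L2618 : W_49 (nat_lit 5) (nat_lit 0x400024001200090000800400000000000000000000000) (nat_lit 0x0) (nat_lit 0x8001c000a000000008000400020000000000000000000000) := T_49 (nat_lit 106) (nat_lit 89) (nat_lit 4) (nat_lit 5) (nat_lit 9) L2617 (by decide +kernel)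
theorem L2619 : W_49 (nat_lit 2) (nat_lit 0x40002e0013000b0001e00400000000000000000000000) (nat_lit 0x0) (nat_lit 0x8000000018000000000000000000000) := D_49 (nat_lit 88) (nat_lit 87) (nat_lit 123) (nat_lit 0) (nat_lit 6) (nat_lit 6) (nat_lit 4) (nat_lit 4) (nat_lit 9) (by decide +kernel)
theorem L2620 : W_49 (nat_lit 3) (nat_lit 0x40002e0013000b0001c00400000000000000000000000) (nat_lit 0x0) (nat_lit 0x8000300018000000000000000000000) := T_49 (nat_lit 105) (nat_lit 104) (nat_lit 3) (nat_lit 2) (nat_lit 6) L2619 (by decide +kernel)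
theorem L2621 : W_49 (nat_lit 4) (nat_lit 0x40002e0012000b0001c00400000000000000000000000) (nat_lit 0x0) (nat_lit 0x100008000300058000000000000000000000) := T_49 (nat_lit 140) (nat_lit 90) (nat_lit 5) (nat_lit 5) (nat_lit 5) L2620 (by decide +kernel)
theorem L2622 : W_49 (nat_lit 5) (nat_lit 0x40002c0012000b0001c00400000000000000000000000) (nat_lit 0x0) (nat_lit 0x40002000100008000300058000000000000000000000) := T_49 (nat_lit 157) (nat_lit 174) (nat_lit 5) (nat_lit 5) (nat_lit 6) L2621 (by decide +kernel)
theorem L2623 : W_49 (nat_lit 6) (nat_lit 0x40002c001200090001c00400000000000000000000000) (nat_lit 0x0) (nat_lit 0x40002000100068000300058000000000000000000000) := T_49 (nat_lit 125) (nat_lit 126) (nat_lit 0) (nat_lit 8) (nat_lit 7) L2622 (by decide +kernel)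
theorem L2624 : W_49 (nat_lit 7) (nat_lit 0x40002c001200090001800400000000000000000000000) (nat_lit 0x0) (nat_lit 0x40002000100068000700078000000000000000000000) := T_49 (nat_lit 106) (nat_lit 89) (nat_lit 4) (nat_lit 5) (nat_lit 9) L2623 (by decide +kernel)
theorem L2625 : W_49 (nat_lit 8) (nat_lit 0x400024001200090001800400000000000000000000000) (nat_lit 0x0) (nat_lit 0x14000a000100068000700078000000000000000000000) := T_49 (nat_lit 159) (nat_lit 176) (nat_lit 7) (nat_lit 5) (nat_lit 6) L2624 (by decide +kernel)
theorem L2626 : W_49 (nat_lit 9) (nat_lit 0x400024001200090000800400000000000000000000000) (nat_lit 0x0) (nat_lit 0x14000a0001000680017000f8000000000000000000000) := T_49 (nat_lit 108) (nat_lit 91) (nat_lit 6) (nat_lit 5) (nat_lit 9) L2625 (by decide +kernel)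
theorem L2627 : W_49 (nat_lit 2) (nat_lit 0x400026001200090000800440000000000000000000000) (nat_lit 0x0) (nat_lit 0x400020001000000000000000000) := D_49 (nat_lit 89) (nat_lit 72) (nat_lit 106) (nat_lit 4) (nat_lit 5) (nat_lit 8) (nat_lit 4) (nat_lit 5) (nat_lit 9) (by decide +kernel)
theorem L2628 : W_49 (nat_lit 3) (nat_lit 0x400026001200090000800400000000000000000000000) (nat_lit 0x0) (nat_lit 0x100000000400060001000000000000000000) := T_49 (nat_lit 90) (nat_lit 140) (nat_lit 5) (nat_lit 5) (nat_lit 5) L2627 (by decide +kernel)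
theorem L2629 : W_49 (nat_lit 4) (nat_lit 0x400024001200090000800400000000000000000000000) (nat_lit 0x0) (nat_lit 0x40002000100000000400060001000000000000000000) := T_49 (nat_lit 157) (nat_lit 174) (nat_lit 5) (nat_lit 5) (nat_lit 6) L2628 (by decide +kernel)
theorem L2630 : W_49 (nat_lit 2) (nat_lit 0x48002c001200090001800400000000000000000000000) (nat_lit 0x0) (nat_lit 0x800040002000000000000000000000000000000000000000) := D_49 (nat_lit 174) (nat_lit 191) (nat_lit 157) (nat_lit 5) (nat_lit 5) (nat_lit 7) (nat_lit 5) (nat_lit 5) (nat_lit 6) (by decide +kernel)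
theorem L2631 : W_49 (nat_lit 3) (nat_lit 0x40002c001200090001800400000000000000000000000) (nat_lit 0x0) (nat_lit 0x8000c0002000000020000000000000000000000000000000) := T_49 (nat_lit 175) (nat_lit 125) (nat_lit 6) (nat_lit 5) (nat_lit 10) L2630 (by decide +kernel)
theorem L2632 : W_49 (nat_lit 4) (nat_lit 0x400024001200090001800400000000000000000000000) (nat_lit 0x0) (nat_lit 0x8001c000a000000020000000000000000000000000000000) := T_49 (nat_lit 159) (nat_lit 176) (nat_lit 7) (nat_lit 5) (nat_lit 6) L2631 (by decide +kernel)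
theorem L2633 : W_49 (nat_lit 5) (nat_lit 0x400024001200090000800400000000000000000000000) (nat_lit 0x0) (nat_lit 0x8001c000a000000020001000080000000000000000000000) := T_49 (nat_lit 108) (nat_lit 91) (nat_lit 6) (nat_lit 5) (nat_lit 9) L2632 (by decide +kernel)
theorem L2634 : W_49 (nat_lit 10) (nat_lit 0x400020001200090000800400000000000000000000000) (nat_lit 0x0) (nat_lit 0x8001c000e0001000680017000f8001000000000000000000) := Q_49 (nat_lit 158) (C_49 L2610 (C_49 L2618 (C_49 L2626 (C_49 L2629 (C_49 L2633 N_49))))) (by decide +kernel)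
theorem L2635 : W_49 (nat_lit 6) (nat_lit 0x400020001200090000800400000000000000000000000) (nat_lit 0x0) (nat_lit 0x8001c000e0005000080014000e0005000000000000000000) := Q_49 (nat_lit 158) (C_49 L2629 (C_49 L2618 (C_49 L2598 N_49))) (by decide +kernel)
theorem L2636 : W_49 (nat_lit 2) (nat_lit 0x4000200012000900008004e0000000000000000000000) (nat_lit 0x0) (nat_lit 0x4000000000001400000000000000000000000000) := D_49 (nat_lit 158) (nat_lit 106) (nat_lit 108) (nat_lit 4) (nat_lit 5) (nat_lit 9) (nat_lit 6) (nat_lit 5) (nat_lit 9) (by decide +kernel)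
theorem L2637 : W_49 (nat_lit 3) (nat_lit 0x400020001200090000800460000000000000000000000) (nat_lit 0x0) (nat_lit 0x4000000000001400080004000000000000000000) := T_49 (nat_lit 91) (nat_lit 74) (nat_lit 6) (nat_lit 5) (nat_lit 8) L2636 (by decide +kernel)
theorem L2638 : W_49 (nat_lit 4) (nat_lit 0x400020001200090000800440000000000000000000000) (nat_lit 0x0) (nat_lit 0x40000000000014000a0005000000000000000000) := T_49 (nat_lit 89) (nat_lit 72) (nat_lit 4) (nat_lit 5) (nat_lit 8) L2637 (by decide +kernel)
theorem L2639 : W_49 (nat_lit 2) (nat_lit 0x4000200013000900008004e0002000000000000000000) (nat_lit 0x0) (nat_lit 0x400060000000000000000000000000000000) := D_49 (nat_lit 125) (nat_lit 126) (nat_lit 142) (nat_lit 1) (nat_lit 8) (nat_lit 7) (nat_lit 7) (nat_lit 5) (nat_lit 4) (by decide +kernel)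
theorem L2640 : W_49 (nat_lit 3) (nat_lit 0x4000200013000900008004e0000000000000000000000) (nat_lit 0x0) (nat_lit 0x400068000000000002000000000000000000) := T_49 (nat_lit 73) (nat_lit 123) (nat_lit 5) (nat_lit 5) (nat_lit 4) L2639 (by decide +kernel)
theorem L2641 : W_49 (nat_lit 4) (nat_lit 0x4000200012000900008004e0000000000000000000000) (nat_lit 0x0) (nat_lit 0x2000500068000000000002000000000000000000) := T_49 (nat_lit 140) (nat_lit 157) (nat_lit 5) (nat_lit 5) (nat_lit 5) L2640 (by decide +kernel)
theorem L2642 : W_49 (nat_lit 5) (nat_lit 0x400020001200090000800460000000000000000000000) (nat_lit 0x0) (nat_lit 0x2000500068000000080006000000000000000000) := T_49 (nat_lit 91) (nat_lit 74) (nat_lit 6) (nat_lit 5) (nat_lit 8) L2641 (by decide +kernel)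
theorem L2643 : W_49 (nat_lit 6) (nat_lit 0x400020001200090000800440000000000000000000000) (nat_lit 0x0) (nat_lit 0x20005000680000000a0007000000000000000000) := T_49 (nat_lit 89) (nat_lit 72) (nat_lit 4) (nat_lit 5) (nat_lit 8) L2642 (by decide +kernel)
theorem L2644 : W_49 (nat_lit 2) (nat_lit 0x400020001300090000800440002000000000000000000) (nat_lit 0x0) (nat_lit 0x20001000080000000000000) := D_49 (nat_lit 72) (nat_lit 55) (nat_lit 89) (nat_lit 4) (nat_lit 5) (nat_lit 7) (nat_lit 4) (nat_lit 5) (nat_lit 8) (by decide +kernel)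
theorem L2645 : W_49 (nat_lit 3) (nat_lit 0x400020001300090000800440000000000000000000000) (nat_lit 0x0) (nat_lit 0x8000000020003000080000000000000) := T_49 (nat_lit 73) (nat_lit 123) (nat_lit 5) (nat_lit 5) (nat_lit 4) L2644 (by decide +kernel)
theorem L2646 : W_49 (nat_lit 4) (nat_lit 0x400020001200090000800440000000000000000000000) (nat_lit 0x0) (nat_lit 0x2000100008000000020003000080000000000000) := T_49 (nat_lit 140) (nat_lit 157) (nat_lit 5) (nat_lit 5) (nat_lit 5) L2645 (by decide +kernel)
theorem L2647 : W_49 (nat_lit 2) (nat_lit 0x4000200013000900008004c0002000000000000000000) (nat_lit 0x0) (nat_lit 0x400060000000000000000000000000000000) := D_49 (nat_lit 125) (nat_lit 126) (nat_lit 142) (nat_lit 1) (nat_lit 8) (nat_lit 7) (nat_lit 7) (nat_lit 5) (nat_lit 4) (by decide +kernel)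
theorem L2648 : W_49 (nat_lit 3) (nat_lit 0x4000200013000900008004c0000000000000000000000) (nat_lit 0x0) (nat_lit 0x400068000000000002000000000000000000) := T_49 (nat_lit 73) (nat_lit 123) (nat_lit 5) (nat_lit 5) (nat_lit 4) L2647 (by decide +kernel)
theorem L2649 : W_49 (nat_lit 4) (nat_lit 0x4000200012000900008004c0000000000000000000000) (nat_lit 0x0) (nat_lit 0x2000500068000000000002000000000000000000) := T_49 (nat_lit 140) (nat_lit 157) (nat_lit 5) (nat_lit 5) (nat_lit 5) L2648 (by decide +kernel)
theorem L2650 : W_49 (nat_lit 5) (nat_lit 0x400020001200090000800440000000000000000000000) (nat_lit 0x0) (nat_lit 0x2000500068000000080006000000000000000000) := T_49 (nat_lit 91) (nat_lit 74) (nat_lit 6) (nat_lit 5) (nat_lit 8) L2649 (by decide +kernel)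
theorem L2651 : W_49 (nat_lit 7) (nat_lit 0x400020001200090000800400000000000000000000000) (nat_lit 0x0) (nat_lit 0x60005000680014000e0007000080000000000000) := Q_49 (nat_lit 90) (C_49 L2638 (C_49 L2643 (C_49 L2646 (C_49 L2650 N_49)))) (by decide +kernel)
theorem L2652 : W_49 (nat_lit 2) (nat_lit 0x4000200016000b00008004e0000000000000000000000) (nat_lit 0x0) (nat_lit 0x140000400000000000000000000000000) := D_49 (nat_lit 126) (nat_lit 128) (nat_lit 106) (nat_lit 1) (nat_lit 9) (nat_lit 7) (nat_lit 0) (nat_lit 8) (nat_lit 7) (by decide +kernel)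
theorem L2653 : W_49 (nat_lit 3) (nat_lit 0x4000200016000900008004e0000000000000000000000) (nat_lit 0x0) (nat_lit 0x160000400000002000000000000000000) := T_49 (nat_lit 125) (nat_lit 73) (nat_lit 7) (nat_lit 5) (nat_lit 4) L2652 (by decide +kernel)
theorem L2654 : W_49 (nat_lit 4) (nat_lit 0x4000200012000900008004e0000000000000000000000) (nat_lit 0x0) (nat_lit 0x8000400160000400000002000000000000000000) := T_49 (nat_lit 142) (nat_lit 159) (nat_lit 7) (nat_lit 5) (nat_lit 5) L2653 (by decide +kernel)
theorem L2655 : W_49 (nat_lit 5) (nat_lit 0x400020001200090000800460000000000000000000000) (nat_lit 0x0) (nat_lit 0x8000400160000400080006000000000000000000) := T_49 (nat_lit 91) (nat_lit 74) (nat_lit 6) (nat_lit 5) (nat_lit 8) L2654 (by decide +kernel)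
theorem L2656 : W_49 (nat_lit 6) (nat_lit 0x400020001200090000800440000000000000000000000) (nat_lit 0x0) (nat_lit 0x80004001600004000a0007000000000000000000) := T_49 (nat_lit 89) (nat_lit 72) (nat_lit 4) (nat_lit 5) (nat_lit 8) L2655 (by decide +kernel)
theorem L2657 : W_49 (nat_lit 2) (nat_lit 0x4000210017800b40008004e0000000000000000000000) (nat_lit 0x0) (nat_lit 0x8000600000000000000000000000000) := D_49 (nat_lit 106) (nat_lit 123) (nat_lit 105) (nat_lit 5) (nat_lit 4) (nat_lit 5) (nat_lit 6) (nat_lit 3) (nat_lit 9) (by decide +kernel)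
theorem L2658 : W_49 (nat_lit 3) (nat_lit 0x4000200017800b40008004e0000000000000000000000) (nat_lit 0x0) (nat_lit 0x1800000008000600000000000000000000000000) := T_49 (nat_lit 156) (nat_lit 155) (nat_lit 1) (nat_lit 6) (nat_lit 8) L2657 (by decide +kernel)
theorem L2659 : W_49 (nat_lit 4) (nat_lit 0x4000200017800b00008004e0000000000000000000000) (nat_lit 0x0) (nat_lit 0x180000000e000600000000000000000000000000) := T_49 (nat_lit 122) (nat_lit 121) (nat_lit 0) (nat_lit 6) (nat_lit 8) L2658 (by decide +kernel)
theorem L2660 : W_49 (nat_lit 5) (nat_lit 0x4000200017800b0000800460000000000000000000000) (nat_lit 0x0) (nat_lit 0x180000000e000600080004000000000000000000) := T_49 (nat_lit 91) (nat_lit 74) (nat_lit 6) (nat_lit 5) (nat_lit 8) L2659 (by decide +kernel)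
theorem L2661 : W_49 (nat_lit 6) (nat_lit 0x4000200017000b0000800460000000000000000000000) (nat_lit 0x0) (nat_lit 0x18000c000e000600080004000000000000000000) := T_49 (nat_lit 139) (nat_lit 138) (nat_lit 2) (nat_lit 2) (nat_lit 8) L2660 (by decide +kernel)
theorem L2662 : W_49 (nat_lit 7) (nat_lit 0x4000200017000b0000800440000000000000000000000) (nat_lit 0x0) (nat_lit 0x18000c000e0006000a0005000000000000000000) := T_49 (nat_lit 89) (nat_lit 72) (nat_lit 4) (nat_lit 5) (nat_lit 8) L2661 (by decide +kernel)
theorem L2663 : W_49 (nat_lit 8) (nat_lit 0x400020001700090000800440000000000000000000000) (nat_lit 0x0) (nat_lit 0x18000c006e0006000a0005000000000000000000) := T_49 (nat_lit 125) (nat_lit 126) (nat_lit 1) (nat_lit 8) (nat_lit 7) L2662 (by decide +kernel)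
theorem L2664 : W_49 (nat_lit 9) (nat_lit 0x400020001600090000800440000000000000000000000) (nat_lit 0x0) (nat_lit 0x38001c006e0006000a0005000000000000000000) := T_49 (nat_lit 140) (nat_lit 157) (nat_lit 5) (nat_lit 5) (nat_lit 5) L2663 (by decide +kernel)
theorem L2665 : W_49 (nat_lit 10) (nat_lit 0x400020001200090000800440000000000000000000000) (nat_lit 0x0) (nat_lit 0xb8005c006e0006000a0005000000000000000000) := T_49 (nat_lit 142) (nat_lit 159) (nat_lit 7) (nat_lit 5) (nat_lit 5) L2664 (by decide +kernel)
theorem L2666 : W_49 (nat_lit 11) (nat_lit 0x400020001200090000800400000000000000000000000) (nat_lit 0x0) (nat_lit 0xb8005c016e0006000e0007000080000000000000) := Q_49 (nat_lit 90) (C_49 L2650 (C_49 L2646 (C_49 L2656 (C_49 L2665 N_49)))) (by decide +kernel)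
theorem L2667 : W_49 (nat_lit 2) (nat_lit 0x4000260012000b4001e00410000000000000000000000) (nat_lit 0x0) (nat_lit 0x180008000000000000000000000000000000) := D_49 (nat_lit 140) (nat_lit 123) (nat_lit 139) (nat_lit 4) (nat_lit 4) (nat_lit 9) (nat_lit 7) (nat_lit 3) (nat_lit 5) (by decide +kernel)
theorem L2668 : W_49 (nat_lit 3) (nat_lit 0x4000260012000b4001e00400000000000000000000000) (nat_lit 0x0) (nat_lit 0x180008000000018000000000000000000000) := T_49 (nat_lit 88) (nat_lit 87) (nat_lit 0) (nat_lit 6) (nat_lit 6) L2667 (by decide +kernel)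
theorem L2669 : W_49 (nat_lit 4) (nat_lit 0x4000260012000b0001e00400000000000000000000000) (nat_lit 0x0) (nat_lit 0x18000e000000018000000000000000000000) := T_49 (nat_lit 122) (nat_lit 121) (nat_lit 1) (nat_lit 6) (nat_lit 6) L2668 (by decide +kernel)
theorem L2670 : W_49 (nat_lit 5) (nat_lit 0x4000260012000b0000e00400000000000000000000000) (nat_lit 0x0) (nat_lit 0x18000e001000098000000000000000000000) := T_49 (nat_lit 108) (nat_lit 91) (nat_lit 6) (nat_lit 5) (nat_lit 9) L2669 (by decide +kernel)
theorem L2671 : W_49 (nat_lit 6) (nat_lit 0x4000260012000b0000c00400000000000000000000000) (nat_lit 0x0) (nat_lit 0x18000e001300098000000000000000000000) := T_49 (nat_lit 105) (nat_lit 104) (nat_lit 3) (nat_lit 2) (nat_lit 6) L2670 (by decide +kernel)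
theorem L2672 : W_49 (nat_lit 7) (nat_lit 0x4000240012000b0000c00400000000000000000000000) (nat_lit 0x0) (nat_lit 0x4000200018000e001300098000000000000000000000) := T_49 (nat_lit 157) (nat_lit 174) (nat_lit 5) (nat_lit 5) (nat_lit 6) L2671 (by decide +kernel)
theorem L2673 : W_49 (nat_lit 8) (nat_lit 0x400024001200090000c00400000000000000000000000) (nat_lit 0x0) (nat_lit 0x4000200018006e001300098000000000000000000000) := T_49 (nat_lit 125) (nat_lit 126) (nat_lit 0) (nat_lit 8) (nat_lit 7) L2672 (by decide +kernel)
theorem L2674 : W_49 (nat_lit 9) (nat_lit 0x400024001200090000800400000000000000000000000) (nat_lit 0x0) (nat_lit 0x4000200018006e0017000b8000000000000000000000) := T_49 (nat_lit 106) (nat_lit 89) (nat_lit 4) (nat_lit 5) (nat_lit 9) L2673 (by decide +kernel)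
theorem L2675 : W_49 (nat_lit 10) (nat_lit 0x400020001200090000800400000000000000000000000) (nat_lit 0x0) (nat_lit 0x8001c000e00018006e0017000b8000000000000000000000) := Q_49 (nat_lit 158) (C_49 L2633 (C_49 L2618 (C_49 L2610 (C_49 L2674 N_49)))) (by decide +kernel)
theorem L2676 : W_49 (nat_lit 2) (nat_lit 0x400020001600098000800460002000000000000000000) (nat_lit 0x0) (nat_lit 0x4000000000000400000000000100000000000000) := D_49 (nat_lit 106) (nat_lit 56) (nat_lit 158) (nat_lit 5) (nat_lit 5) (nat_lit 3) (nat_lit 4) (nat_lit 5) (nat_lit 9) (by decide +kernel)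
theorem L2677 : W_49 (nat_lit 3) (nat_lit 0x400020001600090000800460002000000000000000000) (nat_lit 0x0) (nat_lit 0x4000100008000400000000000100000000000000) := T_49 (nat_lit 123) (nat_lit 140) (nat_lit 5) (nat_lit 5) (nat_lit 4) L2676 (by decide +kernel)
theorem L2678 : W_49 (nat_lit 4) (nat_lit 0x400020001600090000800460000000000000000000000) (nat_lit 0x0) (nat_lit 0x4000100028000400000002000100000000000000) := T_49 (nat_lit 73) (nat_lit 125) (nat_lit 7) (nat_lit 5) (nat_lit 4) L2677 (by decide +kernel)
theorem L2679 : W_49 (nat_lit 5) (nat_lit 0x400020001200090000800460000000000000000000000) (nat_lit 0x0) (nat_lit 0xc000500028000400000002000100000000000000) := T_49 (nat_lit 142) (nat_lit 159) (nat_lit 7) (nat_lit 5) (nat_lit 5) L2678 (by decide +kernel)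
theorem L2680 : W_49 (nat_lit 6) (nat_lit 0x400020001200090000800440000000000000000000000) (nat_lit 0x0) (nat_lit 0xc000500028000400020003000100000000000000) := T_49 (nat_lit 89) (nat_lit 72) (nat_lit 4) (nat_lit 5) (nat_lit 8) L2679 (by decide +kernel)
theorem L2681 : W_49 (nat_lit 2) (nat_lit 0x4000200016000980008004c0002000100000000000000) (nat_lit 0x0) (nat_lit 0x4000000000001000000000000000008000000000) := D_49 (nat_lit 108) (nat_lit 158) (nat_lit 39) (nat_lit 6) (nat_lit 5) (nat_lit 9) (nat_lit 7) (nat_lit 5) (nat_lit 2) (by decide +kernel)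
theorem L2682 : W_49 (nat_lit 3) (nat_lit 0x4000200016000980008004c0002000000000000000000) (nat_lit 0x0) (nat_lit 0x4000000000001400000000000100008000000000) := T_49 (nat_lit 56) (nat_lit 106) (nat_lit 5) (nat_lit 5) (nat_lit 3) L2681 (by decide +kernel)
theorem L2683 : W_49 (nat_lit 4) (nat_lit 0x4000200016000900008004c0002000000000000000000) (nat_lit 0x0) (nat_lit 0x4000100008001400000000000100008000000000) := T_49 (nat_lit 123) (nat_lit 140) (nat_lit 5) (nat_lit 5) (nat_lit 4) L2682 (by decide +kernel)
theorem L2684 : W_49 (nat_lit 5) (nat_lit 0x4000200016000900008004c0000000000000000000000) (nat_lit 0x0) (nat_lit 0x4000100028001400000002000100008000000000) := T_49 (nat_lit 73) (nat_lit 125) (nat_lit 7) (nat_lit 5) (nat_lit 4) L2683 (by decide +kernel)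
theorem L2685 : W_49 (nat_lit 6) (nat_lit 0x4000200012000900008004c0000000000000000000000) (nat_lit 0x0) (nat_lit 0xc000500028001400000002000100008000000000) := T_49 (nat_lit 142) (nat_lit 159) (nat_lit 7) (nat_lit 5) (nat_lit 5) L2684 (by decide +kernel)
theorem L2686 : W_49 (nat_lit 7) (nat_lit 0x400020001200090000800440000000000000000000000) (nat_lit 0x0) (nat_lit 0xc000500028001400080006000100008000000000) := T_49 (nat_lit 91) (nat_lit 74) (nat_lit 6) (nat_lit 5) (nat_lit 8) L2685 (by decide +kernel)
theorem L2687 : W_49 (nat_lit 2) (nat_lit 0x4000240012000900008004e0000000000000000000000) (nat_lit 0x0) (nat_lit 0x100008000400000000000000000000000000000000000) := D_49 (nat_lit 159) (nat_lit 142) (nat_lit 176) (nat_lit 7) (nat_lit 5) (nat_lit 5) (nat_lit 7) (nat_lit 5) (nat_lit 6) (by decide +kernel)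
theorem L2688 : W_49 (nat_lit 3) (nat_lit 0x4000200012000900008004e0000000000000000000000) (nat_lit 0x0) (nat_lit 0x10000c000400000001000000000000000000000000000) := T_49 (nat_lit 158) (nat_lit 108) (nat_lit 6) (nat_lit 5) (nat_lit 9) L2687 (by decide +kernel)
theorem L2689 : W_49 (nat_lit 4) (nat_lit 0x4000200012000900008004c0000000000000000000000) (nat_lit 0x0) (nat_lit 0x10000c000400000001000020001000000000000000000) := T_49 (nat_lit 89) (nat_lit 72) (nat_lit 4) (nat_lit 5) (nat_lit 8) L2688 (by decide +kernel)
theorem L2690 : W_49 (nat_lit 5) (nat_lit 0x400020001200090000800440000000000000000000000) (nat_lit 0x0) (nat_lit 0x10000c0004000000010000a0005000000000000000000) := T_49 (nat_lit 91) (nat_lit 74) (nat_lit 6) (nat_lit 5) (nat_lit 8) L2689 (by decide +kernel)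
theorem L2691 : W_49 (nat_lit 8) (nat_lit 0x400020001200090000800400000000000000000000000) (nat_lit 0x0) (nat_lit 0x10000c0005001680014000e0007000100008000000000) := Q_49 (nat_lit 90) (C_49 L2656 (C_49 L2638 (C_49 L2680 (C_49 L2686 (C_49 L2690 N_49))))) (by decide +kernel)
theorem L2692 : W_49 (nat_lit 6) (nat_lit 0x400020001200090000800400000000000000000000000) (nat_lit 0x0) (nat_lit 0x28001c000e000500068000400060001000000000000000000) := Q_49 (nat_lit 158) (C_49 L2629 (C_49 L2618 (C_49 L2595 (C_49 L2613 N_49)))) (by decide +kernel)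
theorem L2693 : W_49 (nat_lit 2) (nat_lit 0x400024001600090000800460002000000000000000000) (nat_lit 0x0) (nat_lit 0x40002000100000000000000000000000000000000000) := D_49 (nat_lit 157) (nat_lit 140) (nat_lit 174) (nat_lit 5) (nat_lit 5) (nat_lit 5) (nat_lit 5) (nat_lit 5) (nat_lit 6) (by decide +kernel)
theorem L2694 : W_49 (nat_lit 3) (nat_lit 0x400020001600090000800460002000000000000000000) (nat_lit 0x0) (nat_lit 0x40006000100000000400000000000000000000000000) := T_49 (nat_lit 158) (nat_lit 106) (nat_lit 4) (nat_lit 5) (nat_lit 9) L2693 (by decide +kernel)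
theorem L2695 : W_49 (nat_lit 4) (nat_lit 0x400020001600090000800460000000000000000000000) (nat_lit 0x0) (nat_lit 0x40006000100020000400000002000000000000000000) := T_49 (nat_lit 73) (nat_lit 125) (nat_lit 7) (nat_lit 5) (nat_lit 4) L2694 (by decide +kernel)
theorem L2696 : W_49 (nat_lit 5) (nat_lit 0x400020001200090000800460000000000000000000000) (nat_lit 0x0) (nat_lit 0x4000e000500020000400000002000000000000000000) := T_49 (nat_lit 142) (nat_lit 159) (nat_lit 7) (nat_lit 5) (nat_lit 5) L2695 (by decide +kernel)
theorem L2697 : W_49 (nat_lit 6) (nat_lit 0x400020001200090000800440000000000000000000000) (nat_lit 0x0) (nat_lit 0x4000e000500020000400020003000000000000000000) := T_49 (nat_lit 89) (nat_lit 72) (nat_lit 4) (nat_lit 5) (nat_lit 8) L2696 (by decide +kernel)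
theorem L2698 : W_49 (nat_lit 2) (nat_lit 0x4000280013000d00008004c0000000000000000000000) (nat_lit 0x0) (nat_lit 0x100004000000000001000000000000000000000000000) := D_49 (nat_lit 158) (nat_lit 176) (nat_lit 108) (nat_lit 7) (nat_lit 5) (nat_lit 6) (nat_lit 6) (nat_lit 5) (nat_lit 9) (by decide +kernel)
theorem L2699 : W_49 (nat_lit 3) (nat_lit 0x4000280013000d0000800440000000000000000000000) (nat_lit 0x0) (nat_lit 0x100004000000000001000080004000000000000000000) := T_49 (nat_lit 91) (nat_lit 74) (nat_lit 6) (nat_lit 5) (nat_lit 8) L2698 (by decide +kernel)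
theorem L2700 : W_49 (nat_lit 4) (nat_lit 0x4000200013000d0000800440000000000000000000000) (nat_lit 0x0) (nat_lit 0x10000c000400000001000080004000000000000000000) := T_49 (nat_lit 159) (nat_lit 142) (nat_lit 7) (nat_lit 5) (nat_lit 5) L2699 (by decide +kernel)
theorem L2701 : W_49 (nat_lit 5) (nat_lit 0x400020001300090000800440000000000000000000000) (nat_lit 0x0) (nat_lit 0x10000c000400060001000080004000000000000000000) := T_49 (nat_lit 126) (nat_lit 125) (nat_lit 1) (nat_lit 8) (nat_lit 7) L2700 (by decide +kernel)
theorem L2702 : W_49 (nat_lit 6) (nat_lit 0x400020001200090000800440000000000000000000000) (nat_lit 0x0) (nat_lit 0x10000e000500060001000080004000000000000000000) := T_49 (nat_lit 140) (nat_lit 157) (nat_lit 5) (nat_lit 5) (nat_lit 5) L2701 (by decide +kernel)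
theorem L2703 : W_49 (nat_lit 7) (nat_lit 0x400020001200090000800400000000000000000000000) (nat_lit 0x0) (nat_lit 0x14000e0005001600014000e0007000000000000000000) := Q_49 (nat_lit 90) (C_49 L2690 (C_49 L2638 (C_49 L2656 (C_49 L2697 (C_49 L2702 N_49))))) (by decide +kernel)
theorem L2704 : W_49 (nat_lit 7) (nat_lit 0x400020001200090000800400000000000000000000000) (nat_lit 0x0) (nat_lit 0x10000e0005000680010000e0007000080000000000000) := Q_49 (nat_lit 90) (C_49 L2702 (C_49 L2690 (C_49 L2646 N_49))) (by decide +kernel)
theorem L2705 : W_49 (nat_lit 2) (nat_lit 0x400026001200090000800440000000000000000000000) (nat_lit 0x0) (nat_lit 0x1000080004000000000000000000) := D_49 (nat_lit 91) (nat_lit 108) (nat_lit 74) (nat_lit 6) (nat_lit 5) (nat_lit 9) (nat_lit 6) (nat_lit 5) (nat_lit 8) (by decide +kernel)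
theorem L2706 : W_49 (nat_lit 3) (nat_lit 0x400026001200090000800400000000000000000000000) (nat_lit 0x0) (nat_lit 0x1000000010000c0004000000000000000000) := T_49 (nat_lit 90) (nat_lit 140) (nat_lit 5) (nat_lit 5) (nat_lit 5) L2705 (by decide +kernel)
theorem L2707 : W_49 (nat_lit 4) (nat_lit 0x400024001200090000800400000000000000000000000) (nat_lit 0x0) (nat_lit 0x400020001000000010000c0004000000000000000000) := T_49 (nat_lit 157) (nat_lit 174) (nat_lit 5) (nat_lit 5) (nat_lit 6) L2706 (by decide +kernel)
theorem L2708 : W_49 (nat_lit 6) (nat_lit 0x400020001200090000800400000000000000000000000) (nat_lit 0x0) (nat_lit 0x8001c000e0005000200010000c0004000000000000000000) := Q_49 (nat_lit 158) (C_49 L2633 (C_49 L2613 (C_49 L2707 (C_49 L2598 N_49)))) (by decide +kernel)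
theorem L2709 : W_49 (nat_lit 12) (nat_lit 0x400020001200090000000400000000000000000000000) (nat_lit 0x0) (nat_lit 0x28001c000f8005c016e001f000f8007000180008000000000) := Q_49 (nat_lit 107) (C_49 L2603 (C_49 L2614 (C_49 L2634 (C_49 L2635 (C_49 L2651 (C_49 L2666 (C_49 L2675 (C_49 L2691 (C_49 L2692 (C_49 L2703 (C_49 L2704 (C_49 L2708 N_49)))))))))))) (by decide +kernel)
theorem L2710 : W_49 (nat_lit 2) (nat_lit 0x400020001a00090000000400000000000000000000000) (nat_lit 0x0) (nat_lit 0x40000400008000000000000000000000000000000) := D_49 (nat_lit 142) (nat_lit 123) (nat_lit 162) (nat_lit 0) (nat_lit 8) (nat_lit 8) (nat_lit 3) (nat_lit 5) (nat_lit 8) (by decide +kernel)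
theorem L2711 : W_49 (nat_lit 6) (nat_lit 0x400024001200090000000400000000000000000000000) (nat_lit 0x0) (nat_lit 0x8001c000a000100028001c000e0005000000000000000000) := Q_49 (nat_lit 107) (C_49 L2707 (C_49 L2633 (C_49 L2610 (C_49 L2629 N_49)))) (by decide +kernel)
theorem L2712 : W_49 (nat_lit 6) (nat_lit 0x400024001200090000000400000000000000000000000) (nat_lit 0x0) (nat_lit 0x8001c000a000500008001c000e0004000000000000000000) := Q_49 (nat_lit 107) (C_49 L2707 (C_49 L2618 (C_49 L2598 N_49))) (by decide +kernel)
theorem L2713 : W_49 (nat_lit 2) (nat_lit 0x1000480024001a00098000000400000000000000000000000) (nat_lit 0x0) (nat_lit 0x40002000100000000000000000000000000000000000000000000) := D_49 (nat_lit 193) (nat_lit 176) (nat_lit 210) (nat_lit 7) (nat_lit 5) (nat_lit 7) (nat_lit 7) (nat_lit 5) (nat_lit 8) (by decide +kernel)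
theorem L2714 : W_49 (nat_lit 3) (nat_lit 0x480024001a00098000000400000000000000000000000) (nat_lit 0x0) (nat_lit 0x40003000100000000100000000000000000000000000000000000) := T_49 (nat_lit 192) (nat_lit 140) (nat_lit 4) (nat_lit 5) (nat_lit 11) L2713 (by decide +kernel)
theorem L2715 : W_49 (nat_lit 4) (nat_lit 0x480024001200098000000400000000000000000000000) (nat_lit 0x0) (nat_lit 0x40003000100000000d00000000000000000000000000000000000) := T_49 (nat_lit 143) (nat_lit 142) (nat_lit 0) (nat_lit 8) (nat_lit 8) L2714 (by decide +kernel)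
theorem L2716 : W_49 (nat_lit 5) (nat_lit 0x480024001200090000000400000000000000000000000) (nat_lit 0x0) (nat_lit 0x40003000100000000d00008000400000000000000000000000000) := T_49 (nat_lit 123) (nat_lit 106) (nat_lit 4) (nat_lit 5) (nat_lit 10) L2715 (by decide +kernel)
theorem L2717 : W_49 (nat_lit 2) (nat_lit 0x580024001200090000000400000000000000000000000) (nat_lit 0x0) (nat_lit 0x200042000000000000000000000000000000000000000) := D_49 (nat_lit 177) (nat_lit 162) (nat_lit 157) (nat_lit 2) (nat_lit 5) (nat_lit 10) (nat_lit 0) (nat_lit 8) (nat_lit 10) (by decide +kernel)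
theorem L2718 : W_49 (nat_lit 3) (nat_lit 0x480024001200090000000400000000000000000000000) (nat_lit 0x0) (nat_lit 0x2000300042000000000000000000000000000000000000000) := T_49 (nat_lit 176) (nat_lit 193) (nat_lit 7) (nat_lit 5) (nat_lit 7) L2717 (by decide +kernel)
theorem L2719 : W_49 (nat_lit 2) (nat_lit 0x1000480024001a00098000000400000000000000000000000) (nat_lit 0x0) (nat_lit 0x10000800040000000000000000000000000000000000000000000) := D_49 (nat_lit 191) (nat_lit 174) (nat_lit 208) (nat_lit 5) (nat_lit 5) (nat_lit 7) (nat_lit 5) (nat_lit 5) (nat_lit 8) (by decide +kernel)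
theorem L2720 : W_49 (nat_lit 3) (nat_lit 0x480024001a00098000000400000000000000000000000) (nat_lit 0x0) (nat_lit 0x10001800040000000100000000000000000000000000000000000) := T_49 (nat_lit 192) (nat_lit 140) (nat_lit 4) (nat_lit 5) (nat_lit 11) L2719 (by decide +kernel)
theorem L2721 : W_49 (nat_lit 4) (nat_lit 0x480024001200098000000400000000000000000000000) (nat_lit 0x0) (nat_lit 0x10001800040000000d00000000000000000000000000000000000) := T_49 (nat_lit 143) (nat_lit 142) (nat_lit 0) (nat_lit 8) (nat_lit 8) L2720 (by decide +kernel)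
theorem L2722 : W_49 (nat_lit 5) (nat_lit 0x480024001200090000000400000000000000000000000) (nat_lit 0x0) (nat_lit 0x10001800040000000d00008000400000000000000000000000000) := T_49 (nat_lit 123) (nat_lit 106) (nat_lit 4) (nat_lit 5) (nat_lit 10) L2721 (by decide +kernel)
theorem L2723 : W_49 (nat_lit 6) (nat_lit 0x400024001200090000000400000000000000000000000) (nat_lit 0x0) (nat_lit 0x500038003c0042000d00008000400000000000000000000000000) := Q_49 (nat_lit 175) (C_49 L2716 (C_49 L2718 (C_49 L2722 N_49))) (by decide +kernel)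
theorem L2724 : W_49 (nat_lit 5) (nat_lit 0x400024001200090000000400000000000000000000000) (nat_lit 0x0) (nat_lit 0xc0002000100028001c000e0005000000000000000000) := Q_49 (nat_lit 107) (C_49 L2707 (C_49 L2610 (C_49 L2629 N_49))) (by decide +kernel)
theorem L2725 : W_49 (nat_lit 2) (nat_lit 0x42002f001680090001c00400000000000000000000000) (nat_lit 0x0) (nat_lit 0x10000c000000000000000000000000000000) := D_49 (nat_lit 123) (nat_lit 140) (nat_lit 122) (nat_lit 5) (nat_lit 4) (nat_lit 6) (nat_lit 6) (nat_lit 3) (nat_lit 10) (by decide +kernel)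
theorem L2726 : W_49 (nat_lit 3) (nat_lit 0x42002f001600090001c00400000000000000000000000) (nat_lit 0x0) (nat_lit 0x1c000c000000000000000000000000000000) := T_49 (nat_lit 139) (nat_lit 138) (nat_lit 0) (nat_lit 6) (nat_lit 9) L2725 (by decide +kernel)
theorem L2727 : W_49 (nat_lit 4) (nat_lit 0x40002f001600090001c00400000000000000000000000) (nat_lit 0x0) (nat_lit 0x300000001c000c000000000000000000000000000000) := T_49 (nat_lit 173) (nat_lit 172) (nat_lit 1) (nat_lit 6) (nat_lit 9) L2726 (by decide +kernel)
theorem L2728 : W_49 (nat_lit 5) (nat_lit 0x40002e001600090001c00400000000000000000000000) (nat_lit 0x0) (nat_lit 0x300018001c000c000000000000000000000000000000) := T_49 (nat_lit 156) (nat_lit 155) (nat_lit 2) (nat_lit 2) (nat_lit 9) L2727 (by decide +kernel)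
theorem L2729 : W_49 (nat_lit 6) (nat_lit 0x40002e001200090001c00400000000000000000000000) (nat_lit 0x0) (nat_lit 0x30001800dc000c000000000000000000000000000000) := T_49 (nat_lit 142) (nat_lit 143) (nat_lit 1) (nat_lit 8) (nat_lit 8) L2728 (by decide +kernel)
theorem L2730 : W_49 (nat_lit 7) (nat_lit 0x40002c001200090001c00400000000000000000000000) (nat_lit 0x0) (nat_lit 0x70003800dc000c000000000000000000000000000000) := T_49 (nat_lit 157) (nat_lit 174) (nat_lit 5) (nat_lit 5) (nat_lit 6) L2729 (by decide +kernel)
theorem L2731 : W_49 (nat_lit 8) (nat_lit 0x40002c001200090000c00400000000000000000000000) (nat_lit 0x0) (nat_lit 0x70003800dc000c001000080000000000000000000000) := T_49 (nat_lit 108) (nat_lit 91) (nat_lit 6) (nat_lit 5) (nat_lit 9) L2730 (by decide +kernel)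
theorem L2732 : W_49 (nat_lit 9) (nat_lit 0x400024001200090000c00400000000000000000000000) (nat_lit 0x0) (nat_lit 0x17000b800dc000c001000080000000000000000000000) := T_49 (nat_lit 159) (nat_lit 176) (nat_lit 7) (nat_lit 5) (nat_lit 6) L2731 (by decide +kernel)
theorem L2733 : W_49 (nat_lit 10) (nat_lit 0x400024001200090000800400000000000000000000000) (nat_lit 0x0) (nat_lit 0x17000b800dc000c0014000a0000000000000000000000) := T_49 (nat_lit 106) (nat_lit 89) (nat_lit 4) (nat_lit 5) (nat_lit 9) L2732 (by decide +kernel)
theorem L2734 : W_49 (nat_lit 11) (nat_lit 0x400024001200090000000400000000000000000000000) (nat_lit 0x0) (nat_lit 0x17000b800dc000c001c000e0005000000000000000000) := Q_49 (nat_lit 107) (C_49 L2707 (C_49 L2598 (C_49 L2733 (C_49 L2629 N_49)))) (by decide +kernel)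
theorem L2735 : W_49 (nat_lit 2) (nat_lit 0x580024001a00098000800400000000000000000000000) (nat_lit 0x0) (nat_lit 0x20001000080000000000000000000000) := D_49 (nat_lit 108) (nat_lit 91) (nat_lit 125) (nat_lit 6) (nat_lit 5) (nat_lit 9) (nat_lit 6) (nat_lit 5) (nat_lit 10) (by decide +kernel)
theorem L2736 : W_49 (nat_lit 3) (nat_lit 0x580024001a00098000000400000000000000000000000) (nat_lit 0x0) (nat_lit 0x8000000020001800080000000000000000000000) := T_49 (nat_lit 107) (nat_lit 159) (nat_lit 7) (nat_lit 5) (nat_lit 6) L2735 (by decide +kernel)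
theorem L2737 : W_49 (nat_lit 4) (nat_lit 0x480024001a00098000000400000000000000000000000) (nat_lit 0x0) (nat_lit 0x2000100008000000020001800080000000000000000000000) := T_49 (nat_lit 176) (nat_lit 193) (nat_lit 7) (nat_lit 5) (nat_lit 7) L2736 (by decide +kernel)
theorem L2738 : W_49 (nat_lit 5) (nat_lit 0x480024001200098000000400000000000000000000000) (nat_lit 0x0) (nat_lit 0x2000100008000c00020001800080000000000000000000000) := T_49 (nat_lit 143) (nat_lit 142) (nat_lit 0) (nat_lit 8) (nat_lit 8) L2737 (by decide +kernel)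
theorem L2739 : W_49 (nat_lit 6) (nat_lit 0x480024001200090000000400000000000000000000000) (nat_lit 0x0) (nat_lit 0x2000100008000c00028001c00080000000000000000000000) := T_49 (nat_lit 123) (nat_lit 106) (nat_lit 4) (nat_lit 5) (nat_lit 10) L2738 (by decide +kernel)
theorem L2740 : W_49 (nat_lit 2) (nat_lit 0x4800240012000b8000000400000000000000000000000) (nat_lit 0x0) (nat_lit 0x1000000000000c00000000000000000000000000000000000) := D_49 (nat_lit 142) (nat_lit 143) (nat_lit 192) (nat_lit 0) (nat_lit 8) (nat_lit 8) (nat_lit 6) (nat_lit 5) (nat_lit 11) (by decide +kernel)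
theorem L2741 : W_49 (nat_lit 3) (nat_lit 0x4800240012000b0000000400000000000000000000000) (nat_lit 0x0) (nat_lit 0x1000000000000c00008000400000000000000000000000000) := T_49 (nat_lit 123) (nat_lit 106) (nat_lit 4) (nat_lit 5) (nat_lit 10) L2740 (by decide +kernel)
theorem L2742 : W_49 (nat_lit 4) (nat_lit 0x480024001200090000000400000000000000000000000) (nat_lit 0x0) (nat_lit 0x1000000000000c00028001400000000000000000000000000) := T_49 (nat_lit 125) (nat_lit 108) (nat_lit 6) (nat_lit 5) (nat_lit 10) L2741 (by decide +kernel)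
theorem L2743 : W_49 (nat_lit 7) (nat_lit 0x400024001200090000000400000000000000000000000) (nat_lit 0x0) (nat_lit 0x300038004a000c00028001c00080000000000000000000000) := Q_49 (nat_lit 175) (C_49 L2718 (C_49 L2739 (C_49 L2742 N_49))) (by decide +kernel)
theorem L2744 : W_49 (nat_lit 2) (nat_lit 0x580024001200098000800400000000000000000000000) (nat_lit 0x0) (nat_lit 0x20001000080000000000000000000000) := D_49 (nat_lit 108) (nat_lit 91) (nat_lit 125) (nat_lit 6) (nat_lit 5) (nat_lit 9) (nat_lit 6) (nat_lit 5) (nat_lit 10) (by decide +kernel)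
theorem L2745 : W_49 (nat_lit 3) (nat_lit 0x580024001200098000000400000000000000000000000) (nat_lit 0x0) (nat_lit 0x8000000020001800080000000000000000000000) := T_49 (nat_lit 107) (nat_lit 159) (nat_lit 7) (nat_lit 5) (nat_lit 6) L2744 (by decide +kernel)
theorem L2746 : W_49 (nat_lit 4) (nat_lit 0x480024001200098000000400000000000000000000000) (nat_lit 0x0) (nat_lit 0x2000100008000000020001800080000000000000000000000) := T_49 (nat_lit 176) (nat_lit 193) (nat_lit 7) (nat_lit 5) (nat_lit 7) L2745 (by decide +kernel)
theorem L2747 : W_49 (nat_lit 5) (nat_lit 0x480024001200090000000400000000000000000000000) (nat_lit 0x0) (nat_lit 0x2000100008000000028001c00080000000000000000000000) := T_49 (nat_lit 123) (nat_lit 106) (nat_lit 4) (nat_lit 5) (nat_lit 10) L2746 (by decide +kernel)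
theorem L2748 : W_49 (nat_lit 2) (nat_lit 0x7800240012000b0000d00400000000000000000000000) (nat_lit 0x0) (nat_lit 0x1800000000000400000000000000000000000000000000000) := D_49 (nat_lit 192) (nat_lit 191) (nat_lit 142) (nat_lit 1) (nat_lit 8) (nat_lit 10) (nat_lit 6) (nat_lit 5) (nat_lit 11) (by decide +kernel)
theorem L2749 : W_49 (nat_lit 3) (nat_lit 0x5800240012000b0000d00400000000000000000000000) (nat_lit 0x0) (nat_lit 0x1800200040000400000000000000000000000000000000000) := T_49 (nat_lit 177) (nat_lit 162) (nat_lit 2) (nat_lit 5) (nat_lit 10) L2748 (by decide +kernel)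
theorem L2750 : W_49 (nat_lit 4) (nat_lit 0x5800240012000b0000c00400000000000000000000000) (nat_lit 0x0) (nat_lit 0x1800200040000400000000300000000000000000000000000) := T_49 (nat_lit 104) (nat_lit 105) (nat_lit 3) (nat_lit 2) (nat_lit 6) L2749 (by decide +kernel)
theorem L2751 : W_49 (nat_lit 5) (nat_lit 0x5800240012000b0000800400000000000000000000000) (nat_lit 0x0) (nat_lit 0x1800200040000400000000700020000000000000000000000) := T_49 (nat_lit 106) (nat_lit 89) (nat_lit 4) (nat_lit 5) (nat_lit 9) L2750 (by decide +kernel)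
theorem L2752 : W_49 (nat_lit 6) (nat_lit 0x5800240012000b0000000400000000000000000000000) (nat_lit 0x0) (nat_lit 0x1800200048000400000000f00020000000000000000000000) := T_49 (nat_lit 107) (nat_lit 159) (nat_lit 7) (nat_lit 5) (nat_lit 6) L2751 (by decide +kernel)
theorem L2753 : W_49 (nat_lit 7) (nat_lit 0x4800240012000b0000000400000000000000000000000) (nat_lit 0x0) (nat_lit 0x3800300048000400000000f00020000000000000000000000) := T_49 (nat_lit 176) (nat_lit 193) (nat_lit 7) (nat_lit 5) (nat_lit 7) L2752 (by decide +kernel)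
theorem L2754 : W_49 (nat_lit 8) (nat_lit 0x480024001200090000000400000000000000000000000) (nat_lit 0x0) (nat_lit 0x3800300048000400020001f00020000000000000000000000) := T_49 (nat_lit 125) (nat_lit 108) (nat_lit 6) (nat_lit 5) (nat_lit 10) L2753 (by decide +kernel)
theorem L2755 : W_49 (nat_lit 2) (nat_lit 0x7800240012000b0000800400000000000000000000000) (nat_lit 0x0) (nat_lit 0x1800000000000400000000000000000000000000000000000) := D_49 (nat_lit 192) (nat_lit 191) (nat_lit 142) (nat_lit 1) (nat_lit 8) (nat_lit 10) (nat_lit 6) (nat_lit 5) (nat_lit 11) (by decide +kernel)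
theorem L2756 : W_49 (nat_lit 3) (nat_lit 0x5800240012000b0000800400000000000000000000000) (nat_lit 0x0) (nat_lit 0x1800200040000400000000000000000000000000000000000) := T_49 (nat_lit 177) (nat_lit 162) (nat_lit 2) (nat_lit 5) (nat_lit 10) L2755 (by decide +kernel)
theorem L2757 : W_49 (nat_lit 4) (nat_lit 0x5800240012000b0000000400000000000000000000000) (nat_lit 0x0) (nat_lit 0x1800200048000400000000800000000000000000000000000) := T_49 (nat_lit 107) (nat_lit 159) (nat_lit 7) (nat_lit 5) (nat_lit 6) L2756 (by decide +kernel)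
theorem L2758 : W_49 (nat_lit 5) (nat_lit 0x4800240012000b0000000400000000000000000000000) (nat_lit 0x0) (nat_lit 0x3800300048000400000000800000000000000000000000000) := T_49 (nat_lit 176) (nat_lit 193) (nat_lit 7) (nat_lit 5) (nat_lit 7) L2757 (by decide +kernel)
theorem L2759 : W_49 (nat_lit 6) (nat_lit 0x480024001200090000000400000000000000000000000) (nat_lit 0x0) (nat_lit 0x3800300048000400020001800000000000000000000000000) := T_49 (nat_lit 125) (nat_lit 108) (nat_lit 6) (nat_lit 5) (nat_lit 10) L2758 (by decide +kernel)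
theorem L2760 : W_49 (nat_lit 9) (nat_lit 0x400024001200090000000400000000000000000000000) (nat_lit 0x0) (nat_lit 0x100038003c0048000d00028001f000a0000000000000000000000) := Q_49 (nat_lit 175) (C_49 L2747 (C_49 L2742 (C_49 L2722 (C_49 L2754 (C_49 L2759 N_49))))) (by decide +kernel)
theorem L2761 : W_49 (nat_lit 6) (nat_lit 0x400024001200090000000400000000000000000000000) (nat_lit 0x0) (nat_lit 0x8001c000a000500020001c000e0005000000000000000000) := Q_49 (nat_lit 107) (C_49 L2707 (C_49 L2633 (C_49 L2598 (C_49 L2629 N_49)))) (by decide +kernel)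
theorem L2762 : W_49 (nat_lit 2) (nat_lit 0x4c0024001200090000800400000000000000000000000) (nat_lit 0x0) (nat_lit 0x2000100008000000000000000000000000000000000000000) := D_49 (nat_lit 176) (nat_lit 193) (nat_lit 159) (nat_lit 7) (nat_lit 5) (nat_lit 7) (nat_lit 7) (nat_lit 5) (nat_lit 6) (by decide +kernel)
theorem L2763 : W_49 (nat_lit 3) (nat_lit 0x4c0024001200090000000400000000000000000000000) (nat_lit 0x0) (nat_lit 0x200010000a000000000000800000000000000000000000000) := T_49 (nat_lit 107) (nat_lit 157) (nat_lit 5) (nat_lit 5) (nat_lit 6) L2762 (by decide +kernel)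
theorem L2764 : W_49 (nat_lit 4) (nat_lit 0x480024001200090000000400000000000000000000000) (nat_lit 0x0) (nat_lit 0x280014000a000000000000800000000000000000000000000) := T_49 (nat_lit 174) (nat_lit 191) (nat_lit 5) (nat_lit 5) (nat_lit 7) L2763 (by decide +kernel)
theorem L2765 : W_49 (nat_lit 2) (nat_lit 0x4c0024001200090000800400000000000000000000000) (nat_lit 0x0) (nat_lit 0x20001000080000000000000000000000) := D_49 (nat_lit 108) (nat_lit 125) (nat_lit 91) (nat_lit 6) (nat_lit 5) (nat_lit 10) (nat_lit 6) (nat_lit 5) (nat_lit 9) (by decide +kernel)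
theorem L2766 : W_49 (nat_lit 3) (nat_lit 0x4c0024001200090000000400000000000000000000000) (nat_lit 0x0) (nat_lit 0x2000000020001800080000000000000000000000) := T_49 (nat_lit 107) (nat_lit 157) (nat_lit 5) (nat_lit 5) (nat_lit 6) L2765 (by decide +kernel)
theorem L2767 : W_49 (nat_lit 4) (nat_lit 0x480024001200090000000400000000000000000000000) (nat_lit 0x0) (nat_lit 0x800040002000000020001800080000000000000000000000) := T_49 (nat_lit 174) (nat_lit 191) (nat_lit 5) (nat_lit 5) (nat_lit 7) L2766 (by decide +kernel)
theorem L2768 : W_49 (nat_lit 7) (nat_lit 0x400024001200090000000400000000000000000000000) (nat_lit 0x0) (nat_lit 0x38003c004a000400020001800080000000000000000000000) := Q_49 (nat_lit 175) (C_49 L2759 (C_49 L2718 (C_49 L2764 (C_49 L2767 N_49)))) (by decide +kernel)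
theorem L2769 : W_49 (nat_lit 12) (nat_lit 0x400020001200090000000400000000000000000000000) (nat_lit 0x0) (nat_lit 0x500038003f004f800dc002c001f000e0005000000000000000000) := Q_49 (nat_lit 158) (C_49 L2711 (C_49 L2712 (C_49 L2723 (C_49 L2724 (C_49 L2734 (C_49 L2743 (C_49 L2760 (C_49 L2761 (C_49 L2768 N_49))))))))) (by decide +kernel)
theorem L2770 : W_49 (nat_lit 2) (nat_lit 0x480024001200090001c00400000000000000000000000) (nat_lit 0x0) (nat_lit 0x2000100008000000000000000000000000000000000000000) := D_49 (nat_lit 176) (nat_lit 159) (nat_lit 193) (nat_lit 7) (nat_lit 5) (nat_lit 6) (nat_lit 7) (nat_lit 5) (nat_lit 7) (by decide +kernel)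
theorem L2771 : W_49 (nat_lit 3) (nat_lit 0x400024001200090001c00400000000000000000000000) (nat_lit 0x0) (nat_lit 0x2000180008000000008000000000000000000000000000000) := T_49 (nat_lit 175) (nat_lit 123) (nat_lit 4) (nat_lit 5) (nat_lit 10) L2770 (by decide +kernel)
theorem L2772 : W_49 (nat_lit 4) (nat_lit 0x400024001200090000c00400000000000000000000000) (nat_lit 0x0) (nat_lit 0x2000180008000000008001000080000000000000000000000) := T_49 (nat_lit 108) (nat_lit 91) (nat_lit 6) (nat_lit 5) (nat_lit 9) L2771 (by decide +kernel)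
theorem L2773 : W_49 (nat_lit 5) (nat_lit 0x400024001200090000800400000000000000000000000) (nat_lit 0x0) (nat_lit 0x20001800080000000080014000a0000000000000000000000) := T_49 (nat_lit 106) (nat_lit 89) (nat_lit 4) (nat_lit 5) (nat_lit 9) L2772 (by decide +kernel)
theorem L2774 : W_49 (nat_lit 6) (nat_lit 0x400024001200090000000400000000000000000000000) (nat_lit 0x0) (nat_lit 0x20001c000a000100008001c000e0005000000000000000000) := Q_49 (nat_lit 107) (C_49 L2773 (C_49 L2707 (C_49 L2629 N_49))) (by decide +kernel)
theorem L2775 : W_49 (nat_lit 2) (nat_lit 0x40002e001a000d0000d006c0000000000000000000000) (nat_lit 0x0) (nat_lit 0x4000000030000000000000000000) := D_49 (nat_lit 110) (nat_lit 76) (nat_lit 77) (nat_lit 5) (nat_lit 8) (nat_lit 4) (nat_lit 6) (nat_lit 8) (nat_lit 8) (by decide +kernel)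
theorem L2776 : W_49 (nat_lit 3) (nat_lit 0x40002e001a000d0000d004c0000000000000000000000) (nat_lit 0x0) (nat_lit 0x4000300030000000000000000000) := T_49 (nat_lit 93) (nat_lit 92) (nat_lit 1) (nat_lit 8) (nat_lit 5) L2775 (by decide +kernel)
theorem L2777 : W_49 (nat_lit 4) (nat_lit 0x40002e001a000d0000c004c0000000000000000000000) (nat_lit 0x0) (nat_lit 0x4300300030000000000000000000) := T_49 (nat_lit 104) (nat_lit 105) (nat_lit 2) (nat_lit 2) (nat_lit 6) L2776 (by decide +kernel)
theorem L2778 : W_49 (nat_lit 5) (nat_lit 0x40002e001a000d0000c00480000000000000000000000) (nat_lit 0x0) (nat_lit 0x4300340034000000000000000000) := T_49 (nat_lit 90) (nat_lit 74) (nat_lit 6) (nat_lit 5) (nat_lit 8) L2777 (by decide +kernel)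
theorem L2779 : W_49 (nat_lit 6) (nat_lit 0x40002e001a000d0000c00400000000000000000000000) (nat_lit 0x0) (nat_lit 0x53003c0034000000000000000000) := T_49 (nat_lit 91) (nat_lit 108) (nat_lit 6) (nat_lit 5) (nat_lit 9) L2778 (by decide +kernel)
theorem L2780 : W_49 (nat_lit 7) (nat_lit 0x40002c001a000d0000c00400000000000000000000000) (nat_lit 0x0) (nat_lit 0x400020000000000053003c0034000000000000000000) := T_49 (nat_lit 157) (nat_lit 174) (nat_lit 5) (nat_lit 5) (nat_lit 6) L2779 (by decide +kernel)
theorem L2781 : W_49 (nat_lit 8) (nat_lit 0x40002c0012000d0000c00400000000000000000000000) (nat_lit 0x0) (nat_lit 0x80000400020008000000053003c0034000000000000000000) := T_49 (nat_lit 143) (nat_lit 195) (nat_lit 4) (nat_lit 8) (nat_lit 11) L2780 (by decide +kernel)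
theorem L2782 : W_49 (nat_lit 9) (nat_lit 0x4000240012000d0000c00400000000000000000000000) (nat_lit 0x0) (nat_lit 0x800014000a0008000000053003c0034000000000000000000) := T_49 (nat_lit 159) (nat_lit 176) (nat_lit 7) (nat_lit 5) (nat_lit 6) L2781 (by decide +kernel)
theorem L2783 : W_49 (nat_lit 10) (nat_lit 0x400024001200090000c00400000000000000000000000) (nat_lit 0x0) (nat_lit 0x800014000a0008000600053003c0034000000000000000000) := T_49 (nat_lit 126) (nat_lit 125) (nat_lit 0) (nat_lit 8) (nat_lit 7) L2782 (by decide +kernel)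
theorem L2784 : W_49 (nat_lit 11) (nat_lit 0x400024001200090000800400000000000000000000000) (nat_lit 0x0) (nat_lit 0x800014000a0008000600057003e0034000000000000000000) := T_49 (nat_lit 106) (nat_lit 89) (nat_lit 4) (nat_lit 5) (nat_lit 9) L2783 (by decide +kernel)
theorem L2785 : W_49 (nat_lit 2) (nat_lit 0x40002c001300090001800468002000000000000000000) (nat_lit 0x0) (nat_lit 0x60000000000000000100000000000000) := D_49 (nat_lit 125) (nat_lit 126) (nat_lit 56) (nat_lit 1) (nat_lit 8) (nat_lit 7) (nat_lit 7) (nat_lit 5) (nat_lit 3) (by decide +kernel)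
theorem L2786 : W_49 (nat_lit 3) (nat_lit 0x40002c001300090001800468000000000000000000000) (nat_lit 0x0) (nat_lit 0x68000000000002000100000000000000) := T_49 (nat_lit 73) (nat_lit 123) (nat_lit 5) (nat_lit 5) (nat_lit 4) L2785 (by decide +kernel)
theorem L2787 : W_49 (nat_lit 4) (nat_lit 0x40002c001200090001800468000000000000000000000) (nat_lit 0x0) (nat_lit 0x2000100068000000000002000100000000000000) := T_49 (nat_lit 140) (nat_lit 157) (nat_lit 5) (nat_lit 5) (nat_lit 5) L2786 (by decide +kernel)
theorem L2788 : W_49 (nat_lit 5) (nat_lit 0x40002c001200090001800460000000000000000000000) (nat_lit 0x0) (nat_lit 0x2000100068000000018002000100000000000000) := T_49 (nat_lit 87) (nat_lit 88) (nat_lit 3) (nat_lit 2) (nat_lit 5) L2787 (by decide +kernel)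
theorem L2789 : W_49 (nat_lit 6) (nat_lit 0x40002c001200090001800420000000000000000000000) (nat_lit 0x0) (nat_lit 0x2000100068000000058003000100000000000000) := T_49 (nat_lit 90) (nat_lit 72) (nat_lit 4) (nat_lit 5) (nat_lit 8) L2788 (by decide +kernel)
theorem L2790 : W_49 (nat_lit 7) (nat_lit 0x40002c001200090001800400000000000000000000000) (nat_lit 0x0) (nat_lit 0x2000100068000400078003000100000000000000) := T_49 (nat_lit 89) (nat_lit 106) (nat_lit 4) (nat_lit 5) (nat_lit 9) L2789 (by decide +kernel)
theorem L2791 : W_49 (nat_lit 8) (nat_lit 0x400024001200090001800400000000000000000000000) (nat_lit 0x0) (nat_lit 0x10000a000100068000400078003000100000000000000) := T_49 (nat_lit 159) (nat_lit 176) (nat_lit 7) (nat_lit 5) (nat_lit 6) L2790 (by decide +kernel)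
theorem L2792 : W_49 (nat_lit 9) (nat_lit 0x400024001200090000800400000000000000000000000) (nat_lit 0x0) (nat_lit 0x10000a0001000680014000f8003000100000000000000) := T_49 (nat_lit 108) (nat_lit 91) (nat_lit 6) (nat_lit 5) (nat_lit 9) L2791 (by decide +kernel)
theorem L2793 : W_49 (nat_lit 2) (nat_lit 0x400024001a000d0000d006c0000000000000000000000) (nat_lit 0x0) (nat_lit 0x4000000030000000000000000000) := D_49 (nat_lit 110) (nat_lit 76) (nat_lit 77) (nat_lit 5) (nat_lit 8) (nat_lit 4) (nat_lit 6) (nat_lit 8) (nat_lit 8) (by decide +kernel)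
theorem L2794 : W_49 (nat_lit 3) (nat_lit 0x400024001a000d0000d004c0000000000000000000000) (nat_lit 0x0) (nat_lit 0x4000300030000000000000000000) := T_49 (nat_lit 93) (nat_lit 92) (nat_lit 1) (nat_lit 8) (nat_lit 5) L2793 (by decide +kernel)
theorem L2795 : W_49 (nat_lit 4) (nat_lit 0x400024001a000d0000c004c0000000000000000000000) (nat_lit 0x0) (nat_lit 0x4300300030000000000000000000) := T_49 (nat_lit 104) (nat_lit 105) (nat_lit 2) (nat_lit 2) (nat_lit 6) L2794 (by decide +kernel)
theorem L2796 : W_49 (nat_lit 5) (nat_lit 0x400024001a000d0000c00480000000000000000000000) (nat_lit 0x0) (nat_lit 0x4300340034000000000000000000) := T_49 (nat_lit 90) (nat_lit 74) (nat_lit 6) (nat_lit 5) (nat_lit 8) L2795 (by decide +kernel)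
theorem L2797 : W_49 (nat_lit 6) (nat_lit 0x4000240012000d0000c00480000000000000000000000) (nat_lit 0x0) (nat_lit 0x8000000000000800000004300340034000000000000000000) := T_49 (nat_lit 143) (nat_lit 195) (nat_lit 4) (nat_lit 8) (nat_lit 11) L2796 (by decide +kernel)
theorem L2798 : W_49 (nat_lit 7) (nat_lit 0x4000240012000d0000c00400000000000000000000000) (nat_lit 0x0) (nat_lit 0x80000000000008000000053003c0034000000000000000000) := T_49 (nat_lit 91) (nat_lit 108) (nat_lit 6) (nat_lit 5) (nat_lit 9) L2797 (by decide +kernel)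
theorem L2799 : W_49 (nat_lit 8) (nat_lit 0x400024001200090000c00400000000000000000000000) (nat_lit 0x0) (nat_lit 0x80000000000008000600053003c0034000000000000000000) := T_49 (nat_lit 126) (nat_lit 125) (nat_lit 0) (nat_lit 8) (nat_lit 7) L2798 (by decide +kernel)
theorem L2800 : W_49 (nat_lit 9) (nat_lit 0x400024001200090000800400000000000000000000000) (nat_lit 0x0) (nat_lit 0x80000000000008000600057003e0034000000000000000000) := T_49 (nat_lit 106) (nat_lit 89) (nat_lit 4) (nat_lit 5) (nat_lit 9) L2799 (by decide +kernel)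
theorem L2801 : W_49 (nat_lit 12) (nat_lit 0x400024001200090000000400000000000000000000000) (nat_lit 0x0) (nat_lit 0x800014000a00098006e005f003f8037000100000000000000) := Q_49 (nat_lit 107) (C_49 L2674 (C_49 L2707 (C_49 L2784 (C_49 L2792 (C_49 L2629 (C_49 L2800 N_49)))))) (by decide +kernel)
theorem L2802 : W_49 (nat_lit 2) (nat_lit 0x780024001200098000000400000000000000000000000) (nat_lit 0x0) (nat_lit 0x1800000000000100000000000000000000000000000000000) := D_49 (nat_lit 192) (nat_lit 140) (nat_lit 191) (nat_lit 4) (nat_lit 5) (nat_lit 11) (nat_lit 1) (nat_lit 8) (nat_lit 10) (by decide +kernel)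
theorem L2803 : W_49 (nat_lit 3) (nat_lit 0x580024001200098000000400000000000000000000000) (nat_lit 0x0) (nat_lit 0x1800200002000100000000000000000000000000000000000) := T_49 (nat_lit 177) (nat_lit 157) (nat_lit 0) (nat_lit 8) (nat_lit 10) L2802 (by decide +kernel)
theorem L2804 : W_49 (nat_lit 4) (nat_lit 0x480024001200098000000400000000000000000000000) (nat_lit 0x0) (nat_lit 0x3800300002000100000000000000000000000000000000000) := T_49 (nat_lit 176) (nat_lit 193) (nat_lit 7) (nat_lit 5) (nat_lit 7) L2803 (by decide +kernel)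
theorem L2805 : W_49 (nat_lit 5) (nat_lit 0x480024001200090000000400000000000000000000000) (nat_lit 0x0) (nat_lit 0x3800300002000100008000400000000000000000000000000) := T_49 (nat_lit 123) (nat_lit 106) (nat_lit 4) (nat_lit 5) (nat_lit 10) L2804 (by decide +kernel)
theorem L2806 : W_49 (nat_lit 2) (nat_lit 0x1000580024001200098000000400000000000000000000000) (nat_lit 0x0) (nat_lit 0x10000800040000000000000000000000000000000000000000000) := D_49 (nat_lit 191) (nat_lit 174) (nat_lit 208) (nat_lit 5) (nat_lit 5) (nat_lit 7) (nat_lit 5) (nat_lit 5) (nat_lit 8) (by decide +kernel)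
theorem L2807 : W_49 (nat_lit 3) (nat_lit 0x580024001200098000000400000000000000000000000) (nat_lit 0x0) (nat_lit 0x10001800040000000100000000000000000000000000000000000) := T_49 (nat_lit 192) (nat_lit 140) (nat_lit 4) (nat_lit 5) (nat_lit 11) L2806 (by decide +kernel)
theorem L2808 : W_49 (nat_lit 4) (nat_lit 0x480024001200098000000400000000000000000000000) (nat_lit 0x0) (nat_lit 0x10003800140000000100000000000000000000000000000000000) := T_49 (nat_lit 176) (nat_lit 193) (nat_lit 7) (nat_lit 5) (nat_lit 7) L2807 (by decide +kernel)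
theorem L2809 : W_49 (nat_lit 5) (nat_lit 0x480024001200090000000400000000000000000000000) (nat_lit 0x0) (nat_lit 0x10003800140000000100008000400000000000000000000000000) := T_49 (nat_lit 123) (nat_lit 106) (nat_lit 4) (nat_lit 5) (nat_lit 10) L2808 (by decide +kernel)
theorem L2810 : W_49 (nat_lit 2) (nat_lit 0x4800240012000f0000000400000000000000000000000) (nat_lit 0x0) (nat_lit 0x800008000400000000000000000000000000) := D_49 (nat_lit 123) (nat_lit 106) (nat_lit 143) (nat_lit 4) (nat_lit 5) (nat_lit 10) (nat_lit 3) (nat_lit 4) (nat_lit 7) (by decide +kernel)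
theorem L2811 : W_49 (nat_lit 3) (nat_lit 0x4800240012000b0000000400000000000000000000000) (nat_lit 0x0) (nat_lit 0x900048000400000000000000000000000000) := T_49 (nat_lit 126) (nat_lit 140) (nat_lit 1) (nat_lit 8) (nat_lit 7) L2810 (by decide +kernel)
theorem L2812 : W_49 (nat_lit 4) (nat_lit 0x480024001200090000000400000000000000000000000) (nat_lit 0x0) (nat_lit 0x900068001400000000000000000000000000) := T_49 (nat_lit 125) (nat_lit 108) (nat_lit 6) (nat_lit 5) (nat_lit 10) L2811 (by decide +kernel)
theorem L2813 : W_49 (nat_lit 6) (nat_lit 0x400024001200090000000400000000000000000000000) (nat_lit 0x0) (nat_lit 0x100038003c0042000900068001400000000000000000000000000) := Q_49 (nat_lit 175) (C_49 L2718 (C_49 L2805 (C_49 L2809 (C_49 L2812 N_49)))) (by decide +kernel)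
theorem L2814 : W_49 (nat_lit 6) (nat_lit 0x400024001200090000000400000000000000000000000) (nat_lit 0x0) (nat_lit 0x28003c004a000000028001c00080000000000000000000000) := Q_49 (nat_lit 175) (C_49 L2767 (C_49 L2764 (C_49 L2718 (C_49 L2747 N_49)))) (by decide +kernel)
theorem L2815 : W_49 (nat_lit 2) (nat_lit 0x40002c0012000b0001800400000000000000000000000) (nat_lit 0x0) (nat_lit 0x100140000000000000000000000000000000) := D_49 (nat_lit 126) (nat_lit 140) (nat_lit 128) (nat_lit 1) (nat_lit 8) (nat_lit 7) (nat_lit 0) (nat_lit 9) (nat_lit 7) (by decide +kernel)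
theorem L2816 : W_49 (nat_lit 3) (nat_lit 0x40002c001200090001800400000000000000000000000) (nat_lit 0x0) (nat_lit 0x80000000100160000000000000000000000000000000) := T_49 (nat_lit 125) (nat_lit 175) (nat_lit 6) (nat_lit 5) (nat_lit 10) L2815 (by decide +kernel)
theorem L2817 : W_49 (nat_lit 4) (nat_lit 0x400024001200090001800400000000000000000000000) (nat_lit 0x0) (nat_lit 0x180008000100160000000000000000000000000000000) := T_49 (nat_lit 159) (nat_lit 176) (nat_lit 7) (nat_lit 5) (nat_lit 6) L2816 (by decide +kernel)
theorem L2818 : W_49 (nat_lit 5) (nat_lit 0x400024001200090000800400000000000000000000000) (nat_lit 0x0) (nat_lit 0x180008000100160001000080000000000000000000000) := T_49 (nat_lit 108) (nat_lit 91) (nat_lit 6) (nat_lit 5) (nat_lit 9) L2817 (by decide +kernel)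
theorem L2819 : W_49 (nat_lit 10) (nat_lit 0x400024001200090000000400000000000000000000000) (nat_lit 0x0) (nat_lit 0xa000180008000900168005f003e0034000000000000000000) := Q_49 (nat_lit 107) (C_49 L2773 (C_49 L2800 (C_49 L2595 (C_49 L2818 N_49)))) (by decide +kernel)
theorem L2820 : W_49 (nat_lit 2) (nat_lit 0x200010004c0026001200098000000400000000000000000000000) (nat_lit 0x0) (nat_lit 0x800040002000000000000000000000000000000000000000000000000) := D_49 (nat_lit 210) (nat_lit 193) (nat_lit 227) (nat_lit 7) (nat_lit 5) (nat_lit 8) (nat_lit 7) (nat_lit 5) (nat_lit 9) (by decide +kernel)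
theorem L2821 : W_49 (nat_lit 3) (nat_lit 0x10004c0026001200098000000400000000000000000000000) (nat_lit 0x0) (nat_lit 0xc00060002000000000000000000000000000000000000000000000000) := T_49 (nat_lit 209) (nat_lit 226) (nat_lit 4) (nat_lit 5) (nat_lit 13) L2820 (by decide +kernel)
theorem L2822 : W_49 (nat_lit 4) (nat_lit 0x4c0026001200098000000400000000000000000000000) (nat_lit 0x0) (nat_lit 0xc00060003000000000000100000000000000000000000000000000000) := T_49 (nat_lit 192) (nat_lit 140) (nat_lit 7) (nat_lit 4) (nat_lit 7) L2821 (by decide +kernel)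
theorem L2823 : W_49 (nat_lit 5) (nat_lit 0x4c0024001200098000000400000000000000000000000) (nat_lit 0x0) (nat_lit 0xc00060003000000002000100000000800000000000000000000000000) := T_49 (nat_lit 157) (nat_lit 107) (nat_lit 5) (nat_lit 5) (nat_lit 6) L2822 (by decide +kernel)
theorem L2824 : W_49 (nat_lit 6) (nat_lit 0x480024001200098000000400000000000000000000000) (nat_lit 0x0) (nat_lit 0xc00060003800040002000100000000800000000000000000000000000) := T_49 (nat_lit 174) (nat_lit 191) (nat_lit 5) (nat_lit 5) (nat_lit 7) L2823 (by decide +kernel)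
theorem L2825 : W_49 (nat_lit 7) (nat_lit 0x480024001200090000000400000000000000000000000) (nat_lit 0x0) (nat_lit 0xc00060003800040002000100008000c00000000000000000000000000) := T_49 (nat_lit 123) (nat_lit 106) (nat_lit 4) (nat_lit 5) (nat_lit 10) L2824 (by decide +kernel)
theorem L2826 : W_49 (nat_lit 2) (nat_lit 0x7c00240013000d8000800400002000000000000000000) (nat_lit 0x0) (nat_lit 0x18000000000000800000000000000000000000000000000000) := D_49 (nat_lit 195) (nat_lit 143) (nat_lit 196) (nat_lit 4) (nat_lit 8) (nat_lit 11) (nat_lit 3) (nat_lit 5) (nat_lit 10) (by decide +kernel)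
theorem L2827 : W_49 (nat_lit 3) (nat_lit 0x7c0024001300098000800400002000000000000000000) (nat_lit 0x0) (nat_lit 0x18000000000000800060000000000000000000000000000000) := T_49 (nat_lit 126) (nat_lit 125) (nat_lit 1) (nat_lit 8) (nat_lit 7) L2826 (by decide +kernel)
theorem L2828 : W_49 (nat_lit 4) (nat_lit 0x5c0024001300098000800400002000000000000000000) (nat_lit 0x0) (nat_lit 0x18000200040000800060000000000000000000000000000000) := T_49 (nat_lit 177) (nat_lit 162) (nat_lit 2) (nat_lit 5) (nat_lit 10) L2827 (by decide +kernel)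
theorem L2829 : W_49 (nat_lit 5) (nat_lit 0x5c0024001300098000800400000000000000000000000) (nat_lit 0x0) (nat_lit 0x18000200040000800060000000040002000000000000000000) := T_49 (nat_lit 73) (nat_lit 90) (nat_lit 5) (nat_lit 5) (nat_lit 4) L2828 (by decide +kernel)
theorem L2830 : W_49 (nat_lit 6) (nat_lit 0x4c0024001300098000800400000000000000000000000) (nat_lit 0x0) (nat_lit 0x18000300048000800060000000040002000000000000000000) := T_49 (nat_lit 176) (nat_lit 159) (nat_lit 7) (nat_lit 5) (nat_lit 6) L2829 (by decide +kernel)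
theorem L2831 : W_49 (nat_lit 7) (nat_lit 0x4c0024001200098000800400000000000000000000000) (nat_lit 0x0) (nat_lit 0x19000300048000900060000000040002000000000000000000) := T_49 (nat_lit 140) (nat_lit 192) (nat_lit 4) (nat_lit 5) (nat_lit 11) L2830 (by decide +kernel)
theorem L2832 : W_49 (nat_lit 8) (nat_lit 0x4c0024001200098000000400000000000000000000000) (nat_lit 0x0) (nat_lit 0x1900030004a000900060000800040002000000000000000000) := T_49 (nat_lit 107) (nat_lit 157) (nat_lit 5) (nat_lit 5) (nat_lit 6) L2831 (by decide +kernel)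
theorem L2833 : W_49 (nat_lit 9) (nat_lit 0x480024001200098000000400000000000000000000000) (nat_lit 0x0) (nat_lit 0x1980034004a000900060000800040002000000000000000000) := T_49 (nat_lit 174) (nat_lit 191) (nat_lit 5) (nat_lit 5) (nat_lit 7) L2832 (by decide +kernel)
theorem L2834 : W_49 (nat_lit 10) (nat_lit 0x480024001200090000000400000000000000000000000) (nat_lit 0x0) (nat_lit 0x1980034004a000900068000c00040002000000000000000000) := T_49 (nat_lit 123) (nat_lit 106) (nat_lit 4) (nat_lit 5) (nat_lit 10) L2833 (by decide +kernel)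
theorem L2835 : W_49 (nat_lit 11) (nat_lit 0x400024001200090000000400000000000000000000000) (nat_lit 0x0) (nat_lit 0xc0007001b8003c004a000900068000c00040002000000000000000000) := Q_49 (nat_lit 175) (C_49 L2809 (C_49 L2825 (C_49 L2764 (C_49 L2805 (C_49 L2834 (C_49 L2718 N_49)))))) (by decide +kernel)
theorem L2836 : W_49 (nat_lit 10) (nat_lit 0x400024001200090000000400000000000000000000000) (nat_lit 0x0) (nat_lit 0x80001c000a000900160005f003e0035000000000000000000) := Q_49 (nat_lit 107) (C_49 L2818 (C_49 L2707 (C_49 L2800 (C_49 L2629 N_49)))) (by decide +kernel)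
theorem L2837 : W_49 (nat_lit 2) (nat_lit 0x4c00240012000f0000000400000000000000000000000) (nat_lit 0x0) (nat_lit 0x8000000000000800008000000000000000000000000000000) := D_49 (nat_lit 143) (nat_lit 123) (nat_lit 195) (nat_lit 3) (nat_lit 4) (nat_lit 7) (nat_lit 4) (nat_lit 8) (nat_lit 11) (by decide +kernel)
theorem L2838 : W_49 (nat_lit 3) (nat_lit 0x4c00240012000b0000000400000000000000000000000) (nat_lit 0x0) (nat_lit 0x8000000000000900048000000000000000000000000000000) := T_49 (nat_lit 126) (nat_lit 140) (nat_lit 1) (nat_lit 8) (nat_lit 7) L2837 (by decide +kernel)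
theorem L2839 : W_49 (nat_lit 4) (nat_lit 0x4c0024001200090000000400000000000000000000000) (nat_lit 0x0) (nat_lit 0x8000000000000900068001000000000000000000000000000) := T_49 (nat_lit 125) (nat_lit 108) (nat_lit 6) (nat_lit 5) (nat_lit 10) L2838 (by decide +kernel)
theorem L2840 : W_49 (nat_lit 5) (nat_lit 0x480024001200090000000400000000000000000000000) (nat_lit 0x0) (nat_lit 0x8800040000000900068001000000000000000000000000000) := T_49 (nat_lit 174) (nat_lit 191) (nat_lit 5) (nat_lit 5) (nat_lit 7) L2839 (by decide +kernel)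
theorem L2841 : W_49 (nat_lit 6) (nat_lit 0x400024001200090000000400000000000000000000000) (nat_lit 0x0) (nat_lit 0xa8003c004a000900068001800080000000000000000000000) := Q_49 (nat_lit 175) (C_49 L2767 (C_49 L2764 (C_49 L2718 (C_49 L2840 N_49)))) (by decide +kernel)
theorem L2842 : W_49 (nat_lit 13) (nat_lit 0x400020001200090000000400000000000000000000000) (nat_lit 0x0) (nat_lit 0xc0007001b8003c004e00098016e005f003f8037000100000000000000) := Q_49 (nat_lit 158) (C_49 L2774 (C_49 L2724 (C_49 L2801 (C_49 L2813 (C_49 L2814 (C_49 L2819 (C_49 L2835 (C_49 L2836 (C_49 L2841 N_49))))))))) (by decide +kernel)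
theorem L2843 : W_49 (nat_lit 2) (nat_lit 0x480024001200090001c00400000000000000000000000) (nat_lit 0x0) (nat_lit 0x800040002000000000000000000000000000000000000000) := D_49 (nat_lit 174) (nat_lit 157) (nat_lit 191) (nat_lit 5) (nat_lit 5) (nat_lit 6) (nat_lit 5) (nat_lit 5) (nat_lit 7) (by decide +kernel)
theorem L2844 : W_49 (nat_lit 3) (nat_lit 0x400024001200090001c00400000000000000000000000) (nat_lit 0x0) (nat_lit 0x8000c0002000000008000000000000000000000000000000) := T_49 (nat_lit 175) (nat_lit 123) (nat_lit 4) (nat_lit 5) (nat_lit 10) L2843 (by decide +kernel)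
theorem L2845 : W_49 (nat_lit 4) (nat_lit 0x400024001200090000c00400000000000000000000000) (nat_lit 0x0) (nat_lit 0x8000c0002000000008001000080000000000000000000000) := T_49 (nat_lit 108) (nat_lit 91) (nat_lit 6) (nat_lit 5) (nat_lit 9) L2844 (by decide +kernel)
theorem L2846 : W_49 (nat_lit 5) (nat_lit 0x400024001200090000800400000000000000000000000) (nat_lit 0x0) (nat_lit 0x8000c00020000000080014000a0000000000000000000000) := T_49 (nat_lit 106) (nat_lit 89) (nat_lit 4) (nat_lit 5) (nat_lit 9) L2845 (by decide +kernel)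
theorem L2847 : W_49 (nat_lit 2) (nat_lit 0x40002400160009a001c00440000000000000000000000) (nat_lit 0x0) (nat_lit 0x2000100000000000000002000000000000000000) := D_49 (nat_lit 140) (nat_lit 157) (nat_lit 73) (nat_lit 6) (nat_lit 4) (nat_lit 9) (nat_lit 5) (nat_lit 5) (nat_lit 4) (by decide +kernel)
theorem L2848 : W_49 (nat_lit 3) (nat_lit 0x40002400160009a001c00400000000000000000000000) (nat_lit 0x0) (nat_lit 0xa000100000000000040002000000000000000000) := T_49 (nat_lit 90) (nat_lit 159) (nat_lit 7) (nat_lit 5) (nat_lit 5) L2847 (by decide +kernel)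
theorem L2849 : W_49 (nat_lit 4) (nat_lit 0x40002400120009a001c00400000000000000000000000) (nat_lit 0x0) (nat_lit 0xa000d00000000000040002000000000000000000) := T_49 (nat_lit 142) (nat_lit 143) (nat_lit 0) (nat_lit 8) (nat_lit 8) L2848 (by decide +kernel)
theorem L2850 : W_49 (nat_lit 5) (nat_lit 0x400024001200098001c00400000000000000000000000) (nat_lit 0x0) (nat_lit 0xa000d00006000000040002000000000000000000) := T_49 (nat_lit 121) (nat_lit 122) (nat_lit 2) (nat_lit 2) (nat_lit 7) L2849 (by decide +kernel)
theorem L2851 : W_49 (nat_lit 6) (nat_lit 0x400024001200090001c00400000000000000000000000) (nat_lit 0x0) (nat_lit 0x8000a000d0000e000000040002000000000000000000) := T_49 (nat_lit 123) (nat_lit 175) (nat_lit 4) (nat_lit 5) (nat_lit 10) L2850 (by decide +kernel)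
theorem L2852 : W_49 (nat_lit 7) (nat_lit 0x400024001200090001800400000000000000000000000) (nat_lit 0x0) (nat_lit 0x8000a000d0000e000400060002000000000000000000) := T_49 (nat_lit 106) (nat_lit 89) (nat_lit 4) (nat_lit 5) (nat_lit 9) L2851 (by decide +kernel)
theorem L2853 : W_49 (nat_lit 8) (nat_lit 0x400024001200090000800400000000000000000000000) (nat_lit 0x0) (nat_lit 0x8000a000d0000e0014000e0002000000000000000000) := T_49 (nat_lit 108) (nat_lit 91) (nat_lit 6) (nat_lit 5) (nat_lit 9) L2852 (by decide +kernel)
theorem L2854 : W_49 (nat_lit 2) (nat_lit 0x60001800480024001600090001c00400000000000000000000000) (nat_lit 0x0) (nat_lit 0x40000800100000000000000000000000000000000) := D_49 (nat_lit 143) (nat_lit 162) (nat_lit 128) (nat_lit 3) (nat_lit 5) (nat_lit 8) (nat_lit 2) (nat_lit 5) (nat_lit 8) (by decide +kernel)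
theorem L2855 : W_49 (nat_lit 3) (nat_lit 0x60001800480024001200090001c00400000000000000000000000) (nat_lit 0x0) (nat_lit 0x48000c00100000000000000000000000000000000) := T_49 (nat_lit 142) (nat_lit 159) (nat_lit 6) (nat_lit 5) (nat_lit 12) L2854 (by decide +kernel)
theorem L2856 : W_49 (nat_lit 4) (nat_lit 0x40001800480024001200090001c00400000000000000000000000) (nat_lit 0x0) (nat_lit 0x800020000000000048000c00100000000000000000000000000000000) := T_49 (nat_lit 209) (nat_lit 227) (nat_lit 7) (nat_lit 5) (nat_lit 9) L2855 (by decide +kernel)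
theorem L2857 : W_49 (nat_lit 5) (nat_lit 0x1800480024001200090001c00400000000000000000000000) (nat_lit 0x0) (nat_lit 0x800060002000000048000c00100000000000000000000000000000000) := T_49 (nat_lit 210) (nat_lit 193) (nat_lit 7) (nat_lit 5) (nat_lit 8) L2856 (by decide +kernel)
theorem L2858 : W_49 (nat_lit 6) (nat_lit 0x800480024001200090001c00400000000000000000000000) (nat_lit 0x0) (nat_lit 0x800070003000000048000c00100000000000000000000000000000000) := T_49 (nat_lit 192) (nat_lit 208) (nat_lit 5) (nat_lit 5) (nat_lit 8) L2857 (by decide +kernel)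
theorem L2859 : W_49 (nat_lit 7) (nat_lit 0x480024001200090001c00400000000000000000000000) (nat_lit 0x0) (nat_lit 0x800070003800040048000c00100000000000000000000000000000000) := T_49 (nat_lit 191) (nat_lit 174) (nat_lit 5) (nat_lit 5) (nat_lit 7) L2858 (by decide +kernel)
theorem L2860 : W_49 (nat_lit 8) (nat_lit 0x400024001200090001c00400000000000000000000000) (nat_lit 0x0) (nat_lit 0x8000700038000c0048000c00108000000000000000000000000000000) := T_49 (nat_lit 175) (nat_lit 123) (nat_lit 4) (nat_lit 5) (nat_lit 10) L2859 (by decide +kernel)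
theorem L2861 : W_49 (nat_lit 9) (nat_lit 0x400024001200090000c00400000000000000000000000) (nat_lit 0x0) (nat_lit 0x8000700038000c0048000c00108001000080000000000000000000000) := T_49 (nat_lit 108) (nat_lit 91) (nat_lit 6) (nat_lit 5) (nat_lit 9) L2860 (by decide +kernel)
theorem L2862 : W_49 (nat_lit 10) (nat_lit 0x400024001200090000800400000000000000000000000) (nat_lit 0x0) (nat_lit 0x8000700038000c0048000c001080014000a0000000000000000000000) := T_49 (nat_lit 106) (nat_lit 89) (nat_lit 4) (nat_lit 5) (nat_lit 9) L2861 (by decide +kernel)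
theorem L2863 : W_49 (nat_lit 11) (nat_lit 0x400024001200090000000400000000000000000000000) (nat_lit 0x0) (nat_lit 0x8000700038000c004a000d0010e001c000e0007000000000000000000) := Q_49 (nat_lit 107) (C_49 L2707 (C_49 L2846 (C_49 L2853 (C_49 L2629 (C_49 L2862 N_49))))) (by decide +kernel)
theorem L2864 : W_49 (nat_lit 11) (nat_lit 0x400024001200090000000400000000000000000000000) (nat_lit 0x0) (nat_lit 0x8000700038001c004a000c00108001c000e0004000000000000000000) := Q_49 (nat_lit 107) (C_49 L2846 (C_49 L2862 (C_49 L2598 (C_49 L2618 N_49)))) (by decide +kernel)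
theorem L2865 : W_49 (nat_lit 2) (nat_lit 0x580024001200090001c00400000000000000000000000) (nat_lit 0x0) (nat_lit 0x200042000000000000000000000000000000000000000) := D_49 (nat_lit 177) (nat_lit 162) (nat_lit 157) (nat_lit 2) (nat_lit 5) (nat_lit 10) (nat_lit 0) (nat_lit 8) (nat_lit 10) (by decide +kernel)
theorem L2866 : W_49 (nat_lit 3) (nat_lit 0x480024001200090001c00400000000000000000000000) (nat_lit 0x0) (nat_lit 0x2000300042000000000000000000000000000000000000000) := T_49 (nat_lit 176) (nat_lit 193) (nat_lit 7) (nat_lit 5) (nat_lit 7) L2865 (by decide +kernel)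
theorem L2867 : W_49 (nat_lit 4) (nat_lit 0x400024001200090001c00400000000000000000000000) (nat_lit 0x0) (nat_lit 0x2000380042000000008000000000000000000000000000000) := T_49 (nat_lit 175) (nat_lit 123) (nat_lit 4) (nat_lit 5) (nat_lit 10) L2866 (by decide +kernel)
theorem L2868 : W_49 (nat_lit 5) (nat_lit 0x400024001200090000c00400000000000000000000000) (nat_lit 0x0) (nat_lit 0x2000380042000000008001000080000000000000000000000) := T_49 (nat_lit 108) (nat_lit 91) (nat_lit 6) (nat_lit 5) (nat_lit 9) L2867 (by decide +kernel)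
theorem L2869 : W_49 (nat_lit 6) (nat_lit 0x400024001200090000800400000000000000000000000) (nat_lit 0x0) (nat_lit 0x20003800420000000080014000a0000000000000000000000) := T_49 (nat_lit 106) (nat_lit 89) (nat_lit 4) (nat_lit 5) (nat_lit 9) L2868 (by decide +kernel)
theorem L2870 : W_49 (nat_lit 2) (nat_lit 0x40002c001300090000d006c0000000000000000000000) (nat_lit 0x0) (nat_lit 0x80000000000008000000000002000000000000000000) := D_49 (nat_lit 123) (nat_lit 73) (nat_lit 175) (nat_lit 5) (nat_lit 5) (nat_lit 4) (nat_lit 4) (nat_lit 5) (nat_lit 10) (by decide +kernel)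
theorem L2871 : W_49 (nat_lit 3) (nat_lit 0x40002c001200090000d006c0000000000000000000000) (nat_lit 0x0) (nat_lit 0x80002000100008000000000002000000000000000000) := T_49 (nat_lit 140) (nat_lit 157) (nat_lit 5) (nat_lit 5) (nat_lit 5) L2870 (by decide +kernel)
theorem L2872 : W_49 (nat_lit 4) (nat_lit 0x40002c001200090000d004c0000000000000000000000) (nat_lit 0x0) (nat_lit 0x80002000100008000000300002000000000000000000) := T_49 (nat_lit 93) (nat_lit 92) (nat_lit 1) (nat_lit 8) (nat_lit 5) L2871 (by decide +kernel)
theorem L2873 : W_49 (nat_lit 5) (nat_lit 0x40002c001200090000c004c0000000000000000000000) (nat_lit 0x0) (nat_lit 0x80002000100008000300300002000000000000000000) := T_49 (nat_lit 104) (nat_lit 105) (nat_lit 2) (nat_lit 2) (nat_lit 6) L2872 (by decide +kernel)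
theorem L2874 : W_49 (nat_lit 6) (nat_lit 0x40002c001200090000c00440000000000000000000000) (nat_lit 0x0) (nat_lit 0x80002000100008000300380006000000000000000000) := T_49 (nat_lit 91) (nat_lit 74) (nat_lit 6) (nat_lit 5) (nat_lit 8) L2873 (by decide +kernel)
theorem L2875 : W_49 (nat_lit 7) (nat_lit 0x40002c001200090000c00400000000000000000000000) (nat_lit 0x0) (nat_lit 0x800020005000080003003c0006000000000000000000) := T_49 (nat_lit 90) (nat_lit 142) (nat_lit 7) (nat_lit 5) (nat_lit 5) L2874 (by decide +kernel)
theorem L2876 : W_49 (nat_lit 8) (nat_lit 0x400024001200090000c00400000000000000000000000) (nat_lit 0x0) (nat_lit 0x18000a0005000080003003c0006000000000000000000) := T_49 (nat_lit 159) (nat_lit 176) (nat_lit 7) (nat_lit 5) (nat_lit 6) L2875 (by decide +kernel)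
theorem L2877 : W_49 (nat_lit 9) (nat_lit 0x400024001200090000800400000000000000000000000) (nat_lit 0x0) (nat_lit 0x18000a0005000080007003e0006000000000000000000) := T_49 (nat_lit 106) (nat_lit 89) (nat_lit 4) (nat_lit 5) (nat_lit 9) L2876 (by decide +kernel)
theorem L2878 : W_49 (nat_lit 2) (nat_lit 0x40002c001300090000c00440000000000000000000000) (nat_lit 0x0) (nat_lit 0x80000000000008000000000002000000000000000000) := D_49 (nat_lit 123) (nat_lit 73) (nat_lit 175) (nat_lit 5) (nat_lit 5) (nat_lit 4) (nat_lit 4) (nat_lit 5) (nat_lit 10) (by decide +kernel)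
theorem L2879 : W_49 (nat_lit 3) (nat_lit 0x40002c001200090000c00440000000000000000000000) (nat_lit 0x0) (nat_lit 0x80002000100008000000000002000000000000000000) := T_49 (nat_lit 140) (nat_lit 157) (nat_lit 5) (nat_lit 5) (nat_lit 5) L2878 (by decide +kernel)
theorem L2880 : W_49 (nat_lit 4) (nat_lit 0x40002c001200090000c00400000000000000000000000) (nat_lit 0x0) (nat_lit 0x80002000500008000000040002000000000000000000) := T_49 (nat_lit 90) (nat_lit 142) (nat_lit 7) (nat_lit 5) (nat_lit 5) L2879 (by decide +kernel)
theorem L2881 : W_49 (nat_lit 5) (nat_lit 0x400024001200090000c00400000000000000000000000) (nat_lit 0x0) (nat_lit 0x18000a000500008000000040002000000000000000000) := T_49 (nat_lit 159) (nat_lit 176) (nat_lit 7) (nat_lit 5) (nat_lit 6) L2880 (by decide +kernel)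
theorem L2882 : W_49 (nat_lit 6) (nat_lit 0x400024001200090000800400000000000000000000000) (nat_lit 0x0) (nat_lit 0x18000a000500008000400060002000000000000000000) := T_49 (nat_lit 106) (nat_lit 89) (nat_lit 4) (nat_lit 5) (nat_lit 9) L2881 (by decide +kernel)
theorem L2883 : W_49 (nat_lit 10) (nat_lit 0x400024001200090000000400000000000000000000000) (nat_lit 0x0) (nat_lit 0x200038004a000d0000e001f003e0006000000000000000000) := Q_49 (nat_lit 107) (C_49 L2773 (C_49 L2853 (C_49 L2869 (C_49 L2598 (C_49 L2877 (C_49 L2882 N_49)))))) (by decide +kernel)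
theorem L2884 : W_49 (nat_lit 2) (nat_lit 0x780024001a0009a001800400000000000000000000000) (nat_lit 0x0) (nat_lit 0x1800040000000000000000000000000000000000000000000) := D_49 (nat_lit 191) (nat_lit 192) (nat_lit 174) (nat_lit 1) (nat_lit 8) (nat_lit 10) (nat_lit 5) (nat_lit 5) (nat_lit 7) (by decide +kernel)
theorem L2885 : W_49 (nat_lit 3) (nat_lit 0x580024001a0009a001800400000000000000000000000) (nat_lit 0x0) (nat_lit 0x1800240040000000000000000000000000000000000000000) := T_49 (nat_lit 177) (nat_lit 162) (nat_lit 2) (nat_lit 5) (nat_lit 10) L2884 (by decide +kernel)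
theorem L2886 : W_49 (nat_lit 4) (nat_lit 0x580024001a00098001800400000000000000000000000) (nat_lit 0x0) (nat_lit 0x1800240040000000006000000000000000000000000000000) := T_49 (nat_lit 121) (nat_lit 122) (nat_lit 2) (nat_lit 2) (nat_lit 7) L2885 (by decide +kernel)
theorem L2887 : W_49 (nat_lit 5) (nat_lit 0x580024001a00098000800400000000000000000000000) (nat_lit 0x0) (nat_lit 0x1800240040000000006001000080000000000000000000000) := T_49 (nat_lit 108) (nat_lit 91) (nat_lit 6) (nat_lit 5) (nat_lit 9) L2886 (by decide +kernel)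
theorem L2888 : W_49 (nat_lit 6) (nat_lit 0x580024001a00098000000400000000000000000000000) (nat_lit 0x0) (nat_lit 0x1800240048000000006001800080000000000000000000000) := T_49 (nat_lit 107) (nat_lit 159) (nat_lit 7) (nat_lit 5) (nat_lit 6) L2887 (by decide +kernel)
theorem L2889 : W_49 (nat_lit 7) (nat_lit 0x480024001a00098000000400000000000000000000000) (nat_lit 0x0) (nat_lit 0x3800340048000000006001800080000000000000000000000) := T_49 (nat_lit 176) (nat_lit 193) (nat_lit 7) (nat_lit 5) (nat_lit 7) L2888 (by decide +kernel)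
theorem L2890 : W_49 (nat_lit 8) (nat_lit 0x480024001200098000000400000000000000000000000) (nat_lit 0x0) (nat_lit 0x3800340048000c00006001800080000000000000000000000) := T_49 (nat_lit 143) (nat_lit 142) (nat_lit 0) (nat_lit 8) (nat_lit 8) L2889 (by decide +kernel)
theorem L2891 : W_49 (nat_lit 9) (nat_lit 0x480024001200090000000400000000000000000000000) (nat_lit 0x0) (nat_lit 0x3800340048000c0000e001c00080000000000000000000000) := T_49 (nat_lit 123) (nat_lit 106) (nat_lit 4) (nat_lit 5) (nat_lit 10) L2890 (by decide +kernel)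
theorem L2892 : W_49 (nat_lit 2) (nat_lit 0x580024001200090000800400000000000000000000000) (nat_lit 0x0) (nat_lit 0x8000400020000000000000000000000) := D_49 (nat_lit 106) (nat_lit 123) (nat_lit 89) (nat_lit 4) (nat_lit 5) (nat_lit 10) (nat_lit 4) (nat_lit 5) (nat_lit 9) (by decide +kernel)
theorem L2893 : W_49 (nat_lit 3) (nat_lit 0x580024001200090000000400000000000000000000000) (nat_lit 0x0) (nat_lit 0x8000000008000c00020000000000000000000000) := T_49 (nat_lit 107) (nat_lit 159) (nat_lit 7) (nat_lit 5) (nat_lit 6) L2892 (by decide +kernel)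
theorem L2894 : W_49 (nat_lit 4) (nat_lit 0x480024001200090000000400000000000000000000000) (nat_lit 0x0) (nat_lit 0x2000100008000000008000c00020000000000000000000000) := T_49 (nat_lit 176) (nat_lit 193) (nat_lit 7) (nat_lit 5) (nat_lit 7) L2893 (by decide +kernel)
theorem L2895 : W_49 (nat_lit 2) (nat_lit 0x5c0064001a00090004c006c0000000000000000000000) (nat_lit 0x0) (nat_lit 0x8000000000000000040000000000010000000000000000000) := D_49 (nat_lit 126) (nat_lit 76) (nat_lit 195) (nat_lit 5) (nat_lit 8) (nat_lit 4) (nat_lit 4) (nat_lit 8) (nat_lit 11) (by decide +kernel)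
theorem L2896 : W_49 (nat_lit 3) (nat_lit 0x5c0064001a00090000c006c0000000000000000000000) (nat_lit 0x0) (nat_lit 0x8000000000000000040004000000030000000000000000000) := T_49 (nat_lit 110) (nat_lit 77) (nat_lit 6) (nat_lit 8) (nat_lit 8) L2895 (by decide +kernel)
theorem L2897 : W_49 (nat_lit 4) (nat_lit 0x5c0064001200090000c006c0000000000000000000000) (nat_lit 0x0) (nat_lit 0x8000000000000c00040004000000030000000000000000000) := T_49 (nat_lit 143) (nat_lit 142) (nat_lit 3) (nat_lit 5) (nat_lit 8) L2896 (by decide +kernel)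
theorem L2898 : W_49 (nat_lit 5) (nat_lit 0x5c0064001200090000c004c0000000000000000000000) (nat_lit 0x0) (nat_lit 0x8000000000000c00040004000300030000000000000000000) := T_49 (nat_lit 93) (nat_lit 92) (nat_lit 1) (nat_lit 8) (nat_lit 5) L2897 (by decide +kernel)
theorem L2899 : W_49 (nat_lit 6) (nat_lit 0x5c0024001200090000c004c0000000000000000000000) (nat_lit 0x0) (nat_lit 0x8000200040000c00040004000300030000000000000000000) := T_49 (nat_lit 162) (nat_lit 177) (nat_lit 2) (nat_lit 5) (nat_lit 10) L2898 (by decide +kernel)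
theorem L2900 : W_49 (nat_lit 7) (nat_lit 0x5c0024001200090000c00480000000000000000000000) (nat_lit 0x0) (nat_lit 0x8000200040000c00040004000340034000000000000000000) := T_49 (nat_lit 90) (nat_lit 74) (nat_lit 6) (nat_lit 5) (nat_lit 8) L2899 (by decide +kernel)
theorem L2901 : W_49 (nat_lit 8) (nat_lit 0x5c0024001200090000800480000000000000000000000) (nat_lit 0x0) (nat_lit 0x8000200040000c00040004400360034000000000000000000) := T_49 (nat_lit 106) (nat_lit 89) (nat_lit 4) (nat_lit 5) (nat_lit 9) L2900 (by decide +kernel)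
theorem L2902 : W_49 (nat_lit 9) (nat_lit 0x5c0024001200090000800400000000000000000000000) (nat_lit 0x0) (nat_lit 0x8000200040000c000400054003e0034000000000000000000) := T_49 (nat_lit 91) (nat_lit 108) (nat_lit 6) (nat_lit 5) (nat_lit 9) L2901 (by decide +kernel)
theorem L2903 : W_49 (nat_lit 10) (nat_lit 0x5c0024001200090000000400000000000000000000000) (nat_lit 0x0) (nat_lit 0x8000200048000c00040005c003e0034000000000000000000) := T_49 (nat_lit 107) (nat_lit 159) (nat_lit 7) (nat_lit 5) (nat_lit 6) L2902 (by decide +kernel)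
theorem L2904 : W_49 (nat_lit 11) (nat_lit 0x4c0024001200090000000400000000000000000000000) (nat_lit 0x0) (nat_lit 0xa000300048000c00040005c003e0034000000000000000000) := T_49 (nat_lit 176) (nat_lit 193) (nat_lit 7) (nat_lit 5) (nat_lit 7) L2903 (by decide +kernel)
theorem L2905 : W_49 (nat_lit 12) (nat_lit 0x480024001200090000000400000000000000000000000) (nat_lit 0x0) (nat_lit 0xa800340048000c00040005c003e0034000000000000000000) := T_49 (nat_lit 174) (nat_lit 191) (nat_lit 5) (nat_lit 5) (nat_lit 7) L2904 (by decide +kernel)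
theorem L2906 : W_49 (nat_lit 2) (nat_lit 0x780024001200090001800400000000000000000000000) (nat_lit 0x0) (nat_lit 0x1800040000000000000000000000000000000000000000000) := D_49 (nat_lit 191) (nat_lit 192) (nat_lit 174) (nat_lit 1) (nat_lit 8) (nat_lit 10) (nat_lit 5) (nat_lit 5) (nat_lit 7) (by decide +kernel)
theorem L2907 : W_49 (nat_lit 3) (nat_lit 0x580024001200090001800400000000000000000000000) (nat_lit 0x0) (nat_lit 0x1800240040000000000000000000000000000000000000000) := T_49 (nat_lit 177) (nat_lit 162) (nat_lit 2) (nat_lit 5) (nat_lit 10) L2906 (by decide +kernel)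
theorem L2908 : W_49 (nat_lit 4) (nat_lit 0x580024001200090000800400000000000000000000000) (nat_lit 0x0) (nat_lit 0x1800240040000000000001000080000000000000000000000) := T_49 (nat_lit 108) (nat_lit 91) (nat_lit 6) (nat_lit 5) (nat_lit 9) L2907 (by decide +kernel)
theorem L2909 : W_49 (nat_lit 5) (nat_lit 0x580024001200090000000400000000000000000000000) (nat_lit 0x0) (nat_lit 0x1800240048000000000001800080000000000000000000000) := T_49 (nat_lit 107) (nat_lit 159) (nat_lit 7) (nat_lit 5) (nat_lit 6) L2908 (by decide +kernel)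
theorem L2910 : W_49 (nat_lit 6) (nat_lit 0x480024001200090000000400000000000000000000000) (nat_lit 0x0) (nat_lit 0x3800340048000000000001800080000000000000000000000) := T_49 (nat_lit 176) (nat_lit 193) (nat_lit 7) (nat_lit 5) (nat_lit 7) L2909 (by decide +kernel)
theorem L2911 : W_49 (nat_lit 13) (nat_lit 0x400024001200090000000400000000000000000000000) (nat_lit 0x0) (nat_lit 0x5000b8003c0048000d0004e005c003e0034000000000000000000) := Q_49 (nat_lit 175) (C_49 L2809 (C_49 L2722 (C_49 L2891 (C_49 L2716 (C_49 L2894 (C_49 L2905 (C_49 L2910 N_49))))))) (by decide +kernel)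
theorem L2912 : W_49 (nat_lit 3) (nat_lit 0x500024001200090001c00400000000000000000000000) (nat_lit 0x0) (nat_lit 0x2000280042000000000000000000000000000000000000000) := T_49 (nat_lit 175) (nat_lit 193) (nat_lit 7) (nat_lit 5) (nat_lit 7) L2865 (by decide +kernel)
theorem L2913 : W_49 (nat_lit 4) (nat_lit 0x500024001200090000c00400000000000000000000000) (nat_lit 0x0) (nat_lit 0x2000280042000000000001000080000000000000000000000) := T_49 (nat_lit 108) (nat_lit 91) (nat_lit 6) (nat_lit 5) (nat_lit 9) L2912 (by decide +kernel)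
theorem L2914 : W_49 (nat_lit 5) (nat_lit 0x400024001200090000c00400000000000000000000000) (nat_lit 0x0) (nat_lit 0x200038004a000000000001000080000000000000000000000) := T_49 (nat_lit 176) (nat_lit 159) (nat_lit 7) (nat_lit 5) (nat_lit 6) L2913 (by decide +kernel)
theorem L2915 : W_49 (nat_lit 6) (nat_lit 0x400024001200090000800400000000000000000000000) (nat_lit 0x0) (nat_lit 0x200038004a0000000000014000a0000000000000000000000) := T_49 (nat_lit 106) (nat_lit 89) (nat_lit 4) (nat_lit 5) (nat_lit 9) L2914 (by decide +kernel)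
theorem L2916 : W_49 (nat_lit 7) (nat_lit 0x400024001200090000000400000000000000000000000) (nat_lit 0x0) (nat_lit 0x20003c004a000500000001c000e0005000000000000000000) := Q_49 (nat_lit 107) (C_49 L2707 (C_49 L2598 (C_49 L2915 (C_49 L2629 N_49)))) (by decide +kernel)
theorem L2917 : W_49 (nat_lit 2) (nat_lit 0x8000500026001a00090000800400000000000000000000000) (nat_lit 0x0) (nat_lit 0x2000280000000000000000000000000000000000000000000) := D_49 (nat_lit 175) (nat_lit 177) (nat_lit 193) (nat_lit 0) (nat_lit 8) (nat_lit 10) (nat_lit 7) (nat_lit 5) (nat_lit 7) (by decide +kernel)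
theorem L2918 : W_49 (nat_lit 3) (nat_lit 0x8000400026001a00090000800400000000000000000000000) (nat_lit 0x0) (nat_lit 0x2000380008000000000000000000000000000000000000000) := T_49 (nat_lit 176) (nat_lit 159) (nat_lit 7) (nat_lit 5) (nat_lit 6) L2917 (by decide +kernel)
theorem L2919 : W_49 (nat_lit 4) (nat_lit 0x400026001a00090000800400000000000000000000000) (nat_lit 0x0) (nat_lit 0xa000380008000000040000000000000000000000000000000) := T_49 (nat_lit 195) (nat_lit 126) (nat_lit 4) (nat_lit 8) (nat_lit 11) L2918 (by decide +kernel)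
theorem L2920 : W_49 (nat_lit 5) (nat_lit 0x400026001200090000800400000000000000000000000) (nat_lit 0x0) (nat_lit 0xa000380008000c00040000000000000000000000000000000) := T_49 (nat_lit 143) (nat_lit 142) (nat_lit 1) (nat_lit 8) (nat_lit 8) L2919 (by decide +kernel)
theorem L2921 : W_49 (nat_lit 6) (nat_lit 0x400024001200090000800400000000000000000000000) (nat_lit 0x0) (nat_lit 0xa0003c000a000c00040000000000000000000000000000000) := T_49 (nat_lit 157) (nat_lit 174) (nat_lit 5) (nat_lit 5) (nat_lit 6) L2920 (by decide +kernel)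
theorem L2922 : W_49 (nat_lit 7) (nat_lit 0x400024001200090000000400000000000000000000000) (nat_lit 0x0) (nat_lit 0xa0003c000a000d000400018000c0004000000000000000000) := Q_49 (nat_lit 107) (C_49 L2707 (C_49 L2598 (C_49 L2921 N_49))) (by decide +kernel)
theorem L2923 : W_49 (nat_lit 14) (nat_lit 0x400020001200090000000400000000000000000000000) (nat_lit 0x0) (nat_lit 0x80007000b8003f004f800dc014e005f003e0037000000000000000000) := Q_49 (nat_lit 158) (C_49 L2774 (C_49 L2723 (C_49 L2863 (C_49 L2734 (C_49 L2864 (C_49 L2883 (C_49 L2911 (C_49 L2916 (C_49 L2922 N_49))))))))) (by decide +kernel)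
theorem L2924 : W_49 (nat_lit 2) (nat_lit 0x400020001a000d0000000400000000000000000000000) (nat_lit 0x0) (nat_lit 0x100028000000000000000000000000000000) := D_49 (nat_lit 125) (nat_lit 123) (nat_lit 140) (nat_lit 3) (nat_lit 4) (nat_lit 7) (nat_lit 1) (nat_lit 8) (nat_lit 7) (by decide +kernel)
theorem L2925 : W_49 (nat_lit 3) (nat_lit 0x400020001a00090000000400000000000000000000000) (nat_lit 0x0) (nat_lit 0x8000000000000100068000000000000000000000000000000) := T_49 (nat_lit 126) (nat_lit 195) (nat_lit 4) (nat_lit 8) (nat_lit 11) L2924 (by decide +kernel)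
theorem L2926 : W_49 (nat_lit 2) (nat_lit 0x400020001a00090000000400000000000000000000000) (nat_lit 0x0) (nat_lit 0x40000400100000000000000000000000000000000) := D_49 (nat_lit 142) (nat_lit 162) (nat_lit 128) (nat_lit 3) (nat_lit 5) (nat_lit 8) (nat_lit 2) (nat_lit 5) (nat_lit 8) (by decide +kernel)
theorem L2927 : W_49 (nat_lit 4) (nat_lit 0x400020001200090000000400000000000000000000000) (nat_lit 0x0) (nat_lit 0x8000000040000d00168000000000000000000000000000000) := Q_49 (nat_lit 143) (C_49 L2925 (C_49 L2710 (C_49 L2926 N_49))) (by decide +kernel)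
theorem L2928 : W_49 (nat_lit 2) (nat_lit 0x400020001a000f0001800400000000000000000000000) (nat_lit 0x0) (nat_lit 0x4000000000000000080004000000000000000000) := D_49 (nat_lit 91) (nat_lit 74) (nat_lit 158) (nat_lit 7) (nat_lit 6) (nat_lit 4) (nat_lit 6) (nat_lit 5) (nat_lit 9) (by decide +kernel)
theorem L2929 : W_49 (nat_lit 3) (nat_lit 0x400020001a000f0000800400000000000000000000000) (nat_lit 0x0) (nat_lit 0x4000000100001000080004000000000000000000) := T_49 (nat_lit 108) (nat_lit 128) (nat_lit 0) (nat_lit 9) (nat_lit 7) L2928 (by decide +kernel)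
theorem L2930 : W_49 (nat_lit 4) (nat_lit 0x400020001a000f0000000400000000000000000000000) (nat_lit 0x0) (nat_lit 0x4000000100001c00080004000000000000000000) := T_49 (nat_lit 107) (nat_lit 106) (nat_lit 0) (nat_lit 8) (nat_lit 7) L2929 (by decide +kernel)
theorem L2931 : W_49 (nat_lit 5) (nat_lit 0x400020001a000d0000000400000000000000000000000) (nat_lit 0x0) (nat_lit 0x4000000128001c00080004000000000000000000) := T_49 (nat_lit 125) (nat_lit 123) (nat_lit 3) (nat_lit 4) (nat_lit 7) L2930 (by decide +kernel)
theorem L2932 : W_49 (nat_lit 6) (nat_lit 0x400020001a00090000000400000000000000000000000) (nat_lit 0x0) (nat_lit 0x8000000004000000168001c00080004000000000000000000) := T_49 (nat_lit 126) (nat_lit 195) (nat_lit 4) (nat_lit 8) (nat_lit 11) L2931 (by decide +kernel)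
theorem L2933 : W_49 (nat_lit 7) (nat_lit 0x400020001200090000000400000000000000000000000) (nat_lit 0x0) (nat_lit 0x8000000044000c00168001c00080004000000000000000000) := Q_49 (nat_lit 143) (C_49 L2932 (C_49 L2926 (C_49 L2710 N_49))) (by decide +kernel)
theorem L2934 : W_49 (nat_lit 5) (nat_lit 0x400020001a000d0000000400000000000000000000000) (nat_lit 0x0) (nat_lit 0x4000100120001c00080004000000000000000000) := T_49 (nat_lit 125) (nat_lit 140) (nat_lit 1) (nat_lit 8) (nat_lit 7) L2930 (by decide +kernel)
theorem L2935 : W_49 (nat_lit 6) (nat_lit 0x400020001a00090000000400000000000000000000000) (nat_lit 0x0) (nat_lit 0x8000000004000100160001c00080004000000000000000000) := T_49 (nat_lit 126) (nat_lit 195) (nat_lit 4) (nat_lit 8) (nat_lit 11) L2934 (by decide +kernel)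
theorem L2936 : W_49 (nat_lit 2) (nat_lit 0x400020001e00090000000400000000000000000000000) (nat_lit 0x0) (nat_lit 0x8000000000000100040000000000000000000000000000000) := D_49 (nat_lit 126) (nat_lit 140) (nat_lit 195) (nat_lit 2) (nat_lit 4) (nat_lit 8) (nat_lit 4) (nat_lit 8) (nat_lit 11) (by decide +kernel)
theorem L2937 : W_49 (nat_lit 3) (nat_lit 0x400020001a00090000000400000000000000000000000) (nat_lit 0x0) (nat_lit 0x8000000040000500040000000000000000000000000000000) := T_49 (nat_lit 142) (nat_lit 162) (nat_lit 3) (nat_lit 5) (nat_lit 8) L2936 (by decide +kernel)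
theorem L2938 : W_49 (nat_lit 7) (nat_lit 0x400020001200090000000400000000000000000000000) (nat_lit 0x0) (nat_lit 0x8000000044000d00160001c00080004000000000000000000) := Q_49 (nat_lit 143) (C_49 L2935 (C_49 L2926 (C_49 L2937 N_49))) (by decide +kernel)
theorem L2939 : W_49 (nat_lit 15) (nat_lit 0x400020001200080000000400000000000000000000000) (nat_lit 0x0) (nat_lit 0xc0007001b8003f004f800dc017e005f003f8037000180008000000000) := Q_49 (nat_lit 124) (C_49 L2709 (C_49 L2769 (C_49 L2842 (C_49 L2923 (C_49 L2927 (C_49 L2933 (C_49 L2938 N_49))))))) (by decide +kernel)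
theorem L2940 : W_49 (nat_lit 2) (nat_lit 0x40002c0012001900008004a0000000000000000000000) (nat_lit 0x0) (nat_lit 0x40005000000000000000000) := D_49 (nat_lit 90) (nat_lit 74) (nat_lit 72) (nat_lit 6) (nat_lit 5) (nat_lit 8) (nat_lit 4) (nat_lit 5) (nat_lit 8) (by decide +kernel)
theorem L2941 : W_49 (nat_lit 3) (nat_lit 0x40002c001200190000800480000000000000000000000) (nat_lit 0x0) (nat_lit 0x400060005000000000000000000) := T_49 (nat_lit 89) (nat_lit 106) (nat_lit 4) (nat_lit 5) (nat_lit 9) L2940 (by decide +kernel)
theorem L2942 : W_49 (nat_lit 4) (nat_lit 0x40002c001200190000800400000000000000000000000) (nat_lit 0x0) (nat_lit 0x14000e0005000000000000000000) := T_49 (nat_lit 91) (nat_lit 108) (nat_lit 6) (nat_lit 5) (nat_lit 9) L2941 (by decide +kernel)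
theorem L2943 : W_49 (nat_lit 5) (nat_lit 0x400024001200190000800400000000000000000000000) (nat_lit 0x0) (nat_lit 0x1000080000000000014000e0005000000000000000000) := T_49 (nat_lit 159) (nat_lit 176) (nat_lit 7) (nat_lit 5) (nat_lit 6) L2942 (by decide +kernel)
theorem L2944 : W_49 (nat_lit 6) (nat_lit 0x400024001200090000800400000000000000000000000) (nat_lit 0x0) (nat_lit 0x1000080000001000094000e0005000000000000000000) := T_49 (nat_lit 128) (nat_lit 111) (nat_lit 6) (nat_lit 8) (nat_lit 10) L2943 (by decide +kernel)
theorem L2945 : W_49 (nat_lit 10) (nat_lit 0x400024001200090000000400000000000000000000000) (nat_lit 0x0) (nat_lit 0x14000a00018016e009f000f8007000100000000000000) := Q_49 (nat_lit 107) (C_49 L2792 (C_49 L2707 (C_49 L2944 (C_49 L2674 (C_49 L2629 N_49))))) (by decide +kernel)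
theorem L2946 : W_49 (nat_lit 7) (nat_lit 0x400024001200090000000400000000000000000000000) (nat_lit 0x0) (nat_lit 0x200038004a000100168009c000e0005000000000000000000) := Q_49 (nat_lit 107) (C_49 L2944 (C_49 L2915 (C_49 L2869 (C_49 L2610 (C_49 L2595 (C_49 L2818 N_49)))))) (by decide +kernel)
theorem L2947 : W_49 (nat_lit 7) (nat_lit 0x400024001200090000000400000000000000000000000) (nat_lit 0x0) (nat_lit 0xb8003c0048000900068001c000a0000000000000000000000) := Q_49 (nat_lit 175) (C_49 L2910 (C_49 L2894 (C_49 L2840 N_49))) (by decide +kernel)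
theorem L2948 : W_49 (nat_lit 7) (nat_lit 0x400024001200090000000400000000000000000000000) (nat_lit 0x0) (nat_lit 0x20003c004a000100100009c000e0005000000000000000000) := Q_49 (nat_lit 107) (C_49 L2944 (C_49 L2915 (C_49 L2707 (C_49 L2629 N_49)))) (by decide +kernel)
theorem L2949 : W_49 (nat_lit 12) (nat_lit 0x400020001200090000000400000000000000000000000) (nat_lit 0x0) (nat_lit 0xc0007001b8003c004e00098016e009f000f8007000100000000000000) := Q_49 (nat_lit 158) (C_49 L2814 (C_49 L2774 (C_49 L2841 (C_49 L2813 (C_49 L2724 (C_49 L2945 (C_49 L2946 (C_49 L2835 (C_49 L2947 (C_49 L2948 N_49)))))))))) (by decide +kernel)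
theorem L2950 : W_49 (nat_lit 7) (nat_lit 0x400024001200090000000400000000000000000000000) (nat_lit 0x0) (nat_lit 0x100038003c0048000d00008001c000a0000000000000000000000) := Q_49 (nat_lit 175) (C_49 L2910 (C_49 L2894 (C_49 L2809 (C_49 L2722 N_49)))) (by decide +kernel)
theorem L2951 : W_49 (nat_lit 12) (nat_lit 0x400020001200090000000400000000000000000000000) (nat_lit 0x0) (nat_lit 0x80007000b8003f004f800dc014e009f003e0007000000000000000000) := Q_49 (nat_lit 158) (C_49 L2948 (C_49 L2922 (C_49 L2723 (C_49 L2864 (C_49 L2863 (C_49 L2734 (C_49 L2883 (C_49 L2950 N_49)))))))) (by decide +kernel)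
theorem L2952 : W_49 (nat_lit 13) (nat_lit 0x400020001200080000000400000000000000000000000) (nat_lit 0x0) (nat_lit 0xc0007001b8003f004f800dc017e009f003f8007000180008000000000) := Q_49 (nat_lit 124) (C_49 L2949 (C_49 L2769 (C_49 L2709 (C_49 L2951 (C_49 L2938 (C_49 L2927 (C_49 L2933 N_49))))))) (by decide +kernel)
theorem L2953 : W_49 (nat_lit 16) (nat_lit 0x400020001200080000000000000000000000000000000) (nat_lit 0x0) (nat_lit 0xc0007001b8003f004f800dc017e00df01ff803f000580008000000000) := Q_49 (nat_lit 94) (C_49 L2580 (C_49 L2591 (C_49 L2939 (C_49 L2952 N_49)))) (by decide +kernel)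
theorem L2954 : W_49 (nat_lit 2) (nat_lit 0xb0000d000480024001e00090000000000000000000000000000000) (nat_lit 0x0) (nat_lit 0x10000800040000000000000000000000000000000000000000000) := D_49 (nat_lit 191) (nat_lit 174) (nat_lit 208) (nat_lit 5) (nat_lit 5) (nat_lit 7) (nat_lit 5) (nat_lit 5) (nat_lit 8) (by decide +kernel)
theorem L2955 : W_49 (nat_lit 3) (nat_lit 0xb0000d000400024001e00090000000000000000000000000000000) (nat_lit 0x0) (nat_lit 0x100008000c0000000000020000000000000000000000000000000) := T_49 (nat_lit 175) (nat_lit 125) (nat_lit 6) (nat_lit 5) (nat_lit 11) L2954 (by decide +kernel)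
theorem L2956 : W_49 (nat_lit 4) (nat_lit 0x30000d000400024001e00090000000000000000000000000000000) (nat_lit 0x0) (nat_lit 0xc100008000c0000000000020000000000000000000000000000000) := T_49 (nat_lit 215) (nat_lit 214) (nat_lit 0) (nat_lit 11) (nat_lit 12) L2955 (by decide +kernel)
theorem L2957 : W_49 (nat_lit 5) (nat_lit 0x30000c000400024001e00090000000000000000000000000000000) (nat_lit 0x0) (nat_lit 0xc100038000c0000000000020000000000000000000000000000000) := T_49 (nat_lit 192) (nat_lit 193) (nat_lit 3) (nat_lit 5) (nat_lit 11) L2956 (by decide +kernel)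
theorem L2958 : W_49 (nat_lit 6) (nat_lit 0x20000c000400024001e00090000000000000000000000000000000) (nat_lit 0x0) (nat_lit 0x4000d100038000c0000000000020000000000000000000000000000000) := T_49 (nat_lit 212) (nat_lit 230) (nat_lit 7) (nat_lit 8) (nat_lit 9) L2957 (by decide +kernel)
theorem L2959 : W_49 (nat_lit 7) (nat_lit 0xc000400024001e00090000000000000000000000000000000) (nat_lit 0x0) (nat_lit 0x4000f100138000c0000000000020000000000000000000000000000000) := T_49 (nat_lit 213) (nat_lit 196) (nat_lit 7) (nat_lit 8) (nat_lit 8) L2958 (by decide +kernel)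
theorem L2960 : W_49 (nat_lit 8) (nat_lit 0xc000400024001e00080000000000000000000000000000000) (nat_lit 0x0) (nat_lit 0x4000f100138000c0000000000038000000000000000000000000000000) := T_49 (nat_lit 124) (nat_lit 123) (nat_lit 0) (nat_lit 8) (nat_lit 8) L2959 (by decide +kernel)
theorem L2961 : W_49 (nat_lit 9) (nat_lit 0xc000400020001e00080000000000000000000000000000000) (nat_lit 0x0) (nat_lit 0x4000f100138000c0006000000038000000000000000000000000000000) := T_49 (nat_lit 158) (nat_lit 157) (nat_lit 1) (nat_lit 8) (nat_lit 8) L2960 (by decide +kernel)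
theorem L2962 : W_49 (nat_lit 10) (nat_lit 0xc000400020001a00080000000000000000000000000000000) (nat_lit 0x0) (nat_lit 0x4000f100138000c0046000400038000000000000000000000000000000) := T_49 (nat_lit 142) (nat_lit 162) (nat_lit 3) (nat_lit 5) (nat_lit 8) L2961 (by decide +kernel)
theorem L2963 : W_49 (nat_lit 11) (nat_lit 0xc000400020001200080000000000000000000000000000000) (nat_lit 0x0) (nat_lit 0x4000f100138000c0046000c00078000000000000000000000000000000) := T_49 (nat_lit 143) (nat_lit 126) (nat_lit 4) (nat_lit 8) (nat_lit 11) L2962 (by decide +kernel)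
theorem L2964 : W_49 (nat_lit 12) (nat_lit 0x4000400020001200080000000000000000000000000000000) (nat_lit 0x0) (nat_lit 0x4000f9001b8000c0046000c00078000000000000000000000000000000) := T_49 (nat_lit 195) (nat_lit 211) (nat_lit 5) (nat_lit 8) (nat_lit 8) L2963 (by decide +kernel)
theorem L2965 : W_49 (nat_lit 13) (nat_lit 0x400020001200080000000000000000000000000000000) (nat_lit 0x0) (nat_lit 0x4000f9001f8002c0046000c00078000000000000000000000000000000) := T_49 (nat_lit 194) (nat_lit 177) (nat_lit 5) (nat_lit 8) (nat_lit 7) L2964 (by decide +kernel)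
theorem L2966 : W_49 (nat_lit 2) (nat_lit 0x4000400020001a00180000000000000000000000000000000) (nat_lit 0x0) (nat_lit 0x80008000000000000000040000000000000000000000000000000) := D_49 (nat_lit 195) (nat_lit 211) (nat_lit 126) (nat_lit 5) (nat_lit 8) (nat_lit 8) (nat_lit 4) (nat_lit 8) (nat_lit 11) (by decide +kernel)
theorem L2967 : W_49 (nat_lit 3) (nat_lit 0x4000400020001200180000000000000000000000000000000) (nat_lit 0x0) (nat_lit 0x80008000000000000c00040000000000000000000000000000000) := T_49 (nat_lit 143) (nat_lit 142) (nat_lit 2) (nat_lit 5) (nat_lit 8) L2966 (by decide +kernel)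
theorem L2968 : W_49 (nat_lit 4) (nat_lit 0x4000400020001200080000000000000000000000000000000) (nat_lit 0x0) (nat_lit 0x80008000000000000c00140008000000000000000000000000000) := T_49 (nat_lit 128) (nat_lit 111) (nat_lit 6) (nat_lit 8) (nat_lit 10) L2967 (by decide +kernel)
theorem L2969 : W_49 (nat_lit 5) (nat_lit 0x400020001200080000000000000000000000000000000) (nat_lit 0x0) (nat_lit 0x8000c000200000000c00140008000000000000000000000000000) := T_49 (nat_lit 194) (nat_lit 177) (nat_lit 5) (nat_lit 8) (nat_lit 7) L2968 (by decide +kernel)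
theorem L2970 : W_49 (nat_lit 2) (nat_lit 0x9000780024001200080000000000000000000000000000000) (nat_lit 0x0) (nat_lit 0x40002000000000000000010000000000000000000000000000000) := D_49 (nat_lit 193) (nat_lit 124) (nat_lit 210) (nat_lit 7) (nat_lit 5) (nat_lit 7) (nat_lit 7) (nat_lit 5) (nat_lit 8) (by decide +kernel)
theorem L2971 : W_49 (nat_lit 3) (nat_lit 0x9000780020001200080000000000000000000000000000000) (nat_lit 0x0) (nat_lit 0x40002000000006000000010000000000000000000000000000000) := T_49 (nat_lit 158) (nat_lit 157) (nat_lit 0) (nat_lit 8) (nat_lit 10) L2970 (by decide +kernel)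
theorem L2972 : W_49 (nat_lit 4) (nat_lit 0x1000780020001200080000000000000000000000000000000) (nat_lit 0x0) (nat_lit 0x4001a000000006000000010000000000000000000000000000000) := T_49 (nat_lit 195) (nat_lit 196) (nat_lit 3) (nat_lit 5) (nat_lit 10) L2971 (by decide +kernel)
theorem L2973 : W_49 (nat_lit 5) (nat_lit 0x780020001200080000000000000000000000000000000) (nat_lit 0x0) (nat_lit 0x4001b800000006000000010000000000000000000000000000000) := T_49 (nat_lit 192) (nat_lit 191) (nat_lit 1) (nat_lit 8) (nat_lit 10) L2972 (by decide +kernel)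
theorem L2974 : W_49 (nat_lit 6) (nat_lit 0x680020001200080000000000000000000000000000000) (nat_lit 0x0) (nat_lit 0x4001b800100046000000010000000000000000000000000000000) := T_49 (nat_lit 176) (nat_lit 162) (nat_lit 2) (nat_lit 5) (nat_lit 10) L2973 (by decide +kernel)
theorem L2975 : W_49 (nat_lit 7) (nat_lit 0x480020001200080000000000000000000000000000000) (nat_lit 0x0) (nat_lit 0x4001f800300046000000010000000000000000000000000000000) := T_49 (nat_lit 177) (nat_lit 194) (nat_lit 5) (nat_lit 8) (nat_lit 7) L2974 (by decide +kernel)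
theorem L2976 : W_49 (nat_lit 2) (nat_lit 0x1f000480020001200180000000000000000000000000000000) (nat_lit 0x0) (nat_lit 0x60000000000004000000000000000000000000000000000000000) := D_49 (nat_lit 210) (nat_lit 209) (nat_lit 158) (nat_lit 1) (nat_lit 9) (nat_lit 11) (nat_lit 7) (nat_lit 5) (nat_lit 8) (by decide +kernel)
theorem L2977 : W_49 (nat_lit 3) (nat_lit 0x1e000480020001200180000000000000000000000000000000) (nat_lit 0x0) (nat_lit 0x60001000040004000000000000000000000000000000000000000) := T_49 (nat_lit 192) (nat_lit 174) (nat_lit 0) (nat_lit 8) (nat_lit 11) L2976 (by decide +kernel)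
theorem L2978 : W_49 (nat_lit 4) (nat_lit 0x1c000480020001200180000000000000000000000000000000) (nat_lit 0x0) (nat_lit 0x60003000140004000000000000000000000000000000000000000) := T_49 (nat_lit 193) (nat_lit 176) (nat_lit 0) (nat_lit 9) (nat_lit 11) L2977 (by decide +kernel)
theorem L2979 : W_49 (nat_lit 5) (nat_lit 0xc000480020001200180000000000000000000000000000000) (nat_lit 0x0) (nat_lit 0x260013000140004000000000000000000000000000000000000000) := T_49 (nat_lit 196) (nat_lit 213) (nat_lit 7) (nat_lit 8) (nat_lit 8) L2978 (by decide +kernel)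
theorem L2980 : W_49 (nat_lit 6) (nat_lit 0x4000480020001200180000000000000000000000000000000) (nat_lit 0x0) (nat_lit 0x2e001b000140004000000000000000000000000000000000000000) := T_49 (nat_lit 195) (nat_lit 211) (nat_lit 5) (nat_lit 8) (nat_lit 8) L2979 (by decide +kernel)
theorem L2981 : W_49 (nat_lit 7) (nat_lit 0x480020001200180000000000000000000000000000000) (nat_lit 0x0) (nat_lit 0x2e001f000340004000000000000000000000000000000000000000) := T_49 (nat_lit 194) (nat_lit 177) (nat_lit 5) (nat_lit 8) (nat_lit 7) L2980 (by decide +kernel)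
theorem L2982 : W_49 (nat_lit 8) (nat_lit 0x480020001200080000000000000000000000000000000) (nat_lit 0x0) (nat_lit 0x2e001f000340004000000100008000000000000000000000000000) := T_49 (nat_lit 128) (nat_lit 111) (nat_lit 6) (nat_lit 8) (nat_lit 10) L2981 (by decide +kernel)
theorem L2983 : W_49 (nat_lit 2) (nat_lit 0x580024001200190000000000000000000000000000000) (nat_lit 0x0) (nat_lit 0x200042000000000000000000000000000000000000000) := D_49 (nat_lit 177) (nat_lit 157) (nat_lit 162) (nat_lit 0) (nat_lit 8) (nat_lit 10) (nat_lit 2) (nat_lit 5) (nat_lit 10) (by decide +kernel)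
theorem L2984 : W_49 (nat_lit 3) (nat_lit 0x480024001200190000000000000000000000000000000) (nat_lit 0x0) (nat_lit 0x2000300042000000000000000000000000000000000000000) := T_49 (nat_lit 176) (nat_lit 193) (nat_lit 7) (nat_lit 5) (nat_lit 7) L2983 (by decide +kernel)
theorem L2985 : W_49 (nat_lit 4) (nat_lit 0x480024001200090000000000000000000000000000000) (nat_lit 0x0) (nat_lit 0x2000300042000000100008000000000000000000000000000) := T_49 (nat_lit 128) (nat_lit 111) (nat_lit 6) (nat_lit 8) (nat_lit 10) L2984 (by decide +kernel)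
theorem L2986 : W_49 (nat_lit 2) (nat_lit 0x4800240012000f0000000000000000000000000000000) (nat_lit 0x0) (nat_lit 0x8000c00000000000000000000000000) := D_49 (nat_lit 106) (nat_lit 107) (nat_lit 123) (nat_lit 0) (nat_lit 8) (nat_lit 7) (nat_lit 4) (nat_lit 5) (nat_lit 10) (by decide +kernel)
theorem L2987 : W_49 (nat_lit 3) (nat_lit 0x4800240012000b0000000000000000000000000000000) (nat_lit 0x0) (nat_lit 0x100048000c00000000000000000000000000) := T_49 (nat_lit 126) (nat_lit 140) (nat_lit 1) (nat_lit 8) (nat_lit 7) L2986 (by decide +kernel)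
theorem L2988 : W_49 (nat_lit 4) (nat_lit 0x480024001200090000000000000000000000000000000) (nat_lit 0x0) (nat_lit 0x100068001c00000000000000000000000000) := T_49 (nat_lit 125) (nat_lit 108) (nat_lit 6) (nat_lit 5) (nat_lit 10) L2987 (by decide +kernel)
theorem L2989 : W_49 (nat_lit 5) (nat_lit 0x480024001200080000000000000000000000000000000) (nat_lit 0x0) (nat_lit 0x2000300042000100178009c00000000000000000000000000) := Q_49 (nat_lit 124) (C_49 L2985 (C_49 L2988 N_49)) (by decide +kernel)
theorem L2990 : W_49 (nat_lit 2) (nat_lit 0x580024001200090000000000000000000000000000000) (nat_lit 0x0) (nat_lit 0x200042000000000000000000000000000000000000000) := D_49 (nat_lit 177) (nat_lit 157) (nat_lit 162) (nat_lit 0) (nat_lit 8) (nat_lit 10) (nat_lit 2) (nat_lit 5) (nat_lit 10) (by decide +kernel)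
theorem L2991 : W_49 (nat_lit 3) (nat_lit 0x480024001200090000000000000000000000000000000) (nat_lit 0x0) (nat_lit 0x2000300042000000000000000000000000000000000000000) := T_49 (nat_lit 176) (nat_lit 193) (nat_lit 7) (nat_lit 5) (nat_lit 7) L2990 (by decide +kernel)
theorem L2992 : W_49 (nat_lit 2) (nat_lit 0x10004800240012001b0000000000000000000000000000000) (nat_lit 0x0) (nat_lit 0x10000800040000000000000000000000000000000000000000000) := D_49 (nat_lit 191) (nat_lit 208) (nat_lit 174) (nat_lit 5) (nat_lit 5) (nat_lit 8) (nat_lit 5) (nat_lit 5) (nat_lit 7) (by decide +kernel)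
theorem L2993 : W_49 (nat_lit 3) (nat_lit 0x4800240012001b0000000000000000000000000000000) (nat_lit 0x0) (nat_lit 0x10001800040000000400000000000000000000000000000000000) := T_49 (nat_lit 192) (nat_lit 142) (nat_lit 6) (nat_lit 5) (nat_lit 11) L2992 (by decide +kernel)
theorem L2994 : W_49 (nat_lit 4) (nat_lit 0x4800240012000b0000000000000000000000000000000) (nat_lit 0x0) (nat_lit 0x10001800040000000400100008000000000000000000000000000) := T_49 (nat_lit 128) (nat_lit 111) (nat_lit 6) (nat_lit 8) (nat_lit 10) L2993 (by decide +kernel)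
theorem L2995 : W_49 (nat_lit 5) (nat_lit 0x480024001200090000000000000000000000000000000) (nat_lit 0x0) (nat_lit 0x10001800040000000400120009000000000000000000000000000) := T_49 (nat_lit 125) (nat_lit 108) (nat_lit 6) (nat_lit 5) (nat_lit 10) L2994 (by decide +kernel)
theorem L2996 : W_49 (nat_lit 6) (nat_lit 0x480024001200080000000000000000000000000000000) (nat_lit 0x0) (nat_lit 0x10003800340042000400130009000000000000000000000000000) := Q_49 (nat_lit 124) (C_49 L2985 (C_49 L2991 (C_49 L2995 N_49))) (by decide +kernel)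
theorem L2997 : W_49 (nat_lit 5) (nat_lit 0x480024001200080000000000000000000000000000000) (nat_lit 0x0) (nat_lit 0x2000300042000100078001c00000000000000000000000000) := Q_49 (nat_lit 124) (C_49 L2991 (C_49 L2988 N_49)) (by decide +kernel)
theorem L2998 : W_49 (nat_lit 2) (nat_lit 0x3000480024001200190000000000000000000000000000000) (nat_lit 0x0) (nat_lit 0x100008000400000000000000000000000000) := D_49 (nat_lit 123) (nat_lit 140) (nat_lit 106) (nat_lit 4) (nat_lit 5) (nat_lit 11) (nat_lit 4) (nat_lit 5) (nat_lit 10) (by decide +kernel)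
theorem L2999 : W_49 (nat_lit 3) (nat_lit 0x3000480024001200180000000000000000000000000000000) (nat_lit 0x0) (nat_lit 0x100000000100018000400000000000000000000000000) := T_49 (nat_lit 124) (nat_lit 176) (nat_lit 7) (nat_lit 5) (nat_lit 7) L2998 (by decide +kernel)
theorem L3000 : W_49 (nat_lit 4) (nat_lit 0x1000480024001200180000000000000000000000000000000) (nat_lit 0x0) (nat_lit 0x40002000100000000100018000400000000000000000000000000) := T_49 (nat_lit 193) (nat_lit 210) (nat_lit 7) (nat_lit 5) (nat_lit 8) L2999 (by decide +kernel)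
theorem L3001 : W_49 (nat_lit 5) (nat_lit 0x1000480024001200080000000000000000000000000000000) (nat_lit 0x0) (nat_lit 0x40002000100000000100118008400000000000000000000000000) := T_49 (nat_lit 128) (nat_lit 111) (nat_lit 6) (nat_lit 8) (nat_lit 10) L3000 (by decide +kernel)
theorem L3002 : W_49 (nat_lit 2) (nat_lit 0x1800480024001200090000000000000000000000000000000) (nat_lit 0x0) (nat_lit 0x100008000400000000000000000000000000) := D_49 (nat_lit 123) (nat_lit 106) (nat_lit 140) (nat_lit 4) (nat_lit 5) (nat_lit 10) (nat_lit 4) (nat_lit 5) (nat_lit 11) (by decide +kernel)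
theorem L3003 : W_49 (nat_lit 3) (nat_lit 0x1800480024001200080000000000000000000000000000000) (nat_lit 0x0) (nat_lit 0x40000000100018000400000000000000000000000000) := T_49 (nat_lit 124) (nat_lit 174) (nat_lit 5) (nat_lit 5) (nat_lit 7) L3002 (by decide +kernel)
theorem L3004 : W_49 (nat_lit 4) (nat_lit 0x1000480024001200080000000000000000000000000000000) (nat_lit 0x0) (nat_lit 0x10000800040000000100018000400000000000000000000000000) := T_49 (nat_lit 191) (nat_lit 208) (nat_lit 5) (nat_lit 5) (nat_lit 8) L3003 (by decide +kernel)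
theorem L3005 : W_49 (nat_lit 4) (nat_lit 0x1000480024001200080000000000000000000000000000000) (nat_lit 0x0) (nat_lit 0x200030000800000008000400020000000000000000000000000000000) := T_49 (nat_lit 142) (nat_lit 125) (nat_lit 6) (nat_lit 5) (nat_lit 11) L2579 (by decide +kernel)
theorem L3006 : W_49 (nat_lit 6) (nat_lit 0x480024001200080000000000000000000000000000000) (nat_lit 0x0) (nat_lit 0x200070003800140008000500138008400000000000000000000000000) := Q_49 (nat_lit 192) (C_49 L3001 (C_49 L3004 (C_49 L3005 N_49))) (by decide +kernel)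
theorem L3007 : W_49 (nat_lit 2) (nat_lit 0x20003a00580024001300180000000000000000000000000000000) (nat_lit 0x0) (nat_lit 0x400000000000000008000400000000000000000000000000000000000) := D_49 (nat_lit 159) (nat_lit 142) (nat_lit 226) (nat_lit 6) (nat_lit 5) (nat_lit 12) (nat_lit 6) (nat_lit 5) (nat_lit 13) (by decide +kernel)
theorem L3008 : W_49 (nat_lit 3) (nat_lit 0x3a00580024001300180000000000000000000000000000000) (nat_lit 0x0) (nat_lit 0x40002000000000000a000400000000000000000000000000000000000) := T_49 (nat_lit 209) (nat_lit 157) (nat_lit 4) (nat_lit 5) (nat_lit 12) L3007 (by decide +kernel)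
theorem L3009 : W_49 (nat_lit 4) (nat_lit 0x3800580024001300180000000000000000000000000000000) (nat_lit 0x0) (nat_lit 0x40002000060000000a000400000000000000000000000000000000000) := T_49 (nat_lit 189) (nat_lit 190) (nat_lit 2) (nat_lit 2) (nat_lit 11) L3008 (by decide +kernel)
theorem L3010 : W_49 (nat_lit 5) (nat_lit 0x3800580024001200180000000000000000000000000000000) (nat_lit 0x0) (nat_lit 0x40002000060000000a000500008000000000000000000000000000000) := T_49 (nat_lit 140) (nat_lit 123) (nat_lit 4) (nat_lit 5) (nat_lit 11) L3009 (by decide +kernel)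
theorem L3011 : W_49 (nat_lit 6) (nat_lit 0x3800480024001200180000000000000000000000000000000) (nat_lit 0x0) (nat_lit 0x40002000060030000a000500008000000000000000000000000000000) := T_49 (nat_lit 176) (nat_lit 177) (nat_lit 1) (nat_lit 8) (nat_lit 10) L3010 (by decide +kernel)
theorem L3012 : W_49 (nat_lit 7) (nat_lit 0x3000480024001200180000000000000000000000000000000) (nat_lit 0x0) (nat_lit 0x400030000e0030000a000500008000000000000000000000000000000) := T_49 (nat_lit 191) (nat_lit 208) (nat_lit 5) (nat_lit 5) (nat_lit 8) L3011 (by decide +kernel)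
theorem L3013 : W_49 (nat_lit 8) (nat_lit 0x1000480024001200180000000000000000000000000000000) (nat_lit 0x0) (nat_lit 0x400070002e0030000a000500008000000000000000000000000000000) := T_49 (nat_lit 193) (nat_lit 210) (nat_lit 7) (nat_lit 5) (nat_lit 8) L3012 (by decide +kernel)
theorem L3014 : W_49 (nat_lit 9) (nat_lit 0x1000480024001200080000000000000000000000000000000) (nat_lit 0x0) (nat_lit 0x400070002e0030000a000500108008000000000000000000000000000) := T_49 (nat_lit 128) (nat_lit 111) (nat_lit 6) (nat_lit 8) (nat_lit 10) L3013 (by decide +kernel)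
theorem L3015 : W_49 (nat_lit 2) (nat_lit 0x3000480024001200190000000000000000000000000000000) (nat_lit 0x0) (nat_lit 0x10000800040000000000000000000000000000000000000000000) := D_49 (nat_lit 191) (nat_lit 174) (nat_lit 208) (nat_lit 5) (nat_lit 5) (nat_lit 7) (nat_lit 5) (nat_lit 5) (nat_lit 8) (by decide +kernel)
theorem L3016 : W_49 (nat_lit 3) (nat_lit 0x3000480024001200180000000000000000000000000000000) (nat_lit 0x0) (nat_lit 0x10000800140000000000010000000000000000000000000000000) := T_49 (nat_lit 124) (nat_lit 176) (nat_lit 7) (nat_lit 5) (nat_lit 7) L3015 (by decide +kernel)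
theorem L3017 : W_49 (nat_lit 4) (nat_lit 0x1000480024001200180000000000000000000000000000000) (nat_lit 0x0) (nat_lit 0x50002800140000000000010000000000000000000000000000000) := T_49 (nat_lit 193) (nat_lit 210) (nat_lit 7) (nat_lit 5) (nat_lit 8) L3016 (by decide +kernel)
theorem L3018 : W_49 (nat_lit 5) (nat_lit 0x1000480024001200080000000000000000000000000000000) (nat_lit 0x0) (nat_lit 0x50002800140000000000110008000000000000000000000000000) := T_49 (nat_lit 128) (nat_lit 111) (nat_lit 6) (nat_lit 8) (nat_lit 10) L3017 (by decide +kernel)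
theorem L3019 : W_49 (nat_lit 10) (nat_lit 0x480024001200080000000000000000000000000000000) (nat_lit 0x0) (nat_lit 0x400070003e0034000a000500118008400000000000000000000000000) := Q_49 (nat_lit 192) (C_49 L3004 (C_49 L3014 (C_49 L3018 (C_49 L3001 N_49)))) (by decide +kernel)
theorem L3020 : W_49 (nat_lit 2) (nat_lit 0x20003a00580024001300180000000000000000000000000000000) (nat_lit 0x0) (nat_lit 0x8000400000000000000008000000000000000000000000000000000000000) := D_49 (nat_lit 226) (nat_lit 159) (nat_lit 243) (nat_lit 6) (nat_lit 5) (nat_lit 13) (nat_lit 6) (nat_lit 5) (nat_lit 14) (by decide +kernel)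
theorem L3021 : W_49 (nat_lit 3) (nat_lit 0x3a00580024001300180000000000000000000000000000000) (nat_lit 0x0) (nat_lit 0x800040002000000000000a000000000000000000000000000000000000000) := T_49 (nat_lit 209) (nat_lit 157) (nat_lit 4) (nat_lit 5) (nat_lit 12) L3020 (by decide +kernel)
theorem L3022 : W_49 (nat_lit 4) (nat_lit 0x3800580024001300180000000000000000000000000000000) (nat_lit 0x0) (nat_lit 0x800040002000060000000a000000000000000000000000000000000000000) := T_49 (nat_lit 189) (nat_lit 190) (nat_lit 2) (nat_lit 2) (nat_lit 11) L3021 (by decide +kernel)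
theorem L3023 : W_49 (nat_lit 5) (nat_lit 0x3800580024001200180000000000000000000000000000000) (nat_lit 0x0) (nat_lit 0x800040002000060000000a000100008000000000000000000000000000000) := T_49 (nat_lit 140) (nat_lit 123) (nat_lit 4) (nat_lit 5) (nat_lit 11) L3022 (by decide +kernel)
theorem L3024 : W_49 (nat_lit 6) (nat_lit 0x3800480024001200180000000000000000000000000000000) (nat_lit 0x0) (nat_lit 0x800040002000060030000a000100008000000000000000000000000000000) := T_49 (nat_lit 176) (nat_lit 177) (nat_lit 1) (nat_lit 8) (nat_lit 10) L3023 (by decide +kernel)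
theorem L3025 : W_49 (nat_lit 7) (nat_lit 0x3000480024001200180000000000000000000000000000000) (nat_lit 0x0) (nat_lit 0x8000400030000e0030000a000100008000000000000000000000000000000) := T_49 (nat_lit 191) (nat_lit 208) (nat_lit 5) (nat_lit 5) (nat_lit 8) L3024 (by decide +kernel)
theorem L3026 : W_49 (nat_lit 8) (nat_lit 0x1000480024001200180000000000000000000000000000000) (nat_lit 0x0) (nat_lit 0x8000400070002e0030000a000100008000000000000000000000000000000) := T_49 (nat_lit 193) (nat_lit 210) (nat_lit 7) (nat_lit 5) (nat_lit 8) L3025 (by decide +kernel)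
theorem L3027 : W_49 (nat_lit 9) (nat_lit 0x1000480024001200080000000000000000000000000000000) (nat_lit 0x0) (nat_lit 0x8000400070002e0030000a000100108008000000000000000000000000000) := T_49 (nat_lit 128) (nat_lit 111) (nat_lit 6) (nat_lit 8) (nat_lit 10) L3026 (by decide +kernel)
theorem L3028 : W_49 (nat_lit 2) (nat_lit 0x20001000480024001300180000000000000000000000000000000) (nat_lit 0x0) (nat_lit 0x200010000800000000000000000000000000000000000000000000000) := D_49 (nat_lit 208) (nat_lit 191) (nat_lit 225) (nat_lit 5) (nat_lit 5) (nat_lit 8) (nat_lit 5) (nat_lit 5) (nat_lit 9) (by decide +kernel)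
theorem L3029 : W_49 (nat_lit 3) (nat_lit 0x1000480024001300180000000000000000000000000000000) (nat_lit 0x0) (nat_lit 0x200030000800000002000000000000000000000000000000000000000) := T_49 (nat_lit 209) (nat_lit 157) (nat_lit 4) (nat_lit 5) (nat_lit 12) L3028 (by decide +kernel)
theorem L3030 : W_49 (nat_lit 4) (nat_lit 0x1000480024001300080000000000000000000000000000000) (nat_lit 0x0) (nat_lit 0x200030000800000002000000100008000000000000000000000000000) := T_49 (nat_lit 128) (nat_lit 111) (nat_lit 6) (nat_lit 8) (nat_lit 10) L3029 (by decide +kernel)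
theorem L3031 : W_49 (nat_lit 5) (nat_lit 0x1000480024001200080000000000000000000000000000000) (nat_lit 0x0) (nat_lit 0x200030000800000002000100108008000000000000000000000000000) := T_49 (nat_lit 140) (nat_lit 123) (nat_lit 4) (nat_lit 5) (nat_lit 11) L3030 (by decide +kernel)
theorem L3032 : W_49 (nat_lit 4) (nat_lit 0x1000480024001200080000000000000000000000000000000) (nat_lit 0x0) (nat_lit 0x2000000000000a000500028000000000000000000000000000000) := T_49 (nat_lit 142) (nat_lit 125) (nat_lit 6) (nat_lit 5) (nat_lit 11) L2577 (by decide +kernel)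
theorem L3033 : W_49 (nat_lit 2) (nat_lit 0x8003c005a0024001700080000000000000000000000000000000) (nat_lit 0x0) (nat_lit 0x40003000000000000000000000000000000000000000) := D_49 (nat_lit 157) (nat_lit 174) (nat_lit 156) (nat_lit 5) (nat_lit 4) (nat_lit 8) (nat_lit 6) (nat_lit 3) (nat_lit 12) (by decide +kernel)
theorem L3034 : W_49 (nat_lit 3) (nat_lit 0x8003c00580024001700080000000000000000000000000000000) (nat_lit 0x0) (nat_lit 0x70003000000000000000000000000000000000000000) := T_49 (nat_lit 173) (nat_lit 172) (nat_lit 0) (nat_lit 6) (nat_lit 11) L3033 (by decide +kernel)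
theorem L3035 : W_49 (nat_lit 4) (nat_lit 0x3c00580024001700080000000000000000000000000000000) (nat_lit 0x0) (nat_lit 0xc000000070003000000000000000000000000000000000000000) := T_49 (nat_lit 207) (nat_lit 206) (nat_lit 1) (nat_lit 6) (nat_lit 11) L3034 (by decide +kernel)
theorem L3036 : W_49 (nat_lit 5) (nat_lit 0x1c00580024001700080000000000000000000000000000000) (nat_lit 0x0) (nat_lit 0x4c002000070003000000000000000000000000000000000000000) := T_49 (nat_lit 193) (nat_lit 210) (nat_lit 7) (nat_lit 5) (nat_lit 8) L3035 (by decide +kernel)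
theorem L3037 : W_49 (nat_lit 6) (nat_lit 0x1800580024001700080000000000000000000000000000000) (nat_lit 0x0) (nat_lit 0x4c002600070003000000000000000000000000000000000000000) := T_49 (nat_lit 190) (nat_lit 189) (nat_lit 2) (nat_lit 2) (nat_lit 11) L3036 (by decide +kernel)
theorem L3038 : W_49 (nat_lit 7) (nat_lit 0x1800580024001300080000000000000000000000000000000) (nat_lit 0x0) (nat_lit 0x4c002600070003000400020000000000000000000000000000000) := T_49 (nat_lit 142) (nat_lit 125) (nat_lit 6) (nat_lit 5) (nat_lit 11) L3037 (by decide +kernel)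
theorem L3039 : W_49 (nat_lit 8) (nat_lit 0x1800480024001300080000000000000000000000000000000) (nat_lit 0x0) (nat_lit 0x4c002600370003000400020000000000000000000000000000000) := T_49 (nat_lit 176) (nat_lit 177) (nat_lit 1) (nat_lit 8) (nat_lit 10) L3038 (by decide +kernel)
theorem L3040 : W_49 (nat_lit 9) (nat_lit 0x1000480024001300080000000000000000000000000000000) (nat_lit 0x0) (nat_lit 0x5c002e00370003000400020000000000000000000000000000000) := T_49 (nat_lit 191) (nat_lit 208) (nat_lit 5) (nat_lit 5) (nat_lit 8) L3039 (by decide +kernel)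
theorem L3041 : W_49 (nat_lit 10) (nat_lit 0x1000480024001200080000000000000000000000000000000) (nat_lit 0x0) (nat_lit 0x5c002e00370003000500028000000000000000000000000000000) := T_49 (nat_lit 140) (nat_lit 123) (nat_lit 4) (nat_lit 5) (nat_lit 11) L3040 (by decide +kernel)
theorem L3042 : W_49 (nat_lit 11) (nat_lit 0x480024001200080000000000000000000000000000000) (nat_lit 0x0) (nat_lit 0x800060007c003e0037000b000500128008000000000000000000000000000) := Q_49 (nat_lit 192) (C_49 L3027 (C_49 L3005 (C_49 L3031 (C_49 L3032 (C_49 L3041 N_49))))) (by decide +kernel)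
theorem L3043 : W_49 (nat_lit 6) (nat_lit 0x480024001200080000000000000000000000000000000) (nat_lit 0x0) (nat_lit 0x20003000180004000a000500138008400000000000000000000000000) := Q_49 (nat_lit 192) (C_49 L3031 (C_49 L3032 (C_49 L3005 (C_49 L3004 N_49)))) (by decide +kernel)
theorem L3044 : W_49 (nat_lit 12) (nat_lit 0x480020001200080000000000000000000000000000000) (nat_lit 0x0) (nat_lit 0x800060007c003e0037004f000500178009c00000000000000000000000000) := Q_49 (nat_lit 158) (C_49 L2989 (C_49 L2996 (C_49 L2997 (C_49 L3006 (C_49 L3019 (C_49 L3042 (C_49 L3043 N_49))))))) (by decide +kernel)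
theorem L3045 : W_49 (nat_lit 2) (nat_lit 0x4c00240012000b000c800000000000000000000000000) (nat_lit 0x0) (nat_lit 0x8000400020000000000000000000000) := D_49 (nat_lit 106) (nat_lit 89) (nat_lit 123) (nat_lit 4) (nat_lit 5) (nat_lit 9) (nat_lit 4) (nat_lit 5) (nat_lit 10) (by decide +kernel)
theorem L3046 : W_49 (nat_lit 3) (nat_lit 0x4c00240012000b000c000000000000000000000000000) (nat_lit 0x0) (nat_lit 0x2000000008000c00020000000000000000000000) := T_49 (nat_lit 107) (nat_lit 157) (nat_lit 5) (nat_lit 5) (nat_lit 6) L3045 (by decide +kernel)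
theorem L3047 : W_49 (nat_lit 4) (nat_lit 0x4800240012000b000c000000000000000000000000000) (nat_lit 0x0) (nat_lit 0x800040002000000008000c00020000000000000000000000) := T_49 (nat_lit 174) (nat_lit 191) (nat_lit 5) (nat_lit 5) (nat_lit 7) L3046 (by decide +kernel)
theorem L3048 : W_49 (nat_lit 5) (nat_lit 0x4800200012000b000c000000000000000000000000000) (nat_lit 0x0) (nat_lit 0x800040006000000008001c00020000000000000000000000) := T_49 (nat_lit 158) (nat_lit 108) (nat_lit 6) (nat_lit 5) (nat_lit 10) L3047 (by decide +kernel)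
theorem L3049 : W_49 (nat_lit 6) (nat_lit 0x4800200012000a000c000000000000000000000000000) (nat_lit 0x0) (nat_lit 0x800040006000000058001c00020000000000000000000000) := T_49 (nat_lit 124) (nat_lit 126) (nat_lit 2) (nat_lit 5) (nat_lit 7) L3048 (by decide +kernel)
theorem L3050 : W_49 (nat_lit 7) (nat_lit 0x4800200012000a0008000000000000000000000000000) (nat_lit 0x0) (nat_lit 0x800040006000000058005c00420000000000000000000000) := T_49 (nat_lit 110) (nat_lit 94) (nat_lit 6) (nat_lit 8) (nat_lit 9) L3049 (by decide +kernel)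
theorem L3051 : W_49 (nat_lit 8) (nat_lit 0x4800200012000a0000000000000000000000000000000) (nat_lit 0x0) (nat_lit 0x80004000600000015800dc00420000000000000000000000) := T_49 (nat_lit 111) (nat_lit 128) (nat_lit 6) (nat_lit 8) (nat_lit 10) L3050 (by decide +kernel)
theorem L3052 : W_49 (nat_lit 2) (nat_lit 0x4c00240012001b0000800000000000000000000000000) (nat_lit 0x0) (nat_lit 0x8000400020000000000000000000000) := D_49 (nat_lit 106) (nat_lit 89) (nat_lit 123) (nat_lit 4) (nat_lit 5) (nat_lit 9) (nat_lit 4) (nat_lit 5) (nat_lit 10) (by decide +kernel)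
theorem L3053 : W_49 (nat_lit 3) (nat_lit 0x4c00240012001b0000000000000000000000000000000) (nat_lit 0x0) (nat_lit 0x2000000008000c00020000000000000000000000) := T_49 (nat_lit 107) (nat_lit 157) (nat_lit 5) (nat_lit 5) (nat_lit 6) L3052 (by decide +kernel)
theorem L3054 : W_49 (nat_lit 4) (nat_lit 0x4800240012001b0000000000000000000000000000000) (nat_lit 0x0) (nat_lit 0x800040002000000008000c00020000000000000000000000) := T_49 (nat_lit 174) (nat_lit 191) (nat_lit 5) (nat_lit 5) (nat_lit 7) L3053 (by decide +kernel)
theorem L3055 : W_49 (nat_lit 5) (nat_lit 0x4800240012001a0000000000000000000000000000000) (nat_lit 0x0) (nat_lit 0x800040002000000018001c00020000000000000000000000) := T_49 (nat_lit 124) (nat_lit 108) (nat_lit 6) (nat_lit 5) (nat_lit 10) L3054 (by decide +kernel)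
theorem L3056 : W_49 (nat_lit 6) (nat_lit 0x4800240012000a0000000000000000000000000000000) (nat_lit 0x0) (nat_lit 0x800040002000000118009c00020000000000000000000000) := T_49 (nat_lit 128) (nat_lit 111) (nat_lit 6) (nat_lit 8) (nat_lit 10) L3055 (by decide +kernel)
theorem L3057 : W_49 (nat_lit 2) (nat_lit 0x4c00240012000b0000800000000000000000000000000) (nat_lit 0x0) (nat_lit 0x8000400020000000000000000000000) := D_49 (nat_lit 106) (nat_lit 89) (nat_lit 123) (nat_lit 4) (nat_lit 5) (nat_lit 9) (nat_lit 4) (nat_lit 5) (nat_lit 10) (by decide +kernel)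
theorem L3058 : W_49 (nat_lit 3) (nat_lit 0x4c00240012000b0000000000000000000000000000000) (nat_lit 0x0) (nat_lit 0x2000000008000c00020000000000000000000000) := T_49 (nat_lit 107) (nat_lit 157) (nat_lit 5) (nat_lit 5) (nat_lit 6) L3057 (by decide +kernel)
theorem L3059 : W_49 (nat_lit 4) (nat_lit 0x4800240012000b0000000000000000000000000000000) (nat_lit 0x0) (nat_lit 0x800040002000000008000c00020000000000000000000000) := T_49 (nat_lit 174) (nat_lit 191) (nat_lit 5) (nat_lit 5) (nat_lit 7) L3058 (by decide +kernel)
theorem L3060 : W_49 (nat_lit 5) (nat_lit 0x4800240012000a0000000000000000000000000000000) (nat_lit 0x0) (nat_lit 0x800040002000000018001c00020000000000000000000000) := T_49 (nat_lit 124) (nat_lit 108) (nat_lit 6) (nat_lit 5) (nat_lit 10) L3059 (by decide +kernel)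
theorem L3061 : W_49 (nat_lit 2) (nat_lit 0x400018004800240013001a0000000000000000000000000000000) (nat_lit 0x0) (nat_lit 0x800020000000000002000000000000000000000000000000000000000) := D_49 (nat_lit 209) (nat_lit 227) (nat_lit 157) (nat_lit 7) (nat_lit 5) (nat_lit 9) (nat_lit 4) (nat_lit 5) (nat_lit 12) (by decide +kernel)
theorem L3062 : W_49 (nat_lit 3) (nat_lit 0x400018004800240012001a0000000000000000000000000000000) (nat_lit 0x0) (nat_lit 0x800020000000000002000100008000000000000000000000000000000) := T_49 (nat_lit 140) (nat_lit 123) (nat_lit 4) (nat_lit 5) (nat_lit 11) L3061 (by decide +kernel)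
theorem L3063 : W_49 (nat_lit 4) (nat_lit 0x18004800240012001a0000000000000000000000000000000) (nat_lit 0x0) (nat_lit 0x800060002000000002000100008000000000000000000000000000000) := T_49 (nat_lit 210) (nat_lit 193) (nat_lit 7) (nat_lit 5) (nat_lit 8) L3062 (by decide +kernel)
theorem L3064 : W_49 (nat_lit 5) (nat_lit 0x10004800240012001a0000000000000000000000000000000) (nat_lit 0x0) (nat_lit 0x800070002800000002000100008000000000000000000000000000000) := T_49 (nat_lit 191) (nat_lit 208) (nat_lit 5) (nat_lit 5) (nat_lit 8) L3063 (by decide +kernel)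
theorem L3065 : W_49 (nat_lit 6) (nat_lit 0x4800240012001a0000000000000000000000000000000) (nat_lit 0x0) (nat_lit 0x800070003800000002000500008000000000000000000000000000000) := T_49 (nat_lit 192) (nat_lit 142) (nat_lit 6) (nat_lit 5) (nat_lit 11) L3064 (by decide +kernel)
theorem L3066 : W_49 (nat_lit 7) (nat_lit 0x4800240012000a0000000000000000000000000000000) (nat_lit 0x0) (nat_lit 0x800070003800000002000500108008000000000000000000000000000) := T_49 (nat_lit 128) (nat_lit 111) (nat_lit 6) (nat_lit 8) (nat_lit 10) L3065 (by decide +kernel)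
theorem L3067 : W_49 (nat_lit 2) (nat_lit 0x18004800240012000a0000000000000000000000000000000) (nat_lit 0x0) (nat_lit 0x40000000000010001000000000000000000000000000) := D_49 (nat_lit 124) (nat_lit 174) (nat_lit 108) (nat_lit 5) (nat_lit 5) (nat_lit 7) (nat_lit 6) (nat_lit 5) (nat_lit 10) (by decide +kernel)
theorem L3068 : W_49 (nat_lit 3) (nat_lit 0x10004800240012000a0000000000000000000000000000000) (nat_lit 0x0) (nat_lit 0x10000800040000000000010001000000000000000000000000000) := T_49 (nat_lit 191) (nat_lit 208) (nat_lit 5) (nat_lit 5) (nat_lit 8) L3067 (by decide +kernel)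
theorem L3069 : W_49 (nat_lit 4) (nat_lit 0x4800240012000a0000000000000000000000000000000) (nat_lit 0x0) (nat_lit 0x10001800040000000400010001000000000000000000000000000) := T_49 (nat_lit 192) (nat_lit 142) (nat_lit 6) (nat_lit 5) (nat_lit 11) L3068 (by decide +kernel)
theorem L3070 : W_49 (nat_lit 2) (nat_lit 0x30004800240013000a0000000000000000000000000000000) (nat_lit 0x0) (nat_lit 0x100000000000010001000000000000000000000000000) := D_49 (nat_lit 124) (nat_lit 176) (nat_lit 108) (nat_lit 7) (nat_lit 5) (nat_lit 7) (nat_lit 6) (nat_lit 5) (nat_lit 10) (by decide +kernel)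
theorem L3071 : W_49 (nat_lit 3) (nat_lit 0x10004800240013000a0000000000000000000000000000000) (nat_lit 0x0) (nat_lit 0x40002000100000000000010001000000000000000000000000000) := T_49 (nat_lit 193) (nat_lit 210) (nat_lit 7) (nat_lit 5) (nat_lit 8) L3070 (by decide +kernel)
theorem L3072 : W_49 (nat_lit 4) (nat_lit 0x10004800240012000a0000000000000000000000000000000) (nat_lit 0x0) (nat_lit 0x40002000100000000100018001000000000000000000000000000) := T_49 (nat_lit 140) (nat_lit 123) (nat_lit 4) (nat_lit 5) (nat_lit 11) L3071 (by decide +kernel)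
theorem L3073 : W_49 (nat_lit 5) (nat_lit 0x4800240012000a0000000000000000000000000000000) (nat_lit 0x0) (nat_lit 0x40003000100000000500018001000000000000000000000000000) := T_49 (nat_lit 192) (nat_lit 142) (nat_lit 6) (nat_lit 5) (nat_lit 11) L3072 (by decide +kernel)
theorem L3074 : W_49 (nat_lit 8) (nat_lit 0x4800200012000a0000000000000000000000000000000) (nat_lit 0x0) (nat_lit 0x800070003800140006000500118009c00020000000000000000000000) := Q_49 (nat_lit 158) (C_49 L3056 (C_49 L3060 (C_49 L3066 (C_49 L3069 (C_49 L3073 N_49))))) (by decide +kernel)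
theorem L3075 : W_49 (nat_lit 2) (nat_lit 0x400018004800240013000a0000000000000000000000000000000) (nat_lit 0x0) (nat_lit 0x800020000000000002000000000000000000000000000000000000000) := D_49 (nat_lit 209) (nat_lit 227) (nat_lit 157) (nat_lit 7) (nat_lit 5) (nat_lit 9) (nat_lit 4) (nat_lit 5) (nat_lit 12) (by decide +kernel)
theorem L3076 : W_49 (nat_lit 3) (nat_lit 0x400018004800240012000a0000000000000000000000000000000) (nat_lit 0x0) (nat_lit 0x800020000000000002000100008000000000000000000000000000000) := T_49 (nat_lit 140) (nat_lit 123) (nat_lit 4) (nat_lit 5) (nat_lit 11) L3075 (by decide +kernel)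
theorem L3077 : W_49 (nat_lit 4) (nat_lit 0x18004800240012000a0000000000000000000000000000000) (nat_lit 0x0) (nat_lit 0x800060002000000002000100008000000000000000000000000000000) := T_49 (nat_lit 210) (nat_lit 193) (nat_lit 7) (nat_lit 5) (nat_lit 8) L3076 (by decide +kernel)
theorem L3078 : W_49 (nat_lit 5) (nat_lit 0x10004800240012000a0000000000000000000000000000000) (nat_lit 0x0) (nat_lit 0x800070002800000002000100008000000000000000000000000000000) := T_49 (nat_lit 191) (nat_lit 208) (nat_lit 5) (nat_lit 5) (nat_lit 8) L3077 (by decide +kernel)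
theorem L3079 : W_49 (nat_lit 6) (nat_lit 0x4800240012000a0000000000000000000000000000000) (nat_lit 0x0) (nat_lit 0x800070003800000002000500008000000000000000000000000000000) := T_49 (nat_lit 192) (nat_lit 142) (nat_lit 6) (nat_lit 5) (nat_lit 11) L3078 (by decide +kernel)
theorem L3080 : W_49 (nat_lit 7) (nat_lit 0x4800200012000a0000000000000000000000000000000) (nat_lit 0x0) (nat_lit 0x800070003800140006000500018001c00020000000000000000000000) := Q_49 (nat_lit 158) (C_49 L3060 (C_49 L3073 (C_49 L3079 (C_49 L3069 N_49)))) (by decide +kernel)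
theorem L3081 : W_49 (nat_lit 2) (nat_lit 0x4800240016001a0000000000000000000000000000000) (nat_lit 0x0) (nat_lit 0x8000000000001000080000000000000000000000) := D_49 (nat_lit 108) (nat_lit 159) (nat_lit 91) (nat_lit 5) (nat_lit 6) (nat_lit 6) (nat_lit 5) (nat_lit 6) (nat_lit 5) (by decide +kernel)
theorem L3082 : W_49 (nat_lit 3) (nat_lit 0x4800200016001a0000000000000000000000000000000) (nat_lit 0x0) (nat_lit 0x100000000c000000000001000080000000000000000000000) := T_49 (nat_lit 158) (nat_lit 192) (nat_lit 6) (nat_lit 5) (nat_lit 11) L3081 (by decide +kernel)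
theorem L3083 : W_49 (nat_lit 4) (nat_lit 0x4800200012001a0000000000000000000000000000000) (nat_lit 0x0) (nat_lit 0x100000000c000400040001000080000000000000000000000) := T_49 (nat_lit 142) (nat_lit 126) (nat_lit 1) (nat_lit 9) (nat_lit 7) L3082 (by decide +kernel)
theorem L3084 : W_49 (nat_lit 5) (nat_lit 0x4800200012000a0000000000000000000000000000000) (nat_lit 0x0) (nat_lit 0x100000000c000400140009000080000000000000000000000) := T_49 (nat_lit 128) (nat_lit 111) (nat_lit 6) (nat_lit 8) (nat_lit 10) L3083 (by decide +kernel)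
theorem L3085 : W_49 (nat_lit 2) (nat_lit 0x4800200012001f0000000000000000000000000000000) (nat_lit 0x0) (nat_lit 0x1c00000000000000000000000000) := D_49 (nat_lit 107) (nat_lit 106) (nat_lit 108) (nat_lit 0) (nat_lit 8) (nat_lit 7) (nat_lit 0) (nat_lit 9) (nat_lit 7) (by decide +kernel)
theorem L3086 : W_49 (nat_lit 3) (nat_lit 0x4800200012001e0000000000000000000000000000000) (nat_lit 0x0) (nat_lit 0x100010001c00000000000000000000000000) := T_49 (nat_lit 124) (nat_lit 140) (nat_lit 1) (nat_lit 8) (nat_lit 7) L3085 (by decide +kernel)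
theorem L3087 : W_49 (nat_lit 4) (nat_lit 0x4800200012001a0000000000000000000000000000000) (nat_lit 0x0) (nat_lit 0x500050001c00000000000000000000000000) := T_49 (nat_lit 126) (nat_lit 142) (nat_lit 1) (nat_lit 9) (nat_lit 7) L3086 (by decide +kernel)
theorem L3088 : W_49 (nat_lit 5) (nat_lit 0x4800200012000a0000000000000000000000000000000) (nat_lit 0x0) (nat_lit 0x500150009c00000000000000000000000000) := T_49 (nat_lit 128) (nat_lit 111) (nat_lit 6) (nat_lit 8) (nat_lit 10) L3087 (by decide +kernel)
theorem L3089 : W_49 (nat_lit 2) (nat_lit 0x4800200012001f0000400000000000000000000000000) (nat_lit 0x0) (nat_lit 0x4000000008000200000000000000000000000000) := D_49 (nat_lit 123) (nat_lit 105) (nat_lit 158) (nat_lit 0) (nat_lit 7) (nat_lit 7) (nat_lit 4) (nat_lit 5) (nat_lit 10) (by decide +kernel)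
theorem L3090 : W_49 (nat_lit 3) (nat_lit 0x4800200012001f0000000000000000000000000000000) (nat_lit 0x0) (nat_lit 0x4000000008000e00000000000000000000000000) := T_49 (nat_lit 106) (nat_lit 107) (nat_lit 0) (nat_lit 8) (nat_lit 7) L3089 (by decide +kernel)
theorem L3091 : W_49 (nat_lit 4) (nat_lit 0x4800200012001e0000000000000000000000000000000) (nat_lit 0x0) (nat_lit 0x4000100018000e00000000000000000000000000) := T_49 (nat_lit 124) (nat_lit 140) (nat_lit 1) (nat_lit 8) (nat_lit 7) L3090 (by decide +kernel)
theorem L3092 : W_49 (nat_lit 5) (nat_lit 0x4800200012001a0000000000000000000000000000000) (nat_lit 0x0) (nat_lit 0x4000500058000e00000000000000000000000000) := T_49 (nat_lit 126) (nat_lit 142) (nat_lit 1) (nat_lit 9) (nat_lit 7) L3091 (by decide +kernel)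
theorem L3093 : W_49 (nat_lit 6) (nat_lit 0x4800200012000a0000000000000000000000000000000) (nat_lit 0x0) (nat_lit 0x4000500158008e00000000000000000000000000) := T_49 (nat_lit 128) (nat_lit 111) (nat_lit 6) (nat_lit 8) (nat_lit 10) L3092 (by decide +kernel)
theorem L3094 : W_49 (nat_lit 9) (nat_lit 0x480020001200080000000000000000000000000000000) (nat_lit 0x0) (nat_lit 0x80007000380014000e00050017800de004a0000000000000000000000) := Q_49 (nat_lit 125) (C_49 L3051 (C_49 L3074 (C_49 L3080 (C_49 L3084 (C_49 L3088 (C_49 L3093 N_49)))))) (by decide +kernel)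
theorem L3095 : W_49 (nat_lit 2) (nat_lit 0x30000d800480024001200190000000000000000000000000000000) (nat_lit 0x0) (nat_lit 0x100008000400000000000000000000000000) := D_49 (nat_lit 123) (nat_lit 106) (nat_lit 140) (nat_lit 4) (nat_lit 5) (nat_lit 10) (nat_lit 4) (nat_lit 5) (nat_lit 11) (by decide +kernel)
theorem L3096 : W_49 (nat_lit 3) (nat_lit 0x30000d800480024001200180000000000000000000000000000000) (nat_lit 0x0) (nat_lit 0x40000000100018000400000000000000000000000000) := T_49 (nat_lit 124) (nat_lit 174) (nat_lit 5) (nat_lit 5) (nat_lit 7) L3095 (by decide +kernel)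
theorem L3097 : W_49 (nat_lit 4) (nat_lit 0x30000d000480024001200180000000000000000000000000000000) (nat_lit 0x0) (nat_lit 0x10000800040000000100018000400000000000000000000000000) := T_49 (nat_lit 191) (nat_lit 208) (nat_lit 5) (nat_lit 5) (nat_lit 8) L3096 (by decide +kernel)
theorem L3098 : W_49 (nat_lit 5) (nat_lit 0x30000c000480024001200180000000000000000000000000000000) (nat_lit 0x0) (nat_lit 0x10003800040000000100018000400000000000000000000000000) := T_49 (nat_lit 192) (nat_lit 193) (nat_lit 3) (nat_lit 5) (nat_lit 11) L3097 (by decide +kernel)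
theorem L3099 : W_49 (nat_lit 6) (nat_lit 0x20000c000480024001200180000000000000000000000000000000) (nat_lit 0x0) (nat_lit 0x4000110003800040000000100018000400000000000000000000000000) := T_49 (nat_lit 212) (nat_lit 230) (nat_lit 7) (nat_lit 8) (nat_lit 9) L3098 (by decide +kernel)
theorem L3100 : W_49 (nat_lit 7) (nat_lit 0xc000480024001200180000000000000000000000000000000) (nat_lit 0x0) (nat_lit 0x4000310013800040000000100018000400000000000000000000000000) := T_49 (nat_lit 213) (nat_lit 196) (nat_lit 7) (nat_lit 8) (nat_lit 8) L3099 (by decide +kernel)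
theorem L3101 : W_49 (nat_lit 8) (nat_lit 0x4000480024001200180000000000000000000000000000000) (nat_lit 0x0) (nat_lit 0x400039001b800040000000100018000400000000000000000000000000) := T_49 (nat_lit 195) (nat_lit 211) (nat_lit 5) (nat_lit 8) (nat_lit 8) L3100 (by decide +kernel)
theorem L3102 : W_49 (nat_lit 9) (nat_lit 0x480024001200180000000000000000000000000000000) (nat_lit 0x0) (nat_lit 0x400039001f800240000000100018000400000000000000000000000000) := T_49 (nat_lit 194) (nat_lit 177) (nat_lit 5) (nat_lit 8) (nat_lit 7) L3101 (by decide +kernel)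
theorem L3103 : W_49 (nat_lit 10) (nat_lit 0x480024001200080000000000000000000000000000000) (nat_lit 0x0) (nat_lit 0x400039001f800240000000100118008400000000000000000000000000) := T_49 (nat_lit 128) (nat_lit 111) (nat_lit 6) (nat_lit 8) (nat_lit 10) L3102 (by decide +kernel)
theorem L3104 : W_49 (nat_lit 2) (nat_lit 0x30000d800480024001600090000000000000000000000000000000) (nat_lit 0x0) (nat_lit 0x100008000400000000000000000000000000) := D_49 (nat_lit 123) (nat_lit 106) (nat_lit 140) (nat_lit 4) (nat_lit 5) (nat_lit 10) (nat_lit 4) (nat_lit 5) (nat_lit 11) (by decide +kernel)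
theorem L3105 : W_49 (nat_lit 3) (nat_lit 0x30000d800480024001600080000000000000000000000000000000) (nat_lit 0x0) (nat_lit 0x40000000100018000400000000000000000000000000) := T_49 (nat_lit 124) (nat_lit 174) (nat_lit 5) (nat_lit 5) (nat_lit 7) L3104 (by decide +kernel)
theorem L3106 : W_49 (nat_lit 4) (nat_lit 0x30000d000480024001600080000000000000000000000000000000) (nat_lit 0x0) (nat_lit 0x10000800040000000100018000400000000000000000000000000) := T_49 (nat_lit 191) (nat_lit 208) (nat_lit 5) (nat_lit 5) (nat_lit 8) L3105 (by decide +kernel)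
theorem L3107 : W_49 (nat_lit 5) (nat_lit 0x30000d000480024001200080000000000000000000000000000000) (nat_lit 0x0) (nat_lit 0x10000800040000000500038000400000000000000000000000000) := T_49 (nat_lit 142) (nat_lit 125) (nat_lit 6) (nat_lit 5) (nat_lit 11) L3106 (by decide +kernel)
theorem L3108 : W_49 (nat_lit 6) (nat_lit 0x30000c000480024001200080000000000000000000000000000000) (nat_lit 0x0) (nat_lit 0x10003800040000000500038000400000000000000000000000000) := T_49 (nat_lit 192) (nat_lit 193) (nat_lit 3) (nat_lit 5) (nat_lit 11) L3107 (by decide +kernel)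
theorem L3109 : W_49 (nat_lit 7) (nat_lit 0x20000c000480024001200080000000000000000000000000000000) (nat_lit 0x0) (nat_lit 0x4000110003800040000000500038000400000000000000000000000000) := T_49 (nat_lit 212) (nat_lit 230) (nat_lit 7) (nat_lit 8) (nat_lit 9) L3108 (by decide +kernel)
theorem L3110 : W_49 (nat_lit 8) (nat_lit 0xc000480024001200080000000000000000000000000000000) (nat_lit 0x0) (nat_lit 0x4000310013800040000000500038000400000000000000000000000000) := T_49 (nat_lit 213) (nat_lit 196) (nat_lit 7) (nat_lit 8) (nat_lit 8) L3109 (by decide +kernel)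
theorem L3111 : W_49 (nat_lit 9) (nat_lit 0x4000480024001200080000000000000000000000000000000) (nat_lit 0x0) (nat_lit 0x400039001b800040000000500038000400000000000000000000000000) := T_49 (nat_lit 195) (nat_lit 211) (nat_lit 5) (nat_lit 8) (nat_lit 8) L3110 (by decide +kernel)
theorem L3112 : W_49 (nat_lit 10) (nat_lit 0x480024001200080000000000000000000000000000000) (nat_lit 0x0) (nat_lit 0x400039001f800240000000500038000400000000000000000000000000) := T_49 (nat_lit 194) (nat_lit 177) (nat_lit 5) (nat_lit 8) (nat_lit 7) L3111 (by decide +kernel)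
theorem L3113 : W_49 (nat_lit 2) (nat_lit 0x32000d000480024001600180000000000000000000000000000000) (nat_lit 0x0) (nat_lit 0x200010000800000000000000000000000000000000000000000000000) := D_49 (nat_lit 208) (nat_lit 225) (nat_lit 191) (nat_lit 5) (nat_lit 5) (nat_lit 9) (nat_lit 5) (nat_lit 5) (nat_lit 8) (by decide +kernel)
theorem L3114 : W_49 (nat_lit 3) (nat_lit 0x30000d000480024001600180000000000000000000000000000000) (nat_lit 0x0) (nat_lit 0x200030000800000008000000000000000000000000000000000000000) := T_49 (nat_lit 209) (nat_lit 159) (nat_lit 6) (nat_lit 5) (nat_lit 12) L3113 (by decide +kernel)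
theorem L3115 : W_49 (nat_lit 4) (nat_lit 0x30000d000480024001200180000000000000000000000000000000) (nat_lit 0x0) (nat_lit 0x200030000800000008000400020000000000000000000000000000000) := T_49 (nat_lit 142) (nat_lit 125) (nat_lit 6) (nat_lit 5) (nat_lit 11) L3114 (by decide +kernel)
theorem L3116 : W_49 (nat_lit 5) (nat_lit 0x30000c000480024001200180000000000000000000000000000000) (nat_lit 0x0) (nat_lit 0x200030003800000008000400020000000000000000000000000000000) := T_49 (nat_lit 192) (nat_lit 193) (nat_lit 3) (nat_lit 5) (nat_lit 11) L3115 (by decide +kernel)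
theorem L3117 : W_49 (nat_lit 6) (nat_lit 0x20000c000480024001200180000000000000000000000000000000) (nat_lit 0x0) (nat_lit 0x4200130003800000008000400020000000000000000000000000000000) := T_49 (nat_lit 212) (nat_lit 230) (nat_lit 7) (nat_lit 8) (nat_lit 9) L3116 (by decide +kernel)
theorem L3118 : W_49 (nat_lit 7) (nat_lit 0xc000480024001200180000000000000000000000000000000) (nat_lit 0x0) (nat_lit 0x4200330013800000008000400020000000000000000000000000000000) := T_49 (nat_lit 213) (nat_lit 196) (nat_lit 7) (nat_lit 8) (nat_lit 8) L3117 (by decide +kernel)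
theorem L3119 : W_49 (nat_lit 8) (nat_lit 0x4000480024001200180000000000000000000000000000000) (nat_lit 0x0) (nat_lit 0x42003b001b800000008000400020000000000000000000000000000000) := T_49 (nat_lit 195) (nat_lit 211) (nat_lit 5) (nat_lit 8) (nat_lit 8) L3118 (by decide +kernel)
theorem L3120 : W_49 (nat_lit 9) (nat_lit 0x480024001200180000000000000000000000000000000) (nat_lit 0x0) (nat_lit 0x42003b001f800200008000400020000000000000000000000000000000) := T_49 (nat_lit 194) (nat_lit 177) (nat_lit 5) (nat_lit 8) (nat_lit 7) L3119 (by decide +kernel)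
theorem L3121 : W_49 (nat_lit 10) (nat_lit 0x480024001200080000000000000000000000000000000) (nat_lit 0x0) (nat_lit 0x42003b001f800200008000400120008000000000000000000000000000) := T_49 (nat_lit 128) (nat_lit 111) (nat_lit 6) (nat_lit 8) (nat_lit 10) L3120 (by decide +kernel)
theorem L3122 : W_49 (nat_lit 2) (nat_lit 0x6c00240012000b0000800000000000000000000000000) (nat_lit 0x0) (nat_lit 0x8000400020000000000000000000000) := D_49 (nat_lit 106) (nat_lit 89) (nat_lit 123) (nat_lit 4) (nat_lit 5) (nat_lit 9) (nat_lit 4) (nat_lit 5) (nat_lit 10) (by decide +kernel)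
theorem L3123 : W_49 (nat_lit 3) (nat_lit 0x6c00240012000b0000000000000000000000000000000) (nat_lit 0x0) (nat_lit 0x2000000008000c00020000000000000000000000) := T_49 (nat_lit 107) (nat_lit 157) (nat_lit 5) (nat_lit 5) (nat_lit 6) L3122 (by decide +kernel)
theorem L3124 : W_49 (nat_lit 4) (nat_lit 0x6800240012000b0000000000000000000000000000000) (nat_lit 0x0) (nat_lit 0x800040002000000008000c00020000000000000000000000) := T_49 (nat_lit 174) (nat_lit 191) (nat_lit 5) (nat_lit 5) (nat_lit 7) L3123 (by decide +kernel)
theorem L3125 : W_49 (nat_lit 5) (nat_lit 0x680024001200090000000000000000000000000000000) (nat_lit 0x0) (nat_lit 0x800040002000000028001c00020000000000000000000000) := T_49 (nat_lit 125) (nat_lit 108) (nat_lit 6) (nat_lit 5) (nat_lit 10) L3124 (by decide +kernel)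
theorem L3126 : W_49 (nat_lit 6) (nat_lit 0x480024001200090000000000000000000000000000000) (nat_lit 0x0) (nat_lit 0x4800240002000000028001c00020000000000000000000000) := T_49 (nat_lit 177) (nat_lit 194) (nat_lit 5) (nat_lit 8) (nat_lit 7) L3125 (by decide +kernel)
theorem L3127 : W_49 (nat_lit 2) (nat_lit 0x6c00240012001980008000c0002000000000000000000) (nat_lit 0x0) (nat_lit 0x20001000080000000000000) := D_49 (nat_lit 72) (nat_lit 55) (nat_lit 89) (nat_lit 4) (nat_lit 5) (nat_lit 7) (nat_lit 4) (nat_lit 5) (nat_lit 8) (by decide +kernel)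
theorem L3128 : W_49 (nat_lit 3) (nat_lit 0x6c00240012001980008000c0000000000000000000000) (nat_lit 0x0) (nat_lit 0x100000000000020003000080000000000000) := T_49 (nat_lit 73) (nat_lit 140) (nat_lit 5) (nat_lit 5) (nat_lit 4) L3127 (by decide +kernel)
theorem L3129 : W_49 (nat_lit 4) (nat_lit 0x6c0024001200198000800080000000000000000000000) (nat_lit 0x0) (nat_lit 0x100000000000060007000080000000000000) := T_49 (nat_lit 90) (nat_lit 74) (nat_lit 6) (nat_lit 5) (nat_lit 8) L3128 (by decide +kernel)
theorem L3130 : W_49 (nat_lit 5) (nat_lit 0x6c0024001200198000800000000000000000000000000) (nat_lit 0x0) (nat_lit 0x1000000010000e0007000080000000000000) := T_49 (nat_lit 91) (nat_lit 108) (nat_lit 6) (nat_lit 5) (nat_lit 9) L3129 (by decide +kernel)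
theorem L3131 : W_49 (nat_lit 6) (nat_lit 0x6c0024001200098000800000000000000000000000000) (nat_lit 0x0) (nat_lit 0x1001000090000e0007000080000000000000) := T_49 (nat_lit 128) (nat_lit 111) (nat_lit 6) (nat_lit 8) (nat_lit 10) L3130 (by decide +kernel)
theorem L3132 : W_49 (nat_lit 7) (nat_lit 0x6c0024001200098000000000000000000000000000000) (nat_lit 0x0) (nat_lit 0x20001001000098000e0007000080000000000000) := T_49 (nat_lit 107) (nat_lit 157) (nat_lit 5) (nat_lit 5) (nat_lit 6) L3131 (by decide +kernel)
theorem L3133 : W_49 (nat_lit 8) (nat_lit 0x680024001200098000000000000000000000000000000) (nat_lit 0x0) (nat_lit 0x8000400020001001000098000e0007000080000000000000) := T_49 (nat_lit 174) (nat_lit 191) (nat_lit 5) (nat_lit 5) (nat_lit 7) L3132 (by decide +kernel)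
theorem L3134 : W_49 (nat_lit 9) (nat_lit 0x480024001200098000000000000000000000000000000) (nat_lit 0x0) (nat_lit 0x48002400020001001000098000e0007000080000000000000) := T_49 (nat_lit 177) (nat_lit 194) (nat_lit 5) (nat_lit 8) (nat_lit 7) L3133 (by decide +kernel)
theorem L3135 : W_49 (nat_lit 10) (nat_lit 0x480024001200090000000000000000000000000000000) (nat_lit 0x0) (nat_lit 0x4800240002000100108009c000e0007000080000000000000) := T_49 (nat_lit 123) (nat_lit 106) (nat_lit 4) (nat_lit 5) (nat_lit 10) L3134 (by decide +kernel)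
theorem L3136 : W_49 (nat_lit 2) (nat_lit 0x4800240012001b0000000000000000000000000000000) (nat_lit 0x0) (nat_lit 0x500040000000000000000000000000000000) := D_49 (nat_lit 126) (nat_lit 142) (nat_lit 140) (nat_lit 1) (nat_lit 9) (nat_lit 7) (nat_lit 1) (nat_lit 8) (nat_lit 7) (by decide +kernel)
theorem L3137 : W_49 (nat_lit 3) (nat_lit 0x480024001200190000000000000000000000000000000) (nat_lit 0x0) (nat_lit 0x500060001000000000000000000000000000) := T_49 (nat_lit 125) (nat_lit 108) (nat_lit 6) (nat_lit 5) (nat_lit 10) L3136 (by decide +kernel)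
theorem L3138 : W_49 (nat_lit 4) (nat_lit 0x480024001200090000000000000000000000000000000) (nat_lit 0x0) (nat_lit 0x500160009000000000000000000000000000) := T_49 (nat_lit 128) (nat_lit 111) (nat_lit 6) (nat_lit 8) (nat_lit 10) L3137 (by decide +kernel)
theorem L3139 : W_49 (nat_lit 2) (nat_lit 0x480024001200190000c00000000000000000000000000) (nat_lit 0x0) (nat_lit 0x800040002000000000000000000000000000000000000000) := D_49 (nat_lit 174) (nat_lit 191) (nat_lit 157) (nat_lit 5) (nat_lit 5) (nat_lit 7) (nat_lit 5) (nat_lit 5) (nat_lit 6) (by decide +kernel)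
theorem L3140 : W_49 (nat_lit 3) (nat_lit 0x480024001200190000400000000000000000000000000) (nat_lit 0x0) (nat_lit 0x800040002000000000000800020000000000000000000000) := T_49 (nat_lit 107) (nat_lit 89) (nat_lit 4) (nat_lit 5) (nat_lit 9) L3139 (by decide +kernel)
theorem L3141 : W_49 (nat_lit 4) (nat_lit 0x480024001200090000400000000000000000000000000) (nat_lit 0x0) (nat_lit 0x800040002000000100008800020000000000000000000000) := T_49 (nat_lit 128) (nat_lit 111) (nat_lit 6) (nat_lit 8) (nat_lit 10) L3140 (by decide +kernel)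
theorem L3142 : W_49 (nat_lit 5) (nat_lit 0x480024001200090000000000000000000000000000000) (nat_lit 0x0) (nat_lit 0x800040002000000108008c00020000000000000000000000) := T_49 (nat_lit 106) (nat_lit 123) (nat_lit 4) (nat_lit 5) (nat_lit 10) L3141 (by decide +kernel)
theorem L3143 : W_49 (nat_lit 11) (nat_lit 0x480024001200080000000000000000000000000000000) (nat_lit 0x0) (nat_lit 0x4800240002000500178009c000e0007000080000000000000) := Q_49 (nat_lit 124) (C_49 L2988 (C_49 L3126 (C_49 L3135 (C_49 L3138 (C_49 L3142 N_49))))) (by decide +kernel)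
theorem L3144 : W_49 (nat_lit 2) (nat_lit 0x32000d000480024001600180000000000000000000000000000000) (nat_lit 0x0) (nat_lit 0x2000100008000000000000000000000000000000) := D_49 (nat_lit 140) (nat_lit 123) (nat_lit 157) (nat_lit 4) (nat_lit 5) (nat_lit 11) (nat_lit 4) (nat_lit 5) (nat_lit 12) (by decide +kernel)
theorem L3145 : W_49 (nat_lit 3) (nat_lit 0x30000d000480024001600180000000000000000000000000000000) (nat_lit 0x0) (nat_lit 0x2000000000000a000100008000000000000000000000000000000) := T_49 (nat_lit 209) (nat_lit 159) (nat_lit 6) (nat_lit 5) (nat_lit 12) L3144 (by decide +kernel)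
theorem L3146 : W_49 (nat_lit 4) (nat_lit 0x30000d000480024001200180000000000000000000000000000000) (nat_lit 0x0) (nat_lit 0x2000000000000a000500028000000000000000000000000000000) := T_49 (nat_lit 142) (nat_lit 125) (nat_lit 6) (nat_lit 5) (nat_lit 11) L3145 (by decide +kernel)
theorem L3147 : W_49 (nat_lit 5) (nat_lit 0x30000c000480024001200180000000000000000000000000000000) (nat_lit 0x0) (nat_lit 0x2000300000000a000500028000000000000000000000000000000) := T_49 (nat_lit 192) (nat_lit 193) (nat_lit 3) (nat_lit 5) (nat_lit 11) L3146 (by decide +kernel)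
theorem L3148 : W_49 (nat_lit 6) (nat_lit 0x20000c000480024001200180000000000000000000000000000000) (nat_lit 0x0) (nat_lit 0x400012000300000000a000500028000000000000000000000000000000) := T_49 (nat_lit 212) (nat_lit 230) (nat_lit 7) (nat_lit 8) (nat_lit 9) L3147 (by decide +kernel)
theorem L3149 : W_49 (nat_lit 7) (nat_lit 0xc000480024001200180000000000000000000000000000000) (nat_lit 0x0) (nat_lit 0x400032001300000000a000500028000000000000000000000000000000) := T_49 (nat_lit 213) (nat_lit 196) (nat_lit 7) (nat_lit 8) (nat_lit 8) L3148 (by decide +kernel)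
theorem L3150 : W_49 (nat_lit 8) (nat_lit 0x4000480024001200180000000000000000000000000000000) (nat_lit 0x0) (nat_lit 0x40003a001b00000000a000500028000000000000000000000000000000) := T_49 (nat_lit 195) (nat_lit 211) (nat_lit 5) (nat_lit 8) (nat_lit 8) L3149 (by decide +kernel)
theorem L3151 : W_49 (nat_lit 9) (nat_lit 0x480024001200180000000000000000000000000000000) (nat_lit 0x0) (nat_lit 0x40003a001f00020000a000500028000000000000000000000000000000) := T_49 (nat_lit 194) (nat_lit 177) (nat_lit 5) (nat_lit 8) (nat_lit 7) L3150 (by decide +kernel)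
theorem L3152 : W_49 (nat_lit 10) (nat_lit 0x480024001200080000000000000000000000000000000) (nat_lit 0x0) (nat_lit 0x40003a001f00020000a000500128008000000000000000000000000000) := T_49 (nat_lit 128) (nat_lit 111) (nat_lit 6) (nat_lit 8) (nat_lit 10) L3151 (by decide +kernel)
theorem L3153 : W_49 (nat_lit 12) (nat_lit 0x480020001200080000000000000000000000000000000) (nat_lit 0x0) (nat_lit 0x42003b001f80024000e000500178009c000e0007000080000000000000) := Q_49 (nat_lit 158) (C_49 L3103 (C_49 L3112 (C_49 L3043 (C_49 L3121 (C_49 L3143 (C_49 L3152 N_49)))))) (by decide +kernel)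
theorem L3154 : W_49 (nat_lit 2) (nat_lit 0x1f000480020001200180000000000000000000000000000000) (nat_lit 0x0) (nat_lit 0x70000000000000000000000000000000000000000000000000000) := D_49 (nat_lit 209) (nat_lit 210) (nat_lit 208) (nat_lit 1) (nat_lit 9) (nat_lit 11) (nat_lit 1) (nat_lit 8) (nat_lit 11) (by decide +kernel)
theorem L3155 : W_49 (nat_lit 3) (nat_lit 0x1e000480020001200180000000000000000000000000000000) (nat_lit 0x0) (nat_lit 0x70001000040000000000000000000000000000000000000000000) := T_49 (nat_lit 192) (nat_lit 174) (nat_lit 0) (nat_lit 8) (nat_lit 11) L3154 (by decide +kernel)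
theorem L3156 : W_49 (nat_lit 4) (nat_lit 0x1c000480020001200180000000000000000000000000000000) (nat_lit 0x0) (nat_lit 0x70003000140000000000000000000000000000000000000000000) := T_49 (nat_lit 193) (nat_lit 176) (nat_lit 0) (nat_lit 9) (nat_lit 11) L3155 (by decide +kernel)
theorem L3157 : W_49 (nat_lit 5) (nat_lit 0xc000480020001200180000000000000000000000000000000) (nat_lit 0x0) (nat_lit 0x270013000140000000000000000000000000000000000000000000) := T_49 (nat_lit 196) (nat_lit 213) (nat_lit 7) (nat_lit 8) (nat_lit 8) L3156 (by decide +kernel)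
theorem L3158 : W_49 (nat_lit 6) (nat_lit 0x4000480020001200180000000000000000000000000000000) (nat_lit 0x0) (nat_lit 0x2f001b000140000000000000000000000000000000000000000000) := T_49 (nat_lit 195) (nat_lit 211) (nat_lit 5) (nat_lit 8) (nat_lit 8) L3157 (by decide +kernel)
theorem L3159 : W_49 (nat_lit 7) (nat_lit 0x4000480020001200080000000000000000000000000000000) (nat_lit 0x0) (nat_lit 0x2f001b000140000000000100008000000000000000000000000000) := T_49 (nat_lit 128) (nat_lit 111) (nat_lit 6) (nat_lit 8) (nat_lit 10) L3158 (by decide +kernel)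
theorem L3160 : W_49 (nat_lit 8) (nat_lit 0x480020001200080000000000000000000000000000000) (nat_lit 0x0) (nat_lit 0x2f001f000340000000000100008000000000000000000000000000) := T_49 (nat_lit 194) (nat_lit 177) (nat_lit 5) (nat_lit 8) (nat_lit 7) L3159 (by decide +kernel)
theorem L3161 : W_49 (nat_lit 2) (nat_lit 0xa00020009000780024001600180000000000000000000000000000000) (nat_lit 0x0) (nat_lit 0x14000400000000000000000000000000000000000000000000000000000000) := D_49 (nat_lit 226) (nat_lit 242) (nat_lit 244) (nat_lit 5) (nat_lit 5) (nat_lit 10) (nat_lit 7) (nat_lit 5) (nat_lit 10) (by decide +kernel)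
theorem L3162 : W_49 (nat_lit 3) (nat_lit 0x200020009000780024001600180000000000000000000000000000000) (nat_lit 0x0) (nat_lit 0x14000c00040000000000000000000000000000000000000000000000000000) := T_49 (nat_lit 227) (nat_lit 210) (nat_lit 7) (nat_lit 5) (nat_lit 9) L3161 (by decide +kernel)
theorem L3163 : W_49 (nat_lit 4) (nat_lit 0x20009000780024001600180000000000000000000000000000000) (nat_lit 0x0) (nat_lit 0x14000e00050000000000000000000000000000000000000000000000000000) := T_49 (nat_lit 225) (nat_lit 208) (nat_lit 5) (nat_lit 5) (nat_lit 9) L3162 (by decide +kernel)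
theorem L3164 : W_49 (nat_lit 5) (nat_lit 0x9000780024001600180000000000000000000000000000000) (nat_lit 0x0) (nat_lit 0x14000e00070000000000008000000000000000000000000000000000000000) := T_49 (nat_lit 209) (nat_lit 159) (nat_lit 6) (nat_lit 5) (nat_lit 12) L3163 (by decide +kernel)
theorem L3165 : W_49 (nat_lit 6) (nat_lit 0x9000780024001200180000000000000000000000000000000) (nat_lit 0x0) (nat_lit 0x14000e00070000000000008000400020000000000000000000000000000000) := T_49 (nat_lit 142) (nat_lit 125) (nat_lit 6) (nat_lit 5) (nat_lit 11) L3164 (by decide +kernel)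
theorem L3166 : W_49 (nat_lit 7) (nat_lit 0x9000780024001200080000000000000000000000000000000) (nat_lit 0x0) (nat_lit 0x14000e00070000000000008000400120008000000000000000000000000000) := T_49 (nat_lit 128) (nat_lit 111) (nat_lit 6) (nat_lit 8) (nat_lit 10) L3165 (by decide +kernel)
theorem L3167 : W_49 (nat_lit 8) (nat_lit 0x9000780020001200080000000000000000000000000000000) (nat_lit 0x0) (nat_lit 0x14000e0007000000000000e000400120008000000000000000000000000000) := T_49 (nat_lit 158) (nat_lit 157) (nat_lit 0) (nat_lit 8) (nat_lit 10) L3166 (by decide +kernel)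
theorem L3168 : W_49 (nat_lit 9) (nat_lit 0x1000780020001200080000000000000000000000000000000) (nat_lit 0x0) (nat_lit 0x14000e0007001800000000e000400120008000000000000000000000000000) := T_49 (nat_lit 195) (nat_lit 196) (nat_lit 3) (nat_lit 5) (nat_lit 10) L3167 (by decide +kernel)
theorem L3169 : W_49 (nat_lit 10) (nat_lit 0x780020001200080000000000000000000000000000000) (nat_lit 0x0) (nat_lit 0x14000e0007001980000000e000400120008000000000000000000000000000) := T_49 (nat_lit 192) (nat_lit 191) (nat_lit 1) (nat_lit 8) (nat_lit 10) L3168 (by decide +kernel)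
theorem L3170 : W_49 (nat_lit 11) (nat_lit 0x680020001200080000000000000000000000000000000) (nat_lit 0x0) (nat_lit 0x14000e0007001980010004e000400120008000000000000000000000000000) := T_49 (nat_lit 176) (nat_lit 162) (nat_lit 2) (nat_lit 5) (nat_lit 10) L3169 (by decide +kernel)
theorem L3171 : W_49 (nat_lit 12) (nat_lit 0x480020001200080000000000000000000000000000000) (nat_lit 0x0) (nat_lit 0x14000e0007001d80030004e000400120008000000000000000000000000000) := T_49 (nat_lit 177) (nat_lit 194) (nat_lit 5) (nat_lit 8) (nat_lit 7) L3170 (by decide +kernel)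
theorem L3172 : W_49 (nat_lit 2) (nat_lit 0x8000780024001200190000800000000000000000000000000) (nat_lit 0x0) (nat_lit 0x20001000080000000000000000000000) := D_49 (nat_lit 108) (nat_lit 91) (nat_lit 125) (nat_lit 6) (nat_lit 5) (nat_lit 9) (nat_lit 6) (nat_lit 5) (nat_lit 10) (by decide +kernel)
theorem L3173 : W_49 (nat_lit 3) (nat_lit 0x8000780024001200190000000000000000000000000000000) (nat_lit 0x0) (nat_lit 0x8000000020001800080000000000000000000000) := T_49 (nat_lit 107) (nat_lit 159) (nat_lit 7) (nat_lit 5) (nat_lit 6) L3172 (by decide +kernel)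
theorem L3174 : W_49 (nat_lit 4) (nat_lit 0x8000780024001200180000000000000000000000000000000) (nat_lit 0x0) (nat_lit 0x2000000008000000030001800080000000000000000000000) := T_49 (nat_lit 124) (nat_lit 193) (nat_lit 7) (nat_lit 5) (nat_lit 7) L3173 (by decide +kernel)
theorem L3175 : W_49 (nat_lit 5) (nat_lit 0x780024001200180000000000000000000000000000000) (nat_lit 0x0) (nat_lit 0x1a000000008000000030001800080000000000000000000000) := T_49 (nat_lit 195) (nat_lit 196) (nat_lit 3) (nat_lit 5) (nat_lit 10) L3174 (by decide +kernel)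
theorem L3176 : W_49 (nat_lit 6) (nat_lit 0x780020001200180000000000000000000000000000000) (nat_lit 0x0) (nat_lit 0x1a00000000e000000030001800080000000000000000000000) := T_49 (nat_lit 158) (nat_lit 157) (nat_lit 0) (nat_lit 8) (nat_lit 10) L3175 (by decide +kernel)
theorem L3177 : W_49 (nat_lit 7) (nat_lit 0x680020001200180000000000000000000000000000000) (nat_lit 0x0) (nat_lit 0x1a00010004e000000030001800080000000000000000000000) := T_49 (nat_lit 176) (nat_lit 162) (nat_lit 2) (nat_lit 5) (nat_lit 10) L3176 (by decide +kernel)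
theorem L3178 : W_49 (nat_lit 8) (nat_lit 0x480020001200180000000000000000000000000000000) (nat_lit 0x0) (nat_lit 0x1e00030004e000000030001800080000000000000000000000) := T_49 (nat_lit 177) (nat_lit 194) (nat_lit 5) (nat_lit 8) (nat_lit 7) L3177 (by decide +kernel)
theorem L3179 : W_49 (nat_lit 9) (nat_lit 0x480020001200080000000000000000000000000000000) (nat_lit 0x0) (nat_lit 0x1e00030004e000000130009800080000000000000000000000) := T_49 (nat_lit 128) (nat_lit 111) (nat_lit 6) (nat_lit 8) (nat_lit 10) L3178 (by decide +kernel)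
theorem L3180 : W_49 (nat_lit 13) (nat_lit 0x400020001200080000000000000000000000000000000) (nat_lit 0x0) (nat_lit 0x1c004e003fc01fe003f004f00050017800de004e0007000080000000000000) := Q_49 (nat_lit 175) (C_49 L2975 (C_49 L2982 (C_49 L3044 (C_49 L3094 (C_49 L3153 (C_49 L3160 (C_49 L3171 (C_49 L3179 N_49)))))))) (by decide +kernel)
theorem L3181 : W_49 (nat_lit 2) (nat_lit 0x400020001200080004000000000000000000000000000) (nat_lit 0x0) (nat_lit 0x100008000400000000000000000000000) := D_49 (nat_lit 111) (nat_lit 128) (nat_lit 94) (nat_lit 6) (nat_lit 8) (nat_lit 10) (nat_lit 6) (nat_lit 8) (nat_lit 9) (by decide +kernel)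
theorem L3182 : W_49 (nat_lit 2) (nat_lit 0x600020001200090004800780000000000000000000000) (nat_lit 0x0) (nat_lit 0x400040004000000000000000000) := D_49 (nat_lit 90) (nat_lit 106) (nat_lit 74) (nat_lit 1) (nat_lit 8) (nat_lit 5) (nat_lit 6) (nat_lit 5) (nat_lit 8) (by decide +kernel)
theorem L3183 : W_49 (nat_lit 3) (nat_lit 0x600020001200090004800700000000000000000000000) (nat_lit 0x0) (nat_lit 0x14000c0004000000000000000000) := T_49 (nat_lit 91) (nat_lit 108) (nat_lit 1) (nat_lit 9) (nat_lit 5) L3182 (by decide +kernel)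
theorem L3184 : W_49 (nat_lit 4) (nat_lit 0x600020001200090004800600000000000000000000000) (nat_lit 0x0) (nat_lit 0x14001c000c000000000000000000) := T_49 (nat_lit 92) (nat_lit 75) (nat_lit 4) (nat_lit 8) (nat_lit 8) L3183 (by decide +kernel)
theorem L3185 : W_49 (nat_lit 5) (nat_lit 0x600020001200090004800400000000000000000000000) (nat_lit 0x0) (nat_lit 0x14003c002c000000000000000000) := T_49 (nat_lit 93) (nat_lit 77) (nat_lit 6) (nat_lit 8) (nat_lit 8) L3184 (by decide +kernel)
theorem L3186 : W_49 (nat_lit 6) (nat_lit 0x600020001200090004800000000000000000000000000) (nat_lit 0x0) (nat_lit 0x94007c002c000000000000000000) := T_49 (nat_lit 94) (nat_lit 111) (nat_lit 6) (nat_lit 8) (nat_lit 9) L3185 (by decide +kernel)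
theorem L3187 : W_49 (nat_lit 7) (nat_lit 0x400020001200090004800000000000000000000000000) (nat_lit 0x0) (nat_lit 0x40002000000000000000094007c002c000000000000000000) := T_49 (nat_lit 177) (nat_lit 194) (nat_lit 5) (nat_lit 8) (nat_lit 7) L3186 (by decide +kernel)
theorem L3188 : W_49 (nat_lit 2) (nat_lit 0x400020001200090004800780000000000000000000000) (nat_lit 0x0) (nat_lit 0x400040004000000000000000000) := D_49 (nat_lit 90) (nat_lit 106) (nat_lit 74) (nat_lit 1) (nat_lit 8) (nat_lit 5) (nat_lit 6) (nat_lit 5) (nat_lit 8) (by decide +kernel)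
theorem L3189 : W_49 (nat_lit 3) (nat_lit 0x400020001200090004800700000000000000000000000) (nat_lit 0x0) (nat_lit 0x14000c0004000000000000000000) := T_49 (nat_lit 91) (nat_lit 108) (nat_lit 1) (nat_lit 9) (nat_lit 5) L3188 (by decide +kernel)
theorem L3190 : W_49 (nat_lit 4) (nat_lit 0x400020001200090004800600000000000000000000000) (nat_lit 0x0) (nat_lit 0x14001c000c000000000000000000) := T_49 (nat_lit 92) (nat_lit 75) (nat_lit 4) (nat_lit 8) (nat_lit 8) L3189 (by decide +kernel)
theorem L3191 : W_49 (nat_lit 5) (nat_lit 0x400020001200090004800400000000000000000000000) (nat_lit 0x0) (nat_lit 0x14003c002c000000000000000000) := T_49 (nat_lit 93) (nat_lit 77) (nat_lit 6) (nat_lit 8) (nat_lit 8) L3190 (by decide +kernel)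
theorem L3192 : W_49 (nat_lit 6) (nat_lit 0x400020001200090004800000000000000000000000000) (nat_lit 0x0) (nat_lit 0x94007c002c000000000000000000) := T_49 (nat_lit 94) (nat_lit 111) (nat_lit 6) (nat_lit 8) (nat_lit 9) L3191 (by decide +kernel)
theorem L3193 : W_49 (nat_lit 2) (nat_lit 0x40002e00120009000d800040000000000000000000000) (nat_lit 0x0) (nat_lit 0x400020001000000000000000000) := D_49 (nat_lit 89) (nat_lit 72) (nat_lit 106) (nat_lit 4) (nat_lit 5) (nat_lit 8) (nat_lit 4) (nat_lit 5) (nat_lit 9) (by decide +kernel)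
theorem L3194 : W_49 (nat_lit 3) (nat_lit 0x40002e00120009000d800000000000000000000000000) (nat_lit 0x0) (nat_lit 0x100000000400060001000000000000000000) := T_49 (nat_lit 90) (nat_lit 140) (nat_lit 5) (nat_lit 5) (nat_lit 5) L3193 (by decide +kernel)
theorem L3195 : W_49 (nat_lit 4) (nat_lit 0x40002c00120009000d800000000000000000000000000) (nat_lit 0x0) (nat_lit 0x40002000100000000400060001000000000000000000) := T_49 (nat_lit 157) (nat_lit 174) (nat_lit 5) (nat_lit 5) (nat_lit 6) L3194 (by decide +kernel)
theorem L3196 : W_49 (nat_lit 5) (nat_lit 0x40002c00120009000c800000000000000000000000000) (nat_lit 0x0) (nat_lit 0x400020001000000014000e0001000000000000000000) := T_49 (nat_lit 108) (nat_lit 91) (nat_lit 6) (nat_lit 5) (nat_lit 9) L3195 (by decide +kernel)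
theorem L3197 : W_49 (nat_lit 6) (nat_lit 0x40002400120009000c800000000000000000000000000) (nat_lit 0x0) (nat_lit 0x14000a0001000000014000e0001000000000000000000) := T_49 (nat_lit 159) (nat_lit 176) (nat_lit 7) (nat_lit 5) (nat_lit 6) L3196 (by decide +kernel)
theorem L3198 : W_49 (nat_lit 7) (nat_lit 0x400024001200090004800000000000000000000000000) (nat_lit 0x0) (nat_lit 0x14000a0001000000094004e0001000000000000000000) := T_49 (nat_lit 111) (nat_lit 94) (nat_lit 6) (nat_lit 8) (nat_lit 9) L3197 (by decide +kernel)
theorem L3199 : W_49 (nat_lit 2) (nat_lit 0x48002c001200090005800000000000000000000000000) (nat_lit 0x0) (nat_lit 0x800040002000000000000000000000000000000000000000) := D_49 (nat_lit 174) (nat_lit 191) (nat_lit 157) (nat_lit 5) (nat_lit 5) (nat_lit 7) (nat_lit 5) (nat_lit 5) (nat_lit 6) (by decide +kernel)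
theorem L3200 : W_49 (nat_lit 3) (nat_lit 0x40002c001200090005800000000000000000000000000) (nat_lit 0x0) (nat_lit 0x8000c0002000000020000000000000000000000000000000) := T_49 (nat_lit 175) (nat_lit 125) (nat_lit 6) (nat_lit 5) (nat_lit 10) L3199 (by decide +kernel)
theorem L3201 : W_49 (nat_lit 4) (nat_lit 0x400024001200090005800000000000000000000000000) (nat_lit 0x0) (nat_lit 0x8001c000a000000020000000000000000000000000000000) := T_49 (nat_lit 159) (nat_lit 176) (nat_lit 7) (nat_lit 5) (nat_lit 6) L3200 (by decide +kernel)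
theorem L3202 : W_49 (nat_lit 5) (nat_lit 0x400024001200090004800000000000000000000000000) (nat_lit 0x0) (nat_lit 0x8001c000a000000020001000080000000000000000000000) := T_49 (nat_lit 108) (nat_lit 91) (nat_lit 6) (nat_lit 5) (nat_lit 9) L3201 (by decide +kernel)
theorem L3203 : W_49 (nat_lit 2) (nat_lit 0x400026001200090004800040000000000000000000000) (nat_lit 0x0) (nat_lit 0x400020001000000000000000000) := D_49 (nat_lit 89) (nat_lit 72) (nat_lit 106) (nat_lit 4) (nat_lit 5) (nat_lit 8) (nat_lit 4) (nat_lit 5) (nat_lit 9) (by decide +kernel)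
theorem L3204 : W_49 (nat_lit 3) (nat_lit 0x400026001200090004800000000000000000000000000) (nat_lit 0x0) (nat_lit 0x100000000400060001000000000000000000) := T_49 (nat_lit 90) (nat_lit 140) (nat_lit 5) (nat_lit 5) (nat_lit 5) L3203 (by decide +kernel)
theorem L3205 : W_49 (nat_lit 4) (nat_lit 0x400024001200090004800000000000000000000000000) (nat_lit 0x0) (nat_lit 0x40002000100000000400060001000000000000000000) := T_49 (nat_lit 157) (nat_lit 174) (nat_lit 5) (nat_lit 5) (nat_lit 6) L3204 (by decide +kernel)
theorem L3206 : W_49 (nat_lit 2) (nat_lit 0x40002c00120009000dc00000000000000000000000000) (nat_lit 0x0) (nat_lit 0x80000000000028000000000000000000000000000000) := D_49 (nat_lit 175) (nat_lit 125) (nat_lit 123) (nat_lit 6) (nat_lit 5) (nat_lit 10) (nat_lit 4) (nat_lit 5) (nat_lit 10) (by decide +kernel)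
theorem L3207 : W_49 (nat_lit 3) (nat_lit 0x40002c00120009000d800000000000000000000000000) (nat_lit 0x0) (nat_lit 0x80000000000028000400020000000000000000000000) := T_49 (nat_lit 106) (nat_lit 89) (nat_lit 4) (nat_lit 5) (nat_lit 9) L3206 (by decide +kernel)
theorem L3208 : W_49 (nat_lit 4) (nat_lit 0x40002c00120009000c800000000000000000000000000) (nat_lit 0x0) (nat_lit 0x800000000000280014000a0000000000000000000000) := T_49 (nat_lit 108) (nat_lit 91) (nat_lit 6) (nat_lit 5) (nat_lit 9) L3207 (by decide +kernel)
theorem L3209 : W_49 (nat_lit 5) (nat_lit 0x40002400120009000c800000000000000000000000000) (nat_lit 0x0) (nat_lit 0x1800080000000280014000a0000000000000000000000) := T_49 (nat_lit 159) (nat_lit 176) (nat_lit 7) (nat_lit 5) (nat_lit 6) L3208 (by decide +kernel)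
theorem L3210 : W_49 (nat_lit 6) (nat_lit 0x400024001200090004800000000000000000000000000) (nat_lit 0x0) (nat_lit 0x1800080000000280094004a0000000000000000000000) := T_49 (nat_lit 111) (nat_lit 94) (nat_lit 6) (nat_lit 8) (nat_lit 9) L3209 (by decide +kernel)
theorem L3211 : W_49 (nat_lit 8) (nat_lit 0x400020001200090004800000000000000000000000000) (nat_lit 0x0) (nat_lit 0x8001c000e0001000280094004e0001000000000000000000) := Q_49 (nat_lit 158) (C_49 L3198 (C_49 L3202 (C_49 L3205 (C_49 L3210 N_49)))) (by decide +kernel)
theorem L3212 : W_49 (nat_lit 2) (nat_lit 0x68002c001200090005800000000000000000000000000) (nat_lit 0x0) (nat_lit 0x8000400020000000000000000000000) := D_49 (nat_lit 106) (nat_lit 123) (nat_lit 89) (nat_lit 4) (nat_lit 5) (nat_lit 10) (nat_lit 4) (nat_lit 5) (nat_lit 9) (by decide +kernel)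
theorem L3213 : W_49 (nat_lit 3) (nat_lit 0x60002c001200090005800000000000000000000000000) (nat_lit 0x0) (nat_lit 0x80000000000028000400020000000000000000000000) := T_49 (nat_lit 175) (nat_lit 125) (nat_lit 6) (nat_lit 5) (nat_lit 10) L3212 (by decide +kernel)
theorem L3214 : W_49 (nat_lit 4) (nat_lit 0x600024001200090005800000000000000000000000000) (nat_lit 0x0) (nat_lit 0x180008000000028000400020000000000000000000000) := T_49 (nat_lit 159) (nat_lit 176) (nat_lit 7) (nat_lit 5) (nat_lit 6) L3213 (by decide +kernel)
theorem L3215 : W_49 (nat_lit 5) (nat_lit 0x600024001200090004800000000000000000000000000) (nat_lit 0x0) (nat_lit 0x1800080000000280014000a0000000000000000000000) := T_49 (nat_lit 108) (nat_lit 91) (nat_lit 6) (nat_lit 5) (nat_lit 9) L3214 (by decide +kernel)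
theorem L3216 : W_49 (nat_lit 6) (nat_lit 0x400024001200090004800000000000000000000000000) (nat_lit 0x0) (nat_lit 0x40003800080000000280014000a0000000000000000000000) := T_49 (nat_lit 177) (nat_lit 194) (nat_lit 5) (nat_lit 8) (nat_lit 7) L3215 (by decide +kernel)
theorem L3217 : W_49 (nat_lit 7) (nat_lit 0x400020001200090004800000000000000000000000000) (nat_lit 0x0) (nat_lit 0x48003c000e0001000280014000e0001000000000000000000) := Q_49 (nat_lit 158) (C_49 L3205 (C_49 L3202 (C_49 L3216 N_49))) (by decide +kernel)
theorem L3218 : W_49 (nat_lit 2) (nat_lit 0x78002000120009000c800000000000000000000000000) (nat_lit 0x0) (nat_lit 0xe000000000000000000000000000000000000000) := D_49 (nat_lit 158) (nat_lit 157) (nat_lit 159) (nat_lit 0) (nat_lit 8) (nat_lit 10) (nat_lit 7) (nat_lit 5) (nat_lit 6) (by decide +kernel)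
theorem L3219 : W_49 (nat_lit 3) (nat_lit 0x68002000120009000c800000000000000000000000000) (nat_lit 0x0) (nat_lit 0x10004e000000000000000000000000000000000000000) := T_49 (nat_lit 176) (nat_lit 162) (nat_lit 2) (nat_lit 5) (nat_lit 10) L3218 (by decide +kernel)
theorem L3220 : W_49 (nat_lit 4) (nat_lit 0x48002000120009000c800000000000000000000000000) (nat_lit 0x0) (nat_lit 0x400030004e000000000000000000000000000000000000000) := T_49 (nat_lit 177) (nat_lit 194) (nat_lit 5) (nat_lit 8) (nat_lit 7) L3219 (by decide +kernel)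
theorem L3221 : W_49 (nat_lit 5) (nat_lit 0x480020001200090004800000000000000000000000000) (nat_lit 0x0) (nat_lit 0x400030004e000000000008000400000000000000000000000) := T_49 (nat_lit 111) (nat_lit 94) (nat_lit 6) (nat_lit 8) (nat_lit 9) L3220 (by decide +kernel)
theorem L3222 : W_49 (nat_lit 2) (nat_lit 0x480024001200090005800700000000000000000000000) (nat_lit 0x0) (nat_lit 0x800040002000000000000000000000000000000000000000) := D_49 (nat_lit 174) (nat_lit 191) (nat_lit 157) (nat_lit 5) (nat_lit 5) (nat_lit 7) (nat_lit 5) (nat_lit 5) (nat_lit 6) (by decide +kernel)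
theorem L3223 : W_49 (nat_lit 3) (nat_lit 0x480020001200090005800700000000000000000000000) (nat_lit 0x0) (nat_lit 0x800040006000000020000000000000000000000000000000) := T_49 (nat_lit 158) (nat_lit 125) (nat_lit 6) (nat_lit 5) (nat_lit 10) L3222 (by decide +kernel)
theorem L3224 : W_49 (nat_lit 4) (nat_lit 0x480020001200090004800700000000000000000000000) (nat_lit 0x0) (nat_lit 0x800040006000000020001000080000000000000000000000) := T_49 (nat_lit 108) (nat_lit 91) (nat_lit 1) (nat_lit 9) (nat_lit 5) L3223 (by decide +kernel)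
theorem L3225 : W_49 (nat_lit 5) (nat_lit 0x480020001200090004800600000000000000000000000) (nat_lit 0x0) (nat_lit 0x800040006000000020001000180008000000000000000000) := T_49 (nat_lit 92) (nat_lit 75) (nat_lit 4) (nat_lit 8) (nat_lit 8) L3224 (by decide +kernel)
theorem L3226 : W_49 (nat_lit 6) (nat_lit 0x480020001200090004800400000000000000000000000) (nat_lit 0x0) (nat_lit 0x800040006000000020001000380028000000000000000000) := T_49 (nat_lit 93) (nat_lit 77) (nat_lit 6) (nat_lit 8) (nat_lit 8) L3225 (by decide +kernel)
theorem L3227 : W_49 (nat_lit 7) (nat_lit 0x480020001200090004800000000000000000000000000) (nat_lit 0x0) (nat_lit 0x800040006000000020009000780028000000000000000000) := T_49 (nat_lit 94) (nat_lit 111) (nat_lit 6) (nat_lit 8) (nat_lit 9) L3226 (by decide +kernel)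
theorem L3228 : W_49 (nat_lit 2) (nat_lit 0x780020001200090004800000000000000000000000000) (nat_lit 0x0) (nat_lit 0xe000000000000000000000000000000000000000) := D_49 (nat_lit 158) (nat_lit 157) (nat_lit 159) (nat_lit 0) (nat_lit 8) (nat_lit 10) (nat_lit 7) (nat_lit 5) (nat_lit 6) (by decide +kernel)
theorem L3229 : W_49 (nat_lit 3) (nat_lit 0x680020001200090004800000000000000000000000000) (nat_lit 0x0) (nat_lit 0x10004e000000000000000000000000000000000000000) := T_49 (nat_lit 176) (nat_lit 162) (nat_lit 2) (nat_lit 5) (nat_lit 10) L3228 (by decide +kernel)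
theorem L3230 : W_49 (nat_lit 4) (nat_lit 0x480020001200090004800000000000000000000000000) (nat_lit 0x0) (nat_lit 0x400030004e000000000000000000000000000000000000000) := T_49 (nat_lit 177) (nat_lit 194) (nat_lit 5) (nat_lit 8) (nat_lit 7) L3229 (by decide +kernel)
theorem L3231 : W_49 (nat_lit 2) (nat_lit 0x88007c0020001200090004800000000000000000000000000) (nat_lit 0x0) (nat_lit 0x3000100000000000000000000000000000000000) := D_49 (nat_lit 157) (nat_lit 156) (nat_lit 140) (nat_lit 0) (nat_lit 7) (nat_lit 10) (nat_lit 6) (nat_lit 4) (nat_lit 11) (by decide +kernel)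
theorem L3232 : W_49 (nat_lit 3) (nat_lit 0x8800780020001200090004800000000000000000000000000) (nat_lit 0x0) (nat_lit 0x400040003000100000000000000000000000000000000000) := T_49 (nat_lit 174) (nat_lit 190) (nat_lit 1) (nat_lit 7) (nat_lit 10) L3231 (by decide +kernel)
theorem L3233 : W_49 (nat_lit 4) (nat_lit 0x800780020001200090004800000000000000000000000000) (nat_lit 0x0) (nat_lit 0x18400040003000100000000000000000000000000000000000) := T_49 (nat_lit 195) (nat_lit 196) (nat_lit 3) (nat_lit 5) (nat_lit 10) L3232 (by decide +kernel)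
theorem L3234 : W_49 (nat_lit 5) (nat_lit 0x780020001200090004800000000000000000000000000) (nat_lit 0x0) (nat_lit 0x19c00040003000100000000000000000000000000000000000) := T_49 (nat_lit 191) (nat_lit 192) (nat_lit 1) (nat_lit 8) (nat_lit 10) L3233 (by decide +kernel)
theorem L3235 : W_49 (nat_lit 6) (nat_lit 0x680020001200090004800000000000000000000000000) (nat_lit 0x0) (nat_lit 0x19c00140043000100000000000000000000000000000000000) := T_49 (nat_lit 176) (nat_lit 162) (nat_lit 2) (nat_lit 5) (nat_lit 10) L3234 (by decide +kernel)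
theorem L3236 : W_49 (nat_lit 7) (nat_lit 0x480020001200090004800000000000000000000000000) (nat_lit 0x0) (nat_lit 0x1dc00340043000100000000000000000000000000000000000) := T_49 (nat_lit 177) (nat_lit 194) (nat_lit 5) (nat_lit 8) (nat_lit 7) L3235 (by decide +kernel)
theorem L3237 : W_49 (nat_lit 2) (nat_lit 0x78002000120009000c800000000000000000000000000) (nat_lit 0x0) (nat_lit 0x200000000c000000000000000000000000000000000000000) := D_49 (nat_lit 158) (nat_lit 159) (nat_lit 193) (nat_lit 7) (nat_lit 5) (nat_lit 6) (nat_lit 7) (nat_lit 5) (nat_lit 7) (by decide +kernel)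
theorem L3238 : W_49 (nat_lit 3) (nat_lit 0x68002000120009000c800000000000000000000000000) (nat_lit 0x0) (nat_lit 0x200010004c000000000000000000000000000000000000000) := T_49 (nat_lit 176) (nat_lit 162) (nat_lit 2) (nat_lit 5) (nat_lit 10) L3237 (by decide +kernel)
theorem L3239 : W_49 (nat_lit 4) (nat_lit 0x48002000120009000c800000000000000000000000000) (nat_lit 0x0) (nat_lit 0x600030004c000000000000000000000000000000000000000) := T_49 (nat_lit 177) (nat_lit 194) (nat_lit 5) (nat_lit 8) (nat_lit 7) L3238 (by decide +kernel)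
theorem L3240 : W_49 (nat_lit 5) (nat_lit 0x480020001200090004800000000000000000000000000) (nat_lit 0x0) (nat_lit 0x600030004c000000000008000400000000000000000000000) := T_49 (nat_lit 111) (nat_lit 94) (nat_lit 6) (nat_lit 8) (nat_lit 9) L3239 (by decide +kernel)
theorem L3241 : W_49 (nat_lit 8) (nat_lit 0x400020001200090004800000000000000000000000000) (nat_lit 0x0) (nat_lit 0x1fc003c004f000100020009000780028000000000000000000) := Q_49 (nat_lit 175) (C_49 L3221 (C_49 L3227 (C_49 L3230 (C_49 L3236 (C_49 L3240 N_49))))) (by decide +kernel)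
theorem L3242 : W_49 (nat_lit 2) (nat_lit 0x60002200120009000480166001c000000000000000000) (nat_lit 0x0) (nat_lit 0x40004000000000000400000000000000000000000000) := D_49 (nat_lit 158) (nat_lit 174) (nat_lit 106) (nat_lit 5) (nat_lit 5) (nat_lit 6) (nat_lit 4) (nat_lit 5) (nat_lit 9) (by decide +kernel)
theorem L3243 : W_49 (nat_lit 3) (nat_lit 0x60002200120009000480164001c000000000000000000) (nat_lit 0x0) (nat_lit 0x40004000000000000400020001000000000000000000) := T_49 (nat_lit 89) (nat_lit 72) (nat_lit 4) (nat_lit 5) (nat_lit 8) L3242 (by decide +kernel)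
theorem L3244 : W_49 (nat_lit 4) (nat_lit 0x60002000120009000480164001c000000000000000000) (nat_lit 0x0) (nat_lit 0x40006000100000000400020001000000000000000000) := T_49 (nat_lit 157) (nat_lit 140) (nat_lit 5) (nat_lit 5) (nat_lit 5) L3243 (by decide +kernel)
theorem L3245 : W_49 (nat_lit 5) (nat_lit 0x60002000120009000480160001c000000000000000000) (nat_lit 0x0) (nat_lit 0x400060001000000004000e0001000000000000000000) := T_49 (nat_lit 90) (nat_lit 91) (nat_lit 6) (nat_lit 5) (nat_lit 8) L3244 (by decide +kernel)
theorem L3246 : W_49 (nat_lit 6) (nat_lit 0x60002000120009000480060001c000000000000000000) (nat_lit 0x0) (nat_lit 0x400060001000000004018e0001000000000000000000) := T_49 (nat_lit 96) (nat_lit 95) (nat_lit 0) (nat_lit 11) (nat_lit 5) L3245 (by decide +kernel)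
theorem L3247 : W_49 (nat_lit 7) (nat_lit 0x600020001200090004800600018000000000000000000) (nat_lit 0x0) (nat_lit 0x400060001000000004018e0007000000000000000000) := T_49 (nat_lit 74) (nat_lit 73) (nat_lit 3) (nat_lit 5) (nat_lit 4) L3246 (by decide +kernel)
theorem L3248 : W_49 (nat_lit 8) (nat_lit 0x600020001200090004800600008000000000000000000) (nat_lit 0x0) (nat_lit 0x400060001000000004018e0017000400000000000000) := T_49 (nat_lit 76) (nat_lit 58) (nat_lit 4) (nat_lit 8) (nat_lit 7) L3247 (by decide +kernel)
theorem L3249 : W_49 (nat_lit 9) (nat_lit 0x600020001200090004800600000000000000000000000) (nat_lit 0x0) (nat_lit 0x400060001000000004019e001f000400000000000000) := T_49 (nat_lit 75) (nat_lit 92) (nat_lit 4) (nat_lit 8) (nat_lit 8) L3248 (by decide +kernel)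
theorem L3250 : W_49 (nat_lit 10) (nat_lit 0x600020001200090004800400000000000000000000000) (nat_lit 0x0) (nat_lit 0x40006000100000000401be003f000400000000000000) := T_49 (nat_lit 93) (nat_lit 77) (nat_lit 6) (nat_lit 8) (nat_lit 8) L3249 (by decide +kernel)
theorem L3251 : W_49 (nat_lit 11) (nat_lit 0x600020001200090004800000000000000000000000000) (nat_lit 0x0) (nat_lit 0x40006000100000008401fe003f000400000000000000) := T_49 (nat_lit 94) (nat_lit 111) (nat_lit 6) (nat_lit 8) (nat_lit 9) L3250 (by decide +kernel)
theorem L3252 : W_49 (nat_lit 12) (nat_lit 0x400020001200090004800000000000000000000000000) (nat_lit 0x0) (nat_lit 0x4000240006000100000008401fe003f000400000000000000) := T_49 (nat_lit 177) (nat_lit 194) (nat_lit 5) (nat_lit 8) (nat_lit 7) L3251 (by decide +kernel)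
theorem L3253 : W_49 (nat_lit 2) (nat_lit 0x44002c00120009000cc00000000000000000000000000) (nat_lit 0x0) (nat_lit 0x800080000000000008000000000000000000000000000000) := D_49 (nat_lit 175) (nat_lit 191) (nat_lit 123) (nat_lit 5) (nat_lit 5) (nat_lit 7) (nat_lit 4) (nat_lit 5) (nat_lit 10) (by decide +kernel)
theorem L3254 : W_49 (nat_lit 3) (nat_lit 0x44002c00120009000c800000000000000000000000000) (nat_lit 0x0) (nat_lit 0x800080000000000008000400020000000000000000000000) := T_49 (nat_lit 106) (nat_lit 89) (nat_lit 4) (nat_lit 5) (nat_lit 9) L3253 (by decide +kernel)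
theorem L3255 : W_49 (nat_lit 4) (nat_lit 0x40002c00120009000c800000000000000000000000000) (nat_lit 0x0) (nat_lit 0x8000c0002000000008000400020000000000000000000000) := T_49 (nat_lit 174) (nat_lit 157) (nat_lit 5) (nat_lit 5) (nat_lit 6) L3254 (by decide +kernel)
theorem L3256 : W_49 (nat_lit 5) (nat_lit 0x40002400120009000c800000000000000000000000000) (nat_lit 0x0) (nat_lit 0x8001c000a000000008000400020000000000000000000000) := T_49 (nat_lit 159) (nat_lit 176) (nat_lit 7) (nat_lit 5) (nat_lit 6) L3255 (by decide +kernel)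
theorem L3257 : W_49 (nat_lit 6) (nat_lit 0x400024001200090004800000000000000000000000000) (nat_lit 0x0) (nat_lit 0x8001c000a000000008008400420000000000000000000000) := T_49 (nat_lit 111) (nat_lit 94) (nat_lit 6) (nat_lit 8) (nat_lit 9) L3256 (by decide +kernel)
theorem L3258 : W_49 (nat_lit 2) (nat_lit 0x20000d00040002c00130009800c800060000000000000000000000) (nat_lit 0x0) (nat_lit 0x4000100002000000000000000000000000000000000000000000000000) := D_49 (nat_lit 212) (nat_lit 193) (nat_lit 230) (nat_lit 3) (nat_lit 5) (nat_lit 11) (nat_lit 7) (nat_lit 8) (nat_lit 9) (by decide +kernel)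
theorem L3259 : W_49 (nat_lit 3) (nat_lit 0x20000c00040002c00130009800c800060000000000000000000000) (nat_lit 0x0) (nat_lit 0x4000100003000080000000000000000000000000000000000000000000) := T_49 (nat_lit 192) (nat_lit 175) (nat_lit 4) (nat_lit 5) (nat_lit 11) L3258 (by decide +kernel)
theorem L3260 : W_49 (nat_lit 4) (nat_lit 0xc00040002c00130009800c800060000000000000000000000) (nat_lit 0x0) (nat_lit 0x4000300013000080000000000000000000000000000000000000000000) := T_49 (nat_lit 213) (nat_lit 196) (nat_lit 7) (nat_lit 8) (nat_lit 8) L3259 (by decide +kernel)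
theorem L3261 : W_49 (nat_lit 5) (nat_lit 0xc00040002c00130009000c800060000000000000000000000) (nat_lit 0x0) (nat_lit 0x4000300013000080000000000008000000000002000000000000000000) := T_49 (nat_lit 123) (nat_lit 73) (nat_lit 5) (nat_lit 5) (nat_lit 4) L3260 (by decide +kernel)
theorem L3262 : W_49 (nat_lit 6) (nat_lit 0xc00040002c00120009000c800060000000000000000000000) (nat_lit 0x0) (nat_lit 0x4000300013000080002000100008000000000002000000000000000000) := T_49 (nat_lit 140) (nat_lit 157) (nat_lit 5) (nat_lit 5) (nat_lit 5) L3261 (by decide +kernel)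
theorem L3263 : W_49 (nat_lit 7) (nat_lit 0x400040002c00120009000c800060000000000000000000000) (nat_lit 0x0) (nat_lit 0x400038001b000080002000100008000000000002000000000000000000) := T_49 (nat_lit 195) (nat_lit 211) (nat_lit 5) (nat_lit 8) (nat_lit 8) L3262 (by decide +kernel)
theorem L3264 : W_49 (nat_lit 8) (nat_lit 0x400040002c00120009000c800020000000000000000000000) (nat_lit 0x0) (nat_lit 0x400038001b000080002000100008000000040003000000000000000000) := T_49 (nat_lit 90) (nat_lit 72) (nat_lit 4) (nat_lit 5) (nat_lit 8) L3263 (by decide +kernel)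
theorem L3265 : W_49 (nat_lit 9) (nat_lit 0x40002c00120009000c800020000000000000000000000) (nat_lit 0x0) (nat_lit 0x400038001f000280002000100008000000040003000000000000000000) := T_49 (nat_lit 194) (nat_lit 177) (nat_lit 5) (nat_lit 8) (nat_lit 7) L3264 (by decide +kernel)
theorem L3266 : W_49 (nat_lit 10) (nat_lit 0x40002c00120009000c800000000000000000000000000) (nat_lit 0x0) (nat_lit 0x400038001f000280002000100008000400060003000000000000000000) := T_49 (nat_lit 89) (nat_lit 106) (nat_lit 4) (nat_lit 5) (nat_lit 9) L3265 (by decide +kernel)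
theorem L3267 : W_49 (nat_lit 11) (nat_lit 0x40002400120009000c800000000000000000000000000) (nat_lit 0x0) (nat_lit 0x400038001f00038000a000100008000400060003000000000000000000) := T_49 (nat_lit 159) (nat_lit 176) (nat_lit 7) (nat_lit 5) (nat_lit 6) L3266 (by decide +kernel)
theorem L3268 : W_49 (nat_lit 12) (nat_lit 0x400024001200090004800000000000000000000000000) (nat_lit 0x0) (nat_lit 0x400038001f00038000a000100008008400460003000000000000000000) := T_49 (nat_lit 111) (nat_lit 94) (nat_lit 6) (nat_lit 8) (nat_lit 9) L3267 (by decide +kernel)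
theorem L3269 : W_49 (nat_lit 2) (nat_lit 0x70002400120009000c800000000000000000000000000) (nat_lit 0x0) (nat_lit 0x2000080040000000000000000000000000000000000000000) := D_49 (nat_lit 175) (nat_lit 162) (nat_lit 193) (nat_lit 2) (nat_lit 5) (nat_lit 10) (nat_lit 7) (nat_lit 5) (nat_lit 7) (by decide +kernel)
theorem L3270 : W_49 (nat_lit 3) (nat_lit 0x60002400120009000c800000000000000000000000000) (nat_lit 0x0) (nat_lit 0x2000180048000000000000000000000000000000000000000) := T_49 (nat_lit 176) (nat_lit 159) (nat_lit 7) (nat_lit 5) (nat_lit 6) L3269 (by decide +kernel)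
theorem L3271 : W_49 (nat_lit 4) (nat_lit 0x600024001200090004800000000000000000000000000) (nat_lit 0x0) (nat_lit 0x2000180048000000000008000400000000000000000000000) := T_49 (nat_lit 111) (nat_lit 94) (nat_lit 6) (nat_lit 8) (nat_lit 9) L3270 (by decide +kernel)
theorem L3272 : W_49 (nat_lit 5) (nat_lit 0x400024001200090004800000000000000000000000000) (nat_lit 0x0) (nat_lit 0x6000380048000000000008000400000000000000000000000) := T_49 (nat_lit 177) (nat_lit 194) (nat_lit 5) (nat_lit 8) (nat_lit 7) L3271 (by decide +kernel)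
theorem L3273 : W_49 (nat_lit 13) (nat_lit 0x400020001200090004800000000000000000000000000) (nat_lit 0x0) (nat_lit 0x400038001f8003c004e000100008008400460003000000000000000000) := Q_49 (nat_lit 158) (C_49 L3205 (C_49 L3257 (C_49 L3268 (C_49 L3272 N_49)))) (by decide +kernel)
theorem L3274 : W_49 (nat_lit 14) (nat_lit 0x400020001200090004000000000000000000000000000) (nat_lit 0x0) (nat_lit 0x400038001fc003c004f000100028009c01fe003f000400000000000000) := Q_49 (nat_lit 107) (C_49 L3187 (C_49 L3192 (C_49 L3211 (C_49 L3217 (C_49 L3241 (C_49 L3252 (C_49 L3273 N_49))))))) (by decide +kernel)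
theorem L3275 : W_49 (nat_lit 2) (nat_lit 0x6000200012000f000480060001c000000000000000000) (nat_lit 0x0) (nat_lit 0x10000c0000000000000000000000) := D_49 (nat_lit 91) (nat_lit 108) (nat_lit 90) (nat_lit 5) (nat_lit 6) (nat_lit 4) (nat_lit 6) (nat_lit 5) (nat_lit 8) (by decide +kernel)
theorem L3276 : W_49 (nat_lit 3) (nat_lit 0x6000200012000f000400060001c000000000000000000) (nat_lit 0x0) (nat_lit 0x1c000c0000000000000000000000) := T_49 (nat_lit 107) (nat_lit 106) (nat_lit 0) (nat_lit 8) (nat_lit 7) L3275 (by decide +kernel)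
theorem L3277 : W_49 (nat_lit 4) (nat_lit 0x6000200012000d000400060001c000000000000000000) (nat_lit 0x0) (nat_lit 0x100020001c000c0000000000000000000000) := T_49 (nat_lit 125) (nat_lit 140) (nat_lit 1) (nat_lit 8) (nat_lit 7) L3276 (by decide +kernel)
theorem L3278 : W_49 (nat_lit 5) (nat_lit 0x60002000120009000400060001c000000000000000000) (nat_lit 0x0) (nat_lit 0x900060001c000c0000000000000000000000) := T_49 (nat_lit 126) (nat_lit 143) (nat_lit 5) (nat_lit 8) (nat_lit 4) L3277 (by decide +kernel)
theorem L3279 : W_49 (nat_lit 6) (nat_lit 0x600020001200090004000600018000000000000000000) (nat_lit 0x0) (nat_lit 0x900060001c000c0006000000000000000000) := T_49 (nat_lit 74) (nat_lit 73) (nat_lit 3) (nat_lit 5) (nat_lit 4) L3278 (by decide +kernel)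
theorem L3280 : W_49 (nat_lit 7) (nat_lit 0x600020001200090004000600008000000000000000000) (nat_lit 0x0) (nat_lit 0x900060001c000c0016000400000000000000) := T_49 (nat_lit 76) (nat_lit 58) (nat_lit 4) (nat_lit 8) (nat_lit 7) L3279 (by decide +kernel)
theorem L3281 : W_49 (nat_lit 8) (nat_lit 0x600020001200090004000600000000000000000000000) (nat_lit 0x0) (nat_lit 0x900060001c001c001e000400000000000000) := T_49 (nat_lit 75) (nat_lit 92) (nat_lit 4) (nat_lit 8) (nat_lit 8) L3280 (by decide +kernel)
theorem L3282 : W_49 (nat_lit 9) (nat_lit 0x600020001200090004000400000000000000000000000) (nat_lit 0x0) (nat_lit 0x900060001c003c003e000400000000000000) := T_49 (nat_lit 93) (nat_lit 77) (nat_lit 6) (nat_lit 8) (nat_lit 8) L3281 (by decide +kernel)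
theorem L3283 : W_49 (nat_lit 10) (nat_lit 0x600020001200090004000000000000000000000000000) (nat_lit 0x0) (nat_lit 0x900060009c007c003e000400000000000000) := T_49 (nat_lit 94) (nat_lit 111) (nat_lit 6) (nat_lit 8) (nat_lit 9) L3282 (by decide +kernel)
theorem L3284 : W_49 (nat_lit 11) (nat_lit 0x400020001200090004000000000000000000000000000) (nat_lit 0x0) (nat_lit 0x4000200000000900060009c007c003e000400000000000000) := T_49 (nat_lit 177) (nat_lit 194) (nat_lit 5) (nat_lit 8) (nat_lit 7) L3283 (by decide +kernel)
theorem L3285 : W_49 (nat_lit 2) (nat_lit 0x40004000200012000d000c000000000000000000000000000) (nat_lit 0x0) (nat_lit 0x80008000000000000800000000000000000000000000000000000) := D_49 (nat_lit 195) (nat_lit 143) (nat_lit 211) (nat_lit 4) (nat_lit 8) (nat_lit 11) (nat_lit 5) (nat_lit 8) (nat_lit 8) (by decide +kernel)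
theorem L3286 : W_49 (nat_lit 3) (nat_lit 0x4000200012000d000c000000000000000000000000000) (nat_lit 0x0) (nat_lit 0x8000c000200000000800000000000000000000000000000000000) := T_49 (nat_lit 194) (nat_lit 177) (nat_lit 5) (nat_lit 8) (nat_lit 7) L3285 (by decide +kernel)
theorem L3287 : W_49 (nat_lit 4) (nat_lit 0x40002000120009000c000000000000000000000000000) (nat_lit 0x0) (nat_lit 0x8000c000200000000800060000000000000000000000000000000) := T_49 (nat_lit 126) (nat_lit 125) (nat_lit 2) (nat_lit 5) (nat_lit 7) L3286 (by decide +kernel)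
theorem L3288 : W_49 (nat_lit 5) (nat_lit 0x400020001200090004000000000000000000000000000) (nat_lit 0x0) (nat_lit 0x8000c000200000000800060008000400000000000000000000000) := T_49 (nat_lit 111) (nat_lit 94) (nat_lit 6) (nat_lit 8) (nat_lit 9) L3287 (by decide +kernel)
theorem L3289 : W_49 (nat_lit 2) (nat_lit 0x1f0004800200012000f8004400000000000000000000000000) (nat_lit 0x0) (nat_lit 0x70000000000000000000000000000000000000000000000000000) := D_49 (nat_lit 209) (nat_lit 210) (nat_lit 208) (nat_lit 1) (nat_lit 9) (nat_lit 11) (nat_lit 1) (nat_lit 8) (nat_lit 11) (by decide +kernel)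
theorem L3290 : W_49 (nat_lit 3) (nat_lit 0x1e0004800200012000f8004400000000000000000000000000) (nat_lit 0x0) (nat_lit 0x70001000040000000000000000000000000000000000000000000) := T_49 (nat_lit 192) (nat_lit 174) (nat_lit 0) (nat_lit 8) (nat_lit 11) L3289 (by decide +kernel)
theorem L3291 : W_49 (nat_lit 4) (nat_lit 0x1c0004800200012000f8004400000000000000000000000000) (nat_lit 0x0) (nat_lit 0x70003000140000000000000000000000000000000000000000000) := T_49 (nat_lit 193) (nat_lit 176) (nat_lit 0) (nat_lit 9) (nat_lit 11) L3290 (by decide +kernel)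
theorem L3292 : W_49 (nat_lit 5) (nat_lit 0x1c0004000200012000f8004400000000000000000000000000) (nat_lit 0x0) (nat_lit 0x700030001c0004000000000000000000000000000000000000000) := T_49 (nat_lit 175) (nat_lit 158) (nat_lit 4) (nat_lit 5) (nat_lit 10) L3291 (by decide +kernel)
theorem L3293 : W_49 (nat_lit 6) (nat_lit 0x1c0004000200012000f0004400000000000000000000000000) (nat_lit 0x0) (nat_lit 0x700030001c0004000000008000200000000000000000000000000) := T_49 (nat_lit 123) (nat_lit 105) (nat_lit 0) (nat_lit 7) (nat_lit 7) L3292 (by decide +kernel)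
theorem L3294 : W_49 (nat_lit 7) (nat_lit 0x1c0004000200012000f0004000000000000000000000000000) (nat_lit 0x0) (nat_lit 0x700030001c0004000000008000e00000000000000000000000000) := T_49 (nat_lit 106) (nat_lit 107) (nat_lit 0) (nat_lit 8) (nat_lit 7) L3293 (by decide +kernel)
theorem L3295 : W_49 (nat_lit 8) (nat_lit 0x1c0004000200012000d0004000000000000000000000000000) (nat_lit 0x0) (nat_lit 0x700030001c0004000100028000e00000000000000000000000000) := T_49 (nat_lit 125) (nat_lit 140) (nat_lit 1) (nat_lit 8) (nat_lit 7) L3294 (by decide +kernel)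
theorem L3296 : W_49 (nat_lit 9) (nat_lit 0xc0004000200012000d0004000000000000000000000000000) (nat_lit 0x0) (nat_lit 0x2700130001c0004000100028000e00000000000000000000000000) := T_49 (nat_lit 196) (nat_lit 213) (nat_lit 7) (nat_lit 8) (nat_lit 8) L3295 (by decide +kernel)
theorem L3297 : W_49 (nat_lit 10) (nat_lit 0xc000400020001200090004000000000000000000000000000) (nat_lit 0x0) (nat_lit 0x2700130001c0004000900068000e00000000000000000000000000) := T_49 (nat_lit 126) (nat_lit 143) (nat_lit 4) (nat_lit 8) (nat_lit 11) L3296 (by decide +kernel)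
theorem L3298 : W_49 (nat_lit 11) (nat_lit 0x4000400020001200090004000000000000000000000000000) (nat_lit 0x0) (nat_lit 0x2f001b0001c0004000900068000e00000000000000000000000000) := T_49 (nat_lit 195) (nat_lit 211) (nat_lit 5) (nat_lit 8) (nat_lit 8) L3297 (by decide +kernel)
theorem L3299 : W_49 (nat_lit 12) (nat_lit 0x400020001200090004000000000000000000000000000) (nat_lit 0x0) (nat_lit 0x2f001f0003c0004000900068000e00000000000000000000000000) := T_49 (nat_lit 194) (nat_lit 177) (nat_lit 5) (nat_lit 8) (nat_lit 7) L3298 (by decide +kernel)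
theorem L3300 : W_49 (nat_lit 2) (nat_lit 0x4000200012000f000480060001c000000000000000000) (nat_lit 0x0) (nat_lit 0x10000c0000000000000000000000) := D_49 (nat_lit 91) (nat_lit 108) (nat_lit 90) (nat_lit 5) (nat_lit 6) (nat_lit 4) (nat_lit 6) (nat_lit 5) (nat_lit 8) (by decide +kernel)
theorem L3301 : W_49 (nat_lit 3) (nat_lit 0x4000200012000f000400060001c000000000000000000) (nat_lit 0x0) (nat_lit 0x1c000c0000000000000000000000) := T_49 (nat_lit 107) (nat_lit 106) (nat_lit 0) (nat_lit 8) (nat_lit 7) L3300 (by decide +kernel)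
theorem L3302 : W_49 (nat_lit 4) (nat_lit 0x4000200012000d000400060001c000000000000000000) (nat_lit 0x0) (nat_lit 0x100020001c000c0000000000000000000000) := T_49 (nat_lit 125) (nat_lit 140) (nat_lit 1) (nat_lit 8) (nat_lit 7) L3301 (by decide +kernel)
theorem L3303 : W_49 (nat_lit 5) (nat_lit 0x40002000120009000400060001c000000000000000000) (nat_lit 0x0) (nat_lit 0x900060001c000c0000000000000000000000) := T_49 (nat_lit 126) (nat_lit 143) (nat_lit 5) (nat_lit 8) (nat_lit 4) L3302 (by decide +kernel)
theorem L3304 : W_49 (nat_lit 6) (nat_lit 0x400020001200090004000600018000000000000000000) (nat_lit 0x0) (nat_lit 0x900060001c000c0006000000000000000000) := T_49 (nat_lit 74) (nat_lit 73) (nat_lit 3) (nat_lit 5) (nat_lit 4) L3303 (by decide +kernel)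
theorem L3305 : W_49 (nat_lit 7) (nat_lit 0x400020001200090004000600008000000000000000000) (nat_lit 0x0) (nat_lit 0x900060001c000c0016000400000000000000) := T_49 (nat_lit 76) (nat_lit 58) (nat_lit 4) (nat_lit 8) (nat_lit 7) L3304 (by decide +kernel)
theorem L3306 : W_49 (nat_lit 8) (nat_lit 0x400020001200090004000600000000000000000000000) (nat_lit 0x0) (nat_lit 0x900060001c001c001e000400000000000000) := T_49 (nat_lit 75) (nat_lit 92) (nat_lit 4) (nat_lit 8) (nat_lit 8) L3305 (by decide +kernel)
theorem L3307 : W_49 (nat_lit 9) (nat_lit 0x400020001200090004000400000000000000000000000) (nat_lit 0x0) (nat_lit 0x900060001c003c003e000400000000000000) := T_49 (nat_lit 93) (nat_lit 77) (nat_lit 6) (nat_lit 8) (nat_lit 8) L3306 (by decide +kernel)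
theorem L3308 : W_49 (nat_lit 10) (nat_lit 0x400020001200090004000000000000000000000000000) (nat_lit 0x0) (nat_lit 0x900060009c007c003e000400000000000000) := T_49 (nat_lit 94) (nat_lit 111) (nat_lit 6) (nat_lit 8) (nat_lit 9) L3307 (by decide +kernel)
theorem L3309 : W_49 (nat_lit 2) (nat_lit 0x400026001200090004800040000000000000000000000) (nat_lit 0x0) (nat_lit 0x1000080004000000000000000000) := D_49 (nat_lit 91) (nat_lit 108) (nat_lit 74) (nat_lit 6) (nat_lit 5) (nat_lit 9) (nat_lit 6) (nat_lit 5) (nat_lit 8) (by decide +kernel)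
theorem L3310 : W_49 (nat_lit 3) (nat_lit 0x400026001200090004800000000000000000000000000) (nat_lit 0x0) (nat_lit 0x1000000010000c0004000000000000000000) := T_49 (nat_lit 90) (nat_lit 140) (nat_lit 5) (nat_lit 5) (nat_lit 5) L3309 (by decide +kernel)
theorem L3311 : W_49 (nat_lit 4) (nat_lit 0x400024001200090004800000000000000000000000000) (nat_lit 0x0) (nat_lit 0x400020001000000010000c0004000000000000000000) := T_49 (nat_lit 157) (nat_lit 174) (nat_lit 5) (nat_lit 5) (nat_lit 6) L3310 (by decide +kernel)
theorem L3312 : W_49 (nat_lit 2) (nat_lit 0x78002000120009000c000000000000000000000000000) (nat_lit 0x0) (nat_lit 0x2000000006000000000000000000000000000000000000000) := D_49 (nat_lit 158) (nat_lit 157) (nat_lit 193) (nat_lit 0) (nat_lit 8) (nat_lit 10) (nat_lit 7) (nat_lit 5) (nat_lit 7) (by decide +kernel)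
theorem L3313 : W_49 (nat_lit 3) (nat_lit 0x68002000120009000c000000000000000000000000000) (nat_lit 0x0) (nat_lit 0x2000100046000000000000000000000000000000000000000) := T_49 (nat_lit 176) (nat_lit 162) (nat_lit 2) (nat_lit 5) (nat_lit 10) L3312 (by decide +kernel)
theorem L3314 : W_49 (nat_lit 4) (nat_lit 0x48002000120009000c000000000000000000000000000) (nat_lit 0x0) (nat_lit 0x6000300046000000000000000000000000000000000000000) := T_49 (nat_lit 177) (nat_lit 194) (nat_lit 5) (nat_lit 8) (nat_lit 7) L3313 (by decide +kernel)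
theorem L3315 : W_49 (nat_lit 5) (nat_lit 0x480020001200090004000000000000000000000000000) (nat_lit 0x0) (nat_lit 0x6000300046000000000008000400000000000000000000000) := T_49 (nat_lit 111) (nat_lit 94) (nat_lit 6) (nat_lit 8) (nat_lit 9) L3314 (by decide +kernel)
theorem L3316 : W_49 (nat_lit 2) (nat_lit 0x58002400120009000c000000000000000000000000000) (nat_lit 0x0) (nat_lit 0x200042000000000000000000000000000000000000000) := D_49 (nat_lit 177) (nat_lit 157) (nat_lit 162) (nat_lit 0) (nat_lit 8) (nat_lit 10) (nat_lit 2) (nat_lit 5) (nat_lit 10) (by decide +kernel)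
theorem L3317 : W_49 (nat_lit 3) (nat_lit 0x48002400120009000c000000000000000000000000000) (nat_lit 0x0) (nat_lit 0x2000300042000000000000000000000000000000000000000) := T_49 (nat_lit 176) (nat_lit 193) (nat_lit 7) (nat_lit 5) (nat_lit 7) L3316 (by decide +kernel)
theorem L3318 : W_49 (nat_lit 4) (nat_lit 0x480024001200090004000000000000000000000000000) (nat_lit 0x0) (nat_lit 0x2000300042000000000008000400000000000000000000000) := T_49 (nat_lit 111) (nat_lit 94) (nat_lit 6) (nat_lit 8) (nat_lit 9) L3317 (by decide +kernel)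
theorem L3319 : W_49 (nat_lit 2) (nat_lit 0x4c0024001200090004800000000000000000000000000) (nat_lit 0x0) (nat_lit 0x8000400020000000000000000000000) := D_49 (nat_lit 106) (nat_lit 89) (nat_lit 123) (nat_lit 4) (nat_lit 5) (nat_lit 9) (nat_lit 4) (nat_lit 5) (nat_lit 10) (by decide +kernel)
theorem L3320 : W_49 (nat_lit 3) (nat_lit 0x4c0024001200090004000000000000000000000000000) (nat_lit 0x0) (nat_lit 0x2000000008000c00020000000000000000000000) := T_49 (nat_lit 107) (nat_lit 157) (nat_lit 5) (nat_lit 5) (nat_lit 6) L3319 (by decide +kernel)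
theorem L3321 : W_49 (nat_lit 4) (nat_lit 0x480024001200090004000000000000000000000000000) (nat_lit 0x0) (nat_lit 0x800040002000000008000c00020000000000000000000000) := T_49 (nat_lit 174) (nat_lit 191) (nat_lit 5) (nat_lit 5) (nat_lit 7) L3320 (by decide +kernel)
theorem L3322 : W_49 (nat_lit 2) (nat_lit 0x5c002400120009000c800000000000000000000000000) (nat_lit 0x0) (nat_lit 0x8000400020000000000000000000000) := D_49 (nat_lit 106) (nat_lit 123) (nat_lit 89) (nat_lit 4) (nat_lit 5) (nat_lit 10) (nat_lit 4) (nat_lit 5) (nat_lit 9) (by decide +kernel)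
theorem L3323 : W_49 (nat_lit 3) (nat_lit 0x5c002400120009000c000000000000000000000000000) (nat_lit 0x0) (nat_lit 0x8000000008000c00020000000000000000000000) := T_49 (nat_lit 107) (nat_lit 159) (nat_lit 7) (nat_lit 5) (nat_lit 6) L3322 (by decide +kernel)
theorem L3324 : W_49 (nat_lit 4) (nat_lit 0x4c002400120009000c000000000000000000000000000) (nat_lit 0x0) (nat_lit 0x2000100008000000008000c00020000000000000000000000) := T_49 (nat_lit 176) (nat_lit 193) (nat_lit 7) (nat_lit 5) (nat_lit 7) L3323 (by decide +kernel)
theorem L3325 : W_49 (nat_lit 5) (nat_lit 0x48002400120009000c000000000000000000000000000) (nat_lit 0x0) (nat_lit 0x2800140008000000008000c00020000000000000000000000) := T_49 (nat_lit 174) (nat_lit 191) (nat_lit 5) (nat_lit 5) (nat_lit 7) L3324 (by decide +kernel)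
theorem L3326 : W_49 (nat_lit 6) (nat_lit 0x480024001200090004000000000000000000000000000) (nat_lit 0x0) (nat_lit 0x2800140008000000008008c00420000000000000000000000) := T_49 (nat_lit 111) (nat_lit 94) (nat_lit 6) (nat_lit 8) (nat_lit 9) L3325 (by decide +kernel)
theorem L3327 : W_49 (nat_lit 7) (nat_lit 0x480020001200090004000000000000000000000000000) (nat_lit 0x0) (nat_lit 0x280034004e000000008008c00420000000000000000000000) := Q_49 (nat_lit 158) (C_49 L3318 (C_49 L3321 (C_49 L3326 N_49))) (by decide +kernel)
theorem L3328 : W_49 (nat_lit 2) (nat_lit 0x1f000480020001a0009000c000000000000000000000000000) (nat_lit 0x0) (nat_lit 0x60000000000004000000000000000000000000000000000000000) := D_49 (nat_lit 210) (nat_lit 209) (nat_lit 158) (nat_lit 1) (nat_lit 9) (nat_lit 11) (nat_lit 7) (nat_lit 5) (nat_lit 8) (by decide +kernel)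
theorem L3329 : W_49 (nat_lit 3) (nat_lit 0x1e000480020001a0009000c000000000000000000000000000) (nat_lit 0x0) (nat_lit 0x60001000040004000000000000000000000000000000000000000) := T_49 (nat_lit 192) (nat_lit 174) (nat_lit 0) (nat_lit 8) (nat_lit 11) L3328 (by decide +kernel)
theorem L3330 : W_49 (nat_lit 4) (nat_lit 0x1c000480020001a0009000c000000000000000000000000000) (nat_lit 0x0) (nat_lit 0x60003000140004000000000000000000000000000000000000000) := T_49 (nat_lit 193) (nat_lit 176) (nat_lit 0) (nat_lit 9) (nat_lit 11) L3329 (by decide +kernel)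
theorem L3331 : W_49 (nat_lit 5) (nat_lit 0xc000480020001a0009000c000000000000000000000000000) (nat_lit 0x0) (nat_lit 0x260013000140004000000000000000000000000000000000000000) := T_49 (nat_lit 196) (nat_lit 213) (nat_lit 7) (nat_lit 8) (nat_lit 8) L3330 (by decide +kernel)
theorem L3332 : W_49 (nat_lit 6) (nat_lit 0xc00048002000120009000c000000000000000000000000000) (nat_lit 0x0) (nat_lit 0x260013000140004000800040000000000000000000000000000000) := T_49 (nat_lit 143) (nat_lit 126) (nat_lit 4) (nat_lit 8) (nat_lit 11) L3331 (by decide +kernel)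
theorem L3333 : W_49 (nat_lit 7) (nat_lit 0x400048002000120009000c000000000000000000000000000) (nat_lit 0x0) (nat_lit 0x2e001b000140004000800040000000000000000000000000000000) := T_49 (nat_lit 195) (nat_lit 211) (nat_lit 5) (nat_lit 8) (nat_lit 8) L3332 (by decide +kernel)
theorem L3334 : W_49 (nat_lit 8) (nat_lit 0x48002000120009000c000000000000000000000000000) (nat_lit 0x0) (nat_lit 0x2e001f000340004000800040000000000000000000000000000000) := T_49 (nat_lit 194) (nat_lit 177) (nat_lit 5) (nat_lit 8) (nat_lit 7) L3333 (by decide +kernel)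
theorem L3335 : W_49 (nat_lit 9) (nat_lit 0x480020001200090004000000000000000000000000000) (nat_lit 0x0) (nat_lit 0x2e001f000340004000800040008000400000000000000000000000) := T_49 (nat_lit 111) (nat_lit 94) (nat_lit 6) (nat_lit 8) (nat_lit 9) L3334 (by decide +kernel)
theorem L3336 : W_49 (nat_lit 2) (nat_lit 0x780020001200090004000000000000000000000000000) (nat_lit 0x0) (nat_lit 0x2000000006000000000000000000000000000000000000000) := D_49 (nat_lit 158) (nat_lit 157) (nat_lit 193) (nat_lit 0) (nat_lit 8) (nat_lit 10) (nat_lit 7) (nat_lit 5) (nat_lit 7) (by decide +kernel)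
theorem L3337 : W_49 (nat_lit 3) (nat_lit 0x680020001200090004000000000000000000000000000) (nat_lit 0x0) (nat_lit 0x2000100046000000000000000000000000000000000000000) := T_49 (nat_lit 176) (nat_lit 162) (nat_lit 2) (nat_lit 5) (nat_lit 10) L3336 (by decide +kernel)
theorem L3338 : W_49 (nat_lit 4) (nat_lit 0x480020001200090004000000000000000000000000000) (nat_lit 0x0) (nat_lit 0x6000300046000000000000000000000000000000000000000) := T_49 (nat_lit 177) (nat_lit 194) (nat_lit 5) (nat_lit 8) (nat_lit 7) L3337 (by decide +kernel)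
theorem L3339 : W_49 (nat_lit 2) (nat_lit 0x80058002400120009800c000000000000000000000000000) (nat_lit 0x0) (nat_lit 0x10001000000000000100000000000000000000000000000000000) := D_49 (nat_lit 192) (nat_lit 208) (nat_lit 140) (nat_lit 5) (nat_lit 5) (nat_lit 8) (nat_lit 4) (nat_lit 5) (nat_lit 11) (by decide +kernel)
theorem L3340 : W_49 (nat_lit 3) (nat_lit 0x80058002400120009000c000000000000000000000000000) (nat_lit 0x0) (nat_lit 0x10001000000000000100008000400000000000000000000000000) := T_49 (nat_lit 123) (nat_lit 106) (nat_lit 4) (nat_lit 5) (nat_lit 10) L3339 (by decide +kernel)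
theorem L3341 : W_49 (nat_lit 4) (nat_lit 0x58002400120009000c000000000000000000000000000) (nat_lit 0x0) (nat_lit 0x10001800040000000100008000400000000000000000000000000) := T_49 (nat_lit 191) (nat_lit 174) (nat_lit 5) (nat_lit 5) (nat_lit 7) L3340 (by decide +kernel)
theorem L3342 : W_49 (nat_lit 5) (nat_lit 0x580024001200090004000000000000000000000000000) (nat_lit 0x0) (nat_lit 0x10001800040000000100008008400400000000000000000000000) := T_49 (nat_lit 111) (nat_lit 94) (nat_lit 6) (nat_lit 8) (nat_lit 9) L3341 (by decide +kernel)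
theorem L3343 : W_49 (nat_lit 6) (nat_lit 0x480024001200090004000000000000000000000000000) (nat_lit 0x0) (nat_lit 0x10003800140000000100008008400400000000000000000000000) := T_49 (nat_lit 176) (nat_lit 193) (nat_lit 7) (nat_lit 5) (nat_lit 7) L3342 (by decide +kernel)
theorem L3344 : W_49 (nat_lit 2) (nat_lit 0x580024001200090004800000000000000000000000000) (nat_lit 0x0) (nat_lit 0x8000400020000000000000000000000) := D_49 (nat_lit 106) (nat_lit 123) (nat_lit 89) (nat_lit 4) (nat_lit 5) (nat_lit 10) (nat_lit 4) (nat_lit 5) (nat_lit 9) (by decide +kernel)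
theorem L3345 : W_49 (nat_lit 3) (nat_lit 0x580024001200090004000000000000000000000000000) (nat_lit 0x0) (nat_lit 0x8000000008000c00020000000000000000000000) := T_49 (nat_lit 107) (nat_lit 159) (nat_lit 7) (nat_lit 5) (nat_lit 6) L3344 (by decide +kernel)
theorem L3346 : W_49 (nat_lit 4) (nat_lit 0x480024001200090004000000000000000000000000000) (nat_lit 0x0) (nat_lit 0x2000100008000000008000c00020000000000000000000000) := T_49 (nat_lit 176) (nat_lit 193) (nat_lit 7) (nat_lit 5) (nat_lit 7) L3345 (by decide +kernel)
theorem L3347 : W_49 (nat_lit 2) (nat_lit 0x58002400120009000c800000000000000000000000000) (nat_lit 0x0) (nat_lit 0x800040002000000000000000000000000000000000000000) := D_49 (nat_lit 174) (nat_lit 191) (nat_lit 157) (nat_lit 5) (nat_lit 5) (nat_lit 7) (nat_lit 5) (nat_lit 5) (nat_lit 6) (by decide +kernel)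
theorem L3348 : W_49 (nat_lit 3) (nat_lit 0x58002400120009000c000000000000000000000000000) (nat_lit 0x0) (nat_lit 0x80004000a000000000000800000000000000000000000000) := T_49 (nat_lit 107) (nat_lit 159) (nat_lit 7) (nat_lit 5) (nat_lit 6) L3347 (by decide +kernel)
theorem L3349 : W_49 (nat_lit 4) (nat_lit 0x48002400120009000c000000000000000000000000000) (nat_lit 0x0) (nat_lit 0x280014000a000000000000800000000000000000000000000) := T_49 (nat_lit 176) (nat_lit 193) (nat_lit 7) (nat_lit 5) (nat_lit 7) L3348 (by decide +kernel)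
theorem L3350 : W_49 (nat_lit 5) (nat_lit 0x480024001200090004000000000000000000000000000) (nat_lit 0x0) (nat_lit 0x280014000a000000000008800400000000000000000000000) := T_49 (nat_lit 111) (nat_lit 94) (nat_lit 6) (nat_lit 8) (nat_lit 9) L3349 (by decide +kernel)
theorem L3351 : W_49 (nat_lit 7) (nat_lit 0x480020001200090004000000000000000000000000000) (nat_lit 0x0) (nat_lit 0x1000380014000e000100008008c00420000000000000000000000) := Q_49 (nat_lit 158) (C_49 L3326 (C_49 L3321 (C_49 L3343 (C_49 L3346 (C_49 L3350 N_49))))) (by decide +kernel)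
theorem L3352 : W_49 (nat_lit 2) (nat_lit 0x2000600010006c002400120009800c000000000000000000000000000) (nat_lit 0x0) (nat_lit 0x4000400000000000000002000000000000000000000000000000000000000) := D_49 (nat_lit 226) (nat_lit 157) (nat_lit 242) (nat_lit 4) (nat_lit 5) (nat_lit 13) (nat_lit 5) (nat_lit 5) (nat_lit 10) (by decide +kernel)
theorem L3353 : W_49 (nat_lit 3) (nat_lit 0x600010006c002400120009800c000000000000000000000000000) (nat_lit 0x0) (nat_lit 0x4000600010000000000002000000000000000000000000000000000000000) := T_49 (nat_lit 225) (nat_lit 208) (nat_lit 5) (nat_lit 5) (nat_lit 9) L3352 (by decide +kernel)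
theorem L3354 : W_49 (nat_lit 4) (nat_lit 0x400010006c002400120009800c000000000000000000000000000) (nat_lit 0x0) (nat_lit 0x4000e00030000000000002000000000000000000000000000000000000000) := T_49 (nat_lit 209) (nat_lit 227) (nat_lit 7) (nat_lit 5) (nat_lit 9) L3353 (by decide +kernel)
theorem L3355 : W_49 (nat_lit 5) (nat_lit 0x10006c002400120009800c000000000000000000000000000) (nat_lit 0x0) (nat_lit 0x4000e00070002000000002000000000000000000000000000000000000000) := T_49 (nat_lit 210) (nat_lit 193) (nat_lit 7) (nat_lit 5) (nat_lit 8) L3354 (by decide +kernel)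
theorem L3356 : W_49 (nat_lit 6) (nat_lit 0x6c002400120009800c000000000000000000000000000) (nat_lit 0x0) (nat_lit 0x4000e00070003000000002000100000000000000000000000000000000000) := T_49 (nat_lit 192) (nat_lit 140) (nat_lit 4) (nat_lit 5) (nat_lit 11) L3355 (by decide +kernel)
theorem L3357 : W_49 (nat_lit 7) (nat_lit 0x68002400120009800c000000000000000000000000000) (nat_lit 0x0) (nat_lit 0x4000e00070003800040002000100000000000000000000000000000000000) := T_49 (nat_lit 174) (nat_lit 191) (nat_lit 5) (nat_lit 5) (nat_lit 7) L3356 (by decide +kernel)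
theorem L3358 : W_49 (nat_lit 8) (nat_lit 0x68002400120009000c000000000000000000000000000) (nat_lit 0x0) (nat_lit 0x4000e00070003800040002000100008000400000000000000000000000000) := T_49 (nat_lit 123) (nat_lit 106) (nat_lit 4) (nat_lit 5) (nat_lit 10) L3357 (by decide +kernel)
theorem L3359 : W_49 (nat_lit 9) (nat_lit 0x48002400120009000c000000000000000000000000000) (nat_lit 0x0) (nat_lit 0x4000e00070007800240002000100008000400000000000000000000000000) := T_49 (nat_lit 177) (nat_lit 194) (nat_lit 5) (nat_lit 8) (nat_lit 7) L3358 (by decide +kernel)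
theorem L3360 : W_49 (nat_lit 10) (nat_lit 0x480024001200090004000000000000000000000000000) (nat_lit 0x0) (nat_lit 0x4000e00070007800240002000100008008400400000000000000000000000) := T_49 (nat_lit 111) (nat_lit 94) (nat_lit 6) (nat_lit 8) (nat_lit 9) L3359 (by decide +kernel)
theorem L3361 : W_49 (nat_lit 2) (nat_lit 0x5000100068002400120009800c000000000000000000000000000) (nat_lit 0x0) (nat_lit 0xa00020000000000000000000000000000000000000000000000000000) := D_49 (nat_lit 209) (nat_lit 227) (nat_lit 225) (nat_lit 7) (nat_lit 5) (nat_lit 9) (nat_lit 5) (nat_lit 5) (nat_lit 9) (by decide +kernel)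
theorem L3362 : W_49 (nat_lit 3) (nat_lit 0x4000100068002400120009800c000000000000000000000000000) (nat_lit 0x0) (nat_lit 0xa00030000800000000000000000000000000000000000000000000000) := T_49 (nat_lit 208) (nat_lit 191) (nat_lit 5) (nat_lit 5) (nat_lit 8) L3361 (by decide +kernel)
theorem L3363 : W_49 (nat_lit 4) (nat_lit 0x100068002400120009800c000000000000000000000000000) (nat_lit 0x0) (nat_lit 0xa00070002800000000000000000000000000000000000000000000000) := T_49 (nat_lit 210) (nat_lit 193) (nat_lit 7) (nat_lit 5) (nat_lit 8) L3362 (by decide +kernel)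
theorem L3364 : W_49 (nat_lit 5) (nat_lit 0x1000680024001200098004000000000000000000000000000) (nat_lit 0x0) (nat_lit 0xa00070002800000000000000000008000400000000000000000000000) := T_49 (nat_lit 111) (nat_lit 94) (nat_lit 6) (nat_lit 8) (nat_lit 9) L3363 (by decide +kernel)
theorem L3365 : W_49 (nat_lit 6) (nat_lit 0x680024001200098004000000000000000000000000000) (nat_lit 0x0) (nat_lit 0xa00070003800000000000100000008000400000000000000000000000) := T_49 (nat_lit 192) (nat_lit 140) (nat_lit 4) (nat_lit 5) (nat_lit 11) L3364 (by decide +kernel)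
theorem L3366 : W_49 (nat_lit 7) (nat_lit 0x480024001200098004000000000000000000000000000) (nat_lit 0x0) (nat_lit 0xa00070007800200000000100000008000400000000000000000000000) := T_49 (nat_lit 177) (nat_lit 194) (nat_lit 5) (nat_lit 8) (nat_lit 7) L3365 (by decide +kernel)
theorem L3367 : W_49 (nat_lit 8) (nat_lit 0x480024001200090004000000000000000000000000000) (nat_lit 0x0) (nat_lit 0xa00070007800200000000100008008400400000000000000000000000) := T_49 (nat_lit 123) (nat_lit 106) (nat_lit 4) (nat_lit 5) (nat_lit 10) L3366 (by decide +kernel)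
theorem L3368 : W_49 (nat_lit 2) (nat_lit 0x68002600120009000cc00040000000000000000000000) (nat_lit 0x0) (nat_lit 0x1000080004000000000000000000) := D_49 (nat_lit 91) (nat_lit 108) (nat_lit 74) (nat_lit 6) (nat_lit 5) (nat_lit 9) (nat_lit 6) (nat_lit 5) (nat_lit 8) (by decide +kernel)
theorem L3369 : W_49 (nat_lit 3) (nat_lit 0x68002600120009000cc00000000000000000000000000) (nat_lit 0x0) (nat_lit 0x1000000010000c0004000000000000000000) := T_49 (nat_lit 90) (nat_lit 140) (nat_lit 5) (nat_lit 5) (nat_lit 5) L3368 (by decide +kernel)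
theorem L3370 : W_49 (nat_lit 4) (nat_lit 0x68002400120009000cc00000000000000000000000000) (nat_lit 0x0) (nat_lit 0x400020001000000010000c0004000000000000000000) := T_49 (nat_lit 157) (nat_lit 174) (nat_lit 5) (nat_lit 5) (nat_lit 6) L3369 (by decide +kernel)
theorem L3371 : W_49 (nat_lit 5) (nat_lit 0x68002400120009000c400000000000000000000000000) (nat_lit 0x0) (nat_lit 0x400020001000000018000e0004000000000000000000) := T_49 (nat_lit 107) (nat_lit 89) (nat_lit 4) (nat_lit 5) (nat_lit 9) L3370 (by decide +kernel)
theorem L3372 : W_49 (nat_lit 6) (nat_lit 0x68002400120009000c000000000000000000000000000) (nat_lit 0x0) (nat_lit 0x40002000100008001c000e0004000000000000000000) := T_49 (nat_lit 106) (nat_lit 123) (nat_lit 4) (nat_lit 5) (nat_lit 10) L3371 (by decide +kernel)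
theorem L3373 : W_49 (nat_lit 7) (nat_lit 0x48002400120009000c000000000000000000000000000) (nat_lit 0x0) (nat_lit 0x4000240002000100008001c000e0004000000000000000000) := T_49 (nat_lit 177) (nat_lit 194) (nat_lit 5) (nat_lit 8) (nat_lit 7) L3372 (by decide +kernel)
theorem L3374 : W_49 (nat_lit 8) (nat_lit 0x480024001200090004000000000000000000000000000) (nat_lit 0x0) (nat_lit 0x4000240002000100008009c004e0004000000000000000000) := T_49 (nat_lit 111) (nat_lit 94) (nat_lit 6) (nat_lit 8) (nat_lit 9) L3373 (by decide +kernel)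
theorem L3375 : W_49 (nat_lit 2) (nat_lit 0x4c0024001200090004c004c0000000000000000000000) (nat_lit 0x0) (nat_lit 0x300020000000000000000000) := D_49 (nat_lit 93) (nat_lit 77) (nat_lit 92) (nat_lit 6) (nat_lit 8) (nat_lit 8) (nat_lit 1) (nat_lit 8) (nat_lit 5) (by decide +kernel)
theorem L3376 : W_49 (nat_lit 3) (nat_lit 0x4c0024001200090004c00480000000000000000000000) (nat_lit 0x0) (nat_lit 0x340024000000000000000000) := T_49 (nat_lit 90) (nat_lit 74) (nat_lit 6) (nat_lit 5) (nat_lit 8) L3375 (by decide +kernel)
theorem L3377 : W_49 (nat_lit 4) (nat_lit 0x4c0024001200090004c00080000000000000000000000) (nat_lit 0x0) (nat_lit 0x8000740024000000000000000000) := T_49 (nat_lit 94) (nat_lit 111) (nat_lit 6) (nat_lit 8) (nat_lit 9) L3376 (by decide +kernel)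
theorem L3378 : W_49 (nat_lit 5) (nat_lit 0x4c0024001200090004c00000000000000000000000000) (nat_lit 0x0) (nat_lit 0x90007c0024000000000000000000) := T_49 (nat_lit 91) (nat_lit 108) (nat_lit 6) (nat_lit 5) (nat_lit 9) L3377 (by decide +kernel)
theorem L3379 : W_49 (nat_lit 6) (nat_lit 0x4c0024001200090004800000000000000000000000000) (nat_lit 0x0) (nat_lit 0x94007e0024000000000000000000) := T_49 (nat_lit 106) (nat_lit 89) (nat_lit 4) (nat_lit 5) (nat_lit 9) L3378 (by decide +kernel)
theorem L3380 : W_49 (nat_lit 7) (nat_lit 0x4c0024001200090004000000000000000000000000000) (nat_lit 0x0) (nat_lit 0x2000000000009c007e0024000000000000000000) := T_49 (nat_lit 107) (nat_lit 157) (nat_lit 5) (nat_lit 5) (nat_lit 6) L3379 (by decide +kernel)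
theorem L3381 : W_49 (nat_lit 8) (nat_lit 0x480024001200090004000000000000000000000000000) (nat_lit 0x0) (nat_lit 0x800040002000000000009c007e0024000000000000000000) := T_49 (nat_lit 174) (nat_lit 191) (nat_lit 5) (nat_lit 5) (nat_lit 7) L3380 (by decide +kernel)
theorem L3382 : W_49 (nat_lit 2) (nat_lit 0x1d0004c0026001a0009000c000000000000000000000000000) (nat_lit 0x0) (nat_lit 0x20000000000000000100008000000000000000000000000000000) := D_49 (nat_lit 140) (nat_lit 123) (nat_lit 209) (nat_lit 7) (nat_lit 4) (nat_lit 7) (nat_lit 4) (nat_lit 5) (nat_lit 12) (by decide +kernel)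
theorem L3383 : W_49 (nat_lit 3) (nat_lit 0x1c0004c0026001a0009000c000000000000000000000000000) (nat_lit 0x0) (nat_lit 0x20003000000000000100008000000000000000000000000000000) := T_49 (nat_lit 192) (nat_lit 193) (nat_lit 0) (nat_lit 8) (nat_lit 11) L3382 (by decide +kernel)
theorem L3384 : W_49 (nat_lit 4) (nat_lit 0xc0004c0026001a0009000c000000000000000000000000000) (nat_lit 0x0) (nat_lit 0x220013000000000000100008000000000000000000000000000000) := T_49 (nat_lit 196) (nat_lit 213) (nat_lit 7) (nat_lit 8) (nat_lit 8) L3383 (by decide +kernel)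
theorem L3385 : W_49 (nat_lit 5) (nat_lit 0xc0004c002600120009000c000000000000000000000000000) (nat_lit 0x0) (nat_lit 0x220013000000000000900048000000000000000000000000000000) := T_49 (nat_lit 143) (nat_lit 126) (nat_lit 4) (nat_lit 8) (nat_lit 11) L3384 (by decide +kernel)
theorem L3386 : W_49 (nat_lit 6) (nat_lit 0x40004c002600120009000c000000000000000000000000000) (nat_lit 0x0) (nat_lit 0x2a001b000000000000900048000000000000000000000000000000) := T_49 (nat_lit 195) (nat_lit 211) (nat_lit 5) (nat_lit 8) (nat_lit 8) L3385 (by decide +kernel)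
theorem L3387 : W_49 (nat_lit 7) (nat_lit 0x4c002600120009000c000000000000000000000000000) (nat_lit 0x0) (nat_lit 0x2a001f000200000000900048000000000000000000000000000000) := T_49 (nat_lit 194) (nat_lit 177) (nat_lit 5) (nat_lit 8) (nat_lit 7) L3386 (by decide +kernel)
theorem L3388 : W_49 (nat_lit 8) (nat_lit 0x4c002400120009000c000000000000000000000000000) (nat_lit 0x0) (nat_lit 0x2a001f000200002000900048000800000000000000000000000000) := T_49 (nat_lit 157) (nat_lit 107) (nat_lit 5) (nat_lit 5) (nat_lit 6) L3387 (by decide +kernel)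
theorem L3389 : W_49 (nat_lit 9) (nat_lit 0x48002400120009000c000000000000000000000000000) (nat_lit 0x0) (nat_lit 0x2a001f800240002000900048000800000000000000000000000000) := T_49 (nat_lit 174) (nat_lit 191) (nat_lit 5) (nat_lit 5) (nat_lit 7) L3388 (by decide +kernel)
theorem L3390 : W_49 (nat_lit 10) (nat_lit 0x480024001200090004000000000000000000000000000) (nat_lit 0x0) (nat_lit 0x2a001f800240002000900048008800400000000000000000000000) := T_49 (nat_lit 111) (nat_lit 94) (nat_lit 6) (nat_lit 8) (nat_lit 9) L3389 (by decide +kernel)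
theorem L3391 : W_49 (nat_lit 11) (nat_lit 0x480020001200090004000000000000000000000000000) (nat_lit 0x0) (nat_lit 0x4000e002f001f800240006000900048009c007e0024000000000000000000) := Q_49 (nat_lit 158) (C_49 L3321 (C_49 L3360 (C_49 L3367 (C_49 L3374 (C_49 L3381 (C_49 L3390 N_49)))))) (by decide +kernel)
theorem L3392 : W_49 (nat_lit 2) (nat_lit 0x88007c0020001200090004000000000000000000000000000) (nat_lit 0x0) (nat_lit 0x3000100000000000000000000000000000000000) := D_49 (nat_lit 157) (nat_lit 156) (nat_lit 140) (nat_lit 0) (nat_lit 7) (nat_lit 10) (nat_lit 6) (nat_lit 4) (nat_lit 11) (by decide +kernel)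
theorem L3393 : W_49 (nat_lit 3) (nat_lit 0x8800780020001200090004000000000000000000000000000) (nat_lit 0x0) (nat_lit 0x400040003000100000000000000000000000000000000000) := T_49 (nat_lit 174) (nat_lit 190) (nat_lit 1) (nat_lit 7) (nat_lit 10) L3392 (by decide +kernel)
theorem L3394 : W_49 (nat_lit 4) (nat_lit 0x800780020001200090004000000000000000000000000000) (nat_lit 0x0) (nat_lit 0x18400040003000100000000000000000000000000000000000) := T_49 (nat_lit 195) (nat_lit 196) (nat_lit 3) (nat_lit 5) (nat_lit 10) L3393 (by decide +kernel)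
theorem L3395 : W_49 (nat_lit 5) (nat_lit 0x780020001200090004000000000000000000000000000) (nat_lit 0x0) (nat_lit 0x19c00040003000100000000000000000000000000000000000) := T_49 (nat_lit 191) (nat_lit 192) (nat_lit 1) (nat_lit 8) (nat_lit 10) L3394 (by decide +kernel)
theorem L3396 : W_49 (nat_lit 6) (nat_lit 0x680020001200090004000000000000000000000000000) (nat_lit 0x0) (nat_lit 0x19c00140043000100000000000000000000000000000000000) := T_49 (nat_lit 176) (nat_lit 162) (nat_lit 2) (nat_lit 5) (nat_lit 10) L3395 (by decide +kernel)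
theorem L3397 : W_49 (nat_lit 7) (nat_lit 0x480020001200090004000000000000000000000000000) (nat_lit 0x0) (nat_lit 0x1dc00340043000100000000000000000000000000000000000) := T_49 (nat_lit 177) (nat_lit 194) (nat_lit 5) (nat_lit 8) (nat_lit 7) L3396 (by decide +kernel)
theorem L3398 : W_49 (nat_lit 12) (nat_lit 0x400020001200090004000000000000000000000000000) (nat_lit 0x0) (nat_lit 0x4000e002f001fc003c004f000900048009c007e0024000000000000000000) := Q_49 (nat_lit 175) (C_49 L3315 (C_49 L3327 (C_49 L3335 (C_49 L3338 (C_49 L3351 (C_49 L3391 (C_49 L3397 N_49))))))) (by decide +kernel)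
theorem L3399 : W_49 (nat_lit 15) (nat_lit 0x400020001200080004000000000000000000000000000) (nat_lit 0x0) (nat_lit 0x4004e003f001fc003c004f000900078009e01fe003f000400000000000000) := Q_49 (nat_lit 124) (C_49 L3274 (C_49 L3284 (C_49 L3288 (C_49 L3299 (C_49 L3308 (C_49 L3398 N_49)))))) (by decide +kernel)
theorem L3400 : W_49 (nat_lit 2) (nat_lit 0x8000400020001200090004000000000000000000000000000) (nat_lit 0x0) (nat_lit 0x80004000200000000000000000000000000000000000000000000) := D_49 (nat_lit 194) (nat_lit 177) (nat_lit 211) (nat_lit 5) (nat_lit 8) (nat_lit 7) (nat_lit 5) (nat_lit 8) (nat_lit 8) (by decide +kernel)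
theorem L3401 : W_49 (nat_lit 2) (nat_lit 0x580024001200098004000000000000000000000000000) (nat_lit 0x0) (nat_lit 0x200042000000000000000000000000000000000000000) := D_49 (nat_lit 177) (nat_lit 162) (nat_lit 157) (nat_lit 2) (nat_lit 5) (nat_lit 10) (nat_lit 0) (nat_lit 8) (nat_lit 10) (by decide +kernel)
theorem L3402 : W_49 (nat_lit 3) (nat_lit 0x480024001200098004000000000000000000000000000) (nat_lit 0x0) (nat_lit 0x2000300042000000000000000000000000000000000000000) := T_49 (nat_lit 176) (nat_lit 193) (nat_lit 7) (nat_lit 5) (nat_lit 7) L3401 (by decide +kernel)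
theorem L3403 : W_49 (nat_lit 4) (nat_lit 0x480024001200090004000000000000000000000000000) (nat_lit 0x0) (nat_lit 0x2000300042000000008000400000000000000000000000000) := T_49 (nat_lit 123) (nat_lit 106) (nat_lit 4) (nat_lit 5) (nat_lit 10) L3402 (by decide +kernel)
theorem L3404 : W_49 (nat_lit 2) (nat_lit 0x580024001200090004000000000000000000000000000) (nat_lit 0x0) (nat_lit 0x200042000000000000000000000000000000000000000) := D_49 (nat_lit 177) (nat_lit 157) (nat_lit 162) (nat_lit 0) (nat_lit 8) (nat_lit 10) (nat_lit 2) (nat_lit 5) (nat_lit 10) (by decide +kernel)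
theorem L3405 : W_49 (nat_lit 3) (nat_lit 0x480024001200090004000000000000000000000000000) (nat_lit 0x0) (nat_lit 0x2000300042000000000000000000000000000000000000000) := T_49 (nat_lit 176) (nat_lit 193) (nat_lit 7) (nat_lit 5) (nat_lit 7) L3404 (by decide +kernel)
theorem L3406 : W_49 (nat_lit 5) (nat_lit 0x480020001200090004000000000000000000000000000) (nat_lit 0x0) (nat_lit 0x280034004e000000008000c00020000000000000000000000) := Q_49 (nat_lit 158) (C_49 L3346 (C_49 L3321 (C_49 L3403 (C_49 L3405 N_49)))) (by decide +kernel)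
theorem L3407 : W_49 (nat_lit 2) (nat_lit 0x1f000480020001200090004000000000000000000000000000) (nat_lit 0x0) (nat_lit 0x60000000000004000000000000000000000000000000000000000) := D_49 (nat_lit 210) (nat_lit 209) (nat_lit 158) (nat_lit 1) (nat_lit 9) (nat_lit 11) (nat_lit 7) (nat_lit 5) (nat_lit 8) (by decide +kernel)
theorem L3408 : W_49 (nat_lit 3) (nat_lit 0x1e000480020001200090004000000000000000000000000000) (nat_lit 0x0) (nat_lit 0x60001000040004000000000000000000000000000000000000000) := T_49 (nat_lit 192) (nat_lit 174) (nat_lit 0) (nat_lit 8) (nat_lit 11) L3407 (by decide +kernel)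
theorem L3409 : W_49 (nat_lit 4) (nat_lit 0x1c000480020001200090004000000000000000000000000000) (nat_lit 0x0) (nat_lit 0x60003000140004000000000000000000000000000000000000000) := T_49 (nat_lit 193) (nat_lit 176) (nat_lit 0) (nat_lit 9) (nat_lit 11) L3408 (by decide +kernel)
theorem L3410 : W_49 (nat_lit 5) (nat_lit 0xc000480020001200090004000000000000000000000000000) (nat_lit 0x0) (nat_lit 0x260013000140004000000000000000000000000000000000000000) := T_49 (nat_lit 196) (nat_lit 213) (nat_lit 7) (nat_lit 8) (nat_lit 8) L3409 (by decide +kernel)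
theorem L3411 : W_49 (nat_lit 6) (nat_lit 0x4000480020001200090004000000000000000000000000000) (nat_lit 0x0) (nat_lit 0x2e001b000140004000000000000000000000000000000000000000) := T_49 (nat_lit 195) (nat_lit 211) (nat_lit 5) (nat_lit 8) (nat_lit 8) L3410 (by decide +kernel)
theorem L3412 : W_49 (nat_lit 7) (nat_lit 0x480020001200090004000000000000000000000000000) (nat_lit 0x0) (nat_lit 0x2e001f000340004000000000000000000000000000000000000000) := T_49 (nat_lit 194) (nat_lit 177) (nat_lit 5) (nat_lit 8) (nat_lit 7) L3411 (by decide +kernel)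
theorem L3413 : W_49 (nat_lit 2) (nat_lit 0x1000580024001200098004000000000000000000000000000) (nat_lit 0x0) (nat_lit 0x10000800040000000000000000000000000000000000000000000) := D_49 (nat_lit 191) (nat_lit 174) (nat_lit 208) (nat_lit 5) (nat_lit 5) (nat_lit 7) (nat_lit 5) (nat_lit 5) (nat_lit 8) (by decide +kernel)
theorem L3414 : W_49 (nat_lit 3) (nat_lit 0x580024001200098004000000000000000000000000000) (nat_lit 0x0) (nat_lit 0x10001800040000000100000000000000000000000000000000000) := T_49 (nat_lit 192) (nat_lit 140) (nat_lit 4) (nat_lit 5) (nat_lit 11) L3413 (by decide +kernel)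
theorem L3415 : W_49 (nat_lit 4) (nat_lit 0x480024001200098004000000000000000000000000000) (nat_lit 0x0) (nat_lit 0x10003800140000000100000000000000000000000000000000000) := T_49 (nat_lit 176) (nat_lit 193) (nat_lit 7) (nat_lit 5) (nat_lit 7) L3414 (by decide +kernel)
theorem L3416 : W_49 (nat_lit 5) (nat_lit 0x480024001200090004000000000000000000000000000) (nat_lit 0x0) (nat_lit 0x10003800140000000100008000400000000000000000000000000) := T_49 (nat_lit 123) (nat_lit 106) (nat_lit 4) (nat_lit 5) (nat_lit 10) L3415 (by decide +kernel)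
theorem L3417 : W_49 (nat_lit 2) (nat_lit 0x5800240012000b0004800000000000000000000000000) (nat_lit 0x0) (nat_lit 0x800040002000000000000000000000000000000000000000) := D_49 (nat_lit 174) (nat_lit 157) (nat_lit 191) (nat_lit 5) (nat_lit 5) (nat_lit 6) (nat_lit 5) (nat_lit 5) (nat_lit 7) (by decide +kernel)
theorem L3418 : W_49 (nat_lit 3) (nat_lit 0x5800240012000b0004000000000000000000000000000) (nat_lit 0x0) (nat_lit 0x80004000a000000000000800000000000000000000000000) := T_49 (nat_lit 107) (nat_lit 159) (nat_lit 7) (nat_lit 5) (nat_lit 6) L3417 (by decide +kernel)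
theorem L3419 : W_49 (nat_lit 4) (nat_lit 0x4800240012000b0004000000000000000000000000000) (nat_lit 0x0) (nat_lit 0x280014000a000000000000800000000000000000000000000) := T_49 (nat_lit 176) (nat_lit 193) (nat_lit 7) (nat_lit 5) (nat_lit 7) L3418 (by decide +kernel)
theorem L3420 : W_49 (nat_lit 5) (nat_lit 0x480024001200090004000000000000000000000000000) (nat_lit 0x0) (nat_lit 0x280014000a000000020001800000000000000000000000000) := T_49 (nat_lit 125) (nat_lit 108) (nat_lit 6) (nat_lit 5) (nat_lit 10) L3419 (by decide +kernel)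
theorem L3421 : W_49 (nat_lit 6) (nat_lit 0x480020001200090004000000000000000000000000000) (nat_lit 0x0) (nat_lit 0x1000380014000e000100028001c00020000000000000000000000) := Q_49 (nat_lit 158) (C_49 L3346 (C_49 L3321 (C_49 L3416 (C_49 L3420 N_49)))) (by decide +kernel)
theorem L3422 : W_49 (nat_lit 2) (nat_lit 0x2000600010006c00240012000b8004000000000000000000000000000) (nat_lit 0x0) (nat_lit 0x4000400000000000000002000000000000000000000000000000000000000) := D_49 (nat_lit 226) (nat_lit 157) (nat_lit 242) (nat_lit 4) (nat_lit 5) (nat_lit 13) (nat_lit 5) (nat_lit 5) (nat_lit 10) (by decide +kernel)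
theorem L3423 : W_49 (nat_lit 3) (nat_lit 0x600010006c00240012000b8004000000000000000000000000000) (nat_lit 0x0) (nat_lit 0x4000600010000000000002000000000000000000000000000000000000000) := T_49 (nat_lit 225) (nat_lit 208) (nat_lit 5) (nat_lit 5) (nat_lit 9) L3422 (by decide +kernel)
theorem L3424 : W_49 (nat_lit 4) (nat_lit 0x400010006c00240012000b8004000000000000000000000000000) (nat_lit 0x0) (nat_lit 0x4000e00030000000000002000000000000000000000000000000000000000) := T_49 (nat_lit 209) (nat_lit 227) (nat_lit 7) (nat_lit 5) (nat_lit 9) L3423 (by decide +kernel)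
theorem L3425 : W_49 (nat_lit 5) (nat_lit 0x10006c00240012000b8004000000000000000000000000000) (nat_lit 0x0) (nat_lit 0x4000e00070002000000002000000000000000000000000000000000000000) := T_49 (nat_lit 210) (nat_lit 193) (nat_lit 7) (nat_lit 5) (nat_lit 8) L3424 (by decide +kernel)
theorem L3426 : W_49 (nat_lit 6) (nat_lit 0x6c00240012000b8004000000000000000000000000000) (nat_lit 0x0) (nat_lit 0x4000e00070003000000002000100000000000000000000000000000000000) := T_49 (nat_lit 192) (nat_lit 140) (nat_lit 4) (nat_lit 5) (nat_lit 11) L3425 (by decide +kernel)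
theorem L3427 : W_49 (nat_lit 7) (nat_lit 0x6c00240012000b0004000000000000000000000000000) (nat_lit 0x0) (nat_lit 0x4000e00070003000000002000100008000400000000000000000000000000) := T_49 (nat_lit 123) (nat_lit 106) (nat_lit 4) (nat_lit 5) (nat_lit 10) L3426 (by decide +kernel)
theorem L3428 : W_49 (nat_lit 8) (nat_lit 0x6800240012000b0004000000000000000000000000000) (nat_lit 0x0) (nat_lit 0x4000e00070003800040002000100008000400000000000000000000000000) := T_49 (nat_lit 174) (nat_lit 191) (nat_lit 5) (nat_lit 5) (nat_lit 7) L3427 (by decide +kernel)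
theorem L3429 : W_49 (nat_lit 9) (nat_lit 0x4800240012000b0004000000000000000000000000000) (nat_lit 0x0) (nat_lit 0x4000e00070007800240002000100008000400000000000000000000000000) := T_49 (nat_lit 177) (nat_lit 194) (nat_lit 5) (nat_lit 8) (nat_lit 7) L3428 (by decide +kernel)
theorem L3430 : W_49 (nat_lit 10) (nat_lit 0x480024001200090004000000000000000000000000000) (nat_lit 0x0) (nat_lit 0x4000e00070007800240002000100028001400000000000000000000000000) := T_49 (nat_lit 125) (nat_lit 108) (nat_lit 6) (nat_lit 5) (nat_lit 10) L3429 (by decide +kernel)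
theorem L3431 : W_49 (nat_lit 2) (nat_lit 0x500010006800240012000b8004000000000000000000000000000) (nat_lit 0x0) (nat_lit 0xa00020000000000000000000000000000000000000000000000000000) := D_49 (nat_lit 209) (nat_lit 227) (nat_lit 225) (nat_lit 7) (nat_lit 5) (nat_lit 9) (nat_lit 5) (nat_lit 5) (nat_lit 9) (by decide +kernel)
theorem L3432 : W_49 (nat_lit 3) (nat_lit 0x400010006800240012000b8004000000000000000000000000000) (nat_lit 0x0) (nat_lit 0xa00030000800000000000000000000000000000000000000000000000) := T_49 (nat_lit 208) (nat_lit 191) (nat_lit 5) (nat_lit 5) (nat_lit 8) L3431 (by decide +kernel)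
theorem L3433 : W_49 (nat_lit 4) (nat_lit 0x10006800240012000b8004000000000000000000000000000) (nat_lit 0x0) (nat_lit 0xa00070002800000000000000000000000000000000000000000000000) := T_49 (nat_lit 210) (nat_lit 193) (nat_lit 7) (nat_lit 5) (nat_lit 8) L3432 (by decide +kernel)
theorem L3434 : W_49 (nat_lit 5) (nat_lit 0x1000680024001200098004000000000000000000000000000) (nat_lit 0x0) (nat_lit 0xa00070002800000000000000020001000000000000000000000000000) := T_49 (nat_lit 125) (nat_lit 108) (nat_lit 6) (nat_lit 5) (nat_lit 10) L3433 (by decide +kernel)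
theorem L3435 : W_49 (nat_lit 6) (nat_lit 0x680024001200098004000000000000000000000000000) (nat_lit 0x0) (nat_lit 0xa00070003800000000000100020001000000000000000000000000000) := T_49 (nat_lit 192) (nat_lit 140) (nat_lit 4) (nat_lit 5) (nat_lit 11) L3434 (by decide +kernel)
theorem L3436 : W_49 (nat_lit 7) (nat_lit 0x480024001200098004000000000000000000000000000) (nat_lit 0x0) (nat_lit 0xa00070007800200000000100020001000000000000000000000000000) := T_49 (nat_lit 177) (nat_lit 194) (nat_lit 5) (nat_lit 8) (nat_lit 7) L3435 (by decide +kernel)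
theorem L3437 : W_49 (nat_lit 8) (nat_lit 0x480024001200090004000000000000000000000000000) (nat_lit 0x0) (nat_lit 0xa00070007800200000000100028001400000000000000000000000000) := T_49 (nat_lit 123) (nat_lit 106) (nat_lit 4) (nat_lit 5) (nat_lit 10) L3436 (by decide +kernel)
theorem L3438 : W_49 (nat_lit 2) (nat_lit 0xd0004800240012000b8004000000000000000000000000000) (nat_lit 0x0) (nat_lit 0x40002000040000000000000000000000000000000000000000000) := D_49 (nat_lit 193) (nat_lit 174) (nat_lit 210) (nat_lit 0) (nat_lit 8) (nat_lit 11) (nat_lit 7) (nat_lit 5) (nat_lit 8) (by decide +kernel)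
theorem L3439 : W_49 (nat_lit 3) (nat_lit 0xc0004800240012000b8004000000000000000000000000000) (nat_lit 0x0) (nat_lit 0x40003000040000000100000000000000000000000000000000000) := T_49 (nat_lit 192) (nat_lit 140) (nat_lit 4) (nat_lit 5) (nat_lit 11) L3438 (by decide +kernel)
theorem L3440 : W_49 (nat_lit 4) (nat_lit 0x40004800240012000b8004000000000000000000000000000) (nat_lit 0x0) (nat_lit 0xc000b000040000000100000000000000000000000000000000000) := T_49 (nat_lit 195) (nat_lit 211) (nat_lit 5) (nat_lit 8) (nat_lit 8) L3439 (by decide +kernel)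
theorem L3441 : W_49 (nat_lit 5) (nat_lit 0x40004800240012000b0004000000000000000000000000000) (nat_lit 0x0) (nat_lit 0xc000b000040000000100008000400000000000000000000000000) := T_49 (nat_lit 123) (nat_lit 106) (nat_lit 4) (nat_lit 5) (nat_lit 10) L3440 (by decide +kernel)
theorem L3442 : W_49 (nat_lit 6) (nat_lit 0x4800240012000b0004000000000000000000000000000) (nat_lit 0x0) (nat_lit 0xc000f000240000000100008000400000000000000000000000000) := T_49 (nat_lit 194) (nat_lit 177) (nat_lit 5) (nat_lit 8) (nat_lit 7) L3441 (by decide +kernel)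
theorem L3443 : W_49 (nat_lit 7) (nat_lit 0x480024001200090004000000000000000000000000000) (nat_lit 0x0) (nat_lit 0xc000f000240000000100028001400000000000000000000000000) := T_49 (nat_lit 125) (nat_lit 108) (nat_lit 6) (nat_lit 5) (nat_lit 10) L3442 (by decide +kernel)
theorem L3444 : W_49 (nat_lit 2) (nat_lit 0x4c0024001200090004800000000000000000000000000) (nat_lit 0x0) (nat_lit 0x20001000080000000000000000000000) := D_49 (nat_lit 108) (nat_lit 125) (nat_lit 91) (nat_lit 6) (nat_lit 5) (nat_lit 10) (nat_lit 6) (nat_lit 5) (nat_lit 9) (by decide +kernel)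
theorem L3445 : W_49 (nat_lit 3) (nat_lit 0x4c0024001200090004000000000000000000000000000) (nat_lit 0x0) (nat_lit 0x2000000020001800080000000000000000000000) := T_49 (nat_lit 107) (nat_lit 157) (nat_lit 5) (nat_lit 5) (nat_lit 6) L3444 (by decide +kernel)
theorem L3446 : W_49 (nat_lit 4) (nat_lit 0x480024001200090004000000000000000000000000000) (nat_lit 0x0) (nat_lit 0x800040002000000020001800080000000000000000000000) := T_49 (nat_lit 174) (nat_lit 191) (nat_lit 5) (nat_lit 5) (nat_lit 7) L3445 (by decide +kernel)
theorem L3447 : W_49 (nat_lit 11) (nat_lit 0x480020001200090004000000000000000000000000000) (nat_lit 0x0) (nat_lit 0x4000e000f000f800240006000100028001c000a0000000000000000000000) := Q_49 (nat_lit 158) (C_49 L3321 (C_49 L3430 (C_49 L3437 (C_49 L3443 (C_49 L3446 N_49))))) (by decide +kernel)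
theorem L3448 : W_49 (nat_lit 12) (nat_lit 0x400020001200090004000000000000000000000000000) (nat_lit 0x0) (nat_lit 0x4000e002f001fc003c004f000100028001c000a0000000000000000000000) := Q_49 (nat_lit 175) (C_49 L3406 (C_49 L3397 (C_49 L3412 (C_49 L3421 (C_49 L3447 (C_49 L3338 N_49)))))) (by decide +kernel)
theorem L3449 : W_49 (nat_lit 2) (nat_lit 0x400024001200090005c00000000000000000000000000) (nat_lit 0x0) (nat_lit 0x80000000000028000000000000000000000000000000) := D_49 (nat_lit 175) (nat_lit 123) (nat_lit 125) (nat_lit 4) (nat_lit 5) (nat_lit 10) (nat_lit 6) (nat_lit 5) (nat_lit 10) (by decide +kernel)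
theorem L3450 : W_49 (nat_lit 3) (nat_lit 0x400024001200090004c00000000000000000000000000) (nat_lit 0x0) (nat_lit 0x80000000000028001000080000000000000000000000) := T_49 (nat_lit 108) (nat_lit 91) (nat_lit 6) (nat_lit 5) (nat_lit 9) L3449 (by decide +kernel)
theorem L3451 : W_49 (nat_lit 4) (nat_lit 0x400024001200090004800000000000000000000000000) (nat_lit 0x0) (nat_lit 0x800000000000280014000a0000000000000000000000) := T_49 (nat_lit 106) (nat_lit 89) (nat_lit 4) (nat_lit 5) (nat_lit 9) L3450 (by decide +kernel)
theorem L3452 : W_49 (nat_lit 6) (nat_lit 0x400020001200090004800000000000000000000000000) (nat_lit 0x0) (nat_lit 0x8001c000e0001000280014000e0005000000000000000000) := Q_49 (nat_lit 158) (C_49 L3311 (C_49 L3202 (C_49 L3451 (C_49 L3205 N_49)))) (by decide +kernel)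
theorem L3453 : W_49 (nat_lit 2) (nat_lit 0x48002c001200090004c00000000000000000000000000) (nat_lit 0x0) (nat_lit 0x800040002000000000000000000000000000000000000000) := D_49 (nat_lit 174) (nat_lit 157) (nat_lit 191) (nat_lit 5) (nat_lit 5) (nat_lit 6) (nat_lit 5) (nat_lit 5) (nat_lit 7) (by decide +kernel)
theorem L3454 : W_49 (nat_lit 3) (nat_lit 0x40002c001200090004c00000000000000000000000000) (nat_lit 0x0) (nat_lit 0x8000c0002000000008000000000000000000000000000000) := T_49 (nat_lit 175) (nat_lit 123) (nat_lit 4) (nat_lit 5) (nat_lit 10) L3453 (by decide +kernel)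
theorem L3455 : W_49 (nat_lit 4) (nat_lit 0x400024001200090004c00000000000000000000000000) (nat_lit 0x0) (nat_lit 0x8001c000a000000008000000000000000000000000000000) := T_49 (nat_lit 159) (nat_lit 176) (nat_lit 7) (nat_lit 5) (nat_lit 6) L3454 (by decide +kernel)
theorem L3456 : W_49 (nat_lit 5) (nat_lit 0x400024001200090004800000000000000000000000000) (nat_lit 0x0) (nat_lit 0x8001c000a000000008000400020000000000000000000000) := T_49 (nat_lit 106) (nat_lit 89) (nat_lit 4) (nat_lit 5) (nat_lit 9) L3455 (by decide +kernel)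
theorem L3457 : W_49 (nat_lit 2) (nat_lit 0x500024001200090005c00000000000000000000000000) (nat_lit 0x0) (nat_lit 0x2000080000000000008000000000000000000000000000000) := D_49 (nat_lit 175) (nat_lit 123) (nat_lit 193) (nat_lit 4) (nat_lit 5) (nat_lit 10) (nat_lit 7) (nat_lit 5) (nat_lit 7) (by decide +kernel)
theorem L3458 : W_49 (nat_lit 3) (nat_lit 0x400024001200090005c00000000000000000000000000) (nat_lit 0x0) (nat_lit 0x2000180008000000008000000000000000000000000000000) := T_49 (nat_lit 176) (nat_lit 159) (nat_lit 7) (nat_lit 5) (nat_lit 6) L3457 (by decide +kernel)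
theorem L3459 : W_49 (nat_lit 4) (nat_lit 0x400024001200090005800000000000000000000000000) (nat_lit 0x0) (nat_lit 0x2000180008000000008000400020000000000000000000000) := T_49 (nat_lit 106) (nat_lit 89) (nat_lit 4) (nat_lit 5) (nat_lit 9) L3458 (by decide +kernel)
theorem L3460 : W_49 (nat_lit 5) (nat_lit 0x400024001200090004800000000000000000000000000) (nat_lit 0x0) (nat_lit 0x20001800080000000080014000a0000000000000000000000) := T_49 (nat_lit 108) (nat_lit 91) (nat_lit 6) (nat_lit 5) (nat_lit 9) L3459 (by decide +kernel)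
theorem L3461 : W_49 (nat_lit 6) (nat_lit 0x400020001200090004800000000000000000000000000) (nat_lit 0x0) (nat_lit 0x28001c000e0001000080014000e0004000000000000000000) := Q_49 (nat_lit 158) (C_49 L3311 (C_49 L3456 (C_49 L3460 N_49))) (by decide +kernel)
theorem L3462 : W_49 (nat_lit 2) (nat_lit 0x4000200012000900048000e0000000000000000000000) (nat_lit 0x0) (nat_lit 0x4000000000001400000000000000000000000000) := D_49 (nat_lit 158) (nat_lit 106) (nat_lit 108) (nat_lit 4) (nat_lit 5) (nat_lit 9) (nat_lit 6) (nat_lit 5) (nat_lit 9) (by decide +kernel)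
theorem L3463 : W_49 (nat_lit 3) (nat_lit 0x400020001200090004800060000000000000000000000) (nat_lit 0x0) (nat_lit 0x4000000000001400080004000000000000000000) := T_49 (nat_lit 91) (nat_lit 74) (nat_lit 6) (nat_lit 5) (nat_lit 8) L3462 (by decide +kernel)
theorem L3464 : W_49 (nat_lit 4) (nat_lit 0x400020001200090004800040000000000000000000000) (nat_lit 0x0) (nat_lit 0x40000000000014000a0005000000000000000000) := T_49 (nat_lit 89) (nat_lit 72) (nat_lit 4) (nat_lit 5) (nat_lit 8) L3463 (by decide +kernel)
theorem L3465 : W_49 (nat_lit 2) (nat_lit 0x400020001b000d00048002e0002000000000000000000) (nat_lit 0x0) (nat_lit 0x400100008000000000000000000) := D_49 (nat_lit 92) (nat_lit 75) (nat_lit 106) (nat_lit 4) (nat_lit 8) (nat_lit 8) (nat_lit 1) (nat_lit 8) (nat_lit 5) (by decide +kernel)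
theorem L3466 : W_49 (nat_lit 3) (nat_lit 0x400020001b000d00048000e0002000000000000000000) (nat_lit 0x0) (nat_lit 0x400300018000000000000000000) := T_49 (nat_lit 93) (nat_lit 76) (nat_lit 5) (nat_lit 8) (nat_lit 4) L3465 (by decide +kernel)
theorem L3467 : W_49 (nat_lit 4) (nat_lit 0x4000200013000d00048000e0002000000000000000000) (nat_lit 0x0) (nat_lit 0x8000000000000800000000400300018000000000000000000) := T_49 (nat_lit 143) (nat_lit 195) (nat_lit 4) (nat_lit 8) (nat_lit 11) L3466 (by decide +kernel)
theorem L3468 : W_49 (nat_lit 5) (nat_lit 0x4000200013000900048000e0002000000000000000000) (nat_lit 0x0) (nat_lit 0x8000000000000800060000400300018000000000000000000) := T_49 (nat_lit 126) (nat_lit 125) (nat_lit 1) (nat_lit 8) (nat_lit 7) L3467 (by decide +kernel)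
theorem L3469 : W_49 (nat_lit 6) (nat_lit 0x4000200013000900048000e0000000000000000000000) (nat_lit 0x0) (nat_lit 0x800000000000080006800040030001a000000000000000000) := T_49 (nat_lit 73) (nat_lit 123) (nat_lit 5) (nat_lit 5) (nat_lit 4) L3468 (by decide +kernel)
theorem L3470 : W_49 (nat_lit 7) (nat_lit 0x4000200012000900048000e0000000000000000000000) (nat_lit 0x0) (nat_lit 0x800000000200090006800040030001a000000000000000000) := T_49 (nat_lit 140) (nat_lit 157) (nat_lit 5) (nat_lit 5) (nat_lit 5) L3469 (by decide +kernel)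
theorem L3471 : W_49 (nat_lit 8) (nat_lit 0x400020001200090004800060000000000000000000000) (nat_lit 0x0) (nat_lit 0x800000000200090006800040038001e000000000000000000) := T_49 (nat_lit 91) (nat_lit 74) (nat_lit 6) (nat_lit 5) (nat_lit 8) L3470 (by decide +kernel)
theorem L3472 : W_49 (nat_lit 9) (nat_lit 0x400020001200090004800040000000000000000000000) (nat_lit 0x0) (nat_lit 0x80000000020009000680004003a001f000000000000000000) := T_49 (nat_lit 89) (nat_lit 72) (nat_lit 4) (nat_lit 5) (nat_lit 8) L3471 (by decide +kernel)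
theorem L3473 : W_49 (nat_lit 2) (nat_lit 0x400020001300090004800040002000000000000000000) (nat_lit 0x0) (nat_lit 0x20001000080000000000000) := D_49 (nat_lit 72) (nat_lit 55) (nat_lit 89) (nat_lit 4) (nat_lit 5) (nat_lit 7) (nat_lit 4) (nat_lit 5) (nat_lit 8) (by decide +kernel)
theorem L3474 : W_49 (nat_lit 3) (nat_lit 0x400020001300090004800040000000000000000000000) (nat_lit 0x0) (nat_lit 0x8000000020003000080000000000000) := T_49 (nat_lit 73) (nat_lit 123) (nat_lit 5) (nat_lit 5) (nat_lit 4) L3473 (by decide +kernel)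
theorem L3475 : W_49 (nat_lit 4) (nat_lit 0x400020001200090004800040000000000000000000000) (nat_lit 0x0) (nat_lit 0x2000100008000000020003000080000000000000) := T_49 (nat_lit 140) (nat_lit 157) (nat_lit 5) (nat_lit 5) (nat_lit 5) L3474 (by decide +kernel)
theorem L3476 : W_49 (nat_lit 2) (nat_lit 0x400024001b000d0004c000c0002000000000000000000) (nat_lit 0x0) (nat_lit 0x300010000000000000000000) := D_49 (nat_lit 93) (nat_lit 76) (nat_lit 92) (nat_lit 5) (nat_lit 8) (nat_lit 4) (nat_lit 1) (nat_lit 8) (nat_lit 5) (by decide +kernel)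
theorem L3477 : W_49 (nat_lit 3) (nat_lit 0x400024001b000d00048000c0002000000000000000000) (nat_lit 0x0) (nat_lit 0x400320010000000000000000000) := T_49 (nat_lit 106) (nat_lit 89) (nat_lit 4) (nat_lit 5) (nat_lit 9) L3476 (by decide +kernel)
theorem L3478 : W_49 (nat_lit 4) (nat_lit 0x400020001b000d00048000c0002000000000000000000) (nat_lit 0x0) (nat_lit 0x4000000000001400320010000000000000000000) := T_49 (nat_lit 158) (nat_lit 108) (nat_lit 6) (nat_lit 5) (nat_lit 9) L3477 (by decide +kernel)
theorem L3479 : W_49 (nat_lit 5) (nat_lit 0x4000200013000d00048000c0002000000000000000000) (nat_lit 0x0) (nat_lit 0x8000000004000800000001400320010000000000000000000) := T_49 (nat_lit 143) (nat_lit 195) (nat_lit 4) (nat_lit 8) (nat_lit 11) L3478 (by decide +kernel)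
theorem L3480 : W_49 (nat_lit 6) (nat_lit 0x4000200013000900048000c0002000000000000000000) (nat_lit 0x0) (nat_lit 0x8000000004000800060001400320010000000000000000000) := T_49 (nat_lit 126) (nat_lit 125) (nat_lit 1) (nat_lit 8) (nat_lit 7) L3479 (by decide +kernel)
theorem L3481 : W_49 (nat_lit 7) (nat_lit 0x4000200013000900048000c0000000000000000000000) (nat_lit 0x0) (nat_lit 0x8000000004000800068001400320012000000000000000000) := T_49 (nat_lit 73) (nat_lit 123) (nat_lit 5) (nat_lit 5) (nat_lit 4) L3480 (by decide +kernel)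
theorem L3482 : W_49 (nat_lit 8) (nat_lit 0x4000200012000900048000c0000000000000000000000) (nat_lit 0x0) (nat_lit 0x8000000006000900068001400320012000000000000000000) := T_49 (nat_lit 140) (nat_lit 157) (nat_lit 5) (nat_lit 5) (nat_lit 5) L3481 (by decide +kernel)
theorem L3483 : W_49 (nat_lit 9) (nat_lit 0x400020001200090004800040000000000000000000000) (nat_lit 0x0) (nat_lit 0x80000000060009000680014003a0016000000000000000000) := T_49 (nat_lit 91) (nat_lit 74) (nat_lit 6) (nat_lit 5) (nat_lit 8) L3482 (by decide +kernel)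
theorem L3484 : W_49 (nat_lit 2) (nat_lit 0x4000200013000d00048002c0003400000000000000000) (nat_lit 0x0) (nat_lit 0x8000000000000800000000000000010000000000000000000) := D_49 (nat_lit 143) (nat_lit 76) (nat_lit 195) (nat_lit 5) (nat_lit 8) (nat_lit 4) (nat_lit 4) (nat_lit 8) (nat_lit 11) (by decide +kernel)
theorem L3485 : W_49 (nat_lit 3) (nat_lit 0x4000200013000900048002c0003400000000000000000) (nat_lit 0x0) (nat_lit 0x8000000000000800060000000000010000000000000000000) := T_49 (nat_lit 126) (nat_lit 125) (nat_lit 1) (nat_lit 8) (nat_lit 7) L3484 (by decide +kernel)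
theorem L3486 : W_49 (nat_lit 4) (nat_lit 0x4000200013000900048000c0003400000000000000000) (nat_lit 0x0) (nat_lit 0x8000000000000800060000000300010000000000000000000) := T_49 (nat_lit 93) (nat_lit 92) (nat_lit 0) (nat_lit 8) (nat_lit 5) L3485 (by decide +kernel)
theorem L3487 : W_49 (nat_lit 5) (nat_lit 0x4000200013000900048000c0003000000000000000000) (nat_lit 0x0) (nat_lit 0x8000000000000800060000000300010c00000000000000000) := T_49 (nat_lit 70) (nat_lit 71) (nat_lit 3) (nat_lit 2) (nat_lit 4) L3486 (by decide +kernel)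
theorem L3488 : W_49 (nat_lit 6) (nat_lit 0x4000200013000900048000c0002000000000000000000) (nat_lit 0x0) (nat_lit 0x8000000000000800060000000300011c00080000000000000) := T_49 (nat_lit 72) (nat_lit 55) (nat_lit 4) (nat_lit 5) (nat_lit 7) L3487 (by decide +kernel)
theorem L3489 : W_49 (nat_lit 7) (nat_lit 0x4000200013000900048000c0000000000000000000000) (nat_lit 0x0) (nat_lit 0x8000000000000800068000000300013c00080000000000000) := T_49 (nat_lit 73) (nat_lit 123) (nat_lit 5) (nat_lit 5) (nat_lit 4) L3488 (by decide +kernel)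
theorem L3490 : W_49 (nat_lit 8) (nat_lit 0x4000200012000900048000c0000000000000000000000) (nat_lit 0x0) (nat_lit 0x8000000002000900068000000300013c00080000000000000) := T_49 (nat_lit 140) (nat_lit 157) (nat_lit 5) (nat_lit 5) (nat_lit 5) L3489 (by decide +kernel)
theorem L3491 : W_49 (nat_lit 9) (nat_lit 0x400020001200090004800040000000000000000000000) (nat_lit 0x0) (nat_lit 0x8000000002000900068000000380017c00080000000000000) := T_49 (nat_lit 91) (nat_lit 74) (nat_lit 6) (nat_lit 5) (nat_lit 8) L3490 (by decide +kernel)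
theorem L3492 : W_49 (nat_lit 10) (nat_lit 0x400020001200090004800000000000000000000000000) (nat_lit 0x0) (nat_lit 0x80000000060009000680014003e001fc00080000000000000) := Q_49 (nat_lit 90) (C_49 L3464 (C_49 L3472 (C_49 L3475 (C_49 L3483 (C_49 L3491 N_49))))) (by decide +kernel)
theorem L3493 : W_49 (nat_lit 2) (nat_lit 0x4000200012000f00048002c0033400000000000000000) (nat_lit 0x0) (nat_lit 0x100001000000000000100000000000000) := D_49 (nat_lit 108) (nat_lit 128) (nat_lit 56) (nat_lit 0) (nat_lit 9) (nat_lit 7) (nat_lit 7) (nat_lit 5) (nat_lit 3) (by decide +kernel)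
theorem L3494 : W_49 (nat_lit 3) (nat_lit 0x4000200012000d00048002c0033400000000000000000) (nat_lit 0x0) (nat_lit 0x120001400000000000100000000000000) := T_49 (nat_lit 125) (nat_lit 106) (nat_lit 0) (nat_lit 8) (nat_lit 7) L3493 (by decide +kernel)
theorem L3495 : W_49 (nat_lit 4) (nat_lit 0x4000200012000900048002c0033400000000000000000) (nat_lit 0x0) (nat_lit 0x800160001400000000000100000000000000) := T_49 (nat_lit 126) (nat_lit 143) (nat_lit 5) (nat_lit 8) (nat_lit 4) L3494 (by decide +kernel)
theorem L3496 : W_49 (nat_lit 5) (nat_lit 0x4000200012000900048002c0023400000000000000000) (nat_lit 0x0) (nat_lit 0x800160001400000010001100000000000000) := T_49 (nat_lit 76) (nat_lit 60) (nat_lit 6) (nat_lit 8) (nat_lit 7) L3495 (by decide +kernel)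
theorem L3497 : W_49 (nat_lit 6) (nat_lit 0x4000200012000900048002c0003400000000000000000) (nat_lit 0x0) (nat_lit 0x800160001400400030001100000000000000) := T_49 (nat_lit 77) (nat_lit 94) (nat_lit 6) (nat_lit 8) (nat_lit 8) L3496 (by decide +kernel)
theorem L3498 : W_49 (nat_lit 7) (nat_lit 0x4000200012000900048000c0003400000000000000000) (nat_lit 0x0) (nat_lit 0x800160001400700030001100000000000000) := T_49 (nat_lit 93) (nat_lit 92) (nat_lit 0) (nat_lit 8) (nat_lit 5) L3497 (by decide +kernel)
theorem L3499 : W_49 (nat_lit 8) (nat_lit 0x4000200012000900048000c0003000000000000000000) (nat_lit 0x0) (nat_lit 0x800160001400700030c01100000000000000) := T_49 (nat_lit 70) (nat_lit 71) (nat_lit 3) (nat_lit 2) (nat_lit 4) L3498 (by decide +kernel)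
theorem L3500 : W_49 (nat_lit 9) (nat_lit 0x4000200012000900048000c0001000000000000000000) (nat_lit 0x0) (nat_lit 0x800160001400700032c01180000000000000) := T_49 (nat_lit 73) (nat_lit 55) (nat_lit 4) (nat_lit 5) (nat_lit 7) L3499 (by decide +kernel)
theorem L3501 : W_49 (nat_lit 10) (nat_lit 0x400020001200090004800040001000000000000000000) (nat_lit 0x0) (nat_lit 0x800160001400780036c01180000000000000) := T_49 (nat_lit 91) (nat_lit 74) (nat_lit 6) (nat_lit 5) (nat_lit 8) L3500 (by decide +kernel)
theorem L3502 : W_49 (nat_lit 11) (nat_lit 0x400020001200090004800040000000000000000000000) (nat_lit 0x0) (nat_lit 0x8001600014007a0037c01180000000000000) := T_49 (nat_lit 72) (nat_lit 89) (nat_lit 4) (nat_lit 5) (nat_lit 8) L3501 (by decide +kernel)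
theorem L3503 : W_49 (nat_lit 2) (nat_lit 0x400020001b000d0004a001f0010400000000000000000) (nat_lit 0x0) (nat_lit 0x1000008000200000000000000000) := D_49 (nat_lit 87) (nat_lit 108) (nat_lit 69) (nat_lit 3) (nat_lit 2) (nat_lit 5) (nat_lit 0) (nat_lit 5) (nat_lit 5) (by decide +kernel)
theorem L3504 : W_49 (nat_lit 3) (nat_lit 0x400020001b000d0004a001f0010000000000000000000) (nat_lit 0x0) (nat_lit 0x1000008000e00000000000000000) := T_49 (nat_lit 70) (nat_lit 71) (nat_lit 0) (nat_lit 6) (nat_lit 5) L3503 (by decide +kernel)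
theorem L3505 : W_49 (nat_lit 4) (nat_lit 0x400020001b000d0004a001e0010000000000000000000) (nat_lit 0x0) (nat_lit 0x1100018000e00000000000000000) := T_49 (nat_lit 88) (nat_lit 104) (nat_lit 1) (nat_lit 6) (nat_lit 5) L3504 (by decide +kernel)
theorem L3506 : W_49 (nat_lit 5) (nat_lit 0x400020001b000d00048001e0010000000000000000000) (nat_lit 0x0) (nat_lit 0x1700018000e00000000000000000) := T_49 (nat_lit 105) (nat_lit 106) (nat_lit 1) (nat_lit 7) (nat_lit 5) L3505 (by decide +kernel)
theorem L3507 : W_49 (nat_lit 6) (nat_lit 0x400020001b000d00048000e0010000000000000000000) (nat_lit 0x0) (nat_lit 0x1700118008e00000000000000000) := T_49 (nat_lit 92) (nat_lit 75) (nat_lit 2) (nat_lit 4) (nat_lit 5) L3506 (by decide +kernel)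
theorem L3508 : W_49 (nat_lit 7) (nat_lit 0x400020001b000d00048000e0000000000000000000000) (nat_lit 0x0) (nat_lit 0x1700318018e00000000000000000) := T_49 (nat_lit 76) (nat_lit 93) (nat_lit 5) (nat_lit 8) (nat_lit 4) L3507 (by decide +kernel)
theorem L3509 : W_49 (nat_lit 8) (nat_lit 0x400020001b000d00048000c0000000000000000000000) (nat_lit 0x0) (nat_lit 0x1700338019e00000000000000000) := T_49 (nat_lit 89) (nat_lit 72) (nat_lit 4) (nat_lit 5) (nat_lit 8) L3508 (by decide +kernel)
theorem L3510 : W_49 (nat_lit 9) (nat_lit 0x4000200013000d00048000c0000000000000000000000) (nat_lit 0x0) (nat_lit 0x8000000000000800000001700338019e00000000000000000) := T_49 (nat_lit 143) (nat_lit 195) (nat_lit 4) (nat_lit 8) (nat_lit 11) L3509 (by decide +kernel)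
theorem L3511 : W_49 (nat_lit 10) (nat_lit 0x4000200013000900048000c0000000000000000000000) (nat_lit 0x0) (nat_lit 0x8000000000000800060001700338019e00000000000000000) := T_49 (nat_lit 126) (nat_lit 125) (nat_lit 1) (nat_lit 8) (nat_lit 7) L3510 (by decide +kernel)
theorem L3512 : W_49 (nat_lit 11) (nat_lit 0x4000200012000900048000c0000000000000000000000) (nat_lit 0x0) (nat_lit 0x8000000002000900060001700338019e00000000000000000) := T_49 (nat_lit 140) (nat_lit 157) (nat_lit 5) (nat_lit 5) (nat_lit 5) L3511 (by decide +kernel)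
theorem L3513 : W_49 (nat_lit 12) (nat_lit 0x400020001200090004800040000000000000000000000) (nat_lit 0x0) (nat_lit 0x80000000020009000600017003b801de00000000000000000) := T_49 (nat_lit 91) (nat_lit 74) (nat_lit 6) (nat_lit 5) (nat_lit 8) L3512 (by decide +kernel)
theorem L3514 : W_49 (nat_lit 2) (nat_lit 0x400020001b000d00048002c0002000000000000000000) (nat_lit 0x0) (nat_lit 0x400100008000000000000000000) := D_49 (nat_lit 92) (nat_lit 75) (nat_lit 106) (nat_lit 4) (nat_lit 8) (nat_lit 8) (nat_lit 1) (nat_lit 8) (nat_lit 5) (by decide +kernel)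
theorem L3515 : W_49 (nat_lit 3) (nat_lit 0x400020001b000d00048000c0002000000000000000000) (nat_lit 0x0) (nat_lit 0x400300018000000000000000000) := T_49 (nat_lit 93) (nat_lit 76) (nat_lit 5) (nat_lit 8) (nat_lit 4) L3514 (by decide +kernel)
theorem L3516 : W_49 (nat_lit 4) (nat_lit 0x4000200013000d00048000c0002000000000000000000) (nat_lit 0x0) (nat_lit 0x8000000000000800000000400300018000000000000000000) := T_49 (nat_lit 143) (nat_lit 195) (nat_lit 4) (nat_lit 8) (nat_lit 11) L3515 (by decide +kernel)
theorem L3517 : W_49 (nat_lit 5) (nat_lit 0x4000200013000900048000c0002000000000000000000) (nat_lit 0x0) (nat_lit 0x8000000000000800060000400300018000000000000000000) := T_49 (nat_lit 126) (nat_lit 125) (nat_lit 1) (nat_lit 8) (nat_lit 7) L3516 (by decide +kernel)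
theorem L3518 : W_49 (nat_lit 6) (nat_lit 0x4000200013000900048000c0000000000000000000000) (nat_lit 0x0) (nat_lit 0x800000000000080006800040030001a000000000000000000) := T_49 (nat_lit 73) (nat_lit 123) (nat_lit 5) (nat_lit 5) (nat_lit 4) L3517 (by decide +kernel)
theorem L3519 : W_49 (nat_lit 7) (nat_lit 0x4000200012000900048000c0000000000000000000000) (nat_lit 0x0) (nat_lit 0x800000000200090006800040030001a000000000000000000) := T_49 (nat_lit 140) (nat_lit 157) (nat_lit 5) (nat_lit 5) (nat_lit 5) L3518 (by decide +kernel)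
theorem L3520 : W_49 (nat_lit 8) (nat_lit 0x400020001200090004800040000000000000000000000) (nat_lit 0x0) (nat_lit 0x800000000200090006800040038001e000000000000000000) := T_49 (nat_lit 91) (nat_lit 74) (nat_lit 6) (nat_lit 5) (nat_lit 8) L3519 (by decide +kernel)
theorem L3521 : W_49 (nat_lit 13) (nat_lit 0x400020001200090004800000000000000000000000000) (nat_lit 0x0) (nat_lit 0x80000000020009001680017007f803fe01180000000000000) := Q_49 (nat_lit 90) (C_49 L3475 (C_49 L3491 (C_49 L3502 (C_49 L3513 (C_49 L3520 N_49))))) (by decide +kernel)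
theorem L3522 : W_49 (nat_lit 2) (nat_lit 0x40002e001a000d0004c00280000000000000000000000) (nat_lit 0x0) (nat_lit 0x140008000000000000000000) := D_49 (nat_lit 92) (nat_lit 75) (nat_lit 90) (nat_lit 4) (nat_lit 8) (nat_lit 8) (nat_lit 1) (nat_lit 8) (nat_lit 5) (by decide +kernel)
theorem L3523 : W_49 (nat_lit 3) (nat_lit 0x40002e001a000d0004c00200000000000000000000000) (nat_lit 0x0) (nat_lit 0x10001c0008000000000000000000) := T_49 (nat_lit 91) (nat_lit 108) (nat_lit 6) (nat_lit 5) (nat_lit 9) L3522 (by decide +kernel)
theorem L3524 : W_49 (nat_lit 4) (nat_lit 0x40002e001a000d0004c00000000000000000000000000) (nat_lit 0x0) (nat_lit 0x10003c0018000000000000000000) := T_49 (nat_lit 93) (nat_lit 76) (nat_lit 5) (nat_lit 8) (nat_lit 4) L3523 (by decide +kernel)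
theorem L3525 : W_49 (nat_lit 5) (nat_lit 0x40002c001a000d0004c00000000000000000000000000) (nat_lit 0x0) (nat_lit 0x400020000000000010003c0018000000000000000000) := T_49 (nat_lit 157) (nat_lit 174) (nat_lit 5) (nat_lit 5) (nat_lit 6) L3524 (by decide +kernel)
theorem L3526 : W_49 (nat_lit 6) (nat_lit 0x40002c0012000d0004c00000000000000000000000000) (nat_lit 0x0) (nat_lit 0x80000400020008000000010003c0018000000000000000000) := T_49 (nat_lit 143) (nat_lit 195) (nat_lit 4) (nat_lit 8) (nat_lit 11) L3525 (by decide +kernel)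
theorem L3527 : W_49 (nat_lit 7) (nat_lit 0x4000240012000d0004c00000000000000000000000000) (nat_lit 0x0) (nat_lit 0x800014000a0008000000010003c0018000000000000000000) := T_49 (nat_lit 159) (nat_lit 176) (nat_lit 7) (nat_lit 5) (nat_lit 6) L3526 (by decide +kernel)
theorem L3528 : W_49 (nat_lit 8) (nat_lit 0x400024001200090004c00000000000000000000000000) (nat_lit 0x0) (nat_lit 0x800014000a0008000600010003c0018000000000000000000) := T_49 (nat_lit 126) (nat_lit 125) (nat_lit 0) (nat_lit 8) (nat_lit 7) L3527 (by decide +kernel)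
theorem L3529 : W_49 (nat_lit 9) (nat_lit 0x400024001200090004800000000000000000000000000) (nat_lit 0x0) (nat_lit 0x800014000a0008000600014003e0018000000000000000000) := T_49 (nat_lit 106) (nat_lit 89) (nat_lit 4) (nat_lit 5) (nat_lit 9) L3528 (by decide +kernel)
theorem L3530 : W_49 (nat_lit 10) (nat_lit 0x400020001200090004800000000000000000000000000) (nat_lit 0x0) (nat_lit 0xa8001c000e0008000680014003e0018000000000000000000) := Q_49 (nat_lit 158) (C_49 L3460 (C_49 L3451 (C_49 L3529 (C_49 L3456 (C_49 L3202 N_49))))) (by decide +kernel)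
theorem L3531 : W_49 (nat_lit 2) (nat_lit 0x40002e0012000b4005e00010000000000000000000000) (nat_lit 0x0) (nat_lit 0x180008000000000000000000000000000000) := D_49 (nat_lit 140) (nat_lit 123) (nat_lit 139) (nat_lit 4) (nat_lit 4) (nat_lit 9) (nat_lit 7) (nat_lit 3) (nat_lit 5) (by decide +kernel)
theorem L3532 : W_49 (nat_lit 3) (nat_lit 0x40002c0012000b4005e00010000000000000000000000) (nat_lit 0x0) (nat_lit 0x40002000180008000000000000000000000000000000) := T_49 (nat_lit 157) (nat_lit 174) (nat_lit 5) (nat_lit 5) (nat_lit 6) L3531 (by decide +kernel)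
theorem L3533 : W_49 (nat_lit 4) (nat_lit 0x40002c0012000b4005e00000000000000000000000000) (nat_lit 0x0) (nat_lit 0x40002000180008000000018000000000000000000000) := T_49 (nat_lit 88) (nat_lit 87) (nat_lit 0) (nat_lit 6) (nat_lit 6) L3532 (by decide +kernel)
theorem L3534 : W_49 (nat_lit 5) (nat_lit 0x40002c0012000b0005e00000000000000000000000000) (nat_lit 0x0) (nat_lit 0x4000200018000e000000018000000000000000000000) := T_49 (nat_lit 122) (nat_lit 121) (nat_lit 1) (nat_lit 6) (nat_lit 6) L3533 (by decide +kernel)
theorem L3535 : W_49 (nat_lit 6) (nat_lit 0x40002c0012000b0004e00000000000000000000000000) (nat_lit 0x0) (nat_lit 0x4000200018000e001000098000000000000000000000) := T_49 (nat_lit 108) (nat_lit 91) (nat_lit 6) (nat_lit 5) (nat_lit 9) L3534 (by decide +kernel)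
theorem L3536 : W_49 (nat_lit 7) (nat_lit 0x40002c0012000b0004c00000000000000000000000000) (nat_lit 0x0) (nat_lit 0x4000200018000e001300098000000000000000000000) := T_49 (nat_lit 105) (nat_lit 104) (nat_lit 3) (nat_lit 2) (nat_lit 6) L3535 (by decide +kernel)
theorem L3537 : W_49 (nat_lit 8) (nat_lit 0x4000240012000b0004c00000000000000000000000000) (nat_lit 0x0) (nat_lit 0x14000a00018000e001300098000000000000000000000) := T_49 (nat_lit 159) (nat_lit 176) (nat_lit 7) (nat_lit 5) (nat_lit 6) L3536 (by decide +kernel)
theorem L3538 : W_49 (nat_lit 9) (nat_lit 0x400024001200090004c00000000000000000000000000) (nat_lit 0x0) (nat_lit 0x14000a00018006e001300098000000000000000000000) := T_49 (nat_lit 125) (nat_lit 126) (nat_lit 0) (nat_lit 8) (nat_lit 7) L3537 (by decide +kernel)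
theorem L3539 : W_49 (nat_lit 10) (nat_lit 0x400024001200090004800000000000000000000000000) (nat_lit 0x0) (nat_lit 0x14000a00018006e0017000b8000000000000000000000) := T_49 (nat_lit 106) (nat_lit 89) (nat_lit 4) (nat_lit 5) (nat_lit 9) L3538 (by decide +kernel)
theorem L3540 : W_49 (nat_lit 11) (nat_lit 0x400020001200090004800000000000000000000000000) (nat_lit 0x0) (nat_lit 0x28001c000e00018006e0017000b8000000000000000000000) := Q_49 (nat_lit 158) (C_49 L3460 (C_49 L3451 (C_49 L3539 (C_49 L3456 (C_49 L3202 N_49))))) (by decide +kernel)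
theorem L3541 : W_49 (nat_lit 2) (nat_lit 0x5000260012000900048000e0000000000000000000000) (nat_lit 0x0) (nat_lit 0x2000280000000000000000000000000000000000000000000) := D_49 (nat_lit 175) (nat_lit 177) (nat_lit 193) (nat_lit 0) (nat_lit 8) (nat_lit 10) (nat_lit 7) (nat_lit 5) (nat_lit 7) (by decide +kernel)
theorem L3542 : W_49 (nat_lit 3) (nat_lit 0x4000260012000900048000e0000000000000000000000) (nat_lit 0x0) (nat_lit 0x2000380008000000000000000000000000000000000000000) := T_49 (nat_lit 176) (nat_lit 159) (nat_lit 7) (nat_lit 5) (nat_lit 6) L3541 (by decide +kernel)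
theorem L3543 : W_49 (nat_lit 4) (nat_lit 0x4000240012000900048000e0000000000000000000000) (nat_lit 0x0) (nat_lit 0x20003c000a000000000000000000000000000000000000000) := T_49 (nat_lit 157) (nat_lit 174) (nat_lit 5) (nat_lit 5) (nat_lit 6) L3542 (by decide +kernel)
theorem L3544 : W_49 (nat_lit 5) (nat_lit 0x4000200012000900048000e0000000000000000000000) (nat_lit 0x0) (nat_lit 0x20003c000e000000000000400000000000000000000000000) := T_49 (nat_lit 158) (nat_lit 106) (nat_lit 4) (nat_lit 5) (nat_lit 9) L3543 (by decide +kernel)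
theorem L3545 : W_49 (nat_lit 6) (nat_lit 0x400020001200090004800060000000000000000000000) (nat_lit 0x0) (nat_lit 0x20003c000e000000000000400080004000000000000000000) := T_49 (nat_lit 91) (nat_lit 74) (nat_lit 6) (nat_lit 5) (nat_lit 8) L3544 (by decide +kernel)
theorem L3546 : W_49 (nat_lit 7) (nat_lit 0x400020001200090004800040000000000000000000000) (nat_lit 0x0) (nat_lit 0x20003c000e0000000000004000a0005000000000000000000) := T_49 (nat_lit 89) (nat_lit 72) (nat_lit 4) (nat_lit 5) (nat_lit 8) L3545 (by decide +kernel)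
theorem L3547 : W_49 (nat_lit 2) (nat_lit 0x80007c00240013000d00048000e0000000000000000000000) (nat_lit 0x0) (nat_lit 0x1000000000000000008000000000002000000000000000000) := D_49 (nat_lit 123) (nat_lit 192) (nat_lit 73) (nat_lit 4) (nat_lit 5) (nat_lit 11) (nat_lit 5) (nat_lit 5) (nat_lit 4) (by decide +kernel)
theorem L3548 : W_49 (nat_lit 3) (nat_lit 0x80007c00240012000d00048000e0000000000000000000000) (nat_lit 0x0) (nat_lit 0x1000000000000100028000000000002000000000000000000) := T_49 (nat_lit 140) (nat_lit 125) (nat_lit 1) (nat_lit 8) (nat_lit 7) L3547 (by decide +kernel)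
theorem L3549 : W_49 (nat_lit 4) (nat_lit 0x80007c00240012000900048000e0000000000000000000000) (nat_lit 0x0) (nat_lit 0x1000000000000900068000000000002000000000000000000) := T_49 (nat_lit 126) (nat_lit 143) (nat_lit 4) (nat_lit 8) (nat_lit 11) L3548 (by decide +kernel)
theorem L3550 : W_49 (nat_lit 5) (nat_lit 0x7c00240012000900048000e0000000000000000000000) (nat_lit 0x0) (nat_lit 0x19000000000000900068000000000002000000000000000000) := T_49 (nat_lit 195) (nat_lit 196) (nat_lit 3) (nat_lit 5) (nat_lit 10) L3549 (by decide +kernel)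
theorem L3551 : W_49 (nat_lit 6) (nat_lit 0x5c00240012000900048000e0000000000000000000000) (nat_lit 0x0) (nat_lit 0x19000200040000900068000000000002000000000000000000) := T_49 (nat_lit 177) (nat_lit 162) (nat_lit 2) (nat_lit 5) (nat_lit 10) L3550 (by decide +kernel)
theorem L3552 : W_49 (nat_lit 7) (nat_lit 0x5800240012000900048000e0000000000000000000000) (nat_lit 0x0) (nat_lit 0x19800240040000900068000000000002000000000000000000) := T_49 (nat_lit 174) (nat_lit 191) (nat_lit 5) (nat_lit 5) (nat_lit 7) L3551 (by decide +kernel)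
theorem L3553 : W_49 (nat_lit 8) (nat_lit 0x5000240012000900048000e0000000000000000000000) (nat_lit 0x0) (nat_lit 0x1b8002c0040000900068000000000002000000000000000000) := T_49 (nat_lit 175) (nat_lit 193) (nat_lit 7) (nat_lit 5) (nat_lit 7) L3552 (by decide +kernel)
theorem L3554 : W_49 (nat_lit 9) (nat_lit 0x4000240012000900048000e0000000000000000000000) (nat_lit 0x0) (nat_lit 0x1b8003c0048000900068000000000002000000000000000000) := T_49 (nat_lit 176) (nat_lit 159) (nat_lit 7) (nat_lit 5) (nat_lit 6) L3553 (by decide +kernel)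
theorem L3555 : W_49 (nat_lit 10) (nat_lit 0x4000200012000900048000e0000000000000000000000) (nat_lit 0x0) (nat_lit 0x1b8003c004c000900068000400000002000000000000000000) := T_49 (nat_lit 158) (nat_lit 106) (nat_lit 4) (nat_lit 5) (nat_lit 9) L3554 (by decide +kernel)
theorem L3556 : W_49 (nat_lit 11) (nat_lit 0x400020001200090004800060000000000000000000000) (nat_lit 0x0) (nat_lit 0x1b8003c004c000900068000400080006000000000000000000) := T_49 (nat_lit 91) (nat_lit 74) (nat_lit 6) (nat_lit 5) (nat_lit 8) L3555 (by decide +kernel)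
theorem L3557 : W_49 (nat_lit 12) (nat_lit 0x400020001200090004800040000000000000000000000) (nat_lit 0x0) (nat_lit 0x1b8003c004c0009000680004000a0007000000000000000000) := T_49 (nat_lit 89) (nat_lit 72) (nat_lit 4) (nat_lit 5) (nat_lit 8) L3556 (by decide +kernel)
theorem L3558 : W_49 (nat_lit 13) (nat_lit 0x400020001200090004800000000000000000000000000) (nat_lit 0x0) (nat_lit 0x1b8003c004e0009000680004003e001f000080000000000000) := Q_49 (nat_lit 90) (C_49 L3475 (C_49 L3520 (C_49 L3546 (C_49 L3557 N_49)))) (by decide +kernel)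
theorem L3559 : W_49 (nat_lit 2) (nat_lit 0x40002c001a000d0004c00280000000000000000000000) (nat_lit 0x0) (nat_lit 0x140004000000000000000000) := D_49 (nat_lit 90) (nat_lit 74) (nat_lit 92) (nat_lit 6) (nat_lit 5) (nat_lit 8) (nat_lit 1) (nat_lit 8) (nat_lit 5) (by decide +kernel)
theorem L3560 : W_49 (nat_lit 3) (nat_lit 0x40002c001a000d0004c00080000000000000000000000) (nat_lit 0x0) (nat_lit 0x340014000000000000000000) := T_49 (nat_lit 93) (nat_lit 76) (nat_lit 5) (nat_lit 8) (nat_lit 4) L3559 (by decide +kernel)
theorem L3561 : W_49 (nat_lit 4) (nat_lit 0x40002c001a000d0004c00000000000000000000000000) (nat_lit 0x0) (nat_lit 0x10003c0014000000000000000000) := T_49 (nat_lit 91) (nat_lit 108) (nat_lit 6) (nat_lit 5) (nat_lit 9) L3560 (by decide +kernel)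
theorem L3562 : W_49 (nat_lit 5) (nat_lit 0x40002c0012000d0004c00000000000000000000000000) (nat_lit 0x0) (nat_lit 0x80000000000008000000010003c0014000000000000000000) := T_49 (nat_lit 143) (nat_lit 195) (nat_lit 4) (nat_lit 8) (nat_lit 11) L3561 (by decide +kernel)
theorem L3563 : W_49 (nat_lit 6) (nat_lit 0x4000240012000d0004c00000000000000000000000000) (nat_lit 0x0) (nat_lit 0x80001000080008000000010003c0014000000000000000000) := T_49 (nat_lit 159) (nat_lit 176) (nat_lit 7) (nat_lit 5) (nat_lit 6) L3562 (by decide +kernel)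
theorem L3564 : W_49 (nat_lit 7) (nat_lit 0x400024001200090004c00000000000000000000000000) (nat_lit 0x0) (nat_lit 0x80001000080008000600010003c0014000000000000000000) := T_49 (nat_lit 126) (nat_lit 125) (nat_lit 0) (nat_lit 8) (nat_lit 7) L3563 (by decide +kernel)
theorem L3565 : W_49 (nat_lit 8) (nat_lit 0x400024001200090004800000000000000000000000000) (nat_lit 0x0) (nat_lit 0x80001000080008000600014003e0014000000000000000000) := T_49 (nat_lit 106) (nat_lit 89) (nat_lit 4) (nat_lit 5) (nat_lit 9) L3564 (by decide +kernel)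
theorem L3566 : W_49 (nat_lit 2) (nat_lit 0x38000980048002c0012000d0004c00000000000000000000000000) (nat_lit 0x0) (nat_lit 0x60002000000000000000000000000000000000000000000000000) := D_49 (nat_lit 210) (nat_lit 193) (nat_lit 209) (nat_lit 0) (nat_lit 9) (nat_lit 12) (nat_lit 0) (nat_lit 8) (nat_lit 12) (by decide +kernel)
theorem L3567 : W_49 (nat_lit 3) (nat_lit 0x30000980048002c0012000d0004c00000000000000000000000000) (nat_lit 0x0) (nat_lit 0x10000e0002000000000000000000000000000000000000000000000000) := T_49 (nat_lit 211) (nat_lit 228) (nat_lit 5) (nat_lit 8) (nat_lit 9) L3566 (by decide +kernel)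
theorem L3568 : W_49 (nat_lit 4) (nat_lit 0x20000980048002c0012000d0004c00000000000000000000000000) (nat_lit 0x0) (nat_lit 0x50001e0002000000000000000000000000000000000000000000000000) := T_49 (nat_lit 212) (nat_lit 230) (nat_lit 7) (nat_lit 8) (nat_lit 9) L3567 (by decide +kernel)
theorem L3569 : W_49 (nat_lit 5) (nat_lit 0x20000880048002c0012000d0004c00000000000000000000000000) (nat_lit 0x0) (nat_lit 0x50001f0003000000000000000000000000000000000000000000000000) := T_49 (nat_lit 192) (nat_lit 208) (nat_lit 5) (nat_lit 5) (nat_lit 8) L3568 (by decide +kernel)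
theorem L3570 : W_49 (nat_lit 6) (nat_lit 0x880048002c0012000d0004c00000000000000000000000000) (nat_lit 0x0) (nat_lit 0x50003f0013000000000000000000000000000000000000000000000000) := T_49 (nat_lit 213) (nat_lit 196) (nat_lit 7) (nat_lit 8) (nat_lit 8) L3569 (by decide +kernel)
theorem L3571 : W_49 (nat_lit 7) (nat_lit 0x800048002c0012000d0004c00000000000000000000000000) (nat_lit 0x0) (nat_lit 0x50003f0013800040000000000000000000000000000000000000000000) := T_49 (nat_lit 191) (nat_lit 174) (nat_lit 5) (nat_lit 5) (nat_lit 7) L3570 (by decide +kernel)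
theorem L3572 : W_49 (nat_lit 8) (nat_lit 0x48002c0012000d0004c00000000000000000000000000) (nat_lit 0x0) (nat_lit 0x50003f001b800040000000800000000000000000000000000000000000) := T_49 (nat_lit 195) (nat_lit 143) (nat_lit 4) (nat_lit 8) (nat_lit 11) L3571 (by decide +kernel)
theorem L3573 : W_49 (nat_lit 9) (nat_lit 0x40002c0012000d0004c00000000000000000000000000) (nat_lit 0x0) (nat_lit 0x50003f001b8000c0000000800008000000000000000000000000000000) := T_49 (nat_lit 175) (nat_lit 123) (nat_lit 4) (nat_lit 5) (nat_lit 10) L3572 (by decide +kernel)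
theorem L3574 : W_49 (nat_lit 10) (nat_lit 0x40002c001200090004c00000000000000000000000000) (nat_lit 0x0) (nat_lit 0x50003f001b8000c0000000800068000000000000000000000000000000) := T_49 (nat_lit 126) (nat_lit 125) (nat_lit 0) (nat_lit 8) (nat_lit 7) L3573 (by decide +kernel)
theorem L3575 : W_49 (nat_lit 11) (nat_lit 0x40002c001200090004800000000000000000000000000) (nat_lit 0x0) (nat_lit 0x50003f001b8000c0000000800068000400020000000000000000000000) := T_49 (nat_lit 106) (nat_lit 89) (nat_lit 4) (nat_lit 5) (nat_lit 9) L3574 (by decide +kernel)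
theorem L3576 : W_49 (nat_lit 12) (nat_lit 0x400024001200090004800000000000000000000000000) (nat_lit 0x0) (nat_lit 0x50003f001b8001c0008000800068000400020000000000000000000000) := T_49 (nat_lit 159) (nat_lit 176) (nat_lit 7) (nat_lit 5) (nat_lit 6) L3575 (by decide +kernel)
theorem L3577 : W_49 (nat_lit 2) (nat_lit 0x40002c0012000b0005800000000000000000000000000) (nat_lit 0x0) (nat_lit 0x100140000000000000000000000000000000) := D_49 (nat_lit 126) (nat_lit 140) (nat_lit 128) (nat_lit 1) (nat_lit 8) (nat_lit 7) (nat_lit 0) (nat_lit 9) (nat_lit 7) (by decide +kernel)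
theorem L3578 : W_49 (nat_lit 3) (nat_lit 0x40002c001200090005800000000000000000000000000) (nat_lit 0x0) (nat_lit 0x80000000100160000000000000000000000000000000) := T_49 (nat_lit 125) (nat_lit 175) (nat_lit 6) (nat_lit 5) (nat_lit 10) L3577 (by decide +kernel)
theorem L3579 : W_49 (nat_lit 4) (nat_lit 0x400024001200090005800000000000000000000000000) (nat_lit 0x0) (nat_lit 0x180008000100160000000000000000000000000000000) := T_49 (nat_lit 159) (nat_lit 176) (nat_lit 7) (nat_lit 5) (nat_lit 6) L3578 (by decide +kernel)
theorem L3580 : W_49 (nat_lit 5) (nat_lit 0x400024001200090004800000000000000000000000000) (nat_lit 0x0) (nat_lit 0x180008000100160001000080000000000000000000000) := T_49 (nat_lit 108) (nat_lit 91) (nat_lit 6) (nat_lit 5) (nat_lit 9) L3579 (by decide +kernel)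
theorem L3581 : W_49 (nat_lit 13) (nat_lit 0x400020001200090004800000000000000000000000000) (nat_lit 0x0) (nat_lit 0x50003f001b8001c000c0009001680014003e0014000000000000000000) := Q_49 (nat_lit 158) (C_49 L3460 (C_49 L3451 (C_49 L3565 (C_49 L3576 (C_49 L3580 N_49))))) (by decide +kernel)
theorem L3582 : W_49 (nat_lit 2) (nat_lit 0x4800240012000d0004c00000000000000000000000000) (nat_lit 0x0) (nat_lit 0x2000100008000000000000000000000000000000000000000) := D_49 (nat_lit 176) (nat_lit 159) (nat_lit 193) (nat_lit 7) (nat_lit 5) (nat_lit 6) (nat_lit 7) (nat_lit 5) (nat_lit 7) (by decide +kernel)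
theorem L3583 : W_49 (nat_lit 3) (nat_lit 0x4000240012000d0004c00000000000000000000000000) (nat_lit 0x0) (nat_lit 0x2000180008000000008000000000000000000000000000000) := T_49 (nat_lit 175) (nat_lit 123) (nat_lit 4) (nat_lit 5) (nat_lit 10) L3582 (by decide +kernel)
theorem L3584 : W_49 (nat_lit 4) (nat_lit 0x400024001200090004c00000000000000000000000000) (nat_lit 0x0) (nat_lit 0x2000180008000000068000000000000000000000000000000) := T_49 (nat_lit 126) (nat_lit 125) (nat_lit 0) (nat_lit 8) (nat_lit 7) L3583 (by decide +kernel)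
theorem L3585 : W_49 (nat_lit 5) (nat_lit 0x400024001200090004800000000000000000000000000) (nat_lit 0x0) (nat_lit 0x2000180008000000068000400020000000000000000000000) := T_49 (nat_lit 106) (nat_lit 89) (nat_lit 4) (nat_lit 5) (nat_lit 9) L3584 (by decide +kernel)
theorem L3586 : W_49 (nat_lit 2) (nat_lit 0x500026001200090004800060000000000000000000000) (nat_lit 0x0) (nat_lit 0x2000280000000000000000000000000000000000000000000) := D_49 (nat_lit 175) (nat_lit 177) (nat_lit 193) (nat_lit 0) (nat_lit 8) (nat_lit 10) (nat_lit 7) (nat_lit 5) (nat_lit 7) (by decide +kernel)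
theorem L3587 : W_49 (nat_lit 3) (nat_lit 0x400026001200090004800060000000000000000000000) (nat_lit 0x0) (nat_lit 0x2000380008000000000000000000000000000000000000000) := T_49 (nat_lit 176) (nat_lit 159) (nat_lit 7) (nat_lit 5) (nat_lit 6) L3586 (by decide +kernel)
theorem L3588 : W_49 (nat_lit 4) (nat_lit 0x400026001200090004800040000000000000000000000) (nat_lit 0x0) (nat_lit 0x2000380008000000000000000020001000000000000000000) := T_49 (nat_lit 89) (nat_lit 72) (nat_lit 4) (nat_lit 5) (nat_lit 8) L3587 (by decide +kernel)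
theorem L3589 : W_49 (nat_lit 5) (nat_lit 0x400026001200090004800000000000000000000000000) (nat_lit 0x0) (nat_lit 0x2000380008000100000000000060001000000000000000000) := T_49 (nat_lit 90) (nat_lit 140) (nat_lit 5) (nat_lit 5) (nat_lit 5) L3588 (by decide +kernel)
theorem L3590 : W_49 (nat_lit 6) (nat_lit 0x400024001200090004800000000000000000000000000) (nat_lit 0x0) (nat_lit 0x20003c000a000100000000000060001000000000000000000) := T_49 (nat_lit 157) (nat_lit 174) (nat_lit 5) (nat_lit 5) (nat_lit 6) L3589 (by decide +kernel)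
theorem L3591 : W_49 (nat_lit 2) (nat_lit 0x48002e0013400b0004800000000000000000000000000) (nat_lit 0x0) (nat_lit 0x20001000000000000000008000000000000000000000000000000) := D_49 (nat_lit 192) (nat_lit 209) (nat_lit 123) (nat_lit 4) (nat_lit 5) (nat_lit 12) (nat_lit 4) (nat_lit 5) (nat_lit 11) (by decide +kernel)
theorem L3592 : W_49 (nat_lit 3) (nat_lit 0x40002e0013400b0004800000000000000000000000000) (nat_lit 0x0) (nat_lit 0x20001000080000000000008001000000000000000000000000000) := T_49 (nat_lit 175) (nat_lit 108) (nat_lit 6) (nat_lit 5) (nat_lit 10) L3591 (by decide +kernel)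
theorem L3593 : W_49 (nat_lit 4) (nat_lit 0x40002e001340090004800000000000000000000000000) (nat_lit 0x0) (nat_lit 0x20001000080000000000068001000000000000000000000000000) := T_49 (nat_lit 125) (nat_lit 126) (nat_lit 1) (nat_lit 8) (nat_lit 7) L3592 (by decide +kernel)
theorem L3594 : W_49 (nat_lit 5) (nat_lit 0x40002e001300090004800000000000000000000000000) (nat_lit 0x0) (nat_lit 0x200010000800000000c0068001000000000000000000000000000) := T_49 (nat_lit 138) (nat_lit 139) (nat_lit 3) (nat_lit 2) (nat_lit 8) L3593 (by decide +kernel)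
theorem L3595 : W_49 (nat_lit 6) (nat_lit 0x40002e001200090004800000000000000000000000000) (nat_lit 0x0) (nat_lit 0x200010000800000001c0068001000040000000000000000000000) := T_49 (nat_lit 140) (nat_lit 90) (nat_lit 5) (nat_lit 5) (nat_lit 5) L3594 (by decide +kernel)
theorem L3596 : W_49 (nat_lit 7) (nat_lit 0x40002c001200090004800000000000000000000000000) (nat_lit 0x0) (nat_lit 0x200010000c00020001c0068001000040000000000000000000000) := T_49 (nat_lit 157) (nat_lit 174) (nat_lit 5) (nat_lit 5) (nat_lit 6) L3595 (by decide +kernel)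
theorem L3597 : W_49 (nat_lit 8) (nat_lit 0x400024001200090004800000000000000000000000000) (nat_lit 0x0) (nat_lit 0x200010001c000a0001c0068001000040000000000000000000000) := T_49 (nat_lit 159) (nat_lit 176) (nat_lit 7) (nat_lit 5) (nat_lit 6) L3596 (by decide +kernel)
theorem L3598 : W_49 (nat_lit 13) (nat_lit 0x400020001200090004800000000000000000000000000) (nat_lit 0x0) (nat_lit 0x50003f001b8003c000e0009c0068001400060001000000000000000000) := Q_49 (nat_lit 158) (C_49 L3576 (C_49 L3456 (C_49 L3205 (C_49 L3585 (C_49 L3590 (C_49 L3597 N_49)))))) (by decide +kernel)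
theorem L3599 : W_49 (nat_lit 9) (nat_lit 0x400020001200090004800000000000000000000000000) (nat_lit 0x0) (nat_lit 0xa0003c000e0009001600014003e0015000000000000000000) := Q_49 (nat_lit 158) (C_49 L3590 (C_49 L3311 (C_49 L3565 (C_49 L3580 N_49)))) (by decide +kernel)
theorem L3600 : W_49 (nat_lit 5) (nat_lit 0x4000200012000900048000e0000000000000000000000) (nat_lit 0x0) (nat_lit 0x20003c000e000000000001000000000000000000000000000) := T_49 (nat_lit 158) (nat_lit 108) (nat_lit 6) (nat_lit 5) (nat_lit 9) L3543 (by decide +kernel)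
theorem L3601 : W_49 (nat_lit 6) (nat_lit 0x400020001200090004800060000000000000000000000) (nat_lit 0x0) (nat_lit 0x20003c000e000000000001000080004000000000000000000) := T_49 (nat_lit 91) (nat_lit 74) (nat_lit 6) (nat_lit 5) (nat_lit 8) L3600 (by decide +kernel)
theorem L3602 : W_49 (nat_lit 7) (nat_lit 0x400020001200090004800040000000000000000000000) (nat_lit 0x0) (nat_lit 0x20003c000e0000000000010000a0005000000000000000000) := T_49 (nat_lit 89) (nat_lit 72) (nat_lit 4) (nat_lit 5) (nat_lit 8) L3601 (by decide +kernel)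
theorem L3603 : W_49 (nat_lit 10) (nat_lit 0x4000200012000900048000e0000000000000000000000) (nat_lit 0x0) (nat_lit 0x1b8003c004c000900068001000000002000000000000000000) := T_49 (nat_lit 158) (nat_lit 108) (nat_lit 6) (nat_lit 5) (nat_lit 9) L3554 (by decide +kernel)
theorem L3604 : W_49 (nat_lit 11) (nat_lit 0x4000200012000900048000c0000000000000000000000) (nat_lit 0x0) (nat_lit 0x1b8003c004c000900068001000020003000000000000000000) := T_49 (nat_lit 89) (nat_lit 72) (nat_lit 4) (nat_lit 5) (nat_lit 8) L3603 (by decide +kernel)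
theorem L3605 : W_49 (nat_lit 12) (nat_lit 0x400020001200090004800040000000000000000000000) (nat_lit 0x0) (nat_lit 0x1b8003c004c0009000680010000a0007000000000000000000) := T_49 (nat_lit 91) (nat_lit 74) (nat_lit 6) (nat_lit 5) (nat_lit 8) L3604 (by decide +kernel)
theorem L3606 : W_49 (nat_lit 2) (nat_lit 0x180005000240013000d00048000c0002000000000000000000) (nat_lit 0x0) (nat_lit 0x2000280000000000000000000000000000000000000000000) := D_49 (nat_lit 175) (nat_lit 177) (nat_lit 193) (nat_lit 3) (nat_lit 5) (nat_lit 10) (nat_lit 7) (nat_lit 5) (nat_lit 7) (by decide +kernel)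
theorem L3607 : W_49 (nat_lit 3) (nat_lit 0x80005000240013000d00048000c0002000000000000000000) (nat_lit 0x0) (nat_lit 0x200012000280000000000000000000000000000000000000000000) := T_49 (nat_lit 196) (nat_lit 213) (nat_lit 7) (nat_lit 8) (nat_lit 8) L3606 (by decide +kernel)
theorem L3608 : W_49 (nat_lit 4) (nat_lit 0x80004000240013000d00048000c0002000000000000000000) (nat_lit 0x0) (nat_lit 0x200012000380008000000000000000000000000000000000000000) := T_49 (nat_lit 176) (nat_lit 159) (nat_lit 7) (nat_lit 5) (nat_lit 6) L3607 (by decide +kernel)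
theorem L3609 : W_49 (nat_lit 5) (nat_lit 0x4000240013000d00048000c0002000000000000000000) (nat_lit 0x0) (nat_lit 0x20001a000380008000800000000000000000000000000000000000) := T_49 (nat_lit 195) (nat_lit 143) (nat_lit 4) (nat_lit 8) (nat_lit 11) L3608 (by decide +kernel)
theorem L3610 : W_49 (nat_lit 6) (nat_lit 0x4000200013000d00048000c0002000000000000000000) (nat_lit 0x0) (nat_lit 0x20001a00038000c000800000001000000000000000000000000000) := T_49 (nat_lit 158) (nat_lit 108) (nat_lit 6) (nat_lit 5) (nat_lit 9) L3609 (by decide +kernel)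
theorem L3611 : W_49 (nat_lit 7) (nat_lit 0x4000200013000900048000c0002000000000000000000) (nat_lit 0x0) (nat_lit 0x20001a00038000c000800060001000000000000000000000000000) := T_49 (nat_lit 126) (nat_lit 125) (nat_lit 1) (nat_lit 8) (nat_lit 7) L3610 (by decide +kernel)
theorem L3612 : W_49 (nat_lit 8) (nat_lit 0x4000200013000900048000c0000000000000000000000) (nat_lit 0x0) (nat_lit 0x20001a00038000c000800068001000000002000000000000000000) := T_49 (nat_lit 73) (nat_lit 123) (nat_lit 5) (nat_lit 5) (nat_lit 4) L3611 (by decide +kernel)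
theorem L3613 : W_49 (nat_lit 9) (nat_lit 0x4000200012000900048000c0000000000000000000000) (nat_lit 0x0) (nat_lit 0x20001a00038000e000900068001000000002000000000000000000) := T_49 (nat_lit 140) (nat_lit 157) (nat_lit 5) (nat_lit 5) (nat_lit 5) L3612 (by decide +kernel)
theorem L3614 : W_49 (nat_lit 10) (nat_lit 0x400020001200090004800040000000000000000000000) (nat_lit 0x0) (nat_lit 0x20001a00038000e000900068001000080006000000000000000000) := T_49 (nat_lit 91) (nat_lit 74) (nat_lit 6) (nat_lit 5) (nat_lit 8) L3613 (by decide +kernel)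
theorem L3615 : W_49 (nat_lit 13) (nat_lit 0x400020001200090004800000000000000000000000000) (nat_lit 0x0) (nat_lit 0x20001b8003c004e0009000680010003e0017c00080000000000000) := Q_49 (nat_lit 90) (C_49 L3475 (C_49 L3491 (C_49 L3602 (C_49 L3605 (C_49 L3614 N_49))))) (by decide +kernel)
theorem L3616 : W_49 (nat_lit 2) (nat_lit 0x40002e0012000d0004c00040016000180000000000000) (nat_lit 0x0) (nat_lit 0x8000000000000800000000000200000000000000000000000) := D_49 (nat_lit 143) (nat_lit 195) (nat_lit 93) (nat_lit 4) (nat_lit 8) (nat_lit 11) (nat_lit 5) (nat_lit 8) (nat_lit 4) (by decide +kernel)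
theorem L3617 : W_49 (nat_lit 3) (nat_lit 0x40002e001200090004c00040016000180000000000000) (nat_lit 0x0) (nat_lit 0x8000000000000800060000000200000000000000000000000) := T_49 (nat_lit 126) (nat_lit 125) (nat_lit 0) (nat_lit 8) (nat_lit 7) L3616 (by decide +kernel)
theorem L3618 : W_49 (nat_lit 4) (nat_lit 0x40002e001200090004800040016000180000000000000) (nat_lit 0x0) (nat_lit 0x8000000000000800068000400200000000000000000000000) := T_49 (nat_lit 106) (nat_lit 123) (nat_lit 5) (nat_lit 5) (nat_lit 3) L3617 (by decide +kernel)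
theorem L3619 : W_49 (nat_lit 5) (nat_lit 0x40002e001200090004800040006000180000000000000) (nat_lit 0x0) (nat_lit 0x8000000000000800068000400200018000000000000000000) := T_49 (nat_lit 76) (nat_lit 75) (nat_lit 0) (nat_lit 8) (nat_lit 4) L3618 (by decide +kernel)
theorem L3620 : W_49 (nat_lit 6) (nat_lit 0x40002e001200090004800040006000080000000000000) (nat_lit 0x0) (nat_lit 0x8000000000000800068000400200018000100004000000000) := T_49 (nat_lit 56) (nat_lit 38) (nat_lit 4) (nat_lit 5) (nat_lit 6) L3619 (by decide +kernel)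
theorem L3621 : W_49 (nat_lit 7) (nat_lit 0x40002e001200090004800040006000000000000000000) (nat_lit 0x0) (nat_lit 0x8000000000000800068000400200019000180004000000000) := T_49 (nat_lit 55) (nat_lit 72) (nat_lit 4) (nat_lit 5) (nat_lit 7) L3620 (by decide +kernel)
theorem L3622 : W_49 (nat_lit 8) (nat_lit 0x40002e001200090004800040004000000000000000000) (nat_lit 0x0) (nat_lit 0x800000000000080006800040020001b000380004000000000) := T_49 (nat_lit 73) (nat_lit 57) (nat_lit 6) (nat_lit 5) (nat_lit 7) L3621 (by decide +kernel)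
theorem L3623 : W_49 (nat_lit 9) (nat_lit 0x40002e001200090004800040000000000000000000000) (nat_lit 0x0) (nat_lit 0x800000000000080006800040028001f000380004000000000) := T_49 (nat_lit 74) (nat_lit 91) (nat_lit 6) (nat_lit 5) (nat_lit 8) L3622 (by decide +kernel)
theorem L3624 : W_49 (nat_lit 10) (nat_lit 0x40002e001200090004800000000000000000000000000) (nat_lit 0x0) (nat_lit 0x80000000000009000680004002c001f000380004000000000) := T_49 (nat_lit 90) (nat_lit 140) (nat_lit 5) (nat_lit 5) (nat_lit 5) L3623 (by decide +kernel)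
theorem L3625 : W_49 (nat_lit 11) (nat_lit 0x40002c001200090004800000000000000000000000000) (nat_lit 0x0) (nat_lit 0x80000400020009000680004002c001f000380004000000000) := T_49 (nat_lit 157) (nat_lit 174) (nat_lit 5) (nat_lit 5) (nat_lit 6) L3624 (by decide +kernel)
theorem L3626 : W_49 (nat_lit 12) (nat_lit 0x400024001200090004800000000000000000000000000) (nat_lit 0x0) (nat_lit 0x800014000a0009000680004002c001f000380004000000000) := T_49 (nat_lit 159) (nat_lit 176) (nat_lit 7) (nat_lit 5) (nat_lit 6) L3625 (by decide +kernel)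
theorem L3627 : W_49 (nat_lit 13) (nat_lit 0x400020001200090004800000000000000000000000000) (nat_lit 0x0) (nat_lit 0x200098001c000e0009c01680014002c001f000380004000000000) := Q_49 (nat_lit 158) (C_49 L3597 (C_49 L3311 (C_49 L3202 (C_49 L3580 (C_49 L3626 N_49))))) (by decide +kernel)
theorem L3628 : W_49 (nat_lit 14) (nat_lit 0x400020001200090004000000000000000000000000000) (nat_lit 0x0) (nat_lit 0x50003f001b8003c004e0009c016e001f007f803fe01380004000000000) := Q_49 (nat_lit 107) (C_49 L3452 (C_49 L3461 (C_49 L3492 (C_49 L3521 (C_49 L3530 (C_49 L3540 (C_49 L3558 (C_49 L3581 (C_49 L3598 (C_49 L3599 (C_49 L3615 (C_49 L3627 N_49)))))))))))) (by decide +kernel)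
theorem L3629 : W_49 (nat_lit 2) (nat_lit 0x6000240013000d0004d002c0012000000000000000000) (nat_lit 0x0) (nat_lit 0x400020001000000000000000) := D_49 (nat_lit 77) (nat_lit 94) (nat_lit 60) (nat_lit 6) (nat_lit 8) (nat_lit 8) (nat_lit 6) (nat_lit 8) (nat_lit 7) (by decide +kernel)
theorem L3630 : W_49 (nat_lit 3) (nat_lit 0x6000240013000d0004d002c0002000000000000000000) (nat_lit 0x0) (nat_lit 0x800000000000400030001000000000000000) := T_49 (nat_lit 76) (nat_lit 143) (nat_lit 5) (nat_lit 8) (nat_lit 4) L3629 (by decide +kernel)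
theorem L3631 : W_49 (nat_lit 4) (nat_lit 0x4000240013000d0004d002c0002000000000000000000) (nat_lit 0x0) (nat_lit 0x4000200000000800000000000400030001000000000000000) := T_49 (nat_lit 177) (nat_lit 194) (nat_lit 5) (nat_lit 8) (nat_lit 7) L3630 (by decide +kernel)
theorem L3632 : W_49 (nat_lit 5) (nat_lit 0x4000240013000d0004d000c0002000000000000000000) (nat_lit 0x0) (nat_lit 0x4000200000000800000000000700030001000000000000000) := T_49 (nat_lit 93) (nat_lit 92) (nat_lit 1) (nat_lit 8) (nat_lit 5) L3631 (by decide +kernel)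
theorem L3633 : W_49 (nat_lit 6) (nat_lit 0x4000240013000d0004c000c0002000000000000000000) (nat_lit 0x0) (nat_lit 0x4000200000000800000000300700030001000000000000000) := T_49 (nat_lit 104) (nat_lit 105) (nat_lit 2) (nat_lit 2) (nat_lit 6) L3632 (by decide +kernel)
theorem L3634 : W_49 (nat_lit 7) (nat_lit 0x4000240013000d00048000c0002000000000000000000) (nat_lit 0x0) (nat_lit 0x4000200000000800000000700720030001000000000000000) := T_49 (nat_lit 106) (nat_lit 89) (nat_lit 4) (nat_lit 5) (nat_lit 9) L3633 (by decide +kernel)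
theorem L3635 : W_49 (nat_lit 8) (nat_lit 0x4000200013000d00048000c0002000000000000000000) (nat_lit 0x0) (nat_lit 0x4000200004000800000001700720030001000000000000000) := T_49 (nat_lit 158) (nat_lit 108) (nat_lit 6) (nat_lit 5) (nat_lit 9) L3634 (by decide +kernel)
theorem L3636 : W_49 (nat_lit 9) (nat_lit 0x4000200013000900048000c0002000000000000000000) (nat_lit 0x0) (nat_lit 0x4000200004000800060001700720030001000000000000000) := T_49 (nat_lit 126) (nat_lit 125) (nat_lit 1) (nat_lit 8) (nat_lit 7) L3635 (by decide +kernel)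
theorem L3637 : W_49 (nat_lit 10) (nat_lit 0x4000200013000900048000c0000000000000000000000) (nat_lit 0x0) (nat_lit 0x4000200004000800068001700720032001000000000000000) := T_49 (nat_lit 73) (nat_lit 123) (nat_lit 5) (nat_lit 5) (nat_lit 4) L3636 (by decide +kernel)
theorem L3638 : W_49 (nat_lit 11) (nat_lit 0x4000200012000900048000c0000000000000000000000) (nat_lit 0x0) (nat_lit 0x4000200006000900068001700720032001000000000000000) := T_49 (nat_lit 140) (nat_lit 157) (nat_lit 5) (nat_lit 5) (nat_lit 5) L3637 (by decide +kernel)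
theorem L3639 : W_49 (nat_lit 12) (nat_lit 0x400020001200090004800040000000000000000000000) (nat_lit 0x0) (nat_lit 0x40002000060009000680017007a0036001000000000000000) := T_49 (nat_lit 91) (nat_lit 74) (nat_lit 6) (nat_lit 5) (nat_lit 8) L3638 (by decide +kernel)
theorem L3640 : W_49 (nat_lit 2) (nat_lit 0x600020001300090004800040002000000000000000000) (nat_lit 0x0) (nat_lit 0x80004000200000000000000) := D_49 (nat_lit 74) (nat_lit 91) (nat_lit 57) (nat_lit 6) (nat_lit 5) (nat_lit 8) (nat_lit 6) (nat_lit 5) (nat_lit 7) (by decide +kernel)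
theorem L3641 : W_49 (nat_lit 3) (nat_lit 0x600020001300090004800040000000000000000000000) (nat_lit 0x0) (nat_lit 0x8000000080006000200000000000000) := T_49 (nat_lit 73) (nat_lit 123) (nat_lit 5) (nat_lit 5) (nat_lit 4) L3640 (by decide +kernel)
theorem L3642 : W_49 (nat_lit 4) (nat_lit 0x600020001200090004800040000000000000000000000) (nat_lit 0x0) (nat_lit 0x2000100008000000080006000200000000000000) := T_49 (nat_lit 140) (nat_lit 157) (nat_lit 5) (nat_lit 5) (nat_lit 5) L3641 (by decide +kernel)
theorem L3643 : W_49 (nat_lit 5) (nat_lit 0x400020001200090004800040000000000000000000000) (nat_lit 0x0) (nat_lit 0x4000200002000100008000000080006000200000000000000) := T_49 (nat_lit 177) (nat_lit 194) (nat_lit 5) (nat_lit 8) (nat_lit 7) L3642 (by decide +kernel)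
theorem L3644 : W_49 (nat_lit 13) (nat_lit 0x400020001200090004800000000000000000000000000) (nat_lit 0x0) (nat_lit 0x40002000060009001680017007e0037c01380000000000000) := Q_49 (nat_lit 90) (C_49 L3502 (C_49 L3475 (C_49 L3464 (C_49 L3639 (C_49 L3643 N_49))))) (by decide +kernel)
theorem L3645 : W_49 (nat_lit 5) (nat_lit 0x600020001200090004800200000000000000000000000) (nat_lit 0x0) (nat_lit 0x14005c002c000000000000000000) := T_49 (nat_lit 94) (nat_lit 77) (nat_lit 6) (nat_lit 8) (nat_lit 8) L3184 (by decide +kernel)
theorem L3646 : W_49 (nat_lit 6) (nat_lit 0x400020001200090004800200000000000000000000000) (nat_lit 0x0) (nat_lit 0x40002000000000000000014005c002c000000000000000000) := T_49 (nat_lit 177) (nat_lit 194) (nat_lit 5) (nat_lit 8) (nat_lit 7) L3645 (by decide +kernel)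
theorem L3647 : W_49 (nat_lit 2) (nat_lit 0x6000200012000d0004800300030000000000000000000) (nat_lit 0x0) (nat_lit 0x100020000400000000000000000000000000) := D_49 (nat_lit 125) (nat_lit 140) (nat_lit 106) (nat_lit 1) (nat_lit 8) (nat_lit 7) (nat_lit 0) (nat_lit 8) (nat_lit 7) (by decide +kernel)
theorem L3648 : W_49 (nat_lit 3) (nat_lit 0x600020001200090004800300030000000000000000000) (nat_lit 0x0) (nat_lit 0x900060000400000000000000000000000000) := T_49 (nat_lit 126) (nat_lit 143) (nat_lit 5) (nat_lit 8) (nat_lit 4) L3647 (by decide +kernel)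
theorem L3649 : W_49 (nat_lit 4) (nat_lit 0x600020001200090004800300020000000000000000000) (nat_lit 0x0) (nat_lit 0x900060000400000010001000000000000000) := T_49 (nat_lit 76) (nat_lit 60) (nat_lit 6) (nat_lit 8) (nat_lit 7) L3648 (by decide +kernel)
theorem L3650 : W_49 (nat_lit 5) (nat_lit 0x600020001200090004800300000000000000000000000) (nat_lit 0x0) (nat_lit 0x900060000400400030001000000000000000) := T_49 (nat_lit 77) (nat_lit 94) (nat_lit 6) (nat_lit 8) (nat_lit 8) L3649 (by decide +kernel)
theorem L3651 : W_49 (nat_lit 6) (nat_lit 0x400020001200090004800300000000000000000000000) (nat_lit 0x0) (nat_lit 0x4000200000000900060000400400030001000000000000000) := T_49 (nat_lit 177) (nat_lit 194) (nat_lit 5) (nat_lit 8) (nat_lit 7) L3650 (by decide +kernel)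
theorem L3652 : W_49 (nat_lit 7) (nat_lit 0x400020001200090004800200000000000000000000000) (nat_lit 0x0) (nat_lit 0x4000200000000900060000400500038001000000000000000) := T_49 (nat_lit 92) (nat_lit 75) (nat_lit 4) (nat_lit 8) (nat_lit 8) L3651 (by decide +kernel)
theorem L3653 : W_49 (nat_lit 5) (nat_lit 0x400020001200090004800200000000000000000000000) (nat_lit 0x0) (nat_lit 0x14005c002c000000000000000000) := T_49 (nat_lit 94) (nat_lit 77) (nat_lit 6) (nat_lit 8) (nat_lit 8) L3190 (by decide +kernel)
theorem L3654 : W_49 (nat_lit 2) (nat_lit 0x6000200012000d0004800200018000000000000000000) (nat_lit 0x0) (nat_lit 0x100020000400000000000000000000000000) := D_49 (nat_lit 125) (nat_lit 140) (nat_lit 106) (nat_lit 1) (nat_lit 8) (nat_lit 7) (nat_lit 0) (nat_lit 8) (nat_lit 7) (by decide +kernel)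
theorem L3655 : W_49 (nat_lit 3) (nat_lit 0x600020001200090004800200018000000000000000000) (nat_lit 0x0) (nat_lit 0x900060000400000000000000000000000000) := T_49 (nat_lit 126) (nat_lit 143) (nat_lit 5) (nat_lit 8) (nat_lit 4) L3654 (by decide +kernel)
theorem L3656 : W_49 (nat_lit 4) (nat_lit 0x600020001200090004800200008000000000000000000) (nat_lit 0x0) (nat_lit 0x900060000400000010000400000000000000) := T_49 (nat_lit 76) (nat_lit 58) (nat_lit 4) (nat_lit 8) (nat_lit 7) L3655 (by decide +kernel)
theorem L3657 : W_49 (nat_lit 5) (nat_lit 0x400020001200090004800200008000000000000000000) (nat_lit 0x0) (nat_lit 0x4000200000000900060000400000010000400000000000000) := T_49 (nat_lit 177) (nat_lit 194) (nat_lit 5) (nat_lit 8) (nat_lit 7) L3656 (by decide +kernel)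
theorem L3658 : W_49 (nat_lit 6) (nat_lit 0x400020001200090004800200000000000000000000000) (nat_lit 0x0) (nat_lit 0x4000200000000900060000400100018000400000000000000) := T_49 (nat_lit 75) (nat_lit 92) (nat_lit 4) (nat_lit 8) (nat_lit 8) L3657 (by decide +kernel)
theorem L3659 : W_49 (nat_lit 2) (nat_lit 0x6000200012000d0004800200030000000000000000000) (nat_lit 0x0) (nat_lit 0x100020000400000000000000000000000000) := D_49 (nat_lit 125) (nat_lit 140) (nat_lit 106) (nat_lit 1) (nat_lit 8) (nat_lit 7) (nat_lit 0) (nat_lit 8) (nat_lit 7) (by decide +kernel)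
theorem L3660 : W_49 (nat_lit 3) (nat_lit 0x600020001200090004800200030000000000000000000) (nat_lit 0x0) (nat_lit 0x900060000400000000000000000000000000) := T_49 (nat_lit 126) (nat_lit 143) (nat_lit 5) (nat_lit 8) (nat_lit 4) L3659 (by decide +kernel)
theorem L3661 : W_49 (nat_lit 4) (nat_lit 0x600020001200090004800200020000000000000000000) (nat_lit 0x0) (nat_lit 0x900060000400000010001000000000000000) := T_49 (nat_lit 76) (nat_lit 60) (nat_lit 6) (nat_lit 8) (nat_lit 7) L3660 (by decide +kernel)
theorem L3662 : W_49 (nat_lit 5) (nat_lit 0x600020001200090004800200000000000000000000000) (nat_lit 0x0) (nat_lit 0x900060000400400030001000000000000000) := T_49 (nat_lit 77) (nat_lit 94) (nat_lit 6) (nat_lit 8) (nat_lit 8) L3661 (by decide +kernel)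
theorem L3663 : W_49 (nat_lit 6) (nat_lit 0x400020001200090004800200000000000000000000000) (nat_lit 0x0) (nat_lit 0x4000200000000900060000400400030001000000000000000) := T_49 (nat_lit 177) (nat_lit 194) (nat_lit 5) (nat_lit 8) (nat_lit 7) L3662 (by decide +kernel)
theorem L3664 : W_49 (nat_lit 2) (nat_lit 0x400020001200090004800780000000000000000000000) (nat_lit 0x0) (nat_lit 0x40006000000000000000000) := D_49 (nat_lit 74) (nat_lit 73) (nat_lit 90) (nat_lit 0) (nat_lit 9) (nat_lit 5) (nat_lit 6) (nat_lit 5) (nat_lit 8) (by decide +kernel)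
theorem L3665 : W_49 (nat_lit 3) (nat_lit 0x400020001200090004800700000000000000000000000) (nat_lit 0x0) (nat_lit 0x10000c0006000000000000000000) := T_49 (nat_lit 91) (nat_lit 108) (nat_lit 1) (nat_lit 9) (nat_lit 5) L3664 (by decide +kernel)
theorem L3666 : W_49 (nat_lit 4) (nat_lit 0x400020001200090004800600000000000000000000000) (nat_lit 0x0) (nat_lit 0x10001c000e000000000000000000) := T_49 (nat_lit 92) (nat_lit 75) (nat_lit 4) (nat_lit 8) (nat_lit 8) L3665 (by decide +kernel)
theorem L3667 : W_49 (nat_lit 5) (nat_lit 0x400020001200090004800200000000000000000000000) (nat_lit 0x0) (nat_lit 0x10005c002e000000000000000000) := T_49 (nat_lit 94) (nat_lit 77) (nat_lit 6) (nat_lit 8) (nat_lit 8) L3666 (by decide +kernel)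
theorem L3668 : W_49 (nat_lit 8) (nat_lit 0x400020001200090004800000000000000000000000000) (nat_lit 0x0) (nat_lit 0x40002000000009000600014007c003e001400000000000000) := Q_49 (nat_lit 93) (C_49 L3646 (C_49 L3652 (C_49 L3653 (C_49 L3658 (C_49 L3663 (C_49 L3667 N_49)))))) (by decide +kernel)
theorem L3669 : W_49 (nat_lit 2) (nat_lit 0x60002e0012000900048000c0000000000000000000000) (nat_lit 0x0) (nat_lit 0x400020001000000000000000000) := D_49 (nat_lit 89) (nat_lit 72) (nat_lit 106) (nat_lit 4) (nat_lit 5) (nat_lit 8) (nat_lit 4) (nat_lit 5) (nat_lit 9) (by decide +kernel)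
theorem L3670 : W_49 (nat_lit 3) (nat_lit 0x60002e001200090004800080000000000000000000000) (nat_lit 0x0) (nat_lit 0x400060005000000000000000000) := T_49 (nat_lit 90) (nat_lit 74) (nat_lit 6) (nat_lit 5) (nat_lit 8) L3669 (by decide +kernel)
theorem L3671 : W_49 (nat_lit 4) (nat_lit 0x60002c001200090004800080000000000000000000000) (nat_lit 0x0) (nat_lit 0x40002000000000000400060005000000000000000000) := T_49 (nat_lit 157) (nat_lit 174) (nat_lit 5) (nat_lit 5) (nat_lit 6) L3670 (by decide +kernel)
theorem L3672 : W_49 (nat_lit 5) (nat_lit 0x60002c001200090004800000000000000000000000000) (nat_lit 0x0) (nat_lit 0x400020000000000014000e0005000000000000000000) := T_49 (nat_lit 91) (nat_lit 108) (nat_lit 6) (nat_lit 5) (nat_lit 9) L3671 (by decide +kernel)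
theorem L3673 : W_49 (nat_lit 6) (nat_lit 0x600024001200090004800000000000000000000000000) (nat_lit 0x0) (nat_lit 0x14000a0000000000014000e0005000000000000000000) := T_49 (nat_lit 159) (nat_lit 176) (nat_lit 7) (nat_lit 5) (nat_lit 6) L3672 (by decide +kernel)
theorem L3674 : W_49 (nat_lit 7) (nat_lit 0x400024001200090004800000000000000000000000000) (nat_lit 0x0) (nat_lit 0x400034000a0000000000014000e0005000000000000000000) := T_49 (nat_lit 177) (nat_lit 194) (nat_lit 5) (nat_lit 8) (nat_lit 7) L3673 (by decide +kernel)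
theorem L3675 : W_49 (nat_lit 8) (nat_lit 0x400020001200090004800000000000000000000000000) (nat_lit 0x0) (nat_lit 0x68003c000e0000000680014000e0005000000000000000000) := Q_49 (nat_lit 158) (C_49 L3460 (C_49 L3585 (C_49 L3451 (C_49 L3674 (C_49 L3202 N_49))))) (by decide +kernel)
theorem L3676 : W_49 (nat_lit 2) (nat_lit 0x7000240012000900048000e0000000000000000000000) (nat_lit 0x0) (nat_lit 0x2000080040000000000000000000000000000000000000000) := D_49 (nat_lit 175) (nat_lit 162) (nat_lit 193) (nat_lit 2) (nat_lit 5) (nat_lit 10) (nat_lit 7) (nat_lit 5) (nat_lit 7) (by decide +kernel)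
theorem L3677 : W_49 (nat_lit 3) (nat_lit 0x6000240012000900048000e0000000000000000000000) (nat_lit 0x0) (nat_lit 0x2000180048000000000000000000000000000000000000000) := T_49 (nat_lit 176) (nat_lit 159) (nat_lit 7) (nat_lit 5) (nat_lit 6) L3676 (by decide +kernel)
theorem L3678 : W_49 (nat_lit 4) (nat_lit 0x6000200012000900048000e0000000000000000000000) (nat_lit 0x0) (nat_lit 0x200018004c000000000000400000000000000000000000000) := T_49 (nat_lit 158) (nat_lit 106) (nat_lit 4) (nat_lit 5) (nat_lit 9) L3677 (by decide +kernel)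
theorem L3679 : W_49 (nat_lit 5) (nat_lit 0x6000200012000900048000c0000000000000000000000) (nat_lit 0x0) (nat_lit 0x200018004c000000000000400020001000000000000000000) := T_49 (nat_lit 89) (nat_lit 72) (nat_lit 4) (nat_lit 5) (nat_lit 8) L3678 (by decide +kernel)
theorem L3680 : W_49 (nat_lit 6) (nat_lit 0x4000200012000900048000c0000000000000000000000) (nat_lit 0x0) (nat_lit 0x600038004c000000000000400020001000000000000000000) := T_49 (nat_lit 177) (nat_lit 194) (nat_lit 5) (nat_lit 8) (nat_lit 7) L3679 (by decide +kernel)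
theorem L3681 : W_49 (nat_lit 7) (nat_lit 0x400020001200090004800040000000000000000000000) (nat_lit 0x0) (nat_lit 0x600038004c0000000000004000a0005000000000000000000) := T_49 (nat_lit 91) (nat_lit 74) (nat_lit 6) (nat_lit 5) (nat_lit 8) L3680 (by decide +kernel)
theorem L3682 : W_49 (nat_lit 8) (nat_lit 0x400020001200090004800000000000000000000000000) (nat_lit 0x0) (nat_lit 0x60003c004e0001000080004000e0007000280000000000000) := Q_49 (nat_lit 90) (C_49 L3643 (C_49 L3546 (C_49 L3475 (C_49 L3681 N_49)))) (by decide +kernel)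
theorem L3683 : W_49 (nat_lit 9) (nat_lit 0x400020001200090004800000000000000000000000000) (nat_lit 0x0) (nat_lit 0x200030003c000e0001c0068001400060001000000000000000000) := Q_49 (nat_lit 158) (C_49 L3590 (C_49 L3585 (C_49 L3597 (C_49 L3205 N_49)))) (by decide +kernel)
theorem L3684 : W_49 (nat_lit 4) (nat_lit 0x6000240012000900048000c0000000000000000000000) (nat_lit 0x0) (nat_lit 0x2000180048000000000000000020001000000000000000000) := T_49 (nat_lit 89) (nat_lit 72) (nat_lit 4) (nat_lit 5) (nat_lit 8) L3677 (by decide +kernel)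
theorem L3685 : W_49 (nat_lit 5) (nat_lit 0x6000200012000900048000c0000000000000000000000) (nat_lit 0x0) (nat_lit 0x200018004c000000000001000020001000000000000000000) := T_49 (nat_lit 158) (nat_lit 108) (nat_lit 6) (nat_lit 5) (nat_lit 9) L3684 (by decide +kernel)
theorem L3686 : W_49 (nat_lit 6) (nat_lit 0x4000200012000900048000c0000000000000000000000) (nat_lit 0x0) (nat_lit 0x600038004c000000000001000020001000000000000000000) := T_49 (nat_lit 177) (nat_lit 194) (nat_lit 5) (nat_lit 8) (nat_lit 7) L3685 (by decide +kernel)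
theorem L3687 : W_49 (nat_lit 7) (nat_lit 0x400020001200090004800040000000000000000000000) (nat_lit 0x0) (nat_lit 0x600038004c0000000000010000a0005000000000000000000) := T_49 (nat_lit 91) (nat_lit 74) (nat_lit 6) (nat_lit 5) (nat_lit 8) L3686 (by decide +kernel)
theorem L3688 : W_49 (nat_lit 8) (nat_lit 0x400020001200090004800000000000000000000000000) (nat_lit 0x0) (nat_lit 0x60003c004e0001000080010000e0007000280000000000000) := Q_49 (nat_lit 90) (C_49 L3643 (C_49 L3602 (C_49 L3475 (C_49 L3687 N_49)))) (by decide +kernel)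
theorem L3689 : W_49 (nat_lit 14) (nat_lit 0x400020001200090004000000000000000000000000000) (nat_lit 0x0) (nat_lit 0x200078003c004e0009c016e001f007f803fc01780000000000000) := Q_49 (nat_lit 107) (C_49 L3540 (C_49 L3461 (C_49 L3644 (C_49 L3668 (C_49 L3675 (C_49 L3682 (C_49 L3683 (C_49 L3688 N_49)))))))) (by decide +kernel)
theorem L3690 : W_49 (nat_lit 2) (nat_lit 0x4c0024001200090004800000000000000000000000000) (nat_lit 0x0) (nat_lit 0x2000100008000000000000000000000000000000000000000) := D_49 (nat_lit 176) (nat_lit 193) (nat_lit 159) (nat_lit 7) (nat_lit 5) (nat_lit 7) (nat_lit 7) (nat_lit 5) (nat_lit 6) (by decide +kernel)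
theorem L3691 : W_49 (nat_lit 3) (nat_lit 0x4c0024001200090004000000000000000000000000000) (nat_lit 0x0) (nat_lit 0x200010000a000000000000800000000000000000000000000) := T_49 (nat_lit 107) (nat_lit 157) (nat_lit 5) (nat_lit 5) (nat_lit 6) L3690 (by decide +kernel)
theorem L3692 : W_49 (nat_lit 4) (nat_lit 0x480024001200090004000000000000000000000000000) (nat_lit 0x0) (nat_lit 0x280014000a000000000000800000000000000000000000000) := T_49 (nat_lit 174) (nat_lit 191) (nat_lit 5) (nat_lit 5) (nat_lit 7) L3691 (by decide +kernel)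
theorem L3693 : W_49 (nat_lit 6) (nat_lit 0x480020001200090004000000000000000000000000000) (nat_lit 0x0) (nat_lit 0x1000380014000e000100008000c00020000000000000000000000) := Q_49 (nat_lit 158) (C_49 L3416 (C_49 L3321 (C_49 L3346 (C_49 L3692 N_49)))) (by decide +kernel)
theorem L3694 : W_49 (nat_lit 2) (nat_lit 0x2000600010006c0024001200098004000000000000000000000000000) (nat_lit 0x0) (nat_lit 0x4000400000000000000002000000000000000000000000000000000000000) := D_49 (nat_lit 226) (nat_lit 157) (nat_lit 242) (nat_lit 4) (nat_lit 5) (nat_lit 13) (nat_lit 5) (nat_lit 5) (nat_lit 10) (by decide +kernel)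
theorem L3695 : W_49 (nat_lit 3) (nat_lit 0x600010006c0024001200098004000000000000000000000000000) (nat_lit 0x0) (nat_lit 0x4000600010000000000002000000000000000000000000000000000000000) := T_49 (nat_lit 225) (nat_lit 208) (nat_lit 5) (nat_lit 5) (nat_lit 9) L3694 (by decide +kernel)
theorem L3696 : W_49 (nat_lit 4) (nat_lit 0x400010006c0024001200098004000000000000000000000000000) (nat_lit 0x0) (nat_lit 0x4000e00030000000000002000000000000000000000000000000000000000) := T_49 (nat_lit 209) (nat_lit 227) (nat_lit 7) (nat_lit 5) (nat_lit 9) L3695 (by decide +kernel)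
theorem L3697 : W_49 (nat_lit 5) (nat_lit 0x10006c0024001200098004000000000000000000000000000) (nat_lit 0x0) (nat_lit 0x4000e00070002000000002000000000000000000000000000000000000000) := T_49 (nat_lit 210) (nat_lit 193) (nat_lit 7) (nat_lit 5) (nat_lit 8) L3696 (by decide +kernel)
theorem L3698 : W_49 (nat_lit 6) (nat_lit 0x6c0024001200098004000000000000000000000000000) (nat_lit 0x0) (nat_lit 0x4000e00070003000000002000100000000000000000000000000000000000) := T_49 (nat_lit 192) (nat_lit 140) (nat_lit 4) (nat_lit 5) (nat_lit 11) L3697 (by decide +kernel)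
theorem L3699 : W_49 (nat_lit 7) (nat_lit 0x6c0024001200090004000000000000000000000000000) (nat_lit 0x0) (nat_lit 0x4000e00070003000000002000100008000400000000000000000000000000) := T_49 (nat_lit 123) (nat_lit 106) (nat_lit 4) (nat_lit 5) (nat_lit 10) L3698 (by decide +kernel)
theorem L3700 : W_49 (nat_lit 8) (nat_lit 0x4c0024001200090004000000000000000000000000000) (nat_lit 0x0) (nat_lit 0x4000e00070007000200002000100008000400000000000000000000000000) := T_49 (nat_lit 177) (nat_lit 194) (nat_lit 5) (nat_lit 8) (nat_lit 7) L3699 (by decide +kernel)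
theorem L3701 : W_49 (nat_lit 9) (nat_lit 0x480024001200090004000000000000000000000000000) (nat_lit 0x0) (nat_lit 0x4000e00070007800240002000100008000400000000000000000000000000) := T_49 (nat_lit 174) (nat_lit 191) (nat_lit 5) (nat_lit 5) (nat_lit 7) L3700 (by decide +kernel)
theorem L3702 : W_49 (nat_lit 2) (nat_lit 0x50001000680024001200098004000000000000000000000000000) (nat_lit 0x0) (nat_lit 0xa00020000000000000000000000000000000000000000000000000000) := D_49 (nat_lit 209) (nat_lit 225) (nat_lit 227) (nat_lit 5) (nat_lit 5) (nat_lit 9) (nat_lit 7) (nat_lit 5) (nat_lit 9) (by decide +kernel)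
theorem L3703 : W_49 (nat_lit 3) (nat_lit 0x10001000680024001200098004000000000000000000000000000) (nat_lit 0x0) (nat_lit 0xa00060002000000000000000000000000000000000000000000000000) := T_49 (nat_lit 210) (nat_lit 193) (nat_lit 7) (nat_lit 5) (nat_lit 8) L3702 (by decide +kernel)
theorem L3704 : W_49 (nat_lit 4) (nat_lit 0x1000680024001200098004000000000000000000000000000) (nat_lit 0x0) (nat_lit 0xa00070002800000000000000000000000000000000000000000000000) := T_49 (nat_lit 208) (nat_lit 191) (nat_lit 5) (nat_lit 5) (nat_lit 8) L3703 (by decide +kernel)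
theorem L3705 : W_49 (nat_lit 5) (nat_lit 0x680024001200098004000000000000000000000000000) (nat_lit 0x0) (nat_lit 0xa00070003800000000000100000000000000000000000000000000000) := T_49 (nat_lit 192) (nat_lit 140) (nat_lit 4) (nat_lit 5) (nat_lit 11) L3704 (by decide +kernel)
theorem L3706 : W_49 (nat_lit 6) (nat_lit 0x480024001200098004000000000000000000000000000) (nat_lit 0x0) (nat_lit 0xa00070007800200000000100000000000000000000000000000000000) := T_49 (nat_lit 177) (nat_lit 194) (nat_lit 5) (nat_lit 8) (nat_lit 7) L3705 (by decide +kernel)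
theorem L3707 : W_49 (nat_lit 7) (nat_lit 0x480024001200090004000000000000000000000000000) (nat_lit 0x0) (nat_lit 0xa00070007800200000000100008000400000000000000000000000000) := T_49 (nat_lit 123) (nat_lit 106) (nat_lit 4) (nat_lit 5) (nat_lit 10) L3706 (by decide +kernel)
theorem L3708 : W_49 (nat_lit 2) (nat_lit 0xd000480024001200098004000000000000000000000000000) (nat_lit 0x0) (nat_lit 0x40002000040000000000000000000000000000000000000000000) := D_49 (nat_lit 193) (nat_lit 210) (nat_lit 174) (nat_lit 7) (nat_lit 5) (nat_lit 8) (nat_lit 0) (nat_lit 8) (nat_lit 11) (by decide +kernel)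
theorem L3709 : W_49 (nat_lit 3) (nat_lit 0x5000480024001200098004000000000000000000000000000) (nat_lit 0x0) (nat_lit 0xc000a000040000000000000000000000000000000000000000000) := T_49 (nat_lit 195) (nat_lit 211) (nat_lit 5) (nat_lit 8) (nat_lit 8) L3708 (by decide +kernel)
theorem L3710 : W_49 (nat_lit 4) (nat_lit 0x4000480024001200098004000000000000000000000000000) (nat_lit 0x0) (nat_lit 0xc000b000040000000100000000000000000000000000000000000) := T_49 (nat_lit 192) (nat_lit 140) (nat_lit 4) (nat_lit 5) (nat_lit 11) L3709 (by decide +kernel)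
theorem L3711 : W_49 (nat_lit 5) (nat_lit 0x480024001200098004000000000000000000000000000) (nat_lit 0x0) (nat_lit 0xc000f000240000000100000000000000000000000000000000000) := T_49 (nat_lit 194) (nat_lit 177) (nat_lit 5) (nat_lit 8) (nat_lit 7) L3710 (by decide +kernel)
theorem L3712 : W_49 (nat_lit 6) (nat_lit 0x480024001200090004000000000000000000000000000) (nat_lit 0x0) (nat_lit 0xc000f000240000000100008000400000000000000000000000000) := T_49 (nat_lit 123) (nat_lit 106) (nat_lit 4) (nat_lit 5) (nat_lit 10) L3711 (by decide +kernel)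
theorem L3713 : W_49 (nat_lit 2) (nat_lit 0x6c00240012000900048000a0000000000000000000000) (nat_lit 0x0) (nat_lit 0x40005000000000000000000) := D_49 (nat_lit 90) (nat_lit 72) (nat_lit 74) (nat_lit 4) (nat_lit 5) (nat_lit 8) (nat_lit 6) (nat_lit 5) (nat_lit 8) (by decide +kernel)
theorem L3714 : W_49 (nat_lit 3) (nat_lit 0x6c0024001200090004800020000000000000000000000) (nat_lit 0x0) (nat_lit 0x10000c0005000000000000000000) := T_49 (nat_lit 91) (nat_lit 108) (nat_lit 6) (nat_lit 5) (nat_lit 9) L3713 (by decide +kernel)
theorem L3715 : W_49 (nat_lit 4) (nat_lit 0x6c0024001200090004800000000000000000000000000) (nat_lit 0x0) (nat_lit 0x14000e0005000000000000000000) := T_49 (nat_lit 89) (nat_lit 106) (nat_lit 4) (nat_lit 5) (nat_lit 9) L3714 (by decide +kernel)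
theorem L3716 : W_49 (nat_lit 5) (nat_lit 0x6c0024001200090004000000000000000000000000000) (nat_lit 0x0) (nat_lit 0x2000000000001c000e0005000000000000000000) := T_49 (nat_lit 107) (nat_lit 157) (nat_lit 5) (nat_lit 5) (nat_lit 6) L3715 (by decide +kernel)
theorem L3717 : W_49 (nat_lit 6) (nat_lit 0x680024001200090004000000000000000000000000000) (nat_lit 0x0) (nat_lit 0x800040002000000000001c000e0005000000000000000000) := T_49 (nat_lit 174) (nat_lit 191) (nat_lit 5) (nat_lit 5) (nat_lit 7) L3716 (by decide +kernel)
theorem L3718 : W_49 (nat_lit 7) (nat_lit 0x480024001200090004000000000000000000000000000) (nat_lit 0x0) (nat_lit 0x4800240002000000000001c000e0005000000000000000000) := T_49 (nat_lit 177) (nat_lit 194) (nat_lit 5) (nat_lit 8) (nat_lit 7) L3717 (by decide +kernel)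
theorem L3719 : W_49 (nat_lit 2) (nat_lit 0x1d0004c0026001a00090004000000000000000000000000000) (nat_lit 0x0) (nat_lit 0x20000000000000000100008000000000000000000000000000000) := D_49 (nat_lit 140) (nat_lit 123) (nat_lit 209) (nat_lit 7) (nat_lit 4) (nat_lit 7) (nat_lit 4) (nat_lit 5) (nat_lit 12) (by decide +kernel)
theorem L3720 : W_49 (nat_lit 3) (nat_lit 0x1c0004c0026001a00090004000000000000000000000000000) (nat_lit 0x0) (nat_lit 0x20003000000000000100008000000000000000000000000000000) := T_49 (nat_lit 192) (nat_lit 193) (nat_lit 0) (nat_lit 8) (nat_lit 11) L3719 (by decide +kernel)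
theorem L3721 : W_49 (nat_lit 4) (nat_lit 0xc0004c0026001a00090004000000000000000000000000000) (nat_lit 0x0) (nat_lit 0x220013000000000000100008000000000000000000000000000000) := T_49 (nat_lit 196) (nat_lit 213) (nat_lit 7) (nat_lit 8) (nat_lit 8) L3720 (by decide +kernel)
theorem L3722 : W_49 (nat_lit 5) (nat_lit 0xc0004c0026001200090004000000000000000000000000000) (nat_lit 0x0) (nat_lit 0x220013000000000000900048000000000000000000000000000000) := T_49 (nat_lit 143) (nat_lit 126) (nat_lit 4) (nat_lit 8) (nat_lit 11) L3721 (by decide +kernel)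
theorem L3723 : W_49 (nat_lit 6) (nat_lit 0x40004c0026001200090004000000000000000000000000000) (nat_lit 0x0) (nat_lit 0x2a001b000000000000900048000000000000000000000000000000) := T_49 (nat_lit 195) (nat_lit 211) (nat_lit 5) (nat_lit 8) (nat_lit 8) L3722 (by decide +kernel)
theorem L3724 : W_49 (nat_lit 7) (nat_lit 0x4c0026001200090004000000000000000000000000000) (nat_lit 0x0) (nat_lit 0x2a001f000200000000900048000000000000000000000000000000) := T_49 (nat_lit 194) (nat_lit 177) (nat_lit 5) (nat_lit 8) (nat_lit 7) L3723 (by decide +kernel)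
theorem L3725 : W_49 (nat_lit 8) (nat_lit 0x4c0024001200090004000000000000000000000000000) (nat_lit 0x0) (nat_lit 0x2a001f000200002000900048000800000000000000000000000000) := T_49 (nat_lit 157) (nat_lit 107) (nat_lit 5) (nat_lit 5) (nat_lit 6) L3724 (by decide +kernel)
theorem L3726 : W_49 (nat_lit 9) (nat_lit 0x480024001200090004000000000000000000000000000) (nat_lit 0x0) (nat_lit 0x2a001f800240002000900048000800000000000000000000000000) := T_49 (nat_lit 174) (nat_lit 191) (nat_lit 5) (nat_lit 5) (nat_lit 7) L3725 (by decide +kernel)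
theorem L3727 : W_49 (nat_lit 10) (nat_lit 0x480020001200090004000000000000000000000000000) (nat_lit 0x0) (nat_lit 0x4000e002f001f800240006000900048001c000e0005000000000000000000) := Q_49 (nat_lit 158) (C_49 L3321 (C_49 L3701 (C_49 L3707 (C_49 L3712 (C_49 L3718 (C_49 L3726 N_49)))))) (by decide +kernel)
theorem L3728 : W_49 (nat_lit 11) (nat_lit 0x400020001200090004000000000000000000000000000) (nat_lit 0x0) (nat_lit 0x4000e002f001fc003c004f000900048001c000e0005000000000000000000) := Q_49 (nat_lit 175) (C_49 L3412 (C_49 L3406 (C_49 L3693 (C_49 L3727 (C_49 L3397 (C_49 L3338 N_49)))))) (by decide +kernel)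
theorem L3729 : W_49 (nat_lit 2) (nat_lit 0x280008000400020001a00090004000000000000000000000000000) (nat_lit 0x0) (nat_lit 0x5000100000000000000000000000000000000000000000000000000000) := D_49 (nat_lit 212) (nat_lit 230) (nat_lit 228) (nat_lit 7) (nat_lit 8) (nat_lit 9) (nat_lit 5) (nat_lit 8) (nat_lit 9) (by decide +kernel)
theorem L3730 : W_49 (nat_lit 3) (nat_lit 0x200008000400020001a00090004000000000000000000000000000) (nat_lit 0x0) (nat_lit 0x5000180004000000000000000000000000000000000000000000000000) := T_49 (nat_lit 211) (nat_lit 194) (nat_lit 5) (nat_lit 8) (nat_lit 8) L3729 (by decide +kernel)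
theorem L3731 : W_49 (nat_lit 4) (nat_lit 0x8000400020001a00090004000000000000000000000000000) (nat_lit 0x0) (nat_lit 0x5000380014000000000000000000000000000000000000000000000000) := T_49 (nat_lit 213) (nat_lit 196) (nat_lit 7) (nat_lit 8) (nat_lit 8) L3730 (by decide +kernel)
theorem L3732 : W_49 (nat_lit 5) (nat_lit 0x8000400020001200090004000000000000000000000000000) (nat_lit 0x0) (nat_lit 0x5000380014000000000000800040000000000000000000000000000000) := T_49 (nat_lit 143) (nat_lit 126) (nat_lit 4) (nat_lit 8) (nat_lit 11) L3731 (by decide +kernel)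
theorem L3733 : W_49 (nat_lit 2) (nat_lit 0x180004000200012000f0005800000000000000000000000000) (nat_lit 0x0) (nat_lit 0x4000000000000000080004000000000000000000) := D_49 (nat_lit 91) (nat_lit 74) (nat_lit 158) (nat_lit 5) (nat_lit 6) (nat_lit 4) (nat_lit 6) (nat_lit 5) (nat_lit 9) (by decide +kernel)
theorem L3734 : W_49 (nat_lit 3) (nat_lit 0x180004000200012000f0004800000000000000000000000000) (nat_lit 0x0) (nat_lit 0x4000000100001000080004000000000000000000) := T_49 (nat_lit 108) (nat_lit 128) (nat_lit 0) (nat_lit 9) (nat_lit 7) L3733 (by decide +kernel)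
theorem L3735 : W_49 (nat_lit 4) (nat_lit 0x180004000200012000f0004000000000000000000000000000) (nat_lit 0x0) (nat_lit 0x4000000100001c00080004000000000000000000) := T_49 (nat_lit 107) (nat_lit 106) (nat_lit 0) (nat_lit 8) (nat_lit 7) L3734 (by decide +kernel)
theorem L3736 : W_49 (nat_lit 5) (nat_lit 0x180004000200012000d0004000000000000000000000000000) (nat_lit 0x0) (nat_lit 0x4000100120001c00080004000000000000000000) := T_49 (nat_lit 125) (nat_lit 140) (nat_lit 1) (nat_lit 8) (nat_lit 7) L3735 (by decide +kernel)
theorem L3737 : W_49 (nat_lit 6) (nat_lit 0x18000400020001200090004000000000000000000000000000) (nat_lit 0x0) (nat_lit 0x4000900160001c00080004000000000000000000) := T_49 (nat_lit 126) (nat_lit 143) (nat_lit 4) (nat_lit 8) (nat_lit 11) L3736 (by decide +kernel)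
theorem L3738 : W_49 (nat_lit 7) (nat_lit 0x8000400020001200090004000000000000000000000000000) (nat_lit 0x0) (nat_lit 0x200010000000004000900160001c00080004000000000000000000) := T_49 (nat_lit 196) (nat_lit 213) (nat_lit 7) (nat_lit 8) (nat_lit 8) L3737 (by decide +kernel)
theorem L3739 : W_49 (nat_lit 2) (nat_lit 0x280008000400020001200090004000000000000000000000000000) (nat_lit 0x0) (nat_lit 0x5000100000000000000000000000000000000000000000000000000000) := D_49 (nat_lit 212) (nat_lit 228) (nat_lit 230) (nat_lit 5) (nat_lit 8) (nat_lit 9) (nat_lit 7) (nat_lit 8) (nat_lit 9) (by decide +kernel)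
theorem L3740 : W_49 (nat_lit 3) (nat_lit 0x80008000400020001200090004000000000000000000000000000) (nat_lit 0x0) (nat_lit 0x5000300010000000000000000000000000000000000000000000000000) := T_49 (nat_lit 213) (nat_lit 196) (nat_lit 7) (nat_lit 8) (nat_lit 8) L3739 (by decide +kernel)
theorem L3741 : W_49 (nat_lit 4) (nat_lit 0x8000400020001200090004000000000000000000000000000) (nat_lit 0x0) (nat_lit 0x5000380014000000000000000000000000000000000000000000000000) := T_49 (nat_lit 211) (nat_lit 194) (nat_lit 5) (nat_lit 8) (nat_lit 8) L3740 (by decide +kernel)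
theorem L3742 : W_49 (nat_lit 2) (nat_lit 0xc0004000200012000f0005800000000000000000000000000) (nat_lit 0x0) (nat_lit 0x4000000000000000080004000000000000000000) := D_49 (nat_lit 91) (nat_lit 74) (nat_lit 158) (nat_lit 5) (nat_lit 6) (nat_lit 4) (nat_lit 6) (nat_lit 5) (nat_lit 9) (by decide +kernel)
theorem L3743 : W_49 (nat_lit 3) (nat_lit 0xc0004000200012000f0004800000000000000000000000000) (nat_lit 0x0) (nat_lit 0x4000000100001000080004000000000000000000) := T_49 (nat_lit 108) (nat_lit 128) (nat_lit 0) (nat_lit 9) (nat_lit 7) L3742 (by decide +kernel)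
theorem L3744 : W_49 (nat_lit 4) (nat_lit 0xc0004000200012000f0004000000000000000000000000000) (nat_lit 0x0) (nat_lit 0x4000000100001c00080004000000000000000000) := T_49 (nat_lit 107) (nat_lit 106) (nat_lit 0) (nat_lit 8) (nat_lit 7) L3743 (by decide +kernel)
theorem L3745 : W_49 (nat_lit 5) (nat_lit 0xc0004000200012000d0004000000000000000000000000000) (nat_lit 0x0) (nat_lit 0x4000100120001c00080004000000000000000000) := T_49 (nat_lit 125) (nat_lit 140) (nat_lit 1) (nat_lit 8) (nat_lit 7) L3744 (by decide +kernel)
theorem L3746 : W_49 (nat_lit 6) (nat_lit 0xc000400020001200090004000000000000000000000000000) (nat_lit 0x0) (nat_lit 0x4000900160001c00080004000000000000000000) := T_49 (nat_lit 126) (nat_lit 143) (nat_lit 4) (nat_lit 8) (nat_lit 11) L3745 (by decide +kernel)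
theorem L3747 : W_49 (nat_lit 7) (nat_lit 0x8000400020001200090004000000000000000000000000000) (nat_lit 0x0) (nat_lit 0x80004000000004000900160001c00080004000000000000000000) := T_49 (nat_lit 194) (nat_lit 211) (nat_lit 5) (nat_lit 8) (nat_lit 8) L3746 (by decide +kernel)
theorem L3748 : W_49 (nat_lit 8) (nat_lit 0x400020001200090004000000000000000000000000000) (nat_lit 0x0) (nat_lit 0x500038001c000000004000900160001c00080004000000000000000000) := Q_49 (nat_lit 195) (C_49 L3732 (C_49 L3738 (C_49 L3741 (C_49 L3747 N_49)))) (by decide +kernel)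
theorem L3749 : W_49 (nat_lit 2) (nat_lit 0x180004000200012000f0004800700000000000000000000000) (nat_lit 0x0) (nat_lit 0x100001000080000000000000000000000) := D_49 (nat_lit 108) (nat_lit 128) (nat_lit 91) (nat_lit 0) (nat_lit 9) (nat_lit 7) (nat_lit 1) (nat_lit 9) (nat_lit 5) (by decide +kernel)
theorem L3750 : W_49 (nat_lit 3) (nat_lit 0x180004000200012000f0004000700000000000000000000000) (nat_lit 0x0) (nat_lit 0x100001c00080000000000000000000000) := T_49 (nat_lit 107) (nat_lit 106) (nat_lit 0) (nat_lit 8) (nat_lit 7) L3749 (by decide +kernel)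
theorem L3751 : W_49 (nat_lit 4) (nat_lit 0x180004000200012000d0004000700000000000000000000000) (nat_lit 0x0) (nat_lit 0x100120001c00080000000000000000000000) := T_49 (nat_lit 125) (nat_lit 140) (nat_lit 1) (nat_lit 8) (nat_lit 7) L3750 (by decide +kernel)
theorem L3752 : W_49 (nat_lit 5) (nat_lit 0x18000400020001200090004000700000000000000000000000) (nat_lit 0x0) (nat_lit 0x900160001c00080000000000000000000000) := T_49 (nat_lit 126) (nat_lit 143) (nat_lit 4) (nat_lit 8) (nat_lit 11) L3751 (by decide +kernel)
theorem L3753 : W_49 (nat_lit 6) (nat_lit 0x18000400020001200090004000600000000000000000000000) (nat_lit 0x0) (nat_lit 0x900160001c00180008000000000000000000) := T_49 (nat_lit 92) (nat_lit 75) (nat_lit 4) (nat_lit 8) (nat_lit 8) L3752 (by decide +kernel)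
theorem L3754 : W_49 (nat_lit 7) (nat_lit 0x18000400020001200090004000200000000000000000000000) (nat_lit 0x0) (nat_lit 0x900160001c00580028000000000000000000) := T_49 (nat_lit 94) (nat_lit 77) (nat_lit 6) (nat_lit 8) (nat_lit 8) L3753 (by decide +kernel)
theorem L3755 : W_49 (nat_lit 8) (nat_lit 0x8000400020001200090004000200000000000000000000000) (nat_lit 0x0) (nat_lit 0x200010000000000000900160001c00580028000000000000000000) := T_49 (nat_lit 196) (nat_lit 213) (nat_lit 7) (nat_lit 8) (nat_lit 8) L3754 (by decide +kernel)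
theorem L3756 : W_49 (nat_lit 2) (nat_lit 0x18000400020001200090004000200028000000000000000000) (nat_lit 0x0) (nat_lit 0x10001400000000000000) := D_49 (nat_lit 76) (nat_lit 60) (nat_lit 58) (nat_lit 6) (nat_lit 8) (nat_lit 7) (nat_lit 4) (nat_lit 8) (nat_lit 7) (by decide +kernel)
theorem L3757 : W_49 (nat_lit 3) (nat_lit 0x18000400020001200090004000200020000000000000000000) (nat_lit 0x0) (nat_lit 0x100018001400000000000000) := T_49 (nat_lit 75) (nat_lit 92) (nat_lit 4) (nat_lit 8) (nat_lit 8) L3756 (by decide +kernel)
theorem L3758 : W_49 (nat_lit 4) (nat_lit 0x18000400020001200090004000200000000000000000000000) (nat_lit 0x0) (nat_lit 0x500038001400000000000000) := T_49 (nat_lit 77) (nat_lit 94) (nat_lit 6) (nat_lit 8) (nat_lit 8) L3757 (by decide +kernel)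
theorem L3759 : W_49 (nat_lit 5) (nat_lit 0x8000400020001200090004000200000000000000000000000) (nat_lit 0x0) (nat_lit 0x200010000000000000000000000000500038001400000000000000) := T_49 (nat_lit 196) (nat_lit 213) (nat_lit 7) (nat_lit 8) (nat_lit 8) L3758 (by decide +kernel)
theorem L3760 : W_49 (nat_lit 2) (nat_lit 0x180004000200012000f000580020003c000100000000000000) (nat_lit 0x0) (nat_lit 0x40002000080000000000000) := D_49 (nat_lit 73) (nat_lit 55) (nat_lit 90) (nat_lit 0) (nat_lit 8) (nat_lit 4) (nat_lit 7) (nat_lit 5) (nat_lit 3) (by decide +kernel)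
theorem L3761 : W_49 (nat_lit 3) (nat_lit 0x180004000200012000f000580020003c000000000000000000) (nat_lit 0x0) (nat_lit 0x40002000380000000000000) := T_49 (nat_lit 56) (nat_lit 57) (nat_lit 0) (nat_lit 9) (nat_lit 4) L3760 (by decide +kernel)
theorem L3762 : W_49 (nat_lit 4) (nat_lit 0x180004000200012000f0005800200038000000000000000000) (nat_lit 0x0) (nat_lit 0xc0006000380000000000000) := T_49 (nat_lit 74) (nat_lit 91) (nat_lit 5) (nat_lit 6) (nat_lit 4) L3761 (by decide +kernel)
theorem L3763 : W_49 (nat_lit 5) (nat_lit 0x180004000200012000f0004800200038000000000000000000) (nat_lit 0x0) (nat_lit 0x1000010000c0006000380000000000000) := T_49 (nat_lit 108) (nat_lit 128) (nat_lit 0) (nat_lit 9) (nat_lit 7) L3762 (by decide +kernel)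
theorem L3764 : W_49 (nat_lit 6) (nat_lit 0x180004000200012000f0004000200038000000000000000000) (nat_lit 0x0) (nat_lit 0x100001c000c0006000380000000000000) := T_49 (nat_lit 107) (nat_lit 106) (nat_lit 0) (nat_lit 8) (nat_lit 7) L3763 (by decide +kernel)
theorem L3765 : W_49 (nat_lit 7) (nat_lit 0x180004000200012000d0004000200038000000000000000000) (nat_lit 0x0) (nat_lit 0x100120001c000c0006000380000000000000) := T_49 (nat_lit 125) (nat_lit 140) (nat_lit 1) (nat_lit 8) (nat_lit 7) L3764 (by decide +kernel)
theorem L3766 : W_49 (nat_lit 8) (nat_lit 0x180004000200012000d0004000200018000000000000000000) (nat_lit 0x0) (nat_lit 0x100120001c000c0026001380000000000000) := T_49 (nat_lit 77) (nat_lit 60) (nat_lit 6) (nat_lit 8) (nat_lit 7) L3765 (by decide +kernel)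
theorem L3767 : W_49 (nat_lit 9) (nat_lit 0x18000400020001200090004000200018000000000000000000) (nat_lit 0x0) (nat_lit 0x900160001c000c0026001380000000000000) := T_49 (nat_lit 126) (nat_lit 143) (nat_lit 5) (nat_lit 8) (nat_lit 4) L3766 (by decide +kernel)
theorem L3768 : W_49 (nat_lit 10) (nat_lit 0x18000400020001200090004000200008000000000000000000) (nat_lit 0x0) (nat_lit 0x900160001c000c0036001780000000000000) := T_49 (nat_lit 76) (nat_lit 58) (nat_lit 4) (nat_lit 8) (nat_lit 7) L3767 (by decide +kernel)
theorem L3769 : W_49 (nat_lit 11) (nat_lit 0x8000400020001200090004000200008000000000000000000) (nat_lit 0x0) (nat_lit 0x200010000000000000900160001c000c0036001780000000000000) := T_49 (nat_lit 196) (nat_lit 213) (nat_lit 7) (nat_lit 8) (nat_lit 8) L3768 (by decide +kernel)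
theorem L3770 : W_49 (nat_lit 12) (nat_lit 0x8000400020001200090004000200000000000000000000000) (nat_lit 0x0) (nat_lit 0x200010000000000000900160001c001c003e001780000000000000) := T_49 (nat_lit 75) (nat_lit 92) (nat_lit 4) (nat_lit 8) (nat_lit 8) L3769 (by decide +kernel)
theorem L3771 : W_49 (nat_lit 2) (nat_lit 0x180004000200012000f0005800600000000000000000000000) (nat_lit 0x0) (nat_lit 0x180004000000000000000000) := D_49 (nat_lit 91) (nat_lit 92) (nat_lit 74) (nat_lit 1) (nat_lit 9) (nat_lit 5) (nat_lit 5) (nat_lit 6) (nat_lit 4) (by decide +kernel)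
theorem L3772 : W_49 (nat_lit 3) (nat_lit 0x180004000200012000f0004800600000000000000000000000) (nat_lit 0x0) (nat_lit 0x100001000180004000000000000000000) := T_49 (nat_lit 108) (nat_lit 128) (nat_lit 0) (nat_lit 9) (nat_lit 7) L3771 (by decide +kernel)
theorem L3773 : W_49 (nat_lit 4) (nat_lit 0x180004000200012000f0004000600000000000000000000000) (nat_lit 0x0) (nat_lit 0x100001c00180004000000000000000000) := T_49 (nat_lit 107) (nat_lit 106) (nat_lit 0) (nat_lit 8) (nat_lit 7) L3772 (by decide +kernel)
theorem L3774 : W_49 (nat_lit 5) (nat_lit 0x180004000200012000d0004000600000000000000000000000) (nat_lit 0x0) (nat_lit 0x100120001c00180004000000000000000000) := T_49 (nat_lit 125) (nat_lit 140) (nat_lit 1) (nat_lit 8) (nat_lit 7) L3773 (by decide +kernel)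
theorem L3775 : W_49 (nat_lit 6) (nat_lit 0x18000400020001200090004000600000000000000000000000) (nat_lit 0x0) (nat_lit 0x900160001c00180004000000000000000000) := T_49 (nat_lit 126) (nat_lit 143) (nat_lit 4) (nat_lit 8) (nat_lit 11) L3774 (by decide +kernel)
theorem L3776 : W_49 (nat_lit 7) (nat_lit 0x18000400020001200090004000200000000000000000000000) (nat_lit 0x0) (nat_lit 0x900160001c00580024000000000000000000) := T_49 (nat_lit 94) (nat_lit 77) (nat_lit 6) (nat_lit 8) (nat_lit 8) L3775 (by decide +kernel)
theorem L3777 : W_49 (nat_lit 8) (nat_lit 0x8000400020001200090004000200000000000000000000000) (nat_lit 0x0) (nat_lit 0x200010000000000000900160001c00580024000000000000000000) := T_49 (nat_lit 196) (nat_lit 213) (nat_lit 7) (nat_lit 8) (nat_lit 8) L3776 (by decide +kernel)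
theorem L3778 : W_49 (nat_lit 2) (nat_lit 0x8000400020001a00090004000200028000000000000000000) (nat_lit 0x0) (nat_lit 0x10001400000000000000) := D_49 (nat_lit 76) (nat_lit 58) (nat_lit 60) (nat_lit 4) (nat_lit 8) (nat_lit 7) (nat_lit 6) (nat_lit 8) (nat_lit 7) (by decide +kernel)
theorem L3779 : W_49 (nat_lit 3) (nat_lit 0x8000400020001a00090004000200008000000000000000000) (nat_lit 0x0) (nat_lit 0x400030001400000000000000) := T_49 (nat_lit 77) (nat_lit 94) (nat_lit 6) (nat_lit 8) (nat_lit 8) L3778 (by decide +kernel)
theorem L3780 : W_49 (nat_lit 4) (nat_lit 0x8000400020001a00090004000200000000000000000000000) (nat_lit 0x0) (nat_lit 0x500038001400000000000000) := T_49 (nat_lit 75) (nat_lit 92) (nat_lit 4) (nat_lit 8) (nat_lit 8) L3779 (by decide +kernel)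
theorem L3781 : W_49 (nat_lit 5) (nat_lit 0x8000400020001200090004000200000000000000000000000) (nat_lit 0x0) (nat_lit 0x800040000000500038001400000000000000) := T_49 (nat_lit 143) (nat_lit 126) (nat_lit 4) (nat_lit 8) (nat_lit 11) L3780 (by decide +kernel)
theorem L3782 : W_49 (nat_lit 2) (nat_lit 0x180004000200012000f0005800300000000000000000000000) (nat_lit 0x0) (nat_lit 0x480004000000000000000000) := D_49 (nat_lit 91) (nat_lit 94) (nat_lit 74) (nat_lit 1) (nat_lit 9) (nat_lit 5) (nat_lit 5) (nat_lit 6) (nat_lit 4) (by decide +kernel)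
theorem L3783 : W_49 (nat_lit 3) (nat_lit 0x180004000200012000f0004800300000000000000000000000) (nat_lit 0x0) (nat_lit 0x100001000480004000000000000000000) := T_49 (nat_lit 108) (nat_lit 128) (nat_lit 0) (nat_lit 9) (nat_lit 7) L3782 (by decide +kernel)
theorem L3784 : W_49 (nat_lit 4) (nat_lit 0x180004000200012000f0004000300000000000000000000000) (nat_lit 0x0) (nat_lit 0x100001c00480004000000000000000000) := T_49 (nat_lit 107) (nat_lit 106) (nat_lit 0) (nat_lit 8) (nat_lit 7) L3783 (by decide +kernel)
theorem L3785 : W_49 (nat_lit 5) (nat_lit 0x180004000200012000d0004000300000000000000000000000) (nat_lit 0x0) (nat_lit 0x100120001c00480004000000000000000000) := T_49 (nat_lit 125) (nat_lit 140) (nat_lit 1) (nat_lit 8) (nat_lit 7) L3784 (by decide +kernel)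
theorem L3786 : W_49 (nat_lit 6) (nat_lit 0x180004000200012000d0004000200000000000000000000000) (nat_lit 0x0) (nat_lit 0x100120001c0058000c000000000000000000) := T_49 (nat_lit 92) (nat_lit 75) (nat_lit 4) (nat_lit 8) (nat_lit 8) L3785 (by decide +kernel)
theorem L3787 : W_49 (nat_lit 7) (nat_lit 0x18000400020001200090004000200000000000000000000000) (nat_lit 0x0) (nat_lit 0x900160001c0058000c000000000000000000) := T_49 (nat_lit 126) (nat_lit 143) (nat_lit 4) (nat_lit 8) (nat_lit 11) L3786 (by decide +kernel)
theorem L3788 : W_49 (nat_lit 8) (nat_lit 0x8000400020001200090004000200000000000000000000000) (nat_lit 0x0) (nat_lit 0x200010000000000000900160001c0058000c000000000000000000) := T_49 (nat_lit 196) (nat_lit 213) (nat_lit 7) (nat_lit 8) (nat_lit 8) L3787 (by decide +kernel)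
theorem L3789 : W_49 (nat_lit 5) (nat_lit 0x180004000200012000f0005800200030000000000000000000) (nat_lit 0x0) (nat_lit 0xc000e000780000000000000) := T_49 (nat_lit 75) (nat_lit 58) (nat_lit 4) (nat_lit 8) (nat_lit 7) L3762 (by decide +kernel)
theorem L3790 : W_49 (nat_lit 6) (nat_lit 0x180004000200012000f0005800200020000000000000000000) (nat_lit 0x0) (nat_lit 0xc001e001780000000000000) := T_49 (nat_lit 76) (nat_lit 60) (nat_lit 6) (nat_lit 8) (nat_lit 7) L3789 (by decide +kernel)
theorem L3791 : W_49 (nat_lit 7) (nat_lit 0x180004000200012000f0004800200020000000000000000000) (nat_lit 0x0) (nat_lit 0x1000010000c001e001780000000000000) := T_49 (nat_lit 108) (nat_lit 128) (nat_lit 0) (nat_lit 9) (nat_lit 7) L3790 (by decide +kernel)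
theorem L3792 : W_49 (nat_lit 8) (nat_lit 0x180004000200012000f0004800200000000000000000000000) (nat_lit 0x0) (nat_lit 0x1000010004c003e001780000000000000) := T_49 (nat_lit 77) (nat_lit 94) (nat_lit 6) (nat_lit 8) (nat_lit 8) L3791 (by decide +kernel)
theorem L3793 : W_49 (nat_lit 9) (nat_lit 0x180004000200012000f0004000200000000000000000000000) (nat_lit 0x0) (nat_lit 0x100001c004c003e001780000000000000) := T_49 (nat_lit 107) (nat_lit 106) (nat_lit 0) (nat_lit 8) (nat_lit 7) L3792 (by decide +kernel)
theorem L3794 : W_49 (nat_lit 10) (nat_lit 0x180004000200012000d0004000200000000000000000000000) (nat_lit 0x0) (nat_lit 0x100120001c004c003e001780000000000000) := T_49 (nat_lit 125) (nat_lit 140) (nat_lit 1) (nat_lit 8) (nat_lit 7) L3793 (by decide +kernel)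
theorem L3795 : W_49 (nat_lit 11) (nat_lit 0x80004000200012000d0004000200000000000000000000000) (nat_lit 0x0) (nat_lit 0x200010000000000000100120001c004c003e001780000000000000) := T_49 (nat_lit 196) (nat_lit 213) (nat_lit 7) (nat_lit 8) (nat_lit 8) L3794 (by decide +kernel)
theorem L3796 : W_49 (nat_lit 12) (nat_lit 0x8000400020001200090004000200000000000000000000000) (nat_lit 0x0) (nat_lit 0x200010000000000000900160001c004c003e001780000000000000) := T_49 (nat_lit 126) (nat_lit 143) (nat_lit 4) (nat_lit 8) (nat_lit 11) L3795 (by decide +kernel)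
theorem L3797 : W_49 (nat_lit 13) (nat_lit 0x8000400020001200090004000000000000000000000000000) (nat_lit 0x0) (nat_lit 0x200010000000000000900160001c007c003e001780000000000000) := Q_49 (nat_lit 93) (C_49 L3755 (C_49 L3759 (C_49 L3770 (C_49 L3777 (C_49 L3781 (C_49 L3788 (C_49 L3796 N_49))))))) (by decide +kernel)
theorem L3798 : W_49 (nat_lit 14) (nat_lit 0x400020001200090004000000000000000000000000000) (nat_lit 0x0) (nat_lit 0x500038001c000200000000900160001c007c003e001780000000000000) := Q_49 (nat_lit 195) (C_49 L3741 (C_49 L3797 (C_49 L3400 N_49))) (by decide +kernel)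
theorem L3799 : W_49 (nat_lit 2) (nat_lit 0x600020001a000d0004000000000000000000000000000) (nat_lit 0x0) (nat_lit 0x100028000000000000000000000000000000) := D_49 (nat_lit 125) (nat_lit 140) (nat_lit 123) (nat_lit 1) (nat_lit 8) (nat_lit 7) (nat_lit 3) (nat_lit 4) (nat_lit 7) (by decide +kernel)
theorem L3800 : W_49 (nat_lit 3) (nat_lit 0x6000200012000d0004000000000000000000000000000) (nat_lit 0x0) (nat_lit 0x8000000000000900028000000000000000000000000000000) := T_49 (nat_lit 143) (nat_lit 195) (nat_lit 4) (nat_lit 8) (nat_lit 11) L3799 (by decide +kernel)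
theorem L3801 : W_49 (nat_lit 4) (nat_lit 0x4000200012000d0004000000000000000000000000000) (nat_lit 0x0) (nat_lit 0xc000200000000900028000000000000000000000000000000) := T_49 (nat_lit 177) (nat_lit 194) (nat_lit 5) (nat_lit 8) (nat_lit 7) L3800 (by decide +kernel)
theorem L3802 : W_49 (nat_lit 2) (nat_lit 0x4000200012000f0004000000000000000000000000000) (nat_lit 0x0) (nat_lit 0x8000000000000800008000000000000000000000000000000) := D_49 (nat_lit 143) (nat_lit 195) (nat_lit 123) (nat_lit 4) (nat_lit 8) (nat_lit 11) (nat_lit 3) (nat_lit 4) (nat_lit 7) (by decide +kernel)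
theorem L3803 : W_49 (nat_lit 3) (nat_lit 0x4000200012000d0004000000000000000000000000000) (nat_lit 0x0) (nat_lit 0x8000000000000900028000000000000000000000000000000) := T_49 (nat_lit 125) (nat_lit 140) (nat_lit 1) (nat_lit 8) (nat_lit 7) L3802 (by decide +kernel)
theorem L3804 : W_49 (nat_lit 2) (nat_lit 0x5c00240012000f0004000000000000000000000000000) (nat_lit 0x0) (nat_lit 0x200042000000000000000000000000000000000000000) := D_49 (nat_lit 177) (nat_lit 162) (nat_lit 157) (nat_lit 2) (nat_lit 5) (nat_lit 10) (nat_lit 0) (nat_lit 8) (nat_lit 10) (by decide +kernel)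
theorem L3805 : W_49 (nat_lit 3) (nat_lit 0x4c00240012000f0004000000000000000000000000000) (nat_lit 0x0) (nat_lit 0x2000300042000000000000000000000000000000000000000) := T_49 (nat_lit 176) (nat_lit 193) (nat_lit 7) (nat_lit 5) (nat_lit 7) L3804 (by decide +kernel)
theorem L3806 : W_49 (nat_lit 4) (nat_lit 0x4800240012000f0004000000000000000000000000000) (nat_lit 0x0) (nat_lit 0x2800340042000000000000000000000000000000000000000) := T_49 (nat_lit 174) (nat_lit 191) (nat_lit 5) (nat_lit 5) (nat_lit 7) L3805 (by decide +kernel)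
theorem L3807 : W_49 (nat_lit 5) (nat_lit 0x4800200012000f0004000000000000000000000000000) (nat_lit 0x0) (nat_lit 0x2800340046000000000001000000000000000000000000000) := T_49 (nat_lit 158) (nat_lit 108) (nat_lit 6) (nat_lit 5) (nat_lit 10) L3806 (by decide +kernel)
theorem L3808 : W_49 (nat_lit 6) (nat_lit 0x4800200012000d0004000000000000000000000000000) (nat_lit 0x0) (nat_lit 0x2800340046000100020001000000000000000000000000000) := T_49 (nat_lit 125) (nat_lit 140) (nat_lit 1) (nat_lit 8) (nat_lit 7) L3807 (by decide +kernel)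
theorem L3809 : W_49 (nat_lit 2) (nat_lit 0x6800240012000f0004000000000000000000000000000) (nat_lit 0x0) (nat_lit 0x2000100002000000000000000000000000000000000000000) := D_49 (nat_lit 176) (nat_lit 157) (nat_lit 193) (nat_lit 0) (nat_lit 8) (nat_lit 10) (nat_lit 7) (nat_lit 5) (nat_lit 7) (by decide +kernel)
theorem L3810 : W_49 (nat_lit 3) (nat_lit 0x6800200012000f0004000000000000000000000000000) (nat_lit 0x0) (nat_lit 0x2000100006000000000001000000000000000000000000000) := T_49 (nat_lit 158) (nat_lit 108) (nat_lit 6) (nat_lit 5) (nat_lit 10) L3809 (by decide +kernel)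
theorem L3811 : W_49 (nat_lit 4) (nat_lit 0x4800200012000f0004000000000000000000000000000) (nat_lit 0x0) (nat_lit 0x6000300006000000000001000000000000000000000000000) := T_49 (nat_lit 177) (nat_lit 194) (nat_lit 5) (nat_lit 8) (nat_lit 7) L3810 (by decide +kernel)
theorem L3812 : W_49 (nat_lit 5) (nat_lit 0x4800200012000d0004000000000000000000000000000) (nat_lit 0x0) (nat_lit 0x6000300006000100020001000000000000000000000000000) := T_49 (nat_lit 125) (nat_lit 140) (nat_lit 1) (nat_lit 8) (nat_lit 7) L3811 (by decide +kernel)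
theorem L3813 : W_49 (nat_lit 2) (nat_lit 0x7800200012000d0004000000000000000000000000000) (nat_lit 0x0) (nat_lit 0x2000000006000000000000000000000000000000000000000) := D_49 (nat_lit 158) (nat_lit 157) (nat_lit 193) (nat_lit 0) (nat_lit 8) (nat_lit 10) (nat_lit 7) (nat_lit 5) (nat_lit 7) (by decide +kernel)
theorem L3814 : W_49 (nat_lit 3) (nat_lit 0x6800200012000d0004000000000000000000000000000) (nat_lit 0x0) (nat_lit 0x2000100046000000000000000000000000000000000000000) := T_49 (nat_lit 176) (nat_lit 162) (nat_lit 2) (nat_lit 5) (nat_lit 10) L3813 (by decide +kernel)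
theorem L3815 : W_49 (nat_lit 4) (nat_lit 0x4800200012000d0004000000000000000000000000000) (nat_lit 0x0) (nat_lit 0x6000300046000000000000000000000000000000000000000) := T_49 (nat_lit 177) (nat_lit 194) (nat_lit 5) (nat_lit 8) (nat_lit 7) L3814 (by decide +kernel)
theorem L3816 : W_49 (nat_lit 2) (nat_lit 0x28004800240012000f0004000000000000000000000000000) (nat_lit 0x0) (nat_lit 0x50001000000000000000000000000000000000000000000000000) := D_49 (nat_lit 192) (nat_lit 208) (nat_lit 210) (nat_lit 5) (nat_lit 5) (nat_lit 8) (nat_lit 7) (nat_lit 5) (nat_lit 8) (by decide +kernel)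
theorem L3817 : W_49 (nat_lit 3) (nat_lit 0x8004800240012000f0004000000000000000000000000000) (nat_lit 0x0) (nat_lit 0x50003000100000000000000000000000000000000000000000000) := T_49 (nat_lit 193) (nat_lit 176) (nat_lit 7) (nat_lit 5) (nat_lit 7) L3816 (by decide +kernel)
theorem L3818 : W_49 (nat_lit 4) (nat_lit 0x4800240012000f0004000000000000000000000000000) (nat_lit 0x0) (nat_lit 0x50003800140000000000000000000000000000000000000000000) := T_49 (nat_lit 191) (nat_lit 174) (nat_lit 5) (nat_lit 5) (nat_lit 7) L3817 (by decide +kernel)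
theorem L3819 : W_49 (nat_lit 5) (nat_lit 0x4800200012000f0004000000000000000000000000000) (nat_lit 0x0) (nat_lit 0x50003800140004000000000001000000000000000000000000000) := T_49 (nat_lit 158) (nat_lit 108) (nat_lit 6) (nat_lit 5) (nat_lit 10) L3818 (by decide +kernel)
theorem L3820 : W_49 (nat_lit 6) (nat_lit 0x4800200012000d0004000000000000000000000000000) (nat_lit 0x0) (nat_lit 0x50003800140004000100020001000000000000000000000000000) := T_49 (nat_lit 125) (nat_lit 140) (nat_lit 1) (nat_lit 8) (nat_lit 7) L3819 (by decide +kernel)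
theorem L3821 : W_49 (nat_lit 2) (nat_lit 0xf8004800240012000f8004000000000000000000000000000) (nat_lit 0x0) (nat_lit 0x300010000000000000000000000000000000000000000000000000) := D_49 (nat_lit 213) (nat_lit 212) (nat_lit 196) (nat_lit 3) (nat_lit 5) (nat_lit 11) (nat_lit 7) (nat_lit 8) (nat_lit 8) (by decide +kernel)
theorem L3822 : W_49 (nat_lit 3) (nat_lit 0xd8004800240012000f8004000000000000000000000000000) (nat_lit 0x0) (nat_lit 0x340012000000000000000000000000000000000000000000000000) := T_49 (nat_lit 193) (nat_lit 210) (nat_lit 7) (nat_lit 5) (nat_lit 8) L3821 (by decide +kernel)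
theorem L3823 : W_49 (nat_lit 4) (nat_lit 0x58004800240012000f8004000000000000000000000000000) (nat_lit 0x0) (nat_lit 0x3c001a000000000000000000000000000000000000000000000000) := T_49 (nat_lit 195) (nat_lit 211) (nat_lit 5) (nat_lit 8) (nat_lit 8) L3822 (by decide +kernel)
theorem L3824 : W_49 (nat_lit 5) (nat_lit 0x48004800240012000f8004000000000000000000000000000) (nat_lit 0x0) (nat_lit 0x3d001b000000000000000000000000000000000000000000000000) := T_49 (nat_lit 192) (nat_lit 208) (nat_lit 5) (nat_lit 5) (nat_lit 8) L3823 (by decide +kernel)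
theorem L3825 : W_49 (nat_lit 6) (nat_lit 0x48004800240012000f0004000000000000000000000000000) (nat_lit 0x0) (nat_lit 0x3d001b000000000000000008000400000000000000000000000000) := T_49 (nat_lit 123) (nat_lit 106) (nat_lit 4) (nat_lit 5) (nat_lit 10) L3824 (by decide +kernel)
theorem L3826 : W_49 (nat_lit 7) (nat_lit 0x40004800240012000f0004000000000000000000000000000) (nat_lit 0x0) (nat_lit 0x3d001b800040000000000008000400000000000000000000000000) := T_49 (nat_lit 191) (nat_lit 174) (nat_lit 5) (nat_lit 5) (nat_lit 7) L3825 (by decide +kernel)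
theorem L3827 : W_49 (nat_lit 8) (nat_lit 0x40004800200012000f0004000000000000000000000000000) (nat_lit 0x0) (nat_lit 0x3d001b800040004000000008001400000000000000000000000000) := T_49 (nat_lit 158) (nat_lit 108) (nat_lit 6) (nat_lit 5) (nat_lit 10) L3826 (by decide +kernel)
theorem L3828 : W_49 (nat_lit 9) (nat_lit 0x4800200012000f0004000000000000000000000000000) (nat_lit 0x0) (nat_lit 0x3d001f800240004000000008001400000000000000000000000000) := T_49 (nat_lit 194) (nat_lit 177) (nat_lit 5) (nat_lit 8) (nat_lit 7) L3827 (by decide +kernel)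
theorem L3829 : W_49 (nat_lit 10) (nat_lit 0x4800200012000d0004000000000000000000000000000) (nat_lit 0x0) (nat_lit 0x3d001f800240004000100028001400000000000000000000000000) := T_49 (nat_lit 125) (nat_lit 140) (nat_lit 1) (nat_lit 8) (nat_lit 7) L3828 (by decide +kernel)
theorem L3830 : W_49 (nat_lit 2) (nat_lit 0x88007c00200012000d0004000000000000000000000000000) (nat_lit 0x0) (nat_lit 0x3000100000000000000000000000000000000000) := D_49 (nat_lit 157) (nat_lit 156) (nat_lit 140) (nat_lit 0) (nat_lit 7) (nat_lit 10) (nat_lit 6) (nat_lit 4) (nat_lit 11) (by decide +kernel)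
theorem L3831 : W_49 (nat_lit 3) (nat_lit 0x88007800200012000d0004000000000000000000000000000) (nat_lit 0x0) (nat_lit 0x400040003000100000000000000000000000000000000000) := T_49 (nat_lit 174) (nat_lit 190) (nat_lit 1) (nat_lit 7) (nat_lit 10) L3830 (by decide +kernel)
theorem L3832 : W_49 (nat_lit 4) (nat_lit 0x8007800200012000d0004000000000000000000000000000) (nat_lit 0x0) (nat_lit 0x18400040003000100000000000000000000000000000000000) := T_49 (nat_lit 195) (nat_lit 196) (nat_lit 3) (nat_lit 5) (nat_lit 10) L3831 (by decide +kernel)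
theorem L3833 : W_49 (nat_lit 5) (nat_lit 0x7800200012000d0004000000000000000000000000000) (nat_lit 0x0) (nat_lit 0x19c00040003000100000000000000000000000000000000000) := T_49 (nat_lit 191) (nat_lit 192) (nat_lit 1) (nat_lit 8) (nat_lit 10) L3832 (by decide +kernel)
theorem L3834 : W_49 (nat_lit 6) (nat_lit 0x6800200012000d0004000000000000000000000000000) (nat_lit 0x0) (nat_lit 0x19c00140043000100000000000000000000000000000000000) := T_49 (nat_lit 176) (nat_lit 162) (nat_lit 2) (nat_lit 5) (nat_lit 10) L3833 (by decide +kernel)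
theorem L3835 : W_49 (nat_lit 7) (nat_lit 0x4800200012000d0004000000000000000000000000000) (nat_lit 0x0) (nat_lit 0x1dc00340043000100000000000000000000000000000000000) := T_49 (nat_lit 177) (nat_lit 194) (nat_lit 5) (nat_lit 8) (nat_lit 7) L3834 (by decide +kernel)
theorem L3836 : W_49 (nat_lit 11) (nat_lit 0x4000200012000d0004000000000000000000000000000) (nat_lit 0x0) (nat_lit 0x3d001fc003c0047000100028001400000000000000000000000000) := Q_49 (nat_lit 175) (C_49 L3808 (C_49 L3812 (C_49 L3815 (C_49 L3820 (C_49 L3829 (C_49 L3835 N_49)))))) (by decide +kernel)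
theorem L3837 : W_49 (nat_lit 2) (nat_lit 0x6800200012000f8004000000000000000000000000000) (nat_lit 0x0) (nat_lit 0x4000000000000600000000000000000000000000) := D_49 (nat_lit 106) (nat_lit 105) (nat_lit 158) (nat_lit 0) (nat_lit 7) (nat_lit 7) (nat_lit 4) (nat_lit 5) (nat_lit 10) (by decide +kernel)
theorem L3838 : W_49 (nat_lit 3) (nat_lit 0x6800200012000f0004000000000000000000000000000) (nat_lit 0x0) (nat_lit 0x4000800008000600000000000000000000000000) := T_49 (nat_lit 123) (nat_lit 143) (nat_lit 3) (nat_lit 4) (nat_lit 7) L3837 (by decide +kernel)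
theorem L3839 : W_49 (nat_lit 4) (nat_lit 0x6800200012000d0004000000000000000000000000000) (nat_lit 0x0) (nat_lit 0x4000900028000600000000000000000000000000) := T_49 (nat_lit 125) (nat_lit 140) (nat_lit 1) (nat_lit 8) (nat_lit 7) L3838 (by decide +kernel)
theorem L3840 : W_49 (nat_lit 5) (nat_lit 0x4800200012000d0004000000000000000000000000000) (nat_lit 0x0) (nat_lit 0x4000200004000900028000600000000000000000000000000) := T_49 (nat_lit 177) (nat_lit 194) (nat_lit 5) (nat_lit 8) (nat_lit 7) L3839 (by decide +kernel)
theorem L3841 : W_49 (nat_lit 2) (nat_lit 0x8007c00210012000fc004200000000000000000000000000) (nat_lit 0x0) (nat_lit 0x20000800080000000000000000000000000000000000) := D_49 (nat_lit 173) (nat_lit 155) (nat_lit 139) (nat_lit 0) (nat_lit 6) (nat_lit 10) (nat_lit 7) (nat_lit 3) (nat_lit 7) (by decide +kernel)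
theorem L3842 : W_49 (nat_lit 3) (nat_lit 0x8007c00210012000f8004200000000000000000000000000) (nat_lit 0x0) (nat_lit 0x20000800080004000100000000000000000000000000) := T_49 (nat_lit 122) (nat_lit 104) (nat_lit 0) (nat_lit 6) (nat_lit 7) L3841 (by decide +kernel)
theorem L3843 : W_49 (nat_lit 4) (nat_lit 0x8007c00200012000f8004200000000000000000000000000) (nat_lit 0x0) (nat_lit 0x20003800080004000100000000000000000000000000) := T_49 (nat_lit 156) (nat_lit 157) (nat_lit 0) (nat_lit 7) (nat_lit 10) L3842 (by decide +kernel)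
theorem L3844 : W_49 (nat_lit 5) (nat_lit 0x8007800200012000f8004200000000000000000000000000) (nat_lit 0x0) (nat_lit 0x400060003800080004000100000000000000000000000000) := T_49 (nat_lit 174) (nat_lit 190) (nat_lit 1) (nat_lit 7) (nat_lit 10) L3843 (by decide +kernel)
theorem L3845 : W_49 (nat_lit 6) (nat_lit 0x8007800200012000f8004000000000000000000000000000) (nat_lit 0x0) (nat_lit 0x400060003800080004000700000000000000000000000000) := T_49 (nat_lit 105) (nat_lit 106) (nat_lit 0) (nat_lit 7) (nat_lit 7) L3844 (by decide +kernel)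
theorem L3846 : W_49 (nat_lit 7) (nat_lit 0x8007800200012000f0004000000000000000000000000000) (nat_lit 0x0) (nat_lit 0x40006000380088000c000700000000000000000000000000) := T_49 (nat_lit 123) (nat_lit 143) (nat_lit 3) (nat_lit 4) (nat_lit 7) L3845 (by decide +kernel)
theorem L3847 : W_49 (nat_lit 8) (nat_lit 0x7800200012000f0004000000000000000000000000000) (nat_lit 0x0) (nat_lit 0x1c0006000380088000c000700000000000000000000000000) := T_49 (nat_lit 191) (nat_lit 192) (nat_lit 1) (nat_lit 8) (nat_lit 10) L3846 (by decide +kernel)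
theorem L3848 : W_49 (nat_lit 9) (nat_lit 0x6800200012000f0004000000000000000000000000000) (nat_lit 0x0) (nat_lit 0x1c0016004380088000c000700000000000000000000000000) := T_49 (nat_lit 176) (nat_lit 162) (nat_lit 2) (nat_lit 5) (nat_lit 10) L3847 (by decide +kernel)
theorem L3849 : W_49 (nat_lit 10) (nat_lit 0x4800200012000f0004000000000000000000000000000) (nat_lit 0x0) (nat_lit 0x5c0036004380088000c000700000000000000000000000000) := T_49 (nat_lit 177) (nat_lit 194) (nat_lit 5) (nat_lit 8) (nat_lit 7) L3848 (by decide +kernel)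
theorem L3850 : W_49 (nat_lit 11) (nat_lit 0x4800200012000d0004000000000000000000000000000) (nat_lit 0x0) (nat_lit 0x5c0036004380098002c000700000000000000000000000000) := T_49 (nat_lit 125) (nat_lit 140) (nat_lit 1) (nat_lit 8) (nat_lit 7) L3849 (by decide +kernel)
theorem L3851 : W_49 (nat_lit 12) (nat_lit 0x4000200012000d0004000000000000000000000000000) (nat_lit 0x0) (nat_lit 0x50007c003e004780098002c001700000000000000000000000000) := Q_49 (nat_lit 175) (C_49 L3820 (C_49 L3815 (C_49 L3840 (C_49 L3850 N_49)))) (by decide +kernel)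
theorem L3852 : W_49 (nat_lit 2) (nat_lit 0x80004000200012000d0004000000000000000000000000000) (nat_lit 0x0) (nat_lit 0x80004000200000000000000000000000000000000000000000000) := D_49 (nat_lit 194) (nat_lit 177) (nat_lit 211) (nat_lit 5) (nat_lit 8) (nat_lit 7) (nat_lit 5) (nat_lit 8) (nat_lit 8) (by decide +kernel)
theorem L3853 : W_49 (nat_lit 3) (nat_lit 0x4000200012000d0004000000000000000000000000000) (nat_lit 0x0) (nat_lit 0x8000c000200000000800000000000000000000000000000000000) := T_49 (nat_lit 195) (nat_lit 143) (nat_lit 4) (nat_lit 8) (nat_lit 11) L3852 (by decide +kernel)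
theorem L3854 : W_49 (nat_lit 13) (nat_lit 0x400020001200090004000000000000000000000000000) (nat_lit 0x0) (nat_lit 0x3d001fc003e004780098006c001700000000000000000000000000) := Q_49 (nat_lit 126) (C_49 L3801 (C_49 L3803 (C_49 L3836 (C_49 L3851 (C_49 L3853 N_49))))) (by decide +kernel)
theorem L3855 : W_49 (nat_lit 2) (nat_lit 0x30004800240012000f8004000000000000000000000000000) (nat_lit 0x0) (nat_lit 0x10000800040000000000000000000000000000000000000000000) := D_49 (nat_lit 191) (nat_lit 208) (nat_lit 174) (nat_lit 5) (nat_lit 5) (nat_lit 8) (nat_lit 5) (nat_lit 5) (nat_lit 7) (by decide +kernel)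
theorem L3856 : W_49 (nat_lit 3) (nat_lit 0x20004800240012000f8004000000000000000000000000000) (nat_lit 0x0) (nat_lit 0x50001800040000000000000000000000000000000000000000000) := T_49 (nat_lit 192) (nat_lit 210) (nat_lit 7) (nat_lit 5) (nat_lit 8) L3855 (by decide +kernel)
theorem L3857 : W_49 (nat_lit 4) (nat_lit 0x20004800240012000b8004000000000000000000000000000) (nat_lit 0x0) (nat_lit 0x50001800040000000800040000000000000000000000000000000) := T_49 (nat_lit 126) (nat_lit 143) (nat_lit 3) (nat_lit 4) (nat_lit 7) L3856 (by decide +kernel)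
theorem L3858 : W_49 (nat_lit 5) (nat_lit 0x2000480024001200098004000000000000000000000000000) (nat_lit 0x0) (nat_lit 0x50001800040000000800060001000000000000000000000000000) := T_49 (nat_lit 125) (nat_lit 108) (nat_lit 6) (nat_lit 5) (nat_lit 10) L3857 (by decide +kernel)
theorem L3859 : W_49 (nat_lit 6) (nat_lit 0x480024001200098004000000000000000000000000000) (nat_lit 0x0) (nat_lit 0x50003800140000000800060001000000000000000000000000000) := T_49 (nat_lit 193) (nat_lit 176) (nat_lit 7) (nat_lit 5) (nat_lit 7) L3858 (by decide +kernel)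
theorem L3860 : W_49 (nat_lit 7) (nat_lit 0x480024001200090004000000000000000000000000000) (nat_lit 0x0) (nat_lit 0x50003800140000000800068001400000000000000000000000000) := T_49 (nat_lit 123) (nat_lit 106) (nat_lit 4) (nat_lit 5) (nat_lit 10) L3859 (by decide +kernel)
theorem L3861 : W_49 (nat_lit 8) (nat_lit 0x480020001200090004000000000000000000000000000) (nat_lit 0x0) (nat_lit 0x5000380014000e000800068001c000a0000000000000000000000) := Q_49 (nat_lit 158) (C_49 L3692 (C_49 L3446 (C_49 L3860 (C_49 L3346 N_49)))) (by decide +kernel)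
theorem L3862 : W_49 (nat_lit 2) (nat_lit 0x20000d800480024001a000b0004000000000000000000000000000) (nat_lit 0x0) (nat_lit 0x140002000000000000000000000000000000000000000000000000) := D_49 (nat_lit 193) (nat_lit 212) (nat_lit 210) (nat_lit 3) (nat_lit 5) (nat_lit 11) (nat_lit 7) (nat_lit 5) (nat_lit 8) (by decide +kernel)
theorem L3863 : W_49 (nat_lit 3) (nat_lit 0x20000c800480024001a000b0004000000000000000000000000000) (nat_lit 0x0) (nat_lit 0x150003000000000000000000000000000000000000000000000000) := T_49 (nat_lit 192) (nat_lit 208) (nat_lit 5) (nat_lit 5) (nat_lit 8) L3862 (by decide +kernel)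
theorem L3864 : W_49 (nat_lit 4) (nat_lit 0xc800480024001a000b0004000000000000000000000000000) (nat_lit 0x0) (nat_lit 0x350013000000000000000000000000000000000000000000000000) := T_49 (nat_lit 213) (nat_lit 196) (nat_lit 7) (nat_lit 8) (nat_lit 8) L3863 (by decide +kernel)
theorem L3865 : W_49 (nat_lit 5) (nat_lit 0xc8004800240012000b0004000000000000000000000000000) (nat_lit 0x0) (nat_lit 0x350013000000000000800040000000000000000000000000000000) := T_49 (nat_lit 143) (nat_lit 126) (nat_lit 4) (nat_lit 8) (nat_lit 11) L3864 (by decide +kernel)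
theorem L3866 : W_49 (nat_lit 6) (nat_lit 0x48004800240012000b0004000000000000000000000000000) (nat_lit 0x0) (nat_lit 0x3d001b000000000000800040000000000000000000000000000000) := T_49 (nat_lit 195) (nat_lit 211) (nat_lit 5) (nat_lit 8) (nat_lit 8) L3865 (by decide +kernel)
theorem L3867 : W_49 (nat_lit 7) (nat_lit 0x40004800240012000b0004000000000000000000000000000) (nat_lit 0x0) (nat_lit 0x3d001b800040000000800040000000000000000000000000000000) := T_49 (nat_lit 191) (nat_lit 174) (nat_lit 5) (nat_lit 5) (nat_lit 7) L3866 (by decide +kernel)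
theorem L3868 : W_49 (nat_lit 8) (nat_lit 0x4800240012000b0004000000000000000000000000000) (nat_lit 0x0) (nat_lit 0x3d001f800240000000800040000000000000000000000000000000) := T_49 (nat_lit 194) (nat_lit 177) (nat_lit 5) (nat_lit 8) (nat_lit 7) L3867 (by decide +kernel)
theorem L3869 : W_49 (nat_lit 9) (nat_lit 0x480024001200090004000000000000000000000000000) (nat_lit 0x0) (nat_lit 0x3d001f800240000000800060001000000000000000000000000000) := T_49 (nat_lit 125) (nat_lit 108) (nat_lit 6) (nat_lit 5) (nat_lit 10) L3868 (by decide +kernel)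
theorem L3870 : W_49 (nat_lit 2) (nat_lit 0x6800240012000b0004400000000000000000000000000) (nat_lit 0x0) (nat_lit 0x40000800020000000000000000000000) := D_49 (nat_lit 107) (nat_lit 89) (nat_lit 126) (nat_lit 4) (nat_lit 5) (nat_lit 9) (nat_lit 0) (nat_lit 8) (nat_lit 7) (by decide +kernel)
theorem L3871 : W_49 (nat_lit 3) (nat_lit 0x6800240012000b0004000000000000000000000000000) (nat_lit 0x0) (nat_lit 0x48000c00020000000000000000000000) := T_49 (nat_lit 106) (nat_lit 123) (nat_lit 4) (nat_lit 5) (nat_lit 10) L3870 (by decide +kernel)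
theorem L3872 : W_49 (nat_lit 4) (nat_lit 0x4800240012000b0004000000000000000000000000000) (nat_lit 0x0) (nat_lit 0x4000200000000000048000c00020000000000000000000000) := T_49 (nat_lit 177) (nat_lit 194) (nat_lit 5) (nat_lit 8) (nat_lit 7) L3871 (by decide +kernel)
theorem L3873 : W_49 (nat_lit 5) (nat_lit 0x480024001200090004000000000000000000000000000) (nat_lit 0x0) (nat_lit 0x4000200000000000068001c00020000000000000000000000) := T_49 (nat_lit 125) (nat_lit 108) (nat_lit 6) (nat_lit 5) (nat_lit 10) L3872 (by decide +kernel)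
theorem L3874 : W_49 (nat_lit 10) (nat_lit 0x480020001200090004000000000000000000000000000) (nat_lit 0x0) (nat_lit 0x3d001f800240006000800068001c000e0005000000000000000000) := Q_49 (nat_lit 158) (C_49 L3446 (C_49 L3718 (C_49 L3869 (C_49 L3873 (C_49 L3321 N_49))))) (by decide +kernel)
theorem L3875 : W_49 (nat_lit 2) (nat_lit 0x1f000480020001a00090004000000000000000000000000000) (nat_lit 0x0) (nat_lit 0x70000000000000000000000000000000000000000000000000000) := D_49 (nat_lit 209) (nat_lit 210) (nat_lit 208) (nat_lit 1) (nat_lit 9) (nat_lit 11) (nat_lit 1) (nat_lit 8) (nat_lit 11) (by decide +kernel)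
theorem L3876 : W_49 (nat_lit 3) (nat_lit 0x1e000480020001a00090004000000000000000000000000000) (nat_lit 0x0) (nat_lit 0x70001000040000000000000000000000000000000000000000000) := T_49 (nat_lit 192) (nat_lit 174) (nat_lit 0) (nat_lit 8) (nat_lit 11) L3875 (by decide +kernel)
theorem L3877 : W_49 (nat_lit 4) (nat_lit 0x1c000480020001a00090004000000000000000000000000000) (nat_lit 0x0) (nat_lit 0x70003000140000000000000000000000000000000000000000000) := T_49 (nat_lit 193) (nat_lit 176) (nat_lit 0) (nat_lit 9) (nat_lit 11) L3876 (by decide +kernel)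
theorem L3878 : W_49 (nat_lit 5) (nat_lit 0xc000480020001a00090004000000000000000000000000000) (nat_lit 0x0) (nat_lit 0x270013000140000000000000000000000000000000000000000000) := T_49 (nat_lit 196) (nat_lit 213) (nat_lit 7) (nat_lit 8) (nat_lit 8) L3877 (by decide +kernel)
theorem L3879 : W_49 (nat_lit 6) (nat_lit 0xc000480020001200090004000000000000000000000000000) (nat_lit 0x0) (nat_lit 0x270013000140000000800040000000000000000000000000000000) := T_49 (nat_lit 143) (nat_lit 126) (nat_lit 4) (nat_lit 8) (nat_lit 11) L3878 (by decide +kernel)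
theorem L3880 : W_49 (nat_lit 7) (nat_lit 0x4000480020001200090004000000000000000000000000000) (nat_lit 0x0) (nat_lit 0x2f001b000140000000800040000000000000000000000000000000) := T_49 (nat_lit 195) (nat_lit 211) (nat_lit 5) (nat_lit 8) (nat_lit 8) L3879 (by decide +kernel)
theorem L3881 : W_49 (nat_lit 8) (nat_lit 0x480020001200090004000000000000000000000000000) (nat_lit 0x0) (nat_lit 0x2f001f000340000000800040000000000000000000000000000000) := T_49 (nat_lit 194) (nat_lit 177) (nat_lit 5) (nat_lit 8) (nat_lit 7) L3880 (by decide +kernel)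
theorem L3882 : W_49 (nat_lit 2) (nat_lit 0x9000780024001a00090004800000000000000000000000000) (nat_lit 0x0) (nat_lit 0x20001000080000000000000000000000) := D_49 (nat_lit 108) (nat_lit 91) (nat_lit 125) (nat_lit 6) (nat_lit 5) (nat_lit 9) (nat_lit 6) (nat_lit 5) (nat_lit 10) (by decide +kernel)
theorem L3883 : W_49 (nat_lit 3) (nat_lit 0x9000780024001a00090004000000000000000000000000000) (nat_lit 0x0) (nat_lit 0x8000000020001800080000000000000000000000) := T_49 (nat_lit 107) (nat_lit 159) (nat_lit 7) (nat_lit 5) (nat_lit 6) L3882 (by decide +kernel)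
theorem L3884 : W_49 (nat_lit 4) (nat_lit 0x9000780024001200090004000000000000000000000000000) (nat_lit 0x0) (nat_lit 0x8000800060001800080000000000000000000000) := T_49 (nat_lit 143) (nat_lit 126) (nat_lit 4) (nat_lit 8) (nat_lit 11) L3883 (by decide +kernel)
theorem L3885 : W_49 (nat_lit 5) (nat_lit 0x9000780020001200090004000000000000000000000000000) (nat_lit 0x0) (nat_lit 0xe000800060001800080000000000000000000000) := T_49 (nat_lit 158) (nat_lit 157) (nat_lit 0) (nat_lit 8) (nat_lit 10) L3884 (by decide +kernel)
theorem L3886 : W_49 (nat_lit 6) (nat_lit 0x1000780020001200090004000000000000000000000000000) (nat_lit 0x0) (nat_lit 0x1800000000e000800060001800080000000000000000000000) := T_49 (nat_lit 195) (nat_lit 196) (nat_lit 3) (nat_lit 5) (nat_lit 10) L3885 (by decide +kernel)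
theorem L3887 : W_49 (nat_lit 7) (nat_lit 0x780020001200090004000000000000000000000000000) (nat_lit 0x0) (nat_lit 0x1980000000e000800060001800080000000000000000000000) := T_49 (nat_lit 192) (nat_lit 191) (nat_lit 1) (nat_lit 8) (nat_lit 10) L3886 (by decide +kernel)
theorem L3888 : W_49 (nat_lit 8) (nat_lit 0x680020001200090004000000000000000000000000000) (nat_lit 0x0) (nat_lit 0x1980010004e000800060001800080000000000000000000000) := T_49 (nat_lit 176) (nat_lit 162) (nat_lit 2) (nat_lit 5) (nat_lit 10) L3887 (by decide +kernel)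
theorem L3889 : W_49 (nat_lit 9) (nat_lit 0x480020001200090004000000000000000000000000000) (nat_lit 0x0) (nat_lit 0x1d80030004e000800060001800080000000000000000000000) := T_49 (nat_lit 177) (nat_lit 194) (nat_lit 5) (nat_lit 8) (nat_lit 7) L3888 (by decide +kernel)
theorem L3890 : W_49 (nat_lit 11) (nat_lit 0x400020001200090004000000000000000000000000000) (nat_lit 0x0) (nat_lit 0x3f001f8003c004e000800068001c000e0005000000000000000000) := Q_49 (nat_lit 175) (C_49 L3412 (C_49 L3406 (C_49 L3861 (C_49 L3874 (C_49 L3881 (C_49 L3338 (C_49 L3889 N_49))))))) (by decide +kernel)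
theorem L3891 : W_49 (nat_lit 2) (nat_lit 0x20000d8004800240012000f0004000000000000000000000000000) (nat_lit 0x0) (nat_lit 0x140002000000000000000000000000000000000000000000000000) := D_49 (nat_lit 193) (nat_lit 212) (nat_lit 210) (nat_lit 3) (nat_lit 5) (nat_lit 11) (nat_lit 7) (nat_lit 5) (nat_lit 8) (by decide +kernel)
theorem L3892 : W_49 (nat_lit 3) (nat_lit 0x20000c8004800240012000f0004000000000000000000000000000) (nat_lit 0x0) (nat_lit 0x150003000000000000000000000000000000000000000000000000) := T_49 (nat_lit 192) (nat_lit 208) (nat_lit 5) (nat_lit 5) (nat_lit 8) L3891 (by decide +kernel)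
theorem L3893 : W_49 (nat_lit 4) (nat_lit 0xc8004800240012000f0004000000000000000000000000000) (nat_lit 0x0) (nat_lit 0x350013000000000000000000000000000000000000000000000000) := T_49 (nat_lit 213) (nat_lit 196) (nat_lit 7) (nat_lit 8) (nat_lit 8) L3892 (by decide +kernel)
theorem L3894 : W_49 (nat_lit 5) (nat_lit 0xc0004800240012000f0004000000000000000000000000000) (nat_lit 0x0) (nat_lit 0x350013800040000000000000000000000000000000000000000000) := T_49 (nat_lit 191) (nat_lit 174) (nat_lit 5) (nat_lit 5) (nat_lit 7) L3893 (by decide +kernel)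
theorem L3895 : W_49 (nat_lit 6) (nat_lit 0xc0004800200012000f0004000000000000000000000000000) (nat_lit 0x0) (nat_lit 0x350013800040004000000000001000000000000000000000000000) := T_49 (nat_lit 158) (nat_lit 108) (nat_lit 6) (nat_lit 5) (nat_lit 10) L3894 (by decide +kernel)
theorem L3896 : W_49 (nat_lit 7) (nat_lit 0x40004800200012000f0004000000000000000000000000000) (nat_lit 0x0) (nat_lit 0x3d001b800040004000000000001000000000000000000000000000) := T_49 (nat_lit 195) (nat_lit 211) (nat_lit 5) (nat_lit 8) (nat_lit 8) L3895 (by decide +kernel)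
theorem L3897 : W_49 (nat_lit 8) (nat_lit 0x40004800200012000d0004000000000000000000000000000) (nat_lit 0x0) (nat_lit 0x3d001b800040004000100020001000000000000000000000000000) := T_49 (nat_lit 125) (nat_lit 140) (nat_lit 1) (nat_lit 8) (nat_lit 7) L3896 (by decide +kernel)
theorem L3898 : W_49 (nat_lit 9) (nat_lit 0x4800200012000d0004000000000000000000000000000) (nat_lit 0x0) (nat_lit 0x3d001f800240004000100020001000000000000000000000000000) := T_49 (nat_lit 194) (nat_lit 177) (nat_lit 5) (nat_lit 8) (nat_lit 7) L3897 (by decide +kernel)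
theorem L3899 : W_49 (nat_lit 10) (nat_lit 0x4000200012000d0004000000000000000000000000000) (nat_lit 0x0) (nat_lit 0x3d001fc003c0047000100020001000000000000000000000000000) := Q_49 (nat_lit 175) (C_49 L3835 (C_49 L3820 (C_49 L3898 (C_49 L3815 N_49)))) (by decide +kernel)
theorem L3900 : W_49 (nat_lit 2) (nat_lit 0x680020001a000f0005000380000000000000000000000) (nat_lit 0x0) (nat_lit 0x800400020000000000000000000) := D_49 (nat_lit 94) (nat_lit 107) (nat_lit 77) (nat_lit 1) (nat_lit 9) (nat_lit 5) (nat_lit 6) (nat_lit 8) (nat_lit 8) (by decide +kernel)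
theorem L3901 : W_49 (nat_lit 3) (nat_lit 0x680020001a000f0005000280000000000000000000000) (nat_lit 0x0) (nat_lit 0x800500028000000000000000000) := T_49 (nat_lit 92) (nat_lit 75) (nat_lit 4) (nat_lit 8) (nat_lit 8) L3900 (by decide +kernel)
theorem L3902 : W_49 (nat_lit 4) (nat_lit 0x680020001a000f0005000200000000000000000000000) (nat_lit 0x0) (nat_lit 0x80058002c000000000000000000) := T_49 (nat_lit 91) (nat_lit 74) (nat_lit 7) (nat_lit 6) (nat_lit 4) L3901 (by decide +kernel)
theorem L3903 : W_49 (nat_lit 5) (nat_lit 0x680020001a000f0005000000000000000000000000000) (nat_lit 0x0) (nat_lit 0x80078003c000000000000000000) := T_49 (nat_lit 93) (nat_lit 76) (nat_lit 5) (nat_lit 8) (nat_lit 4) L3902 (by decide +kernel)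
theorem L3904 : W_49 (nat_lit 6) (nat_lit 0x680020001a000f0004000000000000000000000000000) (nat_lit 0x0) (nat_lit 0x400000000000180078003c000000000000000000) := T_49 (nat_lit 108) (nat_lit 158) (nat_lit 6) (nat_lit 5) (nat_lit 10) L3903 (by decide +kernel)
theorem L3905 : W_49 (nat_lit 7) (nat_lit 0x6800200012000f0004000000000000000000000000000) (nat_lit 0x0) (nat_lit 0x400080000800180078003c000000000000000000) := T_49 (nat_lit 143) (nat_lit 123) (nat_lit 3) (nat_lit 4) (nat_lit 7) L3904 (by decide +kernel)
theorem L3906 : W_49 (nat_lit 8) (nat_lit 0x6800200012000d0004000000000000000000000000000) (nat_lit 0x0) (nat_lit 0x400090002800180078003c000000000000000000) := T_49 (nat_lit 125) (nat_lit 140) (nat_lit 1) (nat_lit 8) (nat_lit 7) L3905 (by decide +kernel)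
theorem L3907 : W_49 (nat_lit 9) (nat_lit 0x4800200012000d0004000000000000000000000000000) (nat_lit 0x0) (nat_lit 0x400020000400090002800180078003c000000000000000000) := T_49 (nat_lit 177) (nat_lit 194) (nat_lit 5) (nat_lit 8) (nat_lit 7) L3906 (by decide +kernel)
theorem L3908 : W_49 (nat_lit 2) (nat_lit 0x8007800200013000d0004000000000000000000000000000) (nat_lit 0x0) (nat_lit 0x400040002000000000000000000000000000000000000000) := D_49 (nat_lit 174) (nat_lit 190) (nat_lit 157) (nat_lit 1) (nat_lit 7) (nat_lit 10) (nat_lit 6) (nat_lit 4) (nat_lit 11) (by decide +kernel)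
theorem L3909 : W_49 (nat_lit 3) (nat_lit 0x7800200013000d0004000000000000000000000000000) (nat_lit 0x0) (nat_lit 0x1c00040002000000000000000000000000000000000000000) := T_49 (nat_lit 191) (nat_lit 192) (nat_lit 1) (nat_lit 8) (nat_lit 10) L3908 (by decide +kernel)
theorem L3910 : W_49 (nat_lit 4) (nat_lit 0x6800200013000d0004000000000000000000000000000) (nat_lit 0x0) (nat_lit 0x1c00140042000000000000000000000000000000000000000) := T_49 (nat_lit 176) (nat_lit 162) (nat_lit 2) (nat_lit 5) (nat_lit 10) L3909 (by decide +kernel)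
theorem L3911 : W_49 (nat_lit 5) (nat_lit 0x4800200013000d0004000000000000000000000000000) (nat_lit 0x0) (nat_lit 0x5c00340042000000000000000000000000000000000000000) := T_49 (nat_lit 177) (nat_lit 194) (nat_lit 5) (nat_lit 8) (nat_lit 7) L3910 (by decide +kernel)
theorem L3912 : W_49 (nat_lit 6) (nat_lit 0x4800200012000d0004000000000000000000000000000) (nat_lit 0x0) (nat_lit 0x5c00340042000100020000000000000000000000000000000) := T_49 (nat_lit 140) (nat_lit 125) (nat_lit 1) (nat_lit 8) (nat_lit 7) L3911 (by decide +kernel)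
theorem L3913 : W_49 (nat_lit 10) (nat_lit 0x4000200012000d0004000000000000000000000000000) (nat_lit 0x0) (nat_lit 0x50007c003c004600090002800180078003c000000000000000000) := Q_49 (nat_lit 175) (C_49 L3820 (C_49 L3815 (C_49 L3907 (C_49 L3912 N_49)))) (by decide +kernel)
theorem L3914 : W_49 (nat_lit 11) (nat_lit 0x400020001200090004000000000000000000000000000) (nat_lit 0x0) (nat_lit 0x3d001fc003c004700090006800180078003c000000000000000000) := Q_49 (nat_lit 126) (C_49 L3853 (C_49 L3803 (C_49 L3899 (C_49 L3913 N_49)))) (by decide +kernel)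
theorem L3915 : W_49 (nat_lit 15) (nat_lit 0x400020001200080004000000000000000000000000000) (nat_lit 0x0) (nat_lit 0x4005e003f001fc003e004f8009c017e001f007f803fe01780004000000000) := Q_49 (nat_lit 124) (C_49 L3448 (C_49 L3299 (C_49 L3628 (C_49 L3689 (C_49 L3728 (C_49 L3748 (C_49 L3798 (C_49 L3854 (C_49 L3890 (C_49 L3914 N_49)))))))))) (by decide +kernel)
theorem L3916 : W_49 (nat_lit 10) (nat_lit 0x4000200012000d002c800000000000000000000000000) (nat_lit 0x0) (nat_lit 0x80000000020009000080000003c001f000380014000000000) := T_49 (nat_lit 143) (nat_lit 195) (nat_lit 4) (nat_lit 8) (nat_lit 11) L2553 (by decide +kernel)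
theorem L3917 : W_49 (nat_lit 11) (nat_lit 0x4000200012000d000c800000000000000000000000000) (nat_lit 0x0) (nat_lit 0x80000000020009000080300003c001f000380014000000000) := T_49 (nat_lit 113) (nat_lit 112) (nat_lit 1) (nat_lit 11) (nat_lit 6) L3916 (by decide +kernel)
theorem L3918 : W_49 (nat_lit 12) (nat_lit 0x40002000120009000c800000000000000000000000000) (nat_lit 0x0) (nat_lit 0x80000000020009000680300003c001f000380014000000000) := T_49 (nat_lit 126) (nat_lit 125) (nat_lit 2) (nat_lit 5) (nat_lit 7) L3917 (by decide +kernel)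
theorem L3919 : W_49 (nat_lit 13) (nat_lit 0x400020001200090004800000000000000000000000000) (nat_lit 0x0) (nat_lit 0x80000000020009001680380003c001f000380014000000000) := T_49 (nat_lit 111) (nat_lit 128) (nat_lit 6) (nat_lit 8) (nat_lit 10) L3918 (by decide +kernel)
theorem L3920 : W_49 (nat_lit 14) (nat_lit 0x400020001200090004000000000000000000000000000) (nat_lit 0x0) (nat_lit 0x50003f001b8003c000e0009c016e039f003f801fc00380014000000000) := Q_49 (nat_lit 107) (C_49 L3461 (C_49 L3683 (C_49 L3492 (C_49 L3919 (C_49 L3530 (C_49 L3540 (C_49 L3581 (C_49 L3599 N_49)))))))) (by decide +kernel)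
theorem L3921 : W_49 (nat_lit 2) (nat_lit 0x4c00240012001b0004800000000000000000000000000) (nat_lit 0x0) (nat_lit 0x8000400020000000000000000000000) := D_49 (nat_lit 106) (nat_lit 89) (nat_lit 123) (nat_lit 4) (nat_lit 5) (nat_lit 9) (nat_lit 4) (nat_lit 5) (nat_lit 10) (by decide +kernel)
theorem L3922 : W_49 (nat_lit 3) (nat_lit 0x4c00240012001b0004000000000000000000000000000) (nat_lit 0x0) (nat_lit 0x2000000008000c00020000000000000000000000) := T_49 (nat_lit 107) (nat_lit 157) (nat_lit 5) (nat_lit 5) (nat_lit 6) L3921 (by decide +kernel)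
theorem L3923 : W_49 (nat_lit 4) (nat_lit 0x4800240012001b0004000000000000000000000000000) (nat_lit 0x0) (nat_lit 0x800040002000000008000c00020000000000000000000000) := T_49 (nat_lit 174) (nat_lit 191) (nat_lit 5) (nat_lit 5) (nat_lit 7) L3922 (by decide +kernel)
theorem L3924 : W_49 (nat_lit 5) (nat_lit 0x4800200012001b0004000000000000000000000000000) (nat_lit 0x0) (nat_lit 0x800040006000000008001c00020000000000000000000000) := T_49 (nat_lit 158) (nat_lit 108) (nat_lit 6) (nat_lit 5) (nat_lit 10) L3923 (by decide +kernel)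
theorem L3925 : W_49 (nat_lit 6) (nat_lit 0x4800200012000b0004000000000000000000000000000) (nat_lit 0x0) (nat_lit 0x800040006000000108009c00020000000000000000000000) := T_49 (nat_lit 128) (nat_lit 111) (nat_lit 6) (nat_lit 8) (nat_lit 10) L3924 (by decide +kernel)
theorem L3926 : W_49 (nat_lit 10) (nat_lit 0x4800200012000b0004000000000000000000000000000) (nat_lit 0x0) (nat_lit 0x4000e00070007800240006000100008001400000000000000000000000000) := T_49 (nat_lit 158) (nat_lit 108) (nat_lit 6) (nat_lit 5) (nat_lit 10) L3429 (by decide +kernel)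
theorem L3927 : W_49 (nat_lit 2) (nat_lit 0x8007c00200012001b0004000000000000000000000000000) (nat_lit 0x0) (nat_lit 0x3000100000000000000000000000000000000000) := D_49 (nat_lit 157) (nat_lit 156) (nat_lit 140) (nat_lit 0) (nat_lit 7) (nat_lit 10) (nat_lit 6) (nat_lit 4) (nat_lit 11) (by decide +kernel)
theorem L3928 : W_49 (nat_lit 3) (nat_lit 0x8007800200012001b0004000000000000000000000000000) (nat_lit 0x0) (nat_lit 0x400040003000100000000000000000000000000000000000) := T_49 (nat_lit 174) (nat_lit 190) (nat_lit 1) (nat_lit 7) (nat_lit 10) L3927 (by decide +kernel)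
theorem L3929 : W_49 (nat_lit 4) (nat_lit 0x7800200012001b0004000000000000000000000000000) (nat_lit 0x0) (nat_lit 0x1c00040003000100000000000000000000000000000000000) := T_49 (nat_lit 191) (nat_lit 192) (nat_lit 1) (nat_lit 8) (nat_lit 10) L3928 (by decide +kernel)
theorem L3930 : W_49 (nat_lit 5) (nat_lit 0x6800200012001b0004000000000000000000000000000) (nat_lit 0x0) (nat_lit 0x1c00140043000100000000000000000000000000000000000) := T_49 (nat_lit 176) (nat_lit 162) (nat_lit 2) (nat_lit 5) (nat_lit 10) L3929 (by decide +kernel)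
theorem L3931 : W_49 (nat_lit 6) (nat_lit 0x4800200012001b0004000000000000000000000000000) (nat_lit 0x0) (nat_lit 0x5c00340043000100000000000000000000000000000000000) := T_49 (nat_lit 177) (nat_lit 194) (nat_lit 5) (nat_lit 8) (nat_lit 7) L3930 (by decide +kernel)
theorem L3932 : W_49 (nat_lit 7) (nat_lit 0x4800200012000b0004000000000000000000000000000) (nat_lit 0x0) (nat_lit 0x5c00340043000100100008000000000000000000000000000) := T_49 (nat_lit 128) (nat_lit 111) (nat_lit 6) (nat_lit 8) (nat_lit 10) L3931 (by decide +kernel)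
theorem L3933 : W_49 (nat_lit 2) (nat_lit 0x7800200012000b0004000000000000000000000000000) (nat_lit 0x0) (nat_lit 0x6000000000001000000000000000000000000000) := D_49 (nat_lit 158) (nat_lit 108) (nat_lit 157) (nat_lit 6) (nat_lit 5) (nat_lit 10) (nat_lit 0) (nat_lit 8) (nat_lit 10) (by decide +kernel)
theorem L3934 : W_49 (nat_lit 3) (nat_lit 0x6800200012000b0004000000000000000000000000000) (nat_lit 0x0) (nat_lit 0x100046000000000001000000000000000000000000000) := T_49 (nat_lit 176) (nat_lit 162) (nat_lit 2) (nat_lit 5) (nat_lit 10) L3933 (by decide +kernel)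
theorem L3935 : W_49 (nat_lit 4) (nat_lit 0x4800200012000b0004000000000000000000000000000) (nat_lit 0x0) (nat_lit 0x4000300046000000000001000000000000000000000000000) := T_49 (nat_lit 177) (nat_lit 194) (nat_lit 5) (nat_lit 8) (nat_lit 7) L3934 (by decide +kernel)
theorem L3936 : W_49 (nat_lit 2) (nat_lit 0x5c00240012000b0004000000000000000000000000000) (nat_lit 0x0) (nat_lit 0x4000200040000000000000000000000000000000000000000) := D_49 (nat_lit 177) (nat_lit 194) (nat_lit 162) (nat_lit 5) (nat_lit 8) (nat_lit 7) (nat_lit 2) (nat_lit 5) (nat_lit 10) (by decide +kernel)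
theorem L3937 : W_49 (nat_lit 3) (nat_lit 0x4c00240012000b0004000000000000000000000000000) (nat_lit 0x0) (nat_lit 0x6000300040000000000000000000000000000000000000000) := T_49 (nat_lit 176) (nat_lit 193) (nat_lit 7) (nat_lit 5) (nat_lit 7) L3936 (by decide +kernel)
theorem L3938 : W_49 (nat_lit 4) (nat_lit 0x4800240012000b0004000000000000000000000000000) (nat_lit 0x0) (nat_lit 0x6800340040000000000000000000000000000000000000000) := T_49 (nat_lit 174) (nat_lit 191) (nat_lit 5) (nat_lit 5) (nat_lit 7) L3937 (by decide +kernel)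
theorem L3939 : W_49 (nat_lit 5) (nat_lit 0x4800200012000b0004000000000000000000000000000) (nat_lit 0x0) (nat_lit 0x6800340044000000000001000000000000000000000000000) := T_49 (nat_lit 158) (nat_lit 108) (nat_lit 6) (nat_lit 5) (nat_lit 10) L3938 (by decide +kernel)
theorem L3940 : W_49 (nat_lit 11) (nat_lit 0x4000200012000b0004000000000000000000000000000) (nat_lit 0x0) (nat_lit 0x4000e00070007c003c0047000100108009c00020000000000000000000000) := Q_49 (nat_lit 175) (C_49 L3925 (C_49 L3926 (C_49 L3932 (C_49 L3935 (C_49 L3939 N_49))))) (by decide +kernel)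
theorem L3941 : W_49 (nat_lit 2) (nat_lit 0x4000200012000b0004000000000000000000000000000) (nat_lit 0x0) (nat_lit 0x100040008000000000000000000000000000) := D_49 (nat_lit 126) (nat_lit 111) (nat_lit 140) (nat_lit 2) (nat_lit 5) (nat_lit 7) (nat_lit 1) (nat_lit 8) (nat_lit 7) (by decide +kernel)
theorem L3942 : W_49 (nat_lit 2) (nat_lit 0x6000200012000f8005800000000000000000000000000) (nat_lit 0x0) (nat_lit 0x4000000000000000080004000000000000000000) := D_49 (nat_lit 91) (nat_lit 74) (nat_lit 158) (nat_lit 5) (nat_lit 6) (nat_lit 4) (nat_lit 6) (nat_lit 5) (nat_lit 9) (by decide +kernel)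
theorem L3943 : W_49 (nat_lit 3) (nat_lit 0x6000200012000f8004800000000000000000000000000) (nat_lit 0x0) (nat_lit 0x4000000100001000080004000000000000000000) := T_49 (nat_lit 108) (nat_lit 128) (nat_lit 0) (nat_lit 9) (nat_lit 7) L3942 (by decide +kernel)
theorem L3944 : W_49 (nat_lit 4) (nat_lit 0x6000200012000f0004800000000000000000000000000) (nat_lit 0x0) (nat_lit 0x4000800108001000080004000000000000000000) := T_49 (nat_lit 123) (nat_lit 143) (nat_lit 3) (nat_lit 4) (nat_lit 7) L3943 (by decide +kernel)
theorem L3945 : W_49 (nat_lit 5) (nat_lit 0x6000200012000f0004000000000000000000000000000) (nat_lit 0x0) (nat_lit 0x4000800108001c00080004000000000000000000) := T_49 (nat_lit 107) (nat_lit 106) (nat_lit 0) (nat_lit 8) (nat_lit 7) L3944 (by decide +kernel)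
theorem L3946 : W_49 (nat_lit 6) (nat_lit 0x6000200012000b0004000000000000000000000000000) (nat_lit 0x0) (nat_lit 0x4000900148001c00080004000000000000000000) := T_49 (nat_lit 126) (nat_lit 140) (nat_lit 1) (nat_lit 8) (nat_lit 7) L3945 (by decide +kernel)
theorem L3947 : W_49 (nat_lit 7) (nat_lit 0x4000200012000b0004000000000000000000000000000) (nat_lit 0x0) (nat_lit 0x4000200004000900148001c00080004000000000000000000) := T_49 (nat_lit 177) (nat_lit 194) (nat_lit 5) (nat_lit 8) (nat_lit 7) L3946 (by decide +kernel)
theorem L3948 : W_49 (nat_lit 2) (nat_lit 0x4000200012000b0004000000000000000000000000000) (nat_lit 0x0) (nat_lit 0x140008000000000000000000000000000) := D_49 (nat_lit 111) (nat_lit 128) (nat_lit 126) (nat_lit 6) (nat_lit 8) (nat_lit 10) (nat_lit 2) (nat_lit 5) (nat_lit 7) (by decide +kernel)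
theorem L3949 : W_49 (nat_lit 12) (nat_lit 0x400020001200090004000000000000000000000000000) (nat_lit 0x0) (nat_lit 0x4000e00070007c003c0047000900168009c000a0004000000000000000000) := Q_49 (nat_lit 125) (C_49 L3940 (C_49 L3941 (C_49 L3947 (C_49 L3948 N_49)))) (by decide +kernel)
theorem L3950 : W_49 (nat_lit 2) (nat_lit 0x1c0004000200012001f0004000000000000000000000000000) (nat_lit 0x0) (nat_lit 0x1c00000000000000000000000000) := D_49 (nat_lit 107) (nat_lit 108) (nat_lit 106) (nat_lit 0) (nat_lit 9) (nat_lit 7) (nat_lit 0) (nat_lit 8) (nat_lit 7) (by decide +kernel)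
theorem L3951 : W_49 (nat_lit 3) (nat_lit 0x1c0004000200012001d0004000000000000000000000000000) (nat_lit 0x0) (nat_lit 0x100020001c00000000000000000000000000) := T_49 (nat_lit 125) (nat_lit 140) (nat_lit 1) (nat_lit 8) (nat_lit 7) L3950 (by decide +kernel)
theorem L3952 : W_49 (nat_lit 4) (nat_lit 0xc0004000200012001d0004000000000000000000000000000) (nat_lit 0x0) (nat_lit 0x200010000000000000100020001c00000000000000000000000000) := T_49 (nat_lit 196) (nat_lit 213) (nat_lit 7) (nat_lit 8) (nat_lit 8) L3951 (by decide +kernel)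
theorem L3953 : W_49 (nat_lit 5) (nat_lit 0xc000400020001200190004000000000000000000000000000) (nat_lit 0x0) (nat_lit 0x200010000000000000900060001c00000000000000000000000000) := T_49 (nat_lit 126) (nat_lit 143) (nat_lit 4) (nat_lit 8) (nat_lit 11) L3952 (by decide +kernel)
theorem L3954 : W_49 (nat_lit 6) (nat_lit 0x4000400020001200190004000000000000000000000000000) (nat_lit 0x0) (nat_lit 0x280018000000000000900060001c00000000000000000000000000) := T_49 (nat_lit 195) (nat_lit 211) (nat_lit 5) (nat_lit 8) (nat_lit 8) L3953 (by decide +kernel)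
theorem L3955 : W_49 (nat_lit 7) (nat_lit 0x400020001200190004000000000000000000000000000) (nat_lit 0x0) (nat_lit 0x28001c000200000000900060001c00000000000000000000000000) := T_49 (nat_lit 194) (nat_lit 177) (nat_lit 5) (nat_lit 8) (nat_lit 7) L3954 (by decide +kernel)
theorem L3956 : W_49 (nat_lit 8) (nat_lit 0x400020001200090004000000000000000000000000000) (nat_lit 0x0) (nat_lit 0x28001c000200000000900160009c00000000000000000000000000) := T_49 (nat_lit 128) (nat_lit 111) (nat_lit 6) (nat_lit 8) (nat_lit 10) L3955 (by decide +kernel)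
theorem L3957 : W_49 (nat_lit 2) (nat_lit 0x1f0004800200012001f0005000000004000000000000000000) (nat_lit 0x0) (nat_lit 0x70000000000000000000000000000000000000000000000000000) := D_49 (nat_lit 209) (nat_lit 210) (nat_lit 208) (nat_lit 1) (nat_lit 9) (nat_lit 11) (nat_lit 1) (nat_lit 8) (nat_lit 11) (by decide +kernel)
theorem L3958 : W_49 (nat_lit 3) (nat_lit 0x1e0004800200012001f0005000000004000000000000000000) (nat_lit 0x0) (nat_lit 0x70001000040000000000000000000000000000000000000000000) := T_49 (nat_lit 192) (nat_lit 174) (nat_lit 0) (nat_lit 8) (nat_lit 11) L3957 (by decide +kernel)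
theorem L3959 : W_49 (nat_lit 4) (nat_lit 0x1c0004800200012001f0005000000004000000000000000000) (nat_lit 0x0) (nat_lit 0x70003000140000000000000000000000000000000000000000000) := T_49 (nat_lit 193) (nat_lit 176) (nat_lit 0) (nat_lit 9) (nat_lit 11) L3958 (by decide +kernel)
theorem L3960 : W_49 (nat_lit 5) (nat_lit 0x1c0004000200012001f0005000000004000000000000000000) (nat_lit 0x0) (nat_lit 0x700030001c0004000000000000000000000000000000000000000) := T_49 (nat_lit 175) (nat_lit 158) (nat_lit 6) (nat_lit 5) (nat_lit 10) L3959 (by decide +kernel)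
theorem L3961 : W_49 (nat_lit 6) (nat_lit 0x1c0004000200012001f0005000000000000000000000000000) (nat_lit 0x0) (nat_lit 0x700030001c0004000000000000000080004000000000000000000) := T_49 (nat_lit 74) (nat_lit 91) (nat_lit 5) (nat_lit 6) (nat_lit 4) L3960 (by decide +kernel)
theorem L3962 : W_49 (nat_lit 7) (nat_lit 0x1c0004000200012001f0004000000000000000000000000000) (nat_lit 0x0) (nat_lit 0x700030001c0004000000000001800080004000000000000000000) := T_49 (nat_lit 108) (nat_lit 107) (nat_lit 0) (nat_lit 9) (nat_lit 7) L3961 (by decide +kernel)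
theorem L3963 : W_49 (nat_lit 8) (nat_lit 0x1c0004000200012001d0004000000000000000000000000000) (nat_lit 0x0) (nat_lit 0x700030001c0004000100020001800080004000000000000000000) := T_49 (nat_lit 125) (nat_lit 140) (nat_lit 1) (nat_lit 8) (nat_lit 7) L3962 (by decide +kernel)
theorem L3964 : W_49 (nat_lit 9) (nat_lit 0xc0004000200012001d0004000000000000000000000000000) (nat_lit 0x0) (nat_lit 0x2700130001c0004000100020001800080004000000000000000000) := T_49 (nat_lit 196) (nat_lit 213) (nat_lit 7) (nat_lit 8) (nat_lit 8) L3963 (by decide +kernel)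
theorem L3965 : W_49 (nat_lit 10) (nat_lit 0xc000400020001200190004000000000000000000000000000) (nat_lit 0x0) (nat_lit 0x2700130001c0004000900060001800080004000000000000000000) := T_49 (nat_lit 126) (nat_lit 143) (nat_lit 4) (nat_lit 8) (nat_lit 11) L3964 (by decide +kernel)
theorem L3966 : W_49 (nat_lit 11) (nat_lit 0x4000400020001200190004000000000000000000000000000) (nat_lit 0x0) (nat_lit 0x2f001b0001c0004000900060001800080004000000000000000000) := T_49 (nat_lit 195) (nat_lit 211) (nat_lit 5) (nat_lit 8) (nat_lit 8) L3965 (by decide +kernel)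
theorem L3967 : W_49 (nat_lit 12) (nat_lit 0x4000400020001200090004000000000000000000000000000) (nat_lit 0x0) (nat_lit 0x2f001b0001c0004000900160009800080004000000000000000000) := T_49 (nat_lit 128) (nat_lit 111) (nat_lit 6) (nat_lit 8) (nat_lit 10) L3966 (by decide +kernel)
theorem L3968 : W_49 (nat_lit 13) (nat_lit 0x400020001200090004000000000000000000000000000) (nat_lit 0x0) (nat_lit 0x2f001f0003c0004000900160009800080004000000000000000000) := T_49 (nat_lit 194) (nat_lit 177) (nat_lit 5) (nat_lit 8) (nat_lit 7) L3967 (by decide +kernel)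
theorem L3969 : W_49 (nat_lit 15) (nat_lit 0x400020001200080004000000000000000000000000000) (nat_lit 0x0) (nat_lit 0x4005e003f001fc003e004f8009c017e039f003f801fc00380014000000000) := Q_49 (nat_lit 124) (C_49 L3448 (C_49 L3890 (C_49 L3748 (C_49 L3920 (C_49 L3949 (C_49 L3728 (C_49 L3956 (C_49 L3854 (C_49 L3299 (C_49 L3968 N_49)))))))))) (by decide +kernel)
theorem L3970 : W_49 (nat_lit 16) (nat_lit 0x400020001200080000000000000000000000000000000) (nat_lit 0x0) (nat_lit 0x4005e003f001fc003e004f8009c017e03df01ff803fe01780014000000000) := Q_49 (nat_lit 110) (C_49 L3181 (C_49 L3399 (C_49 L3915 (C_49 L3969 N_49)))) (by decide +kernel)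
theorem L3971 : W_49 (nat_lit 4) (nat_lit 0x4800200016000a0000000000000000000000000000000) (nat_lit 0x0) (nat_lit 0x5800300048000000000000000000000000000000000000000) := T_49 (nat_lit 177) (nat_lit 194) (nat_lit 5) (nat_lit 8) (nat_lit 7) L2559 (by decide +kernel)
theorem L3972 : W_49 (nat_lit 2) (nat_lit 0x10005800200016000a0000000000000000000000000000000) (nat_lit 0x0) (nat_lit 0x4800200000000000000000000000000000000000000000000) := D_49 (nat_lit 177) (nat_lit 194) (nat_lit 191) (nat_lit 5) (nat_lit 8) (nat_lit 7) (nat_lit 1) (nat_lit 8) (nat_lit 10) (by decide +kernel)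
theorem L3973 : W_49 (nat_lit 3) (nat_lit 0x10004800200016000a0000000000000000000000000000000) (nat_lit 0x0) (nat_lit 0x4800300008000000000000000000000000000000000000000) := T_49 (nat_lit 176) (nat_lit 159) (nat_lit 5) (nat_lit 6) (nat_lit 7) L3972 (by decide +kernel)
theorem L3974 : W_49 (nat_lit 4) (nat_lit 0x4800200016000a0000000000000000000000000000000) (nat_lit 0x0) (nat_lit 0x580030000c000000000000000000000000000000000000000) := T_49 (nat_lit 192) (nat_lit 158) (nat_lit 6) (nat_lit 5) (nat_lit 11) L3973 (by decide +kernel)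
theorem L3975 : W_49 (nat_lit 4) (nat_lit 0x4800200016000a0000000000000000000000000000000) (nat_lit 0x0) (nat_lit 0x180030004c000000000000000000000000000000000000000) := T_49 (nat_lit 192) (nat_lit 158) (nat_lit 6) (nat_lit 5) (nat_lit 11) L2561 (by decide +kernel)
theorem L3976 : W_49 (nat_lit 4) (nat_lit 0x4800200016000a0000000000000000000000000000000) (nat_lit 0x0) (nat_lit 0x1000000004000000110009000080000000000000000000000) := T_49 (nat_lit 128) (nat_lit 111) (nat_lit 6) (nat_lit 8) (nat_lit 10) L2563 (by decide +kernel)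
theorem L3977 : W_49 (nat_lit 2) (nat_lit 0x7800240016000a0000000000000000000000000000000) (nat_lit 0x0) (nat_lit 0x8000000000001000080000000000000000000000) := D_49 (nat_lit 108) (nat_lit 91) (nat_lit 159) (nat_lit 5) (nat_lit 6) (nat_lit 5) (nat_lit 5) (nat_lit 6) (nat_lit 6) (by decide +kernel)
theorem L3978 : W_49 (nat_lit 3) (nat_lit 0x7800200016000a0000000000000000000000000000000) (nat_lit 0x0) (nat_lit 0xe000000000001000080000000000000000000000) := T_49 (nat_lit 158) (nat_lit 157) (nat_lit 0) (nat_lit 8) (nat_lit 10) L3977 (by decide +kernel)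
theorem L3979 : W_49 (nat_lit 4) (nat_lit 0x6800200016000a0000000000000000000000000000000) (nat_lit 0x0) (nat_lit 0x10004e000000000001000080000000000000000000000) := T_49 (nat_lit 176) (nat_lit 162) (nat_lit 2) (nat_lit 5) (nat_lit 10) L3978 (by decide +kernel)
theorem L3980 : W_49 (nat_lit 5) (nat_lit 0x4800200016000a0000000000000000000000000000000) (nat_lit 0x0) (nat_lit 0x400030004e000000000001000080000000000000000000000) := T_49 (nat_lit 177) (nat_lit 194) (nat_lit 5) (nat_lit 8) (nat_lit 7) L3979 (by decide +kernel)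
theorem L3981 : W_49 (nat_lit 6) (nat_lit 0x4000200016000a0000000000000000000000000000000) (nat_lit 0x0) (nat_lit 0x580038004e000000110009000080000000000000000000000) := Q_49 (nat_lit 175) (C_49 L3971 (C_49 L3974 (C_49 L3975 (C_49 L3976 (C_49 L3980 N_49))))) (by decide +kernel)
theorem L3982 : W_49 (nat_lit 2) (nat_lit 0x6000200016000b00018001c0000000000000000000000) (nat_lit 0x0) (nat_lit 0x600200000000000000000000000) := D_49 (nat_lit 106) (nat_lit 105) (nat_lit 93) (nat_lit 2) (nat_lit 3) (nat_lit 6) (nat_lit 1) (nat_lit 8) (nat_lit 5) (by decide +kernel)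
theorem L3983 : W_49 (nat_lit 3) (nat_lit 0x6000200016000b00018000c0000000000000000000000) (nat_lit 0x0) (nat_lit 0x600300008000000000000000000) := T_49 (nat_lit 92) (nat_lit 75) (nat_lit 6) (nat_lit 6) (nat_lit 8) L3982 (by decide +kernel)
theorem L3984 : W_49 (nat_lit 4) (nat_lit 0x6000200016000b00008000c0000000000000000000000) (nat_lit 0x0) (nat_lit 0x4000000000001600300008000000000000000000) := T_49 (nat_lit 108) (nat_lit 158) (nat_lit 6) (nat_lit 5) (nat_lit 9) L3983 (by decide +kernel)
theorem L3985 : W_49 (nat_lit 5) (nat_lit 0x6000200016000b0000800040000000000000000000000) (nat_lit 0x0) (nat_lit 0x400000000000160038000c000000000000000000) := T_49 (nat_lit 91) (nat_lit 74) (nat_lit 6) (nat_lit 5) (nat_lit 8) L3984 (by decide +kernel)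
theorem L3986 : W_49 (nat_lit 6) (nat_lit 0x6000200016000b0000800000000000000000000000000) (nat_lit 0x0) (nat_lit 0x40000000000016003c000e000000000000000000) := T_49 (nat_lit 90) (nat_lit 73) (nat_lit 7) (nat_lit 5) (nat_lit 4) L3985 (by decide +kernel)
theorem L3987 : W_49 (nat_lit 7) (nat_lit 0x4000200016000b0000800000000000000000000000000) (nat_lit 0x0) (nat_lit 0x40002000040000000000016003c000e000000000000000000) := T_49 (nat_lit 177) (nat_lit 194) (nat_lit 5) (nat_lit 8) (nat_lit 7) L3986 (by decide +kernel)
theorem L3988 : W_49 (nat_lit 2) (nat_lit 0x7800200016000b0000800000000000000000000000000) (nat_lit 0x0) (nat_lit 0x1800000004000000000000000000000000000000000000000) := D_49 (nat_lit 192) (nat_lit 191) (nat_lit 158) (nat_lit 1) (nat_lit 8) (nat_lit 10) (nat_lit 6) (nat_lit 5) (nat_lit 11) (by decide +kernel)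
theorem L3989 : W_49 (nat_lit 3) (nat_lit 0x7000200016000b0000800000000000000000000000000) (nat_lit 0x0) (nat_lit 0x1800080044000000000000000000000000000000000000000) := T_49 (nat_lit 175) (nat_lit 162) (nat_lit 2) (nat_lit 5) (nat_lit 10) L3988 (by decide +kernel)
theorem L3990 : W_49 (nat_lit 4) (nat_lit 0x5000200016000b0000800000000000000000000000000) (nat_lit 0x0) (nat_lit 0x5800280044000000000000000000000000000000000000000) := T_49 (nat_lit 177) (nat_lit 194) (nat_lit 5) (nat_lit 8) (nat_lit 7) L3989 (by decide +kernel)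
theorem L3991 : W_49 (nat_lit 5) (nat_lit 0x4000200016000b0000800000000000000000000000000) (nat_lit 0x0) (nat_lit 0x580038004c000000000000000000000000000000000000000) := T_49 (nat_lit 176) (nat_lit 159) (nat_lit 4) (nat_lit 6) (nat_lit 10) L3990 (by decide +kernel)
theorem L3992 : W_49 (nat_lit 8) (nat_lit 0x4000200016000b0000000000000000000000000000000) (nat_lit 0x0) (nat_lit 0x580038004c000000000001e003c000e000000000000000000) := Q_49 (nat_lit 107) (C_49 L2557 (C_49 L3987 (C_49 L3991 N_49))) (by decide +kernel)
theorem L3993 : W_49 (nat_lit 2) (nat_lit 0x6000200016000f0000800000000000000000000000000) (nat_lit 0x0) (nat_lit 0x100008000000000000000040000000000000000000000) := D_49 (nat_lit 159) (nat_lit 176) (nat_lit 90) (nat_lit 4) (nat_lit 6) (nat_lit 10) (nat_lit 7) (nat_lit 5) (nat_lit 5) (by decide +kernel)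
theorem L3994 : W_49 (nat_lit 3) (nat_lit 0x6000200016000f0000000000000000000000000000000) (nat_lit 0x0) (nat_lit 0x100008000000000000c00040000000000000000000000) := T_49 (nat_lit 107) (nat_lit 106) (nat_lit 0) (nat_lit 8) (nat_lit 7) L3993 (by decide +kernel)
theorem L3995 : W_49 (nat_lit 4) (nat_lit 0x6000200016000b0000000000000000000000000000000) (nat_lit 0x0) (nat_lit 0x100008000100040000c00040000000000000000000000) := T_49 (nat_lit 126) (nat_lit 140) (nat_lit 1) (nat_lit 8) (nat_lit 7) L3994 (by decide +kernel)
theorem L3996 : W_49 (nat_lit 5) (nat_lit 0x4000200016000b0000000000000000000000000000000) (nat_lit 0x0) (nat_lit 0x4000300008000100040000c00040000000000000000000000) := T_49 (nat_lit 177) (nat_lit 194) (nat_lit 5) (nat_lit 8) (nat_lit 7) L3995 (by decide +kernel)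
theorem L3997 : W_49 (nat_lit 4) (nat_lit 0x4000200016000b0000000000000000000000000000000) (nat_lit 0x0) (nat_lit 0x100008000100040000c00040000000000000000000000) := T_49 (nat_lit 126) (nat_lit 140) (nat_lit 1) (nat_lit 8) (nat_lit 7) L2575 (by decide +kernel)
theorem L3998 : W_49 (nat_lit 11) (nat_lit 0x4000200016000b0000000000000000000000000000000) (nat_lit 0x0) (nat_lit 0x30003c000780010004000dc000c0006000000000000000000) := T_49 (nat_lit 126) (nat_lit 140) (nat_lit 1) (nat_lit 8) (nat_lit 7) L2573 (by decide +kernel)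
theorem L3999 : W_49 (nat_lit 2) (nat_lit 0x4000200016000f0000800000000000000000000000000) (nat_lit 0x0) (nat_lit 0x8000000000000000040002000000000000000000) := D_49 (nat_lit 90) (nat_lit 73) (nat_lit 159) (nat_lit 7) (nat_lit 5) (nat_lit 4) (nat_lit 7) (nat_lit 5) (nat_lit 5) (by decide +kernel)
theorem L4000 : W_49 (nat_lit 3) (nat_lit 0x4000200016000f0000000000000000000000000000000) (nat_lit 0x0) (nat_lit 0x8000000000000c00040002000000000000000000) := T_49 (nat_lit 107) (nat_lit 106) (nat_lit 0) (nat_lit 8) (nat_lit 7) L3999 (by decide +kernel)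
theorem L4001 : W_49 (nat_lit 4) (nat_lit 0x4000200016000b0000000000000000000000000000000) (nat_lit 0x0) (nat_lit 0x8000100040000c00040002000000000000000000) := T_49 (nat_lit 126) (nat_lit 140) (nat_lit 1) (nat_lit 8) (nat_lit 7) L4000 (by decide +kernel)
theorem L4002 : W_49 (nat_lit 2) (nat_lit 0x7800200016000f0000000000000000000000000000000) (nat_lit 0x0) (nat_lit 0x1800000008000000000000000000000000000000000000000) := D_49 (nat_lit 192) (nat_lit 191) (nat_lit 159) (nat_lit 1) (nat_lit 8) (nat_lit 10) (nat_lit 5) (nat_lit 6) (nat_lit 7) (by decide +kernel)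
theorem L4003 : W_49 (nat_lit 3) (nat_lit 0x6800200016000f0000000000000000000000000000000) (nat_lit 0x0) (nat_lit 0x1800100048000000000000000000000000000000000000000) := T_49 (nat_lit 176) (nat_lit 162) (nat_lit 2) (nat_lit 5) (nat_lit 10) L4002 (by decide +kernel)
theorem L4004 : W_49 (nat_lit 4) (nat_lit 0x4800200016000f0000000000000000000000000000000) (nat_lit 0x0) (nat_lit 0x5800300048000000000000000000000000000000000000000) := T_49 (nat_lit 177) (nat_lit 194) (nat_lit 5) (nat_lit 8) (nat_lit 7) L4003 (by decide +kernel)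
theorem L4005 : W_49 (nat_lit 5) (nat_lit 0x4800200016000b0000000000000000000000000000000) (nat_lit 0x0) (nat_lit 0x5800300048000100040000000000000000000000000000000) := T_49 (nat_lit 126) (nat_lit 140) (nat_lit 1) (nat_lit 8) (nat_lit 7) L4004 (by decide +kernel)
theorem L4006 : W_49 (nat_lit 2) (nat_lit 0x5c00240016000f0000000000000000000000000000000) (nat_lit 0x0) (nat_lit 0x4000200040000000000000000000000000000000000000000) := D_49 (nat_lit 177) (nat_lit 162) (nat_lit 194) (nat_lit 2) (nat_lit 5) (nat_lit 10) (nat_lit 5) (nat_lit 8) (nat_lit 7) (by decide +kernel)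
theorem L4007 : W_49 (nat_lit 3) (nat_lit 0x4c00240016000f0000000000000000000000000000000) (nat_lit 0x0) (nat_lit 0x6000300040000000000000000000000000000000000000000) := T_49 (nat_lit 176) (nat_lit 193) (nat_lit 7) (nat_lit 5) (nat_lit 7) L4006 (by decide +kernel)
theorem L4008 : W_49 (nat_lit 4) (nat_lit 0x4800240016000f0000000000000000000000000000000) (nat_lit 0x0) (nat_lit 0x6800340040000000000000000000000000000000000000000) := T_49 (nat_lit 174) (nat_lit 191) (nat_lit 5) (nat_lit 5) (nat_lit 7) L4007 (by decide +kernel)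
theorem L4009 : W_49 (nat_lit 5) (nat_lit 0x4800200016000f0000000000000000000000000000000) (nat_lit 0x0) (nat_lit 0x6800340044000000000001000000000000000000000000000) := T_49 (nat_lit 158) (nat_lit 108) (nat_lit 6) (nat_lit 5) (nat_lit 10) L4008 (by decide +kernel)
theorem L4010 : W_49 (nat_lit 6) (nat_lit 0x4800200016000b0000000000000000000000000000000) (nat_lit 0x0) (nat_lit 0x6800340044000100040001000000000000000000000000000) := T_49 (nat_lit 126) (nat_lit 140) (nat_lit 1) (nat_lit 8) (nat_lit 7) L4009 (by decide +kernel)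
theorem L4011 : W_49 (nat_lit 7) (nat_lit 0x4000200016000b0000000000000000000000000000000) (nat_lit 0x0) (nat_lit 0x78003c004c000100040001000000000000000000000000000) := Q_49 (nat_lit 175) (C_49 L2564 (C_49 L4005 (C_49 L4010 N_49))) (by decide +kernel)
theorem L4012 : W_49 (nat_lit 12) (nat_lit 0x4000200016000a0000000000000000000000000000000) (nat_lit 0x0) (nat_lit 0x78003c004f80010005000de003c000e000000000000000000) := Q_49 (nat_lit 124) (C_49 L3992 (C_49 L3996 (C_49 L3997 (C_49 L3998 (C_49 L4001 (C_49 L4011 N_49)))))) (by decide +kernel)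
theorem L4013 : W_49 (nat_lit 13) (nat_lit 0x400020001600080000000000000000000000000000000) (nat_lit 0x0) (nat_lit 0x78003c004f80018017000de003c000e000000000000000000) := Q_49 (nat_lit 125) (C_49 L3981 (C_49 L4012 (C_49 L2556 (C_49 L2554 N_49)))) (by decide +kernel)
theorem L4014 : W_49 (nat_lit 14) (nat_lit 0x400020001200080000000000000000000000000000000) (nat_lit 0x0) (nat_lit 0x78003c004f800d8017c00de003c000e000000000000000000) := Q_49 (nat_lit 142) (C_49 L4013 (C_49 L2446 (C_49 L2441 N_49))) (by decide +kernel)
theorem L4015 : W_49 (nat_lit 2) (nat_lit 0x280008000400020001a00580000000000000000000000000000000) (nat_lit 0x0) (nat_lit 0x5000100000000000000000000000000000000000000000000000000000) := D_49 (nat_lit 212) (nat_lit 228) (nat_lit 230) (nat_lit 5) (nat_lit 8) (nat_lit 9) (nat_lit 7) (nat_lit 8) (nat_lit 9) (by decide +kernel)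
theorem L4016 : W_49 (nat_lit 3) (nat_lit 0x80008000400020001a00580000000000000000000000000000000) (nat_lit 0x0) (nat_lit 0x5000300010000000000000000000000000000000000000000000000000) := T_49 (nat_lit 213) (nat_lit 196) (nat_lit 7) (nat_lit 8) (nat_lit 8) L4015 (by decide +kernel)
theorem L4017 : W_49 (nat_lit 4) (nat_lit 0x8000400020001a00580000000000000000000000000000000) (nat_lit 0x0) (nat_lit 0x5000380014000000000000000000000000000000000000000000000000) := T_49 (nat_lit 211) (nat_lit 194) (nat_lit 5) (nat_lit 8) (nat_lit 8) L4016 (by decide +kernel)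
theorem L4018 : W_49 (nat_lit 5) (nat_lit 0x400020001a00580000000000000000000000000000000) (nat_lit 0x0) (nat_lit 0x500038001c000000000000000040000000000000000000000000000000) := T_49 (nat_lit 195) (nat_lit 126) (nat_lit 4) (nat_lit 8) (nat_lit 11) L4017 (by decide +kernel)
theorem L4019 : W_49 (nat_lit 6) (nat_lit 0x400020001a00180000000000000000000000000000000) (nat_lit 0x0) (nat_lit 0x500038001c000000000000000640000000000000000000000000000000) := T_49 (nat_lit 130) (nat_lit 129) (nat_lit 1) (nat_lit 11) (nat_lit 7) L4018 (by decide +kernel)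
theorem L4020 : W_49 (nat_lit 7) (nat_lit 0x400020001200180000000000000000000000000000000) (nat_lit 0x0) (nat_lit 0x500038001c000000000000c00640000000000000000000000000000000) := T_49 (nat_lit 143) (nat_lit 142) (nat_lit 2) (nat_lit 5) (nat_lit 8) L4019 (by decide +kernel)
theorem L4021 : W_49 (nat_lit 8) (nat_lit 0x400020001200080000000000000000000000000000000) (nat_lit 0x0) (nat_lit 0x500038001c000000000000c00740008000000000000000000000000000) := T_49 (nat_lit 128) (nat_lit 111) (nat_lit 6) (nat_lit 8) (nat_lit 10) L4020 (by decide +kernel)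
theorem L4022 : W_49 (nat_lit 17) (nat_lit 0x400020001000080000000000000000000000000000000) (nat_lit 0x0) (nat_lit 0x1c005e00ffc01fe003f004f800fc077e03df01ff803fe0178001c000000000) := Q_49 (nat_lit 141) (C_49 L2545 (C_49 L2953 (C_49 L2965 (C_49 L2969 (C_49 L3180 (C_49 L3970 (C_49 L4014 (C_49 L4021 N_49)))))))) (by decide +kernel)
theorem L4023 : W_49 (nat_lit 2) (nat_lit 0x8000400020001800080000000000000000000000000000000) (nat_lit 0x0) (nat_lit 0x80004000200000000000000000000000000000000000000000000) := D_49 (nat_lit 194) (nat_lit 177) (nat_lit 211) (nat_lit 5) (nat_lit 8) (nat_lit 7) (nat_lit 5) (nat_lit 8) (nat_lit 8) (by decide +kernel)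
theorem L4024 : W_49 (nat_lit 3) (nat_lit 0x400020001800080000000000000000000000000000000) (nat_lit 0x0) (nat_lit 0x8000c000200000000000040000000000000000000000000000000) := T_49 (nat_lit 195) (nat_lit 126) (nat_lit 4) (nat_lit 8) (nat_lit 11) L4023 (by decide +kernel)
theorem L4025 : W_49 (nat_lit 2) (nat_lit 0x16001a0009800580000000000000000000000000000000) (nat_lit 0x0) (nat_lit 0x20002000000004000000000000000000000000000000000000) := D_49 (nat_lit 197) (nat_lit 181) (nat_lit 146) (nat_lit 5) (nat_lit 11) (nat_lit 7) (nat_lit 6) (nat_lit 10) (nat_lit 11) (by decide +kernel)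
theorem L4026 : W_49 (nat_lit 3) (nat_lit 0x16001a0001800580000000000000000000000000000000) (nat_lit 0x0) (nat_lit 0x2000200000000c000000020000000000000000000000000000) := T_49 (nat_lit 147) (nat_lit 113) (nat_lit 5) (nat_lit 11) (nat_lit 6) L4025 (by decide +kernel)
theorem L4027 : W_49 (nat_lit 4) (nat_lit 0x6001a0001800580000000000000000000000000000000) (nat_lit 0x0) (nat_lit 0x2000380000000c000000020000000000000000000000000000) := T_49 (nat_lit 180) (nat_lit 179) (nat_lit 2) (nat_lit 7) (nat_lit 10) L4026 (by decide +kernel)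
theorem L4028 : W_49 (nat_lit 5) (nat_lit 0x6001a0001800180000000000000000000000000000000) (nat_lit 0x0) (nat_lit 0x2000380000000c000600020000000000000000000000000000) := T_49 (nat_lit 130) (nat_lit 129) (nat_lit 1) (nat_lit 11) (nat_lit 7) L4027 (by decide +kernel)
theorem L4029 : W_49 (nat_lit 6) (nat_lit 0x6001a0001800080000000000000000000000000000000) (nat_lit 0x0) (nat_lit 0x2000380000000c000700028000000000000000000000000000) := T_49 (nat_lit 128) (nat_lit 111) (nat_lit 6) (nat_lit 8) (nat_lit 10) L4028 (by decide +kernel)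
theorem L4030 : W_49 (nat_lit 7) (nat_lit 0x600120001800080000000000000000000000000000000) (nat_lit 0x0) (nat_lit 0x200038000c000c000700028000000000000000000000000000) := T_49 (nat_lit 163) (nat_lit 162) (nat_lit 1) (nat_lit 11) (nat_lit 9) L4029 (by decide +kernel)
theorem L4031 : W_49 (nat_lit 8) (nat_lit 0x400120001800080000000000000000000000000000000) (nat_lit 0x0) (nat_lit 0x24003a000c000c000700028000000000000000000000000000) := T_49 (nat_lit 177) (nat_lit 194) (nat_lit 5) (nat_lit 8) (nat_lit 7) L4030 (by decide +kernel)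
theorem L4032 : W_49 (nat_lit 2) (nat_lit 0x2e80160001800080000000000000000000000000000000) (nat_lit 0x0) (nat_lit 0x5000200000000000000000000000000000000000000000) := D_49 (nat_lit 180) (nat_lit 165) (nat_lit 182) (nat_lit 2) (nat_lit 8) (nat_lit 10) (nat_lit 0) (nat_lit 12) (nat_lit 10) (by decide +kernel)
theorem L4033 : W_49 (nat_lit 3) (nat_lit 0x2680160001800080000000000000000000000000000000) (nat_lit 0x0) (nat_lit 0x5800200000000000004000000000000000000000000000) := T_49 (nat_lit 179) (nat_lit 110) (nat_lit 7) (nat_lit 8) (nat_lit 6) L4032 (by decide +kernel)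
theorem L4034 : W_49 (nat_lit 4) (nat_lit 0x2600160001800080000000000000000000000000000000) (nat_lit 0x0) (nat_lit 0x5980200000000000004000000000000000000000000000) := T_49 (nat_lit 175) (nat_lit 176) (nat_lit 2) (nat_lit 5) (nat_lit 10) L4033 (by decide +kernel)
theorem L4035 : W_49 (nat_lit 5) (nat_lit 0x2400160001800080000000000000000000000000000000) (nat_lit 0x0) (nat_lit 0x4005b80200000000000004000000000000000000000000000) := T_49 (nat_lit 177) (nat_lit 194) (nat_lit 5) (nat_lit 8) (nat_lit 7) L4034 (by decide +kernel)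
theorem L4036 : W_49 (nat_lit 6) (nat_lit 0x2400120001800080000000000000000000000000000000) (nat_lit 0x0) (nat_lit 0x4005b802c0000000000004000000000000000000000000000) := T_49 (nat_lit 162) (nat_lit 163) (nat_lit 0) (nat_lit 11) (nat_lit 9) L4035 (by decide +kernel)
theorem L4037 : W_49 (nat_lit 2) (nat_lit 0x1800040002600120009800080000000000000000000000000000000) (nat_lit 0x0) (nat_lit 0x200010000800000000000000000000000000000000) := D_49 (nat_lit 148) (nat_lit 131) (nat_lit 165) (nat_lit 6) (nat_lit 11) (nat_lit 11) (nat_lit 6) (nat_lit 11) (nat_lit 12) (by decide +kernel)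
theorem L4038 : W_49 (nat_lit 3) (nat_lit 0x1800040002600120001800080000000000000000000000000000000) (nat_lit 0x0) (nat_lit 0x80000000200018000800000000000000000000000000000000) := T_49 (nat_lit 147) (nat_lit 199) (nat_lit 7) (nat_lit 11) (nat_lit 8) L4037 (by decide +kernel)
theorem L4039 : W_49 (nat_lit 4) (nat_lit 0x800040002600120001800080000000000000000000000000000000) (nat_lit 0x0) (nat_lit 0x20001000080000000200018000800000000000000000000000000000000) := T_49 (nat_lit 216) (nat_lit 233) (nat_lit 7) (nat_lit 11) (nat_lit 9) L4038 (by decide +kernel)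
theorem L4040 : W_49 (nat_lit 5) (nat_lit 0x800040002400120001800080000000000000000000000000000000) (nat_lit 0x0) (nat_lit 0x20001000084000200200018000800000000000000000000000000000000) := T_49 (nat_lit 177) (nat_lit 194) (nat_lit 5) (nat_lit 8) (nat_lit 7) L4039 (by decide +kernel)
theorem L4041 : W_49 (nat_lit 2) (nat_lit 0x1800040002400320009800080000000000000000000000000000000) (nat_lit 0x0) (nat_lit 0x8000400020000000000000000000000000000000000000000000000000) := D_49 (nat_lit 214) (nat_lit 197) (nat_lit 231) (nat_lit 5) (nat_lit 11) (nat_lit 8) (nat_lit 5) (nat_lit 11) (nat_lit 9) (by decide +kernel)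
theorem L4042 : W_49 (nat_lit 3) (nat_lit 0x1800040002400320001800080000000000000000000000000000000) (nat_lit 0x0) (nat_lit 0x80004000a0000000000008000000000000000000000000000000000000) := T_49 (nat_lit 147) (nat_lit 199) (nat_lit 7) (nat_lit 11) (nat_lit 8) L4041 (by decide +kernel)
theorem L4043 : W_49 (nat_lit 4) (nat_lit 0x800040002400320001800080000000000000000000000000000000) (nat_lit 0x0) (nat_lit 0x280014000a0000000000008000000000000000000000000000000000000) := T_49 (nat_lit 216) (nat_lit 233) (nat_lit 7) (nat_lit 11) (nat_lit 9) L4042 (by decide +kernel)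
theorem L4044 : W_49 (nat_lit 5) (nat_lit 0x800040002400120001800080000000000000000000000000000000) (nat_lit 0x0) (nat_lit 0x280014000a0000000200018000000000000000000000000000000000000) := T_49 (nat_lit 165) (nat_lit 148) (nat_lit 6) (nat_lit 11) (nat_lit 12) L4043 (by decide +kernel)
theorem L4045 : W_49 (nat_lit 2) (nat_lit 0x10000800040002600320001800080000000000000000000000000000000) (nat_lit 0x0) (nat_lit 0x100008000400000000000000000000000000000000000000000000000000000) := D_49 (nat_lit 231) (nat_lit 248) (nat_lit 214) (nat_lit 5) (nat_lit 11) (nat_lit 10) (nat_lit 5) (nat_lit 11) (nat_lit 9) (by decide +kernel)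
theorem L4046 : W_49 (nat_lit 3) (nat_lit 0x800040002600320001800080000000000000000000000000000000) (nat_lit 0x0) (nat_lit 0x100018000400000004000000000000000000000000000000000000000000000) := T_49 (nat_lit 232) (nat_lit 182) (nat_lit 6) (nat_lit 11) (nat_lit 13) L4045 (by decide +kernel)
theorem L4047 : W_49 (nat_lit 4) (nat_lit 0x800040002400320001800080000000000000000000000000000000) (nat_lit 0x0) (nat_lit 0x100018000400004004200000000000000000000000000000000000000000000) := T_49 (nat_lit 177) (nat_lit 194) (nat_lit 5) (nat_lit 8) (nat_lit 7) L4046 (by decide +kernel)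
theorem L4048 : W_49 (nat_lit 5) (nat_lit 0x800040002400120001800080000000000000000000000000000000) (nat_lit 0x0) (nat_lit 0x100018000400004004200200010000000000000000000000000000000000000) := T_49 (nat_lit 165) (nat_lit 148) (nat_lit 6) (nat_lit 11) (nat_lit 12) L4047 (by decide +kernel)
theorem L4049 : W_49 (nat_lit 2) (nat_lit 0x1800040002600120009800080000000000000000000000000000000) (nat_lit 0x0) (nat_lit 0x8000400020000000000000000000000000000000000000000000000000) := D_49 (nat_lit 214) (nat_lit 197) (nat_lit 231) (nat_lit 5) (nat_lit 11) (nat_lit 8) (nat_lit 5) (nat_lit 11) (nat_lit 9) (by decide +kernel)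
theorem L4050 : W_49 (nat_lit 3) (nat_lit 0x1800040002600120001800080000000000000000000000000000000) (nat_lit 0x0) (nat_lit 0x80004000a0000000000008000000000000000000000000000000000000) := T_49 (nat_lit 147) (nat_lit 199) (nat_lit 7) (nat_lit 11) (nat_lit 8) L4049 (by decide +kernel)
theorem L4051 : W_49 (nat_lit 4) (nat_lit 0x800040002600120001800080000000000000000000000000000000) (nat_lit 0x0) (nat_lit 0x280014000a0000000000008000000000000000000000000000000000000) := T_49 (nat_lit 216) (nat_lit 233) (nat_lit 7) (nat_lit 11) (nat_lit 9) L4050 (by decide +kernel)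
theorem L4052 : W_49 (nat_lit 5) (nat_lit 0x800040002400120001800080000000000000000000000000000000) (nat_lit 0x0) (nat_lit 0x280014000a4000200000008000000000000000000000000000000000000) := T_49 (nat_lit 177) (nat_lit 194) (nat_lit 5) (nat_lit 8) (nat_lit 7) L4051 (by decide +kernel)
theorem L4053 : W_49 (nat_lit 6) (nat_lit 0x40002400120001800080000000000000000000000000000000) (nat_lit 0x0) (nat_lit 0x100038001c000a4004200200018000800000000000000000000000000000000) := Q_49 (nat_lit 215) (C_49 L4040 (C_49 L4044 (C_49 L4048 (C_49 L4052 N_49)))) (by decide +kernel)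
theorem L4054 : W_49 (nat_lit 2) (nat_lit 0x100018000400024001a0001800080000000000000000000000000000000) (nat_lit 0x0) (nat_lit 0x4000200010000000000000000000000000000000000000) := D_49 (nat_lit 165) (nat_lit 148) (nat_lit 182) (nat_lit 6) (nat_lit 11) (nat_lit 12) (nat_lit 6) (nat_lit 11) (nat_lit 13) (by decide +kernel)
theorem L4055 : W_49 (nat_lit 3) (nat_lit 0x18000400024001a0001800080000000000000000000000000000000) (nat_lit 0x0) (nat_lit 0x10000000000005000200010000000000000000000000000000000000000) := T_49 (nat_lit 232) (nat_lit 180) (nat_lit 4) (nat_lit 11) (nat_lit 13) L4054 (by decide +kernel)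
theorem L4056 : W_49 (nat_lit 4) (nat_lit 0x8000400024001a0001800080000000000000000000000000000000) (nat_lit 0x0) (nat_lit 0x30001000000005000200010000000000000000000000000000000000000) := T_49 (nat_lit 216) (nat_lit 233) (nat_lit 7) (nat_lit 11) (nat_lit 9) L4055 (by decide +kernel)
theorem L4057 : W_49 (nat_lit 5) (nat_lit 0x800040002400120001800080000000000000000000000000000000) (nat_lit 0x0) (nat_lit 0x30001000000005000280014000000000000000000000000000000000000) := T_49 (nat_lit 163) (nat_lit 146) (nat_lit 4) (nat_lit 11) (nat_lit 12) L4056 (by decide +kernel)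
theorem L4058 : W_49 (nat_lit 2) (nat_lit 0x1800040002400120009800080000000000000000000000000000000) (nat_lit 0x0) (nat_lit 0x8000400020000000000000000000000000000000000000000000000000) := D_49 (nat_lit 214) (nat_lit 197) (nat_lit 231) (nat_lit 5) (nat_lit 11) (nat_lit 8) (nat_lit 5) (nat_lit 11) (nat_lit 9) (by decide +kernel)
theorem L4059 : W_49 (nat_lit 3) (nat_lit 0x1800040002400120001800080000000000000000000000000000000) (nat_lit 0x0) (nat_lit 0x80004000a0000000000008000000000000000000000000000000000000) := T_49 (nat_lit 147) (nat_lit 199) (nat_lit 7) (nat_lit 11) (nat_lit 8) L4058 (by decide +kernel)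
theorem L4060 : W_49 (nat_lit 4) (nat_lit 0x800040002400120001800080000000000000000000000000000000) (nat_lit 0x0) (nat_lit 0x280014000a0000000000008000000000000000000000000000000000000) := T_49 (nat_lit 216) (nat_lit 233) (nat_lit 7) (nat_lit 11) (nat_lit 9) L4059 (by decide +kernel)
theorem L4061 : W_49 (nat_lit 2) (nat_lit 0x8000400024003a0001800080000000000000000000000000000000) (nat_lit 0x0) (nat_lit 0x10000000000001800000000000000000000000000000000000000000000) := D_49 (nat_lit 180) (nat_lit 179) (nat_lit 232) (nat_lit 2) (nat_lit 8) (nat_lit 10) (nat_lit 4) (nat_lit 11) (nat_lit 13) (by decide +kernel)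
theorem L4062 : W_49 (nat_lit 3) (nat_lit 0x8000400024001a0001800080000000000000000000000000000000) (nat_lit 0x0) (nat_lit 0x10000000000001800200010000000000000000000000000000000000000) := T_49 (nat_lit 165) (nat_lit 148) (nat_lit 6) (nat_lit 11) (nat_lit 12) L4061 (by decide +kernel)
theorem L4063 : W_49 (nat_lit 4) (nat_lit 0x800040002400120001800080000000000000000000000000000000) (nat_lit 0x0) (nat_lit 0x10000000000001800280014000000000000000000000000000000000000) := T_49 (nat_lit 163) (nat_lit 146) (nat_lit 4) (nat_lit 11) (nat_lit 12) L4062 (by decide +kernel)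
theorem L4064 : W_49 (nat_lit 6) (nat_lit 0x40002400120001800080000000000000000000000000000000) (nat_lit 0x0) (nat_lit 0x38001c000a000580028001c000000000000000000000000000000000000) := Q_49 (nat_lit 215) (C_49 L4044 (C_49 L4057 (C_49 L4060 (C_49 L4063 N_49)))) (by decide +kernel)
theorem L4065 : W_49 (nat_lit 2) (nat_lit 0x8000400026001a0001800080000000000000000000000000000000) (nat_lit 0x0) (nat_lit 0x10000000000001800000000000000000000000000000000000000000000) := D_49 (nat_lit 180) (nat_lit 179) (nat_lit 232) (nat_lit 2) (nat_lit 7) (nat_lit 10) (nat_lit 4) (nat_lit 11) (nat_lit 13) (by decide +kernel)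
theorem L4066 : W_49 (nat_lit 3) (nat_lit 0x800040002600120001800080000000000000000000000000000000) (nat_lit 0x0) (nat_lit 0x10000000000001800080004000000000000000000000000000000000000) := T_49 (nat_lit 163) (nat_lit 146) (nat_lit 4) (nat_lit 11) (nat_lit 12) L4065 (by decide +kernel)
theorem L4067 : W_49 (nat_lit 4) (nat_lit 0x800040002400120001800080000000000000000000000000000000) (nat_lit 0x0) (nat_lit 0x10000000004001a00080004000000000000000000000000000000000000) := T_49 (nat_lit 177) (nat_lit 194) (nat_lit 5) (nat_lit 8) (nat_lit 7) L4066 (by decide +kernel)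
theorem L4068 : W_49 (nat_lit 2) (nat_lit 0x1c0004000b6007a0021800080000000000000000000000000000000) (nat_lit 0x0) (nat_lit 0x180004000000000000000000000000000000000000000000000) := D_49 (nat_lit 199) (nat_lit 182) (nat_lit 200) (nat_lit 6) (nat_lit 12) (nat_lit 12) (nat_lit 5) (nat_lit 13) (nat_lit 8) (by decide +kernel)
theorem L4069 : W_49 (nat_lit 3) (nat_lit 0xc0004000b6007a0021800080000000000000000000000000000000) (nat_lit 0x0) (nat_lit 0x20001000180004000000000000000000000000000000000000000000000) := T_49 (nat_lit 216) (nat_lit 233) (nat_lit 7) (nat_lit 11) (nat_lit 9) L4068 (by decide +kernel)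
theorem L4070 : W_49 (nat_lit 4) (nat_lit 0xc0004000b6007a0001800080000000000000000000000000000000) (nat_lit 0x0) (nat_lit 0x20001000180004000000060000000000000000000000000000000000000) := T_49 (nat_lit 149) (nat_lit 150) (nat_lit 2) (nat_lit 10) (nat_lit 9) L4069 (by decide +kernel)
theorem L4071 : W_49 (nat_lit 5) (nat_lit 0xc000400036007a0001800080000000000000000000000000000000) (nat_lit 0x0) (nat_lit 0x2000100018001c000000060000000000000000000000000000000000000) := T_49 (nat_lit 183) (nat_lit 184) (nat_lit 3) (nat_lit 10) (nat_lit 9) L4070 (by decide +kernel)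
theorem L4072 : W_49 (nat_lit 6) (nat_lit 0x8000400036007a0001800080000000000000000000000000000000) (nat_lit 0x0) (nat_lit 0x2800140018001c000000060000000000000000000000000000000000000) := T_49 (nat_lit 214) (nat_lit 231) (nat_lit 5) (nat_lit 11) (nat_lit 9) L4071 (by decide +kernel)
theorem L4073 : W_49 (nat_lit 7) (nat_lit 0x8000400036003a0001800080000000000000000000000000000000) (nat_lit 0x0) (nat_lit 0x2800140018001c000c00060000000000000000000000000000000000000) := T_49 (nat_lit 166) (nat_lit 167) (nat_lit 1) (nat_lit 14) (nat_lit 9) L4072 (by decide +kernel)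
theorem L4074 : W_49 (nat_lit 8) (nat_lit 0x8000400034003a0001800080000000000000000000000000000000) (nat_lit 0x0) (nat_lit 0x2800140018401c200c00060000000000000000000000000000000000000) := T_49 (nat_lit 177) (nat_lit 194) (nat_lit 5) (nat_lit 8) (nat_lit 7) L4073 (by decide +kernel)
theorem L4075 : W_49 (nat_lit 9) (nat_lit 0x8000400024003a0001800080000000000000000000000000000000) (nat_lit 0x0) (nat_lit 0x2800140018401da00c00060000000000000000000000000000000000000) := T_49 (nat_lit 180) (nat_lit 179) (nat_lit 2) (nat_lit 8) (nat_lit 10) L4074 (by decide +kernel)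
theorem L4076 : W_49 (nat_lit 10) (nat_lit 0x8000400024001a0001800080000000000000000000000000000000) (nat_lit 0x0) (nat_lit 0x2800140018401da00e00070000000000000000000000000000000000000) := T_49 (nat_lit 165) (nat_lit 148) (nat_lit 6) (nat_lit 11) (nat_lit 12) L4075 (by decide +kernel)
theorem L4077 : W_49 (nat_lit 11) (nat_lit 0x800040002400120001800080000000000000000000000000000000) (nat_lit 0x0) (nat_lit 0x2800140018401da00e80074000000000000000000000000000000000000) := T_49 (nat_lit 163) (nat_lit 146) (nat_lit 4) (nat_lit 11) (nat_lit 12) L4076 (by decide +kernel)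
theorem L4078 : W_49 (nat_lit 12) (nat_lit 0x40002400120001800080000000000000000000000000000000) (nat_lit 0x0) (nat_lit 0x100038001c0018401da00e80074000000000000000000000000000000000000) := Q_49 (nat_lit 215) (C_49 L4063 (C_49 L4057 (C_49 L4048 (C_49 L4067 (C_49 L4077 N_49))))) (by decide +kernel)
theorem L4079 : W_49 (nat_lit 5) (nat_lit 0x40002400120001800080000000000000000000000000000000) (nat_lit 0x0) (nat_lit 0x38001c000a4001a0028001c000000000000000000000000000000000000) := Q_49 (nat_lit 215) (C_49 L4067 (C_49 L4063 (C_49 L4060 N_49))) (by decide +kernel)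
theorem L4080 : W_49 (nat_lit 5) (nat_lit 0x40002400120001800080000000000000000000000000000000) (nat_lit 0x0) (nat_lit 0x38001c000a4001a0008000c000000000000000000000000000000000000) := Q_49 (nat_lit 215) (C_49 L4060 (C_49 L4067 N_49)) (by decide +kernel)
theorem L4081 : W_49 (nat_lit 2) (nat_lit 0xc00040002e001a0011800080000000000000000000000000000000) (nat_lit 0x0) (nat_lit 0x20000000000008000800000000000000000000000000000000) := D_49 (nat_lit 147) (nat_lit 197) (nat_lit 131) (nat_lit 5) (nat_lit 11) (nat_lit 8) (nat_lit 6) (nat_lit 11) (nat_lit 11) (by decide +kernel)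
theorem L4082 : W_49 (nat_lit 3) (nat_lit 0x800040002e001a0011800080000000000000000000000000000000) (nat_lit 0x0) (nat_lit 0x8000400020000000000008000800000000000000000000000000000000) := T_49 (nat_lit 214) (nat_lit 231) (nat_lit 5) (nat_lit 11) (nat_lit 9) L4081 (by decide +kernel)
theorem L4083 : W_49 (nat_lit 4) (nat_lit 0x800040002e001a0001800080000000000000000000000000000000) (nat_lit 0x0) (nat_lit 0x8000400020000000200018000800000000000000000000000000000000) := T_49 (nat_lit 148) (nat_lit 165) (nat_lit 6) (nat_lit 11) (nat_lit 12) L4082 (by decide +kernel)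
theorem L4084 : W_49 (nat_lit 5) (nat_lit 0x8000400026001a0001800080000000000000000000000000000000) (nat_lit 0x0) (nat_lit 0x8000400020001800200018000800000000000000000000000000000000) := T_49 (nat_lit 179) (nat_lit 180) (nat_lit 2) (nat_lit 7) (nat_lit 10) L4083 (by decide +kernel)
theorem L4085 : W_49 (nat_lit 6) (nat_lit 0x800040002600120001800080000000000000000000000000000000) (nat_lit 0x0) (nat_lit 0x800040002000180028001c000800000000000000000000000000000000) := T_49 (nat_lit 163) (nat_lit 146) (nat_lit 4) (nat_lit 11) (nat_lit 12) L4084 (by decide +kernel)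
theorem L4086 : W_49 (nat_lit 7) (nat_lit 0x800040002400120001800080000000000000000000000000000000) (nat_lit 0x0) (nat_lit 0x8000400024001a0028001c000800000000000000000000000000000000) := T_49 (nat_lit 177) (nat_lit 194) (nat_lit 5) (nat_lit 8) (nat_lit 7) L4085 (by decide +kernel)
theorem L4087 : W_49 (nat_lit 8) (nat_lit 0x40002400120001800080000000000000000000000000000000) (nat_lit 0x0) (nat_lit 0x100038001c00024005a0028001c000800000000000000000000000000000000) := Q_49 (nat_lit 215) (C_49 L4057 (C_49 L4067 (C_49 L4048 (C_49 L4086 N_49)))) (by decide +kernel)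
theorem L4088 : W_49 (nat_lit 2) (nat_lit 0xc0002600120009800480000000000000000000000000000000) (nat_lit 0x0) (nat_lit 0x10000800040000000000000000000000000000) := D_49 (nat_lit 131) (nat_lit 114) (nat_lit 148) (nat_lit 6) (nat_lit 11) (nat_lit 10) (nat_lit 6) (nat_lit 11) (nat_lit 11) (by decide +kernel)
theorem L4089 : W_49 (nat_lit 3) (nat_lit 0xc0002600120009800080000000000000000000000000000000) (nat_lit 0x0) (nat_lit 0x4000000010000c00040000000000000000000000000000) := T_49 (nat_lit 130) (nat_lit 182) (nat_lit 7) (nat_lit 11) (nat_lit 7) L4088 (by decide +kernel)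
theorem L4090 : W_49 (nat_lit 4) (nat_lit 0x40002600120009800080000000000000000000000000000000) (nat_lit 0x0) (nat_lit 0x1000080004000000010000c00040000000000000000000000000000) := T_49 (nat_lit 199) (nat_lit 216) (nat_lit 7) (nat_lit 11) (nat_lit 8) L4089 (by decide +kernel)
theorem L4091 : W_49 (nat_lit 5) (nat_lit 0x40002400120009800080000000000000000000000000000000) (nat_lit 0x0) (nat_lit 0x1000084004200000010000c00040000000000000000000000000000) := T_49 (nat_lit 177) (nat_lit 194) (nat_lit 5) (nat_lit 8) (nat_lit 7) L4090 (by decide +kernel)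
theorem L4092 : W_49 (nat_lit 2) (nat_lit 0xc0002400120019800480000000000000000000000000000000) (nat_lit 0x0) (nat_lit 0x20001800000000000000000000000000000000000000000000) := D_49 (nat_lit 180) (nat_lit 197) (nat_lit 179) (nat_lit 5) (nat_lit 11) (nat_lit 7) (nat_lit 3) (nat_lit 8) (nat_lit 10) (by decide +kernel)
theorem L4093 : W_49 (nat_lit 3) (nat_lit 0xc0002400120019800080000000000000000000000000000000) (nat_lit 0x0) (nat_lit 0x20005800000000000400000000000000000000000000000000) := T_49 (nat_lit 130) (nat_lit 182) (nat_lit 7) (nat_lit 11) (nat_lit 7) L4092 (by decide +kernel)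
theorem L4094 : W_49 (nat_lit 4) (nat_lit 0x40002400120019800080000000000000000000000000000000) (nat_lit 0x0) (nat_lit 0x10000a0005800000000000400000000000000000000000000000000) := T_49 (nat_lit 199) (nat_lit 216) (nat_lit 7) (nat_lit 11) (nat_lit 8) L4093 (by decide +kernel)
theorem L4095 : W_49 (nat_lit 5) (nat_lit 0x40002400120009800080000000000000000000000000000000) (nat_lit 0x0) (nat_lit 0x10000a0005800000010000c00000000000000000000000000000000) := T_49 (nat_lit 148) (nat_lit 131) (nat_lit 6) (nat_lit 11) (nat_lit 11) L4094 (by decide +kernel)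
theorem L4096 : W_49 (nat_lit 2) (nat_lit 0x800040002600120019800080000000000000000000000000000000) (nat_lit 0x0) (nat_lit 0x80004000200000000000000000000000000000000) := D_49 (nat_lit 146) (nat_lit 163) (nat_lit 129) (nat_lit 4) (nat_lit 11) (nat_lit 12) (nat_lit 4) (nat_lit 11) (nat_lit 11) (by decide +kernel)
theorem L4097 : W_49 (nat_lit 3) (nat_lit 0x40002600120019800080000000000000000000000000000000) (nat_lit 0x0) (nat_lit 0x800000000000280004000200000000000000000000000000000000) := T_49 (nat_lit 215) (nat_lit 165) (nat_lit 6) (nat_lit 11) (nat_lit 12) L4096 (by decide +kernel)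
theorem L4098 : W_49 (nat_lit 4) (nat_lit 0x40002400120019800080000000000000000000000000000000) (nat_lit 0x0) (nat_lit 0x800004000200280004000200000000000000000000000000000000) := T_49 (nat_lit 177) (nat_lit 194) (nat_lit 5) (nat_lit 8) (nat_lit 7) L4097 (by decide +kernel)
theorem L4099 : W_49 (nat_lit 5) (nat_lit 0x40002400120009800080000000000000000000000000000000) (nat_lit 0x0) (nat_lit 0x800004000200280014000a00000000000000000000000000000000) := T_49 (nat_lit 148) (nat_lit 131) (nat_lit 6) (nat_lit 11) (nat_lit 11) L4098 (by decide +kernel)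
theorem L4100 : W_49 (nat_lit 2) (nat_lit 0xc0002600120009800480000000000000000000000000000000) (nat_lit 0x0) (nat_lit 0x4000200010000000000000000000000000000) := D_49 (nat_lit 129) (nat_lit 146) (nat_lit 112) (nat_lit 4) (nat_lit 11) (nat_lit 11) (nat_lit 4) (nat_lit 11) (nat_lit 10) (by decide +kernel)
theorem L4101 : W_49 (nat_lit 3) (nat_lit 0xc0002600120009800080000000000000000000000000000000) (nat_lit 0x0) (nat_lit 0x4000000004000600010000000000000000000000000000) := T_49 (nat_lit 130) (nat_lit 182) (nat_lit 7) (nat_lit 11) (nat_lit 7) L4100 (by decide +kernel)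
theorem L4102 : W_49 (nat_lit 4) (nat_lit 0x40002600120009800080000000000000000000000000000000) (nat_lit 0x0) (nat_lit 0x1000080004000000004000600010000000000000000000000000000) := T_49 (nat_lit 199) (nat_lit 216) (nat_lit 7) (nat_lit 11) (nat_lit 8) L4101 (by decide +kernel)
theorem L4103 : W_49 (nat_lit 5) (nat_lit 0x40002400120009800080000000000000000000000000000000) (nat_lit 0x0) (nat_lit 0x1000084004200000004000600010000000000000000000000000000) := T_49 (nat_lit 177) (nat_lit 194) (nat_lit 5) (nat_lit 8) (nat_lit 7) L4102 (by decide +kernel)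
theorem L4104 : W_49 (nat_lit 6) (nat_lit 0x40002400120001800080000000000000000000000000000000) (nat_lit 0x0) (nat_lit 0x18000a4005a0028001c000e00050000000000000000000000000000) := Q_49 (nat_lit 147) (C_49 L4091 (C_49 L4095 (C_49 L4099 (C_49 L4103 N_49)))) (by decide +kernel)
theorem L4105 : W_49 (nat_lit 2) (nat_lit 0x20001e000b60012001d800080000000000000000000000000000000) (nat_lit 0x0) (nat_lit 0x4000600000000000000000000000000000000000000000) := D_49 (nat_lit 165) (nat_lit 166) (nat_lit 182) (nat_lit 4) (nat_lit 13) (nat_lit 12) (nat_lit 7) (nat_lit 12) (nat_lit 8) (by decide +kernel)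
theorem L4106 : W_49 (nat_lit 3) (nat_lit 0x20001e000360012001d800080000000000000000000000000000000) (nat_lit 0x0) (nat_lit 0x1c000600000000000000000000000000000000000000000) := T_49 (nat_lit 183) (nat_lit 184) (nat_lit 2) (nat_lit 10) (nat_lit 11) L4105 (by decide +kernel)
theorem L4107 : W_49 (nat_lit 4) (nat_lit 0x1e000360012001d800080000000000000000000000000000000) (nat_lit 0x0) (nat_lit 0x600000001c000600000000000000000000000000000000000000000) := T_49 (nat_lit 217) (nat_lit 218) (nat_lit 3) (nat_lit 10) (nat_lit 11) L4106 (by decide +kernel)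
theorem L4108 : W_49 (nat_lit 5) (nat_lit 0x1c000360012001d800080000000000000000000000000000000) (nat_lit 0x0) (nat_lit 0x640002001c000600000000000000000000000000000000000000000) := T_49 (nat_lit 197) (nat_lit 214) (nat_lit 5) (nat_lit 11) (nat_lit 8) L4107 (by decide +kernel)
theorem L4109 : W_49 (nat_lit 6) (nat_lit 0x1c000340012001d800080000000000000000000000000000000) (nat_lit 0x0) (nat_lit 0x640002401c200600000000000000000000000000000000000000000) := T_49 (nat_lit 177) (nat_lit 194) (nat_lit 5) (nat_lit 8) (nat_lit 7) L4108 (by decide +kernel)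
theorem L4110 : W_49 (nat_lit 7) (nat_lit 0x1c000340012000d800080000000000000000000000000000000) (nat_lit 0x0) (nat_lit 0x640002401c200600010000800000000000000000000000000000000) := T_49 (nat_lit 148) (nat_lit 131) (nat_lit 6) (nat_lit 11) (nat_lit 11) L4109 (by decide +kernel)
theorem L4111 : W_49 (nat_lit 8) (nat_lit 0xc000340012000d800080000000000000000000000000000000) (nat_lit 0x0) (nat_lit 0x640032401c200600010000800000000000000000000000000000000) := T_49 (nat_lit 200) (nat_lit 201) (nat_lit 0) (nat_lit 14) (nat_lit 11) L4110 (by decide +kernel)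
theorem L4112 : W_49 (nat_lit 9) (nat_lit 0xc0003400120009800080000000000000000000000000000000) (nat_lit 0x0) (nat_lit 0x640032401c200600014000a00000000000000000000000000000000) := T_49 (nat_lit 146) (nat_lit 129) (nat_lit 4) (nat_lit 11) (nat_lit 11) L4111 (by decide +kernel)
theorem L4113 : W_49 (nat_lit 10) (nat_lit 0xc0002400120009800080000000000000000000000000000000) (nat_lit 0x0) (nat_lit 0x640032401da00600014000a00000000000000000000000000000000) := T_49 (nat_lit 180) (nat_lit 179) (nat_lit 3) (nat_lit 8) (nat_lit 10) L4112 (by decide +kernel)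
theorem L4114 : W_49 (nat_lit 11) (nat_lit 0x40002400120009800080000000000000000000000000000000) (nat_lit 0x0) (nat_lit 0x74003a401da00600014000a00000000000000000000000000000000) := T_49 (nat_lit 199) (nat_lit 216) (nat_lit 7) (nat_lit 11) (nat_lit 8) L4113 (by decide +kernel)
theorem L4115 : W_49 (nat_lit 2) (nat_lit 0x60002400120009800480000000000000000000000000000000) (nat_lit 0x0) (nat_lit 0x4000200010000000000000000000000000000) := D_49 (nat_lit 129) (nat_lit 112) (nat_lit 146) (nat_lit 4) (nat_lit 11) (nat_lit 10) (nat_lit 4) (nat_lit 11) (nat_lit 11) (by decide +kernel)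
theorem L4116 : W_49 (nat_lit 3) (nat_lit 0x60002400120009800080000000000000000000000000000000) (nat_lit 0x0) (nat_lit 0x1000000004000600010000000000000000000000000000) := T_49 (nat_lit 130) (nat_lit 180) (nat_lit 5) (nat_lit 11) (nat_lit 7) L4115 (by decide +kernel)
theorem L4117 : W_49 (nat_lit 4) (nat_lit 0x40002400120009800080000000000000000000000000000000) (nat_lit 0x0) (nat_lit 0x400020001000000004000600010000000000000000000000000000) := T_49 (nat_lit 197) (nat_lit 214) (nat_lit 5) (nat_lit 11) (nat_lit 8) L4116 (by decide +kernel)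
theorem L4118 : W_49 (nat_lit 12) (nat_lit 0x40002400120001800080000000000000000000000000000000) (nat_lit 0x0) (nat_lit 0x74003a401da0060001c000e00010000000000000000000000000000) := Q_49 (nat_lit 147) (C_49 L4103 (C_49 L4095 (C_49 L4114 (C_49 L4117 N_49)))) (by decide +kernel)
theorem L4119 : W_49 (nat_lit 2) (nat_lit 0x60002600120009800080000000000000000000000000000000) (nat_lit 0x0) (nat_lit 0x1800000000000400000000000000000000000000000000) := D_49 (nat_lit 180) (nat_lit 130) (nat_lit 179) (nat_lit 5) (nat_lit 11) (nat_lit 7) (nat_lit 3) (nat_lit 7) (nat_lit 10) (by decide +kernel)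
theorem L4120 : W_49 (nat_lit 3) (nat_lit 0x40002600120009800080000000000000000000000000000000) (nat_lit 0x0) (nat_lit 0x400020001800000000000400000000000000000000000000000000) := T_49 (nat_lit 197) (nat_lit 214) (nat_lit 5) (nat_lit 11) (nat_lit 8) L4119 (by decide +kernel)
theorem L4121 : W_49 (nat_lit 4) (nat_lit 0x40002400120009800080000000000000000000000000000000) (nat_lit 0x0) (nat_lit 0x400024001a00000000000400000000000000000000000000000000) := T_49 (nat_lit 177) (nat_lit 194) (nat_lit 5) (nat_lit 8) (nat_lit 7) L4120 (by decide +kernel)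
theorem L4122 : W_49 (nat_lit 6) (nat_lit 0x40002400120001800080000000000000000000000000000000) (nat_lit 0x0) (nat_lit 0xc00024001a0028001c000e00010000000000000000000000000000) := Q_49 (nat_lit 147) (C_49 L4117 (C_49 L4099 (C_49 L4121 N_49))) (by decide +kernel)
theorem L4123 : W_49 (nat_lit 13) (nat_lit 0x2400120001800080000000000000000000000000000000) (nat_lit 0x0) (nat_lit 0x100038007c003e401da00e8007c000e00050000000000000000000000000000) := Q_49 (nat_lit 198) (C_49 L4053 (C_49 L4064 (C_49 L4078 (C_49 L4079 (C_49 L4080 (C_49 L4087 (C_49 L4104 (C_49 L4118 (C_49 L4122 N_49))))))))) (by decide +kernel)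
theorem L4124 : W_49 (nat_lit 2) (nat_lit 0x2c00160001800080000000000000000000000000000000) (nat_lit 0x0) (nat_lit 0x5000200000000000000000000000000000000000000000) := D_49 (nat_lit 180) (nat_lit 165) (nat_lit 182) (nat_lit 2) (nat_lit 8) (nat_lit 10) (nat_lit 0) (nat_lit 12) (nat_lit 10) (by decide +kernel)
theorem L4125 : W_49 (nat_lit 3) (nat_lit 0x2400160001800080000000000000000000000000000000) (nat_lit 0x0) (nat_lit 0x5800200000000000004000000000000000000000000000) := T_49 (nat_lit 179) (nat_lit 110) (nat_lit 7) (nat_lit 8) (nat_lit 6) L4124 (by decide +kernel)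
theorem L4126 : W_49 (nat_lit 4) (nat_lit 0x2400120001800080000000000000000000000000000000) (nat_lit 0x0) (nat_lit 0x58002c0000000000004000000000000000000000000000) := T_49 (nat_lit 162) (nat_lit 163) (nat_lit 0) (nat_lit 11) (nat_lit 9) L4125 (by decide +kernel)
theorem L4127 : W_49 (nat_lit 2) (nat_lit 0x24001a0009800480000000000000000000000000000000) (nat_lit 0x0) (nat_lit 0x20001000000000000000020000000000000000000000000000) := D_49 (nat_lit 180) (nat_lit 197) (nat_lit 113) (nat_lit 5) (nat_lit 11) (nat_lit 7) (nat_lit 5) (nat_lit 11) (nat_lit 6) (by decide +kernel)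
theorem L4128 : W_49 (nat_lit 3) (nat_lit 0x2400120009800480000000000000000000000000000000) (nat_lit 0x0) (nat_lit 0x200010000c0000000000020000000000000000000000000000) := T_49 (nat_lit 163) (nat_lit 162) (nat_lit 0) (nat_lit 11) (nat_lit 9) L4127 (by decide +kernel)
theorem L4129 : W_49 (nat_lit 2) (nat_lit 0x6400120009800480020000000000000000000000000000) (nat_lit 0x0) (nat_lit 0x800040002000000000000000000000000) := D_49 (nat_lit 114) (nat_lit 97) (nat_lit 131) (nat_lit 6) (nat_lit 11) (nat_lit 9) (nat_lit 6) (nat_lit 11) (nat_lit 10) (by decide +kernel)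
theorem L4130 : W_49 (nat_lit 3) (nat_lit 0x6400120009800480000000000000000000000000000000) (nat_lit 0x0) (nat_lit 0x200000000800060002000000000000000000000000) := T_49 (nat_lit 113) (nat_lit 165) (nat_lit 7) (nat_lit 11) (nat_lit 6) L4129 (by decide +kernel)
theorem L4131 : W_49 (nat_lit 4) (nat_lit 0x2400120009800480000000000000000000000000000000) (nat_lit 0x0) (nat_lit 0x80004000200000000800060002000000000000000000000000) := T_49 (nat_lit 182) (nat_lit 199) (nat_lit 7) (nat_lit 11) (nat_lit 7) L4130 (by decide +kernel)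
theorem L4132 : W_49 (nat_lit 2) (nat_lit 0x400024001a0009800c80000000000000000000000000000000) (nat_lit 0x0) (nat_lit 0x400020001000000000000000000000000000000000000000000000) := D_49 (nat_lit 197) (nat_lit 214) (nat_lit 180) (nat_lit 5) (nat_lit 11) (nat_lit 8) (nat_lit 5) (nat_lit 11) (nat_lit 7) (by decide +kernel)
theorem L4133 : W_49 (nat_lit 3) (nat_lit 0x24001a0009800c80000000000000000000000000000000) (nat_lit 0x0) (nat_lit 0x400060001000000010000000000000000000000000000000000000) := T_49 (nat_lit 198) (nat_lit 148) (nat_lit 6) (nat_lit 11) (nat_lit 11) L4132 (by decide +kernel)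
theorem L4134 : W_49 (nat_lit 4) (nat_lit 0x2400120009800c80000000000000000000000000000000) (nat_lit 0x0) (nat_lit 0x4000600010000c0010000000000000000000000000000000000000) := T_49 (nat_lit 163) (nat_lit 162) (nat_lit 0) (nat_lit 11) (nat_lit 9) L4133 (by decide +kernel)
theorem L4135 : W_49 (nat_lit 5) (nat_lit 0x2400120009800480000000000000000000000000000000) (nat_lit 0x0) (nat_lit 0x4000600010000c0010000800040000000000000000000000000000) := T_49 (nat_lit 131) (nat_lit 114) (nat_lit 6) (nat_lit 11) (nat_lit 10) L4134 (by decide +kernel)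
theorem L4136 : W_49 (nat_lit 6) (nat_lit 0x2400120009800080000000000000000000000000000000) (nat_lit 0x0) (nat_lit 0x4000e00050002c0010000c00060002000000000000000000000000) := Q_49 (nat_lit 130) (C_49 L4128 (C_49 L4131 (C_49 L4135 N_49))) (by decide +kernel)
theorem L4137 : W_49 (nat_lit 6) (nat_lit 0x2400120009800080000000000000000000000000000000) (nat_lit 0x0) (nat_lit 0x1c000e4005200280014000e00050000000000000000000000000000) := Q_49 (nat_lit 198) (C_49 L4117 (C_49 L4099 (C_49 L4091 N_49))) (by decide +kernel)
theorem L4138 : W_49 (nat_lit 2) (nat_lit 0x4000c0002400160019a00080000000000000000000000000000000) (nat_lit 0x0) (nat_lit 0x8000800000000000200000000000000000000000000000000000000000) := D_49 (nat_lit 215) (nat_lit 165) (nat_lit 231) (nat_lit 6) (nat_lit 11) (nat_lit 12) (nat_lit 5) (nat_lit 11) (nat_lit 9) (by decide +kernel)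
theorem L4139 : W_49 (nat_lit 3) (nat_lit 0xc0002400160019a00080000000000000000000000000000000) (nat_lit 0x0) (nat_lit 0x8000c00020000000200000000000000000000000000000000000000000) := T_49 (nat_lit 214) (nat_lit 197) (nat_lit 5) (nat_lit 11) (nat_lit 8) L4138 (by decide +kernel)
theorem L4140 : W_49 (nat_lit 4) (nat_lit 0xc0002400160019800080000000000000000000000000000000) (nat_lit 0x0) (nat_lit 0x8000c00020000000200000600000000000000000000000000000000000) := T_49 (nat_lit 141) (nat_lit 142) (nat_lit 3) (nat_lit 5) (nat_lit 8) L4139 (by decide +kernel)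
theorem L4141 : W_49 (nat_lit 5) (nat_lit 0xc0002400120019800080000000000000000000000000000000) (nat_lit 0x0) (nat_lit 0x8000c000200000002c0000600000000000000000000000000000000000) := T_49 (nat_lit 162) (nat_lit 163) (nat_lit 2) (nat_lit 8) (nat_lit 9) L4140 (by decide +kernel)
theorem L4142 : W_49 (nat_lit 6) (nat_lit 0xc0002400120009800080000000000000000000000000000000) (nat_lit 0x0) (nat_lit 0x8000c000200000002c0010600800000000000000000000000000000000) := T_49 (nat_lit 148) (nat_lit 131) (nat_lit 6) (nat_lit 11) (nat_lit 11) L4141 (by decide +kernel)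
theorem L4143 : W_49 (nat_lit 7) (nat_lit 0x40002400120009800080000000000000000000000000000000) (nat_lit 0x0) (nat_lit 0x8001c000a00000002c0010600800000000000000000000000000000000) := T_49 (nat_lit 199) (nat_lit 216) (nat_lit 7) (nat_lit 11) (nat_lit 8) L4142 (by decide +kernel)
theorem L4144 : W_49 (nat_lit 2) (nat_lit 0x4000c000260012001d800080000000000000000000000000000000) (nat_lit 0x0) (nat_lit 0x8000800000000000200000000000000000000000000000000000000000) := D_49 (nat_lit 215) (nat_lit 231) (nat_lit 165) (nat_lit 5) (nat_lit 11) (nat_lit 9) (nat_lit 6) (nat_lit 11) (nat_lit 12) (by decide +kernel)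
theorem L4145 : W_49 (nat_lit 3) (nat_lit 0x4000c000260012000d800080000000000000000000000000000000) (nat_lit 0x0) (nat_lit 0x8000800000000000200010000800000000000000000000000000000000) := T_49 (nat_lit 148) (nat_lit 131) (nat_lit 6) (nat_lit 11) (nat_lit 11) L4144 (by decide +kernel)
theorem L4146 : W_49 (nat_lit 4) (nat_lit 0xc000260012000d800080000000000000000000000000000000) (nat_lit 0x0) (nat_lit 0x8000c00020000000200010000800000000000000000000000000000000) := T_49 (nat_lit 214) (nat_lit 197) (nat_lit 5) (nat_lit 11) (nat_lit 8) L4145 (by decide +kernel)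
theorem L4147 : W_49 (nat_lit 5) (nat_lit 0xc000240012000d800080000000000000000000000000000000) (nat_lit 0x0) (nat_lit 0x8000c00024000200200010000800000000000000000000000000000000) := T_49 (nat_lit 177) (nat_lit 194) (nat_lit 5) (nat_lit 8) (nat_lit 7) L4146 (by decide +kernel)
theorem L4148 : W_49 (nat_lit 6) (nat_lit 0x4000240012000d800080000000000000000000000000000000) (nat_lit 0x0) (nat_lit 0x8001c000a4000200200010000800000000000000000000000000000000) := T_49 (nat_lit 199) (nat_lit 216) (nat_lit 7) (nat_lit 11) (nat_lit 8) L4147 (by decide +kernel)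
theorem L4149 : W_49 (nat_lit 7) (nat_lit 0x40002400120009800080000000000000000000000000000000) (nat_lit 0x0) (nat_lit 0x8001c000a4000200200014000a00000000000000000000000000000000) := T_49 (nat_lit 146) (nat_lit 129) (nat_lit 4) (nat_lit 11) (nat_lit 11) L4148 (by decide +kernel)
theorem L4150 : W_49 (nat_lit 2) (nat_lit 0x6000240012000d800080000000000000000000000000000000) (nat_lit 0x0) (nat_lit 0x8000000000000c0000000000000000000000000000000000000000) := D_49 (nat_lit 163) (nat_lit 162) (nat_lit 215) (nat_lit 0) (nat_lit 11) (nat_lit 9) (nat_lit 4) (nat_lit 11) (nat_lit 12) (by decide +kernel)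
theorem L4151 : W_49 (nat_lit 3) (nat_lit 0x60002400120009800080000000000000000000000000000000) (nat_lit 0x0) (nat_lit 0x8000000000000c0004000200000000000000000000000000000000) := T_49 (nat_lit 146) (nat_lit 129) (nat_lit 4) (nat_lit 11) (nat_lit 11) L4150 (by decide +kernel)
theorem L4152 : W_49 (nat_lit 4) (nat_lit 0x40002400120009800080000000000000000000000000000000) (nat_lit 0x0) (nat_lit 0xc000200000000c0004000200000000000000000000000000000000) := T_49 (nat_lit 197) (nat_lit 214) (nat_lit 5) (nat_lit 11) (nat_lit 8) L4151 (by decide +kernel)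
theorem L4153 : W_49 (nat_lit 2) (nat_lit 0xc00024005a003d801080000000000000000000000000000000) (nat_lit 0x0) (nat_lit 0xc000200000000000000000000000000000000000000000) := D_49 (nat_lit 182) (nat_lit 183) (nat_lit 165) (nat_lit 5) (nat_lit 13) (nat_lit 7) (nat_lit 6) (nat_lit 12) (nat_lit 11) (by decide +kernel)
theorem L4154 : W_49 (nat_lit 3) (nat_lit 0xc00024005a003d800080000000000000000000000000000000) (nat_lit 0x0) (nat_lit 0xc000200000003000000000000000000000000000000000) := T_49 (nat_lit 132) (nat_lit 133) (nat_lit 2) (nat_lit 10) (nat_lit 8) L4153 (by decide +kernel)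
theorem L4155 : W_49 (nat_lit 4) (nat_lit 0xc00024001a003d800080000000000000000000000000000000) (nat_lit 0x0) (nat_lit 0xc000e00000003000000000000000000000000000000000) := T_49 (nat_lit 166) (nat_lit 167) (nat_lit 3) (nat_lit 10) (nat_lit 8) L4154 (by decide +kernel)
theorem L4156 : W_49 (nat_lit 5) (nat_lit 0xc00024001a0039800080000000000000000000000000000000) (nat_lit 0x0) (nat_lit 0xc000e00004003200000000000000000000000000000000) := T_49 (nat_lit 146) (nat_lit 129) (nat_lit 4) (nat_lit 11) (nat_lit 11) L4155 (by decide +kernel)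
theorem L4157 : W_49 (nat_lit 6) (nat_lit 0xc00024001a0019800080000000000000000000000000000000) (nat_lit 0x0) (nat_lit 0xc000e00064003200000000000000000000000000000000) := T_49 (nat_lit 149) (nat_lit 150) (nat_lit 1) (nat_lit 14) (nat_lit 8) L4156 (by decide +kernel)
theorem L4158 : W_49 (nat_lit 7) (nat_lit 0xc0002400120019800080000000000000000000000000000000) (nat_lit 0x0) (nat_lit 0xc000ec0064003200000000000000000000000000000000) := T_49 (nat_lit 163) (nat_lit 162) (nat_lit 2) (nat_lit 8) (nat_lit 9) L4157 (by decide +kernel)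
theorem L4159 : W_49 (nat_lit 8) (nat_lit 0xc0002400120009800080000000000000000000000000000000) (nat_lit 0x0) (nat_lit 0xc000ec0074003a00000000000000000000000000000000) := T_49 (nat_lit 148) (nat_lit 131) (nat_lit 6) (nat_lit 11) (nat_lit 11) L4158 (by decide +kernel)
theorem L4160 : W_49 (nat_lit 9) (nat_lit 0x40002400120009800080000000000000000000000000000000) (nat_lit 0x0) (nat_lit 0x100008000c000ec0074003a00000000000000000000000000000000) := T_49 (nat_lit 199) (nat_lit 216) (nat_lit 7) (nat_lit 11) (nat_lit 8) L4159 (by decide +kernel)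
theorem L4161 : W_49 (nat_lit 10) (nat_lit 0x2400120009800080000000000000000000000000000000) (nat_lit 0x0) (nat_lit 0x8001c000e400c200ec0074603a00000000000000000000000000000000) := Q_49 (nat_lit 198) (C_49 L4099 (C_49 L4143 (C_49 L4149 (C_49 L4152 (C_49 L4160 N_49))))) (by decide +kernel)
theorem L4162 : W_49 (nat_lit 8) (nat_lit 0x2400120009800080000000000000000000000000000000) (nat_lit 0x0) (nat_lit 0x8001c000e4005200200014000e00050000000000000000000000000000) := Q_49 (nat_lit 198) (C_49 L4149 (C_49 L4117 (C_49 L4091 N_49))) (by decide +kernel)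
theorem L4163 : W_49 (nat_lit 2) (nat_lit 0x26001a0009800680020000000000000000000000000000) (nat_lit 0x0) (nat_lit 0x40000000000004000000000001000000000000000000000000) := D_49 (nat_lit 146) (nat_lit 96) (nat_lit 198) (nat_lit 5) (nat_lit 11) (nat_lit 5) (nat_lit 4) (nat_lit 11) (nat_lit 11) (by decide +kernel)
theorem L4164 : W_49 (nat_lit 3) (nat_lit 0x26001a0009800680000000000000000000000000000000) (nat_lit 0x0) (nat_lit 0x40001000000004000000020001000000000000000000000000) := T_49 (nat_lit 113) (nat_lit 180) (nat_lit 5) (nat_lit 11) (nat_lit 6) L4163 (by decide +kernel)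
theorem L4165 : W_49 (nat_lit 4) (nat_lit 0x26001a0009800480000000000000000000000000000000) (nat_lit 0x0) (nat_lit 0x40001000000004000200030001000000000000000000000000) := T_49 (nat_lit 129) (nat_lit 112) (nat_lit 4) (nat_lit 11) (nat_lit 10) L4164 (by decide +kernel)
theorem L4166 : W_49 (nat_lit 5) (nat_lit 0x2600120009800480000000000000000000000000000000) (nat_lit 0x0) (nat_lit 0x400010000c0004000200030001000000000000000000000000) := T_49 (nat_lit 163) (nat_lit 162) (nat_lit 1) (nat_lit 11) (nat_lit 9) L4165 (by decide +kernel)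
theorem L4167 : W_49 (nat_lit 6) (nat_lit 0x2400120009800480000000000000000000000000000000) (nat_lit 0x0) (nat_lit 0x440012000c0004000200030001000000000000000000000000) := T_49 (nat_lit 177) (nat_lit 194) (nat_lit 5) (nat_lit 8) (nat_lit 7) L4166 (by decide +kernel)
theorem L4168 : W_49 (nat_lit 2) (nat_lit 0x400026001a0009800c80000000000000000000000000000000) (nat_lit 0x0) (nat_lit 0x800000000000000004000200000000000000000000000000000000) := D_49 (nat_lit 146) (nat_lit 215) (nat_lit 129) (nat_lit 4) (nat_lit 11) (nat_lit 12) (nat_lit 4) (nat_lit 11) (nat_lit 11) (by decide +kernel)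
theorem L4169 : W_49 (nat_lit 3) (nat_lit 0x26001a0009800c80000000000000000000000000000000) (nat_lit 0x0) (nat_lit 0x800040000000000014000200000000000000000000000000000000) := T_49 (nat_lit 198) (nat_lit 148) (nat_lit 6) (nat_lit 11) (nat_lit 11) L4168 (by decide +kernel)
theorem L4170 : W_49 (nat_lit 4) (nat_lit 0x24001a0009800c80000000000000000000000000000000) (nat_lit 0x0) (nat_lit 0x800044000200000014000200000000000000000000000000000000) := T_49 (nat_lit 177) (nat_lit 194) (nat_lit 5) (nat_lit 8) (nat_lit 7) L4169 (by decide +kernel)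
theorem L4171 : W_49 (nat_lit 5) (nat_lit 0x24001a0009800480000000000000000000000000000000) (nat_lit 0x0) (nat_lit 0x800044000200000014000a00040000000000000000000000000000) := T_49 (nat_lit 131) (nat_lit 114) (nat_lit 6) (nat_lit 11) (nat_lit 10) L4170 (by decide +kernel)
theorem L4172 : W_49 (nat_lit 6) (nat_lit 0x2400120009800480000000000000000000000000000000) (nat_lit 0x0) (nat_lit 0x8000440002000c0014000a00040000000000000000000000000000) := T_49 (nat_lit 163) (nat_lit 162) (nat_lit 0) (nat_lit 11) (nat_lit 9) L4171 (by decide +kernel)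
theorem L4173 : W_49 (nat_lit 7) (nat_lit 0x2400120009800080000000000000000000000000000000) (nat_lit 0x0) (nat_lit 0x8000c40052002c0014000e00070003000000000000000000000000) := Q_49 (nat_lit 130) (C_49 L4131 (C_49 L4167 (C_49 L4172 N_49))) (by decide +kernel)
theorem L4174 : W_49 (nat_lit 8) (nat_lit 0x2400120009800080000000000000000000000000000000) (nat_lit 0x0) (nat_lit 0x8001c000e40012002c0014600e00010000000000000000000000000000) := Q_49 (nat_lit 198) (C_49 L4152 (C_49 L4149 (C_49 L4143 (C_49 L4099 (C_49 L4117 N_49))))) (by decide +kernel)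
theorem L4175 : W_49 (nat_lit 2) (nat_lit 0x800036001a0009800e80000000000000000000000000000000) (nat_lit 0x0) (nat_lit 0x1000040000000000004000000000000000000000000000000000000) := D_49 (nat_lit 198) (nat_lit 146) (nat_lit 216) (nat_lit 7) (nat_lit 10) (nat_lit 7) (nat_lit 7) (nat_lit 11) (nat_lit 8) (by decide +kernel)
theorem L4176 : W_49 (nat_lit 3) (nat_lit 0x36001a0009800e80000000000000000000000000000000) (nat_lit 0x0) (nat_lit 0x10000c0004000000004000000000000000000000000000000000000) := T_49 (nat_lit 199) (nat_lit 182) (nat_lit 7) (nat_lit 11) (nat_lit 7) L4175 (by decide +kernel)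
theorem L4177 : W_49 (nat_lit 4) (nat_lit 0x36001a0009800c80000000000000000000000000000000) (nat_lit 0x0) (nat_lit 0x10000c0004000000004000200010000000000000000000000000000) := T_49 (nat_lit 129) (nat_lit 112) (nat_lit 4) (nat_lit 11) (nat_lit 10) L4176 (by decide +kernel)
theorem L4178 : W_49 (nat_lit 5) (nat_lit 0x26001a0009800c80000000000000000000000000000000) (nat_lit 0x0) (nat_lit 0x10000e0005000000004000200010000000000000000000000000000) := T_49 (nat_lit 180) (nat_lit 197) (nat_lit 5) (nat_lit 11) (nat_lit 7) L4177 (by decide +kernel)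
theorem L4179 : W_49 (nat_lit 6) (nat_lit 0x26001a0009800480000000000000000000000000000000) (nat_lit 0x0) (nat_lit 0x10000e0005000000004000a00050000000000000000000000000000) := T_49 (nat_lit 131) (nat_lit 114) (nat_lit 6) (nat_lit 11) (nat_lit 10) L4178 (by decide +kernel)
theorem L4180 : W_49 (nat_lit 7) (nat_lit 0x2600120009800480000000000000000000000000000000) (nat_lit 0x0) (nat_lit 0x10000e00050000c0004000a00050000000000000000000000000000) := T_49 (nat_lit 163) (nat_lit 162) (nat_lit 1) (nat_lit 11) (nat_lit 9) L4179 (by decide +kernel)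
theorem L4181 : W_49 (nat_lit 8) (nat_lit 0x2400120009800480000000000000000000000000000000) (nat_lit 0x0) (nat_lit 0x10000e40052000c0004000a00050000000000000000000000000000) := T_49 (nat_lit 177) (nat_lit 194) (nat_lit 5) (nat_lit 8) (nat_lit 7) L4180 (by decide +kernel)
theorem L4182 : W_49 (nat_lit 9) (nat_lit 0x2400120009800080000000000000000000000000000000) (nat_lit 0x0) (nat_lit 0x10000e40052002c0004000e00070003000000000000000000000000) := Q_49 (nat_lit 130) (C_49 L4167 (C_49 L4131 (C_49 L4181 N_49))) (by decide +kernel)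
theorem L4183 : W_49 (nat_lit 2) (nat_lit 0x10000f6005a0009800e80000000000000000000000000000000) (nat_lit 0x0) (nat_lit 0x200030000000000000000000000000000000000000) := D_49 (nat_lit 148) (nat_lit 149) (nat_lit 165) (nat_lit 4) (nat_lit 13) (nat_lit 11) (nat_lit 7) (nat_lit 12) (nat_lit 7) (by decide +kernel)
theorem L4184 : W_49 (nat_lit 3) (nat_lit 0x10000f6001a0009800e80000000000000000000000000000000) (nat_lit 0x0) (nat_lit 0xe00030000000000000000000000000000000000000) := T_49 (nat_lit 166) (nat_lit 167) (nat_lit 2) (nat_lit 10) (nat_lit 10) L4183 (by decide +kernel)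
theorem L4185 : W_49 (nat_lit 4) (nat_lit 0xf6001a0009800e80000000000000000000000000000000) (nat_lit 0x0) (nat_lit 0x300000000e00030000000000000000000000000000000000000) := T_49 (nat_lit 200) (nat_lit 201) (nat_lit 3) (nat_lit 10) (nat_lit 10) L4184 (by decide +kernel)
theorem L4186 : W_49 (nat_lit 5) (nat_lit 0xe6001a0009800e80000000000000000000000000000000) (nat_lit 0x0) (nat_lit 0x320001000e00030000000000000000000000000000000000000) := T_49 (nat_lit 180) (nat_lit 197) (nat_lit 5) (nat_lit 11) (nat_lit 7) L4185 (by decide +kernel)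
theorem L4187 : W_49 (nat_lit 6) (nat_lit 0xe6001a0009800c80000000000000000000000000000000) (nat_lit 0x0) (nat_lit 0x320001000e00030000200010000000000000000000000000000) := T_49 (nat_lit 129) (nat_lit 112) (nat_lit 4) (nat_lit 11) (nat_lit 10) L4186 (by decide +kernel)
theorem L4188 : W_49 (nat_lit 7) (nat_lit 0xe6001a0009800480000000000000000000000000000000) (nat_lit 0x0) (nat_lit 0x320001000e00030000a00050000000000000000000000000000) := T_49 (nat_lit 131) (nat_lit 114) (nat_lit 6) (nat_lit 11) (nat_lit 10) L4187 (by decide +kernel)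
theorem L4189 : W_49 (nat_lit 8) (nat_lit 0x66001a0009800480000000000000000000000000000000) (nat_lit 0x0) (nat_lit 0x320019000e00030000a00050000000000000000000000000000) := T_49 (nat_lit 183) (nat_lit 184) (nat_lit 0) (nat_lit 14) (nat_lit 10) L4188 (by decide +kernel)
theorem L4190 : W_49 (nat_lit 9) (nat_lit 0x26001a0009800480000000000000000000000000000000) (nat_lit 0x0) (nat_lit 0x3a001d000e00030000a00050000000000000000000000000000) := T_49 (nat_lit 182) (nat_lit 199) (nat_lit 7) (nat_lit 11) (nat_lit 7) L4189 (by decide +kernel)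
theorem L4191 : W_49 (nat_lit 10) (nat_lit 0x2600120009800480000000000000000000000000000000) (nat_lit 0x0) (nat_lit 0x3a001d000ec0030000a00050000000000000000000000000000) := T_49 (nat_lit 163) (nat_lit 162) (nat_lit 1) (nat_lit 11) (nat_lit 9) L4190 (by decide +kernel)
theorem L4192 : W_49 (nat_lit 11) (nat_lit 0x2400120009800480000000000000000000000000000000) (nat_lit 0x0) (nat_lit 0x3a401d200ec0030000a00050000000000000000000000000000) := T_49 (nat_lit 177) (nat_lit 194) (nat_lit 5) (nat_lit 8) (nat_lit 7) L4191 (by decide +kernel)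
theorem L4193 : W_49 (nat_lit 12) (nat_lit 0x2400120009800080000000000000000000000000000000) (nat_lit 0x0) (nat_lit 0x3a401d200ec0030000e00070002000000000000000000000000) := Q_49 (nat_lit 130) (C_49 L4131 (C_49 L4128 (C_49 L4192 N_49))) (by decide +kernel)
theorem L4194 : W_49 (nat_lit 2) (nat_lit 0xc0002400120009800480000000000000000000000000000000) (nat_lit 0x0) (nat_lit 0x400020001000000000000000000000000000000000000000000000) := D_49 (nat_lit 197) (nat_lit 180) (nat_lit 214) (nat_lit 5) (nat_lit 11) (nat_lit 7) (nat_lit 5) (nat_lit 11) (nat_lit 8) (by decide +kernel)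
theorem L4195 : W_49 (nat_lit 3) (nat_lit 0xc0002400120009800080000000000000000000000000000000) (nat_lit 0x0) (nat_lit 0x400020005000000000000400000000000000000000000000000000) := T_49 (nat_lit 130) (nat_lit 182) (nat_lit 7) (nat_lit 11) (nat_lit 7) L4194 (by decide +kernel)
theorem L4196 : W_49 (nat_lit 4) (nat_lit 0x40002400120009800080000000000000000000000000000000) (nat_lit 0x0) (nat_lit 0x14000a0005000000000000400000000000000000000000000000000) := T_49 (nat_lit 199) (nat_lit 216) (nat_lit 7) (nat_lit 11) (nat_lit 8) L4195 (by decide +kernel)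
theorem L4197 : W_49 (nat_lit 6) (nat_lit 0x2400120009800080000000000000000000000000000000) (nat_lit 0x0) (nat_lit 0x1c000e40052000c0004000600010000000000000000000000000000) := Q_49 (nat_lit 198) (C_49 L4152 (C_49 L4117 (C_49 L4196 (C_49 L4103 N_49)))) (by decide +kernel)
theorem L4198 : W_49 (nat_lit 2) (nat_lit 0x3400120009800c80020000000000000000000000000000) (nat_lit 0x0) (nat_lit 0x200010000800000000000000000000000) := D_49 (nat_lit 112) (nat_lit 95) (nat_lit 129) (nat_lit 4) (nat_lit 11) (nat_lit 9) (nat_lit 4) (nat_lit 11) (nat_lit 10) (by decide +kernel)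
theorem L4199 : W_49 (nat_lit 3) (nat_lit 0x3400120009800c80000000000000000000000000000000) (nat_lit 0x0) (nat_lit 0x80000000200030000800000000000000000000000) := T_49 (nat_lit 113) (nat_lit 163) (nat_lit 5) (nat_lit 11) (nat_lit 6) L4198 (by decide +kernel)
theorem L4200 : W_49 (nat_lit 4) (nat_lit 0x2400120009800c80000000000000000000000000000000) (nat_lit 0x0) (nat_lit 0x20001000080000000200030000800000000000000000000000) := T_49 (nat_lit 180) (nat_lit 197) (nat_lit 5) (nat_lit 11) (nat_lit 7) L4199 (by decide +kernel)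
theorem L4201 : W_49 (nat_lit 5) (nat_lit 0x2400120009800480000000000000000000000000000000) (nat_lit 0x0) (nat_lit 0x20001000080000000a00070000800000000000000000000000) := T_49 (nat_lit 131) (nat_lit 114) (nat_lit 6) (nat_lit 11) (nat_lit 10) L4200 (by decide +kernel)
theorem L4202 : W_49 (nat_lit 2) (nat_lit 0x40003400120009800c80000000000000000000000000000000) (nat_lit 0x0) (nat_lit 0x4000200010000000000000000000000000000) := D_49 (nat_lit 129) (nat_lit 146) (nat_lit 112) (nat_lit 4) (nat_lit 11) (nat_lit 11) (nat_lit 4) (nat_lit 11) (nat_lit 10) (by decide +kernel)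
theorem L4203 : W_49 (nat_lit 3) (nat_lit 0x3400120009800c80000000000000000000000000000000) (nat_lit 0x0) (nat_lit 0x40000000000014000200010000000000000000000000000000) := T_49 (nat_lit 198) (nat_lit 148) (nat_lit 6) (nat_lit 11) (nat_lit 11) L4202 (by decide +kernel)
theorem L4204 : W_49 (nat_lit 4) (nat_lit 0x2400120009800c80000000000000000000000000000000) (nat_lit 0x0) (nat_lit 0x60001000000014000200010000000000000000000000000000) := T_49 (nat_lit 180) (nat_lit 197) (nat_lit 5) (nat_lit 11) (nat_lit 7) L4203 (by decide +kernel)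
theorem L4205 : W_49 (nat_lit 5) (nat_lit 0x2400120009800480000000000000000000000000000000) (nat_lit 0x0) (nat_lit 0x60001000000014000a00050000000000000000000000000000) := T_49 (nat_lit 131) (nat_lit 114) (nat_lit 6) (nat_lit 11) (nat_lit 10) L4204 (by decide +kernel)
theorem L4206 : W_49 (nat_lit 7) (nat_lit 0x2400120009800080000000000000000000000000000000) (nat_lit 0x0) (nat_lit 0xc000640012000c0014000e00070001800000000000000000000000) := Q_49 (nat_lit 130) (C_49 L4172 (C_49 L4201 (C_49 L4135 (C_49 L4205 (C_49 L4167 N_49))))) (by decide +kernel)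
theorem L4207 : W_49 (nat_lit 13) (nat_lit 0x2400120001800080000000000000000000000000000000) (nat_lit 0x0) (nat_lit 0x8001c003e401d200ec007c603e00070003800000000000000000000000) := Q_49 (nat_lit 147) (C_49 L4136 (C_49 L4137 (C_49 L4161 (C_49 L4162 (C_49 L4173 (C_49 L4174 (C_49 L4182 (C_49 L4193 (C_49 L4197 (C_49 L4206 N_49)))))))))) (by decide +kernel)
theorem L4208 : W_49 (nat_lit 2) (nat_lit 0x4000c0002c0012001d80008000c000000000000000000000000000) (nat_lit 0x0) (nat_lit 0x8000800000000000200000000000000000000000000000000000000000) := D_49 (nat_lit 215) (nat_lit 165) (nat_lit 231) (nat_lit 6) (nat_lit 11) (nat_lit 12) (nat_lit 5) (nat_lit 11) (nat_lit 9) (by decide +kernel)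
theorem L4209 : W_49 (nat_lit 3) (nat_lit 0xc0002c0012001d80008000c000000000000000000000000000) (nat_lit 0x0) (nat_lit 0x8000c00020000000200000000000000000000000000000000000000000) := T_49 (nat_lit 214) (nat_lit 197) (nat_lit 5) (nat_lit 11) (nat_lit 8) L4208 (by decide +kernel)
theorem L4210 : W_49 (nat_lit 4) (nat_lit 0xc0002c0012000d80008000c000000000000000000000000000) (nat_lit 0x0) (nat_lit 0x8000c00020000000200010000800000000000000000000000000000000) := T_49 (nat_lit 148) (nat_lit 131) (nat_lit 6) (nat_lit 11) (nat_lit 11) L4209 (by decide +kernel)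
theorem L4211 : W_49 (nat_lit 5) (nat_lit 0xc0002c0012000d800080004000000000000000000000000000) (nat_lit 0x0) (nat_lit 0x8000c00020000000200010000800008000400000000000000000000000) := T_49 (nat_lit 111) (nat_lit 94) (nat_lit 6) (nat_lit 8) (nat_lit 9) L4210 (by decide +kernel)
theorem L4212 : W_49 (nat_lit 6) (nat_lit 0xc0002c0012000d800080000000000000000000000000000000) (nat_lit 0x0) (nat_lit 0x8000c0002000000024001000080000c000400000000000000000000000) := T_49 (nat_lit 110) (nat_lit 162) (nat_lit 7) (nat_lit 8) (nat_lit 6) L4211 (by decide +kernel)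
theorem L4213 : W_49 (nat_lit 7) (nat_lit 0xc000240012000d800080000000000000000000000000000000) (nat_lit 0x0) (nat_lit 0x8000c0002000180024001000080000c000400000000000000000000000) := T_49 (nat_lit 179) (nat_lit 180) (nat_lit 3) (nat_lit 8) (nat_lit 10) L4212 (by decide +kernel)
theorem L4214 : W_49 (nat_lit 8) (nat_lit 0x4000240012000d800080000000000000000000000000000000) (nat_lit 0x0) (nat_lit 0x8001c000a000180024001000080000c000400000000000000000000000) := T_49 (nat_lit 199) (nat_lit 216) (nat_lit 7) (nat_lit 11) (nat_lit 8) L4213 (by decide +kernel)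
theorem L4215 : W_49 (nat_lit 9) (nat_lit 0x40002400120009800080000000000000000000000000000000) (nat_lit 0x0) (nat_lit 0x8001c000a0001800240014000a0000c000400000000000000000000000) := T_49 (nat_lit 146) (nat_lit 129) (nat_lit 4) (nat_lit 11) (nat_lit 11) L4214 (by decide +kernel)
theorem L4216 : W_49 (nat_lit 2) (nat_lit 0x80004000240012001d800080000000000000000000000000000000) (nat_lit 0x0) (nat_lit 0x8000400020000000000000000000000000000000000000000000000000) := D_49 (nat_lit 214) (nat_lit 231) (nat_lit 197) (nat_lit 5) (nat_lit 11) (nat_lit 9) (nat_lit 5) (nat_lit 11) (nat_lit 8) (by decide +kernel)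
theorem L4217 : W_49 (nat_lit 3) (nat_lit 0x4000240012001d800080000000000000000000000000000000) (nat_lit 0x0) (nat_lit 0x8000c00020000000200000000000000000000000000000000000000000) := T_49 (nat_lit 215) (nat_lit 165) (nat_lit 6) (nat_lit 11) (nat_lit 12) L4216 (by decide +kernel)
theorem L4218 : W_49 (nat_lit 4) (nat_lit 0x40002400120019800080000000000000000000000000000000) (nat_lit 0x0) (nat_lit 0x8000c00020000000200004000200000000000000000000000000000000) := T_49 (nat_lit 146) (nat_lit 129) (nat_lit 4) (nat_lit 11) (nat_lit 11) L4217 (by decide +kernel)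
theorem L4219 : W_49 (nat_lit 5) (nat_lit 0x40002400120009800080000000000000000000000000000000) (nat_lit 0x0) (nat_lit 0x8000c00020000000200014000a00000000000000000000000000000000) := T_49 (nat_lit 148) (nat_lit 131) (nat_lit 6) (nat_lit 11) (nat_lit 11) L4218 (by decide +kernel)
theorem L4220 : W_49 (nat_lit 2) (nat_lit 0xc0002400120019800480000000000000000000000000000000) (nat_lit 0x0) (nat_lit 0x4000200010000000000000000000000000000) := D_49 (nat_lit 129) (nat_lit 112) (nat_lit 146) (nat_lit 4) (nat_lit 11) (nat_lit 10) (nat_lit 4) (nat_lit 11) (nat_lit 11) (by decide +kernel)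
theorem L4221 : W_49 (nat_lit 3) (nat_lit 0xc0002400120019800080000000000000000000000000000000) (nat_lit 0x0) (nat_lit 0x4000000004000600010000000000000000000000000000) := T_49 (nat_lit 130) (nat_lit 182) (nat_lit 7) (nat_lit 11) (nat_lit 7) L4220 (by decide +kernel)
theorem L4222 : W_49 (nat_lit 4) (nat_lit 0x40002400120019800080000000000000000000000000000000) (nat_lit 0x0) (nat_lit 0x1000080004000000004000600010000000000000000000000000000) := T_49 (nat_lit 199) (nat_lit 216) (nat_lit 7) (nat_lit 11) (nat_lit 8) L4221 (by decide +kernel)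
theorem L4223 : W_49 (nat_lit 5) (nat_lit 0x40002400120009800080000000000000000000000000000000) (nat_lit 0x0) (nat_lit 0x1000080004000000014000e00010000000000000000000000000000) := T_49 (nat_lit 148) (nat_lit 131) (nat_lit 6) (nat_lit 11) (nat_lit 11) L4222 (by decide +kernel)
theorem L4224 : W_49 (nat_lit 10) (nat_lit 0x40002400120001800080000000000000000000000000000000) (nat_lit 0x0) (nat_lit 0x8001c000a000580024001c000e0001c000400000000000000000000000) := Q_49 (nat_lit 147) (C_49 L4196 (C_49 L4215 (C_49 L4219 (C_49 L4223 N_49)))) (by decide +kernel)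
theorem L4225 : W_49 (nat_lit 2) (nat_lit 0x20000b0004d002c00360001a00080000000000000000000000000000000) (nat_lit 0x0) (nat_lit 0x400010000000000004000000000000000000000000000000000000000000000) := D_49 (nat_lit 232) (nat_lit 250) (nat_lit 182) (nat_lit 7) (nat_lit 11) (nat_lit 10) (nat_lit 6) (nat_lit 11) (nat_lit 13) (by decide +kernel)
theorem L4226 : W_49 (nat_lit 3) (nat_lit 0x20000b0004d002c00160001a00080000000000000000000000000000000) (nat_lit 0x0) (nat_lit 0x400010000000000004000200010000000000000000000000000000000000000) := T_49 (nat_lit 165) (nat_lit 148) (nat_lit 6) (nat_lit 11) (nat_lit 12) L4225 (by decide +kernel)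
theorem L4227 : W_49 (nat_lit 4) (nat_lit 0xb0004d002c00160001a00080000000000000000000000000000000) (nat_lit 0x0) (nat_lit 0x400030001000000004000200010000000000000000000000000000000000000) := T_49 (nat_lit 233) (nat_lit 216) (nat_lit 7) (nat_lit 11) (nat_lit 9) L4226 (by decide +kernel)
theorem L4228 : W_49 (nat_lit 5) (nat_lit 0x30004d002c00160001a00080000000000000000000000000000000) (nat_lit 0x0) (nat_lit 0x400030001c00000004000200010000000000000000000000000000000000000) := T_49 (nat_lit 215) (nat_lit 214) (nat_lit 0) (nat_lit 11) (nat_lit 12) L4227 (by decide +kernel)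
theorem L4229 : W_49 (nat_lit 6) (nat_lit 0x10004d002c00160001a00080000000000000000000000000000000) (nat_lit 0x0) (nat_lit 0x400034001e00000004000200010000000000000000000000000000000000000) := T_49 (nat_lit 213) (nat_lit 230) (nat_lit 7) (nat_lit 8) (nat_lit 9) L4228 (by decide +kernel)
theorem L4230 : W_49 (nat_lit 7) (nat_lit 0x4d002c00160001a00080000000000000000000000000000000) (nat_lit 0x0) (nat_lit 0x400036001f00000004000200010000000000000000000000000000000000000) := T_49 (nat_lit 212) (nat_lit 229) (nat_lit 6) (nat_lit 8) (nat_lit 13) L4229 (by decide +kernel)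
theorem L4231 : W_49 (nat_lit 8) (nat_lit 0x4d002c00160001800080000000000000000000000000000000) (nat_lit 0x0) (nat_lit 0x400036001f00000004000200010600000000000000000000000000000000000) := T_49 (nat_lit 141) (nat_lit 142) (nat_lit 3) (nat_lit 5) (nat_lit 8) L4230 (by decide +kernel)
theorem L4232 : W_49 (nat_lit 9) (nat_lit 0x4c002c00160001800080000000000000000000000000000000) (nat_lit 0x0) (nat_lit 0x400036001f00003004000200010600000000000000000000000000000000000) := T_49 (nat_lit 192) (nat_lit 193) (nat_lit 2) (nat_lit 5) (nat_lit 11) L4231 (by decide +kernel)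
theorem L4233 : W_49 (nat_lit 10) (nat_lit 0x4c002c00120001800080000000000000000000000000000000) (nat_lit 0x0) (nat_lit 0x400036001f00003004000240010600000004000000000000000000000000000) := T_49 (nat_lit 162) (nat_lit 110) (nat_lit 7) (nat_lit 8) (nat_lit 6) L4232 (by decide +kernel)
theorem L4234 : W_49 (nat_lit 11) (nat_lit 0x4c002400120001800080000000000000000000000000000000) (nat_lit 0x0) (nat_lit 0x400036001f00003005800240010600000004000000000000000000000000000) := T_49 (nat_lit 179) (nat_lit 180) (nat_lit 1) (nat_lit 11) (nat_lit 10) L4233 (by decide +kernel)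
theorem L4235 : W_49 (nat_lit 12) (nat_lit 0x44002400120001800080000000000000000000000000000000) (nat_lit 0x0) (nat_lit 0x400036001f8000b005800240010600000004000000000000000000000000000) := T_49 (nat_lit 195) (nat_lit 211) (nat_lit 5) (nat_lit 8) (nat_lit 8) L4234 (by decide +kernel)
theorem L4236 : W_49 (nat_lit 13) (nat_lit 0x40002400120001800080000000000000000000000000000000) (nat_lit 0x0) (nat_lit 0x400036001f8000f005a00240010600000004000000000000000000000000000) := T_49 (nat_lit 194) (nat_lit 177) (nat_lit 5) (nat_lit 8) (nat_lit 7) L4235 (by decide +kernel)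
theorem L4237 : W_49 (nat_lit 2) (nat_lit 0x1b0004d002c00160009a00080000000000000000000000000000000) (nat_lit 0x0) (nat_lit 0x200010000800000000000000000000000000000000) := D_49 (nat_lit 148) (nat_lit 131) (nat_lit 165) (nat_lit 6) (nat_lit 11) (nat_lit 11) (nat_lit 6) (nat_lit 11) (nat_lit 12) (by decide +kernel)
theorem L4238 : W_49 (nat_lit 3) (nat_lit 0x1b0004d002c00160001a00080000000000000000000000000000000) (nat_lit 0x0) (nat_lit 0x80000000200018000800000000000000000000000000000000) := T_49 (nat_lit 147) (nat_lit 199) (nat_lit 7) (nat_lit 11) (nat_lit 8) L4237 (by decide +kernel)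
theorem L4239 : W_49 (nat_lit 4) (nat_lit 0xb0004d002c00160001a00080000000000000000000000000000000) (nat_lit 0x0) (nat_lit 0x20001000080000000200018000800000000000000000000000000000000) := T_49 (nat_lit 216) (nat_lit 233) (nat_lit 7) (nat_lit 11) (nat_lit 9) L4238 (by decide +kernel)
theorem L4240 : W_49 (nat_lit 5) (nat_lit 0x30004d002c00160001a00080000000000000000000000000000000) (nat_lit 0x0) (nat_lit 0x20001c00080000000200018000800000000000000000000000000000000) := T_49 (nat_lit 215) (nat_lit 214) (nat_lit 0) (nat_lit 11) (nat_lit 12) L4239 (by decide +kernel)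
theorem L4241 : W_49 (nat_lit 6) (nat_lit 0x10004d002c00160001a00080000000000000000000000000000000) (nat_lit 0x0) (nat_lit 0x24001e00080000000200018000800000000000000000000000000000000) := T_49 (nat_lit 213) (nat_lit 230) (nat_lit 7) (nat_lit 8) (nat_lit 9) L4240 (by decide +kernel)
theorem L4242 : W_49 (nat_lit 7) (nat_lit 0x4d002c00160001a00080000000000000000000000000000000) (nat_lit 0x0) (nat_lit 0x26001f00080000000200018000800000000000000000000000000000000) := T_49 (nat_lit 212) (nat_lit 229) (nat_lit 6) (nat_lit 8) (nat_lit 13) L4241 (by decide +kernel)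
theorem L4243 : W_49 (nat_lit 8) (nat_lit 0x4d002c00160001800080000000000000000000000000000000) (nat_lit 0x0) (nat_lit 0x26001f00080000000200018600800000000000000000000000000000000) := T_49 (nat_lit 141) (nat_lit 142) (nat_lit 3) (nat_lit 5) (nat_lit 8) L4242 (by decide +kernel)
theorem L4244 : W_49 (nat_lit 9) (nat_lit 0x4c002c00160001800080000000000000000000000000000000) (nat_lit 0x0) (nat_lit 0x26001f00083000000200018600800000000000000000000000000000000) := T_49 (nat_lit 192) (nat_lit 193) (nat_lit 2) (nat_lit 5) (nat_lit 11) L4243 (by decide +kernel)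
theorem L4245 : W_49 (nat_lit 10) (nat_lit 0x4c002c00120001800080000000000000000000000000000000) (nat_lit 0x0) (nat_lit 0x26001f00083000000240018600800004000000000000000000000000000) := T_49 (nat_lit 162) (nat_lit 110) (nat_lit 7) (nat_lit 8) (nat_lit 6) L4244 (by decide +kernel)
theorem L4246 : W_49 (nat_lit 11) (nat_lit 0x4c002400120001800080000000000000000000000000000000) (nat_lit 0x0) (nat_lit 0x26001f00083001800240018600800004000000000000000000000000000) := T_49 (nat_lit 179) (nat_lit 180) (nat_lit 1) (nat_lit 11) (nat_lit 10) L4245 (by decide +kernel)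
theorem L4247 : W_49 (nat_lit 12) (nat_lit 0x44002400120001800080000000000000000000000000000000) (nat_lit 0x0) (nat_lit 0x26001f8008b001800240018600800004000000000000000000000000000) := T_49 (nat_lit 195) (nat_lit 211) (nat_lit 5) (nat_lit 8) (nat_lit 8) L4246 (by decide +kernel)
theorem L4248 : W_49 (nat_lit 13) (nat_lit 0x40002400120001800080000000000000000000000000000000) (nat_lit 0x0) (nat_lit 0x26001f8008f001a00240018600800004000000000000000000000000000) := T_49 (nat_lit 194) (nat_lit 177) (nat_lit 5) (nat_lit 8) (nat_lit 7) L4247 (by decide +kernel)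
theorem L4249 : W_49 (nat_lit 2) (nat_lit 0x7000cd002c00160009800280000000000000000000000000000000) (nat_lit 0x0) (nat_lit 0x4000000000000400010000000000000000000000000000) := D_49 (nat_lit 130) (nat_lit 182) (nat_lit 112) (nat_lit 7) (nat_lit 11) (nat_lit 7) (nat_lit 4) (nat_lit 11) (nat_lit 10) (by decide +kernel)
theorem L4250 : W_49 (nat_lit 3) (nat_lit 0x70004d002c00160009800280000000000000000000000000000000) (nat_lit 0x0) (nat_lit 0x1000080004000000000000400010000000000000000000000000000) := T_49 (nat_lit 199) (nat_lit 216) (nat_lit 7) (nat_lit 11) (nat_lit 8) L4249 (by decide +kernel)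
theorem L4251 : W_49 (nat_lit 4) (nat_lit 0x70004d002c00160009800080000000000000000000000000000000) (nat_lit 0x0) (nat_lit 0x1000080004000000004000600010000000000000000000000000000) := T_49 (nat_lit 129) (nat_lit 146) (nat_lit 4) (nat_lit 11) (nat_lit 11) L4250 (by decide +kernel)
theorem L4252 : W_49 (nat_lit 5) (nat_lit 0x70004d002c00160001800080000000000000000000000000000000) (nat_lit 0x0) (nat_lit 0x10000a000400000000c000600010000000000000000000000000000) := T_49 (nat_lit 147) (nat_lit 197) (nat_lit 5) (nat_lit 11) (nat_lit 8) L4251 (by decide +kernel)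
theorem L4253 : W_49 (nat_lit 6) (nat_lit 0x30004d002c00160001800080000000000000000000000000000000) (nat_lit 0x0) (nat_lit 0x1c000a000400000000c000600010000000000000000000000000000) := T_49 (nat_lit 214) (nat_lit 215) (nat_lit 0) (nat_lit 11) (nat_lit 12) L4252 (by decide +kernel)
theorem L4254 : W_49 (nat_lit 7) (nat_lit 0x10004d002c00160001800080000000000000000000000000000000) (nat_lit 0x0) (nat_lit 0x4001e000a000400000000c000600010000000000000000000000000000) := T_49 (nat_lit 213) (nat_lit 230) (nat_lit 7) (nat_lit 8) (nat_lit 9) L4253 (by decide +kernel)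
theorem L4255 : W_49 (nat_lit 8) (nat_lit 0x4d002c00160001800080000000000000000000000000000000) (nat_lit 0x0) (nat_lit 0x6001f000a000400000000c000600010000000000000000000000000000) := T_49 (nat_lit 212) (nat_lit 229) (nat_lit 6) (nat_lit 8) (nat_lit 13) L4254 (by decide +kernel)
theorem L4256 : W_49 (nat_lit 9) (nat_lit 0x4c002c00160001800080000000000000000000000000000000) (nat_lit 0x0) (nat_lit 0x6001f000a300400000000c000600010000000000000000000000000000) := T_49 (nat_lit 192) (nat_lit 193) (nat_lit 2) (nat_lit 5) (nat_lit 11) L4255 (by decide +kernel)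
theorem L4257 : W_49 (nat_lit 10) (nat_lit 0x4c002c00120001800080000000000000000000000000000000) (nat_lit 0x0) (nat_lit 0x6001f000a300400004000c000600014000000000000000000000000000) := T_49 (nat_lit 162) (nat_lit 110) (nat_lit 7) (nat_lit 8) (nat_lit 6) L4256 (by decide +kernel)
theorem L4258 : W_49 (nat_lit 11) (nat_lit 0x4c002400120001800080000000000000000000000000000000) (nat_lit 0x0) (nat_lit 0x6001f000a300580004000c000600014000000000000000000000000000) := T_49 (nat_lit 179) (nat_lit 180) (nat_lit 1) (nat_lit 11) (nat_lit 10) L4257 (by decide +kernel)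
theorem L4259 : W_49 (nat_lit 12) (nat_lit 0x44002400120001800080000000000000000000000000000000) (nat_lit 0x0) (nat_lit 0x6001f800ab00580004000c000600014000000000000000000000000000) := T_49 (nat_lit 195) (nat_lit 211) (nat_lit 5) (nat_lit 8) (nat_lit 8) L4258 (by decide +kernel)
theorem L4260 : W_49 (nat_lit 13) (nat_lit 0x40002400120001800080000000000000000000000000000000) (nat_lit 0x0) (nat_lit 0x6001f800af005a0004000c000600014000000000000000000000000000) := T_49 (nat_lit 194) (nat_lit 177) (nat_lit 5) (nat_lit 8) (nat_lit 7) L4259 (by decide +kernel)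
theorem L4261 : W_49 (nat_lit 2) (nat_lit 0x1c0007600b2003d800080000000000000000000000000000000) (nat_lit 0x0) (nat_lit 0x10000c0000000000000000000000000000000000000) := D_49 (nat_lit 150) (nat_lit 151) (nat_lit 168) (nat_lit 1) (nat_lit 15) (nat_lit 8) (nat_lit 3) (nat_lit 11) (nat_lit 8) (by decide +kernel)
theorem L4262 : W_49 (nat_lit 3) (nat_lit 0x1c000760032003d800080000000000000000000000000000000) (nat_lit 0x0) (nat_lit 0x1c000c0000000000000000000000000000000000000) := T_49 (nat_lit 167) (nat_lit 166) (nat_lit 3) (nat_lit 10) (nat_lit 8) L4261 (by decide +kernel)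
theorem L4263 : W_49 (nat_lit 4) (nat_lit 0x1c000760032001d800080000000000000000000000000000000) (nat_lit 0x0) (nat_lit 0x1c000e0001000000000000000000000000000000000) := T_49 (nat_lit 149) (nat_lit 132) (nat_lit 6) (nat_lit 12) (nat_lit 11) L4262 (by decide +kernel)
theorem L4264 : W_49 (nat_lit 5) (nat_lit 0x1c000360032001d800080000000000000000000000000000000) (nat_lit 0x0) (nat_lit 0x2000000004001c000e0001000000000000000000000000000000000) := T_49 (nat_lit 182) (nat_lit 217) (nat_lit 7) (nat_lit 12) (nat_lit 8) L4263 (by decide +kernel)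
theorem L4265 : W_49 (nat_lit 6) (nat_lit 0x1c000360012001d800080000000000000000000000000000000) (nat_lit 0x0) (nat_lit 0x2800000004001e000e0001000000000000000000000000000000000) := T_49 (nat_lit 165) (nat_lit 215) (nat_lit 6) (nat_lit 11) (nat_lit 12) L4264 (by decide +kernel)
theorem L4266 : W_49 (nat_lit 7) (nat_lit 0x1c0003600120019800080000000000000000000000000000000) (nat_lit 0x0) (nat_lit 0x2800000004001e000e4001200000000000000000000000000000000) := T_49 (nat_lit 146) (nat_lit 129) (nat_lit 4) (nat_lit 11) (nat_lit 11) L4265 (by decide +kernel)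
theorem L4267 : W_49 (nat_lit 8) (nat_lit 0x1c0003600120009800080000000000000000000000000000000) (nat_lit 0x0) (nat_lit 0x2800000004001e000f4001a00000000000000000000000000000000) := T_49 (nat_lit 148) (nat_lit 131) (nat_lit 6) (nat_lit 11) (nat_lit 11) L4266 (by decide +kernel)
theorem L4268 : W_49 (nat_lit 9) (nat_lit 0xc0003600120009800080000000000000000000000000000000) (nat_lit 0x0) (nat_lit 0x2800300004001e000f4001a00000000000000000000000000000000) := T_49 (nat_lit 200) (nat_lit 201) (nat_lit 0) (nat_lit 14) (nat_lit 11) L4267 (by decide +kernel)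
theorem L4269 : W_49 (nat_lit 10) (nat_lit 0xc0002600120009800080000000000000000000000000000000) (nat_lit 0x0) (nat_lit 0x2800300005801e000f4001a00000000000000000000000000000000) := T_49 (nat_lit 180) (nat_lit 179) (nat_lit 3) (nat_lit 8) (nat_lit 10) L4268 (by decide +kernel)
theorem L4270 : W_49 (nat_lit 11) (nat_lit 0x40002600120009800080000000000000000000000000000000) (nat_lit 0x0) (nat_lit 0x3800380005801e000f4001a00000000000000000000000000000000) := T_49 (nat_lit 199) (nat_lit 216) (nat_lit 7) (nat_lit 11) (nat_lit 8) L4269 (by decide +kernel)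
theorem L4271 : W_49 (nat_lit 12) (nat_lit 0x40002400120009800080000000000000000000000000000000) (nat_lit 0x0) (nat_lit 0x3800384005a01e000f4001a00000000000000000000000000000000) := T_49 (nat_lit 177) (nat_lit 194) (nat_lit 5) (nat_lit 8) (nat_lit 7) L4270 (by decide +kernel)
theorem L4272 : W_49 (nat_lit 2) (nat_lit 0x800040002600120019800080000000000000000000000000000000) (nat_lit 0x0) (nat_lit 0x20001000080000000000000000000000000000000000000000000000000) := D_49 (nat_lit 216) (nat_lit 199) (nat_lit 233) (nat_lit 7) (nat_lit 11) (nat_lit 8) (nat_lit 7) (nat_lit 11) (nat_lit 9) (by decide +kernel)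
theorem L4273 : W_49 (nat_lit 3) (nat_lit 0x40002600120019800080000000000000000000000000000000) (nat_lit 0x0) (nat_lit 0x20001800080000000200000000000000000000000000000000000000000) := T_49 (nat_lit 215) (nat_lit 165) (nat_lit 6) (nat_lit 11) (nat_lit 12) L4272 (by decide +kernel)
theorem L4274 : W_49 (nat_lit 4) (nat_lit 0x40002400120019800080000000000000000000000000000000) (nat_lit 0x0) (nat_lit 0x20001800084000200200000000000000000000000000000000000000000) := T_49 (nat_lit 177) (nat_lit 194) (nat_lit 5) (nat_lit 8) (nat_lit 7) L4273 (by decide +kernel)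
theorem L4275 : W_49 (nat_lit 5) (nat_lit 0x40002400120009800080000000000000000000000000000000) (nat_lit 0x0) (nat_lit 0x20001800084000200200010000800000000000000000000000000000000) := T_49 (nat_lit 148) (nat_lit 131) (nat_lit 6) (nat_lit 11) (nat_lit 11) L4274 (by decide +kernel)
theorem L4276 : W_49 (nat_lit 2) (nat_lit 0x40003600b2001d800480000000000000000000000000000000) (nat_lit 0x0) (nat_lit 0x4000000000000000020001000000000000000000000000) := D_49 (nat_lit 113) (nat_lit 96) (nat_lit 182) (nat_lit 7) (nat_lit 11) (nat_lit 5) (nat_lit 7) (nat_lit 11) (nat_lit 6) (by decide +kernel)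
theorem L4277 : W_49 (nat_lit 3) (nat_lit 0x40003600b2001d800080000000000000000000000000000000) (nat_lit 0x0) (nat_lit 0x20004000000000000400020001000000000000000000000000) := T_49 (nat_lit 130) (nat_lit 197) (nat_lit 5) (nat_lit 11) (nat_lit 7) L4276 (by decide +kernel)
theorem L4278 : W_49 (nat_lit 4) (nat_lit 0x40002600b2001d800080000000000000000000000000000000) (nat_lit 0x0) (nat_lit 0x20005800000000000400020001000000000000000000000000) := T_49 (nat_lit 180) (nat_lit 179) (nat_lit 2) (nat_lit 8) (nat_lit 10) L4277 (by decide +kernel)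
theorem L4279 : W_49 (nat_lit 5) (nat_lit 0x4000260032001d800080000000000000000000000000000000) (nat_lit 0x0) (nat_lit 0x20005800c00000000400020001000000000000000000000000) := T_49 (nat_lit 167) (nat_lit 166) (nat_lit 0) (nat_lit 14) (nat_lit 9) L4278 (by decide +kernel)
theorem L4280 : W_49 (nat_lit 6) (nat_lit 0x40002600320019800080000000000000000000000000000000) (nat_lit 0x0) (nat_lit 0x20005800c00004000600020001000000000000000000000000) := T_49 (nat_lit 146) (nat_lit 129) (nat_lit 4) (nat_lit 11) (nat_lit 11) L4279 (by decide +kernel)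
theorem L4281 : W_49 (nat_lit 7) (nat_lit 0x40002600120019800080000000000000000000000000000000) (nat_lit 0x0) (nat_lit 0x800020005800e00004000600020001000000000000000000000000) := T_49 (nat_lit 165) (nat_lit 215) (nat_lit 6) (nat_lit 11) (nat_lit 12) L4280 (by decide +kernel)
theorem L4282 : W_49 (nat_lit 8) (nat_lit 0x40002400120019800080000000000000000000000000000000) (nat_lit 0x0) (nat_lit 0x800024005a00e00004000600020001000000000000000000000000) := T_49 (nat_lit 177) (nat_lit 194) (nat_lit 5) (nat_lit 8) (nat_lit 7) L4281 (by decide +kernel)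
theorem L4283 : W_49 (nat_lit 9) (nat_lit 0x40002400120009800080000000000000000000000000000000) (nat_lit 0x0) (nat_lit 0x800024005a00e00014000e00020001000000000000000000000000) := T_49 (nat_lit 148) (nat_lit 131) (nat_lit 6) (nat_lit 11) (nat_lit 11) L4282 (by decide +kernel)
theorem L4284 : W_49 (nat_lit 13) (nat_lit 0x40002400120001800080000000000000000000000000000000) (nat_lit 0x0) (nat_lit 0x200038003a4005a01e000fc001e00030001000000000000000000000000) := Q_49 (nat_lit 147) (C_49 L4223 (C_49 L4095 (C_49 L4271 (C_49 L4275 (C_49 L4103 (C_49 L4283 N_49)))))) (by decide +kernel)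
theorem L4285 : W_49 (nat_lit 2) (nat_lit 0x70004d002c00160009800a80000000000000000000000000000000) (nat_lit 0x0) (nat_lit 0x400050000000000000000000000000000) := D_49 (nat_lit 130) (nat_lit 112) (nat_lit 114) (nat_lit 4) (nat_lit 11) (nat_lit 10) (nat_lit 6) (nat_lit 11) (nat_lit 10) (by decide +kernel)
theorem L4286 : W_49 (nat_lit 3) (nat_lit 0x70004d002c00160009800280000000000000000000000000000000) (nat_lit 0x0) (nat_lit 0x10000c00050000000000000000000000000000) := T_49 (nat_lit 131) (nat_lit 148) (nat_lit 6) (nat_lit 11) (nat_lit 11) L4285 (by decide +kernel)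
theorem L4287 : W_49 (nat_lit 4) (nat_lit 0x70004d002c00160009800080000000000000000000000000000000) (nat_lit 0x0) (nat_lit 0x14000e00050000000000000000000000000000) := T_49 (nat_lit 129) (nat_lit 146) (nat_lit 4) (nat_lit 11) (nat_lit 11) L4286 (by decide +kernel)
theorem L4288 : W_49 (nat_lit 5) (nat_lit 0x70004d002c00160001800080000000000000000000000000000000) (nat_lit 0x0) (nat_lit 0x2000000000001c000e00050000000000000000000000000000) := T_49 (nat_lit 147) (nat_lit 197) (nat_lit 5) (nat_lit 11) (nat_lit 8) L4287 (by decide +kernel)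
theorem L4289 : W_49 (nat_lit 6) (nat_lit 0x30004d002c00160001800080000000000000000000000000000000) (nat_lit 0x0) (nat_lit 0xc0002000000000001c000e00050000000000000000000000000000) := T_49 (nat_lit 214) (nat_lit 215) (nat_lit 0) (nat_lit 11) (nat_lit 12) L4288 (by decide +kernel)
theorem L4290 : W_49 (nat_lit 7) (nat_lit 0x10004d002c00160001800080000000000000000000000000000000) (nat_lit 0x0) (nat_lit 0x4000e0002000000000001c000e00050000000000000000000000000000) := T_49 (nat_lit 213) (nat_lit 230) (nat_lit 7) (nat_lit 8) (nat_lit 9) L4289 (by decide +kernel)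
theorem L4291 : W_49 (nat_lit 8) (nat_lit 0x4d002c00160001800080000000000000000000000000000000) (nat_lit 0x0) (nat_lit 0x6000f0002000000000001c000e00050000000000000000000000000000) := T_49 (nat_lit 212) (nat_lit 229) (nat_lit 6) (nat_lit 8) (nat_lit 13) L4290 (by decide +kernel)
theorem L4292 : W_49 (nat_lit 9) (nat_lit 0x4c002c00160001800080000000000000000000000000000000) (nat_lit 0x0) (nat_lit 0x6000f0002300000000001c000e00050000000000000000000000000000) := T_49 (nat_lit 192) (nat_lit 193) (nat_lit 2) (nat_lit 5) (nat_lit 11) L4291 (by decide +kernel)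
theorem L4293 : W_49 (nat_lit 10) (nat_lit 0x4c002c00120001800080000000000000000000000000000000) (nat_lit 0x0) (nat_lit 0x6000f0002300000004001c000e00054000000000000000000000000000) := T_49 (nat_lit 162) (nat_lit 110) (nat_lit 7) (nat_lit 8) (nat_lit 6) L4292 (by decide +kernel)
theorem L4294 : W_49 (nat_lit 11) (nat_lit 0x4c002400120001800080000000000000000000000000000000) (nat_lit 0x0) (nat_lit 0x6000f0002300180004001c000e00054000000000000000000000000000) := T_49 (nat_lit 179) (nat_lit 180) (nat_lit 1) (nat_lit 11) (nat_lit 10) L4293 (by decide +kernel)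
theorem L4295 : W_49 (nat_lit 12) (nat_lit 0x44002400120001800080000000000000000000000000000000) (nat_lit 0x0) (nat_lit 0x6000f8002b00180004001c000e00054000000000000000000000000000) := T_49 (nat_lit 195) (nat_lit 211) (nat_lit 5) (nat_lit 8) (nat_lit 8) L4294 (by decide +kernel)
theorem L4296 : W_49 (nat_lit 13) (nat_lit 0x40002400120001800080000000000000000000000000000000) (nat_lit 0x0) (nat_lit 0x6000f8002f001a0004001c000e00054000000000000000000000000000) := T_49 (nat_lit 194) (nat_lit 177) (nat_lit 5) (nat_lit 8) (nat_lit 7) L4295 (by decide +kernel)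
theorem L4297 : W_49 (nat_lit 14) (nat_lit 0x2400120001800080000000000000000000000000000000) (nat_lit 0x0) (nat_lit 0x50003e007f803ef01da01e400fc601e0007c001400000000000000000000000) := Q_49 (nat_lit 198) (C_49 L4053 (C_49 L4118 (C_49 L4224 (C_49 L4236 (C_49 L4248 (C_49 L4260 (C_49 L4284 (C_49 L4296 N_49)))))))) (by decide +kernel)
theorem L4298 : W_49 (nat_lit 2) (nat_lit 0xc000400024001a0009800080000000000000000000000000000000) (nat_lit 0x0) (nat_lit 0x20001000080000000000000000000000000000000000000000000000000) := D_49 (nat_lit 216) (nat_lit 233) (nat_lit 199) (nat_lit 7) (nat_lit 11) (nat_lit 9) (nat_lit 7) (nat_lit 11) (nat_lit 8) (by decide +kernel)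
theorem L4299 : W_49 (nat_lit 3) (nat_lit 0xc000400024001a0001800080000000000000000000000000000000) (nat_lit 0x0) (nat_lit 0x200010000a0000000000008000000000000000000000000000000000000) := T_49 (nat_lit 147) (nat_lit 197) (nat_lit 5) (nat_lit 11) (nat_lit 8) L4298 (by decide +kernel)
theorem L4300 : W_49 (nat_lit 4) (nat_lit 0x8000400024001a0001800080000000000000000000000000000000) (nat_lit 0x0) (nat_lit 0x280014000a0000000000008000000000000000000000000000000000000) := T_49 (nat_lit 214) (nat_lit 231) (nat_lit 5) (nat_lit 11) (nat_lit 9) L4299 (by decide +kernel)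
theorem L4301 : W_49 (nat_lit 5) (nat_lit 0x400024001a0001800080000000000000000000000000000000) (nat_lit 0x0) (nat_lit 0x28001c000a000000000000c000000000000000000000000000000000000) := T_49 (nat_lit 215) (nat_lit 146) (nat_lit 4) (nat_lit 11) (nat_lit 12) L4300 (by decide +kernel)
theorem L4302 : W_49 (nat_lit 6) (nat_lit 0x40002400120001800080000000000000000000000000000000) (nat_lit 0x0) (nat_lit 0x28001c000a00000000c000c000000000000000000000000000000000000) := T_49 (nat_lit 163) (nat_lit 162) (nat_lit 0) (nat_lit 11) (nat_lit 9) L4301 (by decide +kernel)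
theorem L4303 : W_49 (nat_lit 2) (nat_lit 0x20000c000400026003a0001800080000000000000000000000000000000) (nat_lit 0x0) (nat_lit 0x400010000000000004000000000000000000000000000000000000000000000) := D_49 (nat_lit 232) (nat_lit 250) (nat_lit 182) (nat_lit 7) (nat_lit 11) (nat_lit 10) (nat_lit 6) (nat_lit 11) (nat_lit 13) (by decide +kernel)
theorem L4304 : W_49 (nat_lit 3) (nat_lit 0x20000c000400026001a0001800080000000000000000000000000000000) (nat_lit 0x0) (nat_lit 0x400010000000000004000200010000000000000000000000000000000000000) := T_49 (nat_lit 165) (nat_lit 148) (nat_lit 6) (nat_lit 11) (nat_lit 12) L4303 (by decide +kernel)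
theorem L4305 : W_49 (nat_lit 4) (nat_lit 0xc000400026001a0001800080000000000000000000000000000000) (nat_lit 0x0) (nat_lit 0x400030001000000004000200010000000000000000000000000000000000000) := T_49 (nat_lit 233) (nat_lit 216) (nat_lit 7) (nat_lit 11) (nat_lit 9) L4304 (by decide +kernel)
theorem L4306 : W_49 (nat_lit 5) (nat_lit 0x8000400026001a0001800080000000000000000000000000000000) (nat_lit 0x0) (nat_lit 0x400038001400000004000200010000000000000000000000000000000000000) := T_49 (nat_lit 214) (nat_lit 231) (nat_lit 5) (nat_lit 11) (nat_lit 9) L4305 (by decide +kernel)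
theorem L4307 : W_49 (nat_lit 6) (nat_lit 0x400026001a0001800080000000000000000000000000000000) (nat_lit 0x0) (nat_lit 0x400038001c00000004000200014000000000000000000000000000000000000) := T_49 (nat_lit 215) (nat_lit 146) (nat_lit 4) (nat_lit 11) (nat_lit 12) L4306 (by decide +kernel)
theorem L4308 : W_49 (nat_lit 7) (nat_lit 0x400024001a0001800080000000000000000000000000000000) (nat_lit 0x0) (nat_lit 0x400038001c00004004200200014000000000000000000000000000000000000) := T_49 (nat_lit 177) (nat_lit 194) (nat_lit 5) (nat_lit 8) (nat_lit 7) L4307 (by decide +kernel)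
theorem L4309 : W_49 (nat_lit 8) (nat_lit 0x40002400120001800080000000000000000000000000000000) (nat_lit 0x0) (nat_lit 0x400038001c000040042002c0014000000000000000000000000000000000000) := T_49 (nat_lit 163) (nat_lit 162) (nat_lit 0) (nat_lit 11) (nat_lit 9) L4308 (by decide +kernel)
theorem L4310 : W_49 (nat_lit 2) (nat_lit 0x1000100018000c00026003a0001800080000000000000000000000000000000) (nat_lit 0x0) (nat_lit 0x6000200000000000000000000000000000000000000000000000000000000000000) := D_49 (nat_lit 249) (nat_lit 266) (nat_lit 265) (nat_lit 6) (nat_lit 11) (nat_lit 15) (nat_lit 5) (nat_lit 11) (nat_lit 11) (by decide +kernel)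
theorem L4311 : W_49 (nat_lit 3) (nat_lit 0x100018000c00026003a0001800080000000000000000000000000000000) (nat_lit 0x0) (nat_lit 0x6000300008000000000000000000000000000000000000000000000000000000000) := T_49 (nat_lit 248) (nat_lit 231) (nat_lit 5) (nat_lit 11) (nat_lit 10) L4310 (by decide +kernel)
theorem L4312 : W_49 (nat_lit 4) (nat_lit 0x18000c00026003a0001800080000000000000000000000000000000) (nat_lit 0x0) (nat_lit 0x6000300018000000000004000000000000000000000000000000000000000000000) := T_49 (nat_lit 232) (nat_lit 182) (nat_lit 6) (nat_lit 11) (nat_lit 13) L4311 (by decide +kernel)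
theorem L4313 : W_49 (nat_lit 5) (nat_lit 0x18000400026003a0001800080000000000000000000000000000000) (nat_lit 0x0) (nat_lit 0x6000300018000000080004000000008000000000000000000000000000000000000) := T_49 (nat_lit 199) (nat_lit 147) (nat_lit 7) (nat_lit 11) (nat_lit 8) L4312 (by decide +kernel)
theorem L4314 : W_49 (nat_lit 6) (nat_lit 0x8000400026003a0001800080000000000000000000000000000000) (nat_lit 0x0) (nat_lit 0x6000300038001000080004000000008000000000000000000000000000000000000) := T_49 (nat_lit 216) (nat_lit 233) (nat_lit 7) (nat_lit 11) (nat_lit 9) L4313 (by decide +kernel)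
theorem L4315 : W_49 (nat_lit 7) (nat_lit 0x8000400026001a0001800080000000000000000000000000000000) (nat_lit 0x0) (nat_lit 0x6000300038001000080004000200018000000000000000000000000000000000000) := T_49 (nat_lit 165) (nat_lit 148) (nat_lit 6) (nat_lit 11) (nat_lit 12) L4314 (by decide +kernel)
theorem L4316 : W_49 (nat_lit 8) (nat_lit 0x400026001a0001800080000000000000000000000000000000) (nat_lit 0x0) (nat_lit 0x600030003800180008000400020001c000000000000000000000000000000000000) := T_49 (nat_lit 215) (nat_lit 146) (nat_lit 4) (nat_lit 11) (nat_lit 12) L4315 (by decide +kernel)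
theorem L4317 : W_49 (nat_lit 9) (nat_lit 0x400024001a0001800080000000000000000000000000000000) (nat_lit 0x0) (nat_lit 0x600030003800180008400420020001c000000000000000000000000000000000000) := T_49 (nat_lit 177) (nat_lit 194) (nat_lit 5) (nat_lit 8) (nat_lit 7) L4316 (by decide +kernel)
theorem L4318 : W_49 (nat_lit 10) (nat_lit 0x40002400120001800080000000000000000000000000000000) (nat_lit 0x0) (nat_lit 0x60003000380018000840042002c001c000000000000000000000000000000000000) := T_49 (nat_lit 163) (nat_lit 162) (nat_lit 0) (nat_lit 11) (nat_lit 9) L4317 (by decide +kernel)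
theorem L4319 : W_49 (nat_lit 2) (nat_lit 0x400026001a0009800680000000000000000000000000000000) (nat_lit 0x0) (nat_lit 0x10000800040000000000000000000000000000) := D_49 (nat_lit 131) (nat_lit 148) (nat_lit 114) (nat_lit 6) (nat_lit 11) (nat_lit 11) (nat_lit 6) (nat_lit 11) (nat_lit 10) (by decide +kernel)
theorem L4320 : W_49 (nat_lit 3) (nat_lit 0x400026001a0009800280000000000000000000000000000000) (nat_lit 0x0) (nat_lit 0x10000c00050000000000000000000000000000) := T_49 (nat_lit 130) (nat_lit 112) (nat_lit 4) (nat_lit 11) (nat_lit 10) L4319 (by decide +kernel)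
theorem L4321 : W_49 (nat_lit 4) (nat_lit 0x400024001a0009800280000000000000000000000000000000) (nat_lit 0x0) (nat_lit 0x4000200000010000c00050000000000000000000000000000) := T_49 (nat_lit 177) (nat_lit 194) (nat_lit 5) (nat_lit 8) (nat_lit 7) L4320 (by decide +kernel)
theorem L4322 : W_49 (nat_lit 5) (nat_lit 0x400024001a0009800080000000000000000000000000000000) (nat_lit 0x0) (nat_lit 0x4000200000014000e00050000000000000000000000000000) := T_49 (nat_lit 129) (nat_lit 146) (nat_lit 4) (nat_lit 11) (nat_lit 11) L4321 (by decide +kernel)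
theorem L4323 : W_49 (nat_lit 6) (nat_lit 0x40002400120009800080000000000000000000000000000000) (nat_lit 0x0) (nat_lit 0x40002000c0014000e00050000000000000000000000000000) := T_49 (nat_lit 163) (nat_lit 162) (nat_lit 0) (nat_lit 11) (nat_lit 9) L4322 (by decide +kernel)
theorem L4324 : W_49 (nat_lit 10) (nat_lit 0x40002400120001800080000000000000000000000000000000) (nat_lit 0x0) (nat_lit 0x100008400c200ec007c003e00050000000000000000000000000000) := Q_49 (nat_lit 147) (C_49 L4223 (C_49 L4160 (C_49 L4091 (C_49 L4323 (C_49 L4103 N_49))))) (by decide +kernel)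
theorem L4325 : W_49 (nat_lit 2) (nat_lit 0xc000400026001a0009800080000000000000000000000000000000) (nat_lit 0x0) (nat_lit 0x200010000800000000000000000000000000000000) := D_49 (nat_lit 148) (nat_lit 165) (nat_lit 131) (nat_lit 6) (nat_lit 11) (nat_lit 12) (nat_lit 6) (nat_lit 11) (nat_lit 11) (by decide +kernel)
theorem L4326 : W_49 (nat_lit 3) (nat_lit 0xc000400026001a0001800080000000000000000000000000000000) (nat_lit 0x0) (nat_lit 0x20000000200018000800000000000000000000000000000000) := T_49 (nat_lit 147) (nat_lit 197) (nat_lit 5) (nat_lit 11) (nat_lit 8) L4325 (by decide +kernel)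
theorem L4327 : W_49 (nat_lit 4) (nat_lit 0x8000400026001a0001800080000000000000000000000000000000) (nat_lit 0x0) (nat_lit 0x8000400020000000200018000800000000000000000000000000000000) := T_49 (nat_lit 214) (nat_lit 231) (nat_lit 5) (nat_lit 11) (nat_lit 9) L4326 (by decide +kernel)
theorem L4328 : W_49 (nat_lit 5) (nat_lit 0x400026001a0001800080000000000000000000000000000000) (nat_lit 0x0) (nat_lit 0x8000c0002000000020001c000800000000000000000000000000000000) := T_49 (nat_lit 215) (nat_lit 146) (nat_lit 4) (nat_lit 11) (nat_lit 12) L4327 (by decide +kernel)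
theorem L4329 : W_49 (nat_lit 6) (nat_lit 0x40002600120001800080000000000000000000000000000000) (nat_lit 0x0) (nat_lit 0x8000c000200000002c001c000800000000000000000000000000000000) := T_49 (nat_lit 163) (nat_lit 162) (nat_lit 1) (nat_lit 11) (nat_lit 9) L4328 (by decide +kernel)
theorem L4330 : W_49 (nat_lit 7) (nat_lit 0x40002400120001800080000000000000000000000000000000) (nat_lit 0x0) (nat_lit 0x8000c000240002002c001c000800000000000000000000000000000000) := T_49 (nat_lit 177) (nat_lit 194) (nat_lit 5) (nat_lit 8) (nat_lit 7) L4329 (by decide +kernel)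
theorem L4331 : W_49 (nat_lit 11) (nat_lit 0x2400120001800080000000000000000000000000000000) (nat_lit 0x0) (nat_lit 0x6000700038001c000e400c200ec007c003e00050000000000000000000000000000) := Q_49 (nat_lit 198) (C_49 L4053 (C_49 L4302 (C_49 L4309 (C_49 L4318 (C_49 L4324 (C_49 L4330 N_49)))))) (by decide +kernel)
theorem L4332 : W_49 (nat_lit 2) (nat_lit 0x3e80160001a00080000000000000000000000000000000) (nat_lit 0x0) (nat_lit 0xe0000000000000000000000000000000000000000000000000) := D_49 (nat_lit 198) (nat_lit 197) (nat_lit 199) (nat_lit 3) (nat_lit 7) (nat_lit 10) (nat_lit 3) (nat_lit 8) (nat_lit 10) (by decide +kernel)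
theorem L4333 : W_49 (nat_lit 3) (nat_lit 0x2e80160001a00080000000000000000000000000000000) (nat_lit 0x0) (nat_lit 0xe0001000200000000000000000000000000000000000000000) := T_49 (nat_lit 180) (nat_lit 165) (nat_lit 2) (nat_lit 8) (nat_lit 10) L4332 (by decide +kernel)
theorem L4334 : W_49 (nat_lit 4) (nat_lit 0x2680160001a00080000000000000000000000000000000) (nat_lit 0x0) (nat_lit 0xe0001800200000000000004000000000000000000000000000) := T_49 (nat_lit 179) (nat_lit 110) (nat_lit 7) (nat_lit 8) (nat_lit 6) L4333 (by decide +kernel)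
theorem L4335 : W_49 (nat_lit 5) (nat_lit 0x2680160001800080000000000000000000000000000000) (nat_lit 0x0) (nat_lit 0xe0001800200000600000004000000000000000000000000000) := T_49 (nat_lit 141) (nat_lit 142) (nat_lit 3) (nat_lit 5) (nat_lit 8) L4334 (by decide +kernel)
theorem L4336 : W_49 (nat_lit 6) (nat_lit 0x2600160001800080000000000000000000000000000000) (nat_lit 0x0) (nat_lit 0xe0001980200000600000004000000000000000000000000000) := T_49 (nat_lit 175) (nat_lit 176) (nat_lit 2) (nat_lit 5) (nat_lit 10) L4335 (by decide +kernel)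
theorem L4337 : W_49 (nat_lit 7) (nat_lit 0x2400160001800080000000000000000000000000000000) (nat_lit 0x0) (nat_lit 0xe4001b80200000600000004000000000000000000000000000) := T_49 (nat_lit 177) (nat_lit 194) (nat_lit 5) (nat_lit 8) (nat_lit 7) L4336 (by decide +kernel)
theorem L4338 : W_49 (nat_lit 8) (nat_lit 0x2400120001800080000000000000000000000000000000) (nat_lit 0x0) (nat_lit 0xe4001b802c0000600000004000000000000000000000000000) := T_49 (nat_lit 162) (nat_lit 163) (nat_lit 0) (nat_lit 11) (nat_lit 9) L4337 (by decide +kernel)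
theorem L4339 : W_49 (nat_lit 3) (nat_lit 0x2e80160001a00080000000000000000000000000000000) (nat_lit 0x0) (nat_lit 0xe0005000000000000000000000000000000000000000000000) := T_49 (nat_lit 180) (nat_lit 182) (nat_lit 0) (nat_lit 12) (nat_lit 10) L4332 (by decide +kernel)
theorem L4340 : W_49 (nat_lit 4) (nat_lit 0x2e80160001800080000000000000000000000000000000) (nat_lit 0x0) (nat_lit 0xe0005000000000600000000000000000000000000000000000) := T_49 (nat_lit 141) (nat_lit 142) (nat_lit 3) (nat_lit 5) (nat_lit 8) L4339 (by decide +kernel)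
theorem L4341 : W_49 (nat_lit 5) (nat_lit 0x2680160001800080000000000000000000000000000000) (nat_lit 0x0) (nat_lit 0xe0005800000000600000004000000000000000000000000000) := T_49 (nat_lit 179) (nat_lit 110) (nat_lit 7) (nat_lit 8) (nat_lit 6) L4340 (by decide +kernel)
theorem L4342 : W_49 (nat_lit 6) (nat_lit 0x2600160001800080000000000000000000000000000000) (nat_lit 0x0) (nat_lit 0xe0005980000000600000004000000000000000000000000000) := T_49 (nat_lit 175) (nat_lit 176) (nat_lit 2) (nat_lit 5) (nat_lit 10) L4341 (by decide +kernel)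
theorem L4343 : W_49 (nat_lit 7) (nat_lit 0x2600120001800080000000000000000000000000000000) (nat_lit 0x0) (nat_lit 0xe00059800c0000600000004000000000000000000000000000) := T_49 (nat_lit 162) (nat_lit 163) (nat_lit 1) (nat_lit 11) (nat_lit 9) L4342 (by decide +kernel)
theorem L4344 : W_49 (nat_lit 8) (nat_lit 0x2400120001800080000000000000000000000000000000) (nat_lit 0x0) (nat_lit 0xe4005b800c0000600000004000000000000000000000000000) := T_49 (nat_lit 177) (nat_lit 194) (nat_lit 5) (nat_lit 8) (nat_lit 7) L4343 (by decide +kernel)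
theorem L4345 : W_49 (nat_lit 15) (nat_lit 0x400120001800080000000000000000000000000000000) (nat_lit 0x0) (nat_lit 0x600070003e007f803ef01fb81ec00fc603e0007c003c00000000000000000000000) := Q_49 (nat_lit 181) (C_49 L4036 (C_49 L4123 (C_49 L4126 (C_49 L4207 (C_49 L4297 (C_49 L4331 (C_49 L4338 (C_49 L4344 N_49)))))))) (by decide +kernel)
theorem L4346 : W_49 (nat_lit 2) (nat_lit 0x400120001800480000000000000000000000000000000) (nat_lit 0x0) (nat_lit 0x300008000000000000000000000000000) := D_49 (nat_lit 128) (nat_lit 111) (nat_lit 129) (nat_lit 6) (nat_lit 8) (nat_lit 10) (nat_lit 1) (nat_lit 11) (nat_lit 7) (by decide +kernel)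
theorem L4347 : W_49 (nat_lit 2) (nat_lit 0x7e00120009800480030000000000000000000000000000) (nat_lit 0x0) (nat_lit 0x800040002000000000000000000000000) := D_49 (nat_lit 114) (nat_lit 131) (nat_lit 97) (nat_lit 6) (nat_lit 11) (nat_lit 10) (nat_lit 6) (nat_lit 11) (nat_lit 9) (by decide +kernel)
theorem L4348 : W_49 (nat_lit 3) (nat_lit 0x7e00120009800480010000000000000000000000000000) (nat_lit 0x0) (nat_lit 0x800060002800000000000000000000000) := T_49 (nat_lit 113) (nat_lit 95) (nat_lit 4) (nat_lit 11) (nat_lit 9) L4347 (by decide +kernel)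
theorem L4349 : W_49 (nat_lit 4) (nat_lit 0x3e00120009800480010000000000000000000000000000) (nat_lit 0x0) (nat_lit 0x80004000000000000800060002800000000000000000000000) := T_49 (nat_lit 182) (nat_lit 199) (nat_lit 7) (nat_lit 11) (nat_lit 7) L4348 (by decide +kernel)
theorem L4350 : W_49 (nat_lit 5) (nat_lit 0x3e00120009800480000000000000000000000000000000) (nat_lit 0x0) (nat_lit 0x80004000000000000a00070002800000000000000000000000) := T_49 (nat_lit 112) (nat_lit 129) (nat_lit 4) (nat_lit 11) (nat_lit 10) L4349 (by decide +kernel)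
theorem L4351 : W_49 (nat_lit 6) (nat_lit 0x3e00120001800480000000000000000000000000000000) (nat_lit 0x0) (nat_lit 0xa0004000000008000a00070002800000000000000000000000) := T_49 (nat_lit 147) (nat_lit 197) (nat_lit 5) (nat_lit 11) (nat_lit 7) L4350 (by decide +kernel)
theorem L4352 : W_49 (nat_lit 7) (nat_lit 0x1e00120001800480000000000000000000000000000000) (nat_lit 0x0) (nat_lit 0xa0006000200008000a00070002800000000000000000000000) := T_49 (nat_lit 181) (nat_lit 165) (nat_lit 2) (nat_lit 8) (nat_lit 10) L4351 (by decide +kernel)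
theorem L4353 : W_49 (nat_lit 8) (nat_lit 0x1600120001800480000000000000000000000000000000) (nat_lit 0x0) (nat_lit 0xa0006800280008000a00070002800000000000000000000000) := T_49 (nat_lit 179) (nat_lit 163) (nat_lit 2) (nat_lit 7) (nat_lit 10) L4352 (by decide +kernel)
theorem L4354 : W_49 (nat_lit 9) (nat_lit 0x1400120001800480000000000000000000000000000000) (nat_lit 0x0) (nat_lit 0xa4006a00280008000a00070002800000000000000000000000) := T_49 (nat_lit 177) (nat_lit 194) (nat_lit 5) (nat_lit 8) (nat_lit 7) L4353 (by decide +kernel)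
theorem L4355 : W_49 (nat_lit 2) (nat_lit 0x7600120009800680000000000000000000000000000000) (nat_lit 0x0) (nat_lit 0x280000000000020000000000000000000000000000) := D_49 (nat_lit 113) (nat_lit 165) (nat_lit 163) (nat_lit 7) (nat_lit 11) (nat_lit 6) (nat_lit 5) (nat_lit 11) (nat_lit 6) (by decide +kernel)
theorem L4356 : W_49 (nat_lit 3) (nat_lit 0x3600120009800680000000000000000000000000000000) (nat_lit 0x0) (nat_lit 0x80004000280000000000020000000000000000000000000000) := T_49 (nat_lit 182) (nat_lit 199) (nat_lit 7) (nat_lit 11) (nat_lit 7) L4355 (by decide +kernel)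
theorem L4357 : W_49 (nat_lit 4) (nat_lit 0x3600120009800480000000000000000000000000000000) (nat_lit 0x0) (nat_lit 0x80004000280000000200030000000000000000000000000000) := T_49 (nat_lit 129) (nat_lit 112) (nat_lit 4) (nat_lit 11) (nat_lit 10) L4356 (by decide +kernel)
theorem L4358 : W_49 (nat_lit 5) (nat_lit 0x1600120009800480000000000000000000000000000000) (nat_lit 0x0) (nat_lit 0xa0006000280000000200030000000000000000000000000000) := T_49 (nat_lit 181) (nat_lit 197) (nat_lit 5) (nat_lit 11) (nat_lit 7) L4357 (by decide +kernel)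
theorem L4359 : W_49 (nat_lit 6) (nat_lit 0x1400120009800480000000000000000000000000000000) (nat_lit 0x0) (nat_lit 0xa4006200280000000200030000000000000000000000000000) := T_49 (nat_lit 177) (nat_lit 194) (nat_lit 5) (nat_lit 8) (nat_lit 7) L4358 (by decide +kernel)
theorem L4360 : W_49 (nat_lit 2) (nat_lit 0x7400120009800680000000000000000000000000000000) (nat_lit 0x0) (nat_lit 0x280000000000020000000000000000000000000000) := D_49 (nat_lit 113) (nat_lit 165) (nat_lit 163) (nat_lit 7) (nat_lit 11) (nat_lit 6) (nat_lit 5) (nat_lit 11) (nat_lit 6) (by decide +kernel)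
theorem L4361 : W_49 (nat_lit 3) (nat_lit 0x3400120009800680000000000000000000000000000000) (nat_lit 0x0) (nat_lit 0x80004000280000000000020000000000000000000000000000) := T_49 (nat_lit 182) (nat_lit 199) (nat_lit 7) (nat_lit 11) (nat_lit 7) L4360 (by decide +kernel)
theorem L4362 : W_49 (nat_lit 4) (nat_lit 0x3400120009800480000000000000000000000000000000) (nat_lit 0x0) (nat_lit 0x80004000280000000200030000000000000000000000000000) := T_49 (nat_lit 129) (nat_lit 112) (nat_lit 4) (nat_lit 11) (nat_lit 10) L4361 (by decide +kernel)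
theorem L4363 : W_49 (nat_lit 5) (nat_lit 0x1400120009800480000000000000000000000000000000) (nat_lit 0x0) (nat_lit 0xa0006000280000000200030000000000000000000000000000) := T_49 (nat_lit 181) (nat_lit 197) (nat_lit 5) (nat_lit 11) (nat_lit 7) L4362 (by decide +kernel)
theorem L4364 : W_49 (nat_lit 2) (nat_lit 0x7600120009800480000000000000000000000000000000) (nat_lit 0x0) (nat_lit 0x280000000000020000000000000000000000000000) := D_49 (nat_lit 113) (nat_lit 165) (nat_lit 163) (nat_lit 7) (nat_lit 11) (nat_lit 6) (nat_lit 5) (nat_lit 11) (nat_lit 6) (by decide +kernel)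
theorem L4365 : W_49 (nat_lit 3) (nat_lit 0x3600120009800480000000000000000000000000000000) (nat_lit 0x0) (nat_lit 0x80004000280000000000020000000000000000000000000000) := T_49 (nat_lit 182) (nat_lit 199) (nat_lit 7) (nat_lit 11) (nat_lit 7) L4364 (by decide +kernel)
theorem L4366 : W_49 (nat_lit 4) (nat_lit 0x3400120009800480000000000000000000000000000000) (nat_lit 0x0) (nat_lit 0x84004200280000000000020000000000000000000000000000) := T_49 (nat_lit 177) (nat_lit 194) (nat_lit 5) (nat_lit 8) (nat_lit 7) L4365 (by decide +kernel)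
theorem L4367 : W_49 (nat_lit 5) (nat_lit 0x1400120009800480000000000000000000000000000000) (nat_lit 0x0) (nat_lit 0xa4006200280000000000020000000000000000000000000000) := T_49 (nat_lit 181) (nat_lit 197) (nat_lit 5) (nat_lit 11) (nat_lit 7) L4366 (by decide +kernel)
theorem L4368 : W_49 (nat_lit 2) (nat_lit 0x7400120009800680020000000000000000000000000000) (nat_lit 0x0) (nat_lit 0x800040002000000000000000000000000) := D_49 (nat_lit 114) (nat_lit 97) (nat_lit 131) (nat_lit 6) (nat_lit 11) (nat_lit 9) (nat_lit 6) (nat_lit 11) (nat_lit 10) (by decide +kernel)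
theorem L4369 : W_49 (nat_lit 3) (nat_lit 0x7400120009800680000000000000000000000000000000) (nat_lit 0x0) (nat_lit 0x200000000800060002000000000000000000000000) := T_49 (nat_lit 113) (nat_lit 165) (nat_lit 7) (nat_lit 11) (nat_lit 6) L4368 (by decide +kernel)
theorem L4370 : W_49 (nat_lit 4) (nat_lit 0x3400120009800680000000000000000000000000000000) (nat_lit 0x0) (nat_lit 0x80004000200000000800060002000000000000000000000000) := T_49 (nat_lit 182) (nat_lit 199) (nat_lit 7) (nat_lit 11) (nat_lit 7) L4369 (by decide +kernel)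
theorem L4371 : W_49 (nat_lit 5) (nat_lit 0x3400120009800480000000000000000000000000000000) (nat_lit 0x0) (nat_lit 0x80004000200000000a00070002000000000000000000000000) := T_49 (nat_lit 129) (nat_lit 112) (nat_lit 4) (nat_lit 11) (nat_lit 10) L4370 (by decide +kernel)
theorem L4372 : W_49 (nat_lit 6) (nat_lit 0x1400120009800480000000000000000000000000000000) (nat_lit 0x0) (nat_lit 0xa0006000200000000a00070002000000000000000000000000) := T_49 (nat_lit 181) (nat_lit 197) (nat_lit 5) (nat_lit 11) (nat_lit 7) L4371 (by decide +kernel)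
theorem L4373 : W_49 (nat_lit 2) (nat_lit 0x40007400120009800680000000000000000000000000000000) (nat_lit 0x0) (nat_lit 0x10000800040000000000000000000000000000) := D_49 (nat_lit 131) (nat_lit 114) (nat_lit 148) (nat_lit 6) (nat_lit 11) (nat_lit 10) (nat_lit 6) (nat_lit 11) (nat_lit 11) (by decide +kernel)
theorem L4374 : W_49 (nat_lit 3) (nat_lit 0x7400120009800680000000000000000000000000000000) (nat_lit 0x0) (nat_lit 0x40000000000014000800040000000000000000000000000000) := T_49 (nat_lit 198) (nat_lit 146) (nat_lit 4) (nat_lit 11) (nat_lit 11) L4373 (by decide +kernel)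
theorem L4375 : W_49 (nat_lit 4) (nat_lit 0x3400120009800680000000000000000000000000000000) (nat_lit 0x0) (nat_lit 0xc0004000000014000800040000000000000000000000000000) := T_49 (nat_lit 182) (nat_lit 199) (nat_lit 7) (nat_lit 11) (nat_lit 7) L4374 (by decide +kernel)
theorem L4376 : W_49 (nat_lit 5) (nat_lit 0x3400120009800480000000000000000000000000000000) (nat_lit 0x0) (nat_lit 0xc0004000000014000a00050000000000000000000000000000) := T_49 (nat_lit 129) (nat_lit 112) (nat_lit 4) (nat_lit 11) (nat_lit 10) L4375 (by decide +kernel)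
theorem L4377 : W_49 (nat_lit 6) (nat_lit 0x1400120009800480000000000000000000000000000000) (nat_lit 0x0) (nat_lit 0xe0006000000014000a00050000000000000000000000000000) := T_49 (nat_lit 181) (nat_lit 197) (nat_lit 5) (nat_lit 11) (nat_lit 7) L4376 (by decide +kernel)
theorem L4378 : W_49 (nat_lit 2) (nat_lit 0x1400320009800480030001000000000000000000000000) (nat_lit 0x0) (nat_lit 0x40002000100000000000000000000) := D_49 (nat_lit 97) (nat_lit 80) (nat_lit 114) (nat_lit 6) (nat_lit 11) (nat_lit 8) (nat_lit 6) (nat_lit 11) (nat_lit 9) (by decide +kernel)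
theorem L4379 : W_49 (nat_lit 3) (nat_lit 0x1400320009800480030000000000000000000000000000) (nat_lit 0x0) (nat_lit 0x10000000040003000100000000000000000000) := T_49 (nat_lit 96) (nat_lit 148) (nat_lit 7) (nat_lit 11) (nat_lit 5) L4378 (by decide +kernel)
theorem L4380 : W_49 (nat_lit 4) (nat_lit 0x1400120009800480030000000000000000000000000000) (nat_lit 0x0) (nat_lit 0x4000200010000000040003000100000000000000000000) := T_49 (nat_lit 165) (nat_lit 182) (nat_lit 7) (nat_lit 11) (nat_lit 6) L4379 (by decide +kernel)
theorem L4381 : W_49 (nat_lit 5) (nat_lit 0x1400120009800480020000000000000000000000000000) (nat_lit 0x0) (nat_lit 0x4000200010000000050003800100000000000000000000) := T_49 (nat_lit 112) (nat_lit 95) (nat_lit 4) (nat_lit 11) (nat_lit 9) L4380 (by decide +kernel)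
theorem L4382 : W_49 (nat_lit 6) (nat_lit 0x1400120009800480000000000000000000000000000000) (nat_lit 0x0) (nat_lit 0x4000280010000000070003800100000000000000000000) := T_49 (nat_lit 113) (nat_lit 163) (nat_lit 5) (nat_lit 11) (nat_lit 6) L4381 (by decide +kernel)
theorem L4383 : W_49 (nat_lit 2) (nat_lit 0x1400120009800480030000000000000000000000000000) (nat_lit 0x0) (nat_lit 0x20002000000000000200000000000000000000000000000000) := D_49 (nat_lit 181) (nat_lit 197) (nat_lit 129) (nat_lit 5) (nat_lit 11) (nat_lit 7) (nat_lit 4) (nat_lit 11) (nat_lit 10) (by decide +kernel)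
theorem L4384 : W_49 (nat_lit 3) (nat_lit 0x1400120009800480020000000000000000000000000000) (nat_lit 0x0) (nat_lit 0x20002000000000000200010000800000000000000000000000) := T_49 (nat_lit 112) (nat_lit 95) (nat_lit 4) (nat_lit 11) (nat_lit 9) L4383 (by decide +kernel)
theorem L4385 : W_49 (nat_lit 4) (nat_lit 0x1400120009800480000000000000000000000000000000) (nat_lit 0x0) (nat_lit 0x20002000080000000200030000800000000000000000000000) := T_49 (nat_lit 113) (nat_lit 163) (nat_lit 5) (nat_lit 11) (nat_lit 6) L4384 (by decide +kernel)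
theorem L4386 : W_49 (nat_lit 7) (nat_lit 0x1400120001800480000000000000000000000000000000) (nat_lit 0x0) (nat_lit 0xe400620028001c000a00070003800100000000000000000000) := Q_49 (nat_lit 147) (C_49 L4359 (C_49 L4363 (C_49 L4367 (C_49 L4372 (C_49 L4377 (C_49 L4382 (C_49 L4385 N_49))))))) (by decide +kernel)
theorem L4387 : W_49 (nat_lit 2) (nat_lit 0x3400120009800480020000000000000000000000000000) (nat_lit 0x0) (nat_lit 0x4800200000000000000000000000000000000000000000) := D_49 (nat_lit 165) (nat_lit 179) (nat_lit 182) (nat_lit 2) (nat_lit 8) (nat_lit 10) (nat_lit 7) (nat_lit 11) (nat_lit 6) (by decide +kernel)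
theorem L4388 : W_49 (nat_lit 3) (nat_lit 0x1400120009800480020000000000000000000000000000) (nat_lit 0x0) (nat_lit 0x20006800200000000000000000000000000000000000000000) := T_49 (nat_lit 181) (nat_lit 197) (nat_lit 5) (nat_lit 11) (nat_lit 7) L4387 (by decide +kernel)
theorem L4389 : W_49 (nat_lit 4) (nat_lit 0x1400120009800480000000000000000000000000000000) (nat_lit 0x0) (nat_lit 0x20006800280000000000020000000000000000000000000000) := T_49 (nat_lit 113) (nat_lit 163) (nat_lit 5) (nat_lit 11) (nat_lit 6) L4388 (by decide +kernel)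
theorem L4390 : W_49 (nat_lit 7) (nat_lit 0x1400120001800480000000000000000000000000000000) (nat_lit 0x0) (nat_lit 0xe000680028001c000a00070003800100000000000000000000) := Q_49 (nat_lit 147) (C_49 L4385 (C_49 L4389 (C_49 L4377 (C_49 L4382 N_49)))) (by decide +kernel)
theorem L4391 : W_49 (nat_lit 2) (nat_lit 0x3e00120001800480000000000000000000000000000000) (nat_lit 0x0) (nat_lit 0x60000000000008000000000000000000000000000000000000) := D_49 (nat_lit 197) (nat_lit 198) (nat_lit 147) (nat_lit 3) (nat_lit 7) (nat_lit 10) (nat_lit 5) (nat_lit 11) (nat_lit 7) (by decide +kernel)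
theorem L4392 : W_49 (nat_lit 3) (nat_lit 0x1e00120001800480000000000000000000000000000000) (nat_lit 0x0) (nat_lit 0x60002000200008000000000000000000000000000000000000) := T_49 (nat_lit 181) (nat_lit 165) (nat_lit 2) (nat_lit 8) (nat_lit 10) L4391 (by decide +kernel)
theorem L4393 : W_49 (nat_lit 4) (nat_lit 0x1600120001800480000000000000000000000000000000) (nat_lit 0x0) (nat_lit 0x60002800280008000000000000000000000000000000000000) := T_49 (nat_lit 179) (nat_lit 163) (nat_lit 2) (nat_lit 7) (nat_lit 10) L4392 (by decide +kernel)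
theorem L4394 : W_49 (nat_lit 5) (nat_lit 0x1400120001800480000000000000000000000000000000) (nat_lit 0x0) (nat_lit 0x64002a00280008000000000000000000000000000000000000) := T_49 (nat_lit 177) (nat_lit 194) (nat_lit 5) (nat_lit 8) (nat_lit 7) L4393 (by decide +kernel)
theorem L4395 : W_49 (nat_lit 2) (nat_lit 0xc007400120009800680020000000000000000000000000000) (nat_lit 0x0) (nat_lit 0x800040002000000000000000000000000) := D_49 (nat_lit 114) (nat_lit 97) (nat_lit 131) (nat_lit 6) (nat_lit 11) (nat_lit 9) (nat_lit 6) (nat_lit 11) (nat_lit 10) (by decide +kernel)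
theorem L4396 : W_49 (nat_lit 3) (nat_lit 0xc007400120009800680000000000000000000000000000000) (nat_lit 0x0) (nat_lit 0x200000000800060002000000000000000000000000) := T_49 (nat_lit 113) (nat_lit 165) (nat_lit 7) (nat_lit 11) (nat_lit 6) L4395 (by decide +kernel)
theorem L4397 : W_49 (nat_lit 4) (nat_lit 0xc003400120009800680000000000000000000000000000000) (nat_lit 0x0) (nat_lit 0x80004000200000000800060002000000000000000000000000) := T_49 (nat_lit 182) (nat_lit 199) (nat_lit 7) (nat_lit 11) (nat_lit 7) L4396 (by decide +kernel)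
theorem L4398 : W_49 (nat_lit 5) (nat_lit 0xc003400120009800480000000000000000000000000000000) (nat_lit 0x0) (nat_lit 0x80004000200000000a00070002000000000000000000000000) := T_49 (nat_lit 129) (nat_lit 112) (nat_lit 4) (nat_lit 11) (nat_lit 10) L4397 (by decide +kernel)
theorem L4399 : W_49 (nat_lit 6) (nat_lit 0xc003400120001800480000000000000000000000000000000) (nat_lit 0x0) (nat_lit 0xa0004000200008000a00070002000000000000000000000000) := T_49 (nat_lit 147) (nat_lit 197) (nat_lit 5) (nat_lit 11) (nat_lit 7) L4398 (by decide +kernel)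
theorem L4400 : W_49 (nat_lit 7) (nat_lit 0xc001400120001800480000000000000000000000000000000) (nat_lit 0x0) (nat_lit 0xa0006800200008000a00070002000000000000000000000000) := T_49 (nat_lit 181) (nat_lit 179) (nat_lit 1) (nat_lit 11) (nat_lit 10) L4399 (by decide +kernel)
theorem L4401 : W_49 (nat_lit 8) (nat_lit 0x4001400120001800480000000000000000000000000000000) (nat_lit 0x0) (nat_lit 0x800a8006800200008000a00070002000000000000000000000000) := T_49 (nat_lit 195) (nat_lit 211) (nat_lit 5) (nat_lit 8) (nat_lit 8) L4400 (by decide +kernel)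
theorem L4402 : W_49 (nat_lit 9) (nat_lit 0x1400120001800480000000000000000000000000000000) (nat_lit 0x0) (nat_lit 0x800ac006a00200008000a00070002000000000000000000000000) := T_49 (nat_lit 194) (nat_lit 177) (nat_lit 5) (nat_lit 8) (nat_lit 7) L4401 (by decide +kernel)
theorem L4403 : W_49 (nat_lit 2) (nat_lit 0x3e00120001800480000000000000000000000000000000) (nat_lit 0x0) (nat_lit 0xe0000000000000000000000000000000000000000000000000) := D_49 (nat_lit 198) (nat_lit 197) (nat_lit 199) (nat_lit 3) (nat_lit 7) (nat_lit 10) (nat_lit 3) (nat_lit 8) (nat_lit 10) (by decide +kernel)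
theorem L4404 : W_49 (nat_lit 3) (nat_lit 0x1e00120001800480000000000000000000000000000000) (nat_lit 0x0) (nat_lit 0xe0002000200000000000000000000000000000000000000000) := T_49 (nat_lit 181) (nat_lit 165) (nat_lit 2) (nat_lit 8) (nat_lit 10) L4403 (by decide +kernel)
theorem L4405 : W_49 (nat_lit 4) (nat_lit 0x1600120001800480000000000000000000000000000000) (nat_lit 0x0) (nat_lit 0xe0002800280000000000000000000000000000000000000000) := T_49 (nat_lit 179) (nat_lit 163) (nat_lit 2) (nat_lit 7) (nat_lit 10) L4404 (by decide +kernel)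
theorem L4406 : W_49 (nat_lit 5) (nat_lit 0x1400120001800480000000000000000000000000000000) (nat_lit 0x0) (nat_lit 0xe4002a00280000000000000000000000000000000000000000) := T_49 (nat_lit 177) (nat_lit 194) (nat_lit 5) (nat_lit 8) (nat_lit 7) L4405 (by decide +kernel)
theorem L4407 : W_49 (nat_lit 2) (nat_lit 0x80003e00120001800480000000000000000000000000000000) (nat_lit 0x0) (nat_lit 0x100004000000008000000000000000000000000000000000000) := D_49 (nat_lit 182) (nat_lit 200) (nat_lit 147) (nat_lit 3) (nat_lit 9) (nat_lit 10) (nat_lit 7) (nat_lit 11) (nat_lit 7) (by decide +kernel)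
theorem L4408 : W_49 (nat_lit 3) (nat_lit 0x3e00120001800480000000000000000000000000000000) (nat_lit 0x0) (nat_lit 0x1c0004000000008000000000000000000000000000000000000) := T_49 (nat_lit 199) (nat_lit 198) (nat_lit 3) (nat_lit 8) (nat_lit 10) L4407 (by decide +kernel)
theorem L4409 : W_49 (nat_lit 4) (nat_lit 0x1e00120001800480000000000000000000000000000000) (nat_lit 0x0) (nat_lit 0x1c0006000200008000000000000000000000000000000000000) := T_49 (nat_lit 181) (nat_lit 165) (nat_lit 2) (nat_lit 8) (nat_lit 10) L4408 (by decide +kernel)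
theorem L4410 : W_49 (nat_lit 5) (nat_lit 0x1600120001800480000000000000000000000000000000) (nat_lit 0x0) (nat_lit 0x1c0006800280008000000000000000000000000000000000000) := T_49 (nat_lit 179) (nat_lit 163) (nat_lit 2) (nat_lit 7) (nat_lit 10) L4409 (by decide +kernel)
theorem L4411 : W_49 (nat_lit 6) (nat_lit 0x1400120001800480000000000000000000000000000000) (nat_lit 0x0) (nat_lit 0x1c4006a00280008000000000000000000000000000000000000) := T_49 (nat_lit 177) (nat_lit 194) (nat_lit 5) (nat_lit 8) (nat_lit 7) L4410 (by decide +kernel)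
theorem L4412 : W_49 (nat_lit 2) (nat_lit 0x16001a0009800480000000000000000000000000000000) (nat_lit 0x0) (nat_lit 0x400020000000000004000000000000000000000000000000000000) := D_49 (nat_lit 197) (nat_lit 146) (nat_lit 214) (nat_lit 6) (nat_lit 10) (nat_lit 11) (nat_lit 6) (nat_lit 10) (nat_lit 12) (by decide +kernel)
theorem L4413 : W_49 (nat_lit 3) (nat_lit 0x16001a0001800480000000000000000000000000000000) (nat_lit 0x0) (nat_lit 0x40002000000000000c000000020000000000000000000000000000) := T_49 (nat_lit 147) (nat_lit 113) (nat_lit 5) (nat_lit 11) (nat_lit 6) L4412 (by decide +kernel)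
theorem L4414 : W_49 (nat_lit 4) (nat_lit 0x1600120001800480000000000000000000000000000000) (nat_lit 0x0) (nat_lit 0x40002000080008000c000000020000000000000000000000000000) := T_49 (nat_lit 163) (nat_lit 179) (nat_lit 2) (nat_lit 7) (nat_lit 10) L4413 (by decide +kernel)
theorem L4415 : W_49 (nat_lit 5) (nat_lit 0x1400120001800480000000000000000000000000000000) (nat_lit 0x0) (nat_lit 0x400024000a0008000c000000020000000000000000000000000000) := T_49 (nat_lit 177) (nat_lit 194) (nat_lit 5) (nat_lit 8) (nat_lit 7) L4414 (by decide +kernel)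
theorem L4416 : W_49 (nat_lit 10) (nat_lit 0x400120001800480000000000000000000000000000000) (nat_lit 0x0) (nat_lit 0x4801ec007a0028001c000a00070003800100000000000000000000) := Q_49 (nat_lit 180) (C_49 L4354 (C_49 L4386 (C_49 L4390 (C_49 L4394 (C_49 L4402 (C_49 L4406 (C_49 L4411 (C_49 L4415 N_49)))))))) (by decide +kernel)
theorem L4417 : W_49 (nat_lit 2) (nat_lit 0x600320009800480020001000000000000000000000000) (nat_lit 0x0) (nat_lit 0x40002000100000000000000000000) := D_49 (nat_lit 97) (nat_lit 80) (nat_lit 114) (nat_lit 6) (nat_lit 11) (nat_lit 8) (nat_lit 6) (nat_lit 11) (nat_lit 9) (by decide +kernel)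
theorem L4418 : W_49 (nat_lit 3) (nat_lit 0x600320009800480020000000000000000000000000000) (nat_lit 0x0) (nat_lit 0x10000000040003000100000000000000000000) := T_49 (nat_lit 96) (nat_lit 148) (nat_lit 7) (nat_lit 11) (nat_lit 5) L4417 (by decide +kernel)
theorem L4419 : W_49 (nat_lit 4) (nat_lit 0x600120009800480020000000000000000000000000000) (nat_lit 0x0) (nat_lit 0x4000200010000000040003000100000000000000000000) := T_49 (nat_lit 165) (nat_lit 182) (nat_lit 7) (nat_lit 11) (nat_lit 6) L4418 (by decide +kernel)
theorem L4420 : W_49 (nat_lit 5) (nat_lit 0x400120009800480020000000000000000000000000000) (nat_lit 0x0) (nat_lit 0x4004200200010000000040003000100000000000000000000) := T_49 (nat_lit 177) (nat_lit 194) (nat_lit 5) (nat_lit 8) (nat_lit 7) L4419 (by decide +kernel)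
theorem L4421 : W_49 (nat_lit 2) (nat_lit 0x400320009800480060001000000000000000000000000) (nat_lit 0x0) (nat_lit 0x1000080004000000000000000000000000000000000000) := D_49 (nat_lit 163) (nat_lit 146) (nat_lit 180) (nat_lit 5) (nat_lit 11) (nat_lit 5) (nat_lit 5) (nat_lit 11) (nat_lit 6) (by decide +kernel)
theorem L4422 : W_49 (nat_lit 3) (nat_lit 0x400320009800480060000000000000000000000000000) (nat_lit 0x0) (nat_lit 0x1000080014000000000001000000000000000000000000) := T_49 (nat_lit 96) (nat_lit 148) (nat_lit 7) (nat_lit 11) (nat_lit 5) L4421 (by decide +kernel)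
theorem L4423 : W_49 (nat_lit 4) (nat_lit 0x400120009800480060000000000000000000000000000) (nat_lit 0x0) (nat_lit 0x5000280014000000000001000000000000000000000000) := T_49 (nat_lit 165) (nat_lit 182) (nat_lit 7) (nat_lit 11) (nat_lit 6) L4422 (by decide +kernel)
theorem L4424 : W_49 (nat_lit 5) (nat_lit 0x400120009800480020000000000000000000000000000) (nat_lit 0x0) (nat_lit 0x5000280014000000040003000000000000000000000000) := T_49 (nat_lit 114) (nat_lit 97) (nat_lit 6) (nat_lit 11) (nat_lit 9) L4423 (by decide +kernel)
theorem L4425 : W_49 (nat_lit 2) (nat_lit 0x600320009800480020001000000000000000000000000) (nat_lit 0x0) (nat_lit 0x10000800040000000000000000000) := D_49 (nat_lit 95) (nat_lit 112) (nat_lit 78) (nat_lit 4) (nat_lit 11) (nat_lit 9) (nat_lit 4) (nat_lit 11) (nat_lit 8) (by decide +kernel)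
theorem L4426 : W_49 (nat_lit 3) (nat_lit 0x600320009800480020000000000000000000000000000) (nat_lit 0x0) (nat_lit 0x10000000010001800040000000000000000000) := T_49 (nat_lit 96) (nat_lit 148) (nat_lit 7) (nat_lit 11) (nat_lit 5) L4425 (by decide +kernel)
theorem L4427 : W_49 (nat_lit 4) (nat_lit 0x600120009800480020000000000000000000000000000) (nat_lit 0x0) (nat_lit 0x4000200010000000010001800040000000000000000000) := T_49 (nat_lit 165) (nat_lit 182) (nat_lit 7) (nat_lit 11) (nat_lit 6) L4426 (by decide +kernel)
theorem L4428 : W_49 (nat_lit 5) (nat_lit 0x400120009800480020000000000000000000000000000) (nat_lit 0x0) (nat_lit 0x4004200200010000000010001800040000000000000000000) := T_49 (nat_lit 177) (nat_lit 194) (nat_lit 5) (nat_lit 8) (nat_lit 7) L4427 (by decide +kernel)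
theorem L4429 : W_49 (nat_lit 2) (nat_lit 0x26001a0009800480060000000000000000000000000000) (nat_lit 0x0) (nat_lit 0x80004000200000000000000000000000000000000000000000) := D_49 (nat_lit 182) (nat_lit 165) (nat_lit 199) (nat_lit 7) (nat_lit 11) (nat_lit 6) (nat_lit 7) (nat_lit 11) (nat_lit 7) (by decide +kernel)
theorem L4430 : W_49 (nat_lit 3) (nat_lit 0x6001a0009800480060000000000000000000000000000) (nat_lit 0x0) (nat_lit 0x80006000200000000800000000000000000000000000000000) := T_49 (nat_lit 181) (nat_lit 131) (nat_lit 6) (nat_lit 11) (nat_lit 10) L4429 (by decide +kernel)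
theorem L4431 : W_49 (nat_lit 4) (nat_lit 0x4001a0009800480060000000000000000000000000000) (nat_lit 0x0) (nat_lit 0x84006200200000000800000000000000000000000000000000) := T_49 (nat_lit 177) (nat_lit 194) (nat_lit 5) (nat_lit 8) (nat_lit 7) L4430 (by decide +kernel)
theorem L4432 : W_49 (nat_lit 5) (nat_lit 0x4001a0009800480020000000000000000000000000000) (nat_lit 0x0) (nat_lit 0x84006200200000000800040002000000000000000000000000) := T_49 (nat_lit 114) (nat_lit 97) (nat_lit 6) (nat_lit 11) (nat_lit 9) L4431 (by decide +kernel)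
theorem L4433 : W_49 (nat_lit 6) (nat_lit 0x400120009800480020000000000000000000000000000) (nat_lit 0x0) (nat_lit 0x84007200280000000800040002000000000000000000000000) := T_49 (nat_lit 163) (nat_lit 180) (nat_lit 5) (nat_lit 11) (nat_lit 6) L4432 (by decide +kernel)
theorem L4434 : W_49 (nat_lit 2) (nat_lit 0x4001a0009800480020001000000000000000000000000) (nat_lit 0x0) (nat_lit 0x10000800040000000000000000000) := D_49 (nat_lit 95) (nat_lit 78) (nat_lit 112) (nat_lit 4) (nat_lit 11) (nat_lit 8) (nat_lit 4) (nat_lit 11) (nat_lit 9) (by decide +kernel)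
theorem L4435 : W_49 (nat_lit 3) (nat_lit 0x4001a0009800480020000000000000000000000000000) (nat_lit 0x0) (nat_lit 0x4000000010001800040000000000000000000) := T_49 (nat_lit 96) (nat_lit 146) (nat_lit 5) (nat_lit 11) (nat_lit 5) L4434 (by decide +kernel)
theorem L4436 : W_49 (nat_lit 4) (nat_lit 0x400120009800480020000000000000000000000000000) (nat_lit 0x0) (nat_lit 0x1000080004000000010001800040000000000000000000) := T_49 (nat_lit 163) (nat_lit 180) (nat_lit 5) (nat_lit 11) (nat_lit 6) L4435 (by decide +kernel)
theorem L4437 : W_49 (nat_lit 7) (nat_lit 0x400120009800480000000000000000000000000000000) (nat_lit 0x0) (nat_lit 0x84007200280014000800070003800140000000000000000000) := Q_49 (nat_lit 113) (C_49 L4420 (C_49 L4424 (C_49 L4428 (C_49 L4433 (C_49 L4436 N_49))))) (by decide +kernel)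
theorem L4438 : W_49 (nat_lit 2) (nat_lit 0x2400120009a00580070000000000000000000000000000) (nat_lit 0x0) (nat_lit 0x80004000200000000000000000000000000000000000000000) := D_49 (nat_lit 182) (nat_lit 165) (nat_lit 199) (nat_lit 7) (nat_lit 11) (nat_lit 6) (nat_lit 7) (nat_lit 11) (nat_lit 7) (by decide +kernel)
theorem L4439 : W_49 (nat_lit 3) (nat_lit 0x400120009a00580070000000000000000000000000000) (nat_lit 0x0) (nat_lit 0x80006000200000000800000000000000000000000000000000) := T_49 (nat_lit 181) (nat_lit 131) (nat_lit 6) (nat_lit 11) (nat_lit 10) L4438 (by decide +kernel)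
theorem L4440 : W_49 (nat_lit 4) (nat_lit 0x400120009a00580060000000000000000000000000000) (nat_lit 0x0) (nat_lit 0x80006000200000000800010000800000000000000000000000) := T_49 (nat_lit 112) (nat_lit 95) (nat_lit 4) (nat_lit 11) (nat_lit 9) L4439 (by decide +kernel)
theorem L4441 : W_49 (nat_lit 5) (nat_lit 0x400120009a00580020000000000000000000000000000) (nat_lit 0x0) (nat_lit 0x80006000200000000800050002800000000000000000000000) := T_49 (nat_lit 114) (nat_lit 97) (nat_lit 6) (nat_lit 11) (nat_lit 9) L4440 (by decide +kernel)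
theorem L4442 : W_49 (nat_lit 6) (nat_lit 0x400120009800580020000000000000000000000000000) (nat_lit 0x0) (nat_lit 0x80006000200000600800050002800000000000000000000000) := T_49 (nat_lit 141) (nat_lit 142) (nat_lit 2) (nat_lit 5) (nat_lit 8) L4441 (by decide +kernel)
theorem L4443 : W_49 (nat_lit 7) (nat_lit 0x400120009800480020000000000000000000000000000) (nat_lit 0x0) (nat_lit 0x80006000200000600900058002800000000000000000000000) := T_49 (nat_lit 128) (nat_lit 111) (nat_lit 6) (nat_lit 8) (nat_lit 10) L4442 (by decide +kernel)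
theorem L4444 : W_49 (nat_lit 8) (nat_lit 0x400120009800480000000000000000000000000000000) (nat_lit 0x0) (nat_lit 0x80007000280014600900078003800040000000000000000000) := Q_49 (nat_lit 113) (C_49 L4436 (C_49 L4424 (C_49 L4443 N_49))) (by decide +kernel)
theorem L4445 : W_49 (nat_lit 2) (nat_lit 0x6400120009a00580020000000000000000000000000000) (nat_lit 0x0) (nat_lit 0x20001000080000000000000000000000000000000000000000) := D_49 (nat_lit 180) (nat_lit 163) (nat_lit 197) (nat_lit 5) (nat_lit 11) (nat_lit 6) (nat_lit 5) (nat_lit 11) (nat_lit 7) (by decide +kernel)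
theorem L4446 : W_49 (nat_lit 3) (nat_lit 0x6400120009a00580000000000000000000000000000000) (nat_lit 0x0) (nat_lit 0x20001000280000000000020000000000000000000000000000) := T_49 (nat_lit 113) (nat_lit 165) (nat_lit 7) (nat_lit 11) (nat_lit 6) L4445 (by decide +kernel)
theorem L4447 : W_49 (nat_lit 4) (nat_lit 0x2400120009a00580000000000000000000000000000000) (nat_lit 0x0) (nat_lit 0xa0005000280000000000020000000000000000000000000000) := T_49 (nat_lit 182) (nat_lit 199) (nat_lit 7) (nat_lit 11) (nat_lit 7) L4446 (by decide +kernel)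
theorem L4448 : W_49 (nat_lit 5) (nat_lit 0x2400120009800580000000000000000000000000000000) (nat_lit 0x0) (nat_lit 0xa0005000280000600000020000000000000000000000000000) := T_49 (nat_lit 141) (nat_lit 142) (nat_lit 2) (nat_lit 5) (nat_lit 8) L4447 (by decide +kernel)
theorem L4449 : W_49 (nat_lit 6) (nat_lit 0x2400120009800480000000000000000000000000000000) (nat_lit 0x0) (nat_lit 0xa0005000280000600100028000000000000000000000000000) := T_49 (nat_lit 128) (nat_lit 111) (nat_lit 6) (nat_lit 8) (nat_lit 10) L4448 (by decide +kernel)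
theorem L4450 : W_49 (nat_lit 2) (nat_lit 0x3c00120009800480000000000000000000000000000000) (nat_lit 0x0) (nat_lit 0x4000200080000000000000000000000000000000000000000) := D_49 (nat_lit 177) (nat_lit 163) (nat_lit 194) (nat_lit 2) (nat_lit 7) (nat_lit 10) (nat_lit 5) (nat_lit 8) (nat_lit 7) (by decide +kernel)
theorem L4451 : W_49 (nat_lit 3) (nat_lit 0x3400120009800480000000000000000000000000000000) (nat_lit 0x0) (nat_lit 0x4000a00280000000000000000000000000000000000000000) := T_49 (nat_lit 179) (nat_lit 165) (nat_lit 2) (nat_lit 8) (nat_lit 10) L4450 (by decide +kernel)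
theorem L4452 : W_49 (nat_lit 4) (nat_lit 0x2400120009800480000000000000000000000000000000) (nat_lit 0x0) (nat_lit 0x24001a00280000000000000000000000000000000000000000) := T_49 (nat_lit 180) (nat_lit 197) (nat_lit 5) (nat_lit 11) (nat_lit 7) L4451 (by decide +kernel)
theorem L4453 : W_49 (nat_lit 2) (nat_lit 0x40003400120009800c80020000000000000000000000000000) (nat_lit 0x0) (nat_lit 0x80004800000000000000000000000000000000000000000000) := D_49 (nat_lit 199) (nat_lit 179) (nat_lit 182) (nat_lit 3) (nat_lit 8) (nat_lit 10) (nat_lit 7) (nat_lit 11) (nat_lit 7) (by decide +kernel)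
theorem L4454 : W_49 (nat_lit 3) (nat_lit 0x3400120009800c80020000000000000000000000000000) (nat_lit 0x0) (nat_lit 0xc0004800000010000000000000000000000000000000000000) := T_49 (nat_lit 198) (nat_lit 148) (nat_lit 6) (nat_lit 11) (nat_lit 11) L4453 (by decide +kernel)
theorem L4455 : W_49 (nat_lit 4) (nat_lit 0x3400120009800c80000000000000000000000000000000) (nat_lit 0x0) (nat_lit 0xc0004800080010000000020000000000000000000000000000) := T_49 (nat_lit 113) (nat_lit 163) (nat_lit 5) (nat_lit 11) (nat_lit 6) L4454 (by decide +kernel)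
theorem L4456 : W_49 (nat_lit 5) (nat_lit 0x2400120009800c80000000000000000000000000000000) (nat_lit 0x0) (nat_lit 0xe0005800080010000000020000000000000000000000000000) := T_49 (nat_lit 180) (nat_lit 197) (nat_lit 5) (nat_lit 11) (nat_lit 7) L4455 (by decide +kernel)
theorem L4457 : W_49 (nat_lit 6) (nat_lit 0x2400120009800480000000000000000000000000000000) (nat_lit 0x0) (nat_lit 0xe0005800080010000800060000000000000000000000000000) := T_49 (nat_lit 131) (nat_lit 114) (nat_lit 6) (nat_lit 11) (nat_lit 10) L4456 (by decide +kernel)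
theorem L4458 : W_49 (nat_lit 7) (nat_lit 0x400120009800480000000000000000000000000000000) (nat_lit 0x0) (nat_lit 0xe4007a00280010600900068002000000000000000000000000) := Q_49 (nat_lit 181) (C_49 L4131 (C_49 L4449 (C_49 L4452 (C_49 L4457 N_49)))) (by decide +kernel)
theorem L4459 : W_49 (nat_lit 2) (nat_lit 0x4007400120009a00580030000000000000000000000000000) (nat_lit 0x0) (nat_lit 0x80008000800000000000000000000000000000000000000000000) := D_49 (nat_lit 195) (nat_lit 179) (nat_lit 211) (nat_lit 1) (nat_lit 11) (nat_lit 10) (nat_lit 5) (nat_lit 8) (nat_lit 8) (by decide +kernel)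
theorem L4460 : W_49 (nat_lit 3) (nat_lit 0x7400120009a00580030000000000000000000000000000) (nat_lit 0x0) (nat_lit 0x8000c000a00000000000000000000000000000000000000000000) := T_49 (nat_lit 194) (nat_lit 177) (nat_lit 5) (nat_lit 8) (nat_lit 7) L4459 (by decide +kernel)
theorem L4461 : W_49 (nat_lit 4) (nat_lit 0x6400120009a00580030000000000000000000000000000) (nat_lit 0x0) (nat_lit 0x8002c001a00000000000000000000000000000000000000000000) := T_49 (nat_lit 180) (nat_lit 197) (nat_lit 5) (nat_lit 11) (nat_lit 7) L4460 (by decide +kernel)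
theorem L4462 : W_49 (nat_lit 5) (nat_lit 0x6400120009a00580020000000000000000000000000000) (nat_lit 0x0) (nat_lit 0x8002c001a00000000000000010000800000000000000000000000) := T_49 (nat_lit 112) (nat_lit 95) (nat_lit 4) (nat_lit 11) (nat_lit 9) L4461 (by decide +kernel)
theorem L4463 : W_49 (nat_lit 6) (nat_lit 0x6400120009a00580000000000000000000000000000000) (nat_lit 0x0) (nat_lit 0x8002c001a00200000000000030000800000000000000000000000) := T_49 (nat_lit 113) (nat_lit 165) (nat_lit 7) (nat_lit 11) (nat_lit 6) L4462 (by decide +kernel)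
theorem L4464 : W_49 (nat_lit 7) (nat_lit 0x2400120009a00580000000000000000000000000000000) (nat_lit 0x0) (nat_lit 0x800ac005a00200000000000030000800000000000000000000000) := T_49 (nat_lit 182) (nat_lit 199) (nat_lit 7) (nat_lit 11) (nat_lit 7) L4463 (by decide +kernel)
theorem L4465 : W_49 (nat_lit 8) (nat_lit 0x2400120009800580000000000000000000000000000000) (nat_lit 0x0) (nat_lit 0x800ac005a00200000600000030000800000000000000000000000) := T_49 (nat_lit 141) (nat_lit 142) (nat_lit 2) (nat_lit 5) (nat_lit 8) L4464 (by decide +kernel)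
theorem L4466 : W_49 (nat_lit 9) (nat_lit 0x2400120009800480000000000000000000000000000000) (nat_lit 0x0) (nat_lit 0x800ac005a00200000600100038000800000000000000000000000) := T_49 (nat_lit 128) (nat_lit 111) (nat_lit 6) (nat_lit 8) (nat_lit 10) L4465 (by decide +kernel)
theorem L4467 : W_49 (nat_lit 2) (nat_lit 0x40002600120009a00d80000000000000000000000000000000) (nat_lit 0x0) (nat_lit 0x400020001000000000000000000000000000000000000000000000) := D_49 (nat_lit 197) (nat_lit 214) (nat_lit 180) (nat_lit 5) (nat_lit 11) (nat_lit 8) (nat_lit 5) (nat_lit 11) (nat_lit 7) (by decide +kernel)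
theorem L4468 : W_49 (nat_lit 3) (nat_lit 0x2600120009a00d80000000000000000000000000000000) (nat_lit 0x0) (nat_lit 0x400060001000000010000000000000000000000000000000000000) := T_49 (nat_lit 198) (nat_lit 148) (nat_lit 6) (nat_lit 11) (nat_lit 11) L4467 (by decide +kernel)
theorem L4469 : W_49 (nat_lit 4) (nat_lit 0x2600120009800d80000000000000000000000000000000) (nat_lit 0x0) (nat_lit 0x400060001000000010600000000000000000000000000000000000) := T_49 (nat_lit 141) (nat_lit 142) (nat_lit 2) (nat_lit 5) (nat_lit 8) L4468 (by decide +kernel)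
theorem L4470 : W_49 (nat_lit 5) (nat_lit 0x2600120009800c80000000000000000000000000000000) (nat_lit 0x0) (nat_lit 0x400060001000000010600100008000000000000000000000000000) := T_49 (nat_lit 128) (nat_lit 111) (nat_lit 6) (nat_lit 8) (nat_lit 10) L4469 (by decide +kernel)
theorem L4471 : W_49 (nat_lit 6) (nat_lit 0x2600120009800480000000000000000000000000000000) (nat_lit 0x0) (nat_lit 0x400060001000000010600900048000000000000000000000000000) := T_49 (nat_lit 131) (nat_lit 114) (nat_lit 6) (nat_lit 11) (nat_lit 10) L4470 (by decide +kernel)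
theorem L4472 : W_49 (nat_lit 7) (nat_lit 0x2400120009800480000000000000000000000000000000) (nat_lit 0x0) (nat_lit 0x400064001200000010600900048000000000000000000000000000) := T_49 (nat_lit 177) (nat_lit 194) (nat_lit 5) (nat_lit 8) (nat_lit 7) L4471 (by decide +kernel)
theorem L4473 : W_49 (nat_lit 10) (nat_lit 0x400120009800480000000000000000000000000000000) (nat_lit 0x0) (nat_lit 0x4800ec007a00200010600900078002800000000000000000000000) := Q_49 (nat_lit 181) (C_49 L4131 (C_49 L4466 (C_49 L4472 N_49))) (by decide +kernel)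
theorem L4474 : W_49 (nat_lit 2) (nat_lit 0x4001a0009a00580020001000000000000000000000000) (nat_lit 0x0) (nat_lit 0x4000200010000000000000000000000000000000000000) := D_49 (nat_lit 165) (nat_lit 182) (nat_lit 148) (nat_lit 7) (nat_lit 11) (nat_lit 6) (nat_lit 7) (nat_lit 11) (nat_lit 5) (by decide +kernel)
theorem L4475 : W_49 (nat_lit 3) (nat_lit 0x4001a0009a00580020000000000000000000000000000) (nat_lit 0x0) (nat_lit 0x4000200014000000000001000000000000000000000000) := T_49 (nat_lit 96) (nat_lit 146) (nat_lit 5) (nat_lit 11) (nat_lit 5) L4474 (by decide +kernel)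
theorem L4476 : W_49 (nat_lit 4) (nat_lit 0x400120009a00580020000000000000000000000000000) (nat_lit 0x0) (nat_lit 0x5000280014000000000001000000000000000000000000) := T_49 (nat_lit 163) (nat_lit 180) (nat_lit 5) (nat_lit 11) (nat_lit 6) L4475 (by decide +kernel)
theorem L4477 : W_49 (nat_lit 5) (nat_lit 0x400120009800580020000000000000000000000000000) (nat_lit 0x0) (nat_lit 0x5000280014600000000001000000000000000000000000) := T_49 (nat_lit 141) (nat_lit 142) (nat_lit 2) (nat_lit 5) (nat_lit 8) L4476 (by decide +kernel)
theorem L4478 : W_49 (nat_lit 6) (nat_lit 0x400120009800480020000000000000000000000000000) (nat_lit 0x0) (nat_lit 0x5000280014600100008001000000000000000000000000) := T_49 (nat_lit 128) (nat_lit 111) (nat_lit 6) (nat_lit 8) (nat_lit 10) L4477 (by decide +kernel)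
theorem L4479 : W_49 (nat_lit 2) (nat_lit 0x4003a0009800480038000000000000000000000000000) (nat_lit 0x0) (nat_lit 0x800004000400000000000000000000000) := D_49 (nat_lit 110) (nat_lit 131) (nat_lit 94) (nat_lit 3) (nat_lit 8) (nat_lit 6) (nat_lit 6) (nat_lit 8) (nat_lit 9) (by decide +kernel)
theorem L4480 : W_49 (nat_lit 3) (nat_lit 0x4003a0009800480028000000000000000000000000000) (nat_lit 0x0) (nat_lit 0x800014000c00000000000000000000000) := T_49 (nat_lit 112) (nat_lit 95) (nat_lit 4) (nat_lit 11) (nat_lit 9) L4479 (by decide +kernel)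
theorem L4481 : W_49 (nat_lit 4) (nat_lit 0x4003a0009800480020000000000000000000000000000) (nat_lit 0x0) (nat_lit 0x90001c000c00000000000000000000000) := T_49 (nat_lit 111) (nat_lit 128) (nat_lit 6) (nat_lit 8) (nat_lit 10) L4480 (by decide +kernel)
theorem L4482 : W_49 (nat_lit 5) (nat_lit 0x400320009800480020000000000000000000000000000) (nat_lit 0x0) (nat_lit 0x100008000000090001c000c00000000000000000000000) := T_49 (nat_lit 163) (nat_lit 180) (nat_lit 5) (nat_lit 11) (nat_lit 6) L4481 (by decide +kernel)
theorem L4483 : W_49 (nat_lit 6) (nat_lit 0x400120009800480020000000000000000000000000000) (nat_lit 0x0) (nat_lit 0x500028000000090001c000c00000000000000000000000) := T_49 (nat_lit 165) (nat_lit 182) (nat_lit 7) (nat_lit 11) (nat_lit 6) L4482 (by decide +kernel)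
theorem L4484 : W_49 (nat_lit 7) (nat_lit 0x400120009800480000000000000000000000000000000) (nat_lit 0x0) (nat_lit 0x400520028001460090003c001c00040000000000000000000) := Q_49 (nat_lit 113) (C_49 L4436 (C_49 L4478 (C_49 L4428 (C_49 L4483 N_49)))) (by decide +kernel)
theorem L4485 : W_49 (nat_lit 2) (nat_lit 0x40007c001a0009800c80000000000000000000000000000000) (nat_lit 0x0) (nat_lit 0x10000800000000000000004000000000000000000000000000000000000) := D_49 (nat_lit 215) (nat_lit 232) (nat_lit 146) (nat_lit 4) (nat_lit 11) (nat_lit 13) (nat_lit 4) (nat_lit 11) (nat_lit 12) (by decide +kernel)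
theorem L4486 : W_49 (nat_lit 3) (nat_lit 0x7c001a0009800c80000000000000000000000000000000) (nat_lit 0x0) (nat_lit 0x10000800040000000000014000000000000000000000000000000000000) := T_49 (nat_lit 198) (nat_lit 148) (nat_lit 6) (nat_lit 11) (nat_lit 11) L4485 (by decide +kernel)
theorem L4487 : W_49 (nat_lit 4) (nat_lit 0x7c00120009800c80000000000000000000000000000000) (nat_lit 0x0) (nat_lit 0x10000800040000200080014000000000000000000000000000000000000) := T_49 (nat_lit 163) (nat_lit 177) (nat_lit 2) (nat_lit 7) (nat_lit 10) L4486 (by decide +kernel)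
theorem L4488 : W_49 (nat_lit 5) (nat_lit 0x7400120009800c80000000000000000000000000000000) (nat_lit 0x0) (nat_lit 0x10000800040000a00280014000000000000000000000000000000000000) := T_49 (nat_lit 179) (nat_lit 165) (nat_lit 2) (nat_lit 8) (nat_lit 10) L4487 (by decide +kernel)
theorem L4489 : W_49 (nat_lit 6) (nat_lit 0x6400120009800c80000000000000000000000000000000) (nat_lit 0x0) (nat_lit 0x10000800060001a00280014000000000000000000000000000000000000) := T_49 (nat_lit 180) (nat_lit 197) (nat_lit 5) (nat_lit 11) (nat_lit 7) L4488 (by decide +kernel)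
theorem L4490 : W_49 (nat_lit 7) (nat_lit 0x6400120009800480000000000000000000000000000000) (nat_lit 0x0) (nat_lit 0x10000800060001a00280014000800040000000000000000000000000000) := T_49 (nat_lit 131) (nat_lit 114) (nat_lit 6) (nat_lit 11) (nat_lit 10) L4489 (by decide +kernel)
theorem L4491 : W_49 (nat_lit 8) (nat_lit 0x2400120009800480000000000000000000000000000000) (nat_lit 0x0) (nat_lit 0x100008000e0005a00280014000800040000000000000000000000000000) := T_49 (nat_lit 182) (nat_lit 199) (nat_lit 7) (nat_lit 11) (nat_lit 7) L4490 (by decide +kernel)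
theorem L4492 : W_49 (nat_lit 2) (nat_lit 0x40006400120009800c80000000000000000000000000000000) (nat_lit 0x0) (nat_lit 0x400020001000000000000000000000000000000000000000000000) := D_49 (nat_lit 197) (nat_lit 214) (nat_lit 180) (nat_lit 5) (nat_lit 11) (nat_lit 8) (nat_lit 5) (nat_lit 11) (nat_lit 7) (by decide +kernel)
theorem L4493 : W_49 (nat_lit 3) (nat_lit 0x6400120009800c80000000000000000000000000000000) (nat_lit 0x0) (nat_lit 0x400060001000000010000000000000000000000000000000000000) := T_49 (nat_lit 198) (nat_lit 148) (nat_lit 6) (nat_lit 11) (nat_lit 11) L4492 (by decide +kernel)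
theorem L4494 : W_49 (nat_lit 4) (nat_lit 0x2400120009800c80000000000000000000000000000000) (nat_lit 0x0) (nat_lit 0x4000e0005000000010000000000000000000000000000000000000) := T_49 (nat_lit 182) (nat_lit 199) (nat_lit 7) (nat_lit 11) (nat_lit 7) L4493 (by decide +kernel)
theorem L4495 : W_49 (nat_lit 5) (nat_lit 0x2400120009800480000000000000000000000000000000) (nat_lit 0x0) (nat_lit 0x4000e0005000000010000800040000000000000000000000000000) := T_49 (nat_lit 131) (nat_lit 114) (nat_lit 6) (nat_lit 11) (nat_lit 10) L4494 (by decide +kernel)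
theorem L4496 : W_49 (nat_lit 2) (nat_lit 0x10000c000400066001a0009a00d80000000000000000000000000000000) (nat_lit 0x0) (nat_lit 0x400020001000000000000000000000000000000000000000000000000000000) := D_49 (nat_lit 233) (nat_lit 216) (nat_lit 250) (nat_lit 7) (nat_lit 11) (nat_lit 9) (nat_lit 7) (nat_lit 11) (nat_lit 10) (by decide +kernel)
theorem L4497 : W_49 (nat_lit 3) (nat_lit 0xc000400066001a0009a00d80000000000000000000000000000000) (nat_lit 0x0) (nat_lit 0x400030001000000000000200000000000000000000000000000000000000000) := T_49 (nat_lit 232) (nat_lit 165) (nat_lit 6) (nat_lit 11) (nat_lit 13) L4496 (by decide +kernel)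
theorem L4498 : W_49 (nat_lit 4) (nat_lit 0xc00040006600120009a00d80000000000000000000000000000000) (nat_lit 0x0) (nat_lit 0x400030001000000000000280004000000000000000000000000000000000000) := T_49 (nat_lit 163) (nat_lit 146) (nat_lit 4) (nat_lit 11) (nat_lit 12) L4497 (by decide +kernel)
theorem L4499 : W_49 (nat_lit 5) (nat_lit 0x400040006600120009a00d80000000000000000000000000000000) (nat_lit 0x0) (nat_lit 0x400038001800000000000280004000000000000000000000000000000000000) := T_49 (nat_lit 215) (nat_lit 231) (nat_lit 5) (nat_lit 11) (nat_lit 9) L4498 (by decide +kernel)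
theorem L4500 : W_49 (nat_lit 6) (nat_lit 0x40006600120009a00d80000000000000000000000000000000) (nat_lit 0x0) (nat_lit 0x400038001c00020000000280004000000000000000000000000000000000000) := T_49 (nat_lit 214) (nat_lit 197) (nat_lit 5) (nat_lit 11) (nat_lit 8) L4499 (by decide +kernel)
theorem L4501 : W_49 (nat_lit 7) (nat_lit 0x6600120009a00d80000000000000000000000000000000) (nat_lit 0x0) (nat_lit 0x400038001c00060000000280014000000000000000000000000000000000000) := T_49 (nat_lit 198) (nat_lit 148) (nat_lit 6) (nat_lit 11) (nat_lit 11) L4500 (by decide +kernel)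
theorem L4502 : W_49 (nat_lit 8) (nat_lit 0x6600120009800d80000000000000000000000000000000) (nat_lit 0x0) (nat_lit 0x400038001c00060000000280014600000000000000000000000000000000000) := T_49 (nat_lit 141) (nat_lit 142) (nat_lit 2) (nat_lit 5) (nat_lit 8) L4501 (by decide +kernel)
theorem L4503 : W_49 (nat_lit 9) (nat_lit 0x6600120009800c80000000000000000000000000000000) (nat_lit 0x0) (nat_lit 0x400038001c00060000000280014600100008000000000000000000000000000) := T_49 (nat_lit 128) (nat_lit 111) (nat_lit 6) (nat_lit 8) (nat_lit 10) L4502 (by decide +kernel)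
theorem L4504 : W_49 (nat_lit 10) (nat_lit 0x6600120009800480000000000000000000000000000000) (nat_lit 0x0) (nat_lit 0x400038001c00060000000280014600900048000000000000000000000000000) := T_49 (nat_lit 131) (nat_lit 114) (nat_lit 6) (nat_lit 11) (nat_lit 10) L4503 (by decide +kernel)
theorem L4505 : W_49 (nat_lit 11) (nat_lit 0x2600120009800480000000000000000000000000000000) (nat_lit 0x0) (nat_lit 0x400038001c000e0004000280014600900048000000000000000000000000000) := T_49 (nat_lit 182) (nat_lit 199) (nat_lit 7) (nat_lit 11) (nat_lit 7) L4504 (by decide +kernel)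
theorem L4506 : W_49 (nat_lit 12) (nat_lit 0x2400120009800480000000000000000000000000000000) (nat_lit 0x0) (nat_lit 0x400038001c000e4004200280014600900048000000000000000000000000000) := T_49 (nat_lit 177) (nat_lit 194) (nat_lit 5) (nat_lit 8) (nat_lit 7) L4505 (by decide +kernel)
theorem L4507 : W_49 (nat_lit 2) (nat_lit 0x40002600120009800c80000000000000000000000000000000) (nat_lit 0x0) (nat_lit 0x1000080004000000000000000000000000000000000000000000000) := D_49 (nat_lit 199) (nat_lit 182) (nat_lit 216) (nat_lit 7) (nat_lit 11) (nat_lit 7) (nat_lit 7) (nat_lit 11) (nat_lit 8) (by decide +kernel)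
theorem L4508 : W_49 (nat_lit 3) (nat_lit 0x2600120009800c80000000000000000000000000000000) (nat_lit 0x0) (nat_lit 0x10000c0004000000010000000000000000000000000000000000000) := T_49 (nat_lit 198) (nat_lit 148) (nat_lit 6) (nat_lit 11) (nat_lit 11) L4507 (by decide +kernel)
theorem L4509 : W_49 (nat_lit 4) (nat_lit 0x2400120009800c80000000000000000000000000000000) (nat_lit 0x0) (nat_lit 0x10000c4004200000010000000000000000000000000000000000000) := T_49 (nat_lit 177) (nat_lit 194) (nat_lit 5) (nat_lit 8) (nat_lit 7) L4508 (by decide +kernel)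
theorem L4510 : W_49 (nat_lit 5) (nat_lit 0x2400120009800480000000000000000000000000000000) (nat_lit 0x0) (nat_lit 0x10000c4004200000010000800040000000000000000000000000000) := T_49 (nat_lit 131) (nat_lit 114) (nat_lit 6) (nat_lit 11) (nat_lit 10) L4509 (by decide +kernel)
theorem L4511 : W_49 (nat_lit 13) (nat_lit 0x400120009800480000000000000000000000000000000) (nat_lit 0x0) (nat_lit 0x400038001c000e4007a00280014600900048000000000000000000000000000) := Q_49 (nat_lit 181) (C_49 L4472 (C_49 L4452 (C_49 L4491 (C_49 L4495 (C_49 L4506 (C_49 L4510 N_49)))))) (by decide +kernel)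
theorem L4512 : W_49 (nat_lit 2) (nat_lit 0x600120009a00d80060001800000000000000000000000) (nat_lit 0x0) (nat_lit 0x200010000000000000000080000000000000000000) := D_49 (nat_lit 148) (nat_lit 165) (nat_lit 79) (nat_lit 7) (nat_lit 11) (nat_lit 5) (nat_lit 7) (nat_lit 11) (nat_lit 4) (by decide +kernel)
theorem L4513 : W_49 (nat_lit 3) (nat_lit 0x600120009a00d80060000800000000000000000000000) (nat_lit 0x0) (nat_lit 0x2000100000000000010000c0000000000000000000) := T_49 (nat_lit 96) (nat_lit 78) (nat_lit 4) (nat_lit 11) (nat_lit 8) L4512 (by decide +kernel)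
theorem L4514 : W_49 (nat_lit 4) (nat_lit 0x600120009a00d80060000000000000000000000000000) (nat_lit 0x0) (nat_lit 0x2000100000000100018000c0000000000000000000) := T_49 (nat_lit 95) (nat_lit 112) (nat_lit 4) (nat_lit 11) (nat_lit 9) L4513 (by decide +kernel)
theorem L4515 : W_49 (nat_lit 5) (nat_lit 0x600120009a00580060000000000000000000000000000) (nat_lit 0x0) (nat_lit 0x20002000100008000100018000c0000000000000000000) := T_49 (nat_lit 131) (nat_lit 181) (nat_lit 6) (nat_lit 11) (nat_lit 10) L4514 (by decide +kernel)
theorem L4516 : W_49 (nat_lit 6) (nat_lit 0x600120009800580060000000000000000000000000000) (nat_lit 0x0) (nat_lit 0x20002000106008000100018000c0000000000000000000) := T_49 (nat_lit 141) (nat_lit 142) (nat_lit 2) (nat_lit 5) (nat_lit 8) L4515 (by decide +kernel)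
theorem L4517 : W_49 (nat_lit 7) (nat_lit 0x600120009800480060000000000000000000000000000) (nat_lit 0x0) (nat_lit 0x20002000106009000180018000c0000000000000000000) := T_49 (nat_lit 128) (nat_lit 111) (nat_lit 6) (nat_lit 8) (nat_lit 10) L4516 (by decide +kernel)
theorem L4518 : W_49 (nat_lit 8) (nat_lit 0x600120009800480020000000000000000000000000000) (nat_lit 0x0) (nat_lit 0x20002000106009000580038000c0000000000000000000) := T_49 (nat_lit 114) (nat_lit 97) (nat_lit 6) (nat_lit 11) (nat_lit 9) L4517 (by decide +kernel)
theorem L4519 : W_49 (nat_lit 9) (nat_lit 0x400120009800480020000000000000000000000000000) (nat_lit 0x0) (nat_lit 0x40022002000106009000580038000c0000000000000000000) := T_49 (nat_lit 177) (nat_lit 194) (nat_lit 5) (nat_lit 8) (nat_lit 7) L4518 (by decide +kernel)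
theorem L4520 : W_49 (nat_lit 2) (nat_lit 0x600120009800480038000000000000000000000000000) (nat_lit 0x0) (nat_lit 0x800004000400000000000000000000000) := D_49 (nat_lit 110) (nat_lit 94) (nat_lit 131) (nat_lit 6) (nat_lit 8) (nat_lit 9) (nat_lit 3) (nat_lit 8) (nat_lit 6) (by decide +kernel)
theorem L4521 : W_49 (nat_lit 3) (nat_lit 0x600120009800480030000000000000000000000000000) (nat_lit 0x0) (nat_lit 0x90000c000400000000000000000000000) := T_49 (nat_lit 111) (nat_lit 128) (nat_lit 6) (nat_lit 8) (nat_lit 10) L4520 (by decide +kernel)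
theorem L4522 : W_49 (nat_lit 4) (nat_lit 0x400120009800480030000000000000000000000000000) (nat_lit 0x0) (nat_lit 0x400020000000000090000c000400000000000000000000000) := T_49 (nat_lit 177) (nat_lit 194) (nat_lit 5) (nat_lit 8) (nat_lit 7) L4521 (by decide +kernel)
theorem L4523 : W_49 (nat_lit 5) (nat_lit 0x400120009800480020000000000000000000000000000) (nat_lit 0x0) (nat_lit 0x400020000000000090001c000c00000000000000000000000) := T_49 (nat_lit 112) (nat_lit 95) (nat_lit 4) (nat_lit 11) (nat_lit 9) L4522 (by decide +kernel)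
theorem L4524 : W_49 (nat_lit 10) (nat_lit 0x400120009800480000000000000000000000000000000) (nat_lit 0x0) (nat_lit 0x8400620020001060090007c003c001c0000000000000000000) := Q_49 (nat_lit 113) (C_49 L4443 (C_49 L4428 (C_49 L4420 (C_49 L4519 (C_49 L4523 N_49))))) (by decide +kernel)
theorem L4525 : W_49 (nat_lit 2) (nat_lit 0x6001a0009800480020001000000000000000000000000) (nat_lit 0x0) (nat_lit 0x40002000100000000000000000000) := D_49 (nat_lit 97) (nat_lit 114) (nat_lit 80) (nat_lit 6) (nat_lit 11) (nat_lit 9) (nat_lit 6) (nat_lit 11) (nat_lit 8) (by decide +kernel)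
theorem L4526 : W_49 (nat_lit 3) (nat_lit 0x6001a0009800480020000000000000000000000000000) (nat_lit 0x0) (nat_lit 0x4000000040003000100000000000000000000) := T_49 (nat_lit 96) (nat_lit 146) (nat_lit 5) (nat_lit 11) (nat_lit 5) L4525 (by decide +kernel)
theorem L4527 : W_49 (nat_lit 4) (nat_lit 0x600120009800480020000000000000000000000000000) (nat_lit 0x0) (nat_lit 0x1000080004000000040003000100000000000000000000) := T_49 (nat_lit 163) (nat_lit 180) (nat_lit 5) (nat_lit 11) (nat_lit 6) L4526 (by decide +kernel)
theorem L4528 : W_49 (nat_lit 5) (nat_lit 0x400120009800480020000000000000000000000000000) (nat_lit 0x0) (nat_lit 0x4001200080004000000040003000100000000000000000000) := T_49 (nat_lit 177) (nat_lit 194) (nat_lit 5) (nat_lit 8) (nat_lit 7) L4527 (by decide +kernel)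
theorem L4529 : W_49 (nat_lit 6) (nat_lit 0x400120009800480000000000000000000000000000000) (nat_lit 0x0) (nat_lit 0x400120008000400090007c003c00140000000000000000000) := Q_49 (nat_lit 113) (C_49 L4523 (C_49 L4436 (C_49 L4528 N_49))) (by decide +kernel)
theorem L4530 : W_49 (nat_lit 2) (nat_lit 0x3400120009a00580030000000000000000000000000000) (nat_lit 0x0) (nat_lit 0x4800200000000000000000000000000000000000000000) := D_49 (nat_lit 165) (nat_lit 179) (nat_lit 182) (nat_lit 2) (nat_lit 8) (nat_lit 10) (nat_lit 7) (nat_lit 11) (nat_lit 6) (by decide +kernel)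
theorem L4531 : W_49 (nat_lit 3) (nat_lit 0x1400120009a00580030000000000000000000000000000) (nat_lit 0x0) (nat_lit 0x20006800200000000000000000000000000000000000000000) := T_49 (nat_lit 181) (nat_lit 197) (nat_lit 5) (nat_lit 11) (nat_lit 7) L4530 (by decide +kernel)
theorem L4532 : W_49 (nat_lit 4) (nat_lit 0x1400120009a00580020000000000000000000000000000) (nat_lit 0x0) (nat_lit 0x20006800200000000000010000800000000000000000000000) := T_49 (nat_lit 112) (nat_lit 95) (nat_lit 4) (nat_lit 11) (nat_lit 9) L4531 (by decide +kernel)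
theorem L4533 : W_49 (nat_lit 5) (nat_lit 0x400120009a00580020000000000000000000000000000) (nat_lit 0x0) (nat_lit 0x20007800280000000000010000800000000000000000000000) := T_49 (nat_lit 180) (nat_lit 163) (nat_lit 5) (nat_lit 11) (nat_lit 6) L4532 (by decide +kernel)
theorem L4534 : W_49 (nat_lit 6) (nat_lit 0x400120009800580020000000000000000000000000000) (nat_lit 0x0) (nat_lit 0x20007800280000600000010000800000000000000000000000) := T_49 (nat_lit 141) (nat_lit 142) (nat_lit 2) (nat_lit 5) (nat_lit 8) L4533 (by decide +kernel)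
theorem L4535 : W_49 (nat_lit 7) (nat_lit 0x400120009800480020000000000000000000000000000) (nat_lit 0x0) (nat_lit 0x20007800280000600100018000800000000000000000000000) := T_49 (nat_lit 128) (nat_lit 111) (nat_lit 6) (nat_lit 8) (nat_lit 10) L4534 (by decide +kernel)
theorem L4536 : W_49 (nat_lit 8) (nat_lit 0x400120009800480000000000000000000000000000000) (nat_lit 0x0) (nat_lit 0x24007a00280014600100078003800140000000000000000000) := Q_49 (nat_lit 113) (C_49 L4528 (C_49 L4478 (C_49 L4428 (C_49 L4535 N_49)))) (by decide +kernel)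
theorem L4537 : W_49 (nat_lit 14) (nat_lit 0x400120001800480000000000000000000000000000000) (nat_lit 0x0) (nat_lit 0x400038001c800ec007a0028001c60090007c003c001c0000000000000000000) := Q_49 (nat_lit 147) (C_49 L4437 (C_49 L4444 (C_49 L4458 (C_49 L4473 (C_49 L4484 (C_49 L4511 (C_49 L4524 (C_49 L4529 (C_49 L4536 N_49))))))))) (by decide +kernel)
theorem L4538 : W_49 (nat_lit 15) (nat_lit 0x400120001800080000000000000000000000000000000) (nat_lit 0x0) (nat_lit 0x400038001c801ec007a0028001c600f0007c003c001c0000000000000000000) := Q_49 (nat_lit 130) (C_49 L4346 (C_49 L4416 (C_49 L4537 N_49))) (by decide +kernel)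
theorem L4539 : W_49 (nat_lit 6) (nat_lit 0x40002400120001800080000000000000000000000000000000) (nat_lit 0x0) (nat_lit 0x8001c000a000500020001c000e00010000000000000000000000000000) := Q_49 (nat_lit 147) (C_49 L4223 (C_49 L4219 (C_49 L4196 N_49))) (by decide +kernel)
theorem L4540 : W_49 (nat_lit 14) (nat_lit 0x2400120001800080000000000000000000000000000000) (nat_lit 0x0) (nat_lit 0x50003e007f803ef01da01e400fc601e00074001000000000000000000000000) := Q_49 (nat_lit 198) (C_49 L4053 (C_49 L4296 (C_49 L4539 (C_49 L4236 (C_49 L4260 (C_49 L4284 (C_49 L4118 N_49))))))) (by decide +kernel)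
theorem L4541 : W_49 (nat_lit 15) (nat_lit 0x400120001800080000000000000000000000000000000) (nat_lit 0x0) (nat_lit 0x600070003e007f803ef01fb81ec00fc603e00074001000000000000000000000000) := Q_49 (nat_lit 181) (C_49 L4331 (C_49 L4344 (C_49 L4123 (C_49 L4126 (C_49 L4540 (C_49 L4338 N_49)))))) (by decide +kernel)
theorem L4542 : W_49 (nat_lit 2) (nat_lit 0x400160001800080008000000000000000000000000000) (nat_lit 0x0) (nat_lit 0x800000000000000004000400000000000000000000000) := D_49 (nat_lit 110) (nat_lit 94) (nat_lit 179) (nat_lit 6) (nat_lit 8) (nat_lit 9) (nat_lit 7) (nat_lit 8) (nat_lit 6) (by decide +kernel)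
theorem L4543 : W_49 (nat_lit 3) (nat_lit 0x400120001800080008000000000000000000000000000) (nat_lit 0x0) (nat_lit 0x8000c0000000000004000400000000000000000000000) := T_49 (nat_lit 162) (nat_lit 163) (nat_lit 0) (nat_lit 11) (nat_lit 9) L4542 (by decide +kernel)
theorem L4544 : W_49 (nat_lit 4) (nat_lit 0x400120001800080000000000000000000000000000000) (nat_lit 0x0) (nat_lit 0x8000c000000010000c000400000000000000000000000) := T_49 (nat_lit 111) (nat_lit 128) (nat_lit 6) (nat_lit 8) (nat_lit 10) L4543 (by decide +kernel)
theorem L4545 : W_49 (nat_lit 4) (nat_lit 0x4001a0009800480000000000000000000000000000000) (nat_lit 0x0) (nat_lit 0x1000000004000000030001800040000000000000000000) := T_49 (nat_lit 113) (nat_lit 180) (nat_lit 5) (nat_lit 11) (nat_lit 6) L4435 (by decide +kernel)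
theorem L4546 : W_49 (nat_lit 5) (nat_lit 0x400120009800480000000000000000000000000000000) (nat_lit 0x0) (nat_lit 0x10000c0004000000030001800040000000000000000000) := T_49 (nat_lit 163) (nat_lit 162) (nat_lit 0) (nat_lit 11) (nat_lit 9) L4545 (by decide +kernel)
theorem L4547 : W_49 (nat_lit 4) (nat_lit 0x6001a0009800480000000000000000000000000000000) (nat_lit 0x0) (nat_lit 0x1000000004000000060003000100000000000000000000) := T_49 (nat_lit 113) (nat_lit 180) (nat_lit 5) (nat_lit 11) (nat_lit 6) L4526 (by decide +kernel)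
theorem L4548 : W_49 (nat_lit 5) (nat_lit 0x4001a0009800480000000000000000000000000000000) (nat_lit 0x0) (nat_lit 0x4001200000004000000060003000100000000000000000000) := T_49 (nat_lit 177) (nat_lit 194) (nat_lit 5) (nat_lit 8) (nat_lit 7) L4547 (by decide +kernel)
theorem L4549 : W_49 (nat_lit 6) (nat_lit 0x400120009800480000000000000000000000000000000) (nat_lit 0x0) (nat_lit 0x40012000c0004000000060003000100000000000000000000) := T_49 (nat_lit 163) (nat_lit 162) (nat_lit 0) (nat_lit 11) (nat_lit 9) L4548 (by decide +kernel)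
theorem L4550 : W_49 (nat_lit 2) (nat_lit 0x6400120009800480020000000000000000000000000000) (nat_lit 0x0) (nat_lit 0x200010000800000000000000000000000) := D_49 (nat_lit 112) (nat_lit 95) (nat_lit 129) (nat_lit 4) (nat_lit 11) (nat_lit 9) (nat_lit 4) (nat_lit 11) (nat_lit 10) (by decide +kernel)
theorem L4551 : W_49 (nat_lit 3) (nat_lit 0x6400120009800480000000000000000000000000000000) (nat_lit 0x0) (nat_lit 0x200000000200030000800000000000000000000000) := T_49 (nat_lit 113) (nat_lit 165) (nat_lit 7) (nat_lit 11) (nat_lit 6) L4550 (by decide +kernel)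
theorem L4552 : W_49 (nat_lit 4) (nat_lit 0x2400120009800480000000000000000000000000000000) (nat_lit 0x0) (nat_lit 0x80004000200000000200030000800000000000000000000000) := T_49 (nat_lit 182) (nat_lit 199) (nat_lit 7) (nat_lit 11) (nat_lit 7) L4551 (by decide +kernel)
theorem L4553 : W_49 (nat_lit 6) (nat_lit 0x400120009800480000000000000000000000000000000) (nat_lit 0x0) (nat_lit 0x14000e4007200200014000a00070000800000000000000000000000) := Q_49 (nat_lit 181) (C_49 L4510 (C_49 L4495 (C_49 L4552 (C_49 L4205 N_49)))) (by decide +kernel)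
theorem L4554 : W_49 (nat_lit 2) (nat_lit 0x28000800040007400160019a00680000000000000000000000000000000) (nat_lit 0x0) (nat_lit 0x500010000000000000000000000000000000000000000000000000000000000) := D_49 (nat_lit 232) (nat_lit 248) (nat_lit 250) (nat_lit 5) (nat_lit 11) (nat_lit 10) (nat_lit 7) (nat_lit 11) (nat_lit 10) (by decide +kernel)
theorem L4555 : W_49 (nat_lit 3) (nat_lit 0x8000800040007400160019a00680000000000000000000000000000000) (nat_lit 0x0) (nat_lit 0x500030001000000000000000000000000000000000000000000000000000000) := T_49 (nat_lit 233) (nat_lit 216) (nat_lit 7) (nat_lit 11) (nat_lit 9) L4554 (by decide +kernel)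
theorem L4556 : W_49 (nat_lit 4) (nat_lit 0x800040007400160019a00680000000000000000000000000000000) (nat_lit 0x0) (nat_lit 0x500038001400000000000000000000000000000000000000000000000000000) := T_49 (nat_lit 231) (nat_lit 214) (nat_lit 5) (nat_lit 11) (nat_lit 9) L4555 (by decide +kernel)
theorem L4557 : W_49 (nat_lit 5) (nat_lit 0x40007400160019a00680000000000000000000000000000000) (nat_lit 0x0) (nat_lit 0x500038001c00000000000200000000000000000000000000000000000000000) := T_49 (nat_lit 215) (nat_lit 165) (nat_lit 6) (nat_lit 11) (nat_lit 12) L4556 (by decide +kernel)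
theorem L4558 : W_49 (nat_lit 6) (nat_lit 0x40007400160009a00680000000000000000000000000000000) (nat_lit 0x0) (nat_lit 0x500038001c00000000000200010000800000000000000000000000000000000) := T_49 (nat_lit 148) (nat_lit 131) (nat_lit 6) (nat_lit 11) (nat_lit 11) L4557 (by decide +kernel)
theorem L4559 : W_49 (nat_lit 7) (nat_lit 0x7400160009a00680000000000000000000000000000000) (nat_lit 0x0) (nat_lit 0x500038001c00040000000200014000800000000000000000000000000000000) := T_49 (nat_lit 198) (nat_lit 146) (nat_lit 4) (nat_lit 11) (nat_lit 11) L4558 (by decide +kernel)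
theorem L4560 : W_49 (nat_lit 8) (nat_lit 0x7400160009a00480000000000000000000000000000000) (nat_lit 0x0) (nat_lit 0x500038001c00040000000200014000a00010000000000000000000000000000) := T_49 (nat_lit 129) (nat_lit 112) (nat_lit 4) (nat_lit 11) (nat_lit 10) L4559 (by decide +kernel)
theorem L4561 : W_49 (nat_lit 9) (nat_lit 0x6400160009a00480000000000000000000000000000000) (nat_lit 0x0) (nat_lit 0x500038001c00060001000200014000a00010000000000000000000000000000) := T_49 (nat_lit 180) (nat_lit 197) (nat_lit 5) (nat_lit 11) (nat_lit 7) L4560 (by decide +kernel)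
theorem L4562 : W_49 (nat_lit 10) (nat_lit 0x6400160009800480000000000000000000000000000000) (nat_lit 0x0) (nat_lit 0x500038001c00060001000200014600a00010000000000000000000000000000) := T_49 (nat_lit 141) (nat_lit 142) (nat_lit 3) (nat_lit 5) (nat_lit 8) L4561 (by decide +kernel)
theorem L4563 : W_49 (nat_lit 11) (nat_lit 0x6400120009800480000000000000000000000000000000) (nat_lit 0x0) (nat_lit 0x500038001c000600010002c0014600a00010000000000000000000000000000) := T_49 (nat_lit 162) (nat_lit 163) (nat_lit 3) (nat_lit 8) (nat_lit 9) L4562 (by decide +kernel)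
theorem L4564 : W_49 (nat_lit 12) (nat_lit 0x2400120009800480000000000000000000000000000000) (nat_lit 0x0) (nat_lit 0x500038001c000e00050002c0014600a00010000000000000000000000000000) := T_49 (nat_lit 182) (nat_lit 199) (nat_lit 7) (nat_lit 11) (nat_lit 7) L4563 (by decide +kernel)
theorem L4565 : W_49 (nat_lit 2) (nat_lit 0x40006400160009a00680000000000000000000000000000000) (nat_lit 0x0) (nat_lit 0x400020001000000000000000000000000000000000000000000000) := D_49 (nat_lit 197) (nat_lit 180) (nat_lit 214) (nat_lit 5) (nat_lit 11) (nat_lit 7) (nat_lit 5) (nat_lit 11) (nat_lit 8) (by decide +kernel)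
theorem L4566 : W_49 (nat_lit 3) (nat_lit 0x6400160009a00680000000000000000000000000000000) (nat_lit 0x0) (nat_lit 0x400060001000000004000000000000000000000000000000000000) := T_49 (nat_lit 198) (nat_lit 146) (nat_lit 4) (nat_lit 11) (nat_lit 11) L4565 (by decide +kernel)
theorem L4567 : W_49 (nat_lit 4) (nat_lit 0x6400160009800680000000000000000000000000000000) (nat_lit 0x0) (nat_lit 0x400060001000000004600000000000000000000000000000000000) := T_49 (nat_lit 141) (nat_lit 142) (nat_lit 3) (nat_lit 5) (nat_lit 8) L4566 (by decide +kernel)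
theorem L4568 : W_49 (nat_lit 5) (nat_lit 0x6400120009800680000000000000000000000000000000) (nat_lit 0x0) (nat_lit 0x4000600010000c0004600000000000000000000000000000000000) := T_49 (nat_lit 162) (nat_lit 163) (nat_lit 3) (nat_lit 8) (nat_lit 9) L4567 (by decide +kernel)
theorem L4569 : W_49 (nat_lit 6) (nat_lit 0x2400120009800680000000000000000000000000000000) (nat_lit 0x0) (nat_lit 0x4000e00050000c0004600000000000000000000000000000000000) := T_49 (nat_lit 182) (nat_lit 199) (nat_lit 7) (nat_lit 11) (nat_lit 7) L4568 (by decide +kernel)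
theorem L4570 : W_49 (nat_lit 7) (nat_lit 0x2400120009800480000000000000000000000000000000) (nat_lit 0x0) (nat_lit 0x4000e00050000c0004600200010000000000000000000000000000) := T_49 (nat_lit 129) (nat_lit 112) (nat_lit 4) (nat_lit 11) (nat_lit 10) L4569 (by decide +kernel)
theorem L4571 : W_49 (nat_lit 13) (nat_lit 0x400120009800480000000000000000000000000000000) (nat_lit 0x0) (nat_lit 0x500038001c003e401f200ec0034600a00050000000000000000000000000000) := Q_49 (nat_lit 181) (C_49 L4510 (C_49 L4495 (C_49 L4564 (C_49 L4205 (C_49 L4181 (C_49 L4192 (C_49 L4570 N_49))))))) (by decide +kernel)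
theorem L4572 : W_49 (nat_lit 4) (nat_lit 0x400120009800480020000000000000000000000000000) (nat_lit 0x0) (nat_lit 0xc0004000000010001800040000000000000000000) := T_49 (nat_lit 163) (nat_lit 162) (nat_lit 0) (nat_lit 11) (nat_lit 9) L4435 (by decide +kernel)
theorem L4573 : W_49 (nat_lit 2) (nat_lit 0x400120009800480070000000000000000000000000000) (nat_lit 0x0) (nat_lit 0x2000000000000a00000000000000000000000000000000) := D_49 (nat_lit 181) (nat_lit 131) (nat_lit 129) (nat_lit 6) (nat_lit 11) (nat_lit 10) (nat_lit 4) (nat_lit 11) (nat_lit 10) (by decide +kernel)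
theorem L4574 : W_49 (nat_lit 3) (nat_lit 0x400120009800480060000000000000000000000000000) (nat_lit 0x0) (nat_lit 0x2000000000000a00010000800000000000000000000000) := T_49 (nat_lit 112) (nat_lit 95) (nat_lit 4) (nat_lit 11) (nat_lit 9) L4573 (by decide +kernel)
theorem L4575 : W_49 (nat_lit 4) (nat_lit 0x400120009800480020000000000000000000000000000) (nat_lit 0x0) (nat_lit 0x2000000000000a00050002800000000000000000000000) := T_49 (nat_lit 114) (nat_lit 97) (nat_lit 6) (nat_lit 11) (nat_lit 9) L4574 (by decide +kernel)
theorem L4576 : W_49 (nat_lit 6) (nat_lit 0x400120009800480000000000000000000000000000000) (nat_lit 0x0) (nat_lit 0x40062002c0014000a00070003800140000000000000000000) := Q_49 (nat_lit 113) (C_49 L4428 (C_49 L4572 (C_49 L4420 (C_49 L4575 N_49)))) (by decide +kernel)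
theorem L4577 : W_49 (nat_lit 2) (nat_lit 0x6003a0009800480030001000000000000000000000000) (nat_lit 0x0) (nat_lit 0x40002000100000000000000000000) := D_49 (nat_lit 97) (nat_lit 80) (nat_lit 114) (nat_lit 6) (nat_lit 11) (nat_lit 8) (nat_lit 6) (nat_lit 11) (nat_lit 9) (by decide +kernel)
theorem L4578 : W_49 (nat_lit 3) (nat_lit 0x6003a0009800480030000000000000000000000000000) (nat_lit 0x0) (nat_lit 0x10000000040003000100000000000000000000) := T_49 (nat_lit 96) (nat_lit 148) (nat_lit 7) (nat_lit 11) (nat_lit 5) L4577 (by decide +kernel)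
theorem L4579 : W_49 (nat_lit 4) (nat_lit 0x6001a0009800480030000000000000000000000000000) (nat_lit 0x0) (nat_lit 0x4000200010000000040003000100000000000000000000) := T_49 (nat_lit 165) (nat_lit 182) (nat_lit 7) (nat_lit 11) (nat_lit 6) L4578 (by decide +kernel)
theorem L4580 : W_49 (nat_lit 5) (nat_lit 0x6001a0009800480020000000000000000000000000000) (nat_lit 0x0) (nat_lit 0x4000200010000000050003800100000000000000000000) := T_49 (nat_lit 112) (nat_lit 95) (nat_lit 4) (nat_lit 11) (nat_lit 9) L4579 (by decide +kernel)
theorem L4581 : W_49 (nat_lit 6) (nat_lit 0x6001a0009800480000000000000000000000000000000) (nat_lit 0x0) (nat_lit 0x5000200010000000070003800100000000000000000000) := T_49 (nat_lit 113) (nat_lit 180) (nat_lit 5) (nat_lit 11) (nat_lit 6) L4580 (by decide +kernel)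
theorem L4582 : W_49 (nat_lit 7) (nat_lit 0x4001a0009800480000000000000000000000000000000) (nat_lit 0x0) (nat_lit 0x4005200200010000000070003800100000000000000000000) := T_49 (nat_lit 177) (nat_lit 194) (nat_lit 5) (nat_lit 8) (nat_lit 7) L4581 (by decide +kernel)
theorem L4583 : W_49 (nat_lit 8) (nat_lit 0x400120009800480000000000000000000000000000000) (nat_lit 0x0) (nat_lit 0x40052002c0010000000070003800100000000000000000000) := T_49 (nat_lit 163) (nat_lit 162) (nat_lit 0) (nat_lit 11) (nat_lit 9) L4582 (by decide +kernel)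
theorem L4584 : W_49 (nat_lit 14) (nat_lit 0x400120001800480000000000000000000000000000000) (nat_lit 0x0) (nat_lit 0x500038001c003e401f200ec003c600a00070003800140000000000000000000) := Q_49 (nat_lit 147) (C_49 L4437 (C_49 L4546 (C_49 L4549 (C_49 L4553 (C_49 L4571 (C_49 L4576 (C_49 L4583 N_49))))))) (by decide +kernel)
theorem L4585 : W_49 (nat_lit 2) (nat_lit 0xc00036001a0009a00580000000000000000000000000000000) (nat_lit 0x0) (nat_lit 0x10000800000000000000004000000000000000000000000000000000000) := D_49 (nat_lit 215) (nat_lit 146) (nat_lit 232) (nat_lit 4) (nat_lit 11) (nat_lit 12) (nat_lit 4) (nat_lit 11) (nat_lit 13) (by decide +kernel)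
theorem L4586 : W_49 (nat_lit 3) (nat_lit 0x800036001a0009a00580000000000000000000000000000000) (nat_lit 0x0) (nat_lit 0x10001800040000000000004000000000000000000000000000000000000) := T_49 (nat_lit 198) (nat_lit 216) (nat_lit 7) (nat_lit 11) (nat_lit 8) L4585 (by decide +kernel)
theorem L4587 : W_49 (nat_lit 4) (nat_lit 0x36001a0009a00580000000000000000000000000000000) (nat_lit 0x0) (nat_lit 0x100018000c0004000000004000000000000000000000000000000000000) := T_49 (nat_lit 199) (nat_lit 182) (nat_lit 7) (nat_lit 11) (nat_lit 7) L4586 (by decide +kernel)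
theorem L4588 : W_49 (nat_lit 5) (nat_lit 0x26001a0009a00580000000000000000000000000000000) (nat_lit 0x0) (nat_lit 0x100018000e0005000000004000000000000000000000000000000000000) := T_49 (nat_lit 180) (nat_lit 197) (nat_lit 5) (nat_lit 11) (nat_lit 7) L4587 (by decide +kernel)
theorem L4589 : W_49 (nat_lit 6) (nat_lit 0x2600120009a00580000000000000000000000000000000) (nat_lit 0x0) (nat_lit 0x100018000e00050000c0004000000000000000000000000000000000000) := T_49 (nat_lit 163) (nat_lit 162) (nat_lit 1) (nat_lit 11) (nat_lit 9) L4588 (by decide +kernel)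
theorem L4590 : W_49 (nat_lit 7) (nat_lit 0x2400120009a00580000000000000000000000000000000) (nat_lit 0x0) (nat_lit 0x100018000e40052000c0004000000000000000000000000000000000000) := T_49 (nat_lit 177) (nat_lit 194) (nat_lit 5) (nat_lit 8) (nat_lit 7) L4589 (by decide +kernel)
theorem L4591 : W_49 (nat_lit 8) (nat_lit 0x2400120009800580000000000000000000000000000000) (nat_lit 0x0) (nat_lit 0x100018000e40052000c0004600000000000000000000000000000000000) := T_49 (nat_lit 141) (nat_lit 142) (nat_lit 2) (nat_lit 5) (nat_lit 8) L4590 (by decide +kernel)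
theorem L4592 : W_49 (nat_lit 9) (nat_lit 0x2400120009800480000000000000000000000000000000) (nat_lit 0x0) (nat_lit 0x100018000e40052000c0004600100008000000000000000000000000000) := T_49 (nat_lit 128) (nat_lit 111) (nat_lit 6) (nat_lit 8) (nat_lit 10) L4591 (by decide +kernel)
theorem L4593 : W_49 (nat_lit 2) (nat_lit 0x10000f6005a0009a00d80000000000000000000000000000000) (nat_lit 0x0) (nat_lit 0x200030000000000000000000000000000000000000) := D_49 (nat_lit 148) (nat_lit 149) (nat_lit 165) (nat_lit 4) (nat_lit 13) (nat_lit 11) (nat_lit 7) (nat_lit 12) (nat_lit 7) (by decide +kernel)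
theorem L4594 : W_49 (nat_lit 3) (nat_lit 0x10000f6001a0009a00d80000000000000000000000000000000) (nat_lit 0x0) (nat_lit 0xe00030000000000000000000000000000000000000) := T_49 (nat_lit 166) (nat_lit 167) (nat_lit 2) (nat_lit 10) (nat_lit 10) L4593 (by decide +kernel)
theorem L4595 : W_49 (nat_lit 4) (nat_lit 0xf6001a0009a00d80000000000000000000000000000000) (nat_lit 0x0) (nat_lit 0x300000000e00030000000000000000000000000000000000000) := T_49 (nat_lit 200) (nat_lit 201) (nat_lit 3) (nat_lit 10) (nat_lit 10) L4594 (by decide +kernel)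
theorem L4596 : W_49 (nat_lit 5) (nat_lit 0xe6001a0009a00d80000000000000000000000000000000) (nat_lit 0x0) (nat_lit 0x320001000e00030000000000000000000000000000000000000) := T_49 (nat_lit 180) (nat_lit 197) (nat_lit 5) (nat_lit 11) (nat_lit 7) L4595 (by decide +kernel)
theorem L4597 : W_49 (nat_lit 6) (nat_lit 0x66001a0009a00d80000000000000000000000000000000) (nat_lit 0x0) (nat_lit 0x320019000e00030000000000000000000000000000000000000) := T_49 (nat_lit 183) (nat_lit 184) (nat_lit 0) (nat_lit 14) (nat_lit 10) L4596 (by decide +kernel)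
theorem L4598 : W_49 (nat_lit 7) (nat_lit 0x64001a0009a00d80000000000000000000000000000000) (nat_lit 0x0) (nat_lit 0x324019200e00030000000000000000000000000000000000000) := T_49 (nat_lit 177) (nat_lit 194) (nat_lit 5) (nat_lit 8) (nat_lit 7) L4597 (by decide +kernel)
theorem L4599 : W_49 (nat_lit 8) (nat_lit 0x64001a0009800d80000000000000000000000000000000) (nat_lit 0x0) (nat_lit 0x324019200e00030600000000000000000000000000000000000) := T_49 (nat_lit 141) (nat_lit 142) (nat_lit 2) (nat_lit 5) (nat_lit 8) L4598 (by decide +kernel)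
theorem L4600 : W_49 (nat_lit 9) (nat_lit 0x64001a0009800c80000000000000000000000000000000) (nat_lit 0x0) (nat_lit 0x324019200e00030600100008000000000000000000000000000) := T_49 (nat_lit 128) (nat_lit 111) (nat_lit 6) (nat_lit 8) (nat_lit 10) L4599 (by decide +kernel)
theorem L4601 : W_49 (nat_lit 10) (nat_lit 0x6400120009800c80000000000000000000000000000000) (nat_lit 0x0) (nat_lit 0x324019200ec0030600100008000000000000000000000000000) := T_49 (nat_lit 163) (nat_lit 162) (nat_lit 3) (nat_lit 8) (nat_lit 9) L4600 (by decide +kernel)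
theorem L4602 : W_49 (nat_lit 11) (nat_lit 0x2400120009800c80000000000000000000000000000000) (nat_lit 0x0) (nat_lit 0x3a401d200ec0030600100008000000000000000000000000000) := T_49 (nat_lit 182) (nat_lit 199) (nat_lit 7) (nat_lit 11) (nat_lit 7) L4601 (by decide +kernel)
theorem L4603 : W_49 (nat_lit 12) (nat_lit 0x2400120009800480000000000000000000000000000000) (nat_lit 0x0) (nat_lit 0x3a401d200ec0030600900048000000000000000000000000000) := T_49 (nat_lit 131) (nat_lit 114) (nat_lit 6) (nat_lit 11) (nat_lit 10) L4602 (by decide +kernel)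
theorem L4604 : W_49 (nat_lit 13) (nat_lit 0x400120009800480000000000000000000000000000000) (nat_lit 0x0) (nat_lit 0x10001c003e401f200ec0034600900048000000000000000000000000000) := Q_49 (nat_lit 181) (C_49 L4510 (C_49 L4495 (C_49 L4592 (C_49 L4472 (C_49 L4603 N_49))))) (by decide +kernel)
theorem L4605 : W_49 (nat_lit 14) (nat_lit 0x400120001800480000000000000000000000000000000) (nat_lit 0x0) (nat_lit 0x10001c003e401f200ec003c60090007c003c001c0000000000000000000) := Q_49 (nat_lit 147) (C_49 L4583 (C_49 L4529 (C_49 L4546 (C_49 L4549 (C_49 L4524 (C_49 L4604 N_49)))))) (by decide +kernel)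
theorem L4606 : W_49 (nat_lit 15) (nat_lit 0x400120001800080000000000000000000000000000000) (nat_lit 0x0) (nat_lit 0x500038001c003e401f200ec003c600f0007c003c001c0000000000000000000) := Q_49 (nat_lit 130) (C_49 L4346 (C_49 L4584 (C_49 L4605 N_49))) (by decide +kernel)
theorem L4607 : W_49 (nat_lit 2) (nat_lit 0xc007400120019800d80020000800000000000000000000000) (nat_lit 0x0) (nat_lit 0x10000c0000000000000000000) := D_49 (nat_lit 96) (nat_lit 78) (nat_lit 79) (nat_lit 4) (nat_lit 11) (nat_lit 8) (nat_lit 7) (nat_lit 11) (nat_lit 4) (by decide +kernel)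
theorem L4608 : W_49 (nat_lit 3) (nat_lit 0xc007400120009800d80020000800000000000000000000000) (nat_lit 0x0) (nat_lit 0x400000000000100000000000010000c0000000000000000000) := T_49 (nat_lit 148) (nat_lit 198) (nat_lit 6) (nat_lit 11) (nat_lit 11) L4607 (by decide +kernel)
theorem L4609 : W_49 (nat_lit 4) (nat_lit 0xc007400120009800d80020000000000000000000000000000) (nat_lit 0x0) (nat_lit 0x400000000000100000000100018000c0000000000000000000) := T_49 (nat_lit 95) (nat_lit 112) (nat_lit 4) (nat_lit 11) (nat_lit 9) L4608 (by decide +kernel)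
theorem L4610 : W_49 (nat_lit 5) (nat_lit 0xc007400120009800d80000000000000000000000000000000) (nat_lit 0x0) (nat_lit 0x400000002000100000000300018000c0000000000000000000) := T_49 (nat_lit 113) (nat_lit 165) (nat_lit 7) (nat_lit 11) (nat_lit 6) L4609 (by decide +kernel)
theorem L4611 : W_49 (nat_lit 6) (nat_lit 0xc003400120009800d80000000000000000000000000000000) (nat_lit 0x0) (nat_lit 0xc00040002000100000000300018000c0000000000000000000) := T_49 (nat_lit 182) (nat_lit 199) (nat_lit 7) (nat_lit 11) (nat_lit 7) L4610 (by decide +kernel)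
theorem L4612 : W_49 (nat_lit 7) (nat_lit 0xc003400120009800580000000000000000000000000000000) (nat_lit 0x0) (nat_lit 0xc00040002000100008000700018000c0000000000000000000) := T_49 (nat_lit 131) (nat_lit 114) (nat_lit 6) (nat_lit 11) (nat_lit 10) L4611 (by decide +kernel)
theorem L4613 : W_49 (nat_lit 8) (nat_lit 0xc003400120001800580000000000000000000000000000000) (nat_lit 0x0) (nat_lit 0xe00040002000180008000700018000c0000000000000000000) := T_49 (nat_lit 147) (nat_lit 197) (nat_lit 5) (nat_lit 11) (nat_lit 7) L4612 (by decide +kernel)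
theorem L4614 : W_49 (nat_lit 9) (nat_lit 0xc002400120001800580000000000000000000000000000000) (nat_lit 0x0) (nat_lit 0xe00058002000180008000700018000c0000000000000000000) := T_49 (nat_lit 180) (nat_lit 179) (nat_lit 1) (nat_lit 11) (nat_lit 10) L4613 (by decide +kernel)
theorem L4615 : W_49 (nat_lit 10) (nat_lit 0x4002400120001800580000000000000000000000000000000) (nat_lit 0x0) (nat_lit 0x800e80058002000180008000700018000c0000000000000000000) := T_49 (nat_lit 195) (nat_lit 211) (nat_lit 5) (nat_lit 8) (nat_lit 8) L4614 (by decide +kernel)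
theorem L4616 : W_49 (nat_lit 11) (nat_lit 0x2400120001800580000000000000000000000000000000) (nat_lit 0x0) (nat_lit 0x800ec005a002000180008000700018000c0000000000000000000) := T_49 (nat_lit 194) (nat_lit 177) (nat_lit 5) (nat_lit 8) (nat_lit 7) L4615 (by decide +kernel)
theorem L4617 : W_49 (nat_lit 12) (nat_lit 0x2400120001800180000000000000000000000000000000) (nat_lit 0x0) (nat_lit 0x800ec005a00200018000e000700018000c0000000000000000000) := T_49 (nat_lit 130) (nat_lit 129) (nat_lit 1) (nat_lit 11) (nat_lit 7) L4616 (by decide +kernel)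
theorem L4618 : W_49 (nat_lit 13) (nat_lit 0x2400120001800080000000000000000000000000000000) (nat_lit 0x0) (nat_lit 0x800ec005a00200018000f000780018000c0000000000000000000) := T_49 (nat_lit 128) (nat_lit 111) (nat_lit 6) (nat_lit 8) (nat_lit 10) L4617 (by decide +kernel)
theorem L4619 : W_49 (nat_lit 2) (nat_lit 0x60003c0012000180008000c000000000000000000000000000) (nat_lit 0x0) (nat_lit 0x400000000000000008000400000000000000000000000000000000) := D_49 (nat_lit 147) (nat_lit 130) (nat_lit 214) (nat_lit 5) (nat_lit 11) (nat_lit 7) (nat_lit 5) (nat_lit 11) (nat_lit 8) (by decide +kernel)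
theorem L4620 : W_49 (nat_lit 3) (nat_lit 0x40003c0012000180008000c000000000000000000000000000) (nat_lit 0x0) (nat_lit 0x400020000200000008000400000000000000000000000000000000) := T_49 (nat_lit 197) (nat_lit 177) (nat_lit 3) (nat_lit 7) (nat_lit 10) L4619 (by decide +kernel)
theorem L4621 : W_49 (nat_lit 4) (nat_lit 0x3c0012000180008000c000000000000000000000000000) (nat_lit 0x0) (nat_lit 0x4000e0000200000008000400000000000000000000000000000000) := T_49 (nat_lit 198) (nat_lit 199) (nat_lit 3) (nat_lit 8) (nat_lit 10) L4620 (by decide +kernel)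
theorem L4622 : W_49 (nat_lit 5) (nat_lit 0x2c0012000180008000c000000000000000000000000000) (nat_lit 0x0) (nat_lit 0x4000e0001200200008000400000000000000000000000000000000) := T_49 (nat_lit 180) (nat_lit 165) (nat_lit 2) (nat_lit 8) (nat_lit 10) L4621 (by decide +kernel)
theorem L4623 : W_49 (nat_lit 6) (nat_lit 0x240012000180008000c000000000000000000000000000) (nat_lit 0x0) (nat_lit 0x4000e0001a00240008000400000000000000000000000000000000) := T_49 (nat_lit 179) (nat_lit 162) (nat_lit 7) (nat_lit 8) (nat_lit 6) L4622 (by decide +kernel)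
theorem L4624 : W_49 (nat_lit 7) (nat_lit 0x2400120001800080008000000000000000000000000000) (nat_lit 0x0) (nat_lit 0x4000e0001a00240008000400004000400000000000000000000000) := T_49 (nat_lit 110) (nat_lit 94) (nat_lit 6) (nat_lit 8) (nat_lit 9) L4623 (by decide +kernel)
theorem L4625 : W_49 (nat_lit 8) (nat_lit 0x2400120001800080000000000000000000000000000000) (nat_lit 0x0) (nat_lit 0x4000e0001a0024000800050000c000400000000000000000000000) := T_49 (nat_lit 111) (nat_lit 128) (nat_lit 6) (nat_lit 8) (nat_lit 10) L4624 (by decide +kernel)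
theorem L4626 : W_49 (nat_lit 2) (nat_lit 0x2400120001800480000000000000000000000000000000) (nat_lit 0x0) (nat_lit 0x300008000000000000000000000000000) := D_49 (nat_lit 128) (nat_lit 111) (nat_lit 129) (nat_lit 6) (nat_lit 8) (nat_lit 10) (nat_lit 1) (nat_lit 11) (nat_lit 7) (by decide +kernel)
theorem L4627 : W_49 (nat_lit 6) (nat_lit 0x2400120001800480000000000000000000000000000000) (nat_lit 0x0) (nat_lit 0x10000e400520020001c000a00070000800000000000000000000000) := Q_49 (nat_lit 147) (C_49 L4552 (C_49 L4510 (C_49 L4205 N_49))) (by decide +kernel)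
theorem L4628 : W_49 (nat_lit 2) (nat_lit 0x7600120009800480038000000000000000000000000000) (nat_lit 0x0) (nat_lit 0x800004000400000000000000000000000) := D_49 (nat_lit 110) (nat_lit 94) (nat_lit 131) (nat_lit 6) (nat_lit 8) (nat_lit 9) (nat_lit 3) (nat_lit 8) (nat_lit 6) (by decide +kernel)
theorem L4629 : W_49 (nat_lit 3) (nat_lit 0x7600120009800480030000000000000000000000000000) (nat_lit 0x0) (nat_lit 0x90000c000400000000000000000000000) := T_49 (nat_lit 111) (nat_lit 128) (nat_lit 6) (nat_lit 8) (nat_lit 10) L4628 (by decide +kernel)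
theorem L4630 : W_49 (nat_lit 4) (nat_lit 0x6600120009800480030000000000000000000000000000) (nat_lit 0x0) (nat_lit 0x2000100000000000090000c000400000000000000000000000) := T_49 (nat_lit 180) (nat_lit 197) (nat_lit 5) (nat_lit 11) (nat_lit 7) L4629 (by decide +kernel)
theorem L4631 : W_49 (nat_lit 5) (nat_lit 0x6400120009800480030000000000000000000000000000) (nat_lit 0x0) (nat_lit 0x2400120000000000090000c000400000000000000000000000) := T_49 (nat_lit 177) (nat_lit 194) (nat_lit 5) (nat_lit 8) (nat_lit 7) L4630 (by decide +kernel)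
theorem L4632 : W_49 (nat_lit 6) (nat_lit 0x6400120009800480020000000000000000000000000000) (nat_lit 0x0) (nat_lit 0x2400120000000000090001c000c00000000000000000000000) := T_49 (nat_lit 112) (nat_lit 95) (nat_lit 4) (nat_lit 11) (nat_lit 9) L4631 (by decide +kernel)
theorem L4633 : W_49 (nat_lit 7) (nat_lit 0x6400120009800480000000000000000000000000000000) (nat_lit 0x0) (nat_lit 0x2400120020000000090003c000c00000000000000000000000) := T_49 (nat_lit 113) (nat_lit 165) (nat_lit 7) (nat_lit 11) (nat_lit 6) L4632 (by decide +kernel)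
theorem L4634 : W_49 (nat_lit 8) (nat_lit 0x2400120009800480000000000000000000000000000000) (nat_lit 0x0) (nat_lit 0xa400520020000000090003c000c00000000000000000000000) := T_49 (nat_lit 182) (nat_lit 199) (nat_lit 7) (nat_lit 11) (nat_lit 7) L4633 (by decide +kernel)
theorem L4635 : W_49 (nat_lit 2) (nat_lit 0x7400120009a00580020003000000000000000000000000) (nat_lit 0x0) (nat_lit 0x10000800040000000000000000000) := D_49 (nat_lit 95) (nat_lit 78) (nat_lit 112) (nat_lit 4) (nat_lit 11) (nat_lit 8) (nat_lit 4) (nat_lit 11) (nat_lit 9) (by decide +kernel)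
theorem L4636 : W_49 (nat_lit 3) (nat_lit 0x7400120009a00580020002000000000000000000000000) (nat_lit 0x0) (nat_lit 0x10001800140000000000000000000) := T_49 (nat_lit 96) (nat_lit 80) (nat_lit 6) (nat_lit 11) (nat_lit 8) L4635 (by decide +kernel)
theorem L4637 : W_49 (nat_lit 4) (nat_lit 0x6400120009a00580020002000000000000000000000000) (nat_lit 0x0) (nat_lit 0x20001000000000000000010001800140000000000000000000) := T_49 (nat_lit 180) (nat_lit 197) (nat_lit 5) (nat_lit 11) (nat_lit 7) L4636 (by decide +kernel)
theorem L4638 : W_49 (nat_lit 5) (nat_lit 0x6400120009a00580020000000000000000000000000000) (nat_lit 0x0) (nat_lit 0x20001000000000000000050003800140000000000000000000) := T_49 (nat_lit 97) (nat_lit 114) (nat_lit 6) (nat_lit 11) (nat_lit 9) L4637 (by decide +kernel)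
theorem L4639 : W_49 (nat_lit 6) (nat_lit 0x6400120009a00580000000000000000000000000000000) (nat_lit 0x0) (nat_lit 0x20001000200000000000070003800140000000000000000000) := T_49 (nat_lit 113) (nat_lit 165) (nat_lit 7) (nat_lit 11) (nat_lit 6) L4638 (by decide +kernel)
theorem L4640 : W_49 (nat_lit 7) (nat_lit 0x2400120009a00580000000000000000000000000000000) (nat_lit 0x0) (nat_lit 0xa0005000200000000000070003800140000000000000000000) := T_49 (nat_lit 182) (nat_lit 199) (nat_lit 7) (nat_lit 11) (nat_lit 7) L4639 (by decide +kernel)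
theorem L4641 : W_49 (nat_lit 8) (nat_lit 0x2400120009800580000000000000000000000000000000) (nat_lit 0x0) (nat_lit 0xa0005000200000600000070003800140000000000000000000) := T_49 (nat_lit 141) (nat_lit 142) (nat_lit 2) (nat_lit 5) (nat_lit 8) L4640 (by decide +kernel)
theorem L4642 : W_49 (nat_lit 9) (nat_lit 0x2400120009800480000000000000000000000000000000) (nat_lit 0x0) (nat_lit 0xa0005000200000600100078003800140000000000000000000) := T_49 (nat_lit 128) (nat_lit 111) (nat_lit 6) (nat_lit 8) (nat_lit 10) L4641 (by decide +kernel)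
theorem L4643 : W_49 (nat_lit 10) (nat_lit 0x2400120001800480000000000000000000000000000000) (nat_lit 0x0) (nat_lit 0x14000e400520020001860090007c003c00140000000000000000000) := Q_49 (nat_lit 147) (C_49 L4510 (C_49 L4495 (C_49 L4634 (C_49 L4472 (C_49 L4642 N_49))))) (by decide +kernel)
theorem L4644 : W_49 (nat_lit 11) (nat_lit 0x2400120001800080000000000000000000000000000000) (nat_lit 0x0) (nat_lit 0x14000e400520020001c600f0007c003c00140000000000000000000) := Q_49 (nat_lit 130) (C_49 L4626 (C_49 L4627 (C_49 L4643 N_49))) (by decide +kernel)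
theorem L4645 : W_49 (nat_lit 2) (nat_lit 0x2400120001a00080000000000000000000000000000000) (nat_lit 0x0) (nat_lit 0x400100008000000000000000000000000000) := D_49 (nat_lit 128) (nat_lit 111) (nat_lit 142) (nat_lit 6) (nat_lit 8) (nat_lit 10) (nat_lit 2) (nat_lit 5) (nat_lit 8) (by decide +kernel)
theorem L4646 : W_49 (nat_lit 2) (nat_lit 0x2400122001e00088000000000000000000000000000000) (nat_lit 0x0) (nat_lit 0x1000100004000000000000000000000000000000) := D_49 (nat_lit 140) (nat_lit 156) (nat_lit 122) (nat_lit 1) (nat_lit 7) (nat_lit 8) (nat_lit 0) (nat_lit 7) (nat_lit 8) (by decide +kernel)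
theorem L4647 : W_49 (nat_lit 3) (nat_lit 0x2400122001e00080000000000000000000000000000000) (nat_lit 0x0) (nat_lit 0x100010001c000000000000000000000000000000) := T_49 (nat_lit 123) (nat_lit 124) (nat_lit 0) (nat_lit 8) (nat_lit 8) L4646 (by decide +kernel)
theorem L4648 : W_49 (nat_lit 4) (nat_lit 0x2400120001e00080000000000000000000000000000000) (nat_lit 0x0) (nat_lit 0x700010001c000000000000000000000000000000) := T_49 (nat_lit 157) (nat_lit 158) (nat_lit 1) (nat_lit 8) (nat_lit 8) L4647 (by decide +kernel)
theorem L4649 : W_49 (nat_lit 5) (nat_lit 0x2400120001a00080000000000000000000000000000000) (nat_lit 0x0) (nat_lit 0x4700050001c000000000000000000000000000000) := T_49 (nat_lit 142) (nat_lit 162) (nat_lit 3) (nat_lit 5) (nat_lit 8) L4648 (by decide +kernel)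
theorem L4650 : W_49 (nat_lit 2) (nat_lit 0x8003c00120009a00580004000000000000000000000000000) (nat_lit 0x0) (nat_lit 0xc0004000000000000000000000000000000000000000000000) := D_49 (nat_lit 199) (nat_lit 198) (nat_lit 182) (nat_lit 3) (nat_lit 8) (nat_lit 10) (nat_lit 7) (nat_lit 11) (nat_lit 7) (by decide +kernel)
theorem L4651 : W_49 (nat_lit 3) (nat_lit 0x8003c00120001a00580004000000000000000000000000000) (nat_lit 0x0) (nat_lit 0xe0004000000008000000000000000000000000000000000000) := T_49 (nat_lit 147) (nat_lit 197) (nat_lit 5) (nat_lit 11) (nat_lit 7) L4650 (by decide +kernel)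
theorem L4652 : W_49 (nat_lit 4) (nat_lit 0x3c00120001a00580004000000000000000000000000000) (nat_lit 0x0) (nat_lit 0xec004000000008000000000000000000000000000000000000) := T_49 (nat_lit 195) (nat_lit 194) (nat_lit 1) (nat_lit 11) (nat_lit 10) L4651 (by decide +kernel)
theorem L4653 : W_49 (nat_lit 5) (nat_lit 0x2c00120001a00580004000000000000000000000000000) (nat_lit 0x0) (nat_lit 0xec005000200008000000000000000000000000000000000000) := T_49 (nat_lit 180) (nat_lit 165) (nat_lit 2) (nat_lit 8) (nat_lit 10) L4652 (by decide +kernel)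
theorem L4654 : W_49 (nat_lit 6) (nat_lit 0x2c00120001a00580000000000000000000000000000000) (nat_lit 0x0) (nat_lit 0xec005000240008000000004000000000000000000000000000) := T_49 (nat_lit 110) (nat_lit 162) (nat_lit 7) (nat_lit 8) (nat_lit 6) L4653 (by decide +kernel)
theorem L4655 : W_49 (nat_lit 7) (nat_lit 0x2c00120001a00180000000000000000000000000000000) (nat_lit 0x0) (nat_lit 0xec005000240008000600004000000000000000000000000000) := T_49 (nat_lit 130) (nat_lit 129) (nat_lit 1) (nat_lit 11) (nat_lit 7) L4654 (by decide +kernel)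
theorem L4656 : W_49 (nat_lit 8) (nat_lit 0x2c00120001a00080000000000000000000000000000000) (nat_lit 0x0) (nat_lit 0xec00500024000800070000c000000000000000000000000000) := T_49 (nat_lit 128) (nat_lit 111) (nat_lit 6) (nat_lit 8) (nat_lit 10) L4655 (by decide +kernel)
theorem L4657 : W_49 (nat_lit 2) (nat_lit 0x3c00120001a00080000000000000000000000000000000) (nat_lit 0x0) (nat_lit 0x4000040000000000004000000000000000000000000000) := D_49 (nat_lit 162) (nat_lit 110) (nat_lit 182) (nat_lit 7) (nat_lit 8) (nat_lit 6) (nat_lit 0) (nat_lit 12) (nat_lit 10) (by decide +kernel)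
theorem L4658 : W_49 (nat_lit 3) (nat_lit 0x2c00120001a00080000000000000000000000000000000) (nat_lit 0x0) (nat_lit 0x5000240000000000004000000000000000000000000000) := T_49 (nat_lit 180) (nat_lit 165) (nat_lit 2) (nat_lit 8) (nat_lit 10) L4657 (by decide +kernel)
theorem L4659 : W_49 (nat_lit 2) (nat_lit 0x48003c00120009a00580000000000000000000000000000000) (nat_lit 0x0) (nat_lit 0x10000800040000000000000000000000000000) := D_49 (nat_lit 131) (nat_lit 148) (nat_lit 114) (nat_lit 6) (nat_lit 11) (nat_lit 11) (nat_lit 6) (nat_lit 11) (nat_lit 10) (by decide +kernel)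
theorem L4660 : W_49 (nat_lit 3) (nat_lit 0x48003c00120001a00580000000000000000000000000000000) (nat_lit 0x0) (nat_lit 0x20000000000018000800040000000000000000000000000000) := T_49 (nat_lit 147) (nat_lit 197) (nat_lit 5) (nat_lit 11) (nat_lit 7) L4659 (by decide +kernel)
theorem L4661 : W_49 (nat_lit 4) (nat_lit 0x48003c00120001a00180000000000000000000000000000000) (nat_lit 0x0) (nat_lit 0x20000000000018000e00040000000000000000000000000000) := T_49 (nat_lit 130) (nat_lit 129) (nat_lit 1) (nat_lit 11) (nat_lit 7) L4660 (by decide +kernel)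
theorem L4662 : W_49 (nat_lit 5) (nat_lit 0x48003c00120001a00080000000000000000000000000000000) (nat_lit 0x0) (nat_lit 0x20000000000018000f00048000000000000000000000000000) := T_49 (nat_lit 128) (nat_lit 111) (nat_lit 6) (nat_lit 8) (nat_lit 10) L4661 (by decide +kernel)
theorem L4663 : W_49 (nat_lit 6) (nat_lit 0x8003c00120001a00080000000000000000000000000000000) (nat_lit 0x0) (nat_lit 0xe0000000000018000f00048000000000000000000000000000) := T_49 (nat_lit 198) (nat_lit 199) (nat_lit 3) (nat_lit 8) (nat_lit 10) L4662 (by decide +kernel)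
theorem L4664 : W_49 (nat_lit 7) (nat_lit 0x3c00120001a00080000000000000000000000000000000) (nat_lit 0x0) (nat_lit 0xec000000000018000f00048000000000000000000000000000) := T_49 (nat_lit 195) (nat_lit 194) (nat_lit 1) (nat_lit 11) (nat_lit 10) L4663 (by decide +kernel)
theorem L4665 : W_49 (nat_lit 8) (nat_lit 0x2c00120001a00080000000000000000000000000000000) (nat_lit 0x0) (nat_lit 0xec001000200018000f00048000000000000000000000000000) := T_49 (nat_lit 180) (nat_lit 165) (nat_lit 2) (nat_lit 8) (nat_lit 10) L4664 (by decide +kernel)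
theorem L4666 : W_49 (nat_lit 2) (nat_lit 0x2c00120001a00080008000000000000000000000000000) (nat_lit 0x0) (nat_lit 0x40000000000004000400000000000000000000000) := D_49 (nat_lit 110) (nat_lit 162) (nat_lit 94) (nat_lit 7) (nat_lit 8) (nat_lit 6) (nat_lit 6) (nat_lit 8) (nat_lit 9) (by decide +kernel)
theorem L4667 : W_49 (nat_lit 3) (nat_lit 0x2c00120001a00080000000000000000000000000000000) (nat_lit 0x0) (nat_lit 0x4000000010000c000400000000000000000000000) := T_49 (nat_lit 111) (nat_lit 128) (nat_lit 6) (nat_lit 8) (nat_lit 10) L4666 (by decide +kernel)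
theorem L4668 : W_49 (nat_lit 9) (nat_lit 0x2400120001a00080000000000000000000000000000000) (nat_lit 0x0) (nat_lit 0xec005800240018000f0004c000400000000000000000000000) := Q_49 (nat_lit 179) (C_49 L4656 (C_49 L4658 (C_49 L4665 (C_49 L4667 N_49)))) (by decide +kernel)
theorem L4669 : W_49 (nat_lit 10) (nat_lit 0x2400120001800080000000000000000000000000000000) (nat_lit 0x0) (nat_lit 0xec005800247018700f1c04c000400000000000000000000000) := Q_49 (nat_lit 141) (C_49 L4645 (C_49 L4649 (C_49 L4668 N_49))) (by decide +kernel)
theorem L4670 : W_49 (nat_lit 2) (nat_lit 0x3e0012000180008000c000000000000000000000000000) (nat_lit 0x0) (nat_lit 0xe0000000000000000000000000000000000000000000000000) := D_49 (nat_lit 198) (nat_lit 197) (nat_lit 199) (nat_lit 3) (nat_lit 7) (nat_lit 10) (nat_lit 3) (nat_lit 8) (nat_lit 10) (by decide +kernel)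
theorem L4671 : W_49 (nat_lit 3) (nat_lit 0x2e0012000180008000c000000000000000000000000000) (nat_lit 0x0) (nat_lit 0xe0001000200000000000000000000000000000000000000000) := T_49 (nat_lit 180) (nat_lit 165) (nat_lit 2) (nat_lit 8) (nat_lit 10) L4670 (by decide +kernel)
theorem L4672 : W_49 (nat_lit 4) (nat_lit 0x260012000180008000c000000000000000000000000000) (nat_lit 0x0) (nat_lit 0xe0001800240000000000000000000000000000000000000000) := T_49 (nat_lit 179) (nat_lit 162) (nat_lit 7) (nat_lit 8) (nat_lit 6) L4671 (by decide +kernel)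
theorem L4673 : W_49 (nat_lit 5) (nat_lit 0x2600120001800080008000000000000000000000000000) (nat_lit 0x0) (nat_lit 0xe0001800240000000000004000400000000000000000000000) := T_49 (nat_lit 110) (nat_lit 94) (nat_lit 6) (nat_lit 8) (nat_lit 9) L4672 (by decide +kernel)
theorem L4674 : W_49 (nat_lit 6) (nat_lit 0x2400120001800080008000000000000000000000000000) (nat_lit 0x0) (nat_lit 0xe4001a00240000000000004000400000000000000000000000) := T_49 (nat_lit 177) (nat_lit 194) (nat_lit 5) (nat_lit 8) (nat_lit 7) L4673 (by decide +kernel)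
theorem L4675 : W_49 (nat_lit 7) (nat_lit 0x2400120001800080000000000000000000000000000000) (nat_lit 0x0) (nat_lit 0xe4001a0024000000010000c000400000000000000000000000) := T_49 (nat_lit 111) (nat_lit 128) (nat_lit 6) (nat_lit 8) (nat_lit 10) L4674 (by decide +kernel)
theorem L4676 : W_49 (nat_lit 2) (nat_lit 0x2600120009800e80000000000000000000000000000000) (nat_lit 0x0) (nat_lit 0x40000000000014000000000000000000000000000000000000) := D_49 (nat_lit 198) (nat_lit 148) (nat_lit 146) (nat_lit 6) (nat_lit 11) (nat_lit 11) (nat_lit 4) (nat_lit 11) (nat_lit 11) (by decide +kernel)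
theorem L4677 : W_49 (nat_lit 3) (nat_lit 0x2600120009800c80000000000000000000000000000000) (nat_lit 0x0) (nat_lit 0x40000000000014000200010000000000000000000000000000) := T_49 (nat_lit 129) (nat_lit 112) (nat_lit 4) (nat_lit 11) (nat_lit 10) L4676 (by decide +kernel)
theorem L4678 : W_49 (nat_lit 4) (nat_lit 0x2600120009800480000000000000000000000000000000) (nat_lit 0x0) (nat_lit 0x40000000000014000a00050000000000000000000000000000) := T_49 (nat_lit 131) (nat_lit 114) (nat_lit 6) (nat_lit 11) (nat_lit 10) L4677 (by decide +kernel)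
theorem L4679 : W_49 (nat_lit 5) (nat_lit 0x2400120009800480000000000000000000000000000000) (nat_lit 0x0) (nat_lit 0x44000200000014000a00050000000000000000000000000000) := T_49 (nat_lit 177) (nat_lit 194) (nat_lit 5) (nat_lit 8) (nat_lit 7) L4678 (by decide +kernel)
theorem L4680 : W_49 (nat_lit 6) (nat_lit 0x2400120001800480000000000000000000000000000000) (nat_lit 0x0) (nat_lit 0x10000c400420020001c000a00070000800000000000000000000000) := Q_49 (nat_lit 147) (C_49 L4552 (C_49 L4510 (C_49 L4679 N_49))) (by decide +kernel)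
theorem L4681 : W_49 (nat_lit 2) (nat_lit 0x6600120009800480038000000000000000000000000000) (nat_lit 0x0) (nat_lit 0x800004000400000000000000000000000) := D_49 (nat_lit 110) (nat_lit 94) (nat_lit 131) (nat_lit 6) (nat_lit 8) (nat_lit 9) (nat_lit 3) (nat_lit 8) (nat_lit 6) (by decide +kernel)
theorem L4682 : W_49 (nat_lit 3) (nat_lit 0x6600120009800480030000000000000000000000000000) (nat_lit 0x0) (nat_lit 0x90000c000400000000000000000000000) := T_49 (nat_lit 111) (nat_lit 128) (nat_lit 6) (nat_lit 8) (nat_lit 10) L4681 (by decide +kernel)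
theorem L4683 : W_49 (nat_lit 4) (nat_lit 0x6400120009800480030000000000000000000000000000) (nat_lit 0x0) (nat_lit 0x400020000000000090000c000400000000000000000000000) := T_49 (nat_lit 177) (nat_lit 194) (nat_lit 5) (nat_lit 8) (nat_lit 7) L4682 (by decide +kernel)
theorem L4684 : W_49 (nat_lit 5) (nat_lit 0x6400120009800480020000000000000000000000000000) (nat_lit 0x0) (nat_lit 0x400020000000000090001c000c00000000000000000000000) := T_49 (nat_lit 112) (nat_lit 95) (nat_lit 4) (nat_lit 11) (nat_lit 9) L4683 (by decide +kernel)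
theorem L4685 : W_49 (nat_lit 6) (nat_lit 0x6400120009800480000000000000000000000000000000) (nat_lit 0x0) (nat_lit 0x400020020000000090003c000c00000000000000000000000) := T_49 (nat_lit 113) (nat_lit 165) (nat_lit 7) (nat_lit 11) (nat_lit 6) L4684 (by decide +kernel)
theorem L4686 : W_49 (nat_lit 7) (nat_lit 0x2400120009800480000000000000000000000000000000) (nat_lit 0x0) (nat_lit 0x8400420020000000090003c000c00000000000000000000000) := T_49 (nat_lit 182) (nat_lit 199) (nat_lit 7) (nat_lit 11) (nat_lit 7) L4685 (by decide +kernel)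
theorem L4687 : W_49 (nat_lit 2) (nat_lit 0x1400040002600120009a00d80000000000000000000000000000000) (nat_lit 0x0) (nat_lit 0x28000800000000000000000000000000000000000000000000000000000) := D_49 (nat_lit 215) (nat_lit 231) (nat_lit 233) (nat_lit 5) (nat_lit 11) (nat_lit 9) (nat_lit 7) (nat_lit 11) (nat_lit 9) (by decide +kernel)
theorem L4688 : W_49 (nat_lit 3) (nat_lit 0x400040002600120009a00d80000000000000000000000000000000) (nat_lit 0x0) (nat_lit 0x28001800080000000000000000000000000000000000000000000000000) := T_49 (nat_lit 216) (nat_lit 199) (nat_lit 7) (nat_lit 11) (nat_lit 8) L4687 (by decide +kernel)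
theorem L4689 : W_49 (nat_lit 4) (nat_lit 0x40002600120009a00d80000000000000000000000000000000) (nat_lit 0x0) (nat_lit 0x28001c000a0000000000000000000000000000000000000000000000000) := T_49 (nat_lit 214) (nat_lit 197) (nat_lit 5) (nat_lit 11) (nat_lit 8) L4688 (by decide +kernel)
theorem L4690 : W_49 (nat_lit 5) (nat_lit 0x2600120009a00d80000000000000000000000000000000) (nat_lit 0x0) (nat_lit 0x28001c000e0000000000010000000000000000000000000000000000000) := T_49 (nat_lit 198) (nat_lit 148) (nat_lit 6) (nat_lit 11) (nat_lit 11) L4689 (by decide +kernel)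
theorem L4691 : W_49 (nat_lit 6) (nat_lit 0x2400120009a00d80000000000000000000000000000000) (nat_lit 0x0) (nat_lit 0x28001c000e4000200000010000000000000000000000000000000000000) := T_49 (nat_lit 177) (nat_lit 194) (nat_lit 5) (nat_lit 8) (nat_lit 7) L4690 (by decide +kernel)
theorem L4692 : W_49 (nat_lit 7) (nat_lit 0x2400120009a00580000000000000000000000000000000) (nat_lit 0x0) (nat_lit 0x28001c000e4000200000010000800040000000000000000000000000000) := T_49 (nat_lit 131) (nat_lit 114) (nat_lit 6) (nat_lit 11) (nat_lit 10) L4691 (by decide +kernel)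
theorem L4693 : W_49 (nat_lit 8) (nat_lit 0x2400120009800580000000000000000000000000000000) (nat_lit 0x0) (nat_lit 0x28001c000e4000200000010600800040000000000000000000000000000) := T_49 (nat_lit 141) (nat_lit 142) (nat_lit 2) (nat_lit 5) (nat_lit 8) L4692 (by decide +kernel)
theorem L4694 : W_49 (nat_lit 9) (nat_lit 0x2400120009800480000000000000000000000000000000) (nat_lit 0x0) (nat_lit 0x28001c000e4000200000010600900048000000000000000000000000000) := T_49 (nat_lit 128) (nat_lit 111) (nat_lit 6) (nat_lit 8) (nat_lit 10) L4693 (by decide +kernel)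
theorem L4695 : W_49 (nat_lit 2) (nat_lit 0x6400120009800480078000000000000000000000000000) (nat_lit 0x0) (nat_lit 0x4000600000000000000000000000) := D_49 (nat_lit 94) (nat_lit 93) (nat_lit 110) (nat_lit 0) (nat_lit 12) (nat_lit 6) (nat_lit 6) (nat_lit 8) (nat_lit 9) (by decide +kernel)
theorem L4696 : W_49 (nat_lit 3) (nat_lit 0x6400120009800480070000000000000000000000000000) (nat_lit 0x0) (nat_lit 0x10000c000600000000000000000000000) := T_49 (nat_lit 111) (nat_lit 128) (nat_lit 1) (nat_lit 12) (nat_lit 6) L4695 (by decide +kernel)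
theorem L4697 : W_49 (nat_lit 4) (nat_lit 0x6400120009800480060000000000000000000000000000) (nat_lit 0x0) (nat_lit 0x10001c000e00000000000000000000000) := T_49 (nat_lit 112) (nat_lit 95) (nat_lit 4) (nat_lit 11) (nat_lit 9) L4696 (by decide +kernel)
theorem L4698 : W_49 (nat_lit 5) (nat_lit 0x6400120009800480020000000000000000000000000000) (nat_lit 0x0) (nat_lit 0x10005c002e00000000000000000000000) := T_49 (nat_lit 114) (nat_lit 97) (nat_lit 6) (nat_lit 11) (nat_lit 9) L4697 (by decide +kernel)
theorem L4699 : W_49 (nat_lit 6) (nat_lit 0x6400120009800480000000000000000000000000000000) (nat_lit 0x0) (nat_lit 0x20000000010007c002e00000000000000000000000) := T_49 (nat_lit 113) (nat_lit 165) (nat_lit 7) (nat_lit 11) (nat_lit 6) L4698 (by decide +kernel)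
theorem L4700 : W_49 (nat_lit 7) (nat_lit 0x2400120009800480000000000000000000000000000000) (nat_lit 0x0) (nat_lit 0x8000400020000000010007c002e00000000000000000000000) := T_49 (nat_lit 182) (nat_lit 199) (nat_lit 7) (nat_lit 11) (nat_lit 7) L4699 (by decide +kernel)
theorem L4701 : W_49 (nat_lit 2) (nat_lit 0x2600320009a00580060000800000000000000000000000) (nat_lit 0x0) (nat_lit 0x10000000000001000040000000000000000000) := D_49 (nat_lit 96) (nat_lit 148) (nat_lit 78) (nat_lit 7) (nat_lit 11) (nat_lit 5) (nat_lit 4) (nat_lit 11) (nat_lit 8) (by decide +kernel)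
theorem L4702 : W_49 (nat_lit 3) (nat_lit 0x2600120009a00580060000800000000000000000000000) (nat_lit 0x0) (nat_lit 0x4000200010000000000001000040000000000000000000) := T_49 (nat_lit 165) (nat_lit 182) (nat_lit 7) (nat_lit 11) (nat_lit 6) L4701 (by decide +kernel)
theorem L4703 : W_49 (nat_lit 4) (nat_lit 0x2600120009a00580060000000000000000000000000000) (nat_lit 0x0) (nat_lit 0x4000200010000000010001800040000000000000000000) := T_49 (nat_lit 95) (nat_lit 112) (nat_lit 4) (nat_lit 11) (nat_lit 9) L4702 (by decide +kernel)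
theorem L4704 : W_49 (nat_lit 5) (nat_lit 0x2600120009a00580040000000000000000000000000000) (nat_lit 0x0) (nat_lit 0x4000200010000000030003800040000000000000000000) := T_49 (nat_lit 113) (nat_lit 97) (nat_lit 6) (nat_lit 11) (nat_lit 9) L4703 (by decide +kernel)
theorem L4705 : W_49 (nat_lit 6) (nat_lit 0x2400120009a00580040000000000000000000000000000) (nat_lit 0x0) (nat_lit 0x4004200200010000000030003800040000000000000000000) := T_49 (nat_lit 177) (nat_lit 194) (nat_lit 5) (nat_lit 8) (nat_lit 7) L4704 (by decide +kernel)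
theorem L4706 : W_49 (nat_lit 7) (nat_lit 0x2400120009a00580000000000000000000000000000000) (nat_lit 0x0) (nat_lit 0x4004200200010000800070003800040000000000000000000) := T_49 (nat_lit 114) (nat_lit 131) (nat_lit 6) (nat_lit 11) (nat_lit 10) L4705 (by decide +kernel)
theorem L4707 : W_49 (nat_lit 8) (nat_lit 0x2400120009800580000000000000000000000000000000) (nat_lit 0x0) (nat_lit 0x4004200200010600800070003800040000000000000000000) := T_49 (nat_lit 141) (nat_lit 142) (nat_lit 2) (nat_lit 5) (nat_lit 8) L4706 (by decide +kernel)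
theorem L4708 : W_49 (nat_lit 9) (nat_lit 0x2400120009800480000000000000000000000000000000) (nat_lit 0x0) (nat_lit 0x4004200200010600900078003800040000000000000000000) := T_49 (nat_lit 128) (nat_lit 111) (nat_lit 6) (nat_lit 8) (nat_lit 10) L4707 (by decide +kernel)
theorem L4709 : W_49 (nat_lit 10) (nat_lit 0x2400120001800480000000000000000000000000000000) (nat_lit 0x0) (nat_lit 0x28001c000e400420020001860090007c003e00040000000000000000000) := Q_49 (nat_lit 147) (C_49 L4510 (C_49 L4131 (C_49 L4686 (C_49 L4694 (C_49 L4700 (C_49 L4708 N_49)))))) (by decide +kernel)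
theorem L4710 : W_49 (nat_lit 11) (nat_lit 0x2400120001800080000000000000000000000000000000) (nat_lit 0x0) (nat_lit 0x28001c000e400420020001c600f0007c003e00040000000000000000000) := Q_49 (nat_lit 130) (C_49 L4626 (C_49 L4680 (C_49 L4709 N_49))) (by decide +kernel)
theorem L4711 : W_49 (nat_lit 2) (nat_lit 0xc002c00120001800080008000000000000000000000000000) (nat_lit 0x0) (nat_lit 0x40000000000004000400000000000000000000000) := D_49 (nat_lit 110) (nat_lit 94) (nat_lit 162) (nat_lit 6) (nat_lit 8) (nat_lit 9) (nat_lit 7) (nat_lit 8) (nat_lit 6) (by decide +kernel)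
theorem L4712 : W_49 (nat_lit 3) (nat_lit 0xc002400120001800080008000000000000000000000000000) (nat_lit 0x0) (nat_lit 0x1800040000000000004000400000000000000000000000) := T_49 (nat_lit 179) (nat_lit 180) (nat_lit 1) (nat_lit 11) (nat_lit 10) L4711 (by decide +kernel)
theorem L4713 : W_49 (nat_lit 4) (nat_lit 0x4002400120001800080008000000000000000000000000000) (nat_lit 0x0) (nat_lit 0x80008001800040000000000004000400000000000000000000000) := T_49 (nat_lit 195) (nat_lit 211) (nat_lit 5) (nat_lit 8) (nat_lit 8) L4712 (by decide +kernel)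
theorem L4714 : W_49 (nat_lit 5) (nat_lit 0x4002400120001800080000000000000000000000000000000) (nat_lit 0x0) (nat_lit 0x8000800180004000000010000c000400000000000000000000000) := T_49 (nat_lit 111) (nat_lit 128) (nat_lit 6) (nat_lit 8) (nat_lit 10) L4713 (by decide +kernel)
theorem L4715 : W_49 (nat_lit 6) (nat_lit 0x2400120001800080000000000000000000000000000000) (nat_lit 0x0) (nat_lit 0x8000c001a0004000000010000c000400000000000000000000000) := T_49 (nat_lit 194) (nat_lit 177) (nat_lit 5) (nat_lit 8) (nat_lit 7) L4714 (by decide +kernel)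
theorem L4716 : W_49 (nat_lit 15) (nat_lit 0x400120001800080000000000000000000000000000000) (nat_lit 0x0) (nat_lit 0x50003e007f803ef01fa01e470fc701f1c07c003e001c0000000000000000000) := Q_49 (nat_lit 181) (C_49 L4618 (C_49 L4540 (C_49 L4625 (C_49 L4644 (C_49 L4669 (C_49 L4675 (C_49 L4710 (C_49 L4715 N_49)))))))) (by decide +kernel)
theorem L4717 : W_49 (nat_lit 16) (nat_lit 0x400020001800080000000000000000000000000000000) (nat_lit 0x0) (nat_lit 0x600070003e007f803ef01fb81fc70fc703f1c07c003e001c0000000000000000000) := Q_49 (nat_lit 164) (C_49 L4031 (C_49 L4345 (C_49 L4538 (C_49 L4541 (C_49 L4544 (C_49 L4606 (C_49 L4716 N_49))))))) (by decide +kernel)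
theorem L4718 : W_49 (nat_lit 17) (nat_lit 0x400020001000080000000000000000000000000000000) (nat_lit 0x0) (nat_lit 0x600070003e007f803ef01fb81fc70fcf03f5c07c003e001c0000000000000000000) := Q_49 (nat_lit 143) (C_49 L514 (C_49 L4024 (C_49 L4717 N_49))) (by decide +kernel)
theorem L4719 : W_49 (nat_lit 18) (nat_lit 0x20001000080000000000000000000000000000000) (nat_lit 0x0) (nat_lit 0x600071c03fe07ffc3ffe1fff1fcf8fcfc3f7e07df03ff81ffe0178001c000000000) := Q_49 (nat_lit 178) (C_49 L4022 (C_49 L527 (C_49 L581 (C_49 L4718 N_49)))) (by decide +kernel)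
theorem L4720 : W_49 (nat_lit 12) (nat_lit 0x20001000080000000000000000000000000000000) (nat_lit 0x0) (nat_lit 0x8000c003e001d001ce01f6007c007f00078001c00000000000000) := Q_49 (nat_lit 110) (C_49 L2172 (C_49 L2270 (C_49 L2183 (C_49 L2178 (C_49 L638 N_49))))) (by decide +kernel)
theorem L4721 : W_49 (nat_lit 19) (nat_lit 0x1000080000000000000000000000000000000) (nat_lit 0x0) (nat_lit 0x60007bc03fe07ffc3ffe1fff9fff8fcfe3f7e07df07ff81ffe01f8009c000000000) := Q_49 (nat_lit 161) (C_49 L1778 (C_49 L1779 (C_49 L1780 (C_49 L1787 (C_49 L2012 (C_49 L2022 (C_49 L2131 (C_49 L2271 (C_49 L2440 (C_49 L4719 (C_49 L4720 N_49))))))))))) (by decide +kernel)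
theorem L75189 : W_49 (nat_lit 2) (nat_lit 0x3800380016000b0000000000000000000000000000000) (nat_lit 0x0) (nat_lit 0x100040002000000000000000000000000000) := D_49 (nat_lit 126) (nat_lit 109) (nat_lit 140) (nat_lit 6) (nat_lit 6) (nat_lit 10) (nat_lit 1) (nat_lit 8) (nat_lit 7) (by decide +kernel)
theorem L75190 : W_49 (nat_lit 3) (nat_lit 0x3800380014000b0000000000000000000000000000000) (nat_lit 0x0) (nat_lit 0x2000000000000300040002000000000000000000000000000) := T_49 (nat_lit 141) (nat_lit 193) (nat_lit 4) (nat_lit 6) (nat_lit 11) L75189 (by decide +kernel)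
theorem L75191 : W_49 (nat_lit 4) (nat_lit 0x1800380014000b0000000000000000000000000000000) (nat_lit 0x0) (nat_lit 0x6000200000000300040002000000000000000000000000000) := T_49 (nat_lit 177) (nat_lit 194) (nat_lit 7) (nat_lit 6) (nat_lit 7) L75190 (by decide +kernel)
theorem L75192 : W_49 (nat_lit 5) (nat_lit 0x1800380014000a0000000000000000000000000000000) (nat_lit 0x0) (nat_lit 0x6000200000000300050002800000000000000000000000000) := T_49 (nat_lit 124) (nat_lit 107) (nat_lit 4) (nat_lit 6) (nat_lit 10) L75191 (by decide +kernel)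
theorem L75193 : W_49 (nat_lit 6) (nat_lit 0x800380014000a0000000000000000000000000000000) (nat_lit 0x0) (nat_lit 0x7000300000000300050002800000000000000000000000000) := T_49 (nat_lit 176) (nat_lit 192) (nat_lit 5) (nat_lit 6) (nat_lit 7) L75192 (by decide +kernel)
theorem L75194 : W_49 (nat_lit 7) (nat_lit 0x80038001400080000000000000000000000000000000) (nat_lit 0x0) (nat_lit 0x7000300004000300170003800000000000000000000000000) := Q_49 (nat_lit 125) (C_49 L6 (C_49 L75193 (C_49 L1201 N_49))) (by decide +kernel)
theorem L75195 : W_49 (nat_lit 8) (nat_lit 0x80038001000080000000000000000000000000000000) (nat_lit 0x0) (nat_lit 0x7000300044000780170003800000000000000000000000000) := Q_49 (nat_lit 142) (C_49 L75194 (C_49 L1203 (C_49 L5 (C_49 L2 N_49)))) (by decide +kernel)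
theorem L75196 : W_49 (nat_lit 9) (nat_lit 0x38001000080000000000000000000000000000000) (nat_lit 0x0) (nat_lit 0x70003e0044000780170003800000000000000000000000000) := Q_49 (nat_lit 175) (C_49 L75195 (C_49 L1207 (C_49 L29 (C_49 L22 (C_49 L31 N_49))))) (by decide +kernel)
theorem L75197 : W_49 (nat_lit 2) (nat_lit 0x1080078001400080000000000000000000000000000000) (nat_lit 0x0) (nat_lit 0x2000080000800000000000000000000000000000000000) := D_49 (nat_lit 163) (nat_lit 143) (nat_lit 181) (nat_lit 0) (nat_lit 10) (nat_lit 9) (nat_lit 3) (nat_lit 7) (nat_lit 9) (by decide +kernel)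
theorem L75198 : W_49 (nat_lit 3) (nat_lit 0x80078001400080000000000000000000000000000000) (nat_lit 0x0) (nat_lit 0x3800080000800000000000000000000000000000000000) := T_49 (nat_lit 180) (nat_lit 179) (nat_lit 3) (nat_lit 6) (nat_lit 9) L75197 (by decide +kernel)
theorem L75199 : W_49 (nat_lit 4) (nat_lit 0x80078001000080000000000000000000000000000000) (nat_lit 0x0) (nat_lit 0x3800080000e00000000000000000000000000000000000) := T_49 (nat_lit 142) (nat_lit 141) (nat_lit 0) (nat_lit 9) (nat_lit 9) L75198 (by decide +kernel)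
theorem L75200 : W_49 (nat_lit 5) (nat_lit 0x80038001000080000000000000000000000000000000) (nat_lit 0x0) (nat_lit 0x39000c0000e00000000000000000000000000000000000) := T_49 (nat_lit 162) (nat_lit 176) (nat_lit 1) (nat_lit 9) (nat_lit 9) L75199 (by decide +kernel)
theorem L75201 : W_49 (nat_lit 6) (nat_lit 0x38001000080000000000000000000000000000000) (nat_lit 0x0) (nat_lit 0x1003be00c4000f00020001000000000000000000000000000) := Q_49 (nat_lit 175) (C_49 L31 (C_49 L29 (C_49 L22 (C_49 L75200 N_49)))) (by decide +kernel)
theorem L75202 : W_49 (nat_lit 2) (nat_lit 0x8000380028003c001600080001000000000000000000000000000) (nat_lit 0x0) (nat_lit 0x400100000000000010000000000000000000000000000000) := D_49 (nat_lit 176) (nat_lit 124) (nat_lit 190) (nat_lit 7) (nat_lit 5) (nat_lit 7) (nat_lit 2) (nat_lit 3) (nat_lit 11) (by decide +kernel)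
theorem L75203 : W_49 (nat_lit 3) (nat_lit 0x8000180028003c001600080001000000000000000000000000000) (nat_lit 0x0) (nat_lit 0x40002400100000000000010000000000000000000000000000000) := T_49 (nat_lit 193) (nat_lit 210) (nat_lit 7) (nat_lit 5) (nat_lit 8) L75202 (by decide +kernel)
theorem L75204 : W_49 (nat_lit 4) (nat_lit 0x8000100028003c001600080001000000000000000000000000000) (nat_lit 0x0) (nat_lit 0x50002c00100000000000010000000000000000000000000000000) := T_49 (nat_lit 191) (nat_lit 208) (nat_lit 5) (nat_lit 5) (nat_lit 8) L75203 (by decide +kernel)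
theorem L75205 : W_49 (nat_lit 5) (nat_lit 0x8000000028003c001600080001000000000000000000000000000) (nat_lit 0x0) (nat_lit 0x70003c00100000000000010000000000000000000000000000000) := T_49 (nat_lit 192) (nat_lit 209) (nat_lit 6) (nat_lit 5) (nat_lit 12) L75204 (by decide +kernel)
theorem L75206 : W_49 (nat_lit 6) (nat_lit 0x8000000020003c001600080001000000000000000000000000000) (nat_lit 0x0) (nat_lit 0x70003c001c0000000000010000000000000000000000000000000) := T_49 (nat_lit 175) (nat_lit 174) (nat_lit 1) (nat_lit 8) (nat_lit 9) L75205 (by decide +kernel)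
theorem L75207 : W_49 (nat_lit 7) (nat_lit 0x20003c001600080001000000000000000000000000000) (nat_lit 0x0) (nat_lit 0xf0007c001c0000000000010000000000000000000000000000000) := T_49 (nat_lit 211) (nat_lit 194) (nat_lit 6) (nat_lit 7) (nat_lit 12) L75206 (by decide +kernel)
theorem L75208 : W_49 (nat_lit 8) (nat_lit 0x20003c001600080000000000000000000000000000000) (nat_lit 0x0) (nat_lit 0xf0007c001c0000000000030001000000000000000000000000000) := T_49 (nat_lit 108) (nat_lit 125) (nat_lit 7) (nat_lit 6) (nat_lit 6) L75207 (by decide +kernel)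
theorem L75209 : W_49 (nat_lit 9) (nat_lit 0x20003c001400080000000000000000000000000000000) (nat_lit 0x0) (nat_lit 0xf0007c001c0000000300030001000000000000000000000000000) := T_49 (nat_lit 141) (nat_lit 140) (nat_lit 0) (nat_lit 8) (nat_lit 9) L75208 (by decide +kernel)
theorem L75210 : W_49 (nat_lit 2) (nat_lit 0x28003c001600080000000000000000000000000000000) (nat_lit 0x0) (nat_lit 0x20001000000000000000020000000000000000000000000000000) := D_49 (nat_lit 192) (nat_lit 209) (nat_lit 125) (nat_lit 6) (nat_lit 5) (nat_lit 12) (nat_lit 6) (nat_lit 5) (nat_lit 11) (by decide +kernel)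
theorem L75211 : W_49 (nat_lit 3) (nat_lit 0x28003c001400080000000000000000000000000000000) (nat_lit 0x0) (nat_lit 0x20001000000000000300020000000000000000000000000000000) := T_49 (nat_lit 141) (nat_lit 140) (nat_lit 0) (nat_lit 8) (nat_lit 9) L75210 (by decide +kernel)
theorem L75212 : W_49 (nat_lit 4) (nat_lit 0x20003c001400080000000000000000000000000000000) (nat_lit 0x0) (nat_lit 0x200010000c0000000300020000000000000000000000000000000) := T_49 (nat_lit 175) (nat_lit 174) (nat_lit 1) (nat_lit 8) (nat_lit 9) L75211 (by decide +kernel)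
theorem L75213 : W_49 (nat_lit 6) (nat_lit 0x28003c001600080000000000000000000000000000000) (nat_lit 0x0) (nat_lit 0xf0007c00100000000000010000000000000000000000000000000) := T_49 (nat_lit 211) (nat_lit 194) (nat_lit 6) (nat_lit 7) (nat_lit 12) L116 (by decide +kernel)
theorem L75214 : W_49 (nat_lit 7) (nat_lit 0x20003c001600080000000000000000000000000000000) (nat_lit 0x0) (nat_lit 0xf0007c001c0000000000010000000000000000000000000000000) := T_49 (nat_lit 175) (nat_lit 174) (nat_lit 1) (nat_lit 8) (nat_lit 9) L75213 (by decide +kernel)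
theorem L75215 : W_49 (nat_lit 8) (nat_lit 0x20003c001400080000000000000000000000000000000) (nat_lit 0x0) (nat_lit 0xf0007c001c0000000300010000000000000000000000000000000) := T_49 (nat_lit 141) (nat_lit 140) (nat_lit 0) (nat_lit 8) (nat_lit 9) L75214 (by decide +kernel)
theorem L75216 : W_49 (nat_lit 10) (nat_lit 0x20003c001000080000000000000000000000000000000) (nat_lit 0x0) (nat_lit 0xf0007c001c0000000700030001000000000000000000000000000) := Q_49 (nat_lit 142) (C_49 L75209 (C_49 L75212 (C_49 L141 (C_49 L75215 (C_49 L112 N_49))))) (by decide +kernel)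
theorem L75217 : W_49 (nat_lit 4) (nat_lit 0x20003c001a00080000000000000000000000000000000) (nat_lit 0x0) (nat_lit 0x10000c0000000400120001000000000000000000000000000) := T_49 (nat_lit 175) (nat_lit 174) (nat_lit 1) (nat_lit 8) (nat_lit 9) L125 (by decide +kernel)
theorem L75218 : W_49 (nat_lit 5) (nat_lit 0x20003c001200080000000000000000000000000000000) (nat_lit 0x0) (nat_lit 0x50000c0000000c00120001000000000000000000000000000) := T_49 (nat_lit 143) (nat_lit 194) (nat_lit 6) (nat_lit 7) (nat_lit 11) L75217 (by decide +kernel)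
theorem L75219 : W_49 (nat_lit 6) (nat_lit 0x20003c001000080000000000000000000000000000000) (nat_lit 0x0) (nat_lit 0x50000c0000000f00120001000000000000000000000000000) := T_49 (nat_lit 141) (nat_lit 140) (nat_lit 0) (nat_lit 8) (nat_lit 9) L75218 (by decide +kernel)
theorem L75220 : W_49 (nat_lit 2) (nat_lit 0x2000000028003c001e00090000000000000000000000000000000) (nat_lit 0x0) (nat_lit 0x2000100000000000000000800000000000000000000000000) := D_49 (nat_lit 176) (nat_lit 193) (nat_lit 107) (nat_lit 7) (nat_lit 5) (nat_lit 7) (nat_lit 7) (nat_lit 5) (nat_lit 6) (by decide +kernel)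
theorem L75221 : W_49 (nat_lit 3) (nat_lit 0x2000000028003c001e00080000000000000000000000000000000) (nat_lit 0x0) (nat_lit 0x2000100000000000018000800000000000000000000000000) := T_49 (nat_lit 124) (nat_lit 123) (nat_lit 0) (nat_lit 8) (nat_lit 8) L75220 (by decide +kernel)
theorem L75222 : W_49 (nat_lit 4) (nat_lit 0x2000000028003c001600080000000000000000000000000000000) (nat_lit 0x0) (nat_lit 0x2000100000000800118000800000000000000000000000000) := T_49 (nat_lit 143) (nat_lit 128) (nat_lit 2) (nat_lit 5) (nat_lit 8) L75221 (by decide +kernel)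
theorem L75223 : W_49 (nat_lit 5) (nat_lit 0x28003c001600080000000000000000000000000000000) (nat_lit 0x0) (nat_lit 0x20003000100000000800118000800000000000000000000000000) := T_49 (nat_lit 209) (nat_lit 192) (nat_lit 6) (nat_lit 5) (nat_lit 12) L75222 (by decide +kernel)
theorem L75224 : W_49 (nat_lit 6) (nat_lit 0x28003c001400080000000000000000000000000000000) (nat_lit 0x0) (nat_lit 0x20003000100000000b00118000800000000000000000000000000) := T_49 (nat_lit 141) (nat_lit 140) (nat_lit 0) (nat_lit 8) (nat_lit 9) L75223 (by decide +kernel)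
theorem L75225 : W_49 (nat_lit 7) (nat_lit 0x20003c001400080000000000000000000000000000000) (nat_lit 0x0) (nat_lit 0x200030001c0000000b00118000800000000000000000000000000) := T_49 (nat_lit 175) (nat_lit 174) (nat_lit 1) (nat_lit 8) (nat_lit 9) L75224 (by decide +kernel)
theorem L75226 : W_49 (nat_lit 8) (nat_lit 0x20003c001000080000000000000000000000000000000) (nat_lit 0x0) (nat_lit 0x200030001c0000000f00138001800000000000000000000000000) := Q_49 (nat_lit 142) (C_49 L141 (C_49 L75212 (C_49 L75225 (C_49 L133 N_49)))) (by decide +kernel)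
theorem L75227 : W_49 (nat_lit 11) (nat_lit 0x3c001000080000000000000000000000000000000) (nat_lit 0x0) (nat_lit 0xf0007c003c0000000f00138001800000000000000000000000000) := Q_49 (nat_lit 177) (C_49 L110 (C_49 L75216 (C_49 L75219 (C_49 L75226 N_49)))) (by decide +kernel)
theorem L75228 : W_49 (nat_lit 12) (nat_lit 0x38001000080000000000000000000000000000000) (nat_lit 0x0) (nat_lit 0xf0007c003f0007800fc0138001800000000000000000000000000) := Q_49 (nat_lit 158) (C_49 L1241 (C_49 L1244 (C_49 L76 (C_49 L1252 (C_49 L1254 (C_49 L75227 N_49)))))) (by decide +kernel)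
theorem L75229 : W_49 (nat_lit 9) (nat_lit 0x38001000080000000000000000000000000000000) (nat_lit 0x0) (nat_lit 0x39e01c601cb80000000000000000000000000000000000) := Q_49 (nat_lit 158) (C_49 L1254 (C_49 L1244 (C_49 L76 (C_49 L1283 N_49)))) (by decide +kernel)
theorem L75230 : W_49 (nat_lit 12) (nat_lit 0x4000000078001000080000000000000000000000000000000) (nat_lit 0x0) (nat_lit 0x200010007c001b8019f0007000dc0040002000000000000000000000000000) := Q_49 (nat_lit 158) (C_49 L97 (C_49 L1870 (C_49 L1874 (C_49 L1294 N_49)))) (by decide +kernel)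
theorem L75231 : W_49 (nat_lit 2) (nat_lit 0x2000040009000780018000c0000000000000000000000000000000) (nat_lit 0x0) (nat_lit 0x40002000000000000400000000000000000000000000000000000) := D_49 (nat_lit 193) (nat_lit 210) (nat_lit 142) (nat_lit 6) (nat_lit 6) (nat_lit 12) (nat_lit 6) (nat_lit 6) (nat_lit 11) (by decide +kernel)
theorem L75232 : W_49 (nat_lit 3) (nat_lit 0x200004000900078001800080000000000000000000000000000000) (nat_lit 0x0) (nat_lit 0x40002000000000000400040002000000000000000000000000000) := T_49 (nat_lit 126) (nat_lit 109) (nat_lit 5) (nat_lit 7) (nat_lit 6) L75231 (by decide +kernel)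
theorem L75233 : W_49 (nat_lit 4) (nat_lit 0x200004000900078001000080000000000000000000000000000000) (nat_lit 0x0) (nat_lit 0x40002000200000000c00040002000000000000000000000000000) := T_49 (nat_lit 143) (nat_lit 177) (nat_lit 6) (nat_lit 7) (nat_lit 11) L75232 (by decide +kernel)
theorem L75234 : W_49 (nat_lit 5) (nat_lit 0x4000900078001000080000000000000000000000000000000) (nat_lit 0x0) (nat_lit 0x240012000200000000c00040002000000000000000000000000000) := T_49 (nat_lit 213) (nat_lit 196) (nat_lit 4) (nat_lit 9) (nat_lit 12) L75233 (by decide +kernel)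
theorem L75235 : W_49 (nat_lit 6) (nat_lit 0x4000800078001000080000000000000000000000000000000) (nat_lit 0x0) (nat_lit 0x240012000380000000c00040002000000000000000000000000000) := T_49 (nat_lit 176) (nat_lit 175) (nat_lit 1) (nat_lit 9) (nat_lit 9) L75234 (by decide +kernel)
theorem L75236 : W_49 (nat_lit 7) (nat_lit 0x4000000078001000080000000000000000000000000000000) (nat_lit 0x0) (nat_lit 0x240012001b80000000c00040002000000000000000000000000000) := T_49 (nat_lit 179) (nat_lit 180) (nat_lit 3) (nat_lit 6) (nat_lit 9) L75235 (by decide +kernel)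
theorem L75237 : W_49 (nat_lit 13) (nat_lit 0x78001000080000000000000000000000000000000) (nat_lit 0x0) (nat_lit 0x200010007c001f801bf0007000dc0040002000000000000000000000000000) := Q_49 (nat_lit 194) (C_49 L87 (C_49 L75230 (C_49 L91 (C_49 L75236 N_49)))) (by decide +kernel)
theorem L75238 : W_49 (nat_lit 14) (nat_lit 0x38001000080000000000000000000000000000000) (nat_lit 0x0) (nat_lit 0x200010007c001f803bf01c701cdc0040002000000000000000000000000000) := Q_49 (nat_lit 162) (C_49 L80 (C_49 L1802 (C_49 L1858 (C_49 L86 (C_49 L75237 N_49))))) (by decide +kernel)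
theorem L75239 : W_49 (nat_lit 2) (nat_lit 0x3a0018000c0003000000000000000000000000000) (nat_lit 0x0) (nat_lit 0x4000200000000000020000000000000000000000000000000) := D_49 (nat_lit 177) (nat_lit 194) (nat_lit 125) (nat_lit 6) (nat_lit 7) (nat_lit 11) (nat_lit 4) (nat_lit 7) (nat_lit 10) (by decide +kernel)
theorem L75240 : W_49 (nat_lit 3) (nat_lit 0x3a0018000c0002000000000000000000000000000) (nat_lit 0x0) (nat_lit 0x4000200000000000020001000080000000000000000000000) := T_49 (nat_lit 108) (nat_lit 91) (nat_lit 4) (nat_lit 7) (nat_lit 9) L75239 (by decide +kernel)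
theorem L75241 : W_49 (nat_lit 4) (nat_lit 0x3a0018000c0000000000000000000000000000000) (nat_lit 0x0) (nat_lit 0x4000300000000000020003000080000000000000000000000) := T_49 (nat_lit 109) (nat_lit 176) (nat_lit 5) (nat_lit 7) (nat_lit 6) L75240 (by decide +kernel)
theorem L75242 : W_49 (nat_lit 5) (nat_lit 0x380018000c0000000000000000000000000000000) (nat_lit 0x0) (nat_lit 0x4000300006000000020003000080000000000000000000000) := T_49 (nat_lit 157) (nat_lit 158) (nat_lit 2) (nat_lit 4) (nat_lit 9) L75241 (by decide +kernel)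
theorem L75243 : W_49 (nat_lit 2) (nat_lit 0x20003c001a000f0000000000000000000000000000000) (nat_lit 0x0) (nat_lit 0x100000000000000000c00000000000000000000000000) := D_49 (nat_lit 107) (nat_lit 106) (nat_lit 176) (nat_lit 0) (nat_lit 8) (nat_lit 7) (nat_lit 7) (nat_lit 5) (nat_lit 6) (by decide +kernel)
theorem L75244 : W_49 (nat_lit 3) (nat_lit 0x20003c0018000f0000000000000000000000000000000) (nat_lit 0x0) (nat_lit 0x100000000300000000c00000000000000000000000000) := T_49 (nat_lit 141) (nat_lit 140) (nat_lit 1) (nat_lit 8) (nat_lit 7) L75243 (by decide +kernel)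
theorem L75245 : W_49 (nat_lit 4) (nat_lit 0x20003c0018000e0000000000000000000000000000000) (nat_lit 0x0) (nat_lit 0x100000000300018000c00000000000000000000000000) := T_49 (nat_lit 124) (nat_lit 123) (nat_lit 3) (nat_lit 4) (nat_lit 7) L75244 (by decide +kernel)
theorem L75246 : W_49 (nat_lit 5) (nat_lit 0x20003c0018000c0000000000000000000000000000000) (nat_lit 0x0) (nat_lit 0x100000000300038001c00000000000000000000000000) := T_49 (nat_lit 125) (nat_lit 108) (nat_lit 4) (nat_lit 7) (nat_lit 10) L75245 (by decide +kernel)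
theorem L75247 : W_49 (nat_lit 6) (nat_lit 0x2000380018000c0000000000000000000000000000000) (nat_lit 0x0) (nat_lit 0x100006000300038001c00000000000000000000000000) := T_49 (nat_lit 158) (nat_lit 157) (nat_lit 2) (nat_lit 4) (nat_lit 9) L75246 (by decide +kernel)
theorem L75248 : W_49 (nat_lit 7) (nat_lit 0x380018000c0000000000000000000000000000000) (nat_lit 0x0) (nat_lit 0x4000300006000300038001c00000000000000000000000000) := T_49 (nat_lit 177) (nat_lit 194) (nat_lit 6) (nat_lit 7) (nat_lit 11) L75247 (by decide +kernel)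
theorem L75249 : W_49 (nat_lit 2) (nat_lit 0x400000003a0018000c0003800000000000000000000000000) (nat_lit 0x0) (nat_lit 0x320000000000000000000000000000000) := D_49 (nat_lit 128) (nat_lit 129) (nat_lit 125) (nat_lit 0) (nat_lit 10) (nat_lit 7) (nat_lit 0) (nat_lit 9) (nat_lit 7) (by decide +kernel)
theorem L75250 : W_49 (nat_lit 3) (nat_lit 0x400000003a0018000c0003000000000000000000000000000) (nat_lit 0x0) (nat_lit 0x320000c00000000000000000000000000) := T_49 (nat_lit 107) (nat_lit 106) (nat_lit 3) (nat_lit 4) (nat_lit 6) L75249 (by decide +kernel)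
theorem L75251 : W_49 (nat_lit 4) (nat_lit 0x400000003a0018000c0002000000000000000000000000000) (nat_lit 0x0) (nat_lit 0x320001c00080000000000000000000000) := T_49 (nat_lit 108) (nat_lit 91) (nat_lit 4) (nat_lit 7) (nat_lit 9) L75250 (by decide +kernel)
theorem L75252 : W_49 (nat_lit 5) (nat_lit 0x40000000380018000c0002000000000000000000000000000) (nat_lit 0x0) (nat_lit 0x6000000320001c00080000000000000000000000) := T_49 (nat_lit 157) (nat_lit 158) (nat_lit 2) (nat_lit 4) (nat_lit 9) L75251 (by decide +kernel)
theorem L75253 : W_49 (nat_lit 6) (nat_lit 0x40000000380018000c0000000000000000000000000000000) (nat_lit 0x0) (nat_lit 0x6000000320003c00180000000000000000000000) := T_49 (nat_lit 109) (nat_lit 92) (nat_lit 7) (nat_lit 7) (nat_lit 5) L75252 (by decide +kernel)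
theorem L75254 : W_49 (nat_lit 7) (nat_lit 0x380018000c0000000000000000000000000000000) (nat_lit 0x0) (nat_lit 0x4000200006000000320003c00180000000000000000000000) := T_49 (nat_lit 194) (nat_lit 177) (nat_lit 6) (nat_lit 7) (nat_lit 11) L75253 (by decide +kernel)
theorem L75255 : W_49 (nat_lit 8) (nat_lit 0x38001800080000000000000000000000000000000) (nat_lit 0x0) (nat_lit 0x4000300006000300378003c00180000000000000000000000) := Q_49 (nat_lit 126) (C_49 L1319 (C_49 L75242 (C_49 L75248 (C_49 L75254 N_49)))) (by decide +kernel)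
theorem L75256 : W_49 (nat_lit 9) (nat_lit 0x38001800080000000000000000000000000000000) (nat_lit 0x0) (nat_lit 0x60003000c6000400378003c00180000000000000000000000) := Q_49 (nat_lit 126) (C_49 L75254 (C_49 L75242 (C_49 L1319 (C_49 L1343 N_49)))) (by decide +kernel)
theorem L75257 : W_49 (nat_lit 2) (nat_lit 0x200038001c002c0002000000000000000000000000000) (nat_lit 0x0) (nat_lit 0x20001000080000000000000000000000) := D_49 (nat_lit 108) (nat_lit 91) (nat_lit 125) (nat_lit 4) (nat_lit 7) (nat_lit 9) (nat_lit 7) (nat_lit 6) (nat_lit 6) (by decide +kernel)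
theorem L75258 : W_49 (nat_lit 3) (nat_lit 0x38001c002c0002000000000000000000000000000) (nat_lit 0x0) (nat_lit 0x4000200000000000020001000080000000000000000000000) := T_49 (nat_lit 177) (nat_lit 194) (nat_lit 6) (nat_lit 7) (nat_lit 11) L75257 (by decide +kernel)
theorem L75259 : W_49 (nat_lit 4) (nat_lit 0x38001c002c0000000000000000000000000000000) (nat_lit 0x0) (nat_lit 0x4000200000000000020003000180000000000000000000000) := T_49 (nat_lit 109) (nat_lit 92) (nat_lit 7) (nat_lit 7) (nat_lit 5) L75258 (by decide +kernel)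
theorem L75260 : W_49 (nat_lit 5) (nat_lit 0x38001c000c0000000000000000000000000000000) (nat_lit 0x0) (nat_lit 0x4000200000000000320003000180000000000000000000000) := T_49 (nat_lit 129) (nat_lit 128) (nat_lit 1) (nat_lit 10) (nat_lit 7) L75259 (by decide +kernel)
theorem L75261 : W_49 (nat_lit 6) (nat_lit 0x38001c00080000000000000000000000000000000) (nat_lit 0x0) (nat_lit 0x6000300000000000378003800180000000000000000000000) := Q_49 (nat_lit 126) (C_49 L1346 (C_49 L1347 (C_49 L1351 (C_49 L75260 N_49)))) (by decide +kernel)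
theorem L75262 : W_49 (nat_lit 7) (nat_lit 0x38001800080000000000000000000000000000000) (nat_lit 0x0) (nat_lit 0x60003000c0000700378003800180000000000000000000000) := Q_49 (nat_lit 142) (C_49 L1345 (C_49 L227 (C_49 L75261 N_49))) (by decide +kernel)
theorem L75263 : W_49 (nat_lit 10) (nat_lit 0x38001000080000000000000000000000000000000) (nat_lit 0x0) (nat_lit 0x6003b001c6000f00378003c00180000000000000000000000) := Q_49 (nat_lit 143) (C_49 L75255 (C_49 L1306 (C_49 L1312 (C_49 L1336 (C_49 L75256 (C_49 L75262 N_49)))))) (by decide +kernel)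
theorem L75264 : W_49 (nat_lit 2) (nat_lit 0x4000a00078001400080000000000000000000000000000000) (nat_lit 0x0) (nat_lit 0x180000000000020000000000000000000000000000000) := D_49 (nat_lit 176) (nat_lit 175) (nat_lit 125) (nat_lit 1) (nat_lit 9) (nat_lit 9) (nat_lit 7) (nat_lit 6) (nat_lit 7) (by decide +kernel)
theorem L75265 : W_49 (nat_lit 3) (nat_lit 0x4000a00078001000080000000000000000000000000000000) (nat_lit 0x0) (nat_lit 0x180000000600020000000000000000000000000000000) := T_49 (nat_lit 142) (nat_lit 141) (nat_lit 0) (nat_lit 9) (nat_lit 9) L75264 (by decide +kernel)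
theorem L75266 : W_49 (nat_lit 4) (nat_lit 0xa00078001000080000000000000000000000000000000) (nat_lit 0x0) (nat_lit 0x80004000180000000600020000000000000000000000000000000) := T_49 (nat_lit 194) (nat_lit 211) (nat_lit 6) (nat_lit 7) (nat_lit 12) L75265 (by decide +kernel)
theorem L75267 : W_49 (nat_lit 5) (nat_lit 0x200078001000080000000000000000000000000000000) (nat_lit 0x0) (nat_lit 0x80004001980000000600020000000000000000000000000000000) := T_49 (nat_lit 179) (nat_lit 180) (nat_lit 3) (nat_lit 6) (nat_lit 9) L75266 (by decide +kernel)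
theorem L75269 : W_49 (nat_lit 3) (nat_lit 0x300078001000080000000000000000000000000000000) (nat_lit 0x0) (nat_lit 0x4000000000000e00020000000000000000000000000000000) := T_49 (nat_lit 194) (nat_lit 143) (nat_lit 6) (nat_lit 7) (nat_lit 11) L75268 (by decide +kernel)
theorem L75270 : W_49 (nat_lit 4) (nat_lit 0x200078001000080000000000000000000000000000000) (nat_lit 0x0) (nat_lit 0x4000180000000e00020000000000000000000000000000000) := T_49 (nat_lit 176) (nat_lit 175) (nat_lit 1) (nat_lit 9) (nat_lit 9) L75269 (by decide +kernel)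
theorem L75271 : W_49 (nat_lit 2) (nat_lit 0x200000000b000780014000f0000000000000000000000000000000) (nat_lit 0x0) (nat_lit 0x2000000000000800008000000000000000000000000000000) := D_49 (nat_lit 143) (nat_lit 193) (nat_lit 123) (nat_lit 6) (nat_lit 6) (nat_lit 11) (nat_lit 3) (nat_lit 4) (nat_lit 7) (by decide +kernel)
theorem L75272 : W_49 (nat_lit 3) (nat_lit 0x200000000b000780014000b0000000000000000000000000000000) (nat_lit 0x0) (nat_lit 0x2000000000000800048002000000000000000000000000000) := T_49 (nat_lit 126) (nat_lit 109) (nat_lit 6) (nat_lit 6) (nat_lit 10) L75271 (by decide +kernel)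
theorem L75273 : W_49 (nat_lit 4) (nat_lit 0xb000780014000b0000000000000000000000000000000) (nat_lit 0x0) (nat_lit 0x200012000000000000800048002000000000000000000000000000) := T_49 (nat_lit 213) (nat_lit 196) (nat_lit 4) (nat_lit 9) (nat_lit 12) L75272 (by decide +kernel)
theorem L75274 : W_49 (nat_lit 5) (nat_lit 0xb000780014000a0000000000000000000000000000000) (nat_lit 0x0) (nat_lit 0x200012000000000000800058002800000000000000000000000000) := T_49 (nat_lit 124) (nat_lit 107) (nat_lit 4) (nat_lit 6) (nat_lit 10) L75273 (by decide +kernel)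
theorem L75275 : W_49 (nat_lit 6) (nat_lit 0x3000780014000a0000000000000000000000000000000) (nat_lit 0x0) (nat_lit 0x200012001800000000800058002800000000000000000000000000) := T_49 (nat_lit 179) (nat_lit 180) (nat_lit 3) (nat_lit 6) (nat_lit 9) L75274 (by decide +kernel)
theorem L75276 : W_49 (nat_lit 7) (nat_lit 0x300078001400080000000000000000000000000000000) (nat_lit 0x0) (nat_lit 0x200012001800000000800078003800000000000000000000000000) := T_49 (nat_lit 125) (nat_lit 108) (nat_lit 7) (nat_lit 6) (nat_lit 6) L75275 (by decide +kernel)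
theorem L75277 : W_49 (nat_lit 8) (nat_lit 0x200078001400080000000000000000000000000000000) (nat_lit 0x0) (nat_lit 0x200012001980000000800078003800000000000000000000000000) := T_49 (nat_lit 176) (nat_lit 175) (nat_lit 1) (nat_lit 9) (nat_lit 9) L75276 (by decide +kernel)
theorem L75278 : W_49 (nat_lit 9) (nat_lit 0x200078001000080000000000000000000000000000000) (nat_lit 0x0) (nat_lit 0x200012001980000000e00078003800000000000000000000000000) := T_49 (nat_lit 142) (nat_lit 141) (nat_lit 0) (nat_lit 9) (nat_lit 9) L75277 (by decide +kernel)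
theorem L75279 : W_49 (nat_lit 10) (nat_lit 0x78001000080000000000000000000000000000000) (nat_lit 0x0) (nat_lit 0x280016001b80000000e00078003800000000000000000000000000) := Q_49 (nat_lit 177) (C_49 L1361 (C_49 L75267 (C_49 L75270 (C_49 L75278 N_49)))) (by decide +kernel)
theorem L75280 : W_49 (nat_lit 11) (nat_lit 0x38001000080000000000000000000000000000000) (nat_lit 0x0) (nat_lit 0x280016003b801c0000e00078003800000000000000000000000000) := Q_49 (nat_lit 162) (C_49 L1858 (C_49 L80 (C_49 L86 (C_49 L75279 N_49)))) (by decide +kernel)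
theorem L75281 : W_49 (nat_lit 15) (nat_lit 0x30001000080000000000000000000000000000000) (nat_lit 0x0) (nat_lit 0x200010007f001fc03bf01cf81cfc0378003c00180000000000000000000000) := Q_49 (nat_lit 159) (C_49 L75196 (C_49 L75201 (C_49 L75228 (C_49 L75229 (C_49 L75238 (C_49 L1360 (C_49 L75263 (C_49 L75280 N_49)))))))) (by decide +kernel)
theorem L75282 : W_49 (nat_lit 13) (nat_lit 0x3e001000080000000000000000000000000000000) (nat_lit 0x0) (nat_lit 0x3d80018006e017c007c00100000000000000000000000) := Q_49 (nat_lit 156) (C_49 L337 (C_49 L351 (C_49 L1399 N_49))) (by decide +kernel)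
theorem L75283 : W_49 (nat_lit 14) (nat_lit 0x3c001000080000000000000000000000000000000) (nat_lit 0x0) (nat_lit 0x3f80038006e017c007c00100000000000000000000000) := Q_49 (nat_lit 157) (C_49 L75 (C_49 L331 (C_49 L336 (C_49 L75282 N_49)))) (by decide +kernel)
theorem L75284 : W_49 (nat_lit 11) (nat_lit 0x3c001000080000000000000000000000000000000) (nat_lit 0x0) (nat_lit 0xf0007c003c0000000700030005000000000000000000000000000) := T_49 (nat_lit 177) (nat_lit 110) (nat_lit 5) (nat_lit 8) (nat_lit 6) L75216 (by decide +kernel)
theorem L75285 : W_49 (nat_lit 15) (nat_lit 0x38001000080000000000000000000000000000000) (nat_lit 0x0) (nat_lit 0xf0007c003f80078007e017c007c00100000000000000000000000) := Q_49 (nat_lit 158) (C_49 L1244 (C_49 L322 (C_49 L328 (C_49 L75283 (C_49 L1402 (C_49 L75284 N_49)))))) (by decide +kernel)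
theorem L75286 : W_49 (nat_lit 2) (nat_lit 0x100078001000080000000000000000000000000000000) (nat_lit 0x0) (nat_lit 0x200080000000000004000000000000000000000000000) := D_49 (nat_lit 177) (nat_lit 110) (nat_lit 163) (nat_lit 5) (nat_lit 8) (nat_lit 6) (nat_lit 1) (nat_lit 10) (nat_lit 9) (by decide +kernel)
theorem L75287 : W_49 (nat_lit 3) (nat_lit 0x78001000080000000000000000000000000000000) (nat_lit 0x0) (nat_lit 0x380080000000000004000000000000000000000000000) := T_49 (nat_lit 176) (nat_lit 175) (nat_lit 1) (nat_lit 9) (nat_lit 9) L75286 (by decide +kernel)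
theorem L75288 : W_49 (nat_lit 5) (nat_lit 0x38001000080000000000000000000000000000000) (nat_lit 0x0) (nat_lit 0x3b800c0000000000004000000000000000000000000000) := Q_49 (nat_lit 162) (C_49 L1410 (C_49 L283 (C_49 L75287 (C_49 L1858 N_49)))) (by decide +kernel)
theorem L75289 : W_49 (nat_lit 5) (nat_lit 0x38001000080000000000000000000000000000000) (nat_lit 0x0) (nat_lit 0x19c0044000700000004000000000000000000000000000) := Q_49 (nat_lit 162) (C_49 L283 (C_49 L1414 N_49)) (by decide +kernel)
theorem L75290 : W_49 (nat_lit 2) (nat_lit 0x7e001200090004800360020000000000000000000) (nat_lit 0x0) (nat_lit 0x80014000000000000000000) := D_49 (nat_lit 91) (nat_lit 76) (nat_lit 74) (nat_lit 2) (nat_lit 5) (nat_lit 5) (nat_lit 6) (nat_lit 5) (nat_lit 8) (by decide +kernel)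
theorem L75291 : W_49 (nat_lit 3) (nat_lit 0x7e001200090004800320020000000000000000000) (nat_lit 0x0) (nat_lit 0xc0015000000000000000000) := T_49 (nat_lit 90) (nat_lit 72) (nat_lit 4) (nat_lit 5) (nat_lit 8) L75290 (by decide +kernel)
theorem L75292 : W_49 (nat_lit 4) (nat_lit 0x7e001200090004800320000000000000000000000) (nat_lit 0x0) (nat_lit 0x4c0035000000000000000000) := T_49 (nat_lit 77) (nat_lit 94) (nat_lit 6) (nat_lit 8) (nat_lit 8) L75291 (by decide +kernel)
theorem L75293 : W_49 (nat_lit 5) (nat_lit 0x7e001200090004800300000000000000000000000) (nat_lit 0x0) (nat_lit 0x4004e0035000000000000000000) := T_49 (nat_lit 89) (nat_lit 106) (nat_lit 4) (nat_lit 5) (nat_lit 9) L75292 (by decide +kernel)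
theorem L75294 : W_49 (nat_lit 6) (nat_lit 0x7c001200090004800300000000000000000000000) (nat_lit 0x0) (nat_lit 0x400020000000000004004e0035000000000000000000) := T_49 (nat_lit 157) (nat_lit 174) (nat_lit 5) (nat_lit 5) (nat_lit 6) L75293 (by decide +kernel)
theorem L75295 : W_49 (nat_lit 2) (nat_lit 0x3e0012000900008000c0000000000000000000000) (nat_lit 0x0) (nat_lit 0x400020001000000000000000000) := D_49 (nat_lit 89) (nat_lit 72) (nat_lit 106) (nat_lit 4) (nat_lit 5) (nat_lit 8) (nat_lit 4) (nat_lit 5) (nat_lit 9) (by decide +kernel)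
theorem L75296 : W_49 (nat_lit 3) (nat_lit 0x3e001200090000800080000000000000000000000) (nat_lit 0x0) (nat_lit 0x400060005000000000000000000) := T_49 (nat_lit 90) (nat_lit 74) (nat_lit 6) (nat_lit 5) (nat_lit 8) L75295 (by decide +kernel)
theorem L75297 : W_49 (nat_lit 4) (nat_lit 0x3c001200090000800080000000000000000000000) (nat_lit 0x0) (nat_lit 0x40002000000000000400060005000000000000000000) := T_49 (nat_lit 157) (nat_lit 174) (nat_lit 5) (nat_lit 5) (nat_lit 6) L75296 (by decide +kernel)
theorem L75298 : W_49 (nat_lit 5) (nat_lit 0x3c001200090000800000000000000000000000000) (nat_lit 0x0) (nat_lit 0x400020000000000014000e0005000000000000000000) := T_49 (nat_lit 91) (nat_lit 108) (nat_lit 6) (nat_lit 5) (nat_lit 9) L75297 (by decide +kernel)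
theorem L75299 : W_49 (nat_lit 6) (nat_lit 0x3c001200080000800000000000000000000000000) (nat_lit 0x0) (nat_lit 0x1400020000000100014000e0005000000000000000000) := T_49 (nat_lit 124) (nat_lit 176) (nat_lit 7) (nat_lit 5) (nat_lit 6) L75298 (by decide +kernel)
theorem L75300 : W_49 (nat_lit 7) (nat_lit 0x38001200080000800000000000000000000000000) (nat_lit 0x0) (nat_lit 0x1400060001000100014000e0005000000000000000000) := T_49 (nat_lit 158) (nat_lit 140) (nat_lit 0) (nat_lit 8) (nat_lit 9) L75299 (by decide +kernel)
theorem L75301 : W_49 (nat_lit 7) (nat_lit 0x7c001200080004800300000000000000000000000) (nat_lit 0x0) (nat_lit 0x1400020000000100004004e0035000000000000000000) := T_49 (nat_lit 124) (nat_lit 176) (nat_lit 7) (nat_lit 5) (nat_lit 6) L75294 (by decide +kernel)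
theorem L75302 : W_49 (nat_lit 8) (nat_lit 0x7c001200080004800100000000000000000000000) (nat_lit 0x0) (nat_lit 0x1400020000000100004006e003d000000000000000000) := T_49 (nat_lit 93) (nat_lit 75) (nat_lit 4) (nat_lit 8) (nat_lit 8) L75301 (by decide +kernel)
theorem L75303 : W_49 (nat_lit 9) (nat_lit 0x3c001200080004800100000000000000000000000) (nat_lit 0x0) (nat_lit 0x9400420000000100004006e003d000000000000000000) := T_49 (nat_lit 162) (nat_lit 179) (nat_lit 7) (nat_lit 8) (nat_lit 6) L75302 (by decide +kernel)
theorem L75304 : W_49 (nat_lit 10) (nat_lit 0x3c001200080004800000000000000000000000000) (nat_lit 0x0) (nat_lit 0x9400420000000100024007e003d000000000000000000) := T_49 (nat_lit 92) (nat_lit 109) (nat_lit 4) (nat_lit 8) (nat_lit 9) L75303 (by decide +kernel)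
theorem L75305 : W_49 (nat_lit 11) (nat_lit 0x3c001200080000800000000000000000000000000) (nat_lit 0x0) (nat_lit 0xb400420000000100064007e003d000000000000000000) := T_49 (nat_lit 110) (nat_lit 177) (nat_lit 5) (nat_lit 8) (nat_lit 6) L75304 (by decide +kernel)
theorem L75306 : W_49 (nat_lit 12) (nat_lit 0x38001200080000800000000000000000000000000) (nat_lit 0x0) (nat_lit 0xb400460001000100064007e003d000000000000000000) := T_49 (nat_lit 158) (nat_lit 140) (nat_lit 0) (nat_lit 8) (nat_lit 9) L75305 (by decide +kernel)
theorem L75307 : W_49 (nat_lit 2) (nat_lit 0x38001200080007c00000000000000000000000000) (nat_lit 0x0) (nat_lit 0x70000000000000000000000) := D_49 (nat_lit 89) (nat_lit 90) (nat_lit 88) (nat_lit 0) (nat_lit 8) (nat_lit 6) (nat_lit 0) (nat_lit 7) (nat_lit 6) (by decide +kernel)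
theorem L75308 : W_49 (nat_lit 3) (nat_lit 0x38001200080007800000000000000000000000000) (nat_lit 0x0) (nat_lit 0x40000400070000000000000000000000) := T_49 (nat_lit 106) (nat_lit 126) (nat_lit 3) (nat_lit 4) (nat_lit 6) L75307 (by decide +kernel)
theorem L75309 : W_49 (nat_lit 4) (nat_lit 0x38001200080006800000000000000000000000000) (nat_lit 0x0) (nat_lit 0x140001400070000000000000000000000) := T_49 (nat_lit 108) (nat_lit 128) (nat_lit 3) (nat_lit 5) (nat_lit 6) L75308 (by decide +kernel)
theorem L75310 : W_49 (nat_lit 5) (nat_lit 0x38001200080004800000000000000000000000000) (nat_lit 0x0) (nat_lit 0x140003400170000000000000000000000) := T_49 (nat_lit 109) (nat_lit 92) (nat_lit 4) (nat_lit 8) (nat_lit 9) L75309 (by decide +kernel)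
theorem L75311 : W_49 (nat_lit 6) (nat_lit 0x38001200080000800000000000000000000000000) (nat_lit 0x0) (nat_lit 0x200000000000140007400170000000000000000000000) := T_49 (nat_lit 110) (nat_lit 177) (nat_lit 5) (nat_lit 8) (nat_lit 6) L75310 (by decide +kernel)
theorem L75312 : W_49 (nat_lit 2) (nat_lit 0x38001200090007800200000000000000000000000) (nat_lit 0x0) (nat_lit 0x4000100000000000080000000000000000000000) := D_49 (nat_lit 158) (nat_lit 140) (nat_lit 91) (nat_lit 0) (nat_lit 8) (nat_lit 9) (nat_lit 6) (nat_lit 5) (nat_lit 9) (by decide +kernel)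
theorem L75313 : W_49 (nat_lit 3) (nat_lit 0x38001200080007800200000000000000000000000) (nat_lit 0x0) (nat_lit 0x4000100018000000080000000000000000000000) := T_49 (nat_lit 124) (nat_lit 123) (nat_lit 1) (nat_lit 8) (nat_lit 6) L75312 (by decide +kernel)
theorem L75314 : W_49 (nat_lit 4) (nat_lit 0x38001200080007800000000000000000000000000) (nat_lit 0x0) (nat_lit 0x4000100018000000680000000000000000000000) := T_49 (nat_lit 93) (nat_lit 94) (nat_lit 2) (nat_lit 5) (nat_lit 6) L75313 (by decide +kernel)
theorem L75315 : W_49 (nat_lit 5) (nat_lit 0x38001200080006800000000000000000000000000) (nat_lit 0x0) (nat_lit 0x4000100118001000680000000000000000000000) := T_49 (nat_lit 108) (nat_lit 128) (nat_lit 3) (nat_lit 5) (nat_lit 6) L75314 (by decide +kernel)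
theorem L75316 : W_49 (nat_lit 6) (nat_lit 0x38001200080004800000000000000000000000000) (nat_lit 0x0) (nat_lit 0x4000100118003000780000000000000000000000) := T_49 (nat_lit 109) (nat_lit 92) (nat_lit 4) (nat_lit 8) (nat_lit 9) L75315 (by decide +kernel)
theorem L75317 : W_49 (nat_lit 7) (nat_lit 0x38001200080000800000000000000000000000000) (nat_lit 0x0) (nat_lit 0x200004000100118007000780000000000000000000000) := T_49 (nat_lit 110) (nat_lit 177) (nat_lit 5) (nat_lit 8) (nat_lit 6) L75316 (by decide +kernel)
theorem L75318 : W_49 (nat_lit 13) (nat_lit 0x38001200080000000000000000000000000000000) (nat_lit 0x0) (nat_lit 0xb40046000100158007c007f003d000000000000000000) := Q_49 (nat_lit 107) (C_49 L75300 (C_49 L75306 (C_49 L75311 (C_49 L75317 N_49)))) (by decide +kernel)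
theorem L75319 : W_49 (nat_lit 2) (nat_lit 0x7c001200080000000000000000000000000000000) (nat_lit 0x0) (nat_lit 0x1800000000000000004000000000000000000000000000) := D_49 (nat_lit 179) (nat_lit 180) (nat_lit 110) (nat_lit 3) (nat_lit 6) (nat_lit 9) (nat_lit 7) (nat_lit 8) (nat_lit 6) (by decide +kernel)
theorem L75320 : W_49 (nat_lit 3) (nat_lit 0x3c001200080000000000000000000000000000000) (nat_lit 0x0) (nat_lit 0x1800040000400000004000000000000000000000000000) := T_49 (nat_lit 162) (nat_lit 142) (nat_lit 0) (nat_lit 9) (nat_lit 9) L75319 (by decide +kernel)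
theorem L75321 : W_49 (nat_lit 4) (nat_lit 0x38001200080000000000000000000000000000000) (nat_lit 0x0) (nat_lit 0x1800044000500000004000000000000000000000000000) := T_49 (nat_lit 158) (nat_lit 140) (nat_lit 0) (nat_lit 8) (nat_lit 9) L75320 (by decide +kernel)
theorem L75322 : W_49 (nat_lit 14) (nat_lit 0x38001000080000000000000000000000000000000) (nat_lit 0x0) (nat_lit 0x80004001b40046000780178007c007f003d000000000000000000) := Q_49 (nat_lit 141) (C_49 L75318 (C_49 L300 (C_49 L1463 (C_49 L75321 (C_49 L301 N_49))))) (by decide +kernel)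
theorem L75323 : W_49 (nat_lit 16) (nat_lit 0x30001000080000000000000000000000000000000) (nat_lit 0x0) (nat_lit 0xf0007c03bf80cf8007e017c007c007f003d000000000000000000) := Q_49 (nat_lit 159) (C_49 L75196 (C_49 L1386 (C_49 L75285 (C_49 L75288 (C_49 L75289 (C_49 L1476 (C_49 L75322 N_49))))))) (by decide +kernel)
theorem L75324 : W_49 (nat_lit 2) (nat_lit 0xf0001000080000000000000000000000000000000) (nat_lit 0x0) (nat_lit 0x100000c00000000000000000000000000000000000) := D_49 (nat_lit 143) (nat_lit 164) (nat_lit 142) (nat_lit 0) (nat_lit 11) (nat_lit 9) (nat_lit 0) (nat_lit 10) (nat_lit 9) (by decide +kernel)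
theorem L75325 : W_49 (nat_lit 2) (nat_lit 0x10800fc005100080000000000000000000000000000000) (nat_lit 0x0) (nat_lit 0x2000880000000000000000000000000000000000) := D_49 (nat_lit 157) (nat_lit 143) (nat_lit 139) (nat_lit 2) (nat_lit 4) (nat_lit 9) (nat_lit 0) (nat_lit 7) (nat_lit 9) (by decide +kernel)
theorem L75326 : W_49 (nat_lit 3) (nat_lit 0x10800fc005000080000000000000000000000000000000) (nat_lit 0x0) (nat_lit 0x2000b80000000000000000000000000000000000) := T_49 (nat_lit 140) (nat_lit 141) (nat_lit 0) (nat_lit 8) (nat_lit 9) L75325 (by decide +kernel)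
theorem L75327 : W_49 (nat_lit 4) (nat_lit 0x10800f8005000080000000000000000000000000000000) (nat_lit 0x0) (nat_lit 0x40006000b80000000000000000000000000000000000) := T_49 (nat_lit 158) (nat_lit 174) (nat_lit 1) (nat_lit 8) (nat_lit 9) L75326 (by decide +kernel)
theorem L75328 : W_49 (nat_lit 5) (nat_lit 0x10800f8001000080000000000000000000000000000000) (nat_lit 0x0) (nat_lit 0x4000600cb80000000000000000000000000000000000) := T_49 (nat_lit 146) (nat_lit 147) (nat_lit 2) (nat_lit 7) (nat_lit 9) L75327 (by decide +kernel)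
theorem L75329 : W_49 (nat_lit 6) (nat_lit 0x10000f8001000080000000000000000000000000000000) (nat_lit 0x0) (nat_lit 0x1c000600cb80000000000000000000000000000000000) := T_49 (nat_lit 175) (nat_lit 176) (nat_lit 1) (nat_lit 9) (nat_lit 9) L75328 (by decide +kernel)
theorem L75330 : W_49 (nat_lit 7) (nat_lit 0xf8001000080000000000000000000000000000000) (nat_lit 0x0) (nat_lit 0x31c000600cb80000000000000000000000000000000000) := T_49 (nat_lit 180) (nat_lit 181) (nat_lit 3) (nat_lit 7) (nat_lit 9) L75329 (by decide +kernel)
theorem L75331 : W_49 (nat_lit 2) (nat_lit 0x10000fc005200080000000000000000000000000000000) (nat_lit 0x0) (nat_lit 0x1c0000000000000000000000000000000000000000000) := D_49 (nat_lit 175) (nat_lit 176) (nat_lit 174) (nat_lit 1) (nat_lit 9) (nat_lit 9) (nat_lit 1) (nat_lit 8) (nat_lit 9) (by decide +kernel)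
theorem L75332 : W_49 (nat_lit 3) (nat_lit 0x10000f8005200080000000000000000000000000000000) (nat_lit 0x0) (nat_lit 0x1c0004000100000000000000000000000000000000000) := T_49 (nat_lit 158) (nat_lit 140) (nat_lit 0) (nat_lit 8) (nat_lit 9) L75331 (by decide +kernel)
theorem L75333 : W_49 (nat_lit 4) (nat_lit 0xf8005200080000000000000000000000000000000) (nat_lit 0x0) (nat_lit 0x31c0004000100000000000000000000000000000000000) := T_49 (nat_lit 180) (nat_lit 181) (nat_lit 3) (nat_lit 7) (nat_lit 9) L75332 (by decide +kernel)
theorem L75334 : W_49 (nat_lit 5) (nat_lit 0xf8005000080000000000000000000000000000000) (nat_lit 0x0) (nat_lit 0x31c0004000700000000000000000000000000000000000) := T_49 (nat_lit 141) (nat_lit 142) (nat_lit 0) (nat_lit 9) (nat_lit 9) L75333 (by decide +kernel)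
theorem L75335 : W_49 (nat_lit 6) (nat_lit 0xf8001000080000000000000000000000000000000) (nat_lit 0x0) (nat_lit 0x31c000400c700000000000000000000000000000000000) := T_49 (nat_lit 146) (nat_lit 147) (nat_lit 2) (nat_lit 7) (nat_lit 9) L75334 (by decide +kernel)
theorem L75336 : W_49 (nat_lit 2) (nat_lit 0x400000011000f8005800080002000000000000000000000000000) (nat_lit 0x0) (nat_lit 0x4000300000000000000000000000) := D_49 (nat_lit 110) (nat_lit 92) (nat_lit 93) (nat_lit 4) (nat_lit 8) (nat_lit 9) (nat_lit 5) (nat_lit 8) (nat_lit 5) (by decide +kernel)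
theorem L75337 : W_49 (nat_lit 3) (nat_lit 0x400000011000f8005800080000000000000000000000000000000) (nat_lit 0x0) (nat_lit 0x40006000300000000000000000000000) := T_49 (nat_lit 109) (nat_lit 126) (nat_lit 5) (nat_lit 7) (nat_lit 6) L75336 (by decide +kernel)
theorem L75338 : W_49 (nat_lit 4) (nat_lit 0x11000f8005800080000000000000000000000000000000) (nat_lit 0x0) (nat_lit 0x40002000000000000000040006000300000000000000000000000) := T_49 (nat_lit 210) (nat_lit 193) (nat_lit 6) (nat_lit 6) (nat_lit 12) L75337 (by decide +kernel)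
theorem L75339 : W_49 (nat_lit 5) (nat_lit 0x1000f8005800080000000000000000000000000000000) (nat_lit 0x0) (nat_lit 0x40002003000000000000040006000300000000000000000000000) := T_49 (nat_lit 180) (nat_lit 181) (nat_lit 3) (nat_lit 7) (nat_lit 9) L75338 (by decide +kernel)
theorem L75340 : W_49 (nat_lit 6) (nat_lit 0x1000f8005000080000000000000000000000000000000) (nat_lit 0x0) (nat_lit 0x40002003000000000c00040006000300000000000000000000000) := T_49 (nat_lit 143) (nat_lit 142) (nat_lit 0) (nat_lit 10) (nat_lit 9) L75339 (by decide +kernel)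
theorem L75341 : W_49 (nat_lit 7) (nat_lit 0x1000f8001000080000000000000000000000000000000) (nat_lit 0x0) (nat_lit 0x4000200300000000cc00040006000300000000000000000000000) := T_49 (nat_lit 146) (nat_lit 147) (nat_lit 2) (nat_lit 7) (nat_lit 9) L75340 (by decide +kernel)
theorem L75342 : W_49 (nat_lit 8) (nat_lit 0xf8001000080000000000000000000000000000000) (nat_lit 0x0) (nat_lit 0x4000200318000000cc00040006000300000000000000000000000) := T_49 (nat_lit 176) (nat_lit 175) (nat_lit 1) (nat_lit 9) (nat_lit 9) L75341 (by decide +kernel)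
theorem L75343 : W_49 (nat_lit 9) (nat_lit 0xf0001000080000000000000000000000000000000) (nat_lit 0x0) (nat_lit 0x400020031c000e00cf80040006000300000000000000000000000) := Q_49 (nat_lit 159) (C_49 L1487 (C_49 L75330 (C_49 L75335 (C_49 L75342 N_49)))) (by decide +kernel)
theorem L75344 : W_49 (nat_lit 10) (nat_lit 0x70001000080000000000000000000000000000000) (nat_lit 0x0) (nat_lit 0x400020071c018e01cf80040006000300000000000000000000000) := Q_49 (nat_lit 163) (C_49 L1483 (C_49 L1486 (C_49 L75324 (C_49 L75343 N_49)))) (by decide +kernel)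
theorem L75345 : W_49 (nat_lit 7) (nat_lit 0x10000f0001000080000000000000000000000000000000) (nat_lit 0x0) (nat_lit 0x9c000e00cb80000000000000000000000000000000000) := T_49 (nat_lit 159) (nat_lit 179) (nat_lit 3) (nat_lit 6) (nat_lit 9) L75329 (by decide +kernel)
theorem L75346 : W_49 (nat_lit 8) (nat_lit 0xf0001000080000000000000000000000000000000) (nat_lit 0x0) (nat_lit 0x39c000e00cb80000000000000000000000000000000000) := T_49 (nat_lit 180) (nat_lit 181) (nat_lit 3) (nat_lit 7) (nat_lit 9) L75345 (by decide +kernel)
theorem L75347 : W_49 (nat_lit 9) (nat_lit 0x70001000080000000000000000000000000000000) (nat_lit 0x0) (nat_lit 0x79c018e01cf80000000000000000000000000000000000) := Q_49 (nat_lit 163) (C_49 L1486 (C_49 L75324 (C_49 L75346 N_49))) (by decide +kernel)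
theorem L75348 : W_49 (nat_lit 11) (nat_lit 0x30001000080000000000000000000000000000000) (nat_lit 0x0) (nat_lit 0x2400120079c01ce01cf80040006000300008000000000000000000) := Q_49 (nat_lit 162) (C_49 L1480 (C_49 L1992 (C_49 L1506 (C_49 L373 (C_49 L75344 (C_49 L75347 N_49)))))) (by decide +kernel)
theorem L75349 : W_49 (nat_lit 17) (nat_lit 0x20001000080000000000000000000000000000000) (nat_lit 0x0) (nat_lit 0x200010007f001fc07bf81df81cfe037c007c007f003d000000000000000000) := Q_49 (nat_lit 160) (C_49 L75281 (C_49 L75323 (C_49 L75348 (C_49 L1478 (C_49 L1479 N_49))))) (by decide +kernel)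
theorem L75350 : W_49 (nat_lit 2) (nat_lit 0x2c00038001c000f0000000080000000000000000000000) (nat_lit 0x0) (nat_lit 0x2000100000000000000000800000000000000000000000000) := D_49 (nat_lit 176) (nat_lit 193) (nat_lit 107) (nat_lit 6) (nat_lit 6) (nat_lit 11) (nat_lit 4) (nat_lit 6) (nat_lit 10) (by decide +kernel)
theorem L75351 : W_49 (nat_lit 3) (nat_lit 0x2c00038001c000e0000000080000000000000000000000) (nat_lit 0x0) (nat_lit 0x2000100000000000018000800000000000000000000000000) := T_49 (nat_lit 124) (nat_lit 123) (nat_lit 3) (nat_lit 4) (nat_lit 7) L75350 (by decide +kernel)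
theorem L75352 : W_49 (nat_lit 4) (nat_lit 0x2c00038001c000a0000000080000000000000000000000) (nat_lit 0x0) (nat_lit 0x2000100000000000058002800000000000000000000000000) := T_49 (nat_lit 126) (nat_lit 109) (nat_lit 7) (nat_lit 7) (nat_lit 6) L75351 (by decide +kernel)
theorem L75353 : W_49 (nat_lit 5) (nat_lit 0x2c00038001c000a0000000000000000000000000000000) (nat_lit 0x0) (nat_lit 0x2000100000000000058003800080000000000000000000000) := T_49 (nat_lit 91) (nat_lit 108) (nat_lit 7) (nat_lit 6) (nat_lit 5) L75352 (by decide +kernel)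
theorem L75354 : W_49 (nat_lit 6) (nat_lit 0xc00038001c000a0000000000000000000000000000000) (nat_lit 0x0) (nat_lit 0x2003100000000000058003800080000000000000000000000) := T_49 (nat_lit 181) (nat_lit 180) (nat_lit 0) (nat_lit 11) (nat_lit 10) L75353 (by decide +kernel)
theorem L75355 : W_49 (nat_lit 7) (nat_lit 0xc00030001c000a0000000000000000000000000000000) (nat_lit 0x0) (nat_lit 0x200310000c000000058003800080000000000000000000000) := T_49 (nat_lit 159) (nat_lit 158) (nat_lit 3) (nat_lit 5) (nat_lit 9) L75354 (by decide +kernel)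
theorem L75356 : W_49 (nat_lit 8) (nat_lit 0x400030001c000a0000000000000000000000000000000) (nat_lit 0x0) (nat_lit 0x1200390000c000000058003800080000000000000000000000) := T_49 (nat_lit 179) (nat_lit 196) (nat_lit 7) (nat_lit 8) (nat_lit 7) L75355 (by decide +kernel)
theorem L75357 : W_49 (nat_lit 2) (nat_lit 0x2c00030001c000e8001000000000000000000000000000) (nat_lit 0x0) (nat_lit 0x300000800000000000000000000000000) := D_49 (nat_lit 128) (nat_lit 129) (nat_lit 107) (nat_lit 1) (nat_lit 10) (nat_lit 7) (nat_lit 0) (nat_lit 9) (nat_lit 7) (by decide +kernel)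
theorem L75358 : W_49 (nat_lit 3) (nat_lit 0x2c00030001c000e8000000000000000000000000000000) (nat_lit 0x0) (nat_lit 0x300001800080000000000000000000000) := T_49 (nat_lit 108) (nat_lit 91) (nat_lit 7) (nat_lit 6) (nat_lit 5) L75357 (by decide +kernel)
theorem L75359 : W_49 (nat_lit 4) (nat_lit 0xc00030001c000e8000000000000000000000000000000) (nat_lit 0x0) (nat_lit 0x3000000000000300001800080000000000000000000000) := T_49 (nat_lit 181) (nat_lit 180) (nat_lit 0) (nat_lit 11) (nat_lit 10) L75358 (by decide +kernel)
theorem L75360 : W_49 (nat_lit 5) (nat_lit 0x400030001c000e8000000000000000000000000000000) (nat_lit 0x0) (nat_lit 0x10003800000000000300001800080000000000000000000000) := T_49 (nat_lit 179) (nat_lit 196) (nat_lit 7) (nat_lit 8) (nat_lit 7) L75359 (by decide +kernel)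
theorem L75361 : W_49 (nat_lit 6) (nat_lit 0x400030001c000e0000000000000000000000000000000) (nat_lit 0x0) (nat_lit 0x10003800000000000318001800080000000000000000000000) := T_49 (nat_lit 123) (nat_lit 124) (nat_lit 3) (nat_lit 4) (nat_lit 7) L75360 (by decide +kernel)
theorem L75362 : W_49 (nat_lit 7) (nat_lit 0x400030001c000a0000000000000000000000000000000) (nat_lit 0x0) (nat_lit 0x10003800000000000358003800080000000000000000000000) := T_49 (nat_lit 126) (nat_lit 109) (nat_lit 7) (nat_lit 7) (nat_lit 6) L75361 (by decide +kernel)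
theorem L75363 : W_49 (nat_lit 2) (nat_lit 0x1002d00038001c000a0003800000000000000000000000000) (nat_lit 0x0) (nat_lit 0x60002000000000000000000000000000000000000000000000000) := D_49 (nat_lit 193) (nat_lit 210) (nat_lit 209) (nat_lit 6) (nat_lit 6) (nat_lit 12) (nat_lit 5) (nat_lit 6) (nat_lit 8) (by decide +kernel)
theorem L75364 : W_49 (nat_lit 3) (nat_lit 0x2d00038001c000a0003800000000000000000000000000) (nat_lit 0x0) (nat_lit 0x60003000080000000000000000000000000000000000000000000) := T_49 (nat_lit 192) (nat_lit 175) (nat_lit 5) (nat_lit 6) (nat_lit 7) L75363 (by decide +kernel)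
theorem L75365 : W_49 (nat_lit 4) (nat_lit 0x2c00038001c000a0003800000000000000000000000000) (nat_lit 0x0) (nat_lit 0x60003000180000000000010000000000000000000000000000000) := T_49 (nat_lit 176) (nat_lit 124) (nat_lit 4) (nat_lit 6) (nat_lit 10) L75364 (by decide +kernel)
theorem L75366 : W_49 (nat_lit 5) (nat_lit 0x2c00038001c000a0003000000000000000000000000000) (nat_lit 0x0) (nat_lit 0x60003000180000000000010000800040000000000000000000000) := T_49 (nat_lit 107) (nat_lit 90) (nat_lit 4) (nat_lit 6) (nat_lit 9) L75365 (by decide +kernel)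
theorem L75367 : W_49 (nat_lit 6) (nat_lit 0x2c00038001c000a0001000000000000000000000000000) (nat_lit 0x0) (nat_lit 0x60003000180000000000010002800140000000000000000000000) := T_49 (nat_lit 109) (nat_lit 92) (nat_lit 6) (nat_lit 6) (nat_lit 9) L75366 (by decide +kernel)
theorem L75368 : W_49 (nat_lit 7) (nat_lit 0x2c00038001c000a0000000000000000000000000000000) (nat_lit 0x0) (nat_lit 0x600030001800000000000100038001c0000000000000000000000) := T_49 (nat_lit 108) (nat_lit 91) (nat_lit 7) (nat_lit 6) (nat_lit 5) L75367 (by decide +kernel)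
theorem L75369 : W_49 (nat_lit 8) (nat_lit 0xc00038001c000a0000000000000000000000000000000) (nat_lit 0x0) (nat_lit 0x600030031800000000000100038001c0000000000000000000000) := T_49 (nat_lit 181) (nat_lit 180) (nat_lit 0) (nat_lit 11) (nat_lit 10) L75368 (by decide +kernel)
theorem L75370 : W_49 (nat_lit 9) (nat_lit 0xc00030001c000a0000000000000000000000000000000) (nat_lit 0x0) (nat_lit 0x6000300318000c0000000100038001c0000000000000000000000) := T_49 (nat_lit 159) (nat_lit 158) (nat_lit 3) (nat_lit 5) (nat_lit 9) L75369 (by decide +kernel)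
theorem L75371 : W_49 (nat_lit 10) (nat_lit 0x400030001c000a0000000000000000000000000000000) (nat_lit 0x0) (nat_lit 0x6001300398000c0000000100038001c0000000000000000000000) := T_49 (nat_lit 179) (nat_lit 196) (nat_lit 7) (nat_lit 8) (nat_lit 7) L75370 (by decide +kernel)
theorem L75372 : W_49 (nat_lit 2) (nat_lit 0xc00038001c000f0000000000000000000000000000000) (nat_lit 0x0) (nat_lit 0x2000100000000000000000800000000000000000000000000) := D_49 (nat_lit 176) (nat_lit 193) (nat_lit 107) (nat_lit 6) (nat_lit 6) (nat_lit 11) (nat_lit 4) (nat_lit 6) (nat_lit 10) (by decide +kernel)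
theorem L75373 : W_49 (nat_lit 3) (nat_lit 0xc00038001c000e0000000000000000000000000000000) (nat_lit 0x0) (nat_lit 0x2000100000000000018000800000000000000000000000000) := T_49 (nat_lit 124) (nat_lit 123) (nat_lit 3) (nat_lit 4) (nat_lit 7) L75372 (by decide +kernel)
theorem L75374 : W_49 (nat_lit 4) (nat_lit 0xc00030001c000e0000000000000000000000000000000) (nat_lit 0x0) (nat_lit 0x200010000c000000018000800000000000000000000000000) := T_49 (nat_lit 159) (nat_lit 158) (nat_lit 3) (nat_lit 5) (nat_lit 9) L75373 (by decide +kernel)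
theorem L75375 : W_49 (nat_lit 5) (nat_lit 0x400030001c000e0000000000000000000000000000000) (nat_lit 0x0) (nat_lit 0x1200090000c000000018000800000000000000000000000000) := T_49 (nat_lit 179) (nat_lit 196) (nat_lit 7) (nat_lit 8) (nat_lit 7) L75374 (by decide +kernel)
theorem L75376 : W_49 (nat_lit 6) (nat_lit 0x400030001c000a0000000000000000000000000000000) (nat_lit 0x0) (nat_lit 0x1200090000c000000058002800000000000000000000000000) := T_49 (nat_lit 126) (nat_lit 109) (nat_lit 7) (nat_lit 7) (nat_lit 6) L75375 (by decide +kernel)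
theorem L75377 : W_49 (nat_lit 2) (nat_lit 0x2002d00038001c005a0001800000000000000000000000000) (nat_lit 0x0) (nat_lit 0x20001000080000000000000000000000000000000000000000000) := D_49 (nat_lit 192) (nat_lit 175) (nat_lit 209) (nat_lit 5) (nat_lit 6) (nat_lit 7) (nat_lit 5) (nat_lit 6) (nat_lit 8) (by decide +kernel)
theorem L75378 : W_49 (nat_lit 3) (nat_lit 0x2d00038001c005a0001800000000000000000000000000) (nat_lit 0x0) (nat_lit 0x60003000080000000000000000000000000000000000000000000) := T_49 (nat_lit 193) (nat_lit 210) (nat_lit 6) (nat_lit 6) (nat_lit 12) L75377 (by decide +kernel)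
theorem L75379 : W_49 (nat_lit 4) (nat_lit 0x2d00038001c001a0001800000000000000000000000000) (nat_lit 0x0) (nat_lit 0x60003000080000000000600000000000000000000000000000000) := T_49 (nat_lit 130) (nat_lit 129) (nat_lit 1) (nat_lit 11) (nat_lit 7) L75378 (by decide +kernel)
theorem L75380 : W_49 (nat_lit 5) (nat_lit 0x2c00038001c001a0001800000000000000000000000000) (nat_lit 0x0) (nat_lit 0x60003000180000000000610000000000000000000000000000000) := T_49 (nat_lit 176) (nat_lit 124) (nat_lit 4) (nat_lit 6) (nat_lit 10) L75379 (by decide +kernel)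
theorem L75381 : W_49 (nat_lit 6) (nat_lit 0x2c00038001c000a0001800000000000000000000000000) (nat_lit 0x0) (nat_lit 0x60003000180000000000750000000000000000000000000000000) := T_49 (nat_lit 128) (nat_lit 126) (nat_lit 0) (nat_lit 9) (nat_lit 7) L75380 (by decide +kernel)
theorem L75382 : W_49 (nat_lit 7) (nat_lit 0x2c00038001c000a0001000000000000000000000000000) (nat_lit 0x0) (nat_lit 0x60003000180000000000750000800040000000000000000000000) := T_49 (nat_lit 107) (nat_lit 90) (nat_lit 4) (nat_lit 6) (nat_lit 9) L75381 (by decide +kernel)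
theorem L75383 : W_49 (nat_lit 8) (nat_lit 0x2c00038001c000a0000000000000000000000000000000) (nat_lit 0x0) (nat_lit 0x600030001800000000007500018000c0000000000000000000000) := T_49 (nat_lit 108) (nat_lit 91) (nat_lit 7) (nat_lit 6) (nat_lit 5) L75382 (by decide +kernel)
theorem L75384 : W_49 (nat_lit 9) (nat_lit 0xc00038001c000a0000000000000000000000000000000) (nat_lit 0x0) (nat_lit 0x600030031800000000007500018000c0000000000000000000000) := T_49 (nat_lit 181) (nat_lit 180) (nat_lit 0) (nat_lit 11) (nat_lit 10) L75383 (by decide +kernel)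
theorem L75385 : W_49 (nat_lit 10) (nat_lit 0xc00030001c000a0000000000000000000000000000000) (nat_lit 0x0) (nat_lit 0x6000300318000c0000007500018000c0000000000000000000000) := T_49 (nat_lit 159) (nat_lit 158) (nat_lit 3) (nat_lit 5) (nat_lit 9) L75384 (by decide +kernel)
theorem L75386 : W_49 (nat_lit 11) (nat_lit 0x400030001c000a0000000000000000000000000000000) (nat_lit 0x0) (nat_lit 0x6001300398000c0000007500018000c0000000000000000000000) := T_49 (nat_lit 179) (nat_lit 196) (nat_lit 7) (nat_lit 8) (nat_lit 7) L75385 (by decide +kernel)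
theorem L75387 : W_49 (nat_lit 2) (nat_lit 0x400030001c000e0001000000000000000000000000000) (nat_lit 0x0) (nat_lit 0x300000800000000000000000000000000) := D_49 (nat_lit 128) (nat_lit 129) (nat_lit 107) (nat_lit 1) (nat_lit 10) (nat_lit 7) (nat_lit 0) (nat_lit 9) (nat_lit 7) (by decide +kernel)
theorem L75388 : W_49 (nat_lit 3) (nat_lit 0x400030001c000a0001000000000000000000000000000) (nat_lit 0x0) (nat_lit 0x340002800000000000000000000000000) := T_49 (nat_lit 126) (nat_lit 109) (nat_lit 7) (nat_lit 7) (nat_lit 6) L75387 (by decide +kernel)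
theorem L75389 : W_49 (nat_lit 4) (nat_lit 0x400030001c000a0000000000000000000000000000000) (nat_lit 0x0) (nat_lit 0x340003800080000000000000000000000) := T_49 (nat_lit 108) (nat_lit 91) (nat_lit 7) (nat_lit 6) (nat_lit 5) L75388 (by decide +kernel)
theorem L75390 : W_49 (nat_lit 2) (nat_lit 0xc00030001c000a0003000000000000000000000000000) (nat_lit 0x0) (nat_lit 0xc000000000000000100000000000000000000000) := D_49 (nat_lit 159) (nat_lit 158) (nat_lit 92) (nat_lit 3) (nat_lit 5) (nat_lit 9) (nat_lit 6) (nat_lit 6) (nat_lit 9) (by decide +kernel)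
theorem L75391 : W_49 (nat_lit 3) (nat_lit 0x400030001c000a0003000000000000000000000000000) (nat_lit 0x0) (nat_lit 0x1000080000c000000000000000100000000000000000000000) := T_49 (nat_lit 179) (nat_lit 196) (nat_lit 7) (nat_lit 8) (nat_lit 7) L75390 (by decide +kernel)
theorem L75392 : W_49 (nat_lit 4) (nat_lit 0x400030001c000a0002000000000000000000000000000) (nat_lit 0x0) (nat_lit 0x1000080000c000000000001000180000000000000000000000) := T_49 (nat_lit 108) (nat_lit 91) (nat_lit 7) (nat_lit 6) (nat_lit 5) L75391 (by decide +kernel)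
theorem L75393 : W_49 (nat_lit 5) (nat_lit 0x400030001c000a0000000000000000000000000000000) (nat_lit 0x0) (nat_lit 0x1000080000c000000040003000180000000000000000000000) := T_49 (nat_lit 109) (nat_lit 126) (nat_lit 7) (nat_lit 7) (nat_lit 6) L75392 (by decide +kernel)
theorem L75394 : W_49 (nat_lit 12) (nat_lit 0x400030001c00080000000000000000000000000000000) (nat_lit 0x0) (nat_lit 0x6001300398000c0000007780038001c0000000000000000000000) := Q_49 (nat_lit 125) (C_49 L75356 (C_49 L75362 (C_49 L75371 (C_49 L75376 (C_49 L75386 (C_49 L75389 (C_49 L75393 N_49))))))) (by decide +kernel)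
theorem L75395 : W_49 (nat_lit 2) (nat_lit 0x4800bc001c000a0000000000000000000000000000000) (nat_lit 0x0) (nat_lit 0x20001000100000000000000000000000000000000000000000000) := D_49 (nat_lit 192) (nat_lit 209) (nat_lit 176) (nat_lit 6) (nat_lit 5) (nat_lit 12) (nat_lit 5) (nat_lit 6) (nat_lit 7) (by decide +kernel)
theorem L75396 : W_49 (nat_lit 3) (nat_lit 0x4800bc001c00080000000000000000000000000000000) (nat_lit 0x0) (nat_lit 0x20001000100000000000020001000000000000000000000000000) := T_49 (nat_lit 125) (nat_lit 108) (nat_lit 5) (nat_lit 6) (nat_lit 6) L75395 (by decide +kernel)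
theorem L75397 : W_49 (nat_lit 4) (nat_lit 0x4000bc001c00080000000000000000000000000000000) (nat_lit 0x0) (nat_lit 0x200010001c0000000000020001000000000000000000000000000) := T_49 (nat_lit 175) (nat_lit 174) (nat_lit 1) (nat_lit 8) (nat_lit 9) L75396 (by decide +kernel)
theorem L75398 : W_49 (nat_lit 5) (nat_lit 0x4000b8001c00080000000000000000000000000000000) (nat_lit 0x0) (nat_lit 0x200010001c0006000000020001000000000000000000000000000) := T_49 (nat_lit 158) (nat_lit 157) (nat_lit 2) (nat_lit 4) (nat_lit 9) L75397 (by decide +kernel)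
theorem L75399 : W_49 (nat_lit 6) (nat_lit 0x400038001c00080000000000000000000000000000000) (nat_lit 0x0) (nat_lit 0x200010001c00c6000000020001000000000000000000000000000) := T_49 (nat_lit 163) (nat_lit 162) (nat_lit 0) (nat_lit 10) (nat_lit 9) L75398 (by decide +kernel)
theorem L75400 : W_49 (nat_lit 2) (nat_lit 0x400020001c001e8001000000000000000000000000000) (nat_lit 0x0) (nat_lit 0x10000000000000000080004000000000000000000) := D_49 (nat_lit 91) (nat_lit 74) (nat_lit 160) (nat_lit 7) (nat_lit 6) (nat_lit 4) (nat_lit 7) (nat_lit 6) (nat_lit 5) (by decide +kernel)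
theorem L75401 : W_49 (nat_lit 3) (nat_lit 0x400020001c001e8000000000000000000000000000000) (nat_lit 0x0) (nat_lit 0x10000000000001800080004000000000000000000) := T_49 (nat_lit 108) (nat_lit 107) (nat_lit 0) (nat_lit 9) (nat_lit 7) L75400 (by decide +kernel)
theorem L75402 : W_49 (nat_lit 4) (nat_lit 0x400020001c000e8000000000000000000000000000000) (nat_lit 0x0) (nat_lit 0x10000000300001800080004000000000000000000) := T_49 (nat_lit 128) (nat_lit 129) (nat_lit 1) (nat_lit 10) (nat_lit 7) L75401 (by decide +kernel)
theorem L75403 : W_49 (nat_lit 5) (nat_lit 0x400020001c000e0000000000000000000000000000000) (nat_lit 0x0) (nat_lit 0x10000000318001800080004000000000000000000) := T_49 (nat_lit 123) (nat_lit 124) (nat_lit 3) (nat_lit 4) (nat_lit 7) L75402 (by decide +kernel)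
theorem L75404 : W_49 (nat_lit 2) (nat_lit 0x400060001c000c0000000000000000000000000000000) (nat_lit 0x0) (nat_lit 0x190000000000000000000000000000000000000000) := D_49 (nat_lit 163) (nat_lit 160) (nat_lit 164) (nat_lit 0) (nat_lit 10) (nat_lit 9) (nat_lit 0) (nat_lit 11) (nat_lit 9) (by decide +kernel)
theorem L75405 : W_49 (nat_lit 2) (nat_lit 0x400028001c002f0000800000000000000000000000000) (nat_lit 0x0) (nat_lit 0x1000040002000000000000000000) := D_49 (nat_lit 90) (nat_lit 73) (nat_lit 108) (nat_lit 7) (nat_lit 5) (nat_lit 4) (nat_lit 4) (nat_lit 6) (nat_lit 9) (by decide +kernel)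
theorem L75406 : W_49 (nat_lit 3) (nat_lit 0x400020001c002f0000800000000000000000000000000) (nat_lit 0x0) (nat_lit 0x100008000000000001000040002000000000000000000) := T_49 (nat_lit 159) (nat_lit 176) (nat_lit 4) (nat_lit 6) (nat_lit 10) L75405 (by decide +kernel)
theorem L75407 : W_49 (nat_lit 4) (nat_lit 0x400020001c002f0000000000000000000000000000000) (nat_lit 0x0) (nat_lit 0x100008000000000001c00040002000000000000000000) := T_49 (nat_lit 107) (nat_lit 106) (nat_lit 0) (nat_lit 8) (nat_lit 7) L75406 (by decide +kernel)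
theorem L75408 : W_49 (nat_lit 2) (nat_lit 0x400030001c00080000000000000000000000000000000) (nat_lit 0x0) (nat_lit 0x300100000000000000000000000000000000) := D_49 (nat_lit 141) (nat_lit 140) (nat_lit 128) (nat_lit 3) (nat_lit 4) (nat_lit 8) (nat_lit 2) (nat_lit 5) (nat_lit 8) (by decide +kernel)
theorem L75409 : W_49 (nat_lit 2) (nat_lit 0xc00030001e000c0000000000000000000000000000000) (nat_lit 0x0) (nat_lit 0xe000000000000000000000000000000000000000) := D_49 (nat_lit 158) (nat_lit 159) (nat_lit 157) (nat_lit 3) (nat_lit 5) (nat_lit 9) (nat_lit 1) (nat_lit 8) (nat_lit 8) (by decide +kernel)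
theorem L75410 : W_49 (nat_lit 3) (nat_lit 0x400030001e000c0000000000000000000000000000000) (nat_lit 0x0) (nat_lit 0x1000080000e000000000000000000000000000000000000000) := T_49 (nat_lit 179) (nat_lit 196) (nat_lit 7) (nat_lit 8) (nat_lit 7) L75409 (by decide +kernel)
theorem L75411 : W_49 (nat_lit 4) (nat_lit 0x400030001c000c0000000000000000000000000000000) (nat_lit 0x0) (nat_lit 0x1000080000e000300000000000000000000000000000000000) := T_49 (nat_lit 141) (nat_lit 140) (nat_lit 3) (nat_lit 4) (nat_lit 8) L75410 (by decide +kernel)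
theorem L75412 : W_49 (nat_lit 5) (nat_lit 0x400030001c00080000000000000000000000000000000) (nat_lit 0x0) (nat_lit 0x1000080000e000300040002000000000000000000000000000) := T_49 (nat_lit 126) (nat_lit 109) (nat_lit 7) (nat_lit 7) (nat_lit 6) L75411 (by decide +kernel)
theorem L75413 : W_49 (nat_lit 13) (nat_lit 0x400030001800080000000000000000000000000000000) (nat_lit 0x0) (nat_lit 0x6001300398000e0007007780038001c0000000000000000000000) := Q_49 (nat_lit 142) (C_49 L75408 (C_49 L75412 (C_49 L75394 N_49))) (by decide +kernel)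
theorem L75417 : W_49 (nat_lit 2) (nat_lit 0x400030001c00080000000000000000000000000000000) (nat_lit 0x0) (nat_lit 0x40000300000000000000000000000000000000000) := D_49 (nat_lit 141) (nat_lit 162) (nat_lit 140) (nat_lit 3) (nat_lit 5) (nat_lit 8) (nat_lit 3) (nat_lit 4) (nat_lit 8) (by decide +kernel)
theorem L75418 : W_49 (nat_lit 2) (nat_lit 0x2c000a00058003c0010000000000000000000000000000) (nat_lit 0x0) (nat_lit 0x40001000010000000000000000000000000000000000000000) := D_49 (nat_lit 180) (nat_lit 160) (nat_lit 198) (nat_lit 0) (nat_lit 11) (nat_lit 10) (nat_lit 7) (nat_lit 10) (nat_lit 7) (by decide +kernel)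
theorem L75419 : W_49 (nat_lit 3) (nat_lit 0xc000a00058003c0010000000000000000000000000000) (nat_lit 0x0) (nat_lit 0x40003000110000000000000000000000000000000000000000) := T_49 (nat_lit 181) (nat_lit 164) (nat_lit 7) (nat_lit 10) (nat_lit 6) L75418 (by decide +kernel)
theorem L75420 : W_49 (nat_lit 2) (nat_lit 0x400020001c000c0000000000000000000000000000000) (nat_lit 0x0) (nat_lit 0x40000300000000000000000000000000000000000) := D_49 (nat_lit 141) (nat_lit 162) (nat_lit 140) (nat_lit 3) (nat_lit 5) (nat_lit 8) (nat_lit 2) (nat_lit 4) (nat_lit 8) (by decide +kernel)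
theorem L75421 : W_49 (nat_lit 4) (nat_lit 0xc000200058003c0010000000000000000000000000000) (nat_lit 0x0) (nat_lit 0x400030001d0000000000000000000000000000000000000000) := T_49 (nat_lit 163) (nat_lit 162) (nat_lit 5) (nat_lit 10) (nat_lit 6) L75419 (by decide +kernel)
theorem L75422 : W_49 (nat_lit 5) (nat_lit 0xc000200018003c0010000000000000000000000000000) (nat_lit 0x0) (nat_lit 0x400030001d000c000000000000000000000000000000000000) := T_49 (nat_lit 146) (nat_lit 147) (nat_lit 3) (nat_lit 7) (nat_lit 7) L75421 (by decide +kernel)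
theorem L75423 : W_49 (nat_lit 6) (nat_lit 0xc000200018003c0000000000000000000000000000000) (nat_lit 0x0) (nat_lit 0x400030001d000c000000030000000000000000000000000000) := T_49 (nat_lit 112) (nat_lit 113) (nat_lit 2) (nat_lit 7) (nat_lit 7) L75422 (by decide +kernel)
theorem L75424 : W_49 (nat_lit 7) (nat_lit 0xc000200018001c0000000000000000000000000000000) (nat_lit 0x0) (nat_lit 0x400030001d000c000600030000000000000000000000000000) := T_49 (nat_lit 129) (nat_lit 130) (nat_lit 1) (nat_lit 11) (nat_lit 7) L75423 (by decide +kernel)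
theorem L75425 : W_49 (nat_lit 8) (nat_lit 0x4000200018001c0000000000000000000000000000000) (nat_lit 0x0) (nat_lit 0x500038001d000c000600030000000000000000000000000000) := T_49 (nat_lit 179) (nat_lit 196) (nat_lit 7) (nat_lit 8) (nat_lit 7) L75424 (by decide +kernel)
theorem L75426 : W_49 (nat_lit 2) (nat_lit 0x4000200018001c0000000000000000000000000000000) (nat_lit 0x0) (nat_lit 0x400600000000000000000000000000000000) := D_49 (nat_lit 129) (nat_lit 130) (nat_lit 142) (nat_lit 1) (nat_lit 11) (nat_lit 7) (nat_lit 1) (nat_lit 10) (nat_lit 7) (by decide +kernel)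
theorem L75427 : W_49 (nat_lit 2) (nat_lit 0x400020001a001e0000000000000000000000000000000) (nat_lit 0x0) (nat_lit 0x100018000000000000000000000000000000) := D_49 (nat_lit 124) (nat_lit 123) (nat_lit 140) (nat_lit 3) (nat_lit 4) (nat_lit 7) (nat_lit 1) (nat_lit 8) (nat_lit 7) (by decide +kernel)
theorem L75428 : W_49 (nat_lit 3) (nat_lit 0x4000200018001e0000000000000000000000000000000) (nat_lit 0x0) (nat_lit 0x700018000000000000000000000000000000) := T_49 (nat_lit 141) (nat_lit 142) (nat_lit 2) (nat_lit 5) (nat_lit 8) L75427 (by decide +kernel)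
theorem L75429 : W_49 (nat_lit 2) (nat_lit 0x4000200018001f0000000000000000000000000000000) (nat_lit 0x0) (nat_lit 0x1c00000000000000000000000000) := D_49 (nat_lit 107) (nat_lit 108) (nat_lit 106) (nat_lit 0) (nat_lit 9) (nat_lit 7) (nat_lit 0) (nat_lit 8) (nat_lit 7) (by decide +kernel)
theorem L75430 : W_49 (nat_lit 3) (nat_lit 0x4000200018001e0000000000000000000000000000000) (nat_lit 0x0) (nat_lit 0x18001c00000000000000000000000000) := T_49 (nat_lit 124) (nat_lit 123) (nat_lit 3) (nat_lit 4) (nat_lit 7) L75429 (by decide +kernel)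
theorem L75431 : W_49 (nat_lit 2) (nat_lit 0x400020001c001e0001000000000000000000000000000) (nat_lit 0x0) (nat_lit 0x10000000000000000080004000000000000000000) := D_49 (nat_lit 91) (nat_lit 74) (nat_lit 160) (nat_lit 7) (nat_lit 6) (nat_lit 4) (nat_lit 7) (nat_lit 6) (nat_lit 5) (by decide +kernel)
theorem L75432 : W_49 (nat_lit 3) (nat_lit 0x4000200018001e0001000000000000000000000000000) (nat_lit 0x0) (nat_lit 0x10000600000000000080004000000000000000000) := T_49 (nat_lit 142) (nat_lit 141) (nat_lit 2) (nat_lit 5) (nat_lit 8) L75431 (by decide +kernel)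
theorem L75433 : W_49 (nat_lit 4) (nat_lit 0x4000200018001e0000000000000000000000000000000) (nat_lit 0x0) (nat_lit 0x10000600000001800080004000000000000000000) := T_49 (nat_lit 108) (nat_lit 107) (nat_lit 0) (nat_lit 9) (nat_lit 7) L75432 (by decide +kernel)
theorem L75434 : W_49 (nat_lit 5) (nat_lit 0x4000200018001c0000000000000000000000000000000) (nat_lit 0x0) (nat_lit 0x10000700038001c00080004000000000000000000) := Q_49 (nat_lit 125) (C_49 L75428 (C_49 L75430 (C_49 L75433 N_49))) (by decide +kernel)
theorem L75435 : W_49 (nat_lit 9) (nat_lit 0x4000200018000c0000000000000000000000000000000) (nat_lit 0x0) (nat_lit 0x500038001d000c700738031c00080004000000000000000000) := Q_49 (nat_lit 128) (C_49 L75425 (C_49 L75426 (C_49 L75434 N_49))) (by decide +kernel)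
theorem L75436 : W_49 (nat_lit 10) (nat_lit 0x400020001800080000000000000000000000000000000) (nat_lit 0x0) (nat_lit 0x500038001d000c700778033c00080004000000000000000000) := T_49 (nat_lit 126) (nat_lit 109) (nat_lit 4) (nat_lit 8) (nat_lit 10) L75435 (by decide +kernel)
theorem L75437 : W_49 (nat_lit 5) (nat_lit 0x400020001c000f0000000000000000000000000000000) (nat_lit 0x0) (nat_lit 0x100008000000300001c00040002000000000000000000) := T_49 (nat_lit 129) (nat_lit 128) (nat_lit 1) (nat_lit 10) (nat_lit 7) L75407 (by decide +kernel)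
theorem L75438 : W_49 (nat_lit 6) (nat_lit 0x400020001c000e0000000000000000000000000000000) (nat_lit 0x0) (nat_lit 0x100008000000318001c00040002000000000000000000) := T_49 (nat_lit 124) (nat_lit 123) (nat_lit 3) (nat_lit 4) (nat_lit 7) L75437 (by decide +kernel)
theorem L75439 : W_49 (nat_lit 2) (nat_lit 0xf00020001c00080000000000000000000000000000000) (nat_lit 0x0) (nat_lit 0x800c0000000000000000000000000000000000000000) := D_49 (nat_lit 162) (nat_lit 163) (nat_lit 175) (nat_lit 2) (nat_lit 6) (nat_lit 10) (nat_lit 2) (nat_lit 5) (nat_lit 10) (by decide +kernel)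
theorem L75440 : W_49 (nat_lit 2) (nat_lit 0x2800780022001c002c0000000000000000000000000000000) (nat_lit 0x0) (nat_lit 0x400040001000000000000000000000000000000000000000) := D_49 (nat_lit 174) (nat_lit 190) (nat_lit 156) (nat_lit 1) (nat_lit 7) (nat_lit 10) (nat_lit 0) (nat_lit 7) (nat_lit 10) (by decide +kernel)
theorem L75441 : W_49 (nat_lit 3) (nat_lit 0x2800780020001c002c0000000000000000000000000000000) (nat_lit 0x0) (nat_lit 0x400040007000000000000000000000000000000000000000) := T_49 (nat_lit 157) (nat_lit 158) (nat_lit 0) (nat_lit 8) (nat_lit 10) L75440 (by decide +kernel)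
theorem L75442 : W_49 (nat_lit 4) (nat_lit 0x2000780020001c002c0000000000000000000000000000000) (nat_lit 0x0) (nat_lit 0x1c00040007000000000000000000000000000000000000000) := T_49 (nat_lit 191) (nat_lit 192) (nat_lit 1) (nat_lit 8) (nat_lit 10) L75441 (by decide +kernel)
theorem L75443 : W_49 (nat_lit 5) (nat_lit 0x2000700020001c002c0000000000000000000000000000000) (nat_lit 0x0) (nat_lit 0x1c000c0047000000000000000000000000000000000000000) := T_49 (nat_lit 175) (nat_lit 162) (nat_lit 2) (nat_lit 5) (nat_lit 10) L75442 (by decide +kernel)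
theorem L75444 : W_49 (nat_lit 6) (nat_lit 0x700020001c002c0000000000000000000000000000000) (nat_lit 0x0) (nat_lit 0x3c000c004f000000000000000000000000000000000000000) := T_49 (nat_lit 193) (nat_lit 159) (nat_lit 6) (nat_lit 6) (nat_lit 11) L75443 (by decide +kernel)
theorem L75445 : W_49 (nat_lit 7) (nat_lit 0x700020001c000c0000000000000000000000000000000) (nat_lit 0x0) (nat_lit 0x3c000c004f000000300000000000000000000000000000000) := T_49 (nat_lit 129) (nat_lit 128) (nat_lit 1) (nat_lit 10) (nat_lit 7) L75444 (by decide +kernel)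
theorem L75446 : W_49 (nat_lit 8) (nat_lit 0x700020001c00080000000000000000000000000000000) (nat_lit 0x0) (nat_lit 0x3c000c004f000000340002000000000000000000000000000) := T_49 (nat_lit 126) (nat_lit 109) (nat_lit 4) (nat_lit 8) (nat_lit 10) L75445 (by decide +kernel)
theorem L75447 : W_49 (nat_lit 2) (nat_lit 0x1000780020001c00080000000000000000000000000000000) (nat_lit 0x0) (nat_lit 0x12000800000000000000000000000000000000000000000000) := D_49 (nat_lit 179) (nat_lit 196) (nat_lit 193) (nat_lit 7) (nat_lit 8) (nat_lit 7) (nat_lit 1) (nat_lit 9) (nat_lit 10) (by decide +kernel)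
theorem L75448 : W_49 (nat_lit 3) (nat_lit 0x780020001c00080000000000000000000000000000000) (nat_lit 0x0) (nat_lit 0x13800800000000000000000000000000000000000000000000) := T_49 (nat_lit 192) (nat_lit 191) (nat_lit 1) (nat_lit 8) (nat_lit 10) L75447 (by decide +kernel)
theorem L75449 : W_49 (nat_lit 4) (nat_lit 0x700020001c00080000000000000000000000000000000) (nat_lit 0x0) (nat_lit 0x13800880040000000000000000000000000000000000000000) := T_49 (nat_lit 175) (nat_lit 162) (nat_lit 2) (nat_lit 5) (nat_lit 10) L75448 (by decide +kernel)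
theorem L75450 : W_49 (nat_lit 2) (nat_lit 0x2000f00020001c00080000000000000000000000000000000) (nat_lit 0x0) (nat_lit 0xc000000040000000000000000000000000000000) := D_49 (nat_lit 159) (nat_lit 158) (nat_lit 126) (nat_lit 0) (nat_lit 9) (nat_lit 10) (nat_lit 6) (nat_lit 6) (nat_lit 11) (by decide +kernel)
theorem L75451 : W_49 (nat_lit 3) (nat_lit 0xf00020001c00080000000000000000000000000000000) (nat_lit 0x0) (nat_lit 0x300000000c000000040000000000000000000000000000000) := T_49 (nat_lit 193) (nat_lit 192) (nat_lit 1) (nat_lit 9) (nat_lit 10) L75450 (by decide +kernel)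
theorem L75452 : W_49 (nat_lit 4) (nat_lit 0x700020001c00080000000000000000000000000000000) (nat_lit 0x0) (nat_lit 0x1300080000c000000040000000000000000000000000000000) := T_49 (nat_lit 179) (nat_lit 196) (nat_lit 7) (nat_lit 8) (nat_lit 7) L75451 (by decide +kernel)
theorem L75453 : W_49 (nat_lit 2) (nat_lit 0x1000780024001c002c0000000000000000000000000000000) (nat_lit 0x0) (nat_lit 0x800008000000020000000000000000000000000000000) := D_49 (nat_lit 159) (nat_lit 125) (nat_lit 179) (nat_lit 5) (nat_lit 6) (nat_lit 7) (nat_lit 0) (nat_lit 9) (nat_lit 10) (by decide +kernel)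
theorem L75454 : W_49 (nat_lit 3) (nat_lit 0x1000780020001c002c0000000000000000000000000000000) (nat_lit 0x0) (nat_lit 0x80000e000000020000000000000000000000000000000) := T_49 (nat_lit 158) (nat_lit 157) (nat_lit 0) (nat_lit 8) (nat_lit 10) L75453 (by decide +kernel)
theorem L75455 : W_49 (nat_lit 4) (nat_lit 0x780020001c002c0000000000000000000000000000000) (nat_lit 0x0) (nat_lit 0x180080000e000000020000000000000000000000000000000) := T_49 (nat_lit 192) (nat_lit 191) (nat_lit 1) (nat_lit 8) (nat_lit 10) L75454 (by decide +kernel)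
theorem L75456 : W_49 (nat_lit 5) (nat_lit 0x700020001c002c0000000000000000000000000000000) (nat_lit 0x0) (nat_lit 0x180088004e000000020000000000000000000000000000000) := T_49 (nat_lit 175) (nat_lit 162) (nat_lit 2) (nat_lit 5) (nat_lit 10) L75455 (by decide +kernel)
theorem L75457 : W_49 (nat_lit 6) (nat_lit 0x700020001c000c0000000000000000000000000000000) (nat_lit 0x0) (nat_lit 0x180088004e000000320000000000000000000000000000000) := T_49 (nat_lit 129) (nat_lit 128) (nat_lit 1) (nat_lit 10) (nat_lit 7) L75456 (by decide +kernel)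
theorem L75458 : W_49 (nat_lit 7) (nat_lit 0x700020001c00080000000000000000000000000000000) (nat_lit 0x0) (nat_lit 0x180088004e000000360002000000000000000000000000000) := T_49 (nat_lit 126) (nat_lit 109) (nat_lit 4) (nat_lit 8) (nat_lit 10) L75457 (by decide +kernel)
theorem L75459 : W_49 (nat_lit 3) (nat_lit 0x700020001c00080000000000000000000000000000000) (nat_lit 0x0) (nat_lit 0x100008800c0000000000000000000000000000000000000000) := T_49 (nat_lit 179) (nat_lit 196) (nat_lit 7) (nat_lit 8) (nat_lit 7) L75439 (by decide +kernel)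
theorem L75460 : W_49 (nat_lit 9) (nat_lit 0x600020001c00080000000000000000000000000000000) (nat_lit 0x0) (nat_lit 0x13c009c00cf000000360002000000000000000000000000000) := Q_49 (nat_lit 176) (C_49 L75446 (C_49 L75449 (C_49 L75452 (C_49 L75458 (C_49 L75459 N_49))))) (by decide +kernel)
theorem L75461 : W_49 (nat_lit 10) (nat_lit 0x400020001c00080000000000000000000000000000000) (nat_lit 0x0) (nat_lit 0x17c00bc00cf000000360002000000000000000000000000000) := T_49 (nat_lit 177) (nat_lit 194) (nat_lit 5) (nat_lit 8) (nat_lit 7) L75460 (by decide +kernel)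
theorem L75462 : W_49 (nat_lit 3) (nat_lit 0x400020001c00080000000000000000000000000000000) (nat_lit 0x0) (nat_lit 0x40000300040002000000000000000000000000000) := T_49 (nat_lit 126) (nat_lit 109) (nat_lit 4) (nat_lit 8) (nat_lit 10) L75420 (by decide +kernel)
theorem L75463 : W_49 (nat_lit 2) (nat_lit 0x400020001c00080000000000000000000000000000000) (nat_lit 0x0) (nat_lit 0x40000200100000000000000000000000000000000) := D_49 (nat_lit 141) (nat_lit 128) (nat_lit 162) (nat_lit 2) (nat_lit 5) (nat_lit 8) (nat_lit 3) (nat_lit 5) (nat_lit 8) (by decide +kernel)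
theorem L75464 : W_49 (nat_lit 2) (nat_lit 0x400020001e00080000000000000000000000000000000) (nat_lit 0x0) (nat_lit 0x100040002000000000000000000000000000) := D_49 (nat_lit 126) (nat_lit 140) (nat_lit 109) (nat_lit 2) (nat_lit 4) (nat_lit 8) (nat_lit 4) (nat_lit 8) (nat_lit 10) (by decide +kernel)
theorem L75465 : W_49 (nat_lit 3) (nat_lit 0x400020001c00080000000000000000000000000000000) (nat_lit 0x0) (nat_lit 0x300140002000000000000000000000000000) := T_49 (nat_lit 141) (nat_lit 128) (nat_lit 2) (nat_lit 5) (nat_lit 8) L75464 (by decide +kernel)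
theorem L75466 : W_49 (nat_lit 11) (nat_lit 0x400020001800080000000000000000000000000000000) (nat_lit 0x0) (nat_lit 0x17c00bc00cf000700360002000000000000000000000000000) := Q_49 (nat_lit 142) (C_49 L75461 (C_49 L75462 (C_49 L75463 (C_49 L75465 N_49)))) (by decide +kernel)
theorem L75467 : W_49 (nat_lit 6) (nat_lit 0x2c000340018000c0000000000000000000000000000000) (nat_lit 0x0) (nat_lit 0x60003c0002000000038001000000000000000000000000000) := T_49 (nat_lit 177) (nat_lit 194) (nat_lit 6) (nat_lit 7) (nat_lit 11) L461 (by decide +kernel)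
theorem L75468 : W_49 (nat_lit 7) (nat_lit 0x2c00034001800080000000000000000000000000000000) (nat_lit 0x0) (nat_lit 0x60003c0002000000078003000000000000000000000000000) := T_49 (nat_lit 126) (nat_lit 109) (nat_lit 7) (nat_lit 7) (nat_lit 6) L75467 (by decide +kernel)
theorem L75469 : W_49 (nat_lit 8) (nat_lit 0xc00034001800080000000000000000000000000000000) (nat_lit 0x0) (nat_lit 0x60033c0002000000078003000000000000000000000000000) := T_49 (nat_lit 181) (nat_lit 180) (nat_lit 0) (nat_lit 11) (nat_lit 10) L75468 (by decide +kernel)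
theorem L75470 : W_49 (nat_lit 9) (nat_lit 0xc00030001800080000000000000000000000000000000) (nat_lit 0x0) (nat_lit 0x60033c000e000000078003000000000000000000000000000) := T_49 (nat_lit 158) (nat_lit 159) (nat_lit 3) (nat_lit 5) (nat_lit 9) L75469 (by decide +kernel)
theorem L75471 : W_49 (nat_lit 10) (nat_lit 0x400030001800080000000000000000000000000000000) (nat_lit 0x0) (nat_lit 0x16003bc000e000000078003000000000000000000000000000) := T_49 (nat_lit 179) (nat_lit 196) (nat_lit 7) (nat_lit 8) (nat_lit 7) L75470 (by decide +kernel)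
theorem L75474 : W_49 (nat_lit 11) (nat_lit 0x400020001800080000000000000000000000000000000) (nat_lit 0x0) (nat_lit 0x16003bc005e000000078003000000000000000000000000000) := Q_49 (nat_lit 160) (C_49 L75416 (C_49 L75471 (C_49 L75473 N_49))) (by decide +kernel)
theorem L75475 : W_49 (nat_lit 2) (nat_lit 0xe00030001800080000000000000000000000000000000) (nat_lit 0x0) (nat_lit 0x100000c000000000000000000000000000000000000000) := D_49 (nat_lit 159) (nat_lit 158) (nat_lit 180) (nat_lit 3) (nat_lit 5) (nat_lit 9) (nat_lit 0) (nat_lit 10) (nat_lit 10) (by decide +kernel)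
theorem L75476 : W_49 (nat_lit 3) (nat_lit 0x600030001800080000000000000000000000000000000) (nat_lit 0x0) (nat_lit 0x1000180000c000000000000000000000000000000000000000) := T_49 (nat_lit 179) (nat_lit 196) (nat_lit 7) (nat_lit 8) (nat_lit 7) L75475 (by decide +kernel)
theorem L75477 : W_49 (nat_lit 4) (nat_lit 0x400030001800080000000000000000000000000000000) (nat_lit 0x0) (nat_lit 0x14001a0000c000000000000000000000000000000000000000) := T_49 (nat_lit 177) (nat_lit 194) (nat_lit 6) (nat_lit 7) (nat_lit 11) L75476 (by decide +kernel)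
theorem L75478 : W_49 (nat_lit 2) (nat_lit 0x10007800340018000e8000000000000000000000000000000) (nat_lit 0x0) (nat_lit 0x8000600000000000000000000000000000000000) := D_49 (nat_lit 142) (nat_lit 159) (nat_lit 141) (nat_lit 5) (nat_lit 6) (nat_lit 7) (nat_lit 6) (nat_lit 5) (nat_lit 11) (by decide +kernel)
theorem L75479 : W_49 (nat_lit 3) (nat_lit 0x10007800300018000e8000000000000000000000000000000) (nat_lit 0x0) (nat_lit 0xe000600000000000000000000000000000000000) := T_49 (nat_lit 158) (nat_lit 157) (nat_lit 0) (nat_lit 8) (nat_lit 10) L75478 (by decide +kernel)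
theorem L75480 : W_49 (nat_lit 4) (nat_lit 0x7800300018000e8000000000000000000000000000000) (nat_lit 0x0) (nat_lit 0x180000000e000600000000000000000000000000000000000) := T_49 (nat_lit 192) (nat_lit 191) (nat_lit 1) (nat_lit 8) (nat_lit 10) L75479 (by decide +kernel)
theorem L75481 : W_49 (nat_lit 5) (nat_lit 0x7000300018000e8000000000000000000000000000000) (nat_lit 0x0) (nat_lit 0x18000c000e000600000000000000000000000000000000000) := T_49 (nat_lit 175) (nat_lit 174) (nat_lit 2) (nat_lit 4) (nat_lit 10) L75480 (by decide +kernel)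
theorem L75482 : W_49 (nat_lit 6) (nat_lit 0x6000300018000e8000000000000000000000000000000) (nat_lit 0x0) (nat_lit 0x38001c000e000600000000000000000000000000000000000) := T_49 (nat_lit 176) (nat_lit 193) (nat_lit 5) (nat_lit 7) (nat_lit 7) L75481 (by decide +kernel)
theorem L75483 : W_49 (nat_lit 7) (nat_lit 0x6000300018000e0000000000000000000000000000000) (nat_lit 0x0) (nat_lit 0x38001c000e000600018000000000000000000000000000000) := T_49 (nat_lit 123) (nat_lit 124) (nat_lit 3) (nat_lit 4) (nat_lit 7) L75482 (by decide +kernel)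
theorem L75484 : W_49 (nat_lit 8) (nat_lit 0x6000300018000c0000000000000000000000000000000) (nat_lit 0x0) (nat_lit 0x38001c000e000600038001000000000000000000000000000) := T_49 (nat_lit 125) (nat_lit 108) (nat_lit 4) (nat_lit 7) (nat_lit 10) L75483 (by decide +kernel)
theorem L75485 : W_49 (nat_lit 9) (nat_lit 0x600030001800080000000000000000000000000000000) (nat_lit 0x0) (nat_lit 0x38001c000e000600078003000000000000000000000000000) := T_49 (nat_lit 126) (nat_lit 109) (nat_lit 7) (nat_lit 7) (nat_lit 6) L75484 (by decide +kernel)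
theorem L75486 : W_49 (nat_lit 10) (nat_lit 0x400030001800080000000000000000000000000000000) (nat_lit 0x0) (nat_lit 0x78003c000e000600078003000000000000000000000000000) := T_49 (nat_lit 177) (nat_lit 194) (nat_lit 6) (nat_lit 7) (nat_lit 11) L75485 (by decide +kernel)
theorem L75487 : W_49 (nat_lit 2) (nat_lit 0x1002f800340018000e8000000000000000000000000000000) (nat_lit 0x0) (nat_lit 0x700000000000000000000000000000000000) := D_49 (nat_lit 141) (nat_lit 140) (nat_lit 142) (nat_lit 4) (nat_lit 5) (nat_lit 11) (nat_lit 6) (nat_lit 5) (nat_lit 11) (by decide +kernel)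
theorem L75488 : W_49 (nat_lit 3) (nat_lit 0x1002f800300018000e8000000000000000000000000000000) (nat_lit 0x0) (nat_lit 0x6000700000000000000000000000000000000000) := T_49 (nat_lit 158) (nat_lit 157) (nat_lit 0) (nat_lit 8) (nat_lit 10) L75487 (by decide +kernel)
theorem L75489 : W_49 (nat_lit 4) (nat_lit 0x2f800300018000e8000000000000000000000000000000) (nat_lit 0x0) (nat_lit 0x1800000006000700000000000000000000000000000000000) := T_49 (nat_lit 192) (nat_lit 191) (nat_lit 1) (nat_lit 8) (nat_lit 10) L75488 (by decide +kernel)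
theorem L75490 : W_49 (nat_lit 5) (nat_lit 0x2f000300018000e8000000000000000000000000000000) (nat_lit 0x0) (nat_lit 0x18000c0006000700000000000000000000000000000000000) := T_49 (nat_lit 175) (nat_lit 174) (nat_lit 2) (nat_lit 4) (nat_lit 10) L75489 (by decide +kernel)
theorem L75491 : W_49 (nat_lit 6) (nat_lit 0x2e000300018000e8000000000000000000000000000000) (nat_lit 0x0) (nat_lit 0x38001c0006000700000000000000000000000000000000000) := T_49 (nat_lit 176) (nat_lit 193) (nat_lit 5) (nat_lit 7) (nat_lit 7) L75490 (by decide +kernel)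
theorem L75492 : W_49 (nat_lit 7) (nat_lit 0x2e000300018000e0000000000000000000000000000000) (nat_lit 0x0) (nat_lit 0x38001c0006000700018000000000000000000000000000000) := T_49 (nat_lit 123) (nat_lit 124) (nat_lit 3) (nat_lit 4) (nat_lit 7) L75491 (by decide +kernel)
theorem L75493 : W_49 (nat_lit 8) (nat_lit 0x2e000300018000c0000000000000000000000000000000) (nat_lit 0x0) (nat_lit 0x38001c0006000700038001000000000000000000000000000) := T_49 (nat_lit 125) (nat_lit 108) (nat_lit 4) (nat_lit 7) (nat_lit 10) L75492 (by decide +kernel)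
theorem L75494 : W_49 (nat_lit 9) (nat_lit 0x2c000300018000c0000000000000000000000000000000) (nat_lit 0x0) (nat_lit 0x78003c0006000700038001000000000000000000000000000) := T_49 (nat_lit 177) (nat_lit 194) (nat_lit 6) (nat_lit 7) (nat_lit 11) L75493 (by decide +kernel)
theorem L75495 : W_49 (nat_lit 10) (nat_lit 0xc000300018000c0000000000000000000000000000000) (nat_lit 0x0) (nat_lit 0x78033c0006000700038001000000000000000000000000000) := T_49 (nat_lit 181) (nat_lit 180) (nat_lit 0) (nat_lit 11) (nat_lit 10) L75494 (by decide +kernel)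
theorem L75496 : W_49 (nat_lit 11) (nat_lit 0x4000300018000c0000000000000000000000000000000) (nat_lit 0x0) (nat_lit 0x17803bc0006000700038001000000000000000000000000000) := T_49 (nat_lit 179) (nat_lit 196) (nat_lit 7) (nat_lit 8) (nat_lit 7) L75495 (by decide +kernel)
theorem L75497 : W_49 (nat_lit 12) (nat_lit 0x400030001800080000000000000000000000000000000) (nat_lit 0x0) (nat_lit 0x17803bc0006000700078003000000000000000000000000000) := T_49 (nat_lit 126) (nat_lit 109) (nat_lit 7) (nat_lit 7) (nat_lit 6) L75496 (by decide +kernel)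
theorem L75498 : W_49 (nat_lit 2) (nat_lit 0xe000300018000e8000000000000000000000000000000) (nat_lit 0x0) (nat_lit 0x3000008000000000000000000000000000000000000000) := D_49 (nat_lit 180) (nat_lit 181) (nat_lit 159) (nat_lit 0) (nat_lit 11) (nat_lit 10) (nat_lit 0) (nat_lit 10) (nat_lit 10) (by decide +kernel)
theorem L75499 : W_49 (nat_lit 3) (nat_lit 0x6000300018000e8000000000000000000000000000000) (nat_lit 0x0) (nat_lit 0x10003800008000000000000000000000000000000000000000) := T_49 (nat_lit 179) (nat_lit 196) (nat_lit 7) (nat_lit 8) (nat_lit 7) L75498 (by decide +kernel)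
theorem L75500 : W_49 (nat_lit 4) (nat_lit 0x6000300018000e0000000000000000000000000000000) (nat_lit 0x0) (nat_lit 0x10003800008000000018000000000000000000000000000000) := T_49 (nat_lit 123) (nat_lit 124) (nat_lit 3) (nat_lit 4) (nat_lit 7) L75499 (by decide +kernel)
theorem L75501 : W_49 (nat_lit 5) (nat_lit 0x6000300018000c0000000000000000000000000000000) (nat_lit 0x0) (nat_lit 0x10003800008000000038001000000000000000000000000000) := T_49 (nat_lit 125) (nat_lit 108) (nat_lit 4) (nat_lit 7) (nat_lit 10) L75500 (by decide +kernel)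
theorem L75502 : W_49 (nat_lit 6) (nat_lit 0x600030001800080000000000000000000000000000000) (nat_lit 0x0) (nat_lit 0x10003800008000000078003000000000000000000000000000) := T_49 (nat_lit 126) (nat_lit 109) (nat_lit 7) (nat_lit 7) (nat_lit 6) L75501 (by decide +kernel)
theorem L75503 : W_49 (nat_lit 7) (nat_lit 0x400030001800080000000000000000000000000000000) (nat_lit 0x0) (nat_lit 0x14003a00008000000078003000000000000000000000000000) := T_49 (nat_lit 177) (nat_lit 194) (nat_lit 6) (nat_lit 7) (nat_lit 11) L75502 (by decide +kernel)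
theorem L75504 : W_49 (nat_lit 14) (nat_lit 0x400020001800080000000000000000000000000000000) (nat_lit 0x0) (nat_lit 0x60017803bc001e0007007780038001c0000000000000000000000) := Q_49 (nat_lit 160) (C_49 L75471 (C_49 L75477 (C_49 L75413 (C_49 L75486 (C_49 L75497 (C_49 L75503 N_49)))))) (by decide +kernel)
theorem L75505 : W_49 (nat_lit 2) (nat_lit 0x700060001800080000000000000000000000000000000) (nat_lit 0x0) (nat_lit 0x190000000000000000000000000000000000000000) := D_49 (nat_lit 163) (nat_lit 164) (nat_lit 160) (nat_lit 1) (nat_lit 11) (nat_lit 9) (nat_lit 1) (nat_lit 10) (nat_lit 9) (by decide +kernel)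
theorem L75506 : W_49 (nat_lit 3) (nat_lit 0x600060001800080000000000000000000000000000000) (nat_lit 0x0) (nat_lit 0x180190000000000000000000000000000000000000000) := T_49 (nat_lit 176) (nat_lit 175) (nat_lit 2) (nat_lit 5) (nat_lit 10) L75505 (by decide +kernel)
theorem L75507 : W_49 (nat_lit 4) (nat_lit 0x400060001800080000000000000000000000000000000) (nat_lit 0x0) (nat_lit 0x4000380190000000000000000000000000000000000000000) := T_49 (nat_lit 177) (nat_lit 194) (nat_lit 5) (nat_lit 8) (nat_lit 7) L75506 (by decide +kernel)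
theorem L75508 : W_49 (nat_lit 2) (nat_lit 0x6000e0001800080000000000000000000000000000000) (nat_lit 0x0) (nat_lit 0x980000000000000000000000000000000000000000000) := D_49 (nat_lit 176) (nat_lit 179) (nat_lit 175) (nat_lit 2) (nat_lit 6) (nat_lit 10) (nat_lit 2) (nat_lit 5) (nat_lit 10) (by decide +kernel)
theorem L75509 : W_49 (nat_lit 3) (nat_lit 0x4000e0001800080000000000000000000000000000000) (nat_lit 0x0) (nat_lit 0x4000b80000000000000000000000000000000000000000000) := T_49 (nat_lit 177) (nat_lit 194) (nat_lit 5) (nat_lit 8) (nat_lit 7) L75508 (by decide +kernel)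
theorem L75510 : W_49 (nat_lit 4) (nat_lit 0x400060001800080000000000000000000000000000000) (nat_lit 0x0) (nat_lit 0x4000b80180000000000000000000000000000000000000000) := T_49 (nat_lit 163) (nat_lit 164) (nat_lit 0) (nat_lit 11) (nat_lit 9) L75509 (by decide +kernel)
theorem L75511 : W_49 (nat_lit 3) (nat_lit 0xf00068001a00080000000000000000000000000000000) (nat_lit 0x0) (nat_lit 0x40003001000010000000000000000000000000000000000000000) := T_49 (nat_lit 193) (nat_lit 192) (nat_lit 1) (nat_lit 9) (nat_lit 10) L952 (by decide +kernel)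
theorem L75512 : W_49 (nat_lit 4) (nat_lit 0xf00060001a00080000000000000000000000000000000) (nat_lit 0x0) (nat_lit 0x4000300100001c000000000000000000000000000000000000000) := T_49 (nat_lit 159) (nat_lit 158) (nat_lit 0) (nat_lit 9) (nat_lit 10) L75511 (by decide +kernel)
theorem L75513 : W_49 (nat_lit 5) (nat_lit 0xf00060001800080000000000000000000000000000000) (nat_lit 0x0) (nat_lit 0x4000300100001c000600000000000000000000000000000000000) := T_49 (nat_lit 141) (nat_lit 142) (nat_lit 3) (nat_lit 5) (nat_lit 8) L75512 (by decide +kernel)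
theorem L75514 : W_49 (nat_lit 6) (nat_lit 0xe00060001800080000000000000000000000000000000) (nat_lit 0x0) (nat_lit 0x4000300118001c000600000000000000000000000000000000000) := T_49 (nat_lit 176) (nat_lit 175) (nat_lit 2) (nat_lit 5) (nat_lit 10) L75513 (by decide +kernel)
theorem L75515 : W_49 (nat_lit 7) (nat_lit 0xc00060001800080000000000000000000000000000000) (nat_lit 0x0) (nat_lit 0x4000700138001c000600000000000000000000000000000000000) := T_49 (nat_lit 177) (nat_lit 194) (nat_lit 5) (nat_lit 8) (nat_lit 7) L75514 (by decide +kernel)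
theorem L75516 : W_49 (nat_lit 8) (nat_lit 0x400060001800080000000000000000000000000000000) (nat_lit 0x0) (nat_lit 0x40017001b8001c000600000000000000000000000000000000000) := T_49 (nat_lit 179) (nat_lit 196) (nat_lit 7) (nat_lit 8) (nat_lit 7) L75515 (by decide +kernel)
theorem L75517 : W_49 (nat_lit 9) (nat_lit 0x400020001800080000000000000000000000000000000) (nat_lit 0x0) (nat_lit 0x40017001b801dc000600000000000000000000000000000000000) := Q_49 (nat_lit 162) (C_49 L488 (C_49 L75507 (C_49 L75510 (C_49 L75516 N_49)))) (by decide +kernel)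
theorem L75518 : W_49 (nat_lit 2) (nat_lit 0x400048003c001c000a0000000000000000000000000000000) (nat_lit 0x0) (nat_lit 0x20001000100000000000000000000000000000000000000000000) := D_49 (nat_lit 192) (nat_lit 209) (nat_lit 176) (nat_lit 6) (nat_lit 5) (nat_lit 12) (nat_lit 5) (nat_lit 6) (nat_lit 7) (by decide +kernel)
theorem L75519 : W_49 (nat_lit 3) (nat_lit 0x400048003c001c00080000000000000000000000000000000) (nat_lit 0x0) (nat_lit 0x20001000100000000000020001000000000000000000000000000) := T_49 (nat_lit 125) (nat_lit 108) (nat_lit 5) (nat_lit 6) (nat_lit 6) L75518 (by decide +kernel)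
theorem L75520 : W_49 (nat_lit 4) (nat_lit 0x400040003c001c00080000000000000000000000000000000) (nat_lit 0x0) (nat_lit 0x200010001c0000000000020001000000000000000000000000000) := T_49 (nat_lit 175) (nat_lit 174) (nat_lit 1) (nat_lit 8) (nat_lit 9) L75519 (by decide +kernel)
theorem L75521 : W_49 (nat_lit 5) (nat_lit 0x40003c001c00080000000000000000000000000000000) (nat_lit 0x0) (nat_lit 0x200050003c0000000000020001000000000000000000000000000) := T_49 (nat_lit 194) (nat_lit 177) (nat_lit 6) (nat_lit 7) (nat_lit 11) L75520 (by decide +kernel)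
theorem L75522 : W_49 (nat_lit 6) (nat_lit 0x400038001c00080000000000000000000000000000000) (nat_lit 0x0) (nat_lit 0x200050003c0006000000020001000000000000000000000000000) := T_49 (nat_lit 158) (nat_lit 157) (nat_lit 2) (nat_lit 4) (nat_lit 9) L75521 (by decide +kernel)
theorem L75523 : W_49 (nat_lit 2) (nat_lit 0x400050007a001c00080000000000000000000000000000000) (nat_lit 0x0) (nat_lit 0xc0002000000000000000000000000000000000000000000000000) := D_49 (nat_lit 193) (nat_lit 210) (nat_lit 211) (nat_lit 6) (nat_lit 6) (nat_lit 12) (nat_lit 7) (nat_lit 6) (nat_lit 8) (by decide +kernel)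
theorem L75524 : W_49 (nat_lit 3) (nat_lit 0x400040007a001c00080000000000000000000000000000000) (nat_lit 0x0) (nat_lit 0xc0002000180000000000000000000000000000000000000000000) := T_49 (nat_lit 176) (nat_lit 175) (nat_lit 1) (nat_lit 9) (nat_lit 9) L75523 (by decide +kernel)
theorem L75525 : W_49 (nat_lit 4) (nat_lit 0x40007a001c00080000000000000000000000000000000) (nat_lit 0x0) (nat_lit 0xc0006000380000000000000000000000000000000000000000000) := T_49 (nat_lit 194) (nat_lit 177) (nat_lit 6) (nat_lit 7) (nat_lit 11) L75524 (by decide +kernel)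
theorem L75526 : W_49 (nat_lit 5) (nat_lit 0x40003a001c00080000000000000000000000000000000) (nat_lit 0x0) (nat_lit 0xc00060003800c0000000000000000000000000000000000000000) := T_49 (nat_lit 162) (nat_lit 163) (nat_lit 0) (nat_lit 10) (nat_lit 9) L75525 (by decide +kernel)
theorem L75527 : W_49 (nat_lit 6) (nat_lit 0x400038001c00080000000000000000000000000000000) (nat_lit 0x0) (nat_lit 0xc00060003800c6000000000000000000000000000000000000000) := T_49 (nat_lit 157) (nat_lit 158) (nat_lit 2) (nat_lit 4) (nat_lit 9) L75526 (by decide +kernel)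
theorem L75528 : W_49 (nat_lit 2) (nat_lit 0x7800b0001c000e8000000000000000000000000000000) (nat_lit 0x0) (nat_lit 0x1800000008000000000000000000000000000000000000000) := D_49 (nat_lit 192) (nat_lit 191) (nat_lit 159) (nat_lit 1) (nat_lit 8) (nat_lit 10) (nat_lit 5) (nat_lit 6) (nat_lit 7) (by decide +kernel)
theorem L75529 : W_49 (nat_lit 3) (nat_lit 0x7000b0001c000e8000000000000000000000000000000) (nat_lit 0x0) (nat_lit 0x18000c0008000000000000000000000000000000000000000) := T_49 (nat_lit 175) (nat_lit 174) (nat_lit 2) (nat_lit 4) (nat_lit 10) L75528 (by decide +kernel)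
theorem L75530 : W_49 (nat_lit 4) (nat_lit 0x6000b0001c000e8000000000000000000000000000000) (nat_lit 0x0) (nat_lit 0x38001c0008000000000000000000000000000000000000000) := T_49 (nat_lit 176) (nat_lit 193) (nat_lit 5) (nat_lit 7) (nat_lit 7) L75529 (by decide +kernel)
theorem L75531 : W_49 (nat_lit 5) (nat_lit 0x600030001c000e8000000000000000000000000000000) (nat_lit 0x0) (nat_lit 0x38001c00c8000000000000000000000000000000000000000) := T_49 (nat_lit 163) (nat_lit 162) (nat_lit 0) (nat_lit 10) (nat_lit 9) L75530 (by decide +kernel)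
theorem L75532 : W_49 (nat_lit 6) (nat_lit 0x600020001c000e8000000000000000000000000000000) (nat_lit 0x0) (nat_lit 0x38001c00d8000000000001000000000000000000000000000) := T_49 (nat_lit 160) (nat_lit 108) (nat_lit 4) (nat_lit 7) (nat_lit 10) L75531 (by decide +kernel)
theorem L75533 : W_49 (nat_lit 7) (nat_lit 0x400020001c000e8000000000000000000000000000000) (nat_lit 0x0) (nat_lit 0x78003c00d8000000000001000000000000000000000000000) := T_49 (nat_lit 177) (nat_lit 194) (nat_lit 5) (nat_lit 8) (nat_lit 7) L75532 (by decide +kernel)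
theorem L75534 : W_49 (nat_lit 8) (nat_lit 0x400020001c000e0000000000000000000000000000000) (nat_lit 0x0) (nat_lit 0x78003c00d8000000018001000000000000000000000000000) := T_49 (nat_lit 123) (nat_lit 124) (nat_lit 3) (nat_lit 4) (nat_lit 7) L75533 (by decide +kernel)
theorem L75535 : W_49 (nat_lit 2) (nat_lit 0x780020001c002f0000800000000000000000000000000) (nat_lit 0x0) (nat_lit 0x2000040010000000000000000000000000000000000000000) := D_49 (nat_lit 160) (nat_lit 174) (nat_lit 193) (nat_lit 2) (nat_lit 4) (nat_lit 10) (nat_lit 5) (nat_lit 7) (nat_lit 7) (by decide +kernel)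
theorem L75536 : W_49 (nat_lit 3) (nat_lit 0x700020001c002f0000800000000000000000000000000) (nat_lit 0x0) (nat_lit 0x20000c0050000000000000000000000000000000000000000) := T_49 (nat_lit 175) (nat_lit 162) (nat_lit 2) (nat_lit 5) (nat_lit 10) L75535 (by decide +kernel)
theorem L75537 : W_49 (nat_lit 4) (nat_lit 0x600020001c002f0000800000000000000000000000000) (nat_lit 0x0) (nat_lit 0x20001c0058000000000000000000000000000000000000000) := T_49 (nat_lit 176) (nat_lit 159) (nat_lit 4) (nat_lit 6) (nat_lit 10) L75536 (by decide +kernel)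
theorem L75538 : W_49 (nat_lit 5) (nat_lit 0x600020001c002f0000000000000000000000000000000) (nat_lit 0x0) (nat_lit 0x20001c0058000000000000c00000000000000000000000000) := T_49 (nat_lit 107) (nat_lit 106) (nat_lit 0) (nat_lit 8) (nat_lit 7) L75537 (by decide +kernel)
theorem L75539 : W_49 (nat_lit 6) (nat_lit 0x600020001c002e0000000000000000000000000000000) (nat_lit 0x0) (nat_lit 0x20001c0058000000018000c00000000000000000000000000) := T_49 (nat_lit 124) (nat_lit 123) (nat_lit 3) (nat_lit 4) (nat_lit 7) L75538 (by decide +kernel)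
theorem L75540 : W_49 (nat_lit 7) (nat_lit 0x600020001c000e0000000000000000000000000000000) (nat_lit 0x0) (nat_lit 0x20001c0058000000318000c00000000000000000000000000) := T_49 (nat_lit 129) (nat_lit 128) (nat_lit 1) (nat_lit 10) (nat_lit 7) L75539 (by decide +kernel)
theorem L75541 : W_49 (nat_lit 8) (nat_lit 0x400020001c000e0000000000000000000000000000000) (nat_lit 0x0) (nat_lit 0x60003c0058000000318000c00000000000000000000000000) := T_49 (nat_lit 177) (nat_lit 194) (nat_lit 5) (nat_lit 8) (nat_lit 7) L75540 (by decide +kernel)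
theorem L75542 : W_49 (nat_lit 2) (nat_lit 0x7800b0001c000e0000000000000000000000000000000) (nat_lit 0x0) (nat_lit 0x1800000008000000000000000000000000000000000000000) := D_49 (nat_lit 192) (nat_lit 191) (nat_lit 159) (nat_lit 1) (nat_lit 8) (nat_lit 10) (nat_lit 5) (nat_lit 6) (nat_lit 7) (by decide +kernel)
theorem L75543 : W_49 (nat_lit 3) (nat_lit 0x7000b0001c000e0000000000000000000000000000000) (nat_lit 0x0) (nat_lit 0x18000c0008000000000000000000000000000000000000000) := T_49 (nat_lit 175) (nat_lit 174) (nat_lit 2) (nat_lit 4) (nat_lit 10) L75542 (by decide +kernel)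
theorem L75544 : W_49 (nat_lit 4) (nat_lit 0x6000b0001c000e0000000000000000000000000000000) (nat_lit 0x0) (nat_lit 0x38001c0008000000000000000000000000000000000000000) := T_49 (nat_lit 176) (nat_lit 193) (nat_lit 5) (nat_lit 7) (nat_lit 7) L75543 (by decide +kernel)
theorem L75545 : W_49 (nat_lit 5) (nat_lit 0x600030001c000e0000000000000000000000000000000) (nat_lit 0x0) (nat_lit 0x38001c00c8000000000000000000000000000000000000000) := T_49 (nat_lit 163) (nat_lit 162) (nat_lit 0) (nat_lit 10) (nat_lit 9) L75544 (by decide +kernel)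
theorem L75546 : W_49 (nat_lit 6) (nat_lit 0x600020001c000e0000000000000000000000000000000) (nat_lit 0x0) (nat_lit 0x38001c00d8000000000001000000000000000000000000000) := T_49 (nat_lit 160) (nat_lit 108) (nat_lit 4) (nat_lit 7) (nat_lit 10) L75545 (by decide +kernel)
theorem L75547 : W_49 (nat_lit 7) (nat_lit 0x400020001c000e0000000000000000000000000000000) (nat_lit 0x0) (nat_lit 0x78003c00d8000000000001000000000000000000000000000) := T_49 (nat_lit 177) (nat_lit 194) (nat_lit 5) (nat_lit 8) (nat_lit 7) L75546 (by decide +kernel)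
theorem L75548 : W_49 (nat_lit 9) (nat_lit 0x400020001c000c0000000000000000000000000000000) (nat_lit 0x0) (nat_lit 0x78003c00d8000000338001c000c0006000000000000000000) := Q_49 (nat_lit 125) (C_49 L75438 (C_49 L75534 (C_49 L75541 (C_49 L75547 (C_49 L75403 N_49))))) (by decide +kernel)
theorem L75549 : W_49 (nat_lit 10) (nat_lit 0x400020001c00080000000000000000000000000000000) (nat_lit 0x0) (nat_lit 0x78003c00d8000000378003c000c0006000000000000000000) := T_49 (nat_lit 126) (nat_lit 109) (nat_lit 4) (nat_lit 8) (nat_lit 10) L75548 (by decide +kernel)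
theorem L75550 : W_49 (nat_lit 11) (nat_lit 0x400020001800080000000000000000000000000000000) (nat_lit 0x0) (nat_lit 0x78003c00d8000700378003c000c0006000000000000000000) := Q_49 (nat_lit 142) (C_49 L75462 (C_49 L75463 (C_49 L75465 (C_49 L75549 N_49)))) (by decide +kernel)
theorem L75551 : W_49 (nat_lit 15) (nat_lit 0x400020001000080000000000000000000000000000000) (nat_lit 0x0) (nat_lit 0x60057c03bc01df00cf00778033c001c0006000000000000000000) := Q_49 (nat_lit 143) (C_49 L75436 (C_49 L75466 (C_49 L75474 (C_49 L75504 (C_49 L75517 (C_49 L75550 N_49)))))) (by decide +kernel)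
theorem L75552 : W_49 (nat_lit 2) (nat_lit 0x140004000200010000c0000000000000000000000000000000) (nat_lit 0x0) (nat_lit 0x280008000000000000000000000000000000000000000000000000) := D_49 (nat_lit 195) (nat_lit 213) (nat_lit 211) (nat_lit 7) (nat_lit 8) (nat_lit 8) (nat_lit 5) (nat_lit 8) (nat_lit 8) (by decide +kernel)
theorem L75553 : W_49 (nat_lit 3) (nat_lit 0x100004000200010000c0000000000000000000000000000000) (nat_lit 0x0) (nat_lit 0x28000c000200000000000000000000000000000000000000000000) := T_49 (nat_lit 194) (nat_lit 177) (nat_lit 5) (nat_lit 8) (nat_lit 7) L75552 (by decide +kernel)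
theorem L75554 : W_49 (nat_lit 4) (nat_lit 0x4000200010000c0000000000000000000000000000000) (nat_lit 0x0) (nat_lit 0x28001c000a00000000000000000000000000000000000000000000) := T_49 (nat_lit 196) (nat_lit 179) (nat_lit 7) (nat_lit 8) (nat_lit 7) L75553 (by decide +kernel)
theorem L75555 : W_49 (nat_lit 5) (nat_lit 0x400020001000080000000000000000000000000000000) (nat_lit 0x0) (nat_lit 0x28001c000a00000000000040002000000000000000000000000000) := T_49 (nat_lit 126) (nat_lit 109) (nat_lit 4) (nat_lit 8) (nat_lit 10) L75554 (by decide +kernel)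
theorem L75556 : W_49 (nat_lit 2) (nat_lit 0x2000180008000c000200010000c0000000000000000000000000000000) (nat_lit 0x0) (nat_lit 0x80004000200000000000000000000000000000000000000000000000000000) := D_49 (nat_lit 230) (nat_lit 213) (nat_lit 247) (nat_lit 7) (nat_lit 8) (nat_lit 9) (nat_lit 7) (nat_lit 8) (nat_lit 10) (by decide +kernel)
theorem L75557 : W_49 (nat_lit 3) (nat_lit 0x180008000c000200010000c0000000000000000000000000000000) (nat_lit 0x0) (nat_lit 0x80006000200000000000040000000000000000000000000000000000000000) := T_49 (nat_lit 229) (nat_lit 162) (nat_lit 6) (nat_lit 8) (nat_lit 13) L75556 (by decide +kernel)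
theorem L75558 : W_49 (nat_lit 4) (nat_lit 0x80008000c000200010000c0000000000000000000000000000000) (nat_lit 0x0) (nat_lit 0x80007000300000000000040000000000000000000000000000000000000000) := T_49 (nat_lit 212) (nat_lit 228) (nat_lit 5) (nat_lit 8) (nat_lit 9) L75557 (by decide +kernel)
theorem L75559 : W_49 (nat_lit 5) (nat_lit 0x8000c000200010000c0000000000000000000000000000000) (nat_lit 0x0) (nat_lit 0x80007000380004000000040000000000000000000000000000000000000000) := T_49 (nat_lit 211) (nat_lit 194) (nat_lit 5) (nat_lit 8) (nat_lit 8) L75558 (by decide +kernel)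
theorem L75560 : W_49 (nat_lit 6) (nat_lit 0xc000200010000c0000000000000000000000000000000) (nat_lit 0x0) (nat_lit 0x8000700038000c000000040000800000000000000000000000000000000000) := T_49 (nat_lit 195) (nat_lit 143) (nat_lit 4) (nat_lit 8) (nat_lit 11) L75559 (by decide +kernel)
theorem L75561 : W_49 (nat_lit 7) (nat_lit 0xc00020001000080000000000000000000000000000000) (nat_lit 0x0) (nat_lit 0x8000700038000c000000040000800040002000000000000000000000000000) := T_49 (nat_lit 126) (nat_lit 109) (nat_lit 4) (nat_lit 8) (nat_lit 10) L75560 (by decide +kernel)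
theorem L75562 : W_49 (nat_lit 8) (nat_lit 0x400020001000080000000000000000000000000000000) (nat_lit 0x0) (nat_lit 0x8000700038001c000800040000800040002000000000000000000000000000) := T_49 (nat_lit 179) (nat_lit 196) (nat_lit 7) (nat_lit 8) (nat_lit 7) L75561 (by decide +kernel)
theorem L75563 : W_49 (nat_lit 2) (nat_lit 0x10003000080006000200010000c0000000000000000000000000000000) (nat_lit 0x0) (nat_lit 0x20002000000000000000010000000000000000000000000000000000000000) := D_49 (nat_lit 229) (nat_lit 160) (nat_lit 245) (nat_lit 4) (nat_lit 8) (nat_lit 13) (nat_lit 5) (nat_lit 8) (nat_lit 10) (by decide +kernel)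
theorem L75564 : W_49 (nat_lit 3) (nat_lit 0x3000080006000200010000c0000000000000000000000000000000) (nat_lit 0x0) (nat_lit 0x20003000080000000000010000000000000000000000000000000000000000) := T_49 (nat_lit 228) (nat_lit 211) (nat_lit 5) (nat_lit 8) (nat_lit 9) L75563 (by decide +kernel)
theorem L75565 : W_49 (nat_lit 4) (nat_lit 0x2000080006000200010000c0000000000000000000000000000000) (nat_lit 0x0) (nat_lit 0x20007000180000000000010000000000000000000000000000000000000000) := T_49 (nat_lit 212) (nat_lit 230) (nat_lit 7) (nat_lit 8) (nat_lit 9) L75564 (by decide +kernel)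
theorem L75566 : W_49 (nat_lit 5) (nat_lit 0x80006000200010000c0000000000000000000000000000000) (nat_lit 0x0) (nat_lit 0x20007000380010000000010000000000000000000000000000000000000000) := T_49 (nat_lit 213) (nat_lit 196) (nat_lit 7) (nat_lit 8) (nat_lit 8) L75565 (by decide +kernel)
theorem L75567 : W_49 (nat_lit 6) (nat_lit 0x6000200010000c0000000000000000000000000000000) (nat_lit 0x0) (nat_lit 0x20007000380018000000010000800000000000000000000000000000000000) := T_49 (nat_lit 195) (nat_lit 143) (nat_lit 4) (nat_lit 8) (nat_lit 11) L75566 (by decide +kernel)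
theorem L75568 : W_49 (nat_lit 7) (nat_lit 0x600020001000080000000000000000000000000000000) (nat_lit 0x0) (nat_lit 0x20007000380018000000010000800040002000000000000000000000000000) := T_49 (nat_lit 126) (nat_lit 109) (nat_lit 4) (nat_lit 8) (nat_lit 10) L75567 (by decide +kernel)
theorem L75569 : W_49 (nat_lit 8) (nat_lit 0x400020001000080000000000000000000000000000000) (nat_lit 0x0) (nat_lit 0x2000700038001c000200010000800040002000000000000000000000000000) := T_49 (nat_lit 177) (nat_lit 194) (nat_lit 5) (nat_lit 8) (nat_lit 7) L75568 (by decide +kernel)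
theorem L75576 : W_49 (nat_lit 16) (nat_lit 0x20001000080000000000000000000000000000000) (nat_lit 0x0) (nat_lit 0xa00070003e005fc03fc01df00cf00778033c001c0006000000000000000000) := Q_49 (nat_lit 178) (C_49 L75551 (C_49 L75555 (C_49 L75562 (C_49 L527 (C_49 L75569 (C_49 L75572 (C_49 L75575 N_49))))))) (by decide +kernel)
theorem L75577 : W_49 (nat_lit 2) (nat_lit 0x1c000e0001000080000000000000000000000000000000) (nat_lit 0x0) (nat_lit 0x300000800000000000000000000000000000000000) := D_49 (nat_lit 164) (nat_lit 165) (nat_lit 143) (nat_lit 1) (nat_lit 12) (nat_lit 9) (nat_lit 0) (nat_lit 11) (nat_lit 9) (by decide +kernel)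
theorem L75578 : W_49 (nat_lit 2) (nat_lit 0x1c001e8009000480000000000000000000000000000000) (nat_lit 0x0) (nat_lit 0x400020000000000004000000000000000000000000000000000000) := D_49 (nat_lit 197) (nat_lit 214) (nat_lit 146) (nat_lit 6) (nat_lit 10) (nat_lit 12) (nat_lit 6) (nat_lit 10) (nat_lit 11) (by decide +kernel)
theorem L75579 : W_49 (nat_lit 3) (nat_lit 0x1c001e8009000080000000000000000000000000000000) (nat_lit 0x0) (nat_lit 0x400020000000000004000400020000000000000000000000000000) := T_49 (nat_lit 130) (nat_lit 113) (nat_lit 5) (nat_lit 11) (nat_lit 6) L75578 (by decide +kernel)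
theorem L75580 : W_49 (nat_lit 4) (nat_lit 0x1c001e8001000080000000000000000000000000000000) (nat_lit 0x0) (nat_lit 0x40002000000000001c000400020000000000000000000000000000) := T_49 (nat_lit 147) (nat_lit 148) (nat_lit 2) (nat_lit 8) (nat_lit 9) L75579 (by decide +kernel)
theorem L75581 : W_49 (nat_lit 5) (nat_lit 0x1c001e0001000080000000000000000000000000000000) (nat_lit 0x0) (nat_lit 0x40002000000001801c000400020000000000000000000000000000) := T_49 (nat_lit 159) (nat_lit 160) (nat_lit 3) (nat_lit 6) (nat_lit 9) L75580 (by decide +kernel)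
theorem L75582 : W_49 (nat_lit 6) (nat_lit 0x1c000e0001000080000000000000000000000000000000) (nat_lit 0x0) (nat_lit 0x40002000000031801c000400020000000000000000000000000000) := T_49 (nat_lit 164) (nat_lit 165) (nat_lit 1) (nat_lit 12) (nat_lit 9) L75581 (by decide +kernel)
theorem L75583 : W_49 (nat_lit 2) (nat_lit 0x1c000f0005800280000000000000000000000000000000) (nat_lit 0x0) (nat_lit 0x500020000000000000000000000000000) := D_49 (nat_lit 130) (nat_lit 128) (nat_lit 113) (nat_lit 1) (nat_lit 11) (nat_lit 7) (nat_lit 6) (nat_lit 10) (nat_lit 10) (by decide +kernel)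
theorem L75584 : W_49 (nat_lit 3) (nat_lit 0x1c000f0005800080000000000000000000000000000000) (nat_lit 0x0) (nat_lit 0x700030000000000000000000000000000) := T_49 (nat_lit 129) (nat_lit 112) (nat_lit 5) (nat_lit 10) (nat_lit 6) L75583 (by decide +kernel)
theorem L75585 : W_49 (nat_lit 4) (nat_lit 0x1c000f0005000080000000000000000000000000000000) (nat_lit 0x0) (nat_lit 0xc00700030000000000000000000000000000) := T_49 (nat_lit 143) (nat_lit 142) (nat_lit 0) (nat_lit 10) (nat_lit 9) L75584 (by decide +kernel)
theorem L75586 : W_49 (nat_lit 5) (nat_lit 0x1c000f0001000080000000000000000000000000000000) (nat_lit 0x0) (nat_lit 0xcc00700030000000000000000000000000000) := T_49 (nat_lit 146) (nat_lit 147) (nat_lit 2) (nat_lit 7) (nat_lit 9) L75585 (by decide +kernel)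
theorem L75587 : W_49 (nat_lit 6) (nat_lit 0x1c000e0001000080000000000000000000000000000000) (nat_lit 0x0) (nat_lit 0x1800cc00700030000000000000000000000000000) := T_49 (nat_lit 160) (nat_lit 159) (nat_lit 3) (nat_lit 6) (nat_lit 9) L75586 (by decide +kernel)
theorem L75588 : W_49 (nat_lit 7) (nat_lit 0x1c00060001000080000000000000000000000000000000) (nat_lit 0x0) (nat_lit 0x40002000000039801cc00700030000000000000000000000000000) := Q_49 (nat_lit 163) (C_49 L75577 (C_49 L75582 (C_49 L75587 N_49))) (by decide +kernel)
theorem L75589 : W_49 (nat_lit 8) (nat_lit 0x1c00020001000080000000000000000000000000000000) (nat_lit 0x0) (nat_lit 0x4000200000003d801cc00700034000000000000000000000000000) := T_49 (nat_lit 162) (nat_lit 110) (nat_lit 7) (nat_lit 8) (nat_lit 6) L75588 (by decide +kernel)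
theorem L75590 : W_49 (nat_lit 2) (nat_lit 0x88003c00220001000080006000000000000000000000000000) (nat_lit 0x0) (nat_lit 0x100004000400000000000000000000000000000000000000000) := D_49 (nat_lit 182) (nat_lit 200) (nat_lit 166) (nat_lit 3) (nat_lit 9) (nat_lit 10) (nat_lit 2) (nat_lit 9) (nat_lit 10) (by decide +kernel)
theorem L75591 : W_49 (nat_lit 3) (nat_lit 0x88003c00020001000080006000000000000000000000000000) (nat_lit 0x0) (nat_lit 0x100004000700000000000000000000000000000000000000000) := T_49 (nat_lit 165) (nat_lit 164) (nat_lit 2) (nat_lit 8) (nat_lit 10) L75590 (by decide +kernel)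
theorem L75592 : W_49 (nat_lit 4) (nat_lit 0x8003c00020001000080006000000000000000000000000000) (nat_lit 0x0) (nat_lit 0x1c0004000700000000000000000000000000000000000000000) := T_49 (nat_lit 199) (nat_lit 198) (nat_lit 3) (nat_lit 8) (nat_lit 10) L75591 (by decide +kernel)
theorem L75593 : W_49 (nat_lit 5) (nat_lit 0x3c00020001000080006000000000000000000000000000) (nat_lit 0x0) (nat_lit 0x1cc004000700000000000000000000000000000000000000000) := T_49 (nat_lit 195) (nat_lit 194) (nat_lit 1) (nat_lit 11) (nat_lit 10) L75592 (by decide +kernel)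
theorem L75594 : W_49 (nat_lit 6) (nat_lit 0x1c00020001000080006000000000000000000000000000) (nat_lit 0x0) (nat_lit 0x1cc006000710000000000000000000000000000000000000000) := T_49 (nat_lit 181) (nat_lit 160) (nat_lit 0) (nat_lit 11) (nat_lit 10) L75593 (by decide +kernel)
theorem L75595 : W_49 (nat_lit 7) (nat_lit 0x1c00020001000080004000000000000000000000000000) (nat_lit 0x0) (nat_lit 0x1cc006000710000000000002000100000000000000000000000) := T_49 (nat_lit 109) (nat_lit 92) (nat_lit 4) (nat_lit 8) (nat_lit 9) L75594 (by decide +kernel)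
theorem L75596 : W_49 (nat_lit 8) (nat_lit 0x1c00020001000080000000000000000000000000000000) (nat_lit 0x0) (nat_lit 0x1cc006000750000000000006000100000000000000000000000) := T_49 (nat_lit 110) (nat_lit 162) (nat_lit 7) (nat_lit 8) (nat_lit 6) L75595 (by decide +kernel)
theorem L75597 : W_49 (nat_lit 2) (nat_lit 0x88003c00220001000080000000000000000000000000000000) (nat_lit 0x0) (nat_lit 0x100004000400000000000000000000000000000000000000000) := D_49 (nat_lit 182) (nat_lit 200) (nat_lit 166) (nat_lit 3) (nat_lit 9) (nat_lit 10) (nat_lit 2) (nat_lit 9) (nat_lit 10) (by decide +kernel)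
theorem L75598 : W_49 (nat_lit 3) (nat_lit 0x88003c00020001000080000000000000000000000000000000) (nat_lit 0x0) (nat_lit 0x100004000700000000000000000000000000000000000000000) := T_49 (nat_lit 165) (nat_lit 164) (nat_lit 2) (nat_lit 8) (nat_lit 10) L75597 (by decide +kernel)
theorem L75599 : W_49 (nat_lit 4) (nat_lit 0x8003c00020001000080000000000000000000000000000000) (nat_lit 0x0) (nat_lit 0x1c0004000700000000000000000000000000000000000000000) := T_49 (nat_lit 199) (nat_lit 198) (nat_lit 3) (nat_lit 8) (nat_lit 10) L75598 (by decide +kernel)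
theorem L75600 : W_49 (nat_lit 5) (nat_lit 0x3c00020001000080000000000000000000000000000000) (nat_lit 0x0) (nat_lit 0x1cc004000700000000000000000000000000000000000000000) := T_49 (nat_lit 195) (nat_lit 194) (nat_lit 1) (nat_lit 11) (nat_lit 10) L75599 (by decide +kernel)
theorem L75601 : W_49 (nat_lit 6) (nat_lit 0x1c00020001000080000000000000000000000000000000) (nat_lit 0x0) (nat_lit 0x1cc006000710000000000000000000000000000000000000000) := T_49 (nat_lit 181) (nat_lit 160) (nat_lit 0) (nat_lit 11) (nat_lit 10) L75600 (by decide +kernel)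
theorem L75602 : W_49 (nat_lit 2) (nat_lit 0x2000000048003c001e0001000080000000000000000000000000000000) (nat_lit 0x0) (nat_lit 0x10000800000000000000004000000000000000000000000000000000000) := D_49 (nat_lit 215) (nat_lit 146) (nat_lit 232) (nat_lit 4) (nat_lit 11) (nat_lit 12) (nat_lit 4) (nat_lit 11) (nat_lit 13) (by decide +kernel)
theorem L75603 : W_49 (nat_lit 3) (nat_lit 0x2000000048003c00160001000080000000000000000000000000000000) (nat_lit 0x0) (nat_lit 0x10000800000000000080004800000000000000000000000000000000000) := T_49 (nat_lit 163) (nat_lit 143) (nat_lit 0) (nat_lit 11) (nat_lit 9) L75602 (by decide +kernel)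
theorem L75604 : W_49 (nat_lit 4) (nat_lit 0x2000000048003c00060001000080000000000000000000000000000000) (nat_lit 0x0) (nat_lit 0x10000800000000000380004800000000000000000000000000000000000) := T_49 (nat_lit 164) (nat_lit 165) (nat_lit 2) (nat_lit 8) (nat_lit 10) L75603 (by decide +kernel)
theorem L75605 : W_49 (nat_lit 5) (nat_lit 0x48003c00060001000080000000000000000000000000000000) (nat_lit 0x0) (nat_lit 0x12000900000000000380004800000000000000000000000000000000000) := T_49 (nat_lit 229) (nat_lit 212) (nat_lit 6) (nat_lit 8) (nat_lit 13) L75604 (by decide +kernel)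
theorem L75606 : W_49 (nat_lit 6) (nat_lit 0x8003c00060001000080000000000000000000000000000000) (nat_lit 0x0) (nat_lit 0x120009000c0000000380004800000000000000000000000000000000000) := T_49 (nat_lit 198) (nat_lit 199) (nat_lit 3) (nat_lit 8) (nat_lit 10) L75605 (by decide +kernel)
theorem L75607 : W_49 (nat_lit 7) (nat_lit 0x3c00060001000080000000000000000000000000000000) (nat_lit 0x0) (nat_lit 0x120009000cc000000380004800000000000000000000000000000000000) := T_49 (nat_lit 195) (nat_lit 194) (nat_lit 1) (nat_lit 11) (nat_lit 10) L75606 (by decide +kernel)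
theorem L75608 : W_49 (nat_lit 8) (nat_lit 0x1c00060001000080000000000000000000000000000000) (nat_lit 0x0) (nat_lit 0x120009000cc006000380004800000000000000000000000000000000000) := T_49 (nat_lit 181) (nat_lit 182) (nat_lit 0) (nat_lit 12) (nat_lit 10) L75607 (by decide +kernel)
theorem L75609 : W_49 (nat_lit 9) (nat_lit 0x1c00020001000080000000000000000000000000000000) (nat_lit 0x0) (nat_lit 0x120009000cc0060003c0004800000004000000000000000000000000000) := T_49 (nat_lit 162) (nat_lit 110) (nat_lit 7) (nat_lit 8) (nat_lit 6) L75608 (by decide +kernel)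
theorem L75610 : W_49 (nat_lit 2) (nat_lit 0x1c00030001000080004000100000000000000000000000) (nat_lit 0x0) (nat_lit 0x800000000000200008000000000000000000) := D_49 (nat_lit 93) (nat_lit 75) (nat_lit 143) (nat_lit 4) (nat_lit 8) (nat_lit 8) (nat_lit 5) (nat_lit 8) (nat_lit 5) (by decide +kernel)
theorem L75611 : W_49 (nat_lit 3) (nat_lit 0x1c00020001000080004000100000000000000000000000) (nat_lit 0x0) (nat_lit 0x2000010000800000000000200008000000000000000000) := T_49 (nat_lit 160) (nat_lit 181) (nat_lit 0) (nat_lit 11) (nat_lit 10) L75610 (by decide +kernel)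
theorem L75612 : W_49 (nat_lit 4) (nat_lit 0x1c00020001000080004000000000000000000000000000) (nat_lit 0x0) (nat_lit 0x2000010000800000002000300008000000000000000000) := T_49 (nat_lit 92) (nat_lit 109) (nat_lit 4) (nat_lit 8) (nat_lit 9) L75611 (by decide +kernel)
theorem L75613 : W_49 (nat_lit 5) (nat_lit 0x1c00020001000080000000000000000000000000000000) (nat_lit 0x0) (nat_lit 0x2000050000800000006000300008000000000000000000) := T_49 (nat_lit 110) (nat_lit 162) (nat_lit 7) (nat_lit 8) (nat_lit 6) L75612 (by decide +kernel)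
theorem L75614 : W_49 (nat_lit 10) (nat_lit 0xc00020001000080000000000000000000000000000000) (nat_lit 0x0) (nat_lit 0x12000d001ec0070007d801cc00700036000300008000000000000000000) := Q_49 (nat_lit 180) (C_49 L75589 (C_49 L75596 (C_49 L75601 (C_49 L75609 (C_49 L75613 N_49))))) (by decide +kernel)
theorem L75615 : W_49 (nat_lit 11) (nat_lit 0x400020001000080000000000000000000000000000000) (nat_lit 0x0) (nat_lit 0x12000d001fc0078007d801cc00700036000300008000000000000000000) := T_49 (nat_lit 179) (nat_lit 196) (nat_lit 7) (nat_lit 8) (nat_lit 7) L75614 (by decide +kernel)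
theorem L75616 : W_49 (nat_lit 2) (nat_lit 0x380008000400030001000080000000000000000000000000000000) (nat_lit 0x0) (nat_lit 0x2000000000000200000000000000004000000000000000000000000000) := D_49 (nat_lit 177) (nat_lit 229) (nat_lit 110) (nat_lit 4) (nat_lit 8) (nat_lit 13) (nat_lit 5) (nat_lit 8) (nat_lit 6) (by decide +kernel)
theorem L75617 : W_49 (nat_lit 3) (nat_lit 0x380008000400020001000080000000000000000000000000000000) (nat_lit 0x0) (nat_lit 0x2000000000000200010000800000004000000000000000000000000000) := T_49 (nat_lit 160) (nat_lit 143) (nat_lit 4) (nat_lit 8) (nat_lit 12) L75616 (by decide +kernel)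
theorem L75618 : W_49 (nat_lit 4) (nat_lit 0x300008000400020001000080000000000000000000000000000000) (nat_lit 0x0) (nat_lit 0x3000080000000200010000800000004000000000000000000000000000) := T_49 (nat_lit 211) (nat_lit 228) (nat_lit 5) (nat_lit 8) (nat_lit 9) L75617 (by decide +kernel)
theorem L75619 : W_49 (nat_lit 5) (nat_lit 0x200008000400020001000080000000000000000000000000000000) (nat_lit 0x0) (nat_lit 0x7000180000000200010000800000004000000000000000000000000000) := T_49 (nat_lit 212) (nat_lit 230) (nat_lit 7) (nat_lit 8) (nat_lit 9) L75618 (by decide +kernel)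
theorem L75620 : W_49 (nat_lit 6) (nat_lit 0x8000400020001000080000000000000000000000000000000) (nat_lit 0x0) (nat_lit 0x7000380010000200010000800000004000000000000000000000000000) := T_49 (nat_lit 213) (nat_lit 196) (nat_lit 7) (nat_lit 8) (nat_lit 8) L75619 (by decide +kernel)
theorem L75621 : W_49 (nat_lit 7) (nat_lit 0x400020001000080000000000000000000000000000000) (nat_lit 0x0) (nat_lit 0x700038001c000200010000800000004000000000000000000000000000) := Q_49 (nat_lit 195) (C_49 L1067 (C_49 L1076 (C_49 L1080 (C_49 L75620 N_49)))) (by decide +kernel)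
theorem L75622 : W_49 (nat_lit 8) (nat_lit 0x400070001000080000000000000000000000000000000) (nat_lit 0x0) (nat_lit 0x798018e01ce00000000000000000000000000000000000) := Q_49 (nat_lit 159) (C_49 L1132 (C_49 L1158 (C_49 L1142 N_49))) (by decide +kernel)
theorem L75623 : W_49 (nat_lit 2) (nat_lit 0x48007c001100080000000000000000000000000000000) (nat_lit 0x0) (nat_lit 0x2000880000000000000000000000000000000000) := D_49 (nat_lit 157) (nat_lit 143) (nat_lit 139) (nat_lit 2) (nat_lit 4) (nat_lit 9) (nat_lit 0) (nat_lit 7) (nat_lit 9) (by decide +kernel)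
theorem L75624 : W_49 (nat_lit 3) (nat_lit 0x48007c001000080000000000000000000000000000000) (nat_lit 0x0) (nat_lit 0x2000b80000000000000000000000000000000000) := T_49 (nat_lit 140) (nat_lit 141) (nat_lit 0) (nat_lit 8) (nat_lit 9) L75623 (by decide +kernel)
theorem L75625 : W_49 (nat_lit 4) (nat_lit 0x480078001000080000000000000000000000000000000) (nat_lit 0x0) (nat_lit 0x40006000b80000000000000000000000000000000000) := T_49 (nat_lit 158) (nat_lit 174) (nat_lit 1) (nat_lit 8) (nat_lit 9) L75624 (by decide +kernel)
theorem L75626 : W_49 (nat_lit 5) (nat_lit 0x400078001000080000000000000000000000000000000) (nat_lit 0x0) (nat_lit 0x1c0006000b80000000000000000000000000000000000) := T_49 (nat_lit 175) (nat_lit 176) (nat_lit 1) (nat_lit 9) (nat_lit 9) L75625 (by decide +kernel)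
theorem L75627 : W_49 (nat_lit 2) (nat_lit 0x480078001200080000000000000000000000000000000) (nat_lit 0x0) (nat_lit 0x40004000100000000000000000000000000000000000) := D_49 (nat_lit 158) (nat_lit 174) (nat_lit 140) (nat_lit 1) (nat_lit 8) (nat_lit 9) (nat_lit 0) (nat_lit 8) (nat_lit 9) (by decide +kernel)
theorem L75628 : W_49 (nat_lit 3) (nat_lit 0x480078001000080000000000000000000000000000000) (nat_lit 0x0) (nat_lit 0x40004000700000000000000000000000000000000000) := T_49 (nat_lit 141) (nat_lit 142) (nat_lit 0) (nat_lit 9) (nat_lit 9) L75627 (by decide +kernel)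
theorem L75629 : W_49 (nat_lit 4) (nat_lit 0x400078001000080000000000000000000000000000000) (nat_lit 0x0) (nat_lit 0x1c0004000700000000000000000000000000000000000) := T_49 (nat_lit 175) (nat_lit 176) (nat_lit 1) (nat_lit 9) (nat_lit 9) L75628 (by decide +kernel)
theorem L75630 : W_49 (nat_lit 2) (nat_lit 0x48007c001800080000000000000000000000000000000) (nat_lit 0x0) (nat_lit 0x180000400000000000000000000000000000000000) := D_49 (nat_lit 163) (nat_lit 164) (nat_lit 142) (nat_lit 0) (nat_lit 11) (nat_lit 9) (nat_lit 0) (nat_lit 10) (nat_lit 9) (by decide +kernel)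
theorem L75631 : W_49 (nat_lit 3) (nat_lit 0x48007c001000080000000000000000000000000000000) (nat_lit 0x0) (nat_lit 0x182000c00000000000000000000000000000000000) := T_49 (nat_lit 143) (nat_lit 157) (nat_lit 2) (nat_lit 4) (nat_lit 9) L75630 (by decide +kernel)
theorem L75632 : W_49 (nat_lit 4) (nat_lit 0x480078001000080000000000000000000000000000000) (nat_lit 0x0) (nat_lit 0x40186000c00000000000000000000000000000000000) := T_49 (nat_lit 158) (nat_lit 174) (nat_lit 1) (nat_lit 8) (nat_lit 9) L75631 (by decide +kernel)
theorem L75633 : W_49 (nat_lit 5) (nat_lit 0x400078001000080000000000000000000000000000000) (nat_lit 0x0) (nat_lit 0x1c0186000c00000000000000000000000000000000000) := T_49 (nat_lit 175) (nat_lit 176) (nat_lit 1) (nat_lit 9) (nat_lit 9) L75632 (by decide +kernel)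
theorem L75637 : W_49 (nat_lit 5) (nat_lit 0x400078001400080000000000000000000000000000000) (nat_lit 0x0) (nat_lit 0x700018001c800000000000000000000000000000000000) := T_49 (nat_lit 163) (nat_lit 143) (nat_lit 0) (nat_lit 10) (nat_lit 9) L75636 (by decide +kernel)
theorem L75638 : W_49 (nat_lit 6) (nat_lit 0x400078001000080000000000000000000000000000000) (nat_lit 0x0) (nat_lit 0x700018001ce00000000000000000000000000000000000) := T_49 (nat_lit 142) (nat_lit 141) (nat_lit 0) (nat_lit 9) (nat_lit 9) L75637 (by decide +kernel)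
theorem L75639 : W_49 (nat_lit 8) (nat_lit 0x400070001000080000000000000000000000000000000) (nat_lit 0x0) (nat_lit 0x71c018e01cf80000000000000000000000000000000000) := Q_49 (nat_lit 159) (C_49 L1158 (C_49 L75626 (C_49 L75629 (C_49 L75633 (C_49 L75638 N_49))))) (by decide +kernel)
theorem L75640 : W_49 (nat_lit 9) (nat_lit 0x400030001000080000000000000000000000000000000) (nat_lit 0x0) (nat_lit 0x79c01ce01cf80000006000300008000000000000000000) := Q_49 (nat_lit 162) (C_49 L75622 (C_49 L1146 (C_49 L75639 (C_49 L1148 N_49)))) (by decide +kernel)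
theorem L75641 : W_49 (nat_lit 2) (nat_lit 0x400038001c00080000000000000000000000000000000) (nat_lit 0x0) (nat_lit 0x800006000000000000000000000000000000000000000) := D_49 (nat_lit 158) (nat_lit 179) (nat_lit 157) (nat_lit 3) (nat_lit 5) (nat_lit 9) (nat_lit 2) (nat_lit 4) (nat_lit 9) (by decide +kernel)
theorem L75642 : W_49 (nat_lit 2) (nat_lit 0xc000d00078001c00080000000000000000000000000000000) (nat_lit 0x0) (nat_lit 0x40003000000000000000000000000000000000000000000000000) := D_49 (nat_lit 193) (nat_lit 192) (nat_lit 210) (nat_lit 2) (nat_lit 5) (nat_lit 11) (nat_lit 6) (nat_lit 6) (nat_lit 12) (by decide +kernel)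
theorem L75643 : W_49 (nat_lit 3) (nat_lit 0xc000500078001c00080000000000000000000000000000000) (nat_lit 0x0) (nat_lit 0x40003001800000000000000000000000000000000000000000000) := T_49 (nat_lit 179) (nat_lit 180) (nat_lit 3) (nat_lit 6) (nat_lit 9) L75642 (by decide +kernel)
theorem L75644 : W_49 (nat_lit 4) (nat_lit 0xc000400078001c00080000000000000000000000000000000) (nat_lit 0x0) (nat_lit 0x40003001980000000000000000000000000000000000000000000) := T_49 (nat_lit 176) (nat_lit 175) (nat_lit 1) (nat_lit 9) (nat_lit 9) L75643 (by decide +kernel)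
theorem L75645 : W_49 (nat_lit 5) (nat_lit 0x8000400078001c00080000000000000000000000000000000) (nat_lit 0x0) (nat_lit 0xc0007001980000000000000000000000000000000000000000000) := T_49 (nat_lit 194) (nat_lit 211) (nat_lit 5) (nat_lit 8) (nat_lit 8) L75644 (by decide +kernel)
theorem L75646 : W_49 (nat_lit 6) (nat_lit 0x8000400038001c00080000000000000000000000000000000) (nat_lit 0x0) (nat_lit 0xc00070019800c0000000000000000000000000000000000000000) := T_49 (nat_lit 162) (nat_lit 163) (nat_lit 0) (nat_lit 10) (nat_lit 9) L75645 (by decide +kernel)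
theorem L75647 : W_49 (nat_lit 7) (nat_lit 0x400038001c00080000000000000000000000000000000) (nat_lit 0x0) (nat_lit 0x1c000f0019800c0000000000000000000000000000000000000000) := T_49 (nat_lit 195) (nat_lit 212) (nat_lit 4) (nat_lit 8) (nat_lit 12) L75646 (by decide +kernel)
theorem L75648 : W_49 (nat_lit 8) (nat_lit 0x400030001c00080000000000000000000000000000000) (nat_lit 0x0) (nat_lit 0x1e000f0019c00ce000000020001000000000000000000000000000) := Q_49 (nat_lit 159) (C_49 L75399 (C_49 L75641 (C_49 L75647 N_49))) (by decide +kernel)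
theorem L75649 : W_49 (nat_lit 9) (nat_lit 0x400030001800080000000000000000000000000000000) (nat_lit 0x0) (nat_lit 0x1e000f0019c00ce000700120001000000000000000000000000000) := Q_49 (nat_lit 142) (C_49 L75417 (C_49 L75408 (C_49 L75648 N_49))) (by decide +kernel)
theorem L75650 : W_49 (nat_lit 2) (nat_lit 0xf00078001c00080001000000000000000000000000000) (nat_lit 0x0) (nat_lit 0x40003000000000000000000000000000000000000000000000000) := D_49 (nat_lit 193) (nat_lit 210) (nat_lit 192) (nat_lit 6) (nat_lit 6) (nat_lit 12) (nat_lit 1) (nat_lit 9) (nat_lit 10) (by decide +kernel)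
theorem L75651 : W_49 (nat_lit 3) (nat_lit 0xe00078001c00080001000000000000000000000000000) (nat_lit 0x0) (nat_lit 0x40003000180000000000000000000000000000000000000000000) := T_49 (nat_lit 176) (nat_lit 175) (nat_lit 2) (nat_lit 5) (nat_lit 10) L75650 (by decide +kernel)
theorem L75652 : W_49 (nat_lit 4) (nat_lit 0xe00078001c00080000000000000000000000000000000) (nat_lit 0x0) (nat_lit 0x40003000180000000000020001000000000000000000000000000) := T_49 (nat_lit 108) (nat_lit 125) (nat_lit 7) (nat_lit 6) (nat_lit 6) L75651 (by decide +kernel)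
theorem L75653 : W_49 (nat_lit 5) (nat_lit 0xe00038001c00080000000000000000000000000000000) (nat_lit 0x0) (nat_lit 0x400030001800c0000000020001000000000000000000000000000) := T_49 (nat_lit 162) (nat_lit 163) (nat_lit 0) (nat_lit 10) (nat_lit 9) L75652 (by decide +kernel)
theorem L75654 : W_49 (nat_lit 6) (nat_lit 0x600038001c00080000000000000000000000000000000) (nat_lit 0x0) (nat_lit 0x400030019800c0000000020001000000000000000000000000000) := T_49 (nat_lit 179) (nat_lit 180) (nat_lit 0) (nat_lit 10) (nat_lit 10) L75653 (by decide +kernel)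
theorem L75655 : W_49 (nat_lit 7) (nat_lit 0x400038001c00080000000000000000000000000000000) (nat_lit 0x0) (nat_lit 0x40007001b800c0000000020001000000000000000000000000000) := T_49 (nat_lit 177) (nat_lit 194) (nat_lit 6) (nat_lit 7) (nat_lit 11) L75654 (by decide +kernel)
theorem L75656 : W_49 (nat_lit 8) (nat_lit 0x400030001c00080000000000000000000000000000000) (nat_lit 0x0) (nat_lit 0xc0007001b800ce000000020001000000000000000000000000000) := Q_49 (nat_lit 159) (C_49 L75641 (C_49 L75527 (C_49 L75655 N_49))) (by decide +kernel)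
theorem L75657 : W_49 (nat_lit 9) (nat_lit 0x400030001800080000000000000000000000000000000) (nat_lit 0x0) (nat_lit 0xc0007001b800ce000700120001000000000000000000000000000) := Q_49 (nat_lit 142) (C_49 L75417 (C_49 L75408 (C_49 L75656 N_49))) (by decide +kernel)
theorem L75658 : W_49 (nat_lit 8) (nat_lit 0x400030001c00080000000000000000000000000000000) (nat_lit 0x0) (nat_lit 0x60007001bc00ce000000020001000000000000000000000000000) := Q_49 (nat_lit 159) (C_49 L75641 (C_49 L75655 (C_49 L75522 N_49))) (by decide +kernel)
theorem L75659 : W_49 (nat_lit 9) (nat_lit 0x400030001800080000000000000000000000000000000) (nat_lit 0x0) (nat_lit 0x60007001bc00ce000700120001000000000000000000000000000) := Q_49 (nat_lit 142) (C_49 L75417 (C_49 L75408 (C_49 L75658 N_49))) (by decide +kernel)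
theorem L75660 : W_49 (nat_lit 2) (nat_lit 0x100002000d00078001c00080000000000000000000000000000000) (nat_lit 0x0) (nat_lit 0x20001000200000000000000000000000000000000000000000000) := D_49 (nat_lit 192) (nat_lit 209) (nat_lit 177) (nat_lit 5) (nat_lit 6) (nat_lit 8) (nat_lit 1) (nat_lit 9) (nat_lit 10) (by decide +kernel)
theorem L75661 : W_49 (nat_lit 3) (nat_lit 0x100000000d00078001c00080000000000000000000000000000000) (nat_lit 0x0) (nat_lit 0x60003000200000000000000000000000000000000000000000000) := T_49 (nat_lit 193) (nat_lit 210) (nat_lit 6) (nat_lit 6) (nat_lit 12) L75660 (by decide +kernel)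
theorem L75662 : W_49 (nat_lit 4) (nat_lit 0x100000000c00078001c00080000000000000000000000000000000) (nat_lit 0x0) (nat_lit 0x60003000380000000000000000000000000000000000000000000) := T_49 (nat_lit 176) (nat_lit 175) (nat_lit 1) (nat_lit 9) (nat_lit 9) L75661 (by decide +kernel)
theorem L75663 : W_49 (nat_lit 5) (nat_lit 0x100000000400078001c00080000000000000000000000000000000) (nat_lit 0x0) (nat_lit 0x60003001b80000000000000000000000000000000000000000000) := T_49 (nat_lit 179) (nat_lit 180) (nat_lit 3) (nat_lit 6) (nat_lit 9) L75662 (by decide +kernel)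
theorem L75664 : W_49 (nat_lit 6) (nat_lit 0x100000000400038001c00080000000000000000000000000000000) (nat_lit 0x0) (nat_lit 0x60003001b800c0000000000000000000000000000000000000000) := T_49 (nat_lit 162) (nat_lit 163) (nat_lit 0) (nat_lit 10) (nat_lit 9) L75663 (by decide +kernel)
theorem L75665 : W_49 (nat_lit 7) (nat_lit 0x400038001c00080000000000000000000000000000000) (nat_lit 0x0) (nat_lit 0x16000b001b800c0000000000000000000000000000000000000000) := T_49 (nat_lit 212) (nat_lit 195) (nat_lit 4) (nat_lit 8) (nat_lit 12) L75664 (by decide +kernel)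
theorem L75666 : W_49 (nat_lit 8) (nat_lit 0x400030001c00080000000000000000000000000000000) (nat_lit 0x0) (nat_lit 0x16000b001bc00ce000000020001000000000000000000000000000) := Q_49 (nat_lit 159) (C_49 L75641 (C_49 L75399 (C_49 L75665 N_49))) (by decide +kernel)
theorem L75667 : W_49 (nat_lit 9) (nat_lit 0x400030001800080000000000000000000000000000000) (nat_lit 0x0) (nat_lit 0x16000b001bc00ce000700120001000000000000000000000000000) := Q_49 (nat_lit 142) (C_49 L75417 (C_49 L75408 (C_49 L75666 N_49))) (by decide +kernel)
theorem L75668 : W_49 (nat_lit 10) (nat_lit 0x400030001000080000000000000000000000000000000) (nat_lit 0x0) (nat_lit 0x1e000f001bc00ce000f00120001000000000000000000000000000) := Q_49 (nat_lit 143) (C_49 L1093 (C_49 L75649 (C_49 L75657 (C_49 L75659 (C_49 L75667 N_49))))) (by decide +kernel)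
theorem L75669 : W_49 (nat_lit 11) (nat_lit 0x400020001000080000000000000000000000000000000) (nat_lit 0x0) (nat_lit 0x1e000f007bc01de01cf80120007000300008000000000000000000) := Q_49 (nat_lit 160) (C_49 L1088 (C_49 L75640 (C_49 L75668 N_49))) (by decide +kernel)
theorem L75670 : W_49 (nat_lit 2) (nat_lit 0xc00030001000080004000200000000000000000000000) (nat_lit 0x0) (nat_lit 0x2000100008000000000000000000) := D_49 (nat_lit 92) (nat_lit 75) (nat_lit 109) (nat_lit 4) (nat_lit 8) (nat_lit 8) (nat_lit 4) (nat_lit 8) (nat_lit 9) (by decide +kernel)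
theorem L75671 : W_49 (nat_lit 3) (nat_lit 0xc00030001000080004000000000000000000000000000) (nat_lit 0x0) (nat_lit 0x800000002000300008000000000000000000) := T_49 (nat_lit 93) (nat_lit 143) (nat_lit 5) (nat_lit 8) (nat_lit 5) L75670 (by decide +kernel)
theorem L75672 : W_49 (nat_lit 4) (nat_lit 0xc00020001000080004000000000000000000000000000) (nat_lit 0x0) (nat_lit 0x200010000800000002000300008000000000000000000) := T_49 (nat_lit 160) (nat_lit 177) (nat_lit 5) (nat_lit 8) (nat_lit 6) L75671 (by decide +kernel)
theorem L75673 : W_49 (nat_lit 5) (nat_lit 0xc00020001000080000000000000000000000000000000) (nat_lit 0x0) (nat_lit 0x200050000800000006000300008000000000000000000) := T_49 (nat_lit 110) (nat_lit 162) (nat_lit 7) (nat_lit 8) (nat_lit 6) L75672 (by decide +kernel)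
theorem L75674 : W_49 (nat_lit 6) (nat_lit 0x400020001000080000000000000000000000000000000) (nat_lit 0x0) (nat_lit 0x10000a00050000800000006000300008000000000000000000) := T_49 (nat_lit 179) (nat_lit 196) (nat_lit 7) (nat_lit 8) (nat_lit 7) L75673 (by decide +kernel)
theorem L75675 : W_49 (nat_lit 12) (nat_lit 0x20001000080000000000000000000000000000000) (nat_lit 0x0) (nat_lit 0x17000fe01ff007fc07de01cf80720037000300008000000000000000000) := Q_49 (nat_lit 178) (C_49 L75615 (C_49 L527 (C_49 L75621 (C_49 L575 (C_49 L75669 (C_49 L75674 N_49)))))) (by decide +kernel)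
theorem L75676 : W_49 (nat_lit 8) (nat_lit 0x20001000080000000000000000000000000000000) (nat_lit 0x0) (nat_lit 0x700038001c000e00050000800040006000300008000000000000000000) := Q_49 (nat_lit 178) (C_49 L75575 (C_49 L575 (C_49 L75674 (C_49 L75621 (C_49 L75572 N_49))))) (by decide +kernel)
theorem L75677 : W_49 (nat_lit 2) (nat_lit 0x20001800080004000300010000000000000000000) (nat_lit 0x0) (nat_lit 0x400020001000000000000000) := D_49 (nat_lit 77) (nat_lit 94) (nat_lit 60) (nat_lit 6) (nat_lit 8) (nat_lit 8) (nat_lit 6) (nat_lit 8) (nat_lit 7) (by decide +kernel)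
theorem L75678 : W_49 (nat_lit 3) (nat_lit 0x20001800080004000300000000000000000000000) (nat_lit 0x0) (nat_lit 0x40000000400030001000000000000000) := T_49 (nat_lit 76) (nat_lit 126) (nat_lit 5) (nat_lit 8) (nat_lit 4) L75677 (by decide +kernel)
theorem L75679 : W_49 (nat_lit 4) (nat_lit 0x20001000080004000300000000000000000000000) (nat_lit 0x0) (nat_lit 0x10000800040000000400030001000000000000000) := T_49 (nat_lit 143) (nat_lit 160) (nat_lit 5) (nat_lit 8) (nat_lit 5) L75678 (by decide +kernel)
theorem L75680 : W_49 (nat_lit 5) (nat_lit 0x20001000080004000100000000000000000000000) (nat_lit 0x0) (nat_lit 0x10000800040000000600038001000000000000000) := T_49 (nat_lit 93) (nat_lit 75) (nat_lit 4) (nat_lit 8) (nat_lit 8) L75679 (by decide +kernel)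
theorem L75681 : W_49 (nat_lit 6) (nat_lit 0x20001000080004000000000000000000000000000) (nat_lit 0x0) (nat_lit 0x10000800040002000700038001000000000000000) := T_49 (nat_lit 92) (nat_lit 109) (nat_lit 4) (nat_lit 8) (nat_lit 9) L75680 (by decide +kernel)
theorem L75687 : W_49 (nat_lit 2) (nat_lit 0x14000400020001000080006000000000000000000000000000) (nat_lit 0x0) (nat_lit 0x280008000000000000000000000000000000000000000000000000) := D_49 (nat_lit 195) (nat_lit 211) (nat_lit 213) (nat_lit 5) (nat_lit 8) (nat_lit 8) (nat_lit 7) (nat_lit 8) (nat_lit 8) (by decide +kernel)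
theorem L75688 : W_49 (nat_lit 3) (nat_lit 0x4000400020001000080006000000000000000000000000000) (nat_lit 0x0) (nat_lit 0x280018000800000000000000000000000000000000000000000000) := T_49 (nat_lit 196) (nat_lit 179) (nat_lit 7) (nat_lit 8) (nat_lit 7) L75687 (by decide +kernel)
theorem L75689 : W_49 (nat_lit 4) (nat_lit 0x400020001000080006000000000000000000000000000) (nat_lit 0x0) (nat_lit 0x28001c000a00000000000000000000000000000000000000000000) := T_49 (nat_lit 194) (nat_lit 177) (nat_lit 5) (nat_lit 8) (nat_lit 7) L75688 (by decide +kernel)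
theorem L75690 : W_49 (nat_lit 5) (nat_lit 0x20001000080006000000000000000000000000000) (nat_lit 0x0) (nat_lit 0x28001c000e00000000000040000000000000000000000000000000) := T_49 (nat_lit 178) (nat_lit 126) (nat_lit 4) (nat_lit 8) (nat_lit 10) L75689 (by decide +kernel)
theorem L75691 : W_49 (nat_lit 6) (nat_lit 0x20001000080004000000000000000000000000000) (nat_lit 0x0) (nat_lit 0x28001c000e00000000000040002000100000000000000000000000) := T_49 (nat_lit 109) (nat_lit 92) (nat_lit 4) (nat_lit 8) (nat_lit 9) L75690 (by decide +kernel)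
theorem L75692 : W_49 (nat_lit 7) (nat_lit 0x20001000080000000000000000000000000000000) (nat_lit 0x0) (nat_lit 0x28001c000e00010000800040006000700038001400000000000000) := Q_49 (nat_lit 110) (C_49 L75681 (C_49 L1584 (C_49 L75686 (C_49 L1032 (C_49 L2183 (C_49 L75691 N_49)))))) (by decide +kernel)
theorem L75693 : W_49 (nat_lit 8) (nat_lit 0x20001000080000000000000000000000000000000) (nat_lit 0x0) (nat_lit 0x700038001c000e00050000800040006000000000000000000000000000) := Q_49 (nat_lit 178) (C_49 L75575 (C_49 L575 (C_49 L75621 (C_49 L75572 N_49)))) (by decide +kernel)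
theorem L75694 : W_49 (nat_lit 2) (nat_lit 0x2800080004000200010000c0000000000000000000000000000000) (nat_lit 0x0) (nat_lit 0x5000100000000000000000000000000000000000000000000000000000) := D_49 (nat_lit 212) (nat_lit 228) (nat_lit 230) (nat_lit 5) (nat_lit 8) (nat_lit 9) (nat_lit 7) (nat_lit 8) (nat_lit 9) (by decide +kernel)
theorem L75695 : W_49 (nat_lit 3) (nat_lit 0x800080004000200010000c0000000000000000000000000000000) (nat_lit 0x0) (nat_lit 0x5000300010000000000000000000000000000000000000000000000000) := T_49 (nat_lit 213) (nat_lit 196) (nat_lit 7) (nat_lit 8) (nat_lit 8) L75694 (by decide +kernel)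
theorem L75696 : W_49 (nat_lit 4) (nat_lit 0x80004000200010000c0000000000000000000000000000000) (nat_lit 0x0) (nat_lit 0x5000380014000000000000000000000000000000000000000000000000) := T_49 (nat_lit 211) (nat_lit 194) (nat_lit 5) (nat_lit 8) (nat_lit 8) L75695 (by decide +kernel)
theorem L75697 : W_49 (nat_lit 5) (nat_lit 0x4000200010000c0000000000000000000000000000000) (nat_lit 0x0) (nat_lit 0x500038001c000000000000800000000000000000000000000000000000) := T_49 (nat_lit 195) (nat_lit 143) (nat_lit 4) (nat_lit 8) (nat_lit 11) L75696 (by decide +kernel)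
theorem L75698 : W_49 (nat_lit 6) (nat_lit 0x400020001000080000000000000000000000000000000) (nat_lit 0x0) (nat_lit 0x500038001c000000000000800040002000000000000000000000000000) := T_49 (nat_lit 126) (nat_lit 109) (nat_lit 4) (nat_lit 8) (nat_lit 10) L75697 (by decide +kernel)
theorem L75699 : W_49 (nat_lit 2) (nat_lit 0x4000600018000c0004000000000000000000000000000) (nat_lit 0x0) (nat_lit 0x10000000000000000200010000000000000000000) := D_49 (nat_lit 93) (nat_lit 76) (nat_lit 160) (nat_lit 5) (nat_lit 8) (nat_lit 4) (nat_lit 5) (nat_lit 8) (nat_lit 5) (by decide +kernel)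
theorem L75700 : W_49 (nat_lit 3) (nat_lit 0x4000600010000c0004000000000000000000000000000) (nat_lit 0x0) (nat_lit 0x8000000010000800000000000200010000000000000000000) := T_49 (nat_lit 143) (nat_lit 195) (nat_lit 4) (nat_lit 8) (nat_lit 11) L75699 (by decide +kernel)
theorem L75701 : W_49 (nat_lit 4) (nat_lit 0x4000600010000c0000000000000000000000000000000) (nat_lit 0x0) (nat_lit 0x8000800010000800000004000200010000000000000000000) := T_49 (nat_lit 110) (nat_lit 179) (nat_lit 7) (nat_lit 8) (nat_lit 6) L75700 (by decide +kernel)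
theorem L75702 : W_49 (nat_lit 5) (nat_lit 0x400060001000080000000000000000000000000000000) (nat_lit 0x0) (nat_lit 0x8000800010000800040006000200010000000000000000000) := T_49 (nat_lit 126) (nat_lit 109) (nat_lit 4) (nat_lit 8) (nat_lit 10) L75701 (by decide +kernel)
theorem L75703 : W_49 (nat_lit 5) (nat_lit 0x4000600010000c0000000000000000000000000000000) (nat_lit 0x0) (nat_lit 0x300018000c000800000000800000004000000000000000000000000000) := T_49 (nat_lit 179) (nat_lit 110) (nat_lit 7) (nat_lit 8) (nat_lit 6) L890 (by decide +kernel)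
theorem L75704 : W_49 (nat_lit 6) (nat_lit 0x400060001000080000000000000000000000000000000) (nat_lit 0x0) (nat_lit 0x300018000c000800000000800040006000000000000000000000000000) := T_49 (nat_lit 126) (nat_lit 109) (nat_lit 4) (nat_lit 8) (nat_lit 10) L75703 (by decide +kernel)
theorem L75705 : W_49 (nat_lit 9) (nat_lit 0x400060001000080000000000000000000000000000000) (nat_lit 0x0) (nat_lit 0x79c019e01cf80000006000300008000000000000000000) := Q_49 (nat_lit 160) (C_49 L75639 (C_49 L1148 (C_49 L1146 N_49))) (by decide +kernel)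
theorem L75706 : W_49 (nat_lit 2) (nat_lit 0x400060001800080004000200000000000000000000000) (nat_lit 0x0) (nat_lit 0x8000000000000000040000000000010000000000000000000) := D_49 (nat_lit 126) (nat_lit 76) (nat_lit 195) (nat_lit 5) (nat_lit 8) (nat_lit 4) (nat_lit 4) (nat_lit 8) (nat_lit 11) (by decide +kernel)
theorem L75707 : W_49 (nat_lit 3) (nat_lit 0x400060001800080004000000000000000000000000000) (nat_lit 0x0) (nat_lit 0x8000000010000000040000000200010000000000000000000) := T_49 (nat_lit 93) (nat_lit 160) (nat_lit 5) (nat_lit 8) (nat_lit 5) L75706 (by decide +kernel)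
theorem L75708 : W_49 (nat_lit 4) (nat_lit 0x400060001800080000000000000000000000000000000) (nat_lit 0x0) (nat_lit 0x8000800010000000040004000200010000000000000000000) := T_49 (nat_lit 110) (nat_lit 179) (nat_lit 7) (nat_lit 8) (nat_lit 6) L75707 (by decide +kernel)
theorem L75709 : W_49 (nat_lit 2) (nat_lit 0x80008000c00060001a00080000000000000000000000000000000) (nat_lit 0x0) (nat_lit 0x3000100000000000000000000000000000000000000000000000000000) := D_49 (nat_lit 212) (nat_lit 228) (nat_lit 229) (nat_lit 5) (nat_lit 8) (nat_lit 9) (nat_lit 6) (nat_lit 8) (nat_lit 13) (by decide +kernel)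
theorem L75710 : W_49 (nat_lit 3) (nat_lit 0x80008000400060001a00080000000000000000000000000000000) (nat_lit 0x0) (nat_lit 0x3000100000000800000000000000004000000000000000000000000000) := T_49 (nat_lit 179) (nat_lit 110) (nat_lit 7) (nat_lit 8) (nat_lit 6) L75709 (by decide +kernel)
theorem L75711 : W_49 (nat_lit 4) (nat_lit 0x8000400060001a00080000000000000000000000000000000) (nat_lit 0x0) (nat_lit 0x3000180004000800000000000000004000000000000000000000000000) := T_49 (nat_lit 211) (nat_lit 194) (nat_lit 5) (nat_lit 8) (nat_lit 8) L75710 (by decide +kernel)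
theorem L75712 : W_49 (nat_lit 5) (nat_lit 0x8000400060001800080000000000000000000000000000000) (nat_lit 0x0) (nat_lit 0x3000180004000800000000600000004000000000000000000000000000) := T_49 (nat_lit 141) (nat_lit 142) (nat_lit 3) (nat_lit 5) (nat_lit 8) L75711 (by decide +kernel)
theorem L75713 : W_49 (nat_lit 6) (nat_lit 0x400060001800080000000000000000000000000000000) (nat_lit 0x0) (nat_lit 0x300018000c000800000000600040004000000000000000000000000000) := T_49 (nat_lit 195) (nat_lit 126) (nat_lit 4) (nat_lit 8) (nat_lit 11) L75712 (by decide +kernel)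
theorem L75714 : W_49 (nat_lit 7) (nat_lit 0x400060001000080000000000000000000000000000000) (nat_lit 0x0) (nat_lit 0x300018000c000800190000e00040004000200010000000000000000000) := Q_49 (nat_lit 143) (C_49 L488 (C_49 L75708 (C_49 L75713 N_49))) (by decide +kernel)
theorem L75715 : W_49 (nat_lit 3) (nat_lit 0x4000600018000c0000000000000000000000000000000) (nat_lit 0x0) (nat_lit 0x190000600000000000000000000000000000000000) := T_49 (nat_lit 142) (nat_lit 141) (nat_lit 3) (nat_lit 5) (nat_lit 8) L75404 (by decide +kernel)
theorem L75716 : W_49 (nat_lit 4) (nat_lit 0x4000600010000c0000000000000000000000000000000) (nat_lit 0x0) (nat_lit 0x8000000190000e00000000000000000000000000000000000) := T_49 (nat_lit 143) (nat_lit 195) (nat_lit 4) (nat_lit 8) (nat_lit 11) L75715 (by decide +kernel)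
theorem L75717 : W_49 (nat_lit 5) (nat_lit 0x400060001000080000000000000000000000000000000) (nat_lit 0x0) (nat_lit 0x8000000190000e00040002000000000000000000000000000) := T_49 (nat_lit 126) (nat_lit 109) (nat_lit 4) (nat_lit 8) (nat_lit 10) L75716 (by decide +kernel)
theorem L75718 : W_49 (nat_lit 2) (nat_lit 0x400060001000080002000000000000000000000000000) (nat_lit 0x0) (nat_lit 0x800000000000000004000100000000000000000000000) := D_49 (nat_lit 110) (nat_lit 179) (nat_lit 92) (nat_lit 7) (nat_lit 8) (nat_lit 6) (nat_lit 4) (nat_lit 8) (nat_lit 9) (by decide +kernel)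
theorem L75719 : W_49 (nat_lit 3) (nat_lit 0x400060001000080000000000000000000000000000000) (nat_lit 0x0) (nat_lit 0x800000000000040006000100000000000000000000000) := T_49 (nat_lit 109) (nat_lit 126) (nat_lit 4) (nat_lit 8) (nat_lit 10) L75718 (by decide +kernel)
theorem L75720 : W_49 (nat_lit 10) (nat_lit 0x400020001000080000000000000000000000000000000) (nat_lit 0x0) (nat_lit 0x300018000c0079c01de01cf80040006000300018000000000000000000) := Q_49 (nat_lit 162) (C_49 L75702 (C_49 L75704 (C_49 L75705 (C_49 L75714 (C_49 L75717 (C_49 L75719 N_49)))))) (by decide +kernel)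
theorem L75721 : W_49 (nat_lit 12) (nat_lit 0x20001000080000000000000000000000000000000) (nat_lit 0x0) (nat_lit 0x17000f801fc007dc07de01cf80740036000300018000000000000000000) := Q_49 (nat_lit 178) (C_49 L1017 (C_49 L75575 (C_49 L75615 (C_49 L1770 (C_49 L75698 (C_49 L75720 N_49)))))) (by decide +kernel)
theorem L75722 : W_49 (nat_lit 9) (nat_lit 0x20001000080000000000000000000000000000000) (nat_lit 0x0) (nat_lit 0x700038001c000e000d0000e00040004000700038001400000000000000) := Q_49 (nat_lit 178) (C_49 L1770 (C_49 L575 (C_49 L527 (C_49 L75621 (C_49 L1777 (C_49 L1760 N_49)))))) (by decide +kernel)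
theorem L75723 : W_49 (nat_lit 7) (nat_lit 0x20001000080000000000000000000000000000000) (nat_lit 0x0) (nat_lit 0x500038001c000e00040000800040006000100000000000000000000000) := Q_49 (nat_lit 178) (C_49 L75698 (C_49 L1017 (C_49 L527 (C_49 L75572 N_49)))) (by decide +kernel)
theorem L75724 : W_49 (nat_lit 2) (nat_lit 0x40004000200010000c0004000000000000000000000000000) (nat_lit 0x0) (nat_lit 0x80008000000000000800000000000000000000000000000000000) := D_49 (nat_lit 195) (nat_lit 211) (nat_lit 143) (nat_lit 5) (nat_lit 8) (nat_lit 8) (nat_lit 4) (nat_lit 8) (nat_lit 11) (by decide +kernel)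
theorem L75725 : W_49 (nat_lit 3) (nat_lit 0x4000400020001000080004000000000000000000000000000) (nat_lit 0x0) (nat_lit 0x80008000000000000800040002000000000000000000000000000) := T_49 (nat_lit 126) (nat_lit 109) (nat_lit 4) (nat_lit 8) (nat_lit 10) L75724 (by decide +kernel)
theorem L75726 : W_49 (nat_lit 4) (nat_lit 0x400020001000080004000000000000000000000000000) (nat_lit 0x0) (nat_lit 0x8000c000200000000800040002000000000000000000000000000) := T_49 (nat_lit 194) (nat_lit 177) (nat_lit 5) (nat_lit 8) (nat_lit 7) L75725 (by decide +kernel)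
theorem L75727 : W_49 (nat_lit 2) (nat_lit 0x400020001000080004000000000000000000000000000) (nat_lit 0x0) (nat_lit 0x4000200010000000000000000000000000000000000000000) := D_49 (nat_lit 177) (nat_lit 194) (nat_lit 160) (nat_lit 5) (nat_lit 8) (nat_lit 7) (nat_lit 5) (nat_lit 8) (nat_lit 6) (by decide +kernel)
theorem L75728 : W_49 (nat_lit 2) (nat_lit 0x2800080004000200010000c0004000000000000000000000000000) (nat_lit 0x0) (nat_lit 0x5000100000000000000000000000000000000000000000000000000000) := D_49 (nat_lit 212) (nat_lit 228) (nat_lit 230) (nat_lit 5) (nat_lit 8) (nat_lit 9) (nat_lit 7) (nat_lit 8) (nat_lit 9) (by decide +kernel)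
theorem L75729 : W_49 (nat_lit 3) (nat_lit 0x800080004000200010000c0004000000000000000000000000000) (nat_lit 0x0) (nat_lit 0x5000300010000000000000000000000000000000000000000000000000) := T_49 (nat_lit 213) (nat_lit 196) (nat_lit 7) (nat_lit 8) (nat_lit 8) L75728 (by decide +kernel)
theorem L75730 : W_49 (nat_lit 4) (nat_lit 0x80004000200010000c0004000000000000000000000000000) (nat_lit 0x0) (nat_lit 0x5000380014000000000000000000000000000000000000000000000000) := T_49 (nat_lit 211) (nat_lit 194) (nat_lit 5) (nat_lit 8) (nat_lit 8) L75729 (by decide +kernel)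
theorem L75731 : W_49 (nat_lit 5) (nat_lit 0x4000200010000c0004000000000000000000000000000) (nat_lit 0x0) (nat_lit 0x500038001c000000000000800000000000000000000000000000000000) := T_49 (nat_lit 195) (nat_lit 143) (nat_lit 4) (nat_lit 8) (nat_lit 11) L75730 (by decide +kernel)
theorem L75732 : W_49 (nat_lit 6) (nat_lit 0x400020001000080004000000000000000000000000000) (nat_lit 0x0) (nat_lit 0x500038001c000000000000800040002000000000000000000000000000) := T_49 (nat_lit 126) (nat_lit 109) (nat_lit 4) (nat_lit 8) (nat_lit 10) L75731 (by decide +kernel)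
theorem L75733 : W_49 (nat_lit 2) (nat_lit 0x4000300010000c0004000000000000000000000000000) (nat_lit 0x0) (nat_lit 0x8000000000000800000000000200000000000000000000000) := D_49 (nat_lit 143) (nat_lit 93) (nat_lit 195) (nat_lit 5) (nat_lit 8) (nat_lit 5) (nat_lit 4) (nat_lit 8) (nat_lit 11) (by decide +kernel)
theorem L75734 : W_49 (nat_lit 3) (nat_lit 0x4000200010000c0004000000000000000000000000000) (nat_lit 0x0) (nat_lit 0x8000200010000800000000000200000000000000000000000) := T_49 (nat_lit 160) (nat_lit 177) (nat_lit 5) (nat_lit 8) (nat_lit 6) L75733 (by decide +kernel)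
theorem L75735 : W_49 (nat_lit 4) (nat_lit 0x400020001000080004000000000000000000000000000) (nat_lit 0x0) (nat_lit 0x8000200010000800040002000200000000000000000000000) := T_49 (nat_lit 126) (nat_lit 109) (nat_lit 4) (nat_lit 8) (nat_lit 10) L75734 (by decide +kernel)
theorem L75736 : W_49 (nat_lit 7) (nat_lit 0x20001000080004000000000000000000000000000) (nat_lit 0x0) (nat_lit 0x500038001c000600010000800040002000200000000000000000000000) := Q_49 (nat_lit 178) (C_49 L75726 (C_49 L75727 (C_49 L75732 (C_49 L75735 N_49)))) (by decide +kernel)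
theorem L75737 : W_49 (nat_lit 2) (nat_lit 0x200010000c0004000200030000000000000000000) (nat_lit 0x0) (nat_lit 0x400000000000000002000000000000800000000000000) := D_49 (nat_lit 109) (nat_lit 59) (nat_lit 178) (nat_lit 5) (nat_lit 8) (nat_lit 3) (nat_lit 4) (nat_lit 8) (nat_lit 10) (by decide +kernel)
theorem L75738 : W_49 (nat_lit 3) (nat_lit 0x20001000080004000200030000000000000000000) (nat_lit 0x0) (nat_lit 0x400000000800040002000000000000800000000000000) := T_49 (nat_lit 126) (nat_lit 143) (nat_lit 5) (nat_lit 8) (nat_lit 4) L75737 (by decide +kernel)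
theorem L75739 : W_49 (nat_lit 4) (nat_lit 0x20001000080004000200020000000000000000000) (nat_lit 0x0) (nat_lit 0x400000000800040002000000010001800000000000000) := T_49 (nat_lit 76) (nat_lit 60) (nat_lit 6) (nat_lit 8) (nat_lit 7) L75738 (by decide +kernel)
theorem L75740 : W_49 (nat_lit 5) (nat_lit 0x20001000080004000200000000000000000000000) (nat_lit 0x0) (nat_lit 0x400000000800040002000400030001800000000000000) := T_49 (nat_lit 77) (nat_lit 94) (nat_lit 6) (nat_lit 8) (nat_lit 8) L75739 (by decide +kernel)
theorem L75741 : W_49 (nat_lit 2) (nat_lit 0x20001000080004000200000000000000000000000) (nat_lit 0x0) (nat_lit 0x2000100008000000000000000000) := D_49 (nat_lit 92) (nat_lit 75) (nat_lit 109) (nat_lit 4) (nat_lit 8) (nat_lit 8) (nat_lit 4) (nat_lit 8) (nat_lit 9) (by decide +kernel)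
theorem L75742 : W_49 (nat_lit 2) (nat_lit 0x20001000080004000200028000000000000000000) (nat_lit 0x0) (nat_lit 0x10001400000000000000) := D_49 (nat_lit 76) (nat_lit 60) (nat_lit 58) (nat_lit 6) (nat_lit 8) (nat_lit 7) (nat_lit 4) (nat_lit 8) (nat_lit 7) (by decide +kernel)
theorem L75743 : W_49 (nat_lit 3) (nat_lit 0x20001000080004000200020000000000000000000) (nat_lit 0x0) (nat_lit 0x100018001400000000000000) := T_49 (nat_lit 75) (nat_lit 92) (nat_lit 4) (nat_lit 8) (nat_lit 8) L75742 (by decide +kernel)
theorem L75744 : W_49 (nat_lit 4) (nat_lit 0x20001000080004000200000000000000000000000) (nat_lit 0x0) (nat_lit 0x500038001400000000000000) := T_49 (nat_lit 77) (nat_lit 94) (nat_lit 6) (nat_lit 8) (nat_lit 8) L75743 (by decide +kernel)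
theorem L75745 : W_49 (nat_lit 6) (nat_lit 0x20001000080004000000000000000000000000000) (nat_lit 0x0) (nat_lit 0x400000000800040002000700038001c00000000000000) := Q_49 (nat_lit 93) (C_49 L75740 (C_49 L75741 (C_49 L75744 N_49))) (by decide +kernel)
theorem L75746 : W_49 (nat_lit 8) (nat_lit 0x20001000080000000000000000000000000000000) (nat_lit 0x0) (nat_lit 0x500038001c000600010000800040006000700038001c00000000000000) := Q_49 (nat_lit 110) (C_49 L75681 (C_49 L1584 (C_49 L2183 (C_49 L75736 (C_49 L75745 N_49))))) (by decide +kernel)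
theorem L75747 : W_49 (nat_lit 2) (nat_lit 0x600020001000080002000000000000000000000000000) (nat_lit 0x0) (nat_lit 0x10000000000004000100000000000000000000000) := D_49 (nat_lit 110) (nat_lit 160) (nat_lit 92) (nat_lit 5) (nat_lit 8) (nat_lit 6) (nat_lit 4) (nat_lit 8) (nat_lit 9) (by decide +kernel)
theorem L75748 : W_49 (nat_lit 3) (nat_lit 0x400020001000080002000000000000000000000000000) (nat_lit 0x0) (nat_lit 0x4000200010000000000004000100000000000000000000000) := T_49 (nat_lit 177) (nat_lit 194) (nat_lit 5) (nat_lit 8) (nat_lit 7) L75747 (by decide +kernel)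
theorem L75749 : W_49 (nat_lit 4) (nat_lit 0x400020001000080000000000000000000000000000000) (nat_lit 0x0) (nat_lit 0x4000200010000000040006000100000000000000000000000) := T_49 (nat_lit 109) (nat_lit 126) (nat_lit 4) (nat_lit 8) (nat_lit 10) L75748 (by decide +kernel)
theorem L75750 : W_49 (nat_lit 5) (nat_lit 0x20001000080000000000000000000000000000000) (nat_lit 0x0) (nat_lit 0x28001c000e00050000000040006000100000000000000000000000) := Q_49 (nat_lit 178) (C_49 L1017 (C_49 L527 (C_49 L75749 N_49))) (by decide +kernel)
theorem L75751 : W_49 (nat_lit 7) (nat_lit 0x20001000080000000000000000000000000000000) (nat_lit 0x0) (nat_lit 0x4000e000d0000e00040006000700038001c00000000000000) := Q_49 (nat_lit 110) (C_49 L75745 (C_49 L1584 (C_49 L638 N_49))) (by decide +kernel)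
theorem L75752 : W_49 (nat_lit 2) (nat_lit 0x400030001000080006000000000000000000000000000) (nat_lit 0x0) (nat_lit 0x10000800040000000000000000000000000000000000000000) := D_49 (nat_lit 179) (nat_lit 162) (nat_lit 196) (nat_lit 7) (nat_lit 8) (nat_lit 6) (nat_lit 7) (nat_lit 8) (nat_lit 7) (by decide +kernel)
theorem L75753 : W_49 (nat_lit 3) (nat_lit 0x30001000080006000000000000000000000000000) (nat_lit 0x0) (nat_lit 0x10000c00040000000040000000000000000000000000000000) := T_49 (nat_lit 178) (nat_lit 126) (nat_lit 4) (nat_lit 8) (nat_lit 10) L75752 (by decide +kernel)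
theorem L75754 : W_49 (nat_lit 4) (nat_lit 0x20001000080006000000000000000000000000000) (nat_lit 0x0) (nat_lit 0x10000e00050000000040000000000000000000000000000000) := T_49 (nat_lit 160) (nat_lit 177) (nat_lit 5) (nat_lit 8) (nat_lit 6) L75753 (by decide +kernel)
theorem L75755 : W_49 (nat_lit 5) (nat_lit 0x20001000080004000000000000000000000000000) (nat_lit 0x0) (nat_lit 0x10000e00050000000040002000100000000000000000000000) := T_49 (nat_lit 109) (nat_lit 92) (nat_lit 4) (nat_lit 8) (nat_lit 9) L75754 (by decide +kernel)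
theorem L75756 : W_49 (nat_lit 7) (nat_lit 0x20001000080000000000000000000000000000000) (nat_lit 0x0) (nat_lit 0x10000e000d0000e00040006000700038001c00000000000000) := Q_49 (nat_lit 110) (C_49 L75745 (C_49 L75755 (C_49 L638 N_49))) (by decide +kernel)
theorem L75757 : W_49 (nat_lit 18) (nat_lit 0x1000080000000000000000000000000000000) (nat_lit 0x0) (nat_lit 0xa0017000ff01ffc07ff87ff81cfe077c037c007f003f001c00000000000000) := Q_49 (nat_lit 161) (C_49 L75349 (C_49 L75576 (C_49 L75675 (C_49 L75676 (C_49 L75692 (C_49 L75693 (C_49 L75721 (C_49 L75722 (C_49 L75723 (C_49 L75746 (C_49 L75750 (C_49 L75751 (C_49 L75756 N_49))))))))))))) (by decide +kernel)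
theorem L75900 : W_49 (nat_lit 2) (nat_lit 0x20001800680006000000000000000000000000000) (nat_lit 0x0) (nat_lit 0x18000400000000000000000000000) := D_49 (nat_lit 111) (nat_lit 94) (nat_lit 112) (nat_lit 6) (nat_lit 8) (nat_lit 9) (nat_lit 3) (nat_lit 7) (nat_lit 6) (by decide +kernel)
theorem L75901 : W_49 (nat_lit 3) (nat_lit 0x20001800280006000000000000000000000000000) (nat_lit 0x0) (nat_lit 0x500018000400000000000000000000000) := T_49 (nat_lit 130) (nat_lit 128) (nat_lit 1) (nat_lit 11) (nat_lit 7) L75900 (by decide +kernel)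
theorem L75902 : W_49 (nat_lit 4) (nat_lit 0x20001800280004000000000000000000000000000) (nat_lit 0x0) (nat_lit 0x50001a000500000000000000000000000) := T_49 (nat_lit 109) (nat_lit 92) (nat_lit 4) (nat_lit 8) (nat_lit 9) L75901 (by decide +kernel)
theorem L75903 : W_49 (nat_lit 2) (nat_lit 0x2000180028001e000000000000000000000000000) (nat_lit 0x0) (nat_lit 0x60020000000000000000000000000000) := D_49 (nat_lit 126) (nat_lit 125) (nat_lit 113) (nat_lit 1) (nat_lit 10) (nat_lit 6) (nat_lit 1) (nat_lit 11) (nat_lit 6) (by decide +kernel)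
theorem L75904 : W_49 (nat_lit 3) (nat_lit 0x2000180028000e000000000000000000000000000) (nat_lit 0x0) (nat_lit 0x460030000000000000000000000000000) := T_49 (nat_lit 112) (nat_lit 130) (nat_lit 3) (nat_lit 7) (nat_lit 6) L75903 (by decide +kernel)
theorem L75905 : W_49 (nat_lit 4) (nat_lit 0x2000180028000c000000000000000000000000000) (nat_lit 0x0) (nat_lit 0x460032000100000000000000000000000) := T_49 (nat_lit 109) (nat_lit 92) (nat_lit 4) (nat_lit 8) (nat_lit 9) L75904 (by decide +kernel)
theorem L75906 : W_49 (nat_lit 5) (nat_lit 0x20001800280004000000000000000000000000000) (nat_lit 0x0) (nat_lit 0x46003a000500000000000000000000000) := T_49 (nat_lit 111) (nat_lit 94) (nat_lit 6) (nat_lit 8) (nat_lit 9) L75905 (by decide +kernel)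
theorem L75910 : W_49 (nat_lit 5) (nat_lit 0xe0001a0028000c000000000000000000000000000) (nat_lit 0x0) (nat_lit 0x100000000c000560030000000000000000000000000000) := T_49 (nat_lit 128) (nat_lit 130) (nat_lit 1) (nat_lit 11) (nat_lit 7) L75909 (by decide +kernel)
theorem L75911 : W_49 (nat_lit 6) (nat_lit 0xe0001a00280004000000000000000000000000000) (nat_lit 0x0) (nat_lit 0x100000000c000560038000400000000000000000000000) := T_49 (nat_lit 111) (nat_lit 94) (nat_lit 6) (nat_lit 8) (nat_lit 9) L75910 (by decide +kernel)
theorem L75912 : W_49 (nat_lit 7) (nat_lit 0x60001a00280004000000000000000000000000000) (nat_lit 0x0) (nat_lit 0x100018000c000560038000400000000000000000000000) := T_49 (nat_lit 163) (nat_lit 164) (nat_lit 0) (nat_lit 11) (nat_lit 9) L75911 (by decide +kernel)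
theorem L75913 : W_49 (nat_lit 8) (nat_lit 0x60001800280004000000000000000000000000000) (nat_lit 0x0) (nat_lit 0x100018000c600560038000400000000000000000000000) := T_49 (nat_lit 141) (nat_lit 142) (nat_lit 3) (nat_lit 5) (nat_lit 8) L75912 (by decide +kernel)
theorem L75914 : W_49 (nat_lit 9) (nat_lit 0x20001800280004000000000000000000000000000) (nat_lit 0x0) (nat_lit 0x18001c000c600560038000400000000000000000000000) := T_49 (nat_lit 162) (nat_lit 179) (nat_lit 7) (nat_lit 8) (nat_lit 6) L75913 (by decide +kernel)
theorem L75917 : W_49 (nat_lit 2) (nat_lit 0x160001a002c000f800040000000000000000000000) (nat_lit 0x0) (nat_lit 0x20030000000000000000000000000000) := D_49 (nat_lit 112) (nat_lit 113) (nat_lit 125) (nat_lit 1) (nat_lit 11) (nat_lit 6) (nat_lit 1) (nat_lit 10) (nat_lit 6) (by decide +kernel)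
theorem L75918 : W_49 (nat_lit 3) (nat_lit 0x160001a0028000f800040000000000000000000000) (nat_lit 0x0) (nat_lit 0x60030400000000000000000000000000) := T_49 (nat_lit 126) (nat_lit 106) (nat_lit 3) (nat_lit 4) (nat_lit 6) L75917 (by decide +kernel)
theorem L75919 : W_49 (nat_lit 4) (nat_lit 0x160001a0028000f000040000000000000000000000) (nat_lit 0x0) (nat_lit 0x60030c00020000000000000000000000) := T_49 (nat_lit 107) (nat_lit 89) (nat_lit 0) (nat_lit 8) (nat_lit 6) L75918 (by decide +kernel)
theorem L75920 : W_49 (nat_lit 5) (nat_lit 0x160001a0028000f000000000000000000000000000) (nat_lit 0x0) (nat_lit 0x60030c000e0000000000000000000000) := T_49 (nat_lit 90) (nat_lit 91) (nat_lit 0) (nat_lit 9) (nat_lit 6) L75919 (by decide +kernel)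
theorem L75921 : W_49 (nat_lit 6) (nat_lit 0x160001a0028000e000000000000000000000000000) (nat_lit 0x0) (nat_lit 0x160031c000e0000000000000000000000) := T_49 (nat_lit 108) (nat_lit 128) (nat_lit 3) (nat_lit 6) (nat_lit 6) L75920 (by decide +kernel)
theorem L75922 : W_49 (nat_lit 7) (nat_lit 0x160001a00280006000000000000000000000000000) (nat_lit 0x0) (nat_lit 0x160039c004e0000000000000000000000) := T_49 (nat_lit 111) (nat_lit 94) (nat_lit 6) (nat_lit 8) (nat_lit 9) L75921 (by decide +kernel)
theorem L75923 : W_49 (nat_lit 8) (nat_lit 0x60001a00280006000000000000000000000000000) (nat_lit 0x0) (nat_lit 0x180000000160039c004e0000000000000000000000) := T_49 (nat_lit 164) (nat_lit 163) (nat_lit 0) (nat_lit 11) (nat_lit 9) L75922 (by decide +kernel)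
theorem L75924 : W_49 (nat_lit 9) (nat_lit 0x60001800280006000000000000000000000000000) (nat_lit 0x0) (nat_lit 0x180000600160039c004e0000000000000000000000) := T_49 (nat_lit 141) (nat_lit 142) (nat_lit 3) (nat_lit 5) (nat_lit 8) L75923 (by decide +kernel)
theorem L75925 : W_49 (nat_lit 10) (nat_lit 0x20001800280006000000000000000000000000000) (nat_lit 0x0) (nat_lit 0x8001c0000600160039c004e0000000000000000000000) := T_49 (nat_lit 162) (nat_lit 179) (nat_lit 7) (nat_lit 8) (nat_lit 6) L75924 (by decide +kernel)
theorem L75926 : W_49 (nat_lit 11) (nat_lit 0x20001800280004000000000000000000000000000) (nat_lit 0x0) (nat_lit 0x8001c000060016003bc005e0000000000000000000000) := T_49 (nat_lit 109) (nat_lit 92) (nat_lit 4) (nat_lit 8) (nat_lit 9) L75925 (by decide +kernel)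
theorem L75927 : W_49 (nat_lit 12) (nat_lit 0x20001800080004000000000000000000000000000) (nat_lit 0x0) (nat_lit 0x18001c000c60076003bc005e0000000000000000000000) := Q_49 (nat_lit 129) (C_49 L75902 (C_49 L75906 (C_49 L75914 (C_49 L75916 (C_49 L75926 N_49))))) (by decide +kernel)
theorem L75928 : W_49 (nat_lit 2) (nat_lit 0x200018001c001c000100000000000000000000000) (nat_lit 0x0) (nat_lit 0x400600000000000000000000000000000000) := D_49 (nat_lit 129) (nat_lit 130) (nat_lit 142) (nat_lit 1) (nat_lit 11) (nat_lit 7) (nat_lit 1) (nat_lit 10) (nat_lit 7) (by decide +kernel)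
theorem L75929 : W_49 (nat_lit 3) (nat_lit 0x200018000c001c000100000000000000000000000) (nat_lit 0x0) (nat_lit 0x400720000000000000000000000000000000) := T_49 (nat_lit 128) (nat_lit 125) (nat_lit 2) (nat_lit 6) (nat_lit 7) L75928 (by decide +kernel)
theorem L75930 : W_49 (nat_lit 4) (nat_lit 0x200018000c000c000100000000000000000000000) (nat_lit 0x0) (nat_lit 0x400720030000000000000000000000000000) := T_49 (nat_lit 112) (nat_lit 113) (nat_lit 1) (nat_lit 11) (nat_lit 6) L75929 (by decide +kernel)
theorem L75931 : W_49 (nat_lit 5) (nat_lit 0x200018000c0004000100000000000000000000000) (nat_lit 0x0) (nat_lit 0x400720038000400000000000000000000000) := T_49 (nat_lit 111) (nat_lit 94) (nat_lit 6) (nat_lit 8) (nat_lit 9) L75930 (by decide +kernel)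
theorem L75932 : W_49 (nat_lit 6) (nat_lit 0x200018000c0004000000000000000000000000000) (nat_lit 0x0) (nat_lit 0x40072003a000500000000000000000000000) := T_49 (nat_lit 92) (nat_lit 109) (nat_lit 7) (nat_lit 7) (nat_lit 5) L75931 (by decide +kernel)
theorem L75933 : W_49 (nat_lit 2) (nat_lit 0x8003c001a000c002f400000000000000000000000000) (nat_lit 0x0) (nat_lit 0x40000400020000000000000000000000000000000) := D_49 (nat_lit 142) (nat_lit 125) (nat_lit 162) (nat_lit 5) (nat_lit 6) (nat_lit 6) (nat_lit 3) (nat_lit 5) (nat_lit 8) (by decide +kernel)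
theorem L75934 : W_49 (nat_lit 3) (nat_lit 0x8003c0018000c002f400000000000000000000000000) (nat_lit 0x0) (nat_lit 0x40000700020000000000000000000000000000000) := T_49 (nat_lit 141) (nat_lit 140) (nat_lit 0) (nat_lit 8) (nat_lit 9) L75933 (by decide +kernel)
theorem L75935 : W_49 (nat_lit 4) (nat_lit 0x3c0018000c002f400000000000000000000000000) (nat_lit 0x0) (nat_lit 0xc0040000700020000000000000000000000000000000) := T_49 (nat_lit 175) (nat_lit 174) (nat_lit 1) (nat_lit 8) (nat_lit 9) L75934 (by decide +kernel)
theorem L75936 : W_49 (nat_lit 5) (nat_lit 0x380018000c002f400000000000000000000000000) (nat_lit 0x0) (nat_lit 0xc0046000700020000000000000000000000000000000) := T_49 (nat_lit 158) (nat_lit 157) (nat_lit 2) (nat_lit 4) (nat_lit 9) L75935 (by decide +kernel)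
theorem L75937 : W_49 (nat_lit 6) (nat_lit 0x300018000c002f400000000000000000000000000) (nat_lit 0x0) (nat_lit 0x1c004e000700020000000000000000000000000000000) := T_49 (nat_lit 159) (nat_lit 176) (nat_lit 5) (nat_lit 7) (nat_lit 6) L75936 (by decide +kernel)
theorem L75938 : W_49 (nat_lit 7) (nat_lit 0x300018000c002f000000000000000000000000000) (nat_lit 0x0) (nat_lit 0x1c004e000700020000c00000000000000000000000000) := T_49 (nat_lit 106) (nat_lit 107) (nat_lit 3) (nat_lit 4) (nat_lit 6) L75937 (by decide +kernel)
theorem L75939 : W_49 (nat_lit 8) (nat_lit 0x300018000c002e000000000000000000000000000) (nat_lit 0x0) (nat_lit 0x1c004e000700020001c00080000000000000000000000) := T_49 (nat_lit 108) (nat_lit 91) (nat_lit 4) (nat_lit 7) (nat_lit 9) L75938 (by decide +kernel)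
theorem L75940 : W_49 (nat_lit 9) (nat_lit 0x300018000c002c000000000000000000000000000) (nat_lit 0x0) (nat_lit 0x1c004e000700020003c00180000000000000000000000) := T_49 (nat_lit 109) (nat_lit 92) (nat_lit 7) (nat_lit 7) (nat_lit 5) L75939 (by decide +kernel)
theorem L75941 : W_49 (nat_lit 10) (nat_lit 0x200018000c002c000000000000000000000000000) (nat_lit 0x0) (nat_lit 0x3c005e000700020003c00180000000000000000000000) := T_49 (nat_lit 160) (nat_lit 177) (nat_lit 6) (nat_lit 7) (nat_lit 10) L75940 (by decide +kernel)
theorem L75942 : W_49 (nat_lit 11) (nat_lit 0x200018000c000c000000000000000000000000000) (nat_lit 0x0) (nat_lit 0x3c005e000700020033c00180000000000000000000000) := T_49 (nat_lit 113) (nat_lit 112) (nat_lit 1) (nat_lit 11) (nat_lit 6) L75941 (by decide +kernel)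
theorem L75943 : W_49 (nat_lit 12) (nat_lit 0x200018000c0004000000000000000000000000000) (nat_lit 0x0) (nat_lit 0x3c005e00070002003bc00580000000000000000000000) := T_49 (nat_lit 111) (nat_lit 94) (nat_lit 6) (nat_lit 8) (nat_lit 9) L75942 (by decide +kernel)
theorem L75944 : W_49 (nat_lit 2) (nat_lit 0x2000200018001c001c000000000000000000000000000) (nat_lit 0x0) (nat_lit 0x400600000000000000000000000000000000) := D_49 (nat_lit 129) (nat_lit 130) (nat_lit 142) (nat_lit 1) (nat_lit 11) (nat_lit 7) (nat_lit 1) (nat_lit 10) (nat_lit 7) (by decide +kernel)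
theorem L75945 : W_49 (nat_lit 3) (nat_lit 0x2000200018000c001c000000000000000000000000000) (nat_lit 0x0) (nat_lit 0x400720000000000000000000000000000000) := T_49 (nat_lit 128) (nat_lit 125) (nat_lit 2) (nat_lit 6) (nat_lit 7) L75944 (by decide +kernel)
theorem L75946 : W_49 (nat_lit 4) (nat_lit 0x200018000c001c000000000000000000000000000) (nat_lit 0x0) (nat_lit 0x200010000400720000000000000000000000000000000) := T_49 (nat_lit 177) (nat_lit 160) (nat_lit 6) (nat_lit 7) (nat_lit 10) L75945 (by decide +kernel)
theorem L75947 : W_49 (nat_lit 5) (nat_lit 0x200018000c000c000000000000000000000000000) (nat_lit 0x0) (nat_lit 0x200010000400720030000000000000000000000000000) := T_49 (nat_lit 112) (nat_lit 113) (nat_lit 1) (nat_lit 11) (nat_lit 6) L75946 (by decide +kernel)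
theorem L75948 : W_49 (nat_lit 6) (nat_lit 0x200018000c0004000000000000000000000000000) (nat_lit 0x0) (nat_lit 0x200010000400720038000400000000000000000000000) := T_49 (nat_lit 111) (nat_lit 94) (nat_lit 6) (nat_lit 8) (nat_lit 9) L75947 (by decide +kernel)
theorem L75949 : W_49 (nat_lit 2) (nat_lit 0xb00058003c001c000100000000000000000000000) (nat_lit 0x0) (nat_lit 0x2000140000000000000000000000000000000000000000) := D_49 (nat_lit 164) (nat_lit 162) (nat_lit 181) (nat_lit 0) (nat_lit 11) (nat_lit 9) (nat_lit 7) (nat_lit 10) (nat_lit 6) (by decide +kernel)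
theorem L75950 : W_49 (nat_lit 3) (nat_lit 0x300058003c001c000100000000000000000000000) (nat_lit 0x0) (nat_lit 0x30001c0000000000000000000000000000000000000000) := T_49 (nat_lit 163) (nat_lit 180) (nat_lit 4) (nat_lit 10) (nat_lit 10) L75949 (by decide +kernel)
theorem L75951 : W_49 (nat_lit 4) (nat_lit 0x300018003c001c000100000000000000000000000) (nat_lit 0x0) (nat_lit 0x30001c000c000000000000000000000000000000000000) := T_49 (nat_lit 146) (nat_lit 147) (nat_lit 3) (nat_lit 7) (nat_lit 7) L75950 (by decide +kernel)
theorem L75952 : W_49 (nat_lit 5) (nat_lit 0x300018001c001c000100000000000000000000000) (nat_lit 0x0) (nat_lit 0x30001c000c000600000000000000000000000000000000) := T_49 (nat_lit 129) (nat_lit 130) (nat_lit 1) (nat_lit 11) (nat_lit 7) L75951 (by decide +kernel)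
theorem L75953 : W_49 (nat_lit 6) (nat_lit 0x300018000c001c000100000000000000000000000) (nat_lit 0x0) (nat_lit 0x30001c000c000720000000000000000000000000000000) := T_49 (nat_lit 128) (nat_lit 125) (nat_lit 2) (nat_lit 6) (nat_lit 7) L75952 (by decide +kernel)
theorem L75954 : W_49 (nat_lit 7) (nat_lit 0x300018000c000c000100000000000000000000000) (nat_lit 0x0) (nat_lit 0x30001c000c000720030000000000000000000000000000) := T_49 (nat_lit 112) (nat_lit 113) (nat_lit 1) (nat_lit 11) (nat_lit 6) L75953 (by decide +kernel)
theorem L75955 : W_49 (nat_lit 8) (nat_lit 0x300018000c0004000100000000000000000000000) (nat_lit 0x0) (nat_lit 0x30001c000c000720038000400000000000000000000000) := T_49 (nat_lit 111) (nat_lit 94) (nat_lit 6) (nat_lit 8) (nat_lit 9) L75954 (by decide +kernel)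
theorem L75956 : W_49 (nat_lit 9) (nat_lit 0x300018000c0004000000000000000000000000000) (nat_lit 0x0) (nat_lit 0x30001c000c00072003a000500000000000000000000000) := T_49 (nat_lit 92) (nat_lit 109) (nat_lit 7) (nat_lit 7) (nat_lit 5) L75955 (by decide +kernel)
theorem L75957 : W_49 (nat_lit 10) (nat_lit 0x200018000c0004000000000000000000000000000) (nat_lit 0x0) (nat_lit 0x32001d000c00072003a000500000000000000000000000) := T_49 (nat_lit 160) (nat_lit 177) (nat_lit 6) (nat_lit 7) (nat_lit 10) L75956 (by decide +kernel)
theorem L75958 : W_49 (nat_lit 2) (nat_lit 0x300018000c000f000000000000000000000000000) (nat_lit 0x0) (nat_lit 0x300000800000000000000000000000000) := D_49 (nat_lit 128) (nat_lit 129) (nat_lit 107) (nat_lit 3) (nat_lit 6) (nat_lit 6) (nat_lit 3) (nat_lit 5) (nat_lit 6) (by decide +kernel)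
theorem L75959 : W_49 (nat_lit 3) (nat_lit 0x300018000c000e000000000000000000000000000) (nat_lit 0x0) (nat_lit 0x300001800080000000000000000000000) := T_49 (nat_lit 108) (nat_lit 91) (nat_lit 4) (nat_lit 7) (nat_lit 9) L75958 (by decide +kernel)
theorem L75960 : W_49 (nat_lit 4) (nat_lit 0x300018000c000c000000000000000000000000000) (nat_lit 0x0) (nat_lit 0x300003800180000000000000000000000) := T_49 (nat_lit 109) (nat_lit 92) (nat_lit 7) (nat_lit 7) (nat_lit 5) L75959 (by decide +kernel)
theorem L75961 : W_49 (nat_lit 5) (nat_lit 0x200018000c000c000000000000000000000000000) (nat_lit 0x0) (nat_lit 0x200010000000300003800180000000000000000000000) := T_49 (nat_lit 160) (nat_lit 177) (nat_lit 6) (nat_lit 7) (nat_lit 10) L75960 (by decide +kernel)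
theorem L75962 : W_49 (nat_lit 6) (nat_lit 0x200018000c0004000000000000000000000000000) (nat_lit 0x0) (nat_lit 0x20001000000030000b800580000000000000000000000) := T_49 (nat_lit 111) (nat_lit 94) (nat_lit 6) (nat_lit 8) (nat_lit 9) L75961 (by decide +kernel)
theorem L75969 : W_49 (nat_lit 13) (nat_lit 0x20001800080004000000000000000000000000000) (nat_lit 0x0) (nat_lit 0x33c01de00c70076003bc00580000000000000000000000) := Q_49 (nat_lit 126) (C_49 L75932 (C_49 L75943 (C_49 L75948 (C_49 L75957 (C_49 L75962 (C_49 L75968 N_49)))))) (by decide +kernel)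
theorem L75982 : W_49 (nat_lit 4) (nat_lit 0x30001800080006000000000000000000000000000) (nat_lit 0x0) (nat_lit 0x8000c0000600000008000400000000000000000000000) := T_49 (nat_lit 111) (nat_lit 94) (nat_lit 6) (nat_lit 8) (nat_lit 9) L75981 (by decide +kernel)
theorem L75983 : W_49 (nat_lit 5) (nat_lit 0x30001800080004000000000000000000000000000) (nat_lit 0x0) (nat_lit 0x8000c000060000000a000500000000000000000000000) := T_49 (nat_lit 109) (nat_lit 92) (nat_lit 4) (nat_lit 8) (nat_lit 9) L75982 (by decide +kernel)
theorem L75984 : W_49 (nat_lit 6) (nat_lit 0x20001800080004000000000000000000000000000) (nat_lit 0x0) (nat_lit 0xa000d000060000000a000500000000000000000000000) := T_49 (nat_lit 160) (nat_lit 177) (nat_lit 5) (nat_lit 8) (nat_lit 6) L75983 (by decide +kernel)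
theorem L75987 : W_49 (nat_lit 4) (nat_lit 0x10000f000180008000e000000000000000000000000000) (nat_lit 0x0) (nat_lit 0xc000700030000000000000000000000000000) := T_49 (nat_lit 146) (nat_lit 147) (nat_lit 2) (nat_lit 7) (nat_lit 9) L75986 (by decide +kernel)
theorem L75988 : W_49 (nat_lit 5) (nat_lit 0xf000180008000e000000000000000000000000000) (nat_lit 0x0) (nat_lit 0x300000000c000700030000000000000000000000000000) := T_49 (nat_lit 180) (nat_lit 181) (nat_lit 3) (nat_lit 7) (nat_lit 9) L75987 (by decide +kernel)
theorem L75989 : W_49 (nat_lit 6) (nat_lit 0xe000180008000e000000000000000000000000000) (nat_lit 0x0) (nat_lit 0x320001000c000700030000000000000000000000000000) := T_49 (nat_lit 160) (nat_lit 177) (nat_lit 5) (nat_lit 8) (nat_lit 6) L75988 (by decide +kernel)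
theorem L75990 : W_49 (nat_lit 7) (nat_lit 0xe000180008000c000000000000000000000000000) (nat_lit 0x0) (nat_lit 0x320001000c000700032000100000000000000000000000) := T_49 (nat_lit 109) (nat_lit 92) (nat_lit 4) (nat_lit 8) (nat_lit 9) L75989 (by decide +kernel)
theorem L75991 : W_49 (nat_lit 8) (nat_lit 0xe0001800080004000000000000000000000000000) (nat_lit 0x0) (nat_lit 0x320001000c00070003a000500000000000000000000000) := T_49 (nat_lit 111) (nat_lit 94) (nat_lit 6) (nat_lit 8) (nat_lit 9) L75990 (by decide +kernel)
theorem L75992 : W_49 (nat_lit 9) (nat_lit 0x60001800080004000000000000000000000000000) (nat_lit 0x0) (nat_lit 0x320019000c00070003a000500000000000000000000000) := T_49 (nat_lit 163) (nat_lit 164) (nat_lit 0) (nat_lit 11) (nat_lit 9) L75991 (by decide +kernel)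
theorem L75993 : W_49 (nat_lit 10) (nat_lit 0x20001800080004000000000000000000000000000) (nat_lit 0x0) (nat_lit 0x3a001d000c00070003a000500000000000000000000000) := T_49 (nat_lit 162) (nat_lit 179) (nat_lit 7) (nat_lit 8) (nat_lit 6) L75992 (by decide +kernel)
theorem L75995 : W_49 (nat_lit 2) (nat_lit 0x2000200018000c000e000000000000000000000000000) (nat_lit 0x0) (nat_lit 0x20030000000000000000000000000000) := D_49 (nat_lit 112) (nat_lit 113) (nat_lit 125) (nat_lit 1) (nat_lit 11) (nat_lit 6) (nat_lit 1) (nat_lit 10) (nat_lit 6) (by decide +kernel)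
theorem L75996 : W_49 (nat_lit 3) (nat_lit 0x2000200018000c0006000000000000000000000000000) (nat_lit 0x0) (nat_lit 0x20038000400000000000000000000000) := T_49 (nat_lit 111) (nat_lit 94) (nat_lit 6) (nat_lit 8) (nat_lit 9) L75995 (by decide +kernel)
theorem L75997 : W_49 (nat_lit 4) (nat_lit 0x200018000c0006000000000000000000000000000) (nat_lit 0x0) (nat_lit 0x200010000000020038000400000000000000000000000) := T_49 (nat_lit 177) (nat_lit 160) (nat_lit 6) (nat_lit 7) (nat_lit 10) L75996 (by decide +kernel)
theorem L75998 : W_49 (nat_lit 5) (nat_lit 0x200018000c0004000000000000000000000000000) (nat_lit 0x0) (nat_lit 0x20001000000002003a000500000000000000000000000) := T_49 (nat_lit 109) (nat_lit 92) (nat_lit 7) (nat_lit 7) (nat_lit 5) L75997 (by decide +kernel)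
theorem L75999 : W_49 (nat_lit 8) (nat_lit 0x20001800080004000000000000000000000000000) (nat_lit 0x0) (nat_lit 0x30001e00040076003bc00580000000000000000000000) := Q_49 (nat_lit 126) (C_49 L75932 (C_49 L75998 (C_49 L75948 (C_49 L75968 N_49)))) (by decide +kernel)
theorem L76000 : W_49 (nat_lit 14) (nat_lit 0x20001000080004000000000000000000000000000) (nat_lit 0x0) (nat_lit 0x3bc01de00cf0076003bc015e0000000000000000000000) := Q_49 (nat_lit 143) (C_49 L75927 (C_49 L75969 (C_49 L75979 (C_49 L75984 (C_49 L75993 (C_49 L75994 (C_49 L75999 N_49))))))) (by decide +kernel)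
theorem L76001 : W_49 (nat_lit 2) (nat_lit 0x7000100008000c000200000000000000000000000) (nat_lit 0x0) (nat_lit 0x2000100008000000000000000000) := D_49 (nat_lit 92) (nat_lit 75) (nat_lit 109) (nat_lit 4) (nat_lit 8) (nat_lit 8) (nat_lit 4) (nat_lit 8) (nat_lit 9) (by decide +kernel)
theorem L76002 : W_49 (nat_lit 3) (nat_lit 0x7000100008000c000000000000000000000000000) (nat_lit 0x0) (nat_lit 0x800000002000300008000000000000000000) := T_49 (nat_lit 93) (nat_lit 143) (nat_lit 5) (nat_lit 8) (nat_lit 5) L76001 (by decide +kernel)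
theorem L76003 : W_49 (nat_lit 4) (nat_lit 0x6000100008000c000000000000000000000000000) (nat_lit 0x0) (nat_lit 0x200010000800000002000300008000000000000000000) := T_49 (nat_lit 160) (nat_lit 177) (nat_lit 5) (nat_lit 8) (nat_lit 6) L76002 (by decide +kernel)
theorem L76004 : W_49 (nat_lit 5) (nat_lit 0x2000100008000c000000000000000000000000000) (nat_lit 0x0) (nat_lit 0xa00050000800000002000300008000000000000000000) := T_49 (nat_lit 162) (nat_lit 179) (nat_lit 7) (nat_lit 8) (nat_lit 6) L76003 (by decide +kernel)
theorem L76005 : W_49 (nat_lit 6) (nat_lit 0x20001000080004000000000000000000000000000) (nat_lit 0x0) (nat_lit 0xa0005000080000000a000700008000000000000000000) := T_49 (nat_lit 111) (nat_lit 94) (nat_lit 6) (nat_lit 8) (nat_lit 9) L76004 (by decide +kernel)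
theorem L76009 : W_49 (nat_lit 2) (nat_lit 0x30001000080004000500000000000000000000000) (nat_lit 0x0) (nat_lit 0x200028000000000000000000) := D_49 (nat_lit 93) (nat_lit 75) (nat_lit 77) (nat_lit 4) (nat_lit 8) (nat_lit 8) (nat_lit 6) (nat_lit 8) (nat_lit 8) (by decide +kernel)
theorem L76010 : W_49 (nat_lit 3) (nat_lit 0x30001000080004000100000000000000000000000) (nat_lit 0x0) (nat_lit 0x8000600028000000000000000000) := T_49 (nat_lit 94) (nat_lit 111) (nat_lit 6) (nat_lit 8) (nat_lit 9) L76009 (by decide +kernel)
theorem L76011 : W_49 (nat_lit 4) (nat_lit 0x30001000080004000000000000000000000000000) (nat_lit 0x0) (nat_lit 0xa000700028000000000000000000) := T_49 (nat_lit 92) (nat_lit 109) (nat_lit 4) (nat_lit 8) (nat_lit 9) L76010 (by decide +kernel)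
theorem L76012 : W_49 (nat_lit 5) (nat_lit 0x20001000080004000000000000000000000000000) (nat_lit 0x0) (nat_lit 0x20001000000000000a000700028000000000000000000) := T_49 (nat_lit 160) (nat_lit 177) (nat_lit 5) (nat_lit 8) (nat_lit 6) L76011 (by decide +kernel)
theorem L76017 : W_49 (nat_lit 2) (nat_lit 0x60001a0008000c000340010000800000000000000) (nat_lit 0x0) (nat_lit 0x20001000080000000000) := D_49 (nat_lit 60) (nat_lit 43) (nat_lit 77) (nat_lit 6) (nat_lit 8) (nat_lit 6) (nat_lit 6) (nat_lit 8) (nat_lit 7) (by decide +kernel)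
theorem L76018 : W_49 (nat_lit 3) (nat_lit 0x60001a0008000c000340010000000000000000000) (nat_lit 0x0) (nat_lit 0x100000000000020001800080000000000) := T_49 (nat_lit 59) (nat_lit 128) (nat_lit 7) (nat_lit 8) (nat_lit 3) L76017 (by decide +kernel)
theorem L76019 : W_49 (nat_lit 4) (nat_lit 0x6000180008000c000340010000000000000000000) (nat_lit 0x0) (nat_lit 0x600100000000000020001800080000000000) := T_49 (nat_lit 141) (nat_lit 142) (nat_lit 3) (nat_lit 5) (nat_lit 8) L76018 (by decide +kernel)
theorem L76020 : W_49 (nat_lit 5) (nat_lit 0x6000180008000c000340000000000000000000000) (nat_lit 0x0) (nat_lit 0x600140000000000030001800080000000000) := T_49 (nat_lit 76) (nat_lit 126) (nat_lit 5) (nat_lit 8) (nat_lit 4) L76019 (by decide +kernel)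
theorem L76021 : W_49 (nat_lit 6) (nat_lit 0x6000100008000c000340000000000000000000000) (nat_lit 0x0) (nat_lit 0x10000e00140000000000030001800080000000000) := T_49 (nat_lit 143) (nat_lit 160) (nat_lit 5) (nat_lit 8) (nat_lit 5) L76020 (by decide +kernel)
theorem L76022 : W_49 (nat_lit 7) (nat_lit 0x6000100008000c000300000000000000000000000) (nat_lit 0x0) (nat_lit 0x10000e001400000000c0030001800080000000000) := T_49 (nat_lit 90) (nat_lit 91) (nat_lit 3) (nat_lit 5) (nat_lit 5) L76021 (by decide +kernel)
theorem L76023 : W_49 (nat_lit 8) (nat_lit 0x6000100008000c000100000000000000000000000) (nat_lit 0x0) (nat_lit 0x10000e001400000002c0038001800080000000000) := T_49 (nat_lit 93) (nat_lit 75) (nat_lit 4) (nat_lit 8) (nat_lit 8) L76022 (by decide +kernel)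
theorem L76024 : W_49 (nat_lit 9) (nat_lit 0x6000100008000c000000000000000000000000000) (nat_lit 0x0) (nat_lit 0x10000e001400020003c0038001800080000000000) := T_49 (nat_lit 92) (nat_lit 109) (nat_lit 4) (nat_lit 8) (nat_lit 9) L76023 (by decide +kernel)
theorem L76025 : W_49 (nat_lit 10) (nat_lit 0x60001000080004000000000000000000000000000) (nat_lit 0x0) (nat_lit 0x10000e0014000a0007c0038001800080000000000) := T_49 (nat_lit 111) (nat_lit 94) (nat_lit 6) (nat_lit 8) (nat_lit 9) L76024 (by decide +kernel)
theorem L76026 : W_49 (nat_lit 11) (nat_lit 0x20001000080004000000000000000000000000000) (nat_lit 0x0) (nat_lit 0x800050000e0014000a0007c0038001800080000000000) := T_49 (nat_lit 162) (nat_lit 179) (nat_lit 7) (nat_lit 8) (nat_lit 6) L76025 (by decide +kernel)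
theorem L76027 : W_49 (nat_lit 3) (nat_lit 0x70001000080006000000000000000000000000000) (nat_lit 0x0) (nat_lit 0x80000e00000000000200000000000000000000000) := T_49 (nat_lit 143) (nat_lit 93) (nat_lit 5) (nat_lit 8) (nat_lit 5) L1022 (by decide +kernel)
theorem L76028 : W_49 (nat_lit 4) (nat_lit 0x60001000080006000000000000000000000000000) (nat_lit 0x0) (nat_lit 0x200090000e00000000000200000000000000000000000) := T_49 (nat_lit 160) (nat_lit 177) (nat_lit 5) (nat_lit 8) (nat_lit 6) L76027 (by decide +kernel)
theorem L76029 : W_49 (nat_lit 5) (nat_lit 0x20001000080006000000000000000000000000000) (nat_lit 0x0) (nat_lit 0xa000d0000e00000000000200000000000000000000000) := T_49 (nat_lit 162) (nat_lit 179) (nat_lit 7) (nat_lit 8) (nat_lit 6) L76028 (by decide +kernel)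
theorem L76030 : W_49 (nat_lit 6) (nat_lit 0x20001000080004000000000000000000000000000) (nat_lit 0x0) (nat_lit 0xa000d0000e00000002000300000000000000000000000) := T_49 (nat_lit 109) (nat_lit 92) (nat_lit 4) (nat_lit 8) (nat_lit 9) L76029 (by decide +kernel)
theorem L76034 : W_49 (nat_lit 15) (nat_lit 0x20001000080000000000000000000000000000000) (nat_lit 0x0) (nat_lit 0x3bc01de00cf0076003fc017e0038001c00080000000000) := Q_49 (nat_lit 110) (C_49 L76000 (C_49 L76005 (C_49 L76008 (C_49 L76012 (C_49 L76016 (C_49 L76026 (C_49 L76030 (C_49 L76033 N_49)))))))) (by decide +kernel)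
theorem L76035 : W_49 (nat_lit 2) (nat_lit 0x600020001000180004000000000000000000000000000) (nat_lit 0x0) (nat_lit 0x10000800040000000000000000000000000000000000000000) := D_49 (nat_lit 179) (nat_lit 196) (nat_lit 162) (nat_lit 7) (nat_lit 8) (nat_lit 7) (nat_lit 7) (nat_lit 8) (nat_lit 6) (by decide +kernel)
theorem L76036 : W_49 (nat_lit 3) (nat_lit 0x600020001000180000000000000000000000000000000) (nat_lit 0x0) (nat_lit 0x10000800050000000000004000000000000000000000000000) := T_49 (nat_lit 110) (nat_lit 160) (nat_lit 5) (nat_lit 8) (nat_lit 6) L76035 (by decide +kernel)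
theorem L76037 : W_49 (nat_lit 4) (nat_lit 0x400020001000180000000000000000000000000000000) (nat_lit 0x0) (nat_lit 0x14000a00050000000000004000000000000000000000000000) := T_49 (nat_lit 177) (nat_lit 194) (nat_lit 5) (nat_lit 8) (nat_lit 7) L76036 (by decide +kernel)
theorem L76038 : W_49 (nat_lit 5) (nat_lit 0x400020001000080000000000000000000000000000000) (nat_lit 0x0) (nat_lit 0x14000a0005000000010000c000000000000000000000000000) := T_49 (nat_lit 128) (nat_lit 111) (nat_lit 6) (nat_lit 8) (nat_lit 10) L76037 (by decide +kernel)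
theorem L76039 : W_49 (nat_lit 7) (nat_lit 0x20001000080000000000000000000000000000000) (nat_lit 0x0) (nat_lit 0x28001c000e0005000000014000e000500000000000000000000000) := Q_49 (nat_lit 178) (C_49 L75827 (C_49 L1014 (C_49 L76038 (C_49 L871 N_49)))) (by decide +kernel)
theorem L76040 : W_49 (nat_lit 9) (nat_lit 0x4000400020001000080000000000000000000000000000000) (nat_lit 0x0) (nat_lit 0x8000600038001b003800050000800040000000000000000000000000000000) := T_49 (nat_lit 179) (nat_lit 196) (nat_lit 7) (nat_lit 8) (nat_lit 7) L1747 (by decide +kernel)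
theorem L76041 : W_49 (nat_lit 10) (nat_lit 0x400020001000080000000000000000000000000000000) (nat_lit 0x0) (nat_lit 0x8000600038001f003a00050000800040000000000000000000000000000000) := T_49 (nat_lit 194) (nat_lit 177) (nat_lit 5) (nat_lit 8) (nat_lit 7) L76040 (by decide +kernel)
theorem L76042 : W_49 (nat_lit 2) (nat_lit 0x14000400020001000180000000000000000000000000000000) (nat_lit 0x0) (nat_lit 0x280008000000000000000000000000000000000000000000000000) := D_49 (nat_lit 195) (nat_lit 213) (nat_lit 211) (nat_lit 7) (nat_lit 8) (nat_lit 8) (nat_lit 5) (nat_lit 8) (nat_lit 8) (by decide +kernel)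
theorem L76043 : W_49 (nat_lit 3) (nat_lit 0x10000400020001000180000000000000000000000000000000) (nat_lit 0x0) (nat_lit 0x28000c000200000000000000000000000000000000000000000000) := T_49 (nat_lit 194) (nat_lit 177) (nat_lit 5) (nat_lit 8) (nat_lit 7) L76042 (by decide +kernel)
theorem L76044 : W_49 (nat_lit 4) (nat_lit 0x400020001000180000000000000000000000000000000) (nat_lit 0x0) (nat_lit 0x28001c000a00000000000000000000000000000000000000000000) := T_49 (nat_lit 196) (nat_lit 179) (nat_lit 7) (nat_lit 8) (nat_lit 7) L76043 (by decide +kernel)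
theorem L76045 : W_49 (nat_lit 5) (nat_lit 0x400020001000080000000000000000000000000000000) (nat_lit 0x0) (nat_lit 0x28001c000a00000000000100008000000000000000000000000000) := T_49 (nat_lit 128) (nat_lit 111) (nat_lit 6) (nat_lit 8) (nat_lit 10) L76044 (by decide +kernel)
theorem L76048 : W_49 (nat_lit 2) (nat_lit 0x80004000200010001c0000000000000000000000000000000) (nat_lit 0x0) (nat_lit 0x80004000200000000000000000000000000000000000000000000) := D_49 (nat_lit 194) (nat_lit 177) (nat_lit 211) (nat_lit 5) (nat_lit 8) (nat_lit 7) (nat_lit 5) (nat_lit 8) (nat_lit 8) (by decide +kernel)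
theorem L76049 : W_49 (nat_lit 3) (nat_lit 0x4000200010001c0000000000000000000000000000000) (nat_lit 0x0) (nat_lit 0x8000c000200000000800000000000000000000000000000000000) := T_49 (nat_lit 195) (nat_lit 143) (nat_lit 4) (nat_lit 8) (nat_lit 11) L76048 (by decide +kernel)
theorem L76050 : W_49 (nat_lit 4) (nat_lit 0x4000200010000c0000000000000000000000000000000) (nat_lit 0x0) (nat_lit 0x8000c000200000000800100008000000000000000000000000000) := T_49 (nat_lit 128) (nat_lit 111) (nat_lit 6) (nat_lit 8) (nat_lit 10) L76049 (by decide +kernel)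
theorem L76051 : W_49 (nat_lit 5) (nat_lit 0x400020001000080000000000000000000000000000000) (nat_lit 0x0) (nat_lit 0x8000c00020000000080014000a000000000000000000000000000) := T_49 (nat_lit 126) (nat_lit 109) (nat_lit 4) (nat_lit 8) (nat_lit 10) L76050 (by decide +kernel)
theorem L76052 : W_49 (nat_lit 2) (nat_lit 0x600020001c00180000000000000000000000000000000) (nat_lit 0x0) (nat_lit 0x640000000000000000000000000000000) := D_49 (nat_lit 129) (nat_lit 130) (nat_lit 126) (nat_lit 1) (nat_lit 11) (nat_lit 7) (nat_lit 1) (nat_lit 10) (nat_lit 7) (by decide +kernel)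
theorem L76053 : W_49 (nat_lit 3) (nat_lit 0x600020001800180000000000000000000000000000000) (nat_lit 0x0) (nat_lit 0x600640000000000000000000000000000000) := T_49 (nat_lit 142) (nat_lit 141) (nat_lit 2) (nat_lit 5) (nat_lit 8) L76052 (by decide +kernel)
theorem L76054 : W_49 (nat_lit 4) (nat_lit 0x600020001800080000000000000000000000000000000) (nat_lit 0x0) (nat_lit 0x600740008000000000000000000000000000) := T_49 (nat_lit 128) (nat_lit 111) (nat_lit 6) (nat_lit 8) (nat_lit 10) L76053 (by decide +kernel)
theorem L76055 : W_49 (nat_lit 5) (nat_lit 0x400020001800080000000000000000000000000000000) (nat_lit 0x0) (nat_lit 0x4000200000000600740008000000000000000000000000000) := T_49 (nat_lit 177) (nat_lit 194) (nat_lit 5) (nat_lit 8) (nat_lit 7) L76054 (by decide +kernel)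
theorem L76056 : W_49 (nat_lit 2) (nat_lit 0xe00030001a00180000000000000000000000000000000) (nat_lit 0x0) (nat_lit 0x100000c000000000000000000000000000000000000000) := D_49 (nat_lit 159) (nat_lit 158) (nat_lit 180) (nat_lit 3) (nat_lit 5) (nat_lit 9) (nat_lit 0) (nat_lit 10) (nat_lit 10) (by decide +kernel)
theorem L76057 : W_49 (nat_lit 3) (nat_lit 0x600030001a00180000000000000000000000000000000) (nat_lit 0x0) (nat_lit 0x1000180000c000000000000000000000000000000000000000) := T_49 (nat_lit 179) (nat_lit 196) (nat_lit 7) (nat_lit 8) (nat_lit 7) L76056 (by decide +kernel)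
theorem L76058 : W_49 (nat_lit 4) (nat_lit 0x400030001a00180000000000000000000000000000000) (nat_lit 0x0) (nat_lit 0x14001a0000c000000000000000000000000000000000000000) := T_49 (nat_lit 177) (nat_lit 194) (nat_lit 6) (nat_lit 7) (nat_lit 11) L76057 (by decide +kernel)
theorem L76059 : W_49 (nat_lit 5) (nat_lit 0x400030001800180000000000000000000000000000000) (nat_lit 0x0) (nat_lit 0x14001a0000c000600000000000000000000000000000000000) := T_49 (nat_lit 141) (nat_lit 142) (nat_lit 2) (nat_lit 5) (nat_lit 8) L76058 (by decide +kernel)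
theorem L76060 : W_49 (nat_lit 6) (nat_lit 0x400030001800080000000000000000000000000000000) (nat_lit 0x0) (nat_lit 0x14001a0000c000600100008000000000000000000000000000) := T_49 (nat_lit 128) (nat_lit 111) (nat_lit 6) (nat_lit 8) (nat_lit 10) L76059 (by decide +kernel)
theorem L76061 : W_49 (nat_lit 2) (nat_lit 0x700030001a001c0000000000000000000000000000000) (nat_lit 0x0) (nat_lit 0xc0040000000000000000000000000000000000000000) := D_49 (nat_lit 175) (nat_lit 162) (nat_lit 174) (nat_lit 2) (nat_lit 5) (nat_lit 10) (nat_lit 2) (nat_lit 4) (nat_lit 10) (by decide +kernel)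
theorem L76062 : W_49 (nat_lit 3) (nat_lit 0x600030001a001c0000000000000000000000000000000) (nat_lit 0x0) (nat_lit 0x20001c0040000000000000000000000000000000000000000) := T_49 (nat_lit 176) (nat_lit 193) (nat_lit 5) (nat_lit 7) (nat_lit 7) L76061 (by decide +kernel)
theorem L76063 : W_49 (nat_lit 4) (nat_lit 0x400030001a001c0000000000000000000000000000000) (nat_lit 0x0) (nat_lit 0x60003c0040000000000000000000000000000000000000000) := T_49 (nat_lit 177) (nat_lit 194) (nat_lit 6) (nat_lit 7) (nat_lit 11) L76062 (by decide +kernel)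
theorem L76064 : W_49 (nat_lit 5) (nat_lit 0x4000300018001c0000000000000000000000000000000) (nat_lit 0x0) (nat_lit 0x60003c0040000600000000000000000000000000000000000) := T_49 (nat_lit 141) (nat_lit 142) (nat_lit 2) (nat_lit 5) (nat_lit 8) L76063 (by decide +kernel)
theorem L76065 : W_49 (nat_lit 6) (nat_lit 0x4000300018000c0000000000000000000000000000000) (nat_lit 0x0) (nat_lit 0x60003c0040000600100008000000000000000000000000000) := T_49 (nat_lit 128) (nat_lit 111) (nat_lit 6) (nat_lit 8) (nat_lit 10) L76064 (by decide +kernel)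
theorem L76066 : W_49 (nat_lit 7) (nat_lit 0x400030001800080000000000000000000000000000000) (nat_lit 0x0) (nat_lit 0x60003c004000060014000a000000000000000000000000000) := T_49 (nat_lit 126) (nat_lit 109) (nat_lit 7) (nat_lit 7) (nat_lit 6) L76065 (by decide +kernel)
theorem L76067 : W_49 (nat_lit 8) (nat_lit 0x400020001800080000000000000000000000000000000) (nat_lit 0x0) (nat_lit 0x16003bc005c00060014000a000000000000000000000000000) := Q_49 (nat_lit 160) (C_49 L839 (C_49 L76060 (C_49 L76066 N_49))) (by decide +kernel)
theorem L76068 : W_49 (nat_lit 2) (nat_lit 0xe000300018000e0000000000000000000000000000000) (nat_lit 0x0) (nat_lit 0x100000c000000000000000000000000000000000000000) := D_49 (nat_lit 159) (nat_lit 158) (nat_lit 180) (nat_lit 3) (nat_lit 5) (nat_lit 9) (nat_lit 0) (nat_lit 10) (nat_lit 10) (by decide +kernel)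
theorem L76069 : W_49 (nat_lit 3) (nat_lit 0x6000300018000e0000000000000000000000000000000) (nat_lit 0x0) (nat_lit 0x1000180000c000000000000000000000000000000000000000) := T_49 (nat_lit 179) (nat_lit 196) (nat_lit 7) (nat_lit 8) (nat_lit 7) L76068 (by decide +kernel)
theorem L76070 : W_49 (nat_lit 4) (nat_lit 0x6000300018000c0000000000000000000000000000000) (nat_lit 0x0) (nat_lit 0x1000180000c000000020001000000000000000000000000000) := T_49 (nat_lit 125) (nat_lit 108) (nat_lit 4) (nat_lit 7) (nat_lit 10) L76069 (by decide +kernel)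
theorem L76071 : W_49 (nat_lit 5) (nat_lit 0x600030001800080000000000000000000000000000000) (nat_lit 0x0) (nat_lit 0x1000180000c000000060003000000000000000000000000000) := T_49 (nat_lit 126) (nat_lit 109) (nat_lit 7) (nat_lit 7) (nat_lit 6) L76070 (by decide +kernel)
theorem L76072 : W_49 (nat_lit 6) (nat_lit 0x400030001800080000000000000000000000000000000) (nat_lit 0x0) (nat_lit 0x14001a0000c000000060003000000000000000000000000000) := T_49 (nat_lit 177) (nat_lit 194) (nat_lit 6) (nat_lit 7) (nat_lit 11) L76071 (by decide +kernel)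
theorem L76073 : W_49 (nat_lit 2) (nat_lit 0x7000300018000e0000000000000000000000000000000) (nat_lit 0x0) (nat_lit 0xc0040000000000000000000000000000000000000000) := D_49 (nat_lit 175) (nat_lit 162) (nat_lit 174) (nat_lit 2) (nat_lit 5) (nat_lit 10) (nat_lit 2) (nat_lit 4) (nat_lit 10) (by decide +kernel)
theorem L76074 : W_49 (nat_lit 3) (nat_lit 0x6000300018000e0000000000000000000000000000000) (nat_lit 0x0) (nat_lit 0x20001c0040000000000000000000000000000000000000000) := T_49 (nat_lit 176) (nat_lit 193) (nat_lit 5) (nat_lit 7) (nat_lit 7) L76073 (by decide +kernel)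
theorem L76075 : W_49 (nat_lit 4) (nat_lit 0x6000300018000c0000000000000000000000000000000) (nat_lit 0x0) (nat_lit 0x20001c0040000000020001000000000000000000000000000) := T_49 (nat_lit 125) (nat_lit 108) (nat_lit 4) (nat_lit 7) (nat_lit 10) L76074 (by decide +kernel)
theorem L76076 : W_49 (nat_lit 5) (nat_lit 0x4000300018000c0000000000000000000000000000000) (nat_lit 0x0) (nat_lit 0x60003c0040000000020001000000000000000000000000000) := T_49 (nat_lit 177) (nat_lit 194) (nat_lit 6) (nat_lit 7) (nat_lit 11) L76075 (by decide +kernel)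
theorem L76077 : W_49 (nat_lit 6) (nat_lit 0x400030001800080000000000000000000000000000000) (nat_lit 0x0) (nat_lit 0x60003c0040000000060003000000000000000000000000000) := T_49 (nat_lit 126) (nat_lit 109) (nat_lit 7) (nat_lit 7) (nat_lit 6) L76076 (by decide +kernel)
theorem L76078 : W_49 (nat_lit 8) (nat_lit 0x400020001800080000000000000000000000000000000) (nat_lit 0x0) (nat_lit 0x16003bc01dc000400060003000000000000000000000000000) := Q_49 (nat_lit 160) (C_49 L839 (C_49 L975 (C_49 L76072 (C_49 L76077 N_49)))) (by decide +kernel)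
theorem L76079 : W_49 (nat_lit 2) (nat_lit 0xc000e0001800080000000000000000000000000000000) (nat_lit 0x0) (nat_lit 0x10000600000000000000000000000000000000000) := D_49 (nat_lit 142) (nat_lit 141) (nat_lit 160) (nat_lit 3) (nat_lit 5) (nat_lit 8) (nat_lit 0) (nat_lit 10) (nat_lit 9) (by decide +kernel)
theorem L76080 : W_49 (nat_lit 3) (nat_lit 0xc00060001800080000000000000000000000000000000) (nat_lit 0x0) (nat_lit 0x190000600000000000000000000000000000000000) := T_49 (nat_lit 163) (nat_lit 164) (nat_lit 0) (nat_lit 11) (nat_lit 9) L76079 (by decide +kernel)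
theorem L76081 : W_49 (nat_lit 4) (nat_lit 0x400060001800080000000000000000000000000000000) (nat_lit 0x0) (nat_lit 0x10000800190000600000000000000000000000000000000000) := T_49 (nat_lit 179) (nat_lit 196) (nat_lit 7) (nat_lit 8) (nat_lit 7) L76080 (by decide +kernel)
theorem L76082 : W_49 (nat_lit 7) (nat_lit 0xc00060001800580000000000000000000000000000000) (nat_lit 0x0) (nat_lit 0x4000700138019c000000000000000000000000000000000000000) := T_49 (nat_lit 164) (nat_lit 163) (nat_lit 0) (nat_lit 11) (nat_lit 9) L472 (by decide +kernel)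
theorem L76083 : W_49 (nat_lit 8) (nat_lit 0x400060001800580000000000000000000000000000000) (nat_lit 0x0) (nat_lit 0x40017001b8019c000000000000000000000000000000000000000) := T_49 (nat_lit 179) (nat_lit 196) (nat_lit 7) (nat_lit 8) (nat_lit 7) L76082 (by decide +kernel)
theorem L76084 : W_49 (nat_lit 9) (nat_lit 0x400060001800180000000000000000000000000000000) (nat_lit 0x0) (nat_lit 0x40017001b8019c000000600000000000000000000000000000000) := T_49 (nat_lit 130) (nat_lit 129) (nat_lit 1) (nat_lit 11) (nat_lit 7) L76083 (by decide +kernel)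
theorem L76085 : W_49 (nat_lit 10) (nat_lit 0x400060001800080000000000000000000000000000000) (nat_lit 0x0) (nat_lit 0x40017001b8019c000000700008000000000000000000000000000) := T_49 (nat_lit 128) (nat_lit 111) (nat_lit 6) (nat_lit 8) (nat_lit 10) L76084 (by decide +kernel)
theorem L76092 : W_49 (nat_lit 11) (nat_lit 0x400020001800080000000000000000000000000000000) (nat_lit 0x0) (nat_lit 0x40017001b801dc000600700008000000000000000000000000000) := Q_49 (nat_lit 162) (C_49 L76081 (C_49 L76085 (C_49 L942 (C_49 L480 (C_49 L76091 N_49))))) (by decide +kernel)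
theorem L76093 : W_49 (nat_lit 9) (nat_lit 0xc00020001800080000000000000000000000000000000) (nat_lit 0x0) (nat_lit 0x40032001c000c00074003a000000000000000000000000000) := T_49 (nat_lit 177) (nat_lit 194) (nat_lit 5) (nat_lit 8) (nat_lit 7) L509 (by decide +kernel)
theorem L76094 : W_49 (nat_lit 10) (nat_lit 0x400020001800080000000000000000000000000000000) (nat_lit 0x0) (nat_lit 0x14003a001c000c00074003a000000000000000000000000000) := T_49 (nat_lit 179) (nat_lit 196) (nat_lit 7) (nat_lit 8) (nat_lit 7) L76093 (by decide +kernel)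
theorem L76095 : W_49 (nat_lit 12) (nat_lit 0x400020001000080000000000000000000000000000000) (nat_lit 0x0) (nat_lit 0x40017003bc01dc00ce0076003b000000000000000000000000000) := Q_49 (nat_lit 143) (C_49 L76055 (C_49 L76067 (C_49 L76078 (C_49 L76092 (C_49 L982 (C_49 L76094 N_49)))))) (by decide +kernel)
theorem L76096 : W_49 (nat_lit 13) (nat_lit 0x20001000080000000000000000000000000000000) (nat_lit 0x0) (nat_lit 0xa00070003c001f003fc01dc00ce0076003b000000000000000000000000000) := Q_49 (nat_lit 178) (C_49 L75827 (C_49 L524 (C_49 L76041 (C_49 L76045 (C_49 L76047 (C_49 L1004 (C_49 L852 (C_49 L76051 (C_49 L76095 N_49))))))))) (by decide +kernel)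
theorem L76097 : W_49 (nat_lit 2) (nat_lit 0xc00020001000080004000000000000000000000000000) (nat_lit 0x0) (nat_lit 0x4000200010000000000000000000000000000000000000000) := D_49 (nat_lit 177) (nat_lit 194) (nat_lit 160) (nat_lit 5) (nat_lit 8) (nat_lit 7) (nat_lit 5) (nat_lit 8) (nat_lit 6) (by decide +kernel)
theorem L76098 : W_49 (nat_lit 3) (nat_lit 0xc00020001000080000000000000000000000000000000) (nat_lit 0x0) (nat_lit 0x4000200050000000000004000000000000000000000000000) := T_49 (nat_lit 110) (nat_lit 162) (nat_lit 7) (nat_lit 8) (nat_lit 6) L76097 (by decide +kernel)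
theorem L76099 : W_49 (nat_lit 4) (nat_lit 0x400020001000080000000000000000000000000000000) (nat_lit 0x0) (nat_lit 0x14000a00050000000000004000000000000000000000000000) := T_49 (nat_lit 179) (nat_lit 196) (nat_lit 7) (nat_lit 8) (nat_lit 7) L76098 (by decide +kernel)
theorem L76100 : W_49 (nat_lit 2) (nat_lit 0xc000200018000c002c000000000000000000000000000) (nat_lit 0x0) (nat_lit 0x10000000000000000200010000000000000000000) := D_49 (nat_lit 93) (nat_lit 76) (nat_lit 160) (nat_lit 5) (nat_lit 8) (nat_lit 4) (nat_lit 5) (nat_lit 8) (nat_lit 5) (by decide +kernel)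
theorem L76101 : W_49 (nat_lit 3) (nat_lit 0xc000200010000c002c000000000000000000000000000) (nat_lit 0x0) (nat_lit 0x8000000010000800000000000200010000000000000000000) := T_49 (nat_lit 143) (nat_lit 195) (nat_lit 4) (nat_lit 8) (nat_lit 11) L76100 (by decide +kernel)
theorem L76102 : W_49 (nat_lit 4) (nat_lit 0xc000200010000c000c000000000000000000000000000) (nat_lit 0x0) (nat_lit 0x8000000010000800000030000200010000000000000000000) := T_49 (nat_lit 113) (nat_lit 112) (nat_lit 1) (nat_lit 11) (nat_lit 6) L76101 (by decide +kernel)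
theorem L76103 : W_49 (nat_lit 5) (nat_lit 0xc000200010000c0004000000000000000000000000000) (nat_lit 0x0) (nat_lit 0x8000000010000800000038000600010000000000000000000) := T_49 (nat_lit 111) (nat_lit 94) (nat_lit 6) (nat_lit 8) (nat_lit 9) L76102 (by decide +kernel)
theorem L76104 : W_49 (nat_lit 6) (nat_lit 0xc000200010000c0000000000000000000000000000000) (nat_lit 0x0) (nat_lit 0x800000005000080000003c000600010000000000000000000) := T_49 (nat_lit 110) (nat_lit 162) (nat_lit 7) (nat_lit 8) (nat_lit 6) L76103 (by decide +kernel)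
theorem L76105 : W_49 (nat_lit 7) (nat_lit 0x4000200010000c0000000000000000000000000000000) (nat_lit 0x0) (nat_lit 0x1800080005000080000003c000600010000000000000000000) := T_49 (nat_lit 179) (nat_lit 196) (nat_lit 7) (nat_lit 8) (nat_lit 7) L76104 (by decide +kernel)
theorem L76106 : W_49 (nat_lit 8) (nat_lit 0x400020001000080000000000000000000000000000000) (nat_lit 0x0) (nat_lit 0x1800080005000080004003e000600010000000000000000000) := T_49 (nat_lit 126) (nat_lit 109) (nat_lit 4) (nat_lit 8) (nat_lit 10) L76105 (by decide +kernel)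
theorem L76107 : W_49 (nat_lit 11) (nat_lit 0x20001000080000000000000000000000000000000) (nat_lit 0x0) (nat_lit 0x8000600038001f003e0005000080004003e000700010000000000000000000) := Q_49 (nat_lit 178) (C_49 L76041 (C_49 L1014 (C_49 L76099 (C_49 L76106 (C_49 L524 N_49))))) (by decide +kernel)
theorem L76108 : W_49 (nat_lit 6) (nat_lit 0x20001000080000000000000000000000000000000) (nat_lit 0x0) (nat_lit 0x28001c000e0005000000010000c000400000000000000000000000) := Q_49 (nat_lit 178) (C_49 L76045 (C_49 L76099 (C_49 L871 (C_49 L578 N_49)))) (by decide +kernel)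
theorem L76112 : W_49 (nat_lit 2) (nat_lit 0x2800080004000600010000c002c000000000000000000000000000) (nat_lit 0x0) (nat_lit 0x5000100000000000000000000000000000000000000000000000000000) := D_49 (nat_lit 212) (nat_lit 228) (nat_lit 230) (nat_lit 5) (nat_lit 8) (nat_lit 9) (nat_lit 7) (nat_lit 8) (nat_lit 9) (by decide +kernel)
theorem L76113 : W_49 (nat_lit 3) (nat_lit 0x800080004000600010000c002c000000000000000000000000000) (nat_lit 0x0) (nat_lit 0x5000300010000000000000000000000000000000000000000000000000) := T_49 (nat_lit 213) (nat_lit 196) (nat_lit 7) (nat_lit 8) (nat_lit 8) L76112 (by decide +kernel)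
theorem L76114 : W_49 (nat_lit 4) (nat_lit 0x80004000600010000c002c000000000000000000000000000) (nat_lit 0x0) (nat_lit 0x5000380014000000000000000000000000000000000000000000000000) := T_49 (nat_lit 211) (nat_lit 194) (nat_lit 5) (nat_lit 8) (nat_lit 8) L76113 (by decide +kernel)
theorem L76115 : W_49 (nat_lit 5) (nat_lit 0x4000600010000c002c000000000000000000000000000) (nat_lit 0x0) (nat_lit 0x500038001c000000000000800000000000000000000000000000000000) := T_49 (nat_lit 195) (nat_lit 143) (nat_lit 4) (nat_lit 8) (nat_lit 11) L76114 (by decide +kernel)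
theorem L76116 : W_49 (nat_lit 6) (nat_lit 0x4000600010000c000c000000000000000000000000000) (nat_lit 0x0) (nat_lit 0x500038001c000000000000800000030000000000000000000000000000) := T_49 (nat_lit 113) (nat_lit 112) (nat_lit 1) (nat_lit 11) (nat_lit 6) L76115 (by decide +kernel)
theorem L76117 : W_49 (nat_lit 7) (nat_lit 0x40006000100008000c000000000000000000000000000) (nat_lit 0x0) (nat_lit 0x500038001c000000000000800040032000000000000000000000000000) := T_49 (nat_lit 126) (nat_lit 109) (nat_lit 4) (nat_lit 8) (nat_lit 10) L76116 (by decide +kernel)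
theorem L76118 : W_49 (nat_lit 8) (nat_lit 0x6000100008000c000000000000000000000000000) (nat_lit 0x0) (nat_lit 0x500038001c000400000000800140032000000000000000000000000000) := T_49 (nat_lit 178) (nat_lit 128) (nat_lit 6) (nat_lit 8) (nat_lit 10) L76117 (by decide +kernel)
theorem L76119 : W_49 (nat_lit 9) (nat_lit 0x2000100008000c000000000000000000000000000) (nat_lit 0x0) (nat_lit 0x500038001c000c00040000800140032000000000000000000000000000) := T_49 (nat_lit 162) (nat_lit 179) (nat_lit 7) (nat_lit 8) (nat_lit 6) L76118 (by decide +kernel)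
theorem L76120 : W_49 (nat_lit 10) (nat_lit 0x20001000080004000000000000000000000000000) (nat_lit 0x0) (nat_lit 0x500038001c000c0004000080014003a000400000000000000000000000) := T_49 (nat_lit 111) (nat_lit 94) (nat_lit 6) (nat_lit 8) (nat_lit 9) L76119 (by decide +kernel)
theorem L76121 : W_49 (nat_lit 11) (nat_lit 0x20001000080000000000000000000000000000000) (nat_lit 0x0) (nat_lit 0x500038001c000c0005000080014003e000700038000400000000000000) := Q_49 (nat_lit 110) (C_49 L76033 (C_49 L1714 (C_49 L76111 (C_49 L76120 (C_49 L1021 N_49))))) (by decide +kernel)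
theorem L76122 : W_49 (nat_lit 7) (nat_lit 0x20001000080000000000000000000000000000000) (nat_lit 0x0) (nat_lit 0x28001c000e00040000e0034000e000400000000000000000000000) := Q_49 (nat_lit 178) (C_49 L76051 (C_49 L524 (C_49 L76045 (C_49 L1004 (C_49 L871 N_49))))) (by decide +kernel)
theorem L76123 : W_49 (nat_lit 7) (nat_lit 0x20001000080000000000000000000000000000000) (nat_lit 0x0) (nat_lit 0x8001c000e00010000e0034000e000400000000000000000000000) := Q_49 (nat_lit 178) (C_49 L76051 (C_49 L578 (C_49 L524 (C_49 L1004 N_49)))) (by decide +kernel)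
theorem L76124 : W_49 (nat_lit 11) (nat_lit 0x20001000080000000000000000000000000000000) (nat_lit 0x0) (nat_lit 0x8000600038001f003e00050000800040006000300010000000000000000000) := Q_49 (nat_lit 178) (C_49 L76041 (C_49 L76099 (C_49 L594 (C_49 L524 (C_49 L1014 N_49))))) (by decide +kernel)
theorem L76129 : W_49 (nat_lit 10) (nat_lit 0x20001000080000000000000000000000000000000) (nat_lit 0x0) (nat_lit 0x10000800070001e00080014000fc00780038000c00000000000000) := Q_49 (nat_lit 110) (C_49 L76111 (C_49 L76033 (C_49 L1731 (C_49 L643 (C_49 L76128 N_49))))) (by decide +kernel)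
theorem L76130 : W_49 (nat_lit 16) (nat_lit 0x1000080000000000000000000000000000000) (nat_lit 0x0) (nat_lit 0xa00070003c001f003fc01fe00cf0076003fc017e0038001c00080000000000) := Q_49 (nat_lit 161) (C_49 L76034 (C_49 L76039 (C_49 L76096 (C_49 L76107 (C_49 L76108 (C_49 L76121 (C_49 L76122 (C_49 L76123 (C_49 L76124 (C_49 L76129 N_49)))))))))) (by decide +kernel)
theorem L76131 : W_49 (nat_lit 2) (nat_lit 0x2000180028001e001000000000000000000000000) (nat_lit 0x0) (nat_lit 0x40020002000000000000000000000000) := D_49 (nat_lit 113) (nat_lit 126) (nat_lit 97) (nat_lit 1) (nat_lit 11) (nat_lit 6) (nat_lit 2) (nat_lit 8) (nat_lit 6) (by decide +kernel)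
theorem L76132 : W_49 (nat_lit 3) (nat_lit 0x2000180028001e000000000000000000000000000) (nat_lit 0x0) (nat_lit 0x40020003800000000000000000000000) := T_49 (nat_lit 96) (nat_lit 95) (nat_lit 2) (nat_lit 7) (nat_lit 6) L76131 (by decide +kernel)
theorem L76133 : W_49 (nat_lit 4) (nat_lit 0x2000180028000e000000000000000000000000000) (nat_lit 0x0) (nat_lit 0x440030003800000000000000000000000) := T_49 (nat_lit 112) (nat_lit 130) (nat_lit 3) (nat_lit 7) (nat_lit 6) L76132 (by decide +kernel)
theorem L76134 : W_49 (nat_lit 5) (nat_lit 0x2000180028000c000000000000000000000000000) (nat_lit 0x0) (nat_lit 0x440032003900000000000000000000000) := T_49 (nat_lit 109) (nat_lit 92) (nat_lit 4) (nat_lit 8) (nat_lit 9) L76133 (by decide +kernel)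
theorem L76135 : W_49 (nat_lit 6) (nat_lit 0x20001800280004000000000000000000000000000) (nat_lit 0x0) (nat_lit 0x44003a003d00000000000000000000000) := T_49 (nat_lit 111) (nat_lit 94) (nat_lit 6) (nat_lit 8) (nat_lit 9) L76134 (by decide +kernel)
theorem L76136 : W_49 (nat_lit 2) (nat_lit 0x160001a0068000c000000000000000000000000000) (nat_lit 0x0) (nat_lit 0x12000100000000000000000000000) := D_49 (nat_lit 109) (nat_lit 112) (nat_lit 92) (nat_lit 3) (nat_lit 7) (nat_lit 6) (nat_lit 4) (nat_lit 8) (nat_lit 9) (by decide +kernel)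
theorem L76137 : W_49 (nat_lit 3) (nat_lit 0x160001a00680004000000000000000000000000000) (nat_lit 0x0) (nat_lit 0x1a000500000000000000000000000) := T_49 (nat_lit 111) (nat_lit 94) (nat_lit 6) (nat_lit 8) (nat_lit 9) L76136 (by decide +kernel)
theorem L76138 : W_49 (nat_lit 4) (nat_lit 0x160001a00280004000000000000000000000000000) (nat_lit 0x0) (nat_lit 0x50001a000500000000000000000000000) := T_49 (nat_lit 130) (nat_lit 128) (nat_lit 1) (nat_lit 11) (nat_lit 7) L76137 (by decide +kernel)
theorem L76139 : W_49 (nat_lit 5) (nat_lit 0x60001a00280004000000000000000000000000000) (nat_lit 0x0) (nat_lit 0x18000000050001a000500000000000000000000000) := T_49 (nat_lit 164) (nat_lit 163) (nat_lit 0) (nat_lit 11) (nat_lit 9) L76138 (by decide +kernel)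
theorem L76140 : W_49 (nat_lit 6) (nat_lit 0x60001800280004000000000000000000000000000) (nat_lit 0x0) (nat_lit 0x18000060050001a000500000000000000000000000) := T_49 (nat_lit 141) (nat_lit 142) (nat_lit 3) (nat_lit 5) (nat_lit 8) L76139 (by decide +kernel)
theorem L76141 : W_49 (nat_lit 7) (nat_lit 0x20001800280004000000000000000000000000000) (nat_lit 0x0) (nat_lit 0x8001c000060050001a000500000000000000000000000) := T_49 (nat_lit 162) (nat_lit 179) (nat_lit 7) (nat_lit 8) (nat_lit 6) L76140 (by decide +kernel)
theorem L76142 : W_49 (nat_lit 2) (nat_lit 0x160001a0028800f800040000000000000000000000) (nat_lit 0x0) (nat_lit 0x44000400000000000000000000000000) := D_49 (nat_lit 106) (nat_lit 126) (nat_lit 122) (nat_lit 3) (nat_lit 4) (nat_lit 6) (nat_lit 1) (nat_lit 7) (nat_lit 6) (by decide +kernel)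
theorem L76143 : W_49 (nat_lit 3) (nat_lit 0x160001a0028000f800040000000000000000000000) (nat_lit 0x0) (nat_lit 0x5c000400000000000000000000000000) := T_49 (nat_lit 123) (nat_lit 124) (nat_lit 1) (nat_lit 8) (nat_lit 6) L76142 (by decide +kernel)
theorem L76144 : W_49 (nat_lit 4) (nat_lit 0x160001a0028000f000040000000000000000000000) (nat_lit 0x0) (nat_lit 0x5c000c00020000000000000000000000) := T_49 (nat_lit 107) (nat_lit 89) (nat_lit 0) (nat_lit 8) (nat_lit 6) L76143 (by decide +kernel)
theorem L76145 : W_49 (nat_lit 5) (nat_lit 0x160001a0028000f000000000000000000000000000) (nat_lit 0x0) (nat_lit 0x5c000c000e0000000000000000000000) := T_49 (nat_lit 90) (nat_lit 91) (nat_lit 0) (nat_lit 9) (nat_lit 6) L76144 (by decide +kernel)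
theorem L76146 : W_49 (nat_lit 6) (nat_lit 0x160001a0028000e000000000000000000000000000) (nat_lit 0x0) (nat_lit 0x15c001c000e0000000000000000000000) := T_49 (nat_lit 108) (nat_lit 128) (nat_lit 3) (nat_lit 6) (nat_lit 6) L76145 (by decide +kernel)
theorem L76147 : W_49 (nat_lit 7) (nat_lit 0x160001a00280006000000000000000000000000000) (nat_lit 0x0) (nat_lit 0x15c009c004e0000000000000000000000) := T_49 (nat_lit 111) (nat_lit 94) (nat_lit 6) (nat_lit 8) (nat_lit 9) L76146 (by decide +kernel)
theorem L76148 : W_49 (nat_lit 8) (nat_lit 0x60001a00280006000000000000000000000000000) (nat_lit 0x0) (nat_lit 0x18000000015c009c004e0000000000000000000000) := T_49 (nat_lit 164) (nat_lit 163) (nat_lit 0) (nat_lit 11) (nat_lit 9) L76147 (by decide +kernel)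
theorem L76149 : W_49 (nat_lit 9) (nat_lit 0x60001800280006000000000000000000000000000) (nat_lit 0x0) (nat_lit 0x18000060015c009c004e0000000000000000000000) := T_49 (nat_lit 141) (nat_lit 142) (nat_lit 3) (nat_lit 5) (nat_lit 8) L76148 (by decide +kernel)
theorem L76150 : W_49 (nat_lit 10) (nat_lit 0x20001800280006000000000000000000000000000) (nat_lit 0x0) (nat_lit 0x8001c000060015c009c004e0000000000000000000000) := T_49 (nat_lit 162) (nat_lit 179) (nat_lit 7) (nat_lit 8) (nat_lit 6) L76149 (by decide +kernel)
theorem L76151 : W_49 (nat_lit 11) (nat_lit 0x20001800280004000000000000000000000000000) (nat_lit 0x0) (nat_lit 0x8001c000060015c00bc005e0000000000000000000000) := T_49 (nat_lit 109) (nat_lit 92) (nat_lit 4) (nat_lit 8) (nat_lit 9) L76150 (by decide +kernel)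
theorem L76152 : W_49 (nat_lit 12) (nat_lit 0x20001800080004000000000000000000000000000) (nat_lit 0x0) (nat_lit 0x8001c000060075c03bc03de0000000000000000000000) := Q_49 (nat_lit 129) (C_49 L75916 (C_49 L76135 (C_49 L76141 (C_49 L76151 N_49)))) (by decide +kernel)
theorem L76153 : W_49 (nat_lit 4) (nat_lit 0x3000180008000c000000000000000000000000000) (nat_lit 0x0) (nat_lit 0x8000c0000600000002000100000000000000000000000) := T_49 (nat_lit 109) (nat_lit 92) (nat_lit 4) (nat_lit 8) (nat_lit 9) L75981 (by decide +kernel)
theorem L76154 : W_49 (nat_lit 5) (nat_lit 0x2000180008000c000000000000000000000000000) (nat_lit 0x0) (nat_lit 0xa000d0000600000002000100000000000000000000000) := T_49 (nat_lit 160) (nat_lit 177) (nat_lit 5) (nat_lit 8) (nat_lit 6) L76153 (by decide +kernel)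
theorem L76155 : W_49 (nat_lit 6) (nat_lit 0x20001800080004000000000000000000000000000) (nat_lit 0x0) (nat_lit 0xa000d000060000000a000500000000000000000000000) := T_49 (nat_lit 111) (nat_lit 94) (nat_lit 6) (nat_lit 8) (nat_lit 9) L76154 (by decide +kernel)
theorem L76156 : W_49 (nat_lit 4) (nat_lit 0x10000f0005800080006000000000000000000000000000) (nat_lit 0x0) (nat_lit 0x700038000400000000000000000000000) := T_49 (nat_lit 111) (nat_lit 94) (nat_lit 6) (nat_lit 8) (nat_lit 9) L75986 (by decide +kernel)
theorem L76157 : W_49 (nat_lit 5) (nat_lit 0x10000f0001800080006000000000000000000000000000) (nat_lit 0x0) (nat_lit 0xc000700038000400000000000000000000000) := T_49 (nat_lit 146) (nat_lit 147) (nat_lit 2) (nat_lit 7) (nat_lit 9) L76156 (by decide +kernel)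
theorem L76158 : W_49 (nat_lit 6) (nat_lit 0xf0001800080006000000000000000000000000000) (nat_lit 0x0) (nat_lit 0x300000000c000700038000400000000000000000000000) := T_49 (nat_lit 180) (nat_lit 181) (nat_lit 3) (nat_lit 7) (nat_lit 9) L76157 (by decide +kernel)
theorem L76159 : W_49 (nat_lit 7) (nat_lit 0xe0001800080006000000000000000000000000000) (nat_lit 0x0) (nat_lit 0x320001000c000700038000400000000000000000000000) := T_49 (nat_lit 160) (nat_lit 177) (nat_lit 5) (nat_lit 8) (nat_lit 6) L76158 (by decide +kernel)
theorem L76160 : W_49 (nat_lit 8) (nat_lit 0xe0001800080004000000000000000000000000000) (nat_lit 0x0) (nat_lit 0x320001000c00070003a000500000000000000000000000) := T_49 (nat_lit 109) (nat_lit 92) (nat_lit 4) (nat_lit 8) (nat_lit 9) L76159 (by decide +kernel)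
theorem L76161 : W_49 (nat_lit 9) (nat_lit 0x60001800080004000000000000000000000000000) (nat_lit 0x0) (nat_lit 0x320019000c00070003a000500000000000000000000000) := T_49 (nat_lit 163) (nat_lit 164) (nat_lit 0) (nat_lit 11) (nat_lit 9) L76160 (by decide +kernel)
theorem L76162 : W_49 (nat_lit 10) (nat_lit 0x20001800080004000000000000000000000000000) (nat_lit 0x0) (nat_lit 0x3a001d000c00070003a000500000000000000000000000) := T_49 (nat_lit 162) (nat_lit 179) (nat_lit 7) (nat_lit 8) (nat_lit 6) L76161 (by decide +kernel)
theorem L76163 : W_49 (nat_lit 4) (nat_lit 0x30001800080004000000000000000000000000000) (nat_lit 0x0) (nat_lit 0x8000c0000600000002000100000000000000000000000) := T_49 (nat_lit 109) (nat_lit 92) (nat_lit 4) (nat_lit 8) (nat_lit 9) L1023 (by decide +kernel)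
theorem L76164 : W_49 (nat_lit 5) (nat_lit 0x20001800080004000000000000000000000000000) (nat_lit 0x0) (nat_lit 0xa000d0000600000002000100000000000000000000000) := T_49 (nat_lit 160) (nat_lit 177) (nat_lit 5) (nat_lit 8) (nat_lit 6) L76163 (by decide +kernel)
theorem L76165 : W_49 (nat_lit 2) (nat_lit 0x2000180038000c000000000000000000000000000) (nat_lit 0x0) (nat_lit 0x600040000000000000000000000000000000) := D_49 (nat_lit 142) (nat_lit 141) (nat_lit 126) (nat_lit 2) (nat_lit 5) (nat_lit 8) (nat_lit 1) (nat_lit 10) (nat_lit 7) (by decide +kernel)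
theorem L76166 : W_49 (nat_lit 3) (nat_lit 0x2000180018000c000000000000000000000000000) (nat_lit 0x0) (nat_lit 0x600640000000000000000000000000000000) := T_49 (nat_lit 129) (nat_lit 130) (nat_lit 1) (nat_lit 11) (nat_lit 7) L76165 (by decide +kernel)
theorem L76167 : W_49 (nat_lit 4) (nat_lit 0x20001800180004000000000000000000000000000) (nat_lit 0x0) (nat_lit 0x600640008000400000000000000000000000) := T_49 (nat_lit 111) (nat_lit 94) (nat_lit 6) (nat_lit 8) (nat_lit 9) L76166 (by decide +kernel)
theorem L76168 : W_49 (nat_lit 2) (nat_lit 0x30001800180007000000000000000000000000000) (nat_lit 0x0) (nat_lit 0x600008000000000000000000000000000) := D_49 (nat_lit 129) (nat_lit 130) (nat_lit 111) (nat_lit 1) (nat_lit 11) (nat_lit 7) (nat_lit 3) (nat_lit 6) (nat_lit 6) (by decide +kernel)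
theorem L76169 : W_49 (nat_lit 3) (nat_lit 0x30001800180006000000000000000000000000000) (nat_lit 0x0) (nat_lit 0x600009800000000000000000000000000) := T_49 (nat_lit 108) (nat_lit 107) (nat_lit 3) (nat_lit 5) (nat_lit 6) L76168 (by decide +kernel)
theorem L76170 : W_49 (nat_lit 4) (nat_lit 0x30001800180004000000000000000000000000000) (nat_lit 0x0) (nat_lit 0x60000b800100000000000000000000000) := T_49 (nat_lit 109) (nat_lit 92) (nat_lit 4) (nat_lit 8) (nat_lit 9) L76169 (by decide +kernel)
theorem L76171 : W_49 (nat_lit 5) (nat_lit 0x20001800180004000000000000000000000000000) (nat_lit 0x0) (nat_lit 0x20001000000060000b800100000000000000000000000) := T_49 (nat_lit 160) (nat_lit 177) (nat_lit 5) (nat_lit 8) (nat_lit 6) L76170 (by decide +kernel)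
theorem L76172 : W_49 (nat_lit 2) (nat_lit 0x38001a001c002f000000000000000000000000000) (nat_lit 0x0) (nat_lit 0x6000100000000000000000000000000000000000) := D_49 (nat_lit 158) (nat_lit 157) (nat_lit 140) (nat_lit 2) (nat_lit 4) (nat_lit 9) (nat_lit 0) (nat_lit 8) (nat_lit 9) (by decide +kernel)
theorem L76173 : W_49 (nat_lit 3) (nat_lit 0x30001a001c002f000000000000000000000000000) (nat_lit 0x0) (nat_lit 0x10000e000100000000000000000000000000000000000) := T_49 (nat_lit 159) (nat_lit 176) (nat_lit 5) (nat_lit 7) (nat_lit 6) L76172 (by decide +kernel)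
theorem L76174 : W_49 (nat_lit 4) (nat_lit 0x30001a001c000f000000000000000000000000000) (nat_lit 0x0) (nat_lit 0x10000e000100000030000000000000000000000000000) := T_49 (nat_lit 113) (nat_lit 112) (nat_lit 1) (nat_lit 11) (nat_lit 6) L76173 (by decide +kernel)
theorem L76175 : W_49 (nat_lit 5) (nat_lit 0x30001a001c0007000000000000000000000000000) (nat_lit 0x0) (nat_lit 0x10000e000100000038000400000000000000000000000) := T_49 (nat_lit 111) (nat_lit 94) (nat_lit 6) (nat_lit 8) (nat_lit 9) L76174 (by decide +kernel)
theorem L76176 : W_49 (nat_lit 6) (nat_lit 0x30001a00180007000000000000000000000000000) (nat_lit 0x0) (nat_lit 0x10000e000100040038000480000000000000000000000) := T_49 (nat_lit 126) (nat_lit 91) (nat_lit 4) (nat_lit 7) (nat_lit 9) L76175 (by decide +kernel)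
theorem L76177 : W_49 (nat_lit 7) (nat_lit 0x20001a00180007000000000000000000000000000) (nat_lit 0x0) (nat_lit 0x30001e000100040038000480000000000000000000000) := T_49 (nat_lit 160) (nat_lit 177) (nat_lit 5) (nat_lit 8) (nat_lit 6) L76176 (by decide +kernel)
theorem L76178 : W_49 (nat_lit 8) (nat_lit 0x20001a00180006000000000000000000000000000) (nat_lit 0x0) (nat_lit 0x30001e000100040039800480000000000000000000000) := T_49 (nat_lit 108) (nat_lit 107) (nat_lit 3) (nat_lit 5) (nat_lit 6) L76177 (by decide +kernel)
theorem L76179 : W_49 (nat_lit 9) (nat_lit 0x20001a00180004000000000000000000000000000) (nat_lit 0x0) (nat_lit 0x30001e00010004003b800580000000000000000000000) := T_49 (nat_lit 109) (nat_lit 92) (nat_lit 4) (nat_lit 8) (nat_lit 9) L76178 (by decide +kernel)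
theorem L76180 : W_49 (nat_lit 10) (nat_lit 0x20001800180004000000000000000000000000000) (nat_lit 0x0) (nat_lit 0x30001e00070004003b800580000000000000000000000) := T_49 (nat_lit 141) (nat_lit 142) (nat_lit 2) (nat_lit 5) (nat_lit 8) L76179 (by decide +kernel)
theorem L76181 : W_49 (nat_lit 2) (nat_lit 0x30001a00180007000000000000000000000000000) (nat_lit 0x0) (nat_lit 0x640000000000000000000000000000000) := D_49 (nat_lit 129) (nat_lit 130) (nat_lit 126) (nat_lit 1) (nat_lit 11) (nat_lit 7) (nat_lit 0) (nat_lit 10) (nat_lit 7) (by decide +kernel)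
theorem L76182 : W_49 (nat_lit 3) (nat_lit 0x30001a00180006000000000000000000000000000) (nat_lit 0x0) (nat_lit 0x640001800000000000000000000000000) := T_49 (nat_lit 108) (nat_lit 107) (nat_lit 3) (nat_lit 5) (nat_lit 6) L76181 (by decide +kernel)
theorem L76183 : W_49 (nat_lit 4) (nat_lit 0x30001a00180004000000000000000000000000000) (nat_lit 0x0) (nat_lit 0x640003800100000000000000000000000) := T_49 (nat_lit 109) (nat_lit 92) (nat_lit 4) (nat_lit 8) (nat_lit 9) L76182 (by decide +kernel)
theorem L76184 : W_49 (nat_lit 5) (nat_lit 0x30001800180004000000000000000000000000000) (nat_lit 0x0) (nat_lit 0x600640003800100000000000000000000000) := T_49 (nat_lit 141) (nat_lit 142) (nat_lit 2) (nat_lit 5) (nat_lit 8) L76183 (by decide +kernel)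
theorem L76185 : W_49 (nat_lit 6) (nat_lit 0x20001800180004000000000000000000000000000) (nat_lit 0x0) (nat_lit 0x200010000600640003800100000000000000000000000) := T_49 (nat_lit 160) (nat_lit 177) (nat_lit 5) (nat_lit 8) (nat_lit 6) L76184 (by decide +kernel)
theorem L76186 : W_49 (nat_lit 11) (nat_lit 0x20001800080004000000000000000000000000000) (nat_lit 0x0) (nat_lit 0x30001e00070074003b800580000000000000000000000) := Q_49 (nat_lit 128) (C_49 L76167 (C_49 L76171 (C_49 L76180 (C_49 L76185 N_49)))) (by decide +kernel)
theorem L76187 : W_49 (nat_lit 13) (nat_lit 0x20001000080004000000000000000000000000000) (nat_lit 0x0) (nat_lit 0x3b001de00cf0075c03bc03de0000000000000000000000) := Q_49 (nat_lit 143) (C_49 L76152 (C_49 L76155 (C_49 L76162 (C_49 L75979 (C_49 L76164 (C_49 L76186 N_49)))))) (by decide +kernel)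
theorem L76188 : W_49 (nat_lit 2) (nat_lit 0x70001000080006000200000000000000000000000) (nat_lit 0x0) (nat_lit 0x8000400020000000000000000000) := D_49 (nat_lit 94) (nat_lit 111) (nat_lit 77) (nat_lit 6) (nat_lit 8) (nat_lit 9) (nat_lit 6) (nat_lit 8) (nat_lit 8) (by decide +kernel)
theorem L76189 : W_49 (nat_lit 3) (nat_lit 0x70001000080006000000000000000000000000000) (nat_lit 0x0) (nat_lit 0x800000008000600020000000000000000000) := T_49 (nat_lit 93) (nat_lit 143) (nat_lit 5) (nat_lit 8) (nat_lit 5) L76188 (by decide +kernel)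
theorem L76190 : W_49 (nat_lit 4) (nat_lit 0x60001000080006000000000000000000000000000) (nat_lit 0x0) (nat_lit 0x200010000800000008000600020000000000000000000) := T_49 (nat_lit 160) (nat_lit 177) (nat_lit 5) (nat_lit 8) (nat_lit 6) L76189 (by decide +kernel)
theorem L76191 : W_49 (nat_lit 5) (nat_lit 0x20001000080006000000000000000000000000000) (nat_lit 0x0) (nat_lit 0xa00050000800000008000600020000000000000000000) := T_49 (nat_lit 162) (nat_lit 179) (nat_lit 7) (nat_lit 8) (nat_lit 6) L76190 (by decide +kernel)
theorem L76192 : W_49 (nat_lit 6) (nat_lit 0x20001000080004000000000000000000000000000) (nat_lit 0x0) (nat_lit 0xa0005000080000000a000700020000000000000000000) := T_49 (nat_lit 109) (nat_lit 92) (nat_lit 4) (nat_lit 8) (nat_lit 9) L76191 (by decide +kernel)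
theorem L76193 : W_49 (nat_lit 14) (nat_lit 0x20001000080000000000000000000000000000000) (nat_lit 0x0) (nat_lit 0x3b001de00cf0075c03fc03fe0038001c00080000000000) := Q_49 (nat_lit 110) (C_49 L76187 (C_49 L76192 (C_49 L76033 (C_49 L76008 (C_49 L1032 (C_49 L76016 N_49)))))) (by decide +kernel)
theorem L76194 : W_49 (nat_lit 2) (nat_lit 0xe00030001800080002000000000000000000000000000) (nat_lit 0x0) (nat_lit 0x100000c000000000000000000000000000000000000000) := D_49 (nat_lit 159) (nat_lit 158) (nat_lit 180) (nat_lit 3) (nat_lit 5) (nat_lit 9) (nat_lit 0) (nat_lit 10) (nat_lit 10) (by decide +kernel)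
theorem L76195 : W_49 (nat_lit 3) (nat_lit 0x600030001800080002000000000000000000000000000) (nat_lit 0x0) (nat_lit 0x1000180000c000000000000000000000000000000000000000) := T_49 (nat_lit 179) (nat_lit 196) (nat_lit 7) (nat_lit 8) (nat_lit 7) L76194 (by decide +kernel)
theorem L76196 : W_49 (nat_lit 4) (nat_lit 0x400030001800080002000000000000000000000000000) (nat_lit 0x0) (nat_lit 0x14001a0000c000000000000000000000000000000000000000) := T_49 (nat_lit 177) (nat_lit 194) (nat_lit 6) (nat_lit 7) (nat_lit 11) L76195 (by decide +kernel)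
theorem L76197 : W_49 (nat_lit 5) (nat_lit 0x400030001800080000000000000000000000000000000) (nat_lit 0x0) (nat_lit 0x14001a0000c000000040002000000000000000000000000000) := T_49 (nat_lit 109) (nat_lit 126) (nat_lit 7) (nat_lit 7) (nat_lit 6) L76196 (by decide +kernel)
theorem L76198 : W_49 (nat_lit 4) (nat_lit 0x4000300018000c0000000000000000000000000000000) (nat_lit 0x0) (nat_lit 0x60003c0040000000000000000000000000000000000000000) := T_49 (nat_lit 177) (nat_lit 194) (nat_lit 6) (nat_lit 7) (nat_lit 11) L1631 (by decide +kernel)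
theorem L76199 : W_49 (nat_lit 5) (nat_lit 0x400030001800080000000000000000000000000000000) (nat_lit 0x0) (nat_lit 0x60003c0040000000040002000000000000000000000000000) := T_49 (nat_lit 126) (nat_lit 109) (nat_lit 7) (nat_lit 7) (nat_lit 6) L76198 (by decide +kernel)
theorem L76200 : W_49 (nat_lit 6) (nat_lit 0x400020001800080000000000000000000000000000000) (nat_lit 0x0) (nat_lit 0x16003bc005c000000040002000000000000000000000000000) := Q_49 (nat_lit 160) (C_49 L829 (C_49 L75416 (C_49 L76197 (C_49 L76199 N_49)))) (by decide +kernel)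
theorem L76201 : W_49 (nat_lit 2) (nat_lit 0x2000f00168001a00580000000000000000000000000000000) (nat_lit 0x0) (nat_lit 0x40000001000010000000000000000000000000000000000000000) := D_49 (nat_lit 160) (nat_lit 180) (nat_lit 210) (nat_lit 3) (nat_lit 6) (nat_lit 9) (nat_lit 6) (nat_lit 6) (nat_lit 12) (by decide +kernel)
theorem L76202 : W_49 (nat_lit 3) (nat_lit 0x2000f00160001a00580000000000000000000000000000000) (nat_lit 0x0) (nat_lit 0x4000000100001c000000000000000000000000000000000000000) := T_49 (nat_lit 159) (nat_lit 158) (nat_lit 0) (nat_lit 9) (nat_lit 10) L76201 (by decide +kernel)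
theorem L76203 : W_49 (nat_lit 4) (nat_lit 0xf00160001a00580000000000000000000000000000000) (nat_lit 0x0) (nat_lit 0x4000300100001c000000000000000000000000000000000000000) := T_49 (nat_lit 193) (nat_lit 192) (nat_lit 1) (nat_lit 9) (nat_lit 10) L76202 (by decide +kernel)
theorem L76204 : W_49 (nat_lit 5) (nat_lit 0xe00160001a00580000000000000000000000000000000) (nat_lit 0x0) (nat_lit 0x4000300118001c000000000000000000000000000000000000000) := T_49 (nat_lit 176) (nat_lit 175) (nat_lit 2) (nat_lit 5) (nat_lit 10) L76203 (by decide +kernel)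
theorem L76205 : W_49 (nat_lit 6) (nat_lit 0xc00160001a00580000000000000000000000000000000) (nat_lit 0x0) (nat_lit 0x4000700138001c000000000000000000000000000000000000000) := T_49 (nat_lit 177) (nat_lit 194) (nat_lit 5) (nat_lit 8) (nat_lit 7) L76204 (by decide +kernel)
theorem L76206 : W_49 (nat_lit 7) (nat_lit 0xc00160001a00180000000000000000000000000000000) (nat_lit 0x0) (nat_lit 0x4000700138001c000000600000000000000000000000000000000) := T_49 (nat_lit 130) (nat_lit 129) (nat_lit 1) (nat_lit 11) (nat_lit 7) L76205 (by decide +kernel)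
theorem L76207 : W_49 (nat_lit 8) (nat_lit 0xc00160001a00080000000000000000000000000000000) (nat_lit 0x0) (nat_lit 0x4000700138001c000000700008000000000000000000000000000) := T_49 (nat_lit 128) (nat_lit 111) (nat_lit 6) (nat_lit 8) (nat_lit 10) L76206 (by decide +kernel)
theorem L76208 : W_49 (nat_lit 9) (nat_lit 0xc00060001a00080000000000000000000000000000000) (nat_lit 0x0) (nat_lit 0x4000700138019c000000700008000000000000000000000000000) := T_49 (nat_lit 164) (nat_lit 163) (nat_lit 0) (nat_lit 11) (nat_lit 9) L76207 (by decide +kernel)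
theorem L76209 : W_49 (nat_lit 10) (nat_lit 0xc00060001800080000000000000000000000000000000) (nat_lit 0x0) (nat_lit 0x4000700138019c000600700008000000000000000000000000000) := T_49 (nat_lit 141) (nat_lit 142) (nat_lit 3) (nat_lit 5) (nat_lit 8) L76208 (by decide +kernel)
theorem L76210 : W_49 (nat_lit 11) (nat_lit 0x400060001800080000000000000000000000000000000) (nat_lit 0x0) (nat_lit 0x40017001b8019c000600700008000000000000000000000000000) := T_49 (nat_lit 179) (nat_lit 196) (nat_lit 7) (nat_lit 8) (nat_lit 7) L76209 (by decide +kernel)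
theorem L76211 : W_49 (nat_lit 2) (nat_lit 0x700060001800580000000000000000000000000000000) (nat_lit 0x0) (nat_lit 0x190000000000000000000000000000000000000000) := D_49 (nat_lit 163) (nat_lit 164) (nat_lit 160) (nat_lit 1) (nat_lit 11) (nat_lit 9) (nat_lit 1) (nat_lit 10) (nat_lit 9) (by decide +kernel)
theorem L76212 : W_49 (nat_lit 3) (nat_lit 0x600060001800580000000000000000000000000000000) (nat_lit 0x0) (nat_lit 0x180190000000000000000000000000000000000000000) := T_49 (nat_lit 176) (nat_lit 175) (nat_lit 2) (nat_lit 5) (nat_lit 10) L76211 (by decide +kernel)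
theorem L76213 : W_49 (nat_lit 4) (nat_lit 0x400060001800580000000000000000000000000000000) (nat_lit 0x0) (nat_lit 0x4000380190000000000000000000000000000000000000000) := T_49 (nat_lit 177) (nat_lit 194) (nat_lit 5) (nat_lit 8) (nat_lit 7) L76212 (by decide +kernel)
theorem L76214 : W_49 (nat_lit 5) (nat_lit 0x400060001800180000000000000000000000000000000) (nat_lit 0x0) (nat_lit 0x4000380190000000600000000000000000000000000000000) := T_49 (nat_lit 130) (nat_lit 129) (nat_lit 1) (nat_lit 11) (nat_lit 7) L76213 (by decide +kernel)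
theorem L76215 : W_49 (nat_lit 6) (nat_lit 0x400060001800080000000000000000000000000000000) (nat_lit 0x0) (nat_lit 0x4000380190000000700008000000000000000000000000000) := T_49 (nat_lit 128) (nat_lit 111) (nat_lit 6) (nat_lit 8) (nat_lit 10) L76214 (by decide +kernel)
theorem L76216 : W_49 (nat_lit 2) (nat_lit 0x700060001a00080000000000000000000000000000000) (nat_lit 0x0) (nat_lit 0x800180000000000000000000000000000000000000000) := D_49 (nat_lit 163) (nat_lit 164) (nat_lit 179) (nat_lit 1) (nat_lit 11) (nat_lit 9) (nat_lit 2) (nat_lit 6) (nat_lit 10) (by decide +kernel)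
theorem L76217 : W_49 (nat_lit 3) (nat_lit 0x600060001a00080000000000000000000000000000000) (nat_lit 0x0) (nat_lit 0x980180000000000000000000000000000000000000000) := T_49 (nat_lit 176) (nat_lit 175) (nat_lit 2) (nat_lit 5) (nat_lit 10) L76216 (by decide +kernel)
theorem L76218 : W_49 (nat_lit 4) (nat_lit 0x400060001a00080000000000000000000000000000000) (nat_lit 0x0) (nat_lit 0x4000b80180000000000000000000000000000000000000000) := T_49 (nat_lit 177) (nat_lit 194) (nat_lit 5) (nat_lit 8) (nat_lit 7) L76217 (by decide +kernel)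
theorem L76219 : W_49 (nat_lit 5) (nat_lit 0x400060001800080000000000000000000000000000000) (nat_lit 0x0) (nat_lit 0x4000b80180000600000000000000000000000000000000000) := T_49 (nat_lit 141) (nat_lit 142) (nat_lit 3) (nat_lit 5) (nat_lit 8) L76218 (by decide +kernel)
theorem L76220 : W_49 (nat_lit 12) (nat_lit 0x400020001800080000000000000000000000000000000) (nat_lit 0x0) (nat_lit 0x40017001b801dc000600700008000000000000000000000000000) := Q_49 (nat_lit 162) (C_49 L76210 (C_49 L480 (C_49 L76215 (C_49 L488 (C_49 L76219 (C_49 L76091 N_49)))))) (by decide +kernel)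
theorem L76221 : W_49 (nat_lit 13) (nat_lit 0x400020001000080000000000000000000000000000000) (nat_lit 0x0) (nat_lit 0x40017003bc01dc000e0074000a000000000000000000000000000) := Q_49 (nat_lit 143) (C_49 L76200 (C_49 L76220 (C_49 L982 N_49))) (by decide +kernel)
theorem L76222 : W_49 (nat_lit 14) (nat_lit 0x20001000080000000000000000000000000000000) (nat_lit 0x0) (nat_lit 0x800070003c001f003fc01dc000e0074000a000000000000000000000000000) := Q_49 (nat_lit 178) (C_49 L524 (C_49 L75827 (C_49 L849 (C_49 L76047 (C_49 L1004 (C_49 L1006 (C_49 L76221 N_49))))))) (by decide +kernel)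
theorem L76223 : W_49 (nat_lit 2) (nat_lit 0xc00020001000080004000000000000000000000000000) (nat_lit 0x0) (nat_lit 0x40002000100000000000000000000000) := D_49 (nat_lit 109) (nat_lit 126) (nat_lit 92) (nat_lit 4) (nat_lit 8) (nat_lit 10) (nat_lit 4) (nat_lit 8) (nat_lit 9) (by decide +kernel)
theorem L76224 : W_49 (nat_lit 3) (nat_lit 0xc00020001000080000000000000000000000000000000) (nat_lit 0x0) (nat_lit 0x40000000040006000100000000000000000000000) := T_49 (nat_lit 110) (nat_lit 162) (nat_lit 7) (nat_lit 8) (nat_lit 6) L76223 (by decide +kernel)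
theorem L76225 : W_49 (nat_lit 4) (nat_lit 0x400020001000080000000000000000000000000000000) (nat_lit 0x0) (nat_lit 0x10000800040000000040006000100000000000000000000000) := T_49 (nat_lit 179) (nat_lit 196) (nat_lit 7) (nat_lit 8) (nat_lit 7) L76224 (by decide +kernel)
theorem L76226 : W_49 (nat_lit 2) (nat_lit 0x6000200018000c0004000400000000000000000000000) (nat_lit 0x0) (nat_lit 0x200030000000000000000000) := D_49 (nat_lit 93) (nat_lit 76) (nat_lit 77) (nat_lit 5) (nat_lit 8) (nat_lit 4) (nat_lit 6) (nat_lit 8) (nat_lit 8) (by decide +kernel)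
theorem L76227 : W_49 (nat_lit 3) (nat_lit 0x6000200018000c0004000000000000000000000000000) (nat_lit 0x0) (nat_lit 0x8000600030000000000000000000) := T_49 (nat_lit 94) (nat_lit 111) (nat_lit 6) (nat_lit 8) (nat_lit 9) L76226 (by decide +kernel)
theorem L76228 : W_49 (nat_lit 4) (nat_lit 0x6000200010000c0004000000000000000000000000000) (nat_lit 0x0) (nat_lit 0x8000000000000800000008000600030000000000000000000) := T_49 (nat_lit 143) (nat_lit 195) (nat_lit 4) (nat_lit 8) (nat_lit 11) L76227 (by decide +kernel)
theorem L76229 : W_49 (nat_lit 5) (nat_lit 0x6000200010000c0000000000000000000000000000000) (nat_lit 0x0) (nat_lit 0x800000001000080000000c000600030000000000000000000) := T_49 (nat_lit 110) (nat_lit 160) (nat_lit 5) (nat_lit 8) (nat_lit 6) L76228 (by decide +kernel)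
theorem L76230 : W_49 (nat_lit 6) (nat_lit 0x4000200010000c0000000000000000000000000000000) (nat_lit 0x0) (nat_lit 0xc00020001000080000000c000600030000000000000000000) := T_49 (nat_lit 177) (nat_lit 194) (nat_lit 5) (nat_lit 8) (nat_lit 7) L76229 (by decide +kernel)
theorem L76231 : W_49 (nat_lit 7) (nat_lit 0x400020001000080000000000000000000000000000000) (nat_lit 0x0) (nat_lit 0xc00020001000080004000e000600030000000000000000000) := T_49 (nat_lit 126) (nat_lit 109) (nat_lit 4) (nat_lit 8) (nat_lit 10) L76230 (by decide +kernel)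
theorem L76232 : W_49 (nat_lit 8) (nat_lit 0x20001000080000000000000000000000000000000) (nat_lit 0x0) (nat_lit 0x8001c000e0005000080004000e000700030000000000000000000) := Q_49 (nat_lit 178) (C_49 L524 (C_49 L557 (C_49 L575 (C_49 L76225 (C_49 L76231 N_49))))) (by decide +kernel)
theorem L76233 : W_49 (nat_lit 6) (nat_lit 0x20001000080000000000000000000000000000000) (nat_lit 0x0) (nat_lit 0x28001c000e0005000000014000e000500000000000000000000000) := Q_49 (nat_lit 178) (C_49 L849 (C_49 L76225 (C_49 L75821 N_49))) (by decide +kernel)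
theorem L76234 : W_49 (nat_lit 2) (nat_lit 0x7000100018000e000000000000000000000000000) (nat_lit 0x0) (nat_lit 0x200001800000000000000000000000000) := D_49 (nat_lit 108) (nat_lit 129) (nat_lit 107) (nat_lit 3) (nat_lit 6) (nat_lit 6) (nat_lit 3) (nat_lit 5) (nat_lit 6) (by decide +kernel)
theorem L76235 : W_49 (nat_lit 3) (nat_lit 0x7000100008000e000000000000000000000000000) (nat_lit 0x0) (nat_lit 0x400000000000300001800000000000000000000000000) := T_49 (nat_lit 128) (nat_lit 178) (nat_lit 6) (nat_lit 8) (nat_lit 10) L76234 (by decide +kernel)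
theorem L76236 : W_49 (nat_lit 4) (nat_lit 0x6000100008000e000000000000000000000000000) (nat_lit 0x0) (nat_lit 0x600010000000300001800000000000000000000000000) := T_49 (nat_lit 160) (nat_lit 177) (nat_lit 5) (nat_lit 8) (nat_lit 6) L76235 (by decide +kernel)
theorem L76237 : W_49 (nat_lit 5) (nat_lit 0x60001000080006000000000000000000000000000) (nat_lit 0x0) (nat_lit 0x600010000000300009800400000000000000000000000) := T_49 (nat_lit 111) (nat_lit 94) (nat_lit 6) (nat_lit 8) (nat_lit 9) L76236 (by decide +kernel)
theorem L76238 : W_49 (nat_lit 6) (nat_lit 0x20001000080006000000000000000000000000000) (nat_lit 0x0) (nat_lit 0xe00050000000300009800400000000000000000000000) := T_49 (nat_lit 162) (nat_lit 179) (nat_lit 7) (nat_lit 8) (nat_lit 6) L76237 (by decide +kernel)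
theorem L76239 : W_49 (nat_lit 7) (nat_lit 0x20001000080004000000000000000000000000000) (nat_lit 0x0) (nat_lit 0xe0005000000030000b800500000000000000000000000) := T_49 (nat_lit 109) (nat_lit 92) (nat_lit 4) (nat_lit 8) (nat_lit 9) L76238 (by decide +kernel)
theorem L76240 : W_49 (nat_lit 8) (nat_lit 0x20001000080000000000000000000000000000000) (nat_lit 0x0) (nat_lit 0xe000d0000e0030000f800700028000000000000000000) := Q_49 (nat_lit 110) (C_49 L76016 (C_49 L76033 (C_49 L76239 (C_49 L1032 N_49)))) (by decide +kernel)
theorem L76241 : W_49 (nat_lit 6) (nat_lit 0x20001000080000000000000000000000000000000) (nat_lit 0x0) (nat_lit 0x10000c0004000000014000e000700028000000000000000000) := Q_49 (nat_lit 110) (C_49 L76033 (C_49 L75884 (C_49 L75887 (C_49 L1021 N_49)))) (by decide +kernel)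
theorem L76242 : W_49 (nat_lit 9) (nat_lit 0x20001000080000000000000000000000000000000) (nat_lit 0x0) (nat_lit 0x400038001c000e00050000e0014000c000400000000000000000000000) := Q_49 (nat_lit 178) (C_49 L849 (C_49 L575 (C_49 L871 (C_49 L868 (C_49 L578 N_49))))) (by decide +kernel)
theorem L76243 : W_49 (nat_lit 9) (nat_lit 0x20001000080000000000000000000000000000000) (nat_lit 0x0) (nat_lit 0x400038001c000e00010000e0034000e000600030000000000000000000) := Q_49 (nat_lit 178) (C_49 L868 (C_49 L578 (C_49 L76231 (C_49 L1004 (C_49 L524 N_49))))) (by decide +kernel)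
theorem L76244 : W_49 (nat_lit 8) (nat_lit 0x20001000080000000000000000000000000000000) (nat_lit 0x0) (nat_lit 0x600038001e000fc0050000800040006000100000000000000000000000) := Q_49 (nat_lit 178) (C_49 L524 (C_49 L76225 (C_49 L575 (C_49 L589 (C_49 L1704 N_49))))) (by decide +kernel)
theorem L76245 : W_49 (nat_lit 8) (nat_lit 0x20001000080000000000000000000000000000000) (nat_lit 0x0) (nat_lit 0x10000800060001000080014000e000700038000c00000000000000) := Q_49 (nat_lit 110) (C_49 L1032 (C_49 L76033 (C_49 L1708 (C_49 L1731 (C_49 L643 N_49))))) (by decide +kernel)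
theorem L76246 : W_49 (nat_lit 15) (nat_lit 0x1000080000000000000000000000000000000) (nat_lit 0x0) (nat_lit 0x800070003c001f003fc01fe00cf0075c03fc03fe0038001c00080000000000) := Q_49 (nat_lit 161) (C_49 L76193 (C_49 L75822 (C_49 L76222 (C_49 L76232 (C_49 L76233 (C_49 L76240 (C_49 L76241 (C_49 L76242 (C_49 L76243 (C_49 L76244 (C_49 L76245 N_49))))))))))) (by decide +kernel)
theorem L100454 : W_49 (nat_lit 2) (nat_lit 0x18000b0005001f80084000000000000000000) (nat_lit 0x0) (nat_lit 0x70000000000000000000000000000) := D_49 (nat_lit 113) (nat_lit 112) (nat_lit 114) (nat_lit 3) (nat_lit 7) (nat_lit 5) (nat_lit 3) (nat_lit 8) (nat_lit 5) (by decide +kernel)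
theorem L100455 : W_49 (nat_lit 3) (nat_lit 0x18000b0005000f80084000000000000000000) (nat_lit 0x0) (nat_lit 0x70001000100000000000000000000) := T_49 (nat_lit 96) (nat_lit 80) (nat_lit 2) (nat_lit 8) (nat_lit 5) L100454 (by decide +kernel)
theorem L100456 : W_49 (nat_lit 4) (nat_lit 0x18000a0005000f80084000000000000000000) (nat_lit 0x0) (nat_lit 0x200010070001000100000000000000000000) := T_49 (nat_lit 124) (nat_lit 141) (nat_lit 5) (nat_lit 6) (nat_lit 4) L100455 (by decide +kernel)
theorem L100457 : W_49 (nat_lit 5) (nat_lit 0x1800080005000f80084000000000000000000) (nat_lit 0x0) (nat_lit 0x200070070001000100000000000000000000) := T_49 (nat_lit 125) (nat_lit 126) (nat_lit 7) (nat_lit 6) (nat_lit 4) L100456 (by decide +kernel)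
theorem L100458 : W_49 (nat_lit 6) (nat_lit 0x1800080005000f80004000000000000000000) (nat_lit 0x0) (nat_lit 0x2000700700010001c0000000000000000000) := T_49 (nat_lit 79) (nat_lit 78) (nat_lit 2) (nat_lit 7) (nat_lit 5) L100457 (by decide +kernel)
theorem L100459 : W_49 (nat_lit 7) (nat_lit 0x1000080005000f80004000000000000000000) (nat_lit 0x0) (nat_lit 0x10000a000700700010001c0000000000000000000) := T_49 (nat_lit 143) (nat_lit 160) (nat_lit 5) (nat_lit 8) (nat_lit 5) L100458 (by decide +kernel)
theorem L100460 : W_49 (nat_lit 8) (nat_lit 0x1000080005000780004000000000000000000) (nat_lit 0x0) (nat_lit 0x10000a000700720018001c0000000000000000000) := T_49 (nat_lit 95) (nat_lit 109) (nat_lit 1) (nat_lit 10) (nat_lit 5) L100459 (by decide +kernel)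
theorem L100461 : W_49 (nat_lit 9) (nat_lit 0x1000080005000780000000000000000000000) (nat_lit 0x0) (nat_lit 0x10000a000700720018001c6000000000000000000) := T_49 (nat_lit 74) (nat_lit 73) (nat_lit 0) (nat_lit 9) (nat_lit 5) L100460 (by decide +kernel)
theorem L100462 : W_49 (nat_lit 10) (nat_lit 0x1000080004000780000000000000000000000) (nat_lit 0x0) (nat_lit 0x10000a000700738018001c6000000000000000000) := T_49 (nat_lit 108) (nat_lit 107) (nat_lit 1) (nat_lit 9) (nat_lit 5) L100461 (by decide +kernel)
theorem L100463 : W_49 (nat_lit 11) (nat_lit 0x1000080004000380000000000000000000000) (nat_lit 0x0) (nat_lit 0x10000a00070073801c001e6000000000000000000) := T_49 (nat_lit 94) (nat_lit 77) (nat_lit 6) (nat_lit 8) (nat_lit 8) L100462 (by decide +kernel)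
theorem L100464 : W_49 (nat_lit 12) (nat_lit 0x1000080004000300000000000000000000000) (nat_lit 0x0) (nat_lit 0x10000a0007007be01ce01e6000000000000000000) := Q_49 (nat_lit 91) (C_49 L100463 (C_49 L100147 (C_49 L100144 N_49))) (by decide +kernel)
theorem L100465 : W_49 (nat_lit 13) (nat_lit 0x1000080004000200000000000000000000000) (nat_lit 0x0) (nat_lit 0x10000a0007007be01de01ee000000000000000000) := T_49 (nat_lit 92) (nat_lit 75) (nat_lit 4) (nat_lit 8) (nat_lit 8) L100464 (by decide +kernel)
theorem L100472 : W_49 (nat_lit 14) (nat_lit 0x1000080004000000000000000000000000000) (nat_lit 0x0) (nat_lit 0x10000a0017007be01fe01fe001c00060000000000) := Q_49 (nat_lit 93) (C_49 L100465 (C_49 L100180 (C_49 L100170 (C_49 L100471 (C_49 L100356 N_49))))) (by decide +kernel)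
theorem L100473 : W_49 (nat_lit 2) (nat_lit 0x20001000080004000700000000000000000000000) (nat_lit 0x0) (nat_lit 0x200010000800000000000000000000000000000000000) := D_49 (nat_lit 160) (nat_lit 143) (nat_lit 177) (nat_lit 5) (nat_lit 8) (nat_lit 5) (nat_lit 5) (nat_lit 8) (nat_lit 6) (by decide +kernel)
theorem L100474 : W_49 (nat_lit 3) (nat_lit 0x1000080004000700000000000000000000000) (nat_lit 0x0) (nat_lit 0x200030000800000002000000000000000000000000000) := T_49 (nat_lit 161) (nat_lit 109) (nat_lit 4) (nat_lit 8) (nat_lit 9) L100473 (by decide +kernel)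
theorem L100475 : W_49 (nat_lit 4) (nat_lit 0x1000080004000300000000000000000000000) (nat_lit 0x0) (nat_lit 0x200030000800000002000400020000000000000000000) := T_49 (nat_lit 94) (nat_lit 77) (nat_lit 6) (nat_lit 8) (nat_lit 8) L100474 (by decide +kernel)
theorem L100476 : W_49 (nat_lit 5) (nat_lit 0x1000080004000200000000000000000000000) (nat_lit 0x0) (nat_lit 0x200030000800000002000500028000000000000000000) := T_49 (nat_lit 92) (nat_lit 75) (nat_lit 4) (nat_lit 8) (nat_lit 8) L100475 (by decide +kernel)
theorem L100477 : W_49 (nat_lit 6) (nat_lit 0x1000080004000000000000000000000000000) (nat_lit 0x0) (nat_lit 0x200030000800040002000700038001400000000000000) := Q_49 (nat_lit 93) (C_49 L100356 (C_49 L100170 (C_49 L100180 (C_49 L100476 N_49)))) (by decide +kernel)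
theorem L100478 : W_49 (nat_lit 2) (nat_lit 0x200060001000080006000000000000000000000000000) (nat_lit 0x0) (nat_lit 0x4000400000000000040000000000000000000000000000000) := D_49 (nat_lit 178) (nat_lit 126) (nat_lit 194) (nat_lit 4) (nat_lit 8) (nat_lit 10) (nat_lit 5) (nat_lit 8) (nat_lit 7) (by decide +kernel)
theorem L100479 : W_49 (nat_lit 3) (nat_lit 0x60001000080006000000000000000000000000000) (nat_lit 0x0) (nat_lit 0x4000600010000000040000000000000000000000000000000) := T_49 (nat_lit 177) (nat_lit 160) (nat_lit 5) (nat_lit 8) (nat_lit 6) L100478 (by decide +kernel)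
theorem L100480 : W_49 (nat_lit 4) (nat_lit 0x60001000080004000000000000000000000000000) (nat_lit 0x0) (nat_lit 0x4000600010000000040002000100000000000000000000000) := T_49 (nat_lit 109) (nat_lit 92) (nat_lit 4) (nat_lit 8) (nat_lit 9) L100479 (by decide +kernel)
theorem L100481 : W_49 (nat_lit 5) (nat_lit 0x20001000080004000000000000000000000000000) (nat_lit 0x0) (nat_lit 0x4000e00050000000040002000100000000000000000000000) := T_49 (nat_lit 162) (nat_lit 179) (nat_lit 7) (nat_lit 8) (nat_lit 6) L100480 (by decide +kernel)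
theorem L100482 : W_49 (nat_lit 2) (nat_lit 0x70001000080004000300000000000000000000000) (nat_lit 0x0) (nat_lit 0x8000400020000000000000000000) := D_49 (nat_lit 94) (nat_lit 111) (nat_lit 77) (nat_lit 6) (nat_lit 8) (nat_lit 9) (nat_lit 6) (nat_lit 8) (nat_lit 8) (by decide +kernel)
theorem L100483 : W_49 (nat_lit 3) (nat_lit 0x70001000080004000100000000000000000000000) (nat_lit 0x0) (nat_lit 0x8000600028000000000000000000) := T_49 (nat_lit 93) (nat_lit 75) (nat_lit 4) (nat_lit 8) (nat_lit 8) L100482 (by decide +kernel)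
theorem L100484 : W_49 (nat_lit 4) (nat_lit 0x30001000080004000100000000000000000000000) (nat_lit 0x0) (nat_lit 0x800040000000000008000600028000000000000000000) := T_49 (nat_lit 162) (nat_lit 179) (nat_lit 7) (nat_lit 8) (nat_lit 6) L100483 (by decide +kernel)
theorem L100485 : W_49 (nat_lit 5) (nat_lit 0x30001000080004000000000000000000000000000) (nat_lit 0x0) (nat_lit 0x80004000000000000a000700028000000000000000000) := T_49 (nat_lit 92) (nat_lit 109) (nat_lit 4) (nat_lit 8) (nat_lit 9) L100484 (by decide +kernel)
theorem L100486 : W_49 (nat_lit 6) (nat_lit 0x20001000080004000000000000000000000000000) (nat_lit 0x0) (nat_lit 0xa0005000000000000a000700028000000000000000000) := T_49 (nat_lit 160) (nat_lit 177) (nat_lit 5) (nat_lit 8) (nat_lit 6) L100485 (by decide +kernel)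
theorem L100487 : W_49 (nat_lit 7) (nat_lit 0x1000080004000000000000000000000000000) (nat_lit 0x0) (nat_lit 0x4000e0007000000014000a000700028000000000000000000) := Q_49 (nat_lit 161) (C_49 L75884 (C_49 L100481 (C_49 L634 (C_49 L100486 (C_49 L76111 N_49))))) (by decide +kernel)
theorem L100488 : W_49 (nat_lit 2) (nat_lit 0xc00030001800080004000000000000000000000000000) (nat_lit 0x0) (nat_lit 0x8000000000000000040002000000000000000000000000000) := D_49 (nat_lit 126) (nat_lit 109) (nat_lit 195) (nat_lit 7) (nat_lit 7) (nat_lit 6) (nat_lit 4) (nat_lit 8) (nat_lit 11) (by decide +kernel)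
theorem L100489 : W_49 (nat_lit 3) (nat_lit 0x800030001800080004000000000000000000000000000) (nat_lit 0x0) (nat_lit 0x18000400000000000040002000000000000000000000000000) := T_49 (nat_lit 178) (nat_lit 196) (nat_lit 7) (nat_lit 8) (nat_lit 7) L100488 (by decide +kernel)
theorem L100490 : W_49 (nat_lit 4) (nat_lit 0x800030001000080004000000000000000000000000000) (nat_lit 0x0) (nat_lit 0x18000400000000800040002000200000000000000000000000) := T_49 (nat_lit 143) (nat_lit 93) (nat_lit 5) (nat_lit 8) (nat_lit 5) L100489 (by decide +kernel)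
theorem L100491 : W_49 (nat_lit 5) (nat_lit 0x800020001000080004000000000000000000000000000) (nat_lit 0x0) (nat_lit 0x18000600010000800040002000200000000000000000000000) := T_49 (nat_lit 160) (nat_lit 177) (nat_lit 5) (nat_lit 8) (nat_lit 6) L100490 (by decide +kernel)
theorem L100492 : W_49 (nat_lit 6) (nat_lit 0x20001000080004000000000000000000000000000) (nat_lit 0x0) (nat_lit 0x18000e00050000800040002000200000000000000000000000) := T_49 (nat_lit 179) (nat_lit 162) (nat_lit 7) (nat_lit 8) (nat_lit 6) L100491 (by decide +kernel)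
theorem L100493 : W_49 (nat_lit 2) (nat_lit 0x70001000080004000100000000000000000000000) (nat_lit 0x0) (nat_lit 0x800000000000200008000000000000000000) := D_49 (nat_lit 93) (nat_lit 143) (nat_lit 75) (nat_lit 5) (nat_lit 8) (nat_lit 5) (nat_lit 4) (nat_lit 8) (nat_lit 8) (by decide +kernel)
theorem L100494 : W_49 (nat_lit 3) (nat_lit 0x60001000080004000100000000000000000000000) (nat_lit 0x0) (nat_lit 0x200010000800000000000200008000000000000000000) := T_49 (nat_lit 160) (nat_lit 177) (nat_lit 5) (nat_lit 8) (nat_lit 6) L100493 (by decide +kernel)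
theorem L100495 : W_49 (nat_lit 4) (nat_lit 0x60001000080004000000000000000000000000000) (nat_lit 0x0) (nat_lit 0x200010000800000002000300008000000000000000000) := T_49 (nat_lit 92) (nat_lit 109) (nat_lit 4) (nat_lit 8) (nat_lit 9) L100494 (by decide +kernel)
theorem L100496 : W_49 (nat_lit 5) (nat_lit 0x20001000080004000000000000000000000000000) (nat_lit 0x0) (nat_lit 0xa00050000800000002000300008000000000000000000) := T_49 (nat_lit 162) (nat_lit 179) (nat_lit 7) (nat_lit 8) (nat_lit 6) L100495 (by decide +kernel)
theorem L100497 : W_49 (nat_lit 2) (nat_lit 0xc00030001800080004000000000000000000000000000) (nat_lit 0x0) (nat_lit 0x100008000000000000000040000000000000000000000000000000) := D_49 (nat_lit 195) (nat_lit 126) (nat_lit 212) (nat_lit 4) (nat_lit 8) (nat_lit 11) (nat_lit 4) (nat_lit 8) (nat_lit 12) (by decide +kernel)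
theorem L100498 : W_49 (nat_lit 3) (nat_lit 0x800030001800080004000000000000000000000000000) (nat_lit 0x0) (nat_lit 0x100018000400000000000040000000000000000000000000000000) := T_49 (nat_lit 178) (nat_lit 196) (nat_lit 7) (nat_lit 8) (nat_lit 7) L100497 (by decide +kernel)
theorem L100499 : W_49 (nat_lit 4) (nat_lit 0x800030001000080004000000000000000000000000000) (nat_lit 0x0) (nat_lit 0x100018000400000000800040000000200000000000000000000000) := T_49 (nat_lit 143) (nat_lit 93) (nat_lit 5) (nat_lit 8) (nat_lit 5) L100498 (by decide +kernel)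
theorem L100500 : W_49 (nat_lit 5) (nat_lit 0x800020001000080004000000000000000000000000000) (nat_lit 0x0) (nat_lit 0x100018000600010000800040000000200000000000000000000000) := T_49 (nat_lit 160) (nat_lit 177) (nat_lit 5) (nat_lit 8) (nat_lit 6) L100499 (by decide +kernel)
theorem L100501 : W_49 (nat_lit 6) (nat_lit 0x20001000080004000000000000000000000000000) (nat_lit 0x0) (nat_lit 0x100018000e00050000800040000000200000000000000000000000) := T_49 (nat_lit 179) (nat_lit 162) (nat_lit 7) (nat_lit 8) (nat_lit 6) L100500 (by decide +kernel)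
theorem L100502 : W_49 (nat_lit 8) (nat_lit 0x1000080004000000000000000000000000000) (nat_lit 0x0) (nat_lit 0x10001c000e00070000800140003c00380008000000000000000000) := Q_49 (nat_lit 161) (C_49 L100481 (C_49 L100492 (C_49 L100496 (C_49 L100247 (C_49 L100501 (C_49 L75897 N_49)))))) (by decide +kernel)
theorem L100503 : W_49 (nat_lit 12) (nat_lit 0x1000080004000000000000000000000000000) (nat_lit 0x0) (nat_lit 0x500038001c000e0007000080017003a000600020000000000000000000) := Q_49 (nat_lit 161) (C_49 L634 (C_49 L100501 (C_49 L75810 (C_49 L619 (C_49 L1724 N_49))))) (by decide +kernel)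
theorem L100504 : W_49 (nat_lit 12) (nat_lit 0x1000080004000000000000000000000000000) (nat_lit 0x0) (nat_lit 0x500038001c000c0006000080017003a000700028000000000000000000) := Q_49 (nat_lit 161) (C_49 L100247 (C_49 L1724 (C_49 L75809 (C_49 L75887 (C_49 L76111 N_49))))) (by decide +kernel)
theorem L100505 : W_49 (nat_lit 10) (nat_lit 0x1000080004000000000000000000000000000) (nat_lit 0x0) (nat_lit 0x8001c000e00070000800040008000700038001400000000000000) := Q_49 (nat_lit 93) (C_49 L100356 (C_49 L100170 (C_49 L100180 (C_49 L100215 N_49)))) (by decide +kernel)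
theorem L100519 : W_49 (nat_lit 2) (nat_lit 0xf000900008000c000000000000000000000000000) (nat_lit 0x0) (nat_lit 0x100010800000000000000000000000000000000000) := D_49 (nat_lit 164) (nat_lit 143) (nat_lit 148) (nat_lit 0) (nat_lit 11) (nat_lit 9) (nat_lit 2) (nat_lit 8) (nat_lit 9) (by decide +kernel)
theorem L100520 : W_49 (nat_lit 3) (nat_lit 0xf000100008000c000000000000000000000000000) (nat_lit 0x0) (nat_lit 0x10001c800000000000000000000000000000000000) := T_49 (nat_lit 147) (nat_lit 146) (nat_lit 2) (nat_lit 7) (nat_lit 9) L100519 (by decide +kernel)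
theorem L100521 : W_49 (nat_lit 4) (nat_lit 0xe000100008000c000000000000000000000000000) (nat_lit 0x0) (nat_lit 0x20011001c800000000000000000000000000000000000) := T_49 (nat_lit 160) (nat_lit 177) (nat_lit 5) (nat_lit 8) (nat_lit 6) L100520 (by decide +kernel)
theorem L100522 : W_49 (nat_lit 5) (nat_lit 0xe0001000080004000000000000000000000000000) (nat_lit 0x0) (nat_lit 0x20011001c800000008000400000000000000000000000) := T_49 (nat_lit 111) (nat_lit 94) (nat_lit 6) (nat_lit 8) (nat_lit 9) L100521 (by decide +kernel)
theorem L100523 : W_49 (nat_lit 11) (nat_lit 0x60001000080004000000000000000000000000000) (nat_lit 0x0) (nat_lit 0xf20039001c80074003a003d00000000000000000000000) := Q_49 (nat_lit 163) (C_49 L100509 (C_49 L100513 (C_49 L100518 (C_49 L688 (C_49 L100522 N_49))))) (by decide +kernel)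
theorem L100524 : W_49 (nat_lit 12) (nat_lit 0x20001000080004000000000000000000000000000) (nat_lit 0x0) (nat_lit 0xfa003d001c80074003a003d00000000000000000000000) := T_49 (nat_lit 162) (nat_lit 179) (nat_lit 7) (nat_lit 8) (nat_lit 6) L100523 (by decide +kernel)
theorem L100525 : W_49 (nat_lit 13) (nat_lit 0x1000080004000000000000000000000000000) (nat_lit 0x0) (nat_lit 0x1000fe003f001c80074003a003d00000000000000000000000) := Q_49 (nat_lit 161) (C_49 L75887 (C_49 L100247 (C_49 L100524 (C_49 L76111 N_49)))) (by decide +kernel)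
theorem L100526 : W_49 (nat_lit 6) (nat_lit 0x1000080004000000000000000000000000000) (nat_lit 0x0) (nat_lit 0x10000e0007000080010000a000700028000000000000000000) := Q_49 (nat_lit 161) (C_49 L75887 (C_49 L100496 (C_49 L75810 N_49))) (by decide +kernel)
theorem L100527 : W_49 (nat_lit 15) (nat_lit 0x1000080000000000000000000000000000000) (nat_lit 0x0) (nat_lit 0x500038001c00fe003f001ca0077007fe03fe01fe001c00060000000000) := Q_49 (nat_lit 110) (C_49 L100472 (C_49 L100477 (C_49 L100487 (C_49 L100502 (C_49 L100503 (C_49 L100504 (C_49 L100505 (C_49 L100525 (C_49 L100526 N_49))))))))) (by decide +kernel)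
theorem L132836 : W_49 (nat_lit 4) (nat_lit 0x160001800380004000000000000000000000000000) (nat_lit 0x0) (nat_lit 0x400060038000400000000000000000000000) := T_49 (nat_lit 111) (nat_lit 94) (nat_lit 6) (nat_lit 8) (nat_lit 9) L100436 (by decide +kernel)
theorem L132837 : W_49 (nat_lit 5) (nat_lit 0x160001800180004000000000000000000000000000) (nat_lit 0x0) (nat_lit 0x400660038000400000000000000000000000) := T_49 (nat_lit 129) (nat_lit 130) (nat_lit 1) (nat_lit 11) (nat_lit 7) L132836 (by decide +kernel)
theorem L132838 : W_49 (nat_lit 6) (nat_lit 0x60001800180004000000000000000000000000000) (nat_lit 0x0) (nat_lit 0x180000400660038000400000000000000000000000) := T_49 (nat_lit 164) (nat_lit 163) (nat_lit 0) (nat_lit 11) (nat_lit 9) L132837 (by decide +kernel)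
theorem L132839 : W_49 (nat_lit 7) (nat_lit 0x20001800180004000000000000000000000000000) (nat_lit 0x0) (nat_lit 0x8001c0000400660038000400000000000000000000000) := T_49 (nat_lit 162) (nat_lit 179) (nat_lit 7) (nat_lit 8) (nat_lit 6) L132838 (by decide +kernel)
theorem L132840 : W_49 (nat_lit 2) (nat_lit 0x60001c00180004000000000000000000000000000) (nat_lit 0x0) (nat_lit 0x190000000000000000000000000000000000000000) := D_49 (nat_lit 163) (nat_lit 164) (nat_lit 160) (nat_lit 0) (nat_lit 11) (nat_lit 9) (nat_lit 0) (nat_lit 10) (nat_lit 9) (by decide +kernel)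
theorem L132841 : W_49 (nat_lit 3) (nat_lit 0x60001800180004000000000000000000000000000) (nat_lit 0x0) (nat_lit 0x190000600000000000000000000000000000000000) := T_49 (nat_lit 142) (nat_lit 141) (nat_lit 3) (nat_lit 5) (nat_lit 8) L132840 (by decide +kernel)
theorem L132842 : W_49 (nat_lit 4) (nat_lit 0x20001800180004000000000000000000000000000) (nat_lit 0x0) (nat_lit 0x8001d0000600000000000000000000000000000000000) := T_49 (nat_lit 162) (nat_lit 179) (nat_lit 7) (nat_lit 8) (nat_lit 6) L132841 (by decide +kernel)
theorem L132843 : W_49 (nat_lit 2) (nat_lit 0xe000580038000c000000000000000000000000000) (nat_lit 0x0) (nat_lit 0x10008000040000000000000000000000000000000) := D_49 (nat_lit 147) (nat_lit 126) (nat_lit 160) (nat_lit 3) (nat_lit 7) (nat_lit 7) (nat_lit 2) (nat_lit 7) (nat_lit 9) (by decide +kernel)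
theorem L132844 : W_49 (nat_lit 3) (nat_lit 0xe000180038000c000000000000000000000000000) (nat_lit 0x0) (nat_lit 0x100001000c000040000000000000000000000000000000) := T_49 (nat_lit 146) (nat_lit 180) (nat_lit 4) (nat_lit 10) (nat_lit 10) L132843 (by decide +kernel)
theorem L132845 : W_49 (nat_lit 4) (nat_lit 0xe0001800380004000000000000000000000000000) (nat_lit 0x0) (nat_lit 0x100001000c000040008000400000000000000000000000) := T_49 (nat_lit 111) (nat_lit 94) (nat_lit 6) (nat_lit 8) (nat_lit 9) L132844 (by decide +kernel)
theorem L132846 : W_49 (nat_lit 5) (nat_lit 0x60001800380004000000000000000000000000000) (nat_lit 0x0) (nat_lit 0x100019000c000040008000400000000000000000000000) := T_49 (nat_lit 163) (nat_lit 164) (nat_lit 0) (nat_lit 11) (nat_lit 9) L132845 (by decide +kernel)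
theorem L132847 : W_49 (nat_lit 6) (nat_lit 0x20001800380004000000000000000000000000000) (nat_lit 0x0) (nat_lit 0x18001d000c000040008000400000000000000000000000) := T_49 (nat_lit 162) (nat_lit 179) (nat_lit 7) (nat_lit 8) (nat_lit 6) L132846 (by decide +kernel)
theorem L132848 : W_49 (nat_lit 7) (nat_lit 0x20001800180004000000000000000000000000000) (nat_lit 0x0) (nat_lit 0x18001d000c000640008000400000000000000000000000) := T_49 (nat_lit 129) (nat_lit 130) (nat_lit 1) (nat_lit 11) (nat_lit 7) L132847 (by decide +kernel)
theorem L132849 : W_49 (nat_lit 8) (nat_lit 0x20001000180004000000000000000000000000000) (nat_lit 0x0) (nat_lit 0x18001d000ce00660038000400000000000000000000000) := Q_49 (nat_lit 143) (C_49 L132839 (C_49 L75759 (C_49 L132842 (C_49 L132848 N_49)))) (by decide +kernel)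
theorem L132850 : W_49 (nat_lit 2) (nat_lit 0x2000100018000e000000000000000000000000000) (nat_lit 0x0) (nat_lit 0x200001800000000000000000000000000) := D_49 (nat_lit 108) (nat_lit 129) (nat_lit 107) (nat_lit 3) (nat_lit 6) (nat_lit 6) (nat_lit 3) (nat_lit 5) (nat_lit 6) (by decide +kernel)
theorem L132851 : W_49 (nat_lit 3) (nat_lit 0x2000100018000c000000000000000000000000000) (nat_lit 0x0) (nat_lit 0x200003800100000000000000000000000) := T_49 (nat_lit 109) (nat_lit 92) (nat_lit 4) (nat_lit 8) (nat_lit 9) L132850 (by decide +kernel)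
theorem L132852 : W_49 (nat_lit 4) (nat_lit 0x20001000180004000000000000000000000000000) (nat_lit 0x0) (nat_lit 0x20000b800500000000000000000000000) := T_49 (nat_lit 111) (nat_lit 94) (nat_lit 6) (nat_lit 8) (nat_lit 9) L132851 (by decide +kernel)
theorem L132853 : W_49 (nat_lit 2) (nat_lit 0x200010001e000f000080000000000000000000000) (nat_lit 0x0) (nat_lit 0x800000000000000004000200000000000000) := D_49 (nat_lit 74) (nat_lit 143) (nat_lit 57) (nat_lit 7) (nat_lit 6) (nat_lit 4) (nat_lit 7) (nat_lit 6) (nat_lit 3) (by decide +kernel)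
theorem L132854 : W_49 (nat_lit 3) (nat_lit 0x200010001a000f000080000000000000000000000) (nat_lit 0x0) (nat_lit 0x800040010000000004000200000000000000) := T_49 (nat_lit 126) (nat_lit 112) (nat_lit 2) (nat_lit 6) (nat_lit 7) L132853 (by decide +kernel)
theorem L132855 : W_49 (nat_lit 4) (nat_lit 0x200010001a000f000000000000000000000000000) (nat_lit 0x0) (nat_lit 0x8000400100000c0004000200000000000000) := T_49 (nat_lit 91) (nat_lit 90) (nat_lit 0) (nat_lit 9) (nat_lit 6) L132854 (by decide +kernel)
theorem L132856 : W_49 (nat_lit 5) (nat_lit 0x2000100018000f000000000000000000000000000) (nat_lit 0x0) (nat_lit 0x8000700100000c0004000200000000000000) := T_49 (nat_lit 125) (nat_lit 124) (nat_lit 1) (nat_lit 9) (nat_lit 6) L132855 (by decide +kernel)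
theorem L132857 : W_49 (nat_lit 6) (nat_lit 0x20001000180007000000000000000000000000000) (nat_lit 0x0) (nat_lit 0x8000700180004c0004000200000000000000) := T_49 (nat_lit 111) (nat_lit 94) (nat_lit 6) (nat_lit 8) (nat_lit 9) L132856 (by decide +kernel)
theorem L132858 : W_49 (nat_lit 7) (nat_lit 0x20001000180006000000000000000000000000000) (nat_lit 0x0) (nat_lit 0x8000700198004c0004000200000000000000) := T_49 (nat_lit 108) (nat_lit 107) (nat_lit 3) (nat_lit 5) (nat_lit 6) L132857 (by decide +kernel)
theorem L132859 : W_49 (nat_lit 8) (nat_lit 0x20001000180004000000000000000000000000000) (nat_lit 0x0) (nat_lit 0x80007001b8005c0004000200000000000000) := T_49 (nat_lit 109) (nat_lit 92) (nat_lit 4) (nat_lit 8) (nat_lit 9) L132858 (by decide +kernel)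
theorem L132860 : W_49 (nat_lit 9) (nat_lit 0x20001000080004000000000000000000000000000) (nat_lit 0x0) (nat_lit 0x18001d000ce0077003b8005c0004000200000000000000) := Q_49 (nat_lit 128) (C_49 L132849 (C_49 L132852 (C_49 L100404 (C_49 L132859 N_49)))) (by decide +kernel)
theorem L132862 : W_49 (nat_lit 3) (nat_lit 0x6000100008000e000000000000000000000000000) (nat_lit 0x0) (nat_lit 0x400000000000070010000000000000000000000000000) := T_49 (nat_lit 126) (nat_lit 178) (nat_lit 4) (nat_lit 8) (nat_lit 10) L132861 (by decide +kernel)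
theorem L132863 : W_49 (nat_lit 4) (nat_lit 0x60001000080006000000000000000000000000000) (nat_lit 0x0) (nat_lit 0x400000000000070018000400000000000000000000000) := T_49 (nat_lit 111) (nat_lit 94) (nat_lit 6) (nat_lit 8) (nat_lit 9) L132862 (by decide +kernel)
theorem L132864 : W_49 (nat_lit 5) (nat_lit 0x60001000080004000000000000000000000000000) (nat_lit 0x0) (nat_lit 0x40000000000007001a000500000000000000000000000) := T_49 (nat_lit 109) (nat_lit 92) (nat_lit 4) (nat_lit 8) (nat_lit 9) L132863 (by decide +kernel)
theorem L132865 : W_49 (nat_lit 6) (nat_lit 0x20001000080004000000000000000000000000000) (nat_lit 0x0) (nat_lit 0xc0004000000007001a000500000000000000000000000) := T_49 (nat_lit 162) (nat_lit 179) (nat_lit 7) (nat_lit 8) (nat_lit 6) L132864 (by decide +kernel)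
theorem L132866 : W_49 (nat_lit 10) (nat_lit 0x1000080004000000000000000000000000000) (nat_lit 0x0) (nat_lit 0x10001c001f000ce0077003b8005c0004000200000000000000) := Q_49 (nat_lit 161) (C_49 L132860 (C_49 L2015 (C_49 L132865 (C_49 L1021 (C_49 L1708 N_49))))) (by decide +kernel)
theorem L132867 : W_49 (nat_lit 2) (nat_lit 0x1800080004000600010000000000000000000) (nat_lit 0x0) (nat_lit 0x100008000400000000000000) := D_49 (nat_lit 75) (nat_lit 58) (nat_lit 92) (nat_lit 4) (nat_lit 8) (nat_lit 7) (nat_lit 4) (nat_lit 8) (nat_lit 8) (by decide +kernel)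
theorem L132868 : W_49 (nat_lit 3) (nat_lit 0x1800080004000600000000000000000000000) (nat_lit 0x0) (nat_lit 0x40000000100018000400000000000000) := T_49 (nat_lit 76) (nat_lit 126) (nat_lit 5) (nat_lit 8) (nat_lit 4) L132867 (by decide +kernel)
theorem L132869 : W_49 (nat_lit 4) (nat_lit 0x1000080004000600000000000000000000000) (nat_lit 0x0) (nat_lit 0x10000800040000000100018000400000000000000) := T_49 (nat_lit 143) (nat_lit 160) (nat_lit 5) (nat_lit 8) (nat_lit 5) L132868 (by decide +kernel)
theorem L132870 : W_49 (nat_lit 5) (nat_lit 0x1000080004000400000000000000000000000) (nat_lit 0x0) (nat_lit 0x10000800040000000300038000400000000000000) := T_49 (nat_lit 93) (nat_lit 77) (nat_lit 6) (nat_lit 8) (nat_lit 8) L132869 (by decide +kernel)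
theorem L132871 : W_49 (nat_lit 4) (nat_lit 0x1000080004000400000000000000000000000) (nat_lit 0x0) (nat_lit 0x2000000000000a000300028000000000000000000) := T_49 (nat_lit 161) (nat_lit 111) (nat_lit 6) (nat_lit 8) (nat_lit 9) L76032 (by decide +kernel)
theorem L132872 : W_49 (nat_lit 2) (nat_lit 0x100008000c000400000000000000000000000) (nat_lit 0x0) (nat_lit 0x100000000200020000000000000000000) := D_49 (nat_lit 77) (nat_lit 93) (nat_lit 128) (nat_lit 6) (nat_lit 8) (nat_lit 8) (nat_lit 5) (nat_lit 9) (nat_lit 4) (by decide +kernel)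
theorem L132873 : W_49 (nat_lit 3) (nat_lit 0x1000080004000400000000000000000000000) (nat_lit 0x0) (nat_lit 0x20000000100008000200020000000000000000000) := T_49 (nat_lit 111) (nat_lit 161) (nat_lit 6) (nat_lit 8) (nat_lit 9) L132872 (by decide +kernel)
theorem L132874 : W_49 (nat_lit 2) (nat_lit 0x100008000c000400000000000000000000000) (nat_lit 0x0) (nat_lit 0x100000000000020001000000000000000) := D_49 (nat_lit 77) (nat_lit 128) (nat_lit 60) (nat_lit 5) (nat_lit 9) (nat_lit 4) (nat_lit 5) (nat_lit 9) (nat_lit 3) (by decide +kernel)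
theorem L132875 : W_49 (nat_lit 3) (nat_lit 0x1000080004000400000000000000000000000) (nat_lit 0x0) (nat_lit 0x20000000100008000000020001000000000000000) := T_49 (nat_lit 111) (nat_lit 161) (nat_lit 6) (nat_lit 8) (nat_lit 9) L132874 (by decide +kernel)
theorem L132876 : W_49 (nat_lit 2) (nat_lit 0x1000080006000400000000000000000000000) (nat_lit 0x0) (nat_lit 0x20000000000008000100000000000000000000000) := D_49 (nat_lit 161) (nat_lit 111) (nat_lit 92) (nat_lit 6) (nat_lit 8) (nat_lit 9) (nat_lit 4) (nat_lit 8) (nat_lit 9) (by decide +kernel)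
theorem L132877 : W_49 (nat_lit 2) (nat_lit 0x100008000f000400000000000000000000000) (nat_lit 0x0) (nat_lit 0x100000800200000000000000000000000) := D_49 (nat_lit 107) (nat_lit 93) (nat_lit 128) (nat_lit 2) (nat_lit 5) (nat_lit 6) (nat_lit 3) (nat_lit 5) (nat_lit 6) (by decide +kernel)
theorem L132878 : W_49 (nat_lit 3) (nat_lit 0x100008000e000400000000000000000000000) (nat_lit 0x0) (nat_lit 0x100001800a00000000000000000000000) := T_49 (nat_lit 108) (nat_lit 95) (nat_lit 2) (nat_lit 6) (nat_lit 6) L132877 (by decide +kernel)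
theorem L132879 : W_49 (nat_lit 4) (nat_lit 0x1000080006000400000000000000000000000) (nat_lit 0x0) (nat_lit 0x20000000100009800a00000000000000000000000) := T_49 (nat_lit 111) (nat_lit 161) (nat_lit 6) (nat_lit 8) (nat_lit 9) L132878 (by decide +kernel)
theorem L132880 : W_49 (nat_lit 2) (nat_lit 0x1000080007000400000000000000000000000) (nat_lit 0x0) (nat_lit 0x100000800200000000000000000000000) := D_49 (nat_lit 107) (nat_lit 93) (nat_lit 128) (nat_lit 2) (nat_lit 5) (nat_lit 6) (nat_lit 3) (nat_lit 5) (nat_lit 6) (by decide +kernel)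
theorem L132881 : W_49 (nat_lit 2) (nat_lit 0x1000090007800400000000000000000000000) (nat_lit 0x0) (nat_lit 0x20008000800000000000000000000000) := D_49 (nat_lit 111) (nat_lit 95) (nat_lit 125) (nat_lit 2) (nat_lit 6) (nat_lit 6) (nat_lit 1) (nat_lit 9) (nat_lit 6) (by decide +kernel)
theorem L132882 : W_49 (nat_lit 3) (nat_lit 0x1000080007800400000000000000000000000) (nat_lit 0x0) (nat_lit 0x38008000800000000000000000000000) := T_49 (nat_lit 124) (nat_lit 123) (nat_lit 1) (nat_lit 8) (nat_lit 6) L132881 (by decide +kernel)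
theorem L132883 : W_49 (nat_lit 4) (nat_lit 0x1000080007000400000000000000000000000) (nat_lit 0x0) (nat_lit 0x38008800a00000000000000000000000) := T_49 (nat_lit 107) (nat_lit 93) (nat_lit 2) (nat_lit 5) (nat_lit 6) L132882 (by decide +kernel)
theorem L132884 : W_49 (nat_lit 4) (nat_lit 0x1000080007000400000000000000000000000) (nat_lit 0x0) (nat_lit 0x138008800800000000000000000000000) := T_49 (nat_lit 107) (nat_lit 128) (nat_lit 3) (nat_lit 5) (nat_lit 6) L132882 (by decide +kernel)
theorem L132885 : W_49 (nat_lit 2) (nat_lit 0x14001e000f000400000000000000000000000) (nat_lit 0x0) (nat_lit 0x8000000000000000100008000000000000000000) := D_49 (nat_lit 92) (nat_lit 75) (nat_lit 159) (nat_lit 7) (nat_lit 7) (nat_lit 4) (nat_lit 6) (nat_lit 6) (nat_lit 9) (by decide +kernel)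
theorem L132886 : W_49 (nat_lit 3) (nat_lit 0x10001e000f000400000000000000000000000) (nat_lit 0x0) (nat_lit 0x8000600000000000100008000000000000000000) := T_49 (nat_lit 142) (nat_lit 141) (nat_lit 1) (nat_lit 9) (nat_lit 7) L132885 (by decide +kernel)
theorem L132887 : W_49 (nat_lit 4) (nat_lit 0x10001a000f000400000000000000000000000) (nat_lit 0x0) (nat_lit 0x8000600040010000100008000000000000000000) := T_49 (nat_lit 126) (nat_lit 112) (nat_lit 2) (nat_lit 6) (nat_lit 7) L132886 (by decide +kernel)
theorem L132888 : W_49 (nat_lit 5) (nat_lit 0x10000a000f000400000000000000000000000) (nat_lit 0x0) (nat_lit 0x8000600340010000100008000000000000000000) := T_49 (nat_lit 128) (nat_lit 129) (nat_lit 3) (nat_lit 6) (nat_lit 6) L132887 (by decide +kernel)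
theorem L132889 : W_49 (nat_lit 6) (nat_lit 0x100008000f000400000000000000000000000) (nat_lit 0x0) (nat_lit 0x8000600370010000100008000000000000000000) := T_49 (nat_lit 125) (nat_lit 124) (nat_lit 1) (nat_lit 9) (nat_lit 6) L132888 (by decide +kernel)
theorem L132890 : W_49 (nat_lit 7) (nat_lit 0x1000080007000400000000000000000000000) (nat_lit 0x0) (nat_lit 0x8000600370018000900008000000000000000000) := T_49 (nat_lit 111) (nat_lit 95) (nat_lit 2) (nat_lit 6) (nat_lit 6) L132889 (by decide +kernel)
theorem L132891 : W_49 (nat_lit 8) (nat_lit 0x1000080006000400000000000000000000000) (nat_lit 0x0) (nat_lit 0x8000600378019800b00008000000000000000000) := Q_49 (nat_lit 108) (C_49 L132880 (C_49 L132883 (C_49 L132884 (C_49 L132890 N_49)))) (by decide +kernel)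
theorem L132892 : W_49 (nat_lit 2) (nat_lit 0x1000080006000500000000000000000000000) (nat_lit 0x0) (nat_lit 0x200008000400000000000000) := D_49 (nat_lit 75) (nat_lit 93) (nat_lit 58) (nat_lit 4) (nat_lit 8) (nat_lit 8) (nat_lit 7) (nat_lit 7) (nat_lit 3) (by decide +kernel)
theorem L132893 : W_49 (nat_lit 3) (nat_lit 0x1000080006000400000000000000000000000) (nat_lit 0x0) (nat_lit 0x20000000000000000300008000400000000000000) := T_49 (nat_lit 92) (nat_lit 161) (nat_lit 4) (nat_lit 8) (nat_lit 9) L132892 (by decide +kernel)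
theorem L132894 : W_49 (nat_lit 9) (nat_lit 0x1000080004000400000000000000000000000) (nat_lit 0x0) (nat_lit 0x2800060037801b800b00008000400000000000000) := Q_49 (nat_lit 109) (C_49 L132876 (C_49 L132879 (C_49 L132891 (C_49 L132893 N_49)))) (by decide +kernel)
theorem L132895 : W_49 (nat_lit 10) (nat_lit 0x1000080004000000000000000000000000000) (nat_lit 0x0) (nat_lit 0x38000e0037801b800f00038001400000000000000) := Q_49 (nat_lit 94) (C_49 L132870 (C_49 L132871 (C_49 L132873 (C_49 L132875 (C_49 L132894 N_49))))) (by decide +kernel)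
theorem L132896 : W_49 (nat_lit 6) (nat_lit 0x1000080004000000000000000000000000000) (nat_lit 0x0) (nat_lit 0x10000c0006000000014000a000700028000000000000000000) := Q_49 (nat_lit 161) (C_49 L2015 (C_49 L1708 (C_49 L1021 (C_49 L100451 N_49)))) (by decide +kernel)
theorem L132897 : W_49 (nat_lit 2) (nat_lit 0x180008000c000700010000000000000000000) (nat_lit 0x0) (nat_lit 0x100000c0000000000000000000000) := D_49 (nat_lit 91) (nat_lit 112) (nat_lit 90) (nat_lit 3) (nat_lit 6) (nat_lit 5) (nat_lit 3) (nat_lit 5) (nat_lit 5) (by decide +kernel)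
theorem L132898 : W_49 (nat_lit 3) (nat_lit 0x1800080004000700010000000000000000000) (nat_lit 0x0) (nat_lit 0x200000000000180000c0000000000000000000000) := T_49 (nat_lit 111) (nat_lit 161) (nat_lit 6) (nat_lit 8) (nat_lit 9) L132897 (by decide +kernel)
theorem L132899 : W_49 (nat_lit 4) (nat_lit 0x1800080004000700000000000000000000000) (nat_lit 0x0) (nat_lit 0x200000000400180000c0010000000000000000000) := T_49 (nat_lit 76) (nat_lit 126) (nat_lit 5) (nat_lit 8) (nat_lit 4) L132898 (by decide +kernel)
theorem L132900 : W_49 (nat_lit 5) (nat_lit 0x1000080004000700000000000000000000000) (nat_lit 0x0) (nat_lit 0x300008000400180000c0010000000000000000000) := T_49 (nat_lit 143) (nat_lit 160) (nat_lit 5) (nat_lit 8) (nat_lit 5) L132899 (by decide +kernel)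
theorem L132901 : W_49 (nat_lit 6) (nat_lit 0x1000080004000300000000000000000000000) (nat_lit 0x0) (nat_lit 0x300008000400180004c0030000000000000000000) := T_49 (nat_lit 94) (nat_lit 77) (nat_lit 6) (nat_lit 8) (nat_lit 8) L132900 (by decide +kernel)
theorem L132902 : W_49 (nat_lit 7) (nat_lit 0x1000080004000200000000000000000000000) (nat_lit 0x0) (nat_lit 0x300008000400180005c0038000000000000000000) := T_49 (nat_lit 92) (nat_lit 75) (nat_lit 4) (nat_lit 8) (nat_lit 8) L132901 (by decide +kernel)
theorem L132903 : W_49 (nat_lit 2) (nat_lit 0x1000080004000700000000000000000000000) (nat_lit 0x0) (nat_lit 0x2000000000000a000000000000000000000000000) := D_49 (nat_lit 161) (nat_lit 111) (nat_lit 109) (nat_lit 6) (nat_lit 8) (nat_lit 9) (nat_lit 4) (nat_lit 8) (nat_lit 9) (by decide +kernel)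
theorem L132904 : W_49 (nat_lit 3) (nat_lit 0x1000080004000600000000000000000000000) (nat_lit 0x0) (nat_lit 0x2000000000000a000100008000000000000000000) := T_49 (nat_lit 92) (nat_lit 75) (nat_lit 4) (nat_lit 8) (nat_lit 8) L132903 (by decide +kernel)
theorem L132905 : W_49 (nat_lit 4) (nat_lit 0x1000080004000200000000000000000000000) (nat_lit 0x0) (nat_lit 0x2000000000000a000500028000000000000000000) := T_49 (nat_lit 94) (nat_lit 77) (nat_lit 6) (nat_lit 8) (nat_lit 8) L132904 (by decide +kernel)
theorem L132906 : W_49 (nat_lit 5) (nat_lit 0x1000080004000200000000000000000000000) (nat_lit 0x0) (nat_lit 0x10000800040000000500038000400000000000000) := T_49 (nat_lit 94) (nat_lit 77) (nat_lit 6) (nat_lit 8) (nat_lit 8) L132869 (by decide +kernel)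
theorem L132907 : W_49 (nat_lit 2) (nat_lit 0x180008000c000600010000400000000000000) (nat_lit 0x0) (nat_lit 0x800060000000000) := D_49 (nat_lit 59) (nat_lit 41) (nat_lit 42) (nat_lit 4) (nat_lit 8) (nat_lit 6) (nat_lit 7) (nat_lit 8) (nat_lit 2) (by decide +kernel)
theorem L132908 : W_49 (nat_lit 3) (nat_lit 0x1800080004000600010000400000000000000) (nat_lit 0x0) (nat_lit 0x20000000000008000000000000800060000000000) := T_49 (nat_lit 111) (nat_lit 161) (nat_lit 6) (nat_lit 8) (nat_lit 9) L132907 (by decide +kernel)
theorem L132909 : W_49 (nat_lit 4) (nat_lit 0x1800080004000600010000000000000000000) (nat_lit 0x0) (nat_lit 0x20000000000008000000008000c00060000000000) := T_49 (nat_lit 58) (nat_lit 75) (nat_lit 4) (nat_lit 8) (nat_lit 7) L132908 (by decide +kernel)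
theorem L132910 : W_49 (nat_lit 5) (nat_lit 0x1800080004000600000000000000000000000) (nat_lit 0x0) (nat_lit 0x20000000040008000000018000c00060000000000) := T_49 (nat_lit 76) (nat_lit 126) (nat_lit 5) (nat_lit 8) (nat_lit 4) L132909 (by decide +kernel)
theorem L132911 : W_49 (nat_lit 6) (nat_lit 0x1000080004000600000000000000000000000) (nat_lit 0x0) (nat_lit 0x30000800040008000000018000c00060000000000) := T_49 (nat_lit 143) (nat_lit 160) (nat_lit 5) (nat_lit 8) (nat_lit 5) L132910 (by decide +kernel)
theorem L132912 : W_49 (nat_lit 7) (nat_lit 0x1000080004000200000000000000000000000) (nat_lit 0x0) (nat_lit 0x30000800040008000400038000c00060000000000) := T_49 (nat_lit 94) (nat_lit 77) (nat_lit 6) (nat_lit 8) (nat_lit 8) L132911 (by decide +kernel)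
theorem L132913 : W_49 (nat_lit 2) (nat_lit 0x200018000c0004000600000000000000000000000) (nat_lit 0x0) (nat_lit 0x8000400000000000000002000000000000000000000000000) := D_49 (nat_lit 178) (nat_lit 195) (nat_lit 109) (nat_lit 4) (nat_lit 8) (nat_lit 11) (nat_lit 4) (nat_lit 8) (nat_lit 10) (by decide +kernel)
theorem L132914 : W_49 (nat_lit 3) (nat_lit 0x18000c0004000600000000000000000000000) (nat_lit 0x0) (nat_lit 0x800040002000000000000a000000000000000000000000000) := T_49 (nat_lit 161) (nat_lit 111) (nat_lit 6) (nat_lit 8) (nat_lit 9) L132913 (by decide +kernel)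
theorem L132915 : W_49 (nat_lit 4) (nat_lit 0x1800080004000600000000000000000000000) (nat_lit 0x0) (nat_lit 0x800040002000000004000a000000010000000000000000000) := T_49 (nat_lit 126) (nat_lit 76) (nat_lit 5) (nat_lit 8) (nat_lit 4) L132914 (by decide +kernel)
theorem L132916 : W_49 (nat_lit 5) (nat_lit 0x1000080004000600000000000000000000000) (nat_lit 0x0) (nat_lit 0x800040003000080004000a000000010000000000000000000) := T_49 (nat_lit 143) (nat_lit 160) (nat_lit 5) (nat_lit 8) (nat_lit 5) L132915 (by decide +kernel)
theorem L132917 : W_49 (nat_lit 6) (nat_lit 0x1000080004000200000000000000000000000) (nat_lit 0x0) (nat_lit 0x800040003000080004000a000400030000000000000000000) := T_49 (nat_lit 94) (nat_lit 77) (nat_lit 6) (nat_lit 8) (nat_lit 8) L132916 (by decide +kernel)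
theorem L132918 : W_49 (nat_lit 2) (nat_lit 0x1800080006000300010001000000000000000) (nat_lit 0x0) (nat_lit 0x8000c0000000000) := D_49 (nat_lit 59) (nat_lit 42) (nat_lit 43) (nat_lit 5) (nat_lit 8) (nat_lit 2) (nat_lit 6) (nat_lit 8) (nat_lit 6) (by decide +kernel)
theorem L132919 : W_49 (nat_lit 3) (nat_lit 0x1800080006000300010000000000000000000) (nat_lit 0x0) (nat_lit 0x200018000c0000000000) := T_49 (nat_lit 60) (nat_lit 77) (nat_lit 6) (nat_lit 8) (nat_lit 7) L132918 (by decide +kernel)
theorem L132920 : W_49 (nat_lit 4) (nat_lit 0x1800080004000300010000000000000000000) (nat_lit 0x0) (nat_lit 0x200000000000020000000200018000c0000000000) := T_49 (nat_lit 109) (nat_lit 161) (nat_lit 4) (nat_lit 8) (nat_lit 9) L132919 (by decide +kernel)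
theorem L132921 : W_49 (nat_lit 5) (nat_lit 0x1800080004000300000000000000000000000) (nat_lit 0x0) (nat_lit 0x200000000400020000000300018000c0000000000) := T_49 (nat_lit 76) (nat_lit 126) (nat_lit 5) (nat_lit 8) (nat_lit 4) L132920 (by decide +kernel)
theorem L132922 : W_49 (nat_lit 6) (nat_lit 0x1000080004000300000000000000000000000) (nat_lit 0x0) (nat_lit 0x300008000400020000000300018000c0000000000) := T_49 (nat_lit 143) (nat_lit 160) (nat_lit 5) (nat_lit 8) (nat_lit 5) L132921 (by decide +kernel)
theorem L132923 : W_49 (nat_lit 7) (nat_lit 0x1000080004000200000000000000000000000) (nat_lit 0x0) (nat_lit 0x300008000400020001000380018000c0000000000) := T_49 (nat_lit 92) (nat_lit 75) (nat_lit 4) (nat_lit 8) (nat_lit 8) L132922 (by decide +kernel)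
theorem L132924 : W_49 (nat_lit 2) (nat_lit 0x4000200018000d002c000340000000000000000000000) (nat_lit 0x0) (nat_lit 0x10000800040000000000000000000000000000000000000000) := D_49 (nat_lit 179) (nat_lit 162) (nat_lit 196) (nat_lit 7) (nat_lit 8) (nat_lit 6) (nat_lit 7) (nat_lit 8) (nat_lit 7) (by decide +kernel)
theorem L132925 : W_49 (nat_lit 3) (nat_lit 0x200018000d002c000340000000000000000000000) (nat_lit 0x0) (nat_lit 0x18000c00040000000000000000000000000000000000000000) := T_49 (nat_lit 178) (nat_lit 195) (nat_lit 4) (nat_lit 8) (nat_lit 11) L132924 (by decide +kernel)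
theorem L132926 : W_49 (nat_lit 4) (nat_lit 0x200018000d000c000340000000000000000000000) (nat_lit 0x0) (nat_lit 0x18000c00040000000000030000000000000000000000000000) := T_49 (nat_lit 113) (nat_lit 112) (nat_lit 1) (nat_lit 11) (nat_lit 6) L132925 (by decide +kernel)
theorem L132927 : W_49 (nat_lit 5) (nat_lit 0x200018000c000c000340000000000000000000000) (nat_lit 0x0) (nat_lit 0x18000c00040000000030030000000000000000000000000000) := T_49 (nat_lit 124) (nat_lit 125) (nat_lit 2) (nat_lit 5) (nat_lit 7) L132926 (by decide +kernel)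
theorem L132928 : W_49 (nat_lit 6) (nat_lit 0x200018000c000c000300000000000000000000000) (nat_lit 0x0) (nat_lit 0x18000c000400000000300300000c0000000000000000000000) := T_49 (nat_lit 90) (nat_lit 91) (nat_lit 3) (nat_lit 5) (nat_lit 5) L132927 (by decide +kernel)
theorem L132929 : W_49 (nat_lit 7) (nat_lit 0x200018000c0004000300000000000000000000000) (nat_lit 0x0) (nat_lit 0x18000c000400000000300380004c0000000000000000000000) := T_49 (nat_lit 111) (nat_lit 94) (nat_lit 6) (nat_lit 8) (nat_lit 9) L132928 (by decide +kernel)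
theorem L132930 : W_49 (nat_lit 8) (nat_lit 0x18000c0004000300000000000000000000000) (nat_lit 0x0) (nat_lit 0x18000c0006000000003003a0004c0000000000000000000000) := T_49 (nat_lit 161) (nat_lit 109) (nat_lit 7) (nat_lit 7) (nat_lit 5) L132929 (by decide +kernel)
theorem L132931 : W_49 (nat_lit 9) (nat_lit 0x1800080004000300000000000000000000000) (nat_lit 0x0) (nat_lit 0x18000c0006000000007003a0004c0010000000000000000000) := T_49 (nat_lit 126) (nat_lit 76) (nat_lit 5) (nat_lit 8) (nat_lit 4) L132930 (by decide +kernel)
theorem L132932 : W_49 (nat_lit 10) (nat_lit 0x1000080004000300000000000000000000000) (nat_lit 0x0) (nat_lit 0x18000c0007000080007003a0004c0010000000000000000000) := T_49 (nat_lit 143) (nat_lit 160) (nat_lit 5) (nat_lit 8) (nat_lit 5) L132931 (by decide +kernel)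
theorem L132933 : W_49 (nat_lit 11) (nat_lit 0x1000080004000200000000000000000000000) (nat_lit 0x0) (nat_lit 0x18000c0007000080007003a0005c0018000000000000000000) := T_49 (nat_lit 92) (nat_lit 75) (nat_lit 4) (nat_lit 8) (nat_lit 8) L132932 (by decide +kernel)
theorem L132934 : W_49 (nat_lit 12) (nat_lit 0x1000080004000000000000000000000000000) (nat_lit 0x0) (nat_lit 0x18000c0007000080007003a0007c0038001c000e0000000000) := Q_49 (nat_lit 93) (C_49 L132902 (C_49 L132905 (C_49 L132906 (C_49 L132912 (C_49 L132917 (C_49 L132923 (C_49 L132933 N_49))))))) (by decide +kernel)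
theorem L132942 : W_49 (nat_lit 2) (nat_lit 0x1800080006000700000000000000000000000) (nat_lit 0x0) (nat_lit 0x1800800000000000000000000000) := D_49 (nat_lit 108) (nat_lit 107) (nat_lit 95) (nat_lit 2) (nat_lit 5) (nat_lit 6) (nat_lit 1) (nat_lit 10) (nat_lit 5) (by decide +kernel)
theorem L132943 : W_49 (nat_lit 3) (nat_lit 0x1800080006000300000000000000000000000) (nat_lit 0x0) (nat_lit 0x1800c00020000000000000000000) := T_49 (nat_lit 94) (nat_lit 77) (nat_lit 6) (nat_lit 8) (nat_lit 8) L132942 (by decide +kernel)
theorem L132944 : W_49 (nat_lit 4) (nat_lit 0x1800080006000200000000000000000000000) (nat_lit 0x0) (nat_lit 0x1800d00028000000000000000000) := T_49 (nat_lit 92) (nat_lit 75) (nat_lit 4) (nat_lit 8) (nat_lit 8) L132943 (by decide +kernel)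
theorem L132945 : W_49 (nat_lit 5) (nat_lit 0x1000080006000200000000000000000000000) (nat_lit 0x0) (nat_lit 0x10000800000001800d00028000000000000000000) := T_49 (nat_lit 143) (nat_lit 160) (nat_lit 5) (nat_lit 8) (nat_lit 5) L132944 (by decide +kernel)
theorem L132946 : W_49 (nat_lit 2) (nat_lit 0x1800080016000f80000000000000000000000) (nat_lit 0x0) (nat_lit 0x40000000000006000000000000000000) := D_49 (nat_lit 74) (nat_lit 126) (nat_lit 73) (nat_lit 4) (nat_lit 7) (nat_lit 8) (nat_lit 0) (nat_lit 9) (nat_lit 5) (by decide +kernel)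
theorem L132947 : W_49 (nat_lit 3) (nat_lit 0x1800080016000f00000000000000000000000) (nat_lit 0x0) (nat_lit 0x40008000080006000000000000000000) := T_49 (nat_lit 91) (nat_lit 111) (nat_lit 3) (nat_lit 6) (nat_lit 5) L132946 (by decide +kernel)
theorem L132948 : W_49 (nat_lit 4) (nat_lit 0x1800080006000f00000000000000000000000) (nat_lit 0x0) (nat_lit 0x40038000080006000000000000000000) := T_49 (nat_lit 112) (nat_lit 113) (nat_lit 3) (nat_lit 7) (nat_lit 5) L132947 (by decide +kernel)
theorem L132949 : W_49 (nat_lit 5) (nat_lit 0x1800080006000e00000000000000000000000) (nat_lit 0x0) (nat_lit 0x4003800018000e000000000000000000) := T_49 (nat_lit 92) (nat_lit 75) (nat_lit 4) (nat_lit 8) (nat_lit 8) L132948 (by decide +kernel)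
theorem L132950 : W_49 (nat_lit 6) (nat_lit 0x1000080006000e00000000000000000000000) (nat_lit 0x0) (nat_lit 0x1000080004003800018000e000000000000000000) := T_49 (nat_lit 143) (nat_lit 160) (nat_lit 5) (nat_lit 8) (nat_lit 5) L132949 (by decide +kernel)
theorem L132951 : W_49 (nat_lit 7) (nat_lit 0x1000080006000600000000000000000000000) (nat_lit 0x0) (nat_lit 0x1000080004003800198000e000000000000000000) := T_49 (nat_lit 95) (nat_lit 96) (nat_lit 1) (nat_lit 11) (nat_lit 5) L132950 (by decide +kernel)
theorem L132952 : W_49 (nat_lit 8) (nat_lit 0x1000080006000200000000000000000000000) (nat_lit 0x0) (nat_lit 0x10000800040038001d8002e000000000000000000) := T_49 (nat_lit 94) (nat_lit 77) (nat_lit 6) (nat_lit 8) (nat_lit 8) L132951 (by decide +kernel)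
theorem L132953 : W_49 (nat_lit 2) (nat_lit 0x18003c0016800300000000000000000000000) (nat_lit 0x0) (nat_lit 0x20008000080000000000000000000000) := D_49 (nat_lit 111) (nat_lit 125) (nat_lit 91) (nat_lit 2) (nat_lit 6) (nat_lit 7) (nat_lit 0) (nat_lit 10) (nat_lit 6) (by decide +kernel)
theorem L132954 : W_49 (nat_lit 3) (nat_lit 0x18003c0006800300000000000000000000000) (nat_lit 0x0) (nat_lit 0x20038000080000000000000000000000) := T_49 (nat_lit 112) (nat_lit 113) (nat_lit 2) (nat_lit 7) (nat_lit 7) L132953 (by decide +kernel)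
theorem L132955 : W_49 (nat_lit 4) (nat_lit 0x1800380006800300000000000000000000000) (nat_lit 0x0) (nat_lit 0x400060038000080000000000000000000000) := T_49 (nat_lit 126) (nat_lit 142) (nat_lit 1) (nat_lit 10) (nat_lit 7) L132954 (by decide +kernel)
theorem L132956 : W_49 (nat_lit 5) (nat_lit 0x1000380006800300000000000000000000000) (nat_lit 0x0) (nat_lit 0x10000c00060038000080000000000000000000000) := T_49 (nat_lit 143) (nat_lit 160) (nat_lit 5) (nat_lit 8) (nat_lit 5) L132955 (by decide +kernel)
theorem L132957 : W_49 (nat_lit 6) (nat_lit 0x1000180006800300000000000000000000000) (nat_lit 0x0) (nat_lit 0x10000c00660038000080000000000000000000000) := T_49 (nat_lit 129) (nat_lit 130) (nat_lit 0) (nat_lit 11) (nat_lit 7) L132956 (by decide +kernel)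
theorem L132958 : W_49 (nat_lit 7) (nat_lit 0x1000180006000300000000000000000000000) (nat_lit 0x0) (nat_lit 0x10000c00660039800080000000000000000000000) := T_49 (nat_lit 107) (nat_lit 108) (nat_lit 3) (nat_lit 5) (nat_lit 6) L132957 (by decide +kernel)
theorem L132959 : W_49 (nat_lit 8) (nat_lit 0x1000180006000200000000000000000000000) (nat_lit 0x0) (nat_lit 0x10000c00660039800180008000000000000000000) := T_49 (nat_lit 92) (nat_lit 75) (nat_lit 4) (nat_lit 8) (nat_lit 8) L132958 (by decide +kernel)
theorem L132966 : W_49 (nat_lit 5) (nat_lit 0x1c00580006000300000000000000000000000) (nat_lit 0x0) (nat_lit 0x8000000040001c000e0004000000000000000000) := T_49 (nat_lit 107) (nat_lit 108) (nat_lit 3) (nat_lit 5) (nat_lit 6) L132965 (by decide +kernel)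
theorem L132967 : W_49 (nat_lit 6) (nat_lit 0x1c00580006000200000000000000000000000) (nat_lit 0x0) (nat_lit 0x8000000040001c001e000c000000000000000000) := T_49 (nat_lit 92) (nat_lit 75) (nat_lit 4) (nat_lit 8) (nat_lit 8) L132966 (by decide +kernel)
theorem L132968 : W_49 (nat_lit 7) (nat_lit 0x1800580006000200000000000000000000000) (nat_lit 0x0) (nat_lit 0x8000600040001c001e000c000000000000000000) := T_49 (nat_lit 142) (nat_lit 141) (nat_lit 2) (nat_lit 5) (nat_lit 8) L132967 (by decide +kernel)
theorem L132969 : W_49 (nat_lit 8) (nat_lit 0x1000580006000200000000000000000000000) (nat_lit 0x0) (nat_lit 0x18000e00040001c001e000c000000000000000000) := T_49 (nat_lit 143) (nat_lit 160) (nat_lit 5) (nat_lit 8) (nat_lit 5) L132968 (by decide +kernel)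
theorem L132970 : W_49 (nat_lit 9) (nat_lit 0x1000180006000200000000000000000000000) (nat_lit 0x0) (nat_lit 0x18000e00640001c001e000c000000000000000000) := T_49 (nat_lit 130) (nat_lit 129) (nat_lit 0) (nat_lit 11) (nat_lit 7) L132969 (by decide +kernel)
theorem L132986 : W_49 (nat_lit 10) (nat_lit 0x1000080006000200000000000000000000000) (nat_lit 0x0) (nat_lit 0x18000e00760039c001e000c000000000000000000) := Q_49 (nat_lit 128) (C_49 L132959 (C_49 L132962 (C_49 L132970 (C_49 L132974 (C_49 L132978 (C_49 L132985 N_49)))))) (by decide +kernel)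
theorem L132987 : W_49 (nat_lit 11) (nat_lit 0x1000080004000200000000000000000000000) (nat_lit 0x0) (nat_lit 0x18000e0076003bc01de002e000000000000000000) := Q_49 (nat_lit 109) (C_49 L132941 (C_49 L132710 (C_49 L132945 (C_49 L132952 (C_49 L132986 N_49))))) (by decide +kernel)
theorem L132988 : W_49 (nat_lit 12) (nat_lit 0x1000080004000000000000000000000000000) (nat_lit 0x0) (nat_lit 0x18000e0076003bc01fe003e001c00060000000000) := Q_49 (nat_lit 93) (C_49 L132906 (C_49 L100170 (C_49 L100471 (C_49 L100356 (C_49 L132987 (C_49 L100180 N_49)))))) (by decide +kernel)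
theorem L132989 : W_49 (nat_lit 2) (nat_lit 0x100008000c000700000000000000000000000) (nat_lit 0x0) (nat_lit 0x100000c0000000000000000000000) := D_49 (nat_lit 91) (nat_lit 112) (nat_lit 90) (nat_lit 3) (nat_lit 6) (nat_lit 5) (nat_lit 3) (nat_lit 5) (nat_lit 5) (by decide +kernel)
theorem L132990 : W_49 (nat_lit 3) (nat_lit 0x1000080004000700000000000000000000000) (nat_lit 0x0) (nat_lit 0x200000000000180000c0000000000000000000000) := T_49 (nat_lit 111) (nat_lit 161) (nat_lit 6) (nat_lit 8) (nat_lit 9) L132989 (by decide +kernel)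
theorem L132991 : W_49 (nat_lit 4) (nat_lit 0x1000080004000600000000000000000000000) (nat_lit 0x0) (nat_lit 0x200000000000180001c0008000000000000000000) := T_49 (nat_lit 92) (nat_lit 75) (nat_lit 4) (nat_lit 8) (nat_lit 8) L132990 (by decide +kernel)
theorem L132992 : W_49 (nat_lit 5) (nat_lit 0x1000080004000200000000000000000000000) (nat_lit 0x0) (nat_lit 0x200000000000180005c0028000000000000000000) := T_49 (nat_lit 94) (nat_lit 77) (nat_lit 6) (nat_lit 8) (nat_lit 8) L132991 (by decide +kernel)
theorem L132993 : W_49 (nat_lit 6) (nat_lit 0x1000080004000000000000000000000000000) (nat_lit 0x0) (nat_lit 0x300008000400180007c0038001400000000000000) := Q_49 (nat_lit 93) (C_49 L100170 (C_49 L100180 (C_49 L100356 (C_49 L132992 N_49)))) (by decide +kernel)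
theorem L132994 : W_49 (nat_lit 3) (nat_lit 0x1800080004000700000000000000000000000) (nat_lit 0x0) (nat_lit 0x20000000000003800800000000000000000000000) := T_49 (nat_lit 109) (nat_lit 161) (nat_lit 4) (nat_lit 8) (nat_lit 9) L132942 (by decide +kernel)
theorem L132995 : W_49 (nat_lit 4) (nat_lit 0x1000080004000700000000000000000000000) (nat_lit 0x0) (nat_lit 0x30000800000003800800000000000000000000000) := T_49 (nat_lit 143) (nat_lit 160) (nat_lit 5) (nat_lit 8) (nat_lit 5) L132994 (by decide +kernel)
theorem L132996 : W_49 (nat_lit 5) (nat_lit 0x1000080004000600000000000000000000000) (nat_lit 0x0) (nat_lit 0x30000800000003800900008000000000000000000) := T_49 (nat_lit 92) (nat_lit 75) (nat_lit 4) (nat_lit 8) (nat_lit 8) L132995 (by decide +kernel)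
theorem L132997 : W_49 (nat_lit 6) (nat_lit 0x1000080004000200000000000000000000000) (nat_lit 0x0) (nat_lit 0x30000800000003800d00028000000000000000000) := T_49 (nat_lit 94) (nat_lit 77) (nat_lit 6) (nat_lit 8) (nat_lit 8) L132996 (by decide +kernel)
theorem L132998 : W_49 (nat_lit 7) (nat_lit 0x1000080004000000000000000000000000000) (nat_lit 0x0) (nat_lit 0x30000800040003800f00038001400000000000000) := Q_49 (nat_lit 93) (C_49 L100180 (C_49 L100170 (C_49 L100356 (C_49 L132997 N_49)))) (by decide +kernel)
theorem L133003 : W_49 (nat_lit 5) (nat_lit 0x1000080004000200010000000000000000000) (nat_lit 0x0) (nat_lit 0x10000800000000000000028001c000a0000000000) := T_49 (nat_lit 143) (nat_lit 160) (nat_lit 5) (nat_lit 8) (nat_lit 5) L133002 (by decide +kernel)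
theorem L133004 : W_49 (nat_lit 5) (nat_lit 0x1000080004000600010000000000000000000) (nat_lit 0x0) (nat_lit 0x10000800100008000000008000c00060000000000) := T_49 (nat_lit 143) (nat_lit 160) (nat_lit 5) (nat_lit 8) (nat_lit 5) L100468 (by decide +kernel)
theorem L133005 : W_49 (nat_lit 6) (nat_lit 0x1000080004000200010000000000000000000) (nat_lit 0x0) (nat_lit 0x10000800100008000400028000c00060000000000) := T_49 (nat_lit 94) (nat_lit 77) (nat_lit 6) (nat_lit 8) (nat_lit 8) L133004 (by decide +kernel)
theorem L133011 : W_49 (nat_lit 7) (nat_lit 0x1000080004000200010000000000000000000) (nat_lit 0x0) (nat_lit 0x30000800100008000400008001c000e0000000000) := T_49 (nat_lit 143) (nat_lit 160) (nat_lit 5) (nat_lit 8) (nat_lit 5) L133010 (by decide +kernel)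
theorem L133012 : W_49 (nat_lit 8) (nat_lit 0x1000080004000200000000000000000000000) (nat_lit 0x0) (nat_lit 0x30000800100008000400038001c000e0000000000) := Q_49 (nat_lit 76) (C_49 L132999 (C_49 L133003 (C_49 L133005 (C_49 L133011 N_49)))) (by decide +kernel)
theorem L133013 : W_49 (nat_lit 2) (nat_lit 0x1000080004000200010001400000000000000) (nat_lit 0x0) (nat_lit 0x8000a0000000000) := D_49 (nat_lit 59) (nat_lit 43) (nat_lit 41) (nat_lit 6) (nat_lit 8) (nat_lit 6) (nat_lit 4) (nat_lit 8) (nat_lit 6) (by decide +kernel)
theorem L133014 : W_49 (nat_lit 3) (nat_lit 0x1000080004000200010001000000000000000) (nat_lit 0x0) (nat_lit 0x8000c000a0000000000) := T_49 (nat_lit 58) (nat_lit 75) (nat_lit 4) (nat_lit 8) (nat_lit 7) L133013 (by decide +kernel)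
theorem L133015 : W_49 (nat_lit 4) (nat_lit 0x1000080004000200010000000000000000000) (nat_lit 0x0) (nat_lit 0x28001c000a0000000000) := T_49 (nat_lit 60) (nat_lit 77) (nat_lit 6) (nat_lit 8) (nat_lit 7) L133014 (by decide +kernel)
theorem L133016 : W_49 (nat_lit 2) (nat_lit 0x100008000c00060001a000000000000000000) (nat_lit 0x0) (nat_lit 0x100000000000000000800040000000000) := D_49 (nat_lit 59) (nat_lit 42) (nat_lit 128) (nat_lit 7) (nat_lit 8) (nat_lit 2) (nat_lit 7) (nat_lit 8) (nat_lit 3) (by decide +kernel)
theorem L133017 : W_49 (nat_lit 3) (nat_lit 0x100008000400060001a000000000000000000) (nat_lit 0x0) (nat_lit 0x20000000100008000000000000800040000000000) := T_49 (nat_lit 111) (nat_lit 161) (nat_lit 6) (nat_lit 8) (nat_lit 9) L133016 (by decide +kernel)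
theorem L133018 : W_49 (nat_lit 4) (nat_lit 0x1000080004000600018000000000000000000) (nat_lit 0x0) (nat_lit 0x20000000100008000000006000800040000000000) := T_49 (nat_lit 73) (nat_lit 74) (nat_lit 3) (nat_lit 5) (nat_lit 4) L133017 (by decide +kernel)
theorem L133019 : W_49 (nat_lit 5) (nat_lit 0x1000080004000200018000000000000000000) (nat_lit 0x0) (nat_lit 0x20000000100008000400026000800040000000000) := T_49 (nat_lit 94) (nat_lit 77) (nat_lit 6) (nat_lit 8) (nat_lit 8) L133018 (by decide +kernel)
theorem L133020 : W_49 (nat_lit 6) (nat_lit 0x1000080004000200010000000000000000000) (nat_lit 0x0) (nat_lit 0x2000000010000800040002e000c00040000000000) := T_49 (nat_lit 75) (nat_lit 58) (nat_lit 4) (nat_lit 8) (nat_lit 7) L133019 (by decide +kernel)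
theorem L133026 : W_49 (nat_lit 7) (nat_lit 0x1000080004000200000000000000000000000) (nat_lit 0x0) (nat_lit 0x2000000014000a00040003e001c000e0000000000) := Q_49 (nat_lit 76) (C_49 L132999 (C_49 L133015 (C_49 L133020 (C_49 L133025 N_49)))) (by decide +kernel)
theorem L133027 : W_49 (nat_lit 2) (nat_lit 0xc00020001800080004000600000000000000000000000) (nat_lit 0x0) (nat_lit 0x8000000000000000040002000000000000000000000000000) := D_49 (nat_lit 126) (nat_lit 195) (nat_lit 109) (nat_lit 4) (nat_lit 8) (nat_lit 11) (nat_lit 4) (nat_lit 8) (nat_lit 10) (by decide +kernel)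
theorem L133028 : W_49 (nat_lit 3) (nat_lit 0x800020001800080004000600000000000000000000000) (nat_lit 0x0) (nat_lit 0x18000400000000000040002000000000000000000000000000) := T_49 (nat_lit 178) (nat_lit 196) (nat_lit 7) (nat_lit 8) (nat_lit 7) L133027 (by decide +kernel)
theorem L133029 : W_49 (nat_lit 4) (nat_lit 0x20001800080004000600000000000000000000000) (nat_lit 0x0) (nat_lit 0x18000c00040000000040002000000000000000000000000000) := T_49 (nat_lit 179) (nat_lit 162) (nat_lit 7) (nat_lit 8) (nat_lit 6) L133028 (by decide +kernel)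
theorem L133030 : W_49 (nat_lit 5) (nat_lit 0x1800080004000600000000000000000000000) (nat_lit 0x0) (nat_lit 0x18000c0006000000004000a000000000000000000000000000) := T_49 (nat_lit 161) (nat_lit 111) (nat_lit 6) (nat_lit 8) (nat_lit 9) L133029 (by decide +kernel)
theorem L133031 : W_49 (nat_lit 6) (nat_lit 0x1000080004000600000000000000000000000) (nat_lit 0x0) (nat_lit 0x18000c0007000080004000a000000000000000000000000000) := T_49 (nat_lit 143) (nat_lit 160) (nat_lit 5) (nat_lit 8) (nat_lit 5) L133030 (by decide +kernel)
theorem L133032 : W_49 (nat_lit 7) (nat_lit 0x1000080004000200000000000000000000000) (nat_lit 0x0) (nat_lit 0x18000c0007000080004000a000400020000000000000000000) := T_49 (nat_lit 94) (nat_lit 77) (nat_lit 6) (nat_lit 8) (nat_lit 8) L133031 (by decide +kernel)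
theorem L133037 : W_49 (nat_lit 9) (nat_lit 0x1000080004000000000000000000000000000) (nat_lit 0x0) (nat_lit 0x18000c0007000080014000a00060003e001c000e0000000000) := Q_49 (nat_lit 93) (C_49 L100356 (C_49 L133012 (C_49 L133026 (C_49 L133032 (C_49 L133034 (C_49 L133036 N_49)))))) (by decide +kernel)
theorem L133038 : W_49 (nat_lit 2) (nat_lit 0x1000080004000400020000000000000000000) (nat_lit 0x0) (nat_lit 0x100008000000000001000000000000000) := D_49 (nat_lit 111) (nat_lit 128) (nat_lit 60) (nat_lit 5) (nat_lit 9) (nat_lit 4) (nat_lit 5) (nat_lit 9) (nat_lit 3) (by decide +kernel)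
theorem L133039 : W_49 (nat_lit 3) (nat_lit 0x1000080004000400000000000000000000000) (nat_lit 0x0) (nat_lit 0x100008000200020001000000000000000) := T_49 (nat_lit 77) (nat_lit 93) (nat_lit 6) (nat_lit 8) (nat_lit 8) L133038 (by decide +kernel)
theorem L133040 : W_49 (nat_lit 6) (nat_lit 0x1000080004000400000000000000000000000) (nat_lit 0x0) (nat_lit 0x30000800000003800b00028000000000000000000) := T_49 (nat_lit 93) (nat_lit 77) (nat_lit 6) (nat_lit 8) (nat_lit 8) L132996 (by decide +kernel)
theorem L133041 : W_49 (nat_lit 2) (nat_lit 0x10001a000f000580000000000000000000000) (nat_lit 0x0) (nat_lit 0x200008000400000000000000) := D_49 (nat_lit 75) (nat_lit 58) (nat_lit 93) (nat_lit 7) (nat_lit 7) (nat_lit 3) (nat_lit 4) (nat_lit 8) (nat_lit 8) (by decide +kernel)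
theorem L133042 : W_49 (nat_lit 3) (nat_lit 0x10001a000f000480000000000000000000000) (nat_lit 0x0) (nat_lit 0x10000300008000400000000000000) := T_49 (nat_lit 92) (nat_lit 112) (nat_lit 0) (nat_lit 10) (nat_lit 6) L133041 (by decide +kernel)
theorem L133043 : W_49 (nat_lit 4) (nat_lit 0x10001a000f000400000000000000000000000) (nat_lit 0x0) (nat_lit 0x100003c0008000400000000000000) := T_49 (nat_lit 91) (nat_lit 90) (nat_lit 0) (nat_lit 9) (nat_lit 6) L133042 (by decide +kernel)
theorem L133044 : W_49 (nat_lit 5) (nat_lit 0x10000a000f000400000000000000000000000) (nat_lit 0x0) (nat_lit 0x3000100003c0008000400000000000000) := T_49 (nat_lit 128) (nat_lit 129) (nat_lit 3) (nat_lit 6) (nat_lit 6) L133043 (by decide +kernel)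
theorem L133045 : W_49 (nat_lit 6) (nat_lit 0x100008000f000400000000000000000000000) (nat_lit 0x0) (nat_lit 0x3300100003c0008000400000000000000) := T_49 (nat_lit 125) (nat_lit 124) (nat_lit 1) (nat_lit 9) (nat_lit 6) L133044 (by decide +kernel)
theorem L133046 : W_49 (nat_lit 7) (nat_lit 0x1000080007000400000000000000000000000) (nat_lit 0x0) (nat_lit 0x330018000bc0008000400000000000000) := T_49 (nat_lit 111) (nat_lit 95) (nat_lit 2) (nat_lit 6) (nat_lit 6) L133045 (by decide +kernel)
theorem L133047 : W_49 (nat_lit 8) (nat_lit 0x1000080006000400000000000000000000000) (nat_lit 0x0) (nat_lit 0x338019800bc0008000400000000000000) := Q_49 (nat_lit 108) (C_49 L132884 (C_49 L132883 (C_49 L132880 (C_49 L133046 N_49)))) (by decide +kernel)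
theorem L133048 : W_49 (nat_lit 9) (nat_lit 0x1000080004000400000000000000000000000) (nat_lit 0x0) (nat_lit 0x2000000033801b800bc0008000400000000000000) := Q_49 (nat_lit 109) (C_49 L132879 (C_49 L132893 (C_49 L133047 (C_49 L132876 N_49)))) (by decide +kernel)
theorem L133049 : W_49 (nat_lit 10) (nat_lit 0x1000080004000000000000000000000000000) (nat_lit 0x0) (nat_lit 0x3000080033801b800fc0028001400000000000000) := Q_49 (nat_lit 94) (C_49 L132875 (C_49 L132871 (C_49 L133039 (C_49 L133040 (C_49 L133048 N_49))))) (by decide +kernel)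
theorem L133050 : W_49 (nat_lit 6) (nat_lit 0x1800080004000000000000000000000000000) (nat_lit 0x0) (nat_lit 0x10000000040000000200038001c000a0000000000) := T_49 (nat_lit 93) (nat_lit 160) (nat_lit 5) (nat_lit 8) (nat_lit 5) L133033 (by decide +kernel)
theorem L133051 : W_49 (nat_lit 2) (nat_lit 0x1800080004000100000000000000000000000) (nat_lit 0x0) (nat_lit 0x10000000000000000200008000000000000000000) := D_49 (nat_lit 93) (nat_lit 160) (nat_lit 75) (nat_lit 5) (nat_lit 8) (nat_lit 5) (nat_lit 4) (nat_lit 8) (nat_lit 8) (by decide +kernel)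
theorem L133052 : W_49 (nat_lit 2) (nat_lit 0x70001800080004000100000000000000000000000) (nat_lit 0x0) (nat_lit 0x80000600000000000000000000000000000000000) := D_49 (nat_lit 142) (nat_lit 141) (nat_lit 163) (nat_lit 3) (nat_lit 5) (nat_lit 8) (nat_lit 0) (nat_lit 10) (nat_lit 9) (by decide +kernel)
theorem L133053 : W_49 (nat_lit 3) (nat_lit 0x30001800080004000100000000000000000000000) (nat_lit 0x0) (nat_lit 0x8000c0000600000000000000000000000000000000000) := T_49 (nat_lit 162) (nat_lit 179) (nat_lit 7) (nat_lit 8) (nat_lit 6) L133052 (by decide +kernel)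
theorem L133054 : W_49 (nat_lit 4) (nat_lit 0x10001800080004000100000000000000000000000) (nat_lit 0x0) (nat_lit 0x8000e0000600000002000000000000000000000000000) := T_49 (nat_lit 161) (nat_lit 109) (nat_lit 4) (nat_lit 8) (nat_lit 9) L133053 (by decide +kernel)
theorem L133055 : W_49 (nat_lit 5) (nat_lit 0x1800080004000100000000000000000000000) (nat_lit 0x0) (nat_lit 0x8000f0000600000002000200000000000000000000000) := T_49 (nat_lit 160) (nat_lit 93) (nat_lit 5) (nat_lit 8) (nat_lit 5) L133054 (by decide +kernel)
theorem L133056 : W_49 (nat_lit 2) (nat_lit 0x60001c00080004000100000000000000000000000) (nat_lit 0x0) (nat_lit 0x190000000000000000000000000000000000000000) := D_49 (nat_lit 163) (nat_lit 164) (nat_lit 160) (nat_lit 0) (nat_lit 11) (nat_lit 9) (nat_lit 0) (nat_lit 10) (nat_lit 9) (by decide +kernel)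
theorem L133057 : W_49 (nat_lit 3) (nat_lit 0x60001800080004000100000000000000000000000) (nat_lit 0x0) (nat_lit 0x190000600000000000000000000000000000000000) := T_49 (nat_lit 142) (nat_lit 141) (nat_lit 3) (nat_lit 5) (nat_lit 8) L133056 (by decide +kernel)
theorem L133058 : W_49 (nat_lit 4) (nat_lit 0x20001800080004000100000000000000000000000) (nat_lit 0x0) (nat_lit 0x8001d0000600000000000000000000000000000000000) := T_49 (nat_lit 162) (nat_lit 179) (nat_lit 7) (nat_lit 8) (nat_lit 6) L133057 (by decide +kernel)
theorem L133059 : W_49 (nat_lit 5) (nat_lit 0x1800080004000100000000000000000000000) (nat_lit 0x0) (nat_lit 0x8001f0000600000002000000000000000000000000000) := T_49 (nat_lit 161) (nat_lit 109) (nat_lit 4) (nat_lit 8) (nat_lit 9) L133058 (by decide +kernel)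
theorem L133060 : W_49 (nat_lit 2) (nat_lit 0x1800080006000100000000000000000000000) (nat_lit 0x0) (nat_lit 0x200008000400000000000000) := D_49 (nat_lit 75) (nat_lit 93) (nat_lit 58) (nat_lit 4) (nat_lit 8) (nat_lit 8) (nat_lit 7) (nat_lit 7) (nat_lit 3) (by decide +kernel)
theorem L133061 : W_49 (nat_lit 3) (nat_lit 0x1800080004000100000000000000000000000) (nat_lit 0x0) (nat_lit 0x20000000000002000200008000400000000000000) := T_49 (nat_lit 109) (nat_lit 161) (nat_lit 4) (nat_lit 8) (nat_lit 9) L133060 (by decide +kernel)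
theorem L133062 : W_49 (nat_lit 6) (nat_lit 0x1800080004000000000000000000000000000) (nat_lit 0x0) (nat_lit 0x8001f0000600000002000300008000400000000000000) := Q_49 (nat_lit 92) (C_49 L133051 (C_49 L133055 (C_49 L133059 (C_49 L133061 N_49)))) (by decide +kernel)
theorem L133063 : W_49 (nat_lit 2) (nat_lit 0x20001800080006000200000000000000000000000) (nat_lit 0x0) (nat_lit 0x400000000000040000000000010000000000000000000) := D_49 (nat_lit 126) (nat_lit 76) (nat_lit 178) (nat_lit 5) (nat_lit 8) (nat_lit 4) (nat_lit 4) (nat_lit 8) (nat_lit 10) (by decide +kernel)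
theorem L133064 : W_49 (nat_lit 3) (nat_lit 0x20001800080006000000000000000000000000000) (nat_lit 0x0) (nat_lit 0x400010000000040000000200010000000000000000000) := T_49 (nat_lit 93) (nat_lit 160) (nat_lit 5) (nat_lit 8) (nat_lit 5) L133063 (by decide +kernel)
theorem L133065 : W_49 (nat_lit 4) (nat_lit 0x20001800080004000000000000000000000000000) (nat_lit 0x0) (nat_lit 0x400010000000040002000300010000000000000000000) := T_49 (nat_lit 109) (nat_lit 92) (nat_lit 4) (nat_lit 8) (nat_lit 9) L133064 (by decide +kernel)
theorem L133070 : W_49 (nat_lit 2) (nat_lit 0x800020001800080006000000000000000000000000000) (nat_lit 0x0) (nat_lit 0x10000400000000000040000000000000000000000000000000) := D_49 (nat_lit 178) (nat_lit 126) (nat_lit 196) (nat_lit 4) (nat_lit 8) (nat_lit 10) (nat_lit 7) (nat_lit 8) (nat_lit 7) (by decide +kernel)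
theorem L133071 : W_49 (nat_lit 3) (nat_lit 0x20001800080006000000000000000000000000000) (nat_lit 0x0) (nat_lit 0x10000c00040000000040000000000000000000000000000000) := T_49 (nat_lit 179) (nat_lit 162) (nat_lit 7) (nat_lit 8) (nat_lit 6) L133070 (by decide +kernel)
theorem L133072 : W_49 (nat_lit 4) (nat_lit 0x20001800080004000000000000000000000000000) (nat_lit 0x0) (nat_lit 0x10000c00040000000040002000100000000000000000000000) := T_49 (nat_lit 109) (nat_lit 92) (nat_lit 4) (nat_lit 8) (nat_lit 9) L133071 (by decide +kernel)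
theorem L133073 : W_49 (nat_lit 6) (nat_lit 0x1800080004000000000000000000000000000) (nat_lit 0x0) (nat_lit 0x10000c001f0000600040002000300010000000000000000000) := Q_49 (nat_lit 161) (C_49 L2427 (C_49 L133065 (C_49 L133069 (C_49 L133072 N_49)))) (by decide +kernel)
theorem L133074 : W_49 (nat_lit 2) (nat_lit 0x80018000400020001a00580006800000000000000000000000000) (nat_lit 0x0) (nat_lit 0x1000100000000000010000000000000000000000000000000000000000) := D_49 (nat_lit 212) (nat_lit 160) (nat_lit 228) (nat_lit 4) (nat_lit 8) (nat_lit 12) (nat_lit 5) (nat_lit 8) (nat_lit 9) (by decide +kernel)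
theorem L133075 : W_49 (nat_lit 3) (nat_lit 0x18000400020001a00580006800000000000000000000000000) (nat_lit 0x0) (nat_lit 0x1000180004000000010000000000000000000000000000000000000000) := T_49 (nat_lit 211) (nat_lit 194) (nat_lit 5) (nat_lit 8) (nat_lit 8) L133074 (by decide +kernel)
theorem L133076 : W_49 (nat_lit 4) (nat_lit 0x10000400020001a00580006800000000000000000000000000) (nat_lit 0x0) (nat_lit 0x100038000c000000010000000000000000000000000000000000000000) := T_49 (nat_lit 195) (nat_lit 213) (nat_lit 7) (nat_lit 8) (nat_lit 8) L133075 (by decide +kernel)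
theorem L133077 : W_49 (nat_lit 5) (nat_lit 0x10000400020001a00180006800000000000000000000000000) (nat_lit 0x0) (nat_lit 0x100038000c000000010000000600000000000000000000000000000000) := T_49 (nat_lit 130) (nat_lit 129) (nat_lit 1) (nat_lit 11) (nat_lit 7) L133076 (by decide +kernel)
theorem L133078 : W_49 (nat_lit 6) (nat_lit 0x10000400020001800180006800000000000000000000000000) (nat_lit 0x0) (nat_lit 0x100038000c000000010000600600000000000000000000000000000000) := T_49 (nat_lit 141) (nat_lit 142) (nat_lit 2) (nat_lit 5) (nat_lit 8) L133077 (by decide +kernel)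
theorem L133079 : W_49 (nat_lit 7) (nat_lit 0x10000400020001800180006000000000000000000000000000) (nat_lit 0x0) (nat_lit 0x100038000c000000010000600600001800000000000000000000000000) := T_49 (nat_lit 107) (nat_lit 108) (nat_lit 3) (nat_lit 5) (nat_lit 6) L133078 (by decide +kernel)
theorem L133080 : W_49 (nat_lit 8) (nat_lit 0x10000400020001800080006000000000000000000000000000) (nat_lit 0x0) (nat_lit 0x100038000c000000010000600700009800000000000000000000000000) := T_49 (nat_lit 128) (nat_lit 111) (nat_lit 6) (nat_lit 8) (nat_lit 10) L133079 (by decide +kernel)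
theorem L133081 : W_49 (nat_lit 9) (nat_lit 0x400020001800080006000000000000000000000000000) (nat_lit 0x0) (nat_lit 0x100038001c000800010000600700009800000000000000000000000000) := T_49 (nat_lit 196) (nat_lit 179) (nat_lit 7) (nat_lit 8) (nat_lit 7) L133080 (by decide +kernel)
theorem L133082 : W_49 (nat_lit 10) (nat_lit 0x20001800080006000000000000000000000000000) (nat_lit 0x0) (nat_lit 0x100038001c000c00010000600740009800000000000000000000000000) := T_49 (nat_lit 178) (nat_lit 126) (nat_lit 4) (nat_lit 8) (nat_lit 10) L133081 (by decide +kernel)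
theorem L133083 : W_49 (nat_lit 11) (nat_lit 0x20001800080004000000000000000000000000000) (nat_lit 0x0) (nat_lit 0x100038001c000c0001000060074000b800100000000000000000000000) := T_49 (nat_lit 109) (nat_lit 92) (nat_lit 4) (nat_lit 8) (nat_lit 9) L133082 (by decide +kernel)
theorem L133084 : W_49 (nat_lit 2) (nat_lit 0x20001800180006000000000000000000000000000) (nat_lit 0x0) (nat_lit 0x400000000000040008000000000000000000000000000) := D_49 (nat_lit 178) (nat_lit 111) (nat_lit 126) (nat_lit 6) (nat_lit 8) (nat_lit 10) (nat_lit 4) (nat_lit 8) (nat_lit 10) (by decide +kernel)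
theorem L133085 : W_49 (nat_lit 3) (nat_lit 0x20001800180004000000000000000000000000000) (nat_lit 0x0) (nat_lit 0x40000000000004000a000100000000000000000000000) := T_49 (nat_lit 109) (nat_lit 92) (nat_lit 4) (nat_lit 8) (nat_lit 9) L133084 (by decide +kernel)
theorem L133086 : W_49 (nat_lit 2) (nat_lit 0x20001a00180007000000000000000000000000000) (nat_lit 0x0) (nat_lit 0x600008000000000000000000000000000) := D_49 (nat_lit 129) (nat_lit 130) (nat_lit 111) (nat_lit 1) (nat_lit 11) (nat_lit 7) (nat_lit 3) (nat_lit 6) (nat_lit 6) (by decide +kernel)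
theorem L133087 : W_49 (nat_lit 3) (nat_lit 0x20001a00180006000000000000000000000000000) (nat_lit 0x0) (nat_lit 0x600009800000000000000000000000000) := T_49 (nat_lit 108) (nat_lit 107) (nat_lit 3) (nat_lit 5) (nat_lit 6) L133086 (by decide +kernel)
theorem L133088 : W_49 (nat_lit 4) (nat_lit 0x20001a00180004000000000000000000000000000) (nat_lit 0x0) (nat_lit 0x60000b800100000000000000000000000) := T_49 (nat_lit 109) (nat_lit 92) (nat_lit 4) (nat_lit 8) (nat_lit 9) L133087 (by decide +kernel)
theorem L133089 : W_49 (nat_lit 5) (nat_lit 0x20001800180004000000000000000000000000000) (nat_lit 0x0) (nat_lit 0x60060000b800100000000000000000000000) := T_49 (nat_lit 141) (nat_lit 142) (nat_lit 2) (nat_lit 5) (nat_lit 8) L133088 (by decide +kernel)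
theorem L133090 : W_49 (nat_lit 6) (nat_lit 0x20001800080004000000000000000000000000000) (nat_lit 0x0) (nat_lit 0x40000000060074000b800100000000000000000000000) := Q_49 (nat_lit 128) (C_49 L133085 (C_49 L75759 (C_49 L133089 N_49))) (by decide +kernel)
theorem L133091 : W_49 (nat_lit 12) (nat_lit 0x1800080004000000000000000000000000000) (nat_lit 0x0) (nat_lit 0x100038001c000c001f000060074000b800100000000000000000000000) := Q_49 (nat_lit 161) (C_49 L133069 (C_49 L2433 (C_49 L133072 (C_49 L133083 (C_49 L133090 N_49))))) (by decide +kernel)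
theorem L133092 : W_49 (nat_lit 2) (nat_lit 0x400020001800580006800000000000000000000000000) (nat_lit 0x0) (nat_lit 0x10000800040000000000000000000000000000000000000000) := D_49 (nat_lit 179) (nat_lit 162) (nat_lit 196) (nat_lit 7) (nat_lit 8) (nat_lit 6) (nat_lit 7) (nat_lit 8) (nat_lit 7) (by decide +kernel)
theorem L133093 : W_49 (nat_lit 3) (nat_lit 0x20001800580006800000000000000000000000000) (nat_lit 0x0) (nat_lit 0x10000c00040000000000008000000000000000000000000000) := T_49 (nat_lit 178) (nat_lit 111) (nat_lit 6) (nat_lit 8) (nat_lit 10) L133092 (by decide +kernel)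
theorem L133094 : W_49 (nat_lit 4) (nat_lit 0x1800580006800000000000000000000000000) (nat_lit 0x0) (nat_lit 0x10000c00060000000000008000100000000000000000000000) := T_49 (nat_lit 161) (nat_lit 92) (nat_lit 4) (nat_lit 8) (nat_lit 9) L133093 (by decide +kernel)
theorem L133095 : W_49 (nat_lit 5) (nat_lit 0x1800580006000000000000000000000000000) (nat_lit 0x0) (nat_lit 0x10000c00060000000000009800100000000000000000000000) := T_49 (nat_lit 107) (nat_lit 108) (nat_lit 3) (nat_lit 5) (nat_lit 6) L133094 (by decide +kernel)
theorem L133096 : W_49 (nat_lit 6) (nat_lit 0x1800180006000000000000000000000000000) (nat_lit 0x0) (nat_lit 0x10000c00060000000600009800100000000000000000000000) := T_49 (nat_lit 130) (nat_lit 129) (nat_lit 1) (nat_lit 11) (nat_lit 7) L133095 (by decide +kernel)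
theorem L133097 : W_49 (nat_lit 2) (nat_lit 0x1a00380006000000000000000000000000000) (nat_lit 0x0) (nat_lit 0x9800000000000000000000000000) := D_49 (nat_lit 108) (nat_lit 107) (nat_lit 111) (nat_lit 3) (nat_lit 5) (nat_lit 6) (nat_lit 3) (nat_lit 6) (nat_lit 6) (by decide +kernel)
theorem L133098 : W_49 (nat_lit 3) (nat_lit 0x1a00180006000000000000000000000000000) (nat_lit 0x0) (nat_lit 0x600009800000000000000000000000000) := T_49 (nat_lit 129) (nat_lit 130) (nat_lit 1) (nat_lit 11) (nat_lit 7) L133097 (by decide +kernel)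
theorem L133099 : W_49 (nat_lit 4) (nat_lit 0x1800180006000000000000000000000000000) (nat_lit 0x0) (nat_lit 0x600600009800000000000000000000000000) := T_49 (nat_lit 141) (nat_lit 142) (nat_lit 2) (nat_lit 5) (nat_lit 8) L133098 (by decide +kernel)
theorem L133100 : W_49 (nat_lit 2) (nat_lit 0x1800180006800100000000000000000000000) (nat_lit 0x0) (nat_lit 0x200008000400000000000000) := D_49 (nat_lit 75) (nat_lit 93) (nat_lit 58) (nat_lit 4) (nat_lit 8) (nat_lit 8) (nat_lit 7) (nat_lit 7) (nat_lit 3) (by decide +kernel)
theorem L133101 : W_49 (nat_lit 3) (nat_lit 0x1800180006800000000000000000000000000) (nat_lit 0x0) (nat_lit 0x20000000000000000300008000400000000000000) := T_49 (nat_lit 92) (nat_lit 161) (nat_lit 4) (nat_lit 8) (nat_lit 9) L133100 (by decide +kernel)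
theorem L133102 : W_49 (nat_lit 4) (nat_lit 0x1800180006000000000000000000000000000) (nat_lit 0x0) (nat_lit 0x20000000000001800300008000400000000000000) := T_49 (nat_lit 107) (nat_lit 108) (nat_lit 3) (nat_lit 5) (nat_lit 6) L133101 (by decide +kernel)
theorem L133103 : W_49 (nat_lit 2) (nat_lit 0x800020001a00580006000000000000000000000000000) (nat_lit 0x0) (nat_lit 0x10000400000000000000008000000000000000000000000000) := D_49 (nat_lit 178) (nat_lit 111) (nat_lit 196) (nat_lit 6) (nat_lit 8) (nat_lit 10) (nat_lit 7) (nat_lit 8) (nat_lit 7) (by decide +kernel)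
theorem L133104 : W_49 (nat_lit 3) (nat_lit 0x20001a00580006000000000000000000000000000) (nat_lit 0x0) (nat_lit 0x10000c00040000000000008000000000000000000000000000) := T_49 (nat_lit 179) (nat_lit 162) (nat_lit 7) (nat_lit 8) (nat_lit 6) L133103 (by decide +kernel)
theorem L133105 : W_49 (nat_lit 4) (nat_lit 0x20001a00180006000000000000000000000000000) (nat_lit 0x0) (nat_lit 0x10000c00040000000600008000000000000000000000000000) := T_49 (nat_lit 130) (nat_lit 129) (nat_lit 1) (nat_lit 11) (nat_lit 7) L133104 (by decide +kernel)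
theorem L133106 : W_49 (nat_lit 5) (nat_lit 0x1a00180006000000000000000000000000000) (nat_lit 0x0) (nat_lit 0x10000c00060000000600008000100000000000000000000000) := T_49 (nat_lit 161) (nat_lit 92) (nat_lit 4) (nat_lit 8) (nat_lit 9) L133105 (by decide +kernel)
theorem L133107 : W_49 (nat_lit 6) (nat_lit 0x1800180006000000000000000000000000000) (nat_lit 0x0) (nat_lit 0x10000c00060000600600008000100000000000000000000000) := T_49 (nat_lit 141) (nat_lit 142) (nat_lit 2) (nat_lit 5) (nat_lit 8) L133106 (by decide +kernel)
theorem L133108 : W_49 (nat_lit 7) (nat_lit 0x1800180004000000000000000000000000000) (nat_lit 0x0) (nat_lit 0x10000c0006000060060000b800300008000400000000000000) := Q_49 (nat_lit 109) (C_49 L133096 (C_49 L133099 (C_49 L133102 (C_49 L133107 N_49)))) (by decide +kernel)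
theorem L133111 : W_49 (nat_lit 2) (nat_lit 0x280008000400160001a00180004000000000000000000000000000) (nat_lit 0x0) (nat_lit 0x5000100000000000000000000000000000000000000000000000000000) := D_49 (nat_lit 212) (nat_lit 230) (nat_lit 228) (nat_lit 7) (nat_lit 8) (nat_lit 9) (nat_lit 5) (nat_lit 8) (nat_lit 9) (by decide +kernel)
theorem L133112 : W_49 (nat_lit 3) (nat_lit 0x200008000400160001a00180004000000000000000000000000000) (nat_lit 0x0) (nat_lit 0x5000180004000000000000000000000000000000000000000000000000) := T_49 (nat_lit 211) (nat_lit 194) (nat_lit 5) (nat_lit 8) (nat_lit 8) L133111 (by decide +kernel)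
theorem L133113 : W_49 (nat_lit 4) (nat_lit 0x8000400160001a00180004000000000000000000000000000) (nat_lit 0x0) (nat_lit 0x5000380014000000000000000000000000000000000000000000000000) := T_49 (nat_lit 213) (nat_lit 196) (nat_lit 7) (nat_lit 8) (nat_lit 8) L133112 (by decide +kernel)
theorem L133114 : W_49 (nat_lit 5) (nat_lit 0x8000400060001a00180004000000000000000000000000000) (nat_lit 0x0) (nat_lit 0x5000380014000000180000000000000000000000000000000000000000) := T_49 (nat_lit 164) (nat_lit 163) (nat_lit 0) (nat_lit 11) (nat_lit 9) L133113 (by decide +kernel)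
theorem L133115 : W_49 (nat_lit 6) (nat_lit 0x400060001a00180004000000000000000000000000000) (nat_lit 0x0) (nat_lit 0x500038001c000000180000000040000000000000000000000000000000) := T_49 (nat_lit 195) (nat_lit 126) (nat_lit 4) (nat_lit 8) (nat_lit 11) L133114 (by decide +kernel)
theorem L133116 : W_49 (nat_lit 7) (nat_lit 0x60001a00180004000000000000000000000000000) (nat_lit 0x0) (nat_lit 0x500038001c000400180000000040008000000000000000000000000000) := T_49 (nat_lit 178) (nat_lit 111) (nat_lit 6) (nat_lit 8) (nat_lit 10) L133115 (by decide +kernel)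
theorem L133117 : W_49 (nat_lit 8) (nat_lit 0x60001800180004000000000000000000000000000) (nat_lit 0x0) (nat_lit 0x500038001c000400180000600040008000000000000000000000000000) := T_49 (nat_lit 141) (nat_lit 142) (nat_lit 3) (nat_lit 5) (nat_lit 8) L133116 (by decide +kernel)
theorem L133118 : W_49 (nat_lit 9) (nat_lit 0x20001800180004000000000000000000000000000) (nat_lit 0x0) (nat_lit 0x500038001c000c001c0000600040008000000000000000000000000000) := T_49 (nat_lit 162) (nat_lit 179) (nat_lit 7) (nat_lit 8) (nat_lit 6) L133117 (by decide +kernel)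
theorem L133119 : W_49 (nat_lit 2) (nat_lit 0x800020001a00180006000000000000000000000000000) (nat_lit 0x0) (nat_lit 0x10000400000000000040000000000000000000000000000000) := D_49 (nat_lit 178) (nat_lit 196) (nat_lit 126) (nat_lit 7) (nat_lit 8) (nat_lit 7) (nat_lit 4) (nat_lit 8) (nat_lit 10) (by decide +kernel)
theorem L133120 : W_49 (nat_lit 3) (nat_lit 0x800020001a00180004000000000000000000000000000) (nat_lit 0x0) (nat_lit 0x10000400000000000040002000100000000000000000000000) := T_49 (nat_lit 109) (nat_lit 92) (nat_lit 4) (nat_lit 8) (nat_lit 9) L133119 (by decide +kernel)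
theorem L133121 : W_49 (nat_lit 4) (nat_lit 0x20001a00180004000000000000000000000000000) (nat_lit 0x0) (nat_lit 0x10000c00040000000040002000100000000000000000000000) := T_49 (nat_lit 179) (nat_lit 162) (nat_lit 7) (nat_lit 8) (nat_lit 6) L133120 (by decide +kernel)
theorem L133122 : W_49 (nat_lit 5) (nat_lit 0x20001800180004000000000000000000000000000) (nat_lit 0x0) (nat_lit 0x10000c00040000600040002000100000000000000000000000) := T_49 (nat_lit 141) (nat_lit 142) (nat_lit 2) (nat_lit 5) (nat_lit 8) L133121 (by decide +kernel)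
theorem L133123 : W_49 (nat_lit 2) (nat_lit 0x160001a00180004000300010000800000000000000) (nat_lit 0x0) (nat_lit 0x20001000080000000000) := D_49 (nat_lit 60) (nat_lit 43) (nat_lit 77) (nat_lit 6) (nat_lit 8) (nat_lit 6) (nat_lit 6) (nat_lit 8) (nat_lit 7) (by decide +kernel)
theorem L133124 : W_49 (nat_lit 3) (nat_lit 0x160001a00180004000300010000000000000000000) (nat_lit 0x0) (nat_lit 0x8000000020001800080000000000) := T_49 (nat_lit 59) (nat_lit 111) (nat_lit 7) (nat_lit 8) (nat_lit 3) L133123 (by decide +kernel)
theorem L133125 : W_49 (nat_lit 4) (nat_lit 0x60001a00180004000300010000000000000000000) (nat_lit 0x0) (nat_lit 0x180000000000008000000020001800080000000000) := T_49 (nat_lit 164) (nat_lit 163) (nat_lit 0) (nat_lit 11) (nat_lit 9) L133124 (by decide +kernel)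
theorem L133126 : W_49 (nat_lit 5) (nat_lit 0x20001a00180004000300010000000000000000000) (nat_lit 0x0) (nat_lit 0x8001c0000000000008000000020001800080000000000) := T_49 (nat_lit 162) (nat_lit 179) (nat_lit 7) (nat_lit 8) (nat_lit 6) L133125 (by decide +kernel)
theorem L133127 : W_49 (nat_lit 6) (nat_lit 0x20001a00180004000300000000000000000000000) (nat_lit 0x0) (nat_lit 0x8001c0000000040008000000030001800080000000000) := T_49 (nat_lit 76) (nat_lit 126) (nat_lit 5) (nat_lit 8) (nat_lit 4) L133126 (by decide +kernel)
theorem L133128 : W_49 (nat_lit 7) (nat_lit 0x20001800180004000300000000000000000000000) (nat_lit 0x0) (nat_lit 0x8001c0000600040008000000030001800080000000000) := T_49 (nat_lit 141) (nat_lit 142) (nat_lit 2) (nat_lit 5) (nat_lit 8) L133127 (by decide +kernel)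
theorem L133129 : W_49 (nat_lit 8) (nat_lit 0x20001800180004000100000000000000000000000) (nat_lit 0x0) (nat_lit 0x8001c0000600040008000200038001800080000000000) := T_49 (nat_lit 93) (nat_lit 75) (nat_lit 4) (nat_lit 8) (nat_lit 8) L133128 (by decide +kernel)
theorem L133130 : W_49 (nat_lit 9) (nat_lit 0x20001800180004000000000000000000000000000) (nat_lit 0x0) (nat_lit 0x8001c000060004000a000300038001800080000000000) := T_49 (nat_lit 92) (nat_lit 109) (nat_lit 4) (nat_lit 8) (nat_lit 9) L133129 (by decide +kernel)
theorem L133131 : W_49 (nat_lit 2) (nat_lit 0x400020001800180006800000000000000000000000000) (nat_lit 0x0) (nat_lit 0x10000800040000000000000000000000000000000000000000) := D_49 (nat_lit 179) (nat_lit 162) (nat_lit 196) (nat_lit 7) (nat_lit 8) (nat_lit 6) (nat_lit 7) (nat_lit 8) (nat_lit 7) (by decide +kernel)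
theorem L133132 : W_49 (nat_lit 3) (nat_lit 0x20001800180006800000000000000000000000000) (nat_lit 0x0) (nat_lit 0x10000c00040000000000008000000000000000000000000000) := T_49 (nat_lit 178) (nat_lit 111) (nat_lit 6) (nat_lit 8) (nat_lit 10) L133131 (by decide +kernel)
theorem L133133 : W_49 (nat_lit 4) (nat_lit 0x20001800180006000000000000000000000000000) (nat_lit 0x0) (nat_lit 0x10000c00040000000000009800000000000000000000000000) := T_49 (nat_lit 107) (nat_lit 108) (nat_lit 3) (nat_lit 5) (nat_lit 6) L133132 (by decide +kernel)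
theorem L133134 : W_49 (nat_lit 5) (nat_lit 0x20001800180004000000000000000000000000000) (nat_lit 0x0) (nat_lit 0x10000c0004000000000000b800100000000000000000000000) := T_49 (nat_lit 109) (nat_lit 92) (nat_lit 4) (nat_lit 8) (nat_lit 9) L133133 (by decide +kernel)
theorem L133135 : W_49 (nat_lit 10) (nat_lit 0x1800180004000000000000000000000000000) (nat_lit 0x0) (nat_lit 0x500038001c000c001e000060004000b800300038001800080000000000) := Q_49 (nat_lit 161) (C_49 L133085 (C_49 L133118 (C_49 L133122 (C_49 L133130 (C_49 L133134 N_49))))) (by decide +kernel)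
theorem L133136 : W_49 (nat_lit 2) (nat_lit 0x1800380006000000000000000000000000000) (nat_lit 0x0) (nat_lit 0x40001800000000000000000000000000) := D_49 (nat_lit 108) (nat_lit 107) (nat_lit 126) (nat_lit 3) (nat_lit 5) (nat_lit 6) (nat_lit 0) (nat_lit 10) (nat_lit 7) (by decide +kernel)
theorem L133137 : W_49 (nat_lit 3) (nat_lit 0x1800180006000000000000000000000000000) (nat_lit 0x0) (nat_lit 0x640001800000000000000000000000000) := T_49 (nat_lit 129) (nat_lit 130) (nat_lit 1) (nat_lit 11) (nat_lit 7) L133136 (by decide +kernel)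
theorem L133138 : W_49 (nat_lit 3) (nat_lit 0x1800180006000000000000000000000000000) (nat_lit 0x0) (nat_lit 0x400020000000040008000100000000000000000000000) := T_49 (nat_lit 161) (nat_lit 92) (nat_lit 4) (nat_lit 8) (nat_lit 9) L133084 (by decide +kernel)
theorem L133139 : W_49 (nat_lit 5) (nat_lit 0x1800180004000000000000000000000000000) (nat_lit 0x0) (nat_lit 0x40002000000064000b800300008000400000000000000) := Q_49 (nat_lit 109) (C_49 L133102 (C_49 L133137 (C_49 L133138 N_49))) (by decide +kernel)
theorem L133140 : W_49 (nat_lit 11) (nat_lit 0x1800080004000000000000000000000000000) (nat_lit 0x0) (nat_lit 0x500038001c000c001e000060074000b800300038001c00080000000000) := Q_49 (nat_lit 128) (C_49 L133108 (C_49 L133110 (C_49 L133135 (C_49 L133139 N_49)))) (by decide +kernel)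
theorem L133141 : W_49 (nat_lit 13) (nat_lit 0x1000080004000000000000000000000000000) (nat_lit 0x0) (nat_lit 0x500038001c000c001f0000e0074000b800300038001c000a0000000000) := Q_49 (nat_lit 143) (C_49 L133050 (C_49 L133062 (C_49 L133073 (C_49 L133091 (C_49 L133140 N_49))))) (by decide +kernel)
theorem L133142 : W_49 (nat_lit 14) (nat_lit 0x1000080000000000000000000000000000000) (nat_lit 0x0) (nat_lit 0x500038001c001c001f800ce0077803fc01fe003e001e000e0000000000) := Q_49 (nat_lit 110) (C_49 L132866 (C_49 L132895 (C_49 L132896 (C_49 L132934 (C_49 L132988 (C_49 L132993 (C_49 L132998 (C_49 L133037 (C_49 L133049 (C_49 L133141 N_49)))))))))) (by decide +kernel)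
end Crest.Agent.Helper32.Snaky.R1_0
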