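import Crest.Agent.Helper32.Snaky.Gen.R1_0_p4
set_option autoImplicit false
set_option maxRecDepth 100000
set_option linter.all false
set_option Elab.async false
namespace Crest.Agent.Helper32.Snaky.R1_0
@[reducible] def W_5 (d M Bz Z : Nat) : Prop := Crest.Agent.Helper32.Snaky.Wins (nat_lit 17) d M Bz Z
theorem D_5 {d M Bz Z : Nat} (m t1 t2 o1 x1 y1 o2 x2 y2 : Nat) (h : Crest.Agent.Helper32.Snaky.chkDoubleC (nat_lit 17) d M Bz Z m t1 t2 o1 x1 y1 o2 x2 y2 = true) : W_5 d M Bz Z := Crest.Agent.Helper32.Snaky.doubleC m t1 t2 o1 x1 y1 o2 x2 y2 h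
theorem T_5 {d M Bz Z cd cM cBz cZ : Nat} (m t o x y : Nat) (child : W_5 cd cM cBz cZ) (h : Crest.Agent.Helper32.Snaky.chkThreatC (nat_lit 17) d M Bz Z cd cM cBz cZ m t o x y = true) : W_5 d M Bz Z := Crest.Agent.Helper32.Snaky.threatC m t o x y child h
theorem Q_5 {d M Bz Z : Nat} (m : Nat) {l : List Crest.Agent.Helper32.Snaky.Spec} (kids : Crest.Agent.Helper32.Snaky.AllWins (nat_lit 17) l) (h : Crest.Agent.Helper32.Snaky.chkQuiet d M Bz Z m l = true) : W_5 d M Bz Z := Crest.Agent.Helper32.Snaky.quiet m kids h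
theorem C_5 {cd cM cBz cZ : Nat} {l : List Crest.Agent.Helper32.Snaky.Spec} (h : W_5 cd cM cBz cZ) (hl : Crest.Agent.Helper32.Snaky.AllWins (nat_lit 17) l) : Crest.Agent.Helper32.Snaky.AllWins (nat_lit 17) ((cd, cM, cBz, cZ) :: l) := Crest.Agent.Helper32.Snaky.AllWins.cons h hl
theorem N_5 : Crest.Agent.Helper32.Snaky.AllWins (nat_lit 17) [] := Crest.Agent.Helper32.Snaky.AllWins.nil
theorem L40432 : W_5 (nat_lit 2) (nat_lit 0x200014001300090000800000000000000000000000000) (nat_lit 0x0) (nat_lit 0x40002000000000000000040000000000000000000000) := D_5 (nat_lit 157) (nat_lit 174) (nat_lit 90) (nat_lit 5) (nat_lit 5) (nat_lit 6) (nat_lit 5) (nat_lit 5) (nat_lit 5) (by decide +kernel)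
theorem L40433 : W_5 (nat_lit 2) (nat_lit 0x1000280016001300090001c00000000000000000000000000) (nat_lit 0x0) (nat_lit 0x40002000100000000000000000000000000000000000000000000) := D_5 (nat_lit 193) (nat_lit 176) (nat_lit 210) (nat_lit 7) (nat_lit 5) (nat_lit 7) (nat_lit 7) (nat_lit 5) (nat_lit 8) (by decide +kernel)
theorem L40434 : W_5 (nat_lit 3) (nat_lit 0x280016001300090001c00000000000000000000000000) (nat_lit 0x0) (nat_lit 0x60003000100000000000000000000000000000000000000000000) := T_5 (nat_lit 192) (nat_lit 209) (nat_lit 4) (nat_lit 5) (nat_lit 12) L40433 (by decide +kernel)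
theorem L40435 : W_5 (nat_lit 4) (nat_lit 0x200016001300090001c00000000000000000000000000) (nat_lit 0x0) (nat_lit 0x60003000180000000000008000000000000000000000000000000) := T_5 (nat_lit 175) (nat_lit 123) (nat_lit 7) (nat_lit 4) (nat_lit 6) L40434 (by decide +kernel)
theorem L40436 : W_5 (nat_lit 5) (nat_lit 0x200016001300090001800000000000000000000000000) (nat_lit 0x0) (nat_lit 0x60003000180000000000008000400020000000000000000000000) := T_5 (nat_lit 106) (nat_lit 89) (nat_lit 4) (nat_lit 5) (nat_lit 9) L40435 (by decide +kernel)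
theorem L40437 : W_5 (nat_lit 6) (nat_lit 0x200016001300090000800000000000000000000000000) (nat_lit 0x0) (nat_lit 0x600030001800000000000080014000a0000000000000000000000) := T_5 (nat_lit 108) (nat_lit 91) (nat_lit 6) (nat_lit 5) (nat_lit 9) L40436 (by decide +kernel)
theorem L40438 : W_5 (nat_lit 7) (nat_lit 0x200014001300090000800000000000000000000000000) (nat_lit 0x0) (nat_lit 0x600030001c00020000000080014000a0000000000000000000000) := T_5 (nat_lit 157) (nat_lit 174) (nat_lit 5) (nat_lit 5) (nat_lit 6) L40437 (by decide +kernel)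
theorem L40439 : W_5 (nat_lit 4) (nat_lit 0x280014001300090000c00000000000000000000000000) (nat_lit 0x0) (nat_lit 0x20001000020000000000010000c0004000000000000000000) := T_5 (nat_lit 176) (nat_lit 193) (nat_lit 7) (nat_lit 5) (nat_lit 7) L38644 (by decide +kernel)
theorem L40440 : W_5 (nat_lit 5) (nat_lit 0x200014001300090000c00000000000000000000000000) (nat_lit 0x0) (nat_lit 0x20001800020000000080010000c0004000000000000000000) := T_5 (nat_lit 175) (nat_lit 123) (nat_lit 4) (nat_lit 5) (nat_lit 10) L40439 (by decide +kernel)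
theorem L40441 : W_5 (nat_lit 6) (nat_lit 0x200014001300090000800000000000000000000000000) (nat_lit 0x0) (nat_lit 0x20001800020000000080014000e0004000000000000000000) := T_5 (nat_lit 106) (nat_lit 89) (nat_lit 4) (nat_lit 5) (nat_lit 9) L40440 (by decide +kernel)
theorem L40442 : W_5 (nat_lit 2) (nat_lit 0x200014001300098001c00000000000000000000000000) (nat_lit 0x0) (nat_lit 0x44002000000000000000000000000000) := D_5 (nat_lit 109) (nat_lit 126) (nat_lit 122) (nat_lit 3) (nat_lit 4) (nat_lit 6) (nat_lit 1) (nat_lit 7) (nat_lit 6) (by decide +kernel)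
theorem L40443 : W_5 (nat_lit 3) (nat_lit 0x200014001300090001c00000000000000000000000000) (nat_lit 0x0) (nat_lit 0x8000000000004c002000000000000000000000000000) := T_5 (nat_lit 123) (nat_lit 175) (nat_lit 4) (nat_lit 5) (nat_lit 10) L40442 (by decide +kernel)
theorem L40444 : W_5 (nat_lit 4) (nat_lit 0x200014001300090001800000000000000000000000000) (nat_lit 0x0) (nat_lit 0x8000000000004c002400020000000000000000000000) := T_5 (nat_lit 106) (nat_lit 89) (nat_lit 4) (nat_lit 5) (nat_lit 9) L40443 (by decide +kernel)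
theorem L40445 : W_5 (nat_lit 5) (nat_lit 0x200014001300090000800000000000000000000000000) (nat_lit 0x0) (nat_lit 0x8000000000004c0034000a0000000000000000000000) := T_5 (nat_lit 108) (nat_lit 91) (nat_lit 6) (nat_lit 5) (nat_lit 9) L40444 (by decide +kernel)
theorem L40446 : W_5 (nat_lit 8) (nat_lit 0x200014001300090000000000000000000000000000000) (nat_lit 0x0) (nat_lit 0x600030001c000200000004c003c000e0004000000000000000000) := Q_5 (nat_lit 107) (C_5 L40432 (C_5 L40438 (C_5 L40441 (C_5 L40445 N_5)))) (by decide +kernel)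
theorem L40447 : W_5 (nat_lit 2) (nat_lit 0x3c00140013400b0000000000000000000000000000000) (nat_lit 0x0) (nat_lit 0x3000000000000800000000000000000000000000) := D_5 (nat_lit 157) (nat_lit 156) (nat_lit 107) (nat_lit 0) (nat_lit 7) (nat_lit 10) (nat_lit 5) (nat_lit 5) (nat_lit 6) (by decide +kernel)
theorem L40448 : W_5 (nat_lit 3) (nat_lit 0x3800140013400b0000000000000000000000000000000) (nat_lit 0x0) (nat_lit 0x40023000000000000800000000000000000000000000) := T_5 (nat_lit 174) (nat_lit 161) (nat_lit 2) (nat_lit 4) (nat_lit 10) L40447 (by decide +kernel)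
theorem L40449 : W_5 (nat_lit 4) (nat_lit 0x2800140013400b0000000000000000000000000000000) (nat_lit 0x0) (nat_lit 0x2000140023000000000000800000000000000000000000000) := T_5 (nat_lit 176) (nat_lit 193) (nat_lit 7) (nat_lit 5) (nat_lit 7) L40448 (by decide +kernel)
theorem L40450 : W_5 (nat_lit 5) (nat_lit 0x2000140013400b0000000000000000000000000000000) (nat_lit 0x0) (nat_lit 0x20001c0023000000000001800000000000000000000000000) := T_5 (nat_lit 175) (nat_lit 108) (nat_lit 6) (nat_lit 5) (nat_lit 10) L40449 (by decide +kernel)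
theorem L40451 : W_5 (nat_lit 6) (nat_lit 0x2000140013000b0000000000000000000000000000000) (nat_lit 0x0) (nat_lit 0x20001c00230000c0000001800000000000000000000000000) := T_5 (nat_lit 138) (nat_lit 139) (nat_lit 2) (nat_lit 2) (nat_lit 8) L40450 (by decide +kernel)
theorem L40452 : W_5 (nat_lit 7) (nat_lit 0x200014001300090000000000000000000000000000000) (nat_lit 0x0) (nat_lit 0x20001c00230000c0060001800000000000000000000000000) := T_5 (nat_lit 125) (nat_lit 126) (nat_lit 1) (nat_lit 8) (nat_lit 7) L40451 (by decide +kernel)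
theorem L40453 : W_5 (nat_lit 2) (nat_lit 0x280014001300090001800000000000000000000000000) (nat_lit 0x0) (nat_lit 0x8000400020000000000000000000000) := D_5 (nat_lit 106) (nat_lit 89) (nat_lit 123) (nat_lit 4) (nat_lit 5) (nat_lit 9) (nat_lit 4) (nat_lit 5) (nat_lit 10) (by decide +kernel)
theorem L40454 : W_5 (nat_lit 3) (nat_lit 0x200014001300090001800000000000000000000000000) (nat_lit 0x0) (nat_lit 0x80000000000028000400020000000000000000000000) := T_5 (nat_lit 175) (nat_lit 125) (nat_lit 6) (nat_lit 5) (nat_lit 10) L40453 (by decide +kernel)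
theorem L40455 : W_5 (nat_lit 4) (nat_lit 0x200014001300090000800000000000000000000000000) (nat_lit 0x0) (nat_lit 0x800000000000280014000a0000000000000000000000) := T_5 (nat_lit 108) (nat_lit 91) (nat_lit 6) (nat_lit 5) (nat_lit 9) L40454 (by decide +kernel)
theorem L40456 : W_5 (nat_lit 8) (nat_lit 0x200014001300090000000000000000000000000000000) (nat_lit 0x0) (nat_lit 0x600030001c0002000000028001c000e0004000000000000000000) := Q_5 (nat_lit 107) (C_5 L40432 (C_5 L40441 (C_5 L40438 (C_5 L40455 N_5)))) (by decide +kernel)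
theorem L40457 : W_5 (nat_lit 2) (nat_lit 0x2000140013000d0001800000000000000000000000000) (nat_lit 0x0) (nat_lit 0x2400020000000000000000000000) := D_5 (nat_lit 106) (nat_lit 109) (nat_lit 89) (nat_lit 3) (nat_lit 4) (nat_lit 6) (nat_lit 4) (nat_lit 5) (nat_lit 9) (by decide +kernel)
theorem L40458 : W_5 (nat_lit 3) (nat_lit 0x2000140013000d0000800000000000000000000000000) (nat_lit 0x0) (nat_lit 0x34000a0000000000000000000000) := T_5 (nat_lit 108) (nat_lit 91) (nat_lit 6) (nat_lit 5) (nat_lit 9) L40457 (by decide +kernel)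
theorem L40459 : W_5 (nat_lit 4) (nat_lit 0x200014001300090000800000000000000000000000000) (nat_lit 0x0) (nat_lit 0x600034000a0000000000000000000000) := T_5 (nat_lit 126) (nat_lit 125) (nat_lit 1) (nat_lit 8) (nat_lit 7) L40458 (by decide +kernel)
theorem L40460 : W_5 (nat_lit 5) (nat_lit 0x200014001300090000000000000000000000000000000) (nat_lit 0x0) (nat_lit 0x40002000000060003c000e0000000000000000000000) := Q_5 (nat_lit 107) (C_5 L40432 (C_5 L40459 N_5)) (by decide +kernel)
theorem L40465 : W_5 (nat_lit 2) (nat_lit 0x200014001300090000400000000000000000000000000) (nat_lit 0x0) (nat_lit 0x8000800020000000000000000000000) := D_5 (nat_lit 89) (nat_lit 123) (nat_lit 107) (nat_lit 7) (nat_lit 4) (nat_lit 5) (nat_lit 4) (nat_lit 5) (nat_lit 9) (by decide +kernel)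
theorem L40466 : W_5 (nat_lit 2) (nat_lit 0x2000140013000d0000c00000000000000000000000000) (nat_lit 0x0) (nat_lit 0x40002000000000000000040000000000000000000000) := D_5 (nat_lit 157) (nat_lit 90) (nat_lit 174) (nat_lit 5) (nat_lit 5) (nat_lit 5) (nat_lit 5) (nat_lit 5) (nat_lit 6) (by decide +kernel)
theorem L40467 : W_5 (nat_lit 3) (nat_lit 0x2000140013000d0000400000000000000000000000000) (nat_lit 0x0) (nat_lit 0x40002000000000000800060000000000000000000000) := T_5 (nat_lit 107) (nat_lit 89) (nat_lit 4) (nat_lit 5) (nat_lit 9) L40466 (by decide +kernel)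
theorem L40468 : W_5 (nat_lit 4) (nat_lit 0x200014001300090000400000000000000000000000000) (nat_lit 0x0) (nat_lit 0x40002000000060000800060000000000000000000000) := T_5 (nat_lit 126) (nat_lit 125) (nat_lit 1) (nat_lit 8) (nat_lit 7) L40467 (by decide +kernel)
theorem L40469 : W_5 (nat_lit 2) (nat_lit 0x200014001300090000400000000000000000000000000) (nat_lit 0x0) (nat_lit 0x80000000000008000000020000000000000000000000) := D_5 (nat_lit 123) (nat_lit 89) (nat_lit 175) (nat_lit 7) (nat_lit 4) (nat_lit 5) (nat_lit 4) (nat_lit 5) (nat_lit 10) (by decide +kernel)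
theorem L40470 : W_5 (nat_lit 2) (nat_lit 0x3c0014001300090000400000000000000000000000000) (nat_lit 0x0) (nat_lit 0x3000000000000800000000000000000000000000) := D_5 (nat_lit 157) (nat_lit 156) (nat_lit 107) (nat_lit 0) (nat_lit 7) (nat_lit 10) (nat_lit 5) (nat_lit 5) (nat_lit 6) (by decide +kernel)
theorem L40471 : W_5 (nat_lit 3) (nat_lit 0x380014001300090000400000000000000000000000000) (nat_lit 0x0) (nat_lit 0x40023000000000000800000000000000000000000000) := T_5 (nat_lit 174) (nat_lit 161) (nat_lit 2) (nat_lit 4) (nat_lit 10) L40470 (by decide +kernel)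
theorem L40472 : W_5 (nat_lit 4) (nat_lit 0x280014001300090000400000000000000000000000000) (nat_lit 0x0) (nat_lit 0x2000140023000000000000800000000000000000000000000) := T_5 (nat_lit 176) (nat_lit 193) (nat_lit 7) (nat_lit 5) (nat_lit 7) L40471 (by decide +kernel)
theorem L40473 : W_5 (nat_lit 5) (nat_lit 0x200014001300090000400000000000000000000000000) (nat_lit 0x0) (nat_lit 0x20001c0023000000008000800000000000000000000000000) := T_5 (nat_lit 175) (nat_lit 123) (nat_lit 4) (nat_lit 5) (nat_lit 10) L40472 (by decide +kernel)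
theorem L40474 : W_5 (nat_lit 6) (nat_lit 0x200014001300090000000000000000000000000000000) (nat_lit 0x0) (nat_lit 0x20001c0023000000068000c00060000000000000000000000) := Q_5 (nat_lit 106) (C_5 L40465 (C_5 L40468 (C_5 L40469 (C_5 L40473 N_5)))) (by decide +kernel)
theorem L40475 : W_5 (nat_lit 9) (nat_lit 0x200014001300080000000000000000000000000000000) (nat_lit 0x0) (nat_lit 0x600030001c00230000c007c003c000e0004000000000000000000) := Q_5 (nat_lit 124) (C_5 L40446 (C_5 L40452 (C_5 L40456 (C_5 L40460 (C_5 L40464 (C_5 L40474 N_5)))))) (by decide +kernel)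
theorem L40476 : W_5 (nat_lit 2) (nat_lit 0x2800340013400b0000000000000000000000000000000) (nat_lit 0x0) (nat_lit 0x2000140000000000000000000000000000000000000000000) := D_5 (nat_lit 176) (nat_lit 193) (nat_lit 174) (nat_lit 7) (nat_lit 5) (nat_lit 7) (nat_lit 2) (nat_lit 4) (nat_lit 10) (by decide +kernel)
theorem L40477 : W_5 (nat_lit 3) (nat_lit 0x2000340013400b0000000000000000000000000000000) (nat_lit 0x0) (nat_lit 0x20001c0000000000000001000000000000000000000000000) := T_5 (nat_lit 175) (nat_lit 108) (nat_lit 6) (nat_lit 5) (nat_lit 10) L40476 (by decide +kernel)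
theorem L40478 : W_5 (nat_lit 4) (nat_lit 0x2000340013000b0000000000000000000000000000000) (nat_lit 0x0) (nat_lit 0x20001c00000000c0000001000000000000000000000000000) := T_5 (nat_lit 138) (nat_lit 139) (nat_lit 2) (nat_lit 2) (nat_lit 8) L40477 (by decide +kernel)
theorem L40479 : W_5 (nat_lit 5) (nat_lit 0x200034001300090000000000000000000000000000000) (nat_lit 0x0) (nat_lit 0x20001c00000000c0060001000000000000000000000000000) := T_5 (nat_lit 125) (nat_lit 126) (nat_lit 1) (nat_lit 8) (nat_lit 7) L40478 (by decide +kernel)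
theorem L40480 : W_5 (nat_lit 6) (nat_lit 0x200014001300090000000000000000000000000000000) (nat_lit 0x0) (nat_lit 0x20001c00280000c0060001000000000000000000000000000) := T_5 (nat_lit 161) (nat_lit 159) (nat_lit 0) (nat_lit 8) (nat_lit 9) L40479 (by decide +kernel)
theorem L40481 : W_5 (nat_lit 2) (nat_lit 0x28001c001340090000c00000000000000000000000000) (nat_lit 0x0) (nat_lit 0x20001000080000000000000000000000) := D_5 (nat_lit 108) (nat_lit 125) (nat_lit 91) (nat_lit 6) (nat_lit 5) (nat_lit 10) (nat_lit 6) (nat_lit 5) (nat_lit 9) (by decide +kernel)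
theorem L40482 : W_5 (nat_lit 3) (nat_lit 0x20001c001340090000c00000000000000000000000000) (nat_lit 0x0) (nat_lit 0x80000000000028001000080000000000000000000000) := T_5 (nat_lit 175) (nat_lit 123) (nat_lit 4) (nat_lit 5) (nat_lit 10) L40481 (by decide +kernel)
theorem L40483 : W_5 (nat_lit 4) (nat_lit 0x20001c001340090000800000000000000000000000000) (nat_lit 0x0) (nat_lit 0x800000000000280014000a0000000000000000000000) := T_5 (nat_lit 106) (nat_lit 89) (nat_lit 4) (nat_lit 5) (nat_lit 9) L40482 (by decide +kernel)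
theorem L40484 : W_5 (nat_lit 5) (nat_lit 0x20001c001340090000000000000000000000000000000) (nat_lit 0x0) (nat_lit 0x180000000000028001c000a0000000000000000000000) := T_5 (nat_lit 107) (nat_lit 176) (nat_lit 7) (nat_lit 5) (nat_lit 6) L40483 (by decide +kernel)
theorem L40485 : W_5 (nat_lit 6) (nat_lit 0x20001c001300090000000000000000000000000000000) (nat_lit 0x0) (nat_lit 0x1800000000c0028001c000a0000000000000000000000) := T_5 (nat_lit 138) (nat_lit 139) (nat_lit 3) (nat_lit 2) (nat_lit 8) L40484 (by decide +kernel)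
theorem L40486 : W_5 (nat_lit 7) (nat_lit 0x200014001300090000000000000000000000000000000) (nat_lit 0x0) (nat_lit 0x1800280000c0028001c000a0000000000000000000000) := T_5 (nat_lit 159) (nat_lit 161) (nat_lit 0) (nat_lit 8) (nat_lit 9) L40485 (by decide +kernel)
theorem L40487 : W_5 (nat_lit 2) (nat_lit 0x20001c001340098001c00000000000000000000000000) (nat_lit 0x0) (nat_lit 0x6002000000000000000000000000000) := D_5 (nat_lit 122) (nat_lit 121) (nat_lit 109) (nat_lit 2) (nat_lit 2) (nat_lit 7) (nat_lit 1) (nat_lit 7) (nat_lit 6) (by decide +kernel)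
theorem L40488 : W_5 (nat_lit 3) (nat_lit 0x20001c001340098000c00000000000000000000000000) (nat_lit 0x0) (nat_lit 0x6003000080000000000000000000000) := T_5 (nat_lit 108) (nat_lit 91) (nat_lit 6) (nat_lit 5) (nat_lit 9) L40487 (by decide +kernel)
theorem L40489 : W_5 (nat_lit 4) (nat_lit 0x20001c001340090000c00000000000000000000000000) (nat_lit 0x0) (nat_lit 0x8000000000000e003000080000000000000000000000) := T_5 (nat_lit 123) (nat_lit 175) (nat_lit 4) (nat_lit 5) (nat_lit 10) L40488 (by decide +kernel)
theorem L40490 : W_5 (nat_lit 5) (nat_lit 0x20001c001340090000800000000000000000000000000) (nat_lit 0x0) (nat_lit 0x8000000000000e0034000a0000000000000000000000) := T_5 (nat_lit 106) (nat_lit 89) (nat_lit 4) (nat_lit 5) (nat_lit 9) L40489 (by decide +kernel)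
theorem L40491 : W_5 (nat_lit 6) (nat_lit 0x20001c001340090000000000000000000000000000000) (nat_lit 0x0) (nat_lit 0x18000000000000e003c000a0000000000000000000000) := T_5 (nat_lit 107) (nat_lit 176) (nat_lit 7) (nat_lit 5) (nat_lit 6) L40490 (by decide +kernel)
theorem L40492 : W_5 (nat_lit 7) (nat_lit 0x20001c001300090000000000000000000000000000000) (nat_lit 0x0) (nat_lit 0x1800000000c000e003c000a0000000000000000000000) := T_5 (nat_lit 138) (nat_lit 139) (nat_lit 3) (nat_lit 2) (nat_lit 8) L40491 (by decide +kernel)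
theorem L40493 : W_5 (nat_lit 8) (nat_lit 0x200014001300090000000000000000000000000000000) (nat_lit 0x0) (nat_lit 0x1800280000c000e003c000a0000000000000000000000) := T_5 (nat_lit 159) (nat_lit 161) (nat_lit 0) (nat_lit 8) (nat_lit 9) L40492 (by decide +kernel)
theorem L40494 : W_5 (nat_lit 2) (nat_lit 0x20001c0013000d0000c00000000000000000000000000) (nat_lit 0x0) (nat_lit 0x3000080000000000000000000000) := D_5 (nat_lit 108) (nat_lit 109) (nat_lit 91) (nat_lit 3) (nat_lit 4) (nat_lit 6) (nat_lit 6) (nat_lit 5) (nat_lit 9) (by decide +kernel)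
theorem L40495 : W_5 (nat_lit 3) (nat_lit 0x20001c0013000d0000800000000000000000000000000) (nat_lit 0x0) (nat_lit 0x34000a0000000000000000000000) := T_5 (nat_lit 106) (nat_lit 89) (nat_lit 4) (nat_lit 5) (nat_lit 9) L40494 (by decide +kernel)
theorem L40496 : W_5 (nat_lit 4) (nat_lit 0x20001c0013000d0000000000000000000000000000000) (nat_lit 0x0) (nat_lit 0x100000000000000003c000a0000000000000000000000) := T_5 (nat_lit 107) (nat_lit 176) (nat_lit 7) (nat_lit 5) (nat_lit 6) L40495 (by decide +kernel)
theorem L40497 : W_5 (nat_lit 5) (nat_lit 0x20001c001300090000000000000000000000000000000) (nat_lit 0x0) (nat_lit 0x100000000000060003c000a0000000000000000000000) := T_5 (nat_lit 126) (nat_lit 125) (nat_lit 1) (nat_lit 8) (nat_lit 7) L40496 (by decide +kernel)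
theorem L40498 : W_5 (nat_lit 6) (nat_lit 0x200014001300090000000000000000000000000000000) (nat_lit 0x0) (nat_lit 0x100028000000060003c000a0000000000000000000000) := T_5 (nat_lit 159) (nat_lit 161) (nat_lit 0) (nat_lit 8) (nat_lit 9) L40497 (by decide +kernel)
theorem L40499 : W_5 (nat_lit 5) (nat_lit 0x20001c0013400d0000800000000000000000000000000) (nat_lit 0x0) (nat_lit 0x80004000e0007000200000000000000) := T_5 (nat_lit 89) (nat_lit 106) (nat_lit 4) (nat_lit 5) (nat_lit 9) L32148 (by decide +kernel)
theorem L40500 : W_5 (nat_lit 6) (nat_lit 0x20001c0013400d0000000000000000000000000000000) (nat_lit 0x0) (nat_lit 0x100000000000008000c000e0007000200000000000000) := T_5 (nat_lit 107) (nat_lit 176) (nat_lit 7) (nat_lit 5) (nat_lit 6) L40499 (by decide +kernel)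
theorem L40501 : W_5 (nat_lit 7) (nat_lit 0x20001c0013000d0000000000000000000000000000000) (nat_lit 0x0) (nat_lit 0x1000000000c0008000c000e0007000200000000000000) := T_5 (nat_lit 138) (nat_lit 139) (nat_lit 3) (nat_lit 2) (nat_lit 8) L40500 (by decide +kernel)
theorem L40502 : W_5 (nat_lit 8) (nat_lit 0x2000140013000d0000000000000000000000000000000) (nat_lit 0x0) (nat_lit 0x1000280000c0008000c000e0007000200000000000000) := T_5 (nat_lit 159) (nat_lit 161) (nat_lit 0) (nat_lit 8) (nat_lit 9) L40501 (by decide +kernel)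
theorem L40503 : W_5 (nat_lit 9) (nat_lit 0x200014001300090000000000000000000000000000000) (nat_lit 0x0) (nat_lit 0x1000280000c0068000c000e0007000200000000000000) := T_5 (nat_lit 126) (nat_lit 125) (nat_lit 1) (nat_lit 8) (nat_lit 7) L40502 (by decide +kernel)
theorem L40504 : W_5 (nat_lit 10) (nat_lit 0x200014001300080000000000000000000000000000000) (nat_lit 0x0) (nat_lit 0x30001c00280000c007e003c000e0007000200000000000000) := Q_5 (nat_lit 124) (C_5 L40480 (C_5 L40486 (C_5 L40464 (C_5 L40493 (C_5 L40498 (C_5 L40503 N_5)))))) (by decide +kernel)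
theorem L40505 : W_5 (nat_lit 2) (nat_lit 0x200016001300080000000000000000000000000000000) (nat_lit 0x0) (nat_lit 0x8000880000000000000000000000000000000000) := D_5 (nat_lit 159) (nat_lit 139) (nat_lit 143) (nat_lit 0) (nat_lit 7) (nat_lit 9) (nat_lit 2) (nat_lit 4) (nat_lit 9) (by decide +kernel)
theorem L40506 : W_5 (nat_lit 2) (nat_lit 0x200016001300090000000000000000000000000000000) (nat_lit 0x0) (nat_lit 0x40000000000000000800040000000000000000000000) := D_5 (nat_lit 107) (nat_lit 174) (nat_lit 90) (nat_lit 5) (nat_lit 5) (nat_lit 6) (nat_lit 5) (nat_lit 5) (nat_lit 5) (by decide +kernel)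
theorem L40507 : W_5 (nat_lit 2) (nat_lit 0x2000160013000d0000c00000000000000000000000000) (nat_lit 0x0) (nat_lit 0x3000080000000000000000000000) := D_5 (nat_lit 108) (nat_lit 91) (nat_lit 109) (nat_lit 6) (nat_lit 5) (nat_lit 9) (nat_lit 3) (nat_lit 4) (nat_lit 6) (by decide +kernel)
theorem L40508 : W_5 (nat_lit 3) (nat_lit 0x2000160013000d0000800000000000000000000000000) (nat_lit 0x0) (nat_lit 0x34000a0000000000000000000000) := T_5 (nat_lit 106) (nat_lit 89) (nat_lit 4) (nat_lit 5) (nat_lit 9) L40507 (by decide +kernel)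
theorem L40509 : W_5 (nat_lit 4) (nat_lit 0x2000160013000d0000000000000000000000000000000) (nat_lit 0x0) (nat_lit 0x3c000e0000000000000000000000) := T_5 (nat_lit 107) (nat_lit 90) (nat_lit 5) (nat_lit 5) (nat_lit 5) L40508 (by decide +kernel)
theorem L40510 : W_5 (nat_lit 5) (nat_lit 0x200016001300090000000000000000000000000000000) (nat_lit 0x0) (nat_lit 0x60003c000e0000000000000000000000) := T_5 (nat_lit 126) (nat_lit 125) (nat_lit 1) (nat_lit 8) (nat_lit 7) L40509 (by decide +kernel)
theorem L40511 : W_5 (nat_lit 7) (nat_lit 0x200016001300090000000000000000000000000000000) (nat_lit 0x0) (nat_lit 0x600030001c0000000000008001c000a0000000000000000000000) := T_5 (nat_lit 107) (nat_lit 174) (nat_lit 5) (nat_lit 5) (nat_lit 6) L40437 (by decide +kernel)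
theorem L40512 : W_5 (nat_lit 2) (nat_lit 0x2800160013400b0000000000000000000000000000000) (nat_lit 0x0) (nat_lit 0x1000000000000000008000400000000000000000000000000) := D_5 (nat_lit 123) (nat_lit 106) (nat_lit 192) (nat_lit 7) (nat_lit 4) (nat_lit 6) (nat_lit 4) (nat_lit 5) (nat_lit 11) (by decide +kernel)
theorem L40513 : W_5 (nat_lit 3) (nat_lit 0x2000160013400b0000000000000000000000000000000) (nat_lit 0x0) (nat_lit 0x1000080000000000008001400000000000000000000000000) := T_5 (nat_lit 175) (nat_lit 108) (nat_lit 6) (nat_lit 5) (nat_lit 10) L40512 (by decide +kernel)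
theorem L40514 : W_5 (nat_lit 4) (nat_lit 0x2000160013000b0000000000000000000000000000000) (nat_lit 0x0) (nat_lit 0x10000800000000c0008001400000000000000000000000000) := T_5 (nat_lit 138) (nat_lit 139) (nat_lit 2) (nat_lit 2) (nat_lit 8) L40513 (by decide +kernel)
theorem L40515 : W_5 (nat_lit 5) (nat_lit 0x200016001300090000000000000000000000000000000) (nat_lit 0x0) (nat_lit 0x10000800000000c0068001400000000000000000000000000) := T_5 (nat_lit 125) (nat_lit 126) (nat_lit 1) (nat_lit 8) (nat_lit 7) L40514 (by decide +kernel)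
theorem L40516 : W_5 (nat_lit 8) (nat_lit 0x200016001300080000000000000000000000000000000) (nat_lit 0x0) (nat_lit 0x600030001c00000000c0078003c000e0000000000000000000000) := Q_5 (nat_lit 124) (C_5 L40506 (C_5 L40510 (C_5 L40511 (C_5 L40515 N_5)))) (by decide +kernel)
theorem L40517 : W_5 (nat_lit 2) (nat_lit 0x20001f001300080000000000000000000000000000000) (nat_lit 0x0) (nat_lit 0x70000000000000000000000000000000000000000000) := D_5 (nat_lit 173) (nat_lit 172) (nat_lit 174) (nat_lit 1) (nat_lit 6) (nat_lit 9) (nat_lit 1) (nat_lit 7) (nat_lit 9) (by decide +kernel)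
theorem L40518 : W_5 (nat_lit 3) (nat_lit 0x20001e001300080000000000000000000000000000000) (nat_lit 0x0) (nat_lit 0x170001000000000000000000000000000000000000000) := T_5 (nat_lit 156) (nat_lit 176) (nat_lit 3) (nat_lit 3) (nat_lit 9) L40517 (by decide +kernel)
theorem L40519 : W_5 (nat_lit 4) (nat_lit 0x200016001300080000000000000000000000000000000) (nat_lit 0x0) (nat_lit 0x170009000800000000000000000000000000000000000) := T_5 (nat_lit 159) (nat_lit 143) (nat_lit 2) (nat_lit 4) (nat_lit 9) L40518 (by decide +kernel)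
theorem L40520 : W_5 (nat_lit 9) (nat_lit 0x200014001300080000000000000000000000000000000) (nat_lit 0x0) (nat_lit 0x600030001f000b0008c0078003c000e0000000000000000000000) := Q_5 (nat_lit 157) (C_5 L40505 (C_5 L40516 (C_5 L40519 N_5))) (by decide +kernel)
theorem L40521 : W_5 (nat_lit 4) (nat_lit 0x20001c001300080000000000000000000000000000000) (nat_lit 0x0) (nat_lit 0x170003000800000000000000000000000000000000000) := T_5 (nat_lit 157) (nat_lit 143) (nat_lit 2) (nat_lit 4) (nat_lit 9) L40518 (by decide +kernel)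
theorem L40522 : W_5 (nat_lit 5) (nat_lit 0x200014001300080000000000000000000000000000000) (nat_lit 0x0) (nat_lit 0x17002b000800000000000000000000000000000000000) := T_5 (nat_lit 159) (nat_lit 161) (nat_lit 0) (nat_lit 8) (nat_lit 9) L40521 (by decide +kernel)
theorem L40523 : W_5 (nat_lit 11) (nat_lit 0x200010001300080000000000000000000000000000000) (nat_lit 0x0) (nat_lit 0x600030001f002f0008c007e003c000e0007000200000000000000) := Q_5 (nat_lit 158) (C_5 L40475 (C_5 L38631 (C_5 L40504 (C_5 L40520 (C_5 L40522 N_5))))) (by decide +kernel)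
theorem L40524 : W_5 (nat_lit 6) (nat_lit 0x200014001300090000000000000000000000000000000) (nat_lit 0x0) (nat_lit 0xc000200000004c003c000e0000000000000000000000) := Q_5 (nat_lit 107) (C_5 L40432 (C_5 L40445 N_5)) (by decide +kernel)
theorem L40525 : W_5 (nat_lit 5) (nat_lit 0x200014001300090000000000000000000000000000000) (nat_lit 0x0) (nat_lit 0xc0002000000028001c000e0000000000000000000000) := Q_5 (nat_lit 107) (C_5 L40432 (C_5 L40455 N_5)) (by decide +kernel)
theorem L40526 : W_5 (nat_lit 2) (nat_lit 0x2000140013400b0001000000000000000000000000000) (nat_lit 0x0) (nat_lit 0x800080004000000000000000000) := D_5 (nat_lit 91) (nat_lit 74) (nat_lit 107) (nat_lit 5) (nat_lit 6) (nat_lit 4) (nat_lit 6) (nat_lit 5) (nat_lit 9) (by decide +kernel)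
theorem L40527 : W_5 (nat_lit 3) (nat_lit 0x2000140013400b0000000000000000000000000000000) (nat_lit 0x0) (nat_lit 0x80000000000000001800080004000000000000000000) := T_5 (nat_lit 108) (nat_lit 175) (nat_lit 6) (nat_lit 5) (nat_lit 10) L40526 (by decide +kernel)
theorem L40528 : W_5 (nat_lit 4) (nat_lit 0x2000140013000b0000000000000000000000000000000) (nat_lit 0x0) (nat_lit 0x800000000c0000001800080004000000000000000000) := T_5 (nat_lit 138) (nat_lit 139) (nat_lit 2) (nat_lit 2) (nat_lit 8) L40527 (by decide +kernel)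
theorem L40529 : W_5 (nat_lit 5) (nat_lit 0x200014001300090000000000000000000000000000000) (nat_lit 0x0) (nat_lit 0x800000000c0060001800080004000000000000000000) := T_5 (nat_lit 125) (nat_lit 126) (nat_lit 1) (nat_lit 8) (nat_lit 7) L40528 (by decide +kernel)
theorem L40530 : W_5 (nat_lit 2) (nat_lit 0x2000140013000d0000c00000000000000000000000000) (nat_lit 0x0) (nat_lit 0x3000080000000000000000000000) := D_5 (nat_lit 108) (nat_lit 109) (nat_lit 91) (nat_lit 3) (nat_lit 4) (nat_lit 6) (nat_lit 6) (nat_lit 5) (nat_lit 9) (by decide +kernel)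
theorem L40531 : W_5 (nat_lit 3) (nat_lit 0x2000140013000d0000800000000000000000000000000) (nat_lit 0x0) (nat_lit 0x34000a0000000000000000000000) := T_5 (nat_lit 106) (nat_lit 89) (nat_lit 4) (nat_lit 5) (nat_lit 9) L40530 (by decide +kernel)
theorem L40532 : W_5 (nat_lit 4) (nat_lit 0x200014001300090000800000000000000000000000000) (nat_lit 0x0) (nat_lit 0x600034000a0000000000000000000000) := T_5 (nat_lit 126) (nat_lit 125) (nat_lit 1) (nat_lit 8) (nat_lit 7) L40531 (by decide +kernel)
theorem L40533 : W_5 (nat_lit 5) (nat_lit 0x200014001300090000000000000000000000000000000) (nat_lit 0x0) (nat_lit 0x40002000000060003c000e0000000000000000000000) := Q_5 (nat_lit 107) (C_5 L40432 (C_5 L40532 N_5)) (by decide +kernel)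
theorem L40534 : W_5 (nat_lit 2) (nat_lit 0x3800140013400b0000000000000000000000000000000) (nat_lit 0x0) (nat_lit 0x800040020000000000000000000000000000000000000000) := D_5 (nat_lit 174) (nat_lit 161) (nat_lit 191) (nat_lit 2) (nat_lit 4) (nat_lit 10) (nat_lit 5) (nat_lit 5) (nat_lit 7) (by decide +kernel)
theorem L40535 : W_5 (nat_lit 3) (nat_lit 0x2800140013400b0000000000000000000000000000000) (nat_lit 0x0) (nat_lit 0x2800140020000000000000000000000000000000000000000) := T_5 (nat_lit 176) (nat_lit 193) (nat_lit 7) (nat_lit 5) (nat_lit 7) L40534 (by decide +kernel)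
theorem L40536 : W_5 (nat_lit 4) (nat_lit 0x2000140013400b0000000000000000000000000000000) (nat_lit 0x0) (nat_lit 0x28001c0020000000000001000000000000000000000000000) := T_5 (nat_lit 175) (nat_lit 108) (nat_lit 6) (nat_lit 5) (nat_lit 10) L40535 (by decide +kernel)
theorem L40537 : W_5 (nat_lit 5) (nat_lit 0x2000140013000b0000000000000000000000000000000) (nat_lit 0x0) (nat_lit 0x28001c00200000c0000001000000000000000000000000000) := T_5 (nat_lit 138) (nat_lit 139) (nat_lit 2) (nat_lit 2) (nat_lit 8) L40536 (by decide +kernel)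
theorem L40538 : W_5 (nat_lit 6) (nat_lit 0x200014001300090000000000000000000000000000000) (nat_lit 0x0) (nat_lit 0x28001c00200000c0060001000000000000000000000000000) := T_5 (nat_lit 125) (nat_lit 126) (nat_lit 1) (nat_lit 8) (nat_lit 7) L40537 (by decide +kernel)
theorem L40539 : W_5 (nat_lit 2) (nat_lit 0x2c0014001300090000400000000000000000000000000) (nat_lit 0x0) (nat_lit 0x2000100020000000000000000000000000000000000000000) := D_5 (nat_lit 176) (nat_lit 161) (nat_lit 193) (nat_lit 2) (nat_lit 4) (nat_lit 10) (nat_lit 7) (nat_lit 5) (nat_lit 7) (by decide +kernel)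
theorem L40540 : W_5 (nat_lit 3) (nat_lit 0x280014001300090000400000000000000000000000000) (nat_lit 0x0) (nat_lit 0x2800140020000000000000000000000000000000000000000) := T_5 (nat_lit 174) (nat_lit 191) (nat_lit 5) (nat_lit 5) (nat_lit 7) L40539 (by decide +kernel)
theorem L40541 : W_5 (nat_lit 4) (nat_lit 0x200014001300090000400000000000000000000000000) (nat_lit 0x0) (nat_lit 0x28001c0020000000008000000000000000000000000000000) := T_5 (nat_lit 175) (nat_lit 123) (nat_lit 4) (nat_lit 5) (nat_lit 10) L40540 (by decide +kernel)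
theorem L40542 : W_5 (nat_lit 5) (nat_lit 0x200014001300090000000000000000000000000000000) (nat_lit 0x0) (nat_lit 0x28001c0022000000068000c00060000000000000000000000) := Q_5 (nat_lit 106) (C_5 L40465 (C_5 L40469 (C_5 L40468 (C_5 L40541 N_5)))) (by decide +kernel)
theorem L40543 : W_5 (nat_lit 7) (nat_lit 0x200014001300080000000000000000000000000000000) (nat_lit 0x0) (nat_lit 0x28001c00220000c007c003c000e0004000000000000000000) := Q_5 (nat_lit 124) (C_5 L40524 (C_5 L40525 (C_5 L40529 (C_5 L40533 (C_5 L40538 (C_5 L40542 N_5)))))) (by decide +kernel)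
theorem L40544 : W_5 (nat_lit 2) (nat_lit 0x28001c001340090000c00000000000000000000000000) (nat_lit 0x0) (nat_lit 0x20001000080000000000000000000000) := D_5 (nat_lit 108) (nat_lit 91) (nat_lit 125) (nat_lit 6) (nat_lit 5) (nat_lit 9) (nat_lit 6) (nat_lit 5) (nat_lit 10) (by decide +kernel)
theorem L40545 : W_5 (nat_lit 3) (nat_lit 0x20001c001340090000c00000000000000000000000000) (nat_lit 0x0) (nat_lit 0x80000000000028001000080000000000000000000000) := T_5 (nat_lit 175) (nat_lit 123) (nat_lit 4) (nat_lit 5) (nat_lit 10) L40544 (by decide +kernel)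
theorem L40546 : W_5 (nat_lit 4) (nat_lit 0x20001c001340090000800000000000000000000000000) (nat_lit 0x0) (nat_lit 0x800000000000280014000a0000000000000000000000) := T_5 (nat_lit 106) (nat_lit 89) (nat_lit 4) (nat_lit 5) (nat_lit 9) L40545 (by decide +kernel)
theorem L40547 : W_5 (nat_lit 5) (nat_lit 0x20001c001340090000000000000000000000000000000) (nat_lit 0x0) (nat_lit 0x180000000000028001c000a0000000000000000000000) := T_5 (nat_lit 107) (nat_lit 176) (nat_lit 7) (nat_lit 5) (nat_lit 6) L40546 (by decide +kernel)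
theorem L40548 : W_5 (nat_lit 6) (nat_lit 0x20001c001300090000000000000000000000000000000) (nat_lit 0x0) (nat_lit 0x1800000000c0028001c000a0000000000000000000000) := T_5 (nat_lit 138) (nat_lit 139) (nat_lit 3) (nat_lit 2) (nat_lit 8) L40547 (by decide +kernel)
theorem L40549 : W_5 (nat_lit 7) (nat_lit 0x200014001300090000000000000000000000000000000) (nat_lit 0x0) (nat_lit 0x1800280000c0028001c000a0000000000000000000000) := T_5 (nat_lit 159) (nat_lit 161) (nat_lit 0) (nat_lit 8) (nat_lit 9) L40548 (by decide +kernel)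
theorem L40550 : W_5 (nat_lit 2) (nat_lit 0x2800340013000b0000000000000000000000000000000) (nat_lit 0x0) (nat_lit 0x2000140000000000000000000000000000000000000000000) := D_5 (nat_lit 176) (nat_lit 193) (nat_lit 174) (nat_lit 7) (nat_lit 5) (nat_lit 7) (nat_lit 2) (nat_lit 4) (nat_lit 10) (by decide +kernel)
theorem L40551 : W_5 (nat_lit 3) (nat_lit 0x2000340013000b0000000000000000000000000000000) (nat_lit 0x0) (nat_lit 0x20001c0000000000000001000000000000000000000000000) := T_5 (nat_lit 175) (nat_lit 108) (nat_lit 6) (nat_lit 5) (nat_lit 10) L40550 (by decide +kernel)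
theorem L40552 : W_5 (nat_lit 4) (nat_lit 0x200034001300090000000000000000000000000000000) (nat_lit 0x0) (nat_lit 0x20001c0000000000060001000000000000000000000000000) := T_5 (nat_lit 125) (nat_lit 126) (nat_lit 1) (nat_lit 8) (nat_lit 7) L40551 (by decide +kernel)
theorem L40553 : W_5 (nat_lit 5) (nat_lit 0x200014001300090000000000000000000000000000000) (nat_lit 0x0) (nat_lit 0x20001c0028000000060001000000000000000000000000000) := T_5 (nat_lit 161) (nat_lit 159) (nat_lit 0) (nat_lit 8) (nat_lit 9) L40552 (by decide +kernel)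
theorem L40554 : W_5 (nat_lit 2) (nat_lit 0x20001c0013400d0000c00000000000000000000000000) (nat_lit 0x0) (nat_lit 0x3000080000000000000000000000) := D_5 (nat_lit 108) (nat_lit 109) (nat_lit 91) (nat_lit 3) (nat_lit 4) (nat_lit 6) (nat_lit 6) (nat_lit 5) (nat_lit 9) (by decide +kernel)
theorem L40555 : W_5 (nat_lit 3) (nat_lit 0x20001c0013400d0000800000000000000000000000000) (nat_lit 0x0) (nat_lit 0x34000a0000000000000000000000) := T_5 (nat_lit 106) (nat_lit 89) (nat_lit 4) (nat_lit 5) (nat_lit 9) L40554 (by decide +kernel)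
theorem L40556 : W_5 (nat_lit 4) (nat_lit 0x20001c0013400d0000000000000000000000000000000) (nat_lit 0x0) (nat_lit 0x100000000000000003c000a0000000000000000000000) := T_5 (nat_lit 107) (nat_lit 176) (nat_lit 7) (nat_lit 5) (nat_lit 6) L40555 (by decide +kernel)
theorem L40557 : W_5 (nat_lit 5) (nat_lit 0x20001c0013000d0000000000000000000000000000000) (nat_lit 0x0) (nat_lit 0x1000000000c0000003c000a0000000000000000000000) := T_5 (nat_lit 138) (nat_lit 139) (nat_lit 3) (nat_lit 2) (nat_lit 8) L40556 (by decide +kernel)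
theorem L40558 : W_5 (nat_lit 6) (nat_lit 0x2000140013000d0000000000000000000000000000000) (nat_lit 0x0) (nat_lit 0x1000280000c0000003c000a0000000000000000000000) := T_5 (nat_lit 159) (nat_lit 161) (nat_lit 0) (nat_lit 8) (nat_lit 9) L40557 (by decide +kernel)
theorem L40559 : W_5 (nat_lit 7) (nat_lit 0x200014001300090000000000000000000000000000000) (nat_lit 0x0) (nat_lit 0x1000280000c0060003c000a0000000000000000000000) := T_5 (nat_lit 126) (nat_lit 125) (nat_lit 1) (nat_lit 8) (nat_lit 7) L40558 (by decide +kernel)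
theorem L40560 : W_5 (nat_lit 10) (nat_lit 0x200014001300080000000000000000000000000000000) (nat_lit 0x0) (nat_lit 0x28001c00280000c007e003c000e0007000200000000000000) := Q_5 (nat_lit 124) (C_5 L40549 (C_5 L40538 (C_5 L40493 (C_5 L40553 (C_5 L40529 (C_5 L40559 (C_5 L32153 N_5))))))) (by decide +kernel)
theorem L40561 : W_5 (nat_lit 2) (nat_lit 0x2c00160013000b0000000000000000000000000000000) (nat_lit 0x0) (nat_lit 0x2000100001000000000000000000000000000000000000000) := D_5 (nat_lit 176) (nat_lit 156) (nat_lit 193) (nat_lit 0) (nat_lit 7) (nat_lit 10) (nat_lit 7) (nat_lit 5) (nat_lit 7) (by decide +kernel)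
theorem L40562 : W_5 (nat_lit 3) (nat_lit 0x2400160013000b0000000000000000000000000000000) (nat_lit 0x0) (nat_lit 0x2000180001000000000001000000000000000000000000000) := T_5 (nat_lit 175) (nat_lit 108) (nat_lit 6) (nat_lit 5) (nat_lit 10) L40561 (by decide +kernel)
theorem L40563 : W_5 (nat_lit 4) (nat_lit 0x2000160013000b0000000000000000000000000000000) (nat_lit 0x0) (nat_lit 0x28001c0001000000000001000000000000000000000000000) := T_5 (nat_lit 174) (nat_lit 191) (nat_lit 6) (nat_lit 4) (nat_lit 11) L40562 (by decide +kernel)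
theorem L40564 : W_5 (nat_lit 5) (nat_lit 0x200016001300090000000000000000000000000000000) (nat_lit 0x0) (nat_lit 0x28001c0001000000060001000000000000000000000000000) := T_5 (nat_lit 125) (nat_lit 126) (nat_lit 1) (nat_lit 8) (nat_lit 7) L40563 (by decide +kernel)
theorem L40565 : W_5 (nat_lit 6) (nat_lit 0x200016001300080000000000000000000000000000000) (nat_lit 0x0) (nat_lit 0x28001c0001000000070003c000e0000000000000000000000) := Q_5 (nat_lit 124) (C_5 L40506 (C_5 L40564 (C_5 L40510 N_5))) (by decide +kernel)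
theorem L40566 : W_5 (nat_lit 7) (nat_lit 0x200014001300080000000000000000000000000000000) (nat_lit 0x0) (nat_lit 0x28001c000b000880070003c000e0000000000000000000000) := Q_5 (nat_lit 157) (C_5 L40505 (C_5 L40565 N_5)) (by decide +kernel)
theorem L40567 : W_5 (nat_lit 11) (nat_lit 0x200010001300080000000000000000000000000000000) (nat_lit 0x0) (nat_lit 0x28001f002f0008c007e003c000e0007000200000000000000) := Q_5 (nat_lit 158) (C_5 L40543 (C_5 L38631 (C_5 L40560 (C_5 L40566 (C_5 L40522 N_5))))) (by decide +kernel)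
theorem L40568 : W_5 (nat_lit 2) (nat_lit 0x10002800140013400b0000000000000000000000000000000) (nat_lit 0x0) (nat_lit 0x10000800040000000000000000000000000000000000000000000) := D_5 (nat_lit 191) (nat_lit 174) (nat_lit 208) (nat_lit 5) (nat_lit 5) (nat_lit 7) (nat_lit 5) (nat_lit 5) (nat_lit 8) (by decide +kernel)
theorem L40569 : W_5 (nat_lit 3) (nat_lit 0x2800140013400b0000000000000000000000000000000) (nat_lit 0x0) (nat_lit 0x10001800040000000000008000000000000000000000000000000) := T_5 (nat_lit 192) (nat_lit 123) (nat_lit 4) (nat_lit 5) (nat_lit 11) L40568 (by decide +kernel)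
theorem L40570 : W_5 (nat_lit 4) (nat_lit 0x2000140013400b0000000000000000000000000000000) (nat_lit 0x0) (nat_lit 0x100018000c0000000000008001000000000000000000000000000) := T_5 (nat_lit 175) (nat_lit 108) (nat_lit 6) (nat_lit 5) (nat_lit 10) L40569 (by decide +kernel)
theorem L40571 : W_5 (nat_lit 5) (nat_lit 0x2000140013000b0000000000000000000000000000000) (nat_lit 0x0) (nat_lit 0x100018000c00000000c0008001000000000000000000000000000) := T_5 (nat_lit 138) (nat_lit 139) (nat_lit 2) (nat_lit 2) (nat_lit 8) L40570 (by decide +kernel)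
theorem L40572 : W_5 (nat_lit 6) (nat_lit 0x200014001300090000000000000000000000000000000) (nat_lit 0x0) (nat_lit 0x100018000c00000000c0068001000000000000000000000000000) := T_5 (nat_lit 125) (nat_lit 126) (nat_lit 1) (nat_lit 8) (nat_lit 7) L40571 (by decide +kernel)
theorem L40573 : W_5 (nat_lit 2) (nat_lit 0x2800140013400b0000000000000000000000000000000) (nat_lit 0x0) (nat_lit 0x1000000000000000008000400000000000000000000000000) := D_5 (nat_lit 123) (nat_lit 106) (nat_lit 192) (nat_lit 4) (nat_lit 5) (nat_lit 10) (nat_lit 4) (nat_lit 5) (nat_lit 11) (by decide +kernel)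
theorem L40574 : W_5 (nat_lit 3) (nat_lit 0x2000140013400b0000000000000000000000000000000) (nat_lit 0x0) (nat_lit 0x1000080000000000008001400000000000000000000000000) := T_5 (nat_lit 175) (nat_lit 108) (nat_lit 6) (nat_lit 5) (nat_lit 10) L40573 (by decide +kernel)
theorem L40575 : W_5 (nat_lit 4) (nat_lit 0x2000140013000b0000000000000000000000000000000) (nat_lit 0x0) (nat_lit 0x10000800000000c0008001400000000000000000000000000) := T_5 (nat_lit 138) (nat_lit 139) (nat_lit 2) (nat_lit 2) (nat_lit 8) L40574 (by decide +kernel)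
theorem L40576 : W_5 (nat_lit 5) (nat_lit 0x200014001300090000000000000000000000000000000) (nat_lit 0x0) (nat_lit 0x10000800000000c0068001400000000000000000000000000) := T_5 (nat_lit 125) (nat_lit 126) (nat_lit 1) (nat_lit 8) (nat_lit 7) L40575 (by decide +kernel)
theorem L40577 : W_5 (nat_lit 2) (nat_lit 0x280014001300090001800000000000000000000000000) (nat_lit 0x0) (nat_lit 0x1000000000000000008000400000000000000000000000000) := D_5 (nat_lit 123) (nat_lit 106) (nat_lit 192) (nat_lit 4) (nat_lit 5) (nat_lit 10) (nat_lit 4) (nat_lit 5) (nat_lit 11) (by decide +kernel)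
theorem L40578 : W_5 (nat_lit 3) (nat_lit 0x200014001300090001800000000000000000000000000) (nat_lit 0x0) (nat_lit 0x1000080000000000028000400000000000000000000000000) := T_5 (nat_lit 175) (nat_lit 125) (nat_lit 6) (nat_lit 5) (nat_lit 10) L40577 (by decide +kernel)
theorem L40579 : W_5 (nat_lit 4) (nat_lit 0x200014001300090000800000000000000000000000000) (nat_lit 0x0) (nat_lit 0x1000080000000000028001400080000000000000000000000) := T_5 (nat_lit 108) (nat_lit 91) (nat_lit 6) (nat_lit 5) (nat_lit 9) L40578 (by decide +kernel)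
theorem L40580 : W_5 (nat_lit 5) (nat_lit 0x200014001300090000000000000000000000000000000) (nat_lit 0x0) (nat_lit 0x10000c0002000000028001c000c0000000000000000000000) := Q_5 (nat_lit 107) (C_5 L40432 (C_5 L40579 N_5)) (by decide +kernel)
theorem L40581 : W_5 (nat_lit 2) (nat_lit 0x200014001300090000400000000000000000000000000) (nat_lit 0x0) (nat_lit 0x80000000000008000000020000000000000000000000) := D_5 (nat_lit 123) (nat_lit 175) (nat_lit 89) (nat_lit 4) (nat_lit 5) (nat_lit 10) (nat_lit 7) (nat_lit 4) (nat_lit 5) (by decide +kernel)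
theorem L40582 : W_5 (nat_lit 2) (nat_lit 0x200014001300090000400000000000000000000000000) (nat_lit 0x0) (nat_lit 0x8000800020000000000000000000000) := D_5 (nat_lit 89) (nat_lit 107) (nat_lit 123) (nat_lit 4) (nat_lit 5) (nat_lit 9) (nat_lit 7) (nat_lit 4) (nat_lit 5) (by decide +kernel)
theorem L40583 : W_5 (nat_lit 3) (nat_lit 0x2c0014001300090000400000000000000000000000000) (nat_lit 0x0) (nat_lit 0x100023000000000000800000000000000000000000000) := T_5 (nat_lit 176) (nat_lit 161) (nat_lit 2) (nat_lit 4) (nat_lit 10) L40470 (by decide +kernel)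
theorem L40584 : W_5 (nat_lit 4) (nat_lit 0x280014001300090000400000000000000000000000000) (nat_lit 0x0) (nat_lit 0x800140023000000000000800000000000000000000000000) := T_5 (nat_lit 174) (nat_lit 191) (nat_lit 5) (nat_lit 5) (nat_lit 7) L40583 (by decide +kernel)
theorem L40585 : W_5 (nat_lit 5) (nat_lit 0x200014001300090000400000000000000000000000000) (nat_lit 0x0) (nat_lit 0x8001c0023000000008000800000000000000000000000000) := T_5 (nat_lit 175) (nat_lit 123) (nat_lit 4) (nat_lit 5) (nat_lit 10) L40584 (by decide +kernel)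
theorem L40586 : W_5 (nat_lit 6) (nat_lit 0x200014001300090000000000000000000000000000000) (nat_lit 0x0) (nat_lit 0x8001c0023000000068000c00060000000000000000000000) := Q_5 (nat_lit 106) (C_5 L40581 (C_5 L40582 (C_5 L40468 (C_5 L40585 N_5)))) (by decide +kernel)
theorem L40587 : W_5 (nat_lit 7) (nat_lit 0x200014001300080000000000000000000000000000000) (nat_lit 0x0) (nat_lit 0x100018001c00230000c007c003c000e0000000000000000000000) := Q_5 (nat_lit 124) (C_5 L40524 (C_5 L40572 (C_5 L40533 (C_5 L40576 (C_5 L40580 (C_5 L40586 N_5)))))) (by decide +kernel)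
theorem L40588 : W_5 (nat_lit 10) (nat_lit 0x200014001300080000000000000000000000000000000) (nat_lit 0x0) (nat_lit 0x100018001c00280000c007e003c000e0007000200000000000000) := Q_5 (nat_lit 124) (C_5 L40572 (C_5 L40576 (C_5 L40493 (C_5 L40498 (C_5 L40503 N_5))))) (by decide +kernel)
theorem L40589 : W_5 (nat_lit 2) (nat_lit 0x8002800160013000b0000000000000000000000000000000) (nat_lit 0x0) (nat_lit 0x1000000000000000008000400000000000000000000000000) := D_5 (nat_lit 123) (nat_lit 106) (nat_lit 192) (nat_lit 7) (nat_lit 4) (nat_lit 6) (nat_lit 4) (nat_lit 5) (nat_lit 11) (by decide +kernel)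
theorem L40590 : W_5 (nat_lit 3) (nat_lit 0x8002000160013000b0000000000000000000000000000000) (nat_lit 0x0) (nat_lit 0x1000080000000000008001400000000000000000000000000) := T_5 (nat_lit 175) (nat_lit 108) (nat_lit 6) (nat_lit 5) (nat_lit 10) L40589 (by decide +kernel)
theorem L40591 : W_5 (nat_lit 4) (nat_lit 0x2000160013000b0000000000000000000000000000000) (nat_lit 0x0) (nat_lit 0x18000c0000000000008001400000000000000000000000000) := T_5 (nat_lit 191) (nat_lit 174) (nat_lit 6) (nat_lit 4) (nat_lit 11) L40590 (by decide +kernel)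
theorem L40592 : W_5 (nat_lit 5) (nat_lit 0x200016001300090000000000000000000000000000000) (nat_lit 0x0) (nat_lit 0x18000c0000000000068001400000000000000000000000000) := T_5 (nat_lit 125) (nat_lit 126) (nat_lit 1) (nat_lit 8) (nat_lit 7) L40591 (by decide +kernel)
theorem L40593 : W_5 (nat_lit 2) (nat_lit 0x200016001300090000000000000000000000000000000) (nat_lit 0x0) (nat_lit 0x800040000000000000000800000000000000000000000000) := D_5 (nat_lit 174) (nat_lit 191) (nat_lit 107) (nat_lit 6) (nat_lit 4) (nat_lit 11) (nat_lit 5) (nat_lit 5) (nat_lit 6) (by decide +kernel)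
theorem L40594 : W_5 (nat_lit 6) (nat_lit 0x200016001300080000000000000000000000000000000) (nat_lit 0x0) (nat_lit 0x18000c0000000000078003c000e0000000000000000000000) := Q_5 (nat_lit 124) (C_5 L40592 (C_5 L40593 (C_5 L40510 N_5))) (by decide +kernel)
theorem L40595 : W_5 (nat_lit 7) (nat_lit 0x200014001300080000000000000000000000000000000) (nat_lit 0x0) (nat_lit 0x18000c000a000880078003c000e0000000000000000000000) := Q_5 (nat_lit 157) (C_5 L40505 (C_5 L40594 N_5)) (by decide +kernel)
theorem L40596 : W_5 (nat_lit 11) (nat_lit 0x200010001300080000000000000000000000000000000) (nat_lit 0x0) (nat_lit 0x100018001f002f0008c007e003c000e0007000200000000000000) := Q_5 (nat_lit 158) (C_5 L40587 (C_5 L38631 (C_5 L40588 (C_5 L40595 (C_5 L40522 N_5))))) (by decide +kernel)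
theorem L40597 : W_5 (nat_lit 2) (nat_lit 0x280014001300090000000000000000000000000000000) (nat_lit 0x0) (nat_lit 0x1000000000000000008000400000000000000000000000000) := D_5 (nat_lit 123) (nat_lit 192) (nat_lit 106) (nat_lit 4) (nat_lit 5) (nat_lit 11) (nat_lit 4) (nat_lit 5) (nat_lit 10) (by decide +kernel)
theorem L40598 : W_5 (nat_lit 2) (nat_lit 0x2c0014001300090000000000000000000000000000000) (nat_lit 0x0) (nat_lit 0x2000100020000000000000000000000000000000000000000) := D_5 (nat_lit 176) (nat_lit 161) (nat_lit 193) (nat_lit 2) (nat_lit 4) (nat_lit 10) (nat_lit 7) (nat_lit 5) (nat_lit 7) (by decide +kernel)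
theorem L40599 : W_5 (nat_lit 3) (nat_lit 0x280014001300090000000000000000000000000000000) (nat_lit 0x0) (nat_lit 0x2800140020000000000000000000000000000000000000000) := T_5 (nat_lit 174) (nat_lit 191) (nat_lit 5) (nat_lit 5) (nat_lit 7) L40598 (by decide +kernel)
theorem L40600 : W_5 (nat_lit 4) (nat_lit 0x200014001300090000000000000000000000000000000) (nat_lit 0x0) (nat_lit 0x38001c0020000000008000400000000000000000000000000) := Q_5 (nat_lit 175) (C_5 L40597 (C_5 L40599 N_5)) (by decide +kernel)
theorem L40601 : W_5 (nat_lit 5) (nat_lit 0x200014001300090000000000000000000000000000000) (nat_lit 0x0) (nat_lit 0x40002000000060003c000e0000000000000000000000) := Q_5 (nat_lit 107) (C_5 L40432 (C_5 L40532 N_5)) (by decide +kernel)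
theorem L40602 : W_5 (nat_lit 7) (nat_lit 0x200014001300080000000000000000000000000000000) (nat_lit 0x0) (nat_lit 0x38001c00220000c0078003c000e0000000000000000000000) := Q_5 (nat_lit 124) (C_5 L40600 (C_5 L40576 (C_5 L40538 (C_5 L40601 N_5)))) (by decide +kernel)
theorem L40603 : W_5 (nat_lit 7) (nat_lit 0x200014001300080000000000000000000000000000000) (nat_lit 0x0) (nat_lit 0x38001c00280000c0078003c000a0000000000000000000000) := Q_5 (nat_lit 124) (C_5 L40576 (C_5 L40538 (C_5 L40600 (C_5 L40498 N_5)))) (by decide +kernel)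
theorem L40604 : W_5 (nat_lit 2) (nat_lit 0x8002800160013400b0000000000000000000000000000000) (nat_lit 0x0) (nat_lit 0x1000000000000000008000400000000000000000000000000) := D_5 (nat_lit 123) (nat_lit 106) (nat_lit 192) (nat_lit 7) (nat_lit 4) (nat_lit 6) (nat_lit 4) (nat_lit 5) (nat_lit 11) (by decide +kernel)
theorem L40605 : W_5 (nat_lit 3) (nat_lit 0x8002000160013400b0000000000000000000000000000000) (nat_lit 0x0) (nat_lit 0x1000080000000000008001400000000000000000000000000) := T_5 (nat_lit 175) (nat_lit 108) (nat_lit 6) (nat_lit 5) (nat_lit 10) L40604 (by decide +kernel)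
theorem L40606 : W_5 (nat_lit 4) (nat_lit 0x8002000160013000b0000000000000000000000000000000) (nat_lit 0x0) (nat_lit 0x10000800000000c0008001400000000000000000000000000) := T_5 (nat_lit 138) (nat_lit 139) (nat_lit 2) (nat_lit 2) (nat_lit 8) L40605 (by decide +kernel)
theorem L40607 : W_5 (nat_lit 5) (nat_lit 0x800200016001300090000000000000000000000000000000) (nat_lit 0x0) (nat_lit 0x10000800000000c0068001400000000000000000000000000) := T_5 (nat_lit 125) (nat_lit 126) (nat_lit 1) (nat_lit 8) (nat_lit 7) L40606 (by decide +kernel)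
theorem L40608 : W_5 (nat_lit 6) (nat_lit 0x200016001300090000000000000000000000000000000) (nat_lit 0x0) (nat_lit 0x18000c00000000c0068001400000000000000000000000000) := T_5 (nat_lit 191) (nat_lit 174) (nat_lit 6) (nat_lit 4) (nat_lit 11) L40607 (by decide +kernel)
theorem L40609 : W_5 (nat_lit 7) (nat_lit 0x200016001300080000000000000000000000000000000) (nat_lit 0x0) (nat_lit 0x18000c00000000c0078003c000e0000000000000000000000) := Q_5 (nat_lit 124) (C_5 L40506 (C_5 L40510 (C_5 L40593 (C_5 L40608 N_5)))) (by decide +kernel)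
theorem L40610 : W_5 (nat_lit 2) (nat_lit 0x4000080038001e0013000b0000000000000000000000000000000) (nat_lit 0x0) (nat_lit 0x1000000000000000008000400000000000000000000000000) := D_5 (nat_lit 123) (nat_lit 106) (nat_lit 192) (nat_lit 7) (nat_lit 4) (nat_lit 6) (nat_lit 4) (nat_lit 5) (nat_lit 11) (by decide +kernel)
theorem L40611 : W_5 (nat_lit 3) (nat_lit 0x4000080030001e0013000b0000000000000000000000000000000) (nat_lit 0x0) (nat_lit 0x1000080000000000008001400000000000000000000000000) := T_5 (nat_lit 175) (nat_lit 108) (nat_lit 6) (nat_lit 5) (nat_lit 10) L40610 (by decide +kernel)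
theorem L40612 : W_5 (nat_lit 4) (nat_lit 0x4000080030001e001300090000000000000000000000000000000) (nat_lit 0x0) (nat_lit 0x1000080000000000068001400000000000000000000000000) := T_5 (nat_lit 125) (nat_lit 126) (nat_lit 1) (nat_lit 8) (nat_lit 7) L40611 (by decide +kernel)
theorem L40613 : W_5 (nat_lit 5) (nat_lit 0x4000000030001e001300090000000000000000000000000000000) (nat_lit 0x0) (nat_lit 0x18000c0000000000068001400000000000000000000000000) := T_5 (nat_lit 191) (nat_lit 174) (nat_lit 6) (nat_lit 4) (nat_lit 11) L40612 (by decide +kernel)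
theorem L40614 : W_5 (nat_lit 6) (nat_lit 0x4000000030001e001300080000000000000000000000000000000) (nat_lit 0x0) (nat_lit 0x18000c0000000000078001c00000000000000000000000000) := T_5 (nat_lit 124) (nat_lit 107) (nat_lit 7) (nat_lit 5) (nat_lit 6) L40613 (by decide +kernel)
theorem L40615 : W_5 (nat_lit 7) (nat_lit 0x30001e001300080000000000000000000000000000000) (nat_lit 0x0) (nat_lit 0x400038000c0000000000078001c00000000000000000000000000) := T_5 (nat_lit 210) (nat_lit 193) (nat_lit 4) (nat_lit 6) (nat_lit 12) L40614 (by decide +kernel)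
theorem L40616 : W_5 (nat_lit 8) (nat_lit 0x20001e001300080000000000000000000000000000000) (nat_lit 0x0) (nat_lit 0x400038001c0001000000078001c00000000000000000000000000) := T_5 (nat_lit 176) (nat_lit 156) (nat_lit 3) (nat_lit 3) (nat_lit 9) L40615 (by decide +kernel)
theorem L40617 : W_5 (nat_lit 9) (nat_lit 0x200016001300080000000000000000000000000000000) (nat_lit 0x0) (nat_lit 0x400038001c0009000800078001c00000000000000000000000000) := T_5 (nat_lit 159) (nat_lit 143) (nat_lit 2) (nat_lit 4) (nat_lit 9) L40616 (by decide +kernel)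
theorem L40618 : W_5 (nat_lit 10) (nat_lit 0x200014001300080000000000000000000000000000000) (nat_lit 0x0) (nat_lit 0x400038001c000b0008c0078003c000e0000000000000000000000) := Q_5 (nat_lit 157) (C_5 L40505 (C_5 L40609 (C_5 L40617 N_5))) (by decide +kernel)
theorem L40619 : W_5 (nat_lit 9) (nat_lit 0x20001c001300080000000000000000000000000000000) (nat_lit 0x0) (nat_lit 0x400038001c0003000800078001c00000000000000000000000000) := T_5 (nat_lit 157) (nat_lit 143) (nat_lit 2) (nat_lit 4) (nat_lit 9) L40616 (by decide +kernel)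
theorem L40620 : W_5 (nat_lit 10) (nat_lit 0x200014001300080000000000000000000000000000000) (nat_lit 0x0) (nat_lit 0x400038001c002b000800078001c00000000000000000000000000) := T_5 (nat_lit 159) (nat_lit 161) (nat_lit 0) (nat_lit 8) (nat_lit 9) L40619 (by decide +kernel)
theorem L40621 : W_5 (nat_lit 11) (nat_lit 0x200010001300080000000000000000000000000000000) (nat_lit 0x0) (nat_lit 0x400038001c002f0008c0078003c000e0000000000000000000000) := Q_5 (nat_lit 158) (C_5 L40602 (C_5 L38631 (C_5 L40603 (C_5 L40618 (C_5 L40620 N_5))))) (by decide +kernel)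
theorem L40622 : W_5 (nat_lit 2) (nat_lit 0x200014001300090000c00040000000000000000000000) (nat_lit 0x0) (nat_lit 0x1000080004000000000000000000) := D_5 (nat_lit 91) (nat_lit 108) (nat_lit 74) (nat_lit 6) (nat_lit 5) (nat_lit 9) (nat_lit 6) (nat_lit 5) (nat_lit 8) (by decide +kernel)
theorem L40623 : W_5 (nat_lit 3) (nat_lit 0x200014001300090000c00000000000000000000000000) (nat_lit 0x0) (nat_lit 0x20000000000010000c0004000000000000000000) := T_5 (nat_lit 90) (nat_lit 157) (nat_lit 5) (nat_lit 5) (nat_lit 5) L40622 (by decide +kernel)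
theorem L40624 : W_5 (nat_lit 4) (nat_lit 0x200014001300090000400000000000000000000000000) (nat_lit 0x0) (nat_lit 0x20000000000018000e0004000000000000000000) := T_5 (nat_lit 107) (nat_lit 89) (nat_lit 4) (nat_lit 5) (nat_lit 9) L40623 (by decide +kernel)
theorem L40625 : W_5 (nat_lit 2) (nat_lit 0x20003000280014001300090000400000000000000000000000000) (nat_lit 0x0) (nat_lit 0x200010000800000000000000000000000000000000000000000000000) := D_5 (nat_lit 208) (nat_lit 225) (nat_lit 191) (nat_lit 5) (nat_lit 5) (nat_lit 9) (nat_lit 5) (nat_lit 5) (nat_lit 8) (by decide +kernel)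
theorem L40626 : W_5 (nat_lit 3) (nat_lit 0x3000280014001300090000400000000000000000000000000) (nat_lit 0x0) (nat_lit 0x200030000800000002000000000000000000000000000000000000000) := T_5 (nat_lit 209) (nat_lit 157) (nat_lit 4) (nat_lit 5) (nat_lit 12) L40625 (by decide +kernel)
theorem L40627 : W_5 (nat_lit 4) (nat_lit 0x2000280014001300090000400000000000000000000000000) (nat_lit 0x0) (nat_lit 0x200070001800000002000000000000000000000000000000000000000) := T_5 (nat_lit 192) (nat_lit 210) (nat_lit 7) (nat_lit 5) (nat_lit 8) L40626 (by decide +kernel)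
theorem L40628 : W_5 (nat_lit 5) (nat_lit 0x280014001300090000400000000000000000000000000) (nat_lit 0x0) (nat_lit 0x200070003800100002000000000000000000000000000000000000000) := T_5 (nat_lit 193) (nat_lit 176) (nat_lit 7) (nat_lit 5) (nat_lit 7) L40627 (by decide +kernel)
theorem L40629 : W_5 (nat_lit 6) (nat_lit 0x200014001300090000400000000000000000000000000) (nat_lit 0x0) (nat_lit 0x200070003800180002000000008000000000000000000000000000000) := T_5 (nat_lit 175) (nat_lit 123) (nat_lit 4) (nat_lit 5) (nat_lit 10) L40628 (by decide +kernel)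
theorem L40630 : W_5 (nat_lit 7) (nat_lit 0x200014001300090000000000000000000000000000000) (nat_lit 0x0) (nat_lit 0x200070003800180002000000008001c000e0004000000000000000000) := Q_5 (nat_lit 106) (C_5 L40581 (C_5 L40624 (C_5 L40629 N_5))) (by decide +kernel)
theorem L40634 : W_5 (nat_lit 5) (nat_lit 0x2800140013400b0000000000000000000000000000000) (nat_lit 0x0) (nat_lit 0x200030003800100002000000008000000000000000000000000000000) := T_5 (nat_lit 176) (nat_lit 193) (nat_lit 7) (nat_lit 5) (nat_lit 7) L40633 (by decide +kernel)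
theorem L40635 : W_5 (nat_lit 6) (nat_lit 0x2000140013400b0000000000000000000000000000000) (nat_lit 0x0) (nat_lit 0x200030003800180002000000008001000000000000000000000000000) := T_5 (nat_lit 175) (nat_lit 108) (nat_lit 6) (nat_lit 5) (nat_lit 10) L40634 (by decide +kernel)
theorem L40636 : W_5 (nat_lit 7) (nat_lit 0x2000140013000b0000000000000000000000000000000) (nat_lit 0x0) (nat_lit 0x2000300038001800020000c0008001000000000000000000000000000) := T_5 (nat_lit 138) (nat_lit 139) (nat_lit 2) (nat_lit 2) (nat_lit 8) L40635 (by decide +kernel)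
theorem L40637 : W_5 (nat_lit 8) (nat_lit 0x200014001300090000000000000000000000000000000) (nat_lit 0x0) (nat_lit 0x2000300038001800020000c0068001000000000000000000000000000) := T_5 (nat_lit 125) (nat_lit 126) (nat_lit 1) (nat_lit 8) (nat_lit 7) L40636 (by decide +kernel)
theorem L40638 : W_5 (nat_lit 2) (nat_lit 0x200030002800140013400b0000000000000000000000000000000) (nat_lit 0x0) (nat_lit 0x200010000800000000000000000000000000000000000000000000000) := D_5 (nat_lit 208) (nat_lit 225) (nat_lit 191) (nat_lit 5) (nat_lit 5) (nat_lit 9) (nat_lit 5) (nat_lit 5) (nat_lit 8) (by decide +kernel)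
theorem L40639 : W_5 (nat_lit 3) (nat_lit 0x30002800140013400b0000000000000000000000000000000) (nat_lit 0x0) (nat_lit 0x200030000800000002000000000000000000000000000000000000000) := T_5 (nat_lit 209) (nat_lit 157) (nat_lit 4) (nat_lit 5) (nat_lit 12) L40638 (by decide +kernel)
theorem L40640 : W_5 (nat_lit 4) (nat_lit 0x20002800140013400b0000000000000000000000000000000) (nat_lit 0x0) (nat_lit 0x200070001800000002000000000000000000000000000000000000000) := T_5 (nat_lit 192) (nat_lit 210) (nat_lit 7) (nat_lit 5) (nat_lit 8) L40639 (by decide +kernel)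
theorem L40641 : W_5 (nat_lit 5) (nat_lit 0x2800140013400b0000000000000000000000000000000) (nat_lit 0x0) (nat_lit 0x200070003800100002000000000000000000000000000000000000000) := T_5 (nat_lit 193) (nat_lit 176) (nat_lit 7) (nat_lit 5) (nat_lit 7) L40640 (by decide +kernel)
theorem L40642 : W_5 (nat_lit 6) (nat_lit 0x2000140013400b0000000000000000000000000000000) (nat_lit 0x0) (nat_lit 0x200070003800180002000000000001000000000000000000000000000) := T_5 (nat_lit 175) (nat_lit 108) (nat_lit 6) (nat_lit 5) (nat_lit 10) L40641 (by decide +kernel)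
theorem L40643 : W_5 (nat_lit 7) (nat_lit 0x2000140013000b0000000000000000000000000000000) (nat_lit 0x0) (nat_lit 0x2000700038001800020000c0000001000000000000000000000000000) := T_5 (nat_lit 138) (nat_lit 139) (nat_lit 2) (nat_lit 2) (nat_lit 8) L40642 (by decide +kernel)
theorem L40644 : W_5 (nat_lit 8) (nat_lit 0x200014001300090000000000000000000000000000000) (nat_lit 0x0) (nat_lit 0x2000700038001800020000c0060001000000000000000000000000000) := T_5 (nat_lit 125) (nat_lit 126) (nat_lit 1) (nat_lit 8) (nat_lit 7) L40643 (by decide +kernel)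
theorem L40645 : W_5 (nat_lit 4) (nat_lit 0x200014001300090000800000000000000000000000000) (nat_lit 0x0) (nat_lit 0x20000000000014000e0004000000000000000000) := T_5 (nat_lit 106) (nat_lit 89) (nat_lit 4) (nat_lit 5) (nat_lit 9) L40623 (by decide +kernel)
theorem L40646 : W_5 (nat_lit 2) (nat_lit 0x2000140013000d0001800040002000000000000000000) (nat_lit 0x0) (nat_lit 0x20001000080000000000000) := D_5 (nat_lit 72) (nat_lit 89) (nat_lit 55) (nat_lit 4) (nat_lit 5) (nat_lit 8) (nat_lit 4) (nat_lit 5) (nat_lit 7) (by decide +kernel)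
theorem L40647 : W_5 (nat_lit 3) (nat_lit 0x2000140013000d0001800040000000000000000000000) (nat_lit 0x0) (nat_lit 0x8000000020003000080000000000000) := T_5 (nat_lit 73) (nat_lit 123) (nat_lit 5) (nat_lit 5) (nat_lit 4) L40646 (by decide +kernel)
theorem L40648 : W_5 (nat_lit 4) (nat_lit 0x2000140013000d0001800000000000000000000000000) (nat_lit 0x0) (nat_lit 0x2000000008000000060003000080000000000000) := T_5 (nat_lit 90) (nat_lit 157) (nat_lit 5) (nat_lit 5) (nat_lit 5) L40647 (by decide +kernel)
theorem L40649 : W_5 (nat_lit 5) (nat_lit 0x2000140013000d0000800000000000000000000000000) (nat_lit 0x0) (nat_lit 0x20000000080010000e0003000080000000000000) := T_5 (nat_lit 108) (nat_lit 91) (nat_lit 6) (nat_lit 5) (nat_lit 9) L40648 (by decide +kernel)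
theorem L40650 : W_5 (nat_lit 6) (nat_lit 0x200014001300090000800000000000000000000000000) (nat_lit 0x0) (nat_lit 0x20000000680010000e0003000080000000000000) := T_5 (nat_lit 126) (nat_lit 125) (nat_lit 1) (nat_lit 8) (nat_lit 7) L40649 (by decide +kernel)
theorem L40651 : W_5 (nat_lit 2) (nat_lit 0x200014001300090000800040000000000000000000000) (nat_lit 0x0) (nat_lit 0x1000080004000000000000000000) := D_5 (nat_lit 91) (nat_lit 108) (nat_lit 74) (nat_lit 6) (nat_lit 5) (nat_lit 9) (nat_lit 6) (nat_lit 5) (nat_lit 8) (by decide +kernel)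
theorem L40652 : W_5 (nat_lit 3) (nat_lit 0x200014001300090000800000000000000000000000000) (nat_lit 0x0) (nat_lit 0x20000000000010000c0004000000000000000000) := T_5 (nat_lit 90) (nat_lit 157) (nat_lit 5) (nat_lit 5) (nat_lit 5) L40651 (by decide +kernel)
theorem L40653 : W_5 (nat_lit 2) (nat_lit 0x2000140013000d0000800040000000000000000000000) (nat_lit 0x0) (nat_lit 0x400020001000000000000000000) := D_5 (nat_lit 89) (nat_lit 106) (nat_lit 72) (nat_lit 4) (nat_lit 5) (nat_lit 9) (nat_lit 4) (nat_lit 5) (nat_lit 8) (by decide +kernel)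
theorem L40654 : W_5 (nat_lit 3) (nat_lit 0x2000140013000d0000800000000000000000000000000) (nat_lit 0x0) (nat_lit 0x2000000000000400060001000000000000000000) := T_5 (nat_lit 90) (nat_lit 157) (nat_lit 5) (nat_lit 5) (nat_lit 5) L40653 (by decide +kernel)
theorem L40655 : W_5 (nat_lit 4) (nat_lit 0x200014001300090000800000000000000000000000000) (nat_lit 0x0) (nat_lit 0x2000000060000400060001000000000000000000) := T_5 (nat_lit 126) (nat_lit 125) (nat_lit 1) (nat_lit 8) (nat_lit 7) L40654 (by decide +kernel)
theorem L40656 : W_5 (nat_lit 7) (nat_lit 0x200014001300090000000000000000000000000000000) (nat_lit 0x0) (nat_lit 0x2000000068003c000e0007000080000000000000) := Q_5 (nat_lit 107) (C_5 L40459 (C_5 L40645 (C_5 L40650 (C_5 L40652 (C_5 L40655 N_5))))) (by decide +kernel)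
theorem L40657 : W_5 (nat_lit 2) (nat_lit 0x2000280016001300090000c00000000000000000000000000) (nat_lit 0x0) (nat_lit 0x60001000000000000000000000000000000000000000000000000) := D_5 (nat_lit 192) (nat_lit 210) (nat_lit 209) (nat_lit 7) (nat_lit 5) (nat_lit 8) (nat_lit 4) (nat_lit 5) (nat_lit 12) (by decide +kernel)
theorem L40658 : W_5 (nat_lit 3) (nat_lit 0x2000280014001300090000c00000000000000000000000000) (nat_lit 0x0) (nat_lit 0x60001000000002000000000000000040000000000000000000000) := T_5 (nat_lit 157) (nat_lit 90) (nat_lit 5) (nat_lit 5) (nat_lit 5) L40657 (by decide +kernel)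
theorem L40659 : W_5 (nat_lit 4) (nat_lit 0x280014001300090000c00000000000000000000000000) (nat_lit 0x0) (nat_lit 0x60003000100002000000000000000040000000000000000000000) := T_5 (nat_lit 193) (nat_lit 176) (nat_lit 7) (nat_lit 5) (nat_lit 7) L40658 (by decide +kernel)
theorem L40660 : W_5 (nat_lit 5) (nat_lit 0x200014001300090000c00000000000000000000000000) (nat_lit 0x0) (nat_lit 0x60003000180002000000008000000040000000000000000000000) := T_5 (nat_lit 175) (nat_lit 123) (nat_lit 4) (nat_lit 5) (nat_lit 10) L40659 (by decide +kernel)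
theorem L40661 : W_5 (nat_lit 6) (nat_lit 0x200014001300090000800000000000000000000000000) (nat_lit 0x0) (nat_lit 0x60003000180002000000008000400060000000000000000000000) := T_5 (nat_lit 106) (nat_lit 89) (nat_lit 4) (nat_lit 5) (nat_lit 9) L40660 (by decide +kernel)
theorem L40662 : W_5 (nat_lit 2) (nat_lit 0x2000140013000d00008000c0001000000000000000000) (nat_lit 0x0) (nat_lit 0x8000000000002000080000000000000) := D_5 (nat_lit 73) (nat_lit 123) (nat_lit 55) (nat_lit 5) (nat_lit 5) (nat_lit 4) (nat_lit 4) (nat_lit 5) (nat_lit 7) (by decide +kernel)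
theorem L40663 : W_5 (nat_lit 3) (nat_lit 0x2000140013000d00008000c0000000000000000000000) (nat_lit 0x0) (nat_lit 0x8000000020003000080000000000000) := T_5 (nat_lit 72) (nat_lit 89) (nat_lit 4) (nat_lit 5) (nat_lit 8) L40662 (by decide +kernel)
theorem L40664 : W_5 (nat_lit 4) (nat_lit 0x2000140013000d0000800040000000000000000000000) (nat_lit 0x0) (nat_lit 0x80000000a0007000080000000000000) := T_5 (nat_lit 91) (nat_lit 74) (nat_lit 6) (nat_lit 5) (nat_lit 8) L40663 (by decide +kernel)
theorem L40665 : W_5 (nat_lit 5) (nat_lit 0x200014001300090000800040000000000000000000000) (nat_lit 0x0) (nat_lit 0x680000000a0007000080000000000000) := T_5 (nat_lit 126) (nat_lit 125) (nat_lit 1) (nat_lit 8) (nat_lit 7) L40664 (by decide +kernel)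
theorem L40666 : W_5 (nat_lit 6) (nat_lit 0x200014001300090000800000000000000000000000000) (nat_lit 0x0) (nat_lit 0x20000000680000000e0007000080000000000000) := T_5 (nat_lit 90) (nat_lit 157) (nat_lit 5) (nat_lit 5) (nat_lit 5) L40665 (by decide +kernel)
theorem L40667 : W_5 (nat_lit 2) (nat_lit 0x2000140013000d0000800060002000000000000000000) (nat_lit 0x0) (nat_lit 0x80004000200000000000000) := D_5 (nat_lit 74) (nat_lit 91) (nat_lit 57) (nat_lit 6) (nat_lit 5) (nat_lit 8) (nat_lit 6) (nat_lit 5) (nat_lit 7) (by decide +kernel)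
theorem L40668 : W_5 (nat_lit 3) (nat_lit 0x2000140013000d0000800060000000000000000000000) (nat_lit 0x0) (nat_lit 0x8000000080006000200000000000000) := T_5 (nat_lit 73) (nat_lit 123) (nat_lit 5) (nat_lit 5) (nat_lit 4) L40667 (by decide +kernel)
theorem L40669 : W_5 (nat_lit 4) (nat_lit 0x2000140013000d0000800020000000000000000000000) (nat_lit 0x0) (nat_lit 0x80000000c0007000200000000000000) := T_5 (nat_lit 90) (nat_lit 72) (nat_lit 4) (nat_lit 5) (nat_lit 8) L40668 (by decide +kernel)
theorem L40670 : W_5 (nat_lit 5) (nat_lit 0x200014001300090000800020000000000000000000000) (nat_lit 0x0) (nat_lit 0x680000000c0007000200000000000000) := T_5 (nat_lit 126) (nat_lit 125) (nat_lit 1) (nat_lit 8) (nat_lit 7) L40669 (by decide +kernel)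
theorem L40671 : W_5 (nat_lit 6) (nat_lit 0x200014001300090000800000000000000000000000000) (nat_lit 0x0) (nat_lit 0x680004000e0007000200000000000000) := T_5 (nat_lit 89) (nat_lit 106) (nat_lit 4) (nat_lit 5) (nat_lit 9) L40670 (by decide +kernel)
theorem L40672 : W_5 (nat_lit 2) (nat_lit 0x200030002800140013000d0000c00000000000000000000000000) (nat_lit 0x0) (nat_lit 0x200010000800000000000000000000000000000000000000000000000) := D_5 (nat_lit 208) (nat_lit 225) (nat_lit 191) (nat_lit 5) (nat_lit 5) (nat_lit 9) (nat_lit 5) (nat_lit 5) (nat_lit 8) (by decide +kernel)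
theorem L40673 : W_5 (nat_lit 3) (nat_lit 0x30002800140013000d0000c00000000000000000000000000) (nat_lit 0x0) (nat_lit 0x200030000800000002000000000000000000000000000000000000000) := T_5 (nat_lit 209) (nat_lit 157) (nat_lit 4) (nat_lit 5) (nat_lit 12) L40672 (by decide +kernel)
theorem L40674 : W_5 (nat_lit 4) (nat_lit 0x20002800140013000d0000c00000000000000000000000000) (nat_lit 0x0) (nat_lit 0x200070001800000002000000000000000000000000000000000000000) := T_5 (nat_lit 192) (nat_lit 210) (nat_lit 7) (nat_lit 5) (nat_lit 8) L40673 (by decide +kernel)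
theorem L40675 : W_5 (nat_lit 5) (nat_lit 0x2000280014001300090000c00000000000000000000000000) (nat_lit 0x0) (nat_lit 0x200070001800000002000000060000000000000000000000000000000) := T_5 (nat_lit 126) (nat_lit 125) (nat_lit 1) (nat_lit 8) (nat_lit 7) L40674 (by decide +kernel)
theorem L40676 : W_5 (nat_lit 6) (nat_lit 0x280014001300090000c00000000000000000000000000) (nat_lit 0x0) (nat_lit 0x200070003800100002000000060000000000000000000000000000000) := T_5 (nat_lit 193) (nat_lit 176) (nat_lit 7) (nat_lit 5) (nat_lit 7) L40675 (by decide +kernel)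
theorem L40677 : W_5 (nat_lit 7) (nat_lit 0x200014001300090000c00000000000000000000000000) (nat_lit 0x0) (nat_lit 0x200070003800180002000000068000000000000000000000000000000) := T_5 (nat_lit 175) (nat_lit 123) (nat_lit 4) (nat_lit 5) (nat_lit 10) L40676 (by decide +kernel)
theorem L40678 : W_5 (nat_lit 8) (nat_lit 0x200014001300090000800000000000000000000000000) (nat_lit 0x0) (nat_lit 0x200070003800180002000000068000400020000000000000000000000) := T_5 (nat_lit 106) (nat_lit 89) (nat_lit 4) (nat_lit 5) (nat_lit 9) L40677 (by decide +kernel)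
theorem L40679 : W_5 (nat_lit 2) (nat_lit 0x2000140013000d80008000c0000000000000000000000) (nat_lit 0x0) (nat_lit 0x1000080000000000000000400000000000000000000000000) := D_5 (nat_lit 175) (nat_lit 192) (nat_lit 106) (nat_lit 4) (nat_lit 5) (nat_lit 11) (nat_lit 4) (nat_lit 5) (nat_lit 10) (by decide +kernel)
theorem L40680 : W_5 (nat_lit 3) (nat_lit 0x2000140013000d00008000c0000000000000000000000) (nat_lit 0x0) (nat_lit 0x1000080000000000008000400000002000000000000000000) := T_5 (nat_lit 123) (nat_lit 73) (nat_lit 5) (nat_lit 5) (nat_lit 4) L40679 (by decide +kernel)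
theorem L40681 : W_5 (nat_lit 4) (nat_lit 0x2000140013000d0000800040000000000000000000000) (nat_lit 0x0) (nat_lit 0x1000080000000000008000400080006000000000000000000) := T_5 (nat_lit 91) (nat_lit 74) (nat_lit 6) (nat_lit 5) (nat_lit 8) L40680 (by decide +kernel)
theorem L40682 : W_5 (nat_lit 5) (nat_lit 0x200014001300090000800040000000000000000000000) (nat_lit 0x0) (nat_lit 0x1000080000000000068000400080006000000000000000000) := T_5 (nat_lit 126) (nat_lit 125) (nat_lit 1) (nat_lit 8) (nat_lit 7) L40681 (by decide +kernel)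
theorem L40683 : W_5 (nat_lit 6) (nat_lit 0x200014001300090000800000000000000000000000000) (nat_lit 0x0) (nat_lit 0x10000800020000000680004000c0006000000000000000000) := T_5 (nat_lit 90) (nat_lit 157) (nat_lit 5) (nat_lit 5) (nat_lit 5) L40682 (by decide +kernel)
theorem L40684 : W_5 (nat_lit 9) (nat_lit 0x200014001300090000000000000000000000000000000) (nat_lit 0x0) (nat_lit 0x200070003800180002000000068000c000e0007000280000000000000) := Q_5 (nat_lit 107) (C_5 L40655 (C_5 L40661 (C_5 L40666 (C_5 L40671 (C_5 L40678 (C_5 L40683 N_5)))))) (by decide +kernel)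
theorem L40685 : W_5 (nat_lit 10) (nat_lit 0x200014001300080000000000000000000000000000000) (nat_lit 0x0) (nat_lit 0x2000700038001800020000c0078003c000e0007000280000000000000) := Q_5 (nat_lit 124) (C_5 L40630 (C_5 L40637 (C_5 L40644 (C_5 L40464 (C_5 L40529 (C_5 L40656 (C_5 L40684 N_5))))))) (by decide +kernel)
theorem L40686 : W_5 (nat_lit 2) (nat_lit 0x2800340013000b0000000000000000000000000000000) (nat_lit 0x0) (nat_lit 0x1000000000000000008000400000000000000000000000000) := D_5 (nat_lit 123) (nat_lit 192) (nat_lit 106) (nat_lit 4) (nat_lit 5) (nat_lit 11) (nat_lit 4) (nat_lit 5) (nat_lit 10) (by decide +kernel)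
theorem L40687 : W_5 (nat_lit 3) (nat_lit 0x2000340013000b0000000000000000000000000000000) (nat_lit 0x0) (nat_lit 0x1000080000000000008001400000000000000000000000000) := T_5 (nat_lit 175) (nat_lit 108) (nat_lit 6) (nat_lit 5) (nat_lit 10) L40686 (by decide +kernel)
theorem L40688 : W_5 (nat_lit 4) (nat_lit 0x200034001300090000000000000000000000000000000) (nat_lit 0x0) (nat_lit 0x1000080000000000068001400000000000000000000000000) := T_5 (nat_lit 125) (nat_lit 126) (nat_lit 1) (nat_lit 8) (nat_lit 7) L40687 (by decide +kernel)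
theorem L40689 : W_5 (nat_lit 5) (nat_lit 0x200014001300090000000000000000000000000000000) (nat_lit 0x0) (nat_lit 0x1000080028000000068001400000000000000000000000000) := T_5 (nat_lit 161) (nat_lit 159) (nat_lit 0) (nat_lit 8) (nat_lit 9) L40688 (by decide +kernel)
theorem L40690 : W_5 (nat_lit 10) (nat_lit 0x200014001300080000000000000000000000000000000) (nat_lit 0x0) (nat_lit 0x10001800280000c007e003c000e0007000200000000000000) := Q_5 (nat_lit 124) (C_5 L40529 (C_5 L40493 (C_5 L40689 (C_5 L40559 (C_5 L32153 N_5))))) (by decide +kernel)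
theorem L40691 : W_5 (nat_lit 2) (nat_lit 0x21001f001300080000000000000000000000000000000) (nat_lit 0x0) (nat_lit 0x8000c00000000000000000000000000000000000000) := D_5 (nat_lit 155) (nat_lit 154) (nat_lit 171) (nat_lit 2) (nat_lit 1) (nat_lit 9) (nat_lit 1) (nat_lit 5) (nat_lit 9) (by decide +kernel)
theorem L40692 : W_5 (nat_lit 3) (nat_lit 0x20001f001300080000000000000000000000000000000) (nat_lit 0x0) (nat_lit 0x38000c00000000000000000000000000000000000000) := T_5 (nat_lit 172) (nat_lit 173) (nat_lit 1) (nat_lit 6) (nat_lit 9) L40691 (by decide +kernel)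
theorem L40693 : W_5 (nat_lit 4) (nat_lit 0x20001e001300080000000000000000000000000000000) (nat_lit 0x0) (nat_lit 0x138001c00000000000000000000000000000000000000) := T_5 (nat_lit 156) (nat_lit 176) (nat_lit 3) (nat_lit 3) (nat_lit 9) L40692 (by decide +kernel)
theorem L40694 : W_5 (nat_lit 5) (nat_lit 0x20001c001300080000000000000000000000000000000) (nat_lit 0x0) (nat_lit 0x138003c00800000000000000000000000000000000000) := T_5 (nat_lit 157) (nat_lit 143) (nat_lit 2) (nat_lit 4) (nat_lit 9) L40693 (by decide +kernel)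
theorem L40695 : W_5 (nat_lit 6) (nat_lit 0x200014001300080000000000000000000000000000000) (nat_lit 0x0) (nat_lit 0x13802bc00800000000000000000000000000000000000) := T_5 (nat_lit 159) (nat_lit 161) (nat_lit 0) (nat_lit 8) (nat_lit 9) L40694 (by decide +kernel)
theorem L40696 : W_5 (nat_lit 11) (nat_lit 0x200010001300080000000000000000000000000000000) (nat_lit 0x0) (nat_lit 0x2000700038001b802fc008c007e003c000e0007000280000000000000) := Q_5 (nat_lit 158) (C_5 L40685 (C_5 L38631 (C_5 L40690 (C_5 L40695 N_5)))) (by decide +kernel)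
theorem L40697 : W_5 (nat_lit 2) (nat_lit 0x2000100013800d0001c00020000000000000000000000) (nat_lit 0x0) (nat_lit 0x40001000080000000000000) := D_5 (nat_lit 72) (nat_lit 90) (nat_lit 55) (nat_lit 4) (nat_lit 5) (nat_lit 8) (nat_lit 7) (nat_lit 4) (nat_lit 3) (by decide +kernel)
theorem L40698 : W_5 (nat_lit 3) (nat_lit 0x2000100013800c0001c00020000000000000000000000) (nat_lit 0x0) (nat_lit 0x4000000010000000040001000080000000000000) := T_5 (nat_lit 124) (nat_lit 158) (nat_lit 4) (nat_lit 5) (nat_lit 9) L40697 (by decide +kernel)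
theorem L40699 : W_5 (nat_lit 4) (nat_lit 0x2000100013800c0000c00020000000000000000000000) (nat_lit 0x0) (nat_lit 0x4000000010003000040001000080000000000000) := T_5 (nat_lit 108) (nat_lit 109) (nat_lit 3) (nat_lit 4) (nat_lit 6) L40698 (by decide +kernel)
theorem L40700 : W_5 (nat_lit 2) (nat_lit 0x200010001b800c0002c00120000000000000000000000) (nat_lit 0x0) (nat_lit 0x2000100008000000000000000000000000000000000000000) := D_5 (nat_lit 176) (nat_lit 193) (nat_lit 159) (nat_lit 5) (nat_lit 7) (nat_lit 7) (nat_lit 5) (nat_lit 7) (nat_lit 6) (by decide +kernel)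
theorem L40701 : W_5 (nat_lit 3) (nat_lit 0x2000100013800c0002c00120000000000000000000000) (nat_lit 0x0) (nat_lit 0x2000100028000800000000000000000000000000000000000) := T_5 (nat_lit 143) (nat_lit 161) (nat_lit 7) (nat_lit 7) (nat_lit 5) L40700 (by decide +kernel)
theorem L40702 : W_5 (nat_lit 4) (nat_lit 0x2000100013800c0002c00020000000000000000000000) (nat_lit 0x0) (nat_lit 0x2000100028000800000000000100008000000000000000000) := T_5 (nat_lit 92) (nat_lit 75) (nat_lit 7) (nat_lit 7) (nat_lit 4) L40701 (by decide +kernel)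
theorem L40703 : W_5 (nat_lit 5) (nat_lit 0x2000100013800c0000c00020000000000000000000000) (nat_lit 0x0) (nat_lit 0x2000100028000800000003000100008000000000000000000) := T_5 (nat_lit 109) (nat_lit 108) (nat_lit 3) (nat_lit 4) (nat_lit 6) L40702 (by decide +kernel)
theorem L40704 : W_5 (nat_lit 2) (nat_lit 0x2000100013800d0000c00020000000000000000000000) (nat_lit 0x0) (nat_lit 0x40001000080000000000000) := D_5 (nat_lit 72) (nat_lit 90) (nat_lit 55) (nat_lit 4) (nat_lit 5) (nat_lit 8) (nat_lit 7) (nat_lit 4) (nat_lit 3) (by decide +kernel)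
theorem L40705 : W_5 (nat_lit 3) (nat_lit 0x2000100013800c0000c00020000000000000000000000) (nat_lit 0x0) (nat_lit 0x4000000010000000040001000080000000000000) := T_5 (nat_lit 124) (nat_lit 158) (nat_lit 4) (nat_lit 5) (nat_lit 9) L40704 (by decide +kernel)
theorem L40706 : W_5 (nat_lit 6) (nat_lit 0x2000100013800c0000400020000000000000000000000) (nat_lit 0x0) (nat_lit 0x200010002c000800010003800140009000080000000000000) := Q_5 (nat_lit 107) (C_5 L40699 (C_5 L40703 (C_5 L40705 N_5))) (by decide +kernel)
theorem L40707 : W_5 (nat_lit 3) (nat_lit 0x2000100013800d0000400020000000000000000000000) (nat_lit 0x0) (nat_lit 0x4000000000000800040001000080000000000000) := T_5 (nat_lit 107) (nat_lit 158) (nat_lit 4) (nat_lit 5) (nat_lit 9) L40704 (by decide +kernel)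
theorem L40708 : W_5 (nat_lit 4) (nat_lit 0x2000100013800c0000400020000000000000000000000) (nat_lit 0x0) (nat_lit 0x4000000030000800040001000080000000000000) := T_5 (nat_lit 124) (nat_lit 125) (nat_lit 1) (nat_lit 8) (nat_lit 7) L40707 (by decide +kernel)
theorem L40709 : W_5 (nat_lit 2) (nat_lit 0x300010001b800e0002400020000000000000000000000) (nat_lit 0x0) (nat_lit 0x20000000000000000100008000000000000000000) := D_5 (nat_lit 92) (nat_lit 161) (nat_lit 75) (nat_lit 7) (nat_lit 7) (nat_lit 5) (nat_lit 7) (nat_lit 7) (nat_lit 4) (by decide +kernel)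
theorem L40710 : W_5 (nat_lit 3) (nat_lit 0x300010001b800e0000400020000000000000000000000) (nat_lit 0x0) (nat_lit 0x28000000000002000100008000000000000000000) := T_5 (nat_lit 109) (nat_lit 159) (nat_lit 5) (nat_lit 7) (nat_lit 6) L40709 (by decide +kernel)
theorem L40711 : W_5 (nat_lit 4) (nat_lit 0x200010001b800e0000400020000000000000000000000) (nat_lit 0x0) (nat_lit 0x2000100028000000000002000100008000000000000000000) := T_5 (nat_lit 176) (nat_lit 193) (nat_lit 5) (nat_lit 7) (nat_lit 7) L40710 (by decide +kernel)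
theorem L40712 : W_5 (nat_lit 5) (nat_lit 0x2000100013800e0000400020000000000000000000000) (nat_lit 0x0) (nat_lit 0x2000100028000800000003000100008000000000000000000) := T_5 (nat_lit 143) (nat_lit 108) (nat_lit 4) (nat_lit 7) (nat_lit 10) L40711 (by decide +kernel)
theorem L40713 : W_5 (nat_lit 6) (nat_lit 0x2000100013800c0000400020000000000000000000000) (nat_lit 0x0) (nat_lit 0x2000100028000800030003000100008000000000000000000) := T_5 (nat_lit 125) (nat_lit 124) (nat_lit 1) (nat_lit 8) (nat_lit 7) L40712 (by decide +kernel)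
theorem L40714 : W_5 (nat_lit 2) (nat_lit 0x2000100013800c0001c00020000000000000000000000) (nat_lit 0x0) (nat_lit 0x800120000000000000000000000000000000) := D_5 (nat_lit 125) (nat_lit 128) (nat_lit 143) (nat_lit 0) (nat_lit 9) (nat_lit 7) (nat_lit 4) (nat_lit 7) (nat_lit 10) (by decide +kernel)
theorem L40715 : W_5 (nat_lit 3) (nat_lit 0x2000100013800c0001400020000000000000000000000) (nat_lit 0x0) (nat_lit 0x800120002800000000000000000000000000) := T_5 (nat_lit 107) (nat_lit 109) (nat_lit 3) (nat_lit 4) (nat_lit 6) L40714 (by decide +kernel)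
theorem L40716 : W_5 (nat_lit 2) (nat_lit 0x2000100013800c0001c00020000000000000000000000) (nat_lit 0x0) (nat_lit 0x120000200000000000000000000000000) := D_5 (nat_lit 125) (nat_lit 105) (nat_lit 128) (nat_lit 3) (nat_lit 3) (nat_lit 6) (nat_lit 0) (nat_lit 9) (nat_lit 7) (by decide +kernel)
theorem L40717 : W_5 (nat_lit 3) (nat_lit 0x2000100013800c0001400020000000000000000000000) (nat_lit 0x0) (nat_lit 0x120002a00000000000000000000000000) := T_5 (nat_lit 107) (nat_lit 109) (nat_lit 3) (nat_lit 4) (nat_lit 6) L40716 (by decide +kernel)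
theorem L40718 : W_5 (nat_lit 2) (nat_lit 0x200010001b800c0003400020008000000000000000000) (nat_lit 0x0) (nat_lit 0x2000100008000000000000000000000000000000000000000) := D_5 (nat_lit 176) (nat_lit 159) (nat_lit 193) (nat_lit 5) (nat_lit 7) (nat_lit 6) (nat_lit 5) (nat_lit 7) (nat_lit 7) (by decide +kernel)
theorem L40719 : W_5 (nat_lit 3) (nat_lit 0x2000100013800c0003400020008000000000000000000) (nat_lit 0x0) (nat_lit 0x2000100008000800000000000080000000000000000000000) := T_5 (nat_lit 143) (nat_lit 91) (nat_lit 4) (nat_lit 7) (nat_lit 9) L40718 (by decide +kernel)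
theorem L40720 : W_5 (nat_lit 4) (nat_lit 0x2000100013800c0003400020000000000000000000000) (nat_lit 0x0) (nat_lit 0x2000100008000800000000000180008000000000000000000) := T_5 (nat_lit 75) (nat_lit 92) (nat_lit 7) (nat_lit 7) (nat_lit 4) L40719 (by decide +kernel)
theorem L40721 : W_5 (nat_lit 5) (nat_lit 0x2000100013800c0001400020000000000000000000000) (nat_lit 0x0) (nat_lit 0x2000100008000800000002800180008000000000000000000) := T_5 (nat_lit 109) (nat_lit 107) (nat_lit 3) (nat_lit 4) (nat_lit 6) L40720 (by decide +kernel)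
theorem L40722 : W_5 (nat_lit 2) (nat_lit 0x300010001b800c0001400020000000000000000000000) (nat_lit 0x0) (nat_lit 0x8000000000002000080000000000000000000000) := D_5 (nat_lit 109) (nat_lit 91) (nat_lit 159) (nat_lit 4) (nat_lit 7) (nat_lit 9) (nat_lit 5) (nat_lit 7) (nat_lit 6) (by decide +kernel)
theorem L40723 : W_5 (nat_lit 3) (nat_lit 0x200010001b800c0001400020000000000000000000000) (nat_lit 0x0) (nat_lit 0x2000100008000000000002000080000000000000000000000) := T_5 (nat_lit 176) (nat_lit 193) (nat_lit 5) (nat_lit 7) (nat_lit 7) L40722 (by decide +kernel)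
theorem L40724 : W_5 (nat_lit 4) (nat_lit 0x2000100013800c0001400020000000000000000000000) (nat_lit 0x0) (nat_lit 0x2000100008000800020002000080000000000000000000000) := T_5 (nat_lit 143) (nat_lit 125) (nat_lit 4) (nat_lit 7) (nat_lit 10) L40723 (by decide +kernel)
theorem L40725 : W_5 (nat_lit 2) (nat_lit 0x2000100013800e0001400020000000000000000000000) (nat_lit 0x0) (nat_lit 0x100000a00000000000000000000000000) := D_5 (nat_lit 107) (nat_lit 105) (nat_lit 128) (nat_lit 3) (nat_lit 3) (nat_lit 6) (nat_lit 0) (nat_lit 9) (nat_lit 7) (by decide +kernel)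
theorem L40726 : W_5 (nat_lit 3) (nat_lit 0x2000100013800c0001400020000000000000000000000) (nat_lit 0x0) (nat_lit 0x800120000a00000000000000000000000000) := T_5 (nat_lit 125) (nat_lit 143) (nat_lit 4) (nat_lit 7) (nat_lit 10) L40725 (by decide +kernel)
theorem L40727 : W_5 (nat_lit 6) (nat_lit 0x2000100013800c0000400020000000000000000000000) (nat_lit 0x0) (nat_lit 0x2000100008000800120003a00180008000000000000000000) := Q_5 (nat_lit 108) (C_5 L40715 (C_5 L40717 (C_5 L40721 (C_5 L40724 (C_5 L40726 N_5))))) (by decide +kernel)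
theorem L40728 : W_5 (nat_lit 7) (nat_lit 0x200010001380080000400020000000000000000000000) (nat_lit 0x0) (nat_lit 0x200010002c000800170003a001c0009000080000000000000) := Q_5 (nat_lit 126) (C_5 L40706 (C_5 L40708 (C_5 L40713 (C_5 L40727 N_5)))) (by decide +kernel)
theorem L40729 : W_5 (nat_lit 2) (nat_lit 0x200010001380080000400020000000000000000000000) (nat_lit 0x0) (nat_lit 0x5000000008000000000000000000000000000000) := D_5 (nat_lit 123) (nat_lit 156) (nat_lit 158) (nat_lit 5) (nat_lit 4) (nat_lit 5) (nat_lit 7) (nat_lit 4) (nat_lit 5) (by decide +kernel)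
theorem L40730 : W_5 (nat_lit 2) (nat_lit 0x200010001380088000400020000000000000000000000) (nat_lit 0x0) (nat_lit 0x14000000000001000000000000000000) := D_5 (nat_lit 72) (nat_lit 122) (nat_lit 124) (nat_lit 5) (nat_lit 4) (nat_lit 4) (nat_lit 7) (nat_lit 4) (nat_lit 4) (by decide +kernel)
theorem L40731 : W_5 (nat_lit 3) (nat_lit 0x200010001380080000400020000000000000000000000) (nat_lit 0x0) (nat_lit 0x100000001c000000000001000000000000000000) := T_5 (nat_lit 123) (nat_lit 156) (nat_lit 5) (nat_lit 4) (nat_lit 5) L40730 (by decide +kernel)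
theorem L40732 : W_5 (nat_lit 8) (nat_lit 0x200010001380080000400000000000000000000000000) (nat_lit 0x0) (nat_lit 0x200010002d00080017c003a001e0009000080000000000000) := Q_5 (nat_lit 89) (C_5 L40728 (C_5 L40729 (C_5 L40731 N_5))) (by decide +kernel)
theorem L40733 : W_5 (nat_lit 2) (nat_lit 0x200010001380084000600020000000000000000000000) (nat_lit 0x0) (nat_lit 0x10001000080000000000000) := D_5 (nat_lit 72) (nat_lit 55) (nat_lit 88) (nat_lit 5) (nat_lit 4) (nat_lit 3) (nat_lit 6) (nat_lit 3) (nat_lit 8) (by decide +kernel)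
theorem L40734 : W_5 (nat_lit 3) (nat_lit 0x200010001380080000600020000000000000000000000) (nat_lit 0x0) (nat_lit 0x1000000004000000010001000080000000000000) := T_5 (nat_lit 122) (nat_lit 156) (nat_lit 6) (nat_lit 3) (nat_lit 9) L40733 (by decide +kernel)
theorem L40735 : W_5 (nat_lit 2) (nat_lit 0x200010001380080000600020000000000000000000000) (nat_lit 0x0) (nat_lit 0x5000000008000000000000000000000000000000) := D_5 (nat_lit 123) (nat_lit 158) (nat_lit 156) (nat_lit 7) (nat_lit 4) (nat_lit 5) (nat_lit 5) (nat_lit 4) (nat_lit 5) (by decide +kernel)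
theorem L40736 : W_5 (nat_lit 2) (nat_lit 0x200010001380088000600070000000000000000000000) (nat_lit 0x0) (nat_lit 0x180080000000000000000000000) := D_5 (nat_lit 104) (nat_lit 103) (nat_lit 91) (nat_lit 2) (nat_lit 1) (nat_lit 6) (nat_lit 1) (nat_lit 6) (nat_lit 5) (by decide +kernel)
theorem L40737 : W_5 (nat_lit 3) (nat_lit 0x200010001380088000600030000000000000000000000) (nat_lit 0x0) (nat_lit 0x1800c0002000000000000000000) := T_5 (nat_lit 90) (nat_lit 73) (nat_lit 6) (nat_lit 4) (nat_lit 8) L40736 (by decide +kernel)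
theorem L40738 : W_5 (nat_lit 4) (nat_lit 0x200010001380088000600020000000000000000000000) (nat_lit 0x0) (nat_lit 0x1800d0002800000000000000000) := T_5 (nat_lit 88) (nat_lit 71) (nat_lit 4) (nat_lit 4) (nat_lit 8) L40737 (by decide +kernel)
theorem L40739 : W_5 (nat_lit 5) (nat_lit 0x200010001380080000600020000000000000000000000) (nat_lit 0x0) (nat_lit 0x40000000080001800d0002800000000000000000) := T_5 (nat_lit 123) (nat_lit 158) (nat_lit 7) (nat_lit 4) (nat_lit 5) L40738 (by decide +kernel)
theorem L40740 : W_5 (nat_lit 6) (nat_lit 0x200010001380080000600000000000000000000000000) (nat_lit 0x0) (nat_lit 0x500000000c0001800f0003800080000000000000) := Q_5 (nat_lit 89) (C_5 L40734 (C_5 L40735 (C_5 L40739 N_5))) (by decide +kernel)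
theorem L40741 : W_5 (nat_lit 2) (nat_lit 0x220011001380084000700000000000000000000000000) (nat_lit 0x0) (nat_lit 0x200010000800000000000000000000000000000000000000) := D_5 (nat_lit 172) (nat_lit 189) (nat_lit 155) (nat_lit 5) (nat_lit 3) (nat_lit 7) (nat_lit 5) (nat_lit 3) (nat_lit 6) (by decide +kernel)
theorem L40742 : W_5 (nat_lit 3) (nat_lit 0x200011001380084000700000000000000000000000000) (nat_lit 0x0) (nat_lit 0x200030000800000002000000000000000000000000000000) := T_5 (nat_lit 173) (nat_lit 121) (nat_lit 4) (nat_lit 3) (nat_lit 10) L40741 (by decide +kernel)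
theorem L40743 : W_5 (nat_lit 4) (nat_lit 0x200011001380084000600000000000000000000000000) (nat_lit 0x0) (nat_lit 0x200030000800000002000100008000000000000000000000) := T_5 (nat_lit 104) (nat_lit 87) (nat_lit 4) (nat_lit 3) (nat_lit 9) L40742 (by decide +kernel)
theorem L40744 : W_5 (nat_lit 5) (nat_lit 0x200010001380084000600000000000000000000000000) (nat_lit 0x0) (nat_lit 0x200030001800000002000100028000000000000000000000) := T_5 (nat_lit 156) (nat_lit 89) (nat_lit 6) (nat_lit 3) (nat_lit 9) L40743 (by decide +kernel)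
theorem L40745 : W_5 (nat_lit 2) (nat_lit 0x20001000138008400060001c000000000000000000000) (nat_lit 0x0) (nat_lit 0x1900000000000000000000000000) := D_5 (nat_lit 107) (nat_lit 108) (nat_lit 104) (nat_lit 0) (nat_lit 6) (nat_lit 6) (nat_lit 0) (nat_lit 5) (nat_lit 6) (by decide +kernel)
theorem L40746 : W_5 (nat_lit 3) (nat_lit 0x200010001380084000600018000000000000000000000) (nat_lit 0x0) (nat_lit 0x1900006000000000000000000000) := T_5 (nat_lit 86) (nat_lit 85) (nat_lit 3) (nat_lit 0) (nat_lit 5) L40745 (by decide +kernel)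
theorem L40747 : W_5 (nat_lit 4) (nat_lit 0x200010001380084000600010000000000000000000000) (nat_lit 0x0) (nat_lit 0x190000e000400000000000000000) := T_5 (nat_lit 87) (nat_lit 70) (nat_lit 4) (nat_lit 3) (nat_lit 8) L40746 (by decide +kernel)
theorem L40748 : W_5 (nat_lit 5) (nat_lit 0x200010001380084000600000000000000000000000000) (nat_lit 0x0) (nat_lit 0x200000000000190001e000400000000000000000) := T_5 (nat_lit 88) (nat_lit 157) (nat_lit 7) (nat_lit 3) (nat_lit 5) L40747 (by decide +kernel)
theorem L40749 : W_5 (nat_lit 2) (nat_lit 0x200010001380084000600010000000000000000000000) (nat_lit 0x0) (nat_lit 0x1000000000000000020001000000000000000000) := D_5 (nat_lit 89) (nat_lit 156) (nat_lit 72) (nat_lit 6) (nat_lit 3) (nat_lit 9) (nat_lit 6) (nat_lit 3) (nat_lit 8) (by decide +kernel)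
theorem L40750 : W_5 (nat_lit 3) (nat_lit 0x200010001380084000600000000000000000000000000) (nat_lit 0x0) (nat_lit 0x3000000000000000030001000000000000000000) := T_5 (nat_lit 88) (nat_lit 157) (nat_lit 7) (nat_lit 3) (nat_lit 5) L40749 (by decide +kernel)
theorem L40751 : W_5 (nat_lit 6) (nat_lit 0x200010001380080000600000000000000000000000000) (nat_lit 0x0) (nat_lit 0x20003000380000000600190003e001400000000000000000) := Q_5 (nat_lit 122) (C_5 L40744 (C_5 L40748 (C_5 L40750 N_5))) (by decide +kernel)
theorem L40752 : W_5 (nat_lit 2) (nat_lit 0x200010001380080001e00000000000000000000000000) (nat_lit 0x0) (nat_lit 0x60002000000000000000000000000000) := D_5 (nat_lit 126) (nat_lit 125) (nat_lit 109) (nat_lit 3) (nat_lit 3) (nat_lit 6) (nat_lit 3) (nat_lit 4) (nat_lit 6) (by decide +kernel)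
theorem L40753 : W_5 (nat_lit 2) (nat_lit 0x200010001380080001e00010000000000000000000000) (nat_lit 0x0) (nat_lit 0x40002000020000000000000000000000) := D_5 (nat_lit 109) (nat_lit 126) (nat_lit 89) (nat_lit 3) (nat_lit 4) (nat_lit 6) (nat_lit 0) (nat_lit 7) (nat_lit 6) (by decide +kernel)
theorem L40754 : W_5 (nat_lit 3) (nat_lit 0x200010001380080001e00000000000000000000000000) (nat_lit 0x0) (nat_lit 0x40002000038000000000000000000000) := T_5 (nat_lit 88) (nat_lit 87) (nat_lit 0) (nat_lit 6) (nat_lit 6) L40753 (by decide +kernel)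
theorem L40755 : W_5 (nat_lit 2) (nat_lit 0x200010001380082001f000b0000000000000000000000) (nat_lit 0x0) (nat_lit 0x8000000000000800040000000000000) := D_5 (nat_lit 71) (nat_lit 54) (nat_lit 123) (nat_lit 5) (nat_lit 3) (nat_lit 3) (nat_lit 4) (nat_lit 4) (nat_lit 8) (by decide +kernel)
theorem L40756 : W_5 (nat_lit 3) (nat_lit 0x200010001380082001f00090000000000000000000000) (nat_lit 0x0) (nat_lit 0x8002000020000800040000000000000) := T_5 (nat_lit 89) (nat_lit 109) (nat_lit 0) (nat_lit 7) (nat_lit 6) L40755 (by decide +kernel)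
theorem L40757 : W_5 (nat_lit 4) (nat_lit 0x200010001380080001f00090000000000000000000000) (nat_lit 0x0) (nat_lit 0xb002000020000800040000000000000) := T_5 (nat_lit 121) (nat_lit 120) (nat_lit 1) (nat_lit 5) (nat_lit 6) L40756 (by decide +kernel)
theorem L40758 : W_5 (nat_lit 5) (nat_lit 0x200010001380080001e00090000000000000000000000) (nat_lit 0x0) (nat_lit 0xb002100060000800040000000000000) := T_5 (nat_lit 104) (nat_lit 90) (nat_lit 2) (nat_lit 2) (nat_lit 6) L40757 (by decide +kernel)
theorem L40759 : W_5 (nat_lit 6) (nat_lit 0x200010001380080001e00010000000000000000000000) (nat_lit 0x0) (nat_lit 0xb0021001e0000800040000000000000) := T_5 (nat_lit 91) (nat_lit 92) (nat_lit 2) (nat_lit 3) (nat_lit 6) L40758 (by decide +kernel)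
theorem L40760 : W_5 (nat_lit 7) (nat_lit 0x200010001380080001e00000000000000000000000000) (nat_lit 0x0) (nat_lit 0xb0021001f8000800040000000000000) := T_5 (nat_lit 88) (nat_lit 87) (nat_lit 0) (nat_lit 6) (nat_lit 6) L40759 (by decide +kernel)
theorem L40761 : W_5 (nat_lit 2) (nat_lit 0x2000100013800a1001f800b4000000000000000000000) (nat_lit 0x0) (nat_lit 0x1000000008000000000000800000000000000000) := D_5 (nat_lit 123) (nat_lit 156) (nat_lit 71) (nat_lit 5) (nat_lit 4) (nat_lit 5) (nat_lit 4) (nat_lit 4) (nat_lit 8) (by decide +kernel)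
theorem L40762 : W_5 (nat_lit 3) (nat_lit 0x2000100013800a1001f80094000000000000000000000) (nat_lit 0x0) (nat_lit 0x1000000008000040020000800000000000000000) := T_5 (nat_lit 89) (nat_lit 102) (nat_lit 2) (nat_lit 0) (nat_lit 6) L40761 (by decide +kernel)
theorem L40763 : W_5 (nat_lit 4) (nat_lit 0x2000100013800a1001f80090000000000000000000000) (nat_lit 0x0) (nat_lit 0x1000000008000040026000800000000000000000) := T_5 (nat_lit 86) (nat_lit 85) (nat_lit 0) (nat_lit 4) (nat_lit 6) L40762 (by decide +kernel)
theorem L40764 : W_5 (nat_lit 5) (nat_lit 0x2000100013800a1001f00090000000000000000000000) (nat_lit 0x0) (nat_lit 0x10000000088000c0026000800000000000000000) := T_5 (nat_lit 103) (nat_lit 119) (nat_lit 1) (nat_lit 4) (nat_lit 6) L40763 (by decide +kernel)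
theorem L40765 : W_5 (nat_lit 6) (nat_lit 0x2000100013800a0001f00090000000000000000000000) (nat_lit 0x0) (nat_lit 0x100000000b8000c0026000800000000000000000) := T_5 (nat_lit 120) (nat_lit 121) (nat_lit 1) (nat_lit 5) (nat_lit 6) L40764 (by decide +kernel)
theorem L40766 : W_5 (nat_lit 7) (nat_lit 0x2000100013800a0001e00090000000000000000000000) (nat_lit 0x0) (nat_lit 0x100000000b8001c0066000800000000000000000) := T_5 (nat_lit 104) (nat_lit 90) (nat_lit 2) (nat_lit 2) (nat_lit 6) L40765 (by decide +kernel)
theorem L40767 : W_5 (nat_lit 8) (nat_lit 0x2000100013800a0001e00010000000000000000000000) (nat_lit 0x0) (nat_lit 0x100000000b8001c01e6000800000000000000000) := T_5 (nat_lit 91) (nat_lit 92) (nat_lit 2) (nat_lit 3) (nat_lit 6) L40766 (by decide +kernel)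
theorem L40768 : W_5 (nat_lit 9) (nat_lit 0x200010001380080001e00010000000000000000000000) (nat_lit 0x0) (nat_lit 0x100000006b8001c01e6000800000000000000000) := T_5 (nat_lit 125) (nat_lit 126) (nat_lit 3) (nat_lit 3) (nat_lit 6) L40767 (by decide +kernel)
theorem L40769 : W_5 (nat_lit 10) (nat_lit 0x200010001380080001e00000000000000000000000000) (nat_lit 0x0) (nat_lit 0x100000006b8001c01fe000800000000000000000) := T_5 (nat_lit 88) (nat_lit 87) (nat_lit 0) (nat_lit 6) (nat_lit 6) L40768 (by decide +kernel)
theorem L40770 : W_5 (nat_lit 11) (nat_lit 0x200010001380080000e00000000000000000000000000) (nat_lit 0x0) (nat_lit 0x100000006b8031c01fe000800040000000000000) := Q_5 (nat_lit 108) (C_5 L40752 (C_5 L40754 (C_5 L40760 (C_5 L40769 N_5)))) (by decide +kernel)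
theorem L40771 : W_5 (nat_lit 2) (nat_lit 0x200010001380081001f000b0000000000000000000000) (nat_lit 0x0) (nat_lit 0x8000c0000000000000000000000000) := D_5 (nat_lit 103) (nat_lit 119) (nat_lit 102) (nat_lit 1) (nat_lit 4) (nat_lit 6) (nat_lit 2) (nat_lit 0) (nat_lit 6) (by decide +kernel)
theorem L40772 : W_5 (nat_lit 3) (nat_lit 0x200010001380081001f00090000000000000000000000) (nat_lit 0x0) (nat_lit 0x8020c0020000000000000000000000) := T_5 (nat_lit 89) (nat_lit 109) (nat_lit 0) (nat_lit 7) (nat_lit 6) L40771 (by decide +kernel)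
theorem L40773 : W_5 (nat_lit 4) (nat_lit 0x200010001380080001f00090000000000000000000000) (nat_lit 0x0) (nat_lit 0x38020c0020000000000000000000000) := T_5 (nat_lit 120) (nat_lit 121) (nat_lit 1) (nat_lit 5) (nat_lit 6) L40772 (by decide +kernel)
theorem L40774 : W_5 (nat_lit 5) (nat_lit 0x200010001380080001e00090000000000000000000000) (nat_lit 0x0) (nat_lit 0x38021c0060000000000000000000000) := T_5 (nat_lit 104) (nat_lit 90) (nat_lit 2) (nat_lit 2) (nat_lit 6) L40773 (by decide +kernel)
theorem L40775 : W_5 (nat_lit 6) (nat_lit 0x200010001380080001e00010000000000000000000000) (nat_lit 0x0) (nat_lit 0x38021c01e0000000000000000000000) := T_5 (nat_lit 91) (nat_lit 92) (nat_lit 2) (nat_lit 3) (nat_lit 6) L40774 (by decide +kernel)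
theorem L40776 : W_5 (nat_lit 7) (nat_lit 0x200010001380080001e00000000000000000000000000) (nat_lit 0x0) (nat_lit 0x38021c01f8000000000000000000000) := T_5 (nat_lit 88) (nat_lit 87) (nat_lit 0) (nat_lit 6) (nat_lit 6) L40775 (by decide +kernel)
theorem L40777 : W_5 (nat_lit 2) (nat_lit 0x2000100013800a0001f00008000000000000000000000) (nat_lit 0x0) (nat_lit 0x1c0000000000000000000000) := D_5 (nat_lit 91) (nat_lit 92) (nat_lit 90) (nat_lit 2) (nat_lit 3) (nat_lit 6) (nat_lit 2) (nat_lit 2) (nat_lit 6) (by decide +kernel)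
theorem L40778 : W_5 (nat_lit 3) (nat_lit 0x2000100013800a0001e00008000000000000000000000) (nat_lit 0x0) (nat_lit 0x1001c4000000000000000000000) := T_5 (nat_lit 104) (nat_lit 86) (nat_lit 0) (nat_lit 5) (nat_lit 6) L40777 (by decide +kernel)
theorem L40779 : W_5 (nat_lit 4) (nat_lit 0x200010001380080001e00008000000000000000000000) (nat_lit 0x0) (nat_lit 0x600001001c4000000000000000000000) := T_5 (nat_lit 125) (nat_lit 126) (nat_lit 3) (nat_lit 3) (nat_lit 6) L40778 (by decide +kernel)
theorem L40780 : W_5 (nat_lit 5) (nat_lit 0x200010001380080001e00000000000000000000000000) (nat_lit 0x0) (nat_lit 0x600001001dc000000000000000000000) := T_5 (nat_lit 87) (nat_lit 88) (nat_lit 0) (nat_lit 6) (nat_lit 6) L40779 (by decide +kernel)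
theorem L40781 : W_5 (nat_lit 8) (nat_lit 0x200010001380080000e00000000000000000000000000) (nat_lit 0x0) (nat_lit 0x638031c01fc000000000000000000000) := Q_5 (nat_lit 108) (C_5 L40754 (C_5 L40776 (C_5 L40780 (C_5 L40752 N_5)))) (by decide +kernel)
theorem L40782 : W_5 (nat_lit 2) (nat_lit 0x200010001380088000e00000000000000000000000000) (nat_lit 0x0) (nat_lit 0x5000000000000000020000000000000000000000) := D_5 (nat_lit 89) (nat_lit 156) (nat_lit 158) (nat_lit 5) (nat_lit 4) (nat_lit 5) (nat_lit 7) (nat_lit 4) (nat_lit 5) (by decide +kernel)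
theorem L40783 : W_5 (nat_lit 2) (nat_lit 0x200010001380088000e00000000000000000000000000) (nat_lit 0x0) (nat_lit 0x2000000000000000050000000000000000000000) := D_5 (nat_lit 157) (nat_lit 88) (nat_lit 90) (nat_lit 4) (nat_lit 4) (nat_lit 9) (nat_lit 6) (nat_lit 4) (nat_lit 9) (by decide +kernel)
theorem L40784 : W_5 (nat_lit 3) (nat_lit 0x200010001380080000e00000000000000000000000000) (nat_lit 0x0) (nat_lit 0x7000000008000000070000000000000000000000) := Q_5 (nat_lit 123) (C_5 L40782 (C_5 L40783 N_5)) (by decide +kernel)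
theorem L40785 : W_5 (nat_lit 2) (nat_lit 0x200010001380088001e00090000000000000000000000) (nat_lit 0x0) (nat_lit 0x1000000000002000020000000000000000000000) := D_5 (nat_lit 89) (nat_lit 109) (nat_lit 156) (nat_lit 0) (nat_lit 7) (nat_lit 6) (nat_lit 5) (nat_lit 4) (nat_lit 5) (by decide +kernel)
theorem L40786 : W_5 (nat_lit 3) (nat_lit 0x200010001380080001e00090000000000000000000000) (nat_lit 0x0) (nat_lit 0x3000000008002000020000000000000000000000) := T_5 (nat_lit 123) (nat_lit 157) (nat_lit 4) (nat_lit 4) (nat_lit 9) L40785 (by decide +kernel)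
theorem L40787 : W_5 (nat_lit 4) (nat_lit 0x200010001380080001e00010000000000000000000000) (nat_lit 0x0) (nat_lit 0x30000000080020001a0000000000000000000000) := T_5 (nat_lit 91) (nat_lit 92) (nat_lit 2) (nat_lit 3) (nat_lit 6) L40786 (by decide +kernel)
theorem L40788 : W_5 (nat_lit 5) (nat_lit 0x200010001380080001e00000000000000000000000000) (nat_lit 0x0) (nat_lit 0x30000000080020001b8000000000000000000000) := T_5 (nat_lit 88) (nat_lit 87) (nat_lit 0) (nat_lit 6) (nat_lit 6) L40787 (by decide +kernel)
theorem L40789 : W_5 (nat_lit 2) (nat_lit 0x2000100013800a8001e00010000000000000000000000) (nat_lit 0x0) (nat_lit 0x1000000000000000020000800000000000000000) := D_5 (nat_lit 89) (nat_lit 156) (nat_lit 71) (nat_lit 5) (nat_lit 4) (nat_lit 5) (nat_lit 4) (nat_lit 4) (nat_lit 8) (by decide +kernel)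
theorem L40790 : W_5 (nat_lit 3) (nat_lit 0x2000100013800a0001e00010000000000000000000000) (nat_lit 0x0) (nat_lit 0x3000000008000000020000800000000000000000) := T_5 (nat_lit 123) (nat_lit 157) (nat_lit 4) (nat_lit 4) (nat_lit 9) L40789 (by decide +kernel)
theorem L40791 : W_5 (nat_lit 4) (nat_lit 0x200010001380080001e00010000000000000000000000) (nat_lit 0x0) (nat_lit 0x3000000068000000020000800000000000000000) := T_5 (nat_lit 125) (nat_lit 126) (nat_lit 3) (nat_lit 3) (nat_lit 6) L40790 (by decide +kernel)
theorem L40792 : W_5 (nat_lit 5) (nat_lit 0x200010001380080001e00000000000000000000000000) (nat_lit 0x0) (nat_lit 0x3000000068000000038000800000000000000000) := T_5 (nat_lit 88) (nat_lit 87) (nat_lit 0) (nat_lit 6) (nat_lit 6) L40791 (by decide +kernel)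
theorem L40793 : W_5 (nat_lit 6) (nat_lit 0x200010001380080000e00000000000000000000000000) (nat_lit 0x0) (nat_lit 0x30000000680030001b8000800000000000000000) := Q_5 (nat_lit 108) (C_5 L40754 (C_5 L40788 (C_5 L40792 (C_5 L40752 N_5)))) (by decide +kernel)
theorem L40794 : W_5 (nat_lit 2) (nat_lit 0x200010001380080003e00010000000000000000000000) (nat_lit 0x0) (nat_lit 0x380000000000000000000000) := D_5 (nat_lit 92) (nat_lit 91) (nat_lit 93) (nat_lit 2) (nat_lit 3) (nat_lit 6) (nat_lit 2) (nat_lit 4) (nat_lit 6) (by decide +kernel)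
theorem L40795 : W_5 (nat_lit 3) (nat_lit 0x200010001380080001e00010000000000000000000000) (nat_lit 0x0) (nat_lit 0x40002000380000000000000000000000) := T_5 (nat_lit 109) (nat_lit 126) (nat_lit 3) (nat_lit 4) (nat_lit 6) L40794 (by decide +kernel)
theorem L40796 : W_5 (nat_lit 4) (nat_lit 0x200010001380080001e00000000000000000000000000) (nat_lit 0x0) (nat_lit 0x40002000398000000000000000000000) := T_5 (nat_lit 88) (nat_lit 87) (nat_lit 0) (nat_lit 6) (nat_lit 6) L40795 (by decide +kernel)
theorem L40797 : W_5 (nat_lit 2) (nat_lit 0x200010001380080001e00088000000000000000000000) (nat_lit 0x0) (nat_lit 0x100044000000000000000000000) := D_5 (nat_lit 104) (nat_lit 90) (nat_lit 86) (nat_lit 2) (nat_lit 2) (nat_lit 6) (nat_lit 0) (nat_lit 5) (nat_lit 6) (by decide +kernel)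
theorem L40798 : W_5 (nat_lit 3) (nat_lit 0x200010001380080001e00008000000000000000000000) (nat_lit 0x0) (nat_lit 0x1001c4000000000000000000000) := T_5 (nat_lit 91) (nat_lit 92) (nat_lit 2) (nat_lit 3) (nat_lit 6) L40797 (by decide +kernel)
theorem L40799 : W_5 (nat_lit 4) (nat_lit 0x200010001380080001e00000000000000000000000000) (nat_lit 0x0) (nat_lit 0x1001dc000000000000000000000) := T_5 (nat_lit 87) (nat_lit 88) (nat_lit 0) (nat_lit 6) (nat_lit 6) L40798 (by decide +kernel)
theorem L40800 : W_5 (nat_lit 6) (nat_lit 0x200010001380080000e00000000000000000000000000) (nat_lit 0x0) (nat_lit 0x600031003dc000000000000000000000) := Q_5 (nat_lit 108) (C_5 L40780 (C_5 L40796 (C_5 L40799 (C_5 L40752 N_5)))) (by decide +kernel)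
theorem L40801 : W_5 (nat_lit 2) (nat_lit 0x200010001380088000e00020000000000000000000000) (nat_lit 0x0) (nat_lit 0x2000000000000000040002000000000000000000) := D_5 (nat_lit 90) (nat_lit 157) (nat_lit 73) (nat_lit 6) (nat_lit 4) (nat_lit 9) (nat_lit 6) (nat_lit 4) (nat_lit 8) (by decide +kernel)
theorem L40802 : W_5 (nat_lit 3) (nat_lit 0x200010001380088000e00000000000000000000000000) (nat_lit 0x0) (nat_lit 0x3000000000000000060002000000000000000000) := T_5 (nat_lit 89) (nat_lit 156) (nat_lit 5) (nat_lit 4) (nat_lit 5) L40801 (by decide +kernel)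
theorem L40803 : W_5 (nat_lit 2) (nat_lit 0x200012001380088000e00000000000000000000000000) (nat_lit 0x0) (nat_lit 0xc000000000000000020000000000000000000000) := D_5 (nat_lit 158) (nat_lit 159) (nat_lit 89) (nat_lit 0) (nat_lit 7) (nat_lit 9) (nat_lit 7) (nat_lit 4) (nat_lit 5) (by decide +kernel)
theorem L40804 : W_5 (nat_lit 3) (nat_lit 0x200010001380088000e00000000000000000000000000) (nat_lit 0x0) (nat_lit 0xe000000000000000060000000000000000000000) := T_5 (nat_lit 157) (nat_lit 90) (nat_lit 6) (nat_lit 4) (nat_lit 9) L40803 (by decide +kernel)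
theorem L40805 : W_5 (nat_lit 2) (nat_lit 0x200010001380089000f00044000000100000000000000) (nat_lit 0x0) (nat_lit 0x800080002000000000000000000000) := D_5 (nat_lit 103) (nat_lit 85) (nat_lit 119) (nat_lit 0) (nat_lit 4) (nat_lit 6) (nat_lit 1) (nat_lit 4) (nat_lit 6) (by decide +kernel)
theorem L40806 : W_5 (nat_lit 3) (nat_lit 0x200010001380088000f00044000000100000000000000) (nat_lit 0x0) (nat_lit 0x3800080002000000000000000000000) := T_5 (nat_lit 120) (nat_lit 121) (nat_lit 1) (nat_lit 5) (nat_lit 6) L40805 (by decide +kernel)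
theorem L40807 : W_5 (nat_lit 4) (nat_lit 0x200010001380088000f00040000000100000000000000) (nat_lit 0x0) (nat_lit 0x380008000e000000000000000000000) := T_5 (nat_lit 86) (nat_lit 87) (nat_lit 0) (nat_lit 5) (nat_lit 6) L40806 (by decide +kernel)
theorem L40808 : W_5 (nat_lit 5) (nat_lit 0x200010001380088000e00040000000100000000000000) (nat_lit 0x0) (nat_lit 0x380018008e000000000000000000000) := T_5 (nat_lit 104) (nat_lit 91) (nat_lit 2) (nat_lit 2) (nat_lit 6) L40807 (by decide +kernel)
theorem L40809 : W_5 (nat_lit 6) (nat_lit 0x200010001380088000e00040000000000000000000000) (nat_lit 0x0) (nat_lit 0x380018008e002000100000000000000) := T_5 (nat_lit 56) (nat_lit 73) (nat_lit 5) (nat_lit 5) (nat_lit 3) L40808 (by decide +kernel)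
theorem L40810 : W_5 (nat_lit 7) (nat_lit 0x200010001380088000e00000000000000000000000000) (nat_lit 0x0) (nat_lit 0x20000000038001800ce002000100000000000000) := T_5 (nat_lit 90) (nat_lit 157) (nat_lit 6) (nat_lit 4) (nat_lit 9) L40809 (by decide +kernel)
theorem L40811 : W_5 (nat_lit 8) (nat_lit 0x200010001380080000e00000000000000000000000000) (nat_lit 0x0) (nat_lit 0xf00000000b8001800ee002000100000000000000) := Q_5 (nat_lit 123) (C_5 L40782 (C_5 L40802 (C_5 L40804 (C_5 L40810 N_5)))) (by decide +kernel)
theorem L40812 : W_5 (nat_lit 12) (nat_lit 0x200010001380080000600000000000000000000000000) (nat_lit 0x0) (nat_lit 0xf00000006b8039c03fe002800140000000000000) := Q_5 (nat_lit 107) (C_5 L40770 (C_5 L40781 (C_5 L40784 (C_5 L40793 (C_5 L40800 (C_5 L40811 N_5)))))) (by decide +kernel)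
theorem L40813 : W_5 (nat_lit 2) (nat_lit 0x200010001380080000600030000000000000000000000) (nat_lit 0x0) (nat_lit 0x4000000008000000000000800000000000000000) := D_5 (nat_lit 123) (nat_lit 71) (nat_lit 158) (nat_lit 4) (nat_lit 4) (nat_lit 8) (nat_lit 7) (nat_lit 4) (nat_lit 5) (by decide +kernel)
theorem L40814 : W_5 (nat_lit 2) (nat_lit 0x200010001380084000600038000000000000000000000) (nat_lit 0x0) (nat_lit 0x800006000000000000000000000) := D_5 (nat_lit 86) (nat_lit 107) (nat_lit 85) (nat_lit 3) (nat_lit 1) (nat_lit 5) (nat_lit 3) (nat_lit 0) (nat_lit 5) (by decide +kernel)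
theorem L40815 : W_5 (nat_lit 3) (nat_lit 0x200010001380084000600030000000000000000000000) (nat_lit 0x0) (nat_lit 0x80000e000400000000000000000) := T_5 (nat_lit 87) (nat_lit 70) (nat_lit 4) (nat_lit 3) (nat_lit 8) L40814 (by decide +kernel)
theorem L40816 : W_5 (nat_lit 4) (nat_lit 0x200010001380080000600030000000000000000000000) (nat_lit 0x0) (nat_lit 0x400080000e001400000000000000000) := T_5 (nat_lit 122) (nat_lit 72) (nat_lit 6) (nat_lit 3) (nat_lit 8) L40815 (by decide +kernel)
theorem L40817 : W_5 (nat_lit 5) (nat_lit 0x200010001380080000600010000000000000000000000) (nat_lit 0x0) (nat_lit 0x400000000c00080002e001c00000000000000000) := Q_5 (nat_lit 89) (C_5 L40813 (C_5 L40816 N_5)) (by decide +kernel)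
theorem L40818 : W_5 (nat_lit 5) (nat_lit 0x200010001380080000600010000000000000000000000) (nat_lit 0x0) (nat_lit 0x200000000400190000e000400000000000000000) := T_5 (nat_lit 122) (nat_lit 157) (nat_lit 7) (nat_lit 3) (nat_lit 5) L40747 (by decide +kernel)
theorem L40819 : W_5 (nat_lit 2) (nat_lit 0x200010001380080000600010000000000000000000000) (nat_lit 0x0) (nat_lit 0x200000000c000000000000000000000000000000) := D_5 (nat_lit 157) (nat_lit 122) (nat_lit 123) (nat_lit 7) (nat_lit 3) (nat_lit 5) (nat_lit 4) (nat_lit 4) (nat_lit 9) (by decide +kernel)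
theorem L40820 : W_5 (nat_lit 2) (nat_lit 0x200010001380088000600010000000000000000000000) (nat_lit 0x0) (nat_lit 0x4000000000000000020000800000000000000000) := D_5 (nat_lit 89) (nat_lit 71) (nat_lit 158) (nat_lit 4) (nat_lit 4) (nat_lit 8) (nat_lit 7) (nat_lit 4) (nat_lit 5) (by decide +kernel)
theorem L40821 : W_5 (nat_lit 3) (nat_lit 0x200010001380080000600010000000000000000000000) (nat_lit 0x0) (nat_lit 0x6000000008000000020000800000000000000000) := T_5 (nat_lit 123) (nat_lit 157) (nat_lit 4) (nat_lit 4) (nat_lit 9) L40820 (by decide +kernel)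
theorem L40822 : W_5 (nat_lit 6) (nat_lit 0x200010001380080000600000000000000000000000000) (nat_lit 0x0) (nat_lit 0x600000000c00190003e001c00000000000000000) := Q_5 (nat_lit 88) (C_5 L40817 (C_5 L40818 (C_5 L40819 (C_5 L40821 N_5)))) (by decide +kernel)
theorem L40823 : W_5 (nat_lit 2) (nat_lit 0x200011001380084000600018000000000000000000000) (nat_lit 0x0) (nat_lit 0x20000000000008000000000000800000000000000000) := D_5 (nat_lit 123) (nat_lit 71) (nat_lit 173) (nat_lit 7) (nat_lit 3) (nat_lit 4) (nat_lit 6) (nat_lit 3) (nat_lit 10) (by decide +kernel)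
theorem L40824 : W_5 (nat_lit 3) (nat_lit 0x200010001380084000600018000000000000000000000) (nat_lit 0x0) (nat_lit 0x20001000000008000100000000800000000000000000) := T_5 (nat_lit 156) (nat_lit 104) (nat_lit 4) (nat_lit 3) (nat_lit 9) L40823 (by decide +kernel)
theorem L40825 : W_5 (nat_lit 4) (nat_lit 0x200010001380084000600010000000000000000000000) (nat_lit 0x0) (nat_lit 0x20001000000008000100008000c00000000000000000) := T_5 (nat_lit 87) (nat_lit 70) (nat_lit 4) (nat_lit 3) (nat_lit 8) L40824 (by decide +kernel)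
theorem L40826 : W_5 (nat_lit 2) (nat_lit 0x200010001380084000600010000800000000000000000) (nat_lit 0x0) (nat_lit 0x8000400020000000000000) := D_5 (nat_lit 70) (nat_lit 53) (nat_lit 87) (nat_lit 4) (nat_lit 3) (nat_lit 7) (nat_lit 4) (nat_lit 3) (nat_lit 8) (by decide +kernel)
theorem L40827 : W_5 (nat_lit 3) (nat_lit 0x200010001380084000600010000000000000000000000) (nat_lit 0x0) (nat_lit 0x8000000008000c00020000000000000) := T_5 (nat_lit 71) (nat_lit 123) (nat_lit 7) (nat_lit 3) (nat_lit 4) L40826 (by decide +kernel)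
theorem L40828 : W_5 (nat_lit 2) (nat_lit 0x2000100013800840006000100008000a0000000000000) (nat_lit 0x0) (nat_lit 0x40005000000000) := D_5 (nat_lit 54) (nat_lit 36) (nat_lit 38) (nat_lit 4) (nat_lit 3) (nat_lit 6) (nat_lit 6) (nat_lit 3) (nat_lit 6) (by decide +kernel)
theorem L40829 : W_5 (nat_lit 3) (nat_lit 0x200010001380084000600010000800020000000000000) (nat_lit 0x0) (nat_lit 0x10000c0005000000000) := T_5 (nat_lit 55) (nat_lit 72) (nat_lit 6) (nat_lit 3) (nat_lit 7) L40828 (by decide +kernel)
theorem L40830 : W_5 (nat_lit 4) (nat_lit 0x200010001380084000600010000800000000000000000) (nat_lit 0x0) (nat_lit 0x14000e0005000000000) := T_5 (nat_lit 53) (nat_lit 70) (nat_lit 4) (nat_lit 3) (nat_lit 7) L40829 (by decide +kernel)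
theorem L40831 : W_5 (nat_lit 5) (nat_lit 0x200010001380084000600010000000000000000000000) (nat_lit 0x0) (nat_lit 0x8000000000001c000e0005000000000) := T_5 (nat_lit 71) (nat_lit 123) (nat_lit 7) (nat_lit 3) (nat_lit 4) L40830 (by decide +kernel)
theorem L40832 : W_5 (nat_lit 2) (nat_lit 0x2000100013800840007000100008000e0000000000000) (nat_lit 0x0) (nat_lit 0x1000000000000000008000000000002000000000) := D_5 (nat_lit 87) (nat_lit 37) (nat_lit 156) (nat_lit 5) (nat_lit 3) (nat_lit 2) (nat_lit 4) (nat_lit 3) (nat_lit 9) (by decide +kernel)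
theorem L40833 : W_5 (nat_lit 3) (nat_lit 0x2000100013800840006000100008000e0000000000000) (nat_lit 0x0) (nat_lit 0x1000000002000100008000000000002000000000) := T_5 (nat_lit 104) (nat_lit 121) (nat_lit 5) (nat_lit 3) (nat_lit 3) L40832 (by decide +kernel)
theorem L40834 : W_5 (nat_lit 4) (nat_lit 0x2000100013800840006000100008000c0000000000000) (nat_lit 0x0) (nat_lit 0x1000000002000100008000000020003000000000) := T_5 (nat_lit 53) (nat_lit 36) (nat_lit 4) (nat_lit 3) (nat_lit 6) L40833 (by decide +kernel)
theorem L40835 : W_5 (nat_lit 5) (nat_lit 0x200010001380084000600010000800080000000000000) (nat_lit 0x0) (nat_lit 0x1000000002000100008000000060007000000000) := T_5 (nat_lit 54) (nat_lit 38) (nat_lit 6) (nat_lit 3) (nat_lit 6) L40834 (by decide +kernel)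
theorem L40836 : W_5 (nat_lit 6) (nat_lit 0x200010001380084000600010000800000000000000000) (nat_lit 0x0) (nat_lit 0x10000000020001000080010000e0007000000000) := T_5 (nat_lit 55) (nat_lit 72) (nat_lit 6) (nat_lit 3) (nat_lit 7) L40835 (by decide +kernel)
theorem L40837 : W_5 (nat_lit 7) (nat_lit 0x200010001380084000600010000000000000000000000) (nat_lit 0x0) (nat_lit 0x100000000a0001000080018000e0007000000000) := T_5 (nat_lit 71) (nat_lit 123) (nat_lit 7) (nat_lit 3) (nat_lit 4) L40836 (by decide +kernel)
theorem L40838 : W_5 (nat_lit 8) (nat_lit 0x200010001380084000600000000000000000000000000) (nat_lit 0x0) (nat_lit 0x2000100000000a00190001e001c000e0007000000000) := Q_5 (nat_lit 88) (C_5 L40747 (C_5 L40825 (C_5 L40827 (C_5 L40831 (C_5 L40837 N_5))))) (by decide +kernel)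
theorem L40839 : W_5 (nat_lit 8) (nat_lit 0x200010001380084000600000000000000000000000000) (nat_lit 0x0) (nat_lit 0x300000000a0001000180018000e0007000000000) := T_5 (nat_lit 88) (nat_lit 157) (nat_lit 7) (nat_lit 3) (nat_lit 5) L40837 (by decide +kernel)
theorem L40840 : W_5 (nat_lit 2) (nat_lit 0x200011801380084000600000000000000000000000000) (nat_lit 0x0) (nat_lit 0x2600000000000000000000000000000000000000) := D_5 (nat_lit 154) (nat_lit 157) (nat_lit 153) (nat_lit 2) (nat_lit 1) (nat_lit 9) (nat_lit 2) (nat_lit 0) (nat_lit 9) (by decide +kernel)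
theorem L40841 : W_5 (nat_lit 3) (nat_lit 0x200011001380084000600000000000000000000000000) (nat_lit 0x0) (nat_lit 0x10002e00000000000000000000000000000000000000) := T_5 (nat_lit 155) (nat_lit 172) (nat_lit 5) (nat_lit 3) (nat_lit 6) L40840 (by decide +kernel)
theorem L40842 : W_5 (nat_lit 2) (nat_lit 0x220011001380084000600000000000000000000000000) (nat_lit 0x0) (nat_lit 0x2000100008000000000000000000000) := D_5 (nat_lit 104) (nat_lit 121) (nat_lit 87) (nat_lit 4) (nat_lit 3) (nat_lit 10) (nat_lit 4) (nat_lit 3) (nat_lit 9) (by decide +kernel)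
theorem L40843 : W_5 (nat_lit 3) (nat_lit 0x200011001380084000600000000000000000000000000) (nat_lit 0x0) (nat_lit 0x2000000000000a000100008000000000000000000000) := T_5 (nat_lit 173) (nat_lit 123) (nat_lit 6) (nat_lit 3) (nat_lit 10) L40842 (by decide +kernel)
theorem L40844 : W_5 (nat_lit 5) (nat_lit 0x200010001380084000600000000000000000000000000) (nat_lit 0x0) (nat_lit 0x200030003e0000000a000100008000000000000000000000) := Q_5 (nat_lit 156) (C_5 L40841 (C_5 L40743 (C_5 L40843 N_5))) (by decide +kernel)
theorem L40845 : W_5 (nat_lit 6) (nat_lit 0x200010001380084000600000000000000000000000000) (nat_lit 0x0) (nat_lit 0x2000000008000000010001c000e0005000000000) := T_5 (nat_lit 88) (nat_lit 157) (nat_lit 7) (nat_lit 3) (nat_lit 5) L40831 (by decide +kernel)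
theorem L40846 : W_5 (nat_lit 9) (nat_lit 0x200010001380080000600000000000000000000000000) (nat_lit 0x0) (nat_lit 0x200030003e0000000e00190001e001c000e0007000000000) := Q_5 (nat_lit 122) (C_5 L40838 (C_5 L40748 (C_5 L40839 (C_5 L40844 (C_5 L40845 N_5))))) (by decide +kernel)
theorem L40847 : W_5 (nat_lit 2) (nat_lit 0x200011001380080000600000000000000000000000000) (nat_lit 0x0) (nat_lit 0xc000000020000000000000000000000) := D_5 (nat_lit 89) (nat_lit 123) (nat_lit 122) (nat_lit 5) (nat_lit 4) (nat_lit 5) (nat_lit 6) (nat_lit 3) (nat_lit 9) (by decide +kernel)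
theorem L40848 : W_5 (nat_lit 4) (nat_lit 0x200011001380080000600000000000000000000000000) (nat_lit 0x0) (nat_lit 0x10002e00000004000000020000000000000000000000) := T_5 (nat_lit 122) (nat_lit 89) (nat_lit 6) (nat_lit 3) (nat_lit 9) L40841 (by decide +kernel)
theorem L40849 : W_5 (nat_lit 2) (nat_lit 0x200011001380088000600000000000000000000000000) (nat_lit 0x0) (nat_lit 0x400020002000000000000000000000000000000000000000) := D_5 (nat_lit 173) (nat_lit 157) (nat_lit 190) (nat_lit 5) (nat_lit 4) (nat_lit 6) (nat_lit 6) (nat_lit 3) (nat_lit 11) (by decide +kernel)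
theorem L40850 : W_5 (nat_lit 3) (nat_lit 0x200011001380080000600000000000000000000000000) (nat_lit 0x0) (nat_lit 0x400020002000000008000000020000000000000000000000) := T_5 (nat_lit 123) (nat_lit 89) (nat_lit 5) (nat_lit 4) (nat_lit 5) L40849 (by decide +kernel)
theorem L40851 : W_5 (nat_lit 4) (nat_lit 0x200011001380080000600000000000000000000000000) (nat_lit 0x0) (nat_lit 0x30002e0000000e000100008000000000000000000000) := Q_5 (nat_lit 122) (C_5 L40841 (C_5 L40843 N_5)) (by decide +kernel)
theorem L40852 : W_5 (nat_lit 5) (nat_lit 0x200010001380080000600000000000000000000000000) (nat_lit 0x0) (nat_lit 0x400030003e0000000e000100028000000000000000000000) := Q_5 (nat_lit 156) (C_5 L40847 (C_5 L40848 (C_5 L40850 (C_5 L40851 N_5)))) (by decide +kernel)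
theorem L40853 : W_5 (nat_lit 2) (nat_lit 0x200010001380088000600000000000000000000000000) (nat_lit 0x0) (nat_lit 0x5000000000000000020000000000000000000000) := D_5 (nat_lit 89) (nat_lit 156) (nat_lit 158) (nat_lit 5) (nat_lit 4) (nat_lit 5) (nat_lit 7) (nat_lit 4) (nat_lit 5) (by decide +kernel)
theorem L40854 : W_5 (nat_lit 2) (nat_lit 0x200010001380088000600020000000000000000000000) (nat_lit 0x0) (nat_lit 0x2000000000000000010000800000000000000000) := D_5 (nat_lit 88) (nat_lit 157) (nat_lit 71) (nat_lit 4) (nat_lit 4) (nat_lit 9) (nat_lit 4) (nat_lit 4) (nat_lit 8) (by decide +kernel)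
theorem L40855 : W_5 (nat_lit 3) (nat_lit 0x200010001380088000600000000000000000000000000) (nat_lit 0x0) (nat_lit 0x3000000000000000030000800000000000000000) := T_5 (nat_lit 89) (nat_lit 156) (nat_lit 5) (nat_lit 4) (nat_lit 5) L40854 (by decide +kernel)
theorem L40856 : W_5 (nat_lit 2) (nat_lit 0x200012001380088000600000000000000000000000000) (nat_lit 0x0) (nat_lit 0xc000000000000000020000000000000000000000) := D_5 (nat_lit 158) (nat_lit 89) (nat_lit 159) (nat_lit 7) (nat_lit 4) (nat_lit 5) (nat_lit 0) (nat_lit 7) (nat_lit 9) (by decide +kernel)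
theorem L40857 : W_5 (nat_lit 3) (nat_lit 0x200010001380088000600000000000000000000000000) (nat_lit 0x0) (nat_lit 0xe000000000000000030000000000000000000000) := T_5 (nat_lit 157) (nat_lit 88) (nat_lit 4) (nat_lit 4) (nat_lit 9) L40856 (by decide +kernel)
theorem L40858 : W_5 (nat_lit 2) (nat_lit 0x240012001380088000600000000000000000000000000) (nat_lit 0x0) (nat_lit 0x400020001000000000000000000000000000000000000000) := D_5 (nat_lit 173) (nat_lit 190) (nat_lit 156) (nat_lit 5) (nat_lit 4) (nat_lit 7) (nat_lit 5) (nat_lit 4) (nat_lit 6) (by decide +kernel)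
theorem L40859 : W_5 (nat_lit 3) (nat_lit 0x200012001380088000600000000000000000000000000) (nat_lit 0x0) (nat_lit 0x400060001000000004000000000000000000000000000000) := T_5 (nat_lit 174) (nat_lit 122) (nat_lit 4) (nat_lit 4) (nat_lit 10) L40858 (by decide +kernel)
theorem L40860 : W_5 (nat_lit 4) (nat_lit 0x200010001380088000600000000000000000000000000) (nat_lit 0x0) (nat_lit 0x400060003000000004000000010000000000000000000000) := T_5 (nat_lit 157) (nat_lit 88) (nat_lit 4) (nat_lit 4) (nat_lit 9) L40859 (by decide +kernel)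
theorem L40861 : W_5 (nat_lit 5) (nat_lit 0x200010001380080000600000000000000000000000000) (nat_lit 0x0) (nat_lit 0x40006000f00000000c000000030000800000000000000000) := Q_5 (nat_lit 123) (C_5 L40853 (C_5 L40855 (C_5 L40857 (C_5 L40860 N_5)))) (by decide +kernel)
theorem L40862 : W_5 (nat_lit 13) (nat_lit 0x200010001380080000400000000000000000000000000) (nat_lit 0x0) (nat_lit 0x60007000fe0000006f803bc03fe003c001e0007000000000) := Q_5 (nat_lit 105) (C_5 L40740 (C_5 L40751 (C_5 L40812 (C_5 L40822 (C_5 L40846 (C_5 L40852 (C_5 L40861 N_5))))))) (by decide +kernel)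
theorem L40863 : W_5 (nat_lit 2) (nat_lit 0x200010001380088000400000000000000000000000000) (nat_lit 0x0) (nat_lit 0x5000000000000000020000000000000000000000) := D_5 (nat_lit 89) (nat_lit 156) (nat_lit 158) (nat_lit 5) (nat_lit 4) (nat_lit 5) (nat_lit 7) (nat_lit 4) (nat_lit 5) (by decide +kernel)
theorem L40864 : W_5 (nat_lit 3) (nat_lit 0x200010001380088000400000000000000000000000000) (nat_lit 0x0) (nat_lit 0x1000000014000000020001000000000000000000) := T_5 (nat_lit 89) (nat_lit 156) (nat_lit 5) (nat_lit 4) (nat_lit 5) L40730 (by decide +kernel)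
theorem L40865 : W_5 (nat_lit 3) (nat_lit 0x200010001380088000400000000000000000000000000) (nat_lit 0x0) (nat_lit 0x4000000014000000020001000000000000000000) := T_5 (nat_lit 89) (nat_lit 158) (nat_lit 7) (nat_lit 4) (nat_lit 5) L40730 (by decide +kernel)
theorem L40866 : W_5 (nat_lit 2) (nat_lit 0x240013401380088000c00000000000000000000000000) (nat_lit 0x0) (nat_lit 0x800000000000000004000200000000000000000000000000) := D_5 (nat_lit 122) (nat_lit 105) (nat_lit 191) (nat_lit 7) (nat_lit 3) (nat_lit 6) (nat_lit 4) (nat_lit 4) (nat_lit 11) (by decide +kernel)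
theorem L40867 : W_5 (nat_lit 3) (nat_lit 0x200013401380088000c00000000000000000000000000) (nat_lit 0x0) (nat_lit 0x800040000000000014000200000000000000000000000000) := T_5 (nat_lit 174) (nat_lit 124) (nat_lit 6) (nat_lit 4) (nat_lit 10) L40866 (by decide +kernel)
theorem L40868 : W_5 (nat_lit 4) (nat_lit 0x200013401380088000400000000000000000000000000) (nat_lit 0x0) (nat_lit 0x800040000000000014000a00040000000000000000000000) := T_5 (nat_lit 107) (nat_lit 90) (nat_lit 6) (nat_lit 4) (nat_lit 9) L40867 (by decide +kernel)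
theorem L40869 : W_5 (nat_lit 5) (nat_lit 0x200013001380088000400000000000000000000000000) (nat_lit 0x0) (nat_lit 0x800040000c00000014000a00040000000000000000000000) := T_5 (nat_lit 154) (nat_lit 155) (nat_lit 2) (nat_lit 1) (nat_lit 9) L40868 (by decide +kernel)
theorem L40870 : W_5 (nat_lit 6) (nat_lit 0x200012001380088000400000000000000000000000000) (nat_lit 0x0) (nat_lit 0x800060001c00000014000a00040000000000000000000000) := T_5 (nat_lit 156) (nat_lit 173) (nat_lit 5) (nat_lit 4) (nat_lit 6) L40869 (by decide +kernel)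
theorem L40871 : W_5 (nat_lit 4) (nat_lit 0x200012001380088000400000000000000000000000000) (nat_lit 0x0) (nat_lit 0x400060001000000004000200010000000000000000000000) := T_5 (nat_lit 105) (nat_lit 88) (nat_lit 4) (nat_lit 4) (nat_lit 9) L40859 (by decide +kernel)
theorem L40872 : W_5 (nat_lit 2) (nat_lit 0x20001380138008c000e00000000000000000000000000) (nat_lit 0x0) (nat_lit 0x3001000000000000000000000000000) := D_5 (nat_lit 121) (nat_lit 120) (nat_lit 108) (nat_lit 3) (nat_lit 1) (nat_lit 7) (nat_lit 1) (nat_lit 6) (nat_lit 6) (by decide +kernel)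
theorem L40873 : W_5 (nat_lit 3) (nat_lit 0x200013801380088000e00000000000000000000000000) (nat_lit 0x0) (nat_lit 0x10000000000007001000000000000000000000000000) := T_5 (nat_lit 122) (nat_lit 172) (nat_lit 5) (nat_lit 3) (nat_lit 6) L40872 (by decide +kernel)
theorem L40874 : W_5 (nat_lit 4) (nat_lit 0x200013801380088000600000000000000000000000000) (nat_lit 0x0) (nat_lit 0x10000000000007001800040000000000000000000000) := T_5 (nat_lit 107) (nat_lit 90) (nat_lit 6) (nat_lit 4) (nat_lit 9) L40873 (by decide +kernel)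
theorem L40875 : W_5 (nat_lit 5) (nat_lit 0x200013001380088000600000000000000000000000000) (nat_lit 0x0) (nat_lit 0x10000c00000007001800040000000000000000000000) := T_5 (nat_lit 155) (nat_lit 154) (nat_lit 2) (nat_lit 1) (nat_lit 9) L40874 (by decide +kernel)
theorem L40876 : W_5 (nat_lit 6) (nat_lit 0x200012001380088000600000000000000000000000000) (nat_lit 0x0) (nat_lit 0x30001c00000007001800040000000000000000000000) := T_5 (nat_lit 156) (nat_lit 173) (nat_lit 5) (nat_lit 4) (nat_lit 6) L40875 (by decide +kernel)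
theorem L40877 : W_5 (nat_lit 7) (nat_lit 0x200012001380088000400000000000000000000000000) (nat_lit 0x0) (nat_lit 0x30001c00000007001a00050000000000000000000000) := T_5 (nat_lit 105) (nat_lit 88) (nat_lit 4) (nat_lit 4) (nat_lit 9) L40876 (by decide +kernel)
theorem L40878 : W_5 (nat_lit 2) (nat_lit 0x200013401380098000e00000000000000000000000000) (nat_lit 0x0) (nat_lit 0x20000180000000000000000000000000) := D_5 (nat_lit 104) (nat_lit 125) (nat_lit 103) (nat_lit 3) (nat_lit 2) (nat_lit 6) (nat_lit 3) (nat_lit 1) (nat_lit 6) (by decide +kernel)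
theorem L40879 : W_5 (nat_lit 3) (nat_lit 0x200013401380088000e00000000000000000000000000) (nat_lit 0x0) (nat_lit 0x40000000000030000180000000000000000000000000) := T_5 (nat_lit 124) (nat_lit 174) (nat_lit 6) (nat_lit 4) (nat_lit 10) L40878 (by decide +kernel)
theorem L40880 : W_5 (nat_lit 4) (nat_lit 0x200013401380088000600000000000000000000000000) (nat_lit 0x0) (nat_lit 0x40000000000030000980040000000000000000000000) := T_5 (nat_lit 107) (nat_lit 90) (nat_lit 6) (nat_lit 4) (nat_lit 9) L40879 (by decide +kernel)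
theorem L40881 : W_5 (nat_lit 5) (nat_lit 0x200013401380088000400000000000000000000000000) (nat_lit 0x0) (nat_lit 0x40000000000030000b80050000000000000000000000) := T_5 (nat_lit 105) (nat_lit 88) (nat_lit 4) (nat_lit 4) (nat_lit 9) L40880 (by decide +kernel)
theorem L40882 : W_5 (nat_lit 6) (nat_lit 0x200013001380088000400000000000000000000000000) (nat_lit 0x0) (nat_lit 0x40000c00000030000b80050000000000000000000000) := T_5 (nat_lit 154) (nat_lit 155) (nat_lit 2) (nat_lit 1) (nat_lit 9) L40881 (by decide +kernel)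
theorem L40883 : W_5 (nat_lit 7) (nat_lit 0x200012001380088000400000000000000000000000000) (nat_lit 0x0) (nat_lit 0x60001c00000030000b80050000000000000000000000) := T_5 (nat_lit 156) (nat_lit 173) (nat_lit 5) (nat_lit 4) (nat_lit 6) L40882 (by decide +kernel)
theorem L40884 : W_5 (nat_lit 2) (nat_lit 0x240012001380088000c00000000000000000000000000) (nat_lit 0x0) (nat_lit 0x800000000000000004000200000000000000000000000000) := D_5 (nat_lit 122) (nat_lit 191) (nat_lit 105) (nat_lit 4) (nat_lit 4) (nat_lit 11) (nat_lit 4) (nat_lit 4) (nat_lit 10) (by decide +kernel)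
theorem L40885 : W_5 (nat_lit 3) (nat_lit 0x200012001380088000c00000000000000000000000000) (nat_lit 0x0) (nat_lit 0x800040000000000014000200000000000000000000000000) := T_5 (nat_lit 174) (nat_lit 124) (nat_lit 6) (nat_lit 4) (nat_lit 10) L40884 (by decide +kernel)
theorem L40886 : W_5 (nat_lit 4) (nat_lit 0x200012001380088000400000000000000000000000000) (nat_lit 0x0) (nat_lit 0x800040000000000014000a00040000000000000000000000) := T_5 (nat_lit 107) (nat_lit 90) (nat_lit 6) (nat_lit 4) (nat_lit 9) L40885 (by decide +kernel)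
theorem L40887 : W_5 (nat_lit 2) (nat_lit 0x240013401380088000c00000000000000000000000000) (nat_lit 0x0) (nat_lit 0x10000800000000000000004000000000000000000000000000000) := D_5 (nat_lit 191) (nat_lit 208) (nat_lit 122) (nat_lit 4) (nat_lit 4) (nat_lit 12) (nat_lit 4) (nat_lit 4) (nat_lit 11) (by decide +kernel)
theorem L40888 : W_5 (nat_lit 3) (nat_lit 0x200013401380088000c00000000000000000000000000) (nat_lit 0x0) (nat_lit 0x10000800040000000000014000000000000000000000000000000) := T_5 (nat_lit 174) (nat_lit 124) (nat_lit 6) (nat_lit 4) (nat_lit 10) L40887 (by decide +kernel)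
theorem L40889 : W_5 (nat_lit 4) (nat_lit 0x200013401380088000400000000000000000000000000) (nat_lit 0x0) (nat_lit 0x10000800040000000000014000800040000000000000000000000) := T_5 (nat_lit 107) (nat_lit 90) (nat_lit 6) (nat_lit 4) (nat_lit 9) L40888 (by decide +kernel)
theorem L40890 : W_5 (nat_lit 5) (nat_lit 0x200013001380088000400000000000000000000000000) (nat_lit 0x0) (nat_lit 0x10000800040000c00000014000800040000000000000000000000) := T_5 (nat_lit 154) (nat_lit 155) (nat_lit 2) (nat_lit 1) (nat_lit 9) L40889 (by decide +kernel)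
theorem L40891 : W_5 (nat_lit 6) (nat_lit 0x200012001380088000400000000000000000000000000) (nat_lit 0x0) (nat_lit 0x10000800060001c00000014000800040000000000000000000000) := T_5 (nat_lit 156) (nat_lit 173) (nat_lit 5) (nat_lit 4) (nat_lit 6) L40890 (by decide +kernel)
theorem L40892 : W_5 (nat_lit 8) (nat_lit 0x200010001380088000400000000000000000000000000) (nat_lit 0x0) (nat_lit 0x10000c00070003c00000037001b80050000000000000000000000) := Q_5 (nat_lit 157) (C_5 L40870 (C_5 L40871 (C_5 L40877 (C_5 L40883 (C_5 L40886 (C_5 L40891 N_5)))))) (by decide +kernel)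
theorem L40893 : W_5 (nat_lit 9) (nat_lit 0x200010001380080000400000000000000000000000000) (nat_lit 0x0) (nat_lit 0x10000c00070007c0000003f001b80070001000000000000000000) := Q_5 (nat_lit 123) (C_5 L40863 (C_5 L40864 (C_5 L40865 (C_5 L40892 N_5)))) (by decide +kernel)
theorem L40894 : W_5 (nat_lit 2) (nat_lit 0x2000100013800e0001400000000000000000000000000) (nat_lit 0x0) (nat_lit 0x100002800000000000000000000000000) := D_5 (nat_lit 107) (nat_lit 109) (nat_lit 128) (nat_lit 3) (nat_lit 4) (nat_lit 6) (nat_lit 0) (nat_lit 9) (nat_lit 7) (by decide +kernel)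
theorem L40895 : W_5 (nat_lit 3) (nat_lit 0x2000100013800e0000400000000000000000000000000) (nat_lit 0x0) (nat_lit 0x800100003800000000000000000000000000) := T_5 (nat_lit 108) (nat_lit 143) (nat_lit 4) (nat_lit 7) (nat_lit 10) L40894 (by decide +kernel)
theorem L40896 : W_5 (nat_lit 4) (nat_lit 0x2000100013800c0000400000000000000000000000000) (nat_lit 0x0) (nat_lit 0x800130003800000000000000000000000000) := T_5 (nat_lit 125) (nat_lit 124) (nat_lit 1) (nat_lit 8) (nat_lit 7) L40895 (by decide +kernel)
theorem L40897 : W_5 (nat_lit 2) (nat_lit 0x2000340013800d0000c00000000000000000000000000) (nat_lit 0x0) (nat_lit 0x3000080000000000000000000000) := D_5 (nat_lit 108) (nat_lit 109) (nat_lit 91) (nat_lit 3) (nat_lit 4) (nat_lit 6) (nat_lit 6) (nat_lit 5) (nat_lit 9) (by decide +kernel)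
theorem L40898 : W_5 (nat_lit 3) (nat_lit 0x2000340013800d0000400000000000000000000000000) (nat_lit 0x0) (nat_lit 0x38000a0000000000000000000000) := T_5 (nat_lit 107) (nat_lit 89) (nat_lit 4) (nat_lit 5) (nat_lit 9) L40897 (by decide +kernel)
theorem L40899 : W_5 (nat_lit 4) (nat_lit 0x2000140013800d0000400000000000000000000000000) (nat_lit 0x0) (nat_lit 0x280000000000038000a0000000000000000000000) := T_5 (nat_lit 161) (nat_lit 159) (nat_lit 0) (nat_lit 8) (nat_lit 9) L40898 (by decide +kernel)
theorem L40900 : W_5 (nat_lit 5) (nat_lit 0x2000140013800c0000400000000000000000000000000) (nat_lit 0x0) (nat_lit 0x280000000300038000a0000000000000000000000) := T_5 (nat_lit 124) (nat_lit 125) (nat_lit 1) (nat_lit 8) (nat_lit 7) L40899 (by decide +kernel)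
theorem L40901 : W_5 (nat_lit 2) (nat_lit 0x2000140013800d0000c00000000000000000000000000) (nat_lit 0x0) (nat_lit 0x40002000000000000000040000000000000000000000) := D_5 (nat_lit 157) (nat_lit 90) (nat_lit 174) (nat_lit 5) (nat_lit 5) (nat_lit 5) (nat_lit 5) (nat_lit 5) (nat_lit 6) (by decide +kernel)
theorem L40902 : W_5 (nat_lit 3) (nat_lit 0x2000140013800d0000400000000000000000000000000) (nat_lit 0x0) (nat_lit 0x40002000000000000800060000000000000000000000) := T_5 (nat_lit 107) (nat_lit 89) (nat_lit 4) (nat_lit 5) (nat_lit 9) L40901 (by decide +kernel)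
theorem L40903 : W_5 (nat_lit 4) (nat_lit 0x2000140013800c0000400000000000000000000000000) (nat_lit 0x0) (nat_lit 0x40002000000030000800060000000000000000000000) := T_5 (nat_lit 124) (nat_lit 125) (nat_lit 1) (nat_lit 8) (nat_lit 7) L40902 (by decide +kernel)
theorem L40904 : W_5 (nat_lit 2) (nat_lit 0x2000140013800c0000400000000000000000000000000) (nat_lit 0x0) (nat_lit 0x2a000000000000000000000000000000000000000) := D_5 (nat_lit 159) (nat_lit 161) (nat_lit 157) (nat_lit 0) (nat_lit 8) (nat_lit 9) (nat_lit 0) (nat_lit 7) (nat_lit 9) (by decide +kernel)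
theorem L40905 : W_5 (nat_lit 6) (nat_lit 0x2000100013800c0000400000000000000000000000000) (nat_lit 0x0) (nat_lit 0x4002e0000000300038000e0000000000000000000000) := Q_5 (nat_lit 158) (C_5 L40900 (C_5 L40903 (C_5 L40904 N_5))) (by decide +kernel)
theorem L40906 : W_5 (nat_lit 2) (nat_lit 0x200010001b800c0002c00100000000000000000000000) (nat_lit 0x0) (nat_lit 0x2000100008000000000000000000000000000000000000000) := D_5 (nat_lit 176) (nat_lit 193) (nat_lit 159) (nat_lit 5) (nat_lit 7) (nat_lit 7) (nat_lit 5) (nat_lit 7) (nat_lit 6) (by decide +kernel)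
theorem L40907 : W_5 (nat_lit 3) (nat_lit 0x2000100013800c0002c00100000000000000000000000) (nat_lit 0x0) (nat_lit 0x2000100028000800000000000000000000000000000000000) := T_5 (nat_lit 143) (nat_lit 161) (nat_lit 7) (nat_lit 7) (nat_lit 5) L40906 (by decide +kernel)
theorem L40908 : W_5 (nat_lit 4) (nat_lit 0x2000100013800c0002c00000000000000000000000000) (nat_lit 0x0) (nat_lit 0x2000100028000800000000000100008000000000000000000) := T_5 (nat_lit 92) (nat_lit 75) (nat_lit 7) (nat_lit 7) (nat_lit 4) L40907 (by decide +kernel)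
theorem L40909 : W_5 (nat_lit 5) (nat_lit 0x2000100013800c0002400000000000000000000000000) (nat_lit 0x0) (nat_lit 0x2000100028000800000001800100008000000000000000000) := T_5 (nat_lit 107) (nat_lit 108) (nat_lit 3) (nat_lit 4) (nat_lit 6) L40908 (by decide +kernel)
theorem L40910 : W_5 (nat_lit 2) (nat_lit 0x2000140013800c0002400000000000000000000000000) (nat_lit 0x0) (nat_lit 0x2a000000000000000000000000000000000000000) := D_5 (nat_lit 159) (nat_lit 157) (nat_lit 161) (nat_lit 0) (nat_lit 7) (nat_lit 9) (nat_lit 0) (nat_lit 8) (nat_lit 9) (by decide +kernel)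
theorem L40911 : W_5 (nat_lit 2) (nat_lit 0x20001c0013800c0002c00000008000000000000000000) (nat_lit 0x0) (nat_lit 0x100000000000010000000020000000000000000000000) := D_5 (nat_lit 124) (nat_lit 89) (nat_lit 176) (nat_lit 4) (nat_lit 5) (nat_lit 9) (nat_lit 7) (nat_lit 5) (nat_lit 6) (by decide +kernel)
theorem L40912 : W_5 (nat_lit 3) (nat_lit 0x20001c0013800c0002400000008000000000000000000) (nat_lit 0x0) (nat_lit 0x100000000000010001800020000000000000000000000) := T_5 (nat_lit 107) (nat_lit 108) (nat_lit 3) (nat_lit 4) (nat_lit 6) L40911 (by decide +kernel)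
theorem L40913 : W_5 (nat_lit 4) (nat_lit 0x2000140013800c0002400000008000000000000000000) (nat_lit 0x0) (nat_lit 0x100028000000010001800020000000000000000000000) := T_5 (nat_lit 159) (nat_lit 161) (nat_lit 0) (nat_lit 8) (nat_lit 9) L40912 (by decide +kernel)
theorem L40914 : W_5 (nat_lit 5) (nat_lit 0x2000140013800c0002400000000000000000000000000) (nat_lit 0x0) (nat_lit 0x100028000000010001800120008000000000000000000) := T_5 (nat_lit 75) (nat_lit 92) (nat_lit 7) (nat_lit 7) (nat_lit 4) L40913 (by decide +kernel)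
theorem L40915 : W_5 (nat_lit 2) (nat_lit 0x2000140013800d0002c00000008000000000000000000) (nat_lit 0x0) (nat_lit 0x40002000000000000000040000000000000000000000) := D_5 (nat_lit 157) (nat_lit 90) (nat_lit 174) (nat_lit 5) (nat_lit 5) (nat_lit 5) (nat_lit 5) (nat_lit 5) (nat_lit 6) (by decide +kernel)
theorem L40916 : W_5 (nat_lit 3) (nat_lit 0x2000140013800c0002c00000008000000000000000000) (nat_lit 0x0) (nat_lit 0x40002000000010000000060000000000000000000000) := T_5 (nat_lit 124) (nat_lit 89) (nat_lit 4) (nat_lit 5) (nat_lit 9) L40915 (by decide +kernel)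
theorem L40917 : W_5 (nat_lit 4) (nat_lit 0x2000140013800c0002c00000000000000000000000000) (nat_lit 0x0) (nat_lit 0x40002000000010000000160008000000000000000000) := T_5 (nat_lit 75) (nat_lit 92) (nat_lit 7) (nat_lit 7) (nat_lit 4) L40916 (by decide +kernel)
theorem L40918 : W_5 (nat_lit 5) (nat_lit 0x2000140013800c0002400000000000000000000000000) (nat_lit 0x0) (nat_lit 0x40002000000010001800160008000000000000000000) := T_5 (nat_lit 107) (nat_lit 108) (nat_lit 3) (nat_lit 4) (nat_lit 6) L40917 (by decide +kernel)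
theorem L40919 : W_5 (nat_lit 6) (nat_lit 0x2000100013800c0002400000000000000000000000000) (nat_lit 0x0) (nat_lit 0x14002e000000010001800160008000000000000000000) := Q_5 (nat_lit 158) (C_5 L40910 (C_5 L40914 (C_5 L40918 N_5))) (by decide +kernel)
theorem L40920 : W_5 (nat_lit 2) (nat_lit 0x200010001b800c0002c00180000000000000000000000) (nat_lit 0x0) (nat_lit 0x240010000000000000000000) := D_5 (nat_lit 93) (nat_lit 90) (nat_lit 76) (nat_lit 1) (nat_lit 8) (nat_lit 5) (nat_lit 6) (nat_lit 7) (nat_lit 8) (by decide +kernel)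
theorem L40921 : W_5 (nat_lit 3) (nat_lit 0x200010001b800c0002c00100000000000000000000000) (nat_lit 0x0) (nat_lit 0x2c0014000000000000000000) := T_5 (nat_lit 91) (nat_lit 74) (nat_lit 4) (nat_lit 7) (nat_lit 8) L40920 (by decide +kernel)
theorem L40922 : W_5 (nat_lit 4) (nat_lit 0x2000100013800c0002c00100000000000000000000000) (nat_lit 0x0) (nat_lit 0x200008000000000002c0014000000000000000000) := T_5 (nat_lit 143) (nat_lit 161) (nat_lit 7) (nat_lit 7) (nat_lit 5) L40921 (by decide +kernel)
theorem L40923 : W_5 (nat_lit 5) (nat_lit 0x2000100013800c0002c00000000000000000000000000) (nat_lit 0x0) (nat_lit 0x200008000000000003c001c000000000000000000) := T_5 (nat_lit 92) (nat_lit 75) (nat_lit 7) (nat_lit 7) (nat_lit 4) L40922 (by decide +kernel)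
theorem L40924 : W_5 (nat_lit 6) (nat_lit 0x2000100013800c0002400000000000000000000000000) (nat_lit 0x0) (nat_lit 0x200008000000018003c001c000000000000000000) := T_5 (nat_lit 107) (nat_lit 108) (nat_lit 3) (nat_lit 4) (nat_lit 6) L40923 (by decide +kernel)
theorem L40925 : W_5 (nat_lit 2) (nat_lit 0x200010001b800c0002400100000000000000000000000) (nat_lit 0x0) (nat_lit 0x1000080004000000000000000000) := D_5 (nat_lit 91) (nat_lit 74) (nat_lit 108) (nat_lit 4) (nat_lit 7) (nat_lit 8) (nat_lit 4) (nat_lit 7) (nat_lit 9) (by decide +kernel)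
theorem L40926 : W_5 (nat_lit 3) (nat_lit 0x2000100013800c0002400100000000000000000000000) (nat_lit 0x0) (nat_lit 0x20000800000001000080004000000000000000000) := T_5 (nat_lit 143) (nat_lit 161) (nat_lit 7) (nat_lit 7) (nat_lit 5) L40925 (by decide +kernel)
theorem L40927 : W_5 (nat_lit 4) (nat_lit 0x2000100013800c0002400000000000000000000000000) (nat_lit 0x0) (nat_lit 0x2000080000000100018000c000000000000000000) := T_5 (nat_lit 92) (nat_lit 75) (nat_lit 7) (nat_lit 7) (nat_lit 4) L40926 (by decide +kernel)
theorem L40928 : W_5 (nat_lit 2) (nat_lit 0x200010001b800c0002400100000000000000000000000) (nat_lit 0x0) (nat_lit 0x2000100008000000000000000000000000000000000000000) := D_5 (nat_lit 176) (nat_lit 193) (nat_lit 159) (nat_lit 5) (nat_lit 7) (nat_lit 7) (nat_lit 5) (nat_lit 7) (nat_lit 6) (by decide +kernel)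
theorem L40929 : W_5 (nat_lit 3) (nat_lit 0x2000100013800c0002400100000000000000000000000) (nat_lit 0x0) (nat_lit 0x2000100028000800000000000000000000000000000000000) := T_5 (nat_lit 143) (nat_lit 161) (nat_lit 7) (nat_lit 7) (nat_lit 5) L40928 (by decide +kernel)
theorem L40930 : W_5 (nat_lit 4) (nat_lit 0x2000100013800c0002400000000000000000000000000) (nat_lit 0x0) (nat_lit 0x2000100028000800000000000100008000000000000000000) := T_5 (nat_lit 92) (nat_lit 75) (nat_lit 7) (nat_lit 7) (nat_lit 4) L40929 (by decide +kernel)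
theorem L40931 : W_5 (nat_lit 2) (nat_lit 0x200010001b802c0003400000000000000000000000000) (nat_lit 0x0) (nat_lit 0x2000100008000000000000000000000000000000000000000) := D_5 (nat_lit 176) (nat_lit 159) (nat_lit 193) (nat_lit 5) (nat_lit 7) (nat_lit 6) (nat_lit 5) (nat_lit 7) (nat_lit 7) (by decide +kernel)
theorem L40932 : W_5 (nat_lit 3) (nat_lit 0x2000100013802c0003400000000000000000000000000) (nat_lit 0x0) (nat_lit 0x2000100008000800000000000080000000000000000000000) := T_5 (nat_lit 143) (nat_lit 91) (nat_lit 4) (nat_lit 7) (nat_lit 9) L40931 (by decide +kernel)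
theorem L40933 : W_5 (nat_lit 4) (nat_lit 0x2000100013800c0003400000000000000000000000000) (nat_lit 0x0) (nat_lit 0x2000100008000800300000000080000000000000000000000) := T_5 (nat_lit 129) (nat_lit 128) (nat_lit 0) (nat_lit 10) (nat_lit 7) L40932 (by decide +kernel)
theorem L40934 : W_5 (nat_lit 5) (nat_lit 0x2000100013800c0002400000000000000000000000000) (nat_lit 0x0) (nat_lit 0x2000100008000800300001800080000000000000000000000) := T_5 (nat_lit 108) (nat_lit 107) (nat_lit 3) (nat_lit 4) (nat_lit 6) L40933 (by decide +kernel)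
theorem L40935 : W_5 (nat_lit 7) (nat_lit 0x2000100013800c0000400000000000000000000000000) (nat_lit 0x0) (nat_lit 0x200014002e0008003100038003e001c000000000000000000) := Q_5 (nat_lit 109) (C_5 L40909 (C_5 L40919 (C_5 L40924 (C_5 L40927 (C_5 L40930 (C_5 L40934 N_5)))))) (by decide +kernel)
theorem L40936 : W_5 (nat_lit 2) (nat_lit 0x2000100013800c0001c00000000000000000000000000) (nat_lit 0x0) (nat_lit 0x800020000200000000000000000000000000) := D_5 (nat_lit 125) (nat_lit 105) (nat_lit 143) (nat_lit 3) (nat_lit 3) (nat_lit 6) (nat_lit 4) (nat_lit 7) (nat_lit 10) (by decide +kernel)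
theorem L40937 : W_5 (nat_lit 3) (nat_lit 0x2000100013800c0001400000000000000000000000000) (nat_lit 0x0) (nat_lit 0x800020002a00000000000000000000000000) := T_5 (nat_lit 107) (nat_lit 109) (nat_lit 3) (nat_lit 4) (nat_lit 6) L40936 (by decide +kernel)
theorem L40938 : W_5 (nat_lit 2) (nat_lit 0x2000100013800c0001c00000000000000000000000000) (nat_lit 0x0) (nat_lit 0x120000200000000000000000000000000) := D_5 (nat_lit 125) (nat_lit 105) (nat_lit 128) (nat_lit 3) (nat_lit 3) (nat_lit 6) (nat_lit 0) (nat_lit 9) (nat_lit 7) (by decide +kernel)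
theorem L40939 : W_5 (nat_lit 3) (nat_lit 0x2000100013800c0001400000000000000000000000000) (nat_lit 0x0) (nat_lit 0x120002a00000000000000000000000000) := T_5 (nat_lit 107) (nat_lit 109) (nat_lit 3) (nat_lit 4) (nat_lit 6) L40938 (by decide +kernel)
theorem L40940 : W_5 (nat_lit 5) (nat_lit 0x2000100013800c0001400000000000000000000000000) (nat_lit 0x0) (nat_lit 0x2000100008000800300002800080000000000000000000000) := T_5 (nat_lit 109) (nat_lit 107) (nat_lit 3) (nat_lit 4) (nat_lit 6) L40933 (by decide +kernel)
theorem L40941 : W_5 (nat_lit 2) (nat_lit 0x300010001b800c0001400000000000000000000000000) (nat_lit 0x0) (nat_lit 0x8000000000002000080000000000000000000000) := D_5 (nat_lit 109) (nat_lit 91) (nat_lit 159) (nat_lit 4) (nat_lit 7) (nat_lit 9) (nat_lit 5) (nat_lit 7) (nat_lit 6) (by decide +kernel)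
theorem L40942 : W_5 (nat_lit 3) (nat_lit 0x200010001b800c0001400000000000000000000000000) (nat_lit 0x0) (nat_lit 0x2000100008000000000002000080000000000000000000000) := T_5 (nat_lit 176) (nat_lit 193) (nat_lit 5) (nat_lit 7) (nat_lit 7) L40941 (by decide +kernel)
theorem L40943 : W_5 (nat_lit 4) (nat_lit 0x2000100013800c0001400000000000000000000000000) (nat_lit 0x0) (nat_lit 0x2000100008000800020002000080000000000000000000000) := T_5 (nat_lit 143) (nat_lit 125) (nat_lit 4) (nat_lit 7) (nat_lit 10) L40942 (by decide +kernel)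
theorem L40944 : W_5 (nat_lit 2) (nat_lit 0x2000100013800e0001400000000000000000000000000) (nat_lit 0x0) (nat_lit 0x100000a00000000000000000000000000) := D_5 (nat_lit 107) (nat_lit 105) (nat_lit 128) (nat_lit 3) (nat_lit 3) (nat_lit 6) (nat_lit 0) (nat_lit 9) (nat_lit 7) (by decide +kernel)
theorem L40945 : W_5 (nat_lit 3) (nat_lit 0x2000100013800c0001400000000000000000000000000) (nat_lit 0x0) (nat_lit 0x800120000a00000000000000000000000000) := T_5 (nat_lit 125) (nat_lit 143) (nat_lit 4) (nat_lit 7) (nat_lit 10) L40944 (by decide +kernel)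
theorem L40946 : W_5 (nat_lit 6) (nat_lit 0x2000100013800c0000400000000000000000000000000) (nat_lit 0x0) (nat_lit 0x2000100008000800320003a00080000000000000000000000) := Q_5 (nat_lit 108) (C_5 L40937 (C_5 L40939 (C_5 L40940 (C_5 L40943 (C_5 L40945 N_5))))) (by decide +kernel)
theorem L40947 : W_5 (nat_lit 2) (nat_lit 0x300010001b800e0002400000000000000000000000000) (nat_lit 0x0) (nat_lit 0x20000000000000000100008000000000000000000) := D_5 (nat_lit 92) (nat_lit 161) (nat_lit 75) (nat_lit 7) (nat_lit 7) (nat_lit 5) (nat_lit 7) (nat_lit 7) (nat_lit 4) (by decide +kernel)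
theorem L40948 : W_5 (nat_lit 3) (nat_lit 0x300010001b800e0000400000000000000000000000000) (nat_lit 0x0) (nat_lit 0x28000000000002000100008000000000000000000) := T_5 (nat_lit 109) (nat_lit 159) (nat_lit 5) (nat_lit 7) (nat_lit 6) L40947 (by decide +kernel)
theorem L40949 : W_5 (nat_lit 4) (nat_lit 0x200010001b800e0000400000000000000000000000000) (nat_lit 0x0) (nat_lit 0x2000100028000000000002000100008000000000000000000) := T_5 (nat_lit 176) (nat_lit 193) (nat_lit 5) (nat_lit 7) (nat_lit 7) L40948 (by decide +kernel)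
theorem L40950 : W_5 (nat_lit 5) (nat_lit 0x2000100013800e0000400000000000000000000000000) (nat_lit 0x0) (nat_lit 0x2000100028000800000003000100008000000000000000000) := T_5 (nat_lit 143) (nat_lit 108) (nat_lit 4) (nat_lit 7) (nat_lit 10) L40949 (by decide +kernel)
theorem L40951 : W_5 (nat_lit 6) (nat_lit 0x2000100013800c0000400000000000000000000000000) (nat_lit 0x0) (nat_lit 0x2000100028000800030003000100008000000000000000000) := T_5 (nat_lit 125) (nat_lit 124) (nat_lit 1) (nat_lit 8) (nat_lit 7) L40950 (by decide +kernel)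
theorem L40952 : W_5 (nat_lit 3) (nat_lit 0x2000100013800e0000400000000000000000000000000) (nat_lit 0x0) (nat_lit 0x800100001a00000000000000000000000000) := T_5 (nat_lit 108) (nat_lit 143) (nat_lit 4) (nat_lit 7) (nat_lit 10) L40944 (by decide +kernel)
theorem L40953 : W_5 (nat_lit 4) (nat_lit 0x2000100013800c0000400000000000000000000000000) (nat_lit 0x0) (nat_lit 0x800130001a00000000000000000000000000) := T_5 (nat_lit 125) (nat_lit 124) (nat_lit 1) (nat_lit 8) (nat_lit 7) L40952 (by decide +kernel)
theorem L40954 : W_5 (nat_lit 2) (nat_lit 0x20001c0013800d0000400000000000000000000000000) (nat_lit 0x0) (nat_lit 0x100000000000000000800020000000000000000000000) := D_5 (nat_lit 107) (nat_lit 89) (nat_lit 176) (nat_lit 4) (nat_lit 5) (nat_lit 9) (nat_lit 7) (nat_lit 5) (nat_lit 6) (by decide +kernel)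
theorem L40955 : W_5 (nat_lit 3) (nat_lit 0x2000140013800d0000400000000000000000000000000) (nat_lit 0x0) (nat_lit 0x100028000000000000800020000000000000000000000) := T_5 (nat_lit 159) (nat_lit 161) (nat_lit 0) (nat_lit 8) (nat_lit 9) L40954 (by decide +kernel)
theorem L40956 : W_5 (nat_lit 4) (nat_lit 0x2000140013800c0000400000000000000000000000000) (nat_lit 0x0) (nat_lit 0x100028000000030000800020000000000000000000000) := T_5 (nat_lit 124) (nat_lit 125) (nat_lit 1) (nat_lit 8) (nat_lit 7) L40955 (by decide +kernel)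
theorem L40957 : W_5 (nat_lit 5) (nat_lit 0x2000100013800c0000400000000000000000000000000) (nat_lit 0x0) (nat_lit 0x14002e000000030000800060000000000000000000000) := Q_5 (nat_lit 158) (C_5 L40956 (C_5 L40903 (C_5 L40904 N_5))) (by decide +kernel)
theorem L40958 : W_5 (nat_lit 8) (nat_lit 0x200010001380080000400000000000000000000000000) (nat_lit 0x0) (nat_lit 0x200014002e000800370003a003e001c000000000000000000) := Q_5 (nat_lit 126) (C_5 L40896 (C_5 L40905 (C_5 L40935 (C_5 L40946 (C_5 L40951 (C_5 L40953 (C_5 L40957 N_5))))))) (by decide +kernel)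
theorem L40959 : W_5 (nat_lit 2) (nat_lit 0x200010001380088000400020001000000000000000000) (nat_lit 0x0) (nat_lit 0x40002000100000000000000) := D_5 (nat_lit 73) (nat_lit 90) (nat_lit 56) (nat_lit 6) (nat_lit 4) (nat_lit 8) (nat_lit 6) (nat_lit 4) (nat_lit 7) (by decide +kernel)
theorem L40960 : W_5 (nat_lit 3) (nat_lit 0x200010001380088000400020000000000000000000000) (nat_lit 0x0) (nat_lit 0x4000000040003000100000000000000) := T_5 (nat_lit 72) (nat_lit 122) (nat_lit 5) (nat_lit 4) (nat_lit 4) L40959 (by decide +kernel)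
theorem L40961 : W_5 (nat_lit 4) (nat_lit 0x200010001380088000400000000000000000000000000) (nat_lit 0x0) (nat_lit 0x1000000004000000060003000100000000000000) := T_5 (nat_lit 89) (nat_lit 156) (nat_lit 5) (nat_lit 4) (nat_lit 5) L40960 (by decide +kernel)
theorem L40962 : W_5 (nat_lit 2) (nat_lit 0x200012001380088000400030000000000000000000000) (nat_lit 0x0) (nat_lit 0x800040002000000000000000000) := D_5 (nat_lit 90) (nat_lit 73) (nat_lit 107) (nat_lit 6) (nat_lit 4) (nat_lit 8) (nat_lit 6) (nat_lit 4) (nat_lit 9) (by decide +kernel)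
theorem L40963 : W_5 (nat_lit 3) (nat_lit 0x200010001380088000400030000000000000000000000) (nat_lit 0x0) (nat_lit 0x2000000000000a00040002000000000000000000) := T_5 (nat_lit 157) (nat_lit 105) (nat_lit 4) (nat_lit 4) (nat_lit 9) L40962 (by decide +kernel)
theorem L40964 : W_5 (nat_lit 4) (nat_lit 0x200010001380088000400020000000000000000000000) (nat_lit 0x0) (nat_lit 0x2000000000000a00050002800000000000000000) := T_5 (nat_lit 88) (nat_lit 71) (nat_lit 4) (nat_lit 4) (nat_lit 8) L40963 (by decide +kernel)
theorem L40965 : W_5 (nat_lit 5) (nat_lit 0x200010001380088000400000000000000000000000000) (nat_lit 0x0) (nat_lit 0x3000000000000a00070002800000000000000000) := T_5 (nat_lit 89) (nat_lit 156) (nat_lit 5) (nat_lit 4) (nat_lit 5) L40964 (by decide +kernel)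
theorem L40966 : W_5 (nat_lit 5) (nat_lit 0x200010001380088000400000000000000000000000000) (nat_lit 0x0) (nat_lit 0x2000000014000a00070003800100000000000000) := Q_5 (nat_lit 89) (C_5 L40960 (C_5 L40964 (C_5 L40730 N_5))) (by decide +kernel)
theorem L40967 : W_5 (nat_lit 9) (nat_lit 0x200010001380080000400000000000000000000000000) (nat_lit 0x0) (nat_lit 0x10000c00070003c0000003f001b80070003800100000000000000) := Q_5 (nat_lit 123) (C_5 L40892 (C_5 L40864 (C_5 L40961 (C_5 L40965 (C_5 L40966 N_5))))) (by decide +kernel)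
theorem L40968 : W_5 (nat_lit 2) (nat_lit 0x24001a001380088000c00000000000000000000000000) (nat_lit 0x0) (nat_lit 0x400020001000000000000000000000000000000000000000) := D_5 (nat_lit 173) (nat_lit 190) (nat_lit 156) (nat_lit 5) (nat_lit 4) (nat_lit 7) (nat_lit 5) (nat_lit 4) (nat_lit 6) (by decide +kernel)
theorem L40969 : W_5 (nat_lit 3) (nat_lit 0x20001a001380088000c00000000000000000000000000) (nat_lit 0x0) (nat_lit 0x400060001000000010000000000000000000000000000000) := T_5 (nat_lit 174) (nat_lit 124) (nat_lit 6) (nat_lit 4) (nat_lit 10) L40968 (by decide +kernel)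
theorem L40970 : W_5 (nat_lit 4) (nat_lit 0x20001a001380088000400000000000000000000000000) (nat_lit 0x0) (nat_lit 0x400060001000000010000800040000000000000000000000) := T_5 (nat_lit 107) (nat_lit 90) (nat_lit 6) (nat_lit 4) (nat_lit 9) L40969 (by decide +kernel)
theorem L40971 : W_5 (nat_lit 5) (nat_lit 0x200012001380088000400000000000000000000000000) (nat_lit 0x0) (nat_lit 0x40006000d000000010000800040000000000000000000000) := T_5 (nat_lit 159) (nat_lit 158) (nat_lit 0) (nat_lit 7) (nat_lit 9) L40970 (by decide +kernel)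
theorem L40972 : W_5 (nat_lit 8) (nat_lit 0x200010001380088000400000000000000000000000000) (nat_lit 0x0) (nat_lit 0x10000c0007000fc00000017001a00050000000000000000000000) := Q_5 (nat_lit 157) (C_5 L40891 (C_5 L40877 (C_5 L40871 (C_5 L40971 (C_5 L40886 N_5))))) (by decide +kernel)
theorem L40973 : W_5 (nat_lit 9) (nat_lit 0x200010001380080000400000000000000000000000000) (nat_lit 0x0) (nat_lit 0x10000c0007000fc0000001f001a00070003800100000000000000) := Q_5 (nat_lit 123) (C_5 L40966 (C_5 L40961 (C_5 L40965 (C_5 L40865 (C_5 L40972 N_5))))) (by decide +kernel)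
theorem L40974 : W_5 (nat_lit 2) (nat_lit 0x20001b80138008d000700000000000000000000000000) (nat_lit 0x0) (nat_lit 0x10800080000000000000000000000000) := D_5 (nat_lit 103) (nat_lit 124) (nat_lit 119) (nat_lit 3) (nat_lit 1) (nat_lit 6) (nat_lit 1) (nat_lit 4) (nat_lit 6) (by decide +kernel)
theorem L40975 : W_5 (nat_lit 3) (nat_lit 0x20001b80138008d000600000000000000000000000000) (nat_lit 0x0) (nat_lit 0x10800180008000000000000000000000) := T_5 (nat_lit 104) (nat_lit 87) (nat_lit 4) (nat_lit 3) (nat_lit 9) L40974 (by decide +kernel)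
theorem L40976 : W_5 (nat_lit 4) (nat_lit 0x20001b80138008c000600000000000000000000000000) (nat_lit 0x0) (nat_lit 0x13800180008000000000000000000000) := T_5 (nat_lit 120) (nat_lit 121) (nat_lit 3) (nat_lit 1) (nat_lit 7) L40975 (by decide +kernel)
theorem L40977 : W_5 (nat_lit 5) (nat_lit 0x20001b801380088000600000000000000000000000000) (nat_lit 0x0) (nat_lit 0x10000000000017800180008000000000000000000000) := T_5 (nat_lit 122) (nat_lit 172) (nat_lit 5) (nat_lit 3) (nat_lit 6) L40976 (by decide +kernel)
theorem L40978 : W_5 (nat_lit 6) (nat_lit 0x20001b001380088000600000000000000000000000000) (nat_lit 0x0) (nat_lit 0x10000c00000017800180008000000000000000000000) := T_5 (nat_lit 155) (nat_lit 154) (nat_lit 2) (nat_lit 1) (nat_lit 9) L40977 (by decide +kernel)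
theorem L40979 : W_5 (nat_lit 7) (nat_lit 0x20001a001380088000600000000000000000000000000) (nat_lit 0x0) (nat_lit 0x30001c00000017800180008000000000000000000000) := T_5 (nat_lit 156) (nat_lit 173) (nat_lit 5) (nat_lit 4) (nat_lit 6) L40978 (by decide +kernel)
theorem L40980 : W_5 (nat_lit 8) (nat_lit 0x20001a001380088000400000000000000000000000000) (nat_lit 0x0) (nat_lit 0x30001c00000017800380018000000000000000000000) := T_5 (nat_lit 105) (nat_lit 88) (nat_lit 4) (nat_lit 4) (nat_lit 9) L40979 (by decide +kernel)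
theorem L40981 : W_5 (nat_lit 9) (nat_lit 0x200012001380088000400000000000000000000000000) (nat_lit 0x0) (nat_lit 0x3000dc00000017800380018000000000000000000000) := T_5 (nat_lit 159) (nat_lit 158) (nat_lit 0) (nat_lit 7) (nat_lit 9) L40980 (by decide +kernel)
theorem L40982 : W_5 (nat_lit 2) (nat_lit 0x260016001380088000600000000000000000000000000) (nat_lit 0x0) (nat_lit 0x10000800000000000000010000000000000000000000000000000) := D_5 (nat_lit 191) (nat_lit 208) (nat_lit 124) (nat_lit 6) (nat_lit 4) (nat_lit 12) (nat_lit 6) (nat_lit 4) (nat_lit 11) (by decide +kernel)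
theorem L40983 : W_5 (nat_lit 3) (nat_lit 0x220016001380088000600000000000000000000000000) (nat_lit 0x0) (nat_lit 0x10000c00040000000000010000000000000000000000000000000) := T_5 (nat_lit 174) (nat_lit 190) (nat_lit 5) (nat_lit 4) (nat_lit 7) L40982 (by decide +kernel)
theorem L40984 : W_5 (nat_lit 4) (nat_lit 0x220012001380088000600000000000000000000000000) (nat_lit 0x0) (nat_lit 0x10000c0004000c000000010000000000000000000000000000000) := T_5 (nat_lit 158) (nat_lit 159) (nat_lit 0) (nat_lit 7) (nat_lit 9) L40983 (by decide +kernel)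
theorem L40985 : W_5 (nat_lit 5) (nat_lit 0x220012001380088000400000000000000000000000000) (nat_lit 0x0) (nat_lit 0x10000c0004000c000000010000200010000000000000000000000) := T_5 (nat_lit 105) (nat_lit 88) (nat_lit 4) (nat_lit 4) (nat_lit 9) L40984 (by decide +kernel)
theorem L40986 : W_5 (nat_lit 6) (nat_lit 0x200012001380088000400000000000000000000000000) (nat_lit 0x0) (nat_lit 0x10000c0006000d000000010000200010000000000000000000000) := T_5 (nat_lit 173) (nat_lit 156) (nat_lit 5) (nat_lit 4) (nat_lit 6) L40985 (by decide +kernel)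
theorem L40987 : W_5 (nat_lit 2) (nat_lit 0x800240012001380088000600000000000000000000000000) (nat_lit 0x0) (nat_lit 0x1000000000000c000000000000000000000000000000000000000) := D_5 (nat_lit 158) (nat_lit 208) (nat_lit 159) (nat_lit 6) (nat_lit 4) (nat_lit 12) (nat_lit 0) (nat_lit 7) (nat_lit 9) (by decide +kernel)
theorem L40988 : W_5 (nat_lit 3) (nat_lit 0x240012001380088000600000000000000000000000000) (nat_lit 0x0) (nat_lit 0x1000080000000c000000010000000000000000000000000000000) := T_5 (nat_lit 191) (nat_lit 124) (nat_lit 6) (nat_lit 4) (nat_lit 11) L40987 (by decide +kernel)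
theorem L40989 : W_5 (nat_lit 4) (nat_lit 0x200012001380088000600000000000000000000000000) (nat_lit 0x0) (nat_lit 0x1000080004000c000000014000000000000000000000000000000) := T_5 (nat_lit 174) (nat_lit 122) (nat_lit 4) (nat_lit 4) (nat_lit 10) L40988 (by decide +kernel)
theorem L40990 : W_5 (nat_lit 5) (nat_lit 0x200012001380088000400000000000000000000000000) (nat_lit 0x0) (nat_lit 0x1000080004000c000000014000200010000000000000000000000) := T_5 (nat_lit 105) (nat_lit 88) (nat_lit 4) (nat_lit 4) (nat_lit 9) L40989 (by decide +kernel)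
theorem L40991 : W_5 (nat_lit 2) (nat_lit 0x260012001380088000400000000000000000000000000) (nat_lit 0x0) (nat_lit 0x800000000000000014000000000000000000000000000000) := D_5 (nat_lit 191) (nat_lit 122) (nat_lit 124) (nat_lit 4) (nat_lit 4) (nat_lit 11) (nat_lit 6) (nat_lit 4) (nat_lit 11) (by decide +kernel)
theorem L40992 : W_5 (nat_lit 3) (nat_lit 0x220012001380088000400000000000000000000000000) (nat_lit 0x0) (nat_lit 0xc00040000000000014000000000000000000000000000000) := T_5 (nat_lit 174) (nat_lit 190) (nat_lit 5) (nat_lit 4) (nat_lit 7) L40991 (by decide +kernel)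
theorem L40993 : W_5 (nat_lit 4) (nat_lit 0x200012001380088000400000000000000000000000000) (nat_lit 0x0) (nat_lit 0xc00060001000000014000000000000000000000000000000) := T_5 (nat_lit 173) (nat_lit 156) (nat_lit 5) (nat_lit 4) (nat_lit 6) L40992 (by decide +kernel)
theorem L40994 : W_5 (nat_lit 10) (nat_lit 0x200010001380088000400000000000000000000000000) (nat_lit 0x0) (nat_lit 0x10000c0007000fc00000017800380018000000000000000000000) := Q_5 (nat_lit 157) (C_5 L40871 (C_5 L40981 (C_5 L40986 (C_5 L40990 (C_5 L40993 N_5))))) (by decide +kernel)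
theorem L40995 : W_5 (nat_lit 11) (nat_lit 0x200010001380080000400000000000000000000000000) (nat_lit 0x0) (nat_lit 0x10000c0007000fc0000001f800380078003000100000000000000) := Q_5 (nat_lit 123) (C_5 L40961 (C_5 L40863 (C_5 L40865 (C_5 L40994 N_5)))) (by decide +kernel)
theorem L40996 : W_5 (nat_lit 11) (nat_lit 0x200010001380080000400000000000000000000000000) (nat_lit 0x0) (nat_lit 0x10000c0007000fc0000001f800380038001000000000000000000) := Q_5 (nat_lit 123) (C_5 L40865 (C_5 L40994 (C_5 L40864 (C_5 L40863 N_5)))) (by decide +kernel)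
theorem L40997 : W_5 (nat_lit 8) (nat_lit 0x200012001380080000400000000000000000000000000) (nat_lit 0x0) (nat_lit 0xc00070001c0000003f001b80050000000000000000000000) := Q_5 (nat_lit 123) (C_5 L40993 (C_5 L40877 (C_5 L40883 (C_5 L40886 N_5)))) (by decide +kernel)
theorem L40998 : W_5 (nat_lit 2) (nat_lit 0x240012001380080000400000000000000000000000000) (nat_lit 0x0) (nat_lit 0x800000000000000014000000000000000000000000000000) := D_5 (nat_lit 191) (nat_lit 122) (nat_lit 124) (nat_lit 4) (nat_lit 4) (nat_lit 11) (nat_lit 6) (nat_lit 4) (nat_lit 11) (by decide +kernel)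
theorem L40999 : W_5 (nat_lit 2) (nat_lit 0x1000080024001a001380080000400000000000000000000000000) (nat_lit 0x0) (nat_lit 0x100008000400000000000000000000000000000000000000000000000) := D_5 (nat_lit 207) (nat_lit 224) (nat_lit 190) (nat_lit 5) (nat_lit 4) (nat_lit 9) (nat_lit 5) (nat_lit 4) (nat_lit 8) (by decide +kernel)
theorem L41000 : W_5 (nat_lit 3) (nat_lit 0x80024001a001380080000400000000000000000000000000) (nat_lit 0x0) (nat_lit 0x100018000400000001000000000000000000000000000000000000000) := T_5 (nat_lit 208) (nat_lit 156) (nat_lit 4) (nat_lit 4) (nat_lit 12) L40999 (by decide +kernel)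
theorem L41001 : W_5 (nat_lit 4) (nat_lit 0x24001a001380080000400000000000000000000000000) (nat_lit 0x0) (nat_lit 0x100018000c00000001000000004000000000000000000000000000000) := T_5 (nat_lit 191) (nat_lit 122) (nat_lit 4) (nat_lit 4) (nat_lit 11) L41000 (by decide +kernel)
theorem L41002 : W_5 (nat_lit 5) (nat_lit 0x240012001380080000400000000000000000000000000) (nat_lit 0x0) (nat_lit 0x100018000c0000000d000000004000000000000000000000000000000) := T_5 (nat_lit 159) (nat_lit 158) (nat_lit 0) (nat_lit 7) (nat_lit 9) L41001 (by decide +kernel)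
theorem L41003 : W_5 (nat_lit 2) (nat_lit 0x800240012001380080000400000000000000000000000000) (nat_lit 0x0) (nat_lit 0x10000000000005000000000000000000000000000000000000000) := D_5 (nat_lit 208) (nat_lit 158) (nat_lit 156) (nat_lit 6) (nat_lit 4) (nat_lit 12) (nat_lit 4) (nat_lit 4) (nat_lit 12) (by decide +kernel)
theorem L41004 : W_5 (nat_lit 3) (nat_lit 0x240012001380080000400000000000000000000000000) (nat_lit 0x0) (nat_lit 0x10000800000005000000010000000000000000000000000000000) := T_5 (nat_lit 191) (nat_lit 124) (nat_lit 6) (nat_lit 4) (nat_lit 11) L41003 (by decide +kernel)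
theorem L41005 : W_5 (nat_lit 2) (nat_lit 0x240016001380088000c00000000000000000000000000) (nat_lit 0x0) (nat_lit 0x400020001000000000000000000000000000000000000000) := D_5 (nat_lit 173) (nat_lit 156) (nat_lit 190) (nat_lit 5) (nat_lit 4) (nat_lit 6) (nat_lit 5) (nat_lit 4) (nat_lit 7) (by decide +kernel)
theorem L41006 : W_5 (nat_lit 3) (nat_lit 0x240016001380080000c00000000000000000000000000) (nat_lit 0x0) (nat_lit 0x400020001000000008000000040000000000000000000000) := T_5 (nat_lit 123) (nat_lit 90) (nat_lit 6) (nat_lit 4) (nat_lit 9) L41005 (by decide +kernel)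
theorem L41007 : W_5 (nat_lit 4) (nat_lit 0x240016001380080000400000000000000000000000000) (nat_lit 0x0) (nat_lit 0x400020001000000018000800040000000000000000000000) := T_5 (nat_lit 107) (nat_lit 124) (nat_lit 5) (nat_lit 5) (nat_lit 6) L41006 (by decide +kernel)
theorem L41008 : W_5 (nat_lit 5) (nat_lit 0x240012001380080000400000000000000000000000000) (nat_lit 0x0) (nat_lit 0x40002000d000000018000800040000000000000000000000) := T_5 (nat_lit 158) (nat_lit 159) (nat_lit 0) (nat_lit 7) (nat_lit 9) L41007 (by decide +kernel)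
theorem L41009 : W_5 (nat_lit 6) (nat_lit 0x200012001380080000400000000000000000000000000) (nat_lit 0x0) (nat_lit 0x100018000c0006000d00000001c000800040000000000000000000000) := Q_5 (nat_lit 174) (C_5 L40998 (C_5 L41002 (C_5 L41004 (C_5 L41008 N_5)))) (by decide +kernel)
theorem L41010 : W_5 (nat_lit 2) (nat_lit 0x20001a001b800e0000400000000000000000000000000) (nat_lit 0x0) (nat_lit 0x2000100000000000000002000000000000000000000000000) := D_5 (nat_lit 176) (nat_lit 109) (nat_lit 193) (nat_lit 5) (nat_lit 7) (nat_lit 6) (nat_lit 5) (nat_lit 7) (nat_lit 7) (by decide +kernel)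
theorem L41011 : W_5 (nat_lit 3) (nat_lit 0x20001a0013800e0000400000000000000000000000000) (nat_lit 0x0) (nat_lit 0x2000100000000800000003000000000000000000000000000) := T_5 (nat_lit 143) (nat_lit 108) (nat_lit 4) (nat_lit 7) (nat_lit 10) L41010 (by decide +kernel)
theorem L41012 : W_5 (nat_lit 4) (nat_lit 0x20001a0013800c0000400000000000000000000000000) (nat_lit 0x0) (nat_lit 0x2000100000000800030003000000000000000000000000000) := T_5 (nat_lit 125) (nat_lit 124) (nat_lit 1) (nat_lit 8) (nat_lit 7) L41011 (by decide +kernel)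
theorem L41013 : W_5 (nat_lit 5) (nat_lit 0x2000120013800c0000400000000000000000000000000) (nat_lit 0x0) (nat_lit 0x200010000c000800030003000000000000000000000000000) := T_5 (nat_lit 159) (nat_lit 158) (nat_lit 0) (nat_lit 7) (nat_lit 9) L41012 (by decide +kernel)
theorem L41014 : W_5 (nat_lit 2) (nat_lit 0x2000120013800e0001400000000000000000000000000) (nat_lit 0x0) (nat_lit 0x100002800000000000000000000000000) := D_5 (nat_lit 107) (nat_lit 109) (nat_lit 128) (nat_lit 3) (nat_lit 4) (nat_lit 6) (nat_lit 0) (nat_lit 9) (nat_lit 7) (by decide +kernel)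
theorem L41015 : W_5 (nat_lit 3) (nat_lit 0x2000120013800e0000400000000000000000000000000) (nat_lit 0x0) (nat_lit 0x800100003800000000000000000000000000) := T_5 (nat_lit 108) (nat_lit 143) (nat_lit 4) (nat_lit 7) (nat_lit 10) L41014 (by decide +kernel)
theorem L41016 : W_5 (nat_lit 4) (nat_lit 0x2000120013800c0000400000000000000000000000000) (nat_lit 0x0) (nat_lit 0x800130003800000000000000000000000000) := T_5 (nat_lit 125) (nat_lit 124) (nat_lit 1) (nat_lit 8) (nat_lit 7) L41015 (by decide +kernel)
theorem L41017 : W_5 (nat_lit 2) (nat_lit 0x2000160013800d0000400000000000000000000000000) (nat_lit 0x0) (nat_lit 0x40000000000000000800040000000000000000000000) := D_5 (nat_lit 107) (nat_lit 90) (nat_lit 174) (nat_lit 5) (nat_lit 5) (nat_lit 5) (nat_lit 5) (nat_lit 5) (nat_lit 6) (by decide +kernel)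
theorem L41018 : W_5 (nat_lit 3) (nat_lit 0x2000120013800d0000400000000000000000000000000) (nat_lit 0x0) (nat_lit 0x4000c000000000000800040000000000000000000000) := T_5 (nat_lit 158) (nat_lit 159) (nat_lit 0) (nat_lit 7) (nat_lit 9) L41017 (by decide +kernel)
theorem L41019 : W_5 (nat_lit 4) (nat_lit 0x2000120013800c0000400000000000000000000000000) (nat_lit 0x0) (nat_lit 0x4000c000000030000800040000000000000000000000) := T_5 (nat_lit 124) (nat_lit 125) (nat_lit 1) (nat_lit 8) (nat_lit 7) L41018 (by decide +kernel)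
theorem L41020 : W_5 (nat_lit 2) (nat_lit 0x2400120013800c0000400000000000000000000000000) (nat_lit 0x0) (nat_lit 0x800000000000000014000000000000000000000000000000) := D_5 (nat_lit 191) (nat_lit 122) (nat_lit 124) (nat_lit 4) (nat_lit 4) (nat_lit 11) (nat_lit 6) (nat_lit 4) (nat_lit 11) (by decide +kernel)
theorem L41021 : W_5 (nat_lit 2) (nat_lit 0x1000080024001a0013800c0000400000000000000000000000000) (nat_lit 0x0) (nat_lit 0x100008000400000000000000000000000000000000000000000000000) := D_5 (nat_lit 207) (nat_lit 224) (nat_lit 190) (nat_lit 5) (nat_lit 4) (nat_lit 9) (nat_lit 5) (nat_lit 4) (nat_lit 8) (by decide +kernel)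
theorem L41022 : W_5 (nat_lit 3) (nat_lit 0x80024001a0013800c0000400000000000000000000000000) (nat_lit 0x0) (nat_lit 0x100018000400000001000000000000000000000000000000000000000) := T_5 (nat_lit 208) (nat_lit 156) (nat_lit 4) (nat_lit 4) (nat_lit 12) L41021 (by decide +kernel)
theorem L41023 : W_5 (nat_lit 4) (nat_lit 0x24001a0013800c0000400000000000000000000000000) (nat_lit 0x0) (nat_lit 0x100018000c00000001000000004000000000000000000000000000000) := T_5 (nat_lit 191) (nat_lit 122) (nat_lit 4) (nat_lit 4) (nat_lit 11) L41022 (by decide +kernel)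
theorem L41024 : W_5 (nat_lit 5) (nat_lit 0x2400120013800c0000400000000000000000000000000) (nat_lit 0x0) (nat_lit 0x100018000c0000000d000000004000000000000000000000000000000) := T_5 (nat_lit 159) (nat_lit 158) (nat_lit 0) (nat_lit 7) (nat_lit 9) L41023 (by decide +kernel)
theorem L41025 : W_5 (nat_lit 2) (nat_lit 0x8002400120013800c0000400000000000000000000000000) (nat_lit 0x0) (nat_lit 0x10000000000005000000000000000000000000000000000000000) := D_5 (nat_lit 208) (nat_lit 158) (nat_lit 156) (nat_lit 6) (nat_lit 4) (nat_lit 12) (nat_lit 4) (nat_lit 4) (nat_lit 12) (by decide +kernel)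
theorem L41026 : W_5 (nat_lit 3) (nat_lit 0x2400120013800c0000400000000000000000000000000) (nat_lit 0x0) (nat_lit 0x10000800000005000000010000000000000000000000000000000) := T_5 (nat_lit 191) (nat_lit 124) (nat_lit 6) (nat_lit 4) (nat_lit 11) L41025 (by decide +kernel)
theorem L41027 : W_5 (nat_lit 2) (nat_lit 0x240016001b800c0002c00180000000000000000000000) (nat_lit 0x0) (nat_lit 0x240010000000000000000000) := D_5 (nat_lit 93) (nat_lit 90) (nat_lit 76) (nat_lit 1) (nat_lit 8) (nat_lit 5) (nat_lit 6) (nat_lit 7) (nat_lit 8) (by decide +kernel)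
theorem L41028 : W_5 (nat_lit 3) (nat_lit 0x240016001b800c0002c00100000000000000000000000) (nat_lit 0x0) (nat_lit 0x2c0014000000000000000000) := T_5 (nat_lit 91) (nat_lit 74) (nat_lit 4) (nat_lit 7) (nat_lit 8) L41027 (by decide +kernel)
theorem L41029 : W_5 (nat_lit 4) (nat_lit 0x2400160013800c0002c00100000000000000000000000) (nat_lit 0x0) (nat_lit 0x200008000000000002c0014000000000000000000) := T_5 (nat_lit 143) (nat_lit 161) (nat_lit 7) (nat_lit 7) (nat_lit 5) L41028 (by decide +kernel)
theorem L41030 : W_5 (nat_lit 5) (nat_lit 0x2400160013800c0002c00000000000000000000000000) (nat_lit 0x0) (nat_lit 0x200008000000000003c001c000000000000000000) := T_5 (nat_lit 92) (nat_lit 75) (nat_lit 7) (nat_lit 7) (nat_lit 4) L41029 (by decide +kernel)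
theorem L41031 : W_5 (nat_lit 6) (nat_lit 0x2400160013800c0000c00000000000000000000000000) (nat_lit 0x0) (nat_lit 0x200008000000030003c001c000000000000000000) := T_5 (nat_lit 109) (nat_lit 108) (nat_lit 3) (nat_lit 4) (nat_lit 6) L41030 (by decide +kernel)
theorem L41032 : W_5 (nat_lit 7) (nat_lit 0x2400160013800c0000400000000000000000000000000) (nat_lit 0x0) (nat_lit 0x200008000100038003c001c000000000000000000) := T_5 (nat_lit 107) (nat_lit 124) (nat_lit 5) (nat_lit 5) (nat_lit 6) L41031 (by decide +kernel)
theorem L41033 : W_5 (nat_lit 8) (nat_lit 0x2400120013800c0000400000000000000000000000000) (nat_lit 0x0) (nat_lit 0x2c0008000100038003c001c000000000000000000) := T_5 (nat_lit 158) (nat_lit 159) (nat_lit 0) (nat_lit 7) (nat_lit 9) L41032 (by decide +kernel)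
theorem L41034 : W_5 (nat_lit 9) (nat_lit 0x2000120013800c0000400000000000000000000000000) (nat_lit 0x0) (nat_lit 0x100018000c0004002d0008000140038003c001c000000000000000000) := Q_5 (nat_lit 174) (C_5 L41020 (C_5 L41024 (C_5 L41026 (C_5 L41033 N_5)))) (by decide +kernel)
theorem L41035 : W_5 (nat_lit 2) (nat_lit 0x20001a001b800c0001400000000000000000000000000) (nat_lit 0x0) (nat_lit 0x100000000000000002800000000000000000000000000) := D_5 (nat_lit 109) (nat_lit 176) (nat_lit 107) (nat_lit 5) (nat_lit 7) (nat_lit 6) (nat_lit 3) (nat_lit 4) (nat_lit 6) (by decide +kernel)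
theorem L41036 : W_5 (nat_lit 3) (nat_lit 0x20001a0013800c0001400000000000000000000000000) (nat_lit 0x0) (nat_lit 0x100000000800020002800000000000000000000000000) := T_5 (nat_lit 143) (nat_lit 125) (nat_lit 4) (nat_lit 7) (nat_lit 10) L41035 (by decide +kernel)
theorem L41037 : W_5 (nat_lit 4) (nat_lit 0x2000120013800c0001400000000000000000000000000) (nat_lit 0x0) (nat_lit 0x10000c000800020002800000000000000000000000000) := T_5 (nat_lit 159) (nat_lit 158) (nat_lit 0) (nat_lit 7) (nat_lit 9) L41036 (by decide +kernel)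
theorem L41038 : W_5 (nat_lit 2) (nat_lit 0x20001a0013800c0001c00000000000000000000000000) (nat_lit 0x0) (nat_lit 0x120000200000000000000000000000000) := D_5 (nat_lit 125) (nat_lit 105) (nat_lit 128) (nat_lit 3) (nat_lit 3) (nat_lit 6) (nat_lit 0) (nat_lit 9) (nat_lit 7) (by decide +kernel)
theorem L41039 : W_5 (nat_lit 3) (nat_lit 0x20001a0013800c0001400000000000000000000000000) (nat_lit 0x0) (nat_lit 0x120002a00000000000000000000000000) := T_5 (nat_lit 107) (nat_lit 109) (nat_lit 3) (nat_lit 4) (nat_lit 6) L41038 (by decide +kernel)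
theorem L41040 : W_5 (nat_lit 4) (nat_lit 0x2000120013800c0001400000000000000000000000000) (nat_lit 0x0) (nat_lit 0xc000000120002a00000000000000000000000000) := T_5 (nat_lit 159) (nat_lit 158) (nat_lit 0) (nat_lit 7) (nat_lit 9) L41039 (by decide +kernel)
theorem L41041 : W_5 (nat_lit 2) (nat_lit 0x2000120013800c0001c00000000000000000000000000) (nat_lit 0x0) (nat_lit 0x800020000200000000000000000000000000) := D_5 (nat_lit 125) (nat_lit 105) (nat_lit 143) (nat_lit 3) (nat_lit 3) (nat_lit 6) (nat_lit 4) (nat_lit 7) (nat_lit 10) (by decide +kernel)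
theorem L41042 : W_5 (nat_lit 3) (nat_lit 0x2000120013800c0001400000000000000000000000000) (nat_lit 0x0) (nat_lit 0x800020002a00000000000000000000000000) := T_5 (nat_lit 107) (nat_lit 109) (nat_lit 3) (nat_lit 4) (nat_lit 6) L41041 (by decide +kernel)
theorem L41043 : W_5 (nat_lit 2) (nat_lit 0x20001a0013800c0003400000000000000000000000000) (nat_lit 0x0) (nat_lit 0x100000000800000000000080000000000000000000000) := D_5 (nat_lit 143) (nat_lit 176) (nat_lit 91) (nat_lit 5) (nat_lit 7) (nat_lit 6) (nat_lit 4) (nat_lit 7) (nat_lit 9) (by decide +kernel)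
theorem L41044 : W_5 (nat_lit 3) (nat_lit 0x20001a0013800c0001400000000000000000000000000) (nat_lit 0x0) (nat_lit 0x100000000800000002800080000000000000000000000) := T_5 (nat_lit 109) (nat_lit 107) (nat_lit 3) (nat_lit 4) (nat_lit 6) L41043 (by decide +kernel)
theorem L41045 : W_5 (nat_lit 4) (nat_lit 0x2000120013800c0001400000000000000000000000000) (nat_lit 0x0) (nat_lit 0x10000c000800000002800080000000000000000000000) := T_5 (nat_lit 159) (nat_lit 158) (nat_lit 0) (nat_lit 7) (nat_lit 9) L41044 (by decide +kernel)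
theorem L41046 : W_5 (nat_lit 2) (nat_lit 0x300012001b800c0001400000000000000000000000000) (nat_lit 0x0) (nat_lit 0x8000000000002000080000000000000000000000) := D_5 (nat_lit 109) (nat_lit 91) (nat_lit 159) (nat_lit 4) (nat_lit 7) (nat_lit 9) (nat_lit 5) (nat_lit 7) (nat_lit 6) (by decide +kernel)
theorem L41047 : W_5 (nat_lit 3) (nat_lit 0x200012001b800c0001400000000000000000000000000) (nat_lit 0x0) (nat_lit 0x2000100008000000000002000080000000000000000000000) := T_5 (nat_lit 176) (nat_lit 193) (nat_lit 5) (nat_lit 7) (nat_lit 7) L41046 (by decide +kernel)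
theorem L41048 : W_5 (nat_lit 4) (nat_lit 0x2000120013800c0001400000000000000000000000000) (nat_lit 0x0) (nat_lit 0x2000100008000800020002000080000000000000000000000) := T_5 (nat_lit 143) (nat_lit 125) (nat_lit 4) (nat_lit 7) (nat_lit 10) L41047 (by decide +kernel)
theorem L41049 : W_5 (nat_lit 2) (nat_lit 0x2000120013800e0001400000000000000000000000000) (nat_lit 0x0) (nat_lit 0x100000a00000000000000000000000000) := D_5 (nat_lit 107) (nat_lit 105) (nat_lit 128) (nat_lit 3) (nat_lit 3) (nat_lit 6) (nat_lit 0) (nat_lit 9) (nat_lit 7) (by decide +kernel)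
theorem L41050 : W_5 (nat_lit 3) (nat_lit 0x2000120013800c0001400000000000000000000000000) (nat_lit 0x0) (nat_lit 0x800120000a00000000000000000000000000) := T_5 (nat_lit 125) (nat_lit 143) (nat_lit 4) (nat_lit 7) (nat_lit 10) L41049 (by decide +kernel)
theorem L41051 : W_5 (nat_lit 5) (nat_lit 0x2000120013800c0000400000000000000000000000000) (nat_lit 0x0) (nat_lit 0x200010000c000800120003a00080000000000000000000000) := Q_5 (nat_lit 108) (C_5 L41037 (C_5 L41040 (C_5 L41042 (C_5 L41045 (C_5 L41048 (C_5 L41050 N_5)))))) (by decide +kernel)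
theorem L41052 : W_5 (nat_lit 10) (nat_lit 0x200012001380080000400000000000000000000000000) (nat_lit 0x0) (nat_lit 0x100018002c0014002d000800174003a003c001c000000000000000000) := Q_5 (nat_lit 126) (C_5 L41013 (C_5 L41016 (C_5 L41019 (C_5 L41034 (C_5 L41051 N_5))))) (by decide +kernel)
theorem L41053 : W_5 (nat_lit 3) (nat_lit 0x240012001380080000400000000000000000000000000) (nat_lit 0x0) (nat_lit 0x10000800000005000000004000000000000000000000000000000) := T_5 (nat_lit 191) (nat_lit 122) (nat_lit 4) (nat_lit 4) (nat_lit 11) L41003 (by decide +kernel)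
theorem L41054 : W_5 (nat_lit 2) (nat_lit 0x10000800240012001380080000400000000000000000000000000) (nat_lit 0x0) (nat_lit 0x100008000400000000000000000000000000000000000000000000000) := D_5 (nat_lit 207) (nat_lit 224) (nat_lit 190) (nat_lit 5) (nat_lit 4) (nat_lit 9) (nat_lit 5) (nat_lit 4) (nat_lit 8) (by decide +kernel)
theorem L41055 : W_5 (nat_lit 3) (nat_lit 0x800240012001380080000400000000000000000000000000) (nat_lit 0x0) (nat_lit 0x100018000400000001000000000000000000000000000000000000000) := T_5 (nat_lit 208) (nat_lit 156) (nat_lit 4) (nat_lit 4) (nat_lit 12) L41054 (by decide +kernel)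
theorem L41056 : W_5 (nat_lit 4) (nat_lit 0x240012001380080000400000000000000000000000000) (nat_lit 0x0) (nat_lit 0x100018000c00000001000000004000000000000000000000000000000) := T_5 (nat_lit 191) (nat_lit 122) (nat_lit 4) (nat_lit 4) (nat_lit 11) L41055 (by decide +kernel)
theorem L41057 : W_5 (nat_lit 2) (nat_lit 0x3c00240016001380080000400000000000000000000000000) (nat_lit 0x0) (nat_lit 0x30000000000008000000000000000000000000000000) := D_5 (nat_lit 173) (nat_lit 123) (nat_lit 172) (nat_lit 5) (nat_lit 4) (nat_lit 7) (nat_lit 0) (nat_lit 6) (nat_lit 11) (by decide +kernel)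
theorem L41058 : W_5 (nat_lit 3) (nat_lit 0x1c00240016001380080000400000000000000000000000000) (nat_lit 0x0) (nat_lit 0x2000130000000000008000000000000000000000000000000) := T_5 (nat_lit 193) (nat_lit 176) (nat_lit 2) (nat_lit 3) (nat_lit 11) L41057 (by decide +kernel)
theorem L41059 : W_5 (nat_lit 4) (nat_lit 0x1800240016001380080000400000000000000000000000000) (nat_lit 0x0) (nat_lit 0x8002400130000000000008000000000000000000000000000000) := T_5 (nat_lit 190) (nat_lit 207) (nat_lit 5) (nat_lit 4) (nat_lit 8) L41058 (by decide +kernel)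
theorem L41060 : W_5 (nat_lit 5) (nat_lit 0x800240016001380080000400000000000000000000000000) (nat_lit 0x0) (nat_lit 0x28003400130000000000008000000000000000000000000000000) := T_5 (nat_lit 192) (nat_lit 209) (nat_lit 7) (nat_lit 4) (nat_lit 8) L41059 (by decide +kernel)
theorem L41061 : W_5 (nat_lit 6) (nat_lit 0x240016001380080000400000000000000000000000000) (nat_lit 0x0) (nat_lit 0x38003c00130000000000008000000000000000000000000000000) := T_5 (nat_lit 191) (nat_lit 208) (nat_lit 6) (nat_lit 4) (nat_lit 12) L41060 (by decide +kernel)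
theorem L41062 : W_5 (nat_lit 7) (nat_lit 0x240012001380080000400000000000000000000000000) (nat_lit 0x0) (nat_lit 0x38003c0013000c000000008000000000000000000000000000000) := T_5 (nat_lit 158) (nat_lit 159) (nat_lit 0) (nat_lit 7) (nat_lit 9) L41061 (by decide +kernel)
theorem L41063 : W_5 (nat_lit 2) (nat_lit 0x240012001380088000400000000000000000000000000) (nat_lit 0x0) (nat_lit 0x400020001000000000000000000000000000000000000000) := D_5 (nat_lit 173) (nat_lit 190) (nat_lit 156) (nat_lit 5) (nat_lit 4) (nat_lit 7) (nat_lit 5) (nat_lit 4) (nat_lit 6) (by decide +kernel)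
theorem L41064 : W_5 (nat_lit 2) (nat_lit 0x240012001380088000400000000000000000000000000) (nat_lit 0x0) (nat_lit 0x4000200010000000000000000000000) := D_5 (nat_lit 105) (nat_lit 88) (nat_lit 122) (nat_lit 4) (nat_lit 4) (nat_lit 9) (nat_lit 4) (nat_lit 4) (nat_lit 10) (by decide +kernel)
theorem L41065 : W_5 (nat_lit 3) (nat_lit 0x240012001380080000400000000000000000000000000) (nat_lit 0x0) (nat_lit 0x40002000100000000c000200010000000000000000000000) := Q_5 (nat_lit 123) (C_5 L41063 (C_5 L41064 N_5)) (by decide +kernel)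
theorem L41066 : W_5 (nat_lit 8) (nat_lit 0x200012001380080000400000000000000000000000000) (nat_lit 0x0) (nat_lit 0x100038003c0017000d00000000c000200010000000000000000000000) := Q_5 (nat_lit 174) (C_5 L41002 (C_5 L41053 (C_5 L41056 (C_5 L41062 (C_5 L41065 N_5))))) (by decide +kernel)
theorem L41067 : W_5 (nat_lit 2) (nat_lit 0x200012001380080000c00000000000000000000000000) (nat_lit 0x0) (nat_lit 0x18000000040000000000000000000000) := D_5 (nat_lit 90) (nat_lit 124) (nat_lit 123) (nat_lit 5) (nat_lit 5) (nat_lit 5) (nat_lit 6) (nat_lit 4) (nat_lit 9) (by decide +kernel)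
theorem L41068 : W_5 (nat_lit 2) (nat_lit 0x20001a001b800d0002c00000000000000000000000000) (nat_lit 0x0) (nat_lit 0x20000000000000000100008000000000000000000) := D_5 (nat_lit 92) (nat_lit 161) (nat_lit 75) (nat_lit 7) (nat_lit 7) (nat_lit 5) (nat_lit 7) (nat_lit 7) (nat_lit 4) (by decide +kernel)
theorem L41069 : W_5 (nat_lit 3) (nat_lit 0x20001a0013800d0002c00000000000000000000000000) (nat_lit 0x0) (nat_lit 0x100020000800000000000100008000000000000000000) := T_5 (nat_lit 143) (nat_lit 176) (nat_lit 5) (nat_lit 7) (nat_lit 6) L41068 (by decide +kernel)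
theorem L41070 : W_5 (nat_lit 4) (nat_lit 0x20001a0013800d0000c00000000000000000000000000) (nat_lit 0x0) (nat_lit 0x100020000800000003000100008000000000000000000) := T_5 (nat_lit 109) (nat_lit 108) (nat_lit 3) (nat_lit 4) (nat_lit 6) L41069 (by decide +kernel)
theorem L41071 : W_5 (nat_lit 5) (nat_lit 0x20001a001380090000c00000000000000000000000000) (nat_lit 0x0) (nat_lit 0x100020000800060003000100008000000000000000000) := T_5 (nat_lit 126) (nat_lit 125) (nat_lit 1) (nat_lit 8) (nat_lit 7) L41070 (by decide +kernel)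
theorem L41072 : W_5 (nat_lit 6) (nat_lit 0x20001a001380080000c00000000000000000000000000) (nat_lit 0x0) (nat_lit 0x100020000800070003000140008000000000000000000) := T_5 (nat_lit 124) (nat_lit 90) (nat_lit 5) (nat_lit 5) (nat_lit 5) L41071 (by decide +kernel)
theorem L41073 : W_5 (nat_lit 7) (nat_lit 0x200012001380080000c00000000000000000000000000) (nat_lit 0x0) (nat_lit 0x10002c000800070003000140008000000000000000000) := T_5 (nat_lit 159) (nat_lit 158) (nat_lit 0) (nat_lit 7) (nat_lit 9) L41072 (by decide +kernel)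
theorem L41074 : W_5 (nat_lit 4) (nat_lit 0x200013001380088000e00000000000000000000000000) (nat_lit 0x0) (nat_lit 0x10000c00000007001000000000000000000000000000) := T_5 (nat_lit 155) (nat_lit 154) (nat_lit 2) (nat_lit 1) (nat_lit 9) L40873 (by decide +kernel)
theorem L41075 : W_5 (nat_lit 5) (nat_lit 0x200012001380088000e00000000000000000000000000) (nat_lit 0x0) (nat_lit 0x30001c00000007001000000000000000000000000000) := T_5 (nat_lit 156) (nat_lit 173) (nat_lit 5) (nat_lit 4) (nat_lit 6) L41074 (by decide +kernel)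
theorem L41076 : W_5 (nat_lit 6) (nat_lit 0x200012001380088000c00000000000000000000000000) (nat_lit 0x0) (nat_lit 0x30001c00000007001200010000000000000000000000) := T_5 (nat_lit 105) (nat_lit 88) (nat_lit 4) (nat_lit 4) (nat_lit 9) L41075 (by decide +kernel)
theorem L41077 : W_5 (nat_lit 7) (nat_lit 0x200012001380080000c00000000000000000000000000) (nat_lit 0x0) (nat_lit 0x30001c0000000f001200050000000000000000000000) := T_5 (nat_lit 123) (nat_lit 90) (nat_lit 6) (nat_lit 4) (nat_lit 9) L41076 (by decide +kernel)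
theorem L41078 : W_5 (nat_lit 2) (nat_lit 0x20001a0013800c0001c00000000000000000000000000) (nat_lit 0x0) (nat_lit 0x130000000000000000000000000000000) := D_5 (nat_lit 125) (nat_lit 128) (nat_lit 124) (nat_lit 0) (nat_lit 9) (nat_lit 7) (nat_lit 1) (nat_lit 8) (nat_lit 7) (by decide +kernel)
theorem L41079 : W_5 (nat_lit 3) (nat_lit 0x20001a001380080001c00000000000000000000000000) (nat_lit 0x0) (nat_lit 0x170002000000000000000000000000000) := T_5 (nat_lit 126) (nat_lit 109) (nat_lit 3) (nat_lit 4) (nat_lit 6) L41078 (by decide +kernel)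
theorem L41080 : W_5 (nat_lit 4) (nat_lit 0x200012001380080001c00000000000000000000000000) (nat_lit 0x0) (nat_lit 0xc000000170002000000000000000000000000000) := T_5 (nat_lit 159) (nat_lit 158) (nat_lit 0) (nat_lit 7) (nat_lit 9) L41079 (by decide +kernel)
theorem L41081 : W_5 (nat_lit 2) (nat_lit 0x200012001380088003c00100000000000000000000000) (nat_lit 0x0) (nat_lit 0x200090000000000000000000000) := D_5 (nat_lit 105) (nat_lit 91) (nat_lit 88) (nat_lit 2) (nat_lit 3) (nat_lit 6) (nat_lit 4) (nat_lit 4) (nat_lit 9) (by decide +kernel)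
theorem L41082 : W_5 (nat_lit 3) (nat_lit 0x200012001380088003c00000000000000000000000000) (nat_lit 0x0) (nat_lit 0x200390000000000000000000000) := T_5 (nat_lit 92) (nat_lit 93) (nat_lit 2) (nat_lit 4) (nat_lit 6) L41081 (by decide +kernel)
theorem L41083 : W_5 (nat_lit 4) (nat_lit 0x200012001380080003c00000000000000000000000000) (nat_lit 0x0) (nat_lit 0xc000200390000000000000000000000) := T_5 (nat_lit 123) (nat_lit 122) (nat_lit 1) (nat_lit 7) (nat_lit 6) L41082 (by decide +kernel)
theorem L41084 : W_5 (nat_lit 5) (nat_lit 0x200012001380080001c00000000000000000000000000) (nat_lit 0x0) (nat_lit 0x4c002200390000000000000000000000) := T_5 (nat_lit 109) (nat_lit 126) (nat_lit 3) (nat_lit 4) (nat_lit 6) L41083 (by decide +kernel)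
theorem L41085 : W_5 (nat_lit 2) (nat_lit 0x200016001380080001e00080000000000000000000000) (nat_lit 0x0) (nat_lit 0x8000000018000000000000000000000) := D_5 (nat_lit 88) (nat_lit 87) (nat_lit 123) (nat_lit 0) (nat_lit 6) (nat_lit 6) (nat_lit 4) (nat_lit 4) (nat_lit 9) (by decide +kernel)
theorem L41086 : W_5 (nat_lit 3) (nat_lit 0x200016001380080001c00080000000000000000000000) (nat_lit 0x0) (nat_lit 0x8000200118000000000000000000000) := T_5 (nat_lit 105) (nat_lit 92) (nat_lit 2) (nat_lit 3) (nat_lit 6) L41085 (by decide +kernel)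
theorem L41087 : W_5 (nat_lit 4) (nat_lit 0x200016001380080001c00000000000000000000000000) (nat_lit 0x0) (nat_lit 0x18000200198000000000000000000000) := T_5 (nat_lit 91) (nat_lit 124) (nat_lit 6) (nat_lit 5) (nat_lit 9) L41086 (by decide +kernel)
theorem L41088 : W_5 (nat_lit 5) (nat_lit 0x200012001380080001c00000000000000000000000000) (nat_lit 0x0) (nat_lit 0xc000000018000200198000000000000000000000) := T_5 (nat_lit 158) (nat_lit 159) (nat_lit 0) (nat_lit 7) (nat_lit 9) L41087 (by decide +kernel)
theorem L41089 : W_5 (nat_lit 6) (nat_lit 0x200012001380080000c00000000000000000000000000) (nat_lit 0x0) (nat_lit 0xc00000017c003200398000000000000000000000) := Q_5 (nat_lit 108) (C_5 L41080 (C_5 L41084 (C_5 L41088 N_5))) (by decide +kernel)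
theorem L41090 : W_5 (nat_lit 8) (nat_lit 0x200012001380080000400000000000000000000000000) (nat_lit 0x0) (nat_lit 0x13002dc0080017f003a003d8008000000000000000000) := Q_5 (nat_lit 107) (C_5 L41067 (C_5 L41073 (C_5 L41077 (C_5 L41089 N_5)))) (by decide +kernel)
theorem L41091 : W_5 (nat_lit 4) (nat_lit 0x240012001380080000400000000000000000000000000) (nat_lit 0x0) (nat_lit 0x100018000c00000001000000010000000000000000000000000000000) := T_5 (nat_lit 191) (nat_lit 124) (nat_lit 6) (nat_lit 4) (nat_lit 11) L41055 (by decide +kernel)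
theorem L41092 : W_5 (nat_lit 8) (nat_lit 0x200012001380080000400000000000000000000000000) (nat_lit 0x0) (nat_lit 0x100038003c0017000d000000018000800040000000000000000000000) := Q_5 (nat_lit 174) (C_5 L41062 (C_5 L41004 (C_5 L41091 (C_5 L41008 N_5)))) (by decide +kernel)
theorem L41093 : W_5 (nat_lit 2) (nat_lit 0x240016001380088000c00000000000000000000000000) (nat_lit 0x0) (nat_lit 0x4000200010000000000000000000000) := D_5 (nat_lit 105) (nat_lit 88) (nat_lit 122) (nat_lit 4) (nat_lit 4) (nat_lit 9) (nat_lit 4) (nat_lit 4) (nat_lit 10) (by decide +kernel)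
theorem L41094 : W_5 (nat_lit 3) (nat_lit 0x240016001380080000c00000000000000000000000000) (nat_lit 0x0) (nat_lit 0xc000200050000000000000000000000) := T_5 (nat_lit 123) (nat_lit 90) (nat_lit 6) (nat_lit 4) (nat_lit 9) L41093 (by decide +kernel)
theorem L41095 : W_5 (nat_lit 4) (nat_lit 0x240016001380080000400000000000000000000000000) (nat_lit 0x0) (nat_lit 0x1c000a00050000000000000000000000) := T_5 (nat_lit 107) (nat_lit 124) (nat_lit 5) (nat_lit 5) (nat_lit 6) L41094 (by decide +kernel)
theorem L41096 : W_5 (nat_lit 5) (nat_lit 0x240012001380080000400000000000000000000000000) (nat_lit 0x0) (nat_lit 0xc00000001c000a00050000000000000000000000) := T_5 (nat_lit 158) (nat_lit 159) (nat_lit 0) (nat_lit 7) (nat_lit 9) L41095 (by decide +kernel)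
theorem L41097 : W_5 (nat_lit 8) (nat_lit 0x200012001380080000400000000000000000000000000) (nat_lit 0x0) (nat_lit 0x38003c0017000c00000001c000a00050000000000000000000000) := Q_5 (nat_lit 174) (C_5 L41062 (C_5 L40998 (C_5 L41096 N_5))) (by decide +kernel)
theorem L41098 : W_5 (nat_lit 11) (nat_lit 0x200010001380080000400000000000000000000000000) (nat_lit 0x0) (nat_lit 0x100038003c0017002fc0080017f003b803d801c000000000000000000) := Q_5 (nat_lit 157) (C_5 L40997 (C_5 L41009 (C_5 L41052 (C_5 L41066 (C_5 L41090 (C_5 L41092 (C_5 L41097 N_5))))))) (by decide +kernel)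
theorem L41099 : W_5 (nat_lit 2) (nat_lit 0x2000100013800c8000400000000000000000000000000) (nat_lit 0x0) (nat_lit 0x5000000000000000020000000000000000000000) := D_5 (nat_lit 89) (nat_lit 156) (nat_lit 158) (nat_lit 5) (nat_lit 4) (nat_lit 5) (nat_lit 7) (nat_lit 4) (nat_lit 5) (by decide +kernel)
theorem L41100 : W_5 (nat_lit 2) (nat_lit 0x2000100013800c8000400020001000000000000000000) (nat_lit 0x0) (nat_lit 0x40002000100000000000000) := D_5 (nat_lit 73) (nat_lit 90) (nat_lit 56) (nat_lit 6) (nat_lit 4) (nat_lit 8) (nat_lit 6) (nat_lit 4) (nat_lit 7) (by decide +kernel)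
theorem L41101 : W_5 (nat_lit 3) (nat_lit 0x2000100013800c8000400020000000000000000000000) (nat_lit 0x0) (nat_lit 0x4000000040003000100000000000000) := T_5 (nat_lit 72) (nat_lit 122) (nat_lit 5) (nat_lit 4) (nat_lit 4) L41100 (by decide +kernel)
theorem L41102 : W_5 (nat_lit 4) (nat_lit 0x2000100013800c8000400000000000000000000000000) (nat_lit 0x0) (nat_lit 0x1000000004000000060003000100000000000000) := T_5 (nat_lit 89) (nat_lit 156) (nat_lit 5) (nat_lit 4) (nat_lit 5) L41101 (by decide +kernel)
theorem L41103 : W_5 (nat_lit 4) (nat_lit 0x2000100013800c8000400000000000000000000000000) (nat_lit 0x0) (nat_lit 0x4000000004000000060003000100000000000000) := T_5 (nat_lit 89) (nat_lit 158) (nat_lit 7) (nat_lit 4) (nat_lit 5) L41101 (by decide +kernel)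
theorem L41104 : W_5 (nat_lit 2) (nat_lit 0x20001a0013800c8001c00000000000000000000000000) (nat_lit 0x0) (nat_lit 0x800120000000000000000000000000000000) := D_5 (nat_lit 125) (nat_lit 128) (nat_lit 143) (nat_lit 0) (nat_lit 9) (nat_lit 7) (nat_lit 4) (nat_lit 7) (nat_lit 10) (by decide +kernel)
theorem L41105 : W_5 (nat_lit 3) (nat_lit 0x20001a0013800c8000c00000000000000000000000000) (nat_lit 0x0) (nat_lit 0x800120003000000000000000000000000000) := T_5 (nat_lit 108) (nat_lit 109) (nat_lit 3) (nat_lit 4) (nat_lit 6) L41104 (by decide +kernel)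
theorem L41106 : W_5 (nat_lit 4) (nat_lit 0x20001a0013800c8000400000000000000000000000000) (nat_lit 0x0) (nat_lit 0x800120003800040000000000000000000000) := T_5 (nat_lit 107) (nat_lit 90) (nat_lit 6) (nat_lit 4) (nat_lit 9) L41105 (by decide +kernel)
theorem L41107 : W_5 (nat_lit 5) (nat_lit 0x2000120013800c8000400000000000000000000000000) (nat_lit 0x0) (nat_lit 0xc000800120003800040000000000000000000000) := T_5 (nat_lit 159) (nat_lit 158) (nat_lit 0) (nat_lit 7) (nat_lit 9) L41106 (by decide +kernel)
theorem L41108 : W_5 (nat_lit 2) (nat_lit 0x2600160013801c8001c00000000000000000000000000) (nat_lit 0x0) (nat_lit 0x10000800000000000000004000000000000000000000000000000) := D_5 (nat_lit 191) (nat_lit 122) (nat_lit 208) (nat_lit 4) (nat_lit 4) (nat_lit 11) (nat_lit 6) (nat_lit 4) (nat_lit 12) (by decide +kernel)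
theorem L41109 : W_5 (nat_lit 3) (nat_lit 0x2200160013801c8001c00000000000000000000000000) (nat_lit 0x0) (nat_lit 0x10000c00040000000000004000000000000000000000000000000) := T_5 (nat_lit 174) (nat_lit 190) (nat_lit 5) (nat_lit 4) (nat_lit 7) L41108 (by decide +kernel)
theorem L41110 : W_5 (nat_lit 4) (nat_lit 0x2200120013801c8001c00000000000000000000000000) (nat_lit 0x0) (nat_lit 0x10000c0004000c000000004000000000000000000000000000000) := T_5 (nat_lit 158) (nat_lit 159) (nat_lit 0) (nat_lit 7) (nat_lit 9) L41109 (by decide +kernel)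
theorem L41111 : W_5 (nat_lit 5) (nat_lit 0x2200120013800c8001c00000000000000000000000000) (nat_lit 0x0) (nat_lit 0x10000c0004000c000000124000000000000000000000000000000) := T_5 (nat_lit 128) (nat_lit 125) (nat_lit 0) (nat_lit 9) (nat_lit 7) L41110 (by decide +kernel)
theorem L41112 : W_5 (nat_lit 6) (nat_lit 0x2200120013800c8000c00000000000000000000000000) (nat_lit 0x0) (nat_lit 0x10000c0004000c000000124003000000000000000000000000000) := T_5 (nat_lit 108) (nat_lit 109) (nat_lit 3) (nat_lit 4) (nat_lit 6) L41111 (by decide +kernel)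
theorem L41113 : W_5 (nat_lit 7) (nat_lit 0x2200120013800c8000400000000000000000000000000) (nat_lit 0x0) (nat_lit 0x10000c0004000c000000124003800040000000000000000000000) := T_5 (nat_lit 107) (nat_lit 90) (nat_lit 6) (nat_lit 4) (nat_lit 9) L41112 (by decide +kernel)
theorem L41114 : W_5 (nat_lit 8) (nat_lit 0x2000120013800c8000400000000000000000000000000) (nat_lit 0x0) (nat_lit 0x10000c0006000d000000124003800040000000000000000000000) := T_5 (nat_lit 173) (nat_lit 156) (nat_lit 5) (nat_lit 4) (nat_lit 6) L41113 (by decide +kernel)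
theorem L41115 : W_5 (nat_lit 2) (nat_lit 0x2000134013800c8001c00000000000000000000000000) (nat_lit 0x0) (nat_lit 0x800120000000000000000000000000000000) := D_5 (nat_lit 125) (nat_lit 128) (nat_lit 143) (nat_lit 0) (nat_lit 9) (nat_lit 7) (nat_lit 4) (nat_lit 7) (nat_lit 10) (by decide +kernel)
theorem L41116 : W_5 (nat_lit 3) (nat_lit 0x2000134013800c8000c00000000000000000000000000) (nat_lit 0x0) (nat_lit 0x800120003000000000000000000000000000) := T_5 (nat_lit 108) (nat_lit 109) (nat_lit 3) (nat_lit 4) (nat_lit 6) L41115 (by decide +kernel)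
theorem L41117 : W_5 (nat_lit 4) (nat_lit 0x2000134013800c8000400000000000000000000000000) (nat_lit 0x0) (nat_lit 0x800120003800040000000000000000000000) := T_5 (nat_lit 107) (nat_lit 90) (nat_lit 6) (nat_lit 4) (nat_lit 9) L41116 (by decide +kernel)
theorem L41118 : W_5 (nat_lit 5) (nat_lit 0x2000130013800c8000400000000000000000000000000) (nat_lit 0x0) (nat_lit 0xc00800120003800040000000000000000000000) := T_5 (nat_lit 154) (nat_lit 155) (nat_lit 2) (nat_lit 1) (nat_lit 9) L41117 (by decide +kernel)
theorem L41119 : W_5 (nat_lit 6) (nat_lit 0x2000120013800c8000400000000000000000000000000) (nat_lit 0x0) (nat_lit 0x20001c00800120003800040000000000000000000000) := T_5 (nat_lit 156) (nat_lit 173) (nat_lit 5) (nat_lit 4) (nat_lit 6) L41118 (by decide +kernel)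
theorem L41120 : W_5 (nat_lit 2) (nat_lit 0x2600160013800c8001c00000000000000000000000000) (nat_lit 0x0) (nat_lit 0x10000800000000000000004000000000000000000000000000000) := D_5 (nat_lit 191) (nat_lit 122) (nat_lit 208) (nat_lit 4) (nat_lit 4) (nat_lit 11) (nat_lit 6) (nat_lit 4) (nat_lit 12) (by decide +kernel)
theorem L41121 : W_5 (nat_lit 3) (nat_lit 0x2200160013800c8001c00000000000000000000000000) (nat_lit 0x0) (nat_lit 0x10000c00040000000000004000000000000000000000000000000) := T_5 (nat_lit 174) (nat_lit 190) (nat_lit 5) (nat_lit 4) (nat_lit 7) L41120 (by decide +kernel)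
theorem L41122 : W_5 (nat_lit 4) (nat_lit 0x2000160013800c8001c00000000000000000000000000) (nat_lit 0x0) (nat_lit 0x10000c00060001000000004000000000000000000000000000000) := T_5 (nat_lit 173) (nat_lit 156) (nat_lit 5) (nat_lit 4) (nat_lit 6) L41121 (by decide +kernel)
theorem L41123 : W_5 (nat_lit 5) (nat_lit 0x2000120013800c8001c00000000000000000000000000) (nat_lit 0x0) (nat_lit 0x10000c0006000d000000004000000000000000000000000000000) := T_5 (nat_lit 158) (nat_lit 159) (nat_lit 0) (nat_lit 7) (nat_lit 9) L41122 (by decide +kernel)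
theorem L41124 : W_5 (nat_lit 6) (nat_lit 0x2000120013800c8000c00000000000000000000000000) (nat_lit 0x0) (nat_lit 0x10000c0006000d000000004003000000000000000000000000000) := T_5 (nat_lit 108) (nat_lit 109) (nat_lit 3) (nat_lit 4) (nat_lit 6) L41123 (by decide +kernel)
theorem L41125 : W_5 (nat_lit 7) (nat_lit 0x2000120013800c8000400000000000000000000000000) (nat_lit 0x0) (nat_lit 0x10000c0006000d000000004003800040000000000000000000000) := T_5 (nat_lit 107) (nat_lit 90) (nat_lit 6) (nat_lit 4) (nat_lit 9) L41124 (by decide +kernel)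
theorem L41126 : W_5 (nat_lit 2) (nat_lit 0x2600160013800c8000400000000000000000000000000) (nat_lit 0x0) (nat_lit 0x10000800000000000000004000000000000000000000000000000) := D_5 (nat_lit 191) (nat_lit 122) (nat_lit 208) (nat_lit 4) (nat_lit 4) (nat_lit 11) (nat_lit 6) (nat_lit 4) (nat_lit 12) (by decide +kernel)
theorem L41127 : W_5 (nat_lit 3) (nat_lit 0x2600120013800c8000400000000000000000000000000) (nat_lit 0x0) (nat_lit 0x1000080000000c000000004000000000000000000000000000000) := T_5 (nat_lit 158) (nat_lit 159) (nat_lit 1) (nat_lit 7) (nat_lit 9) L41126 (by decide +kernel)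
theorem L41128 : W_5 (nat_lit 4) (nat_lit 0x2200120013800c8000400000000000000000000000000) (nat_lit 0x0) (nat_lit 0x10000c0004000c000000004000000000000000000000000000000) := T_5 (nat_lit 174) (nat_lit 190) (nat_lit 5) (nat_lit 4) (nat_lit 7) L41127 (by decide +kernel)
theorem L41129 : W_5 (nat_lit 5) (nat_lit 0x2000120013800c8000400000000000000000000000000) (nat_lit 0x0) (nat_lit 0x10000c0006000d000000004000000000000000000000000000000) := T_5 (nat_lit 173) (nat_lit 156) (nat_lit 5) (nat_lit 4) (nat_lit 6) L41128 (by decide +kernel)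
theorem L41130 : W_5 (nat_lit 9) (nat_lit 0x2000100013800c8000400000000000000000000000000) (nat_lit 0x0) (nat_lit 0x10000c0006000fc00800124003800040000000000000000000000) := Q_5 (nat_lit 157) (C_5 L41107 (C_5 L41114 (C_5 L41119 (C_5 L41125 (C_5 L41129 N_5))))) (by decide +kernel)
theorem L41131 : W_5 (nat_lit 10) (nat_lit 0x2000100013800c0000400000000000000000000000000) (nat_lit 0x0) (nat_lit 0x10000c0006000fc0080012c003800060003000100000000000000) := Q_5 (nat_lit 123) (C_5 L41099 (C_5 L41102 (C_5 L41103 (C_5 L41130 N_5)))) (by decide +kernel)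
theorem L41132 : W_5 (nat_lit 11) (nat_lit 0x200010001380080000400000000000000000000000000) (nat_lit 0x0) (nat_lit 0x10002c0016002fc0080037c0038003e001f000100000000000000) := Q_5 (nat_lit 126) (C_5 L40896 (C_5 L40957 (C_5 L40935 (C_5 L41131 (C_5 L40951 N_5))))) (by decide +kernel)
theorem L41133 : W_5 (nat_lit 14) (nat_lit 0x200010001380080000000000000000000000000000000) (nat_lit 0x0) (nat_lit 0x100038003e0017002fe0080037f803fc03fe01fc001e0007000000000) := Q_5 (nat_lit 106) (C_5 L40732 (C_5 L40862 (C_5 L40893 (C_5 L40958 (C_5 L40967 (C_5 L40973 (C_5 L40995 (C_5 L40996 (C_5 L41098 (C_5 L41132 N_5)))))))))) (by decide +kernel)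
theorem L41134 : W_5 (nat_lit 2) (nat_lit 0x2000148013e0080000000000000000000000000000000) (nat_lit 0x0) (nat_lit 0x3800000000000000000000000000000) := D_5 (nat_lit 120) (nat_lit 119) (nat_lit 121) (nat_lit 0) (nat_lit 4) (nat_lit 8) (nat_lit 0) (nat_lit 5) (nat_lit 8) (by decide +kernel)
theorem L41135 : W_5 (nat_lit 3) (nat_lit 0x2000148013c0080000000000000000000000000000000) (nat_lit 0x0) (nat_lit 0x2000020003800000000000000000000000000000) := T_5 (nat_lit 137) (nat_lit 157) (nat_lit 3) (nat_lit 1) (nat_lit 8) L41134 (by decide +kernel)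
theorem L41136 : W_5 (nat_lit 4) (nat_lit 0x2000108013c0080000000000000000000000000000000) (nat_lit 0x0) (nat_lit 0xe000020003800000000000000000000000000000) := T_5 (nat_lit 158) (nat_lit 159) (nat_lit 3) (nat_lit 2) (nat_lit 8) L41135 (by decide +kernel)
theorem L41137 : W_5 (nat_lit 5) (nat_lit 0x2000100013c0080000000000000000000000000000000) (nat_lit 0x0) (nat_lit 0xec00020003800000000000000000000000000000) := T_5 (nat_lit 155) (nat_lit 154) (nat_lit 1) (nat_lit 5) (nat_lit 8) L41136 (by decide +kernel)
theorem L41138 : W_5 (nat_lit 2) (nat_lit 0x2000140013e0081000000000000000000000000000000) (nat_lit 0x0) (nat_lit 0xe00000000000000000000000000000000000000) := D_5 (nat_lit 154) (nat_lit 153) (nat_lit 155) (nat_lit 1) (nat_lit 4) (nat_lit 8) (nat_lit 1) (nat_lit 5) (nat_lit 8) (by decide +kernel)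
theorem L41139 : W_5 (nat_lit 3) (nat_lit 0x2000140013c0081000000000000000000000000000000) (nat_lit 0x0) (nat_lit 0xe00020000800000000000000000000000000000) := T_5 (nat_lit 137) (nat_lit 119) (nat_lit 0) (nat_lit 4) (nat_lit 8) L41138 (by decide +kernel)
theorem L41140 : W_5 (nat_lit 4) (nat_lit 0x2000100013c0081000000000000000000000000000000) (nat_lit 0x0) (nat_lit 0xce00020000800000000000000000000000000000) := T_5 (nat_lit 158) (nat_lit 159) (nat_lit 3) (nat_lit 2) (nat_lit 8) L41139 (by decide +kernel)
theorem L41141 : W_5 (nat_lit 5) (nat_lit 0x2000100013c0080000000000000000000000000000000) (nat_lit 0x0) (nat_lit 0xce00020003800000000000000000000000000000) := T_5 (nat_lit 120) (nat_lit 121) (nat_lit 0) (nat_lit 5) (nat_lit 8) L41140 (by decide +kernel)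
theorem L41142 : W_5 (nat_lit 2) (nat_lit 0x1002000134013e0092000100000000000000000000000000) (nat_lit 0x0) (nat_lit 0x400020000000000004000000000000000000000000000000) := D_5 (nat_lit 173) (nat_lit 190) (nat_lit 122) (nat_lit 4) (nat_lit 3) (nat_lit 11) (nat_lit 4) (nat_lit 3) (nat_lit 10) (by decide +kernel)
theorem L41143 : W_5 (nat_lit 3) (nat_lit 0x1002000124013e0092000100000000000000000000000000) (nat_lit 0x0) (nat_lit 0x400020001000010004000000000000000000000000000000) := T_5 (nat_lit 156) (nat_lit 136) (nat_lit 3) (nat_lit 0) (nat_lit 8) L41142 (by decide +kernel)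
theorem L41144 : W_5 (nat_lit 4) (nat_lit 0x1002000104013e0092000100000000000000000000000000) (nat_lit 0x0) (nat_lit 0x400020007000010004000000000000000000000000000000) := T_5 (nat_lit 157) (nat_lit 158) (nat_lit 3) (nat_lit 1) (nat_lit 8) L41143 (by decide +kernel)
theorem L41145 : W_5 (nat_lit 5) (nat_lit 0x1002000104013e0092000000000000000000000000000000) (nat_lit 0x0) (nat_lit 0x400020007000010004000100008000000000000000000000) := T_5 (nat_lit 104) (nat_lit 87) (nat_lit 5) (nat_lit 2) (nat_lit 5) L41144 (by decide +kernel)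
theorem L41146 : W_5 (nat_lit 6) (nat_lit 0x2000104013e0092000000000000000000000000000000) (nat_lit 0x0) (nat_lit 0x500028007000010004000100008000000000000000000000) := T_5 (nat_lit 188) (nat_lit 171) (nat_lit 6) (nat_lit 1) (nat_lit 11) L41145 (by decide +kernel)
theorem L41147 : W_5 (nat_lit 7) (nat_lit 0x2000104013e0082000000000000000000000000000000) (nat_lit 0x0) (nat_lit 0x500028007000010034000100008000000000000000000000) := T_5 (nat_lit 124) (nat_lit 125) (nat_lit 2) (nat_lit 2) (nat_lit 8) L41146 (by decide +kernel)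
theorem L41148 : W_5 (nat_lit 8) (nat_lit 0x2000104013c0082000000000000000000000000000000) (nat_lit 0x0) (nat_lit 0x500028007200030034000100008000000000000000000000) := T_5 (nat_lit 137) (nat_lit 153) (nat_lit 1) (nat_lit 4) (nat_lit 8) L41147 (by decide +kernel)
theorem L41149 : W_5 (nat_lit 9) (nat_lit 0x2000104013c0080000000000000000000000000000000) (nat_lit 0x0) (nat_lit 0x500028007200030037000100008000000000000000000000) := T_5 (nat_lit 121) (nat_lit 120) (nat_lit 0) (nat_lit 5) (nat_lit 8) L41148 (by decide +kernel)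
theorem L41150 : W_5 (nat_lit 10) (nat_lit 0x2000100013c0080000000000000000000000000000000) (nat_lit 0x0) (nat_lit 0x500028007e00030037000100008000000000000000000000) := T_5 (nat_lit 154) (nat_lit 155) (nat_lit 1) (nat_lit 5) (nat_lit 8) L41149 (by decide +kernel)
theorem L41151 : W_5 (nat_lit 2) (nat_lit 0x2000104013c0081000000000000000000000000000000) (nat_lit 0x0) (nat_lit 0x200020000800000000000000000000000000000) := D_5 (nat_lit 137) (nat_lit 119) (nat_lit 153) (nat_lit 0) (nat_lit 4) (nat_lit 8) (nat_lit 1) (nat_lit 4) (nat_lit 8) (by decide +kernel)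
theorem L41152 : W_5 (nat_lit 3) (nat_lit 0x2000100013c0081000000000000000000000000000000) (nat_lit 0x0) (nat_lit 0xe00020000800000000000000000000000000000) := T_5 (nat_lit 154) (nat_lit 155) (nat_lit 1) (nat_lit 5) (nat_lit 8) L41151 (by decide +kernel)
theorem L41153 : W_5 (nat_lit 4) (nat_lit 0x2000100013c0080000000000000000000000000000000) (nat_lit 0x0) (nat_lit 0xe00020003800000000000000000000000000000) := T_5 (nat_lit 120) (nat_lit 121) (nat_lit 0) (nat_lit 5) (nat_lit 8) L41152 (by decide +kernel)
theorem L41154 : W_5 (nat_lit 2) (nat_lit 0x2400120013c0092000000000000000000000000000000) (nat_lit 0x0) (nat_lit 0x4000000000000800040000000000000000000000) := D_5 (nat_lit 107) (nat_lit 90) (nat_lit 158) (nat_lit 5) (nat_lit 5) (nat_lit 5) (nat_lit 5) (nat_lit 5) (nat_lit 6) (by decide +kernel)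
theorem L41155 : W_5 (nat_lit 3) (nat_lit 0x2000120013c0092000000000000000000000000000000) (nat_lit 0x0) (nat_lit 0x800040004000000000000800040000000000000000000000) := T_5 (nat_lit 174) (nat_lit 191) (nat_lit 6) (nat_lit 4) (nat_lit 11) L41154 (by decide +kernel)
theorem L41156 : W_5 (nat_lit 4) (nat_lit 0x2000120013c0082000000000000000000000000000000) (nat_lit 0x0) (nat_lit 0x800040004000000030000800040000000000000000000000) := T_5 (nat_lit 124) (nat_lit 125) (nat_lit 2) (nat_lit 2) (nat_lit 8) L41155 (by decide +kernel)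
theorem L41157 : W_5 (nat_lit 5) (nat_lit 0x2000120013c0080000000000000000000000000000000) (nat_lit 0x0) (nat_lit 0x800040004000000033000800040000000000000000000000) := T_5 (nat_lit 121) (nat_lit 120) (nat_lit 0) (nat_lit 5) (nat_lit 8) L41156 (by decide +kernel)
theorem L41158 : W_5 (nat_lit 2) (nat_lit 0x8002300138013c0096000000040000000000000000000000) (nat_lit 0x0) (nat_lit 0x10000c000000000000000000000000000000000000000000) := D_5 (nat_lit 171) (nat_lit 170) (nat_lit 188) (nat_lit 2) (nat_lit 0) (nat_lit 10) (nat_lit 5) (nat_lit 2) (nat_lit 7) (by decide +kernel)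
theorem L41159 : W_5 (nat_lit 3) (nat_lit 0x8002300128013c0096000000040000000000000000000000) (nat_lit 0x0) (nat_lit 0x10000c001000000000000100000000000000000000000000) := T_5 (nat_lit 156) (nat_lit 104) (nat_lit 7) (nat_lit 2) (nat_lit 6) L41158 (by decide +kernel)
theorem L41160 : W_5 (nat_lit 4) (nat_lit 0x8002100128013c0096000000040000000000000000000000) (nat_lit 0x0) (nat_lit 0x50002c001000000000000100000000000000000000000000) := T_5 (nat_lit 173) (nat_lit 190) (nat_lit 7) (nat_lit 2) (nat_lit 7) L41159 (by decide +kernel)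
theorem L41161 : W_5 (nat_lit 5) (nat_lit 0x8002000128013c0096000000040000000000000000000000) (nat_lit 0x0) (nat_lit 0x70003c001000000000000100000000000000000000000000) := T_5 (nat_lit 172) (nat_lit 189) (nat_lit 6) (nat_lit 2) (nat_lit 11) L41160 (by decide +kernel)
theorem L41162 : W_5 (nat_lit 6) (nat_lit 0x8002000120013c0096000000040000000000000000000000) (nat_lit 0x0) (nat_lit 0x70003c001c00000000000100000000000000000000000000) := T_5 (nat_lit 155) (nat_lit 154) (nat_lit 1) (nat_lit 5) (nat_lit 8) L41161 (by decide +kernel)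
theorem L41163 : W_5 (nat_lit 7) (nat_lit 0x8002000120013c0094000000040000000000000000000000) (nat_lit 0x0) (nat_lit 0x70003c001c00000003000100000000000000000000000000) := T_5 (nat_lit 121) (nat_lit 120) (nat_lit 0) (nat_lit 5) (nat_lit 8) L41162 (by decide +kernel)
theorem L41164 : W_5 (nat_lit 8) (nat_lit 0x8002000120013c0094000000000000000000000000000000) (nat_lit 0x0) (nat_lit 0x70003c001c00000003000900040000000000000000000000) := T_5 (nat_lit 90) (nat_lit 107) (nat_lit 5) (nat_lit 5) (nat_lit 5) L41163 (by decide +kernel)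
theorem L41165 : W_5 (nat_lit 9) (nat_lit 0x2000120013c0094000000000000000000000000000000) (nat_lit 0x0) (nat_lit 0xf0007c001c00000003000900040000000000000000000000) := T_5 (nat_lit 191) (nat_lit 174) (nat_lit 6) (nat_lit 4) (nat_lit 11) L41164 (by decide +kernel)
theorem L41166 : W_5 (nat_lit 10) (nat_lit 0x2000120013c0084000000000000000000000000000000) (nat_lit 0x0) (nat_lit 0xf0007c001c00000033000900040000000000000000000000) := T_5 (nat_lit 124) (nat_lit 125) (nat_lit 2) (nat_lit 2) (nat_lit 8) L41165 (by decide +kernel)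
theorem L41167 : W_5 (nat_lit 2) (nat_lit 0x8002300138013c0086000000010000000000000000000000) (nat_lit 0x0) (nat_lit 0x10000c000000000000000000000000000000000000000000) := D_5 (nat_lit 171) (nat_lit 170) (nat_lit 188) (nat_lit 2) (nat_lit 0) (nat_lit 10) (nat_lit 5) (nat_lit 2) (nat_lit 7) (by decide +kernel)
theorem L41168 : W_5 (nat_lit 3) (nat_lit 0x8002300128013c0086000000010000000000000000000000) (nat_lit 0x0) (nat_lit 0x10000c001000000000000100000000000000000000000000) := T_5 (nat_lit 156) (nat_lit 104) (nat_lit 7) (nat_lit 2) (nat_lit 6) L41167 (by decide +kernel)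
theorem L41169 : W_5 (nat_lit 4) (nat_lit 0x8002100128013c0086000000010000000000000000000000) (nat_lit 0x0) (nat_lit 0x50002c001000000000000100000000000000000000000000) := T_5 (nat_lit 173) (nat_lit 190) (nat_lit 7) (nat_lit 2) (nat_lit 7) L41168 (by decide +kernel)
theorem L41170 : W_5 (nat_lit 5) (nat_lit 0x8002100128013c0084000000010000000000000000000000) (nat_lit 0x0) (nat_lit 0x50002c001000000003000100000000000000000000000000) := T_5 (nat_lit 121) (nat_lit 120) (nat_lit 0) (nat_lit 5) (nat_lit 8) L41169 (by decide +kernel)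
theorem L41171 : W_5 (nat_lit 6) (nat_lit 0x8002000128013c0084000000010000000000000000000000) (nat_lit 0x0) (nat_lit 0x70003c001000000003000100000000000000000000000000) := T_5 (nat_lit 172) (nat_lit 189) (nat_lit 6) (nat_lit 2) (nat_lit 11) L41170 (by decide +kernel)
theorem L41172 : W_5 (nat_lit 7) (nat_lit 0x8002000128013c0084000000000000000000000000000000) (nat_lit 0x0) (nat_lit 0x70003c001000000003000300010000000000000000000000) := T_5 (nat_lit 88) (nat_lit 105) (nat_lit 7) (nat_lit 3) (nat_lit 5) L41171 (by decide +kernel)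
theorem L41173 : W_5 (nat_lit 8) (nat_lit 0x2000128013c0084000000000000000000000000000000) (nat_lit 0x0) (nat_lit 0xf0007c001000000003000300010000000000000000000000) := T_5 (nat_lit 191) (nat_lit 174) (nat_lit 4) (nat_lit 4) (nat_lit 11) L41172 (by decide +kernel)
theorem L41174 : W_5 (nat_lit 9) (nat_lit 0x2000120013c0084000000000000000000000000000000) (nat_lit 0x0) (nat_lit 0xf0007c001c00000003000300010000000000000000000000) := T_5 (nat_lit 155) (nat_lit 154) (nat_lit 1) (nat_lit 5) (nat_lit 8) L41173 (by decide +kernel)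
theorem L41175 : W_5 (nat_lit 2) (nat_lit 0x2300138013c0096000000050000000000000000000000) (nat_lit 0x0) (nat_lit 0x10000c000000000000000000000000000000000000000000) := D_5 (nat_lit 171) (nat_lit 170) (nat_lit 188) (nat_lit 2) (nat_lit 0) (nat_lit 10) (nat_lit 5) (nat_lit 2) (nat_lit 7) (by decide +kernel)
theorem L41176 : W_5 (nat_lit 3) (nat_lit 0x2300128013c0096000000050000000000000000000000) (nat_lit 0x0) (nat_lit 0x10000c001000000000000100000000000000000000000000) := T_5 (nat_lit 156) (nat_lit 104) (nat_lit 7) (nat_lit 2) (nat_lit 6) L41175 (by decide +kernel)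
theorem L41177 : W_5 (nat_lit 4) (nat_lit 0x2100128013c0096000000050000000000000000000000) (nat_lit 0x0) (nat_lit 0x50002c001000000000000100000000000000000000000000) := T_5 (nat_lit 173) (nat_lit 190) (nat_lit 7) (nat_lit 2) (nat_lit 7) L41176 (by decide +kernel)
theorem L41178 : W_5 (nat_lit 5) (nat_lit 0x2000128013c0096000000050000000000000000000000) (nat_lit 0x0) (nat_lit 0x70003c001000000000000100000000000000000000000000) := T_5 (nat_lit 172) (nat_lit 189) (nat_lit 6) (nat_lit 2) (nat_lit 11) L41177 (by decide +kernel)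
theorem L41179 : W_5 (nat_lit 6) (nat_lit 0x2000128013c0096000000010000000000000000000000) (nat_lit 0x0) (nat_lit 0x70003c001000000000000900040000000000000000000000) := T_5 (nat_lit 90) (nat_lit 107) (nat_lit 5) (nat_lit 5) (nat_lit 5) L41178 (by decide +kernel)
theorem L41180 : W_5 (nat_lit 7) (nat_lit 0x2000128013c0086000000010000000000000000000000) (nat_lit 0x0) (nat_lit 0x70003c001000000030000900040000000000000000000000) := T_5 (nat_lit 124) (nat_lit 125) (nat_lit 2) (nat_lit 2) (nat_lit 8) L41179 (by decide +kernel)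
theorem L41181 : W_5 (nat_lit 8) (nat_lit 0x2000120013c0086000000010000000000000000000000) (nat_lit 0x0) (nat_lit 0x70003c001c00000030000900040000000000000000000000) := T_5 (nat_lit 155) (nat_lit 154) (nat_lit 1) (nat_lit 5) (nat_lit 8) L41180 (by decide +kernel)
theorem L41182 : W_5 (nat_lit 9) (nat_lit 0x2000120013c0086000000000000000000000000000000) (nat_lit 0x0) (nat_lit 0x70003c001c00000030000b00050000000000000000000000) := T_5 (nat_lit 88) (nat_lit 105) (nat_lit 7) (nat_lit 3) (nat_lit 5) L41181 (by decide +kernel)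
theorem L41183 : W_5 (nat_lit 10) (nat_lit 0x2000120013c0084000000000000000000000000000000) (nat_lit 0x0) (nat_lit 0x70003c001c00000033000b00050000000000000000000000) := T_5 (nat_lit 121) (nat_lit 120) (nat_lit 0) (nat_lit 5) (nat_lit 8) L41182 (by decide +kernel)
theorem L41184 : W_5 (nat_lit 2) (nat_lit 0x8002100128013c0084000000000000000000000000000000) (nat_lit 0x0) (nat_lit 0x2000200010000000000000000000000) := D_5 (nat_lit 105) (nat_lit 88) (nat_lit 121) (nat_lit 7) (nat_lit 3) (nat_lit 5) (nat_lit 6) (nat_lit 2) (nat_lit 10) (by decide +kernel)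
theorem L41185 : W_5 (nat_lit 3) (nat_lit 0x8002000128013c0084000000000000000000000000000000) (nat_lit 0x0) (nat_lit 0x200010000000000002000200010000000000000000000000) := T_5 (nat_lit 172) (nat_lit 189) (nat_lit 6) (nat_lit 2) (nat_lit 11) L41184 (by decide +kernel)
theorem L41186 : W_5 (nat_lit 4) (nat_lit 0x2000128013c0084000000000000000000000000000000) (nat_lit 0x0) (nat_lit 0xa00050000000000002000200010000000000000000000000) := T_5 (nat_lit 191) (nat_lit 174) (nat_lit 4) (nat_lit 4) (nat_lit 11) L41185 (by decide +kernel)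
theorem L41187 : W_5 (nat_lit 5) (nat_lit 0x2000120013c0084000000000000000000000000000000) (nat_lit 0x0) (nat_lit 0xa00050000c00000002000200010000000000000000000000) := T_5 (nat_lit 155) (nat_lit 154) (nat_lit 1) (nat_lit 5) (nat_lit 8) L41186 (by decide +kernel)
theorem L41188 : W_5 (nat_lit 2) (nat_lit 0x8002100130013c0096000e00000000000000000000000000) (nat_lit 0x0) (nat_lit 0x20000000000000000100008000000000000000000000) := D_5 (nat_lit 104) (nat_lit 87) (nat_lit 173) (nat_lit 7) (nat_lit 2) (nat_lit 5) (nat_lit 4) (nat_lit 3) (nat_lit 10) (by decide +kernel)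
theorem L41189 : W_5 (nat_lit 3) (nat_lit 0x8002100120013c0096000e00000000000000000000000000) (nat_lit 0x0) (nat_lit 0x20001000000000000100028000000000000000000000) := T_5 (nat_lit 156) (nat_lit 89) (nat_lit 6) (nat_lit 3) (nat_lit 9) L41188 (by decide +kernel)
theorem L41190 : W_5 (nat_lit 4) (nat_lit 0x8002100120013c0096000a00000000000000000000000000) (nat_lit 0x0) (nat_lit 0x20001000000000001500028000000000000000000000) := T_5 (nat_lit 106) (nat_lit 108) (nat_lit 1) (nat_lit 6) (nat_lit 6) L41189 (by decide +kernel)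
theorem L41191 : W_5 (nat_lit 5) (nat_lit 0x8002000120013c0096000a00000000000000000000000000) (nat_lit 0x0) (nat_lit 0x30001800000000001500028000000000000000000000) := T_5 (nat_lit 172) (nat_lit 155) (nat_lit 6) (nat_lit 2) (nat_lit 10) L41190 (by decide +kernel)
theorem L41192 : W_5 (nat_lit 6) (nat_lit 0x8002000120013c0096000200000000000000000000000000) (nat_lit 0x0) (nat_lit 0x30001800000000001d00068000000000000000000000) := T_5 (nat_lit 107) (nat_lit 90) (nat_lit 5) (nat_lit 5) (nat_lit 5) L41191 (by decide +kernel)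
theorem L41193 : W_5 (nat_lit 7) (nat_lit 0x8002000120013c0096000000000000000000000000000000) (nat_lit 0x0) (nat_lit 0x30001800000000001f00078000000000000000000000) := T_5 (nat_lit 105) (nat_lit 88) (nat_lit 7) (nat_lit 3) (nat_lit 5) L41192 (by decide +kernel)
theorem L41194 : W_5 (nat_lit 8) (nat_lit 0x8002000120013c0094000000000000000000000000000000) (nat_lit 0x0) (nat_lit 0x30001800000003001f00078000000000000000000000) := T_5 (nat_lit 121) (nat_lit 120) (nat_lit 0) (nat_lit 5) (nat_lit 8) L41193 (by decide +kernel)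
theorem L41195 : W_5 (nat_lit 9) (nat_lit 0x2000120013c0094000000000000000000000000000000) (nat_lit 0x0) (nat_lit 0x800070001800000003001f00078000000000000000000000) := T_5 (nat_lit 191) (nat_lit 174) (nat_lit 6) (nat_lit 4) (nat_lit 11) L41194 (by decide +kernel)
theorem L41196 : W_5 (nat_lit 10) (nat_lit 0x2000120013c0084000000000000000000000000000000) (nat_lit 0x0) (nat_lit 0x800070001800000033001f00078000000000000000000000) := T_5 (nat_lit 124) (nat_lit 125) (nat_lit 2) (nat_lit 2) (nat_lit 8) L41195 (by decide +kernel)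
theorem L41197 : W_5 (nat_lit 2) (nat_lit 0x2000120013c0084000200000000000000000000000000) (nat_lit 0x0) (nat_lit 0x800040001000000000000000000000000000000000000000) := D_5 (nat_lit 174) (nat_lit 191) (nat_lit 156) (nat_lit 4) (nat_lit 4) (nat_lit 11) (nat_lit 7) (nat_lit 3) (nat_lit 6) (by decide +kernel)
theorem L41198 : W_5 (nat_lit 3) (nat_lit 0x2000120013c0084000000000000000000000000000000) (nat_lit 0x0) (nat_lit 0x800040001000000000000200010000000000000000000000) := T_5 (nat_lit 105) (nat_lit 88) (nat_lit 7) (nat_lit 3) (nat_lit 5) L41197 (by decide +kernel)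
theorem L41199 : W_5 (nat_lit 11) (nat_lit 0x2000120013c0080000000000000000000000000000000) (nat_lit 0x0) (nat_lit 0xf0007c001c00000037001f00078000000000000000000000) := Q_5 (nat_lit 122) (C_5 L41166 (C_5 L41174 (C_5 L41183 (C_5 L41187 (C_5 L41196 (C_5 L41198 N_5)))))) (by decide +kernel)
theorem L41200 : W_5 (nat_lit 2) (nat_lit 0x2200134013c0082000000000000000000000000000000) (nat_lit 0x0) (nat_lit 0x4000100008000000000000000000000) := D_5 (nat_lit 104) (nat_lit 87) (nat_lit 122) (nat_lit 7) (nat_lit 2) (nat_lit 5) (nat_lit 4) (nat_lit 3) (nat_lit 10) (by decide +kernel)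
theorem L41201 : W_5 (nat_lit 3) (nat_lit 0x2000134013c0082000000000000000000000000000000) (nat_lit 0x0) (nat_lit 0x400020000000000004000100008000000000000000000000) := T_5 (nat_lit 173) (nat_lit 190) (nat_lit 4) (nat_lit 3) (nat_lit 11) L41200 (by decide +kernel)
theorem L41202 : W_5 (nat_lit 4) (nat_lit 0x2000130013c0082000000000000000000000000000000) (nat_lit 0x0) (nat_lit 0x400020000c00000004000100008000000000000000000000) := T_5 (nat_lit 154) (nat_lit 155) (nat_lit 2) (nat_lit 1) (nat_lit 9) L41201 (by decide +kernel)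
theorem L41203 : W_5 (nat_lit 5) (nat_lit 0x2000130013c0080000000000000000000000000000000) (nat_lit 0x0) (nat_lit 0x400020000c00000007000100008000000000000000000000) := T_5 (nat_lit 121) (nat_lit 120) (nat_lit 0) (nat_lit 5) (nat_lit 8) L41202 (by decide +kernel)
theorem L41204 : W_5 (nat_lit 2) (nat_lit 0x20001b8013c0082000000000000000000000000000000) (nat_lit 0x0) (nat_lit 0x400020000000000000000100000000000000000000000000) := D_5 (nat_lit 173) (nat_lit 190) (nat_lit 104) (nat_lit 4) (nat_lit 3) (nat_lit 11) (nat_lit 7) (nat_lit 2) (nat_lit 6) (by decide +kernel)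
theorem L41205 : W_5 (nat_lit 3) (nat_lit 0x20001b0013c0082000000000000000000000000000000) (nat_lit 0x0) (nat_lit 0x400020000c00000000000100000000000000000000000000) := T_5 (nat_lit 155) (nat_lit 154) (nat_lit 2) (nat_lit 1) (nat_lit 9) L41204 (by decide +kernel)
theorem L41206 : W_5 (nat_lit 4) (nat_lit 0x20001b0013c0080000000000000000000000000000000) (nat_lit 0x0) (nat_lit 0x400020000c00000003000100000000000000000000000000) := T_5 (nat_lit 121) (nat_lit 120) (nat_lit 0) (nat_lit 5) (nat_lit 8) L41205 (by decide +kernel)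
theorem L41207 : W_5 (nat_lit 5) (nat_lit 0x2000130013c0080000000000000000000000000000000) (nat_lit 0x0) (nat_lit 0x40002000cc00000003000100000000000000000000000000) := T_5 (nat_lit 159) (nat_lit 158) (nat_lit 3) (nat_lit 2) (nat_lit 8) L41206 (by decide +kernel)
theorem L41208 : W_5 (nat_lit 2) (nat_lit 0x22001b0013c0082000000000000000000000000000000) (nat_lit 0x0) (nat_lit 0x4000100008000000000000000000000) := D_5 (nat_lit 104) (nat_lit 87) (nat_lit 122) (nat_lit 7) (nat_lit 2) (nat_lit 5) (nat_lit 4) (nat_lit 3) (nat_lit 10) (by decide +kernel)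
theorem L41209 : W_5 (nat_lit 3) (nat_lit 0x20001b0013c0082000000000000000000000000000000) (nat_lit 0x0) (nat_lit 0x400020000000000004000100008000000000000000000000) := T_5 (nat_lit 173) (nat_lit 190) (nat_lit 4) (nat_lit 3) (nat_lit 11) L41208 (by decide +kernel)
theorem L41210 : W_5 (nat_lit 4) (nat_lit 0x2000130013c0082000000000000000000000000000000) (nat_lit 0x0) (nat_lit 0x40002000c000000004000100008000000000000000000000) := T_5 (nat_lit 159) (nat_lit 158) (nat_lit 3) (nat_lit 2) (nat_lit 8) L41209 (by decide +kernel)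
theorem L41211 : W_5 (nat_lit 5) (nat_lit 0x2000130013c0080000000000000000000000000000000) (nat_lit 0x0) (nat_lit 0x40002000c000000007000100008000000000000000000000) := T_5 (nat_lit 121) (nat_lit 120) (nat_lit 0) (nat_lit 5) (nat_lit 8) L41210 (by decide +kernel)
theorem L41212 : W_5 (nat_lit 2) (nat_lit 0x2100178013c0080000000000000000000000000000000) (nat_lit 0x0) (nat_lit 0x200000000000000004000200000000000000000000000000) := D_5 (nat_lit 122) (nat_lit 105) (nat_lit 189) (nat_lit 5) (nat_lit 3) (nat_lit 6) (nat_lit 6) (nat_lit 2) (nat_lit 11) (by decide +kernel)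
theorem L41213 : W_5 (nat_lit 3) (nat_lit 0x2000178013c0080000000000000000000000000000000) (nat_lit 0x0) (nat_lit 0x200018000000000004000200000000000000000000000000) := T_5 (nat_lit 172) (nat_lit 171) (nat_lit 1) (nat_lit 5) (nat_lit 9) L41212 (by decide +kernel)
theorem L41214 : W_5 (nat_lit 4) (nat_lit 0x2000170013c0080000000000000000000000000000000) (nat_lit 0x0) (nat_lit 0x200018000c00000004000200000000000000000000000000) := T_5 (nat_lit 155) (nat_lit 154) (nat_lit 2) (nat_lit 1) (nat_lit 9) L41213 (by decide +kernel)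
theorem L41215 : W_5 (nat_lit 5) (nat_lit 0x2000130013c0080000000000000000000000000000000) (nat_lit 0x0) (nat_lit 0x20001800cc00000004000200000000000000000000000000) := T_5 (nat_lit 158) (nat_lit 159) (nat_lit 3) (nat_lit 2) (nat_lit 8) L41214 (by decide +kernel)
theorem L41216 : W_5 (nat_lit 6) (nat_lit 0x2000120013c0080000000000000000000000000000000) (nat_lit 0x0) (nat_lit 0x60003800dc00000007000300008000000000000000000000) := Q_5 (nat_lit 156) (C_5 L41203 (C_5 L41207 (C_5 L41211 (C_5 L41215 N_5)))) (by decide +kernel)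
theorem L41217 : W_5 (nat_lit 2) (nat_lit 0x2400128013c0090000000000000000000000000000000) (nat_lit 0x0) (nat_lit 0x4000000000000800040000000000000000000000) := D_5 (nat_lit 107) (nat_lit 90) (nat_lit 158) (nat_lit 5) (nat_lit 5) (nat_lit 5) (nat_lit 5) (nat_lit 5) (nat_lit 6) (by decide +kernel)
theorem L41218 : W_5 (nat_lit 3) (nat_lit 0x2000128013c0090000000000000000000000000000000) (nat_lit 0x0) (nat_lit 0x800040004000000000000800040000000000000000000000) := T_5 (nat_lit 174) (nat_lit 191) (nat_lit 6) (nat_lit 4) (nat_lit 11) L41217 (by decide +kernel)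
theorem L41219 : W_5 (nat_lit 4) (nat_lit 0x2000128013c0080000000000000000000000000000000) (nat_lit 0x0) (nat_lit 0x800040004000000030000800040000000000000000000000) := T_5 (nat_lit 124) (nat_lit 125) (nat_lit 2) (nat_lit 2) (nat_lit 8) L41218 (by decide +kernel)
theorem L41220 : W_5 (nat_lit 5) (nat_lit 0x2000120013c0080000000000000000000000000000000) (nat_lit 0x0) (nat_lit 0x800040004c00000030000800040000000000000000000000) := T_5 (nat_lit 155) (nat_lit 154) (nat_lit 1) (nat_lit 5) (nat_lit 8) L41219 (by decide +kernel)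
theorem L41221 : W_5 (nat_lit 12) (nat_lit 0x2000100013c0080000000000000000000000000000000) (nat_lit 0x0) (nat_lit 0xf0007c00fc00000037001f00078000000000000000000000) := Q_5 (nat_lit 157) (C_5 L41157 (C_5 L41199 (C_5 L41216 (C_5 L41220 N_5)))) (by decide +kernel)
theorem L41222 : W_5 (nat_lit 2) (nat_lit 0x2000160013c0092000000000000000000000000000000) (nat_lit 0x0) (nat_lit 0x40000000000000000800040000000000000000000000) := D_5 (nat_lit 107) (nat_lit 174) (nat_lit 90) (nat_lit 5) (nat_lit 5) (nat_lit 6) (nat_lit 5) (nat_lit 5) (nat_lit 5) (by decide +kernel)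
theorem L41223 : W_5 (nat_lit 3) (nat_lit 0x2000140013c0092000000000000000000000000000000) (nat_lit 0x0) (nat_lit 0x40002000020000000800040000000000000000000000) := T_5 (nat_lit 157) (nat_lit 137) (nat_lit 3) (nat_lit 1) (nat_lit 8) L41222 (by decide +kernel)
theorem L41224 : W_5 (nat_lit 4) (nat_lit 0x2000100013c0092000000000000000000000000000000) (nat_lit 0x0) (nat_lit 0x4000e000020000000800040000000000000000000000) := T_5 (nat_lit 158) (nat_lit 159) (nat_lit 3) (nat_lit 2) (nat_lit 8) L41223 (by decide +kernel)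
theorem L41225 : W_5 (nat_lit 5) (nat_lit 0x2000100013c0090000000000000000000000000000000) (nat_lit 0x0) (nat_lit 0x4000e000020003000800040000000000000000000000) := T_5 (nat_lit 121) (nat_lit 120) (nat_lit 0) (nat_lit 5) (nat_lit 8) L41224 (by decide +kernel)
theorem L41226 : W_5 (nat_lit 6) (nat_lit 0x2000100013c0080000000000000000000000000000000) (nat_lit 0x0) (nat_lit 0x4000e000020033000800040000000000000000000000) := T_5 (nat_lit 124) (nat_lit 125) (nat_lit 2) (nat_lit 2) (nat_lit 8) L41225 (by decide +kernel)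
theorem L41227 : W_5 (nat_lit 2) (nat_lit 0x2000140013e0080000000000000000000000000000000) (nat_lit 0x0) (nat_lit 0xe00000000000000000000000000000000000000) := D_5 (nat_lit 154) (nat_lit 155) (nat_lit 153) (nat_lit 1) (nat_lit 5) (nat_lit 8) (nat_lit 1) (nat_lit 4) (nat_lit 8) (by decide +kernel)
theorem L41228 : W_5 (nat_lit 3) (nat_lit 0x2000140013c0080000000000000000000000000000000) (nat_lit 0x0) (nat_lit 0x2e00020000000000000000000000000000000000) := T_5 (nat_lit 137) (nat_lit 157) (nat_lit 3) (nat_lit 1) (nat_lit 8) L41227 (by decide +kernel)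
theorem L41229 : W_5 (nat_lit 4) (nat_lit 0x2000100013c0080000000000000000000000000000000) (nat_lit 0x0) (nat_lit 0xee00020000000000000000000000000000000000) := T_5 (nat_lit 158) (nat_lit 159) (nat_lit 3) (nat_lit 2) (nat_lit 8) L41228 (by decide +kernel)
theorem L41230 : W_5 (nat_lit 13) (nat_lit 0x200010001380080000000000000000000000000000000) (nat_lit 0x0) (nat_lit 0xf0007c00fe00070037801f00078000000000000000000000) := Q_5 (nat_lit 138) (C_5 L41137 (C_5 L41141 (C_5 L41150 (C_5 L41153 (C_5 L41221 (C_5 L41226 (C_5 L41229 N_5))))))) (by decide +kernel)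
theorem L41231 : W_5 (nat_lit 2) (nat_lit 0x2400120013c0080000200000000000000000000000000) (nat_lit 0x0) (nat_lit 0xc000000010000000000000000000000) := D_5 (nat_lit 122) (nat_lit 88) (nat_lit 123) (nat_lit 7) (nat_lit 3) (nat_lit 5) (nat_lit 4) (nat_lit 4) (nat_lit 10) (by decide +kernel)
theorem L41232 : W_5 (nat_lit 2) (nat_lit 0x2400120013c0080000200000000000000000000000000) (nat_lit 0x0) (nat_lit 0x1000000004000000010000000000000000000000) := D_5 (nat_lit 122) (nat_lit 88) (nat_lit 156) (nat_lit 7) (nat_lit 3) (nat_lit 5) (nat_lit 7) (nat_lit 3) (nat_lit 6) (by decide +kernel)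
theorem L41233 : W_5 (nat_lit 2) (nat_lit 0x2400128013c0082000300000000000000000000000000) (nat_lit 0x0) (nat_lit 0x20001000000000000000008000000000000000000000) := D_5 (nat_lit 156) (nat_lit 87) (nat_lit 173) (nat_lit 7) (nat_lit 2) (nat_lit 5) (nat_lit 7) (nat_lit 2) (nat_lit 6) (by decide +kernel)
theorem L41234 : W_5 (nat_lit 3) (nat_lit 0x2400128013c0082000200000000000000000000000000) (nat_lit 0x0) (nat_lit 0x20001000000000000100018000000000000000000000) := T_5 (nat_lit 104) (nat_lit 88) (nat_lit 6) (nat_lit 2) (nat_lit 9) L41233 (by decide +kernel)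
theorem L41235 : W_5 (nat_lit 4) (nat_lit 0x2400128013c0080000200000000000000000000000000) (nat_lit 0x0) (nat_lit 0x20001000000003000100018000000000000000000000) := T_5 (nat_lit 121) (nat_lit 120) (nat_lit 0) (nat_lit 5) (nat_lit 8) L41234 (by decide +kernel)
theorem L41236 : W_5 (nat_lit 5) (nat_lit 0x2400120013c0080000200000000000000000000000000) (nat_lit 0x0) (nat_lit 0x20001c00000003000100018000000000000000000000) := T_5 (nat_lit 155) (nat_lit 154) (nat_lit 1) (nat_lit 5) (nat_lit 8) L41235 (by decide +kernel)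
theorem L41237 : W_5 (nat_lit 2) (nat_lit 0x2400120013c0080000200000000000000000000000000) (nat_lit 0x0) (nat_lit 0x100000000c000000000000000000000000000000) := D_5 (nat_lit 122) (nat_lit 123) (nat_lit 156) (nat_lit 4) (nat_lit 4) (nat_lit 10) (nat_lit 7) (nat_lit 3) (nat_lit 6) (by decide +kernel)
theorem L41238 : W_5 (nat_lit 6) (nat_lit 0x2400120013c0080000000000000000000000000000000) (nat_lit 0x0) (nat_lit 0x20001c0000000f000300018000000000000000000000) := Q_5 (nat_lit 105) (C_5 L41231 (C_5 L41232 (C_5 L41236 (C_5 L41237 N_5)))) (by decide +kernel)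
theorem L41239 : W_5 (nat_lit 2) (nat_lit 0x2400120013c0080000000000000000000000000000000) (nat_lit 0x0) (nat_lit 0x800000000000000014000000000000000000000000000000) := D_5 (nat_lit 191) (nat_lit 122) (nat_lit 124) (nat_lit 4) (nat_lit 4) (nat_lit 11) (nat_lit 6) (nat_lit 4) (nat_lit 11) (by decide +kernel)
theorem L41240 : W_5 (nat_lit 2) (nat_lit 0x8002400120013c0082000000000000000000000000000000) (nat_lit 0x0) (nat_lit 0x10000000000005000000000000000000000000000000000000000) := D_5 (nat_lit 208) (nat_lit 158) (nat_lit 156) (nat_lit 6) (nat_lit 4) (nat_lit 12) (nat_lit 4) (nat_lit 4) (nat_lit 12) (by decide +kernel)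
theorem L41241 : W_5 (nat_lit 3) (nat_lit 0x2400120013c0082000000000000000000000000000000) (nat_lit 0x0) (nat_lit 0x10000800000005000000010000000000000000000000000000000) := T_5 (nat_lit 191) (nat_lit 124) (nat_lit 6) (nat_lit 4) (nat_lit 11) L41240 (by decide +kernel)
theorem L41242 : W_5 (nat_lit 4) (nat_lit 0x2400120013c0080000000000000000000000000000000) (nat_lit 0x0) (nat_lit 0x10000800000005000000013000000000000000000000000000000) := T_5 (nat_lit 121) (nat_lit 120) (nat_lit 0) (nat_lit 5) (nat_lit 8) L41241 (by decide +kernel)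
theorem L41243 : W_5 (nat_lit 7) (nat_lit 0x2000120013c0080000000000000000000000000000000) (nat_lit 0x0) (nat_lit 0x10000800060005c0000001f000300018000000000000000000000) := Q_5 (nat_lit 174) (C_5 L41238 (C_5 L41239 (C_5 L41242 N_5))) (by decide +kernel)
theorem L41244 : W_5 (nat_lit 2) (nat_lit 0x2100178013c0080000000000000000000000000000000) (nat_lit 0x0) (nat_lit 0x4000200000000000000004000000000000000000000000000000) := D_5 (nat_lit 189) (nat_lit 206) (nat_lit 122) (nat_lit 6) (nat_lit 2) (nat_lit 12) (nat_lit 6) (nat_lit 2) (nat_lit 11) (by decide +kernel)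
theorem L41245 : W_5 (nat_lit 3) (nat_lit 0x2000178013c0080000000000000000000000000000000) (nat_lit 0x0) (nat_lit 0x4000200018000000000004000000000000000000000000000000) := T_5 (nat_lit 172) (nat_lit 171) (nat_lit 1) (nat_lit 5) (nat_lit 9) L41244 (by decide +kernel)
theorem L41246 : W_5 (nat_lit 4) (nat_lit 0x2000138013c0080000000000000000000000000000000) (nat_lit 0x0) (nat_lit 0x400020001800c000000004000000000000000000000000000000) := T_5 (nat_lit 158) (nat_lit 159) (nat_lit 3) (nat_lit 2) (nat_lit 8) L41245 (by decide +kernel)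
theorem L41247 : W_5 (nat_lit 5) (nat_lit 0x2000130013c0080000000000000000000000000000000) (nat_lit 0x0) (nat_lit 0x400020001800cc00000004000000000000000000000000000000) := T_5 (nat_lit 155) (nat_lit 154) (nat_lit 2) (nat_lit 1) (nat_lit 9) L41246 (by decide +kernel)
theorem L41248 : W_5 (nat_lit 6) (nat_lit 0x2000120013c0080000000000000000000000000000000) (nat_lit 0x0) (nat_lit 0x400060003800dc00000007000100008000000000000000000000) := Q_5 (nat_lit 156) (C_5 L41203 (C_5 L41211 (C_5 L41207 (C_5 L41247 N_5)))) (by decide +kernel)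
theorem L41249 : W_5 (nat_lit 2) (nat_lit 0x8002300138013c0086000000000000000000000000000000) (nat_lit 0x0) (nat_lit 0x10000c000000000000000000000000000000000000000000) := D_5 (nat_lit 171) (nat_lit 188) (nat_lit 170) (nat_lit 5) (nat_lit 2) (nat_lit 7) (nat_lit 2) (nat_lit 0) (nat_lit 10) (by decide +kernel)
theorem L41250 : W_5 (nat_lit 3) (nat_lit 0x8002300128013c0086000000000000000000000000000000) (nat_lit 0x0) (nat_lit 0x10000c001000000000000100000000000000000000000000) := T_5 (nat_lit 156) (nat_lit 104) (nat_lit 7) (nat_lit 2) (nat_lit 6) L41249 (by decide +kernel)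
theorem L41251 : W_5 (nat_lit 4) (nat_lit 0x8002100128013c0086000000000000000000000000000000) (nat_lit 0x0) (nat_lit 0x50002c001000000000000100000000000000000000000000) := T_5 (nat_lit 173) (nat_lit 190) (nat_lit 7) (nat_lit 2) (nat_lit 7) L41250 (by decide +kernel)
theorem L41252 : W_5 (nat_lit 5) (nat_lit 0x8002000128013c0086000000000000000000000000000000) (nat_lit 0x0) (nat_lit 0x70003c001000000000000100000000000000000000000000) := T_5 (nat_lit 172) (nat_lit 189) (nat_lit 6) (nat_lit 2) (nat_lit 11) L41251 (by decide +kernel)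
theorem L41253 : W_5 (nat_lit 6) (nat_lit 0x8002000120013c0086000000000000000000000000000000) (nat_lit 0x0) (nat_lit 0x70003c001c00000000000100000000000000000000000000) := T_5 (nat_lit 155) (nat_lit 154) (nat_lit 1) (nat_lit 5) (nat_lit 8) L41252 (by decide +kernel)
theorem L41254 : W_5 (nat_lit 7) (nat_lit 0x2000120013c0086000000000000000000000000000000) (nat_lit 0x0) (nat_lit 0xf0007c001c00000000000100000000000000000000000000) := T_5 (nat_lit 191) (nat_lit 174) (nat_lit 4) (nat_lit 4) (nat_lit 11) L41253 (by decide +kernel)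
theorem L41255 : W_5 (nat_lit 8) (nat_lit 0x2000120013c0084000000000000000000000000000000) (nat_lit 0x0) (nat_lit 0xf0007c001c00000003000100000000000000000000000000) := T_5 (nat_lit 121) (nat_lit 120) (nat_lit 0) (nat_lit 5) (nat_lit 8) L41254 (by decide +kernel)
theorem L41256 : W_5 (nat_lit 2) (nat_lit 0x2000128013c0086000000000000000000000000000000) (nat_lit 0x0) (nat_lit 0x10000000000000000200010000000000000000000000) := D_5 (nat_lit 105) (nat_lit 88) (nat_lit 172) (nat_lit 7) (nat_lit 3) (nat_lit 5) (nat_lit 6) (nat_lit 2) (nat_lit 10) (by decide +kernel)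
theorem L41257 : W_5 (nat_lit 3) (nat_lit 0x2000128013c0084000000000000000000000000000000) (nat_lit 0x0) (nat_lit 0x10000000000003000200010000000000000000000000) := T_5 (nat_lit 121) (nat_lit 120) (nat_lit 0) (nat_lit 5) (nat_lit 8) L41256 (by decide +kernel)
theorem L41258 : W_5 (nat_lit 4) (nat_lit 0x2000120013c0084000000000000000000000000000000) (nat_lit 0x0) (nat_lit 0x10000c00000003000200010000000000000000000000) := T_5 (nat_lit 155) (nat_lit 154) (nat_lit 1) (nat_lit 5) (nat_lit 8) L41257 (by decide +kernel)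
theorem L41259 : W_5 (nat_lit 9) (nat_lit 0x2000120013c0080000000000000000000000000000000) (nat_lit 0x0) (nat_lit 0xf0007c001c00000007000300010000000000000000000000) := Q_5 (nat_lit 122) (C_5 L41255 (C_5 L41258 (C_5 L41198 N_5))) (by decide +kernel)
theorem L41260 : W_5 (nat_lit 2) (nat_lit 0x26001b8013c0098000000000000000000000000000000) (nat_lit 0x0) (nat_lit 0x3000100000000000000000000000000) := D_5 (nat_lit 121) (nat_lit 120) (nat_lit 104) (nat_lit 0) (nat_lit 5) (nat_lit 8) (nat_lit 7) (nat_lit 2) (nat_lit 6) (by decide +kernel)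
theorem L41261 : W_5 (nat_lit 3) (nat_lit 0x26001a8013c0098000000000000000000000000000000) (nat_lit 0x0) (nat_lit 0x1000000003000500000000000000000000000000) := T_5 (nat_lit 156) (nat_lit 106) (nat_lit 5) (nat_lit 4) (nat_lit 6) L41260 (by decide +kernel)
theorem L41262 : W_5 (nat_lit 4) (nat_lit 0x26001a8013c0088000000000000000000000000000000) (nat_lit 0x0) (nat_lit 0x1000000013000d00000000000000000000000000) := T_5 (nat_lit 124) (nat_lit 107) (nat_lit 6) (nat_lit 4) (nat_lit 10) L41261 (by decide +kernel)
theorem L41263 : W_5 (nat_lit 5) (nat_lit 0x2600128013c0088000000000000000000000000000000) (nat_lit 0x0) (nat_lit 0xd000000013000d00000000000000000000000000) := T_5 (nat_lit 159) (nat_lit 158) (nat_lit 3) (nat_lit 2) (nat_lit 8) L41262 (by decide +kernel)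
theorem L41264 : W_5 (nat_lit 6) (nat_lit 0x2600128013c0080000000000000000000000000000000) (nat_lit 0x0) (nat_lit 0x40000000d00000001b000d00000000000000000000000000) := T_5 (nat_lit 123) (nat_lit 190) (nat_lit 5) (nat_lit 4) (nat_lit 7) L41263 (by decide +kernel)
theorem L41265 : W_5 (nat_lit 7) (nat_lit 0x2600120013c0080000000000000000000000000000000) (nat_lit 0x0) (nat_lit 0x40000000dc0000001b000d00000000000000000000000000) := T_5 (nat_lit 155) (nat_lit 154) (nat_lit 1) (nat_lit 5) (nat_lit 8) L41264 (by decide +kernel)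
theorem L41266 : W_5 (nat_lit 2) (nat_lit 0x2600120013c0082000000000000000000000000000000) (nat_lit 0x0) (nat_lit 0x400000001000000008000000000000000000000000000000) := D_5 (nat_lit 190) (nat_lit 123) (nat_lit 156) (nat_lit 5) (nat_lit 4) (nat_lit 7) (nat_lit 4) (nat_lit 3) (nat_lit 11) (by decide +kernel)
theorem L41267 : W_5 (nat_lit 3) (nat_lit 0x2600120013c0080000000000000000000000000000000) (nat_lit 0x0) (nat_lit 0x40000000100000000b000000000000000000000000000000) := T_5 (nat_lit 121) (nat_lit 120) (nat_lit 0) (nat_lit 5) (nat_lit 8) L41266 (by decide +kernel)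
theorem L41268 : W_5 (nat_lit 2) (nat_lit 0x26001a8013c0082000000000000000000000000000000) (nat_lit 0x0) (nat_lit 0x400010001000000000000000000000000000000000000000) := D_5 (nat_lit 190) (nat_lit 156) (nat_lit 172) (nat_lit 4) (nat_lit 3) (nat_lit 11) (nat_lit 7) (nat_lit 2) (nat_lit 7) (by decide +kernel)
theorem L41269 : W_5 (nat_lit 3) (nat_lit 0x26001a8013c0080000000000000000000000000000000) (nat_lit 0x0) (nat_lit 0x400010001000000003000000000000000000000000000000) := T_5 (nat_lit 121) (nat_lit 120) (nat_lit 0) (nat_lit 5) (nat_lit 8) L41268 (by decide +kernel)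
theorem L41270 : W_5 (nat_lit 4) (nat_lit 0x2600128013c0080000000000000000000000000000000) (nat_lit 0x0) (nat_lit 0x40001000d000000003000000000000000000000000000000) := T_5 (nat_lit 159) (nat_lit 158) (nat_lit 3) (nat_lit 2) (nat_lit 8) L41269 (by decide +kernel)
theorem L41271 : W_5 (nat_lit 5) (nat_lit 0x2600120013c0080000000000000000000000000000000) (nat_lit 0x0) (nat_lit 0x40001000dc00000003000000000000000000000000000000) := T_5 (nat_lit 155) (nat_lit 154) (nat_lit 1) (nat_lit 5) (nat_lit 8) L41270 (by decide +kernel)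
theorem L41272 : W_5 (nat_lit 2) (nat_lit 0x2600168013c008a000800000000000000000000000000) (nat_lit 0x0) (nat_lit 0x400060000000000000000000000) := D_5 (nat_lit 106) (nat_lit 90) (nat_lit 89) (nat_lit 6) (nat_lit 4) (nat_lit 9) (nat_lit 7) (nat_lit 4) (nat_lit 5) (by decide +kernel)
theorem L41273 : W_5 (nat_lit 3) (nat_lit 0x2600128013c008a000800000000000000000000000000) (nat_lit 0x0) (nat_lit 0xc000000000000400060000000000000000000000) := T_5 (nat_lit 158) (nat_lit 159) (nat_lit 3) (nat_lit 2) (nat_lit 8) L41272 (by decide +kernel)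
theorem L41274 : W_5 (nat_lit 4) (nat_lit 0x2600128013c008a000000000000000000000000000000) (nat_lit 0x0) (nat_lit 0xc000000010000c00060000000000000000000000) := T_5 (nat_lit 107) (nat_lit 124) (nat_lit 6) (nat_lit 4) (nat_lit 10) L41273 (by decide +kernel)
theorem L41275 : W_5 (nat_lit 5) (nat_lit 0x2600120013c008a000000000000000000000000000000) (nat_lit 0x0) (nat_lit 0xcc00000010000c00060000000000000000000000) := T_5 (nat_lit 155) (nat_lit 154) (nat_lit 1) (nat_lit 5) (nat_lit 8) L41274 (by decide +kernel)
theorem L41276 : W_5 (nat_lit 6) (nat_lit 0x2600120013c0082000000000000000000000000000000) (nat_lit 0x0) (nat_lit 0x40000000cc00000018000c00060000000000000000000000) := T_5 (nat_lit 123) (nat_lit 190) (nat_lit 5) (nat_lit 4) (nat_lit 7) L41275 (by decide +kernel)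
theorem L41277 : W_5 (nat_lit 7) (nat_lit 0x2600120013c0080000000000000000000000000000000) (nat_lit 0x0) (nat_lit 0x40000000cc0000001b000c00060000000000000000000000) := T_5 (nat_lit 121) (nat_lit 120) (nat_lit 0) (nat_lit 5) (nat_lit 8) L41276 (by decide +kernel)
theorem L41278 : W_5 (nat_lit 2) (nat_lit 0x2600128013c0098000400000000000000000000000000) (nat_lit 0x0) (nat_lit 0xc000000000000000020000000000000000000000) := D_5 (nat_lit 158) (nat_lit 159) (nat_lit 89) (nat_lit 3) (nat_lit 2) (nat_lit 8) (nat_lit 7) (nat_lit 4) (nat_lit 5) (by decide +kernel)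
theorem L41279 : W_5 (nat_lit 3) (nat_lit 0x2600128013c0098000000000000000000000000000000) (nat_lit 0x0) (nat_lit 0xd000000000000400020000000000000000000000) := T_5 (nat_lit 106) (nat_lit 156) (nat_lit 5) (nat_lit 4) (nat_lit 6) L41278 (by decide +kernel)
theorem L41280 : W_5 (nat_lit 4) (nat_lit 0x2600128013c0088000000000000000000000000000000) (nat_lit 0x0) (nat_lit 0xd000000010000c00020000000000000000000000) := T_5 (nat_lit 124) (nat_lit 107) (nat_lit 6) (nat_lit 4) (nat_lit 10) L41279 (by decide +kernel)
theorem L41281 : W_5 (nat_lit 5) (nat_lit 0x2600120013c0088000000000000000000000000000000) (nat_lit 0x0) (nat_lit 0xdc00000010000c00020000000000000000000000) := T_5 (nat_lit 155) (nat_lit 154) (nat_lit 1) (nat_lit 5) (nat_lit 8) L41280 (by decide +kernel)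
theorem L41282 : W_5 (nat_lit 6) (nat_lit 0x2600120013c0080000000000000000000000000000000) (nat_lit 0x0) (nat_lit 0x40000000dc00000018000c00020000000000000000000000) := T_5 (nat_lit 123) (nat_lit 190) (nat_lit 5) (nat_lit 4) (nat_lit 7) L41281 (by decide +kernel)
theorem L41283 : W_5 (nat_lit 2) (nat_lit 0x26001a8013c0082000b0000c000000000000000000000) (nat_lit 0x0) (nat_lit 0x18000000040000000000000000000000) := D_5 (nat_lit 124) (nat_lit 90) (nat_lit 123) (nat_lit 5) (nat_lit 5) (nat_lit 5) (nat_lit 6) (nat_lit 4) (nat_lit 10) (by decide +kernel)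
theorem L41284 : W_5 (nat_lit 3) (nat_lit 0x26001a8013c008200030000c000000000000000000000) (nat_lit 0x0) (nat_lit 0x18000c00040000000000000000000000) := T_5 (nat_lit 107) (nat_lit 106) (nat_lit 0) (nat_lit 5) (nat_lit 6) L41283 (by decide +kernel)
theorem L41285 : W_5 (nat_lit 4) (nat_lit 0x26001a8013c0082000300004000000000000000000000) (nat_lit 0x0) (nat_lit 0x18000c00048000200000000000000000) := T_5 (nat_lit 87) (nat_lit 69) (nat_lit 4) (nat_lit 2) (nat_lit 8) L41284 (by decide +kernel)
theorem L41286 : W_5 (nat_lit 5) (nat_lit 0x26001a8013c0082000100004000000000000000000000) (nat_lit 0x0) (nat_lit 0x18000e00058000200000000000000000) := T_5 (nat_lit 105) (nat_lit 88) (nat_lit 6) (nat_lit 2) (nat_lit 9) L41285 (by decide +kernel)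
theorem L41287 : W_5 (nat_lit 6) (nat_lit 0x26001a8013c0082000100000000000000000000000000) (nat_lit 0x0) (nat_lit 0x18000e8005c000200000000000000000) := T_5 (nat_lit 86) (nat_lit 103) (nat_lit 4) (nat_lit 2) (nat_lit 9) L41286 (by decide +kernel)
theorem L41288 : W_5 (nat_lit 7) (nat_lit 0x26001a8013c0082000000000000000000000000000000) (nat_lit 0x0) (nat_lit 0x1000000018000f8005c000200000000000000000) := T_5 (nat_lit 104) (nat_lit 156) (nat_lit 7) (nat_lit 2) (nat_lit 6) L41287 (by decide +kernel)
theorem L41289 : W_5 (nat_lit 8) (nat_lit 0x26001a0013c0082000000000000000000000000000000) (nat_lit 0x0) (nat_lit 0x1c00000018000f8005c000200000000000000000) := T_5 (nat_lit 155) (nat_lit 154) (nat_lit 1) (nat_lit 5) (nat_lit 8) L41288 (by decide +kernel)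
theorem L41290 : W_5 (nat_lit 9) (nat_lit 0x26001a0013c0080000000000000000000000000000000) (nat_lit 0x0) (nat_lit 0x1c0000001b000f8005c000200000000000000000) := T_5 (nat_lit 121) (nat_lit 120) (nat_lit 0) (nat_lit 5) (nat_lit 8) L41289 (by decide +kernel)
theorem L41291 : W_5 (nat_lit 10) (nat_lit 0x2600120013c0080000000000000000000000000000000) (nat_lit 0x0) (nat_lit 0xdc0000001b000f8005c000200000000000000000) := T_5 (nat_lit 159) (nat_lit 158) (nat_lit 3) (nat_lit 2) (nat_lit 8) L41290 (by decide +kernel)
theorem L41292 : W_5 (nat_lit 11) (nat_lit 0x2400120013c0080000000000000000000000000000000) (nat_lit 0x0) (nat_lit 0x40003000dc0000001b000f8007c000200000000000000000) := Q_5 (nat_lit 173) (C_5 L41265 (C_5 L41267 (C_5 L41271 (C_5 L41277 (C_5 L41282 (C_5 L41291 N_5)))))) (by decide +kernel)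
theorem L41293 : W_5 (nat_lit 2) (nat_lit 0x100018002400128013c0080000000000000000000000000000000) (nat_lit 0x0) (nat_lit 0x100008000400000000000000000000000000000000000000000000000) := D_5 (nat_lit 207) (nat_lit 224) (nat_lit 190) (nat_lit 5) (nat_lit 4) (nat_lit 9) (nat_lit 5) (nat_lit 4) (nat_lit 8) (by decide +kernel)
theorem L41294 : W_5 (nat_lit 3) (nat_lit 0x18002400128013c0080000000000000000000000000000000) (nat_lit 0x0) (nat_lit 0x100018000400000001000000000000000000000000000000000000000) := T_5 (nat_lit 208) (nat_lit 156) (nat_lit 4) (nat_lit 4) (nat_lit 12) L41293 (by decide +kernel)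
theorem L41295 : W_5 (nat_lit 4) (nat_lit 0x8002400128013c0080000000000000000000000000000000) (nat_lit 0x0) (nat_lit 0x100038001400000001000000000000000000000000000000000000000) := T_5 (nat_lit 192) (nat_lit 209) (nat_lit 7) (nat_lit 4) (nat_lit 8) L41294 (by decide +kernel)
theorem L41296 : W_5 (nat_lit 5) (nat_lit 0x2400128013c0080000000000000000000000000000000) (nat_lit 0x0) (nat_lit 0x100038001c00000001000000010000000000000000000000000000000) := T_5 (nat_lit 191) (nat_lit 124) (nat_lit 6) (nat_lit 4) (nat_lit 11) L41295 (by decide +kernel)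
theorem L41297 : W_5 (nat_lit 6) (nat_lit 0x2400120013c0080000000000000000000000000000000) (nat_lit 0x0) (nat_lit 0x100038001c00000001c00000010000000000000000000000000000000) := T_5 (nat_lit 155) (nat_lit 154) (nat_lit 1) (nat_lit 5) (nat_lit 8) L41296 (by decide +kernel)
theorem L41298 : W_5 (nat_lit 2) (nat_lit 0x1c002400168013c0082000000000000000000000000000000) (nat_lit 0x0) (nat_lit 0x20001000000008000000000000000000000000000000) := D_5 (nat_lit 173) (nat_lit 123) (nat_lit 156) (nat_lit 5) (nat_lit 4) (nat_lit 7) (nat_lit 4) (nat_lit 3) (nat_lit 11) (by decide +kernel)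
theorem L41299 : W_5 (nat_lit 3) (nat_lit 0x18002400168013c0082000000000000000000000000000000) (nat_lit 0x0) (nat_lit 0x8000400020001000000008000000000000000000000000000000) := T_5 (nat_lit 190) (nat_lit 207) (nat_lit 5) (nat_lit 4) (nat_lit 8) L41298 (by decide +kernel)
theorem L41300 : W_5 (nat_lit 4) (nat_lit 0x8002400168013c0082000000000000000000000000000000) (nat_lit 0x0) (nat_lit 0x28001400020001000000008000000000000000000000000000000) := T_5 (nat_lit 192) (nat_lit 209) (nat_lit 7) (nat_lit 4) (nat_lit 8) L41299 (by decide +kernel)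
theorem L41301 : W_5 (nat_lit 5) (nat_lit 0x2400168013c0082000000000000000000000000000000) (nat_lit 0x0) (nat_lit 0x38001c00020001000000008000000000000000000000000000000) := T_5 (nat_lit 191) (nat_lit 208) (nat_lit 6) (nat_lit 4) (nat_lit 12) L41300 (by decide +kernel)
theorem L41302 : W_5 (nat_lit 6) (nat_lit 0x2400160013c0082000000000000000000000000000000) (nat_lit 0x0) (nat_lit 0x38001c00020001c00000008000000000000000000000000000000) := T_5 (nat_lit 155) (nat_lit 154) (nat_lit 1) (nat_lit 5) (nat_lit 8) L41301 (by decide +kernel)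
theorem L41303 : W_5 (nat_lit 7) (nat_lit 0x2400120013c0082000000000000000000000000000000) (nat_lit 0x0) (nat_lit 0x38001c0002000dc00000008000000000000000000000000000000) := T_5 (nat_lit 158) (nat_lit 159) (nat_lit 3) (nat_lit 2) (nat_lit 8) L41302 (by decide +kernel)
theorem L41304 : W_5 (nat_lit 8) (nat_lit 0x2400120013c0080000000000000000000000000000000) (nat_lit 0x0) (nat_lit 0x38001c0002000dc0000000b000000000000000000000000000000) := T_5 (nat_lit 121) (nat_lit 120) (nat_lit 0) (nat_lit 5) (nat_lit 8) L41303 (by decide +kernel)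
theorem L41305 : W_5 (nat_lit 2) (nat_lit 0x3c0024001a0013c0082000000000000000000000000000000) (nat_lit 0x0) (nat_lit 0x30000000000008000000000000000000000000000000) := D_5 (nat_lit 173) (nat_lit 123) (nat_lit 172) (nat_lit 5) (nat_lit 4) (nat_lit 7) (nat_lit 0) (nat_lit 6) (nat_lit 11) (by decide +kernel)
theorem L41306 : W_5 (nat_lit 3) (nat_lit 0x1c0024001a0013c0082000000000000000000000000000000) (nat_lit 0x0) (nat_lit 0x2000130000000000008000000000000000000000000000000) := T_5 (nat_lit 193) (nat_lit 176) (nat_lit 2) (nat_lit 3) (nat_lit 11) L41305 (by decide +kernel)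
theorem L41307 : W_5 (nat_lit 4) (nat_lit 0x180024001a0013c0082000000000000000000000000000000) (nat_lit 0x0) (nat_lit 0x8002400130000000000008000000000000000000000000000000) := T_5 (nat_lit 190) (nat_lit 207) (nat_lit 5) (nat_lit 4) (nat_lit 8) L41306 (by decide +kernel)
theorem L41308 : W_5 (nat_lit 5) (nat_lit 0x80024001a0013c0082000000000000000000000000000000) (nat_lit 0x0) (nat_lit 0x28003400130000000000008000000000000000000000000000000) := T_5 (nat_lit 192) (nat_lit 209) (nat_lit 7) (nat_lit 4) (nat_lit 8) L41307 (by decide +kernel)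
theorem L41309 : W_5 (nat_lit 6) (nat_lit 0x24001a0013c0082000000000000000000000000000000) (nat_lit 0x0) (nat_lit 0x28003c00130000000000018000000000000000000000000000000) := T_5 (nat_lit 191) (nat_lit 124) (nat_lit 6) (nat_lit 4) (nat_lit 11) L41308 (by decide +kernel)
theorem L41310 : W_5 (nat_lit 7) (nat_lit 0x24001a0013c0080000000000000000000000000000000) (nat_lit 0x0) (nat_lit 0x28003c0013000000000001b000000000000000000000000000000) := T_5 (nat_lit 121) (nat_lit 120) (nat_lit 0) (nat_lit 5) (nat_lit 8) L41309 (by decide +kernel)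
theorem L41311 : W_5 (nat_lit 8) (nat_lit 0x2400120013c0080000000000000000000000000000000) (nat_lit 0x0) (nat_lit 0x28003c0013000c00000001b000000000000000000000000000000) := T_5 (nat_lit 159) (nat_lit 158) (nat_lit 3) (nat_lit 2) (nat_lit 8) L41310 (by decide +kernel)
theorem L41312 : W_5 (nat_lit 12) (nat_lit 0x2000120013c0080000000000000000000000000000000) (nat_lit 0x0) (nat_lit 0x100038003c0017000dc0000001b000f8007c000200000000000000000) := Q_5 (nat_lit 174) (C_5 L41292 (C_5 L41242 (C_5 L41297 (C_5 L41304 (C_5 L41311 N_5))))) (by decide +kernel)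
theorem L41313 : W_5 (nat_lit 2) (nat_lit 0x8002400128013c0080000000000000000000000000000000) (nat_lit 0x0) (nat_lit 0x1000000000000c000000000000000000000000000000000000000) := D_5 (nat_lit 158) (nat_lit 159) (nat_lit 208) (nat_lit 3) (nat_lit 2) (nat_lit 8) (nat_lit 6) (nat_lit 4) (nat_lit 12) (by decide +kernel)
theorem L41314 : W_5 (nat_lit 3) (nat_lit 0x2400128013c0080000000000000000000000000000000) (nat_lit 0x0) (nat_lit 0x1000080000000c000000004000000000000000000000000000000) := T_5 (nat_lit 191) (nat_lit 122) (nat_lit 4) (nat_lit 4) (nat_lit 11) L41313 (by decide +kernel)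
theorem L41315 : W_5 (nat_lit 4) (nat_lit 0x2400120013c0080000000000000000000000000000000) (nat_lit 0x0) (nat_lit 0x1000080000000cc00000004000000000000000000000000000000) := T_5 (nat_lit 155) (nat_lit 154) (nat_lit 1) (nat_lit 5) (nat_lit 8) L41314 (by decide +kernel)
theorem L41316 : W_5 (nat_lit 2) (nat_lit 0x2002400168013c008d000800000000000000000000000000) (nat_lit 0x0) (nat_lit 0x400060000000000000000000000) := D_5 (nat_lit 106) (nat_lit 89) (nat_lit 90) (nat_lit 7) (nat_lit 4) (nat_lit 5) (nat_lit 6) (nat_lit 4) (nat_lit 9) (by decide +kernel)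
theorem L41317 : W_5 (nat_lit 3) (nat_lit 0x2002400128013c008d000800000000000000000000000000) (nat_lit 0x0) (nat_lit 0xc000000000000400060000000000000000000000) := T_5 (nat_lit 158) (nat_lit 159) (nat_lit 3) (nat_lit 2) (nat_lit 8) L41316 (by decide +kernel)
theorem L41318 : W_5 (nat_lit 4) (nat_lit 0x2002400128013c008d000000000000000000000000000000) (nat_lit 0x0) (nat_lit 0xc000000010000c00060000000000000000000000) := T_5 (nat_lit 107) (nat_lit 124) (nat_lit 6) (nat_lit 4) (nat_lit 10) L41317 (by decide +kernel)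
theorem L41319 : W_5 (nat_lit 5) (nat_lit 0x2002400128013c008c000000000000000000000000000000) (nat_lit 0x0) (nat_lit 0xc000000013000c00060000000000000000000000) := T_5 (nat_lit 120) (nat_lit 121) (nat_lit 3) (nat_lit 1) (nat_lit 7) L41318 (by decide +kernel)
theorem L41320 : W_5 (nat_lit 6) (nat_lit 0x2400128013c008c000000000000000000000000000000) (nat_lit 0x0) (nat_lit 0x20001000c000000013000c00060000000000000000000000) := T_5 (nat_lit 189) (nat_lit 172) (nat_lit 6) (nat_lit 2) (nat_lit 11) L41319 (by decide +kernel)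
theorem L41321 : W_5 (nat_lit 7) (nat_lit 0x2400128013c0088000000000000000000000000000000) (nat_lit 0x0) (nat_lit 0x20001000c000000017000e00060000000000000000000000) := T_5 (nat_lit 122) (nat_lit 105) (nat_lit 4) (nat_lit 4) (nat_lit 10) L41320 (by decide +kernel)
theorem L41322 : W_5 (nat_lit 8) (nat_lit 0x2400120013c0088000000000000000000000000000000) (nat_lit 0x0) (nat_lit 0x20001000cc00000017000e00060000000000000000000000) := T_5 (nat_lit 155) (nat_lit 154) (nat_lit 1) (nat_lit 5) (nat_lit 8) L41321 (by decide +kernel)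
theorem L41323 : W_5 (nat_lit 2) (nat_lit 0x2400160013c0088000800000000000000000000000000) (nat_lit 0x0) (nat_lit 0x400060000000000000000000000) := D_5 (nat_lit 106) (nat_lit 90) (nat_lit 89) (nat_lit 6) (nat_lit 4) (nat_lit 9) (nat_lit 7) (nat_lit 4) (nat_lit 5) (by decide +kernel)
theorem L41324 : W_5 (nat_lit 3) (nat_lit 0x2400160013c0088000000000000000000000000000000) (nat_lit 0x0) (nat_lit 0x10000c00060000000000000000000000) := T_5 (nat_lit 107) (nat_lit 124) (nat_lit 6) (nat_lit 4) (nat_lit 10) L41323 (by decide +kernel)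
theorem L41325 : W_5 (nat_lit 4) (nat_lit 0x2400120013c0088000000000000000000000000000000) (nat_lit 0x0) (nat_lit 0xc000000010000c00060000000000000000000000) := T_5 (nat_lit 158) (nat_lit 159) (nat_lit 3) (nat_lit 2) (nat_lit 8) L41324 (by decide +kernel)
theorem L41326 : W_5 (nat_lit 2) (nat_lit 0x2002600128013c008e000c00000000000000000000000000) (nat_lit 0x0) (nat_lit 0x4000000000000000020001000000000000000000) := D_5 (nat_lit 89) (nat_lit 158) (nat_lit 72) (nat_lit 7) (nat_lit 4) (nat_lit 5) (nat_lit 5) (nat_lit 4) (nat_lit 4) (by decide +kernel)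
theorem L41327 : W_5 (nat_lit 3) (nat_lit 0x2002600128013c008e000800000000000000000000000000) (nat_lit 0x0) (nat_lit 0x4000000000000400060001000000000000000000) := T_5 (nat_lit 106) (nat_lit 90) (nat_lit 6) (nat_lit 4) (nat_lit 9) L41326 (by decide +kernel)
theorem L41328 : W_5 (nat_lit 4) (nat_lit 0x2002600128013c008e000000000000000000000000000000) (nat_lit 0x0) (nat_lit 0x4000000010000c00060001000000000000000000) := T_5 (nat_lit 107) (nat_lit 124) (nat_lit 6) (nat_lit 4) (nat_lit 10) L41327 (by decide +kernel)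
theorem L41329 : W_5 (nat_lit 5) (nat_lit 0x2600128013c008e000000000000000000000000000000) (nat_lit 0x0) (nat_lit 0x200010004000000010000c00060001000000000000000000) := T_5 (nat_lit 189) (nat_lit 172) (nat_lit 6) (nat_lit 2) (nat_lit 11) L41328 (by decide +kernel)
theorem L41330 : W_5 (nat_lit 6) (nat_lit 0x2600128013c008a000000000000000000000000000000) (nat_lit 0x0) (nat_lit 0x200010004000000014000e00060001000000000000000000) := T_5 (nat_lit 122) (nat_lit 105) (nat_lit 4) (nat_lit 4) (nat_lit 10) L41329 (by decide +kernel)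
theorem L41331 : W_5 (nat_lit 7) (nat_lit 0x2600128013c0088000000000000000000000000000000) (nat_lit 0x0) (nat_lit 0x200010004000000017000e00060001000000000000000000) := T_5 (nat_lit 121) (nat_lit 120) (nat_lit 0) (nat_lit 5) (nat_lit 8) L41330 (by decide +kernel)
theorem L41332 : W_5 (nat_lit 8) (nat_lit 0x2400128013c0088000000000000000000000000000000) (nat_lit 0x0) (nat_lit 0x600030004000000017000e00060001000000000000000000) := T_5 (nat_lit 173) (nat_lit 190) (nat_lit 5) (nat_lit 4) (nat_lit 7) L41331 (by decide +kernel)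
theorem L41333 : W_5 (nat_lit 9) (nat_lit 0x2400120013c0088000000000000000000000000000000) (nat_lit 0x0) (nat_lit 0x600030004c00000017000e00060001000000000000000000) := T_5 (nat_lit 155) (nat_lit 154) (nat_lit 1) (nat_lit 5) (nat_lit 8) L41332 (by decide +kernel)
theorem L41334 : W_5 (nat_lit 2) (nat_lit 0x2600128013c009a000200000000000000000000000000) (nat_lit 0x0) (nat_lit 0x500010000000000000000000000) := D_5 (nat_lit 88) (nat_lit 104) (nat_lit 106) (nat_lit 6) (nat_lit 2) (nat_lit 9) (nat_lit 4) (nat_lit 4) (nat_lit 9) (by decide +kernel)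
theorem L41335 : W_5 (nat_lit 3) (nat_lit 0x2600128013c009a000000000000000000000000000000) (nat_lit 0x0) (nat_lit 0x4000700010000000000000000000000) := T_5 (nat_lit 105) (nat_lit 122) (nat_lit 4) (nat_lit 4) (nat_lit 10) L41334 (by decide +kernel)
theorem L41336 : W_5 (nat_lit 4) (nat_lit 0x2600128013c0098000000000000000000000000000000) (nat_lit 0x0) (nat_lit 0x7000700010000000000000000000000) := T_5 (nat_lit 121) (nat_lit 120) (nat_lit 0) (nat_lit 5) (nat_lit 8) L41335 (by decide +kernel)
theorem L41337 : W_5 (nat_lit 5) (nat_lit 0x2400128013c0098000000000000000000000000000000) (nat_lit 0x0) (nat_lit 0x400020000000000007000700010000000000000000000000) := T_5 (nat_lit 173) (nat_lit 190) (nat_lit 5) (nat_lit 4) (nat_lit 7) L41336 (by decide +kernel)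
theorem L41338 : W_5 (nat_lit 6) (nat_lit 0x2400120013c0098000000000000000000000000000000) (nat_lit 0x0) (nat_lit 0x400020000c00000007000700010000000000000000000000) := T_5 (nat_lit 155) (nat_lit 154) (nat_lit 1) (nat_lit 5) (nat_lit 8) L41337 (by decide +kernel)
theorem L41339 : W_5 (nat_lit 7) (nat_lit 0x2400120013c0088000000000000000000000000000000) (nat_lit 0x0) (nat_lit 0x400020000c00000017000f00010000000000000000000000) := T_5 (nat_lit 124) (nat_lit 107) (nat_lit 6) (nat_lit 4) (nat_lit 10) L41338 (by decide +kernel)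
theorem L41340 : W_5 (nat_lit 2) (nat_lit 0x2600168013c008d000000000000000000000000000000) (nat_lit 0x0) (nat_lit 0x200018000000000000000000000000000000000000000000) := D_5 (nat_lit 172) (nat_lit 171) (nat_lit 189) (nat_lit 2) (nat_lit 1) (nat_lit 10) (nat_lit 6) (nat_lit 2) (nat_lit 11) (by decide +kernel)
theorem L41341 : W_5 (nat_lit 3) (nat_lit 0x2400168013c008d000000000000000000000000000000) (nat_lit 0x0) (nat_lit 0x600038000000000000000000000000000000000000000000) := T_5 (nat_lit 173) (nat_lit 190) (nat_lit 5) (nat_lit 4) (nat_lit 7) L41340 (by decide +kernel)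
theorem L41342 : W_5 (nat_lit 4) (nat_lit 0x2400160013c008d000000000000000000000000000000) (nat_lit 0x0) (nat_lit 0x600038000c00000000000000000000000000000000000000) := T_5 (nat_lit 155) (nat_lit 154) (nat_lit 1) (nat_lit 5) (nat_lit 8) L41341 (by decide +kernel)
theorem L41343 : W_5 (nat_lit 5) (nat_lit 0x2400120013c008d000000000000000000000000000000) (nat_lit 0x0) (nat_lit 0x60003800cc00000000000000000000000000000000000000) := T_5 (nat_lit 158) (nat_lit 159) (nat_lit 3) (nat_lit 2) (nat_lit 8) L41342 (by decide +kernel)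
theorem L41344 : W_5 (nat_lit 6) (nat_lit 0x2400120013c008c000000000000000000000000000000) (nat_lit 0x0) (nat_lit 0x60003800cc00000003000000000000000000000000000000) := T_5 (nat_lit 120) (nat_lit 121) (nat_lit 3) (nat_lit 1) (nat_lit 7) L41343 (by decide +kernel)
theorem L41345 : W_5 (nat_lit 7) (nat_lit 0x2400120013c0088000000000000000000000000000000) (nat_lit 0x0) (nat_lit 0x60003800cc00000007000200000000000000000000000000) := T_5 (nat_lit 122) (nat_lit 105) (nat_lit 4) (nat_lit 4) (nat_lit 10) L41344 (by decide +kernel)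
theorem L41346 : W_5 (nat_lit 10) (nat_lit 0x2400120013c0080000000000000000000000000000000) (nat_lit 0x0) (nat_lit 0x60003800cc0000001f000f00070001000000000000000000) := Q_5 (nat_lit 123) (C_5 L41322 (C_5 L41325 (C_5 L41333 (C_5 L41339 (C_5 L41345 N_5))))) (by decide +kernel)
theorem L41347 : W_5 (nat_lit 11) (nat_lit 0x2000120013c0080000000000000000000000000000000) (nat_lit 0x0) (nat_lit 0x38003e0017800cc0000001f000f00070001000000000000000000) := Q_5 (nat_lit 174) (C_5 L41239 (C_5 L41311 (C_5 L41315 (C_5 L41346 N_5)))) (by decide +kernel)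
theorem L41348 : W_5 (nat_lit 2) (nat_lit 0x8002400120013c0080000000000000000000000000000000) (nat_lit 0x0) (nat_lit 0x10000000000005000000000000000000000000000000000000000) := D_5 (nat_lit 208) (nat_lit 156) (nat_lit 158) (nat_lit 4) (nat_lit 4) (nat_lit 12) (nat_lit 6) (nat_lit 4) (nat_lit 12) (by decide +kernel)
theorem L41349 : W_5 (nat_lit 3) (nat_lit 0x2400120013c0080000000000000000000000000000000) (nat_lit 0x0) (nat_lit 0x10000800000005000000004000000000000000000000000000000) := T_5 (nat_lit 191) (nat_lit 122) (nat_lit 4) (nat_lit 4) (nat_lit 11) L41348 (by decide +kernel)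
theorem L41350 : W_5 (nat_lit 2) (nat_lit 0x2600120013c0098000400000000000000000000000000) (nat_lit 0x0) (nat_lit 0x4000200010000000000000000000000) := D_5 (nat_lit 105) (nat_lit 122) (nat_lit 88) (nat_lit 4) (nat_lit 4) (nat_lit 10) (nat_lit 4) (nat_lit 4) (nat_lit 9) (by decide +kernel)
theorem L41351 : W_5 (nat_lit 3) (nat_lit 0x2600120013c0098000000000000000000000000000000) (nat_lit 0x0) (nat_lit 0x1000000004000600010000000000000000000000) := T_5 (nat_lit 106) (nat_lit 156) (nat_lit 5) (nat_lit 4) (nat_lit 6) L41350 (by decide +kernel)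
theorem L41352 : W_5 (nat_lit 4) (nat_lit 0x2600120013c0088000000000000000000000000000000) (nat_lit 0x0) (nat_lit 0x1000000014000e00010000000000000000000000) := T_5 (nat_lit 124) (nat_lit 107) (nat_lit 6) (nat_lit 4) (nat_lit 10) L41351 (by decide +kernel)
theorem L41353 : W_5 (nat_lit 5) (nat_lit 0x2400120013c0088000000000000000000000000000000) (nat_lit 0x0) (nat_lit 0x400020001000000014000e00010000000000000000000000) := T_5 (nat_lit 173) (nat_lit 190) (nat_lit 5) (nat_lit 4) (nat_lit 7) L41352 (by decide +kernel)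
theorem L41354 : W_5 (nat_lit 2) (nat_lit 0x26001a0013c008e000000000000000000000000000000) (nat_lit 0x0) (nat_lit 0x1000000000000500000000000000000000000000) := D_5 (nat_lit 156) (nat_lit 104) (nat_lit 106) (nat_lit 4) (nat_lit 3) (nat_lit 10) (nat_lit 6) (nat_lit 3) (nat_lit 10) (by decide +kernel)
theorem L41355 : W_5 (nat_lit 3) (nat_lit 0x26001a0013c008a000000000000000000000000000000) (nat_lit 0x0) (nat_lit 0x1000000004000700000000000000000000000000) := T_5 (nat_lit 122) (nat_lit 105) (nat_lit 4) (nat_lit 4) (nat_lit 10) L41354 (by decide +kernel)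
theorem L41356 : W_5 (nat_lit 4) (nat_lit 0x24001a0013c008a000000000000000000000000000000) (nat_lit 0x0) (nat_lit 0x400020001000000004000700000000000000000000000000) := T_5 (nat_lit 173) (nat_lit 190) (nat_lit 5) (nat_lit 4) (nat_lit 7) L41355 (by decide +kernel)
theorem L41357 : W_5 (nat_lit 5) (nat_lit 0x2400120013c008a000000000000000000000000000000) (nat_lit 0x0) (nat_lit 0x40002000d000000004000700000000000000000000000000) := T_5 (nat_lit 159) (nat_lit 158) (nat_lit 3) (nat_lit 2) (nat_lit 8) L41356 (by decide +kernel)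
theorem L41358 : W_5 (nat_lit 6) (nat_lit 0x2400120013c0088000000000000000000000000000000) (nat_lit 0x0) (nat_lit 0x40002000d000000007000700000000000000000000000000) := T_5 (nat_lit 121) (nat_lit 120) (nat_lit 0) (nat_lit 5) (nat_lit 8) L41357 (by decide +kernel)
theorem L41359 : W_5 (nat_lit 2) (nat_lit 0x2700160013c009d000000000000000000000000000000) (nat_lit 0x0) (nat_lit 0x200000001800000000000000000000000000000000000000) := D_5 (nat_lit 189) (nat_lit 156) (nat_lit 155) (nat_lit 5) (nat_lit 3) (nat_lit 7) (nat_lit 6) (nat_lit 2) (nat_lit 11) (by decide +kernel)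
theorem L41360 : W_5 (nat_lit 3) (nat_lit 0x2600160013c009d000000000000000000000000000000) (nat_lit 0x0) (nat_lit 0x200018001800000000000000000000000000000000000000) := T_5 (nat_lit 172) (nat_lit 171) (nat_lit 2) (nat_lit 1) (nat_lit 10) L41359 (by decide +kernel)
theorem L41361 : W_5 (nat_lit 4) (nat_lit 0x2400160013c009d000000000000000000000000000000) (nat_lit 0x0) (nat_lit 0x600038001800000000000000000000000000000000000000) := T_5 (nat_lit 173) (nat_lit 190) (nat_lit 5) (nat_lit 4) (nat_lit 7) L41360 (by decide +kernel)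
theorem L41362 : W_5 (nat_lit 5) (nat_lit 0x2400120013c009d000000000000000000000000000000) (nat_lit 0x0) (nat_lit 0x60003800d800000000000000000000000000000000000000) := T_5 (nat_lit 158) (nat_lit 159) (nat_lit 3) (nat_lit 2) (nat_lit 8) L41361 (by decide +kernel)
theorem L41363 : W_5 (nat_lit 6) (nat_lit 0x2400120013c008d000000000000000000000000000000) (nat_lit 0x0) (nat_lit 0x60003800d800000010000800000000000000000000000000) := T_5 (nat_lit 124) (nat_lit 107) (nat_lit 6) (nat_lit 4) (nat_lit 10) L41362 (by decide +kernel)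
theorem L41364 : W_5 (nat_lit 7) (nat_lit 0x2400120013c008c000000000000000000000000000000) (nat_lit 0x0) (nat_lit 0x60003800d800000013000800000000000000000000000000) := T_5 (nat_lit 120) (nat_lit 121) (nat_lit 3) (nat_lit 1) (nat_lit 7) L41363 (by decide +kernel)
theorem L41365 : W_5 (nat_lit 8) (nat_lit 0x2400120013c0088000000000000000000000000000000) (nat_lit 0x0) (nat_lit 0x60003800d800000017000a00000000000000000000000000) := T_5 (nat_lit 122) (nat_lit 105) (nat_lit 4) (nat_lit 4) (nat_lit 10) L41364 (by decide +kernel)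
theorem L41366 : W_5 (nat_lit 9) (nat_lit 0x2400120013c0080000000000000000000000000000000) (nat_lit 0x0) (nat_lit 0x60003800d80000001f000f00070000000000000000000000) := Q_5 (nat_lit 123) (C_5 L41325 (C_5 L41353 (C_5 L41358 (C_5 L41365 N_5)))) (by decide +kernel)
theorem L41367 : W_5 (nat_lit 10) (nat_lit 0x2000120013c0080000000000000000000000000000000) (nat_lit 0x0) (nat_lit 0x38003e0017800d80000001f000f00070000000000000000000000) := Q_5 (nat_lit 174) (C_5 L41242 (C_5 L41311 (C_5 L41239 (C_5 L41349 (C_5 L41366 N_5))))) (by decide +kernel)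
theorem L41368 : W_5 (nat_lit 2) (nat_lit 0x26001a8013c008c000400020000000000000000000000) (nat_lit 0x0) (nat_lit 0x800040002000000000000000000) := D_5 (nat_lit 90) (nat_lit 107) (nat_lit 73) (nat_lit 6) (nat_lit 4) (nat_lit 9) (nat_lit 6) (nat_lit 4) (nat_lit 8) (by decide +kernel)
theorem L41369 : W_5 (nat_lit 3) (nat_lit 0x26001a8013c008c000400000000000000000000000000) (nat_lit 0x0) (nat_lit 0x800060003000000000000000000) := T_5 (nat_lit 89) (nat_lit 72) (nat_lit 5) (nat_lit 4) (nat_lit 4) L41368 (by decide +kernel)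
theorem L41370 : W_5 (nat_lit 4) (nat_lit 0x26001a8013c008c000000000000000000000000000000) (nat_lit 0x0) (nat_lit 0x1000000000000c00060003000000000000000000) := T_5 (nat_lit 106) (nat_lit 156) (nat_lit 6) (nat_lit 3) (nat_lit 10) L41369 (by decide +kernel)
theorem L41371 : W_5 (nat_lit 5) (nat_lit 0x26001a0013c008c000000000000000000000000000000) (nat_lit 0x0) (nat_lit 0x1c00000000000c00060003000000000000000000) := T_5 (nat_lit 155) (nat_lit 154) (nat_lit 1) (nat_lit 5) (nat_lit 8) L41370 (by decide +kernel)
theorem L41372 : W_5 (nat_lit 6) (nat_lit 0x24001a0013c008c000000000000000000000000000000) (nat_lit 0x0) (nat_lit 0x400020001c00000000000c00060003000000000000000000) := T_5 (nat_lit 173) (nat_lit 190) (nat_lit 5) (nat_lit 4) (nat_lit 7) L41371 (by decide +kernel)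
theorem L41373 : W_5 (nat_lit 7) (nat_lit 0x2400120013c008c000000000000000000000000000000) (nat_lit 0x0) (nat_lit 0x40002000dc00000000000c00060003000000000000000000) := T_5 (nat_lit 159) (nat_lit 158) (nat_lit 3) (nat_lit 2) (nat_lit 8) L41372 (by decide +kernel)
theorem L41374 : W_5 (nat_lit 8) (nat_lit 0x2400120013c0088000000000000000000000000000000) (nat_lit 0x0) (nat_lit 0x40002000dc00000004000e00060003000000000000000000) := T_5 (nat_lit 122) (nat_lit 105) (nat_lit 4) (nat_lit 4) (nat_lit 10) L41373 (by decide +kernel)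
theorem L41375 : W_5 (nat_lit 2) (nat_lit 0x26001a0013c0088000400000000000000000000000000) (nat_lit 0x0) (nat_lit 0x4000200010000000000000000000000) := D_5 (nat_lit 105) (nat_lit 122) (nat_lit 88) (nat_lit 4) (nat_lit 4) (nat_lit 10) (nat_lit 4) (nat_lit 4) (nat_lit 9) (by decide +kernel)
theorem L41376 : W_5 (nat_lit 3) (nat_lit 0x26001a0013c0088000000000000000000000000000000) (nat_lit 0x0) (nat_lit 0x1000000004000600010000000000000000000000) := T_5 (nat_lit 106) (nat_lit 156) (nat_lit 5) (nat_lit 4) (nat_lit 6) L41375 (by decide +kernel)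
theorem L41377 : W_5 (nat_lit 4) (nat_lit 0x2600120013c0088000000000000000000000000000000) (nat_lit 0x0) (nat_lit 0xd000000004000600010000000000000000000000) := T_5 (nat_lit 159) (nat_lit 158) (nat_lit 3) (nat_lit 2) (nat_lit 8) L41376 (by decide +kernel)
theorem L41378 : W_5 (nat_lit 5) (nat_lit 0x2400120013c0088000000000000000000000000000000) (nat_lit 0x0) (nat_lit 0x40002000d000000004000600010000000000000000000000) := T_5 (nat_lit 173) (nat_lit 190) (nat_lit 5) (nat_lit 4) (nat_lit 7) L41377 (by decide +kernel)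
theorem L41379 : W_5 (nat_lit 2) (nat_lit 0x2700160013c009c000000000000000000000000000000) (nat_lit 0x0) (nat_lit 0x200000000c00000000000000000000000000000000000000) := D_5 (nat_lit 155) (nat_lit 154) (nat_lit 189) (nat_lit 1) (nat_lit 5) (nat_lit 8) (nat_lit 6) (nat_lit 2) (nat_lit 11) (by decide +kernel)
theorem L41380 : W_5 (nat_lit 3) (nat_lit 0x2600160013c009c000000000000000000000000000000) (nat_lit 0x0) (nat_lit 0x200018000c00000000000000000000000000000000000000) := T_5 (nat_lit 172) (nat_lit 171) (nat_lit 2) (nat_lit 1) (nat_lit 10) L41379 (by decide +kernel)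
theorem L41381 : W_5 (nat_lit 4) (nat_lit 0x2400160013c009c000000000000000000000000000000) (nat_lit 0x0) (nat_lit 0x600038000c00000000000000000000000000000000000000) := T_5 (nat_lit 173) (nat_lit 190) (nat_lit 5) (nat_lit 4) (nat_lit 7) L41380 (by decide +kernel)
theorem L41382 : W_5 (nat_lit 5) (nat_lit 0x2400120013c009c000000000000000000000000000000) (nat_lit 0x0) (nat_lit 0x60003800cc00000000000000000000000000000000000000) := T_5 (nat_lit 158) (nat_lit 159) (nat_lit 3) (nat_lit 2) (nat_lit 8) L41381 (by decide +kernel)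
theorem L41383 : W_5 (nat_lit 6) (nat_lit 0x2400120013c008c000000000000000000000000000000) (nat_lit 0x0) (nat_lit 0x60003800cc00000010000800000000000000000000000000) := T_5 (nat_lit 124) (nat_lit 107) (nat_lit 6) (nat_lit 4) (nat_lit 10) L41382 (by decide +kernel)
theorem L41384 : W_5 (nat_lit 7) (nat_lit 0x2400120013c0088000000000000000000000000000000) (nat_lit 0x0) (nat_lit 0x60003800cc00000014000a00000000000000000000000000) := T_5 (nat_lit 122) (nat_lit 105) (nat_lit 4) (nat_lit 4) (nat_lit 10) L41383 (by decide +kernel)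
theorem L41385 : W_5 (nat_lit 9) (nat_lit 0x2400120013c0080000000000000000000000000000000) (nat_lit 0x0) (nat_lit 0x60003800dc0000001c000e00070003000000000000000000) := Q_5 (nat_lit 123) (C_5 L41353 (C_5 L41325 (C_5 L41374 (C_5 L41378 (C_5 L41384 N_5))))) (by decide +kernel)
theorem L41386 : W_5 (nat_lit 10) (nat_lit 0x2000120013c0080000000000000000000000000000000) (nat_lit 0x0) (nat_lit 0x100038001e0007800dc0000001c000e00070003000000000000000000) := Q_5 (nat_lit 174) (C_5 L41385 (C_5 L41349 (C_5 L41297 (C_5 L41315 N_5)))) (by decide +kernel)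
theorem L41387 : W_5 (nat_lit 2) (nat_lit 0x8002100168013c0086000000000000000000000000000000) (nat_lit 0x0) (nat_lit 0x100008001000000000000000000000000000000000000000) := D_5 (nat_lit 171) (nat_lit 188) (nat_lit 156) (nat_lit 5) (nat_lit 2) (nat_lit 7) (nat_lit 1) (nat_lit 5) (nat_lit 9) (by decide +kernel)
theorem L41388 : W_5 (nat_lit 3) (nat_lit 0x8002000168013c0086000000000000000000000000000000) (nat_lit 0x0) (nat_lit 0x300018001000000000000000000000000000000000000000) := T_5 (nat_lit 172) (nat_lit 189) (nat_lit 6) (nat_lit 2) (nat_lit 11) L41387 (by decide +kernel)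
theorem L41389 : W_5 (nat_lit 4) (nat_lit 0x2000168013c0086000000000000000000000000000000) (nat_lit 0x0) (nat_lit 0xb00058001000000000000000000000000000000000000000) := T_5 (nat_lit 191) (nat_lit 174) (nat_lit 4) (nat_lit 4) (nat_lit 11) L41388 (by decide +kernel)
theorem L41390 : W_5 (nat_lit 5) (nat_lit 0x2000160013c0086000000000000000000000000000000) (nat_lit 0x0) (nat_lit 0xb00058001c00000000000000000000000000000000000000) := T_5 (nat_lit 155) (nat_lit 154) (nat_lit 1) (nat_lit 5) (nat_lit 8) L41389 (by decide +kernel)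
theorem L41391 : W_5 (nat_lit 6) (nat_lit 0x2000160013c0084000000000000000000000000000000) (nat_lit 0x0) (nat_lit 0xb00058001c00000003000000000000000000000000000000) := T_5 (nat_lit 121) (nat_lit 120) (nat_lit 0) (nat_lit 5) (nat_lit 8) L41390 (by decide +kernel)
theorem L41392 : W_5 (nat_lit 7) (nat_lit 0x2000120013c0084000000000000000000000000000000) (nat_lit 0x0) (nat_lit 0xb0005800dc00000003000000000000000000000000000000) := T_5 (nat_lit 158) (nat_lit 159) (nat_lit 3) (nat_lit 2) (nat_lit 8) L41391 (by decide +kernel)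
theorem L41393 : W_5 (nat_lit 8) (nat_lit 0x2000120013c0080000000000000000000000000000000) (nat_lit 0x0) (nat_lit 0xb0005800dc00000007000200010000000000000000000000) := Q_5 (nat_lit 122) (C_5 L41392 (C_5 L41258 (C_5 L41198 N_5))) (by decide +kernel)
theorem L41394 : W_5 (nat_lit 2) (nat_lit 0x26001a0013c009e000000000000000000000000000000) (nat_lit 0x0) (nat_lit 0x1000000000000180000000000000000000000000) := D_5 (nat_lit 104) (nat_lit 156) (nat_lit 103) (nat_lit 4) (nat_lit 3) (nat_lit 10) (nat_lit 0) (nat_lit 5) (nat_lit 7) (by decide +kernel)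
theorem L41395 : W_5 (nat_lit 3) (nat_lit 0x26001a0013c009a000000000000000000000000000000) (nat_lit 0x0) (nat_lit 0x1000000004000380000000000000000000000000) := T_5 (nat_lit 122) (nat_lit 105) (nat_lit 4) (nat_lit 4) (nat_lit 10) L41394 (by decide +kernel)
theorem L41396 : W_5 (nat_lit 4) (nat_lit 0x26001a0013c0098000000000000000000000000000000) (nat_lit 0x0) (nat_lit 0x1000000007000380000000000000000000000000) := T_5 (nat_lit 121) (nat_lit 120) (nat_lit 0) (nat_lit 5) (nat_lit 8) L41395 (by decide +kernel)
theorem L41397 : W_5 (nat_lit 5) (nat_lit 0x2600120013c0098000000000000000000000000000000) (nat_lit 0x0) (nat_lit 0xd000000007000380000000000000000000000000) := T_5 (nat_lit 159) (nat_lit 158) (nat_lit 3) (nat_lit 2) (nat_lit 8) L41396 (by decide +kernel)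
theorem L41398 : W_5 (nat_lit 6) (nat_lit 0x2400120013c0098000000000000000000000000000000) (nat_lit 0x0) (nat_lit 0x40002000d000000007000380000000000000000000000000) := T_5 (nat_lit 173) (nat_lit 190) (nat_lit 5) (nat_lit 4) (nat_lit 7) L41397 (by decide +kernel)
theorem L41399 : W_5 (nat_lit 7) (nat_lit 0x2400120013c0088000000000000000000000000000000) (nat_lit 0x0) (nat_lit 0x40002000d000000017000b80000000000000000000000000) := T_5 (nat_lit 124) (nat_lit 107) (nat_lit 6) (nat_lit 4) (nat_lit 10) L41398 (by decide +kernel)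
theorem L41400 : W_5 (nat_lit 8) (nat_lit 0x2400120013c0080000000000000000000000000000000) (nat_lit 0x0) (nat_lit 0x40002000d00000001f000f80070000000000000000000000) := Q_5 (nat_lit 123) (C_5 L41353 (C_5 L41325 (C_5 L41378 (C_5 L41399 N_5)))) (by decide +kernel)
theorem L41401 : W_5 (nat_lit 9) (nat_lit 0x2000120013c0080000000000000000000000000000000) (nat_lit 0x0) (nat_lit 0x38003c0017000d00000001f000f80070000000000000000000000) := Q_5 (nat_lit 174) (C_5 L41349 (C_5 L41239 (C_5 L41311 (C_5 L41400 N_5)))) (by decide +kernel)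
theorem L41402 : W_5 (nat_lit 13) (nat_lit 0x2000100013c0080000000000000000000000000000000) (nat_lit 0x0) (nat_lit 0x10003c003f0017c00fc0000001f000f8007c003200000000000000000) := Q_5 (nat_lit 157) (C_5 L41243 (C_5 L41248 (C_5 L41259 (C_5 L41312 (C_5 L41347 (C_5 L41367 (C_5 L41386 (C_5 L41393 (C_5 L41401 N_5))))))))) (by decide +kernel)
theorem L41403 : W_5 (nat_lit 2) (nat_lit 0x2000140013e0080000000000000000000000000000000) (nat_lit 0x0) (nat_lit 0x3800000000000000000000000000000) := D_5 (nat_lit 120) (nat_lit 119) (nat_lit 121) (nat_lit 0) (nat_lit 4) (nat_lit 8) (nat_lit 0) (nat_lit 5) (nat_lit 8) (by decide +kernel)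
theorem L41404 : W_5 (nat_lit 3) (nat_lit 0x2000140013c0080000000000000000000000000000000) (nat_lit 0x0) (nat_lit 0x2000020003800000000000000000000000000000) := T_5 (nat_lit 137) (nat_lit 157) (nat_lit 3) (nat_lit 1) (nat_lit 8) L41403 (by decide +kernel)
theorem L41405 : W_5 (nat_lit 4) (nat_lit 0x2000100013c0080000000000000000000000000000000) (nat_lit 0x0) (nat_lit 0xe000020003800000000000000000000000000000) := T_5 (nat_lit 158) (nat_lit 159) (nat_lit 3) (nat_lit 2) (nat_lit 8) L41404 (by decide +kernel)
theorem L41406 : W_5 (nat_lit 14) (nat_lit 0x200010001380080000000000000000000000000000000) (nat_lit 0x0) (nat_lit 0x10003c003f0017c00fe0006001f800f8007c003200000000000000000) := Q_5 (nat_lit 138) (C_5 L41402 (C_5 L41229 (C_5 L41153 (C_5 L41405 N_5)))) (by decide +kernel)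
theorem L41407 : W_5 (nat_lit 2) (nat_lit 0x2000108013c01e2011000000000000000000000000000) (nat_lit 0x0) (nat_lit 0x200022000000000000000000000000000) := D_5 (nat_lit 129) (nat_lit 109) (nat_lit 113) (nat_lit 0) (nat_lit 10) (nat_lit 7) (nat_lit 2) (nat_lit 7) (nat_lit 7) (by decide +kernel)
theorem L41408 : W_5 (nat_lit 3) (nat_lit 0x2000108013c01e2001000000000000000000000000000) (nat_lit 0x0) (nat_lit 0x20003a000000000000000000000000000) := T_5 (nat_lit 112) (nat_lit 111) (nat_lit 2) (nat_lit 6) (nat_lit 7) L41407 (by decide +kernel)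
theorem L41409 : W_5 (nat_lit 4) (nat_lit 0x2000108013c01e0001000000000000000000000000000) (nat_lit 0x0) (nat_lit 0x20303a000000000000000000000000000) := T_5 (nat_lit 121) (nat_lit 120) (nat_lit 0) (nat_lit 5) (nat_lit 8) L41408 (by decide +kernel)
theorem L41410 : W_5 (nat_lit 5) (nat_lit 0x2000108013c00e0001000000000000000000000000000) (nat_lit 0x0) (nat_lit 0x30303a800000000000000000000000000) := T_5 (nat_lit 128) (nat_lit 107) (nat_lit 0) (nat_lit 9) (nat_lit 7) L41409 (by decide +kernel)
theorem L41411 : W_5 (nat_lit 6) (nat_lit 0x2000100013c00e0001000000000000000000000000000) (nat_lit 0x0) (nat_lit 0xc0000030303a800000000000000000000000000) := T_5 (nat_lit 155) (nat_lit 154) (nat_lit 1) (nat_lit 5) (nat_lit 8) L41410 (by decide +kernel)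
theorem L41412 : W_5 (nat_lit 7) (nat_lit 0x2000100013c00e0000000000000000000000000000000) (nat_lit 0x0) (nat_lit 0xc0080030303b800000000000000000000000000) := T_5 (nat_lit 108) (nat_lit 143) (nat_lit 4) (nat_lit 7) (nat_lit 10) L41411 (by decide +kernel)
theorem L41413 : W_5 (nat_lit 8) (nat_lit 0x2000100013c00c0000000000000000000000000000000) (nat_lit 0x0) (nat_lit 0xc0080033303b800000000000000000000000000) := T_5 (nat_lit 125) (nat_lit 124) (nat_lit 2) (nat_lit 2) (nat_lit 8) L41412 (by decide +kernel)
theorem L41414 : W_5 (nat_lit 2) (nat_lit 0x2100108013c00d2000000000000000000000000000000) (nat_lit 0x0) (nat_lit 0x200000000000000004000200000000000000000000000000) := D_5 (nat_lit 122) (nat_lit 189) (nat_lit 105) (nat_lit 6) (nat_lit 2) (nat_lit 11) (nat_lit 6) (nat_lit 2) (nat_lit 10) (by decide +kernel)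
theorem L41415 : W_5 (nat_lit 3) (nat_lit 0x2100108013c00d0000000000000000000000000000000) (nat_lit 0x0) (nat_lit 0x200000000000000007000200000000000000000000000000) := T_5 (nat_lit 121) (nat_lit 120) (nat_lit 0) (nat_lit 5) (nat_lit 8) L41414 (by decide +kernel)
theorem L41416 : W_5 (nat_lit 4) (nat_lit 0x2100108013c00c0000000000000000000000000000000) (nat_lit 0x0) (nat_lit 0x200000000000000037000200000000000000000000000000) := T_5 (nat_lit 124) (nat_lit 125) (nat_lit 2) (nat_lit 2) (nat_lit 8) L41415 (by decide +kernel)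
theorem L41417 : W_5 (nat_lit 2) (nat_lit 0x40002002100108013c00c0000000000000000000000000000000) (nat_lit 0x0) (nat_lit 0x100008000400000000000000000000000000000000000000000000000) := D_5 (nat_lit 207) (nat_lit 224) (nat_lit 190) (nat_lit 7) (nat_lit 2) (nat_lit 9) (nat_lit 7) (nat_lit 2) (nat_lit 8) (by decide +kernel)
theorem L41418 : W_5 (nat_lit 3) (nat_lit 0x2002100108013c00c0000000000000000000000000000000) (nat_lit 0x0) (nat_lit 0x10000c000400000001000000000000000000000000000000000000000) := T_5 (nat_lit 206) (nat_lit 156) (nat_lit 6) (nat_lit 2) (nat_lit 12) L41417 (by decide +kernel)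
theorem L41419 : W_5 (nat_lit 4) (nat_lit 0x2100108013c00c0000000000000000000000000000000) (nat_lit 0x0) (nat_lit 0x10000c000600000001000000004000000000000000000000000000000) := T_5 (nat_lit 189) (nat_lit 122) (nat_lit 6) (nat_lit 2) (nat_lit 11) L41418 (by decide +kernel)
theorem L41420 : W_5 (nat_lit 2) (nat_lit 0x2380148013c00e2000100014000000000000000000000) (nat_lit 0x0) (nat_lit 0x8000a00000000000000000) := D_5 (nat_lit 87) (nat_lit 69) (nat_lit 71) (nat_lit 4) (nat_lit 2) (nat_lit 8) (nat_lit 6) (nat_lit 2) (nat_lit 8) (by decide +kernel)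
theorem L41421 : W_5 (nat_lit 3) (nat_lit 0x2380148013c00e2000100004000000000000000000000) (nat_lit 0x0) (nat_lit 0x200018000a00000000000000000) := T_5 (nat_lit 88) (nat_lit 105) (nat_lit 6) (nat_lit 2) (nat_lit 9) L41420 (by decide +kernel)
theorem L41422 : W_5 (nat_lit 4) (nat_lit 0x2380148013c00e2000100000000000000000000000000) (nat_lit 0x0) (nat_lit 0x28001c000a00000000000000000) := T_5 (nat_lit 86) (nat_lit 103) (nat_lit 4) (nat_lit 2) (nat_lit 9) L41421 (by decide +kernel)
theorem L41423 : W_5 (nat_lit 5) (nat_lit 0x2380148013c00e2000000000000000000000000000000) (nat_lit 0x0) (nat_lit 0x100000000000038001c000a00000000000000000) := T_5 (nat_lit 104) (nat_lit 156) (nat_lit 7) (nat_lit 2) (nat_lit 6) L41422 (by decide +kernel)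
theorem L41424 : W_5 (nat_lit 6) (nat_lit 0x2180148013c00e2000000000000000000000000000000) (nat_lit 0x0) (nat_lit 0x40002000100000000000038001c000a00000000000000000) := T_5 (nat_lit 173) (nat_lit 190) (nat_lit 7) (nat_lit 2) (nat_lit 7) L41423 (by decide +kernel)
theorem L41425 : W_5 (nat_lit 7) (nat_lit 0x2100148013c00e2000000000000000000000000000000) (nat_lit 0x0) (nat_lit 0x50002800100000000000038001c000a00000000000000000) := T_5 (nat_lit 171) (nat_lit 188) (nat_lit 5) (nat_lit 2) (nat_lit 7) L41424 (by decide +kernel)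
theorem L41426 : W_5 (nat_lit 8) (nat_lit 0x2100148013c00e0000000000000000000000000000000) (nat_lit 0x0) (nat_lit 0x50002800100000000300038001c000a00000000000000000) := T_5 (nat_lit 121) (nat_lit 120) (nat_lit 0) (nat_lit 5) (nat_lit 8) L41425 (by decide +kernel)
theorem L41427 : W_5 (nat_lit 9) (nat_lit 0x2100148013c00c0000000000000000000000000000000) (nat_lit 0x0) (nat_lit 0x50002800100000003300038001c000a00000000000000000) := T_5 (nat_lit 125) (nat_lit 124) (nat_lit 2) (nat_lit 2) (nat_lit 8) L41426 (by decide +kernel)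
theorem L41428 : W_5 (nat_lit 10) (nat_lit 0x2100108013c00c0000000000000000000000000000000) (nat_lit 0x0) (nat_lit 0x50002800d00000003300038001c000a00000000000000000) := T_5 (nat_lit 158) (nat_lit 159) (nat_lit 3) (nat_lit 2) (nat_lit 8) L41427 (by decide +kernel)
theorem L41429 : W_5 (nat_lit 11) (nat_lit 0x2000108013c00c0000000000000000000000000000000) (nat_lit 0x0) (nat_lit 0x10000c00070003800d00000003700038001c000a00000000000000000) := Q_5 (nat_lit 172) (C_5 L41416 (C_5 L41419 (C_5 L41428 N_5))) (by decide +kernel)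
theorem L41430 : W_5 (nat_lit 12) (nat_lit 0x2000100013c00c0000000000000000000000000000000) (nat_lit 0x0) (nat_lit 0x10000c00070003800dc0000003700038001c000a00000000000000000) := T_5 (nat_lit 155) (nat_lit 154) (nat_lit 1) (nat_lit 5) (nat_lit 8) L41429 (by decide +kernel)
theorem L41431 : W_5 (nat_lit 2) (nat_lit 0x2380148013c00c2000100014000000000000000000000) (nat_lit 0x0) (nat_lit 0x8000a00000000000000000) := D_5 (nat_lit 87) (nat_lit 69) (nat_lit 71) (nat_lit 4) (nat_lit 2) (nat_lit 8) (nat_lit 6) (nat_lit 2) (nat_lit 8) (by decide +kernel)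
theorem L41432 : W_5 (nat_lit 3) (nat_lit 0x2380148013c00c2000100004000000000000000000000) (nat_lit 0x0) (nat_lit 0x200018000a00000000000000000) := T_5 (nat_lit 88) (nat_lit 105) (nat_lit 6) (nat_lit 2) (nat_lit 9) L41431 (by decide +kernel)
theorem L41433 : W_5 (nat_lit 4) (nat_lit 0x2380148013c00c2000100000000000000000000000000) (nat_lit 0x0) (nat_lit 0x28001c000a00000000000000000) := T_5 (nat_lit 86) (nat_lit 103) (nat_lit 4) (nat_lit 2) (nat_lit 9) L41432 (by decide +kernel)
theorem L41434 : W_5 (nat_lit 5) (nat_lit 0x2380148013c00c2000000000000000000000000000000) (nat_lit 0x0) (nat_lit 0x100000000000038001c000a00000000000000000) := T_5 (nat_lit 104) (nat_lit 156) (nat_lit 7) (nat_lit 2) (nat_lit 6) L41433 (by decide +kernel)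
theorem L41435 : W_5 (nat_lit 6) (nat_lit 0x2180148013c00c2000000000000000000000000000000) (nat_lit 0x0) (nat_lit 0x40002000100000000000038001c000a00000000000000000) := T_5 (nat_lit 173) (nat_lit 190) (nat_lit 7) (nat_lit 2) (nat_lit 7) L41434 (by decide +kernel)
theorem L41436 : W_5 (nat_lit 7) (nat_lit 0x2100148013c00c2000000000000000000000000000000) (nat_lit 0x0) (nat_lit 0x50002800100000000000038001c000a00000000000000000) := T_5 (nat_lit 171) (nat_lit 188) (nat_lit 5) (nat_lit 2) (nat_lit 7) L41435 (by decide +kernel)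
theorem L41437 : W_5 (nat_lit 8) (nat_lit 0x2100148013c00c0000000000000000000000000000000) (nat_lit 0x0) (nat_lit 0x50002800100000000300038001c000a00000000000000000) := T_5 (nat_lit 121) (nat_lit 120) (nat_lit 0) (nat_lit 5) (nat_lit 8) L41436 (by decide +kernel)
theorem L41438 : W_5 (nat_lit 9) (nat_lit 0x2100108013c00c0000000000000000000000000000000) (nat_lit 0x0) (nat_lit 0x50002800d00000000300038001c000a00000000000000000) := T_5 (nat_lit 158) (nat_lit 159) (nat_lit 3) (nat_lit 2) (nat_lit 8) L41437 (by decide +kernel)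
theorem L41439 : W_5 (nat_lit 2) (nat_lit 0x2100108013c00c2000000000000000000000000000000) (nat_lit 0x0) (nat_lit 0x200000000000000004000200000000000000000000000000) := D_5 (nat_lit 122) (nat_lit 189) (nat_lit 105) (nat_lit 6) (nat_lit 2) (nat_lit 11) (nat_lit 6) (nat_lit 2) (nat_lit 10) (by decide +kernel)
theorem L41440 : W_5 (nat_lit 3) (nat_lit 0x2100108013c00c0000000000000000000000000000000) (nat_lit 0x0) (nat_lit 0x200000000000000007000200000000000000000000000000) := T_5 (nat_lit 121) (nat_lit 120) (nat_lit 0) (nat_lit 5) (nat_lit 8) L41439 (by decide +kernel)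
theorem L41441 : W_5 (nat_lit 10) (nat_lit 0x2000108013c00c0000000000000000000000000000000) (nat_lit 0x0) (nat_lit 0x10000c00070003800d00000000700038001c000a00000000000000000) := Q_5 (nat_lit 172) (C_5 L41419 (C_5 L41438 (C_5 L41440 N_5))) (by decide +kernel)
theorem L41442 : W_5 (nat_lit 11) (nat_lit 0x2000100013c00c0000000000000000000000000000000) (nat_lit 0x0) (nat_lit 0x10000c00070003800dc0000000700038001c000a00000000000000000) := T_5 (nat_lit 155) (nat_lit 154) (nat_lit 1) (nat_lit 5) (nat_lit 8) L41441 (by decide +kernel)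
theorem L41443 : W_5 (nat_lit 2) (nat_lit 0x300010001bc00e2000000000000000000000000000000) (nat_lit 0x0) (nat_lit 0xc000000000002000000000000000000000000000) := D_5 (nat_lit 159) (nat_lit 158) (nat_lit 109) (nat_lit 3) (nat_lit 2) (nat_lit 8) (nat_lit 5) (nat_lit 7) (nat_lit 6) (by decide +kernel)
theorem L41444 : W_5 (nat_lit 3) (nat_lit 0x200010001bc00e2000000000000000000000000000000) (nat_lit 0x0) (nat_lit 0x200010000c000000000002000000000000000000000000000) := T_5 (nat_lit 176) (nat_lit 193) (nat_lit 5) (nat_lit 7) (nat_lit 7) L41443 (by decide +kernel)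
theorem L41445 : W_5 (nat_lit 4) (nat_lit 0x2000100013c00e2000000000000000000000000000000) (nat_lit 0x0) (nat_lit 0x200010000c000800000003000000000000000000000000000) := T_5 (nat_lit 143) (nat_lit 108) (nat_lit 4) (nat_lit 7) (nat_lit 10) L41444 (by decide +kernel)
theorem L41446 : W_5 (nat_lit 5) (nat_lit 0x2000100013c00c2000000000000000000000000000000) (nat_lit 0x0) (nat_lit 0x200010000c000800030003000000000000000000000000000) := T_5 (nat_lit 125) (nat_lit 124) (nat_lit 2) (nat_lit 2) (nat_lit 8) L41445 (by decide +kernel)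
theorem L41447 : W_5 (nat_lit 6) (nat_lit 0x2000100013c00c0000000000000000000000000000000) (nat_lit 0x0) (nat_lit 0x200010000c000800033003000000000000000000000000000) := T_5 (nat_lit 121) (nat_lit 120) (nat_lit 0) (nat_lit 5) (nat_lit 8) L41446 (by decide +kernel)
theorem L41448 : W_5 (nat_lit 2) (nat_lit 0x2000148013c03e0001000000000000000000000000000) (nat_lit 0x0) (nat_lit 0x38000000000000000000000000000) := D_5 (nat_lit 112) (nat_lit 111) (nat_lit 113) (nat_lit 2) (nat_lit 6) (nat_lit 7) (nat_lit 2) (nat_lit 7) (nat_lit 7) (by decide +kernel)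
theorem L41449 : W_5 (nat_lit 3) (nat_lit 0x2000148013c01e0001000000000000000000000000000) (nat_lit 0x0) (nat_lit 0x20003a000000000000000000000000000) := T_5 (nat_lit 129) (nat_lit 109) (nat_lit 0) (nat_lit 10) (nat_lit 7) L41448 (by decide +kernel)
theorem L41450 : W_5 (nat_lit 4) (nat_lit 0x2000148013c00e0001000000000000000000000000000) (nat_lit 0x0) (nat_lit 0x30003a800000000000000000000000000) := T_5 (nat_lit 128) (nat_lit 107) (nat_lit 0) (nat_lit 9) (nat_lit 7) L41449 (by decide +kernel)
theorem L41451 : W_5 (nat_lit 5) (nat_lit 0x2000148013c00e0000000000000000000000000000000) (nat_lit 0x0) (nat_lit 0x80030003b800000000000000000000000000) := T_5 (nat_lit 108) (nat_lit 143) (nat_lit 4) (nat_lit 7) (nat_lit 10) L41450 (by decide +kernel)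
theorem L41452 : W_5 (nat_lit 6) (nat_lit 0x2000148013c00c0000000000000000000000000000000) (nat_lit 0x0) (nat_lit 0x80033003b800000000000000000000000000) := T_5 (nat_lit 125) (nat_lit 124) (nat_lit 2) (nat_lit 2) (nat_lit 8) L41451 (by decide +kernel)
theorem L41453 : W_5 (nat_lit 7) (nat_lit 0x2000140013c00c0000000000000000000000000000000) (nat_lit 0x0) (nat_lit 0xc0080033003b800000000000000000000000000) := T_5 (nat_lit 155) (nat_lit 154) (nat_lit 1) (nat_lit 5) (nat_lit 8) L41452 (by decide +kernel)
theorem L41454 : W_5 (nat_lit 8) (nat_lit 0x2000100013c00c0000000000000000000000000000000) (nat_lit 0x0) (nat_lit 0xcc0080033003b800000000000000000000000000) := T_5 (nat_lit 158) (nat_lit 159) (nat_lit 3) (nat_lit 2) (nat_lit 8) L41453 (by decide +kernel)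
theorem L41455 : W_5 (nat_lit 13) (nat_lit 0x2000100013c0080000000000000000000000000000000) (nat_lit 0x0) (nat_lit 0x10000c00270013800dc0080037703bb8001c000a00000000000000000) := Q_5 (nat_lit 126) (C_5 L41413 (C_5 L41430 (C_5 L41442 (C_5 L41447 (C_5 L41454 N_5))))) (by decide +kernel)
theorem L41456 : W_5 (nat_lit 2) (nat_lit 0x2000100013e0090000000000000000000000000000000) (nat_lit 0x0) (nat_lit 0x3800000000000000000000000000000) := D_5 (nat_lit 120) (nat_lit 119) (nat_lit 121) (nat_lit 0) (nat_lit 4) (nat_lit 8) (nat_lit 0) (nat_lit 5) (nat_lit 8) (by decide +kernel)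
theorem L41457 : W_5 (nat_lit 3) (nat_lit 0x2000100013c0090000000000000000000000000000000) (nat_lit 0x0) (nat_lit 0x2000b800000000000000000000000000000) := T_5 (nat_lit 137) (nat_lit 123) (nat_lit 2) (nat_lit 1) (nat_lit 8) L41456 (by decide +kernel)
theorem L41458 : W_5 (nat_lit 4) (nat_lit 0x2000100013c0080000000000000000000000000000000) (nat_lit 0x0) (nat_lit 0x2003b800000000000000000000000000000) := T_5 (nat_lit 124) (nat_lit 125) (nat_lit 2) (nat_lit 2) (nat_lit 8) L41457 (by decide +kernel)
theorem L41459 : W_5 (nat_lit 2) (nat_lit 0x2000140013e0090000000000000000000000000000000) (nat_lit 0x0) (nat_lit 0xe00000000000000000000000000000000000000) := D_5 (nat_lit 154) (nat_lit 155) (nat_lit 153) (nat_lit 1) (nat_lit 5) (nat_lit 8) (nat_lit 1) (nat_lit 4) (nat_lit 8) (by decide +kernel)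
theorem L41460 : W_5 (nat_lit 3) (nat_lit 0x2000140013c0090000000000000000000000000000000) (nat_lit 0x0) (nat_lit 0xe00020008000000000000000000000000000000) := T_5 (nat_lit 137) (nat_lit 123) (nat_lit 2) (nat_lit 1) (nat_lit 8) L41459 (by decide +kernel)
theorem L41461 : W_5 (nat_lit 4) (nat_lit 0x2000140013c0080000000000000000000000000000000) (nat_lit 0x0) (nat_lit 0xe00020038000000000000000000000000000000) := T_5 (nat_lit 124) (nat_lit 125) (nat_lit 2) (nat_lit 2) (nat_lit 8) L41460 (by decide +kernel)
theorem L41462 : W_5 (nat_lit 5) (nat_lit 0x2000100013c0080000000000000000000000000000000) (nat_lit 0x0) (nat_lit 0xce00020038000000000000000000000000000000) := T_5 (nat_lit 158) (nat_lit 159) (nat_lit 3) (nat_lit 2) (nat_lit 8) L41461 (by decide +kernel)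
theorem L41463 : W_5 (nat_lit 14) (nat_lit 0x200010001380080000000000000000000000000000000) (nat_lit 0x0) (nat_lit 0x10000c00270013800de0086037f83bb8001c000a00000000000000000) := Q_5 (nat_lit 138) (C_5 L41153 (C_5 L41455 (C_5 L41458 (C_5 L41462 N_5)))) (by decide +kernel)
theorem L41464 : W_5 (nat_lit 2) (nat_lit 0x2700118013c009e000000000000000000000000000000) (nat_lit 0x0) (nat_lit 0x2000000000001800000000000000000000000000) := D_5 (nat_lit 107) (nat_lit 157) (nat_lit 108) (nat_lit 6) (nat_lit 4) (nat_lit 10) (nat_lit 2) (nat_lit 2) (nat_lit 7) (by decide +kernel)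
theorem L41465 : W_5 (nat_lit 3) (nat_lit 0x2700118013c0096000000000000000000000000000000) (nat_lit 0x0) (nat_lit 0x2000000008001c00000000000000000000000000) := T_5 (nat_lit 123) (nat_lit 106) (nat_lit 6) (nat_lit 3) (nat_lit 10) L41464 (by decide +kernel)
theorem L41466 : W_5 (nat_lit 4) (nat_lit 0x2300118013c0096000000000000000000000000000000) (nat_lit 0x0) (nat_lit 0x800040002000000008001c00000000000000000000000000) := T_5 (nat_lit 174) (nat_lit 191) (nat_lit 7) (nat_lit 3) (nat_lit 7) L41465 (by decide +kernel)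
theorem L41467 : W_5 (nat_lit 5) (nat_lit 0x2300108013c0096000000000000000000000000000000) (nat_lit 0x0) (nat_lit 0x800040003000000008001d00000000000000000000000000) := T_5 (nat_lit 156) (nat_lit 104) (nat_lit 7) (nat_lit 2) (nat_lit 6) L41466 (by decide +kernel)
theorem L41468 : W_5 (nat_lit 6) (nat_lit 0x2100108013c0096000000000000000000000000000000) (nat_lit 0x0) (nat_lit 0xc00060003000000008001d00000000000000000000000000) := T_5 (nat_lit 173) (nat_lit 190) (nat_lit 7) (nat_lit 2) (nat_lit 7) L41467 (by decide +kernel)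
theorem L41469 : W_5 (nat_lit 7) (nat_lit 0x2100108013c0094000000000000000000000000000000) (nat_lit 0x0) (nat_lit 0xc0006000300000000b001d00000000000000000000000000) := T_5 (nat_lit 121) (nat_lit 120) (nat_lit 0) (nat_lit 5) (nat_lit 8) L41468 (by decide +kernel)
theorem L41470 : W_5 (nat_lit 8) (nat_lit 0x2000108013c0094000000000000000000000000000000) (nat_lit 0x0) (nat_lit 0xe0007000300000000b001d00000000000000000000000000) := T_5 (nat_lit 172) (nat_lit 189) (nat_lit 6) (nat_lit 2) (nat_lit 11) L41469 (by decide +kernel)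
theorem L41471 : W_5 (nat_lit 9) (nat_lit 0x2000108013c0084000000000000000000000000000000) (nat_lit 0x0) (nat_lit 0xe0007000300000003b001d00000000000000000000000000) := T_5 (nat_lit 124) (nat_lit 125) (nat_lit 2) (nat_lit 2) (nat_lit 8) L41470 (by decide +kernel)
theorem L41472 : W_5 (nat_lit 10) (nat_lit 0x2000100013c0084000000000000000000000000000000) (nat_lit 0x0) (nat_lit 0xe00070003c0000003b001d00000000000000000000000000) := T_5 (nat_lit 155) (nat_lit 154) (nat_lit 1) (nat_lit 5) (nat_lit 8) L41471 (by decide +kernel)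
theorem L41473 : W_5 (nat_lit 2) (nat_lit 0x2000108013c0096000000000000000000000000000000) (nat_lit 0x0) (nat_lit 0x10000000000000000200010000000000000000000000) := D_5 (nat_lit 105) (nat_lit 88) (nat_lit 172) (nat_lit 5) (nat_lit 3) (nat_lit 5) (nat_lit 6) (nat_lit 2) (nat_lit 10) (by decide +kernel)
theorem L41474 : W_5 (nat_lit 3) (nat_lit 0x2000100013c0096000000000000000000000000000000) (nat_lit 0x0) (nat_lit 0x10000c00000000000200010000000000000000000000) := T_5 (nat_lit 155) (nat_lit 154) (nat_lit 1) (nat_lit 5) (nat_lit 8) L41473 (by decide +kernel)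
theorem L41475 : W_5 (nat_lit 4) (nat_lit 0x2000100013c0086000000000000000000000000000000) (nat_lit 0x0) (nat_lit 0x10000c00000030000200010000000000000000000000) := T_5 (nat_lit 124) (nat_lit 125) (nat_lit 2) (nat_lit 2) (nat_lit 8) L41474 (by decide +kernel)
theorem L41476 : W_5 (nat_lit 5) (nat_lit 0x2000100013c0084000000000000000000000000000000) (nat_lit 0x0) (nat_lit 0x10000c00000033000200010000000000000000000000) := T_5 (nat_lit 121) (nat_lit 120) (nat_lit 0) (nat_lit 5) (nat_lit 8) L41475 (by decide +kernel)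
theorem L41477 : W_5 (nat_lit 2) (nat_lit 0x2000108013c0086000000000000000000000000000000) (nat_lit 0x0) (nat_lit 0x200010000000000000000200000000000000000000000000) := D_5 (nat_lit 172) (nat_lit 189) (nat_lit 105) (nat_lit 6) (nat_lit 2) (nat_lit 11) (nat_lit 6) (nat_lit 2) (nat_lit 10) (by decide +kernel)
theorem L41478 : W_5 (nat_lit 3) (nat_lit 0x2000108013c0084000000000000000000000000000000) (nat_lit 0x0) (nat_lit 0x200010000000000003000200000000000000000000000000) := T_5 (nat_lit 121) (nat_lit 120) (nat_lit 0) (nat_lit 5) (nat_lit 8) L41477 (by decide +kernel)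
theorem L41479 : W_5 (nat_lit 4) (nat_lit 0x2000100013c0084000000000000000000000000000000) (nat_lit 0x0) (nat_lit 0x200010000c00000003000200000000000000000000000000) := T_5 (nat_lit 155) (nat_lit 154) (nat_lit 1) (nat_lit 5) (nat_lit 8) L41478 (by decide +kernel)
theorem L41480 : W_5 (nat_lit 2) (nat_lit 0x8002000120013c009e000900000000000000000000000000) (nat_lit 0x0) (nat_lit 0x20001000000000000000008000000000000000000000) := D_5 (nat_lit 156) (nat_lit 173) (nat_lit 87) (nat_lit 4) (nat_lit 3) (nat_lit 10) (nat_lit 7) (nat_lit 2) (nat_lit 5) (by decide +kernel)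
theorem L41481 : W_5 (nat_lit 3) (nat_lit 0x8002000120013c009e000800000000000000000000000000) (nat_lit 0x0) (nat_lit 0x20001000000000000180008000000000000000000000) := T_5 (nat_lit 104) (nat_lit 103) (nat_lit 0) (nat_lit 5) (nat_lit 7) L41480 (by decide +kernel)
theorem L41482 : W_5 (nat_lit 4) (nat_lit 0x8002000120013c0096000800000000000000000000000000) (nat_lit 0x0) (nat_lit 0x20001000000008001180008000000000000000000000) := T_5 (nat_lit 123) (nat_lit 108) (nat_lit 2) (nat_lit 2) (nat_lit 7) L41481 (by decide +kernel)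
theorem L41483 : W_5 (nat_lit 5) (nat_lit 0x8002000120013c0096000000000000000000000000000000) (nat_lit 0x0) (nat_lit 0x20001000000008001980048000000000000000000000) := T_5 (nat_lit 107) (nat_lit 90) (nat_lit 5) (nat_lit 5) (nat_lit 5) L41482 (by decide +kernel)
theorem L41484 : W_5 (nat_lit 6) (nat_lit 0x8002000120013c0086000000000000000000000000000000) (nat_lit 0x0) (nat_lit 0x20001000000038001980048000000000000000000000) := T_5 (nat_lit 124) (nat_lit 125) (nat_lit 2) (nat_lit 2) (nat_lit 8) L41483 (by decide +kernel)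
theorem L41485 : W_5 (nat_lit 7) (nat_lit 0x2000120013c0086000000000000000000000000000000) (nat_lit 0x0) (nat_lit 0x800060001000000038001980048000000000000000000000) := T_5 (nat_lit 191) (nat_lit 174) (nat_lit 4) (nat_lit 4) (nat_lit 11) L41484 (by decide +kernel)
theorem L41486 : W_5 (nat_lit 8) (nat_lit 0x2000120013c0084000000000000000000000000000000) (nat_lit 0x0) (nat_lit 0x80006000100000003b001980048000000000000000000000) := T_5 (nat_lit 121) (nat_lit 120) (nat_lit 0) (nat_lit 5) (nat_lit 8) L41485 (by decide +kernel)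
theorem L41487 : W_5 (nat_lit 2) (nat_lit 0x2000120013c009e000900010000000000000000000000) (nat_lit 0x0) (nat_lit 0x20001000000000000000008000000000000000000000) := D_5 (nat_lit 156) (nat_lit 173) (nat_lit 87) (nat_lit 4) (nat_lit 3) (nat_lit 10) (nat_lit 7) (nat_lit 2) (nat_lit 5) (by decide +kernel)
theorem L41488 : W_5 (nat_lit 3) (nat_lit 0x2000120013c009e000800010000000000000000000000) (nat_lit 0x0) (nat_lit 0x20001000000000000180008000000000000000000000) := T_5 (nat_lit 104) (nat_lit 103) (nat_lit 0) (nat_lit 5) (nat_lit 7) L41487 (by decide +kernel)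
theorem L41489 : W_5 (nat_lit 4) (nat_lit 0x2000120013c0096000800010000000000000000000000) (nat_lit 0x0) (nat_lit 0x20001000000008001180008000000000000000000000) := T_5 (nat_lit 123) (nat_lit 108) (nat_lit 2) (nat_lit 2) (nat_lit 7) L41488 (by decide +kernel)
theorem L41490 : W_5 (nat_lit 5) (nat_lit 0x2000120013c0096000800000000000000000000000000) (nat_lit 0x0) (nat_lit 0x20001000000008001380018000000000000000000000) := T_5 (nat_lit 88) (nat_lit 105) (nat_lit 7) (nat_lit 3) (nat_lit 5) L41489 (by decide +kernel)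
theorem L41491 : W_5 (nat_lit 6) (nat_lit 0x2000120013c0094000800000000000000000000000000) (nat_lit 0x0) (nat_lit 0x2000100000000b001380018000000000000000000000) := T_5 (nat_lit 121) (nat_lit 120) (nat_lit 0) (nat_lit 5) (nat_lit 8) L41490 (by decide +kernel)
theorem L41492 : W_5 (nat_lit 7) (nat_lit 0x2000120013c0094000000000000000000000000000000) (nat_lit 0x0) (nat_lit 0x2000100000000b001b80058000000000000000000000) := T_5 (nat_lit 107) (nat_lit 90) (nat_lit 5) (nat_lit 5) (nat_lit 5) L41491 (by decide +kernel)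
theorem L41493 : W_5 (nat_lit 8) (nat_lit 0x2000120013c0084000000000000000000000000000000) (nat_lit 0x0) (nat_lit 0x2000100000003b001b80058000000000000000000000) := T_5 (nat_lit 124) (nat_lit 125) (nat_lit 2) (nat_lit 2) (nat_lit 8) L41492 (by decide +kernel)
theorem L41494 : W_5 (nat_lit 2) (nat_lit 0x8002000120013c009e000900010000000000000000000000) (nat_lit 0x0) (nat_lit 0x8000c00000000000000000) := D_5 (nat_lit 87) (nat_lit 70) (nat_lit 71) (nat_lit 7) (nat_lit 2) (nat_lit 4) (nat_lit 6) (nat_lit 2) (nat_lit 8) (by decide +kernel)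
theorem L41495 : W_5 (nat_lit 3) (nat_lit 0x8002000120013c009e000800010000000000000000000000) (nat_lit 0x0) (nat_lit 0x180008000c00000000000000000) := T_5 (nat_lit 104) (nat_lit 103) (nat_lit 0) (nat_lit 5) (nat_lit 7) L41494 (by decide +kernel)
theorem L41496 : W_5 (nat_lit 4) (nat_lit 0x8002000120013c0096000800010000000000000000000000) (nat_lit 0x0) (nat_lit 0x8001180008000c00000000000000000) := T_5 (nat_lit 123) (nat_lit 108) (nat_lit 2) (nat_lit 2) (nat_lit 7) L41495 (by decide +kernel)
theorem L41497 : W_5 (nat_lit 5) (nat_lit 0x8002000120013c0096000800000000000000000000000000) (nat_lit 0x0) (nat_lit 0x8001380018000c00000000000000000) := T_5 (nat_lit 88) (nat_lit 105) (nat_lit 7) (nat_lit 3) (nat_lit 5) L41496 (by decide +kernel)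
theorem L41498 : W_5 (nat_lit 6) (nat_lit 0x8002000120013c0096000000000000000000000000000000) (nat_lit 0x0) (nat_lit 0x8001b80058000c00000000000000000) := T_5 (nat_lit 107) (nat_lit 90) (nat_lit 5) (nat_lit 5) (nat_lit 5) L41497 (by decide +kernel)
theorem L41499 : W_5 (nat_lit 7) (nat_lit 0x8002000120013c0086000000000000000000000000000000) (nat_lit 0x0) (nat_lit 0x38001b80058000c00000000000000000) := T_5 (nat_lit 124) (nat_lit 125) (nat_lit 2) (nat_lit 2) (nat_lit 8) L41498 (by decide +kernel)
theorem L41500 : W_5 (nat_lit 8) (nat_lit 0x2000120013c0086000000000000000000000000000000) (nat_lit 0x0) (nat_lit 0x800040000000000038001b80058000c00000000000000000) := T_5 (nat_lit 191) (nat_lit 174) (nat_lit 4) (nat_lit 4) (nat_lit 11) L41499 (by decide +kernel)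
theorem L41501 : W_5 (nat_lit 9) (nat_lit 0x2000120013c0084000000000000000000000000000000) (nat_lit 0x0) (nat_lit 0x80004000000000003b001b80058000c00000000000000000) := T_5 (nat_lit 121) (nat_lit 120) (nat_lit 0) (nat_lit 5) (nat_lit 8) L41500 (by decide +kernel)
theorem L41502 : W_5 (nat_lit 10) (nat_lit 0x2000100013c0084000000000000000000000000000000) (nat_lit 0x0) (nat_lit 0x80006000300000003b001b80058000c00000000000000000) := Q_5 (nat_lit 157) (C_5 L41198 (C_5 L41486 (C_5 L41493 (C_5 L41501 N_5)))) (by decide +kernel)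
theorem L41503 : W_5 (nat_lit 2) (nat_lit 0x2100108013c0094000000000000000000000000000000) (nat_lit 0x0) (nat_lit 0x1000000000000200010000000000000000000000) := D_5 (nat_lit 105) (nat_lit 88) (nat_lit 156) (nat_lit 5) (nat_lit 3) (nat_lit 5) (nat_lit 5) (nat_lit 3) (nat_lit 6) (by decide +kernel)
theorem L41504 : W_5 (nat_lit 3) (nat_lit 0x2000108013c0094000000000000000000000000000000) (nat_lit 0x0) (nat_lit 0x200010001000000000000200010000000000000000000000) := T_5 (nat_lit 172) (nat_lit 189) (nat_lit 6) (nat_lit 2) (nat_lit 11) L41503 (by decide +kernel)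
theorem L41505 : W_5 (nat_lit 4) (nat_lit 0x2000108013c0084000000000000000000000000000000) (nat_lit 0x0) (nat_lit 0x200010001000000030000200010000000000000000000000) := T_5 (nat_lit 124) (nat_lit 125) (nat_lit 2) (nat_lit 2) (nat_lit 8) L41504 (by decide +kernel)
theorem L41506 : W_5 (nat_lit 5) (nat_lit 0x2000100013c0084000000000000000000000000000000) (nat_lit 0x0) (nat_lit 0x200010001c00000030000200010000000000000000000000) := T_5 (nat_lit 155) (nat_lit 154) (nat_lit 1) (nat_lit 5) (nat_lit 8) L41505 (by decide +kernel)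
theorem L41507 : W_5 (nat_lit 11) (nat_lit 0x2000100013c0080000000000000000000000000000000) (nat_lit 0x0) (nat_lit 0xe00070003c0000003f001f80058000c00000000000000000) := Q_5 (nat_lit 122) (C_5 L41472 (C_5 L41476 (C_5 L41479 (C_5 L41502 (C_5 L41506 N_5))))) (by decide +kernel)
theorem L41508 : W_5 (nat_lit 2) (nat_lit 0x2000104013c0090000000000000000000000000000000) (nat_lit 0x0) (nat_lit 0x200020008000000000000000000000000000000) := D_5 (nat_lit 137) (nat_lit 123) (nat_lit 153) (nat_lit 2) (nat_lit 1) (nat_lit 8) (nat_lit 1) (nat_lit 4) (nat_lit 8) (by decide +kernel)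
theorem L41509 : W_5 (nat_lit 3) (nat_lit 0x2000104013c0080000000000000000000000000000000) (nat_lit 0x0) (nat_lit 0x200020038000000000000000000000000000000) := T_5 (nat_lit 124) (nat_lit 125) (nat_lit 2) (nat_lit 2) (nat_lit 8) L41508 (by decide +kernel)
theorem L41510 : W_5 (nat_lit 4) (nat_lit 0x2000100013c0080000000000000000000000000000000) (nat_lit 0x0) (nat_lit 0xe00020038000000000000000000000000000000) := T_5 (nat_lit 154) (nat_lit 155) (nat_lit 1) (nat_lit 5) (nat_lit 8) L41509 (by decide +kernel)
theorem L41511 : W_5 (nat_lit 12) (nat_lit 0x200010001380080000000000000000000000000000000) (nat_lit 0x0) (nat_lit 0xe00070003e0006003f801f80058000c00000000000000000) := Q_5 (nat_lit 138) (C_5 L41153 (C_5 L41458 (C_5 L41507 (C_5 L41510 N_5)))) (by decide +kernel)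
theorem L41512 : W_5 (nat_lit 2) (nat_lit 0x2200168013c0082000000000000000000000000000000) (nat_lit 0x0) (nat_lit 0x400010001000000000000000000000000000000000000000) := D_5 (nat_lit 190) (nat_lit 156) (nat_lit 172) (nat_lit 4) (nat_lit 3) (nat_lit 11) (nat_lit 7) (nat_lit 2) (nat_lit 7) (by decide +kernel)
theorem L41513 : W_5 (nat_lit 3) (nat_lit 0x2200168013c0080000000000000000000000000000000) (nat_lit 0x0) (nat_lit 0x400010001000000003000000000000000000000000000000) := T_5 (nat_lit 121) (nat_lit 120) (nat_lit 0) (nat_lit 5) (nat_lit 8) L41512 (by decide +kernel)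
theorem L41514 : W_5 (nat_lit 4) (nat_lit 0x2200128013c0080000000000000000000000000000000) (nat_lit 0x0) (nat_lit 0x40001000d000000003000000000000000000000000000000) := T_5 (nat_lit 158) (nat_lit 159) (nat_lit 3) (nat_lit 2) (nat_lit 8) L41513 (by decide +kernel)
theorem L41515 : W_5 (nat_lit 5) (nat_lit 0x2200120013c0080000000000000000000000000000000) (nat_lit 0x0) (nat_lit 0x40001000dc00000003000000000000000000000000000000) := T_5 (nat_lit 155) (nat_lit 154) (nat_lit 1) (nat_lit 5) (nat_lit 8) L41514 (by decide +kernel)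
theorem L41516 : W_5 (nat_lit 2) (nat_lit 0x2200128013c0082000000000000000000000000000000) (nat_lit 0x0) (nat_lit 0x400010001000000000000000000000000000000000000000) := D_5 (nat_lit 190) (nat_lit 156) (nat_lit 172) (nat_lit 4) (nat_lit 3) (nat_lit 11) (nat_lit 7) (nat_lit 2) (nat_lit 7) (by decide +kernel)
theorem L41517 : W_5 (nat_lit 3) (nat_lit 0x2200120013c0082000000000000000000000000000000) (nat_lit 0x0) (nat_lit 0x400010001c00000000000000000000000000000000000000) := T_5 (nat_lit 155) (nat_lit 154) (nat_lit 1) (nat_lit 5) (nat_lit 8) L41516 (by decide +kernel)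
theorem L41518 : W_5 (nat_lit 4) (nat_lit 0x2200120013c0080000000000000000000000000000000) (nat_lit 0x0) (nat_lit 0x400010001c00000003000000000000000000000000000000) := T_5 (nat_lit 121) (nat_lit 120) (nat_lit 0) (nat_lit 5) (nat_lit 8) L41517 (by decide +kernel)
theorem L41519 : W_5 (nat_lit 2) (nat_lit 0x2300168013c0082000000000000000000000000000000) (nat_lit 0x0) (nat_lit 0x100048000000000000000000000000000000000000000000) := D_5 (nat_lit 171) (nat_lit 188) (nat_lit 174) (nat_lit 5) (nat_lit 2) (nat_lit 7) (nat_lit 2) (nat_lit 1) (nat_lit 10) (by decide +kernel)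
theorem L41520 : W_5 (nat_lit 3) (nat_lit 0x2200168013c0082000000000000000000000000000000) (nat_lit 0x0) (nat_lit 0x500058000000000000000000000000000000000000000000) := T_5 (nat_lit 172) (nat_lit 190) (nat_lit 7) (nat_lit 2) (nat_lit 7) L41519 (by decide +kernel)
theorem L41521 : W_5 (nat_lit 4) (nat_lit 0x2200160013c0082000000000000000000000000000000) (nat_lit 0x0) (nat_lit 0x500058000c00000000000000000000000000000000000000) := T_5 (nat_lit 155) (nat_lit 154) (nat_lit 1) (nat_lit 5) (nat_lit 8) L41520 (by decide +kernel)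
theorem L41522 : W_5 (nat_lit 5) (nat_lit 0x2200120013c0082000000000000000000000000000000) (nat_lit 0x0) (nat_lit 0x50005800cc00000000000000000000000000000000000000) := T_5 (nat_lit 158) (nat_lit 159) (nat_lit 3) (nat_lit 2) (nat_lit 8) L41521 (by decide +kernel)
theorem L41523 : W_5 (nat_lit 6) (nat_lit 0x2200120013c0080000000000000000000000000000000) (nat_lit 0x0) (nat_lit 0x50005800cc00000003000000000000000000000000000000) := T_5 (nat_lit 121) (nat_lit 120) (nat_lit 0) (nat_lit 5) (nat_lit 8) L41522 (by decide +kernel)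
theorem L41524 : W_5 (nat_lit 2) (nat_lit 0x40026001a0013c0082000000000000000000000000000000) (nat_lit 0x0) (nat_lit 0x100008000800000000000000000000000000000000000000000000000) := D_5 (nat_lit 207) (nat_lit 191) (nat_lit 224) (nat_lit 5) (nat_lit 4) (nat_lit 8) (nat_lit 6) (nat_lit 3) (nat_lit 13) (by decide +kernel)
theorem L41525 : W_5 (nat_lit 3) (nat_lit 0x40022001a0013c0082000000000000000000000000000000) (nat_lit 0x0) (nat_lit 0x100008000800040000000000008000000000000000000000000000000) := T_5 (nat_lit 174) (nat_lit 123) (nat_lit 5) (nat_lit 4) (nat_lit 7) L41524 (by decide +kernel)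
theorem L41526 : W_5 (nat_lit 4) (nat_lit 0x22001a0013c0082000000000000000000000000000000) (nat_lit 0x0) (nat_lit 0x100008000c00040001000000008000000000000000000000000000000) := T_5 (nat_lit 190) (nat_lit 156) (nat_lit 4) (nat_lit 3) (nat_lit 11) L41525 (by decide +kernel)
theorem L41527 : W_5 (nat_lit 5) (nat_lit 0x2200120013c0082000000000000000000000000000000) (nat_lit 0x0) (nat_lit 0x100008000c0004000d000000008000000000000000000000000000000) := T_5 (nat_lit 159) (nat_lit 158) (nat_lit 3) (nat_lit 2) (nat_lit 8) L41526 (by decide +kernel)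
theorem L41528 : W_5 (nat_lit 6) (nat_lit 0x2200120013c0080000000000000000000000000000000) (nat_lit 0x0) (nat_lit 0x100008000c0004000d00000000b000000000000000000000000000000) := T_5 (nat_lit 121) (nat_lit 120) (nat_lit 0) (nat_lit 5) (nat_lit 8) L41527 (by decide +kernel)
theorem L41529 : W_5 (nat_lit 2) (nat_lit 0x4002200120013c0080000000000000000000000000000000) (nat_lit 0x0) (nat_lit 0x8000000000001000000008000000000000000000000000000000) := D_5 (nat_lit 156) (nat_lit 207) (nat_lit 123) (nat_lit 6) (nat_lit 3) (nat_lit 12) (nat_lit 6) (nat_lit 3) (nat_lit 11) (by decide +kernel)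
theorem L41530 : W_5 (nat_lit 2) (nat_lit 0x80004002200168013c0080000000000000000000000000000000) (nat_lit 0x0) (nat_lit 0x100000000000050000000000000000000000000000000000000000000) := D_5 (nat_lit 224) (nat_lit 172) (nat_lit 174) (nat_lit 4) (nat_lit 3) (nat_lit 13) (nat_lit 6) (nat_lit 3) (nat_lit 13) (by decide +kernel)
theorem L41531 : W_5 (nat_lit 3) (nat_lit 0x4002200168013c0080000000000000000000000000000000) (nat_lit 0x0) (nat_lit 0x100008000000050001000000000000000000000000000000000000000) := T_5 (nat_lit 207) (nat_lit 156) (nat_lit 6) (nat_lit 3) (nat_lit 12) L41530 (by decide +kernel)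
theorem L41532 : W_5 (nat_lit 4) (nat_lit 0x4002200128013c0080000000000000000000000000000000) (nat_lit 0x0) (nat_lit 0x10000800000005000d000000000000000000000000000000000000000) := T_5 (nat_lit 158) (nat_lit 159) (nat_lit 3) (nat_lit 2) (nat_lit 8) L41531 (by decide +kernel)
theorem L41533 : W_5 (nat_lit 5) (nat_lit 0x4002200120013c0080000000000000000000000000000000) (nat_lit 0x0) (nat_lit 0x10000800000005000dc00000000000000000000000000000000000000) := T_5 (nat_lit 155) (nat_lit 154) (nat_lit 1) (nat_lit 5) (nat_lit 8) L41532 (by decide +kernel)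
theorem L41534 : W_5 (nat_lit 2) (nat_lit 0x40026001a8013c0080000000000000000000000000000000) (nat_lit 0x0) (nat_lit 0x100008000800000000000000000000000000000000000000000000000) := D_5 (nat_lit 207) (nat_lit 191) (nat_lit 224) (nat_lit 5) (nat_lit 4) (nat_lit 8) (nat_lit 6) (nat_lit 3) (nat_lit 13) (by decide +kernel)
theorem L41535 : W_5 (nat_lit 3) (nat_lit 0x40022001a8013c0080000000000000000000000000000000) (nat_lit 0x0) (nat_lit 0x100008000800040000000000008000000000000000000000000000000) := T_5 (nat_lit 174) (nat_lit 123) (nat_lit 5) (nat_lit 4) (nat_lit 7) L41534 (by decide +kernel)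
theorem L41536 : W_5 (nat_lit 4) (nat_lit 0x4002200128013c0080000000000000000000000000000000) (nat_lit 0x0) (nat_lit 0x10000800080004000c000000008000000000000000000000000000000) := T_5 (nat_lit 159) (nat_lit 158) (nat_lit 3) (nat_lit 2) (nat_lit 8) L41535 (by decide +kernel)
theorem L41537 : W_5 (nat_lit 5) (nat_lit 0x4002200120013c0080000000000000000000000000000000) (nat_lit 0x0) (nat_lit 0x10000800080004000cc00000008000000000000000000000000000000) := T_5 (nat_lit 155) (nat_lit 154) (nat_lit 1) (nat_lit 5) (nat_lit 8) L41536 (by decide +kernel)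
theorem L41538 : W_5 (nat_lit 2) (nat_lit 0x4002200120013c0080000000000000000000000000000000) (nat_lit 0x0) (nat_lit 0x40001000000008000000000000000000000000000000) := D_5 (nat_lit 123) (nat_lit 174) (nat_lit 156) (nat_lit 5) (nat_lit 4) (nat_lit 7) (nat_lit 6) (nat_lit 3) (nat_lit 11) (by decide +kernel)
theorem L41539 : W_5 (nat_lit 6) (nat_lit 0x2200120013c0080000000000000000000000000000000) (nat_lit 0x0) (nat_lit 0x100008000c0005000dc00000008000000000000000000000000000000) := Q_5 (nat_lit 190) (C_5 L41529 (C_5 L41533 (C_5 L41537 (C_5 L41538 N_5)))) (by decide +kernel)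
theorem L41540 : W_5 (nat_lit 2) (nat_lit 0x22001a8013c0082000100014000000000000000000000) (nat_lit 0x0) (nat_lit 0x8000a00000000000000000) := D_5 (nat_lit 87) (nat_lit 69) (nat_lit 71) (nat_lit 4) (nat_lit 2) (nat_lit 8) (nat_lit 6) (nat_lit 2) (nat_lit 8) (by decide +kernel)
theorem L41541 : W_5 (nat_lit 3) (nat_lit 0x22001a8013c0082000100004000000000000000000000) (nat_lit 0x0) (nat_lit 0x200018000a00000000000000000) := T_5 (nat_lit 88) (nat_lit 105) (nat_lit 6) (nat_lit 2) (nat_lit 9) L41540 (by decide +kernel)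
theorem L41542 : W_5 (nat_lit 4) (nat_lit 0x22001a8013c0082000100000000000000000000000000) (nat_lit 0x0) (nat_lit 0x28001c000a00000000000000000) := T_5 (nat_lit 86) (nat_lit 103) (nat_lit 4) (nat_lit 2) (nat_lit 9) L41541 (by decide +kernel)
theorem L41543 : W_5 (nat_lit 5) (nat_lit 0x22001a8013c0082000000000000000000000000000000) (nat_lit 0x0) (nat_lit 0x100000000000038001c000a00000000000000000) := T_5 (nat_lit 104) (nat_lit 156) (nat_lit 7) (nat_lit 2) (nat_lit 6) L41542 (by decide +kernel)
theorem L41544 : W_5 (nat_lit 6) (nat_lit 0x2200128013c0082000000000000000000000000000000) (nat_lit 0x0) (nat_lit 0xd00000000000038001c000a00000000000000000) := T_5 (nat_lit 159) (nat_lit 158) (nat_lit 3) (nat_lit 2) (nat_lit 8) L41543 (by decide +kernel)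
theorem L41545 : W_5 (nat_lit 7) (nat_lit 0x2200128013c0080000000000000000000000000000000) (nat_lit 0x0) (nat_lit 0xd00000000300038001c000a00000000000000000) := T_5 (nat_lit 121) (nat_lit 120) (nat_lit 0) (nat_lit 5) (nat_lit 8) L41544 (by decide +kernel)
theorem L41546 : W_5 (nat_lit 8) (nat_lit 0x2200120013c0080000000000000000000000000000000) (nat_lit 0x0) (nat_lit 0xdc0000000300038001c000a00000000000000000) := T_5 (nat_lit 155) (nat_lit 154) (nat_lit 1) (nat_lit 5) (nat_lit 8) L41545 (by decide +kernel)
theorem L41547 : W_5 (nat_lit 9) (nat_lit 0x2000120013c0080000000000000000000000000000000) (nat_lit 0x0) (nat_lit 0x100008000d0007800dc0000000b00038001c000a00000000000000000) := Q_5 (nat_lit 173) (C_5 L41515 (C_5 L41518 (C_5 L41523 (C_5 L41528 (C_5 L41539 (C_5 L41546 N_5)))))) (by decide +kernel)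
theorem L41548 : W_5 (nat_lit 2) (nat_lit 0x2500168013c0086000000000000000000000000000000) (nat_lit 0x0) (nat_lit 0x100028000000000000000000000000000000000000000000) := D_5 (nat_lit 171) (nat_lit 188) (nat_lit 173) (nat_lit 5) (nat_lit 2) (nat_lit 7) (nat_lit 2) (nat_lit 1) (nat_lit 10) (by decide +kernel)
theorem L41549 : W_5 (nat_lit 3) (nat_lit 0x2100168013c0086000000000000000000000000000000) (nat_lit 0x0) (nat_lit 0x900068000000000000000000000000000000000000000000) := T_5 (nat_lit 174) (nat_lit 191) (nat_lit 4) (nat_lit 4) (nat_lit 11) L41548 (by decide +kernel)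
theorem L41550 : W_5 (nat_lit 4) (nat_lit 0x2000168013c0086000000000000000000000000000000) (nat_lit 0x0) (nat_lit 0xb00078000000000000000000000000000000000000000000) := T_5 (nat_lit 172) (nat_lit 189) (nat_lit 6) (nat_lit 2) (nat_lit 11) L41549 (by decide +kernel)
theorem L41551 : W_5 (nat_lit 5) (nat_lit 0x2000168013c0084000000000000000000000000000000) (nat_lit 0x0) (nat_lit 0xb00078000000000003000000000000000000000000000000) := T_5 (nat_lit 121) (nat_lit 120) (nat_lit 0) (nat_lit 5) (nat_lit 8) L41550 (by decide +kernel)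
theorem L41552 : W_5 (nat_lit 6) (nat_lit 0x2000160013c0084000000000000000000000000000000) (nat_lit 0x0) (nat_lit 0xb00078000c00000003000000000000000000000000000000) := T_5 (nat_lit 155) (nat_lit 154) (nat_lit 1) (nat_lit 5) (nat_lit 8) L41551 (by decide +kernel)
theorem L41553 : W_5 (nat_lit 7) (nat_lit 0x2000120013c0084000000000000000000000000000000) (nat_lit 0x0) (nat_lit 0xb0007800cc00000003000000000000000000000000000000) := T_5 (nat_lit 158) (nat_lit 159) (nat_lit 3) (nat_lit 2) (nat_lit 8) L41552 (by decide +kernel)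
theorem L41554 : W_5 (nat_lit 2) (nat_lit 0x2400120013c0084000000000000000000000000000000) (nat_lit 0x0) (nat_lit 0x8000200010000000000000000000000) := D_5 (nat_lit 105) (nat_lit 88) (nat_lit 123) (nat_lit 7) (nat_lit 3) (nat_lit 5) (nat_lit 4) (nat_lit 4) (nat_lit 10) (by decide +kernel)
theorem L41555 : W_5 (nat_lit 3) (nat_lit 0x2000120013c0084000000000000000000000000000000) (nat_lit 0x0) (nat_lit 0x800040000000000008000200010000000000000000000000) := T_5 (nat_lit 174) (nat_lit 191) (nat_lit 4) (nat_lit 4) (nat_lit 11) L41554 (by decide +kernel)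
theorem L41556 : W_5 (nat_lit 8) (nat_lit 0x2000120013c0080000000000000000000000000000000) (nat_lit 0x0) (nat_lit 0xb0007800cc0000000f000200010000000000000000000000) := Q_5 (nat_lit 122) (C_5 L41258 (C_5 L41553 (C_5 L41555 N_5))) (by decide +kernel)
theorem L41557 : W_5 (nat_lit 2) (nat_lit 0x100008002400120013c0082000000000000000000000000000000) (nat_lit 0x0) (nat_lit 0x100008000400000000000000000000000000000000000000000000000) := D_5 (nat_lit 207) (nat_lit 224) (nat_lit 190) (nat_lit 5) (nat_lit 4) (nat_lit 9) (nat_lit 5) (nat_lit 4) (nat_lit 8) (by decide +kernel)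
theorem L41558 : W_5 (nat_lit 3) (nat_lit 0x8002400120013c0082000000000000000000000000000000) (nat_lit 0x0) (nat_lit 0x100018000400000001000000000000000000000000000000000000000) := T_5 (nat_lit 208) (nat_lit 156) (nat_lit 4) (nat_lit 4) (nat_lit 12) L41557 (by decide +kernel)
theorem L41559 : W_5 (nat_lit 4) (nat_lit 0x2400120013c0082000000000000000000000000000000) (nat_lit 0x0) (nat_lit 0x100018000c00000001000000004000000000000000000000000000000) := T_5 (nat_lit 191) (nat_lit 122) (nat_lit 4) (nat_lit 4) (nat_lit 11) L41558 (by decide +kernel)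
theorem L41560 : W_5 (nat_lit 5) (nat_lit 0x2400120013c0080000000000000000000000000000000) (nat_lit 0x0) (nat_lit 0x100018000c00000001000000007000000000000000000000000000000) := T_5 (nat_lit 121) (nat_lit 120) (nat_lit 0) (nat_lit 5) (nat_lit 8) L41559 (by decide +kernel)
theorem L41561 : W_5 (nat_lit 2) (nat_lit 0xc002400160013c0082000000000000000000000000000000) (nat_lit 0x0) (nat_lit 0x20001000000008000000000000000000000000000000) := D_5 (nat_lit 173) (nat_lit 123) (nat_lit 156) (nat_lit 5) (nat_lit 4) (nat_lit 7) (nat_lit 4) (nat_lit 3) (nat_lit 11) (by decide +kernel)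
theorem L41562 : W_5 (nat_lit 3) (nat_lit 0x8002400160013c0082000000000000000000000000000000) (nat_lit 0x0) (nat_lit 0x8000400020001000000008000000000000000000000000000000) := T_5 (nat_lit 190) (nat_lit 207) (nat_lit 5) (nat_lit 4) (nat_lit 8) L41561 (by decide +kernel)
theorem L41563 : W_5 (nat_lit 4) (nat_lit 0x8002400160013c0080000000000000000000000000000000) (nat_lit 0x0) (nat_lit 0x800040002000100000000b000000000000000000000000000000) := T_5 (nat_lit 121) (nat_lit 120) (nat_lit 0) (nat_lit 5) (nat_lit 8) L41562 (by decide +kernel)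
theorem L41564 : W_5 (nat_lit 5) (nat_lit 0x2400160013c0080000000000000000000000000000000) (nat_lit 0x0) (nat_lit 0x18000c0002000100000000b000000000000000000000000000000) := T_5 (nat_lit 191) (nat_lit 208) (nat_lit 6) (nat_lit 4) (nat_lit 12) L41563 (by decide +kernel)
theorem L41565 : W_5 (nat_lit 6) (nat_lit 0x2400120013c0080000000000000000000000000000000) (nat_lit 0x0) (nat_lit 0x18000c0002000d00000000b000000000000000000000000000000) := T_5 (nat_lit 158) (nat_lit 159) (nat_lit 3) (nat_lit 2) (nat_lit 8) L41564 (by decide +kernel)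
theorem L41566 : W_5 (nat_lit 2) (nat_lit 0x8002400120013c0082000000000000000000000000000000) (nat_lit 0x0) (nat_lit 0x1000000000000c000000000000000000000000000000000000000) := D_5 (nat_lit 158) (nat_lit 159) (nat_lit 208) (nat_lit 3) (nat_lit 2) (nat_lit 8) (nat_lit 6) (nat_lit 4) (nat_lit 12) (by decide +kernel)
theorem L41567 : W_5 (nat_lit 3) (nat_lit 0x2400120013c0082000000000000000000000000000000) (nat_lit 0x0) (nat_lit 0x1000080000000c000000004000000000000000000000000000000) := T_5 (nat_lit 191) (nat_lit 122) (nat_lit 4) (nat_lit 4) (nat_lit 11) L41566 (by decide +kernel)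
theorem L41568 : W_5 (nat_lit 4) (nat_lit 0x2400120013c0080000000000000000000000000000000) (nat_lit 0x0) (nat_lit 0x1000080000000c000000007000000000000000000000000000000) := T_5 (nat_lit 121) (nat_lit 120) (nat_lit 0) (nat_lit 5) (nat_lit 8) L41567 (by decide +kernel)
theorem L41569 : W_5 (nat_lit 2) (nat_lit 0x2600120013c008e000000000000000000000000000000) (nat_lit 0x0) (nat_lit 0x1000000000000500000000000000000000000000) := D_5 (nat_lit 156) (nat_lit 106) (nat_lit 104) (nat_lit 6) (nat_lit 3) (nat_lit 10) (nat_lit 4) (nat_lit 3) (nat_lit 10) (by decide +kernel)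
theorem L41570 : W_5 (nat_lit 3) (nat_lit 0x2400120013c008e000000000000000000000000000000) (nat_lit 0x0) (nat_lit 0x400020001000000000000500000000000000000000000000) := T_5 (nat_lit 173) (nat_lit 190) (nat_lit 5) (nat_lit 4) (nat_lit 7) L41569 (by decide +kernel)
theorem L41571 : W_5 (nat_lit 4) (nat_lit 0x2400120013c008a000000000000000000000000000000) (nat_lit 0x0) (nat_lit 0x400020001000000004000700000000000000000000000000) := T_5 (nat_lit 122) (nat_lit 105) (nat_lit 4) (nat_lit 4) (nat_lit 10) L41570 (by decide +kernel)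
theorem L41572 : W_5 (nat_lit 5) (nat_lit 0x2400120013c0088000000000000000000000000000000) (nat_lit 0x0) (nat_lit 0x400020001000000007000700000000000000000000000000) := T_5 (nat_lit 121) (nat_lit 120) (nat_lit 0) (nat_lit 5) (nat_lit 8) L41571 (by decide +kernel)
theorem L41573 : W_5 (nat_lit 2) (nat_lit 0x2400160013c0088000400000000000000000000000000) (nat_lit 0x0) (nat_lit 0x4000200010000000000000000000000) := D_5 (nat_lit 105) (nat_lit 122) (nat_lit 88) (nat_lit 4) (nat_lit 4) (nat_lit 10) (nat_lit 4) (nat_lit 4) (nat_lit 9) (by decide +kernel)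
theorem L41574 : W_5 (nat_lit 3) (nat_lit 0x2400160013c0088000000000000000000000000000000) (nat_lit 0x0) (nat_lit 0x4000600030000000000000000000000) := T_5 (nat_lit 106) (nat_lit 89) (nat_lit 7) (nat_lit 4) (nat_lit 5) L41573 (by decide +kernel)
theorem L41575 : W_5 (nat_lit 4) (nat_lit 0x2400120013c0088000000000000000000000000000000) (nat_lit 0x0) (nat_lit 0xc000000004000600030000000000000000000000) := T_5 (nat_lit 158) (nat_lit 159) (nat_lit 3) (nat_lit 2) (nat_lit 8) L41574 (by decide +kernel)
theorem L41576 : W_5 (nat_lit 2) (nat_lit 0x2400160013c008a000400000000000000000000000000) (nat_lit 0x0) (nat_lit 0x400020001000000000000000000000000000000000000000) := D_5 (nat_lit 173) (nat_lit 190) (nat_lit 156) (nat_lit 5) (nat_lit 4) (nat_lit 7) (nat_lit 5) (nat_lit 4) (nat_lit 6) (by decide +kernel)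
theorem L41577 : W_5 (nat_lit 3) (nat_lit 0x2400160013c008a000000000000000000000000000000) (nat_lit 0x0) (nat_lit 0x400020001000000000000400020000000000000000000000) := T_5 (nat_lit 106) (nat_lit 89) (nat_lit 7) (nat_lit 4) (nat_lit 5) L41576 (by decide +kernel)
theorem L41578 : W_5 (nat_lit 4) (nat_lit 0x2400120013c008a000000000000000000000000000000) (nat_lit 0x0) (nat_lit 0x40002000d000000000000400020000000000000000000000) := T_5 (nat_lit 158) (nat_lit 159) (nat_lit 3) (nat_lit 2) (nat_lit 8) L41577 (by decide +kernel)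
theorem L41579 : W_5 (nat_lit 5) (nat_lit 0x2400120013c0088000000000000000000000000000000) (nat_lit 0x0) (nat_lit 0x40002000d000000003000400020000000000000000000000) := T_5 (nat_lit 121) (nat_lit 120) (nat_lit 0) (nat_lit 5) (nat_lit 8) L41578 (by decide +kernel)
theorem L41580 : W_5 (nat_lit 2) (nat_lit 0x27801b0013c008e000000000000000000000000000000) (nat_lit 0x0) (nat_lit 0x180000000800000000000000000000000000000000000000) := D_5 (nat_lit 188) (nat_lit 187) (nat_lit 155) (nat_lit 1) (nat_lit 4) (nat_lit 10) (nat_lit 5) (nat_lit 2) (nat_lit 7) (by decide +kernel)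
theorem L41581 : W_5 (nat_lit 3) (nat_lit 0x27001b0013c008e000000000000000000000000000000) (nat_lit 0x0) (nat_lit 0x18000c000800000000000000000000000000000000000000) := T_5 (nat_lit 171) (nat_lit 170) (nat_lit 2) (nat_lit 0) (nat_lit 10) L41580 (by decide +kernel)
theorem L41582 : W_5 (nat_lit 4) (nat_lit 0x26001b0013c008e000000000000000000000000000000) (nat_lit 0x0) (nat_lit 0x38001c000800000000000000000000000000000000000000) := T_5 (nat_lit 172) (nat_lit 189) (nat_lit 5) (nat_lit 3) (nat_lit 7) L41581 (by decide +kernel)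
theorem L41583 : W_5 (nat_lit 5) (nat_lit 0x26001a0013c008e000000000000000000000000000000) (nat_lit 0x0) (nat_lit 0x38001c001800000000000100000000000000000000000000) := T_5 (nat_lit 156) (nat_lit 104) (nat_lit 4) (nat_lit 3) (nat_lit 10) L41582 (by decide +kernel)
theorem L41584 : W_5 (nat_lit 6) (nat_lit 0x26001a0013c008c000000000000000000000000000000) (nat_lit 0x0) (nat_lit 0x38001c001800000003000100000000000000000000000000) := T_5 (nat_lit 121) (nat_lit 120) (nat_lit 3) (nat_lit 1) (nat_lit 7) L41583 (by decide +kernel)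
theorem L41585 : W_5 (nat_lit 7) (nat_lit 0x26001a0013c0088000000000000000000000000000000) (nat_lit 0x0) (nat_lit 0x38001c001800000007000300000000000000000000000000) := T_5 (nat_lit 122) (nat_lit 105) (nat_lit 4) (nat_lit 4) (nat_lit 10) L41584 (by decide +kernel)
theorem L41586 : W_5 (nat_lit 8) (nat_lit 0x2600120013c0088000000000000000000000000000000) (nat_lit 0x0) (nat_lit 0x38001c00d800000007000300000000000000000000000000) := T_5 (nat_lit 159) (nat_lit 158) (nat_lit 3) (nat_lit 2) (nat_lit 8) L41585 (by decide +kernel)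
theorem L41587 : W_5 (nat_lit 9) (nat_lit 0x2400120013c0088000000000000000000000000000000) (nat_lit 0x0) (nat_lit 0x78003c00d800000007000300000000000000000000000000) := T_5 (nat_lit 173) (nat_lit 190) (nat_lit 5) (nat_lit 4) (nat_lit 7) L41586 (by decide +kernel)
theorem L41588 : W_5 (nat_lit 10) (nat_lit 0x2400120013c0080000000000000000000000000000000) (nat_lit 0x0) (nat_lit 0x78003c00d80000000f000700030000000000000000000000) := Q_5 (nat_lit 123) (C_5 L41572 (C_5 L41575 (C_5 L41579 (C_5 L41587 N_5)))) (by decide +kernel)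
theorem L41589 : W_5 (nat_lit 11) (nat_lit 0x2000120013c0080000000000000000000000000000000) (nat_lit 0x0) (nat_lit 0x100018000f8007c00d80000000f000700030000000000000000000000) := Q_5 (nat_lit 174) (C_5 L41349 (C_5 L41560 (C_5 L41565 (C_5 L41568 (C_5 L41588 N_5))))) (by decide +kernel)
theorem L41590 : W_5 (nat_lit 2) (nat_lit 0x21001a8013c0084000000000000000000000000000000) (nat_lit 0x0) (nat_lit 0x1000000000000200010000000000000000000000) := D_5 (nat_lit 105) (nat_lit 88) (nat_lit 156) (nat_lit 7) (nat_lit 3) (nat_lit 5) (nat_lit 5) (nat_lit 3) (nat_lit 6) (by decide +kernel)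
theorem L41591 : W_5 (nat_lit 3) (nat_lit 0x20001a8013c0084000000000000000000000000000000) (nat_lit 0x0) (nat_lit 0x200010001000000000000200010000000000000000000000) := T_5 (nat_lit 172) (nat_lit 189) (nat_lit 6) (nat_lit 2) (nat_lit 11) L41590 (by decide +kernel)
theorem L41592 : W_5 (nat_lit 4) (nat_lit 0x2000128013c0084000000000000000000000000000000) (nat_lit 0x0) (nat_lit 0x20001000d000000000000200010000000000000000000000) := T_5 (nat_lit 159) (nat_lit 158) (nat_lit 3) (nat_lit 2) (nat_lit 8) L41591 (by decide +kernel)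
theorem L41593 : W_5 (nat_lit 5) (nat_lit 0x2000120013c0084000000000000000000000000000000) (nat_lit 0x0) (nat_lit 0x20001000dc00000000000200010000000000000000000000) := T_5 (nat_lit 155) (nat_lit 154) (nat_lit 1) (nat_lit 5) (nat_lit 8) L41592 (by decide +kernel)
theorem L41594 : W_5 (nat_lit 2) (nat_lit 0x2500168013c0084000000000000000000000000000000) (nat_lit 0x0) (nat_lit 0x28001000000000000000000000000000000000000000) := D_5 (nat_lit 171) (nat_lit 156) (nat_lit 173) (nat_lit 1) (nat_lit 5) (nat_lit 9) (nat_lit 2) (nat_lit 1) (nat_lit 10) (by decide +kernel)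
theorem L41595 : W_5 (nat_lit 3) (nat_lit 0x2100168013c0084000000000000000000000000000000) (nat_lit 0x0) (nat_lit 0x800068001000000000000000000000000000000000000000) := T_5 (nat_lit 174) (nat_lit 191) (nat_lit 4) (nat_lit 4) (nat_lit 11) L41594 (by decide +kernel)
theorem L41596 : W_5 (nat_lit 4) (nat_lit 0x2000168013c0084000000000000000000000000000000) (nat_lit 0x0) (nat_lit 0xa00078001000000000000000000000000000000000000000) := T_5 (nat_lit 172) (nat_lit 189) (nat_lit 6) (nat_lit 2) (nat_lit 11) L41595 (by decide +kernel)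
theorem L41597 : W_5 (nat_lit 5) (nat_lit 0x2000128013c0084000000000000000000000000000000) (nat_lit 0x0) (nat_lit 0xa0007800d000000000000000000000000000000000000000) := T_5 (nat_lit 158) (nat_lit 159) (nat_lit 3) (nat_lit 2) (nat_lit 8) L41596 (by decide +kernel)
theorem L41598 : W_5 (nat_lit 6) (nat_lit 0x2000120013c0084000000000000000000000000000000) (nat_lit 0x0) (nat_lit 0xa0007800dc00000000000000000000000000000000000000) := T_5 (nat_lit 155) (nat_lit 154) (nat_lit 1) (nat_lit 5) (nat_lit 8) L41597 (by decide +kernel)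
theorem L41599 : W_5 (nat_lit 7) (nat_lit 0x2000120013c0080000000000000000000000000000000) (nat_lit 0x0) (nat_lit 0xa0007800dc0000000c000200010000000000000000000000) := Q_5 (nat_lit 122) (C_5 L41555 (C_5 L41198 (C_5 L41593 (C_5 L41598 N_5)))) (by decide +kernel)
theorem L41600 : W_5 (nat_lit 2) (nat_lit 0x2700160013c008e000000000000000000000000000000) (nat_lit 0x0) (nat_lit 0x200000001000000000000100000000000000000000000000) := D_5 (nat_lit 156) (nat_lit 104) (nat_lit 189) (nat_lit 4) (nat_lit 3) (nat_lit 10) (nat_lit 5) (nat_lit 3) (nat_lit 7) (by decide +kernel)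
theorem L41601 : W_5 (nat_lit 3) (nat_lit 0x2600160013c008e000000000000000000000000000000) (nat_lit 0x0) (nat_lit 0x200018001000000000000100000000000000000000000000) := T_5 (nat_lit 172) (nat_lit 171) (nat_lit 2) (nat_lit 1) (nat_lit 10) L41600 (by decide +kernel)
theorem L41602 : W_5 (nat_lit 4) (nat_lit 0x2600160013c008c000000000000000000000000000000) (nat_lit 0x0) (nat_lit 0x200018001000000003000100000000000000000000000000) := T_5 (nat_lit 121) (nat_lit 120) (nat_lit 3) (nat_lit 1) (nat_lit 7) L41601 (by decide +kernel)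
theorem L41603 : W_5 (nat_lit 5) (nat_lit 0x2600160013c0088000000000000000000000000000000) (nat_lit 0x0) (nat_lit 0x200018001000000007000300000000000000000000000000) := T_5 (nat_lit 122) (nat_lit 105) (nat_lit 4) (nat_lit 4) (nat_lit 10) L41602 (by decide +kernel)
theorem L41604 : W_5 (nat_lit 6) (nat_lit 0x2600120013c0088000000000000000000000000000000) (nat_lit 0x0) (nat_lit 0x20001800d000000007000300000000000000000000000000) := T_5 (nat_lit 158) (nat_lit 159) (nat_lit 3) (nat_lit 2) (nat_lit 8) L41603 (by decide +kernel)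
theorem L41605 : W_5 (nat_lit 7) (nat_lit 0x2400120013c0088000000000000000000000000000000) (nat_lit 0x0) (nat_lit 0x60003800d000000007000300000000000000000000000000) := T_5 (nat_lit 173) (nat_lit 190) (nat_lit 5) (nat_lit 4) (nat_lit 7) L41604 (by decide +kernel)
theorem L41606 : W_5 (nat_lit 8) (nat_lit 0x2400120013c0080000000000000000000000000000000) (nat_lit 0x0) (nat_lit 0x60003800d00000000f000700030000000000000000000000) := Q_5 (nat_lit 123) (C_5 L41579 (C_5 L41572 (C_5 L41575 (C_5 L41605 N_5)))) (by decide +kernel)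
theorem L41607 : W_5 (nat_lit 9) (nat_lit 0x2000120013c0080000000000000000000000000000000) (nat_lit 0x0) (nat_lit 0x100018000e0007800d00000000f000700030000000000000000000000) := Q_5 (nat_lit 174) (C_5 L41560 (C_5 L41568 (C_5 L41565 (C_5 L41606 (C_5 L41349 N_5))))) (by decide +kernel)
theorem L41608 : W_5 (nat_lit 7) (nat_lit 0x2000120013c0080000000000000000000000000000000) (nat_lit 0x0) (nat_lit 0x100018000c0006000dc0000000f000300018000000000000000000000) := Q_5 (nat_lit 174) (C_5 L41560 (C_5 L41568 (C_5 L41565 (C_5 L41238 (C_5 L41349 N_5))))) (by decide +kernel)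
theorem L41609 : W_5 (nat_lit 12) (nat_lit 0x2000100013c0080000000000000000000000000000000) (nat_lit 0x0) (nat_lit 0x10001c000f8007c00fc0000000f00078003c000a00000000000000000) := Q_5 (nat_lit 157) (C_5 L41259 (C_5 L41248 (C_5 L41393 (C_5 L41547 (C_5 L41556 (C_5 L41589 (C_5 L41599 (C_5 L41607 (C_5 L41608 N_5))))))))) (by decide +kernel)
theorem L41610 : W_5 (nat_lit 13) (nat_lit 0x200010001380080000000000000000000000000000000) (nat_lit 0x0) (nat_lit 0x10001c000f8007c00fe0006000f80078003c000a00000000000000000) := Q_5 (nat_lit 138) (C_5 L41609 (C_5 L41153 (C_5 L41405 (C_5 L41229 N_5)))) (by decide +kernel)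
theorem L41611 : W_5 (nat_lit 2) (nat_lit 0x2400128013c0090000000000000000000000000000000) (nat_lit 0x0) (nat_lit 0x8000800040000000000000000000000) := D_5 (nat_lit 107) (nat_lit 90) (nat_lit 123) (nat_lit 5) (nat_lit 5) (nat_lit 5) (nat_lit 6) (nat_lit 4) (nat_lit 10) (by decide +kernel)
theorem L41612 : W_5 (nat_lit 3) (nat_lit 0x2000128013c0090000000000000000000000000000000) (nat_lit 0x0) (nat_lit 0x800040000000000008000800040000000000000000000000) := T_5 (nat_lit 174) (nat_lit 191) (nat_lit 6) (nat_lit 4) (nat_lit 11) L41611 (by decide +kernel)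
theorem L41613 : W_5 (nat_lit 4) (nat_lit 0x2000128013c0080000000000000000000000000000000) (nat_lit 0x0) (nat_lit 0x800040000000000038000800040000000000000000000000) := T_5 (nat_lit 124) (nat_lit 125) (nat_lit 2) (nat_lit 2) (nat_lit 8) L41612 (by decide +kernel)
theorem L41614 : W_5 (nat_lit 5) (nat_lit 0x2000120013c0080000000000000000000000000000000) (nat_lit 0x0) (nat_lit 0x800040000c00000038000800040000000000000000000000) := T_5 (nat_lit 155) (nat_lit 154) (nat_lit 1) (nat_lit 5) (nat_lit 8) L41613 (by decide +kernel)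
theorem L41615 : W_5 (nat_lit 2) (nat_lit 0x2200134013c0092000c00038000000000000000000000) (nat_lit 0x0) (nat_lit 0x3200000000000000000000000000) := D_5 (nat_lit 108) (nat_lit 109) (nat_lit 105) (nat_lit 0) (nat_lit 7) (nat_lit 6) (nat_lit 0) (nat_lit 6) (nat_lit 6) (by decide +kernel)
theorem L41616 : W_5 (nat_lit 3) (nat_lit 0x2200134013c0092000c00028000000000000000000000) (nat_lit 0x0) (nat_lit 0x3200014000000000000000000000) := T_5 (nat_lit 88) (nat_lit 86) (nat_lit 3) (nat_lit 1) (nat_lit 5) L41615 (by decide +kernel)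
theorem L41617 : W_5 (nat_lit 4) (nat_lit 0x2200134013c0092000c00008000000000000000000000) (nat_lit 0x0) (nat_lit 0x4000000000003200034000000000000000000000) := T_5 (nat_lit 89) (nat_lit 158) (nat_lit 4) (nat_lit 5) (nat_lit 9) L41616 (by decide +kernel)
theorem L41618 : W_5 (nat_lit 5) (nat_lit 0x2200134013c0092000400008000000000000000000000) (nat_lit 0x0) (nat_lit 0x4000000000003a00074000000000000000000000) := T_5 (nat_lit 107) (nat_lit 90) (nat_lit 5) (nat_lit 5) (nat_lit 5) L41617 (by decide +kernel)
theorem L41619 : W_5 (nat_lit 6) (nat_lit 0x2200134013c0092000000008000000000000000000000) (nat_lit 0x0) (nat_lit 0x4000000008003e00074000000000000000000000) := T_5 (nat_lit 106) (nat_lit 123) (nat_lit 5) (nat_lit 4) (nat_lit 6) L41618 (by decide +kernel)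
theorem L41620 : W_5 (nat_lit 2) (nat_lit 0x22001b0013c0082000000000000000000000000000000) (nat_lit 0x0) (nat_lit 0x800000000000100008000000000000000000000) := D_5 (nat_lit 104) (nat_lit 87) (nat_lit 155) (nat_lit 7) (nat_lit 2) (nat_lit 5) (nat_lit 7) (nat_lit 2) (nat_lit 6) (by decide +kernel)
theorem L41621 : W_5 (nat_lit 3) (nat_lit 0x20001b0013c0082000000000000000000000000000000) (nat_lit 0x0) (nat_lit 0x400020000800000000000100008000000000000000000000) := T_5 (nat_lit 173) (nat_lit 190) (nat_lit 4) (nat_lit 3) (nat_lit 11) L41620 (by decide +kernel)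
theorem L41622 : W_5 (nat_lit 4) (nat_lit 0x2000130013c0082000000000000000000000000000000) (nat_lit 0x0) (nat_lit 0x40002000c800000000000100008000000000000000000000) := T_5 (nat_lit 159) (nat_lit 158) (nat_lit 3) (nat_lit 2) (nat_lit 8) L41621 (by decide +kernel)
theorem L41623 : W_5 (nat_lit 7) (nat_lit 0x2200134013c0082000000008000000000000000000000) (nat_lit 0x0) (nat_lit 0x4000000038003e00074000000000000000000000) := T_5 (nat_lit 124) (nat_lit 125) (nat_lit 2) (nat_lit 2) (nat_lit 8) L41619 (by decide +kernel)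
theorem L41624 : W_5 (nat_lit 8) (nat_lit 0x2000134013c0082000000008000000000000000000000) (nat_lit 0x0) (nat_lit 0x400020004000000038003e00074000000000000000000000) := T_5 (nat_lit 173) (nat_lit 190) (nat_lit 4) (nat_lit 3) (nat_lit 11) L41623 (by decide +kernel)
theorem L41625 : W_5 (nat_lit 9) (nat_lit 0x2000130013c0082000000008000000000000000000000) (nat_lit 0x0) (nat_lit 0x400020004c00000038003e00074000000000000000000000) := T_5 (nat_lit 154) (nat_lit 155) (nat_lit 2) (nat_lit 1) (nat_lit 9) L41624 (by decide +kernel)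
theorem L41626 : W_5 (nat_lit 10) (nat_lit 0x2000130013c0082000000000000000000000000000000) (nat_lit 0x0) (nat_lit 0x400020004c00000038003f0007c000000000000000000000) := T_5 (nat_lit 87) (nat_lit 104) (nat_lit 7) (nat_lit 2) (nat_lit 5) L41625 (by decide +kernel)
theorem L41627 : W_5 (nat_lit 2) (nat_lit 0x2000130013c0092000100040000000000000000000000) (nat_lit 0x0) (nat_lit 0x20000c00000000000000000000000000000000000000) := D_5 (nat_lit 155) (nat_lit 154) (nat_lit 173) (nat_lit 2) (nat_lit 1) (nat_lit 9) (nat_lit 7) (nat_lit 2) (nat_lit 6) (by decide +kernel)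
theorem L41628 : W_5 (nat_lit 3) (nat_lit 0x2000130013c0092000000040000000000000000000000) (nat_lit 0x0) (nat_lit 0x20000c00000000000100008000000000000000000000) := T_5 (nat_lit 104) (nat_lit 87) (nat_lit 7) (nat_lit 2) (nat_lit 5) L41627 (by decide +kernel)
theorem L41629 : W_5 (nat_lit 4) (nat_lit 0x2000130013c0092000000000000000000000000000000) (nat_lit 0x0) (nat_lit 0x20000c00000000000900048000000000000000000000) := T_5 (nat_lit 90) (nat_lit 107) (nat_lit 5) (nat_lit 5) (nat_lit 5) L41628 (by decide +kernel)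
theorem L41630 : W_5 (nat_lit 5) (nat_lit 0x2000130013c0082000000000000000000000000000000) (nat_lit 0x0) (nat_lit 0x20000c00000030000900048000000000000000000000) := T_5 (nat_lit 124) (nat_lit 125) (nat_lit 2) (nat_lit 2) (nat_lit 8) L41629 (by decide +kernel)
theorem L41631 : W_5 (nat_lit 2) (nat_lit 0x20001b8013c0092000380040000000000000000000000) (nat_lit 0x0) (nat_lit 0x8000400020000000000000000000000) := D_5 (nat_lit 106) (nat_lit 89) (nat_lit 123) (nat_lit 2) (nat_lit 1) (nat_lit 6) (nat_lit 3) (nat_lit 1) (nat_lit 6) (by decide +kernel)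
theorem L41632 : W_5 (nat_lit 3) (nat_lit 0x20001b8013c0092000300040000000000000000000000) (nat_lit 0x0) (nat_lit 0x8000480024000000000000000000000) := T_5 (nat_lit 103) (nat_lit 86) (nat_lit 4) (nat_lit 2) (nat_lit 9) L41631 (by decide +kernel)
theorem L41633 : W_5 (nat_lit 4) (nat_lit 0x20001b8013c0092000100040000000000000000000000) (nat_lit 0x0) (nat_lit 0x8000680034000000000000000000000) := T_5 (nat_lit 105) (nat_lit 88) (nat_lit 6) (nat_lit 2) (nat_lit 9) L41632 (by decide +kernel)
theorem L41634 : W_5 (nat_lit 5) (nat_lit 0x20001b8013c0092000100000000000000000000000000) (nat_lit 0x0) (nat_lit 0x8000e80074000000000000000000000) := T_5 (nat_lit 90) (nat_lit 107) (nat_lit 5) (nat_lit 5) (nat_lit 5) L41633 (by decide +kernel)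
theorem L41635 : W_5 (nat_lit 6) (nat_lit 0x20001b8013c0082000100000000000000000000000000) (nat_lit 0x0) (nat_lit 0x38000e80074000000000000000000000) := T_5 (nat_lit 124) (nat_lit 125) (nat_lit 2) (nat_lit 2) (nat_lit 8) L41634 (by decide +kernel)
theorem L41636 : W_5 (nat_lit 7) (nat_lit 0x20001b8013c0082000000000000000000000000000000) (nat_lit 0x0) (nat_lit 0x38000f8007c000000000000000000000) := T_5 (nat_lit 104) (nat_lit 87) (nat_lit 7) (nat_lit 2) (nat_lit 5) L41635 (by decide +kernel)
theorem L41637 : W_5 (nat_lit 8) (nat_lit 0x2000138013c0082000000000000000000000000000000) (nat_lit 0x0) (nat_lit 0xc000000038000f8007c000000000000000000000) := T_5 (nat_lit 159) (nat_lit 158) (nat_lit 3) (nat_lit 2) (nat_lit 8) L41636 (by decide +kernel)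
theorem L41638 : W_5 (nat_lit 9) (nat_lit 0x2000130013c0082000000000000000000000000000000) (nat_lit 0x0) (nat_lit 0xcc00000038000f8007c000000000000000000000) := T_5 (nat_lit 155) (nat_lit 154) (nat_lit 2) (nat_lit 1) (nat_lit 9) L41637 (by decide +kernel)
theorem L41639 : W_5 (nat_lit 2) (nat_lit 0x2200170013c0092000800000000000000000000000000) (nat_lit 0x0) (nat_lit 0x8000400020000000000000000000000) := D_5 (nat_lit 106) (nat_lit 89) (nat_lit 123) (nat_lit 4) (nat_lit 5) (nat_lit 9) (nat_lit 5) (nat_lit 4) (nat_lit 6) (by decide +kernel)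
theorem L41640 : W_5 (nat_lit 3) (nat_lit 0x2200130013c0092000800000000000000000000000000) (nat_lit 0x0) (nat_lit 0xc000000008000400020000000000000000000000) := T_5 (nat_lit 158) (nat_lit 159) (nat_lit 3) (nat_lit 2) (nat_lit 8) L41639 (by decide +kernel)
theorem L41641 : W_5 (nat_lit 4) (nat_lit 0x2000130013c0092000800000000000000000000000000) (nat_lit 0x0) (nat_lit 0x40002000c000000008000400020000000000000000000000) := T_5 (nat_lit 173) (nat_lit 190) (nat_lit 4) (nat_lit 3) (nat_lit 11) L41640 (by decide +kernel)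
theorem L41642 : W_5 (nat_lit 5) (nat_lit 0x2000130013c0092000000000000000000000000000000) (nat_lit 0x0) (nat_lit 0x40002000c000000008000c00060000000000000000000000) := T_5 (nat_lit 107) (nat_lit 90) (nat_lit 5) (nat_lit 5) (nat_lit 5) L41641 (by decide +kernel)
theorem L41643 : W_5 (nat_lit 6) (nat_lit 0x2000130013c0082000000000000000000000000000000) (nat_lit 0x0) (nat_lit 0x40002000c000000038000c00060000000000000000000000) := T_5 (nat_lit 124) (nat_lit 125) (nat_lit 2) (nat_lit 2) (nat_lit 8) L41642 (by decide +kernel)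
theorem L41644 : W_5 (nat_lit 11) (nat_lit 0x2000120013c0082000000000000000000000000000000) (nat_lit 0x0) (nat_lit 0x40002000dc00000038003f8007c000000000000000000000) := Q_5 (nat_lit 156) (C_5 L41622 (C_5 L41626 (C_5 L41630 (C_5 L41638 (C_5 L41643 N_5))))) (by decide +kernel)
theorem L41645 : W_5 (nat_lit 12) (nat_lit 0x2000120013c0080000000000000000000000000000000) (nat_lit 0x0) (nat_lit 0x40002000dc0000003b003f8007c000000000000000000000) := T_5 (nat_lit 121) (nat_lit 120) (nat_lit 0) (nat_lit 5) (nat_lit 8) L41644 (by decide +kernel)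
theorem L41646 : W_5 (nat_lit 13) (nat_lit 0x2000100013c0080000000000000000000000000000000) (nat_lit 0x0) (nat_lit 0x100008000d0007800fc0000003b003f8007c000a00000000000000000) := Q_5 (nat_lit 157) (C_5 L41220 (C_5 L41547 (C_5 L41614 (C_5 L41645 (C_5 L41157 N_5))))) (by decide +kernel)
theorem L41647 : W_5 (nat_lit 14) (nat_lit 0x200010001380080000000000000000000000000000000) (nat_lit 0x0) (nat_lit 0x100008000d0007800fe0006003b803f8007c000a00000000000000000) := Q_5 (nat_lit 138) (C_5 L41405 (C_5 L41510 (C_5 L41646 N_5))) (by decide +kernel)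
theorem L41648 : W_5 (nat_lit 2) (nat_lit 0x2000160013c0096001800000000000000000000000000) (nat_lit 0x0) (nat_lit 0x600020000000000000000000000) := D_5 (nat_lit 106) (nat_lit 105) (nat_lit 89) (nat_lit 1) (nat_lit 6) (nat_lit 6) (nat_lit 4) (nat_lit 5) (nat_lit 9) (by decide +kernel)
theorem L41649 : W_5 (nat_lit 3) (nat_lit 0x2000160013c0092001800000000000000000000000000) (nat_lit 0x0) (nat_lit 0xc000600020000000000000000000000) := T_5 (nat_lit 122) (nat_lit 123) (nat_lit 2) (nat_lit 2) (nat_lit 7) L41648 (by decide +kernel)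
theorem L41650 : W_5 (nat_lit 4) (nat_lit 0x2000160013c0092000800000000000000000000000000) (nat_lit 0x0) (nat_lit 0xc0016000a0000000000000000000000) := T_5 (nat_lit 108) (nat_lit 91) (nat_lit 6) (nat_lit 5) (nat_lit 9) L41649 (by decide +kernel)
theorem L41651 : W_5 (nat_lit 5) (nat_lit 0x2000160013c0090000800000000000000000000000000) (nat_lit 0x0) (nat_lit 0xf0016000a0000000000000000000000) := T_5 (nat_lit 121) (nat_lit 120) (nat_lit 0) (nat_lit 5) (nat_lit 8) L41650 (by decide +kernel)
theorem L41652 : W_5 (nat_lit 6) (nat_lit 0x2000160013c0090000000000000000000000000000000) (nat_lit 0x0) (nat_lit 0xf001e000e0000000000000000000000) := T_5 (nat_lit 107) (nat_lit 90) (nat_lit 5) (nat_lit 5) (nat_lit 5) L41651 (by decide +kernel)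
theorem L41653 : W_5 (nat_lit 7) (nat_lit 0x2000160013c0080000000000000000000000000000000) (nat_lit 0x0) (nat_lit 0x3f001e000e0000000000000000000000) := T_5 (nat_lit 124) (nat_lit 125) (nat_lit 2) (nat_lit 2) (nat_lit 8) L41652 (by decide +kernel)
theorem L41654 : W_5 (nat_lit 8) (nat_lit 0x2000120013c0080000000000000000000000000000000) (nat_lit 0x0) (nat_lit 0xc00000003f001e000e0000000000000000000000) := T_5 (nat_lit 158) (nat_lit 159) (nat_lit 3) (nat_lit 2) (nat_lit 8) L41653 (by decide +kernel)
theorem L41655 : W_5 (nat_lit 9) (nat_lit 0x2000100013c0080000000000000000000000000000000) (nat_lit 0x0) (nat_lit 0xb0007800ec0000003f001e000f0000000000000000000000) := Q_5 (nat_lit 157) (C_5 L41614 (C_5 L41220 (C_5 L41556 (C_5 L41654 N_5)))) (by decide +kernel)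
theorem L41656 : W_5 (nat_lit 10) (nat_lit 0x200010001380080000000000000000000000000000000) (nat_lit 0x0) (nat_lit 0xb0007800ee0006003f801e000f0000000000000000000000) := Q_5 (nat_lit 138) (C_5 L41405 (C_5 L41510 (C_5 L41655 N_5))) (by decide +kernel)
theorem L41657 : W_5 (nat_lit 2) (nat_lit 0x2400120013c0092000000000000000000000000000000) (nat_lit 0x0) (nat_lit 0x8000800040000000000000000000000) := D_5 (nat_lit 107) (nat_lit 90) (nat_lit 123) (nat_lit 5) (nat_lit 5) (nat_lit 5) (nat_lit 6) (nat_lit 4) (nat_lit 10) (by decide +kernel)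
theorem L41658 : W_5 (nat_lit 3) (nat_lit 0x2000120013c0092000000000000000000000000000000) (nat_lit 0x0) (nat_lit 0x800040000000000008000800040000000000000000000000) := T_5 (nat_lit 174) (nat_lit 191) (nat_lit 6) (nat_lit 4) (nat_lit 11) L41657 (by decide +kernel)
theorem L41659 : W_5 (nat_lit 4) (nat_lit 0x2000120013c0082000000000000000000000000000000) (nat_lit 0x0) (nat_lit 0x800040000000000038000800040000000000000000000000) := T_5 (nat_lit 124) (nat_lit 125) (nat_lit 2) (nat_lit 2) (nat_lit 8) L41658 (by decide +kernel)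
theorem L41660 : W_5 (nat_lit 5) (nat_lit 0x2000120013c0080000000000000000000000000000000) (nat_lit 0x0) (nat_lit 0x80004000000000003b000800040000000000000000000000) := T_5 (nat_lit 121) (nat_lit 120) (nat_lit 0) (nat_lit 5) (nat_lit 8) L41659 (by decide +kernel)
theorem L41661 : W_5 (nat_lit 2) (nat_lit 0x2000160013c0090000000000000000000000000000000) (nat_lit 0x0) (nat_lit 0x800040000000000000000800000000000000000000000000) := D_5 (nat_lit 174) (nat_lit 191) (nat_lit 107) (nat_lit 6) (nat_lit 4) (nat_lit 11) (nat_lit 5) (nat_lit 5) (nat_lit 6) (by decide +kernel)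
theorem L41662 : W_5 (nat_lit 3) (nat_lit 0x2000160013c0080000000000000000000000000000000) (nat_lit 0x0) (nat_lit 0x800040000000000030000800000000000000000000000000) := T_5 (nat_lit 124) (nat_lit 125) (nat_lit 2) (nat_lit 2) (nat_lit 8) L41661 (by decide +kernel)
theorem L41663 : W_5 (nat_lit 4) (nat_lit 0x2000120013c0080000000000000000000000000000000) (nat_lit 0x0) (nat_lit 0x80004000c000000030000800000000000000000000000000) := T_5 (nat_lit 158) (nat_lit 159) (nat_lit 3) (nat_lit 2) (nat_lit 8) L41662 (by decide +kernel)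
theorem L41664 : W_5 (nat_lit 10) (nat_lit 0x2000100013c0080000000000000000000000000000000) (nat_lit 0x0) (nat_lit 0x100018000e0007800f00000003f001f000f0000000000000000000000) := Q_5 (nat_lit 157) (C_5 L41157 (C_5 L41654 (C_5 L41660 (C_5 L41607 (C_5 L41663 N_5))))) (by decide +kernel)
theorem L41665 : W_5 (nat_lit 2) (nat_lit 0x2000100013e0090000000000000000000000000000000) (nat_lit 0x0) (nat_lit 0xe000000000000000000000000000000000000000) := D_5 (nat_lit 158) (nat_lit 157) (nat_lit 159) (nat_lit 3) (nat_lit 1) (nat_lit 8) (nat_lit 3) (nat_lit 2) (nat_lit 8) (by decide +kernel)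
theorem L41666 : W_5 (nat_lit 3) (nat_lit 0x2000100013c0090000000000000000000000000000000) (nat_lit 0x0) (nat_lit 0xe000020008000000000000000000000000000000) := T_5 (nat_lit 137) (nat_lit 123) (nat_lit 2) (nat_lit 1) (nat_lit 8) L41665 (by decide +kernel)
theorem L41667 : W_5 (nat_lit 4) (nat_lit 0x2000100013c0080000000000000000000000000000000) (nat_lit 0x0) (nat_lit 0xe000020038000000000000000000000000000000) := T_5 (nat_lit 124) (nat_lit 125) (nat_lit 2) (nat_lit 2) (nat_lit 8) L41666 (by decide +kernel)
theorem L41668 : W_5 (nat_lit 11) (nat_lit 0x200010001380080000000000000000000000000000000) (nat_lit 0x0) (nat_lit 0x100018000e0007800f00006003f801f000f0000000000000000000000) := Q_5 (nat_lit 138) (C_5 L41405 (C_5 L41458 (C_5 L41664 (C_5 L41667 N_5)))) (by decide +kernel)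
theorem L41669 : W_5 (nat_lit 2) (nat_lit 0x2100168013c0094003c00100000000000000000000000) (nat_lit 0x0) (nat_lit 0x1000000000000200010000000000000000000000) := D_5 (nat_lit 105) (nat_lit 88) (nat_lit 156) (nat_lit 7) (nat_lit 3) (nat_lit 5) (nat_lit 5) (nat_lit 3) (nat_lit 6) (by decide +kernel)
theorem L41670 : W_5 (nat_lit 3) (nat_lit 0x2000168013c0094003c00100000000000000000000000) (nat_lit 0x0) (nat_lit 0x200010001000000000000200010000000000000000000000) := T_5 (nat_lit 172) (nat_lit 189) (nat_lit 6) (nat_lit 2) (nat_lit 11) L41669 (by decide +kernel)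
theorem L41671 : W_5 (nat_lit 4) (nat_lit 0x2000168013c0094003c00000000000000000000000000) (nat_lit 0x0) (nat_lit 0x200010001000000000000200310000000000000000000000) := T_5 (nat_lit 92) (nat_lit 93) (nat_lit 2) (nat_lit 4) (nat_lit 6) L41670 (by decide +kernel)
theorem L41672 : W_5 (nat_lit 5) (nat_lit 0x2000168013c0090003c00000000000000000000000000) (nat_lit 0x0) (nat_lit 0x20001000100000000c000200310000000000000000000000) := T_5 (nat_lit 122) (nat_lit 123) (nat_lit 1) (nat_lit 7) (nat_lit 6) L41671 (by decide +kernel)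
theorem L41673 : W_5 (nat_lit 6) (nat_lit 0x2000168013c0090001c00000000000000000000000000) (nat_lit 0x0) (nat_lit 0x20001000100000004c002200310000000000000000000000) := T_5 (nat_lit 109) (nat_lit 126) (nat_lit 3) (nat_lit 4) (nat_lit 6) L41672 (by decide +kernel)
theorem L41674 : W_5 (nat_lit 7) (nat_lit 0x2000168013c0090001800000000000000000000000000) (nat_lit 0x0) (nat_lit 0x20001000100000004c002600330000000000000000000000) := T_5 (nat_lit 106) (nat_lit 89) (nat_lit 4) (nat_lit 5) (nat_lit 9) L41673 (by decide +kernel)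
theorem L41675 : W_5 (nat_lit 8) (nat_lit 0x2000168013c0090000800000000000000000000000000) (nat_lit 0x0) (nat_lit 0x20001000100000004c0036003b0000000000000000000000) := T_5 (nat_lit 108) (nat_lit 91) (nat_lit 6) (nat_lit 5) (nat_lit 9) L41674 (by decide +kernel)
theorem L41676 : W_5 (nat_lit 9) (nat_lit 0x2000160013c0090000800000000000000000000000000) (nat_lit 0x0) (nat_lit 0x200010001c0000004c0036003b0000000000000000000000) := T_5 (nat_lit 155) (nat_lit 154) (nat_lit 1) (nat_lit 5) (nat_lit 8) L41675 (by decide +kernel)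
theorem L41677 : W_5 (nat_lit 10) (nat_lit 0x2000160013c0090000000000000000000000000000000) (nat_lit 0x0) (nat_lit 0x200010001c0000004c003e003f0000000000000000000000) := T_5 (nat_lit 107) (nat_lit 90) (nat_lit 5) (nat_lit 5) (nat_lit 5) L41676 (by decide +kernel)
theorem L41678 : W_5 (nat_lit 11) (nat_lit 0x2000160013c0080000000000000000000000000000000) (nat_lit 0x0) (nat_lit 0x200010001c0000007c003e003f0000000000000000000000) := T_5 (nat_lit 124) (nat_lit 125) (nat_lit 2) (nat_lit 2) (nat_lit 8) L41677 (by decide +kernel)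
theorem L41679 : W_5 (nat_lit 12) (nat_lit 0x2000120013c0080000000000000000000000000000000) (nat_lit 0x0) (nat_lit 0x20001000dc0000007c003e003f0000000000000000000000) := T_5 (nat_lit 158) (nat_lit 159) (nat_lit 3) (nat_lit 2) (nat_lit 8) L41678 (by decide +kernel)
theorem L41680 : W_5 (nat_lit 13) (nat_lit 0x2000100013c0080000000000000000000000000000000) (nat_lit 0x0) (nat_lit 0xa0007800fc0000007c003e003f0000000000000000000000) := Q_5 (nat_lit 157) (C_5 L41614 (C_5 L41663 (C_5 L41599 (C_5 L41679 N_5)))) (by decide +kernel)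
theorem L41681 : W_5 (nat_lit 14) (nat_lit 0x200010001380080000000000000000000000000000000) (nat_lit 0x0) (nat_lit 0xa0007800fe0006007c003e003f0000000000000000000000) := Q_5 (nat_lit 138) (C_5 L41229 (C_5 L41510 (C_5 L41667 (C_5 L41680 N_5)))) (by decide +kernel)
theorem L41682 : W_5 (nat_lit 13) (nat_lit 0x2000100013c0080000000000000000000000000000000) (nat_lit 0x0) (nat_lit 0xb0005800fc0000007f003e003f0000000000000000000000) := Q_5 (nat_lit 157) (C_5 L41660 (C_5 L41679 (C_5 L41663 (C_5 L41393 N_5)))) (by decide +kernel)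
theorem L41683 : W_5 (nat_lit 14) (nat_lit 0x200010001380080000000000000000000000000000000) (nat_lit 0x0) (nat_lit 0xb0005800fe0006007f803e003f0000000000000000000000) := Q_5 (nat_lit 138) (C_5 L41405 (C_5 L41510 (C_5 L41667 (C_5 L41682 N_5)))) (by decide +kernel)
theorem L41684 : W_5 (nat_lit 7) (nat_lit 0x2000100013c0080000000000000000000000000000000) (nat_lit 0x0) (nat_lit 0x4000e0007800fc0000003f000900048000000000000000000000) := Q_5 (nat_lit 157) (C_5 L41660 (C_5 L41663 (C_5 L41248 N_5))) (by decide +kernel)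
theorem L41685 : W_5 (nat_lit 8) (nat_lit 0x200010001380080000000000000000000000000000000) (nat_lit 0x0) (nat_lit 0x4000e0007800fe0006003f800900048000000000000000000000) := Q_5 (nat_lit 138) (C_5 L41405 (C_5 L41510 (C_5 L41667 (C_5 L41684 N_5)))) (by decide +kernel)
theorem L41686 : W_5 (nat_lit 9) (nat_lit 0x2000100013c0080000000000000000000000000000000) (nat_lit 0x0) (nat_lit 0x100018000c0006000fc0000003f001f000f8000000000000000000000) := Q_5 (nat_lit 157) (C_5 L41660 (C_5 L41663 (C_5 L41608 (C_5 L41654 N_5)))) (by decide +kernel)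
theorem L41687 : W_5 (nat_lit 10) (nat_lit 0x200010001380080000000000000000000000000000000) (nat_lit 0x0) (nat_lit 0x100018000c0006000fe0006003f801f000f8000000000000000000000) := Q_5 (nat_lit 138) (C_5 L41405 (C_5 L41510 (C_5 L41667 (C_5 L41686 N_5)))) (by decide +kernel)
theorem L41688 : W_5 (nat_lit 15) (nat_lit 0x200010001300080000000000000000000000000000000) (nat_lit 0x0) (nat_lit 0x10003c003f8017c02fe008f037f83bfc03fe01fe001e0007000000000) := Q_5 (nat_lit 139) (C_5 L41133 (C_5 L41230 (C_5 L41406 (C_5 L41463 (C_5 L41511 (C_5 L41610 (C_5 L41647 (C_5 L41656 (C_5 L41668 (C_5 L41681 (C_5 L41683 (C_5 L41685 (C_5 L41687 N_5))))))))))))) (by decide +kernel)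
theorem L41689 : W_5 (nat_lit 2) (nat_lit 0x2000160013000d0000c00000000000000000000000000) (nat_lit 0x0) (nat_lit 0x3000080000000000000000000000) := D_5 (nat_lit 108) (nat_lit 109) (nat_lit 91) (nat_lit 3) (nat_lit 4) (nat_lit 6) (nat_lit 6) (nat_lit 5) (nat_lit 9) (by decide +kernel)
theorem L41690 : W_5 (nat_lit 3) (nat_lit 0x2000160013000d0000800000000000000000000000000) (nat_lit 0x0) (nat_lit 0x34000a0000000000000000000000) := T_5 (nat_lit 106) (nat_lit 89) (nat_lit 4) (nat_lit 5) (nat_lit 9) L41689 (by decide +kernel)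
theorem L41691 : W_5 (nat_lit 4) (nat_lit 0x2000160013000d0000000000000000000000000000000) (nat_lit 0x0) (nat_lit 0x3c000e0000000000000000000000) := T_5 (nat_lit 107) (nat_lit 90) (nat_lit 5) (nat_lit 5) (nat_lit 5) L41690 (by decide +kernel)
theorem L41692 : W_5 (nat_lit 5) (nat_lit 0x200016001300090000000000000000000000000000000) (nat_lit 0x0) (nat_lit 0x60003c000e0000000000000000000000) := T_5 (nat_lit 126) (nat_lit 125) (nat_lit 1) (nat_lit 8) (nat_lit 7) L41691 (by decide +kernel)
theorem L41693 : W_5 (nat_lit 2) (nat_lit 0x2800160013400b0000000040000000000000000000000) (nat_lit 0x0) (nat_lit 0x20001000000000000000008000000000000000000000000000000) := D_5 (nat_lit 192) (nat_lit 123) (nat_lit 209) (nat_lit 4) (nat_lit 5) (nat_lit 11) (nat_lit 4) (nat_lit 5) (nat_lit 12) (by decide +kernel)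
theorem L41694 : W_5 (nat_lit 3) (nat_lit 0x2000160013400b0000000040000000000000000000000) (nat_lit 0x0) (nat_lit 0x20001000080000000000008001000000000000000000000000000) := T_5 (nat_lit 175) (nat_lit 108) (nat_lit 6) (nat_lit 5) (nat_lit 10) L41693 (by decide +kernel)
theorem L41695 : W_5 (nat_lit 4) (nat_lit 0x2000160013000b0000000040000000000000000000000) (nat_lit 0x0) (nat_lit 0x200010000800000000c0008001000000000000000000000000000) := T_5 (nat_lit 138) (nat_lit 139) (nat_lit 2) (nat_lit 2) (nat_lit 8) L41694 (by decide +kernel)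
theorem L41696 : W_5 (nat_lit 5) (nat_lit 0x200016001300090000000040000000000000000000000) (nat_lit 0x0) (nat_lit 0x200010000800000000c0068001000000000000000000000000000) := T_5 (nat_lit 125) (nat_lit 126) (nat_lit 1) (nat_lit 8) (nat_lit 7) L41695 (by decide +kernel)
theorem L41697 : W_5 (nat_lit 6) (nat_lit 0x200016001300090000000000000000000000000000000) (nat_lit 0x0) (nat_lit 0x200010000800000000c0068001800040000000000000000000000) := T_5 (nat_lit 90) (nat_lit 107) (nat_lit 5) (nat_lit 5) (nat_lit 5) L41696 (by decide +kernel)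
theorem L41698 : W_5 (nat_lit 2) (nat_lit 0x200016001300098001c00000000000000000000000000) (nat_lit 0x0) (nat_lit 0x6002000000000000000000000000000) := D_5 (nat_lit 122) (nat_lit 121) (nat_lit 109) (nat_lit 2) (nat_lit 2) (nat_lit 7) (nat_lit 1) (nat_lit 7) (nat_lit 6) (by decide +kernel)
theorem L41699 : W_5 (nat_lit 3) (nat_lit 0x200016001300098000c00000000000000000000000000) (nat_lit 0x0) (nat_lit 0x6003000080000000000000000000000) := T_5 (nat_lit 108) (nat_lit 91) (nat_lit 6) (nat_lit 5) (nat_lit 9) L41698 (by decide +kernel)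
theorem L41700 : W_5 (nat_lit 4) (nat_lit 0x200016001300090000c00000000000000000000000000) (nat_lit 0x0) (nat_lit 0x8000000000000e003000080000000000000000000000) := T_5 (nat_lit 123) (nat_lit 175) (nat_lit 7) (nat_lit 4) (nat_lit 6) L41699 (by decide +kernel)
theorem L41701 : W_5 (nat_lit 5) (nat_lit 0x200016001300090000800000000000000000000000000) (nat_lit 0x0) (nat_lit 0x8000000000000e0034000a0000000000000000000000) := T_5 (nat_lit 106) (nat_lit 89) (nat_lit 4) (nat_lit 5) (nat_lit 9) L41700 (by decide +kernel)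
theorem L41702 : W_5 (nat_lit 6) (nat_lit 0x200016001300090000000000000000000000000000000) (nat_lit 0x0) (nat_lit 0x8000000000000e003c000e0000000000000000000000) := T_5 (nat_lit 107) (nat_lit 90) (nat_lit 5) (nat_lit 5) (nat_lit 5) L41701 (by decide +kernel)
theorem L41703 : W_5 (nat_lit 2) (nat_lit 0x2000174013000da000f00008000000000000000000000) (nat_lit 0x0) (nat_lit 0xc0004000000000000000000000000000000) := D_5 (nat_lit 139) (nat_lit 122) (nat_lit 138) (nat_lit 4) (nat_lit 3) (nat_lit 9) (nat_lit 7) (nat_lit 2) (nat_lit 5) (by decide +kernel)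
theorem L41704 : W_5 (nat_lit 3) (nat_lit 0x2000174013000d8000f00008000000000000000000000) (nat_lit 0x0) (nat_lit 0xc0007000000000000000000000000000000) := T_5 (nat_lit 121) (nat_lit 120) (nat_lit 1) (nat_lit 5) (nat_lit 6) L41703 (by decide +kernel)
theorem L41705 : W_5 (nat_lit 4) (nat_lit 0x2000174013000d8000f00000000000000000000000000) (nat_lit 0x0) (nat_lit 0xc000700000000c000000000000000000000) := T_5 (nat_lit 87) (nat_lit 86) (nat_lit 0) (nat_lit 5) (nat_lit 6) L41704 (by decide +kernel)
theorem L41706 : W_5 (nat_lit 5) (nat_lit 0x2000174013000d8000e00000000000000000000000000) (nat_lit 0x0) (nat_lit 0xc000700018000c000000000000000000000) := T_5 (nat_lit 104) (nat_lit 103) (nat_lit 3) (nat_lit 1) (nat_lit 6) L41705 (by decide +kernel)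
theorem L41707 : W_5 (nat_lit 6) (nat_lit 0x2000174013000d8000c00000000000000000000000000) (nat_lit 0x0) (nat_lit 0xc000700038001c000000000000000000000) := T_5 (nat_lit 105) (nat_lit 88) (nat_lit 4) (nat_lit 4) (nat_lit 9) L41706 (by decide +kernel)
theorem L41708 : W_5 (nat_lit 7) (nat_lit 0x2000170013000d8000c00000000000000000000000000) (nat_lit 0x0) (nat_lit 0xc000c000700038001c000000000000000000000) := T_5 (nat_lit 154) (nat_lit 155) (nat_lit 2) (nat_lit 1) (nat_lit 9) L41707 (by decide +kernel)
theorem L41709 : W_5 (nat_lit 8) (nat_lit 0x2000160013000d8000c00000000000000000000000000) (nat_lit 0x0) (nat_lit 0x20001c000c000700038001c000000000000000000000) := T_5 (nat_lit 156) (nat_lit 173) (nat_lit 5) (nat_lit 4) (nat_lit 6) L41708 (by decide +kernel)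
theorem L41710 : W_5 (nat_lit 9) (nat_lit 0x2000160013000d0000c00000000000000000000000000) (nat_lit 0x0) (nat_lit 0xa0001c000c000f00038001c000000000000000000000) := T_5 (nat_lit 123) (nat_lit 175) (nat_lit 7) (nat_lit 4) (nat_lit 6) L41709 (by decide +kernel)
theorem L41711 : W_5 (nat_lit 10) (nat_lit 0x2000160013000d0000800000000000000000000000000) (nat_lit 0x0) (nat_lit 0xa0001c000c000f00078003c000000000000000000000) := T_5 (nat_lit 106) (nat_lit 89) (nat_lit 4) (nat_lit 5) (nat_lit 9) L41710 (by decide +kernel)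
theorem L41712 : W_5 (nat_lit 11) (nat_lit 0x2000160013000d0000000000000000000000000000000) (nat_lit 0x0) (nat_lit 0xa0001c000c000f000f8007c000000000000000000000) := T_5 (nat_lit 107) (nat_lit 90) (nat_lit 5) (nat_lit 5) (nat_lit 5) L41711 (by decide +kernel)
theorem L41713 : W_5 (nat_lit 12) (nat_lit 0x200016001300090000000000000000000000000000000) (nat_lit 0x0) (nat_lit 0xa0001c000c006f000f8007c000000000000000000000) := T_5 (nat_lit 126) (nat_lit 125) (nat_lit 1) (nat_lit 8) (nat_lit 7) L41712 (by decide +kernel)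
theorem L41714 : W_5 (nat_lit 13) (nat_lit 0x200012001300090000000000000000000000000000000) (nat_lit 0x0) (nat_lit 0x200010000a0005c000c006f003f800fc000000000000000000000) := Q_5 (nat_lit 158) (C_5 L41692 (C_5 L41697 (C_5 L41702 (C_5 L40515 (C_5 L41713 N_5))))) (by decide +kernel)
theorem L41715 : W_5 (nat_lit 2) (nat_lit 0x200012001300090000800000000000000000000000000) (nat_lit 0x0) (nat_lit 0x800040000000000008000000000000000000000000000000) := D_5 (nat_lit 174) (nat_lit 191) (nat_lit 123) (nat_lit 6) (nat_lit 4) (nat_lit 11) (nat_lit 6) (nat_lit 4) (nat_lit 10) (by decide +kernel)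
theorem L41716 : W_5 (nat_lit 3) (nat_lit 0x200012001300090000000000000000000000000000000) (nat_lit 0x0) (nat_lit 0x800040000000000008000800040000000000000000000000) := T_5 (nat_lit 107) (nat_lit 90) (nat_lit 5) (nat_lit 5) (nat_lit 5) L41715 (by decide +kernel)
theorem L41717 : W_5 (nat_lit 2) (nat_lit 0x240012001300090000000000000000000000000000000) (nat_lit 0x0) (nat_lit 0x4000000000000800040000000000000000000000) := D_5 (nat_lit 107) (nat_lit 90) (nat_lit 158) (nat_lit 5) (nat_lit 5) (nat_lit 5) (nat_lit 5) (nat_lit 5) (nat_lit 6) (by decide +kernel)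
theorem L41718 : W_5 (nat_lit 3) (nat_lit 0x200012001300090000000000000000000000000000000) (nat_lit 0x0) (nat_lit 0x800040004000000000000800040000000000000000000000) := T_5 (nat_lit 174) (nat_lit 191) (nat_lit 6) (nat_lit 4) (nat_lit 11) L41717 (by decide +kernel)
theorem L41719 : W_5 (nat_lit 2) (nat_lit 0x8002800160013400b0000000000000000000000000000000) (nat_lit 0x0) (nat_lit 0x30001000000000000000000000000000000000000000000000000) := D_5 (nat_lit 192) (nat_lit 209) (nat_lit 208) (nat_lit 4) (nat_lit 5) (nat_lit 12) (nat_lit 5) (nat_lit 5) (nat_lit 8) (by decide +kernel)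
theorem L41720 : W_5 (nat_lit 3) (nat_lit 0x8002800120013400b0000000000000000000000000000000) (nat_lit 0x0) (nat_lit 0x30001000000004000000000001000000000000000000000000000) := T_5 (nat_lit 158) (nat_lit 108) (nat_lit 6) (nat_lit 5) (nat_lit 10) L41719 (by decide +kernel)
theorem L41721 : W_5 (nat_lit 4) (nat_lit 0x8002800120013000b0000000000000000000000000000000) (nat_lit 0x0) (nat_lit 0x300010000000040000c0000001000000000000000000000000000) := T_5 (nat_lit 138) (nat_lit 139) (nat_lit 2) (nat_lit 2) (nat_lit 8) L41720 (by decide +kernel)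
theorem L41722 : W_5 (nat_lit 5) (nat_lit 0x800280012001300090000000000000000000000000000000) (nat_lit 0x0) (nat_lit 0x300010000000040000c0060001000000000000000000000000000) := T_5 (nat_lit 125) (nat_lit 126) (nat_lit 1) (nat_lit 8) (nat_lit 7) L41721 (by decide +kernel)
theorem L41723 : W_5 (nat_lit 6) (nat_lit 0x280012001300090000000000000000000000000000000) (nat_lit 0x0) (nat_lit 0x300018000400040000c0060001000000000000000000000000000) := T_5 (nat_lit 191) (nat_lit 174) (nat_lit 6) (nat_lit 4) (nat_lit 11) L41722 (by decide +kernel)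
theorem L41724 : W_5 (nat_lit 2) (nat_lit 0x2002f001680130009d000000000000000000000000000000) (nat_lit 0x0) (nat_lit 0x10000c0000000000000000000000000000000000) := D_5 (nat_lit 139) (nat_lit 156) (nat_lit 138) (nat_lit 5) (nat_lit 3) (nat_lit 7) (nat_lit 6) (nat_lit 2) (nat_lit 11) (by decide +kernel)
theorem L41725 : W_5 (nat_lit 3) (nat_lit 0x2f001680130009d000000000000000000000000000000) (nat_lit 0x0) (nat_lit 0x3000000010000c0000000000000000000000000000000000) := T_5 (nat_lit 189) (nat_lit 188) (nat_lit 1) (nat_lit 5) (nat_lit 10) L41724 (by decide +kernel)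
theorem L41726 : W_5 (nat_lit 4) (nat_lit 0x2f001600130009d000000000000000000000000000000) (nat_lit 0x0) (nat_lit 0x300000001c000c0000000000000000000000000000000000) := T_5 (nat_lit 155) (nat_lit 154) (nat_lit 0) (nat_lit 5) (nat_lit 10) L41725 (by decide +kernel)
theorem L41727 : W_5 (nat_lit 5) (nat_lit 0x2e001600130009d000000000000000000000000000000) (nat_lit 0x0) (nat_lit 0x300018001c000c0000000000000000000000000000000000) := T_5 (nat_lit 172) (nat_lit 171) (nat_lit 2) (nat_lit 1) (nat_lit 10) L41726 (by decide +kernel)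
theorem L41728 : W_5 (nat_lit 6) (nat_lit 0x2c001600130009d000000000000000000000000000000) (nat_lit 0x0) (nat_lit 0x700038001c000c0000000000000000000000000000000000) := T_5 (nat_lit 173) (nat_lit 190) (nat_lit 5) (nat_lit 4) (nat_lit 7) L41727 (by decide +kernel)
theorem L41729 : W_5 (nat_lit 7) (nat_lit 0x2c001600130009c000000000000000000000000000000) (nat_lit 0x0) (nat_lit 0x700038001c000c0003000000000000000000000000000000) := T_5 (nat_lit 120) (nat_lit 121) (nat_lit 3) (nat_lit 1) (nat_lit 7) L41728 (by decide +kernel)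
theorem L41730 : W_5 (nat_lit 8) (nat_lit 0x2c0016001300098000000000000000000000000000000) (nat_lit 0x0) (nat_lit 0x700038001c000c0007000200000000000000000000000000) := T_5 (nat_lit 122) (nat_lit 105) (nat_lit 4) (nat_lit 4) (nat_lit 10) L41729 (by decide +kernel)
theorem L41731 : W_5 (nat_lit 9) (nat_lit 0x2c0012001300098000000000000000000000000000000) (nat_lit 0x0) (nat_lit 0x700038005c000c0007000600000000000000000000000000) := T_5 (nat_lit 158) (nat_lit 106) (nat_lit 7) (nat_lit 4) (nat_lit 6) L41730 (by decide +kernel)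
theorem L41732 : W_5 (nat_lit 10) (nat_lit 0x2c0012001300090000000000000000000000000000000) (nat_lit 0x0) (nat_lit 0x1700038005c000c000f000600000000000000000000000000) := T_5 (nat_lit 123) (nat_lit 192) (nat_lit 7) (nat_lit 4) (nat_lit 7) L41731 (by decide +kernel)
theorem L41733 : W_5 (nat_lit 11) (nat_lit 0x280012001300090000000000000000000000000000000) (nat_lit 0x0) (nat_lit 0x1f00078005c000c000f000600000000000000000000000000) := T_5 (nat_lit 174) (nat_lit 191) (nat_lit 6) (nat_lit 4) (nat_lit 11) L41732 (by decide +kernel)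
theorem L41734 : W_5 (nat_lit 2) (nat_lit 0x2e00130013400de000000000000000000000000000000) (nat_lit 0x0) (nat_lit 0x80000000180000000000000000000000000) := D_5 (nat_lit 104) (nat_lit 103) (nat_lit 139) (nat_lit 0) (nat_lit 5) (nat_lit 7) (nat_lit 4) (nat_lit 3) (nat_lit 10) (by decide +kernel)
theorem L41735 : W_5 (nat_lit 3) (nat_lit 0x2e00120013400de000000000000000000000000000000) (nat_lit 0x0) (nat_lit 0x1000080000000580000000000000000000000000) := T_5 (nat_lit 156) (nat_lit 106) (nat_lit 5) (nat_lit 4) (nat_lit 6) L41734 (by decide +kernel)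
theorem L41736 : W_5 (nat_lit 4) (nat_lit 0x2e00120013000de000000000000000000000000000000) (nat_lit 0x0) (nat_lit 0x10000e0000000580000000000000000000000000) := T_5 (nat_lit 138) (nat_lit 137) (nat_lit 1) (nat_lit 5) (nat_lit 7) L41735 (by decide +kernel)
theorem L41737 : W_5 (nat_lit 5) (nat_lit 0x2c00120013000de000000000000000000000000000000) (nat_lit 0x0) (nat_lit 0x4000200010000e0000000580000000000000000000000000) := T_5 (nat_lit 173) (nat_lit 190) (nat_lit 5) (nat_lit 4) (nat_lit 7) L41736 (by decide +kernel)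
theorem L41738 : W_5 (nat_lit 6) (nat_lit 0x2c00120013000dc000000000000000000000000000000) (nat_lit 0x0) (nat_lit 0x4000200010000e0003000580000000000000000000000000) := T_5 (nat_lit 121) (nat_lit 120) (nat_lit 3) (nat_lit 1) (nat_lit 7) L41737 (by decide +kernel)
theorem L41739 : W_5 (nat_lit 7) (nat_lit 0x2c00120013000d8000000000000000000000000000000) (nat_lit 0x0) (nat_lit 0x4000200010000e0007000780000000000000000000000000) := T_5 (nat_lit 122) (nat_lit 105) (nat_lit 4) (nat_lit 4) (nat_lit 10) L41738 (by decide +kernel)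
theorem L41740 : W_5 (nat_lit 8) (nat_lit 0x2c00120013000d0000000000000000000000000000000) (nat_lit 0x0) (nat_lit 0x14000200010000e000f000780000000000000000000000000) := T_5 (nat_lit 123) (nat_lit 192) (nat_lit 7) (nat_lit 4) (nat_lit 7) L41739 (by decide +kernel)
theorem L41741 : W_5 (nat_lit 9) (nat_lit 0x2c0012001300090000000000000000000000000000000) (nat_lit 0x0) (nat_lit 0x14000200010000e006f000780000000000000000000000000) := T_5 (nat_lit 126) (nat_lit 125) (nat_lit 1) (nat_lit 8) (nat_lit 7) L41740 (by decide +kernel)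
theorem L41742 : W_5 (nat_lit 10) (nat_lit 0x280012001300090000000000000000000000000000000) (nat_lit 0x0) (nat_lit 0x1c000600010000e006f000780000000000000000000000000) := T_5 (nat_lit 174) (nat_lit 191) (nat_lit 6) (nat_lit 4) (nat_lit 11) L41741 (by decide +kernel)
theorem L41743 : W_5 (nat_lit 2) (nat_lit 0x2c00120013000d8000400000000000000000000000000) (nat_lit 0x0) (nat_lit 0x4000200010000000000000000000000) := D_5 (nat_lit 105) (nat_lit 122) (nat_lit 88) (nat_lit 4) (nat_lit 4) (nat_lit 10) (nat_lit 4) (nat_lit 4) (nat_lit 9) (by decide +kernel)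
theorem L41744 : W_5 (nat_lit 3) (nat_lit 0x2c00120013000d8000000000000000000000000000000) (nat_lit 0x0) (nat_lit 0x4000000004000600010000000000000000000000) := T_5 (nat_lit 106) (nat_lit 158) (nat_lit 7) (nat_lit 4) (nat_lit 6) L41743 (by decide +kernel)
theorem L41745 : W_5 (nat_lit 4) (nat_lit 0x2c00120013000d0000000000000000000000000000000) (nat_lit 0x0) (nat_lit 0x100000000400000000c000600010000000000000000000000) := T_5 (nat_lit 123) (nat_lit 192) (nat_lit 7) (nat_lit 4) (nat_lit 7) L41744 (by decide +kernel)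
theorem L41746 : W_5 (nat_lit 5) (nat_lit 0x2800120013000d0000000000000000000000000000000) (nat_lit 0x0) (nat_lit 0x180004000400000000c000600010000000000000000000000) := T_5 (nat_lit 174) (nat_lit 191) (nat_lit 6) (nat_lit 4) (nat_lit 11) L41745 (by decide +kernel)
theorem L41747 : W_5 (nat_lit 6) (nat_lit 0x280012001300090000000000000000000000000000000) (nat_lit 0x0) (nat_lit 0x180004000400000006c000600010000000000000000000000) := T_5 (nat_lit 126) (nat_lit 125) (nat_lit 1) (nat_lit 8) (nat_lit 7) L41746 (by decide +kernel)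
theorem L41748 : W_5 (nat_lit 3) (nat_lit 0x2800120013400b0000000000000000000000000000000) (nat_lit 0x0) (nat_lit 0x1000000004000000008001400000000000000000000000000) := T_5 (nat_lit 158) (nat_lit 108) (nat_lit 6) (nat_lit 5) (nat_lit 10) L40512 (by decide +kernel)
theorem L41749 : W_5 (nat_lit 4) (nat_lit 0x2800120013000b0000000000000000000000000000000) (nat_lit 0x0) (nat_lit 0x10000000040000c0008001400000000000000000000000000) := T_5 (nat_lit 138) (nat_lit 139) (nat_lit 2) (nat_lit 2) (nat_lit 8) L41748 (by decide +kernel)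
theorem L41750 : W_5 (nat_lit 5) (nat_lit 0x280012001300090000000000000000000000000000000) (nat_lit 0x0) (nat_lit 0x10000000040000c0068001400000000000000000000000000) := T_5 (nat_lit 125) (nat_lit 126) (nat_lit 1) (nat_lit 8) (nat_lit 7) L41749 (by decide +kernel)
theorem L41751 : W_5 (nat_lit 2) (nat_lit 0x2c00160013400bc000000000000000000000000000000) (nat_lit 0x0) (nat_lit 0x20003000000000000000000000000000000) := D_5 (nat_lit 121) (nat_lit 120) (nat_lit 137) (nat_lit 3) (nat_lit 1) (nat_lit 7) (nat_lit 1) (nat_lit 5) (nat_lit 7) (by decide +kernel)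
theorem L41752 : W_5 (nat_lit 3) (nat_lit 0x2c00160013400b8000000000000000000000000000000) (nat_lit 0x0) (nat_lit 0x20007000200000000000000000000000000) := T_5 (nat_lit 122) (nat_lit 105) (nat_lit 4) (nat_lit 4) (nat_lit 10) L41751 (by decide +kernel)
theorem L41753 : W_5 (nat_lit 4) (nat_lit 0x2c00160013000b8000000000000000000000000000000) (nat_lit 0x0) (nat_lit 0xe0007000200000000000000000000000000) := T_5 (nat_lit 138) (nat_lit 139) (nat_lit 2) (nat_lit 2) (nat_lit 8) L41752 (by decide +kernel)
theorem L41754 : W_5 (nat_lit 5) (nat_lit 0x2c00160013000b0000000000000000000000000000000) (nat_lit 0x0) (nat_lit 0xe000f000600000000000000000000000000) := T_5 (nat_lit 123) (nat_lit 106) (nat_lit 7) (nat_lit 4) (nat_lit 6) L41753 (by decide +kernel)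
theorem L41755 : W_5 (nat_lit 6) (nat_lit 0x2c00120013000b0000000000000000000000000000000) (nat_lit 0x0) (nat_lit 0x40000e000f001600000000000000000000000000) := T_5 (nat_lit 158) (nat_lit 108) (nat_lit 6) (nat_lit 5) (nat_lit 10) L41754 (by decide +kernel)
theorem L41756 : W_5 (nat_lit 7) (nat_lit 0x2800120013000b0000000000000000000000000000000) (nat_lit 0x0) (nat_lit 0x8000400040000e000f001600000000000000000000000000) := T_5 (nat_lit 174) (nat_lit 191) (nat_lit 6) (nat_lit 4) (nat_lit 11) L41755 (by decide +kernel)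
theorem L41757 : W_5 (nat_lit 8) (nat_lit 0x280012001300090000000000000000000000000000000) (nat_lit 0x0) (nat_lit 0x8000400040000e006f001600000000000000000000000000) := T_5 (nat_lit 125) (nat_lit 126) (nat_lit 1) (nat_lit 8) (nat_lit 7) L41756 (by decide +kernel)
theorem L41758 : W_5 (nat_lit 12) (nat_lit 0x200012001300090000000000000000000000000000000) (nat_lit 0x0) (nat_lit 0x30001f000f8005c000e006f001780010000000000000000000000) := Q_5 (nat_lit 175) (C_5 L41723 (C_5 L41733 (C_5 L41742 (C_5 L41747 (C_5 L41750 (C_5 L41757 N_5)))))) (by decide +kernel)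
theorem L41759 : W_5 (nat_lit 14) (nat_lit 0x200012001300080000000000000000000000000000000) (nat_lit 0x0) (nat_lit 0x30001f000f8005c000e007f003f800fc000000000000000000000) := Q_5 (nat_lit 124) (C_5 L41714 (C_5 L41716 (C_5 L41718 (C_5 L41758 N_5)))) (by decide +kernel)
theorem L41760 : W_5 (nat_lit 2) (nat_lit 0x20000c00240012001380080000000000000000000000000000000) (nat_lit 0x0) (nat_lit 0x400010000000000001000000000000000000000000000000000000000) := D_5 (nat_lit 208) (nat_lit 156) (nat_lit 226) (nat_lit 4) (nat_lit 4) (nat_lit 12) (nat_lit 7) (nat_lit 4) (nat_lit 9) (by decide +kernel)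
theorem L41761 : W_5 (nat_lit 3) (nat_lit 0x20000c00240012001300080000000000000000000000000000000) (nat_lit 0x0) (nat_lit 0x400010000000000001000080004000000000000000000000000000000) := T_5 (nat_lit 139) (nat_lit 122) (nat_lit 4) (nat_lit 4) (nat_lit 11) L41760 (by decide +kernel)
theorem L41762 : W_5 (nat_lit 4) (nat_lit 0xc00240012001300080000000000000000000000000000000) (nat_lit 0x0) (nat_lit 0x400030001000000001000080004000000000000000000000000000000) := T_5 (nat_lit 209) (nat_lit 192) (nat_lit 7) (nat_lit 4) (nat_lit 8) L41761 (by decide +kernel)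
theorem L41763 : W_5 (nat_lit 5) (nat_lit 0x800240012001300080000000000000000000000000000000) (nat_lit 0x0) (nat_lit 0x400038001400000001000080004000000000000000000000000000000) := T_5 (nat_lit 190) (nat_lit 207) (nat_lit 5) (nat_lit 4) (nat_lit 8) L41762 (by decide +kernel)
theorem L41764 : W_5 (nat_lit 2) (nat_lit 0x1c00240012001300080000000000000000000000000000000) (nat_lit 0x0) (nat_lit 0xa0000000000008000000000000000000000000000000) := D_5 (nat_lit 123) (nat_lit 173) (nat_lit 175) (nat_lit 5) (nat_lit 4) (nat_lit 7) (nat_lit 7) (nat_lit 4) (nat_lit 7) (by decide +kernel)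
theorem L41765 : W_5 (nat_lit 3) (nat_lit 0xc00240012001300080000000000000000000000000000000) (nat_lit 0x0) (nat_lit 0x200010000a0000000000008000000000000000000000000000000) := T_5 (nat_lit 192) (nat_lit 209) (nat_lit 7) (nat_lit 4) (nat_lit 8) L41764 (by decide +kernel)
theorem L41766 : W_5 (nat_lit 4) (nat_lit 0x800240012001300080000000000000000000000000000000) (nat_lit 0x0) (nat_lit 0x280014000a0000000000008000000000000000000000000000000) := T_5 (nat_lit 190) (nat_lit 207) (nat_lit 5) (nat_lit 4) (nat_lit 8) L41765 (by decide +kernel)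
theorem L41767 : W_5 (nat_lit 2) (nat_lit 0x400010000c00260012001380080000000000000000000000000000000) (nat_lit 0x0) (nat_lit 0xc000200000000000000000000000000000000000000000000000000000000) := D_5 (nat_lit 225) (nat_lit 242) (nat_lit 243) (nat_lit 4) (nat_lit 4) (nat_lit 14) (nat_lit 7) (nat_lit 4) (nat_lit 10) (by decide +kernel)
theorem L41768 : W_5 (nat_lit 3) (nat_lit 0x10000c00260012001380080000000000000000000000000000000) (nat_lit 0x0) (nat_lit 0xc000600020000000000000000000000000000000000000000000000000000) := T_5 (nat_lit 226) (nat_lit 209) (nat_lit 7) (nat_lit 4) (nat_lit 9) L41767 (by decide +kernel)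
theorem L41769 : W_5 (nat_lit 4) (nat_lit 0x10000c00240012001380080000000000000000000000000000000) (nat_lit 0x0) (nat_lit 0xc000600020000000020000000000008000000000000000000000000000000) := T_5 (nat_lit 173) (nat_lit 123) (nat_lit 5) (nat_lit 4) (nat_lit 7) L41768 (by decide +kernel)
theorem L41770 : W_5 (nat_lit 5) (nat_lit 0xc00240012001380080000000000000000000000000000000) (nat_lit 0x0) (nat_lit 0xc000600030000000020001000000008000000000000000000000000000000) := T_5 (nat_lit 208) (nat_lit 156) (nat_lit 4) (nat_lit 4) (nat_lit 12) L41769 (by decide +kernel)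
theorem L41771 : W_5 (nat_lit 6) (nat_lit 0xc00240012001300080000000000000000000000000000000) (nat_lit 0x0) (nat_lit 0xc00060003000000002000100008000c000000000000000000000000000000) := T_5 (nat_lit 139) (nat_lit 122) (nat_lit 4) (nat_lit 4) (nat_lit 11) L41770 (by decide +kernel)
theorem L41772 : W_5 (nat_lit 7) (nat_lit 0x800240012001300080000000000000000000000000000000) (nat_lit 0x0) (nat_lit 0xc00060003800040002000100008000c000000000000000000000000000000) := T_5 (nat_lit 190) (nat_lit 207) (nat_lit 5) (nat_lit 4) (nat_lit 8) L41771 (by decide +kernel)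
theorem L41773 : W_5 (nat_lit 2) (nat_lit 0x1000100018002c0012001380080000000000000000000000000000000) (nat_lit 0x0) (nat_lit 0x6000200000000000000000000000000000000000000000000000000000000) := D_5 (nat_lit 225) (nat_lit 241) (nat_lit 242) (nat_lit 5) (nat_lit 4) (nat_lit 10) (nat_lit 6) (nat_lit 4) (nat_lit 14) (by decide +kernel)
theorem L41774 : W_5 (nat_lit 3) (nat_lit 0x100010001800240012001380080000000000000000000000000000000) (nat_lit 0x0) (nat_lit 0x6000200000000000080000000000008000000000000000000000000000000) := T_5 (nat_lit 175) (nat_lit 123) (nat_lit 7) (nat_lit 4) (nat_lit 7) L41773 (by decide +kernel)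
theorem L41775 : W_5 (nat_lit 4) (nat_lit 0x10001800240012001380080000000000000000000000000000000) (nat_lit 0x0) (nat_lit 0x6000300008000000080000000000008000000000000000000000000000000) := T_5 (nat_lit 224) (nat_lit 207) (nat_lit 5) (nat_lit 4) (nat_lit 9) L41774 (by decide +kernel)
theorem L41776 : W_5 (nat_lit 5) (nat_lit 0x1800240012001380080000000000000000000000000000000) (nat_lit 0x0) (nat_lit 0x6000300018000000080001000000008000000000000000000000000000000) := T_5 (nat_lit 208) (nat_lit 156) (nat_lit 4) (nat_lit 4) (nat_lit 12) L41775 (by decide +kernel)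
theorem L41777 : W_5 (nat_lit 6) (nat_lit 0x1800240012001300080000000000000000000000000000000) (nat_lit 0x0) (nat_lit 0x600030001800000008000100008000c000000000000000000000000000000) := T_5 (nat_lit 139) (nat_lit 122) (nat_lit 4) (nat_lit 4) (nat_lit 11) L41776 (by decide +kernel)
theorem L41778 : W_5 (nat_lit 7) (nat_lit 0x800240012001300080000000000000000000000000000000) (nat_lit 0x0) (nat_lit 0x600030003800100008000100008000c000000000000000000000000000000) := T_5 (nat_lit 192) (nat_lit 209) (nat_lit 7) (nat_lit 4) (nat_lit 8) L41777 (by decide +kernel)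
theorem L41779 : W_5 (nat_lit 2) (nat_lit 0x1800240013001380088000000000000000000000000000000) (nat_lit 0x0) (nat_lit 0x20000000000000000400020000000000000000000000) := D_5 (nat_lit 106) (nat_lit 89) (nat_lit 173) (nat_lit 5) (nat_lit 4) (nat_lit 5) (nat_lit 5) (nat_lit 4) (nat_lit 6) (by decide +kernel)
theorem L41780 : W_5 (nat_lit 3) (nat_lit 0x1800240013001380080000000000000000000000000000000) (nat_lit 0x0) (nat_lit 0xa0000000000008000400020000000000000000000000) := T_5 (nat_lit 123) (nat_lit 175) (nat_lit 7) (nat_lit 4) (nat_lit 7) L41779 (by decide +kernel)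
theorem L41781 : W_5 (nat_lit 4) (nat_lit 0x1800240012001380080000000000000000000000000000000) (nat_lit 0x0) (nat_lit 0x100000000a0001000000008000400020000000000000000000000) := T_5 (nat_lit 156) (nat_lit 208) (nat_lit 4) (nat_lit 4) (nat_lit 12) L41780 (by decide +kernel)
theorem L41782 : W_5 (nat_lit 5) (nat_lit 0x1800240012001300080000000000000000000000000000000) (nat_lit 0x0) (nat_lit 0x100000000a000100008000c000400020000000000000000000000) := T_5 (nat_lit 139) (nat_lit 122) (nat_lit 4) (nat_lit 4) (nat_lit 11) L41781 (by decide +kernel)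
theorem L41783 : W_5 (nat_lit 6) (nat_lit 0x800240012001300080000000000000000000000000000000) (nat_lit 0x0) (nat_lit 0x300010000a000100008000c000400020000000000000000000000) := T_5 (nat_lit 192) (nat_lit 209) (nat_lit 7) (nat_lit 4) (nat_lit 8) L41782 (by decide +kernel)
theorem L41784 : W_5 (nat_lit 2) (nat_lit 0xe00260013001380080000000000000000000000000000000) (nat_lit 0x0) (nat_lit 0x180080000000000000000000000000000000000000000000) := D_5 (nat_lit 188) (nat_lit 175) (nat_lit 187) (nat_lit 2) (nat_lit 1) (nat_lit 11) (nat_lit 2) (nat_lit 0) (nat_lit 11) (by decide +kernel)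
theorem L41785 : W_5 (nat_lit 3) (nat_lit 0xc00260013001380080000000000000000000000000000000) (nat_lit 0x0) (nat_lit 0x4000380080000000000000000000000000000000000000000000) := T_5 (nat_lit 189) (nat_lit 206) (nat_lit 5) (nat_lit 3) (nat_lit 8) L41784 (by decide +kernel)
theorem L41786 : W_5 (nat_lit 4) (nat_lit 0xc00240013001380080000000000000000000000000000000) (nat_lit 0x0) (nat_lit 0x40003800a0000000000008000000000000000000000000000000) := T_5 (nat_lit 173) (nat_lit 123) (nat_lit 6) (nat_lit 3) (nat_lit 11) L41785 (by decide +kernel)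
theorem L41787 : W_5 (nat_lit 5) (nat_lit 0xc00240012001380080000000000000000000000000000000) (nat_lit 0x0) (nat_lit 0x140003800a0001000000008000000000000000000000000000000) := T_5 (nat_lit 156) (nat_lit 208) (nat_lit 4) (nat_lit 4) (nat_lit 12) L41786 (by decide +kernel)
theorem L41788 : W_5 (nat_lit 6) (nat_lit 0xc00240012001300080000000000000000000000000000000) (nat_lit 0x0) (nat_lit 0x140003800a000100008000c000000000000000000000000000000) := T_5 (nat_lit 139) (nat_lit 122) (nat_lit 4) (nat_lit 4) (nat_lit 11) L41787 (by decide +kernel)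
theorem L41789 : W_5 (nat_lit 7) (nat_lit 0x800240012001300080000000000000000000000000000000) (nat_lit 0x0) (nat_lit 0x1c0007800a000100008000c000000000000000000000000000000) := T_5 (nat_lit 190) (nat_lit 207) (nat_lit 5) (nat_lit 4) (nat_lit 8) L41788 (by decide +kernel)
theorem L41790 : W_5 (nat_lit 8) (nat_lit 0x240012001300080000000000000000000000000000000) (nat_lit 0x0) (nat_lit 0xe00070003c001f800a000100008000c000400020000000000000000000000) := Q_5 (nat_lit 191) (C_5 L41763 (C_5 L41766 (C_5 L41772 (C_5 L41778 (C_5 L41783 (C_5 L41789 N_5)))))) (by decide +kernel)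
theorem L41791 : W_5 (nat_lit 6) (nat_lit 0x240012001300080000000000000000000000000000000) (nat_lit 0x0) (nat_lit 0x400038001c00000001000080014000000000000000000000000000000) := T_5 (nat_lit 191) (nat_lit 124) (nat_lit 6) (nat_lit 4) (nat_lit 11) L41763 (by decide +kernel)
theorem L41792 : W_5 (nat_lit 2) (nat_lit 0x2e00120013400de000100000000000000000000000000) (nat_lit 0x0) (nat_lit 0x1800080000000000000000000000000000000000) := D_5 (nat_lit 156) (nat_lit 139) (nat_lit 155) (nat_lit 4) (nat_lit 3) (nat_lit 10) (nat_lit 7) (nat_lit 2) (nat_lit 6) (by decide +kernel)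
theorem L41793 : W_5 (nat_lit 3) (nat_lit 0x2e00120013000de000100000000000000000000000000) (nat_lit 0x0) (nat_lit 0x18000e0000000000000000000000000000000000) := T_5 (nat_lit 138) (nat_lit 137) (nat_lit 1) (nat_lit 5) (nat_lit 7) L41792 (by decide +kernel)
theorem L41794 : W_5 (nat_lit 4) (nat_lit 0x2e00120013000de000000000000000000000000000000) (nat_lit 0x0) (nat_lit 0x18000e0000000180000000000000000000000000) := T_5 (nat_lit 104) (nat_lit 103) (nat_lit 0) (nat_lit 5) (nat_lit 7) L41793 (by decide +kernel)
theorem L41795 : W_5 (nat_lit 5) (nat_lit 0x2e00120013000dc000000000000000000000000000000) (nat_lit 0x0) (nat_lit 0x18000e0003000180000000000000000000000000) := T_5 (nat_lit 121) (nat_lit 120) (nat_lit 3) (nat_lit 1) (nat_lit 7) L41794 (by decide +kernel)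
theorem L41796 : W_5 (nat_lit 6) (nat_lit 0x2e00120013000d8000000000000000000000000000000) (nat_lit 0x0) (nat_lit 0x18000e0007000380000000000000000000000000) := T_5 (nat_lit 122) (nat_lit 105) (nat_lit 4) (nat_lit 4) (nat_lit 10) L41795 (by decide +kernel)
theorem L41797 : W_5 (nat_lit 7) (nat_lit 0x2600120013000d8000000000000000000000000000000) (nat_lit 0x0) (nat_lit 0x10000800018000e0007000380000000000000000000000000) := T_5 (nat_lit 175) (nat_lit 192) (nat_lit 7) (nat_lit 4) (nat_lit 7) L41796 (by decide +kernel)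
theorem L41798 : W_5 (nat_lit 8) (nat_lit 0x260012001300098000000000000000000000000000000) (nat_lit 0x0) (nat_lit 0x10000800018000e0067000380000000000000000000000000) := T_5 (nat_lit 126) (nat_lit 125) (nat_lit 1) (nat_lit 8) (nat_lit 7) L41797 (by decide +kernel)
theorem L41799 : W_5 (nat_lit 9) (nat_lit 0x260012001300088000000000000000000000000000000) (nat_lit 0x0) (nat_lit 0x10000800018000e0077000b80000000000000000000000000) := T_5 (nat_lit 124) (nat_lit 107) (nat_lit 6) (nat_lit 4) (nat_lit 10) L41798 (by decide +kernel)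
theorem L41800 : W_5 (nat_lit 10) (nat_lit 0x240012001300088000000000000000000000000000000) (nat_lit 0x0) (nat_lit 0x14000a00018000e0077000b80000000000000000000000000) := T_5 (nat_lit 173) (nat_lit 190) (nat_lit 5) (nat_lit 4) (nat_lit 7) L41799 (by decide +kernel)
theorem L41801 : W_5 (nat_lit 2) (nat_lit 0x26001200130008d000800000000000000000000000000) (nat_lit 0x0) (nat_lit 0x1000000000000400040000000000000000000000) := D_5 (nat_lit 106) (nat_lit 156) (nat_lit 90) (nat_lit 5) (nat_lit 4) (nat_lit 6) (nat_lit 6) (nat_lit 4) (nat_lit 9) (by decide +kernel)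
theorem L41802 : W_5 (nat_lit 3) (nat_lit 0x26001200130008d000000000000000000000000000000) (nat_lit 0x0) (nat_lit 0x1000000010000c00040000000000000000000000) := T_5 (nat_lit 107) (nat_lit 124) (nat_lit 6) (nat_lit 4) (nat_lit 10) L41801 (by decide +kernel)
theorem L41803 : W_5 (nat_lit 4) (nat_lit 0x24001200130008d000000000000000000000000000000) (nat_lit 0x0) (nat_lit 0x400020001000000010000c00040000000000000000000000) := T_5 (nat_lit 173) (nat_lit 190) (nat_lit 5) (nat_lit 4) (nat_lit 7) L41802 (by decide +kernel)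
theorem L41804 : W_5 (nat_lit 5) (nat_lit 0x24001200130008c000000000000000000000000000000) (nat_lit 0x0) (nat_lit 0x400020001000000013000c00040000000000000000000000) := T_5 (nat_lit 120) (nat_lit 121) (nat_lit 3) (nat_lit 1) (nat_lit 7) L41803 (by decide +kernel)
theorem L41805 : W_5 (nat_lit 6) (nat_lit 0x240012001300088000000000000000000000000000000) (nat_lit 0x0) (nat_lit 0x400020001000000017000e00040000000000000000000000) := T_5 (nat_lit 122) (nat_lit 105) (nat_lit 4) (nat_lit 4) (nat_lit 10) L41804 (by decide +kernel)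
theorem L41806 : W_5 (nat_lit 2) (nat_lit 0x2e001200130008d000400060000800000000000000000) (nat_lit 0x0) (nat_lit 0x80000000000000001000040000000000000) := D_5 (nat_lit 72) (nat_lit 139) (nat_lit 54) (nat_lit 5) (nat_lit 4) (nat_lit 4) (nat_lit 4) (nat_lit 4) (nat_lit 7) (by decide +kernel)
theorem L41807 : W_5 (nat_lit 3) (nat_lit 0x2e001200130008d000400060000000000000000000000) (nat_lit 0x0) (nat_lit 0x80000000000010001800040000000000000) := T_5 (nat_lit 71) (nat_lit 88) (nat_lit 4) (nat_lit 4) (nat_lit 8) L41806 (by decide +kernel)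
theorem L41808 : W_5 (nat_lit 4) (nat_lit 0x2e001200130008d000400040000000000000000000000) (nat_lit 0x0) (nat_lit 0x80000000000030003800040000000000000) := T_5 (nat_lit 89) (nat_lit 73) (nat_lit 6) (nat_lit 4) (nat_lit 8) L41807 (by decide +kernel)
theorem L41809 : W_5 (nat_lit 5) (nat_lit 0x2e001200130008d000400000000000000000000000000) (nat_lit 0x0) (nat_lit 0x80000000800070003800040000000000000) := T_5 (nat_lit 90) (nat_lit 107) (nat_lit 6) (nat_lit 4) (nat_lit 9) L41808 (by decide +kernel)
theorem L41810 : W_5 (nat_lit 6) (nat_lit 0x26001200130008d000400000000000000000000000000) (nat_lit 0x0) (nat_lit 0x1000080000000080000000800070003800040000000000000) := T_5 (nat_lit 175) (nat_lit 192) (nat_lit 7) (nat_lit 4) (nat_lit 7) L41809 (by decide +kernel)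
theorem L41811 : W_5 (nat_lit 7) (nat_lit 0x26001200130008d000000000000000000000000000000) (nat_lit 0x0) (nat_lit 0x1000080001000080000000c00070003800040000000000000) := T_5 (nat_lit 106) (nat_lit 156) (nat_lit 5) (nat_lit 4) (nat_lit 6) L41810 (by decide +kernel)
theorem L41812 : W_5 (nat_lit 8) (nat_lit 0x26001200130008c000000000000000000000000000000) (nat_lit 0x0) (nat_lit 0x1000080001000080003000c00070003800040000000000000) := T_5 (nat_lit 120) (nat_lit 121) (nat_lit 3) (nat_lit 1) (nat_lit 7) L41811 (by decide +kernel)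
theorem L41813 : W_5 (nat_lit 9) (nat_lit 0x260012001300088000000000000000000000000000000) (nat_lit 0x0) (nat_lit 0x1000080001000080007000e00070003800040000000000000) := T_5 (nat_lit 122) (nat_lit 105) (nat_lit 4) (nat_lit 4) (nat_lit 10) L41812 (by decide +kernel)
theorem L41814 : W_5 (nat_lit 10) (nat_lit 0x240012001300088000000000000000000000000000000) (nat_lit 0x0) (nat_lit 0x14000a0001000080007000e00070003800040000000000000) := T_5 (nat_lit 173) (nat_lit 190) (nat_lit 5) (nat_lit 4) (nat_lit 7) L41813 (by decide +kernel)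
theorem L41815 : W_5 (nat_lit 2) (nat_lit 0x2f001340138008e000000000000000000000000000000) (nat_lit 0x0) (nat_lit 0xc000200000000000000000000000000000000000000) := D_5 (nat_lit 171) (nat_lit 170) (nat_lit 153) (nat_lit 2) (nat_lit 0) (nat_lit 10) (nat_lit 0) (nat_lit 4) (nat_lit 10) (by decide +kernel)
theorem L41816 : W_5 (nat_lit 3) (nat_lit 0x2e001340138008e000000000000000000000000000000) (nat_lit 0x0) (nat_lit 0x20001c000200000000000000000000000000000000000000) := T_5 (nat_lit 172) (nat_lit 189) (nat_lit 5) (nat_lit 3) (nat_lit 7) L41815 (by decide +kernel)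
theorem L41817 : W_5 (nat_lit 4) (nat_lit 0x2e001340130008e000000000000000000000000000000) (nat_lit 0x0) (nat_lit 0x20001c000200080000000100000000000000000000000000) := T_5 (nat_lit 139) (nat_lit 104) (nat_lit 4) (nat_lit 3) (nat_lit 10) L41816 (by decide +kernel)
theorem L41818 : W_5 (nat_lit 5) (nat_lit 0x2e001300130008e000000000000000000000000000000) (nat_lit 0x0) (nat_lit 0x20001c000e00080000000100000000000000000000000000) := T_5 (nat_lit 154) (nat_lit 155) (nat_lit 3) (nat_lit 1) (nat_lit 9) L41817 (by decide +kernel)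
theorem L41819 : W_5 (nat_lit 6) (nat_lit 0x26001300130008e000000000000000000000000000000) (nat_lit 0x0) (nat_lit 0x120009c000e00080000000100000000000000000000000000) := T_5 (nat_lit 175) (nat_lit 192) (nat_lit 7) (nat_lit 4) (nat_lit 7) L41818 (by decide +kernel)
theorem L41820 : W_5 (nat_lit 7) (nat_lit 0x26001200130008e000000000000000000000000000000) (nat_lit 0x0) (nat_lit 0x120009c001e00080000000500000000000000000000000000) := T_5 (nat_lit 156) (nat_lit 106) (nat_lit 5) (nat_lit 4) (nat_lit 6) L41819 (by decide +kernel)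
theorem L41821 : W_5 (nat_lit 8) (nat_lit 0x26001200130008c000000000000000000000000000000) (nat_lit 0x0) (nat_lit 0x120009c001e00080003000500000000000000000000000000) := T_5 (nat_lit 121) (nat_lit 120) (nat_lit 3) (nat_lit 1) (nat_lit 7) L41820 (by decide +kernel)
theorem L41822 : W_5 (nat_lit 9) (nat_lit 0x260012001300088000000000000000000000000000000) (nat_lit 0x0) (nat_lit 0x120009c001e00080007000700000000000000000000000000) := T_5 (nat_lit 122) (nat_lit 105) (nat_lit 4) (nat_lit 4) (nat_lit 10) L41821 (by decide +kernel)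
theorem L41823 : W_5 (nat_lit 10) (nat_lit 0x240012001300088000000000000000000000000000000) (nat_lit 0x0) (nat_lit 0x16000bc001e00080007000700000000000000000000000000) := T_5 (nat_lit 173) (nat_lit 190) (nat_lit 5) (nat_lit 4) (nat_lit 7) L41822 (by decide +kernel)
theorem L41824 : W_5 (nat_lit 2) (nat_lit 0x2e00120013000d8000400020000000000000000000000) (nat_lit 0x0) (nat_lit 0x200010000800000000000000000) := D_5 (nat_lit 88) (nat_lit 105) (nat_lit 71) (nat_lit 4) (nat_lit 4) (nat_lit 9) (nat_lit 4) (nat_lit 4) (nat_lit 8) (by decide +kernel)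
theorem L41825 : W_5 (nat_lit 3) (nat_lit 0x2e00120013000d8000400000000000000000000000000) (nat_lit 0x0) (nat_lit 0x200030001800000000000000000) := T_5 (nat_lit 89) (nat_lit 72) (nat_lit 7) (nat_lit 4) (nat_lit 4) L41824 (by decide +kernel)
theorem L41826 : W_5 (nat_lit 4) (nat_lit 0x2600120013000d8000400000000000000000000000000) (nat_lit 0x0) (nat_lit 0x1000080000000000000000200030001800000000000000000) := T_5 (nat_lit 175) (nat_lit 192) (nat_lit 7) (nat_lit 4) (nat_lit 7) L41825 (by decide +kernel)
theorem L41827 : W_5 (nat_lit 5) (nat_lit 0x2600120013000d8000000000000000000000000000000) (nat_lit 0x0) (nat_lit 0x1000080001000000000000600030001800000000000000000) := T_5 (nat_lit 106) (nat_lit 156) (nat_lit 5) (nat_lit 4) (nat_lit 6) L41826 (by decide +kernel)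
theorem L41828 : W_5 (nat_lit 6) (nat_lit 0x260012001300098000000000000000000000000000000) (nat_lit 0x0) (nat_lit 0x1000080001000000060000600030001800000000000000000) := T_5 (nat_lit 126) (nat_lit 125) (nat_lit 1) (nat_lit 8) (nat_lit 7) L41827 (by decide +kernel)
theorem L41829 : W_5 (nat_lit 7) (nat_lit 0x260012001300088000000000000000000000000000000) (nat_lit 0x0) (nat_lit 0x1000080001000000070000e00030001800000000000000000) := T_5 (nat_lit 124) (nat_lit 107) (nat_lit 6) (nat_lit 4) (nat_lit 10) L41828 (by decide +kernel)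
theorem L41830 : W_5 (nat_lit 8) (nat_lit 0x240012001300088000000000000000000000000000000) (nat_lit 0x0) (nat_lit 0x14000a0001000000070000e00030001800000000000000000) := T_5 (nat_lit 173) (nat_lit 190) (nat_lit 5) (nat_lit 4) (nat_lit 7) L41829 (by decide +kernel)
theorem L41831 : W_5 (nat_lit 2) (nat_lit 0x2e00138013400ba000000000000000000000000000000) (nat_lit 0x0) (nat_lit 0x20005000000000000000000000000000000) := D_5 (nat_lit 122) (nat_lit 120) (nat_lit 137) (nat_lit 3) (nat_lit 1) (nat_lit 7) (nat_lit 1) (nat_lit 5) (nat_lit 7) (by decide +kernel)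
theorem L41832 : W_5 (nat_lit 3) (nat_lit 0x2e00138013400b8000000000000000000000000000000) (nat_lit 0x0) (nat_lit 0x20007000100000000000000000000000000) := T_5 (nat_lit 121) (nat_lit 104) (nat_lit 7) (nat_lit 2) (nat_lit 6) L41831 (by decide +kernel)
theorem L41833 : W_5 (nat_lit 4) (nat_lit 0x2600138013400b8000000000000000000000000000000) (nat_lit 0x0) (nat_lit 0x1000080000000020007000100000000000000000000000000) := T_5 (nat_lit 175) (nat_lit 192) (nat_lit 7) (nat_lit 4) (nat_lit 7) L41832 (by decide +kernel)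
theorem L41834 : W_5 (nat_lit 5) (nat_lit 0x2600130013400b8000000000000000000000000000000) (nat_lit 0x0) (nat_lit 0x1000080000c00020007000100000000000000000000000000) := T_5 (nat_lit 155) (nat_lit 154) (nat_lit 2) (nat_lit 1) (nat_lit 9) L41833 (by decide +kernel)
theorem L41835 : W_5 (nat_lit 6) (nat_lit 0x2600130013000b8000000000000000000000000000000) (nat_lit 0x0) (nat_lit 0x1000080000c000e0007000100000000000000000000000000) := T_5 (nat_lit 138) (nat_lit 139) (nat_lit 2) (nat_lit 2) (nat_lit 8) L41834 (by decide +kernel)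
theorem L41836 : W_5 (nat_lit 7) (nat_lit 0x2600120013000b8000000000000000000000000000000) (nat_lit 0x0) (nat_lit 0x1000080001c000e0007000500000000000000000000000000) := T_5 (nat_lit 156) (nat_lit 106) (nat_lit 5) (nat_lit 4) (nat_lit 6) L41835 (by decide +kernel)
theorem L41837 : W_5 (nat_lit 8) (nat_lit 0x260012001300098000000000000000000000000000000) (nat_lit 0x0) (nat_lit 0x1000080001c000e0067000500000000000000000000000000) := T_5 (nat_lit 125) (nat_lit 126) (nat_lit 1) (nat_lit 8) (nat_lit 7) L41836 (by decide +kernel)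
theorem L41838 : W_5 (nat_lit 9) (nat_lit 0x260012001300088000000000000000000000000000000) (nat_lit 0x0) (nat_lit 0x1000080001c000e0077000d00000000000000000000000000) := T_5 (nat_lit 124) (nat_lit 107) (nat_lit 6) (nat_lit 4) (nat_lit 10) L41837 (by decide +kernel)
theorem L41839 : W_5 (nat_lit 10) (nat_lit 0x240012001300088000000000000000000000000000000) (nat_lit 0x0) (nat_lit 0x14000a0001c000e0077000d00000000000000000000000000) := T_5 (nat_lit 173) (nat_lit 190) (nat_lit 5) (nat_lit 4) (nat_lit 7) L41838 (by decide +kernel)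
theorem L41840 : W_5 (nat_lit 2) (nat_lit 0x2400120013000be000100000000000000000000000000) (nat_lit 0x0) (nat_lit 0xe0000000000000000000000000000000000) := D_5 (nat_lit 138) (nat_lit 137) (nat_lit 139) (nat_lit 1) (nat_lit 5) (nat_lit 7) (nat_lit 2) (nat_lit 2) (nat_lit 8) (by decide +kernel)
theorem L41841 : W_5 (nat_lit 3) (nat_lit 0x24001200130009e000100000000000000000000000000) (nat_lit 0x0) (nat_lit 0xe0060000000000000000000000000000000) := T_5 (nat_lit 125) (nat_lit 126) (nat_lit 1) (nat_lit 8) (nat_lit 7) L41840 (by decide +kernel)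
theorem L41842 : W_5 (nat_lit 4) (nat_lit 0x24001200130009e000000000000000000000000000000) (nat_lit 0x0) (nat_lit 0xe0060000180000000000000000000000000) := T_5 (nat_lit 104) (nat_lit 103) (nat_lit 0) (nat_lit 5) (nat_lit 7) L41841 (by decide +kernel)
theorem L41843 : W_5 (nat_lit 5) (nat_lit 0x24001200130008e000000000000000000000000000000) (nat_lit 0x0) (nat_lit 0xe0070000980000000000000000000000000) := T_5 (nat_lit 124) (nat_lit 107) (nat_lit 6) (nat_lit 4) (nat_lit 10) L41842 (by decide +kernel)
theorem L41844 : W_5 (nat_lit 6) (nat_lit 0x24001200130008c000000000000000000000000000000) (nat_lit 0x0) (nat_lit 0xe0073000980000000000000000000000000) := T_5 (nat_lit 121) (nat_lit 120) (nat_lit 3) (nat_lit 1) (nat_lit 7) L41843 (by decide +kernel)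
theorem L41845 : W_5 (nat_lit 7) (nat_lit 0x240012001300088000000000000000000000000000000) (nat_lit 0x0) (nat_lit 0xe0077000b80000000000000000000000000) := T_5 (nat_lit 122) (nat_lit 105) (nat_lit 4) (nat_lit 4) (nat_lit 10) L41844 (by decide +kernel)
theorem L41846 : W_5 (nat_lit 11) (nat_lit 0x240012001300080000000000000000000000000000000) (nat_lit 0x0) (nat_lit 0x16000bc001e000e007f000f80070003800040000000000000) := Q_5 (nat_lit 123) (C_5 L41800 (C_5 L41805 (C_5 L41814 (C_5 L41823 (C_5 L41830 (C_5 L41839 (C_5 L41845 N_5))))))) (by decide +kernel)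
theorem L41847 : W_5 (nat_lit 5) (nat_lit 0x240012001300080000000000000000000000000000000) (nat_lit 0x0) (nat_lit 0x28001c000a0000000000018000000000000000000000000000000) := T_5 (nat_lit 191) (nat_lit 124) (nat_lit 6) (nat_lit 4) (nat_lit 11) L41766 (by decide +kernel)
theorem L41848 : W_5 (nat_lit 8) (nat_lit 0x240012001300080000000000000000000000000000000) (nat_lit 0x0) (nat_lit 0x1c000f800a000100008001c000000000000000000000000000000) := T_5 (nat_lit 191) (nat_lit 124) (nat_lit 6) (nat_lit 4) (nat_lit 11) L41789 (by decide +kernel)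
theorem L41849 : W_5 (nat_lit 7) (nat_lit 0x240012001300080000000000000000000000000000000) (nat_lit 0x0) (nat_lit 0x300018000a000100008001c000400020000000000000000000000) := T_5 (nat_lit 191) (nat_lit 124) (nat_lit 6) (nat_lit 4) (nat_lit 11) L41783 (by decide +kernel)
theorem L41850 : W_5 (nat_lit 12) (nat_lit 0x200012001300080000000000000000000000000000000) (nat_lit 0x0) (nat_lit 0xe00070003c001f800fc001e000e007f000f80070003800040000000000000) := Q_5 (nat_lit 174) (C_5 L41790 (C_5 L41791 (C_5 L41846 (C_5 L41847 (C_5 L41848 (C_5 L41849 N_5)))))) (by decide +kernel)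
theorem L41851 : W_5 (nat_lit 2) (nat_lit 0x2e001a00134009e000100000000000000000000000000) (nat_lit 0x0) (nat_lit 0x1800080000000000000000000000000000000000) := D_5 (nat_lit 156) (nat_lit 139) (nat_lit 155) (nat_lit 4) (nat_lit 3) (nat_lit 10) (nat_lit 7) (nat_lit 2) (nat_lit 6) (by decide +kernel)
theorem L41852 : W_5 (nat_lit 3) (nat_lit 0x2e001a00130009e000100000000000000000000000000) (nat_lit 0x0) (nat_lit 0x18000e0000000000000000000000000000000000) := T_5 (nat_lit 138) (nat_lit 137) (nat_lit 1) (nat_lit 5) (nat_lit 7) L41851 (by decide +kernel)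
theorem L41853 : W_5 (nat_lit 4) (nat_lit 0x2e001a00130009e000000000000000000000000000000) (nat_lit 0x0) (nat_lit 0x18000e0000000180000000000000000000000000) := T_5 (nat_lit 104) (nat_lit 103) (nat_lit 0) (nat_lit 5) (nat_lit 7) L41852 (by decide +kernel)
theorem L41854 : W_5 (nat_lit 5) (nat_lit 0x2e001a00130009c000000000000000000000000000000) (nat_lit 0x0) (nat_lit 0x18000e0003000180000000000000000000000000) := T_5 (nat_lit 121) (nat_lit 120) (nat_lit 3) (nat_lit 1) (nat_lit 7) L41853 (by decide +kernel)
theorem L41855 : W_5 (nat_lit 6) (nat_lit 0x2e001a001300098000000000000000000000000000000) (nat_lit 0x0) (nat_lit 0x18000e0007000380000000000000000000000000) := T_5 (nat_lit 122) (nat_lit 105) (nat_lit 4) (nat_lit 4) (nat_lit 10) L41854 (by decide +kernel)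
theorem L41856 : W_5 (nat_lit 7) (nat_lit 0x26001a001300098000000000000000000000000000000) (nat_lit 0x0) (nat_lit 0x10000800018000e0007000380000000000000000000000000) := T_5 (nat_lit 175) (nat_lit 192) (nat_lit 7) (nat_lit 4) (nat_lit 7) L41855 (by decide +kernel)
theorem L41857 : W_5 (nat_lit 8) (nat_lit 0x26001a001300088000000000000000000000000000000) (nat_lit 0x0) (nat_lit 0x10000800018000e0017000b80000000000000000000000000) := T_5 (nat_lit 124) (nat_lit 107) (nat_lit 6) (nat_lit 4) (nat_lit 10) L41856 (by decide +kernel)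
theorem L41858 : W_5 (nat_lit 9) (nat_lit 0x260012001300088000000000000000000000000000000) (nat_lit 0x0) (nat_lit 0x100008000d8000e0017000b80000000000000000000000000) := T_5 (nat_lit 159) (nat_lit 158) (nat_lit 1) (nat_lit 7) (nat_lit 9) L41857 (by decide +kernel)
theorem L41859 : W_5 (nat_lit 10) (nat_lit 0x240012001300088000000000000000000000000000000) (nat_lit 0x0) (nat_lit 0x14000a000d8000e0017000b80000000000000000000000000) := T_5 (nat_lit 173) (nat_lit 190) (nat_lit 5) (nat_lit 4) (nat_lit 7) L41858 (by decide +kernel)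
theorem L41860 : W_5 (nat_lit 2) (nat_lit 0x2c001200130008d000400000000000000000000000000) (nat_lit 0x0) (nat_lit 0x10000800040000000000000000000000) := D_5 (nat_lit 107) (nat_lit 90) (nat_lit 124) (nat_lit 6) (nat_lit 4) (nat_lit 9) (nat_lit 6) (nat_lit 4) (nat_lit 10) (by decide +kernel)
theorem L41861 : W_5 (nat_lit 3) (nat_lit 0x2c001200130008d000000000000000000000000000000) (nat_lit 0x0) (nat_lit 0x4000000010000c00040000000000000000000000) := T_5 (nat_lit 106) (nat_lit 158) (nat_lit 7) (nat_lit 4) (nat_lit 6) L41860 (by decide +kernel)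
theorem L41862 : W_5 (nat_lit 4) (nat_lit 0x24001200130008d000000000000000000000000000000) (nat_lit 0x0) (nat_lit 0x1000080004000000010000c00040000000000000000000000) := T_5 (nat_lit 175) (nat_lit 192) (nat_lit 7) (nat_lit 4) (nat_lit 7) L41861 (by decide +kernel)
theorem L41863 : W_5 (nat_lit 5) (nat_lit 0x24001200130008c000000000000000000000000000000) (nat_lit 0x0) (nat_lit 0x1000080004000000013000c00040000000000000000000000) := T_5 (nat_lit 120) (nat_lit 121) (nat_lit 3) (nat_lit 1) (nat_lit 7) L41862 (by decide +kernel)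
theorem L41864 : W_5 (nat_lit 6) (nat_lit 0x240012001300088000000000000000000000000000000) (nat_lit 0x0) (nat_lit 0x1000080004000000017000e00040000000000000000000000) := T_5 (nat_lit 122) (nat_lit 105) (nat_lit 4) (nat_lit 4) (nat_lit 10) L41863 (by decide +kernel)
theorem L41865 : W_5 (nat_lit 2) (nat_lit 0x2c0012001300088000400000000000000000000000000) (nat_lit 0x0) (nat_lit 0x10000800040000000000000000000000) := D_5 (nat_lit 107) (nat_lit 124) (nat_lit 90) (nat_lit 6) (nat_lit 4) (nat_lit 10) (nat_lit 6) (nat_lit 4) (nat_lit 9) (by decide +kernel)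
theorem L41866 : W_5 (nat_lit 3) (nat_lit 0x2c0012001300088000000000000000000000000000000) (nat_lit 0x0) (nat_lit 0x4000000010000c00040000000000000000000000) := T_5 (nat_lit 106) (nat_lit 158) (nat_lit 7) (nat_lit 4) (nat_lit 6) L41865 (by decide +kernel)
theorem L41867 : W_5 (nat_lit 4) (nat_lit 0x240012001300088000000000000000000000000000000) (nat_lit 0x0) (nat_lit 0x1000080004000000010000c00040000000000000000000000) := T_5 (nat_lit 175) (nat_lit 192) (nat_lit 7) (nat_lit 4) (nat_lit 7) L41866 (by decide +kernel)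
theorem L41868 : W_5 (nat_lit 11) (nat_lit 0x240012001300080000000000000000000000000000000) (nat_lit 0x0) (nat_lit 0x16000bc00de000e001f000f80040000000000000000000000) := Q_5 (nat_lit 123) (C_5 L41859 (C_5 L41823 (C_5 L41805 (C_5 L41864 (C_5 L41867 N_5))))) (by decide +kernel)
theorem L41869 : W_5 (nat_lit 12) (nat_lit 0x200012001300080000000000000000000000000000000) (nat_lit 0x0) (nat_lit 0xe00070003c001f800fc00de000e001f000f80060000000000000000000000) := Q_5 (nat_lit 174) (C_5 L41849 (C_5 L41791 (C_5 L41790 (C_5 L41868 (C_5 L41847 (C_5 L41848 N_5)))))) (by decide +kernel)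
theorem L41870 : W_5 (nat_lit 2) (nat_lit 0x200013401300088000400020000000000000000000000) (nat_lit 0x0) (nat_lit 0x800040002000000000000000000) := D_5 (nat_lit 90) (nat_lit 107) (nat_lit 73) (nat_lit 6) (nat_lit 4) (nat_lit 9) (nat_lit 6) (nat_lit 4) (nat_lit 8) (by decide +kernel)
theorem L41871 : W_5 (nat_lit 3) (nat_lit 0x200013401300088000400000000000000000000000000) (nat_lit 0x0) (nat_lit 0x80000000800060002000000000000000000) := T_5 (nat_lit 89) (nat_lit 139) (nat_lit 5) (nat_lit 4) (nat_lit 5) L41870 (by decide +kernel)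
theorem L41872 : W_5 (nat_lit 4) (nat_lit 0x200013001300088000400000000000000000000000000) (nat_lit 0x0) (nat_lit 0xc00080000000800060002000000000000000000) := T_5 (nat_lit 154) (nat_lit 155) (nat_lit 2) (nat_lit 1) (nat_lit 9) L41871 (by decide +kernel)
theorem L41873 : W_5 (nat_lit 5) (nat_lit 0x200012001300088000400000000000000000000000000) (nat_lit 0x0) (nat_lit 0x20001c00080000000800060002000000000000000000) := T_5 (nat_lit 156) (nat_lit 173) (nat_lit 5) (nat_lit 4) (nat_lit 6) L41872 (by decide +kernel)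
theorem L41874 : W_5 (nat_lit 2) (nat_lit 0x200013401300088000400020000000000000000000000) (nat_lit 0x0) (nat_lit 0x200010000800000000000000000) := D_5 (nat_lit 88) (nat_lit 105) (nat_lit 71) (nat_lit 4) (nat_lit 4) (nat_lit 9) (nat_lit 4) (nat_lit 4) (nat_lit 8) (by decide +kernel)
theorem L41875 : W_5 (nat_lit 3) (nat_lit 0x200013401300088000400000000000000000000000000) (nat_lit 0x0) (nat_lit 0x80000000200030000800000000000000000) := T_5 (nat_lit 89) (nat_lit 139) (nat_lit 5) (nat_lit 4) (nat_lit 5) L41874 (by decide +kernel)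
theorem L41876 : W_5 (nat_lit 4) (nat_lit 0x200013001300088000400000000000000000000000000) (nat_lit 0x0) (nat_lit 0xc00080000000200030000800000000000000000) := T_5 (nat_lit 154) (nat_lit 155) (nat_lit 2) (nat_lit 1) (nat_lit 9) L41875 (by decide +kernel)
theorem L41877 : W_5 (nat_lit 5) (nat_lit 0x200012001300088000400000000000000000000000000) (nat_lit 0x0) (nat_lit 0x20001c00080000000200030000800000000000000000) := T_5 (nat_lit 156) (nat_lit 173) (nat_lit 5) (nat_lit 4) (nat_lit 6) L41876 (by decide +kernel)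
theorem L41878 : W_5 (nat_lit 2) (nat_lit 0x240012001300088000600000000000000000000000000) (nat_lit 0x0) (nat_lit 0x400020001000000000000000000000000000000000000000) := D_5 (nat_lit 173) (nat_lit 190) (nat_lit 156) (nat_lit 5) (nat_lit 4) (nat_lit 7) (nat_lit 5) (nat_lit 4) (nat_lit 6) (by decide +kernel)
theorem L41879 : W_5 (nat_lit 3) (nat_lit 0x200012001300088000600000000000000000000000000) (nat_lit 0x0) (nat_lit 0x400060001000000004000000000000000000000000000000) := T_5 (nat_lit 174) (nat_lit 122) (nat_lit 4) (nat_lit 4) (nat_lit 10) L41878 (by decide +kernel)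
theorem L41880 : W_5 (nat_lit 4) (nat_lit 0x200012001300088000400000000000000000000000000) (nat_lit 0x0) (nat_lit 0x400060001000000004000200010000000000000000000000) := T_5 (nat_lit 105) (nat_lit 88) (nat_lit 4) (nat_lit 4) (nat_lit 9) L41879 (by decide +kernel)
theorem L41881 : W_5 (nat_lit 2) (nat_lit 0x1400240012001300088000e00000000000000000000000000) (nat_lit 0x0) (nat_lit 0x28000800000000000000000000000000000000000000000000000) := D_5 (nat_lit 191) (nat_lit 207) (nat_lit 209) (nat_lit 5) (nat_lit 4) (nat_lit 8) (nat_lit 7) (nat_lit 4) (nat_lit 8) (by decide +kernel)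
theorem L41882 : W_5 (nat_lit 3) (nat_lit 0x400240012001300088000e00000000000000000000000000) (nat_lit 0x0) (nat_lit 0x28001800080000000000000000000000000000000000000000000) := T_5 (nat_lit 192) (nat_lit 175) (nat_lit 7) (nat_lit 4) (nat_lit 7) L41881 (by decide +kernel)
theorem L41883 : W_5 (nat_lit 4) (nat_lit 0x240012001300088000e00000000000000000000000000) (nat_lit 0x0) (nat_lit 0x28001c000a0000000000000000000000000000000000000000000) := T_5 (nat_lit 190) (nat_lit 173) (nat_lit 5) (nat_lit 4) (nat_lit 7) L41882 (by decide +kernel)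
theorem L41884 : W_5 (nat_lit 5) (nat_lit 0x200012001300088000e00000000000000000000000000) (nat_lit 0x0) (nat_lit 0x28001c000e0000000000004000000000000000000000000000000) := T_5 (nat_lit 174) (nat_lit 122) (nat_lit 4) (nat_lit 4) (nat_lit 10) L41883 (by decide +kernel)
theorem L41885 : W_5 (nat_lit 6) (nat_lit 0x200012001300088000c00000000000000000000000000) (nat_lit 0x0) (nat_lit 0x28001c000e0000000000004000200010000000000000000000000) := T_5 (nat_lit 105) (nat_lit 88) (nat_lit 4) (nat_lit 4) (nat_lit 9) L41884 (by decide +kernel)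
theorem L41886 : W_5 (nat_lit 7) (nat_lit 0x200012001300088000400000000000000000000000000) (nat_lit 0x0) (nat_lit 0x28001c000e0000000000004000a00050000000000000000000000) := T_5 (nat_lit 107) (nat_lit 90) (nat_lit 6) (nat_lit 4) (nat_lit 9) L41885 (by decide +kernel)
theorem L41887 : W_5 (nat_lit 2) (nat_lit 0x20001200130008c000e00000000000000000000000000) (nat_lit 0x0) (nat_lit 0x3001000000000000000000000000000) := D_5 (nat_lit 121) (nat_lit 120) (nat_lit 108) (nat_lit 3) (nat_lit 1) (nat_lit 7) (nat_lit 1) (nat_lit 6) (nat_lit 6) (by decide +kernel)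
theorem L41888 : W_5 (nat_lit 3) (nat_lit 0x20001200130008c000600000000000000000000000000) (nat_lit 0x0) (nat_lit 0x3001800040000000000000000000000) := T_5 (nat_lit 107) (nat_lit 90) (nat_lit 6) (nat_lit 4) (nat_lit 9) L41887 (by decide +kernel)
theorem L41889 : W_5 (nat_lit 4) (nat_lit 0x200012001300088000600000000000000000000000000) (nat_lit 0x0) (nat_lit 0x40000000000007001800040000000000000000000000) := T_5 (nat_lit 122) (nat_lit 174) (nat_lit 4) (nat_lit 4) (nat_lit 10) L41888 (by decide +kernel)
theorem L41890 : W_5 (nat_lit 5) (nat_lit 0x200012001300088000400000000000000000000000000) (nat_lit 0x0) (nat_lit 0x40000000000007001a00050000000000000000000000) := T_5 (nat_lit 105) (nat_lit 88) (nat_lit 4) (nat_lit 4) (nat_lit 9) L41889 (by decide +kernel)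
theorem L41891 : W_5 (nat_lit 8) (nat_lit 0x200012001300088000000000000000000000000000000) (nat_lit 0x0) (nat_lit 0x28001c000e0001c00080007001e00070002800000000000000000) := Q_5 (nat_lit 106) (C_5 L41873 (C_5 L41877 (C_5 L41880 (C_5 L41886 (C_5 L41890 N_5))))) (by decide +kernel)
theorem L41892 : W_5 (nat_lit 2) (nat_lit 0x2f801b00138008e000000000000000000000000000000) (nat_lit 0x0) (nat_lit 0xe00000000000000000000000000000000000000) := D_5 (nat_lit 154) (nat_lit 155) (nat_lit 153) (nat_lit 3) (nat_lit 1) (nat_lit 9) (nat_lit 0) (nat_lit 4) (nat_lit 10) (by decide +kernel)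
theorem L41893 : W_5 (nat_lit 3) (nat_lit 0x2f001b00138008e000000000000000000000000000000) (nat_lit 0x0) (nat_lit 0xc000e00000000000000000000000000000000000000) := T_5 (nat_lit 171) (nat_lit 170) (nat_lit 2) (nat_lit 0) (nat_lit 10) L41892 (by decide +kernel)
theorem L41894 : W_5 (nat_lit 4) (nat_lit 0x2e001b00138008e000000000000000000000000000000) (nat_lit 0x0) (nat_lit 0x20001c000e00000000000000000000000000000000000000) := T_5 (nat_lit 172) (nat_lit 189) (nat_lit 5) (nat_lit 3) (nat_lit 7) L41893 (by decide +kernel)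
theorem L41895 : W_5 (nat_lit 5) (nat_lit 0x2e001a00138008e000000000000000000000000000000) (nat_lit 0x0) (nat_lit 0x20001c001e00000000000100000000000000000000000000) := T_5 (nat_lit 156) (nat_lit 104) (nat_lit 4) (nat_lit 3) (nat_lit 10) L41894 (by decide +kernel)
theorem L41896 : W_5 (nat_lit 6) (nat_lit 0x2e001a00138008c000000000000000000000000000000) (nat_lit 0x0) (nat_lit 0x20001c001e00000003000100000000000000000000000000) := T_5 (nat_lit 121) (nat_lit 120) (nat_lit 3) (nat_lit 1) (nat_lit 7) L41895 (by decide +kernel)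
theorem L41897 : W_5 (nat_lit 7) (nat_lit 0x2e001a00130008c000000000000000000000000000000) (nat_lit 0x0) (nat_lit 0xa0001c001e00080003000100000000000000000000000000) := T_5 (nat_lit 139) (nat_lit 191) (nat_lit 4) (nat_lit 4) (nat_lit 11) L41896 (by decide +kernel)
theorem L41898 : W_5 (nat_lit 8) (nat_lit 0x2e001a001300088000000000000000000000000000000) (nat_lit 0x0) (nat_lit 0xa0001c001e00080007000300000000000000000000000000) := T_5 (nat_lit 122) (nat_lit 105) (nat_lit 4) (nat_lit 4) (nat_lit 10) L41897 (by decide +kernel)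
theorem L41899 : W_5 (nat_lit 9) (nat_lit 0x26001a001300088000000000000000000000000000000) (nat_lit 0x0) (nat_lit 0x1a0009c001e00080007000300000000000000000000000000) := T_5 (nat_lit 175) (nat_lit 192) (nat_lit 7) (nat_lit 4) (nat_lit 7) L41898 (by decide +kernel)
theorem L41900 : W_5 (nat_lit 10) (nat_lit 0x260012001300088000000000000000000000000000000) (nat_lit 0x0) (nat_lit 0x1a0009c00de00080007000300000000000000000000000000) := T_5 (nat_lit 159) (nat_lit 158) (nat_lit 1) (nat_lit 7) (nat_lit 9) L41899 (by decide +kernel)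
theorem L41901 : W_5 (nat_lit 11) (nat_lit 0x240012001300088000000000000000000000000000000) (nat_lit 0x0) (nat_lit 0x1e000bc00de00080007000300000000000000000000000000) := T_5 (nat_lit 173) (nat_lit 190) (nat_lit 5) (nat_lit 4) (nat_lit 7) L41900 (by decide +kernel)
theorem L41902 : W_5 (nat_lit 2) (nat_lit 0x80024001200130008c000000000000000000000000000000) (nat_lit 0x0) (nat_lit 0x8000400020000000000000000000000000000000000000000000) := D_5 (nat_lit 190) (nat_lit 207) (nat_lit 173) (nat_lit 5) (nat_lit 4) (nat_lit 8) (nat_lit 5) (nat_lit 4) (nat_lit 7) (by decide +kernel)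
theorem L41903 : W_5 (nat_lit 3) (nat_lit 0x24001200130008c000000000000000000000000000000) (nat_lit 0x0) (nat_lit 0x8000c00020000000080000000000000000000000000000000000) := T_5 (nat_lit 191) (nat_lit 139) (nat_lit 4) (nat_lit 4) (nat_lit 11) L41902 (by decide +kernel)
theorem L41904 : W_5 (nat_lit 4) (nat_lit 0x240012001300088000000000000000000000000000000) (nat_lit 0x0) (nat_lit 0x8000c00020000000080004000200000000000000000000000000) := T_5 (nat_lit 122) (nat_lit 105) (nat_lit 4) (nat_lit 4) (nat_lit 10) L41903 (by decide +kernel)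
theorem L41905 : W_5 (nat_lit 2) (nat_lit 0x26001a001300088000400000000000000000000000000) (nat_lit 0x0) (nat_lit 0x4000200010000000000000000000000) := D_5 (nat_lit 105) (nat_lit 122) (nat_lit 88) (nat_lit 4) (nat_lit 4) (nat_lit 10) (nat_lit 4) (nat_lit 4) (nat_lit 9) (by decide +kernel)
theorem L41906 : W_5 (nat_lit 3) (nat_lit 0x26001a001300088000000000000000000000000000000) (nat_lit 0x0) (nat_lit 0x1000000004000600010000000000000000000000) := T_5 (nat_lit 106) (nat_lit 156) (nat_lit 5) (nat_lit 4) (nat_lit 6) L41905 (by decide +kernel)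
theorem L41907 : W_5 (nat_lit 4) (nat_lit 0x260012001300088000000000000000000000000000000) (nat_lit 0x0) (nat_lit 0xd000000004000600010000000000000000000000) := T_5 (nat_lit 159) (nat_lit 158) (nat_lit 1) (nat_lit 7) (nat_lit 9) L41906 (by decide +kernel)
theorem L41908 : W_5 (nat_lit 5) (nat_lit 0x240012001300088000000000000000000000000000000) (nat_lit 0x0) (nat_lit 0x40002000d000000004000600010000000000000000000000) := T_5 (nat_lit 173) (nat_lit 190) (nat_lit 5) (nat_lit 4) (nat_lit 7) L41907 (by decide +kernel)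
theorem L41909 : W_5 (nat_lit 2) (nat_lit 0x2c0012001300088000400000000000000000000000000) (nat_lit 0x0) (nat_lit 0x4000200010000000000000000000000) := D_5 (nat_lit 105) (nat_lit 88) (nat_lit 122) (nat_lit 4) (nat_lit 4) (nat_lit 9) (nat_lit 4) (nat_lit 4) (nat_lit 10) (by decide +kernel)
theorem L41910 : W_5 (nat_lit 3) (nat_lit 0x2c0012001300088000000000000000000000000000000) (nat_lit 0x0) (nat_lit 0x4000000004000600010000000000000000000000) := T_5 (nat_lit 106) (nat_lit 158) (nat_lit 7) (nat_lit 4) (nat_lit 6) L41909 (by decide +kernel)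
theorem L41911 : W_5 (nat_lit 4) (nat_lit 0x240012001300088000000000000000000000000000000) (nat_lit 0x0) (nat_lit 0x1000080004000000004000600010000000000000000000000) := T_5 (nat_lit 175) (nat_lit 192) (nat_lit 7) (nat_lit 4) (nat_lit 7) L41910 (by decide +kernel)
theorem L41912 : W_5 (nat_lit 2) (nat_lit 0x2c0012001300088000400000000000000000000000000) (nat_lit 0x0) (nat_lit 0x400020001000000000000000000000000000000000000000) := D_5 (nat_lit 173) (nat_lit 190) (nat_lit 156) (nat_lit 5) (nat_lit 4) (nat_lit 7) (nat_lit 5) (nat_lit 4) (nat_lit 6) (by decide +kernel)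
theorem L41913 : W_5 (nat_lit 3) (nat_lit 0x2c0012001300088000000000000000000000000000000) (nat_lit 0x0) (nat_lit 0x400020005000000000000400000000000000000000000000) := T_5 (nat_lit 106) (nat_lit 158) (nat_lit 7) (nat_lit 4) (nat_lit 6) L41912 (by decide +kernel)
theorem L41914 : W_5 (nat_lit 4) (nat_lit 0x240012001300088000000000000000000000000000000) (nat_lit 0x0) (nat_lit 0x14000a0005000000000000400000000000000000000000000) := T_5 (nat_lit 175) (nat_lit 192) (nat_lit 7) (nat_lit 4) (nat_lit 7) L41913 (by decide +kernel)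
theorem L41915 : W_5 (nat_lit 12) (nat_lit 0x200012001300088000000000000000000000000000000) (nat_lit 0x0) (nat_lit 0x8001e000fc00de00080007000700010000000000000000000000) := Q_5 (nat_lit 174) (C_5 L41901 (C_5 L41823 (C_5 L41904 (C_5 L41908 (C_5 L41911 (C_5 L41914 N_5)))))) (by decide +kernel)
theorem L41916 : W_5 (nat_lit 6) (nat_lit 0x200012001300088000000000000000000000000000000) (nat_lit 0x0) (nat_lit 0x400060001c00080007001e00070002800000000000000000) := Q_5 (nat_lit 106) (C_5 L41890 (C_5 L41880 (C_5 L41877 (C_5 L41873 N_5)))) (by decide +kernel)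
theorem L41917 : W_5 (nat_lit 2) (nat_lit 0x200016001300088000000000000000000000000000000) (nat_lit 0x0) (nat_lit 0x28000080000000000000000000000000000000000) := D_5 (nat_lit 159) (nat_lit 139) (nat_lit 161) (nat_lit 0) (nat_lit 7) (nat_lit 9) (nat_lit 0) (nat_lit 8) (nat_lit 9) (by decide +kernel)
theorem L41918 : W_5 (nat_lit 2) (nat_lit 0x200016001300088000000000000000000000000000000) (nat_lit 0x0) (nat_lit 0x80000000000000000400020000000000000000000000) := D_5 (nat_lit 106) (nat_lit 89) (nat_lit 175) (nat_lit 7) (nat_lit 4) (nat_lit 5) (nat_lit 7) (nat_lit 4) (nat_lit 6) (by decide +kernel)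
theorem L41919 : W_5 (nat_lit 3) (nat_lit 0x200012001300088000000000000000000000000000000) (nat_lit 0x0) (nat_lit 0x8002c000080000000400020000000000000000000000) := Q_5 (nat_lit 158) (C_5 L41917 (C_5 L41918 N_5)) (by decide +kernel)
theorem L41920 : W_5 (nat_lit 5) (nat_lit 0x2f001600130008c000000000000000000000000000000) (nat_lit 0x0) (nat_lit 0x300000001c000c0003000000000000000000000000000000) := T_5 (nat_lit 120) (nat_lit 121) (nat_lit 3) (nat_lit 1) (nat_lit 7) L36833 (by decide +kernel)
theorem L41921 : W_5 (nat_lit 6) (nat_lit 0x2f0016001300088000000000000000000000000000000) (nat_lit 0x0) (nat_lit 0x300000001c000c0007000200000000000000000000000000) := T_5 (nat_lit 122) (nat_lit 105) (nat_lit 4) (nat_lit 4) (nat_lit 10) L41920 (by decide +kernel)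
theorem L41922 : W_5 (nat_lit 7) (nat_lit 0x2e0016001300088000000000000000000000000000000) (nat_lit 0x0) (nat_lit 0x300018001c000c0007000200000000000000000000000000) := T_5 (nat_lit 172) (nat_lit 171) (nat_lit 2) (nat_lit 1) (nat_lit 10) L41921 (by decide +kernel)
theorem L41923 : W_5 (nat_lit 8) (nat_lit 0x260016001300088000000000000000000000000000000) (nat_lit 0x0) (nat_lit 0x1300098001c000c0007000200000000000000000000000000) := T_5 (nat_lit 175) (nat_lit 192) (nat_lit 7) (nat_lit 4) (nat_lit 7) L41922 (by decide +kernel)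
theorem L41924 : W_5 (nat_lit 9) (nat_lit 0x260012001300088000000000000000000000000000000) (nat_lit 0x0) (nat_lit 0x130009800dc000c0007000200000000000000000000000000) := T_5 (nat_lit 158) (nat_lit 159) (nat_lit 1) (nat_lit 7) (nat_lit 9) L41923 (by decide +kernel)
theorem L41925 : W_5 (nat_lit 10) (nat_lit 0x240012001300088000000000000000000000000000000) (nat_lit 0x0) (nat_lit 0x17000b800dc000c0007000200000000000000000000000000) := T_5 (nat_lit 173) (nat_lit 190) (nat_lit 5) (nat_lit 4) (nat_lit 7) L41924 (by decide +kernel)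
theorem L41926 : W_5 (nat_lit 2) (nat_lit 0x100026001600130008d000000000000000000000000000000) (nat_lit 0x0) (nat_lit 0x30000800000000000000000000000000000000000000000000000) := D_5 (nat_lit 191) (nat_lit 208) (nat_lit 209) (nat_lit 6) (nat_lit 4) (nat_lit 12) (nat_lit 7) (nat_lit 4) (nat_lit 8) (by decide +kernel)
theorem L41927 : W_5 (nat_lit 3) (nat_lit 0x26001600130008d000000000000000000000000000000) (nat_lit 0x0) (nat_lit 0x30001800080000000000000000000000000000000000000000000) := T_5 (nat_lit 192) (nat_lit 175) (nat_lit 7) (nat_lit 4) (nat_lit 7) L41926 (by decide +kernel)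
theorem L41928 : W_5 (nat_lit 4) (nat_lit 0x26001200130008d000000000000000000000000000000) (nat_lit 0x0) (nat_lit 0x3000180008000c000000000000000000000000000000000000000) := T_5 (nat_lit 158) (nat_lit 159) (nat_lit 1) (nat_lit 7) (nat_lit 9) L41927 (by decide +kernel)
theorem L41929 : W_5 (nat_lit 5) (nat_lit 0x24001200130008d000000000000000000000000000000) (nat_lit 0x0) (nat_lit 0x30001c000a000c000000000000000000000000000000000000000) := T_5 (nat_lit 173) (nat_lit 190) (nat_lit 5) (nat_lit 4) (nat_lit 7) L41928 (by decide +kernel)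
theorem L41930 : W_5 (nat_lit 6) (nat_lit 0x24001200130008c000000000000000000000000000000) (nat_lit 0x0) (nat_lit 0x30001c000a000c000000003000000000000000000000000000000) := T_5 (nat_lit 120) (nat_lit 121) (nat_lit 3) (nat_lit 1) (nat_lit 7) L41929 (by decide +kernel)
theorem L41931 : W_5 (nat_lit 7) (nat_lit 0x240012001300088000000000000000000000000000000) (nat_lit 0x0) (nat_lit 0x30001c000a000c000000007000200000000000000000000000000) := T_5 (nat_lit 122) (nat_lit 105) (nat_lit 4) (nat_lit 4) (nat_lit 10) L41930 (by decide +kernel)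
theorem L41932 : W_5 (nat_lit 2) (nat_lit 0xd002c0016001300088000000000000000000000000000000) (nat_lit 0x0) (nat_lit 0x28000800000000000000000000000000000000000) := D_5 (nat_lit 159) (nat_lit 143) (nat_lit 161) (nat_lit 2) (nat_lit 4) (nat_lit 9) (nat_lit 1) (nat_lit 8) (nat_lit 9) (by decide +kernel)
theorem L41933 : W_5 (nat_lit 3) (nat_lit 0xd002c0012001300088000000000000000000000000000000) (nat_lit 0x0) (nat_lit 0x1000000000002c000800000000000000000000000000000000000) := T_5 (nat_lit 158) (nat_lit 208) (nat_lit 6) (nat_lit 4) (nat_lit 12) L41932 (by decide +kernel)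
theorem L41934 : W_5 (nat_lit 4) (nat_lit 0xc002c0012001300088000000000000000000000000000000) (nat_lit 0x0) (nat_lit 0x1000030000002c000800000000000000000000000000000000000) := T_5 (nat_lit 188) (nat_lit 189) (nat_lit 2) (nat_lit 1) (nat_lit 11) L41933 (by decide +kernel)
theorem L41935 : W_5 (nat_lit 5) (nat_lit 0x4002c0012001300088000000000000000000000000000000) (nat_lit 0x0) (nat_lit 0x18000b0000002c000800000000000000000000000000000000000) := T_5 (nat_lit 191) (nat_lit 207) (nat_lit 5) (nat_lit 4) (nat_lit 8) L41934 (by decide +kernel)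
theorem L41936 : W_5 (nat_lit 6) (nat_lit 0x2c0012001300088000000000000000000000000000000) (nat_lit 0x0) (nat_lit 0x18000f0002002c000800000000000000000000000000000000000) := T_5 (nat_lit 190) (nat_lit 173) (nat_lit 5) (nat_lit 4) (nat_lit 7) L41935 (by decide +kernel)
theorem L41937 : W_5 (nat_lit 7) (nat_lit 0x240012001300088000000000000000000000000000000) (nat_lit 0x0) (nat_lit 0x18001f000a002c000800000000000000000000000000000000000) := T_5 (nat_lit 175) (nat_lit 192) (nat_lit 7) (nat_lit 4) (nat_lit 7) L41936 (by decide +kernel)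
theorem L41938 : W_5 (nat_lit 2) (nat_lit 0x80024001200130008c000000000000000000000000000000) (nat_lit 0x0) (nat_lit 0x20001000080000000000000000000000000000000000000000000) := D_5 (nat_lit 192) (nat_lit 175) (nat_lit 209) (nat_lit 7) (nat_lit 4) (nat_lit 7) (nat_lit 7) (nat_lit 4) (nat_lit 8) (by decide +kernel)
theorem L41939 : W_5 (nat_lit 3) (nat_lit 0x24001200130008c000000000000000000000000000000) (nat_lit 0x0) (nat_lit 0x20001800080000000080000000000000000000000000000000000) := T_5 (nat_lit 191) (nat_lit 139) (nat_lit 4) (nat_lit 4) (nat_lit 11) L41938 (by decide +kernel)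
theorem L41940 : W_5 (nat_lit 4) (nat_lit 0x240012001300088000000000000000000000000000000) (nat_lit 0x0) (nat_lit 0x20001800080000000080004000200000000000000000000000000) := T_5 (nat_lit 122) (nat_lit 105) (nat_lit 4) (nat_lit 4) (nat_lit 10) L41939 (by decide +kernel)
theorem L41941 : W_5 (nat_lit 11) (nat_lit 0x200012001300088000000000000000000000000000000) (nat_lit 0x0) (nat_lit 0x38001f000f802dc008c0007000200000000000000000000000000) := Q_5 (nat_lit 174) (C_5 L41904 (C_5 L41925 (C_5 L41931 (C_5 L41937 (C_5 L41940 N_5))))) (by decide +kernel)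
theorem L41942 : W_5 (nat_lit 2) (nat_lit 0x200012001300088000400000000000000000000000000) (nat_lit 0x0) (nat_lit 0x80004000000000000000020000000000000000000000) := D_5 (nat_lit 158) (nat_lit 175) (nat_lit 89) (nat_lit 7) (nat_lit 4) (nat_lit 6) (nat_lit 7) (nat_lit 4) (nat_lit 5) (by decide +kernel)
theorem L41943 : W_5 (nat_lit 6) (nat_lit 0x200012001300088000000000000000000000000000000) (nat_lit 0x0) (nat_lit 0x4000e0005000000007001e00070000000000000000000000) := Q_5 (nat_lit 106) (C_5 L41890 (C_5 L41880 (C_5 L41942 N_5))) (by decide +kernel)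
theorem L41944 : W_5 (nat_lit 13) (nat_lit 0x200012001300080000000000000000000000000000000) (nat_lit 0x0) (nat_lit 0x38001f000fc02de008c000f001f00070002800000000000000000) := Q_5 (nat_lit 123) (C_5 L41891 (C_5 L41915 (C_5 L41916 (C_5 L41919 (C_5 L41941 (C_5 L41943 N_5)))))) (by decide +kernel)
theorem L41945 : W_5 (nat_lit 2) (nat_lit 0x8002800160013000b0000000000000000000000000000000) (nat_lit 0x0) (nat_lit 0x30001000000000000000000000000000000000000000000000000) := D_5 (nat_lit 192) (nat_lit 209) (nat_lit 208) (nat_lit 4) (nat_lit 5) (nat_lit 12) (nat_lit 5) (nat_lit 5) (nat_lit 8) (by decide +kernel)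
theorem L41946 : W_5 (nat_lit 3) (nat_lit 0x8002000160013000b0000000000000000000000000000000) (nat_lit 0x0) (nat_lit 0x30001000080000000000000001000000000000000000000000000) := T_5 (nat_lit 175) (nat_lit 108) (nat_lit 6) (nat_lit 5) (nat_lit 10) L41945 (by decide +kernel)
theorem L41947 : W_5 (nat_lit 4) (nat_lit 0x2000160013000b0000000000000000000000000000000) (nat_lit 0x0) (nat_lit 0x300018000c0000000000000001000000000000000000000000000) := T_5 (nat_lit 191) (nat_lit 174) (nat_lit 6) (nat_lit 4) (nat_lit 11) L41946 (by decide +kernel)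
theorem L41948 : W_5 (nat_lit 5) (nat_lit 0x200016001300090000000000000000000000000000000) (nat_lit 0x0) (nat_lit 0x300018000c0000000000060001000000000000000000000000000) := T_5 (nat_lit 125) (nat_lit 126) (nat_lit 1) (nat_lit 8) (nat_lit 7) L41947 (by decide +kernel)
theorem L41949 : W_5 (nat_lit 6) (nat_lit 0x200016001300080000000000000000000000000000000) (nat_lit 0x0) (nat_lit 0x300018000c0000000000070003c000e0000000000000000000000) := Q_5 (nat_lit 124) (C_5 L40506 (C_5 L41948 (C_5 L41692 N_5))) (by decide +kernel)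
theorem L41950 : W_5 (nat_lit 2) (nat_lit 0x200016001300080000000000000000000000000000000) (nat_lit 0x0) (nat_lit 0x28000080000000000000000000000000000000000) := D_5 (nat_lit 159) (nat_lit 139) (nat_lit 161) (nat_lit 0) (nat_lit 7) (nat_lit 9) (nat_lit 0) (nat_lit 8) (nat_lit 9) (by decide +kernel)
theorem L41951 : W_5 (nat_lit 7) (nat_lit 0x200012001300080000000000000000000000000000000) (nat_lit 0x0) (nat_lit 0x300018000c002c000080070003c000e0000000000000000000000) := Q_5 (nat_lit 158) (C_5 L41949 (C_5 L41950 N_5)) (by decide +kernel)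
theorem L41952 : W_5 (nat_lit 11) (nat_lit 0x240012001300080000000000000000000000000000000) (nat_lit 0x0) (nat_lit 0x17000bc00de000c000f000700010000000000000000000000) := Q_5 (nat_lit 123) (C_5 L41925 (C_5 L41823 (C_5 L41908 (C_5 L41911 (C_5 L41914 N_5))))) (by decide +kernel)
theorem L41953 : W_5 (nat_lit 12) (nat_lit 0x200012001300080000000000000000000000000000000) (nat_lit 0x0) (nat_lit 0xe00070003c001f800fc00de000c001f000700030000000000000000000000) := Q_5 (nat_lit 174) (C_5 L41849 (C_5 L41790 (C_5 L41791 (C_5 L41952 (C_5 L41847 (C_5 L41848 N_5)))))) (by decide +kernel)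
theorem L41954 : W_5 (nat_lit 2) (nat_lit 0x26001a0013400de000100000000000000000000000000) (nat_lit 0x0) (nat_lit 0x1800080000000000000000000000000000000000) := D_5 (nat_lit 156) (nat_lit 139) (nat_lit 155) (nat_lit 4) (nat_lit 3) (nat_lit 10) (nat_lit 7) (nat_lit 2) (nat_lit 6) (by decide +kernel)
theorem L41955 : W_5 (nat_lit 3) (nat_lit 0x26001a0013400de000000000000000000000000000000) (nat_lit 0x0) (nat_lit 0x1800080000000180000000000000000000000000) := T_5 (nat_lit 104) (nat_lit 103) (nat_lit 0) (nat_lit 5) (nat_lit 7) L41954 (by decide +kernel)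
theorem L41956 : W_5 (nat_lit 4) (nat_lit 0x26001a0013000de000000000000000000000000000000) (nat_lit 0x0) (nat_lit 0x18000e0000000180000000000000000000000000) := T_5 (nat_lit 138) (nat_lit 137) (nat_lit 1) (nat_lit 5) (nat_lit 7) L41955 (by decide +kernel)
theorem L41957 : W_5 (nat_lit 5) (nat_lit 0x2600120013000de000000000000000000000000000000) (nat_lit 0x0) (nat_lit 0xd8000e0000000180000000000000000000000000) := T_5 (nat_lit 159) (nat_lit 158) (nat_lit 1) (nat_lit 7) (nat_lit 9) L41956 (by decide +kernel)
theorem L41958 : W_5 (nat_lit 6) (nat_lit 0x2400120013000de000000000000000000000000000000) (nat_lit 0x0) (nat_lit 0x40002000d8000e0000000180000000000000000000000000) := T_5 (nat_lit 173) (nat_lit 190) (nat_lit 5) (nat_lit 4) (nat_lit 7) L41957 (by decide +kernel)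
theorem L41959 : W_5 (nat_lit 7) (nat_lit 0x2400120013000dc000000000000000000000000000000) (nat_lit 0x0) (nat_lit 0x40002000d8000e0003000180000000000000000000000000) := T_5 (nat_lit 121) (nat_lit 120) (nat_lit 3) (nat_lit 1) (nat_lit 7) L41958 (by decide +kernel)
theorem L41960 : W_5 (nat_lit 8) (nat_lit 0x2400120013000d8000000000000000000000000000000) (nat_lit 0x0) (nat_lit 0x40002000d8000e0007000380000000000000000000000000) := T_5 (nat_lit 122) (nat_lit 105) (nat_lit 4) (nat_lit 4) (nat_lit 10) L41959 (by decide +kernel)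
theorem L41961 : W_5 (nat_lit 9) (nat_lit 0x2000120013000d8000000000000000000000000000000) (nat_lit 0x0) (nat_lit 0xc0006000d8000e0007000380000000000000000000000000) := T_5 (nat_lit 174) (nat_lit 191) (nat_lit 6) (nat_lit 4) (nat_lit 11) L41960 (by decide +kernel)
theorem L41962 : W_5 (nat_lit 10) (nat_lit 0x200012001300098000000000000000000000000000000) (nat_lit 0x0) (nat_lit 0xc0006000d8000e0067000380000000000000000000000000) := T_5 (nat_lit 126) (nat_lit 125) (nat_lit 1) (nat_lit 8) (nat_lit 7) L41961 (by decide +kernel)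
theorem L41963 : W_5 (nat_lit 2) (nat_lit 0x26001600130009d000000000000000000000000000000) (nat_lit 0x0) (nat_lit 0x1000000000000400020000000000000000000000) := D_5 (nat_lit 106) (nat_lit 156) (nat_lit 89) (nat_lit 5) (nat_lit 4) (nat_lit 6) (nat_lit 7) (nat_lit 4) (nat_lit 5) (by decide +kernel)
theorem L41964 : W_5 (nat_lit 3) (nat_lit 0x26001200130009d000000000000000000000000000000) (nat_lit 0x0) (nat_lit 0xd000000000000400020000000000000000000000) := T_5 (nat_lit 158) (nat_lit 159) (nat_lit 1) (nat_lit 7) (nat_lit 9) L41963 (by decide +kernel)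
theorem L41965 : W_5 (nat_lit 4) (nat_lit 0x24001200130009d000000000000000000000000000000) (nat_lit 0x0) (nat_lit 0x40002000d000000000000400020000000000000000000000) := T_5 (nat_lit 173) (nat_lit 190) (nat_lit 5) (nat_lit 4) (nat_lit 7) L41964 (by decide +kernel)
theorem L41966 : W_5 (nat_lit 5) (nat_lit 0x24001200130009c000000000000000000000000000000) (nat_lit 0x0) (nat_lit 0x40002000d000000003000400020000000000000000000000) := T_5 (nat_lit 120) (nat_lit 121) (nat_lit 3) (nat_lit 1) (nat_lit 7) L41965 (by decide +kernel)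
theorem L41967 : W_5 (nat_lit 6) (nat_lit 0x240012001300098000000000000000000000000000000) (nat_lit 0x0) (nat_lit 0x40002000d000000007000600020000000000000000000000) := T_5 (nat_lit 122) (nat_lit 105) (nat_lit 4) (nat_lit 4) (nat_lit 10) L41966 (by decide +kernel)
theorem L41968 : W_5 (nat_lit 7) (nat_lit 0x200012001300098000000000000000000000000000000) (nat_lit 0x0) (nat_lit 0xc0006000d000000007000600020000000000000000000000) := T_5 (nat_lit 174) (nat_lit 191) (nat_lit 6) (nat_lit 4) (nat_lit 11) L41967 (by decide +kernel)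
theorem L41969 : W_5 (nat_lit 2) (nat_lit 0x2600130013000de000000000000000000000000000000) (nat_lit 0x0) (nat_lit 0x80000000180000000000000000000000000) := D_5 (nat_lit 104) (nat_lit 103) (nat_lit 139) (nat_lit 0) (nat_lit 5) (nat_lit 7) (nat_lit 4) (nat_lit 3) (nat_lit 10) (by decide +kernel)
theorem L41970 : W_5 (nat_lit 3) (nat_lit 0x2600120013000de000000000000000000000000000000) (nat_lit 0x0) (nat_lit 0x1000080000000580000000000000000000000000) := T_5 (nat_lit 156) (nat_lit 106) (nat_lit 5) (nat_lit 4) (nat_lit 6) L41969 (by decide +kernel)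
theorem L41971 : W_5 (nat_lit 4) (nat_lit 0x2600120013000dc000000000000000000000000000000) (nat_lit 0x0) (nat_lit 0x1000080003000580000000000000000000000000) := T_5 (nat_lit 121) (nat_lit 120) (nat_lit 3) (nat_lit 1) (nat_lit 7) L41970 (by decide +kernel)
theorem L41972 : W_5 (nat_lit 5) (nat_lit 0x2600120013000d8000000000000000000000000000000) (nat_lit 0x0) (nat_lit 0x1000080007000780000000000000000000000000) := T_5 (nat_lit 122) (nat_lit 105) (nat_lit 4) (nat_lit 4) (nat_lit 10) L41971 (by decide +kernel)
theorem L41973 : W_5 (nat_lit 6) (nat_lit 0x2400120013000d8000000000000000000000000000000) (nat_lit 0x0) (nat_lit 0x400020001000080007000780000000000000000000000000) := T_5 (nat_lit 173) (nat_lit 190) (nat_lit 5) (nat_lit 4) (nat_lit 7) L41972 (by decide +kernel)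
theorem L41974 : W_5 (nat_lit 7) (nat_lit 0x240012001300098000000000000000000000000000000) (nat_lit 0x0) (nat_lit 0x400020001000080067000780000000000000000000000000) := T_5 (nat_lit 126) (nat_lit 125) (nat_lit 1) (nat_lit 8) (nat_lit 7) L41973 (by decide +kernel)
theorem L41975 : W_5 (nat_lit 8) (nat_lit 0x200012001300098000000000000000000000000000000) (nat_lit 0x0) (nat_lit 0xc00060001000080067000780000000000000000000000000) := T_5 (nat_lit 174) (nat_lit 191) (nat_lit 6) (nat_lit 4) (nat_lit 11) L41974 (by decide +kernel)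
theorem L41976 : W_5 (nat_lit 2) (nat_lit 0x2000160013800b8000600000000000000000000000000) (nat_lit 0x0) (nat_lit 0x40000000000004000100000000000000000000000000) := D_5 (nat_lit 122) (nat_lit 174) (nat_lit 104) (nat_lit 4) (nat_lit 4) (nat_lit 10) (nat_lit 0) (nat_lit 6) (nat_lit 7) (by decide +kernel)
theorem L41977 : W_5 (nat_lit 3) (nat_lit 0x2000160013800b8000400000000000000000000000000) (nat_lit 0x0) (nat_lit 0x40000000000004000300010000000000000000000000) := T_5 (nat_lit 105) (nat_lit 88) (nat_lit 4) (nat_lit 4) (nat_lit 9) L41976 (by decide +kernel)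
theorem L41978 : W_5 (nat_lit 4) (nat_lit 0x2000160013800b8000000000000000000000000000000) (nat_lit 0x0) (nat_lit 0x40000000000004000700030000000000000000000000) := T_5 (nat_lit 106) (nat_lit 89) (nat_lit 7) (nat_lit 4) (nat_lit 5) L41977 (by decide +kernel)
theorem L41979 : W_5 (nat_lit 5) (nat_lit 0x2000120013800b8000000000000000000000000000000) (nat_lit 0x0) (nat_lit 0x4000c000000004000700030000000000000000000000) := T_5 (nat_lit 158) (nat_lit 159) (nat_lit 0) (nat_lit 7) (nat_lit 9) L41978 (by decide +kernel)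
theorem L41980 : W_5 (nat_lit 6) (nat_lit 0x2000120013000b8000000000000000000000000000000) (nat_lit 0x0) (nat_lit 0x4000c0000c0004000700030000000000000000000000) := T_5 (nat_lit 139) (nat_lit 138) (nat_lit 2) (nat_lit 2) (nat_lit 8) L41979 (by decide +kernel)
theorem L41981 : W_5 (nat_lit 7) (nat_lit 0x200012001300098000000000000000000000000000000) (nat_lit 0x0) (nat_lit 0x4000c0000c0064000700030000000000000000000000) := T_5 (nat_lit 125) (nat_lit 126) (nat_lit 1) (nat_lit 8) (nat_lit 7) L41980 (by decide +kernel)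
theorem L41982 : W_5 (nat_lit 2) (nat_lit 0x2000160013800b8000600000000000000000000000000) (nat_lit 0x0) (nat_lit 0x4000180000000000000000000000000) := D_5 (nat_lit 104) (nat_lit 103) (nat_lit 122) (nat_lit 3) (nat_lit 1) (nat_lit 6) (nat_lit 0) (nat_lit 6) (nat_lit 7) (by decide +kernel)
theorem L41983 : W_5 (nat_lit 3) (nat_lit 0x2000160013800b8000400000000000000000000000000) (nat_lit 0x0) (nat_lit 0x4000380010000000000000000000000) := T_5 (nat_lit 105) (nat_lit 88) (nat_lit 4) (nat_lit 4) (nat_lit 9) L41982 (by decide +kernel)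
theorem L41984 : W_5 (nat_lit 4) (nat_lit 0x2000160013800b8000000000000000000000000000000) (nat_lit 0x0) (nat_lit 0x4000780030000000000000000000000) := T_5 (nat_lit 106) (nat_lit 89) (nat_lit 7) (nat_lit 4) (nat_lit 5) L41983 (by decide +kernel)
theorem L41985 : W_5 (nat_lit 5) (nat_lit 0x2000120013800b8000000000000000000000000000000) (nat_lit 0x0) (nat_lit 0xc000000004000780030000000000000000000000) := T_5 (nat_lit 158) (nat_lit 159) (nat_lit 0) (nat_lit 7) (nat_lit 9) L41984 (by decide +kernel)
theorem L41986 : W_5 (nat_lit 6) (nat_lit 0x2000120013000b8000000000000000000000000000000) (nat_lit 0x0) (nat_lit 0xc0000c0004000780030000000000000000000000) := T_5 (nat_lit 139) (nat_lit 138) (nat_lit 2) (nat_lit 2) (nat_lit 8) L41985 (by decide +kernel)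
theorem L41987 : W_5 (nat_lit 7) (nat_lit 0x200012001300098000000000000000000000000000000) (nat_lit 0x0) (nat_lit 0xc0000c0064000780030000000000000000000000) := T_5 (nat_lit 125) (nat_lit 126) (nat_lit 1) (nat_lit 8) (nat_lit 7) L41986 (by decide +kernel)
theorem L41988 : W_5 (nat_lit 2) (nat_lit 0x26001a0013000d8000400010000000000000000000000) (nat_lit 0x0) (nat_lit 0x20001800000000000000000) := D_5 (nat_lit 89) (nat_lit 72) (nat_lit 71) (nat_lit 7) (nat_lit 4) (nat_lit 4) (nat_lit 4) (nat_lit 4) (nat_lit 8) (by decide +kernel)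
theorem L41989 : W_5 (nat_lit 3) (nat_lit 0x26001a0013000d8000400000000000000000000000000) (nat_lit 0x0) (nat_lit 0x200030001800000000000000000) := T_5 (nat_lit 88) (nat_lit 105) (nat_lit 4) (nat_lit 4) (nat_lit 9) L41988 (by decide +kernel)
theorem L41990 : W_5 (nat_lit 4) (nat_lit 0x26001a0013000d8000000000000000000000000000000) (nat_lit 0x0) (nat_lit 0x1000000000000600030001800000000000000000) := T_5 (nat_lit 106) (nat_lit 156) (nat_lit 5) (nat_lit 4) (nat_lit 6) L41989 (by decide +kernel)
theorem L41991 : W_5 (nat_lit 5) (nat_lit 0x2600120013000d8000000000000000000000000000000) (nat_lit 0x0) (nat_lit 0xd000000000000600030001800000000000000000) := T_5 (nat_lit 159) (nat_lit 158) (nat_lit 1) (nat_lit 7) (nat_lit 9) L41990 (by decide +kernel)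
theorem L41992 : W_5 (nat_lit 6) (nat_lit 0x2400120013000d8000000000000000000000000000000) (nat_lit 0x0) (nat_lit 0x40002000d000000000000600030001800000000000000000) := T_5 (nat_lit 173) (nat_lit 190) (nat_lit 5) (nat_lit 4) (nat_lit 7) L41991 (by decide +kernel)
theorem L41993 : W_5 (nat_lit 7) (nat_lit 0x2000120013000d8000000000000000000000000000000) (nat_lit 0x0) (nat_lit 0xc0006000d000000000000600030001800000000000000000) := T_5 (nat_lit 174) (nat_lit 191) (nat_lit 6) (nat_lit 4) (nat_lit 11) L41992 (by decide +kernel)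
theorem L41994 : W_5 (nat_lit 8) (nat_lit 0x200012001300098000000000000000000000000000000) (nat_lit 0x0) (nat_lit 0xc0006000d000000060000600030001800000000000000000) := T_5 (nat_lit 126) (nat_lit 125) (nat_lit 1) (nat_lit 8) (nat_lit 7) L41993 (by decide +kernel)
theorem L41995 : W_5 (nat_lit 2) (nat_lit 0x2600160013000d8000000000000000000000000000000) (nat_lit 0x0) (nat_lit 0x1000000000000400020000000000000000000000) := D_5 (nat_lit 106) (nat_lit 156) (nat_lit 89) (nat_lit 5) (nat_lit 4) (nat_lit 6) (nat_lit 7) (nat_lit 4) (nat_lit 5) (by decide +kernel)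
theorem L41996 : W_5 (nat_lit 3) (nat_lit 0x2600120013000d8000000000000000000000000000000) (nat_lit 0x0) (nat_lit 0xd000000000000400020000000000000000000000) := T_5 (nat_lit 158) (nat_lit 159) (nat_lit 1) (nat_lit 7) (nat_lit 9) L41995 (by decide +kernel)
theorem L41997 : W_5 (nat_lit 4) (nat_lit 0x2400120013000d8000000000000000000000000000000) (nat_lit 0x0) (nat_lit 0x40002000d000000000000400020000000000000000000000) := T_5 (nat_lit 173) (nat_lit 190) (nat_lit 5) (nat_lit 4) (nat_lit 7) L41996 (by decide +kernel)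
theorem L41998 : W_5 (nat_lit 5) (nat_lit 0x240012001300098000000000000000000000000000000) (nat_lit 0x0) (nat_lit 0x40002000d000000060000400020000000000000000000000) := T_5 (nat_lit 126) (nat_lit 125) (nat_lit 1) (nat_lit 8) (nat_lit 7) L41997 (by decide +kernel)
theorem L41999 : W_5 (nat_lit 6) (nat_lit 0x200012001300098000000000000000000000000000000) (nat_lit 0x0) (nat_lit 0xc0006000d000000060000400020000000000000000000000) := T_5 (nat_lit 174) (nat_lit 191) (nat_lit 6) (nat_lit 4) (nat_lit 11) L41998 (by decide +kernel)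
theorem L42000 : W_5 (nat_lit 11) (nat_lit 0x200012001300090000000000000000000000000000000) (nat_lit 0x0) (nat_lit 0xc0006000d8000e006f000780030001800000000000000000) := Q_5 (nat_lit 123) (C_5 L41962 (C_5 L41968 (C_5 L41975 (C_5 L41981 (C_5 L41987 (C_5 L41994 (C_5 L41999 N_5))))))) (by decide +kernel)
theorem L42001 : W_5 (nat_lit 2) (nat_lit 0x2000120013000d0000800000000000000000000000000) (nat_lit 0x0) (nat_lit 0x40004000000008000000000000000000000000000000) := D_5 (nat_lit 174) (nat_lit 158) (nat_lit 123) (nat_lit 5) (nat_lit 5) (nat_lit 6) (nat_lit 6) (nat_lit 4) (nat_lit 10) (by decide +kernel)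
theorem L42002 : W_5 (nat_lit 3) (nat_lit 0x2000120013000d0000000000000000000000000000000) (nat_lit 0x0) (nat_lit 0x40004000000008000800040000000000000000000000) := T_5 (nat_lit 107) (nat_lit 90) (nat_lit 5) (nat_lit 5) (nat_lit 5) L42001 (by decide +kernel)
theorem L42003 : W_5 (nat_lit 4) (nat_lit 0x200012001300090000000000000000000000000000000) (nat_lit 0x0) (nat_lit 0x40004000000068000800040000000000000000000000) := T_5 (nat_lit 126) (nat_lit 125) (nat_lit 1) (nat_lit 8) (nat_lit 7) L42002 (by decide +kernel)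
theorem L42004 : W_5 (nat_lit 2) (nat_lit 0x2000160013800b0001e00000000000000000000000000) (nat_lit 0x0) (nat_lit 0x8000000018000000000000000000000) := D_5 (nat_lit 88) (nat_lit 87) (nat_lit 123) (nat_lit 0) (nat_lit 6) (nat_lit 6) (nat_lit 4) (nat_lit 4) (nat_lit 9) (by decide +kernel)
theorem L42005 : W_5 (nat_lit 3) (nat_lit 0x2000160013800b0001c00000000000000000000000000) (nat_lit 0x0) (nat_lit 0x8000300018000000000000000000000) := T_5 (nat_lit 105) (nat_lit 104) (nat_lit 3) (nat_lit 2) (nat_lit 6) L42004 (by decide +kernel)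
theorem L42006 : W_5 (nat_lit 4) (nat_lit 0x2000160013800b0001800000000000000000000000000) (nat_lit 0x0) (nat_lit 0x8000700038000000000000000000000) := T_5 (nat_lit 106) (nat_lit 89) (nat_lit 4) (nat_lit 5) (nat_lit 9) L42005 (by decide +kernel)
theorem L42007 : W_5 (nat_lit 5) (nat_lit 0x2000160013800b0000800000000000000000000000000) (nat_lit 0x0) (nat_lit 0x80017000b8000000000000000000000) := T_5 (nat_lit 108) (nat_lit 91) (nat_lit 6) (nat_lit 5) (nat_lit 9) L42006 (by decide +kernel)
theorem L42008 : W_5 (nat_lit 6) (nat_lit 0x2000120013800b0000800000000000000000000000000) (nat_lit 0x0) (nat_lit 0xc0000000080017000b8000000000000000000000) := T_5 (nat_lit 158) (nat_lit 159) (nat_lit 0) (nat_lit 7) (nat_lit 9) L42007 (by decide +kernel)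
theorem L42009 : W_5 (nat_lit 7) (nat_lit 0x2000120013000b0000800000000000000000000000000) (nat_lit 0x0) (nat_lit 0xc0000c00080017000b8000000000000000000000) := T_5 (nat_lit 139) (nat_lit 138) (nat_lit 2) (nat_lit 2) (nat_lit 8) L42008 (by decide +kernel)
theorem L42010 : W_5 (nat_lit 8) (nat_lit 0x200012001300090000800000000000000000000000000) (nat_lit 0x0) (nat_lit 0xc0000c00680017000b8000000000000000000000) := T_5 (nat_lit 125) (nat_lit 126) (nat_lit 1) (nat_lit 8) (nat_lit 7) L42009 (by decide +kernel)
theorem L42011 : W_5 (nat_lit 9) (nat_lit 0x200012001300090000000000000000000000000000000) (nat_lit 0x0) (nat_lit 0xc0000c0068001f000f8000000000000000000000) := T_5 (nat_lit 107) (nat_lit 90) (nat_lit 5) (nat_lit 5) (nat_lit 5) L42010 (by decide +kernel)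
theorem L42012 : W_5 (nat_lit 12) (nat_lit 0x200012001300080000000000000000000000000000000) (nat_lit 0x0) (nat_lit 0xc0006000d8000e007f001f800f8001800000000000000000) := Q_5 (nat_lit 124) (C_5 L41718 (C_5 L41716 (C_5 L42000 (C_5 L42003 (C_5 L42011 N_5))))) (by decide +kernel)
theorem L42013 : W_5 (nat_lit 6) (nat_lit 0x200016001300080000000000000000000000000000000) (nat_lit 0x0) (nat_lit 0x10000c00000000c0078001c00040000000000000000000000) := Q_5 (nat_lit 124) (C_5 L40506 (C_5 L40515 N_5)) (by decide +kernel)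
theorem L42014 : W_5 (nat_lit 2) (nat_lit 0x200016001300080000000000000000000000000000000) (nat_lit 0x0) (nat_lit 0x28000800000000000000000000000000000000000) := D_5 (nat_lit 159) (nat_lit 143) (nat_lit 161) (nat_lit 2) (nat_lit 4) (nat_lit 9) (nat_lit 0) (nat_lit 8) (nat_lit 9) (by decide +kernel)
theorem L42015 : W_5 (nat_lit 7) (nat_lit 0x200012001300080000000000000000000000000000000) (nat_lit 0x0) (nat_lit 0x10000c002c0008c0078001c00040000000000000000000000) := Q_5 (nat_lit 158) (C_5 L42013 (C_5 L41950 (C_5 L42014 N_5))) (by decide +kernel)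
theorem L42016 : W_5 (nat_lit 13) (nat_lit 0x200016001300080000000000000000000000000000000) (nat_lit 0x0) (nat_lit 0x200010000a0001c000c007f003f800fc000000000000000000000) := Q_5 (nat_lit 124) (C_5 L41692 (C_5 L41697 (C_5 L41713 (C_5 L41702 (C_5 L40515 N_5))))) (by decide +kernel)
theorem L42017 : W_5 (nat_lit 14) (nat_lit 0x200012001300080000000000000000000000000000000) (nat_lit 0x0) (nat_lit 0x200010000a002dc008c007f003f800fc000000000000000000000) := Q_5 (nat_lit 158) (C_5 L42016 (C_5 L42014 N_5)) (by decide +kernel)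
theorem L42018 : W_5 (nat_lit 2) (nat_lit 0x240016001300080000000000000000000000000000000) (nat_lit 0x0) (nat_lit 0x800000000000000010000800000000000000000000000000) := D_5 (nat_lit 124) (nat_lit 107) (nat_lit 191) (nat_lit 5) (nat_lit 5) (nat_lit 6) (nat_lit 6) (nat_lit 4) (nat_lit 11) (by decide +kernel)
theorem L42019 : W_5 (nat_lit 2) (nat_lit 0x3c002d00160013a0080000000000000000000000000000000) (nat_lit 0x0) (nat_lit 0x300008000000000000000000000000000000000000000000) := D_5 (nat_lit 189) (nat_lit 188) (nat_lit 171) (nat_lit 2) (nat_lit 1) (nat_lit 11) (nat_lit 0) (nat_lit 5) (nat_lit 11) (by decide +kernel)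
theorem L42020 : W_5 (nat_lit 3) (nat_lit 0x38002d00160013a0080000000000000000000000000000000) (nat_lit 0x0) (nat_lit 0x8000700008000000000000000000000000000000000000000000) := T_5 (nat_lit 190) (nat_lit 207) (nat_lit 5) (nat_lit 4) (nat_lit 8) L42019 (by decide +kernel)
theorem L42021 : W_5 (nat_lit 4) (nat_lit 0x38002d0016001380080000000000000000000000000000000) (nat_lit 0x0) (nat_lit 0x8000700008000000060000000000000000000000000000000000) := T_5 (nat_lit 137) (nat_lit 138) (nat_lit 3) (nat_lit 1) (nat_lit 8) L42020 (by decide +kernel)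
theorem L42022 : W_5 (nat_lit 5) (nat_lit 0x38002d0016001300080000000000000000000000000000000) (nat_lit 0x0) (nat_lit 0x80007000080000000e0004000000000000000000000000000000) := T_5 (nat_lit 139) (nat_lit 122) (nat_lit 4) (nat_lit 4) (nat_lit 11) L42021 (by decide +kernel)
theorem L42023 : W_5 (nat_lit 6) (nat_lit 0x38002c0016001300080000000000000000000000000000000) (nat_lit 0x0) (nat_lit 0x80007000380000000e0004000000000000000000000000000000) := T_5 (nat_lit 172) (nat_lit 173) (nat_lit 3) (nat_lit 2) (nat_lit 10) L42022 (by decide +kernel)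
theorem L42024 : W_5 (nat_lit 7) (nat_lit 0x18002c0016001300080000000000000000000000000000000) (nat_lit 0x0) (nat_lit 0x480027000380000000e0004000000000000000000000000000000) := T_5 (nat_lit 193) (nat_lit 210) (nat_lit 7) (nat_lit 5) (nat_lit 8) L42023 (by decide +kernel)
theorem L42025 : W_5 (nat_lit 8) (nat_lit 0x1800240016001300080000000000000000000000000000000) (nat_lit 0x0) (nat_lit 0x480027000b80000000e000c000000000000000000000000000000) := T_5 (nat_lit 175) (nat_lit 123) (nat_lit 7) (nat_lit 4) (nat_lit 7) L42024 (by decide +kernel)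
theorem L42026 : W_5 (nat_lit 9) (nat_lit 0x800240016001300080000000000000000000000000000000) (nat_lit 0x0) (nat_lit 0x680037000b80000000e000c000000000000000000000000000000) := T_5 (nat_lit 192) (nat_lit 209) (nat_lit 7) (nat_lit 4) (nat_lit 8) L42025 (by decide +kernel)
theorem L42027 : W_5 (nat_lit 10) (nat_lit 0x240016001300080000000000000000000000000000000) (nat_lit 0x0) (nat_lit 0x78003f000b80000000e000c000000000000000000000000000000) := T_5 (nat_lit 191) (nat_lit 208) (nat_lit 6) (nat_lit 4) (nat_lit 12) L42026 (by decide +kernel)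
theorem L42028 : W_5 (nat_lit 2) (nat_lit 0x2c00160013400b0000000000000000000000000000000) (nat_lit 0x0) (nat_lit 0x20001000000000000000008000000000000000000000000000000) := D_5 (nat_lit 192) (nat_lit 123) (nat_lit 209) (nat_lit 7) (nat_lit 4) (nat_lit 7) (nat_lit 4) (nat_lit 5) (nat_lit 12) (by decide +kernel)
theorem L42029 : W_5 (nat_lit 3) (nat_lit 0x2400160013400b0000000000000000000000000000000) (nat_lit 0x0) (nat_lit 0x20001000080000000000008001000000000000000000000000000) := T_5 (nat_lit 175) (nat_lit 108) (nat_lit 6) (nat_lit 5) (nat_lit 10) L42028 (by decide +kernel)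
theorem L42030 : W_5 (nat_lit 4) (nat_lit 0x2400160013000b0000000000000000000000000000000) (nat_lit 0x0) (nat_lit 0x200010000800000000c0008001000000000000000000000000000) := T_5 (nat_lit 138) (nat_lit 139) (nat_lit 2) (nat_lit 2) (nat_lit 8) L42029 (by decide +kernel)
theorem L42031 : W_5 (nat_lit 5) (nat_lit 0x240016001300090000000000000000000000000000000) (nat_lit 0x0) (nat_lit 0x200010000800000000c0068001000000000000000000000000000) := T_5 (nat_lit 125) (nat_lit 126) (nat_lit 1) (nat_lit 8) (nat_lit 7) L42030 (by decide +kernel)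
theorem L42032 : W_5 (nat_lit 6) (nat_lit 0x240016001300080000000000000000000000000000000) (nat_lit 0x0) (nat_lit 0x200010000800000000c0078001800000000000000000000000000) := T_5 (nat_lit 124) (nat_lit 107) (nat_lit 5) (nat_lit 5) (nat_lit 6) L42031 (by decide +kernel)
theorem L42033 : W_5 (nat_lit 11) (nat_lit 0x200016001300080000000000000000000000000000000) (nat_lit 0x0) (nat_lit 0x78003f000f80000000e007c001800000000000000000000000000) := Q_5 (nat_lit 174) (C_5 L42018 (C_5 L42027 (C_5 L42032 N_5))) (by decide +kernel)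
theorem L42034 : W_5 (nat_lit 12) (nat_lit 0x200012001300080000000000000000000000000000000) (nat_lit 0x0) (nat_lit 0x78003f000f802c0008e007c001800000000000000000000000000) := Q_5 (nat_lit 158) (C_5 L42033 (C_5 L42014 N_5)) (by decide +kernel)
theorem L42035 : W_5 (nat_lit 7) (nat_lit 0x200012001300080000000000000000000000000000000) (nat_lit 0x0) (nat_lit 0x300018000c002c000800070003c000e0000000000000000000000) := Q_5 (nat_lit 158) (C_5 L41949 (C_5 L42014 N_5)) (by decide +kernel)
theorem L42036 : W_5 (nat_lit 15) (nat_lit 0x200010001300080000000000000000000000000000000) (nat_lit 0x0) (nat_lit 0xe00070007c003f800fc02fe008e007f003f800fc003800040000000000000) := Q_5 (nat_lit 157) (C_5 L41759 (C_5 L41850 (C_5 L41869 (C_5 L41944 (C_5 L41951 (C_5 L41953 (C_5 L42012 (C_5 L42015 (C_5 L42017 (C_5 L42034 (C_5 L42035 N_5))))))))))) (by decide +kernel)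
theorem L42037 : W_5 (nat_lit 2) (nat_lit 0x24001e001300080000000000000000000000000000000) (nat_lit 0x0) (nat_lit 0x800000000000000010000800000000000000000000000000) := D_5 (nat_lit 124) (nat_lit 107) (nat_lit 191) (nat_lit 5) (nat_lit 5) (nat_lit 6) (nat_lit 6) (nat_lit 4) (nat_lit 11) (by decide +kernel)
theorem L42038 : W_5 (nat_lit 3) (nat_lit 0x20001e001300080000000000000000000000000000000) (nat_lit 0x0) (nat_lit 0x800060000000000010000800000000000000000000000000) := T_5 (nat_lit 174) (nat_lit 173) (nat_lit 1) (nat_lit 7) (nat_lit 9) L42037 (by decide +kernel)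
theorem L42039 : W_5 (nat_lit 4) (nat_lit 0x200016001300080000000000000000000000000000000) (nat_lit 0x0) (nat_lit 0x800060008000800010000800000000000000000000000000) := T_5 (nat_lit 159) (nat_lit 143) (nat_lit 2) (nat_lit 4) (nat_lit 9) L42038 (by decide +kernel)
theorem L42040 : W_5 (nat_lit 8) (nat_lit 0x200014001300080000000000000000000000000000000) (nat_lit 0x0) (nat_lit 0x18000e000a0008c0078003c000e0000000000000000000000) := Q_5 (nat_lit 157) (C_5 L40505 (C_5 L40609 (C_5 L42039 N_5))) (by decide +kernel)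
theorem L42041 : W_5 (nat_lit 4) (nat_lit 0x20001c001300080000000000000000000000000000000) (nat_lit 0x0) (nat_lit 0x800060002000800010000800000000000000000000000000) := T_5 (nat_lit 157) (nat_lit 143) (nat_lit 2) (nat_lit 4) (nat_lit 9) L42038 (by decide +kernel)
theorem L42042 : W_5 (nat_lit 5) (nat_lit 0x200014001300080000000000000000000000000000000) (nat_lit 0x0) (nat_lit 0x80006002a000800010000800000000000000000000000000) := T_5 (nat_lit 159) (nat_lit 161) (nat_lit 0) (nat_lit 8) (nat_lit 9) L42041 (by decide +kernel)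
theorem L42043 : W_5 (nat_lit 9) (nat_lit 0x200010001300080000000000000000000000000000000) (nat_lit 0x0) (nat_lit 0x38001e002e0008c0078003c000e0000000000000000000000) := Q_5 (nat_lit 158) (C_5 L40602 (C_5 L38631 (C_5 L40603 (C_5 L42040 (C_5 L42042 N_5))))) (by decide +kernel)
theorem L42044 : W_5 (nat_lit 2) (nat_lit 0x200010001380090000e00040000000000000000000000) (nat_lit 0x0) (nat_lit 0x60000100000000000000000000000000) := D_5 (nat_lit 125) (nat_lit 126) (nat_lit 104) (nat_lit 1) (nat_lit 8) (nat_lit 7) (nat_lit 3) (nat_lit 2) (nat_lit 6) (by decide +kernel)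
theorem L42045 : W_5 (nat_lit 2) (nat_lit 0x200010001380090000e00040000000000000000000000) (nat_lit 0x0) (nat_lit 0x20000100080000000000000000000000) := D_5 (nat_lit 104) (nat_lit 91) (nat_lit 125) (nat_lit 2) (nat_lit 2) (nat_lit 6) (nat_lit 3) (nat_lit 2) (nat_lit 6) (by decide +kernel)
theorem L42046 : W_5 (nat_lit 2) (nat_lit 0x200010001380090000e00040000000000000000000000) (nat_lit 0x0) (nat_lit 0x100080004000000000000000000) := D_5 (nat_lit 91) (nat_lit 104) (nat_lit 74) (nat_lit 2) (nat_lit 2) (nat_lit 6) (nat_lit 6) (nat_lit 5) (nat_lit 8) (by decide +kernel)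
theorem L42047 : W_5 (nat_lit 2) (nat_lit 0x2000100013800d4001e000500008000a0000000000000) (nat_lit 0x0) (nat_lit 0x40005000000000) := D_5 (nat_lit 54) (nat_lit 36) (nat_lit 38) (nat_lit 4) (nat_lit 3) (nat_lit 6) (nat_lit 6) (nat_lit 3) (nat_lit 6) (by decide +kernel)
theorem L42048 : W_5 (nat_lit 3) (nat_lit 0x2000100013800d4001e00050000800020000000000000) (nat_lit 0x0) (nat_lit 0x10000c0005000000000) := T_5 (nat_lit 55) (nat_lit 72) (nat_lit 6) (nat_lit 3) (nat_lit 7) L42047 (by decide +kernel)
theorem L42049 : W_5 (nat_lit 4) (nat_lit 0x2000100013800d4001e00050000800000000000000000) (nat_lit 0x0) (nat_lit 0x14000e0005000000000) := T_5 (nat_lit 53) (nat_lit 70) (nat_lit 4) (nat_lit 3) (nat_lit 7) L42048 (by decide +kernel)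
theorem L42050 : W_5 (nat_lit 5) (nat_lit 0x2000100013800d4001e00050000000000000000000000) (nat_lit 0x0) (nat_lit 0x8000000000001c000e0005000000000) := T_5 (nat_lit 71) (nat_lit 123) (nat_lit 7) (nat_lit 3) (nat_lit 4) L42049 (by decide +kernel)
theorem L42051 : W_5 (nat_lit 6) (nat_lit 0x2000100013800d0001e00050000000000000000000000) (nat_lit 0x0) (nat_lit 0xe000000000001c000e0005000000000) := T_5 (nat_lit 122) (nat_lit 121) (nat_lit 1) (nat_lit 6) (nat_lit 6) L42050 (by decide +kernel)
theorem L42052 : W_5 (nat_lit 7) (nat_lit 0x2000100013800d0001e00040000000000000000000000) (nat_lit 0x0) (nat_lit 0xe000000018001c000e0005000000000) := T_5 (nat_lit 88) (nat_lit 87) (nat_lit 0) (nat_lit 6) (nat_lit 6) L42051 (by decide +kernel)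
theorem L42053 : W_5 (nat_lit 8) (nat_lit 0x2000100013800d0000e00040000000000000000000000) (nat_lit 0x0) (nat_lit 0xe003000018001c000e0005000000000) := T_5 (nat_lit 108) (nat_lit 109) (nat_lit 3) (nat_lit 4) (nat_lit 6) L42052 (by decide +kernel)
theorem L42054 : W_5 (nat_lit 9) (nat_lit 0x200010001380090000e00040000000000000000000000) (nat_lit 0x0) (nat_lit 0x6e003000018001c000e0005000000000) := T_5 (nat_lit 126) (nat_lit 125) (nat_lit 1) (nat_lit 8) (nat_lit 7) L42053 (by decide +kernel)
theorem L42055 : W_5 (nat_lit 10) (nat_lit 0x200010001380090000c00040000000000000000000000) (nat_lit 0x0) (nat_lit 0x6e003300098005c000e0005000000000) := Q_5 (nat_lit 105) (C_5 L42044 (C_5 L42045 (C_5 L42046 (C_5 L42054 N_5)))) (by decide +kernel)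
theorem L42056 : W_5 (nat_lit 2) (nat_lit 0x2000100013800d0000d001c0000000000000000000000) (nat_lit 0x0) (nat_lit 0x3000000008000000000000000000) := D_5 (nat_lit 109) (nat_lit 108) (nat_lit 75) (nat_lit 3) (nat_lit 4) (nat_lit 6) (nat_lit 7) (nat_lit 7) (nat_lit 4) (by decide +kernel)
theorem L42057 : W_5 (nat_lit 3) (nat_lit 0x200010001380090000d001c0000000000000000000000) (nat_lit 0x0) (nat_lit 0x60003000000008000000000000000000) := T_5 (nat_lit 126) (nat_lit 125) (nat_lit 1) (nat_lit 8) (nat_lit 7) L42056 (by decide +kernel)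
theorem L42058 : W_5 (nat_lit 4) (nat_lit 0x200010001380090000d000c0000000000000000000000) (nat_lit 0x0) (nat_lit 0x60003000300008000000000000000000) := T_5 (nat_lit 92) (nat_lit 93) (nat_lit 1) (nat_lit 8) (nat_lit 5) L42057 (by decide +kernel)
theorem L42059 : W_5 (nat_lit 5) (nat_lit 0x200010001380090000c000c0000000000000000000000) (nat_lit 0x0) (nat_lit 0x60003300300008000000000000000000) := T_5 (nat_lit 104) (nat_lit 105) (nat_lit 2) (nat_lit 2) (nat_lit 6) L42058 (by decide +kernel)
theorem L42060 : W_5 (nat_lit 6) (nat_lit 0x200010001380090000c00040000000000000000000000) (nat_lit 0x0) (nat_lit 0x6000330038000c000000000000000000) := T_5 (nat_lit 91) (nat_lit 74) (nat_lit 6) (nat_lit 5) (nat_lit 8) L42059 (by decide +kernel)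
theorem L42061 : W_5 (nat_lit 2) (nat_lit 0x2000100013800d0000e000c0000000000000000000000) (nat_lit 0x0) (nat_lit 0x1000300000000000000000000000) := D_5 (nat_lit 92) (nat_lit 93) (nat_lit 108) (nat_lit 1) (nat_lit 8) (nat_lit 5) (nat_lit 2) (nat_lit 3) (nat_lit 6) (by decide +kernel)
theorem L42062 : W_5 (nat_lit 3) (nat_lit 0x2000100013800d0000c000c0000000000000000000000) (nat_lit 0x0) (nat_lit 0x1300300000000000000000000000) := T_5 (nat_lit 105) (nat_lit 104) (nat_lit 2) (nat_lit 2) (nat_lit 6) L42061 (by decide +kernel)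
theorem L42063 : W_5 (nat_lit 4) (nat_lit 0x2000100013800d0000c00040000000000000000000000) (nat_lit 0x0) (nat_lit 0x1300380004000000000000000000) := T_5 (nat_lit 91) (nat_lit 74) (nat_lit 6) (nat_lit 5) (nat_lit 8) L42062 (by decide +kernel)
theorem L42064 : W_5 (nat_lit 5) (nat_lit 0x200010001380090000c00040000000000000000000000) (nat_lit 0x0) (nat_lit 0x60001300380004000000000000000000) := T_5 (nat_lit 126) (nat_lit 125) (nat_lit 1) (nat_lit 8) (nat_lit 7) L42063 (by decide +kernel)
theorem L42065 : W_5 (nat_lit 2) (nat_lit 0x200010001380090000e000c0000000000000000000000) (nat_lit 0x0) (nat_lit 0x1000300000000000000000000000) := D_5 (nat_lit 92) (nat_lit 93) (nat_lit 108) (nat_lit 1) (nat_lit 8) (nat_lit 5) (nat_lit 2) (nat_lit 3) (nat_lit 6) (by decide +kernel)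
theorem L42066 : W_5 (nat_lit 3) (nat_lit 0x200010001380090000c000c0000000000000000000000) (nat_lit 0x0) (nat_lit 0x1300300000000000000000000000) := T_5 (nat_lit 105) (nat_lit 104) (nat_lit 2) (nat_lit 2) (nat_lit 6) L42065 (by decide +kernel)
theorem L42067 : W_5 (nat_lit 4) (nat_lit 0x200010001380090000c00040000000000000000000000) (nat_lit 0x0) (nat_lit 0x1300380004000000000000000000) := T_5 (nat_lit 91) (nat_lit 74) (nat_lit 6) (nat_lit 5) (nat_lit 8) L42066 (by decide +kernel)
theorem L42068 : W_5 (nat_lit 2) (nat_lit 0x200010001b800d0002c00140000000000000000000000) (nat_lit 0x0) (nat_lit 0x2000100008000000000000000000000000000000000000000) := D_5 (nat_lit 176) (nat_lit 159) (nat_lit 193) (nat_lit 5) (nat_lit 7) (nat_lit 6) (nat_lit 5) (nat_lit 7) (nat_lit 7) (by decide +kernel)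
theorem L42069 : W_5 (nat_lit 3) (nat_lit 0x2000100013800d0002c00140000000000000000000000) (nat_lit 0x0) (nat_lit 0x2000100028000800000000000000000000000000000000000) := T_5 (nat_lit 143) (nat_lit 161) (nat_lit 7) (nat_lit 7) (nat_lit 5) L42068 (by decide +kernel)
theorem L42070 : W_5 (nat_lit 4) (nat_lit 0x2000100013800d0002c00040000000000000000000000) (nat_lit 0x0) (nat_lit 0x2000100028000800000000000100008000000000000000000) := T_5 (nat_lit 92) (nat_lit 75) (nat_lit 7) (nat_lit 7) (nat_lit 4) L42069 (by decide +kernel)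
theorem L42071 : W_5 (nat_lit 5) (nat_lit 0x2000100013800d0000c00040000000000000000000000) (nat_lit 0x0) (nat_lit 0x2000100028000800000003000100008000000000000000000) := T_5 (nat_lit 109) (nat_lit 108) (nat_lit 3) (nat_lit 4) (nat_lit 6) L42070 (by decide +kernel)
theorem L42072 : W_5 (nat_lit 6) (nat_lit 0x200010001380090000c00040000000000000000000000) (nat_lit 0x0) (nat_lit 0x2000100028000800060003000100008000000000000000000) := T_5 (nat_lit 126) (nat_lit 125) (nat_lit 1) (nat_lit 8) (nat_lit 7) L42071 (by decide +kernel)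
theorem L42073 : W_5 (nat_lit 2) (nat_lit 0x200010001b800d0002d001c0000000000000000000000) (nat_lit 0x0) (nat_lit 0x2000100008000000000000000000000000000000000000000) := D_5 (nat_lit 176) (nat_lit 159) (nat_lit 193) (nat_lit 5) (nat_lit 7) (nat_lit 6) (nat_lit 5) (nat_lit 7) (nat_lit 7) (by decide +kernel)
theorem L42074 : W_5 (nat_lit 3) (nat_lit 0x2000100013800d0002d001c0000000000000000000000) (nat_lit 0x0) (nat_lit 0x2000100028000800000000000000000000000000000000000) := T_5 (nat_lit 143) (nat_lit 161) (nat_lit 7) (nat_lit 7) (nat_lit 5) L42073 (by decide +kernel)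
theorem L42075 : W_5 (nat_lit 4) (nat_lit 0x2000100013800d0000d001c0000000000000000000000) (nat_lit 0x0) (nat_lit 0x2000100028000800000002000000008000000000000000000) := T_5 (nat_lit 109) (nat_lit 75) (nat_lit 7) (nat_lit 7) (nat_lit 4) L42074 (by decide +kernel)
theorem L42076 : W_5 (nat_lit 5) (nat_lit 0x2000100013800d0000d000c0000000000000000000000) (nat_lit 0x0) (nat_lit 0x2000100028000800000002000300008000000000000000000) := T_5 (nat_lit 92) (nat_lit 93) (nat_lit 1) (nat_lit 8) (nat_lit 5) L42075 (by decide +kernel)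
theorem L42077 : W_5 (nat_lit 6) (nat_lit 0x2000100013800d0000c000c0000000000000000000000) (nat_lit 0x0) (nat_lit 0x2000100028000800000002300300008000000000000000000) := T_5 (nat_lit 104) (nat_lit 105) (nat_lit 2) (nat_lit 2) (nat_lit 6) L42076 (by decide +kernel)
theorem L42078 : W_5 (nat_lit 7) (nat_lit 0x2000100013800d0000c00040000000000000000000000) (nat_lit 0x0) (nat_lit 0x200010002800080000000230038000c000000000000000000) := T_5 (nat_lit 91) (nat_lit 74) (nat_lit 6) (nat_lit 5) (nat_lit 8) L42077 (by decide +kernel)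
theorem L42079 : W_5 (nat_lit 8) (nat_lit 0x200010001380090000c00040000000000000000000000) (nat_lit 0x0) (nat_lit 0x200010002800080006000230038000c000000000000000000) := T_5 (nat_lit 126) (nat_lit 125) (nat_lit 1) (nat_lit 8) (nat_lit 7) L42078 (by decide +kernel)
theorem L42080 : W_5 (nat_lit 11) (nat_lit 0x200010001380090000800040000000000000000000000) (nat_lit 0x0) (nat_lit 0x200010002800080006e00370039800dc000e0005000000000) := Q_5 (nat_lit 106) (C_5 L42055 (C_5 L42060 (C_5 L42064 (C_5 L42067 (C_5 L42072 (C_5 L42079 N_5)))))) (by decide +kernel)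
theorem L42081 : W_5 (nat_lit 2) (nat_lit 0x2000100013800d00008000c0002000180008000000000) (nat_lit 0x0) (nat_lit 0x200010000800000) := D_5 (nat_lit 40) (nat_lit 57) (nat_lit 23) (nat_lit 6) (nat_lit 5) (nat_lit 6) (nat_lit 6) (nat_lit 5) (nat_lit 5) (by decide +kernel)
theorem L42082 : W_5 (nat_lit 3) (nat_lit 0x2000100013800d00008000c0002000180000000000000) (nat_lit 0x0) (nat_lit 0x1000000000000200018000800000) := T_5 (nat_lit 39) (nat_lit 108) (nat_lit 7) (nat_lit 5) (nat_lit 2) L42081 (by decide +kernel)
theorem L42083 : W_5 (nat_lit 4) (nat_lit 0x2000100013800d00008000c0002000080000000000000) (nat_lit 0x0) (nat_lit 0x100000000000030001c000800000) := T_5 (nat_lit 56) (nat_lit 38) (nat_lit 4) (nat_lit 5) (nat_lit 6) L42082 (by decide +kernel)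
theorem L42084 : W_5 (nat_lit 5) (nat_lit 0x2000100013800d00008000c0002000000000000000000) (nat_lit 0x0) (nat_lit 0x100000000100038001c000800000) := T_5 (nat_lit 55) (nat_lit 72) (nat_lit 4) (nat_lit 5) (nat_lit 7) L42083 (by decide +kernel)
theorem L42085 : W_5 (nat_lit 6) (nat_lit 0x2000100013800900008000c0002000000000000000000) (nat_lit 0x0) (nat_lit 0x6000100000000100038001c000800000) := T_5 (nat_lit 126) (nat_lit 125) (nat_lit 1) (nat_lit 8) (nat_lit 7) L42084 (by decide +kernel)
theorem L42086 : W_5 (nat_lit 7) (nat_lit 0x2000100013800900008000c0000000000000000000000) (nat_lit 0x0) (nat_lit 0x6800100000000300038001c000800000) := T_5 (nat_lit 73) (nat_lit 123) (nat_lit 5) (nat_lit 5) (nat_lit 4) L42085 (by decide +kernel)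
theorem L42087 : W_5 (nat_lit 8) (nat_lit 0x200010001380090000800040000000000000000000000) (nat_lit 0x0) (nat_lit 0x6800100008000700038001c000800000) := T_5 (nat_lit 91) (nat_lit 74) (nat_lit 6) (nat_lit 5) (nat_lit 8) L42086 (by decide +kernel)
theorem L42088 : W_5 (nat_lit 2) (nat_lit 0x2000100013800b0000800040006000100000000000000) (nat_lit 0x0) (nat_lit 0x1000080004000000000) := D_5 (nat_lit 55) (nat_lit 38) (nat_lit 72) (nat_lit 4) (nat_lit 5) (nat_lit 6) (nat_lit 4) (nat_lit 5) (nat_lit 7) (by decide +kernel)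
theorem L42089 : W_5 (nat_lit 3) (nat_lit 0x2000100013800b0000800040006000000000000000000) (nat_lit 0x0) (nat_lit 0x1000000001000180004000000000) := T_5 (nat_lit 56) (nat_lit 108) (nat_lit 7) (nat_lit 5) (nat_lit 3) L42088 (by decide +kernel)
theorem L42090 : W_5 (nat_lit 4) (nat_lit 0x2000100013800b0000800040004000000000000000000) (nat_lit 0x0) (nat_lit 0x1000000003000380004000000000) := T_5 (nat_lit 73) (nat_lit 57) (nat_lit 6) (nat_lit 5) (nat_lit 7) L42089 (by decide +kernel)
theorem L42091 : W_5 (nat_lit 5) (nat_lit 0x200010001380090000800040004000000000000000000) (nat_lit 0x0) (nat_lit 0x60001000000003000380004000000000) := T_5 (nat_lit 125) (nat_lit 126) (nat_lit 1) (nat_lit 8) (nat_lit 7) L42090 (by decide +kernel)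
theorem L42092 : W_5 (nat_lit 6) (nat_lit 0x200010001380090000800040000000000000000000000) (nat_lit 0x0) (nat_lit 0x60001000080007000380004000000000) := T_5 (nat_lit 74) (nat_lit 91) (nat_lit 6) (nat_lit 5) (nat_lit 8) L42091 (by decide +kernel)
theorem L42093 : W_5 (nat_lit 2) (nat_lit 0x2000100013800900008000c0002000180000000000000) (nat_lit 0x0) (nat_lit 0x20001000000000000000008000000000) := D_5 (nat_lit 108) (nat_lit 125) (nat_lit 39) (nat_lit 7) (nat_lit 5) (nat_lit 3) (nat_lit 7) (nat_lit 5) (nat_lit 2) (by decide +kernel)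
theorem L42094 : W_5 (nat_lit 3) (nat_lit 0x2000100013800900008000c0002000080000000000000) (nat_lit 0x0) (nat_lit 0x2000100000000000010000c000000000) := T_5 (nat_lit 56) (nat_lit 38) (nat_lit 4) (nat_lit 5) (nat_lit 6) L42093 (by decide +kernel)
theorem L42095 : W_5 (nat_lit 4) (nat_lit 0x2000100013800900008000c0002000000000000000000) (nat_lit 0x0) (nat_lit 0x2000100000000100018000c000000000) := T_5 (nat_lit 55) (nat_lit 72) (nat_lit 4) (nat_lit 5) (nat_lit 7) L42094 (by decide +kernel)
theorem L42096 : W_5 (nat_lit 5) (nat_lit 0x2000100013800900008000c0000000000000000000000) (nat_lit 0x0) (nat_lit 0x2800100000000300018000c000000000) := T_5 (nat_lit 73) (nat_lit 123) (nat_lit 5) (nat_lit 5) (nat_lit 4) L42095 (by decide +kernel)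
theorem L42097 : W_5 (nat_lit 6) (nat_lit 0x200010001380090000800040000000000000000000000) (nat_lit 0x0) (nat_lit 0x2800100008000700018000c000000000) := T_5 (nat_lit 91) (nat_lit 74) (nat_lit 6) (nat_lit 5) (nat_lit 8) L42096 (by decide +kernel)
theorem L42098 : W_5 (nat_lit 2) (nat_lit 0x2000100013800d0000800040002000280000000000000) (nat_lit 0x0) (nat_lit 0x100014000000000) := D_5 (nat_lit 56) (nat_lit 40) (nat_lit 38) (nat_lit 6) (nat_lit 5) (nat_lit 6) (nat_lit 4) (nat_lit 5) (nat_lit 6) (by decide +kernel)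
theorem L42099 : W_5 (nat_lit 3) (nat_lit 0x2000100013800d0000800040002000200000000000000) (nat_lit 0x0) (nat_lit 0x1000180014000000000) := T_5 (nat_lit 55) (nat_lit 72) (nat_lit 4) (nat_lit 5) (nat_lit 7) L42098 (by decide +kernel)
theorem L42100 : W_5 (nat_lit 4) (nat_lit 0x2000100013800d0000800040002000000000000000000) (nat_lit 0x0) (nat_lit 0x5000380014000000000) := T_5 (nat_lit 57) (nat_lit 74) (nat_lit 6) (nat_lit 5) (nat_lit 7) L42099 (by decide +kernel)
theorem L42101 : W_5 (nat_lit 5) (nat_lit 0x200010001380090000800040002000000000000000000) (nat_lit 0x0) (nat_lit 0x60000000000005000380014000000000) := T_5 (nat_lit 126) (nat_lit 125) (nat_lit 1) (nat_lit 8) (nat_lit 7) L42100 (by decide +kernel)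
theorem L42102 : W_5 (nat_lit 6) (nat_lit 0x200010001380090000800040000000000000000000000) (nat_lit 0x0) (nat_lit 0x68000000000007000380014000000000) := T_5 (nat_lit 73) (nat_lit 123) (nat_lit 5) (nat_lit 5) (nat_lit 4) L42101 (by decide +kernel)
theorem L42103 : W_5 (nat_lit 2) (nat_lit 0x2000100013800900008000c0002000180008000000000) (nat_lit 0x0) (nat_lit 0x200010000800000) := D_5 (nat_lit 40) (nat_lit 57) (nat_lit 23) (nat_lit 6) (nat_lit 5) (nat_lit 6) (nat_lit 6) (nat_lit 5) (nat_lit 5) (by decide +kernel)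
theorem L42104 : W_5 (nat_lit 3) (nat_lit 0x2000100013800900008000c0002000180000000000000) (nat_lit 0x0) (nat_lit 0x1000000000000200018000800000) := T_5 (nat_lit 39) (nat_lit 108) (nat_lit 7) (nat_lit 5) (nat_lit 2) L42103 (by decide +kernel)
theorem L42105 : W_5 (nat_lit 4) (nat_lit 0x2000100013800900008000c0002000080000000000000) (nat_lit 0x0) (nat_lit 0x100000000000030001c000800000) := T_5 (nat_lit 56) (nat_lit 38) (nat_lit 4) (nat_lit 5) (nat_lit 6) L42104 (by decide +kernel)
theorem L42106 : W_5 (nat_lit 5) (nat_lit 0x2000100013800900008000c0002000000000000000000) (nat_lit 0x0) (nat_lit 0x100000000100038001c000800000) := T_5 (nat_lit 55) (nat_lit 72) (nat_lit 4) (nat_lit 5) (nat_lit 7) L42105 (by decide +kernel)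
theorem L42107 : W_5 (nat_lit 6) (nat_lit 0x2000100013800900008000c0000000000000000000000) (nat_lit 0x0) (nat_lit 0x800100000000300038001c000800000) := T_5 (nat_lit 73) (nat_lit 123) (nat_lit 5) (nat_lit 5) (nat_lit 4) L42106 (by decide +kernel)
theorem L42108 : W_5 (nat_lit 7) (nat_lit 0x200010001380090000800040000000000000000000000) (nat_lit 0x0) (nat_lit 0x800100008000700038001c000800000) := T_5 (nat_lit 91) (nat_lit 74) (nat_lit 6) (nat_lit 5) (nat_lit 8) L42107 (by decide +kernel)
theorem L42109 : W_5 (nat_lit 2) (nat_lit 0x200010001380090000800040002000000000000000000) (nat_lit 0x0) (nat_lit 0x80004000200000000000000) := D_5 (nat_lit 74) (nat_lit 91) (nat_lit 57) (nat_lit 6) (nat_lit 5) (nat_lit 8) (nat_lit 6) (nat_lit 5) (nat_lit 7) (by decide +kernel)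
theorem L42110 : W_5 (nat_lit 3) (nat_lit 0x200010001380090000800040000000000000000000000) (nat_lit 0x0) (nat_lit 0x8000000080006000200000000000000) := T_5 (nat_lit 73) (nat_lit 123) (nat_lit 5) (nat_lit 5) (nat_lit 4) L42109 (by decide +kernel)
theorem L42111 : W_5 (nat_lit 2) (nat_lit 0x2000100013800b0000800040002000080000000000000) (nat_lit 0x0) (nat_lit 0x1000000000000100004000000000) := D_5 (nat_lit 56) (nat_lit 108) (nat_lit 38) (nat_lit 7) (nat_lit 5) (nat_lit 3) (nat_lit 4) (nat_lit 5) (nat_lit 6) (by decide +kernel)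
theorem L42112 : W_5 (nat_lit 3) (nat_lit 0x2000100013800b0000800040002000000000000000000) (nat_lit 0x0) (nat_lit 0x1000000001000180004000000000) := T_5 (nat_lit 55) (nat_lit 72) (nat_lit 4) (nat_lit 5) (nat_lit 7) L42111 (by decide +kernel)
theorem L42113 : W_5 (nat_lit 4) (nat_lit 0x2000100013800b0000800040000000000000000000000) (nat_lit 0x0) (nat_lit 0x8001000000003000180004000000000) := T_5 (nat_lit 73) (nat_lit 123) (nat_lit 5) (nat_lit 5) (nat_lit 4) L42112 (by decide +kernel)
theorem L42114 : W_5 (nat_lit 5) (nat_lit 0x200010001380090000800040000000000000000000000) (nat_lit 0x0) (nat_lit 0x68001000000003000180004000000000) := T_5 (nat_lit 125) (nat_lit 126) (nat_lit 1) (nat_lit 8) (nat_lit 7) L42113 (by decide +kernel)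
theorem L42115 : W_5 (nat_lit 12) (nat_lit 0x200010001380090000800000000000000000000000000) (nat_lit 0x0) (nat_lit 0x200010002800080006e0037003d800fc003e001d000800000) := Q_5 (nat_lit 90) (C_5 L42080 (C_5 L42087 (C_5 L42092 (C_5 L42097 (C_5 L42102 (C_5 L42108 (C_5 L42110 (C_5 L42114 N_5)))))))) (by decide +kernel)
theorem L42116 : W_5 (nat_lit 2) (nat_lit 0x2000100013800d8001c00060000000000000000000000) (nat_lit 0x0) (nat_lit 0x18000800000000000000000) := D_5 (nat_lit 88) (nat_lit 87) (nat_lit 71) (nat_lit 3) (nat_lit 2) (nat_lit 5) (nat_lit 4) (nat_lit 4) (nat_lit 8) (by decide +kernel)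
theorem L42117 : W_5 (nat_lit 3) (nat_lit 0x2000100013800d8000c00060000000000000000000000) (nat_lit 0x0) (nat_lit 0x3000018000800000000000000000) := T_5 (nat_lit 108) (nat_lit 109) (nat_lit 3) (nat_lit 4) (nat_lit 6) L42116 (by decide +kernel)
theorem L42118 : W_5 (nat_lit 4) (nat_lit 0x2000100013800d0000c00060000000000000000000000) (nat_lit 0x0) (nat_lit 0x1000000008003000018000800000000000000000) := T_5 (nat_lit 123) (nat_lit 156) (nat_lit 5) (nat_lit 4) (nat_lit 5) L42117 (by decide +kernel)
theorem L42119 : W_5 (nat_lit 5) (nat_lit 0x2000100013800d0000c00040000000000000000000000) (nat_lit 0x0) (nat_lit 0x1000000008003000038001800000000000000000) := T_5 (nat_lit 89) (nat_lit 72) (nat_lit 4) (nat_lit 5) (nat_lit 8) L42118 (by decide +kernel)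
theorem L42120 : W_5 (nat_lit 6) (nat_lit 0x200010001380090000c00040000000000000000000000) (nat_lit 0x0) (nat_lit 0x1000000068003000038001800000000000000000) := T_5 (nat_lit 126) (nat_lit 125) (nat_lit 1) (nat_lit 8) (nat_lit 7) L42119 (by decide +kernel)
theorem L42121 : W_5 (nat_lit 2) (nat_lit 0x2000100013800d8000d002f0000000000000000000000) (nat_lit 0x0) (nat_lit 0x8000c000000000000000000000) := D_5 (nat_lit 87) (nat_lit 86) (nat_lit 103) (nat_lit 3) (nat_lit 1) (nat_lit 5) (nat_lit 1) (nat_lit 5) (nat_lit 5) (by decide +kernel)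
theorem L42122 : W_5 (nat_lit 3) (nat_lit 0x2000100013800d8000d002e0000000000000000000000) (nat_lit 0x0) (nat_lit 0x8001c000800000000000000000) := T_5 (nat_lit 88) (nat_lit 71) (nat_lit 4) (nat_lit 4) (nat_lit 8) L42121 (by decide +kernel)
theorem L42123 : W_5 (nat_lit 4) (nat_lit 0x2000100013800d0000d002e0000000000000000000000) (nat_lit 0x0) (nat_lit 0x100000000800008001c000800000000000000000) := T_5 (nat_lit 123) (nat_lit 156) (nat_lit 5) (nat_lit 4) (nat_lit 5) L42122 (by decide +kernel)
theorem L42124 : W_5 (nat_lit 5) (nat_lit 0x2000100013800d0000d002c0000000000000000000000) (nat_lit 0x0) (nat_lit 0x100000000800008003c001800000000000000000) := T_5 (nat_lit 89) (nat_lit 72) (nat_lit 4) (nat_lit 5) (nat_lit 8) L42123 (by decide +kernel)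
theorem L42125 : W_5 (nat_lit 6) (nat_lit 0x2000100013800d0000d000c0000000000000000000000) (nat_lit 0x0) (nat_lit 0x100000000800008033c001800000000000000000) := T_5 (nat_lit 93) (nat_lit 92) (nat_lit 1) (nat_lit 8) (nat_lit 5) L42124 (by decide +kernel)
theorem L42126 : W_5 (nat_lit 7) (nat_lit 0x2000100013800d0000c000c0000000000000000000000) (nat_lit 0x0) (nat_lit 0x100000000800038033c001800000000000000000) := T_5 (nat_lit 104) (nat_lit 105) (nat_lit 2) (nat_lit 2) (nat_lit 6) L42125 (by decide +kernel)
theorem L42127 : W_5 (nat_lit 8) (nat_lit 0x2000100013800d0000c00040000000000000000000000) (nat_lit 0x0) (nat_lit 0x10000000080003803bc005800000000000000000) := T_5 (nat_lit 91) (nat_lit 74) (nat_lit 6) (nat_lit 5) (nat_lit 8) L42126 (by decide +kernel)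
theorem L42128 : W_5 (nat_lit 9) (nat_lit 0x200010001380090000c00040000000000000000000000) (nat_lit 0x0) (nat_lit 0x10000000680003803bc005800000000000000000) := T_5 (nat_lit 126) (nat_lit 125) (nat_lit 1) (nat_lit 8) (nat_lit 7) L42127 (by decide +kernel)
theorem L42129 : W_5 (nat_lit 10) (nat_lit 0x200010001380090000800040000000000000000000000) (nat_lit 0x0) (nat_lit 0x10000000680037803bc005800000000000000000) := Q_5 (nat_lit 106) (C_5 L42067 (C_5 L42120 (C_5 L42128 N_5))) (by decide +kernel)
theorem L42130 : W_5 (nat_lit 11) (nat_lit 0x200010001380090000800000000000000000000000000) (nat_lit 0x0) (nat_lit 0x10000000680037803fc007800380004000000000) := Q_5 (nat_lit 90) (C_5 L42129 (C_5 L42114 (C_5 L42092 (C_5 L42110 N_5)))) (by decide +kernel)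
theorem L42131 : W_5 (nat_lit 2) (nat_lit 0x200010001380090000800040005000000000000000000) (nat_lit 0x0) (nat_lit 0x2000280000000000000) := D_5 (nat_lit 73) (nat_lit 57) (nat_lit 55) (nat_lit 6) (nat_lit 5) (nat_lit 7) (nat_lit 4) (nat_lit 5) (nat_lit 7) (by decide +kernel)
theorem L42132 : W_5 (nat_lit 3) (nat_lit 0x200010001380090000800040004000000000000000000) (nat_lit 0x0) (nat_lit 0x20003000280000000000000) := T_5 (nat_lit 72) (nat_lit 89) (nat_lit 4) (nat_lit 5) (nat_lit 8) L42131 (by decide +kernel)
theorem L42133 : W_5 (nat_lit 4) (nat_lit 0x200010001380090000800040000000000000000000000) (nat_lit 0x0) (nat_lit 0xa0007000280000000000000) := T_5 (nat_lit 74) (nat_lit 91) (nat_lit 6) (nat_lit 5) (nat_lit 8) L42132 (by decide +kernel)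
theorem L42134 : W_5 (nat_lit 2) (nat_lit 0x2000100013800b0000800040003000100000000000000) (nat_lit 0x0) (nat_lit 0x4000200010000000000) := D_5 (nat_lit 57) (nat_lit 74) (nat_lit 40) (nat_lit 6) (nat_lit 5) (nat_lit 7) (nat_lit 6) (nat_lit 5) (nat_lit 6) (by decide +kernel)
theorem L42135 : W_5 (nat_lit 3) (nat_lit 0x2000100013800b0000800040003000000000000000000) (nat_lit 0x0) (nat_lit 0x1000000004000300010000000000) := T_5 (nat_lit 56) (nat_lit 108) (nat_lit 7) (nat_lit 5) (nat_lit 3) L42134 (by decide +kernel)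
theorem L42136 : W_5 (nat_lit 4) (nat_lit 0x2000100013800b0000800040001000000000000000000) (nat_lit 0x0) (nat_lit 0x1000000006000380010000000000) := T_5 (nat_lit 73) (nat_lit 55) (nat_lit 4) (nat_lit 5) (nat_lit 7) L42135 (by decide +kernel)
theorem L42137 : W_5 (nat_lit 5) (nat_lit 0x2000100013800b0000800040000000000000000000000) (nat_lit 0x0) (nat_lit 0x1000020007000380010000000000) := T_5 (nat_lit 72) (nat_lit 89) (nat_lit 4) (nat_lit 5) (nat_lit 8) L42136 (by decide +kernel)
theorem L42138 : W_5 (nat_lit 6) (nat_lit 0x200010001380090000800040000000000000000000000) (nat_lit 0x0) (nat_lit 0x60001000020007000380010000000000) := T_5 (nat_lit 125) (nat_lit 126) (nat_lit 1) (nat_lit 8) (nat_lit 7) L42137 (by decide +kernel)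
theorem L42139 : W_5 (nat_lit 2) (nat_lit 0x2000100013800b0000d00040006000100004000000000) (nat_lit 0x0) (nat_lit 0x20000000000008000200000) := D_5 (nat_lit 39) (nat_lit 89) (nat_lit 21) (nat_lit 5) (nat_lit 5) (nat_lit 2) (nat_lit 4) (nat_lit 5) (nat_lit 5) (by decide +kernel)
theorem L42140 : W_5 (nat_lit 3) (nat_lit 0x2000100013800b0000d00040006000100000000000000) (nat_lit 0x0) (nat_lit 0x2000000008000c000200000) := T_5 (nat_lit 38) (nat_lit 55) (nat_lit 4) (nat_lit 5) (nat_lit 6) L42139 (by decide +kernel)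
theorem L42141 : W_5 (nat_lit 4) (nat_lit 0x2000100013800b0000d00040006000000000000000000) (nat_lit 0x0) (nat_lit 0x100002000000018000c000200000) := T_5 (nat_lit 56) (nat_lit 108) (nat_lit 7) (nat_lit 5) (nat_lit 3) L42140 (by decide +kernel)
theorem L42142 : W_5 (nat_lit 5) (nat_lit 0x2000100013800b0000d00040004000000000000000000) (nat_lit 0x0) (nat_lit 0x100002000200038000c000200000) := T_5 (nat_lit 73) (nat_lit 57) (nat_lit 6) (nat_lit 5) (nat_lit 7) L42141 (by decide +kernel)
theorem L42143 : W_5 (nat_lit 6) (nat_lit 0x2000100013800b0000c00040004000000000000000000) (nat_lit 0x0) (nat_lit 0x130002000200038000c000200000) := T_5 (nat_lit 104) (nat_lit 105) (nat_lit 3) (nat_lit 2) (nat_lit 6) L42142 (by decide +kernel)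
theorem L42144 : W_5 (nat_lit 7) (nat_lit 0x2000100013800b0000c00040000000000000000000000) (nat_lit 0x0) (nat_lit 0x13000a000600038000c000200000) := T_5 (nat_lit 74) (nat_lit 91) (nat_lit 6) (nat_lit 5) (nat_lit 8) L42143 (by decide +kernel)
theorem L42145 : W_5 (nat_lit 8) (nat_lit 0x200010001380090000c00040000000000000000000000) (nat_lit 0x0) (nat_lit 0x600013000a000600038000c000200000) := T_5 (nat_lit 125) (nat_lit 126) (nat_lit 1) (nat_lit 8) (nat_lit 7) L42144 (by decide +kernel)
theorem L42146 : W_5 (nat_lit 9) (nat_lit 0x200010001380090000800040000000000000000000000) (nat_lit 0x0) (nat_lit 0x20001000280008000600037003a000e00038000c000200000) := Q_5 (nat_lit 106) (C_5 L42067 (C_5 L42079 (C_5 L42072 (C_5 L42145 N_5)))) (by decide +kernel)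
theorem L42147 : W_5 (nat_lit 2) (nat_lit 0x2000100013800d0001e000e8000000000000000000000) (nat_lit 0x0) (nat_lit 0x1000000006000000000000000000000000000000) := D_5 (nat_lit 122) (nat_lit 156) (nat_lit 121) (nat_lit 6) (nat_lit 3) (nat_lit 9) (nat_lit 1) (nat_lit 6) (nat_lit 6) (by decide +kernel)
theorem L42148 : W_5 (nat_lit 3) (nat_lit 0x2000100013800d0001c000e8000000000000000000000) (nat_lit 0x0) (nat_lit 0x1000000006000300000000000000000000000000) := T_5 (nat_lit 105) (nat_lit 104) (nat_lit 2) (nat_lit 2) (nat_lit 6) L42147 (by decide +kernel)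
theorem L42149 : W_5 (nat_lit 4) (nat_lit 0x2000100013800d0001c00068000000000000000000000) (nat_lit 0x0) (nat_lit 0x1000000006000300080004000000000000000000) := T_5 (nat_lit 91) (nat_lit 74) (nat_lit 6) (nat_lit 5) (nat_lit 8) L42148 (by decide +kernel)
theorem L42150 : W_5 (nat_lit 5) (nat_lit 0x2000100013800d0001c00060000000000000000000000) (nat_lit 0x0) (nat_lit 0x1000000006000300098004000000000000000000) := T_5 (nat_lit 87) (nat_lit 88) (nat_lit 3) (nat_lit 2) (nat_lit 5) L42149 (by decide +kernel)
theorem L42151 : W_5 (nat_lit 6) (nat_lit 0x2000100013800d0000c00060000000000000000000000) (nat_lit 0x0) (nat_lit 0x1000000006003300098004000000000000000000) := T_5 (nat_lit 108) (nat_lit 109) (nat_lit 3) (nat_lit 4) (nat_lit 6) L42150 (by decide +kernel)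
theorem L42152 : W_5 (nat_lit 7) (nat_lit 0x2000100013800d0000c00040000000000000000000000) (nat_lit 0x0) (nat_lit 0x10000000060033000b8005000000000000000000) := T_5 (nat_lit 89) (nat_lit 72) (nat_lit 4) (nat_lit 5) (nat_lit 8) L42151 (by decide +kernel)
theorem L42153 : W_5 (nat_lit 8) (nat_lit 0x200010001380090000c00040000000000000000000000) (nat_lit 0x0) (nat_lit 0x10000000660033000b8005000000000000000000) := T_5 (nat_lit 126) (nat_lit 125) (nat_lit 1) (nat_lit 8) (nat_lit 7) L42152 (by decide +kernel)
theorem L42154 : W_5 (nat_lit 9) (nat_lit 0x200010001380090000800040000000000000000000000) (nat_lit 0x0) (nat_lit 0x20001000290008000660037003b800d000000000000000000) := Q_5 (nat_lit 106) (C_5 L42067 (C_5 L42079 (C_5 L42072 (C_5 L42153 N_5)))) (by decide +kernel)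
theorem L42155 : W_5 (nat_lit 2) (nat_lit 0x200010001380090000c00040002000000000000000000) (nat_lit 0x0) (nat_lit 0x20001000080000000000000) := D_5 (nat_lit 72) (nat_lit 89) (nat_lit 55) (nat_lit 4) (nat_lit 5) (nat_lit 8) (nat_lit 4) (nat_lit 5) (nat_lit 7) (by decide +kernel)
theorem L42156 : W_5 (nat_lit 2) (nat_lit 0x2000100013800b0000c00040002000080000000000000) (nat_lit 0x0) (nat_lit 0x1000000000000100004000000000) := D_5 (nat_lit 56) (nat_lit 38) (nat_lit 108) (nat_lit 4) (nat_lit 5) (nat_lit 6) (nat_lit 7) (nat_lit 5) (nat_lit 3) (by decide +kernel)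
theorem L42157 : W_5 (nat_lit 3) (nat_lit 0x200010001380090000c00040002000080000000000000) (nat_lit 0x0) (nat_lit 0x60001000000000000100004000000000) := T_5 (nat_lit 125) (nat_lit 126) (nat_lit 1) (nat_lit 8) (nat_lit 7) L42156 (by decide +kernel)
theorem L42158 : W_5 (nat_lit 4) (nat_lit 0x200010001380090000c00040002000000000000000000) (nat_lit 0x0) (nat_lit 0x60001000000001000180004000000000) := T_5 (nat_lit 55) (nat_lit 72) (nat_lit 4) (nat_lit 5) (nat_lit 7) L42157 (by decide +kernel)
theorem L42159 : W_5 (nat_lit 2) (nat_lit 0x2000100013800b0000d00040002000180010000000000) (nat_lit 0x0) (nat_lit 0x20000000000008000800000) := D_5 (nat_lit 39) (nat_lit 89) (nat_lit 23) (nat_lit 5) (nat_lit 5) (nat_lit 2) (nat_lit 6) (nat_lit 5) (nat_lit 5) (by decide +kernel)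
theorem L42160 : W_5 (nat_lit 3) (nat_lit 0x2000100013800b0000d00040002000180000000000000) (nat_lit 0x0) (nat_lit 0x20000000200018000800000) := T_5 (nat_lit 40) (nat_lit 57) (nat_lit 6) (nat_lit 5) (nat_lit 6) L42159 (by decide +kernel)
theorem L42161 : W_5 (nat_lit 4) (nat_lit 0x2000100013800b0000d00040002000100000000000000) (nat_lit 0x0) (nat_lit 0x2000000028001c000800000) := T_5 (nat_lit 55) (nat_lit 38) (nat_lit 4) (nat_lit 5) (nat_lit 6) L42160 (by decide +kernel)
theorem L42162 : W_5 (nat_lit 5) (nat_lit 0x2000100013800b0000d00040002000000000000000000) (nat_lit 0x0) (nat_lit 0x100002000000038001c000800000) := T_5 (nat_lit 56) (nat_lit 108) (nat_lit 7) (nat_lit 5) (nat_lit 3) L42161 (by decide +kernel)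
theorem L42163 : W_5 (nat_lit 6) (nat_lit 0x2000100013800b0000c00040002000000000000000000) (nat_lit 0x0) (nat_lit 0x130002000000038001c000800000) := T_5 (nat_lit 104) (nat_lit 105) (nat_lit 3) (nat_lit 2) (nat_lit 6) L42162 (by decide +kernel)
theorem L42164 : W_5 (nat_lit 7) (nat_lit 0x200010001380090000c00040002000000000000000000) (nat_lit 0x0) (nat_lit 0x6000130002000000038001c000800000) := T_5 (nat_lit 125) (nat_lit 126) (nat_lit 1) (nat_lit 8) (nat_lit 7) L42163 (by decide +kernel)
theorem L42165 : W_5 (nat_lit 2) (nat_lit 0x2000100013800b0000c00060002000000000000000000) (nat_lit 0x0) (nat_lit 0x1000000000000100008000000000) := D_5 (nat_lit 56) (nat_lit 39) (nat_lit 108) (nat_lit 5) (nat_lit 5) (nat_lit 2) (nat_lit 7) (nat_lit 5) (nat_lit 3) (by decide +kernel)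
theorem L42166 : W_5 (nat_lit 3) (nat_lit 0x2000100013800b0000c00040002000000000000000000) (nat_lit 0x0) (nat_lit 0x1000020001000100008000000000) := T_5 (nat_lit 89) (nat_lit 72) (nat_lit 4) (nat_lit 5) (nat_lit 8) L42165 (by decide +kernel)
theorem L42167 : W_5 (nat_lit 4) (nat_lit 0x200010001380090000c00040002000000000000000000) (nat_lit 0x0) (nat_lit 0x60001000020001000100008000000000) := T_5 (nat_lit 125) (nat_lit 126) (nat_lit 1) (nat_lit 8) (nat_lit 7) L42166 (by decide +kernel)
theorem L42168 : W_5 (nat_lit 8) (nat_lit 0x200010001380090000c00040000000000000000000000) (nat_lit 0x0) (nat_lit 0x6000130002000300038001c000800000) := Q_5 (nat_lit 73) (C_5 L42155 (C_5 L42158 (C_5 L42164 (C_5 L42167 N_5)))) (by decide +kernel)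
theorem L42169 : W_5 (nat_lit 2) (nat_lit 0x200010001380090000e00060000000000000000000000) (nat_lit 0x0) (nat_lit 0x20000180000000000000000000000000) := D_5 (nat_lit 104) (nat_lit 103) (nat_lit 125) (nat_lit 2) (nat_lit 1) (nat_lit 6) (nat_lit 3) (nat_lit 2) (nat_lit 6) (by decide +kernel)
theorem L42170 : W_5 (nat_lit 3) (nat_lit 0x200010001380090000e00040000000000000000000000) (nat_lit 0x0) (nat_lit 0x20000180020001000000000000000000) := T_5 (nat_lit 89) (nat_lit 72) (nat_lit 4) (nat_lit 5) (nat_lit 8) L42169 (by decide +kernel)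
theorem L42171 : W_5 (nat_lit 2) (nat_lit 0x200010001380090000e00060000000000000000000000) (nat_lit 0x0) (nat_lit 0x180080000000000000000000000) := D_5 (nat_lit 104) (nat_lit 103) (nat_lit 91) (nat_lit 2) (nat_lit 1) (nat_lit 6) (nat_lit 2) (nat_lit 2) (nat_lit 6) (by decide +kernel)
theorem L42172 : W_5 (nat_lit 3) (nat_lit 0x200010001380090000e00040000000000000000000000) (nat_lit 0x0) (nat_lit 0x1800a0001000000000000000000) := T_5 (nat_lit 89) (nat_lit 72) (nat_lit 4) (nat_lit 5) (nat_lit 8) L42171 (by decide +kernel)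
theorem L42173 : W_5 (nat_lit 2) (nat_lit 0x200010001380094001e00160000000000000000000000) (nat_lit 0x0) (nat_lit 0x2000018000000000000000000000) := D_5 (nat_lit 88) (nat_lit 87) (nat_lit 109) (nat_lit 3) (nat_lit 2) (nat_lit 5) (nat_lit 0) (nat_lit 7) (nat_lit 6) (by decide +kernel)
theorem L42174 : W_5 (nat_lit 3) (nat_lit 0x200010001380094000e00160000000000000000000000) (nat_lit 0x0) (nat_lit 0x2003000018000000000000000000000) := T_5 (nat_lit 108) (nat_lit 121) (nat_lit 1) (nat_lit 6) (nat_lit 6) L42173 (by decide +kernel)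
theorem L42175 : W_5 (nat_lit 4) (nat_lit 0x200010001380090000e00160000000000000000000000) (nat_lit 0x0) (nat_lit 0x1000000006003000018000000000000000000000) := T_5 (nat_lit 122) (nat_lit 156) (nat_lit 6) (nat_lit 3) (nat_lit 9) L42174 (by decide +kernel)
theorem L42176 : W_5 (nat_lit 5) (nat_lit 0x200010001380090000e00060000000000000000000000) (nat_lit 0x0) (nat_lit 0x1000000006003000198000000000000000000000) := T_5 (nat_lit 92) (nat_lit 91) (nat_lit 1) (nat_lit 7) (nat_lit 5) L42175 (by decide +kernel)
theorem L42177 : W_5 (nat_lit 6) (nat_lit 0x200010001380090000e00040000000000000000000000) (nat_lit 0x0) (nat_lit 0x10000000060030001b8001000000000000000000) := T_5 (nat_lit 89) (nat_lit 72) (nat_lit 4) (nat_lit 5) (nat_lit 8) L42176 (by decide +kernel)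
theorem L42178 : W_5 (nat_lit 7) (nat_lit 0x200010001380090000c00040000000000000000000000) (nat_lit 0x0) (nat_lit 0x10000000260033801b8001000000000000000000) := Q_5 (nat_lit 105) (C_5 L42045 (C_5 L42170 (C_5 L42172 (C_5 L42177 N_5)))) (by decide +kernel)
theorem L42179 : W_5 (nat_lit 2) (nat_lit 0x200011001b800d0002e00160000000000000000000000) (nat_lit 0x0) (nat_lit 0x2000100008000000000000000000000000000000000000000) := D_5 (nat_lit 176) (nat_lit 159) (nat_lit 193) (nat_lit 5) (nat_lit 7) (nat_lit 6) (nat_lit 5) (nat_lit 7) (nat_lit 7) (by decide +kernel)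
theorem L42180 : W_5 (nat_lit 3) (nat_lit 0x2000110013800d0002e00160000000000000000000000) (nat_lit 0x0) (nat_lit 0x2000100028000800000000000000000000000000000000000) := T_5 (nat_lit 143) (nat_lit 161) (nat_lit 7) (nat_lit 7) (nat_lit 5) L42179 (by decide +kernel)
theorem L42181 : W_5 (nat_lit 4) (nat_lit 0x2000110013800d0000e00160000000000000000000000) (nat_lit 0x0) (nat_lit 0x2000100028000800000002000000008000000000000000000) := T_5 (nat_lit 109) (nat_lit 75) (nat_lit 7) (nat_lit 7) (nat_lit 4) L42180 (by decide +kernel)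
theorem L42182 : W_5 (nat_lit 5) (nat_lit 0x2000100013800d0000e00160000000000000000000000) (nat_lit 0x0) (nat_lit 0x2000100029000800004002000000008000000000000000000) := T_5 (nat_lit 156) (nat_lit 122) (nat_lit 6) (nat_lit 3) (nat_lit 9) L42181 (by decide +kernel)
theorem L42183 : W_5 (nat_lit 6) (nat_lit 0x2000100013800d0000e00060000000000000000000000) (nat_lit 0x0) (nat_lit 0x2000100029000800004002000180008000000000000000000) := T_5 (nat_lit 92) (nat_lit 91) (nat_lit 1) (nat_lit 7) (nat_lit 5) L42182 (by decide +kernel)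
theorem L42184 : W_5 (nat_lit 7) (nat_lit 0x2000100013800d0000e00040000000000000000000000) (nat_lit 0x0) (nat_lit 0x20001000290008000040020001a0009000000000000000000) := T_5 (nat_lit 89) (nat_lit 72) (nat_lit 4) (nat_lit 5) (nat_lit 8) L42183 (by decide +kernel)
theorem L42185 : W_5 (nat_lit 8) (nat_lit 0x200010001380090000e00040000000000000000000000) (nat_lit 0x0) (nat_lit 0x20001000290008000640020001a0009000000000000000000) := T_5 (nat_lit 126) (nat_lit 125) (nat_lit 1) (nat_lit 8) (nat_lit 7) L42184 (by decide +kernel)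
theorem L42186 : W_5 (nat_lit 9) (nat_lit 0x200010001380090000c00040000000000000000000000) (nat_lit 0x0) (nat_lit 0x20001000290008000640023801a0009000000000000000000) := Q_5 (nat_lit 105) (C_5 L42172 (C_5 L42170 (C_5 L42045 (C_5 L42185 N_5)))) (by decide +kernel)
theorem L42187 : W_5 (nat_lit 2) (nat_lit 0x200010001380094001e80060000000000000000000000) (nat_lit 0x0) (nat_lit 0x2000018000000000000000000000) := D_5 (nat_lit 88) (nat_lit 87) (nat_lit 109) (nat_lit 3) (nat_lit 2) (nat_lit 5) (nat_lit 0) (nat_lit 7) (nat_lit 6) (by decide +kernel)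
theorem L42188 : W_5 (nat_lit 3) (nat_lit 0x200010001380094000e80060000000000000000000000) (nat_lit 0x0) (nat_lit 0x2003000018000000000000000000000) := T_5 (nat_lit 108) (nat_lit 121) (nat_lit 1) (nat_lit 6) (nat_lit 6) L42187 (by decide +kernel)
theorem L42189 : W_5 (nat_lit 4) (nat_lit 0x200010001380090000e80060000000000000000000000) (nat_lit 0x0) (nat_lit 0x1000000006003000018000000000000000000000) := T_5 (nat_lit 122) (nat_lit 156) (nat_lit 6) (nat_lit 3) (nat_lit 9) L42188 (by decide +kernel)
theorem L42190 : W_5 (nat_lit 5) (nat_lit 0x200010001380090000e00060000000000000000000000) (nat_lit 0x0) (nat_lit 0x1000000006003180018000000000000000000000) := T_5 (nat_lit 103) (nat_lit 104) (nat_lit 2) (nat_lit 1) (nat_lit 6) L42189 (by decide +kernel)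
theorem L42191 : W_5 (nat_lit 6) (nat_lit 0x200010001380090000e00040000000000000000000000) (nat_lit 0x0) (nat_lit 0x1000000006003180038001000000000000000000) := T_5 (nat_lit 89) (nat_lit 72) (nat_lit 4) (nat_lit 5) (nat_lit 8) L42190 (by decide +kernel)
theorem L42192 : W_5 (nat_lit 2) (nat_lit 0x200010001380092000f00048000000000000000000000) (nat_lit 0x0) (nat_lit 0x1000000004001000000000000000000000000000) := D_5 (nat_lit 122) (nat_lit 156) (nat_lit 108) (nat_lit 4) (nat_lit 3) (nat_lit 9) (nat_lit 1) (nat_lit 6) (nat_lit 6) (by decide +kernel)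
theorem L42193 : W_5 (nat_lit 3) (nat_lit 0x200010001380090000f00048000000000000000000000) (nat_lit 0x0) (nat_lit 0x1000000007001000000000000000000000000000) := T_5 (nat_lit 121) (nat_lit 120) (nat_lit 1) (nat_lit 5) (nat_lit 6) L42192 (by decide +kernel)
theorem L42194 : W_5 (nat_lit 4) (nat_lit 0x200010001380090000f00040000000000000000000000) (nat_lit 0x0) (nat_lit 0x100000000700100000c000000000000000000000) := T_5 (nat_lit 87) (nat_lit 86) (nat_lit 0) (nat_lit 5) (nat_lit 6) L42193 (by decide +kernel)
theorem L42195 : W_5 (nat_lit 5) (nat_lit 0x200010001380090000e00040000000000000000000000) (nat_lit 0x0) (nat_lit 0x100000000700110008c000000000000000000000) := T_5 (nat_lit 104) (nat_lit 91) (nat_lit 2) (nat_lit 2) (nat_lit 6) L42194 (by decide +kernel)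
theorem L42196 : W_5 (nat_lit 7) (nat_lit 0x200010001380090000c00040000000000000000000000) (nat_lit 0x0) (nat_lit 0x10000000070033801bc001000000000000000000) := Q_5 (nat_lit 105) (C_5 L42177 (C_5 L42172 (C_5 L42191 (C_5 L42195 N_5)))) (by decide +kernel)
theorem L42197 : W_5 (nat_lit 10) (nat_lit 0x200010001380090000800040000000000000000000000) (nat_lit 0x0) (nat_lit 0x20001000290008000670037801bc00b00038001c000800000) := Q_5 (nat_lit 106) (C_5 L42168 (C_5 L42178 (C_5 L42072 (C_5 L42186 (C_5 L42196 N_5))))) (by decide +kernel)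
theorem L42198 : W_5 (nat_lit 11) (nat_lit 0x200010001380090000800000000000000000000000000) (nat_lit 0x0) (nat_lit 0x20001000290008000670037803fc00f00038001c000a00000) := Q_5 (nat_lit 90) (C_5 L42092 (C_5 L42133 (C_5 L42138 (C_5 L42146 (C_5 L42154 (C_5 L42197 N_5)))))) (by decide +kernel)
theorem L42199 : W_5 (nat_lit 2) (nat_lit 0x2000100013800d8000c00070000000000000000000000) (nat_lit 0x0) (nat_lit 0x100000c000000000000000000000) := D_5 (nat_lit 87) (nat_lit 108) (nat_lit 86) (nat_lit 3) (nat_lit 2) (nat_lit 5) (nat_lit 3) (nat_lit 1) (nat_lit 5) (by decide +kernel)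
theorem L42200 : W_5 (nat_lit 3) (nat_lit 0x2000100013800d8000c00060000000000000000000000) (nat_lit 0x0) (nat_lit 0x100001c000800000000000000000) := T_5 (nat_lit 88) (nat_lit 71) (nat_lit 4) (nat_lit 4) (nat_lit 8) L42199 (by decide +kernel)
theorem L42201 : W_5 (nat_lit 4) (nat_lit 0x2000100013800d0000c00060000000000000000000000) (nat_lit 0x0) (nat_lit 0x100000000800100001c000800000000000000000) := T_5 (nat_lit 123) (nat_lit 156) (nat_lit 5) (nat_lit 4) (nat_lit 5) L42200 (by decide +kernel)
theorem L42202 : W_5 (nat_lit 5) (nat_lit 0x2000100013800d0000c00040000000000000000000000) (nat_lit 0x0) (nat_lit 0x100000000800100003c001800000000000000000) := T_5 (nat_lit 89) (nat_lit 72) (nat_lit 4) (nat_lit 5) (nat_lit 8) L42201 (by decide +kernel)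
theorem L42203 : W_5 (nat_lit 6) (nat_lit 0x200010001380090000c00040000000000000000000000) (nat_lit 0x0) (nat_lit 0x100000006800100003c001800000000000000000) := T_5 (nat_lit 126) (nat_lit 125) (nat_lit 1) (nat_lit 8) (nat_lit 7) L42202 (by decide +kernel)
theorem L42204 : W_5 (nat_lit 10) (nat_lit 0x200010001380090000800040000000000000000000000) (nat_lit 0x0) (nat_lit 0x10000000680017803bc005800000000000000000) := Q_5 (nat_lit 106) (C_5 L42128 (C_5 L42067 (C_5 L42203 N_5))) (by decide +kernel)
theorem L42205 : W_5 (nat_lit 11) (nat_lit 0x200010001380090000800000000000000000000000000) (nat_lit 0x0) (nat_lit 0x10000000680017803fc007800380014000000000) := Q_5 (nat_lit 90) (C_5 L42138 (C_5 L42133 (C_5 L42114 (C_5 L42110 (C_5 L42204 N_5))))) (by decide +kernel)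
theorem L42206 : W_5 (nat_lit 2) (nat_lit 0x2000100013800d00028000e0008000000000000000000) (nat_lit 0x0) (nat_lit 0x800000001000010000000000000000000000) := D_5 (nat_lit 108) (nat_lit 143) (nat_lit 88) (nat_lit 4) (nat_lit 7) (nat_lit 9) (nat_lit 3) (nat_lit 3) (nat_lit 5) (by decide +kernel)
theorem L42207 : W_5 (nat_lit 3) (nat_lit 0x2000100013800d0002800060008000000000000000000) (nat_lit 0x0) (nat_lit 0x800000001000090004000000000000000000) := T_5 (nat_lit 91) (nat_lit 74) (nat_lit 6) (nat_lit 5) (nat_lit 8) L42206 (by decide +kernel)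
theorem L42208 : W_5 (nat_lit 4) (nat_lit 0x2000100013800d0002800060000000000000000000000) (nat_lit 0x0) (nat_lit 0x80000000100019000c000000000000000000) := T_5 (nat_lit 75) (nat_lit 92) (nat_lit 7) (nat_lit 7) (nat_lit 4) L42207 (by decide +kernel)
theorem L42209 : W_5 (nat_lit 5) (nat_lit 0x2000100013800d0002800040000000000000000000000) (nat_lit 0x0) (nat_lit 0x8000000010001b000d000000000000000000) := T_5 (nat_lit 89) (nat_lit 72) (nat_lit 4) (nat_lit 5) (nat_lit 8) L42208 (by decide +kernel)
theorem L42210 : W_5 (nat_lit 2) (nat_lit 0x2000100013800d0002a000f0000400000000000000000) (nat_lit 0x0) (nat_lit 0x4000000008000200000000000000000) := D_5 (nat_lit 87) (nat_lit 69) (nat_lit 122) (nat_lit 0) (nat_lit 5) (nat_lit 5) (nat_lit 4) (nat_lit 3) (nat_lit 8) (by decide +kernel)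
theorem L42211 : W_5 (nat_lit 3) (nat_lit 0x2000100013800d00028000f0000400000000000000000) (nat_lit 0x0) (nat_lit 0x4000300008000200000000000000000) := T_5 (nat_lit 105) (nat_lit 104) (nat_lit 1) (nat_lit 6) (nat_lit 5) L42210 (by decide +kernel)
theorem L42212 : W_5 (nat_lit 4) (nat_lit 0x2000100013800d00028000f0000000000000000000000) (nat_lit 0x0) (nat_lit 0x4000300008000e00000000000000000) := T_5 (nat_lit 70) (nat_lit 71) (nat_lit 0) (nat_lit 6) (nat_lit 5) L42211 (by decide +kernel)
theorem L42213 : W_5 (nat_lit 5) (nat_lit 0x2000100013800d00028000e0000000000000000000000) (nat_lit 0x0) (nat_lit 0x4001300018000e00000000000000000) := T_5 (nat_lit 88) (nat_lit 108) (nat_lit 3) (nat_lit 3) (nat_lit 5) L42212 (by decide +kernel)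
theorem L42214 : W_5 (nat_lit 6) (nat_lit 0x2000100013800d00028000c0000000000000000000000) (nat_lit 0x0) (nat_lit 0x4001300038001e00000000000000000) := T_5 (nat_lit 89) (nat_lit 72) (nat_lit 4) (nat_lit 5) (nat_lit 8) L42213 (by decide +kernel)
theorem L42215 : W_5 (nat_lit 7) (nat_lit 0x2000100013800d0002800040000000000000000000000) (nat_lit 0x0) (nat_lit 0x40013000b8005e00000000000000000) := T_5 (nat_lit 91) (nat_lit 74) (nat_lit 6) (nat_lit 5) (nat_lit 8) L42214 (by decide +kernel)
theorem L42216 : W_5 (nat_lit 2) (nat_lit 0x200010001b800d0002800160000000000000000000000) (nat_lit 0x0) (nat_lit 0x2000100008000000000000000000000000000000000000000) := D_5 (nat_lit 176) (nat_lit 159) (nat_lit 193) (nat_lit 5) (nat_lit 7) (nat_lit 6) (nat_lit 5) (nat_lit 7) (nat_lit 7) (by decide +kernel)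
theorem L42217 : W_5 (nat_lit 3) (nat_lit 0x2000100013800d0002800160000000000000000000000) (nat_lit 0x0) (nat_lit 0x2000100028000800000000000000000000000000000000000) := T_5 (nat_lit 143) (nat_lit 161) (nat_lit 7) (nat_lit 7) (nat_lit 5) L42216 (by decide +kernel)
theorem L42218 : W_5 (nat_lit 4) (nat_lit 0x2000100013800d0002800140000000000000000000000) (nat_lit 0x0) (nat_lit 0x2000100028000800000000000020001000000000000000000) := T_5 (nat_lit 89) (nat_lit 72) (nat_lit 4) (nat_lit 5) (nat_lit 8) L42217 (by decide +kernel)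
theorem L42219 : W_5 (nat_lit 5) (nat_lit 0x2000100013800d0002800040000000000000000000000) (nat_lit 0x0) (nat_lit 0x2000100028000800000000000120009000000000000000000) := T_5 (nat_lit 92) (nat_lit 75) (nat_lit 7) (nat_lit 7) (nat_lit 4) L42218 (by decide +kernel)
theorem L42220 : W_5 (nat_lit 2) (nat_lit 0x200010001b800d00028000c0000000000000000000000) (nat_lit 0x0) (nat_lit 0x2000100008000000000000000000000000000000000000000) := D_5 (nat_lit 176) (nat_lit 159) (nat_lit 193) (nat_lit 5) (nat_lit 7) (nat_lit 6) (nat_lit 5) (nat_lit 7) (nat_lit 7) (by decide +kernel)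
theorem L42221 : W_5 (nat_lit 3) (nat_lit 0x2000100013800d00028000c0000000000000000000000) (nat_lit 0x0) (nat_lit 0x2000100008000800000001000000000000000000000000000) := T_5 (nat_lit 143) (nat_lit 108) (nat_lit 4) (nat_lit 7) (nat_lit 9) L42220 (by decide +kernel)
theorem L42222 : W_5 (nat_lit 4) (nat_lit 0x2000100013800d0002800040000000000000000000000) (nat_lit 0x0) (nat_lit 0x2000100008000800000001000080004000000000000000000) := T_5 (nat_lit 91) (nat_lit 74) (nat_lit 6) (nat_lit 5) (nat_lit 8) L42221 (by decide +kernel)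
theorem L42223 : W_5 (nat_lit 8) (nat_lit 0x2000100013800d0000800040000000000000000000000) (nat_lit 0x0) (nat_lit 0x20001000280008000040033001b800de00000000000000000) := Q_5 (nat_lit 109) (C_5 L42209 (C_5 L42215 (C_5 L42219 (C_5 L42222 N_5)))) (by decide +kernel)
theorem L42224 : W_5 (nat_lit 9) (nat_lit 0x200010001380090000800040000000000000000000000) (nat_lit 0x0) (nat_lit 0x20001000280008000640033001b800de00000000000000000) := T_5 (nat_lit 126) (nat_lit 125) (nat_lit 1) (nat_lit 8) (nat_lit 7) L42223 (by decide +kernel)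
theorem L42225 : W_5 (nat_lit 10) (nat_lit 0x200010001380090000800000000000000000000000000) (nat_lit 0x0) (nat_lit 0x200010002800080006c0033001f800fe00380014000000000) := Q_5 (nat_lit 90) (C_5 L42224 (C_5 L42138 (C_5 L42133 (C_5 L42114 (C_5 L42110 N_5))))) (by decide +kernel)
theorem L42226 : W_5 (nat_lit 2) (nat_lit 0x200010001380098000c00070000000000000000000000) (nat_lit 0x0) (nat_lit 0x100000c000000000000000000000) := D_5 (nat_lit 87) (nat_lit 108) (nat_lit 86) (nat_lit 3) (nat_lit 2) (nat_lit 5) (nat_lit 3) (nat_lit 1) (nat_lit 5) (by decide +kernel)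
theorem L42227 : W_5 (nat_lit 3) (nat_lit 0x200010001380098000c00060000000000000000000000) (nat_lit 0x0) (nat_lit 0x100001c000800000000000000000) := T_5 (nat_lit 88) (nat_lit 71) (nat_lit 4) (nat_lit 4) (nat_lit 8) L42226 (by decide +kernel)
theorem L42228 : W_5 (nat_lit 4) (nat_lit 0x200010001380090000c00060000000000000000000000) (nat_lit 0x0) (nat_lit 0x100000000800100001c000800000000000000000) := T_5 (nat_lit 123) (nat_lit 156) (nat_lit 5) (nat_lit 4) (nat_lit 5) L42227 (by decide +kernel)
theorem L42229 : W_5 (nat_lit 5) (nat_lit 0x200010001380090000c00040000000000000000000000) (nat_lit 0x0) (nat_lit 0x100000000800100003c001800000000000000000) := T_5 (nat_lit 89) (nat_lit 72) (nat_lit 4) (nat_lit 5) (nat_lit 8) L42228 (by decide +kernel)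
theorem L42230 : W_5 (nat_lit 2) (nat_lit 0x200010001380098000c000e0000000000000000000000) (nat_lit 0x0) (nat_lit 0x300100000000000000000000000) := D_5 (nat_lit 105) (nat_lit 104) (nat_lit 92) (nat_lit 2) (nat_lit 2) (nat_lit 6) (nat_lit 1) (nat_lit 7) (nat_lit 5) (by decide +kernel)
theorem L42231 : W_5 (nat_lit 3) (nat_lit 0x200010001380098000c00060000000000000000000000) (nat_lit 0x0) (nat_lit 0x300180004000000000000000000) := T_5 (nat_lit 91) (nat_lit 74) (nat_lit 6) (nat_lit 5) (nat_lit 8) L42230 (by decide +kernel)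
theorem L42232 : W_5 (nat_lit 4) (nat_lit 0x200010001380090000c00060000000000000000000000) (nat_lit 0x0) (nat_lit 0x1000000008000300180004000000000000000000) := T_5 (nat_lit 123) (nat_lit 156) (nat_lit 5) (nat_lit 4) (nat_lit 5) L42231 (by decide +kernel)
theorem L42233 : W_5 (nat_lit 5) (nat_lit 0x200010001380090000c00040000000000000000000000) (nat_lit 0x0) (nat_lit 0x10000000080003001a0005000000000000000000) := T_5 (nat_lit 89) (nat_lit 72) (nat_lit 4) (nat_lit 5) (nat_lit 8) L42232 (by decide +kernel)
theorem L42234 : W_5 (nat_lit 8) (nat_lit 0x200010001380090000800040000000000000000000000) (nat_lit 0x0) (nat_lit 0x100000000f0037803bc005800000000000000000) := Q_5 (nat_lit 106) (C_5 L42067 (C_5 L42196 (C_5 L42229 (C_5 L42233 N_5)))) (by decide +kernel)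
theorem L42235 : W_5 (nat_lit 2) (nat_lit 0x200010001380090001800068002000300004000000000) (nat_lit 0x0) (nat_lit 0x400000000000000008000200000) := D_5 (nat_lit 39) (nat_lit 106) (nat_lit 21) (nat_lit 5) (nat_lit 5) (nat_lit 2) (nat_lit 4) (nat_lit 5) (nat_lit 5) (by decide +kernel)
theorem L42236 : W_5 (nat_lit 3) (nat_lit 0x200010001380090001800068002000300000000000000) (nat_lit 0x0) (nat_lit 0x40000000000008000c000200000) := T_5 (nat_lit 38) (nat_lit 55) (nat_lit 4) (nat_lit 5) (nat_lit 6) L42235 (by decide +kernel)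
theorem L42237 : W_5 (nat_lit 4) (nat_lit 0x200010001380090001800060002000300000000000000) (nat_lit 0x0) (nat_lit 0x40001800000008000c000200000) := T_5 (nat_lit 87) (nat_lit 88) (nat_lit 3) (nat_lit 2) (nat_lit 5) L42236 (by decide +kernel)
theorem L42238 : W_5 (nat_lit 5) (nat_lit 0x200010001380090000800060002000300000000000000) (nat_lit 0x0) (nat_lit 0x2000140001800000008000c000200000) := T_5 (nat_lit 108) (nat_lit 125) (nat_lit 7) (nat_lit 5) (nat_lit 3) L42237 (by decide +kernel)
theorem L42239 : W_5 (nat_lit 6) (nat_lit 0x200010001380090000800060002000200000000000000) (nat_lit 0x0) (nat_lit 0x2000140001800000018001c000200000) := T_5 (nat_lit 56) (nat_lit 40) (nat_lit 6) (nat_lit 5) (nat_lit 6) L42238 (by decide +kernel)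
theorem L42240 : W_5 (nat_lit 7) (nat_lit 0x200010001380090000800060002000000000000000000) (nat_lit 0x0) (nat_lit 0x2000140001800400038001c000200000) := T_5 (nat_lit 57) (nat_lit 74) (nat_lit 6) (nat_lit 5) (nat_lit 7) L42239 (by decide +kernel)
theorem L42241 : W_5 (nat_lit 8) (nat_lit 0x200010001380090000800060000000000000000000000) (nat_lit 0x0) (nat_lit 0x2800140001800600038001c000200000) := T_5 (nat_lit 73) (nat_lit 123) (nat_lit 5) (nat_lit 5) (nat_lit 4) L42240 (by decide +kernel)
theorem L42242 : W_5 (nat_lit 9) (nat_lit 0x200010001380090000800040000000000000000000000) (nat_lit 0x0) (nat_lit 0x2800140003800700038001c000200000) := T_5 (nat_lit 89) (nat_lit 72) (nat_lit 4) (nat_lit 5) (nat_lit 8) L42241 (by decide +kernel)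
theorem L42243 : W_5 (nat_lit 2) (nat_lit 0x200010001380090000800040002000000000000000000) (nat_lit 0x0) (nat_lit 0x20001000080000000000000) := D_5 (nat_lit 72) (nat_lit 89) (nat_lit 55) (nat_lit 4) (nat_lit 5) (nat_lit 8) (nat_lit 4) (nat_lit 5) (nat_lit 7) (by decide +kernel)
theorem L42244 : W_5 (nat_lit 3) (nat_lit 0x200010001380090000800040000000000000000000000) (nat_lit 0x0) (nat_lit 0x8000000020003000080000000000000) := T_5 (nat_lit 73) (nat_lit 123) (nat_lit 5) (nat_lit 5) (nat_lit 4) L42243 (by decide +kernel)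
theorem L42245 : W_5 (nat_lit 10) (nat_lit 0x200010001380090000800000000000000000000000000) (nat_lit 0x0) (nat_lit 0x100000002f0037803fc00780038001c000200000) := Q_5 (nat_lit 90) (C_5 L42234 (C_5 L42133 (C_5 L42242 (C_5 L42110 (C_5 L42244 N_5))))) (by decide +kernel)
theorem L42246 : W_5 (nat_lit 4) (nat_lit 0x2000100013800d8000800060000000000000000000000) (nat_lit 0x0) (nat_lit 0x100000000000140001c000800000000000000000) := T_5 (nat_lit 106) (nat_lit 156) (nat_lit 5) (nat_lit 4) (nat_lit 5) L42200 (by decide +kernel)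
theorem L42247 : W_5 (nat_lit 5) (nat_lit 0x2000100013800d8000800040000000000000000000000) (nat_lit 0x0) (nat_lit 0x100000000000140003c001800000000000000000) := T_5 (nat_lit 89) (nat_lit 72) (nat_lit 4) (nat_lit 5) (nat_lit 8) L42246 (by decide +kernel)
theorem L42248 : W_5 (nat_lit 6) (nat_lit 0x2000100013800d8000800000000000000000000000000) (nat_lit 0x0) (nat_lit 0x100000000000140007c003800000000000000000) := T_5 (nat_lit 90) (nat_lit 73) (nat_lit 5) (nat_lit 5) (nat_lit 4) L42247 (by decide +kernel)
theorem L42249 : W_5 (nat_lit 7) (nat_lit 0x200010001380098000800000000000000000000000000) (nat_lit 0x0) (nat_lit 0x100000006000140007c003800000000000000000) := T_5 (nat_lit 126) (nat_lit 125) (nat_lit 1) (nat_lit 7) (nat_lit 7) L42248 (by decide +kernel)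
theorem L42250 : W_5 (nat_lit 2) (nat_lit 0x20001000138009c000800000000000000000000000000) (nat_lit 0x0) (nat_lit 0x3001000000000000000000000000000) := D_5 (nat_lit 121) (nat_lit 120) (nat_lit 108) (nat_lit 3) (nat_lit 1) (nat_lit 7) (nat_lit 2) (nat_lit 2) (nat_lit 7) (by decide +kernel)
theorem L42251 : W_5 (nat_lit 2) (nat_lit 0x2000100013800bc001800070000000000000000000000) (nat_lit 0x0) (nat_lit 0x300000000800000000000000000) := D_5 (nat_lit 105) (nat_lit 104) (nat_lit 71) (nat_lit 0) (nat_lit 6) (nat_lit 7) (nat_lit 7) (nat_lit 3) (nat_lit 4) (by decide +kernel)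
theorem L42252 : W_5 (nat_lit 3) (nat_lit 0x2000100013800bc001800060000000000000000000000) (nat_lit 0x0) (nat_lit 0x300018000800000000000000000) := T_5 (nat_lit 88) (nat_lit 87) (nat_lit 3) (nat_lit 2) (nat_lit 5) L42251 (by decide +kernel)
theorem L42253 : W_5 (nat_lit 4) (nat_lit 0x2000100013800bc000800060000000000000000000000) (nat_lit 0x0) (nat_lit 0x3300018000800000000000000000) := T_5 (nat_lit 108) (nat_lit 109) (nat_lit 2) (nat_lit 3) (nat_lit 7) L42252 (by decide +kernel)
theorem L42254 : W_5 (nat_lit 5) (nat_lit 0x2000100013800bc000800040000000000000000000000) (nat_lit 0x0) (nat_lit 0x3300038001800000000000000000) := T_5 (nat_lit 89) (nat_lit 72) (nat_lit 4) (nat_lit 5) (nat_lit 8) L42253 (by decide +kernel)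
theorem L42255 : W_5 (nat_lit 6) (nat_lit 0x20001000138009c000800040000000000000000000000) (nat_lit 0x0) (nat_lit 0x60003300038001800000000000000000) := T_5 (nat_lit 125) (nat_lit 126) (nat_lit 1) (nat_lit 7) (nat_lit 7) L42254 (by decide +kernel)
theorem L42256 : W_5 (nat_lit 7) (nat_lit 0x20001000138009c000800000000000000000000000000) (nat_lit 0x0) (nat_lit 0x60003300078003800000000000000000) := T_5 (nat_lit 90) (nat_lit 73) (nat_lit 5) (nat_lit 5) (nat_lit 4) L42255 (by decide +kernel)
theorem L42257 : W_5 (nat_lit 2) (nat_lit 0x2000110013800de000900000002000000000000000000) (nat_lit 0x0) (nat_lit 0x200008000400000000000000000) := D_5 (nat_lit 87) (nat_lit 70) (nat_lit 105) (nat_lit 7) (nat_lit 2) (nat_lit 4) (nat_lit 4) (nat_lit 3) (nat_lit 9) (by decide +kernel)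
theorem L42258 : W_5 (nat_lit 3) (nat_lit 0x2000100013800de000900000002000000000000000000) (nat_lit 0x0) (nat_lit 0x20001000000000000200008000400000000000000000) := T_5 (nat_lit 156) (nat_lit 173) (nat_lit 4) (nat_lit 3) (nat_lit 10) L42257 (by decide +kernel)
theorem L42259 : W_5 (nat_lit 4) (nat_lit 0x2000100013800de000800000002000000000000000000) (nat_lit 0x0) (nat_lit 0x20001000000000000380008000400000000000000000) := T_5 (nat_lit 104) (nat_lit 103) (nat_lit 0) (nat_lit 5) (nat_lit 7) L42258 (by decide +kernel)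
theorem L42260 : W_5 (nat_lit 5) (nat_lit 0x2000100013800dc000800000002000000000000000000) (nat_lit 0x0) (nat_lit 0x20001000000003000380008000400000000000000000) := T_5 (nat_lit 121) (nat_lit 120) (nat_lit 3) (nat_lit 1) (nat_lit 7) L42259 (by decide +kernel)
theorem L42261 : W_5 (nat_lit 6) (nat_lit 0x2000100013800dc000800000000000000000000000000) (nat_lit 0x0) (nat_lit 0x20001000000003000380048002400000000000000000) := T_5 (nat_lit 73) (nat_lit 90) (nat_lit 5) (nat_lit 5) (nat_lit 4) L42260 (by decide +kernel)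
theorem L42262 : W_5 (nat_lit 7) (nat_lit 0x20001000138009c000800000000000000000000000000) (nat_lit 0x0) (nat_lit 0x20001000000063000380048002400000000000000000) := T_5 (nat_lit 126) (nat_lit 125) (nat_lit 1) (nat_lit 7) (nat_lit 7) L42261 (by decide +kernel)
theorem L42263 : W_5 (nat_lit 8) (nat_lit 0x200010001380098000800000000000000000000000000) (nat_lit 0x0) (nat_lit 0x20001000000067003380078003c00000000000000000) := Q_5 (nat_lit 122) (C_5 L42250 (C_5 L42256 (C_5 L42262 N_5))) (by decide +kernel)
theorem L42264 : W_5 (nat_lit 4) (nat_lit 0x200010001380098000800060000000000000000000000) (nat_lit 0x0) (nat_lit 0x100000000000140001c000800000000000000000) := T_5 (nat_lit 106) (nat_lit 156) (nat_lit 5) (nat_lit 4) (nat_lit 5) L42227 (by decide +kernel)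
theorem L42265 : W_5 (nat_lit 5) (nat_lit 0x200010001380098000800040000000000000000000000) (nat_lit 0x0) (nat_lit 0x100000000000140003c001800000000000000000) := T_5 (nat_lit 89) (nat_lit 72) (nat_lit 4) (nat_lit 5) (nat_lit 8) L42264 (by decide +kernel)
theorem L42266 : W_5 (nat_lit 6) (nat_lit 0x200010001380098000800000000000000000000000000) (nat_lit 0x0) (nat_lit 0x100000000000140007c003800000000000000000) := T_5 (nat_lit 90) (nat_lit 73) (nat_lit 5) (nat_lit 5) (nat_lit 4) L42265 (by decide +kernel)
theorem L42267 : W_5 (nat_lit 2) (nat_lit 0x2000100013800bc001a00010002000000000000000000) (nat_lit 0x0) (nat_lit 0x400008000400000000000000000) := D_5 (nat_lit 87) (nat_lit 70) (nat_lit 106) (nat_lit 4) (nat_lit 3) (nat_lit 8) (nat_lit 0) (nat_lit 6) (nat_lit 6) (by decide +kernel)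
theorem L42268 : W_5 (nat_lit 3) (nat_lit 0x2000100013800bc001a00000002000000000000000000) (nat_lit 0x0) (nat_lit 0x400018000c00000000000000000) := T_5 (nat_lit 88) (nat_lit 71) (nat_lit 7) (nat_lit 3) (nat_lit 4) L42267 (by decide +kernel)
theorem L42269 : W_5 (nat_lit 4) (nat_lit 0x2000100013800bc000a00000002000000000000000000) (nat_lit 0x0) (nat_lit 0x3400018000c00000000000000000) := T_5 (nat_lit 108) (nat_lit 109) (nat_lit 2) (nat_lit 3) (nat_lit 7) L42268 (by decide +kernel)
theorem L42270 : W_5 (nat_lit 5) (nat_lit 0x2000100013800bc000800000002000000000000000000) (nat_lit 0x0) (nat_lit 0x3700018000c00000000000000000) := T_5 (nat_lit 105) (nat_lit 104) (nat_lit 0) (nat_lit 6) (nat_lit 7) L42269 (by decide +kernel)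
theorem L42271 : W_5 (nat_lit 6) (nat_lit 0x20001000138009c000800000002000000000000000000) (nat_lit 0x0) (nat_lit 0x60003700018000c00000000000000000) := T_5 (nat_lit 125) (nat_lit 126) (nat_lit 1) (nat_lit 7) (nat_lit 7) L42270 (by decide +kernel)
theorem L42272 : W_5 (nat_lit 7) (nat_lit 0x20001000138009c000800000000000000000000000000) (nat_lit 0x0) (nat_lit 0x60003700058002c00000000000000000) := T_5 (nat_lit 73) (nat_lit 90) (nat_lit 5) (nat_lit 5) (nat_lit 4) L42271 (by decide +kernel)
theorem L42273 : W_5 (nat_lit 8) (nat_lit 0x200010001380098000800000000000000000000000000) (nat_lit 0x0) (nat_lit 0x20001000000067003780058002c00000000000000000) := Q_5 (nat_lit 122) (C_5 L42262 (C_5 L42250 (C_5 L42272 N_5))) (by decide +kernel)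
theorem L42274 : W_5 (nat_lit 2) (nat_lit 0x2000100013800d8000d00078000400000000000000000) (nat_lit 0x0) (nat_lit 0x6000200000000000000000000000000) := D_5 (nat_lit 122) (nat_lit 105) (nat_lit 121) (nat_lit 4) (nat_lit 3) (nat_lit 8) (nat_lit 7) (nat_lit 2) (nat_lit 4) (by decide +kernel)
theorem L42275 : W_5 (nat_lit 3) (nat_lit 0x2000100013800d8000c00078000400000000000000000) (nat_lit 0x0) (nat_lit 0x6000380000000000000000000000000) := T_5 (nat_lit 104) (nat_lit 103) (nat_lit 1) (nat_lit 5) (nat_lit 5) L42274 (by decide +kernel)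
theorem L42276 : W_5 (nat_lit 4) (nat_lit 0x2000100013800d8000c00078000000000000000000000) (nat_lit 0x0) (nat_lit 0x6000380000000600000000000000000) := T_5 (nat_lit 70) (nat_lit 69) (nat_lit 0) (nat_lit 5) (nat_lit 5) L42275 (by decide +kernel)
theorem L42277 : W_5 (nat_lit 5) (nat_lit 0x2000100013800d8000c00070000000000000000000000) (nat_lit 0x0) (nat_lit 0x600038000c000600000000000000000) := T_5 (nat_lit 87) (nat_lit 86) (nat_lit 3) (nat_lit 1) (nat_lit 5) L42276 (by decide +kernel)
theorem L42278 : W_5 (nat_lit 6) (nat_lit 0x2000100013800d8000c00060000000000000000000000) (nat_lit 0x0) (nat_lit 0x600038001c000e00000000000000000) := T_5 (nat_lit 88) (nat_lit 71) (nat_lit 4) (nat_lit 4) (nat_lit 8) L42277 (by decide +kernel)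
theorem L42279 : W_5 (nat_lit 7) (nat_lit 0x2000100013800d8000800060000000000000000000000) (nat_lit 0x0) (nat_lit 0x100000000600078001c000e00000000000000000) := T_5 (nat_lit 106) (nat_lit 156) (nat_lit 5) (nat_lit 4) (nat_lit 5) L42278 (by decide +kernel)
theorem L42280 : W_5 (nat_lit 8) (nat_lit 0x2000100013800d8000800040000000000000000000000) (nat_lit 0x0) (nat_lit 0x100000000600078003c001e00000000000000000) := T_5 (nat_lit 89) (nat_lit 72) (nat_lit 4) (nat_lit 5) (nat_lit 8) L42279 (by decide +kernel)
theorem L42281 : W_5 (nat_lit 9) (nat_lit 0x2000100013800d8000800000000000000000000000000) (nat_lit 0x0) (nat_lit 0x100000000600078007c003e00000000000000000) := T_5 (nat_lit 90) (nat_lit 73) (nat_lit 5) (nat_lit 5) (nat_lit 4) L42280 (by decide +kernel)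
theorem L42282 : W_5 (nat_lit 10) (nat_lit 0x200010001380098000800000000000000000000000000) (nat_lit 0x0) (nat_lit 0x100000006600078007c003e00000000000000000) := T_5 (nat_lit 126) (nat_lit 125) (nat_lit 1) (nat_lit 7) (nat_lit 7) L42281 (by decide +kernel)
theorem L42283 : W_5 (nat_lit 2) (nat_lit 0x200010001b800d8002c00100000000000000000000000) (nat_lit 0x0) (nat_lit 0x2000100008000000000000000000000000000000000000000) := D_5 (nat_lit 176) (nat_lit 159) (nat_lit 193) (nat_lit 5) (nat_lit 7) (nat_lit 6) (nat_lit 5) (nat_lit 7) (nat_lit 7) (by decide +kernel)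
theorem L42284 : W_5 (nat_lit 3) (nat_lit 0x2000100013800d8002c00100000000000000000000000) (nat_lit 0x0) (nat_lit 0x2000100028000800000000000000000000000000000000000) := T_5 (nat_lit 143) (nat_lit 161) (nat_lit 7) (nat_lit 7) (nat_lit 5) L42283 (by decide +kernel)
theorem L42285 : W_5 (nat_lit 4) (nat_lit 0x2000100013800d8002c00000000000000000000000000) (nat_lit 0x0) (nat_lit 0x2000100028000800000000000100008000000000000000000) := T_5 (nat_lit 92) (nat_lit 75) (nat_lit 7) (nat_lit 7) (nat_lit 4) L42284 (by decide +kernel)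
theorem L42286 : W_5 (nat_lit 5) (nat_lit 0x2000100013800d8000c00000000000000000000000000) (nat_lit 0x0) (nat_lit 0x2000100028000800000003000100008000000000000000000) := T_5 (nat_lit 109) (nat_lit 108) (nat_lit 3) (nat_lit 4) (nat_lit 6) L42285 (by decide +kernel)
theorem L42287 : W_5 (nat_lit 6) (nat_lit 0x200010001380098000c00000000000000000000000000) (nat_lit 0x0) (nat_lit 0x2000100028000800060003000100008000000000000000000) := T_5 (nat_lit 126) (nat_lit 125) (nat_lit 1) (nat_lit 7) (nat_lit 7) L42286 (by decide +kernel)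
theorem L42288 : W_5 (nat_lit 2) (nat_lit 0x200010001380098000c00000000000000000000000000) (nat_lit 0x0) (nat_lit 0x1000000000000000020001000000000000000000) := D_5 (nat_lit 89) (nat_lit 156) (nat_lit 72) (nat_lit 5) (nat_lit 4) (nat_lit 5) (nat_lit 7) (nat_lit 4) (nat_lit 4) (by decide +kernel)
theorem L42289 : W_5 (nat_lit 7) (nat_lit 0x200010001380098000800000000000000000000000000) (nat_lit 0x0) (nat_lit 0x2000100029000800060003400120009000000000000000000) := Q_5 (nat_lit 106) (C_5 L42287 (C_5 L42288 N_5)) (by decide +kernel)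
theorem L42290 : W_5 (nat_lit 7) (nat_lit 0x2000100013800d8000c00020000000000000000000000) (nat_lit 0x0) (nat_lit 0x600038005c002e00000000000000000) := T_5 (nat_lit 90) (nat_lit 73) (nat_lit 6) (nat_lit 4) (nat_lit 8) L42278 (by decide +kernel)
theorem L42291 : W_5 (nat_lit 8) (nat_lit 0x2000100013800d8000c00000000000000000000000000) (nat_lit 0x0) (nat_lit 0x600038007c003e00000000000000000) := T_5 (nat_lit 89) (nat_lit 72) (nat_lit 7) (nat_lit 4) (nat_lit 4) L42290 (by decide +kernel)
theorem L42292 : W_5 (nat_lit 9) (nat_lit 0x200010001380098000c00000000000000000000000000) (nat_lit 0x0) (nat_lit 0x6600038007c003e00000000000000000) := T_5 (nat_lit 126) (nat_lit 125) (nat_lit 1) (nat_lit 7) (nat_lit 7) L42291 (by decide +kernel)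
theorem L42293 : W_5 (nat_lit 2) (nat_lit 0x200010001380098000c00038002000000000000000000) (nat_lit 0x0) (nat_lit 0x3200000000000000000000000000) := D_5 (nat_lit 108) (nat_lit 109) (nat_lit 105) (nat_lit 0) (nat_lit 7) (nat_lit 6) (nat_lit 0) (nat_lit 6) (nat_lit 6) (by decide +kernel)
theorem L42294 : W_5 (nat_lit 3) (nat_lit 0x200010001380098000c00030002000000000000000000) (nat_lit 0x0) (nat_lit 0x320000c000000000000000000000) := T_5 (nat_lit 87) (nat_lit 86) (nat_lit 3) (nat_lit 1) (nat_lit 5) L42293 (by decide +kernel)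
theorem L42295 : W_5 (nat_lit 4) (nat_lit 0x200010001380098000c00020002000000000000000000) (nat_lit 0x0) (nat_lit 0x320001c000800000000000000000) := T_5 (nat_lit 88) (nat_lit 71) (nat_lit 4) (nat_lit 4) (nat_lit 8) L42294 (by decide +kernel)
theorem L42296 : W_5 (nat_lit 5) (nat_lit 0x200010001380098000c00020000000000000000000000) (nat_lit 0x0) (nat_lit 0x320005c002800000000000000000) := T_5 (nat_lit 73) (nat_lit 90) (nat_lit 6) (nat_lit 4) (nat_lit 8) L42295 (by decide +kernel)
theorem L42297 : W_5 (nat_lit 6) (nat_lit 0x200010001380098000c00000000000000000000000000) (nat_lit 0x0) (nat_lit 0x320007c003800000000000000000) := T_5 (nat_lit 89) (nat_lit 72) (nat_lit 7) (nat_lit 4) (nat_lit 4) L42296 (by decide +kernel)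
theorem L42298 : W_5 (nat_lit 10) (nat_lit 0x200010001380098000800000000000000000000000000) (nat_lit 0x0) (nat_lit 0x200010002800080006600378017c00be00000000000000000) := Q_5 (nat_lit 106) (C_5 L42287 (C_5 L42292 (C_5 L42297 N_5))) (by decide +kernel)
theorem L42299 : W_5 (nat_lit 11) (nat_lit 0x200010001380090000800000000000000000000000000) (nat_lit 0x0) (nat_lit 0x200012002900080006f00378017c00be00000000000000000) := Q_5 (nat_lit 123) (C_5 L42249 (C_5 L42263 (C_5 L42266 (C_5 L42273 (C_5 L42282 (C_5 L42289 (C_5 L42298 N_5))))))) (by decide +kernel)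
theorem L42300 : W_5 (nat_lit 7) (nat_lit 0x2000100013800d0000c00060000000000000000000000) (nat_lit 0x0) (nat_lit 0x100000000e00038001c000e00000000000000000) := T_5 (nat_lit 123) (nat_lit 156) (nat_lit 5) (nat_lit 4) (nat_lit 5) L42278 (by decide +kernel)
theorem L42301 : W_5 (nat_lit 8) (nat_lit 0x2000100013800d0000c00040000000000000000000000) (nat_lit 0x0) (nat_lit 0x100000000e00038003c001e00000000000000000) := T_5 (nat_lit 89) (nat_lit 72) (nat_lit 4) (nat_lit 5) (nat_lit 8) L42300 (by decide +kernel)
theorem L42302 : W_5 (nat_lit 9) (nat_lit 0x200010001380090000c00040000000000000000000000) (nat_lit 0x0) (nat_lit 0x100000006e00038003c001e00000000000000000) := T_5 (nat_lit 126) (nat_lit 125) (nat_lit 1) (nat_lit 8) (nat_lit 7) L42301 (by decide +kernel)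
theorem L42303 : W_5 (nat_lit 2) (nat_lit 0x2000100013800d8000c001f4000000000000000000000) (nat_lit 0x0) (nat_lit 0x2000000018000000000000000000) := D_5 (nat_lit 75) (nat_lit 76) (nat_lit 109) (nat_lit 2) (nat_lit 4) (nat_lit 5) (nat_lit 7) (nat_lit 7) (nat_lit 4) (by decide +kernel)
theorem L42304 : W_5 (nat_lit 3) (nat_lit 0x2000100013800d8000c000f4000000000000000000000) (nat_lit 0x0) (nat_lit 0x2000300018000000000000000000) := T_5 (nat_lit 92) (nat_lit 93) (nat_lit 1) (nat_lit 8) (nat_lit 5) L42303 (by decide +kernel)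
theorem L42305 : W_5 (nat_lit 4) (nat_lit 0x2000100013800d8000c00074000000000000000000000) (nat_lit 0x0) (nat_lit 0x200038001c000000000000000000) := T_5 (nat_lit 91) (nat_lit 74) (nat_lit 6) (nat_lit 5) (nat_lit 8) L42304 (by decide +kernel)
theorem L42306 : W_5 (nat_lit 5) (nat_lit 0x2000100013800d8000c00070000000000000000000000) (nat_lit 0x0) (nat_lit 0x200038c01c000000000000000000) := T_5 (nat_lit 86) (nat_lit 87) (nat_lit 3) (nat_lit 1) (nat_lit 5) L42305 (by decide +kernel)
theorem L42307 : W_5 (nat_lit 6) (nat_lit 0x2000100013800d8000c00060000000000000000000000) (nat_lit 0x0) (nat_lit 0x200039c01c800000000000000000) := T_5 (nat_lit 88) (nat_lit 71) (nat_lit 4) (nat_lit 4) (nat_lit 8) L42306 (by decide +kernel)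
theorem L42308 : W_5 (nat_lit 7) (nat_lit 0x200010001380098000c00060000000000000000000000) (nat_lit 0x0) (nat_lit 0x6000200039c01c800000000000000000) := T_5 (nat_lit 126) (nat_lit 125) (nat_lit 1) (nat_lit 7) (nat_lit 7) L42307 (by decide +kernel)
theorem L42309 : W_5 (nat_lit 8) (nat_lit 0x200010001380090000c00060000000000000000000000) (nat_lit 0x0) (nat_lit 0x100000006800200039c01c800000000000000000) := T_5 (nat_lit 123) (nat_lit 156) (nat_lit 5) (nat_lit 4) (nat_lit 5) L42308 (by decide +kernel)
theorem L42310 : W_5 (nat_lit 9) (nat_lit 0x200010001380090000c00040000000000000000000000) (nat_lit 0x0) (nat_lit 0x10000000680020003bc01d800000000000000000) := T_5 (nat_lit 89) (nat_lit 72) (nat_lit 4) (nat_lit 5) (nat_lit 8) L42309 (by decide +kernel)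
theorem L42311 : W_5 (nat_lit 10) (nat_lit 0x200010001380090000800040000000000000000000000) (nat_lit 0x0) (nat_lit 0x200010002900080006e0027803bc01de00000000000000000) := Q_5 (nat_lit 106) (C_5 L42079 (C_5 L42233 (C_5 L42302 (C_5 L42310 N_5)))) (by decide +kernel)
theorem L42312 : W_5 (nat_lit 11) (nat_lit 0x200010001380090000800000000000000000000000000) (nat_lit 0x0) (nat_lit 0x200010002900080006e0027803fc01fe00280000000000000) := Q_5 (nat_lit 90) (C_5 L42244 (C_5 L42133 (C_5 L42110 (C_5 L42311 N_5)))) (by decide +kernel)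
theorem L42313 : W_5 (nat_lit 2) (nat_lit 0x200011001380091000f00038000000080000000000000) (nat_lit 0x0) (nat_lit 0x8000c0000000000000000000000000) := D_5 (nat_lit 103) (nat_lit 119) (nat_lit 102) (nat_lit 1) (nat_lit 4) (nat_lit 6) (nat_lit 2) (nat_lit 0) (nat_lit 6) (by decide +kernel)
theorem L42314 : W_5 (nat_lit 3) (nat_lit 0x200011001380091000f00028000000080000000000000) (nat_lit 0x0) (nat_lit 0x8010c0010000000000000000000000) := T_5 (nat_lit 88) (nat_lit 108) (nat_lit 0) (nat_lit 6) (nat_lit 6) L42313 (by decide +kernel)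
theorem L42315 : W_5 (nat_lit 4) (nat_lit 0x200011001380090000f00028000000080000000000000) (nat_lit 0x0) (nat_lit 0x38010c0010000000000000000000000) := T_5 (nat_lit 120) (nat_lit 121) (nat_lit 1) (nat_lit 5) (nat_lit 6) L42314 (by decide +kernel)
theorem L42316 : W_5 (nat_lit 5) (nat_lit 0x200011001380090000f00020000000080000000000000) (nat_lit 0x0) (nat_lit 0x38010c001c000000000000000000000) := T_5 (nat_lit 87) (nat_lit 86) (nat_lit 0) (nat_lit 5) (nat_lit 6) L42315 (by decide +kernel)
theorem L42317 : W_5 (nat_lit 6) (nat_lit 0x200011001380090000e00020000000080000000000000) (nat_lit 0x0) (nat_lit 0x238011c001c000000000000000000000) := T_5 (nat_lit 104) (nat_lit 125) (nat_lit 3) (nat_lit 2) (nat_lit 6) L42316 (by decide +kernel)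
theorem L42318 : W_5 (nat_lit 7) (nat_lit 0x200010001380090000e00020000000080000000000000) (nat_lit 0x0) (nat_lit 0x10000000278011c001c000000000000000000000) := T_5 (nat_lit 156) (nat_lit 122) (nat_lit 6) (nat_lit 3) (nat_lit 9) L42317 (by decide +kernel)
theorem L42319 : W_5 (nat_lit 8) (nat_lit 0x200010001380090000e00020000000000000000000000) (nat_lit 0x0) (nat_lit 0x10000000278011c001c001000080000000000000) := T_5 (nat_lit 55) (nat_lit 72) (nat_lit 7) (nat_lit 4) (nat_lit 3) L42318 (by decide +kernel)
theorem L42320 : W_5 (nat_lit 2) (nat_lit 0x200010001380091000f00038000000000000000000000) (nat_lit 0x0) (nat_lit 0x8000c0000000000000000000000000) := D_5 (nat_lit 103) (nat_lit 119) (nat_lit 102) (nat_lit 1) (nat_lit 4) (nat_lit 6) (nat_lit 2) (nat_lit 0) (nat_lit 6) (by decide +kernel)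
theorem L42321 : W_5 (nat_lit 3) (nat_lit 0x200010001380091000f00028000000000000000000000) (nat_lit 0x0) (nat_lit 0x8010c0010000000000000000000000) := T_5 (nat_lit 88) (nat_lit 108) (nat_lit 0) (nat_lit 6) (nat_lit 6) L42320 (by decide +kernel)
theorem L42322 : W_5 (nat_lit 4) (nat_lit 0x200010001380090000f00028000000000000000000000) (nat_lit 0x0) (nat_lit 0x38010c0010000000000000000000000) := T_5 (nat_lit 120) (nat_lit 121) (nat_lit 1) (nat_lit 5) (nat_lit 6) L42321 (by decide +kernel)
theorem L42323 : W_5 (nat_lit 5) (nat_lit 0x200010001380090000f00020000000000000000000000) (nat_lit 0x0) (nat_lit 0x38010c001c000000000000000000000) := T_5 (nat_lit 87) (nat_lit 86) (nat_lit 0) (nat_lit 5) (nat_lit 6) L42322 (by decide +kernel)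
theorem L42324 : W_5 (nat_lit 6) (nat_lit 0x200010001380090000e00020000000000000000000000) (nat_lit 0x0) (nat_lit 0x238011c001c000000000000000000000) := T_5 (nat_lit 104) (nat_lit 125) (nat_lit 3) (nat_lit 2) (nat_lit 6) L42323 (by decide +kernel)
theorem L42325 : W_5 (nat_lit 2) (nat_lit 0x200010001380094000f00028000000080000000000000) (nat_lit 0x0) (nat_lit 0x1000010000400000000000000000) := D_5 (nat_lit 88) (nat_lit 108) (nat_lit 70) (nat_lit 0) (nat_lit 6) (nat_lit 6) (nat_lit 4) (nat_lit 3) (nat_lit 8) (by decide +kernel)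
theorem L42326 : W_5 (nat_lit 3) (nat_lit 0x200010001380094000f00020000000080000000000000) (nat_lit 0x0) (nat_lit 0x100001c000400000000000000000) := T_5 (nat_lit 87) (nat_lit 86) (nat_lit 0) (nat_lit 5) (nat_lit 6) L42325 (by decide +kernel)
theorem L42327 : W_5 (nat_lit 4) (nat_lit 0x200010001380094000e00020000000080000000000000) (nat_lit 0x0) (nat_lit 0x2000110001c000400000000000000000) := T_5 (nat_lit 104) (nat_lit 125) (nat_lit 3) (nat_lit 2) (nat_lit 6) L42326 (by decide +kernel)
theorem L42328 : W_5 (nat_lit 5) (nat_lit 0x200010001380090000e00020000000080000000000000) (nat_lit 0x0) (nat_lit 0x100000002400110001c000400000000000000000) := T_5 (nat_lit 122) (nat_lit 156) (nat_lit 6) (nat_lit 3) (nat_lit 9) L42327 (by decide +kernel)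
theorem L42329 : W_5 (nat_lit 6) (nat_lit 0x200010001380090000e00020000000000000000000000) (nat_lit 0x0) (nat_lit 0x100000002400110001c001400080000000000000) := T_5 (nat_lit 55) (nat_lit 72) (nat_lit 7) (nat_lit 4) (nat_lit 3) L42328 (by decide +kernel)
theorem L42330 : W_5 (nat_lit 2) (nat_lit 0x200010001380092000f00028000000000000000000000) (nat_lit 0x0) (nat_lit 0x1000000004000000000000400000000000000000) := D_5 (nat_lit 122) (nat_lit 156) (nat_lit 70) (nat_lit 6) (nat_lit 3) (nat_lit 9) (nat_lit 7) (nat_lit 2) (nat_lit 4) (by decide +kernel)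
theorem L42331 : W_5 (nat_lit 3) (nat_lit 0x200010001380090000f00028000000000000000000000) (nat_lit 0x0) (nat_lit 0x1000000007000000000000400000000000000000) := T_5 (nat_lit 121) (nat_lit 120) (nat_lit 1) (nat_lit 5) (nat_lit 6) L42330 (by decide +kernel)
theorem L42332 : W_5 (nat_lit 4) (nat_lit 0x200010001380090000f00020000000000000000000000) (nat_lit 0x0) (nat_lit 0x100000000700000000c000400000000000000000) := T_5 (nat_lit 87) (nat_lit 86) (nat_lit 0) (nat_lit 5) (nat_lit 6) L42331 (by decide +kernel)
theorem L42333 : W_5 (nat_lit 5) (nat_lit 0x200010001380090000e00020000000000000000000000) (nat_lit 0x0) (nat_lit 0x100000002700010000c000400000000000000000) := T_5 (nat_lit 104) (nat_lit 125) (nat_lit 3) (nat_lit 2) (nat_lit 6) L42332 (by decide +kernel)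
theorem L42334 : W_5 (nat_lit 2) (nat_lit 0x200010001380094001e00020000000080000000000000) (nat_lit 0x0) (nat_lit 0x2000018000000000000000000000) := D_5 (nat_lit 88) (nat_lit 87) (nat_lit 109) (nat_lit 0) (nat_lit 6) (nat_lit 6) (nat_lit 0) (nat_lit 7) (nat_lit 6) (by decide +kernel)
theorem L42335 : W_5 (nat_lit 3) (nat_lit 0x200010001380094000e00020000000080000000000000) (nat_lit 0x0) (nat_lit 0x2003000018000000000000000000000) := T_5 (nat_lit 108) (nat_lit 121) (nat_lit 1) (nat_lit 6) (nat_lit 6) L42334 (by decide +kernel)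
theorem L42336 : W_5 (nat_lit 4) (nat_lit 0x200010001380090000e00020000000080000000000000) (nat_lit 0x0) (nat_lit 0x1000000006003000018000000000000000000000) := T_5 (nat_lit 122) (nat_lit 156) (nat_lit 6) (nat_lit 3) (nat_lit 9) L42335 (by decide +kernel)
theorem L42337 : W_5 (nat_lit 5) (nat_lit 0x200010001380090000e00020000000000000000000000) (nat_lit 0x0) (nat_lit 0x1000000006003000018001000080000000000000) := T_5 (nat_lit 55) (nat_lit 72) (nat_lit 7) (nat_lit 4) (nat_lit 3) L42336 (by decide +kernel)
theorem L42338 : W_5 (nat_lit 2) (nat_lit 0x200010001380094000e00020000000000000000000000) (nat_lit 0x0) (nat_lit 0x10001000080000000000000) := D_5 (nat_lit 72) (nat_lit 55) (nat_lit 88) (nat_lit 7) (nat_lit 4) (nat_lit 3) (nat_lit 6) (nat_lit 3) (nat_lit 8) (by decide +kernel)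
theorem L42339 : W_5 (nat_lit 3) (nat_lit 0x200010001380090000e00020000000000000000000000) (nat_lit 0x0) (nat_lit 0x1000000004000000010001000080000000000000) := T_5 (nat_lit 122) (nat_lit 156) (nat_lit 6) (nat_lit 3) (nat_lit 9) L42338 (by decide +kernel)
theorem L42340 : W_5 (nat_lit 9) (nat_lit 0x200010001380090000c00020000000000000000000000) (nat_lit 0x0) (nat_lit 0x10000000278033c001c001400080000000000000) := Q_5 (nat_lit 105) (C_5 L42319 (C_5 L42324 (C_5 L42329 (C_5 L42333 (C_5 L42337 (C_5 L42339 N_5)))))) (by decide +kernel)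
theorem L42341 : W_5 (nat_lit 2) (nat_lit 0x200010001380090000c00020000000000000000000000) (nat_lit 0x0) (nat_lit 0x8000000000001000080000000000000) := D_5 (nat_lit 72) (nat_lit 55) (nat_lit 123) (nat_lit 7) (nat_lit 4) (nat_lit 3) (nat_lit 7) (nat_lit 4) (nat_lit 4) (by decide +kernel)
theorem L42342 : W_5 (nat_lit 2) (nat_lit 0x200010001380098000c00038000000000000000000000) (nat_lit 0x0) (nat_lit 0x3200000000000000000000000000) := D_5 (nat_lit 108) (nat_lit 109) (nat_lit 105) (nat_lit 0) (nat_lit 7) (nat_lit 6) (nat_lit 0) (nat_lit 6) (nat_lit 6) (by decide +kernel)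
theorem L42343 : W_5 (nat_lit 3) (nat_lit 0x200010001380098000c00030000000000000000000000) (nat_lit 0x0) (nat_lit 0x320000c000000000000000000000) := T_5 (nat_lit 87) (nat_lit 86) (nat_lit 3) (nat_lit 1) (nat_lit 5) L42342 (by decide +kernel)
theorem L42344 : W_5 (nat_lit 4) (nat_lit 0x200010001380098000c00020000000000000000000000) (nat_lit 0x0) (nat_lit 0x320001c000800000000000000000) := T_5 (nat_lit 88) (nat_lit 71) (nat_lit 4) (nat_lit 4) (nat_lit 8) L42343 (by decide +kernel)
theorem L42345 : W_5 (nat_lit 5) (nat_lit 0x200010001380090000c00020000000000000000000000) (nat_lit 0x0) (nat_lit 0x100000000800320001c000800000000000000000) := T_5 (nat_lit 123) (nat_lit 156) (nat_lit 5) (nat_lit 4) (nat_lit 5) L42344 (by decide +kernel)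
theorem L42346 : W_5 (nat_lit 10) (nat_lit 0x200010001380090000c00000000000000000000000000) (nat_lit 0x0) (nat_lit 0x100000002f8033c003c001c00080000000000000) := Q_5 (nat_lit 89) (C_5 L42340 (C_5 L42341 (C_5 L42345 N_5))) (by decide +kernel)
theorem L42347 : W_5 (nat_lit 2) (nat_lit 0x2000100013800b4001e00020000000080000000000000) (nat_lit 0x0) (nat_lit 0x180004000000000000000000) := D_5 (nat_lit 91) (nat_lit 92) (nat_lit 74) (nat_lit 2) (nat_lit 3) (nat_lit 6) (nat_lit 5) (nat_lit 6) (nat_lit 4) (by decide +kernel)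
theorem L42348 : W_5 (nat_lit 3) (nat_lit 0x2000100013800b4000e00020000000080000000000000) (nat_lit 0x0) (nat_lit 0x2001000180004000000000000000000) := T_5 (nat_lit 108) (nat_lit 121) (nat_lit 1) (nat_lit 6) (nat_lit 6) L42347 (by decide +kernel)
theorem L42349 : W_5 (nat_lit 4) (nat_lit 0x2000100013800b0000e00020000000080000000000000) (nat_lit 0x0) (nat_lit 0x1000000006001000180004000000000000000000) := T_5 (nat_lit 122) (nat_lit 156) (nat_lit 6) (nat_lit 3) (nat_lit 9) L42348 (by decide +kernel)
theorem L42350 : W_5 (nat_lit 5) (nat_lit 0x2000100013800b0000c00020000000080000000000000) (nat_lit 0x0) (nat_lit 0x1000000006001300180004000000000000000000) := T_5 (nat_lit 105) (nat_lit 104) (nat_lit 3) (nat_lit 2) (nat_lit 6) L42349 (by decide +kernel)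
theorem L42351 : W_5 (nat_lit 6) (nat_lit 0x2000100013800b0000c00020000000000000000000000) (nat_lit 0x0) (nat_lit 0x1000000006001300180005000080000000000000) := T_5 (nat_lit 55) (nat_lit 72) (nat_lit 7) (nat_lit 4) (nat_lit 3) L42350 (by decide +kernel)
theorem L42352 : W_5 (nat_lit 7) (nat_lit 0x200010001380090000c00020000000000000000000000) (nat_lit 0x0) (nat_lit 0x1000000066001300180005000080000000000000) := T_5 (nat_lit 125) (nat_lit 126) (nat_lit 1) (nat_lit 8) (nat_lit 7) L42351 (by decide +kernel)
theorem L42353 : W_5 (nat_lit 2) (nat_lit 0x2000100013800b8000e00030000000000000000000000) (nat_lit 0x0) (nat_lit 0x100000c000000000000000000000) := D_5 (nat_lit 87) (nat_lit 86) (nat_lit 108) (nat_lit 3) (nat_lit 1) (nat_lit 5) (nat_lit 0) (nat_lit 6) (nat_lit 6) (by decide +kernel)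
theorem L42354 : W_5 (nat_lit 3) (nat_lit 0x2000100013800b8000e00020000000000000000000000) (nat_lit 0x0) (nat_lit 0x100001c000800000000000000000) := T_5 (nat_lit 88) (nat_lit 71) (nat_lit 4) (nat_lit 4) (nat_lit 8) L42353 (by decide +kernel)
theorem L42355 : W_5 (nat_lit 4) (nat_lit 0x2000100013800b8000c00020000000000000000000000) (nat_lit 0x0) (nat_lit 0x130001c000800000000000000000) := T_5 (nat_lit 105) (nat_lit 104) (nat_lit 3) (nat_lit 2) (nat_lit 6) L42354 (by decide +kernel)
theorem L42356 : W_5 (nat_lit 5) (nat_lit 0x2000100013800b0000c00020000000000000000000000) (nat_lit 0x0) (nat_lit 0x100000000800130001c000800000000000000000) := T_5 (nat_lit 123) (nat_lit 156) (nat_lit 5) (nat_lit 4) (nat_lit 5) L42355 (by decide +kernel)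
theorem L42357 : W_5 (nat_lit 6) (nat_lit 0x200010001380090000c00020000000000000000000000) (nat_lit 0x0) (nat_lit 0x100000006800130001c000800000000000000000) := T_5 (nat_lit 125) (nat_lit 126) (nat_lit 1) (nat_lit 8) (nat_lit 7) L42356 (by decide +kernel)
theorem L42358 : W_5 (nat_lit 8) (nat_lit 0x200010001380090000c00000000000000000000000000) (nat_lit 0x0) (nat_lit 0x100000006e0013001bc005800080000000000000) := Q_5 (nat_lit 89) (C_5 L42341 (C_5 L42352 (C_5 L42357 N_5))) (by decide +kernel)
theorem L42359 : W_5 (nat_lit 2) (nat_lit 0x200010001b800d0002c00100000000000000000000000) (nat_lit 0x0) (nat_lit 0x2000100008000000000000000000000000000000000000000) := D_5 (nat_lit 176) (nat_lit 193) (nat_lit 159) (nat_lit 5) (nat_lit 7) (nat_lit 7) (nat_lit 5) (nat_lit 7) (nat_lit 6) (by decide +kernel)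
theorem L42360 : W_5 (nat_lit 3) (nat_lit 0x2000100013800d0002c00100000000000000000000000) (nat_lit 0x0) (nat_lit 0x2000100028000800000000000000000000000000000000000) := T_5 (nat_lit 143) (nat_lit 161) (nat_lit 7) (nat_lit 7) (nat_lit 5) L42359 (by decide +kernel)
theorem L42361 : W_5 (nat_lit 4) (nat_lit 0x2000100013800d0002c00000000000000000000000000) (nat_lit 0x0) (nat_lit 0x2000100028000800000000000100008000000000000000000) := T_5 (nat_lit 92) (nat_lit 75) (nat_lit 7) (nat_lit 7) (nat_lit 4) L42360 (by decide +kernel)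
theorem L42362 : W_5 (nat_lit 5) (nat_lit 0x2000100013800d0000c00000000000000000000000000) (nat_lit 0x0) (nat_lit 0x2000100028000800000003000100008000000000000000000) := T_5 (nat_lit 109) (nat_lit 108) (nat_lit 3) (nat_lit 4) (nat_lit 6) L42361 (by decide +kernel)
theorem L42363 : W_5 (nat_lit 6) (nat_lit 0x200010001380090000c00000000000000000000000000) (nat_lit 0x0) (nat_lit 0x2000100028000800060003000100008000000000000000000) := T_5 (nat_lit 126) (nat_lit 125) (nat_lit 1) (nat_lit 8) (nat_lit 7) L42362 (by decide +kernel)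
theorem L42364 : W_5 (nat_lit 2) (nat_lit 0x2000100013800b0000e00020001000000000000000000) (nat_lit 0x0) (nat_lit 0x1000000004000000010000000000000000000000) := D_5 (nat_lit 122) (nat_lit 156) (nat_lit 88) (nat_lit 6) (nat_lit 3) (nat_lit 9) (nat_lit 6) (nat_lit 3) (nat_lit 8) (by decide +kernel)
theorem L42365 : W_5 (nat_lit 3) (nat_lit 0x2000100013800b0000c00020001000000000000000000) (nat_lit 0x0) (nat_lit 0x1000000004000300010000000000000000000000) := T_5 (nat_lit 105) (nat_lit 104) (nat_lit 3) (nat_lit 2) (nat_lit 6) L42364 (by decide +kernel)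
theorem L42366 : W_5 (nat_lit 4) (nat_lit 0x2000100013800b0000c00020000000000000000000000) (nat_lit 0x0) (nat_lit 0x1000000004000300010001000080000000000000) := T_5 (nat_lit 72) (nat_lit 55) (nat_lit 7) (nat_lit 4) (nat_lit 3) L42365 (by decide +kernel)
theorem L42367 : W_5 (nat_lit 5) (nat_lit 0x200010001380090000c00020000000000000000000000) (nat_lit 0x0) (nat_lit 0x1000000064000300010001000080000000000000) := T_5 (nat_lit 125) (nat_lit 126) (nat_lit 1) (nat_lit 8) (nat_lit 7) L42366 (by decide +kernel)
theorem L42368 : W_5 (nat_lit 2) (nat_lit 0x2000110013800b0000c00020000000000000000000000) (nat_lit 0x0) (nat_lit 0x4000300000000000000000000000000) := D_5 (nat_lit 105) (nat_lit 104) (nat_lit 122) (nat_lit 3) (nat_lit 2) (nat_lit 6) (nat_lit 6) (nat_lit 3) (nat_lit 9) (by decide +kernel)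
theorem L42369 : W_5 (nat_lit 3) (nat_lit 0x2000100013800b0000c00020000000000000000000000) (nat_lit 0x0) (nat_lit 0x100000000c000300000000000000000000000000) := T_5 (nat_lit 156) (nat_lit 123) (nat_lit 5) (nat_lit 4) (nat_lit 5) L42368 (by decide +kernel)
theorem L42370 : W_5 (nat_lit 4) (nat_lit 0x200010001380090000c00020000000000000000000000) (nat_lit 0x0) (nat_lit 0x100000006c000300000000000000000000000000) := T_5 (nat_lit 125) (nat_lit 126) (nat_lit 1) (nat_lit 8) (nat_lit 7) L42369 (by decide +kernel)
theorem L42371 : W_5 (nat_lit 6) (nat_lit 0x200010001380090000c00000000000000000000000000) (nat_lit 0x0) (nat_lit 0x100000006c000300030001000080000000000000) := Q_5 (nat_lit 89) (C_5 L42341 (C_5 L42367 (C_5 L42370 N_5))) (by decide +kernel)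
theorem L42372 : W_5 (nat_lit 2) (nat_lit 0x200010001380098003f00100000000000000000000000) (nat_lit 0x0) (nat_lit 0x1c000000000000000000000) := D_5 (nat_lit 87) (nat_lit 88) (nat_lit 86) (nat_lit 0) (nat_lit 6) (nat_lit 6) (nat_lit 0) (nat_lit 5) (nat_lit 6) (by decide +kernel)
theorem L42373 : W_5 (nat_lit 3) (nat_lit 0x200010001380098003e00100000000000000000000000) (nat_lit 0x0) (nat_lit 0x18001c000000000000000000000) := T_5 (nat_lit 104) (nat_lit 103) (nat_lit 3) (nat_lit 1) (nat_lit 6) L42372 (by decide +kernel)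
theorem L42374 : W_5 (nat_lit 4) (nat_lit 0x200010001380098003c00100000000000000000000000) (nat_lit 0x0) (nat_lit 0x38009c000000000000000000000) := T_5 (nat_lit 105) (nat_lit 91) (nat_lit 2) (nat_lit 3) (nat_lit 6) L42373 (by decide +kernel)
theorem L42375 : W_5 (nat_lit 5) (nat_lit 0x200010001380098003c00000000000000000000000000) (nat_lit 0x0) (nat_lit 0x38039c000000000000000000000) := T_5 (nat_lit 92) (nat_lit 93) (nat_lit 2) (nat_lit 4) (nat_lit 6) L42374 (by decide +kernel)
theorem L42376 : W_5 (nat_lit 6) (nat_lit 0x200010001380090003c00000000000000000000000000) (nat_lit 0x0) (nat_lit 0xc00038039c000000000000000000000) := T_5 (nat_lit 123) (nat_lit 122) (nat_lit 1) (nat_lit 7) (nat_lit 6) L42375 (by decide +kernel)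
theorem L42377 : W_5 (nat_lit 7) (nat_lit 0x200010001380090001c00000000000000000000000000) (nat_lit 0x0) (nat_lit 0x4c00238039c000000000000000000000) := T_5 (nat_lit 109) (nat_lit 126) (nat_lit 3) (nat_lit 4) (nat_lit 6) L42376 (by decide +kernel)
theorem L42378 : W_5 (nat_lit 2) (nat_lit 0x200011001380094001e00080000000000000000000000) (nat_lit 0x0) (nat_lit 0x100018000000000000000000000) := D_5 (nat_lit 87) (nat_lit 88) (nat_lit 104) (nat_lit 0) (nat_lit 6) (nat_lit 6) (nat_lit 4) (nat_lit 3) (nat_lit 9) (by decide +kernel)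
theorem L42379 : W_5 (nat_lit 3) (nat_lit 0x200010001380094001e00080000000000000000000000) (nat_lit 0x0) (nat_lit 0x1000000000000100038000000000000000000000) := T_5 (nat_lit 156) (nat_lit 89) (nat_lit 6) (nat_lit 3) (nat_lit 9) L42378 (by decide +kernel)
theorem L42380 : W_5 (nat_lit 4) (nat_lit 0x200010001380094001e00000000000000000000000000) (nat_lit 0x0) (nat_lit 0x10000000000001001b8000000000000000000000) := T_5 (nat_lit 91) (nat_lit 92) (nat_lit 2) (nat_lit 3) (nat_lit 6) L42379 (by decide +kernel)
theorem L42381 : W_5 (nat_lit 5) (nat_lit 0x200010001380090001e00000000000000000000000000) (nat_lit 0x0) (nat_lit 0x10000000060001001b8000000000000000000000) := T_5 (nat_lit 122) (nat_lit 121) (nat_lit 1) (nat_lit 6) (nat_lit 6) L42380 (by decide +kernel)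
theorem L42382 : W_5 (nat_lit 2) (nat_lit 0x20001000138009a001f00088000000200000000000000) (nat_lit 0x0) (nat_lit 0x1000000000000000020001000000000000000000) := D_5 (nat_lit 89) (nat_lit 156) (nat_lit 72) (nat_lit 5) (nat_lit 4) (nat_lit 5) (nat_lit 7) (nat_lit 4) (nat_lit 4) (by decide +kernel)
theorem L42383 : W_5 (nat_lit 3) (nat_lit 0x200010001380092001f00088000000200000000000000) (nat_lit 0x0) (nat_lit 0x1000000008000080020001000000000000000000) := T_5 (nat_lit 123) (nat_lit 103) (nat_lit 3) (nat_lit 1) (nat_lit 6) L42382 (by decide +kernel)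
theorem L42384 : W_5 (nat_lit 4) (nat_lit 0x200010001380090001f00088000000200000000000000) (nat_lit 0x0) (nat_lit 0x100000000b000080020001000000000000000000) := T_5 (nat_lit 121) (nat_lit 120) (nat_lit 1) (nat_lit 5) (nat_lit 6) L42383 (by decide +kernel)
theorem L42385 : W_5 (nat_lit 5) (nat_lit 0x200010001380090001e00088000000200000000000000) (nat_lit 0x0) (nat_lit 0x100000000b000180024001000000000000000000) := T_5 (nat_lit 104) (nat_lit 86) (nat_lit 0) (nat_lit 5) (nat_lit 6) L42384 (by decide +kernel)
theorem L42386 : W_5 (nat_lit 6) (nat_lit 0x200010001380090001e00088000000000000000000000) (nat_lit 0x0) (nat_lit 0x100000000b000180024005000200000000000000) := T_5 (nat_lit 57) (nat_lit 74) (nat_lit 5) (nat_lit 6) (nat_lit 3) L42385 (by decide +kernel)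
theorem L42387 : W_5 (nat_lit 7) (nat_lit 0x200010001380090001e00080000000000000000000000) (nat_lit 0x0) (nat_lit 0x100000000b00018003c005000200000000000000) := T_5 (nat_lit 87) (nat_lit 88) (nat_lit 0) (nat_lit 6) (nat_lit 6) L42386 (by decide +kernel)
theorem L42388 : W_5 (nat_lit 8) (nat_lit 0x200010001380090001e00000000000000000000000000) (nat_lit 0x0) (nat_lit 0x100000000b0001801bc005000200000000000000) := T_5 (nat_lit 91) (nat_lit 92) (nat_lit 2) (nat_lit 3) (nat_lit 6) L42387 (by decide +kernel)
theorem L42389 : W_5 (nat_lit 2) (nat_lit 0x200010001380094001e00010000000000000000000000) (nat_lit 0x0) (nat_lit 0x1000000000000000020001000000000000000000) := D_5 (nat_lit 89) (nat_lit 156) (nat_lit 72) (nat_lit 6) (nat_lit 3) (nat_lit 9) (nat_lit 6) (nat_lit 3) (nat_lit 8) (by decide +kernel)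
theorem L42390 : W_5 (nat_lit 3) (nat_lit 0x200010001380094001e00000000000000000000000000) (nat_lit 0x0) (nat_lit 0x1000000000000000038001000000000000000000) := T_5 (nat_lit 88) (nat_lit 87) (nat_lit 0) (nat_lit 6) (nat_lit 6) L42389 (by decide +kernel)
theorem L42391 : W_5 (nat_lit 4) (nat_lit 0x200010001380090001e00000000000000000000000000) (nat_lit 0x0) (nat_lit 0x1000000006000000038001000000000000000000) := T_5 (nat_lit 122) (nat_lit 121) (nat_lit 1) (nat_lit 6) (nat_lit 6) L42390 (by decide +kernel)
theorem L42392 : W_5 (nat_lit 2) (nat_lit 0x200010001380098001f00088000000200000000000000) (nat_lit 0x0) (nat_lit 0x1000000004000000020000000000000000000000) := D_5 (nat_lit 156) (nat_lit 122) (nat_lit 89) (nat_lit 4) (nat_lit 3) (nat_lit 9) (nat_lit 5) (nat_lit 4) (nat_lit 5) (by decide +kernel)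
theorem L42393 : W_5 (nat_lit 3) (nat_lit 0x200010001380090001f00088000000200000000000000) (nat_lit 0x0) (nat_lit 0x100000000c000080020000000000000000000000) := T_5 (nat_lit 123) (nat_lit 103) (nat_lit 3) (nat_lit 1) (nat_lit 6) L42392 (by decide +kernel)
theorem L42394 : W_5 (nat_lit 4) (nat_lit 0x200010001380090001e00088000000200000000000000) (nat_lit 0x0) (nat_lit 0x100000000c000180024000000000000000000000) := T_5 (nat_lit 104) (nat_lit 86) (nat_lit 0) (nat_lit 5) (nat_lit 6) L42393 (by decide +kernel)
theorem L42395 : W_5 (nat_lit 5) (nat_lit 0x200010001380090001e00088000000000000000000000) (nat_lit 0x0) (nat_lit 0x100000000c000180024004000200000000000000) := T_5 (nat_lit 57) (nat_lit 74) (nat_lit 5) (nat_lit 6) (nat_lit 3) L42394 (by decide +kernel)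
theorem L42396 : W_5 (nat_lit 6) (nat_lit 0x200010001380090001e00080000000000000000000000) (nat_lit 0x0) (nat_lit 0x100000000c00018003c004000200000000000000) := T_5 (nat_lit 87) (nat_lit 88) (nat_lit 0) (nat_lit 6) (nat_lit 6) L42395 (by decide +kernel)
theorem L42397 : W_5 (nat_lit 7) (nat_lit 0x200010001380090001e00000000000000000000000000) (nat_lit 0x0) (nat_lit 0x100000000c0001801bc004000200000000000000) := T_5 (nat_lit 91) (nat_lit 92) (nat_lit 2) (nat_lit 3) (nat_lit 6) L42396 (by decide +kernel)
theorem L42398 : W_5 (nat_lit 2) (nat_lit 0x200010001380094001e00090000c00280000000000000) (nat_lit 0x0) (nat_lit 0x140004000000000) := D_5 (nat_lit 54) (nat_lit 56) (nat_lit 38) (nat_lit 1) (nat_lit 6) (nat_lit 3) (nat_lit 6) (nat_lit 3) (nat_lit 6) (by decide +kernel)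
theorem L42399 : W_5 (nat_lit 3) (nat_lit 0x200010001380094001e00090000c00200000000000000) (nat_lit 0x0) (nat_lit 0x10001c0004000000000) := T_5 (nat_lit 55) (nat_lit 72) (nat_lit 6) (nat_lit 3) (nat_lit 7) L42398 (by decide +kernel)
theorem L42400 : W_5 (nat_lit 4) (nat_lit 0x200010001380094001e00090000800200000000000000) (nat_lit 0x0) (nat_lit 0x14001e0004000000000) := T_5 (nat_lit 70) (nat_lit 53) (nat_lit 4) (nat_lit 3) (nat_lit 7) L42399 (by decide +kernel)
theorem L42401 : W_5 (nat_lit 5) (nat_lit 0x200010001380094001e00090000000200000000000000) (nat_lit 0x0) (nat_lit 0x8000000000001c001e0004000000000) := T_5 (nat_lit 71) (nat_lit 123) (nat_lit 7) (nat_lit 3) (nat_lit 4) L42400 (by decide +kernel)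
theorem L42402 : W_5 (nat_lit 6) (nat_lit 0x200010001380094001e00080000000200000000000000) (nat_lit 0x0) (nat_lit 0x8000000018001c001e0004000000000) := T_5 (nat_lit 88) (nat_lit 87) (nat_lit 0) (nat_lit 6) (nat_lit 6) L42401 (by decide +kernel)
theorem L42403 : W_5 (nat_lit 7) (nat_lit 0x200010001380094001e00080000000000000000000000) (nat_lit 0x0) (nat_lit 0x8000000018005c003e0004000000000) := T_5 (nat_lit 57) (nat_lit 74) (nat_lit 5) (nat_lit 6) (nat_lit 3) L42402 (by decide +kernel)
theorem L42404 : W_5 (nat_lit 8) (nat_lit 0x200010001380090001e00080000000000000000000000) (nat_lit 0x0) (nat_lit 0xe000000018005c003e0004000000000) := T_5 (nat_lit 122) (nat_lit 121) (nat_lit 1) (nat_lit 6) (nat_lit 6) L42403 (by decide +kernel)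
theorem L42405 : W_5 (nat_lit 9) (nat_lit 0x200010001380090001e00000000000000000000000000) (nat_lit 0x0) (nat_lit 0xe000000198005c003e0004000000000) := T_5 (nat_lit 91) (nat_lit 92) (nat_lit 2) (nat_lit 3) (nat_lit 6) L42404 (by decide +kernel)
theorem L42406 : W_5 (nat_lit 2) (nat_lit 0x220011001380094001e00080000000000000000000000) (nat_lit 0x0) (nat_lit 0x200010000800000000000000000000000000000000000000) := D_5 (nat_lit 172) (nat_lit 155) (nat_lit 189) (nat_lit 5) (nat_lit 3) (nat_lit 6) (nat_lit 5) (nat_lit 3) (nat_lit 7) (by decide +kernel)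
theorem L42407 : W_5 (nat_lit 3) (nat_lit 0x200011001380094001e00080000000000000000000000) (nat_lit 0x0) (nat_lit 0x200030000800000008000000000000000000000000000000) := T_5 (nat_lit 173) (nat_lit 123) (nat_lit 6) (nat_lit 3) (nat_lit 10) L42406 (by decide +kernel)
theorem L42408 : W_5 (nat_lit 4) (nat_lit 0x200010001380094001e00080000000000000000000000) (nat_lit 0x0) (nat_lit 0x200030001800000008000000020000000000000000000000) := T_5 (nat_lit 156) (nat_lit 89) (nat_lit 6) (nat_lit 3) (nat_lit 9) L42407 (by decide +kernel)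
theorem L42409 : W_5 (nat_lit 5) (nat_lit 0x200010001380094001e00000000000000000000000000) (nat_lit 0x0) (nat_lit 0x2000300018000000080000001a0000000000000000000000) := T_5 (nat_lit 91) (nat_lit 92) (nat_lit 2) (nat_lit 3) (nat_lit 6) L42408 (by decide +kernel)
theorem L42410 : W_5 (nat_lit 6) (nat_lit 0x200010001380090001e00000000000000000000000000) (nat_lit 0x0) (nat_lit 0x20003000180000000e0000001a0000000000000000000000) := T_5 (nat_lit 122) (nat_lit 121) (nat_lit 1) (nat_lit 6) (nat_lit 6) L42409 (by decide +kernel)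
theorem L42411 : W_5 (nat_lit 10) (nat_lit 0x200010001380090001c00000000000000000000000000) (nat_lit 0x0) (nat_lit 0x20003000180000000f0003801bc005c003e0004000000000) := Q_5 (nat_lit 105) (C_5 L42381 (C_5 L42388 (C_5 L42391 (C_5 L42397 (C_5 L42405 (C_5 L42410 N_5)))))) (by decide +kernel)
theorem L42412 : W_5 (nat_lit 2) (nat_lit 0x200010001380090003e00120000000000000000000000) (nat_lit 0x0) (nat_lit 0x1000000006000000000000000000000000000000) := D_5 (nat_lit 122) (nat_lit 121) (nat_lit 156) (nat_lit 1) (nat_lit 6) (nat_lit 6) (nat_lit 6) (nat_lit 3) (nat_lit 9) (by decide +kernel)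
theorem L42413 : W_5 (nat_lit 3) (nat_lit 0x200010001380090003c00120000000000000000000000) (nat_lit 0x0) (nat_lit 0x1000000006000200080000000000000000000000) := T_5 (nat_lit 105) (nat_lit 91) (nat_lit 2) (nat_lit 3) (nat_lit 6) L42412 (by decide +kernel)
theorem L42414 : W_5 (nat_lit 4) (nat_lit 0x200010001380090003c00020000000000000000000000) (nat_lit 0x0) (nat_lit 0x1000000006000200380000000000000000000000) := T_5 (nat_lit 92) (nat_lit 93) (nat_lit 2) (nat_lit 4) (nat_lit 6) L42413 (by decide +kernel)
theorem L42415 : W_5 (nat_lit 5) (nat_lit 0x200010001380090003c00000000000000000000000000) (nat_lit 0x0) (nat_lit 0x10000000060002003b0000000000000000000000) := T_5 (nat_lit 89) (nat_lit 88) (nat_lit 0) (nat_lit 7) (nat_lit 6) L42414 (by decide +kernel)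
theorem L42416 : W_5 (nat_lit 6) (nat_lit 0x200010001380090001c00000000000000000000000000) (nat_lit 0x0) (nat_lit 0x10000000460022003b0000000000000000000000) := T_5 (nat_lit 109) (nat_lit 126) (nat_lit 3) (nat_lit 4) (nat_lit 6) L42415 (by decide +kernel)
theorem L42417 : W_5 (nat_lit 2) (nat_lit 0x200010001380090003c00020000000000000000000000) (nat_lit 0x0) (nat_lit 0x1000000008000000000001000000000000000000) := D_5 (nat_lit 123) (nat_lit 156) (nat_lit 72) (nat_lit 5) (nat_lit 4) (nat_lit 5) (nat_lit 7) (nat_lit 4) (nat_lit 4) (by decide +kernel)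
theorem L42418 : W_5 (nat_lit 3) (nat_lit 0x200010001380090003c00000000000000000000000000) (nat_lit 0x0) (nat_lit 0x1000000008000000030001000000000000000000) := T_5 (nat_lit 89) (nat_lit 88) (nat_lit 0) (nat_lit 7) (nat_lit 6) L42417 (by decide +kernel)
theorem L42419 : W_5 (nat_lit 4) (nat_lit 0x200010001380090001c00000000000000000000000000) (nat_lit 0x0) (nat_lit 0x1000000048002000030001000000000000000000) := T_5 (nat_lit 109) (nat_lit 126) (nat_lit 3) (nat_lit 4) (nat_lit 6) L42418 (by decide +kernel)
theorem L42420 : W_5 (nat_lit 2) (nat_lit 0x200010001380098003c00000000000000000000000000) (nat_lit 0x0) (nat_lit 0x1000000000000000020001000000000000000000) := D_5 (nat_lit 89) (nat_lit 72) (nat_lit 156) (nat_lit 7) (nat_lit 4) (nat_lit 4) (nat_lit 5) (nat_lit 4) (nat_lit 5) (by decide +kernel)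
theorem L42421 : W_5 (nat_lit 3) (nat_lit 0x200010001380090003c00000000000000000000000000) (nat_lit 0x0) (nat_lit 0x100000000c000000020001000000000000000000) := T_5 (nat_lit 123) (nat_lit 122) (nat_lit 1) (nat_lit 7) (nat_lit 6) L42420 (by decide +kernel)
theorem L42422 : W_5 (nat_lit 4) (nat_lit 0x200010001380090001c00000000000000000000000000) (nat_lit 0x0) (nat_lit 0x100000004c002000020001000000000000000000) := T_5 (nat_lit 109) (nat_lit 126) (nat_lit 3) (nat_lit 4) (nat_lit 6) L42421 (by decide +kernel)
theorem L42423 : W_5 (nat_lit 11) (nat_lit 0x200010001380090000c00000000000000000000000000) (nat_lit 0x0) (nat_lit 0x20003000180000004f0033803bc005c003e0004000000000) := Q_5 (nat_lit 108) (C_5 L42377 (C_5 L42411 (C_5 L42416 (C_5 L42419 (C_5 L42422 N_5))))) (by decide +kernel)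
theorem L42424 : W_5 (nat_lit 12) (nat_lit 0x200010001380090000800000000000000000000000000) (nat_lit 0x0) (nat_lit 0x220013002980080006f8037c03bc00dc003e0004000000000) := Q_5 (nat_lit 106) (C_5 L42346 (C_5 L42358 (C_5 L42363 (C_5 L42371 (C_5 L42423 N_5))))) (by decide +kernel)
theorem L42425 : W_5 (nat_lit 10) (nat_lit 0x200010001380090000800040000000000000000000000) (nat_lit 0x0) (nat_lit 0x20001000290008000680034003bc01d800000000000000000) := Q_5 (nat_lit 106) (C_5 L42072 (C_5 L42229 (C_5 L42310 N_5))) (by decide +kernel)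
theorem L42426 : W_5 (nat_lit 11) (nat_lit 0x200010001380090000800000000000000000000000000) (nat_lit 0x0) (nat_lit 0x20001000290008000680034003fc01f800380014000000000) := Q_5 (nat_lit 90) (C_5 L42244 (C_5 L42138 (C_5 L42114 (C_5 L42110 (C_5 L42425 N_5))))) (by decide +kernel)
theorem L42427 : W_5 (nat_lit 9) (nat_lit 0x200010001380090000800000000000000000000000000) (nat_lit 0x0) (nat_lit 0x100000000f0037803fc007800280000000000000) := Q_5 (nat_lit 90) (C_5 L42244 (C_5 L42133 (C_5 L42110 (C_5 L42234 N_5)))) (by decide +kernel)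
theorem L42428 : W_5 (nat_lit 2) (nat_lit 0x2000100013800bc001a00010004000000000000000000) (nat_lit 0x0) (nat_lit 0x400008000400000000000000000) := D_5 (nat_lit 87) (nat_lit 70) (nat_lit 106) (nat_lit 4) (nat_lit 3) (nat_lit 8) (nat_lit 0) (nat_lit 6) (nat_lit 6) (by decide +kernel)
theorem L42429 : W_5 (nat_lit 3) (nat_lit 0x2000100013800bc001a00000004000000000000000000) (nat_lit 0x0) (nat_lit 0x400018000c00000000000000000) := T_5 (nat_lit 88) (nat_lit 71) (nat_lit 7) (nat_lit 3) (nat_lit 4) L42428 (by decide +kernel)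
theorem L42430 : W_5 (nat_lit 4) (nat_lit 0x2000100013800bc001a00000000000000000000000000) (nat_lit 0x0) (nat_lit 0x400098004c00000000000000000) := T_5 (nat_lit 74) (nat_lit 91) (nat_lit 5) (nat_lit 6) (nat_lit 4) L42429 (by decide +kernel)
theorem L42431 : W_5 (nat_lit 5) (nat_lit 0x2000100013800bc000a00000000000000000000000000) (nat_lit 0x0) (nat_lit 0x3400098004c00000000000000000) := T_5 (nat_lit 108) (nat_lit 109) (nat_lit 2) (nat_lit 3) (nat_lit 7) L42430 (by decide +kernel)
theorem L42432 : W_5 (nat_lit 6) (nat_lit 0x2000100013800bc000800000000000000000000000000) (nat_lit 0x0) (nat_lit 0x3700098004c00000000000000000) := T_5 (nat_lit 105) (nat_lit 104) (nat_lit 0) (nat_lit 6) (nat_lit 7) L42431 (by decide +kernel)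
theorem L42433 : W_5 (nat_lit 7) (nat_lit 0x20001000138009c000800000000000000000000000000) (nat_lit 0x0) (nat_lit 0x60003700098004c00000000000000000) := T_5 (nat_lit 125) (nat_lit 126) (nat_lit 1) (nat_lit 7) (nat_lit 7) L42432 (by decide +kernel)
theorem L42434 : W_5 (nat_lit 2) (nat_lit 0x2000110013800de000900000000000000000000000000) (nat_lit 0x0) (nat_lit 0x200008000400000000000000000) := D_5 (nat_lit 87) (nat_lit 70) (nat_lit 105) (nat_lit 7) (nat_lit 2) (nat_lit 4) (nat_lit 4) (nat_lit 3) (nat_lit 9) (by decide +kernel)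
theorem L42435 : W_5 (nat_lit 3) (nat_lit 0x2000100013800de000900000000000000000000000000) (nat_lit 0x0) (nat_lit 0x20001000000000000200008000400000000000000000) := T_5 (nat_lit 156) (nat_lit 173) (nat_lit 4) (nat_lit 3) (nat_lit 10) L42434 (by decide +kernel)
theorem L42436 : W_5 (nat_lit 4) (nat_lit 0x2000100013800de000800000000000000000000000000) (nat_lit 0x0) (nat_lit 0x20001000000000000380008000400000000000000000) := T_5 (nat_lit 104) (nat_lit 103) (nat_lit 0) (nat_lit 5) (nat_lit 7) L42435 (by decide +kernel)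
theorem L42437 : W_5 (nat_lit 5) (nat_lit 0x2000100013800dc000800000000000000000000000000) (nat_lit 0x0) (nat_lit 0x20001000000003000380008000400000000000000000) := T_5 (nat_lit 121) (nat_lit 120) (nat_lit 3) (nat_lit 1) (nat_lit 7) L42436 (by decide +kernel)
theorem L42438 : W_5 (nat_lit 6) (nat_lit 0x20001000138009c000800000000000000000000000000) (nat_lit 0x0) (nat_lit 0x20001000000063000380008000400000000000000000) := T_5 (nat_lit 126) (nat_lit 125) (nat_lit 1) (nat_lit 7) (nat_lit 7) L42437 (by decide +kernel)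
theorem L42439 : W_5 (nat_lit 8) (nat_lit 0x200010001380098000800000000000000000000000000) (nat_lit 0x0) (nat_lit 0x20001000000067003780098004c00000000000000000) := Q_5 (nat_lit 122) (C_5 L42250 (C_5 L42433 (C_5 L42438 N_5))) (by decide +kernel)
theorem L42440 : W_5 (nat_lit 2) (nat_lit 0x2000100013800de000b000c0000000000000000000000) (nat_lit 0x0) (nat_lit 0x30001000000000000000000) := D_5 (nat_lit 89) (nat_lit 88) (nat_lit 72) (nat_lit 1) (nat_lit 6) (nat_lit 5) (nat_lit 4) (nat_lit 5) (nat_lit 8) (by decide +kernel)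
theorem L42441 : W_5 (nat_lit 3) (nat_lit 0x2000100013800de0009000c0000000000000000000000) (nat_lit 0x0) (nat_lit 0x600030001000000000000000000) := T_5 (nat_lit 105) (nat_lit 106) (nat_lit 2) (nat_lit 2) (nat_lit 6) L42440 (by decide +kernel)
theorem L42442 : W_5 (nat_lit 4) (nat_lit 0x2000100013800de000900040000000000000000000000) (nat_lit 0x0) (nat_lit 0x6000b0005000000000000000000) := T_5 (nat_lit 91) (nat_lit 74) (nat_lit 6) (nat_lit 5) (nat_lit 8) L42441 (by decide +kernel)
theorem L42443 : W_5 (nat_lit 5) (nat_lit 0x2000100013800de000800040000000000000000000000) (nat_lit 0x0) (nat_lit 0x7800b0005000000000000000000) := T_5 (nat_lit 104) (nat_lit 103) (nat_lit 0) (nat_lit 5) (nat_lit 7) L42442 (by decide +kernel)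
theorem L42444 : W_5 (nat_lit 6) (nat_lit 0x2000100013800de000800000000000000000000000000) (nat_lit 0x0) (nat_lit 0x7800f0007000000000000000000) := T_5 (nat_lit 90) (nat_lit 73) (nat_lit 5) (nat_lit 5) (nat_lit 4) L42443 (by decide +kernel)
theorem L42445 : W_5 (nat_lit 7) (nat_lit 0x2000100013800dc000800000000000000000000000000) (nat_lit 0x0) (nat_lit 0x30007800f0007000000000000000000) := T_5 (nat_lit 121) (nat_lit 120) (nat_lit 3) (nat_lit 1) (nat_lit 7) L42444 (by decide +kernel)
theorem L42446 : W_5 (nat_lit 8) (nat_lit 0x20001000138009c000800000000000000000000000000) (nat_lit 0x0) (nat_lit 0x630007800f0007000000000000000000) := T_5 (nat_lit 126) (nat_lit 125) (nat_lit 1) (nat_lit 7) (nat_lit 7) L42445 (by decide +kernel)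
theorem L42447 : W_5 (nat_lit 9) (nat_lit 0x200010001380098000800000000000000000000000000) (nat_lit 0x0) (nat_lit 0x670037800f8007c00000000000000000) := Q_5 (nat_lit 122) (C_5 L42250 (C_5 L42433 (C_5 L42446 N_5))) (by decide +kernel)
theorem L42448 : W_5 (nat_lit 2) (nat_lit 0x2700118013800dc000800060000000000000000000000) (nat_lit 0x0) (nat_lit 0x80000600000000000000000000000000000000000000) := D_5 (nat_lit 154) (nat_lit 153) (nat_lit 175) (nat_lit 3) (nat_lit 0) (nat_lit 9) (nat_lit 0) (nat_lit 5) (nat_lit 10) (by decide +kernel)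
theorem L42449 : W_5 (nat_lit 3) (nat_lit 0x2700110013800dc000800060000000000000000000000) (nat_lit 0x0) (nat_lit 0x80000e00000000000200000000000000000000000000) := T_5 (nat_lit 155) (nat_lit 105) (nat_lit 5) (nat_lit 3) (nat_lit 6) L42448 (by decide +kernel)
theorem L42450 : W_5 (nat_lit 4) (nat_lit 0x2600110013800dc000800060000000000000000000000) (nat_lit 0x0) (nat_lit 0x200090000e00000000000200000000000000000000000000) := T_5 (nat_lit 172) (nat_lit 189) (nat_lit 5) (nat_lit 3) (nat_lit 7) L42449 (by decide +kernel)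
theorem L42451 : W_5 (nat_lit 5) (nat_lit 0x2200110013800dc000800060000000000000000000000) (nat_lit 0x0) (nat_lit 0xa000d0000e00000000000200000000000000000000000000) := T_5 (nat_lit 174) (nat_lit 191) (nat_lit 7) (nat_lit 3) (nat_lit 7) L42450 (by decide +kernel)
theorem L42452 : W_5 (nat_lit 6) (nat_lit 0x2000110013800dc000800060000000000000000000000) (nat_lit 0x0) (nat_lit 0xe000f0000e00000000000200000000000000000000000000) := T_5 (nat_lit 173) (nat_lit 190) (nat_lit 6) (nat_lit 3) (nat_lit 11) L42451 (by decide +kernel)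
theorem L42453 : W_5 (nat_lit 7) (nat_lit 0x2000100013800dc000800060000000000000000000000) (nat_lit 0x0) (nat_lit 0xe000f0001e00000000000600000000000000000000000000) := T_5 (nat_lit 156) (nat_lit 106) (nat_lit 5) (nat_lit 4) (nat_lit 5) L42452 (by decide +kernel)
theorem L42454 : W_5 (nat_lit 8) (nat_lit 0x2000100013800dc000800040000000000000000000000) (nat_lit 0x0) (nat_lit 0xe000f0001e00000000000600020001000000000000000000) := T_5 (nat_lit 89) (nat_lit 72) (nat_lit 4) (nat_lit 5) (nat_lit 8) L42453 (by decide +kernel)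
theorem L42455 : W_5 (nat_lit 9) (nat_lit 0x2000100013800dc000800000000000000000000000000) (nat_lit 0x0) (nat_lit 0xe000f0001e00000000000600060003000000000000000000) := T_5 (nat_lit 90) (nat_lit 73) (nat_lit 5) (nat_lit 5) (nat_lit 4) L42454 (by decide +kernel)
theorem L42456 : W_5 (nat_lit 10) (nat_lit 0x20001000138009c000800000000000000000000000000) (nat_lit 0x0) (nat_lit 0xe000f0001e00000060000600060003000000000000000000) := T_5 (nat_lit 126) (nat_lit 125) (nat_lit 1) (nat_lit 7) (nat_lit 7) L42455 (by decide +kernel)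
theorem L42457 : W_5 (nat_lit 11) (nat_lit 0x200010001380098000800000000000000000000000000) (nat_lit 0x0) (nat_lit 0xe000f0001e00000067001780068003400000000000000000) := Q_5 (nat_lit 122) (C_5 L42438 (C_5 L42250 (C_5 L42456 N_5))) (by decide +kernel)
theorem L42458 : W_5 (nat_lit 11) (nat_lit 0x200010001380098000800000000000000000000000000) (nat_lit 0x0) (nat_lit 0xe000f0001e00000067001600060003000000000000000000) := Q_5 (nat_lit 122) (C_5 L42250 (C_5 L42456 N_5)) (by decide +kernel)
theorem L42459 : W_5 (nat_lit 12) (nat_lit 0x200010001380090000800000000000000000000000000) (nat_lit 0x0) (nat_lit 0xe000f0001e0000006f0037800fc007e00000000000000000) := Q_5 (nat_lit 123) (C_5 L42282 (C_5 L42263 (C_5 L42266 (C_5 L42273 (C_5 L42439 (C_5 L42447 (C_5 L42457 (C_5 L42458 N_5)))))))) (by decide +kernel)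
theorem L42460 : W_5 (nat_lit 2) (nat_lit 0x2000100013800d8000e000c0000000000000000000000) (nat_lit 0x0) (nat_lit 0x1000300000000000000000000000) := D_5 (nat_lit 92) (nat_lit 93) (nat_lit 108) (nat_lit 1) (nat_lit 8) (nat_lit 5) (nat_lit 2) (nat_lit 3) (nat_lit 6) (by decide +kernel)
theorem L42461 : W_5 (nat_lit 3) (nat_lit 0x2000100013800d8000c000c0000000000000000000000) (nat_lit 0x0) (nat_lit 0x1300300000000000000000000000) := T_5 (nat_lit 105) (nat_lit 104) (nat_lit 2) (nat_lit 2) (nat_lit 6) L42460 (by decide +kernel)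
theorem L42462 : W_5 (nat_lit 4) (nat_lit 0x2000100013800d8000c00040000000000000000000000) (nat_lit 0x0) (nat_lit 0x1300380004000000000000000000) := T_5 (nat_lit 91) (nat_lit 74) (nat_lit 6) (nat_lit 5) (nat_lit 8) L42461 (by decide +kernel)
theorem L42463 : W_5 (nat_lit 5) (nat_lit 0x2000100013800d8000c00000000000000000000000000) (nat_lit 0x0) (nat_lit 0x13003c0006000000000000000000) := T_5 (nat_lit 90) (nat_lit 73) (nat_lit 5) (nat_lit 5) (nat_lit 4) L42462 (by decide +kernel)
theorem L42464 : W_5 (nat_lit 6) (nat_lit 0x200010001380098000c00000000000000000000000000) (nat_lit 0x0) (nat_lit 0x600013003c0006000000000000000000) := T_5 (nat_lit 126) (nat_lit 125) (nat_lit 1) (nat_lit 7) (nat_lit 7) L42463 (by decide +kernel)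
theorem L42465 : W_5 (nat_lit 2) (nat_lit 0x200010001380098000e00038002000000000000000000) (nat_lit 0x0) (nat_lit 0x20000180000000000000000000000000) := D_5 (nat_lit 104) (nat_lit 103) (nat_lit 125) (nat_lit 3) (nat_lit 1) (nat_lit 6) (nat_lit 3) (nat_lit 2) (nat_lit 6) (by decide +kernel)
theorem L42466 : W_5 (nat_lit 3) (nat_lit 0x200010001380098000c00038002000000000000000000) (nat_lit 0x0) (nat_lit 0x20001380000000000000000000000000) := T_5 (nat_lit 105) (nat_lit 108) (nat_lit 0) (nat_lit 6) (nat_lit 6) L42465 (by decide +kernel)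
theorem L42467 : W_5 (nat_lit 4) (nat_lit 0x200010001380098000c00030002000000000000000000) (nat_lit 0x0) (nat_lit 0x2000138000c000000000000000000000) := T_5 (nat_lit 87) (nat_lit 86) (nat_lit 3) (nat_lit 1) (nat_lit 5) L42466 (by decide +kernel)
theorem L42468 : W_5 (nat_lit 5) (nat_lit 0x200010001380098000c00020002000000000000000000) (nat_lit 0x0) (nat_lit 0x2000138001c000800000000000000000) := T_5 (nat_lit 88) (nat_lit 71) (nat_lit 4) (nat_lit 4) (nat_lit 8) L42467 (by decide +kernel)
theorem L42469 : W_5 (nat_lit 6) (nat_lit 0x200010001380098000c00000002000000000000000000) (nat_lit 0x0) (nat_lit 0x100000002000138003c000800000000000000000) := T_5 (nat_lit 89) (nat_lit 156) (nat_lit 5) (nat_lit 4) (nat_lit 5) L42468 (by decide +kernel)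
theorem L42470 : W_5 (nat_lit 7) (nat_lit 0x200010001380098000c00000000000000000000000000) (nat_lit 0x0) (nat_lit 0x100000002000138007c002800000000000000000) := T_5 (nat_lit 73) (nat_lit 90) (nat_lit 5) (nat_lit 5) (nat_lit 4) L42469 (by decide +kernel)
theorem L42471 : W_5 (nat_lit 8) (nat_lit 0x200010001380098000c00020000000000000000000000) (nat_lit 0x0) (nat_lit 0x6600038005c002e00000000000000000) := T_5 (nat_lit 126) (nat_lit 125) (nat_lit 1) (nat_lit 7) (nat_lit 7) L42290 (by decide +kernel)
theorem L42472 : W_5 (nat_lit 9) (nat_lit 0x200010001380098000c00000000000000000000000000) (nat_lit 0x0) (nat_lit 0x100000006600038007c002e00000000000000000) := T_5 (nat_lit 89) (nat_lit 156) (nat_lit 5) (nat_lit 4) (nat_lit 5) L42471 (by decide +kernel)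
theorem L42473 : W_5 (nat_lit 5) (nat_lit 0x200010001380098000c00020000000000000000000000) (nat_lit 0x0) (nat_lit 0x6000130001c000800000000000000000) := T_5 (nat_lit 125) (nat_lit 126) (nat_lit 1) (nat_lit 7) (nat_lit 7) L42355 (by decide +kernel)
theorem L42474 : W_5 (nat_lit 6) (nat_lit 0x200010001380098000c00000000000000000000000000) (nat_lit 0x0) (nat_lit 0x100000006000130003c000800000000000000000) := T_5 (nat_lit 89) (nat_lit 156) (nat_lit 5) (nat_lit 4) (nat_lit 5) L42473 (by decide +kernel)
theorem L42475 : W_5 (nat_lit 4) (nat_lit 0x200010001380098000c00020000000000000000000000) (nat_lit 0x0) (nat_lit 0x100005c002800000000000000000) := T_5 (nat_lit 90) (nat_lit 73) (nat_lit 6) (nat_lit 4) (nat_lit 8) L42227 (by decide +kernel)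
theorem L42476 : W_5 (nat_lit 5) (nat_lit 0x200010001380098000c00000000000000000000000000) (nat_lit 0x0) (nat_lit 0x100000000000100007c002800000000000000000) := T_5 (nat_lit 89) (nat_lit 156) (nat_lit 5) (nat_lit 4) (nat_lit 5) L42475 (by decide +kernel)
theorem L42477 : W_5 (nat_lit 10) (nat_lit 0x200010001380098000800000000000000000000000000) (nat_lit 0x0) (nat_lit 0x10000000660017803fc006e00000000000000000) := Q_5 (nat_lit 106) (C_5 L42464 (C_5 L42470 (C_5 L42472 (C_5 L42474 (C_5 L42476 N_5))))) (by decide +kernel)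
theorem L42478 : W_5 (nat_lit 2) (nat_lit 0x2000100013800bc001a000d0000000000000000000000) (nat_lit 0x0) (nat_lit 0x28000400000000000000000) := D_5 (nat_lit 87) (nat_lit 70) (nat_lit 89) (nat_lit 4) (nat_lit 3) (nat_lit 8) (nat_lit 3) (nat_lit 2) (nat_lit 5) (by decide +kernel)
theorem L42479 : W_5 (nat_lit 3) (nat_lit 0x2000100013800bc001a000c0000000000000000000000) (nat_lit 0x0) (nat_lit 0x38000c00000000000000000) := T_5 (nat_lit 88) (nat_lit 71) (nat_lit 7) (nat_lit 3) (nat_lit 4) L42478 (by decide +kernel)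
theorem L42480 : W_5 (nat_lit 4) (nat_lit 0x2000100013800bc0018000c0000000000000000000000) (nat_lit 0x0) (nat_lit 0x300038000c00000000000000000) := T_5 (nat_lit 105) (nat_lit 104) (nat_lit 0) (nat_lit 6) (nat_lit 7) L42479 (by decide +kernel)
theorem L42481 : W_5 (nat_lit 5) (nat_lit 0x2000100013800bc0008000c0000000000000000000000) (nat_lit 0x0) (nat_lit 0x3300038000c00000000000000000) := T_5 (nat_lit 108) (nat_lit 109) (nat_lit 2) (nat_lit 3) (nat_lit 7) L42480 (by decide +kernel)
theorem L42482 : W_5 (nat_lit 6) (nat_lit 0x2000100013800bc000800040000000000000000000000) (nat_lit 0x0) (nat_lit 0x33000b8004c00000000000000000) := T_5 (nat_lit 91) (nat_lit 74) (nat_lit 6) (nat_lit 5) (nat_lit 8) L42481 (by decide +kernel)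
theorem L42483 : W_5 (nat_lit 7) (nat_lit 0x20001000138009c000800040000000000000000000000) (nat_lit 0x0) (nat_lit 0x600033000b8004c00000000000000000) := T_5 (nat_lit 125) (nat_lit 126) (nat_lit 1) (nat_lit 7) (nat_lit 7) L42482 (by decide +kernel)
theorem L42484 : W_5 (nat_lit 8) (nat_lit 0x20001000138009c000800000000000000000000000000) (nat_lit 0x0) (nat_lit 0x600033000f8006c00000000000000000) := T_5 (nat_lit 90) (nat_lit 73) (nat_lit 5) (nat_lit 5) (nat_lit 4) L42483 (by decide +kernel)
theorem L42485 : W_5 (nat_lit 9) (nat_lit 0x200010001380098000800000000000000000000000000) (nat_lit 0x0) (nat_lit 0x200010000000670033800f8006c00000000000000000) := Q_5 (nat_lit 122) (C_5 L42438 (C_5 L42250 (C_5 L42484 N_5))) (by decide +kernel)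
theorem L42486 : W_5 (nat_lit 2) (nat_lit 0x200010001b800d8002c00100002000000000000000000) (nat_lit 0x0) (nat_lit 0x2000100008000000000000000000000000000000000000000) := D_5 (nat_lit 176) (nat_lit 159) (nat_lit 193) (nat_lit 5) (nat_lit 7) (nat_lit 6) (nat_lit 5) (nat_lit 7) (nat_lit 7) (by decide +kernel)
theorem L42487 : W_5 (nat_lit 3) (nat_lit 0x2000100013800d8002c00100002000000000000000000) (nat_lit 0x0) (nat_lit 0x2000100028000800000000000000000000000000000000000) := T_5 (nat_lit 143) (nat_lit 161) (nat_lit 7) (nat_lit 7) (nat_lit 5) L42486 (by decide +kernel)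
theorem L42488 : W_5 (nat_lit 4) (nat_lit 0x2000100013800d8002800100002000000000000000000) (nat_lit 0x0) (nat_lit 0x2000100028000800000001400000000000000000000000000) := T_5 (nat_lit 106) (nat_lit 108) (nat_lit 3) (nat_lit 4) (nat_lit 6) L42487 (by decide +kernel)
theorem L42489 : W_5 (nat_lit 5) (nat_lit 0x2000100013800d8002800000002000000000000000000) (nat_lit 0x0) (nat_lit 0x2000100028000800000001400100008000000000000000000) := T_5 (nat_lit 92) (nat_lit 75) (nat_lit 7) (nat_lit 7) (nat_lit 4) L42488 (by decide +kernel)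
theorem L42490 : W_5 (nat_lit 6) (nat_lit 0x2000100013800d8002800000000000000000000000000) (nat_lit 0x0) (nat_lit 0x200010002800080000000140014000a000000000000000000) := T_5 (nat_lit 73) (nat_lit 90) (nat_lit 5) (nat_lit 5) (nat_lit 4) L42489 (by decide +kernel)
theorem L42491 : W_5 (nat_lit 2) (nat_lit 0x200010001b800d8002800100002000000000000000000) (nat_lit 0x0) (nat_lit 0x2000100008000000000000000000000000000000000000000) := D_5 (nat_lit 176) (nat_lit 193) (nat_lit 159) (nat_lit 5) (nat_lit 7) (nat_lit 7) (nat_lit 5) (nat_lit 7) (nat_lit 6) (by decide +kernel)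
theorem L42492 : W_5 (nat_lit 3) (nat_lit 0x2000100013800d8002800100002000000000000000000) (nat_lit 0x0) (nat_lit 0x2000100028000800000000000000000000000000000000000) := T_5 (nat_lit 143) (nat_lit 161) (nat_lit 7) (nat_lit 7) (nat_lit 5) L42491 (by decide +kernel)
theorem L42493 : W_5 (nat_lit 4) (nat_lit 0x2000100013800d8002800000002000000000000000000) (nat_lit 0x0) (nat_lit 0x2000100028000800000000000100008000000000000000000) := T_5 (nat_lit 92) (nat_lit 75) (nat_lit 7) (nat_lit 7) (nat_lit 4) L42492 (by decide +kernel)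
theorem L42494 : W_5 (nat_lit 5) (nat_lit 0x2000100013800d8002800000000000000000000000000) (nat_lit 0x0) (nat_lit 0x200010002800080000000000014000a000000000000000000) := T_5 (nat_lit 73) (nat_lit 90) (nat_lit 5) (nat_lit 5) (nat_lit 4) L42493 (by decide +kernel)
theorem L42495 : W_5 (nat_lit 2) (nat_lit 0x2000100013800d8002d000f0008000000000000000000) (nat_lit 0x0) (nat_lit 0x8000c000000000000000000000) := D_5 (nat_lit 87) (nat_lit 86) (nat_lit 103) (nat_lit 3) (nat_lit 1) (nat_lit 5) (nat_lit 1) (nat_lit 5) (nat_lit 5) (by decide +kernel)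
theorem L42496 : W_5 (nat_lit 3) (nat_lit 0x2000100013800d8002d000e0008000000000000000000) (nat_lit 0x0) (nat_lit 0x8001c000800000000000000000) := T_5 (nat_lit 88) (nat_lit 71) (nat_lit 4) (nat_lit 4) (nat_lit 8) L42495 (by decide +kernel)
theorem L42497 : W_5 (nat_lit 4) (nat_lit 0x2000100013800d8002c000e0008000000000000000000) (nat_lit 0x0) (nat_lit 0x38001c000800000000000000000) := T_5 (nat_lit 104) (nat_lit 105) (nat_lit 2) (nat_lit 2) (nat_lit 6) L42496 (by decide +kernel)
theorem L42498 : W_5 (nat_lit 5) (nat_lit 0x2000100013800d8002c00060008000000000000000000) (nat_lit 0x0) (nat_lit 0x38009c004800000000000000000) := T_5 (nat_lit 91) (nat_lit 74) (nat_lit 6) (nat_lit 5) (nat_lit 8) L42497 (by decide +kernel)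
theorem L42499 : W_5 (nat_lit 6) (nat_lit 0x2000100013800d8002c00040008000000000000000000) (nat_lit 0x0) (nat_lit 0x10000000000003800bc004800000000000000000) := T_5 (nat_lit 89) (nat_lit 156) (nat_lit 5) (nat_lit 4) (nat_lit 5) L42498 (by decide +kernel)
theorem L42500 : W_5 (nat_lit 7) (nat_lit 0x2000100013800d8002c00000008000000000000000000) (nat_lit 0x0) (nat_lit 0x10000000000003800fc006800000000000000000) := T_5 (nat_lit 90) (nat_lit 73) (nat_lit 5) (nat_lit 5) (nat_lit 4) L42499 (by decide +kernel)
theorem L42501 : W_5 (nat_lit 8) (nat_lit 0x2000100013800d8002800000008000000000000000000) (nat_lit 0x0) (nat_lit 0x10000000000017800fc006800000000000000000) := T_5 (nat_lit 106) (nat_lit 108) (nat_lit 3) (nat_lit 4) (nat_lit 6) L42500 (by decide +kernel)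
theorem L42502 : W_5 (nat_lit 9) (nat_lit 0x2000100013800d8002800000000000000000000000000) (nat_lit 0x0) (nat_lit 0x10000000000017801fc00e800000000000000000) := T_5 (nat_lit 75) (nat_lit 92) (nat_lit 7) (nat_lit 7) (nat_lit 4) L42501 (by decide +kernel)
theorem L42503 : W_5 (nat_lit 5) (nat_lit 0x2000100013800d8002800000000000000000000000000) (nat_lit 0x0) (nat_lit 0x2000100028000800000001400100008000000000000000000) := T_5 (nat_lit 106) (nat_lit 108) (nat_lit 3) (nat_lit 4) (nat_lit 6) L42285 (by decide +kernel)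
theorem L42504 : W_5 (nat_lit 2) (nat_lit 0x200010001b802d8003800000002000000000000000000) (nat_lit 0x0) (nat_lit 0x2000100008000000000000000000000000000000000000000) := D_5 (nat_lit 176) (nat_lit 159) (nat_lit 193) (nat_lit 5) (nat_lit 7) (nat_lit 6) (nat_lit 5) (nat_lit 7) (nat_lit 7) (by decide +kernel)
theorem L42505 : W_5 (nat_lit 3) (nat_lit 0x2000100013802d8003800000002000000000000000000) (nat_lit 0x0) (nat_lit 0x2000100008000800000000000080000000000000000000000) := T_5 (nat_lit 143) (nat_lit 91) (nat_lit 4) (nat_lit 7) (nat_lit 9) L42504 (by decide +kernel)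
theorem L42506 : W_5 (nat_lit 4) (nat_lit 0x2000100013800d8003800000002000000000000000000) (nat_lit 0x0) (nat_lit 0x2000100008000800300000000080000000000000000000000) := T_5 (nat_lit 129) (nat_lit 128) (nat_lit 0) (nat_lit 10) (nat_lit 7) L42505 (by decide +kernel)
theorem L42507 : W_5 (nat_lit 5) (nat_lit 0x2000100013800d8002800000002000000000000000000) (nat_lit 0x0) (nat_lit 0x2000100008000800300001400080000000000000000000000) := T_5 (nat_lit 108) (nat_lit 106) (nat_lit 3) (nat_lit 4) (nat_lit 6) L42506 (by decide +kernel)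
theorem L42508 : W_5 (nat_lit 6) (nat_lit 0x2000100013800d8002800000000000000000000000000) (nat_lit 0x0) (nat_lit 0x20001000080008003000014000c0002000000000000000000) := T_5 (nat_lit 73) (nat_lit 90) (nat_lit 5) (nat_lit 5) (nat_lit 4) L42507 (by decide +kernel)
theorem L42509 : W_5 (nat_lit 10) (nat_lit 0x2000100013800d8000800000000000000000000000000) (nat_lit 0x0) (nat_lit 0x20001000290008003000037801fc00e800000000000000000) := Q_5 (nat_lit 109) (C_5 L42490 (C_5 L42494 (C_5 L42502 (C_5 L42503 (C_5 L42508 N_5))))) (by decide +kernel)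
theorem L42510 : W_5 (nat_lit 11) (nat_lit 0x200010001380098000800000000000000000000000000) (nat_lit 0x0) (nat_lit 0x20001000290008003600037801fc00e800000000000000000) := T_5 (nat_lit 126) (nat_lit 125) (nat_lit 1) (nat_lit 7) (nat_lit 7) L42509 (by decide +kernel)
theorem L42511 : W_5 (nat_lit 2) (nat_lit 0x20001000138009c000c00000000000000000000000000) (nat_lit 0x0) (nat_lit 0x20001000000000000000020000000000000000000000) := D_5 (nat_lit 156) (nat_lit 89) (nat_lit 173) (nat_lit 5) (nat_lit 4) (nat_lit 5) (nat_lit 6) (nat_lit 3) (nat_lit 10) (by decide +kernel)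
theorem L42512 : W_5 (nat_lit 2) (nat_lit 0x22001000138009c000e000c0000000000000000000000) (nat_lit 0x0) (nat_lit 0x1000300000000000000000000000) := D_5 (nat_lit 92) (nat_lit 93) (nat_lit 108) (nat_lit 1) (nat_lit 8) (nat_lit 5) (nat_lit 2) (nat_lit 3) (nat_lit 6) (by decide +kernel)
theorem L42513 : W_5 (nat_lit 3) (nat_lit 0x22001000138009c000c000c0000000000000000000000) (nat_lit 0x0) (nat_lit 0x1300300000000000000000000000) := T_5 (nat_lit 105) (nat_lit 104) (nat_lit 2) (nat_lit 2) (nat_lit 6) L42512 (by decide +kernel)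
theorem L42514 : W_5 (nat_lit 4) (nat_lit 0x22001000138009c000c00040000000000000000000000) (nat_lit 0x0) (nat_lit 0x1300380004000000000000000000) := T_5 (nat_lit 91) (nat_lit 74) (nat_lit 6) (nat_lit 5) (nat_lit 8) L42513 (by decide +kernel)
theorem L42515 : W_5 (nat_lit 5) (nat_lit 0x20001000138009c000c00040000000000000000000000) (nat_lit 0x0) (nat_lit 0x20001000000000001300380004000000000000000000) := T_5 (nat_lit 173) (nat_lit 156) (nat_lit 6) (nat_lit 3) (nat_lit 10) L42514 (by decide +kernel)
theorem L42516 : W_5 (nat_lit 6) (nat_lit 0x20001000138009c000c00000000000000000000000000) (nat_lit 0x0) (nat_lit 0x200010000000000013003c0006000000000000000000) := T_5 (nat_lit 90) (nat_lit 73) (nat_lit 5) (nat_lit 5) (nat_lit 4) L42515 (by decide +kernel)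
theorem L42517 : W_5 (nat_lit 2) (nat_lit 0x20001000138009c002e000c0000000000000000000000) (nat_lit 0x0) (nat_lit 0x320000000000000000000000) := D_5 (nat_lit 92) (nat_lit 93) (nat_lit 89) (nat_lit 1) (nat_lit 8) (nat_lit 5) (nat_lit 1) (nat_lit 7) (nat_lit 5) (by decide +kernel)
theorem L42518 : W_5 (nat_lit 3) (nat_lit 0x20001000138009c002c000c0000000000000000000000) (nat_lit 0x0) (nat_lit 0x300320000000000000000000000) := T_5 (nat_lit 105) (nat_lit 104) (nat_lit 2) (nat_lit 2) (nat_lit 6) L42517 (by decide +kernel)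
theorem L42519 : W_5 (nat_lit 4) (nat_lit 0x20001000138009c002c00040000000000000000000000) (nat_lit 0x0) (nat_lit 0x3003a0004000000000000000000) := T_5 (nat_lit 91) (nat_lit 74) (nat_lit 6) (nat_lit 5) (nat_lit 8) L42518 (by decide +kernel)
theorem L42520 : W_5 (nat_lit 5) (nat_lit 0x20001000138009c002c00000000000000000000000000) (nat_lit 0x0) (nat_lit 0x3003e0006000000000000000000) := T_5 (nat_lit 90) (nat_lit 73) (nat_lit 5) (nat_lit 5) (nat_lit 4) L42519 (by decide +kernel)
theorem L42521 : W_5 (nat_lit 6) (nat_lit 0x20001000138009c000c00000000000000000000000000) (nat_lit 0x0) (nat_lit 0x33003e0006000000000000000000) := T_5 (nat_lit 109) (nat_lit 108) (nat_lit 1) (nat_lit 7) (nat_lit 6) L42520 (by decide +kernel)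
theorem L42522 : W_5 (nat_lit 7) (nat_lit 0x20001000138009c000800000000000000000000000000) (nat_lit 0x0) (nat_lit 0x200010000000000037003e0006000000000000000000) := Q_5 (nat_lit 106) (C_5 L42511 (C_5 L42516 (C_5 L42521 N_5))) (by decide +kernel)
theorem L42523 : W_5 (nat_lit 2) (nat_lit 0x20001000138009e000b00000002000000000000000000) (nat_lit 0x0) (nat_lit 0x1000000000000000008000400000000000000000) := D_5 (nat_lit 87) (nat_lit 70) (nat_lit 156) (nat_lit 7) (nat_lit 2) (nat_lit 4) (nat_lit 4) (nat_lit 3) (nat_lit 9) (by decide +kernel)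
theorem L42524 : W_5 (nat_lit 3) (nat_lit 0x20001000138009e000900000002000000000000000000) (nat_lit 0x0) (nat_lit 0x1000000020000200008000400000000000000000) := T_5 (nat_lit 105) (nat_lit 125) (nat_lit 0) (nat_lit 6) (nat_lit 7) L42523 (by decide +kernel)
theorem L42525 : W_5 (nat_lit 4) (nat_lit 0x20001000138009e000800000002000000000000000000) (nat_lit 0x0) (nat_lit 0x1000000020000380008000400000000000000000) := T_5 (nat_lit 104) (nat_lit 103) (nat_lit 0) (nat_lit 5) (nat_lit 7) L42524 (by decide +kernel)
theorem L42526 : W_5 (nat_lit 5) (nat_lit 0x20001000138009c000800000002000000000000000000) (nat_lit 0x0) (nat_lit 0x1000000023000380008000400000000000000000) := T_5 (nat_lit 121) (nat_lit 120) (nat_lit 3) (nat_lit 1) (nat_lit 7) L42525 (by decide +kernel)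
theorem L42527 : W_5 (nat_lit 6) (nat_lit 0x20001000138009c000800000000000000000000000000) (nat_lit 0x0) (nat_lit 0x1000000023000380048002400000000000000000) := T_5 (nat_lit 73) (nat_lit 90) (nat_lit 5) (nat_lit 5) (nat_lit 4) L42526 (by decide +kernel)
theorem L42528 : W_5 (nat_lit 8) (nat_lit 0x200010001380098000800000000000000000000000000) (nat_lit 0x0) (nat_lit 0x200010000000270037803e8006400000000000000000) := Q_5 (nat_lit 122) (C_5 L42250 (C_5 L42522 (C_5 L42527 N_5))) (by decide +kernel)
theorem L42529 : W_5 (nat_lit 4) (nat_lit 0x2000100013800d8000800100002000000000000000000) (nat_lit 0x0) (nat_lit 0x2000100028000800000002000000008000000000000000000) := T_5 (nat_lit 109) (nat_lit 75) (nat_lit 7) (nat_lit 7) (nat_lit 4) L42492 (by decide +kernel)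
theorem L42530 : W_5 (nat_lit 5) (nat_lit 0x2000100013800d8000800100000000000000000000000) (nat_lit 0x0) (nat_lit 0x200010002800080000000200004000a000000000000000000) := T_5 (nat_lit 73) (nat_lit 90) (nat_lit 5) (nat_lit 5) (nat_lit 4) L42529 (by decide +kernel)
theorem L42531 : W_5 (nat_lit 2) (nat_lit 0x2000100013800d80008001e0008000000000000000000) (nat_lit 0x0) (nat_lit 0x600200000000000000000000000) := D_5 (nat_lit 106) (nat_lit 105) (nat_lit 93) (nat_lit 1) (nat_lit 7) (nat_lit 5) (nat_lit 1) (nat_lit 8) (nat_lit 5) (by decide +kernel)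
theorem L42532 : W_5 (nat_lit 3) (nat_lit 0x2000100013800d80008001c0008000000000000000000) (nat_lit 0x0) (nat_lit 0x600220010000000000000000000) := T_5 (nat_lit 89) (nat_lit 76) (nat_lit 2) (nat_lit 4) (nat_lit 5) L42531 (by decide +kernel)
theorem L42533 : W_5 (nat_lit 4) (nat_lit 0x2000100013800d8000800140008000000000000000000) (nat_lit 0x0) (nat_lit 0x6002a0014000000000000000000) := T_5 (nat_lit 91) (nat_lit 74) (nat_lit 6) (nat_lit 5) (nat_lit 8) L42532 (by decide +kernel)
theorem L42534 : W_5 (nat_lit 5) (nat_lit 0x2000100013800d8000800100008000000000000000000) (nat_lit 0x0) (nat_lit 0x6002e0016000000000000000000) := T_5 (nat_lit 90) (nat_lit 73) (nat_lit 5) (nat_lit 5) (nat_lit 4) L42533 (by decide +kernel)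
theorem L42535 : W_5 (nat_lit 6) (nat_lit 0x2000100013800d8000800100000000000000000000000) (nat_lit 0x0) (nat_lit 0x26002e001e000000000000000000) := T_5 (nat_lit 75) (nat_lit 109) (nat_lit 7) (nat_lit 7) (nat_lit 4) L42534 (by decide +kernel)
theorem L42536 : W_5 (nat_lit 2) (nat_lit 0x2000100013800d80008007c0020000000000000000000) (nat_lit 0x0) (nat_lit 0x100018000000000000000000000000000) := D_5 (nat_lit 111) (nat_lit 112) (nat_lit 128) (nat_lit 3) (nat_lit 6) (nat_lit 5) (nat_lit 5) (nat_lit 9) (nat_lit 4) (by decide +kernel)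
theorem L42537 : W_5 (nat_lit 3) (nat_lit 0x2000100013800d80008003c0020000000000000000000) (nat_lit 0x0) (nat_lit 0x100018000400040000000000000000000) := T_5 (nat_lit 94) (nat_lit 78) (nat_lit 2) (nat_lit 6) (nat_lit 5) L42536 (by decide +kernel)
theorem L42538 : W_5 (nat_lit 4) (nat_lit 0x2000100013800d80008003c0000000000000000000000) (nat_lit 0x0) (nat_lit 0x100018000400070000000000000000000) := T_5 (nat_lit 77) (nat_lit 76) (nat_lit 2) (nat_lit 5) (nat_lit 5) L42537 (by decide +kernel)
theorem L42539 : W_5 (nat_lit 5) (nat_lit 0x2000100013800d80008001c0000000000000000000000) (nat_lit 0x0) (nat_lit 0x100018400600070000000000000000000) := T_5 (nat_lit 93) (nat_lit 106) (nat_lit 1) (nat_lit 8) (nat_lit 5) L42538 (by decide +kernel)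
theorem L42540 : W_5 (nat_lit 6) (nat_lit 0x2000100013800d8000800140000000000000000000000) (nat_lit 0x0) (nat_lit 0x100018400680074000000000000000000) := T_5 (nat_lit 91) (nat_lit 74) (nat_lit 6) (nat_lit 5) (nat_lit 8) L42539 (by decide +kernel)
theorem L42541 : W_5 (nat_lit 7) (nat_lit 0x2000100013800d8000800100000000000000000000000) (nat_lit 0x0) (nat_lit 0x1000184006c0076000000000000000000) := T_5 (nat_lit 90) (nat_lit 73) (nat_lit 5) (nat_lit 5) (nat_lit 4) L42540 (by decide +kernel)
theorem L42542 : W_5 (nat_lit 2) (nat_lit 0x200010001b800d8002800100000000000000000000000) (nat_lit 0x0) (nat_lit 0x2000100008000000000000000000000000000000000000000) := D_5 (nat_lit 176) (nat_lit 193) (nat_lit 159) (nat_lit 5) (nat_lit 7) (nat_lit 7) (nat_lit 5) (nat_lit 7) (nat_lit 6) (by decide +kernel)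
theorem L42543 : W_5 (nat_lit 3) (nat_lit 0x2000100013800d8002800100000000000000000000000) (nat_lit 0x0) (nat_lit 0x2000100028000800000000000000000000000000000000000) := T_5 (nat_lit 143) (nat_lit 161) (nat_lit 7) (nat_lit 7) (nat_lit 5) L42542 (by decide +kernel)
theorem L42544 : W_5 (nat_lit 4) (nat_lit 0x2000100013800d8000800100000000000000000000000) (nat_lit 0x0) (nat_lit 0x2000100028000800000002000000008000000000000000000) := T_5 (nat_lit 109) (nat_lit 75) (nat_lit 7) (nat_lit 7) (nat_lit 4) L42543 (by decide +kernel)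
theorem L42545 : W_5 (nat_lit 8) (nat_lit 0x2000100013800d8000800000000000000000000000000) (nat_lit 0x0) (nat_lit 0x200010002800080010001a6007e007e000000000000000000) := Q_5 (nat_lit 92) (C_5 L42530 (C_5 L42535 (C_5 L42541 (C_5 L42544 N_5)))) (by decide +kernel)
theorem L42546 : W_5 (nat_lit 9) (nat_lit 0x200010001380098000800000000000000000000000000) (nat_lit 0x0) (nat_lit 0x200010002800080016001a6007e007e000000000000000000) := T_5 (nat_lit 126) (nat_lit 125) (nat_lit 1) (nat_lit 7) (nat_lit 7) L42545 (by decide +kernel)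
theorem L42547 : W_5 (nat_lit 2) (nat_lit 0x2000110013800d8002c00000002000000000000000000) (nat_lit 0x0) (nat_lit 0x400020000000000004000000000000000000000000000000) := D_5 (nat_lit 173) (nat_lit 190) (nat_lit 122) (nat_lit 6) (nat_lit 3) (nat_lit 11) (nat_lit 6) (nat_lit 3) (nat_lit 10) (by decide +kernel)
theorem L42548 : W_5 (nat_lit 3) (nat_lit 0x2000100013800d8002c00000002000000000000000000) (nat_lit 0x0) (nat_lit 0x400020001000000004000000020000000000000000000000) := T_5 (nat_lit 156) (nat_lit 89) (nat_lit 5) (nat_lit 4) (nat_lit 5) L42547 (by decide +kernel)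
theorem L42549 : W_5 (nat_lit 4) (nat_lit 0x2000100013800d8002800000002000000000000000000) (nat_lit 0x0) (nat_lit 0x400020001000000004001400020000000000000000000000) := T_5 (nat_lit 106) (nat_lit 108) (nat_lit 3) (nat_lit 4) (nat_lit 6) L42548 (by decide +kernel)
theorem L42550 : W_5 (nat_lit 5) (nat_lit 0x2000100013800d8002800000000000000000000000000) (nat_lit 0x0) (nat_lit 0x400020001000000004001400060002000000000000000000) := T_5 (nat_lit 73) (nat_lit 90) (nat_lit 5) (nat_lit 5) (nat_lit 4) L42549 (by decide +kernel)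
theorem L42551 : W_5 (nat_lit 7) (nat_lit 0x2000100013800d8000800000000000000000000000000) (nat_lit 0x0) (nat_lit 0x24001200290008003040034001e000a000000000000000000) := Q_5 (nat_lit 109) (C_5 L42503 (C_5 L42494 (C_5 L42508 (C_5 L42550 N_5)))) (by decide +kernel)
theorem L42552 : W_5 (nat_lit 8) (nat_lit 0x200010001380098000800000000000000000000000000) (nat_lit 0x0) (nat_lit 0x24001200290008003640034001e000a000000000000000000) := T_5 (nat_lit 126) (nat_lit 125) (nat_lit 1) (nat_lit 7) (nat_lit 7) L42551 (by decide +kernel)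
theorem L42553 : W_5 (nat_lit 2) (nat_lit 0x20001100138009e000900000002000000000000000000) (nat_lit 0x0) (nat_lit 0x200008000400000000000000000) := D_5 (nat_lit 87) (nat_lit 70) (nat_lit 105) (nat_lit 7) (nat_lit 2) (nat_lit 4) (nat_lit 4) (nat_lit 3) (nat_lit 9) (by decide +kernel)
theorem L42554 : W_5 (nat_lit 3) (nat_lit 0x20001000138009e000900000002000000000000000000) (nat_lit 0x0) (nat_lit 0x20001000000000000200008000400000000000000000) := T_5 (nat_lit 156) (nat_lit 173) (nat_lit 4) (nat_lit 3) (nat_lit 10) L42553 (by decide +kernel)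
theorem L42555 : W_5 (nat_lit 4) (nat_lit 0x20001000138009e000800000002000000000000000000) (nat_lit 0x0) (nat_lit 0x20001000000000000380008000400000000000000000) := T_5 (nat_lit 104) (nat_lit 103) (nat_lit 0) (nat_lit 5) (nat_lit 7) L42554 (by decide +kernel)
theorem L42556 : W_5 (nat_lit 5) (nat_lit 0x20001000138009c000800000002000000000000000000) (nat_lit 0x0) (nat_lit 0x20001000000003000380008000400000000000000000) := T_5 (nat_lit 121) (nat_lit 120) (nat_lit 3) (nat_lit 1) (nat_lit 7) L42555 (by decide +kernel)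
theorem L42557 : W_5 (nat_lit 6) (nat_lit 0x20001000138009c000800000000000000000000000000) (nat_lit 0x0) (nat_lit 0x20001000000003000380048002400000000000000000) := T_5 (nat_lit 73) (nat_lit 90) (nat_lit 5) (nat_lit 5) (nat_lit 4) L42556 (by decide +kernel)
theorem L42558 : W_5 (nat_lit 8) (nat_lit 0x200010001380098000800000000000000000000000000) (nat_lit 0x0) (nat_lit 0x200010000000070037803e8006400000000000000000) := Q_5 (nat_lit 122) (C_5 L42250 (C_5 L42522 (C_5 L42557 N_5))) (by decide +kernel)
theorem L42559 : W_5 (nat_lit 12) (nat_lit 0x200010001380090000800000000000000000000000000) (nat_lit 0x0) (nat_lit 0x240012002900080036f01b7807fc07ee00000000000000000) := Q_5 (nat_lit 123) (C_5 L42477 (C_5 L42485 (C_5 L42510 (C_5 L42528 (C_5 L42273 (C_5 L42546 (C_5 L42439 (C_5 L42552 (C_5 L42558 N_5))))))))) (by decide +kernel)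
theorem L42560 : W_5 (nat_lit 2) (nat_lit 0x2000100013800d0001e000e0000000000000000000000) (nat_lit 0x0) (nat_lit 0x100000000c000000000000000000000000000000) := D_5 (nat_lit 156) (nat_lit 123) (nat_lit 122) (nat_lit 5) (nat_lit 4) (nat_lit 5) (nat_lit 6) (nat_lit 3) (nat_lit 9) (by decide +kernel)
theorem L42561 : W_5 (nat_lit 3) (nat_lit 0x2000100013800d0001e000c0000000000000000000000) (nat_lit 0x0) (nat_lit 0x100000000c000000020001000000000000000000) := T_5 (nat_lit 89) (nat_lit 72) (nat_lit 4) (nat_lit 5) (nat_lit 8) L42560 (by decide +kernel)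
theorem L42562 : W_5 (nat_lit 4) (nat_lit 0x2000100013800d0001c000c0000000000000000000000) (nat_lit 0x0) (nat_lit 0x100000000c000300020001000000000000000000) := T_5 (nat_lit 105) (nat_lit 104) (nat_lit 2) (nat_lit 2) (nat_lit 6) L42561 (by decide +kernel)
theorem L42563 : W_5 (nat_lit 5) (nat_lit 0x2000100013800d0001c00040000000000000000000000) (nat_lit 0x0) (nat_lit 0x100000000c0003000a0005000000000000000000) := T_5 (nat_lit 91) (nat_lit 74) (nat_lit 6) (nat_lit 5) (nat_lit 8) L42562 (by decide +kernel)
theorem L42564 : W_5 (nat_lit 6) (nat_lit 0x2000100013800d0000c00040000000000000000000000) (nat_lit 0x0) (nat_lit 0x100000000c0033000a0005000000000000000000) := T_5 (nat_lit 108) (nat_lit 109) (nat_lit 3) (nat_lit 4) (nat_lit 6) L42563 (by decide +kernel)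
theorem L42565 : W_5 (nat_lit 7) (nat_lit 0x200010001380090000c00040000000000000000000000) (nat_lit 0x0) (nat_lit 0x100000006c0033000a0005000000000000000000) := T_5 (nat_lit 126) (nat_lit 125) (nat_lit 1) (nat_lit 8) (nat_lit 7) L42564 (by decide +kernel)
theorem L42566 : W_5 (nat_lit 9) (nat_lit 0x200010001380090000800040000000000000000000000) (nat_lit 0x0) (nat_lit 0x200010002900080006c0037003a000d000000000000000000) := Q_5 (nat_lit 106) (C_5 L42079 (C_5 L42233 (C_5 L42072 (C_5 L42565 N_5)))) (by decide +kernel)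
theorem L42567 : W_5 (nat_lit 10) (nat_lit 0x200010001380090000800000000000000000000000000) (nat_lit 0x0) (nat_lit 0x200010002900080006c0037003e000f00038000c000200000) := Q_5 (nat_lit 90) (C_5 L42244 (C_5 L42146 (C_5 L42114 (C_5 L42566 N_5)))) (by decide +kernel)
theorem L42568 : W_5 (nat_lit 13) (nat_lit 0x200010001380090000000000000000000000000000000) (nat_lit 0x0) (nat_lit 0x2e001f0029e0080036f81bfc07fc07fe003e001d000a00000) := Q_5 (nat_lit 107) (C_5 L42115 (C_5 L42130 (C_5 L42198 (C_5 L42205 (C_5 L42225 (C_5 L42245 (C_5 L42299 (C_5 L42312 (C_5 L42424 (C_5 L42426 (C_5 L42427 (C_5 L42459 (C_5 L42559 (C_5 L42567 N_5)))))))))))))) (by decide +kernel)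
theorem L42569 : W_5 (nat_lit 2) (nat_lit 0x200010001380090000000000000000000000000000000) (nat_lit 0x0) (nat_lit 0x40060000000000000000000000000000000) := D_5 (nat_lit 125) (nat_lit 126) (nat_lit 138) (nat_lit 1) (nat_lit 8) (nat_lit 7) (nat_lit 2) (nat_lit 2) (nat_lit 8) (by decide +kernel)
theorem L42570 : W_5 (nat_lit 4) (nat_lit 0x200010001380090000000000000000000000000000000) (nat_lit 0x0) (nat_lit 0x6002b800000000000000000000000000000) := T_5 (nat_lit 138) (nat_lit 125) (nat_lit 2) (nat_lit 2) (nat_lit 8) L41457 (by decide +kernel)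
theorem L42571 : W_5 (nat_lit 2) (nat_lit 0x2100108013c0092000000000000000000000000000000) (nat_lit 0x0) (nat_lit 0x200000000000000004000200000000000000000000000000) := D_5 (nat_lit 122) (nat_lit 189) (nat_lit 105) (nat_lit 6) (nat_lit 2) (nat_lit 11) (nat_lit 6) (nat_lit 2) (nat_lit 10) (by decide +kernel)
theorem L42572 : W_5 (nat_lit 3) (nat_lit 0x2100108013c0090000000000000000000000000000000) (nat_lit 0x0) (nat_lit 0x200000000000000007000200000000000000000000000000) := T_5 (nat_lit 121) (nat_lit 120) (nat_lit 0) (nat_lit 5) (nat_lit 8) L42571 (by decide +kernel)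
theorem L42573 : W_5 (nat_lit 2) (nat_lit 0x2380108013c0092000100014000000000000000000000) (nat_lit 0x0) (nat_lit 0x8000a00000000000000000) := D_5 (nat_lit 87) (nat_lit 69) (nat_lit 71) (nat_lit 4) (nat_lit 2) (nat_lit 8) (nat_lit 6) (nat_lit 2) (nat_lit 8) (by decide +kernel)
theorem L42574 : W_5 (nat_lit 3) (nat_lit 0x2380108013c0092000100004000000000000000000000) (nat_lit 0x0) (nat_lit 0x200018000a00000000000000000) := T_5 (nat_lit 88) (nat_lit 105) (nat_lit 6) (nat_lit 2) (nat_lit 9) L42573 (by decide +kernel)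
theorem L42575 : W_5 (nat_lit 4) (nat_lit 0x2380108013c0092000100000000000000000000000000) (nat_lit 0x0) (nat_lit 0x28001c000a00000000000000000) := T_5 (nat_lit 86) (nat_lit 103) (nat_lit 4) (nat_lit 2) (nat_lit 9) L42574 (by decide +kernel)
theorem L42576 : W_5 (nat_lit 5) (nat_lit 0x2380108013c0092000000000000000000000000000000) (nat_lit 0x0) (nat_lit 0x100000000000038001c000a00000000000000000) := T_5 (nat_lit 104) (nat_lit 156) (nat_lit 7) (nat_lit 2) (nat_lit 6) L42575 (by decide +kernel)
theorem L42577 : W_5 (nat_lit 6) (nat_lit 0x2180108013c0092000000000000000000000000000000) (nat_lit 0x0) (nat_lit 0x40002000100000000000038001c000a00000000000000000) := T_5 (nat_lit 173) (nat_lit 190) (nat_lit 7) (nat_lit 2) (nat_lit 7) L42576 (by decide +kernel)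
theorem L42578 : W_5 (nat_lit 7) (nat_lit 0x2100108013c0092000000000000000000000000000000) (nat_lit 0x0) (nat_lit 0x50002800100000000000038001c000a00000000000000000) := T_5 (nat_lit 171) (nat_lit 188) (nat_lit 5) (nat_lit 2) (nat_lit 7) L42577 (by decide +kernel)
theorem L42579 : W_5 (nat_lit 8) (nat_lit 0x2100108013c0090000000000000000000000000000000) (nat_lit 0x0) (nat_lit 0x50002800100000000300038001c000a00000000000000000) := T_5 (nat_lit 121) (nat_lit 120) (nat_lit 0) (nat_lit 5) (nat_lit 8) L42578 (by decide +kernel)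
theorem L42580 : W_5 (nat_lit 2) (nat_lit 0x40002002100108013c0090000000000000000000000000000000) (nat_lit 0x0) (nat_lit 0x100008000400000000000000000000000000000000000000000000000) := D_5 (nat_lit 207) (nat_lit 224) (nat_lit 190) (nat_lit 7) (nat_lit 2) (nat_lit 9) (nat_lit 7) (nat_lit 2) (nat_lit 8) (by decide +kernel)
theorem L42581 : W_5 (nat_lit 3) (nat_lit 0x2002100108013c0090000000000000000000000000000000) (nat_lit 0x0) (nat_lit 0x10000c000400000001000000000000000000000000000000000000000) := T_5 (nat_lit 206) (nat_lit 156) (nat_lit 6) (nat_lit 2) (nat_lit 12) L42580 (by decide +kernel)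
theorem L42582 : W_5 (nat_lit 4) (nat_lit 0x2100108013c0090000000000000000000000000000000) (nat_lit 0x0) (nat_lit 0x10000c000600000001000000004000000000000000000000000000000) := T_5 (nat_lit 189) (nat_lit 122) (nat_lit 6) (nat_lit 2) (nat_lit 11) L42581 (by decide +kernel)
theorem L42583 : W_5 (nat_lit 9) (nat_lit 0x2000108013c0090000000000000000000000000000000) (nat_lit 0x0) (nat_lit 0x10000c00070003800100000000700038001c000a00000000000000000) := Q_5 (nat_lit 172) (C_5 L42572 (C_5 L42579 (C_5 L42582 N_5))) (by decide +kernel)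
theorem L42584 : W_5 (nat_lit 10) (nat_lit 0x2000100013c0090000000000000000000000000000000) (nat_lit 0x0) (nat_lit 0x10000c000700038001c0000000700038001c000a00000000000000000) := T_5 (nat_lit 155) (nat_lit 154) (nat_lit 1) (nat_lit 5) (nat_lit 8) L42583 (by decide +kernel)
theorem L42585 : W_5 (nat_lit 2) (nat_lit 0x2000100013e0090000000000000000000000000000000) (nat_lit 0x0) (nat_lit 0xe00000000000000000000000000000000000000) := D_5 (nat_lit 154) (nat_lit 155) (nat_lit 153) (nat_lit 1) (nat_lit 5) (nat_lit 8) (nat_lit 1) (nat_lit 4) (nat_lit 8) (by decide +kernel)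
theorem L42586 : W_5 (nat_lit 3) (nat_lit 0x2000100013c0090000000000000000000000000000000) (nat_lit 0x0) (nat_lit 0xe00020008000000000000000000000000000000) := T_5 (nat_lit 137) (nat_lit 123) (nat_lit 2) (nat_lit 1) (nat_lit 8) L42585 (by decide +kernel)
theorem L42587 : W_5 (nat_lit 11) (nat_lit 0x200010001380090000000000000000000000000000000) (nat_lit 0x0) (nat_lit 0x10000c000700038001e0006000f80038001c000a00000000000000000) := Q_5 (nat_lit 138) (C_5 L42584 (C_5 L41457 (C_5 L42586 N_5))) (by decide +kernel)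
theorem L42588 : W_5 (nat_lit 14) (nat_lit 0x200010001300090000000000000000000000000000000) (nat_lit 0x0) (nat_lit 0x10000c002f001f8029e008e036f81bfc07fc07fe003e001d000a00000) := Q_5 (nat_lit 139) (C_5 L42568 (C_5 L42569 (C_5 L42570 (C_5 L42587 N_5)))) (by decide +kernel)
theorem L42589 : W_5 (nat_lit 2) (nat_lit 0x200010001380098000000000000000000000000000000) (nat_lit 0x0) (nat_lit 0x40060000000000000000000000000000000) := D_5 (nat_lit 125) (nat_lit 126) (nat_lit 138) (nat_lit 1) (nat_lit 7) (nat_lit 7) (nat_lit 2) (nat_lit 2) (nat_lit 8) (by decide +kernel)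
theorem L42590 : W_5 (nat_lit 7) (nat_lit 0x2000100013800de000000000000000000000000000000) (nat_lit 0x0) (nat_lit 0x1f800f0007000000000000000000) := T_5 (nat_lit 107) (nat_lit 108) (nat_lit 2) (nat_lit 2) (nat_lit 7) L42444 (by decide +kernel)
theorem L42591 : W_5 (nat_lit 8) (nat_lit 0x2000100013800dc000000000000000000000000000000) (nat_lit 0x0) (nat_lit 0x3001f800f0007000000000000000000) := T_5 (nat_lit 121) (nat_lit 120) (nat_lit 3) (nat_lit 1) (nat_lit 7) L42590 (by decide +kernel)
theorem L42592 : W_5 (nat_lit 9) (nat_lit 0x20001000138009c000000000000000000000000000000) (nat_lit 0x0) (nat_lit 0x63001f800f0007000000000000000000) := T_5 (nat_lit 126) (nat_lit 125) (nat_lit 1) (nat_lit 7) (nat_lit 7) L42591 (by decide +kernel)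
theorem L42593 : W_5 (nat_lit 2) (nat_lit 0x2000100013800bd001200038004000000000000000000) (nat_lit 0x0) (nat_lit 0x800040002000000000000000000) := D_5 (nat_lit 90) (nat_lit 73) (nat_lit 107) (nat_lit 2) (nat_lit 2) (nat_lit 5) (nat_lit 3) (nat_lit 2) (nat_lit 5) (by decide +kernel)
theorem L42594 : W_5 (nat_lit 3) (nat_lit 0x2000100013800bd001200030004000000000000000000) (nat_lit 0x0) (nat_lit 0x800048002400000000000000000) := T_5 (nat_lit 87) (nat_lit 70) (nat_lit 4) (nat_lit 3) (nat_lit 8) L42593 (by decide +kernel)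
theorem L42595 : W_5 (nat_lit 4) (nat_lit 0x2000100013800bd001200010004000000000000000000) (nat_lit 0x0) (nat_lit 0x800068003400000000000000000) := T_5 (nat_lit 89) (nat_lit 72) (nat_lit 6) (nat_lit 3) (nat_lit 8) L42594 (by decide +kernel)
theorem L42596 : W_5 (nat_lit 5) (nat_lit 0x2000100013800bd001200010000000000000000000000) (nat_lit 0x0) (nat_lit 0x8000e8007400000000000000000) := T_5 (nat_lit 74) (nat_lit 91) (nat_lit 5) (nat_lit 6) (nat_lit 4) L42595 (by decide +kernel)
theorem L42597 : W_5 (nat_lit 6) (nat_lit 0x2000100013800bd001200000000000000000000000000) (nat_lit 0x0) (nat_lit 0x8000f8007c00000000000000000) := T_5 (nat_lit 88) (nat_lit 71) (nat_lit 7) (nat_lit 3) (nat_lit 4) L42596 (by decide +kernel)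
theorem L42598 : W_5 (nat_lit 7) (nat_lit 0x2000100013800bd000200000000000000000000000000) (nat_lit 0x0) (nat_lit 0x38000f8007c00000000000000000) := T_5 (nat_lit 108) (nat_lit 109) (nat_lit 2) (nat_lit 3) (nat_lit 7) L42597 (by decide +kernel)
theorem L42599 : W_5 (nat_lit 8) (nat_lit 0x2000100013800bd000000000000000000000000000000) (nat_lit 0x0) (nat_lit 0x3b000f8007c00000000000000000) := T_5 (nat_lit 105) (nat_lit 104) (nat_lit 0) (nat_lit 6) (nat_lit 7) L42598 (by decide +kernel)
theorem L42600 : W_5 (nat_lit 9) (nat_lit 0x20001000138009d000000000000000000000000000000) (nat_lit 0x0) (nat_lit 0x60003b000f8007c00000000000000000) := T_5 (nat_lit 125) (nat_lit 126) (nat_lit 1) (nat_lit 7) (nat_lit 7) L42599 (by decide +kernel)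
theorem L42601 : W_5 (nat_lit 10) (nat_lit 0x20001000138009c000000000000000000000000000000) (nat_lit 0x0) (nat_lit 0x63003b000f8007c00000000000000000) := T_5 (nat_lit 120) (nat_lit 121) (nat_lit 3) (nat_lit 1) (nat_lit 7) L42600 (by decide +kernel)
theorem L42602 : W_5 (nat_lit 2) (nat_lit 0x2000110013800de000100000000000000000000000000) (nat_lit 0x0) (nat_lit 0x200008000400000000000000000) := D_5 (nat_lit 87) (nat_lit 70) (nat_lit 105) (nat_lit 7) (nat_lit 2) (nat_lit 4) (nat_lit 4) (nat_lit 3) (nat_lit 9) (by decide +kernel)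
theorem L42603 : W_5 (nat_lit 3) (nat_lit 0x2000100013800de000100000000000000000000000000) (nat_lit 0x0) (nat_lit 0x20001000000000000200008000400000000000000000) := T_5 (nat_lit 156) (nat_lit 173) (nat_lit 4) (nat_lit 3) (nat_lit 10) L42602 (by decide +kernel)
theorem L42604 : W_5 (nat_lit 4) (nat_lit 0x2000100013800de000000000000000000000000000000) (nat_lit 0x0) (nat_lit 0x20001000000000000380008000400000000000000000) := T_5 (nat_lit 104) (nat_lit 103) (nat_lit 0) (nat_lit 5) (nat_lit 7) L42603 (by decide +kernel)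
theorem L42605 : W_5 (nat_lit 5) (nat_lit 0x2000100013800dc000000000000000000000000000000) (nat_lit 0x0) (nat_lit 0x20001000000003000380008000400000000000000000) := T_5 (nat_lit 121) (nat_lit 120) (nat_lit 3) (nat_lit 1) (nat_lit 7) L42604 (by decide +kernel)
theorem L42606 : W_5 (nat_lit 6) (nat_lit 0x20001000138009c000000000000000000000000000000) (nat_lit 0x0) (nat_lit 0x20001000000063000380008000400000000000000000) := T_5 (nat_lit 126) (nat_lit 125) (nat_lit 1) (nat_lit 7) (nat_lit 7) L42605 (by decide +kernel)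
theorem L42607 : W_5 (nat_lit 4) (nat_lit 0x20001000138009e000900000000000000000000000000) (nat_lit 0x0) (nat_lit 0x20001000000000000200048002400000000000000000) := T_5 (nat_lit 73) (nat_lit 90) (nat_lit 5) (nat_lit 5) (nat_lit 4) L42554 (by decide +kernel)
theorem L42608 : W_5 (nat_lit 5) (nat_lit 0x20001000138009e000800000000000000000000000000) (nat_lit 0x0) (nat_lit 0x20001000000000000380048002400000000000000000) := T_5 (nat_lit 104) (nat_lit 103) (nat_lit 0) (nat_lit 5) (nat_lit 7) L42607 (by decide +kernel)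
theorem L42609 : W_5 (nat_lit 6) (nat_lit 0x20001000138009e000000000000000000000000000000) (nat_lit 0x0) (nat_lit 0x20001000000000001b80048002400000000000000000) := T_5 (nat_lit 107) (nat_lit 108) (nat_lit 2) (nat_lit 2) (nat_lit 7) L42608 (by decide +kernel)
theorem L42610 : W_5 (nat_lit 7) (nat_lit 0x20001000138009c000000000000000000000000000000) (nat_lit 0x0) (nat_lit 0x20001000000003001b80048002400000000000000000) := T_5 (nat_lit 121) (nat_lit 120) (nat_lit 3) (nat_lit 1) (nat_lit 7) L42609 (by decide +kernel)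
theorem L42611 : W_5 (nat_lit 2) (nat_lit 0x2000100013800bc001e00080002800000000000000000) (nat_lit 0x0) (nat_lit 0x1000000000000000020001000000000000000000) := D_5 (nat_lit 89) (nat_lit 156) (nat_lit 72) (nat_lit 6) (nat_lit 3) (nat_lit 9) (nat_lit 7) (nat_lit 4) (nat_lit 4) (by decide +kernel)
theorem L42612 : W_5 (nat_lit 3) (nat_lit 0x2000100013800bc001a00080002800000000000000000) (nat_lit 0x0) (nat_lit 0x1000000000000400120001000000000000000000) := T_5 (nat_lit 106) (nat_lit 92) (nat_lit 2) (nat_lit 3) (nat_lit 6) L42611 (by decide +kernel)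
theorem L42613 : W_5 (nat_lit 4) (nat_lit 0x2000100013800bc001a00080000800000000000000000) (nat_lit 0x0) (nat_lit 0x1000000000000400160003000000000000000000) := T_5 (nat_lit 73) (nat_lit 90) (nat_lit 5) (nat_lit 5) (nat_lit 4) L42612 (by decide +kernel)
theorem L42614 : W_5 (nat_lit 5) (nat_lit 0x2000100013800bc001200080000800000000000000000) (nat_lit 0x0) (nat_lit 0x5000000000000c00160003000000000000000000) := T_5 (nat_lit 107) (nat_lit 158) (nat_lit 6) (nat_lit 5) (nat_lit 9) L42613 (by decide +kernel)
theorem L42615 : W_5 (nat_lit 6) (nat_lit 0x2000100013800bc001200000000800000000000000000) (nat_lit 0x0) (nat_lit 0x5000000000000c001e0007000000000000000000) := T_5 (nat_lit 91) (nat_lit 74) (nat_lit 5) (nat_lit 6) (nat_lit 4) L42614 (by decide +kernel)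
theorem L42616 : W_5 (nat_lit 7) (nat_lit 0x2000100013800bc001200000000000000000000000000) (nat_lit 0x0) (nat_lit 0x5000000000000c001f0007800000000000000000) := T_5 (nat_lit 71) (nat_lit 88) (nat_lit 7) (nat_lit 3) (nat_lit 4) L42615 (by decide +kernel)
theorem L42617 : W_5 (nat_lit 8) (nat_lit 0x2000100013800bc000200000000000000000000000000) (nat_lit 0x0) (nat_lit 0x5000000000003c001f0007800000000000000000) := T_5 (nat_lit 108) (nat_lit 109) (nat_lit 2) (nat_lit 3) (nat_lit 7) L42616 (by decide +kernel)
theorem L42618 : W_5 (nat_lit 9) (nat_lit 0x2000100013800bc000000000000000000000000000000) (nat_lit 0x0) (nat_lit 0x5000000000003f001f0007800000000000000000) := T_5 (nat_lit 105) (nat_lit 104) (nat_lit 0) (nat_lit 6) (nat_lit 7) L42617 (by decide +kernel)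
theorem L42619 : W_5 (nat_lit 10) (nat_lit 0x20001000138009c000000000000000000000000000000) (nat_lit 0x0) (nat_lit 0x5000000060003f001f0007800000000000000000) := T_5 (nat_lit 125) (nat_lit 126) (nat_lit 1) (nat_lit 7) (nat_lit 7) L42618 (by decide +kernel)
theorem L42620 : W_5 (nat_lit 2) (nat_lit 0x2000100013800de0009000e0000400000000000000000) (nat_lit 0x0) (nat_lit 0x5000000000000400000000000000000000000000) := D_5 (nat_lit 106) (nat_lit 158) (nat_lit 156) (nat_lit 7) (nat_lit 4) (nat_lit 5) (nat_lit 5) (nat_lit 4) (nat_lit 5) (by decide +kernel)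
theorem L42621 : W_5 (nat_lit 3) (nat_lit 0x2000100013800de0009000c0000400000000000000000) (nat_lit 0x0) (nat_lit 0x5000000000000400020001000000000000000000) := T_5 (nat_lit 89) (nat_lit 72) (nat_lit 4) (nat_lit 5) (nat_lit 8) L42620 (by decide +kernel)
theorem L42622 : W_5 (nat_lit 4) (nat_lit 0x2000100013800de000900040000400000000000000000) (nat_lit 0x0) (nat_lit 0x50000000000004000a0005000000000000000000) := T_5 (nat_lit 91) (nat_lit 74) (nat_lit 6) (nat_lit 5) (nat_lit 8) L42621 (by decide +kernel)
theorem L42623 : W_5 (nat_lit 5) (nat_lit 0x2000100013800de000900040000000000000000000000) (nat_lit 0x0) (nat_lit 0x50000000000004000a8005400000000000000000) := T_5 (nat_lit 70) (nat_lit 87) (nat_lit 7) (nat_lit 2) (nat_lit 4) L42622 (by decide +kernel)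
theorem L42624 : W_5 (nat_lit 6) (nat_lit 0x2000100013800de000900000000000000000000000000) (nat_lit 0x0) (nat_lit 0x50000000000004000e8007400000000000000000) := T_5 (nat_lit 90) (nat_lit 73) (nat_lit 5) (nat_lit 5) (nat_lit 4) L42623 (by decide +kernel)
theorem L42625 : W_5 (nat_lit 7) (nat_lit 0x2000100013800de000800000000000000000000000000) (nat_lit 0x0) (nat_lit 0x50000000000005800e8007400000000000000000) := T_5 (nat_lit 104) (nat_lit 103) (nat_lit 0) (nat_lit 5) (nat_lit 7) L42624 (by decide +kernel)
theorem L42626 : W_5 (nat_lit 8) (nat_lit 0x2000100013800de000000000000000000000000000000) (nat_lit 0x0) (nat_lit 0x5000000000001d800e8007400000000000000000) := T_5 (nat_lit 107) (nat_lit 108) (nat_lit 2) (nat_lit 2) (nat_lit 7) L42625 (by decide +kernel)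
theorem L42627 : W_5 (nat_lit 9) (nat_lit 0x2000100013800dc000000000000000000000000000000) (nat_lit 0x0) (nat_lit 0x5000000003001d800e8007400000000000000000) := T_5 (nat_lit 121) (nat_lit 120) (nat_lit 3) (nat_lit 1) (nat_lit 7) L42626 (by decide +kernel)
theorem L42628 : W_5 (nat_lit 10) (nat_lit 0x20001000138009c000000000000000000000000000000) (nat_lit 0x0) (nat_lit 0x5000000063001d800e8007400000000000000000) := T_5 (nat_lit 126) (nat_lit 125) (nat_lit 1) (nat_lit 7) (nat_lit 7) L42627 (by decide +kernel)
theorem L42629 : W_5 (nat_lit 2) (nat_lit 0x2000100013800bd001c000e0000000000000000000000) (nat_lit 0x0) (nat_lit 0x200300000000000000000000000) := D_5 (nat_lit 92) (nat_lit 105) (nat_lit 93) (nat_lit 2) (nat_lit 3) (nat_lit 6) (nat_lit 1) (nat_lit 8) (nat_lit 5) (by decide +kernel)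
theorem L42630 : W_5 (nat_lit 3) (nat_lit 0x2000100013800bd0018000e0000000000000000000000) (nat_lit 0x0) (nat_lit 0x1000000000000600300000000000000000000000) := T_5 (nat_lit 106) (nat_lit 156) (nat_lit 5) (nat_lit 4) (nat_lit 5) L42629 (by decide +kernel)
theorem L42631 : W_5 (nat_lit 4) (nat_lit 0x2000100013800bd0018000c0000000000000000000000) (nat_lit 0x0) (nat_lit 0x1000000000000600320001000000000000000000) := T_5 (nat_lit 89) (nat_lit 72) (nat_lit 4) (nat_lit 5) (nat_lit 8) L42630 (by decide +kernel)
theorem L42632 : W_5 (nat_lit 5) (nat_lit 0x2000100013800bd001800080000000000000000000000) (nat_lit 0x0) (nat_lit 0x1000000000000600360003000000000000000000) := T_5 (nat_lit 90) (nat_lit 73) (nat_lit 5) (nat_lit 5) (nat_lit 4) L42631 (by decide +kernel)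
theorem L42633 : W_5 (nat_lit 6) (nat_lit 0x2000100013800bd001000080000000000000000000000) (nat_lit 0x0) (nat_lit 0x5000000000000e00360003000000000000000000) := T_5 (nat_lit 107) (nat_lit 158) (nat_lit 6) (nat_lit 5) (nat_lit 9) L42632 (by decide +kernel)
theorem L42634 : W_5 (nat_lit 7) (nat_lit 0x2000100013800bd001000000000000000000000000000) (nat_lit 0x0) (nat_lit 0x5000000000000e003e0007000000000000000000) := T_5 (nat_lit 91) (nat_lit 74) (nat_lit 5) (nat_lit 6) (nat_lit 4) L42633 (by decide +kernel)
theorem L42635 : W_5 (nat_lit 8) (nat_lit 0x2000100013800bd000000000000000000000000000000) (nat_lit 0x0) (nat_lit 0x5000000000003e003e0007000000000000000000) := T_5 (nat_lit 108) (nat_lit 109) (nat_lit 2) (nat_lit 3) (nat_lit 7) L42634 (by decide +kernel)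
theorem L42636 : W_5 (nat_lit 9) (nat_lit 0x20001000138009d000000000000000000000000000000) (nat_lit 0x0) (nat_lit 0x5000000060003e003e0007000000000000000000) := T_5 (nat_lit 125) (nat_lit 126) (nat_lit 1) (nat_lit 7) (nat_lit 7) L42635 (by decide +kernel)
theorem L42637 : W_5 (nat_lit 10) (nat_lit 0x20001000138009c000000000000000000000000000000) (nat_lit 0x0) (nat_lit 0x5000000063003e003e0007000000000000000000) := T_5 (nat_lit 120) (nat_lit 121) (nat_lit 3) (nat_lit 1) (nat_lit 7) L42636 (by decide +kernel)
theorem L42638 : W_5 (nat_lit 11) (nat_lit 0x200010001380098000000000000000000000000000000) (nat_lit 0x0) (nat_lit 0x20005000000067003f803f8007c00000000000000000) := Q_5 (nat_lit 122) (C_5 L42592 (C_5 L42601 (C_5 L42606 (C_5 L42610 (C_5 L42619 (C_5 L42628 (C_5 L42637 N_5))))))) (by decide +kernel)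
theorem L42639 : W_5 (nat_lit 2) (nat_lit 0x200010001380098000000000000000000000000000000) (nat_lit 0x0) (nat_lit 0x60020000000000000000000000000000000) := D_5 (nat_lit 138) (nat_lit 125) (nat_lit 137) (nat_lit 2) (nat_lit 2) (nat_lit 8) (nat_lit 2) (nat_lit 1) (nat_lit 8) (by decide +kernel)
theorem L42640 : W_5 (nat_lit 2) (nat_lit 0x2000110013a009e000100000000000000000000000000) (nat_lit 0x0) (nat_lit 0x200008000400000000000000000) := D_5 (nat_lit 87) (nat_lit 70) (nat_lit 105) (nat_lit 7) (nat_lit 2) (nat_lit 4) (nat_lit 4) (nat_lit 3) (nat_lit 9) (by decide +kernel)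
theorem L42641 : W_5 (nat_lit 3) (nat_lit 0x2000100013a009e000100000000000000000000000000) (nat_lit 0x0) (nat_lit 0x20001000000000000200008000400000000000000000) := T_5 (nat_lit 156) (nat_lit 173) (nat_lit 4) (nat_lit 3) (nat_lit 10) L42640 (by decide +kernel)
theorem L42642 : W_5 (nat_lit 4) (nat_lit 0x2000100013a009e000000000000000000000000000000) (nat_lit 0x0) (nat_lit 0x20001000000000000380008000400000000000000000) := T_5 (nat_lit 104) (nat_lit 103) (nat_lit 0) (nat_lit 5) (nat_lit 7) L42641 (by decide +kernel)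
theorem L42643 : W_5 (nat_lit 5) (nat_lit 0x2000100013a009c000000000000000000000000000000) (nat_lit 0x0) (nat_lit 0x20001000000003000380008000400000000000000000) := T_5 (nat_lit 121) (nat_lit 120) (nat_lit 3) (nat_lit 1) (nat_lit 7) L42642 (by decide +kernel)
theorem L42644 : W_5 (nat_lit 6) (nat_lit 0x20001000138009c000000000000000000000000000000) (nat_lit 0x0) (nat_lit 0x20001000060003000380008000400000000000000000) := T_5 (nat_lit 137) (nat_lit 138) (nat_lit 2) (nat_lit 1) (nat_lit 8) L42643 (by decide +kernel)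
theorem L42645 : W_5 (nat_lit 2) (nat_lit 0x2000148013c009c000200020000000000000000000000) (nat_lit 0x0) (nat_lit 0x200010001000000000000000000000000000000000000000) := D_5 (nat_lit 172) (nat_lit 189) (nat_lit 156) (nat_lit 6) (nat_lit 2) (nat_lit 11) (nat_lit 5) (nat_lit 3) (nat_lit 6) (by decide +kernel)
theorem L42646 : W_5 (nat_lit 3) (nat_lit 0x2000148013c009c000000020000000000000000000000) (nat_lit 0x0) (nat_lit 0x200010001000000000000200010000000000000000000000) := T_5 (nat_lit 105) (nat_lit 88) (nat_lit 5) (nat_lit 3) (nat_lit 5) L42645 (by decide +kernel)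
theorem L42647 : W_5 (nat_lit 4) (nat_lit 0x2000140013c009c000000020000000000000000000000) (nat_lit 0x0) (nat_lit 0x200010001c00000000000200010000000000000000000000) := T_5 (nat_lit 155) (nat_lit 154) (nat_lit 1) (nat_lit 5) (nat_lit 8) L42646 (by decide +kernel)
theorem L42648 : W_5 (nat_lit 5) (nat_lit 0x2000140013c009c000000000000000000000000000000) (nat_lit 0x0) (nat_lit 0x200010001c00000000000600030000000000000000000000) := T_5 (nat_lit 89) (nat_lit 106) (nat_lit 7) (nat_lit 4) (nat_lit 5) L42647 (by decide +kernel)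
theorem L42649 : W_5 (nat_lit 6) (nat_lit 0x2000100013c009c000000000000000000000000000000) (nat_lit 0x0) (nat_lit 0x20001000dc00000000000600030000000000000000000000) := T_5 (nat_lit 158) (nat_lit 159) (nat_lit 3) (nat_lit 2) (nat_lit 8) L42648 (by decide +kernel)
theorem L42650 : W_5 (nat_lit 7) (nat_lit 0x20001000138009c000000000000000000000000000000) (nat_lit 0x0) (nat_lit 0x20001000dc00060000000600030000000000000000000000) := T_5 (nat_lit 138) (nat_lit 137) (nat_lit 2) (nat_lit 1) (nat_lit 8) L42649 (by decide +kernel)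
theorem L42651 : W_5 (nat_lit 2) (nat_lit 0x2000110013a009e000900040000400000000000000000) (nat_lit 0x0) (nat_lit 0x400020001000000000000000000) := D_5 (nat_lit 89) (nat_lit 72) (nat_lit 106) (nat_lit 4) (nat_lit 5) (nat_lit 8) (nat_lit 5) (nat_lit 4) (nat_lit 5) (by decide +kernel)
theorem L42652 : W_5 (nat_lit 3) (nat_lit 0x2000100013a009e000900040000400000000000000000) (nat_lit 0x0) (nat_lit 0x20001000000000000400020001000000000000000000) := T_5 (nat_lit 156) (nat_lit 173) (nat_lit 4) (nat_lit 3) (nat_lit 10) L42651 (by decide +kernel)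
theorem L42653 : W_5 (nat_lit 4) (nat_lit 0x2000100013a009e000900000000400000000000000000) (nat_lit 0x0) (nat_lit 0x20001000000000000400060003000000000000000000) := T_5 (nat_lit 90) (nat_lit 73) (nat_lit 5) (nat_lit 5) (nat_lit 4) L42652 (by decide +kernel)
theorem L42654 : W_5 (nat_lit 5) (nat_lit 0x2000100013a009e000900000000000000000000000000) (nat_lit 0x0) (nat_lit 0x20001000000000000400068003400000000000000000) := T_5 (nat_lit 70) (nat_lit 87) (nat_lit 7) (nat_lit 2) (nat_lit 4) L42653 (by decide +kernel)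
theorem L42655 : W_5 (nat_lit 6) (nat_lit 0x2000100013a009e000100000000000000000000000000) (nat_lit 0x0) (nat_lit 0x20001000000000001c00068003400000000000000000) := T_5 (nat_lit 107) (nat_lit 108) (nat_lit 2) (nat_lit 2) (nat_lit 7) L42654 (by decide +kernel)
theorem L42656 : W_5 (nat_lit 7) (nat_lit 0x2000100013a009e000000000000000000000000000000) (nat_lit 0x0) (nat_lit 0x20001000000000001d80068003400000000000000000) := T_5 (nat_lit 104) (nat_lit 103) (nat_lit 0) (nat_lit 5) (nat_lit 7) L42655 (by decide +kernel)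
theorem L42657 : W_5 (nat_lit 8) (nat_lit 0x2000100013a009c000000000000000000000000000000) (nat_lit 0x0) (nat_lit 0x20001000000003001d80068003400000000000000000) := T_5 (nat_lit 121) (nat_lit 120) (nat_lit 3) (nat_lit 1) (nat_lit 7) L42656 (by decide +kernel)
theorem L42658 : W_5 (nat_lit 9) (nat_lit 0x20001000138009c000000000000000000000000000000) (nat_lit 0x0) (nat_lit 0x20001000060003001d80068003400000000000000000) := T_5 (nat_lit 137) (nat_lit 138) (nat_lit 2) (nat_lit 1) (nat_lit 8) L42657 (by decide +kernel)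
theorem L42659 : W_5 (nat_lit 2) (nat_lit 0x2000100013a009e000b000c0000400000000000000000) (nat_lit 0x0) (nat_lit 0x30001000000000000000000) := D_5 (nat_lit 89) (nat_lit 88) (nat_lit 72) (nat_lit 1) (nat_lit 6) (nat_lit 5) (nat_lit 4) (nat_lit 5) (nat_lit 8) (by decide +kernel)
theorem L42660 : W_5 (nat_lit 3) (nat_lit 0x2000100013a009e0009000c0000400000000000000000) (nat_lit 0x0) (nat_lit 0x600030001000000000000000000) := T_5 (nat_lit 105) (nat_lit 106) (nat_lit 2) (nat_lit 2) (nat_lit 6) L42659 (by decide +kernel)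
theorem L42661 : W_5 (nat_lit 4) (nat_lit 0x2000100013a009e000900040000400000000000000000) (nat_lit 0x0) (nat_lit 0x6000b0005000000000000000000) := T_5 (nat_lit 91) (nat_lit 74) (nat_lit 6) (nat_lit 5) (nat_lit 8) L42660 (by decide +kernel)
theorem L42662 : W_5 (nat_lit 5) (nat_lit 0x2000100013a009e000900040000000000000000000000) (nat_lit 0x0) (nat_lit 0x6000b8005400000000000000000) := T_5 (nat_lit 70) (nat_lit 87) (nat_lit 7) (nat_lit 2) (nat_lit 4) L42661 (by decide +kernel)
theorem L42663 : W_5 (nat_lit 6) (nat_lit 0x2000100013a009e000900000000000000000000000000) (nat_lit 0x0) (nat_lit 0x6000f8007400000000000000000) := T_5 (nat_lit 90) (nat_lit 73) (nat_lit 5) (nat_lit 5) (nat_lit 4) L42662 (by decide +kernel)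
theorem L42664 : W_5 (nat_lit 7) (nat_lit 0x2000100013a009e000800000000000000000000000000) (nat_lit 0x0) (nat_lit 0x7800f8007400000000000000000) := T_5 (nat_lit 104) (nat_lit 103) (nat_lit 0) (nat_lit 5) (nat_lit 7) L42663 (by decide +kernel)
theorem L42665 : W_5 (nat_lit 8) (nat_lit 0x2000100013a009e000000000000000000000000000000) (nat_lit 0x0) (nat_lit 0x1f800f8007400000000000000000) := T_5 (nat_lit 107) (nat_lit 108) (nat_lit 2) (nat_lit 2) (nat_lit 7) L42664 (by decide +kernel)
theorem L42666 : W_5 (nat_lit 9) (nat_lit 0x20001000138009e000000000000000000000000000000) (nat_lit 0x0) (nat_lit 0x60000001f800f8007400000000000000000) := T_5 (nat_lit 137) (nat_lit 138) (nat_lit 2) (nat_lit 1) (nat_lit 8) L42665 (by decide +kernel)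
theorem L42667 : W_5 (nat_lit 10) (nat_lit 0x20001000138009c000000000000000000000000000000) (nat_lit 0x0) (nat_lit 0x60003001f800f8007400000000000000000) := T_5 (nat_lit 121) (nat_lit 120) (nat_lit 3) (nat_lit 1) (nat_lit 7) L42666 (by decide +kernel)
theorem L42668 : W_5 (nat_lit 11) (nat_lit 0x200010001380098000000000000000000000000000000) (nat_lit 0x0) (nat_lit 0x20003000dc00060007001f800f8007400000000000000000) := Q_5 (nat_lit 122) (C_5 L42610 (C_5 L42644 (C_5 L42650 (C_5 L42658 (C_5 L42667 N_5))))) (by decide +kernel)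
theorem L42669 : W_5 (nat_lit 12) (nat_lit 0x200010001300098000000000000000000000000000000) (nat_lit 0x0) (nat_lit 0x20003000dc000e0067003f803f8007c00000000000000000) := Q_5 (nat_lit 139) (C_5 L42589 (C_5 L42638 (C_5 L42639 (C_5 L42668 N_5)))) (by decide +kernel)
theorem L42670 : W_5 (nat_lit 2) (nat_lit 0x200010001300098000400000000000000000000000000) (nat_lit 0x0) (nat_lit 0x80004000000000000000020000000000000000000000) := D_5 (nat_lit 158) (nat_lit 175) (nat_lit 89) (nat_lit 4) (nat_lit 5) (nat_lit 10) (nat_lit 7) (nat_lit 4) (nat_lit 5) (by decide +kernel)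
theorem L42671 : W_5 (nat_lit 2) (nat_lit 0x200010001300098000400000000000000000000000000) (nat_lit 0x0) (nat_lit 0x4000000000000000020001000000000000000000) := D_5 (nat_lit 89) (nat_lit 72) (nat_lit 158) (nat_lit 7) (nat_lit 4) (nat_lit 4) (nat_lit 7) (nat_lit 4) (nat_lit 5) (by decide +kernel)
theorem L42672 : W_5 (nat_lit 2) (nat_lit 0x2000108013c00da000400070000000000000000000000) (nat_lit 0x0) (nat_lit 0x4000300000000000000000000000000) := D_5 (nat_lit 105) (nat_lit 122) (nat_lit 104) (nat_lit 5) (nat_lit 3) (nat_lit 5) (nat_lit 6) (nat_lit 2) (nat_lit 9) (by decide +kernel)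
theorem L42673 : W_5 (nat_lit 3) (nat_lit 0x2000100013c00da000400070000000000000000000000) (nat_lit 0x0) (nat_lit 0xc00000004000300000000000000000000000000) := T_5 (nat_lit 155) (nat_lit 154) (nat_lit 1) (nat_lit 5) (nat_lit 8) L42672 (by decide +kernel)
theorem L42674 : W_5 (nat_lit 4) (nat_lit 0x2000100013c00d8000400070000000000000000000000) (nat_lit 0x0) (nat_lit 0xc00000007000300000000000000000000000000) := T_5 (nat_lit 121) (nat_lit 120) (nat_lit 0) (nat_lit 5) (nat_lit 8) L42673 (by decide +kernel)
theorem L42675 : W_5 (nat_lit 5) (nat_lit 0x2000100013800d8000400070000000000000000000000) (nat_lit 0x0) (nat_lit 0xc00060007000300000000000000000000000000) := T_5 (nat_lit 138) (nat_lit 137) (nat_lit 2) (nat_lit 1) (nat_lit 8) L42674 (by decide +kernel)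
theorem L42676 : W_5 (nat_lit 6) (nat_lit 0x2000100013000d8000400070000000000000000000000) (nat_lit 0x0) (nat_lit 0x1c000e0007000300000000000000000000000000) := T_5 (nat_lit 139) (nat_lit 156) (nat_lit 5) (nat_lit 4) (nat_lit 5) L42675 (by decide +kernel)
theorem L42677 : W_5 (nat_lit 7) (nat_lit 0x2000100013000d8000400030000000000000000000000) (nat_lit 0x0) (nat_lit 0x1c000e0007000300040002000000000000000000) := T_5 (nat_lit 90) (nat_lit 73) (nat_lit 6) (nat_lit 4) (nat_lit 8) L42676 (by decide +kernel)
theorem L42678 : W_5 (nat_lit 8) (nat_lit 0x2000100013000d8000400020000000000000000000000) (nat_lit 0x0) (nat_lit 0x1c000e0007000300050002800000000000000000) := T_5 (nat_lit 88) (nat_lit 71) (nat_lit 4) (nat_lit 4) (nat_lit 8) L42677 (by decide +kernel)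
theorem L42679 : W_5 (nat_lit 9) (nat_lit 0x2000100013000d8000400000000000000000000000000) (nat_lit 0x0) (nat_lit 0x1c000e0007000300070003800000000000000000) := T_5 (nat_lit 89) (nat_lit 72) (nat_lit 7) (nat_lit 4) (nat_lit 4) L42678 (by decide +kernel)
theorem L42680 : W_5 (nat_lit 10) (nat_lit 0x200010001300098000400000000000000000000000000) (nat_lit 0x0) (nat_lit 0x1c000e0067000300070003800000000000000000) := T_5 (nat_lit 126) (nat_lit 125) (nat_lit 1) (nat_lit 8) (nat_lit 7) L42679 (by decide +kernel)
theorem L42681 : W_5 (nat_lit 2) (nat_lit 0x2000100013000d8001c00000000000000000000000000) (nat_lit 0x0) (nat_lit 0x80004000000000000000080000000000000000000000) := D_5 (nat_lit 158) (nat_lit 91) (nat_lit 175) (nat_lit 6) (nat_lit 5) (nat_lit 9) (nat_lit 4) (nat_lit 5) (nat_lit 10) (by decide +kernel)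
theorem L42682 : W_5 (nat_lit 3) (nat_lit 0x2000100013000d8000c00000000000000000000000000) (nat_lit 0x0) (nat_lit 0x80004000000000003000080000000000000000000000) := T_5 (nat_lit 108) (nat_lit 109) (nat_lit 3) (nat_lit 4) (nat_lit 6) L42681 (by decide +kernel)
theorem L42683 : W_5 (nat_lit 4) (nat_lit 0x200010001300098000c00000000000000000000000000) (nat_lit 0x0) (nat_lit 0x80004000000060003000080000000000000000000000) := T_5 (nat_lit 126) (nat_lit 125) (nat_lit 1) (nat_lit 8) (nat_lit 7) L42682 (by decide +kernel)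
theorem L42684 : W_5 (nat_lit 2) (nat_lit 0x2000100013000da001c000c0000000000000000000000) (nat_lit 0x0) (nat_lit 0x300100000000000000000000000) := D_5 (nat_lit 105) (nat_lit 92) (nat_lit 104) (nat_lit 2) (nat_lit 3) (nat_lit 6) (nat_lit 2) (nat_lit 2) (nat_lit 6) (by decide +kernel)
theorem L42685 : W_5 (nat_lit 3) (nat_lit 0x2000100013000da001c00040000000000000000000000) (nat_lit 0x0) (nat_lit 0x300180004000000000000000000) := T_5 (nat_lit 91) (nat_lit 74) (nat_lit 6) (nat_lit 5) (nat_lit 8) L42684 (by decide +kernel)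
theorem L42686 : W_5 (nat_lit 4) (nat_lit 0x2000100013000da001c00000000000000000000000000) (nat_lit 0x0) (nat_lit 0x3001c0006000000000000000000) := T_5 (nat_lit 90) (nat_lit 73) (nat_lit 5) (nat_lit 5) (nat_lit 4) L42685 (by decide +kernel)
theorem L42687 : W_5 (nat_lit 5) (nat_lit 0x2000100013000d8001c00000000000000000000000000) (nat_lit 0x0) (nat_lit 0x60003001c0006000000000000000000) := T_5 (nat_lit 121) (nat_lit 122) (nat_lit 2) (nat_lit 2) (nat_lit 7) L42686 (by decide +kernel)
theorem L42688 : W_5 (nat_lit 6) (nat_lit 0x2000100013000d8000c00000000000000000000000000) (nat_lit 0x0) (nat_lit 0x60033001c0006000000000000000000) := T_5 (nat_lit 108) (nat_lit 109) (nat_lit 3) (nat_lit 4) (nat_lit 6) L42687 (by decide +kernel)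
theorem L42689 : W_5 (nat_lit 7) (nat_lit 0x200010001300098000c00000000000000000000000000) (nat_lit 0x0) (nat_lit 0x660033001c0006000000000000000000) := T_5 (nat_lit 126) (nat_lit 125) (nat_lit 1) (nat_lit 8) (nat_lit 7) L42688 (by decide +kernel)
theorem L42690 : W_5 (nat_lit 2) (nat_lit 0x200014001300098001c00000002000000000000000000) (nat_lit 0x0) (nat_lit 0x6002000000000000000000000000000) := D_5 (nat_lit 122) (nat_lit 121) (nat_lit 109) (nat_lit 2) (nat_lit 2) (nat_lit 7) (nat_lit 1) (nat_lit 7) (nat_lit 6) (by decide +kernel)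
theorem L42691 : W_5 (nat_lit 3) (nat_lit 0x200014001300098000c00000002000000000000000000) (nat_lit 0x0) (nat_lit 0x6003000080000000000000000000000) := T_5 (nat_lit 108) (nat_lit 91) (nat_lit 6) (nat_lit 5) (nat_lit 9) L42690 (by decide +kernel)
theorem L42692 : W_5 (nat_lit 4) (nat_lit 0x200010001300098000c00000002000000000000000000) (nat_lit 0x0) (nat_lit 0x80004000000006003000080000000000000000000000) := T_5 (nat_lit 158) (nat_lit 175) (nat_lit 4) (nat_lit 5) (nat_lit 10) L42691 (by decide +kernel)
theorem L42693 : W_5 (nat_lit 5) (nat_lit 0x200010001300098000c00000000000000000000000000) (nat_lit 0x0) (nat_lit 0x800040000000060030000c0002000000000000000000) := T_5 (nat_lit 73) (nat_lit 90) (nat_lit 5) (nat_lit 5) (nat_lit 4) L42692 (by decide +kernel)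
theorem L42694 : W_5 (nat_lit 2) (nat_lit 0x200010001380098000400000000000000000000000000) (nat_lit 0x0) (nat_lit 0x40060000000000000000000000000000000) := D_5 (nat_lit 125) (nat_lit 126) (nat_lit 138) (nat_lit 1) (nat_lit 7) (nat_lit 7) (nat_lit 2) (nat_lit 2) (nat_lit 8) (by decide +kernel)
theorem L42695 : W_5 (nat_lit 2) (nat_lit 0x2000110013800de000500000000000000000000000000) (nat_lit 0x0) (nat_lit 0x200008000400000000000000000) := D_5 (nat_lit 87) (nat_lit 70) (nat_lit 105) (nat_lit 7) (nat_lit 2) (nat_lit 4) (nat_lit 4) (nat_lit 3) (nat_lit 9) (by decide +kernel)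
theorem L42696 : W_5 (nat_lit 3) (nat_lit 0x2000110013800de000400000000000000000000000000) (nat_lit 0x0) (nat_lit 0x380008000400000000000000000) := T_5 (nat_lit 104) (nat_lit 103) (nat_lit 0) (nat_lit 5) (nat_lit 7) L42695 (by decide +kernel)
theorem L42697 : W_5 (nat_lit 4) (nat_lit 0x2000100013800de000400000000000000000000000000) (nat_lit 0x0) (nat_lit 0x20001000000000000380008000400000000000000000) := T_5 (nat_lit 156) (nat_lit 173) (nat_lit 6) (nat_lit 3) (nat_lit 10) L42696 (by decide +kernel)
theorem L42698 : W_5 (nat_lit 5) (nat_lit 0x2000100013800dc000400000000000000000000000000) (nat_lit 0x0) (nat_lit 0x20001000000003000380008000400000000000000000) := T_5 (nat_lit 121) (nat_lit 120) (nat_lit 3) (nat_lit 1) (nat_lit 7) L42697 (by decide +kernel)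
theorem L42699 : W_5 (nat_lit 6) (nat_lit 0x20001000138009c000400000000000000000000000000) (nat_lit 0x0) (nat_lit 0x20001000000063000380008000400000000000000000) := T_5 (nat_lit 126) (nat_lit 125) (nat_lit 1) (nat_lit 7) (nat_lit 7) L42698 (by decide +kernel)
theorem L42700 : W_5 (nat_lit 2) (nat_lit 0x2a001000138009e000f00000000000000000000000000) (nat_lit 0x0) (nat_lit 0xc000400000000000000000) := D_5 (nat_lit 87) (nat_lit 86) (nat_lit 70) (nat_lit 0) (nat_lit 5) (nat_lit 6) (nat_lit 7) (nat_lit 2) (nat_lit 4) (by decide +kernel)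
theorem L42701 : W_5 (nat_lit 3) (nat_lit 0x2a001000138009e000d00000000000000000000000000) (nat_lit 0x0) (nat_lit 0x2000020000c000400000000000000000) := T_5 (nat_lit 105) (nat_lit 125) (nat_lit 3) (nat_lit 2) (nat_lit 6) L42700 (by decide +kernel)
theorem L42702 : W_5 (nat_lit 4) (nat_lit 0x2a001000138009e000500000000000000000000000000) (nat_lit 0x0) (nat_lit 0x20001a0000c000400000000000000000) := T_5 (nat_lit 107) (nat_lit 108) (nat_lit 2) (nat_lit 2) (nat_lit 7) L42701 (by decide +kernel)
theorem L42703 : W_5 (nat_lit 5) (nat_lit 0x2a001000138009e000400000000000000000000000000) (nat_lit 0x0) (nat_lit 0x20001b8000c000400000000000000000) := T_5 (nat_lit 104) (nat_lit 103) (nat_lit 0) (nat_lit 5) (nat_lit 7) L42702 (by decide +kernel)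
theorem L42704 : W_5 (nat_lit 6) (nat_lit 0x22001000138009e000400000000000000000000000000) (nat_lit 0x0) (nat_lit 0x80004000000020001b8000c000400000000000000000) := T_5 (nat_lit 175) (nat_lit 158) (nat_lit 4) (nat_lit 5) (nat_lit 10) L42703 (by decide +kernel)
theorem L42705 : W_5 (nat_lit 7) (nat_lit 0x22001000138009c000400000000000000000000000000) (nat_lit 0x0) (nat_lit 0x80004000000023001b8000c000400000000000000000) := T_5 (nat_lit 121) (nat_lit 120) (nat_lit 3) (nat_lit 1) (nat_lit 7) L42704 (by decide +kernel)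
theorem L42706 : W_5 (nat_lit 8) (nat_lit 0x20001000138009c000400000000000000000000000000) (nat_lit 0x0) (nat_lit 0xa0005000000023001b8000c000400000000000000000) := T_5 (nat_lit 173) (nat_lit 156) (nat_lit 6) (nat_lit 3) (nat_lit 10) L42705 (by decide +kernel)
theorem L42707 : W_5 (nat_lit 2) (nat_lit 0x2a00100013800bc001600010004000000000000000000) (nat_lit 0x0) (nat_lit 0x800008000400000000000000000) := D_5 (nat_lit 87) (nat_lit 70) (nat_lit 107) (nat_lit 4) (nat_lit 3) (nat_lit 8) (nat_lit 0) (nat_lit 6) (nat_lit 6) (by decide +kernel)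
theorem L42708 : W_5 (nat_lit 3) (nat_lit 0x2a00100013800bc001600000004000000000000000000) (nat_lit 0x0) (nat_lit 0x800018000c00000000000000000) := T_5 (nat_lit 88) (nat_lit 71) (nat_lit 7) (nat_lit 3) (nat_lit 4) L42707 (by decide +kernel)
theorem L42709 : W_5 (nat_lit 4) (nat_lit 0x2a00100013800bc001400000004000000000000000000) (nat_lit 0x0) (nat_lit 0xb00018000c00000000000000000) := T_5 (nat_lit 105) (nat_lit 104) (nat_lit 0) (nat_lit 6) (nat_lit 7) L42708 (by decide +kernel)
theorem L42710 : W_5 (nat_lit 5) (nat_lit 0x2a00100013800bc001400000000000000000000000000) (nat_lit 0x0) (nat_lit 0xb00098004c00000000000000000) := T_5 (nat_lit 74) (nat_lit 91) (nat_lit 5) (nat_lit 6) (nat_lit 4) L42709 (by decide +kernel)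
theorem L42711 : W_5 (nat_lit 6) (nat_lit 0x2200100013800bc001400000000000000000000000000) (nat_lit 0x0) (nat_lit 0x80004000000000000b00098004c00000000000000000) := T_5 (nat_lit 175) (nat_lit 158) (nat_lit 6) (nat_lit 5) (nat_lit 10) L42710 (by decide +kernel)
theorem L42712 : W_5 (nat_lit 7) (nat_lit 0x2200100013800bc000400000000000000000000000000) (nat_lit 0x0) (nat_lit 0x80004000000000003b00098004c00000000000000000) := T_5 (nat_lit 108) (nat_lit 109) (nat_lit 2) (nat_lit 3) (nat_lit 7) L42711 (by decide +kernel)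
theorem L42713 : W_5 (nat_lit 8) (nat_lit 0x2000100013800bc000400000000000000000000000000) (nat_lit 0x0) (nat_lit 0xa0005000000000003b00098004c00000000000000000) := T_5 (nat_lit 173) (nat_lit 156) (nat_lit 6) (nat_lit 3) (nat_lit 10) L42712 (by decide +kernel)
theorem L42714 : W_5 (nat_lit 9) (nat_lit 0x20001000138009c000400000000000000000000000000) (nat_lit 0x0) (nat_lit 0xa0005000000060003b00098004c00000000000000000) := T_5 (nat_lit 125) (nat_lit 126) (nat_lit 1) (nat_lit 7) (nat_lit 7) L42713 (by decide +kernel)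
theorem L42715 : W_5 (nat_lit 2) (nat_lit 0x2000140013800bd001400000000000000000000000000) (nat_lit 0x0) (nat_lit 0x800080004000000000000000000) := D_5 (nat_lit 91) (nat_lit 74) (nat_lit 107) (nat_lit 5) (nat_lit 6) (nat_lit 4) (nat_lit 6) (nat_lit 5) (nat_lit 9) (by decide +kernel)
theorem L42716 : W_5 (nat_lit 3) (nat_lit 0x2000100013800bd001400000000000000000000000000) (nat_lit 0x0) (nat_lit 0x80004000000000000800080004000000000000000000) := T_5 (nat_lit 158) (nat_lit 175) (nat_lit 6) (nat_lit 5) (nat_lit 10) L42715 (by decide +kernel)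
theorem L42717 : W_5 (nat_lit 4) (nat_lit 0x2000100013800bd000400000000000000000000000000) (nat_lit 0x0) (nat_lit 0x80004000000000003800080004000000000000000000) := T_5 (nat_lit 108) (nat_lit 109) (nat_lit 2) (nat_lit 3) (nat_lit 7) L42716 (by decide +kernel)
theorem L42718 : W_5 (nat_lit 5) (nat_lit 0x2000100013800bc000400000000000000000000000000) (nat_lit 0x0) (nat_lit 0x80004000000003003800080004000000000000000000) := T_5 (nat_lit 120) (nat_lit 121) (nat_lit 3) (nat_lit 1) (nat_lit 7) L42717 (by decide +kernel)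
theorem L42719 : W_5 (nat_lit 6) (nat_lit 0x20001000138009c000400000000000000000000000000) (nat_lit 0x0) (nat_lit 0x80004000000063003800080004000000000000000000) := T_5 (nat_lit 125) (nat_lit 126) (nat_lit 1) (nat_lit 7) (nat_lit 7) L42718 (by decide +kernel)
theorem L42720 : W_5 (nat_lit 2) (nat_lit 0x28001100138009e000d00000002000000000000000000) (nat_lit 0x0) (nat_lit 0x200008000400000000000000000) := D_5 (nat_lit 87) (nat_lit 70) (nat_lit 105) (nat_lit 7) (nat_lit 2) (nat_lit 4) (nat_lit 4) (nat_lit 3) (nat_lit 9) (by decide +kernel)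
theorem L42721 : W_5 (nat_lit 3) (nat_lit 0x28001000138009e000d00000002000000000000000000) (nat_lit 0x0) (nat_lit 0x20001000000000000200008000400000000000000000) := T_5 (nat_lit 156) (nat_lit 173) (nat_lit 6) (nat_lit 3) (nat_lit 10) L42720 (by decide +kernel)
theorem L42722 : W_5 (nat_lit 4) (nat_lit 0x28001000138009e000d00000000000000000000000000) (nat_lit 0x0) (nat_lit 0x20001000000000000200048002400000000000000000) := T_5 (nat_lit 73) (nat_lit 90) (nat_lit 5) (nat_lit 5) (nat_lit 4) L42721 (by decide +kernel)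
theorem L42723 : W_5 (nat_lit 5) (nat_lit 0x28001000138009e000500000000000000000000000000) (nat_lit 0x0) (nat_lit 0x20001000000000001a00048002400000000000000000) := T_5 (nat_lit 107) (nat_lit 108) (nat_lit 2) (nat_lit 2) (nat_lit 7) L42722 (by decide +kernel)
theorem L42724 : W_5 (nat_lit 6) (nat_lit 0x28001000138009e000400000000000000000000000000) (nat_lit 0x0) (nat_lit 0x20001000000000001b80048002400000000000000000) := T_5 (nat_lit 104) (nat_lit 103) (nat_lit 0) (nat_lit 5) (nat_lit 7) L42723 (by decide +kernel)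
theorem L42725 : W_5 (nat_lit 7) (nat_lit 0x20001000138009e000400000000000000000000000000) (nat_lit 0x0) (nat_lit 0xa0005000000000001b80048002400000000000000000) := T_5 (nat_lit 175) (nat_lit 158) (nat_lit 4) (nat_lit 5) (nat_lit 10) L42724 (by decide +kernel)
theorem L42726 : W_5 (nat_lit 8) (nat_lit 0x20001000138009c000400000000000000000000000000) (nat_lit 0x0) (nat_lit 0xa0005000000003001b80048002400000000000000000) := T_5 (nat_lit 121) (nat_lit 120) (nat_lit 3) (nat_lit 1) (nat_lit 7) L42725 (by decide +kernel)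
theorem L42727 : W_5 (nat_lit 10) (nat_lit 0x200010001380098000400000000000000000000000000) (nat_lit 0x0) (nat_lit 0xa0005000000067003b800dc006c00000000000000000) := Q_5 (nat_lit 122) (C_5 L42699 (C_5 L42706 (C_5 L42714 (C_5 L42719 (C_5 L42726 N_5))))) (by decide +kernel)
theorem L42728 : W_5 (nat_lit 2) (nat_lit 0x200010001380098000400000000000000000000000000) (nat_lit 0x0) (nat_lit 0x60020000000000000000000000000000000) := D_5 (nat_lit 138) (nat_lit 137) (nat_lit 125) (nat_lit 2) (nat_lit 1) (nat_lit 8) (nat_lit 2) (nat_lit 2) (nat_lit 8) (by decide +kernel)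
theorem L42729 : W_5 (nat_lit 2) (nat_lit 0x2a00108013c009e000500000000000000000000000000) (nat_lit 0x0) (nat_lit 0x10000000000000000200010000000000000000000000) := D_5 (nat_lit 105) (nat_lit 88) (nat_lit 172) (nat_lit 6) (nat_lit 2) (nat_lit 9) (nat_lit 6) (nat_lit 2) (nat_lit 10) (by decide +kernel)
theorem L42730 : W_5 (nat_lit 3) (nat_lit 0x2a00100013c009e000500000000000000000000000000) (nat_lit 0x0) (nat_lit 0x10000c00000000000200010000000000000000000000) := T_5 (nat_lit 155) (nat_lit 154) (nat_lit 1) (nat_lit 5) (nat_lit 8) L42729 (by decide +kernel)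
theorem L42731 : W_5 (nat_lit 4) (nat_lit 0x2a00100013c009e000400000000000000000000000000) (nat_lit 0x0) (nat_lit 0x10000c00000000000380010000000000000000000000) := T_5 (nat_lit 104) (nat_lit 103) (nat_lit 0) (nat_lit 5) (nat_lit 7) L42730 (by decide +kernel)
theorem L42732 : W_5 (nat_lit 5) (nat_lit 0x2a001000138009e000400000000000000000000000000) (nat_lit 0x0) (nat_lit 0x10000c00060000000380010000000000000000000000) := T_5 (nat_lit 138) (nat_lit 137) (nat_lit 2) (nat_lit 1) (nat_lit 8) L42731 (by decide +kernel)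
theorem L42733 : W_5 (nat_lit 6) (nat_lit 0x2a001000138009c000400000000000000000000000000) (nat_lit 0x0) (nat_lit 0x10000c00060003000380010000000000000000000000) := T_5 (nat_lit 121) (nat_lit 120) (nat_lit 3) (nat_lit 1) (nat_lit 7) L42732 (by decide +kernel)
theorem L42734 : W_5 (nat_lit 7) (nat_lit 0x28001000138009c000400000000000000000000000000) (nat_lit 0x0) (nat_lit 0x30001c00060003000380010000000000000000000000) := T_5 (nat_lit 173) (nat_lit 156) (nat_lit 6) (nat_lit 3) (nat_lit 10) L42733 (by decide +kernel)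
theorem L42735 : W_5 (nat_lit 8) (nat_lit 0x20001000138009c000400000000000000000000000000) (nat_lit 0x0) (nat_lit 0xb0005c00060003000380010000000000000000000000) := T_5 (nat_lit 175) (nat_lit 158) (nat_lit 4) (nat_lit 5) (nat_lit 10) L42734 (by decide +kernel)
theorem L42736 : W_5 (nat_lit 2) (nat_lit 0x2200100013a009e000d00040000000000000000000000) (nat_lit 0x0) (nat_lit 0x200080004000000000000000000) := D_5 (nat_lit 91) (nat_lit 105) (nat_lit 74) (nat_lit 2) (nat_lit 2) (nat_lit 6) (nat_lit 6) (nat_lit 5) (nat_lit 8) (by decide +kernel)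
theorem L42737 : W_5 (nat_lit 3) (nat_lit 0x2200100013a009e000d00000000000000000000000000) (nat_lit 0x0) (nat_lit 0x2000c0006000000000000000000) := T_5 (nat_lit 90) (nat_lit 73) (nat_lit 5) (nat_lit 5) (nat_lit 4) L42736 (by decide +kernel)
theorem L42738 : W_5 (nat_lit 4) (nat_lit 0x2200100013a009e000500000000000000000000000000) (nat_lit 0x0) (nat_lit 0x1a000c0006000000000000000000) := T_5 (nat_lit 107) (nat_lit 108) (nat_lit 2) (nat_lit 2) (nat_lit 7) L42737 (by decide +kernel)
theorem L42739 : W_5 (nat_lit 5) (nat_lit 0x2200100013a009e000400000000000000000000000000) (nat_lit 0x0) (nat_lit 0x1b800c0006000000000000000000) := T_5 (nat_lit 104) (nat_lit 103) (nat_lit 0) (nat_lit 5) (nat_lit 7) L42738 (by decide +kernel)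
theorem L42740 : W_5 (nat_lit 6) (nat_lit 0x2200100013a009c000400000000000000000000000000) (nat_lit 0x0) (nat_lit 0x3001b800c0006000000000000000000) := T_5 (nat_lit 121) (nat_lit 120) (nat_lit 3) (nat_lit 1) (nat_lit 7) L42739 (by decide +kernel)
theorem L42741 : W_5 (nat_lit 7) (nat_lit 0x2000100013a009c000400000000000000000000000000) (nat_lit 0x0) (nat_lit 0x20001000000003001b800c0006000000000000000000) := T_5 (nat_lit 173) (nat_lit 156) (nat_lit 6) (nat_lit 3) (nat_lit 10) L42740 (by decide +kernel)
theorem L42742 : W_5 (nat_lit 8) (nat_lit 0x20001000138009c000400000000000000000000000000) (nat_lit 0x0) (nat_lit 0x20001000060003001b800c0006000000000000000000) := T_5 (nat_lit 137) (nat_lit 138) (nat_lit 2) (nat_lit 1) (nat_lit 8) L42741 (by decide +kernel)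
theorem L42743 : W_5 (nat_lit 2) (nat_lit 0x2800118013c009c000400000000000000000000000000) (nat_lit 0x0) (nat_lit 0x200010000000000000000200000000000000000000000000) := D_5 (nat_lit 172) (nat_lit 189) (nat_lit 105) (nat_lit 6) (nat_lit 2) (nat_lit 11) (nat_lit 5) (nat_lit 3) (nat_lit 6) (by decide +kernel)
theorem L42744 : W_5 (nat_lit 3) (nat_lit 0x2800110013c009c000400000000000000000000000000) (nat_lit 0x0) (nat_lit 0x200010000c00000000000200000000000000000000000000) := T_5 (nat_lit 155) (nat_lit 154) (nat_lit 1) (nat_lit 5) (nat_lit 8) L42743 (by decide +kernel)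
theorem L42745 : W_5 (nat_lit 4) (nat_lit 0x2800100013c009c000400000000000000000000000000) (nat_lit 0x0) (nat_lit 0x200030001c00000000000200000000000000000000000000) := T_5 (nat_lit 156) (nat_lit 173) (nat_lit 6) (nat_lit 3) (nat_lit 10) L42744 (by decide +kernel)
theorem L42746 : W_5 (nat_lit 5) (nat_lit 0x28001000138009c000400000000000000000000000000) (nat_lit 0x0) (nat_lit 0x200030001c00060000000200000000000000000000000000) := T_5 (nat_lit 138) (nat_lit 137) (nat_lit 2) (nat_lit 1) (nat_lit 8) L42745 (by decide +kernel)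
theorem L42747 : W_5 (nat_lit 6) (nat_lit 0x20001000138009c000400000000000000000000000000) (nat_lit 0x0) (nat_lit 0x2000b0005c00060000000200000000000000000000000000) := T_5 (nat_lit 175) (nat_lit 158) (nat_lit 4) (nat_lit 5) (nat_lit 10) L42746 (by decide +kernel)
theorem L42748 : W_5 (nat_lit 2) (nat_lit 0x2a00108013c009e000c00000002000000000000000000) (nat_lit 0x0) (nat_lit 0x600010000000000000000000000000000000000000000000) := D_5 (nat_lit 172) (nat_lit 190) (nat_lit 189) (nat_lit 7) (nat_lit 2) (nat_lit 7) (nat_lit 6) (nat_lit 2) (nat_lit 11) (by decide +kernel)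
theorem L42749 : W_5 (nat_lit 3) (nat_lit 0x2a00100013c009e000c00000002000000000000000000) (nat_lit 0x0) (nat_lit 0x600010000c00000000000000000000000000000000000000) := T_5 (nat_lit 155) (nat_lit 154) (nat_lit 1) (nat_lit 5) (nat_lit 8) L42748 (by decide +kernel)
theorem L42750 : W_5 (nat_lit 4) (nat_lit 0x2a001000138009e000c00000002000000000000000000) (nat_lit 0x0) (nat_lit 0x600010000c00060000000000000000000000000000000000) := T_5 (nat_lit 138) (nat_lit 137) (nat_lit 2) (nat_lit 1) (nat_lit 8) L42749 (by decide +kernel)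
theorem L42751 : W_5 (nat_lit 5) (nat_lit 0x2a001000138009e000c00000000000000000000000000) (nat_lit 0x0) (nat_lit 0x600010000c00060000000000040002000000000000000000) := T_5 (nat_lit 73) (nat_lit 90) (nat_lit 5) (nat_lit 5) (nat_lit 4) L42750 (by decide +kernel)
theorem L42752 : W_5 (nat_lit 6) (nat_lit 0x2a001000138009e000400000000000000000000000000) (nat_lit 0x0) (nat_lit 0x600010000c00060000001800040002000000000000000000) := T_5 (nat_lit 107) (nat_lit 108) (nat_lit 2) (nat_lit 2) (nat_lit 7) L42751 (by decide +kernel)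
theorem L42753 : W_5 (nat_lit 7) (nat_lit 0x22001000138009e000400000000000000000000000000) (nat_lit 0x0) (nat_lit 0x600090004c00060000001800040002000000000000000000) := T_5 (nat_lit 175) (nat_lit 158) (nat_lit 4) (nat_lit 5) (nat_lit 10) L42752 (by decide +kernel)
theorem L42754 : W_5 (nat_lit 8) (nat_lit 0x22001000138009c000400000000000000000000000000) (nat_lit 0x0) (nat_lit 0x600090004c00060003001800040002000000000000000000) := T_5 (nat_lit 121) (nat_lit 120) (nat_lit 3) (nat_lit 1) (nat_lit 7) L42753 (by decide +kernel)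
theorem L42755 : W_5 (nat_lit 9) (nat_lit 0x20001000138009c000400000000000000000000000000) (nat_lit 0x0) (nat_lit 0x6000b0005c00060003001800040002000000000000000000) := T_5 (nat_lit 173) (nat_lit 156) (nat_lit 6) (nat_lit 3) (nat_lit 10) L42754 (by decide +kernel)
theorem L42756 : W_5 (nat_lit 2) (nat_lit 0x2800100013a009e000d00040000000000000000000000) (nat_lit 0x0) (nat_lit 0x200080004000000000000000000) := D_5 (nat_lit 91) (nat_lit 105) (nat_lit 74) (nat_lit 2) (nat_lit 2) (nat_lit 6) (nat_lit 6) (nat_lit 5) (nat_lit 8) (by decide +kernel)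
theorem L42757 : W_5 (nat_lit 3) (nat_lit 0x2800100013a009e000d00000000000000000000000000) (nat_lit 0x0) (nat_lit 0x2000c0006000000000000000000) := T_5 (nat_lit 90) (nat_lit 73) (nat_lit 5) (nat_lit 5) (nat_lit 4) L42756 (by decide +kernel)
theorem L42758 : W_5 (nat_lit 4) (nat_lit 0x2800100013a009e000500000000000000000000000000) (nat_lit 0x0) (nat_lit 0x1a000c0006000000000000000000) := T_5 (nat_lit 107) (nat_lit 108) (nat_lit 2) (nat_lit 2) (nat_lit 7) L42757 (by decide +kernel)
theorem L42759 : W_5 (nat_lit 5) (nat_lit 0x2800100013a009e000400000000000000000000000000) (nat_lit 0x0) (nat_lit 0x1b800c0006000000000000000000) := T_5 (nat_lit 104) (nat_lit 103) (nat_lit 0) (nat_lit 5) (nat_lit 7) L42758 (by decide +kernel)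
theorem L42760 : W_5 (nat_lit 6) (nat_lit 0x2800100013a009c000400000000000000000000000000) (nat_lit 0x0) (nat_lit 0x3001b800c0006000000000000000000) := T_5 (nat_lit 121) (nat_lit 120) (nat_lit 3) (nat_lit 1) (nat_lit 7) L42759 (by decide +kernel)
theorem L42761 : W_5 (nat_lit 7) (nat_lit 0x28001000138009c000400000000000000000000000000) (nat_lit 0x0) (nat_lit 0x60003001b800c0006000000000000000000) := T_5 (nat_lit 137) (nat_lit 138) (nat_lit 2) (nat_lit 1) (nat_lit 8) L42760 (by decide +kernel)
theorem L42762 : W_5 (nat_lit 8) (nat_lit 0x20001000138009c000400000000000000000000000000) (nat_lit 0x0) (nat_lit 0x80004000060003001b800c0006000000000000000000) := T_5 (nat_lit 175) (nat_lit 158) (nat_lit 4) (nat_lit 5) (nat_lit 10) L42761 (by decide +kernel)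
theorem L42763 : W_5 (nat_lit 10) (nat_lit 0x200010001380098000400000000000000000000000000) (nat_lit 0x0) (nat_lit 0x6000b0005c00060007001b800d8006400000000000000000) := Q_5 (nat_lit 122) (C_5 L42726 (C_5 L42735 (C_5 L42742 (C_5 L42747 (C_5 L42755 (C_5 L42762 N_5)))))) (by decide +kernel)
theorem L42764 : W_5 (nat_lit 11) (nat_lit 0x200010001300098000400000000000000000000000000) (nat_lit 0x0) (nat_lit 0x6000b0005c000e0067003b800dc006c00000000000000000) := Q_5 (nat_lit 139) (C_5 L42694 (C_5 L42727 (C_5 L42728 (C_5 L42763 N_5)))) (by decide +kernel)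
theorem L42765 : W_5 (nat_lit 12) (nat_lit 0x200010001300098000000000000000000000000000000) (nat_lit 0x0) (nat_lit 0x6000b0005c000e0067003f800fc007c00000000000000000) := Q_5 (nat_lit 106) (C_5 L42670 (C_5 L42671 (C_5 L42680 (C_5 L42764 N_5)))) (by decide +kernel)
theorem L42766 : W_5 (nat_lit 2) (nat_lit 0x2800100013000d8000e000c0000000000000000000000) (nat_lit 0x0) (nat_lit 0x1000300000000000000000000000) := D_5 (nat_lit 92) (nat_lit 93) (nat_lit 108) (nat_lit 1) (nat_lit 8) (nat_lit 5) (nat_lit 2) (nat_lit 3) (nat_lit 6) (by decide +kernel)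
theorem L42767 : W_5 (nat_lit 3) (nat_lit 0x2800100013000d8000c000c0000000000000000000000) (nat_lit 0x0) (nat_lit 0x1300300000000000000000000000) := T_5 (nat_lit 105) (nat_lit 104) (nat_lit 2) (nat_lit 2) (nat_lit 6) L42766 (by decide +kernel)
theorem L42768 : W_5 (nat_lit 4) (nat_lit 0x2800100013000d8000c00040000000000000000000000) (nat_lit 0x0) (nat_lit 0x1300380004000000000000000000) := T_5 (nat_lit 91) (nat_lit 74) (nat_lit 6) (nat_lit 5) (nat_lit 8) L42767 (by decide +kernel)
theorem L42769 : W_5 (nat_lit 5) (nat_lit 0x2000100013000d8000c00040000000000000000000000) (nat_lit 0x0) (nat_lit 0x80004000000000001300380004000000000000000000) := T_5 (nat_lit 175) (nat_lit 158) (nat_lit 4) (nat_lit 5) (nat_lit 10) L42768 (by decide +kernel)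
theorem L42770 : W_5 (nat_lit 6) (nat_lit 0x2000100013000d8000c00000000000000000000000000) (nat_lit 0x0) (nat_lit 0x800040000000000013003c0006000000000000000000) := T_5 (nat_lit 90) (nat_lit 73) (nat_lit 5) (nat_lit 5) (nat_lit 4) L42769 (by decide +kernel)
theorem L42771 : W_5 (nat_lit 7) (nat_lit 0x200010001300098000c00000000000000000000000000) (nat_lit 0x0) (nat_lit 0x800040000000600013003c0006000000000000000000) := T_5 (nat_lit 126) (nat_lit 125) (nat_lit 1) (nat_lit 8) (nat_lit 7) L42770 (by decide +kernel)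
theorem L42772 : W_5 (nat_lit 2) (nat_lit 0x2000100013000d8000e000c0000000000000000000000) (nat_lit 0x0) (nat_lit 0x1000300000000000000000000000) := D_5 (nat_lit 92) (nat_lit 108) (nat_lit 93) (nat_lit 2) (nat_lit 3) (nat_lit 6) (nat_lit 1) (nat_lit 8) (nat_lit 5) (by decide +kernel)
theorem L42773 : W_5 (nat_lit 2) (nat_lit 0x20001000134009a000700000000000000000000000000) (nat_lit 0x0) (nat_lit 0x60000800000000000000000000000000) := D_5 (nat_lit 125) (nat_lit 126) (nat_lit 107) (nat_lit 1) (nat_lit 8) (nat_lit 7) (nat_lit 3) (nat_lit 2) (nat_lit 6) (by decide +kernel)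
theorem L42774 : W_5 (nat_lit 2) (nat_lit 0x2000100013000de000d00040000000000000000000000) (nat_lit 0x0) (nat_lit 0x200080004000000000000000000) := D_5 (nat_lit 91) (nat_lit 105) (nat_lit 74) (nat_lit 2) (nat_lit 2) (nat_lit 6) (nat_lit 6) (nat_lit 5) (nat_lit 8) (by decide +kernel)
theorem L42775 : W_5 (nat_lit 3) (nat_lit 0x2000100013000de000d00000000000000000000000000) (nat_lit 0x0) (nat_lit 0x2000c0006000000000000000000) := T_5 (nat_lit 90) (nat_lit 73) (nat_lit 5) (nat_lit 5) (nat_lit 4) L42774 (by decide +kernel)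
theorem L42776 : W_5 (nat_lit 4) (nat_lit 0x2000100013000de000500000000000000000000000000) (nat_lit 0x0) (nat_lit 0x1a000c0006000000000000000000) := T_5 (nat_lit 107) (nat_lit 108) (nat_lit 2) (nat_lit 2) (nat_lit 7) L42775 (by decide +kernel)
theorem L42777 : W_5 (nat_lit 5) (nat_lit 0x2000100013000de000400000000000000000000000000) (nat_lit 0x0) (nat_lit 0x1b800c0006000000000000000000) := T_5 (nat_lit 104) (nat_lit 103) (nat_lit 0) (nat_lit 5) (nat_lit 7) L42776 (by decide +kernel)
theorem L42778 : W_5 (nat_lit 6) (nat_lit 0x2000100013000dc000400000000000000000000000000) (nat_lit 0x0) (nat_lit 0x3001b800c0006000000000000000000) := T_5 (nat_lit 121) (nat_lit 120) (nat_lit 3) (nat_lit 1) (nat_lit 7) L42777 (by decide +kernel)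
theorem L42779 : W_5 (nat_lit 7) (nat_lit 0x20001000130009c000400000000000000000000000000) (nat_lit 0x0) (nat_lit 0x63001b800c0006000000000000000000) := T_5 (nat_lit 126) (nat_lit 125) (nat_lit 1) (nat_lit 8) (nat_lit 7) L42778 (by decide +kernel)
theorem L42780 : W_5 (nat_lit 2) (nat_lit 0x2800100013000bc001600090000000000000000000000) (nat_lit 0x0) (nat_lit 0x800108000000000000000000000) := D_5 (nat_lit 107) (nat_lit 92) (nat_lit 87) (nat_lit 2) (nat_lit 3) (nat_lit 6) (nat_lit 0) (nat_lit 6) (nat_lit 6) (by decide +kernel)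
theorem L42781 : W_5 (nat_lit 3) (nat_lit 0x2800100013000bc001600080000000000000000000000) (nat_lit 0x0) (nat_lit 0x800118000800000000000000000) := T_5 (nat_lit 88) (nat_lit 71) (nat_lit 7) (nat_lit 3) (nat_lit 4) L42780 (by decide +kernel)
theorem L42782 : W_5 (nat_lit 4) (nat_lit 0x2800100013000bc001600000000000000000000000000) (nat_lit 0x0) (nat_lit 0x800198004800000000000000000) := T_5 (nat_lit 91) (nat_lit 74) (nat_lit 5) (nat_lit 6) (nat_lit 4) L42781 (by decide +kernel)
theorem L42783 : W_5 (nat_lit 3) (nat_lit 0x2000100013000d8000c000c0000000000000000000000) (nat_lit 0x0) (nat_lit 0x1300300000000000000000000000) := T_5 (nat_lit 105) (nat_lit 104) (nat_lit 2) (nat_lit 2) (nat_lit 6) L42772 (by decide +kernel)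
theorem L42784 : W_5 (nat_lit 4) (nat_lit 0x2000100013000d8000c00040000000000000000000000) (nat_lit 0x0) (nat_lit 0x1300380004000000000000000000) := T_5 (nat_lit 91) (nat_lit 74) (nat_lit 6) (nat_lit 5) (nat_lit 8) L42783 (by decide +kernel)
theorem L42785 : W_5 (nat_lit 5) (nat_lit 0x2000100013000d8000c00000000000000000000000000) (nat_lit 0x0) (nat_lit 0x13003c0006000000000000000000) := T_5 (nat_lit 90) (nat_lit 73) (nat_lit 5) (nat_lit 5) (nat_lit 4) L42784 (by decide +kernel)
theorem L42786 : W_5 (nat_lit 2) (nat_lit 0x200014001300098000000000000000000000000000000) (nat_lit 0x0) (nat_lit 0x1000080000000000000000400000000000000000000000000) := D_5 (nat_lit 175) (nat_lit 192) (nat_lit 106) (nat_lit 4) (nat_lit 5) (nat_lit 11) (nat_lit 4) (nat_lit 5) (nat_lit 10) (by decide +kernel)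
theorem L42787 : W_5 (nat_lit 2) (nat_lit 0x2000140013000b8000000000000000000000000000000) (nat_lit 0x0) (nat_lit 0x1000080000000000000001000000000000000000000000000) := D_5 (nat_lit 175) (nat_lit 192) (nat_lit 108) (nat_lit 4) (nat_lit 5) (nat_lit 11) (nat_lit 6) (nat_lit 5) (nat_lit 10) (by decide +kernel)
theorem L42788 : W_5 (nat_lit 3) (nat_lit 0x200014001300098000000000000000000000000000000) (nat_lit 0x0) (nat_lit 0x1000080000000000060001000000000000000000000000000) := T_5 (nat_lit 125) (nat_lit 126) (nat_lit 1) (nat_lit 8) (nat_lit 7) L42787 (by decide +kernel)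
theorem L42789 : W_5 (nat_lit 2) (nat_lit 0x2000340013800bd000200020000000000000000000000) (nat_lit 0x0) (nat_lit 0x10001800000000000000000) := D_5 (nat_lit 88) (nat_lit 71) (nat_lit 72) (nat_lit 7) (nat_lit 3) (nat_lit 4) (nat_lit 6) (nat_lit 3) (nat_lit 8) (by decide +kernel)
theorem L42790 : W_5 (nat_lit 3) (nat_lit 0x2000340013000bd000200020000000000000000000000) (nat_lit 0x0) (nat_lit 0xc0000000000010001800000000000000000) := T_5 (nat_lit 139) (nat_lit 138) (nat_lit 2) (nat_lit 2) (nat_lit 8) L42789 (by decide +kernel)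
theorem L42791 : W_5 (nat_lit 4) (nat_lit 0x2000340013000bd000000020000000000000000000000) (nat_lit 0x0) (nat_lit 0xc0000000300010001800000000000000000) := T_5 (nat_lit 105) (nat_lit 104) (nat_lit 0) (nat_lit 6) (nat_lit 7) L42790 (by decide +kernel)
theorem L42792 : W_5 (nat_lit 5) (nat_lit 0x2000140013000bd000000020000000000000000000000) (nat_lit 0x0) (nat_lit 0x280000c0000000300010001800000000000000000) := T_5 (nat_lit 161) (nat_lit 159) (nat_lit 0) (nat_lit 8) (nat_lit 9) L42791 (by decide +kernel)
theorem L42793 : W_5 (nat_lit 6) (nat_lit 0x20001400130009d000000020000000000000000000000) (nat_lit 0x0) (nat_lit 0x280000c0060000300010001800000000000000000) := T_5 (nat_lit 125) (nat_lit 126) (nat_lit 1) (nat_lit 8) (nat_lit 7) L42792 (by decide +kernel)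
theorem L42794 : W_5 (nat_lit 7) (nat_lit 0x20001400130009c000000020000000000000000000000) (nat_lit 0x0) (nat_lit 0x280000c0063000300010001800000000000000000) := T_5 (nat_lit 120) (nat_lit 121) (nat_lit 3) (nat_lit 1) (nat_lit 7) L42793 (by decide +kernel)
theorem L42795 : W_5 (nat_lit 8) (nat_lit 0x20001400130009c000000000000000000000000000000) (nat_lit 0x0) (nat_lit 0x280000c0063000700030001800000000000000000) := T_5 (nat_lit 89) (nat_lit 106) (nat_lit 7) (nat_lit 4) (nat_lit 5) L42794 (by decide +kernel)
theorem L42796 : W_5 (nat_lit 2) (nat_lit 0x2000340013000de000800020000000000000000000000) (nat_lit 0x0) (nat_lit 0x40003000000000000000000) := D_5 (nat_lit 90) (nat_lit 73) (nat_lit 72) (nat_lit 5) (nat_lit 5) (nat_lit 4) (nat_lit 4) (nat_lit 5) (nat_lit 8) (by decide +kernel)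
theorem L42797 : W_5 (nat_lit 3) (nat_lit 0x2000340013000de000000020000000000000000000000) (nat_lit 0x0) (nat_lit 0x1800040003000000000000000000) := T_5 (nat_lit 107) (nat_lit 108) (nat_lit 2) (nat_lit 2) (nat_lit 7) L42796 (by decide +kernel)
theorem L42798 : W_5 (nat_lit 4) (nat_lit 0x2000140013000de000000020000000000000000000000) (nat_lit 0x0) (nat_lit 0x28000000000001800040003000000000000000000) := T_5 (nat_lit 161) (nat_lit 159) (nat_lit 0) (nat_lit 8) (nat_lit 9) L42797 (by decide +kernel)
theorem L42799 : W_5 (nat_lit 5) (nat_lit 0x2000140013000dc000000020000000000000000000000) (nat_lit 0x0) (nat_lit 0x28000000003001800040003000000000000000000) := T_5 (nat_lit 121) (nat_lit 120) (nat_lit 3) (nat_lit 1) (nat_lit 7) L42798 (by decide +kernel)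
theorem L42800 : W_5 (nat_lit 6) (nat_lit 0x2000140013000dc000000000000000000000000000000) (nat_lit 0x0) (nat_lit 0x28000000003001c00060003000000000000000000) := T_5 (nat_lit 89) (nat_lit 106) (nat_lit 7) (nat_lit 4) (nat_lit 5) L42799 (by decide +kernel)
theorem L42801 : W_5 (nat_lit 7) (nat_lit 0x20001400130009c000000000000000000000000000000) (nat_lit 0x0) (nat_lit 0x28000000063001c00060003000000000000000000) := T_5 (nat_lit 126) (nat_lit 125) (nat_lit 1) (nat_lit 8) (nat_lit 7) L42800 (by decide +kernel)
theorem L42802 : W_5 (nat_lit 2) (nat_lit 0x2000140013000de000900020000000000000000000000) (nat_lit 0x0) (nat_lit 0x40003000000000000000000) := D_5 (nat_lit 90) (nat_lit 73) (nat_lit 72) (nat_lit 5) (nat_lit 5) (nat_lit 4) (nat_lit 4) (nat_lit 5) (nat_lit 8) (by decide +kernel)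
theorem L42803 : W_5 (nat_lit 3) (nat_lit 0x2000140013000de000100020000000000000000000000) (nat_lit 0x0) (nat_lit 0x1800040003000000000000000000) := T_5 (nat_lit 107) (nat_lit 108) (nat_lit 2) (nat_lit 2) (nat_lit 7) L42802 (by decide +kernel)
theorem L42804 : W_5 (nat_lit 4) (nat_lit 0x2000140013000de000000020000000000000000000000) (nat_lit 0x0) (nat_lit 0x1980040003000000000000000000) := T_5 (nat_lit 104) (nat_lit 103) (nat_lit 0) (nat_lit 5) (nat_lit 7) L42803 (by decide +kernel)
theorem L42805 : W_5 (nat_lit 5) (nat_lit 0x2000140013000dc000000020000000000000000000000) (nat_lit 0x0) (nat_lit 0x3001980040003000000000000000000) := T_5 (nat_lit 121) (nat_lit 120) (nat_lit 3) (nat_lit 1) (nat_lit 7) L42804 (by decide +kernel)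
theorem L42806 : W_5 (nat_lit 6) (nat_lit 0x2000140013000dc000000000000000000000000000000) (nat_lit 0x0) (nat_lit 0x3001d80060003000000000000000000) := T_5 (nat_lit 89) (nat_lit 106) (nat_lit 7) (nat_lit 4) (nat_lit 5) L42805 (by decide +kernel)
theorem L42807 : W_5 (nat_lit 7) (nat_lit 0x20001400130009c000000000000000000000000000000) (nat_lit 0x0) (nat_lit 0x63001d80060003000000000000000000) := T_5 (nat_lit 126) (nat_lit 125) (nat_lit 1) (nat_lit 8) (nat_lit 7) L42806 (by decide +kernel)
theorem L42808 : W_5 (nat_lit 2) (nat_lit 0x2000140013400de000800000000000000000000000000) (nat_lit 0x0) (nat_lit 0x28000080000000000000000000000000000000000) := D_5 (nat_lit 159) (nat_lit 161) (nat_lit 139) (nat_lit 0) (nat_lit 8) (nat_lit 9) (nat_lit 3) (nat_lit 2) (nat_lit 8) (by decide +kernel)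
theorem L42809 : W_5 (nat_lit 3) (nat_lit 0x2000140013000de000800000000000000000000000000) (nat_lit 0x0) (nat_lit 0x280000e0000000000000000000000000000000000) := T_5 (nat_lit 138) (nat_lit 137) (nat_lit 1) (nat_lit 5) (nat_lit 7) L42808 (by decide +kernel)
theorem L42810 : W_5 (nat_lit 4) (nat_lit 0x2000140013000de000000000000000000000000000000) (nat_lit 0x0) (nat_lit 0x280000e0000001800000000000000000000000000) := T_5 (nat_lit 107) (nat_lit 108) (nat_lit 2) (nat_lit 2) (nat_lit 7) L42809 (by decide +kernel)
theorem L42811 : W_5 (nat_lit 5) (nat_lit 0x20001400130009e000000000000000000000000000000) (nat_lit 0x0) (nat_lit 0x280000e0060001800000000000000000000000000) := T_5 (nat_lit 126) (nat_lit 125) (nat_lit 1) (nat_lit 8) (nat_lit 7) L42810 (by decide +kernel)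
theorem L42812 : W_5 (nat_lit 6) (nat_lit 0x20001400130009c000000000000000000000000000000) (nat_lit 0x0) (nat_lit 0x280000e0063001800000000000000000000000000) := T_5 (nat_lit 121) (nat_lit 120) (nat_lit 3) (nat_lit 1) (nat_lit 7) L42811 (by decide +kernel)
theorem L42813 : W_5 (nat_lit 2) (nat_lit 0x20001400130009e000800020000000000000000000000) (nat_lit 0x0) (nat_lit 0x40003000000000000000000) := D_5 (nat_lit 90) (nat_lit 73) (nat_lit 72) (nat_lit 5) (nat_lit 5) (nat_lit 4) (nat_lit 4) (nat_lit 5) (nat_lit 8) (by decide +kernel)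
theorem L42814 : W_5 (nat_lit 3) (nat_lit 0x20001400130009e000000020000000000000000000000) (nat_lit 0x0) (nat_lit 0x1800040003000000000000000000) := T_5 (nat_lit 107) (nat_lit 108) (nat_lit 2) (nat_lit 2) (nat_lit 7) L42813 (by decide +kernel)
theorem L42815 : W_5 (nat_lit 4) (nat_lit 0x20001400130009e000000000000000000000000000000) (nat_lit 0x0) (nat_lit 0x1c00060003000000000000000000) := T_5 (nat_lit 89) (nat_lit 106) (nat_lit 7) (nat_lit 4) (nat_lit 5) L42814 (by decide +kernel)
theorem L42816 : W_5 (nat_lit 5) (nat_lit 0x20001400130009c000000000000000000000000000000) (nat_lit 0x0) (nat_lit 0x3001c00060003000000000000000000) := T_5 (nat_lit 121) (nat_lit 120) (nat_lit 3) (nat_lit 1) (nat_lit 7) L42815 (by decide +kernel)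
theorem L42817 : W_5 (nat_lit 2) (nat_lit 0x2000340013800bc000200020000000000000000000000) (nat_lit 0x0) (nat_lit 0x10001800000000000000000) := D_5 (nat_lit 88) (nat_lit 71) (nat_lit 72) (nat_lit 7) (nat_lit 3) (nat_lit 4) (nat_lit 6) (nat_lit 3) (nat_lit 8) (by decide +kernel)
theorem L42818 : W_5 (nat_lit 3) (nat_lit 0x2000340013000bc000200020000000000000000000000) (nat_lit 0x0) (nat_lit 0xc0000000000010001800000000000000000) := T_5 (nat_lit 139) (nat_lit 138) (nat_lit 2) (nat_lit 2) (nat_lit 8) L42817 (by decide +kernel)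
theorem L42819 : W_5 (nat_lit 4) (nat_lit 0x2000340013000bc000000020000000000000000000000) (nat_lit 0x0) (nat_lit 0xc0000000300010001800000000000000000) := T_5 (nat_lit 105) (nat_lit 104) (nat_lit 0) (nat_lit 6) (nat_lit 7) L42818 (by decide +kernel)
theorem L42820 : W_5 (nat_lit 5) (nat_lit 0x2000140013000bc000000020000000000000000000000) (nat_lit 0x0) (nat_lit 0x280000c0000000300010001800000000000000000) := T_5 (nat_lit 161) (nat_lit 159) (nat_lit 0) (nat_lit 8) (nat_lit 9) L42819 (by decide +kernel)
theorem L42821 : W_5 (nat_lit 6) (nat_lit 0x20001400130009c000000020000000000000000000000) (nat_lit 0x0) (nat_lit 0x280000c0060000300010001800000000000000000) := T_5 (nat_lit 125) (nat_lit 126) (nat_lit 1) (nat_lit 8) (nat_lit 7) L42820 (by decide +kernel)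
theorem L42822 : W_5 (nat_lit 7) (nat_lit 0x20001400130009c000000000000000000000000000000) (nat_lit 0x0) (nat_lit 0x280000c0060000700030001800000000000000000) := T_5 (nat_lit 89) (nat_lit 106) (nat_lit 7) (nat_lit 4) (nat_lit 5) L42821 (by decide +kernel)
theorem L42823 : W_5 (nat_lit 9) (nat_lit 0x200014001300098000000000000000000000000000000) (nat_lit 0x0) (nat_lit 0x280000e0067001f80070003800000000000000000) := Q_5 (nat_lit 122) (C_5 L42795 (C_5 L42801 (C_5 L42807 (C_5 L42812 (C_5 L42816 (C_5 L42822 N_5)))))) (by decide +kernel)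
theorem L42824 : W_5 (nat_lit 10) (nat_lit 0x200010001300098000000000000000000000000000000) (nat_lit 0x0) (nat_lit 0x100008002c0000e0067001f80070003800000000000000000) := Q_5 (nat_lit 158) (C_5 L42786 (C_5 L42788 (C_5 L42823 N_5))) (by decide +kernel)
theorem L42825 : W_5 (nat_lit 2) (nat_lit 0x2000140013000d8002c00100002000000000000000000) (nat_lit 0x0) (nat_lit 0x28000800000000000000000000000000000000000) := D_5 (nat_lit 161) (nat_lit 159) (nat_lit 143) (nat_lit 0) (nat_lit 8) (nat_lit 9) (nat_lit 7) (nat_lit 7) (nat_lit 5) (by decide +kernel)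
theorem L42826 : W_5 (nat_lit 3) (nat_lit 0x2000140013000d8002c00000002000000000000000000) (nat_lit 0x0) (nat_lit 0x28000800000000000100008000000000000000000) := T_5 (nat_lit 92) (nat_lit 75) (nat_lit 7) (nat_lit 7) (nat_lit 4) L42825 (by decide +kernel)
theorem L42827 : W_5 (nat_lit 4) (nat_lit 0x2000100013000d8002c00000002000000000000000000) (nat_lit 0x0) (nat_lit 0x8002c000800000000000100008000000000000000000) := T_5 (nat_lit 158) (nat_lit 175) (nat_lit 4) (nat_lit 5) (nat_lit 10) L42826 (by decide +kernel)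
theorem L42828 : W_5 (nat_lit 5) (nat_lit 0x2000100013000d8002c00000000000000000000000000) (nat_lit 0x0) (nat_lit 0x8002c00080000000000014000a000000000000000000) := T_5 (nat_lit 73) (nat_lit 90) (nat_lit 5) (nat_lit 5) (nat_lit 4) L42827 (by decide +kernel)
theorem L42829 : W_5 (nat_lit 6) (nat_lit 0x2000100013000d8000c00000000000000000000000000) (nat_lit 0x0) (nat_lit 0x8002c00080000000300014000a000000000000000000) := T_5 (nat_lit 109) (nat_lit 108) (nat_lit 3) (nat_lit 4) (nat_lit 6) L42828 (by decide +kernel)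
theorem L42830 : W_5 (nat_lit 7) (nat_lit 0x200010001300098000c00000000000000000000000000) (nat_lit 0x0) (nat_lit 0x8002c00080006000300014000a000000000000000000) := T_5 (nat_lit 126) (nat_lit 125) (nat_lit 1) (nat_lit 8) (nat_lit 7) L42829 (by decide +kernel)
theorem L42831 : W_5 (nat_lit 2) (nat_lit 0x2000340013000d8000d001c0000000000000000000000) (nat_lit 0x0) (nat_lit 0x800000002000000008000000000000000000) := D_5 (nat_lit 109) (nat_lit 75) (nat_lit 143) (nat_lit 7) (nat_lit 7) (nat_lit 4) (nat_lit 7) (nat_lit 7) (nat_lit 5) (by decide +kernel)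
theorem L42832 : W_5 (nat_lit 3) (nat_lit 0x2000140013000d8000d001c0000000000000000000000) (nat_lit 0x0) (nat_lit 0x28000800000002000000008000000000000000000) := T_5 (nat_lit 161) (nat_lit 159) (nat_lit 0) (nat_lit 8) (nat_lit 9) L42831 (by decide +kernel)
theorem L42833 : W_5 (nat_lit 4) (nat_lit 0x2000140013000d8000d000c0000000000000000000000) (nat_lit 0x0) (nat_lit 0x28000800000002000300008000000000000000000) := T_5 (nat_lit 92) (nat_lit 93) (nat_lit 1) (nat_lit 8) (nat_lit 5) L42832 (by decide +kernel)
theorem L42834 : W_5 (nat_lit 5) (nat_lit 0x2000140013000d8000c000c0000000000000000000000) (nat_lit 0x0) (nat_lit 0x28000800000002300300008000000000000000000) := T_5 (nat_lit 104) (nat_lit 105) (nat_lit 2) (nat_lit 2) (nat_lit 6) L42833 (by decide +kernel)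
theorem L42835 : W_5 (nat_lit 6) (nat_lit 0x2000140013000d8000c00040000000000000000000000) (nat_lit 0x0) (nat_lit 0x2800080000000230038000c000000000000000000) := T_5 (nat_lit 91) (nat_lit 74) (nat_lit 6) (nat_lit 5) (nat_lit 8) L42834 (by decide +kernel)
theorem L42836 : W_5 (nat_lit 7) (nat_lit 0x2000100013000d8000c00040000000000000000000000) (nat_lit 0x0) (nat_lit 0x8002c00080000000230038000c000000000000000000) := T_5 (nat_lit 158) (nat_lit 175) (nat_lit 4) (nat_lit 5) (nat_lit 10) L42835 (by decide +kernel)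
theorem L42837 : W_5 (nat_lit 8) (nat_lit 0x2000100013000d8000c00000000000000000000000000) (nat_lit 0x0) (nat_lit 0x8002c0008000000023003c000e000000000000000000) := T_5 (nat_lit 90) (nat_lit 73) (nat_lit 5) (nat_lit 5) (nat_lit 4) L42836 (by decide +kernel)
theorem L42838 : W_5 (nat_lit 9) (nat_lit 0x200010001300098000c00000000000000000000000000) (nat_lit 0x0) (nat_lit 0x8002c0008000600023003c000e000000000000000000) := T_5 (nat_lit 126) (nat_lit 125) (nat_lit 1) (nat_lit 8) (nat_lit 7) L42837 (by decide +kernel)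
theorem L42839 : W_5 (nat_lit 10) (nat_lit 0x200010001300098000400000000000000000000000000) (nat_lit 0x0) (nat_lit 0x8002c000800066003b003c000e000000000000000000) := Q_5 (nat_lit 107) (C_5 L42693 (C_5 L42771 (C_5 L42689 (C_5 L42830 (C_5 L42838 (C_5 L42683 N_5)))))) (by decide +kernel)
theorem L42840 : W_5 (nat_lit 2) (nat_lit 0x2000100013800de0005000f0008000000000000000000) (nat_lit 0x0) (nat_lit 0x3000100000000000000000000000) := D_5 (nat_lit 109) (nat_lit 108) (nat_lit 92) (nat_lit 3) (nat_lit 3) (nat_lit 5) (nat_lit 7) (nat_lit 7) (nat_lit 4) (by decide +kernel)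
theorem L42841 : W_5 (nat_lit 3) (nat_lit 0x2000100013800de0005000f0000000000000000000000) (nat_lit 0x0) (nat_lit 0x300010000c000000000000000000) := T_5 (nat_lit 75) (nat_lit 74) (nat_lit 2) (nat_lit 3) (nat_lit 5) L42840 (by decide +kernel)
theorem L42842 : W_5 (nat_lit 4) (nat_lit 0x2000100013800de000500070000000000000000000000) (nat_lit 0x0) (nat_lit 0x320018000c000000000000000000) := T_5 (nat_lit 91) (nat_lit 105) (nat_lit 1) (nat_lit 6) (nat_lit 5) L42841 (by decide +kernel)
theorem L42843 : W_5 (nat_lit 5) (nat_lit 0x2000100013800de000500060000000000000000000000) (nat_lit 0x0) (nat_lit 0x320019000c800000000000000000) := T_5 (nat_lit 88) (nat_lit 71) (nat_lit 4) (nat_lit 4) (nat_lit 8) L42842 (by decide +kernel)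
theorem L42844 : W_5 (nat_lit 6) (nat_lit 0x2000100013000de000500060000000000000000000000) (nat_lit 0x0) (nat_lit 0x100008000000320019000c800000000000000000) := T_5 (nat_lit 139) (nat_lit 156) (nat_lit 5) (nat_lit 4) (nat_lit 5) L42843 (by decide +kernel)
theorem L42845 : W_5 (nat_lit 7) (nat_lit 0x2000100013000de000500020000000000000000000000) (nat_lit 0x0) (nat_lit 0x10000800000032001d000e800000000000000000) := T_5 (nat_lit 90) (nat_lit 73) (nat_lit 6) (nat_lit 4) (nat_lit 8) L42844 (by decide +kernel)
theorem L42846 : W_5 (nat_lit 8) (nat_lit 0x2000100013000de000400020000000000000000000000) (nat_lit 0x0) (nat_lit 0x10000800000033801d000e800000000000000000) := T_5 (nat_lit 104) (nat_lit 103) (nat_lit 0) (nat_lit 5) (nat_lit 7) L42845 (by decide +kernel)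
theorem L42847 : W_5 (nat_lit 9) (nat_lit 0x2000100013000de000400000000000000000000000000) (nat_lit 0x0) (nat_lit 0x10000800000033801f000f800000000000000000) := T_5 (nat_lit 89) (nat_lit 72) (nat_lit 7) (nat_lit 4) (nat_lit 4) L42846 (by decide +kernel)
theorem L42848 : W_5 (nat_lit 10) (nat_lit 0x2000100013000dc000400000000000000000000000000) (nat_lit 0x0) (nat_lit 0x10000800030033801f000f800000000000000000) := T_5 (nat_lit 121) (nat_lit 120) (nat_lit 3) (nat_lit 1) (nat_lit 7) L42847 (by decide +kernel)
theorem L42849 : W_5 (nat_lit 11) (nat_lit 0x20001000130009c000400000000000000000000000000) (nat_lit 0x0) (nat_lit 0x10000800630033801f000f800000000000000000) := T_5 (nat_lit 126) (nat_lit 125) (nat_lit 1) (nat_lit 8) (nat_lit 7) L42848 (by decide +kernel)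
theorem L42850 : W_5 (nat_lit 2) (nat_lit 0x2000100013000be000400000001000000000000000000) (nat_lit 0x0) (nat_lit 0x3800000000000000000000000000) := D_5 (nat_lit 108) (nat_lit 109) (nat_lit 107) (nat_lit 2) (nat_lit 3) (nat_lit 7) (nat_lit 2) (nat_lit 2) (nat_lit 7) (by decide +kernel)
theorem L42851 : W_5 (nat_lit 3) (nat_lit 0x2000100013000bc000400000001000000000000000000) (nat_lit 0x0) (nat_lit 0x3003800000000000000000000000000) := T_5 (nat_lit 121) (nat_lit 120) (nat_lit 3) (nat_lit 1) (nat_lit 7) L42850 (by decide +kernel)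
theorem L42852 : W_5 (nat_lit 4) (nat_lit 0x20001000130009c000400000001000000000000000000) (nat_lit 0x0) (nat_lit 0x63003800000000000000000000000000) := T_5 (nat_lit 125) (nat_lit 126) (nat_lit 1) (nat_lit 8) (nat_lit 7) L42851 (by decide +kernel)
theorem L42853 : W_5 (nat_lit 5) (nat_lit 0x20001000130009c000400000000000000000000000000) (nat_lit 0x0) (nat_lit 0x63003800020001000000000000000000) := T_5 (nat_lit 72) (nat_lit 89) (nat_lit 7) (nat_lit 4) (nat_lit 4) L42852 (by decide +kernel)
theorem L42854 : W_5 (nat_lit 2) (nat_lit 0x20001000130009e000f00000001000000000000000000) (nat_lit 0x0) (nat_lit 0xc0002000000000000000000) := D_5 (nat_lit 90) (nat_lit 73) (nat_lit 91) (nat_lit 5) (nat_lit 5) (nat_lit 4) (nat_lit 2) (nat_lit 2) (nat_lit 6) (by decide +kernel)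
theorem L42855 : W_5 (nat_lit 3) (nat_lit 0x20001000130009e000d00000001000000000000000000) (nat_lit 0x0) (nat_lit 0x200002000c0002000000000000000000) := T_5 (nat_lit 105) (nat_lit 125) (nat_lit 3) (nat_lit 2) (nat_lit 6) L42854 (by decide +kernel)
theorem L42856 : W_5 (nat_lit 4) (nat_lit 0x20001000130009e000500000001000000000000000000) (nat_lit 0x0) (nat_lit 0x20001a000c0002000000000000000000) := T_5 (nat_lit 107) (nat_lit 108) (nat_lit 2) (nat_lit 2) (nat_lit 7) L42855 (by decide +kernel)
theorem L42857 : W_5 (nat_lit 5) (nat_lit 0x20001000130009e000400000001000000000000000000) (nat_lit 0x0) (nat_lit 0x20001b800c0002000000000000000000) := T_5 (nat_lit 104) (nat_lit 103) (nat_lit 0) (nat_lit 5) (nat_lit 7) L42856 (by decide +kernel)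
theorem L42858 : W_5 (nat_lit 6) (nat_lit 0x20001000130009c000400000001000000000000000000) (nat_lit 0x0) (nat_lit 0x23001b800c0002000000000000000000) := T_5 (nat_lit 121) (nat_lit 120) (nat_lit 3) (nat_lit 1) (nat_lit 7) L42857 (by decide +kernel)
theorem L42859 : W_5 (nat_lit 7) (nat_lit 0x20001000130009c000400000000000000000000000000) (nat_lit 0x0) (nat_lit 0x23001b800e0003000000000000000000) := T_5 (nat_lit 72) (nat_lit 89) (nat_lit 7) (nat_lit 4) (nat_lit 4) L42858 (by decide +kernel)
theorem L42860 : W_5 (nat_lit 2) (nat_lit 0x2000100013000bc001600090001000000000000000000) (nat_lit 0x0) (nat_lit 0x800108000000000000000000000) := D_5 (nat_lit 107) (nat_lit 92) (nat_lit 87) (nat_lit 2) (nat_lit 3) (nat_lit 6) (nat_lit 0) (nat_lit 6) (nat_lit 6) (by decide +kernel)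
theorem L42861 : W_5 (nat_lit 3) (nat_lit 0x2000100013000bc001600080001000000000000000000) (nat_lit 0x0) (nat_lit 0x800118000800000000000000000) := T_5 (nat_lit 88) (nat_lit 71) (nat_lit 7) (nat_lit 3) (nat_lit 4) L42860 (by decide +kernel)
theorem L42862 : W_5 (nat_lit 4) (nat_lit 0x2000100013000bc001600000001000000000000000000) (nat_lit 0x0) (nat_lit 0x800198004800000000000000000) := T_5 (nat_lit 91) (nat_lit 74) (nat_lit 5) (nat_lit 6) (nat_lit 4) L42861 (by decide +kernel)
theorem L42863 : W_5 (nat_lit 5) (nat_lit 0x2000100013000bc000600000001000000000000000000) (nat_lit 0x0) (nat_lit 0x3800198004800000000000000000) := T_5 (nat_lit 108) (nat_lit 109) (nat_lit 2) (nat_lit 3) (nat_lit 7) L42862 (by decide +kernel)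
theorem L42864 : W_5 (nat_lit 6) (nat_lit 0x2000100013000bc000400000001000000000000000000) (nat_lit 0x0) (nat_lit 0x3b00198004800000000000000000) := T_5 (nat_lit 105) (nat_lit 104) (nat_lit 0) (nat_lit 6) (nat_lit 7) L42863 (by decide +kernel)
theorem L42865 : W_5 (nat_lit 7) (nat_lit 0x2000100013000bc000400000000000000000000000000) (nat_lit 0x0) (nat_lit 0x3b001b8005800000000000000000) := T_5 (nat_lit 72) (nat_lit 89) (nat_lit 7) (nat_lit 4) (nat_lit 4) L42864 (by decide +kernel)
theorem L42866 : W_5 (nat_lit 8) (nat_lit 0x20001000130009c000400000000000000000000000000) (nat_lit 0x0) (nat_lit 0x60003b001b8005800000000000000000) := T_5 (nat_lit 125) (nat_lit 126) (nat_lit 1) (nat_lit 8) (nat_lit 7) L42865 (by decide +kernel)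
theorem L42867 : W_5 (nat_lit 2) (nat_lit 0x2000100013800de0005000f0000000000000000000000) (nat_lit 0x0) (nat_lit 0x80000000c000000000000000000) := D_5 (nat_lit 74) (nat_lit 107) (nat_lit 75) (nat_lit 6) (nat_lit 5) (nat_lit 8) (nat_lit 2) (nat_lit 3) (nat_lit 5) (by decide +kernel)
theorem L42868 : W_5 (nat_lit 3) (nat_lit 0x2000100013800de000500070000000000000000000000) (nat_lit 0x0) (nat_lit 0xa0008000c000000000000000000) := T_5 (nat_lit 91) (nat_lit 105) (nat_lit 1) (nat_lit 6) (nat_lit 5) L42867 (by decide +kernel)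
theorem L42869 : W_5 (nat_lit 4) (nat_lit 0x2000100013800de000500060000000000000000000000) (nat_lit 0x0) (nat_lit 0xa0009000c800000000000000000) := T_5 (nat_lit 88) (nat_lit 71) (nat_lit 4) (nat_lit 4) (nat_lit 8) L42868 (by decide +kernel)
theorem L42870 : W_5 (nat_lit 5) (nat_lit 0x2000100013000de000500060000000000000000000000) (nat_lit 0x0) (nat_lit 0x1000080000000a0009000c800000000000000000) := T_5 (nat_lit 139) (nat_lit 156) (nat_lit 5) (nat_lit 4) (nat_lit 5) L42869 (by decide +kernel)
theorem L42871 : W_5 (nat_lit 6) (nat_lit 0x2000100013000de000500020000000000000000000000) (nat_lit 0x0) (nat_lit 0x1000080000000a000d000e800000000000000000) := T_5 (nat_lit 90) (nat_lit 73) (nat_lit 6) (nat_lit 4) (nat_lit 8) L42870 (by decide +kernel)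
theorem L42872 : W_5 (nat_lit 7) (nat_lit 0x2000100013000de000400020000000000000000000000) (nat_lit 0x0) (nat_lit 0x1000080000000b800d000e800000000000000000) := T_5 (nat_lit 104) (nat_lit 103) (nat_lit 0) (nat_lit 5) (nat_lit 7) L42871 (by decide +kernel)
theorem L42873 : W_5 (nat_lit 8) (nat_lit 0x2000100013000de000400000000000000000000000000) (nat_lit 0x0) (nat_lit 0x1000080000000b800f000f800000000000000000) := T_5 (nat_lit 89) (nat_lit 72) (nat_lit 7) (nat_lit 4) (nat_lit 4) L42872 (by decide +kernel)
theorem L42874 : W_5 (nat_lit 9) (nat_lit 0x2000100013000dc000400000000000000000000000000) (nat_lit 0x0) (nat_lit 0x1000080003000b800f000f800000000000000000) := T_5 (nat_lit 121) (nat_lit 120) (nat_lit 3) (nat_lit 1) (nat_lit 7) L42873 (by decide +kernel)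
theorem L42875 : W_5 (nat_lit 10) (nat_lit 0x20001000130009c000400000000000000000000000000) (nat_lit 0x0) (nat_lit 0x1000080063000b800f000f800000000000000000) := T_5 (nat_lit 126) (nat_lit 125) (nat_lit 1) (nat_lit 8) (nat_lit 7) L42874 (by decide +kernel)
theorem L42876 : W_5 (nat_lit 2) (nat_lit 0x20001000130009e000d00040001000000000000000000) (nat_lit 0x0) (nat_lit 0x200080004000000000000000000) := D_5 (nat_lit 91) (nat_lit 74) (nat_lit 105) (nat_lit 6) (nat_lit 5) (nat_lit 8) (nat_lit 2) (nat_lit 2) (nat_lit 6) (by decide +kernel)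
theorem L42877 : W_5 (nat_lit 3) (nat_lit 0x20001000130009e000c00040001000000000000000000) (nat_lit 0x0) (nat_lit 0x380080004000000000000000000) := T_5 (nat_lit 104) (nat_lit 103) (nat_lit 0) (nat_lit 5) (nat_lit 7) L42876 (by decide +kernel)
theorem L42878 : W_5 (nat_lit 4) (nat_lit 0x20001000130009e000c00000001000000000000000000) (nat_lit 0x0) (nat_lit 0x3800c0006000000000000000000) := T_5 (nat_lit 90) (nat_lit 73) (nat_lit 5) (nat_lit 5) (nat_lit 4) L42877 (by decide +kernel)
theorem L42879 : W_5 (nat_lit 5) (nat_lit 0x20001000130009e000400000001000000000000000000) (nat_lit 0x0) (nat_lit 0x1b800c0006000000000000000000) := T_5 (nat_lit 107) (nat_lit 108) (nat_lit 2) (nat_lit 2) (nat_lit 7) L42878 (by decide +kernel)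
theorem L42880 : W_5 (nat_lit 6) (nat_lit 0x20001000130009e000400000000000000000000000000) (nat_lit 0x0) (nat_lit 0x1b800e0007000000000000000000) := T_5 (nat_lit 72) (nat_lit 89) (nat_lit 7) (nat_lit 4) (nat_lit 4) L42879 (by decide +kernel)
theorem L42881 : W_5 (nat_lit 7) (nat_lit 0x20001000130009c000400000000000000000000000000) (nat_lit 0x0) (nat_lit 0x3001b800e0007000000000000000000) := T_5 (nat_lit 121) (nat_lit 120) (nat_lit 3) (nat_lit 1) (nat_lit 7) L42880 (by decide +kernel)
theorem L42882 : W_5 (nat_lit 12) (nat_lit 0x200010001300098000400000000000000000000000000) (nat_lit 0x0) (nat_lit 0x1000080067003b801f800f800000000000000000) := Q_5 (nat_lit 122) (C_5 L42849 (C_5 L42853 (C_5 L42779 (C_5 L42859 (C_5 L42866 (C_5 L42875 (C_5 L42881 N_5))))))) (by decide +kernel)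
theorem L42883 : W_5 (nat_lit 13) (nat_lit 0x200010001300098000000000000000000000000000000) (nat_lit 0x0) (nat_lit 0x8002d000880067003f803f800f800000000000000000) := Q_5 (nat_lit 106) (C_5 L42839 (C_5 L42671 (C_5 L42882 N_5))) (by decide +kernel)
theorem L42884 : W_5 (nat_lit 2) (nat_lit 0x2000100013800bd001000080000000000000000000000) (nat_lit 0x0) (nat_lit 0x80004000000000000800000000000000000000000000) := D_5 (nat_lit 158) (nat_lit 175) (nat_lit 107) (nat_lit 6) (nat_lit 5) (nat_lit 10) (nat_lit 6) (nat_lit 5) (nat_lit 9) (by decide +kernel)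
theorem L42885 : W_5 (nat_lit 3) (nat_lit 0x2000100013800bd001000000000000000000000000000) (nat_lit 0x0) (nat_lit 0x80004000000000000800080004000000000000000000) := T_5 (nat_lit 91) (nat_lit 74) (nat_lit 5) (nat_lit 6) (nat_lit 4) L42884 (by decide +kernel)
theorem L42886 : W_5 (nat_lit 4) (nat_lit 0x2000100013800bd000000000000000000000000000000) (nat_lit 0x0) (nat_lit 0x80004000000000003800080004000000000000000000) := T_5 (nat_lit 108) (nat_lit 109) (nat_lit 2) (nat_lit 3) (nat_lit 7) L42885 (by decide +kernel)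
theorem L42887 : W_5 (nat_lit 5) (nat_lit 0x2000100013800bc000000000000000000000000000000) (nat_lit 0x0) (nat_lit 0x80004000000003003800080004000000000000000000) := T_5 (nat_lit 120) (nat_lit 121) (nat_lit 3) (nat_lit 1) (nat_lit 7) L42886 (by decide +kernel)
theorem L42888 : W_5 (nat_lit 6) (nat_lit 0x20001000138009c000000000000000000000000000000) (nat_lit 0x0) (nat_lit 0x80004000000063003800080004000000000000000000) := T_5 (nat_lit 125) (nat_lit 126) (nat_lit 1) (nat_lit 7) (nat_lit 7) L42887 (by decide +kernel)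
theorem L42889 : W_5 (nat_lit 2) (nat_lit 0x2000140013800bc001200000000800000000000000000) (nat_lit 0x0) (nat_lit 0x800080004000000000000000000) := D_5 (nat_lit 91) (nat_lit 74) (nat_lit 107) (nat_lit 5) (nat_lit 6) (nat_lit 4) (nat_lit 6) (nat_lit 5) (nat_lit 9) (by decide +kernel)
theorem L42890 : W_5 (nat_lit 3) (nat_lit 0x2000100013800bc001200000000800000000000000000) (nat_lit 0x0) (nat_lit 0x80004000000000000800080004000000000000000000) := T_5 (nat_lit 158) (nat_lit 175) (nat_lit 6) (nat_lit 5) (nat_lit 10) L42889 (by decide +kernel)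
theorem L42891 : W_5 (nat_lit 4) (nat_lit 0x2000100013800bc001200000000000000000000000000) (nat_lit 0x0) (nat_lit 0x80004000000000000800090004800000000000000000) := T_5 (nat_lit 71) (nat_lit 88) (nat_lit 7) (nat_lit 3) (nat_lit 4) L42890 (by decide +kernel)
theorem L42892 : W_5 (nat_lit 5) (nat_lit 0x2000100013800bc000200000000000000000000000000) (nat_lit 0x0) (nat_lit 0x80004000000000003800090004800000000000000000) := T_5 (nat_lit 108) (nat_lit 109) (nat_lit 2) (nat_lit 3) (nat_lit 7) L42891 (by decide +kernel)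
theorem L42893 : W_5 (nat_lit 6) (nat_lit 0x2000100013800bc000000000000000000000000000000) (nat_lit 0x0) (nat_lit 0x80004000000000003b00090004800000000000000000) := T_5 (nat_lit 105) (nat_lit 104) (nat_lit 0) (nat_lit 6) (nat_lit 7) L42892 (by decide +kernel)
theorem L42894 : W_5 (nat_lit 7) (nat_lit 0x20001000138009c000000000000000000000000000000) (nat_lit 0x0) (nat_lit 0x80004000000060003b00090004800000000000000000) := T_5 (nat_lit 125) (nat_lit 126) (nat_lit 1) (nat_lit 7) (nat_lit 7) L42893 (by decide +kernel)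
theorem L42895 : W_5 (nat_lit 8) (nat_lit 0x200010001380098000000000000000000000000000000) (nat_lit 0x0) (nat_lit 0xa0005000000067003b800d8006c00000000000000000) := Q_5 (nat_lit 122) (C_5 L42606 (C_5 L42888 (C_5 L42610 (C_5 L42894 N_5)))) (by decide +kernel)
theorem L42896 : W_5 (nat_lit 2) (nat_lit 0x2000108013c009e000100000000000000000000000000) (nat_lit 0x0) (nat_lit 0x20001000000000000000008000000000000000000000) := D_5 (nat_lit 156) (nat_lit 173) (nat_lit 87) (nat_lit 7) (nat_lit 2) (nat_lit 6) (nat_lit 7) (nat_lit 2) (nat_lit 5) (by decide +kernel)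
theorem L42897 : W_5 (nat_lit 3) (nat_lit 0x2000108013c009e000000000000000000000000000000) (nat_lit 0x0) (nat_lit 0x20001000000000000180008000000000000000000000) := T_5 (nat_lit 104) (nat_lit 103) (nat_lit 0) (nat_lit 5) (nat_lit 7) L42896 (by decide +kernel)
theorem L42898 : W_5 (nat_lit 4) (nat_lit 0x2000100013c009e000000000000000000000000000000) (nat_lit 0x0) (nat_lit 0x20001c00000000000180008000000000000000000000) := T_5 (nat_lit 155) (nat_lit 154) (nat_lit 1) (nat_lit 5) (nat_lit 8) L42897 (by decide +kernel)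
theorem L42899 : W_5 (nat_lit 5) (nat_lit 0x2000100013c009c000000000000000000000000000000) (nat_lit 0x0) (nat_lit 0x20001c00000003000180008000000000000000000000) := T_5 (nat_lit 121) (nat_lit 120) (nat_lit 3) (nat_lit 1) (nat_lit 7) L42898 (by decide +kernel)
theorem L42900 : W_5 (nat_lit 6) (nat_lit 0x20001000138009c000000000000000000000000000000) (nat_lit 0x0) (nat_lit 0x20001c00060003000180008000000000000000000000) := T_5 (nat_lit 138) (nat_lit 137) (nat_lit 2) (nat_lit 1) (nat_lit 8) L42899 (by decide +kernel)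
theorem L42901 : W_5 (nat_lit 2) (nat_lit 0x10002000148013c009c000200000000000000000000000000) (nat_lit 0x0) (nat_lit 0x200010001000000000000000000000000000000000000000) := D_5 (nat_lit 172) (nat_lit 189) (nat_lit 156) (nat_lit 6) (nat_lit 2) (nat_lit 11) (nat_lit 5) (nat_lit 3) (nat_lit 6) (by decide +kernel)
theorem L42902 : W_5 (nat_lit 3) (nat_lit 0x10002000148013c009c000000000000000000000000000000) (nat_lit 0x0) (nat_lit 0x200010001000000000000200010000000000000000000000) := T_5 (nat_lit 105) (nat_lit 88) (nat_lit 5) (nat_lit 3) (nat_lit 5) L42901 (by decide +kernel)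
theorem L42903 : W_5 (nat_lit 4) (nat_lit 0x10002000140013c009c000000000000000000000000000000) (nat_lit 0x0) (nat_lit 0x200010001c00000000000200010000000000000000000000) := T_5 (nat_lit 155) (nat_lit 154) (nat_lit 1) (nat_lit 5) (nat_lit 8) L42902 (by decide +kernel)
theorem L42904 : W_5 (nat_lit 5) (nat_lit 0x2000140013c009c000000000000000000000000000000) (nat_lit 0x0) (nat_lit 0x1200090001c00000000000200010000000000000000000000) := T_5 (nat_lit 192) (nat_lit 175) (nat_lit 4) (nat_lit 5) (nat_lit 11) L42903 (by decide +kernel)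
theorem L42905 : W_5 (nat_lit 6) (nat_lit 0x2000100013c009c000000000000000000000000000000) (nat_lit 0x0) (nat_lit 0x120009000dc00000000000200010000000000000000000000) := T_5 (nat_lit 158) (nat_lit 159) (nat_lit 3) (nat_lit 2) (nat_lit 8) L42904 (by decide +kernel)
theorem L42906 : W_5 (nat_lit 7) (nat_lit 0x20001000138009c000000000000000000000000000000) (nat_lit 0x0) (nat_lit 0x120009000dc00060000000200010000000000000000000000) := T_5 (nat_lit 138) (nat_lit 137) (nat_lit 2) (nat_lit 1) (nat_lit 8) L42905 (by decide +kernel)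
theorem L42907 : W_5 (nat_lit 2) (nat_lit 0x2000100013a009e0009000e0000400000000000000000) (nat_lit 0x0) (nat_lit 0x200010000800000000000000000) := D_5 (nat_lit 88) (nat_lit 71) (nat_lit 105) (nat_lit 0) (nat_lit 6) (nat_lit 5) (nat_lit 1) (nat_lit 6) (nat_lit 5) (by decide +kernel)
theorem L42908 : W_5 (nat_lit 3) (nat_lit 0x2000100013a009e000900060000400000000000000000) (nat_lit 0x0) (nat_lit 0x200090004800000000000000000) := T_5 (nat_lit 91) (nat_lit 74) (nat_lit 6) (nat_lit 5) (nat_lit 8) L42907 (by decide +kernel)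
theorem L42909 : W_5 (nat_lit 4) (nat_lit 0x2000100013a009e000900040000400000000000000000) (nat_lit 0x0) (nat_lit 0x2000b0005800000000000000000) := T_5 (nat_lit 89) (nat_lit 72) (nat_lit 4) (nat_lit 5) (nat_lit 8) L42908 (by decide +kernel)
theorem L42910 : W_5 (nat_lit 5) (nat_lit 0x2000100013a009e000900000000400000000000000000) (nat_lit 0x0) (nat_lit 0x2000f0007800000000000000000) := T_5 (nat_lit 90) (nat_lit 73) (nat_lit 5) (nat_lit 5) (nat_lit 4) L42909 (by decide +kernel)
theorem L42911 : W_5 (nat_lit 6) (nat_lit 0x2000100013a009e000900000000000000000000000000) (nat_lit 0x0) (nat_lit 0x2000f8007c00000000000000000) := T_5 (nat_lit 70) (nat_lit 87) (nat_lit 7) (nat_lit 2) (nat_lit 4) L42910 (by decide +kernel)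
theorem L42912 : W_5 (nat_lit 7) (nat_lit 0x2000100013a009e000100000000000000000000000000) (nat_lit 0x0) (nat_lit 0x1a000f8007c00000000000000000) := T_5 (nat_lit 107) (nat_lit 108) (nat_lit 2) (nat_lit 2) (nat_lit 7) L42911 (by decide +kernel)
theorem L42913 : W_5 (nat_lit 8) (nat_lit 0x2000100013a009e000000000000000000000000000000) (nat_lit 0x0) (nat_lit 0x1b800f8007c00000000000000000) := T_5 (nat_lit 104) (nat_lit 103) (nat_lit 0) (nat_lit 5) (nat_lit 7) L42912 (by decide +kernel)
theorem L42914 : W_5 (nat_lit 9) (nat_lit 0x2000100013a009c000000000000000000000000000000) (nat_lit 0x0) (nat_lit 0x3001b800f8007c00000000000000000) := T_5 (nat_lit 121) (nat_lit 120) (nat_lit 3) (nat_lit 1) (nat_lit 7) L42913 (by decide +kernel)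
theorem L42915 : W_5 (nat_lit 10) (nat_lit 0x20001000138009c000000000000000000000000000000) (nat_lit 0x0) (nat_lit 0x60003001b800f8007c00000000000000000) := T_5 (nat_lit 137) (nat_lit 138) (nat_lit 2) (nat_lit 1) (nat_lit 8) L42914 (by decide +kernel)
theorem L42916 : W_5 (nat_lit 11) (nat_lit 0x200010001380098000000000000000000000000000000) (nat_lit 0x0) (nat_lit 0x12000b000dc00060007001b800f8007c00000000000000000) := Q_5 (nat_lit 122) (C_5 L42644 (C_5 L42900 (C_5 L42610 (C_5 L42906 (C_5 L42915 N_5))))) (by decide +kernel)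
theorem L42917 : W_5 (nat_lit 12) (nat_lit 0x200010001300098000000000000000000000000000000) (nat_lit 0x0) (nat_lit 0x12000b000dc000e0067003b800f8007c00000000000000000) := Q_5 (nat_lit 139) (C_5 L42639 (C_5 L42895 (C_5 L42916 N_5))) (by decide +kernel)
theorem L42918 : W_5 (nat_lit 2) (nat_lit 0x2000100013000d8000c001c0001000000000000000000) (nat_lit 0x0) (nat_lit 0x3000000008000000000000000000) := D_5 (nat_lit 109) (nat_lit 108) (nat_lit 75) (nat_lit 3) (nat_lit 4) (nat_lit 6) (nat_lit 7) (nat_lit 7) (nat_lit 4) (by decide +kernel)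
theorem L42919 : W_5 (nat_lit 3) (nat_lit 0x2000100013000d8000c000c0001000000000000000000) (nat_lit 0x0) (nat_lit 0x3000300008000000000000000000) := T_5 (nat_lit 92) (nat_lit 93) (nat_lit 1) (nat_lit 8) (nat_lit 5) L42918 (by decide +kernel)
theorem L42920 : W_5 (nat_lit 4) (nat_lit 0x2000100013000d8000c00040001000000000000000000) (nat_lit 0x0) (nat_lit 0x300038000c000000000000000000) := T_5 (nat_lit 91) (nat_lit 74) (nat_lit 6) (nat_lit 5) (nat_lit 8) L42919 (by decide +kernel)
theorem L42921 : W_5 (nat_lit 5) (nat_lit 0x200010001300098000c00040001000000000000000000) (nat_lit 0x0) (nat_lit 0x6000300038000c000000000000000000) := T_5 (nat_lit 126) (nat_lit 125) (nat_lit 1) (nat_lit 8) (nat_lit 7) L42920 (by decide +kernel)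
theorem L42922 : W_5 (nat_lit 6) (nat_lit 0x200010001300098000c00000001000000000000000000) (nat_lit 0x0) (nat_lit 0x600030003c000e000000000000000000) := T_5 (nat_lit 90) (nat_lit 73) (nat_lit 5) (nat_lit 5) (nat_lit 4) L42921 (by decide +kernel)
theorem L42923 : W_5 (nat_lit 7) (nat_lit 0x200010001300098000c00000000000000000000000000) (nat_lit 0x0) (nat_lit 0x600030003e000f000000000000000000) := T_5 (nat_lit 72) (nat_lit 89) (nat_lit 7) (nat_lit 4) (nat_lit 4) L42922 (by decide +kernel)
theorem L42924 : W_5 (nat_lit 6) (nat_lit 0x200010001300098000c00000000000000000000000000) (nat_lit 0x0) (nat_lit 0x600013003c0006000000000000000000) := T_5 (nat_lit 126) (nat_lit 125) (nat_lit 1) (nat_lit 8) (nat_lit 7) L42785 (by decide +kernel)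
theorem L42925 : W_5 (nat_lit 2) (nat_lit 0x200010001300098000e000c0001000000000000000000) (nat_lit 0x0) (nat_lit 0x1000300000000000000000000000) := D_5 (nat_lit 92) (nat_lit 93) (nat_lit 108) (nat_lit 1) (nat_lit 8) (nat_lit 5) (nat_lit 2) (nat_lit 3) (nat_lit 6) (by decide +kernel)
theorem L42926 : W_5 (nat_lit 3) (nat_lit 0x200010001300098000c000c0001000000000000000000) (nat_lit 0x0) (nat_lit 0x1300300000000000000000000000) := T_5 (nat_lit 105) (nat_lit 104) (nat_lit 2) (nat_lit 2) (nat_lit 6) L42925 (by decide +kernel)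
theorem L42927 : W_5 (nat_lit 4) (nat_lit 0x200010001300098000c00040001000000000000000000) (nat_lit 0x0) (nat_lit 0x1300380004000000000000000000) := T_5 (nat_lit 91) (nat_lit 74) (nat_lit 6) (nat_lit 5) (nat_lit 8) L42926 (by decide +kernel)
theorem L42928 : W_5 (nat_lit 5) (nat_lit 0x200010001300098000c00000001000000000000000000) (nat_lit 0x0) (nat_lit 0x13003c0006000000000000000000) := T_5 (nat_lit 90) (nat_lit 73) (nat_lit 5) (nat_lit 5) (nat_lit 4) L42927 (by decide +kernel)
theorem L42929 : W_5 (nat_lit 6) (nat_lit 0x200010001300098000c00000000000000000000000000) (nat_lit 0x0) (nat_lit 0x13003e0007000000000000000000) := T_5 (nat_lit 72) (nat_lit 89) (nat_lit 7) (nat_lit 4) (nat_lit 4) L42928 (by decide +kernel)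
theorem L42930 : W_5 (nat_lit 2) (nat_lit 0x2000100013000da001c00030002000000000000000000) (nat_lit 0x0) (nat_lit 0x20000c000000000000000000000) := D_5 (nat_lit 87) (nat_lit 86) (nat_lit 105) (nat_lit 3) (nat_lit 1) (nat_lit 5) (nat_lit 0) (nat_lit 6) (nat_lit 6) (by decide +kernel)
theorem L42931 : W_5 (nat_lit 3) (nat_lit 0x2000100013000da001c00020002000000000000000000) (nat_lit 0x0) (nat_lit 0x20001c000800000000000000000) := T_5 (nat_lit 88) (nat_lit 71) (nat_lit 4) (nat_lit 4) (nat_lit 8) L42930 (by decide +kernel)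
theorem L42932 : W_5 (nat_lit 4) (nat_lit 0x2000100013000da001c00000002000000000000000000) (nat_lit 0x0) (nat_lit 0x20003c001800000000000000000) := T_5 (nat_lit 89) (nat_lit 72) (nat_lit 7) (nat_lit 4) (nat_lit 4) L42931 (by decide +kernel)
theorem L42933 : W_5 (nat_lit 5) (nat_lit 0x2000100013000d8001c00000002000000000000000000) (nat_lit 0x0) (nat_lit 0x600020003c001800000000000000000) := T_5 (nat_lit 121) (nat_lit 122) (nat_lit 2) (nat_lit 2) (nat_lit 7) L42932 (by decide +kernel)
theorem L42934 : W_5 (nat_lit 6) (nat_lit 0x2000100013000d8000c00000002000000000000000000) (nat_lit 0x0) (nat_lit 0x600320003c001800000000000000000) := T_5 (nat_lit 108) (nat_lit 109) (nat_lit 3) (nat_lit 4) (nat_lit 6) L42933 (by decide +kernel)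
theorem L42935 : W_5 (nat_lit 7) (nat_lit 0x200010001300098000c00000002000000000000000000) (nat_lit 0x0) (nat_lit 0x6600320003c001800000000000000000) := T_5 (nat_lit 126) (nat_lit 125) (nat_lit 1) (nat_lit 8) (nat_lit 7) L42934 (by decide +kernel)
theorem L42936 : W_5 (nat_lit 8) (nat_lit 0x200010001300098000c00000000000000000000000000) (nat_lit 0x0) (nat_lit 0x6600320007c003800000000000000000) := T_5 (nat_lit 73) (nat_lit 90) (nat_lit 5) (nat_lit 5) (nat_lit 4) L42935 (by decide +kernel)
theorem L42937 : W_5 (nat_lit 2) (nat_lit 0x200010001300098000c000f4000000000000000000000) (nat_lit 0x0) (nat_lit 0x300100000000000000000000000) := D_5 (nat_lit 105) (nat_lit 104) (nat_lit 92) (nat_lit 2) (nat_lit 2) (nat_lit 6) (nat_lit 1) (nat_lit 7) (nat_lit 5) (by decide +kernel)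
theorem L42938 : W_5 (nat_lit 3) (nat_lit 0x200010001300098000c00074000000000000000000000) (nat_lit 0x0) (nat_lit 0x300180004000000000000000000) := T_5 (nat_lit 91) (nat_lit 74) (nat_lit 6) (nat_lit 5) (nat_lit 8) L42937 (by decide +kernel)
theorem L42939 : W_5 (nat_lit 4) (nat_lit 0x200010001300098000c00070000000000000000000000) (nat_lit 0x0) (nat_lit 0x30018c004000000000000000000) := T_5 (nat_lit 86) (nat_lit 87) (nat_lit 3) (nat_lit 1) (nat_lit 5) L42938 (by decide +kernel)
theorem L42940 : W_5 (nat_lit 5) (nat_lit 0x200010001300098000c00060000000000000000000000) (nat_lit 0x0) (nat_lit 0x30019c004800000000000000000) := T_5 (nat_lit 88) (nat_lit 71) (nat_lit 4) (nat_lit 4) (nat_lit 8) L42939 (by decide +kernel)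
theorem L42941 : W_5 (nat_lit 6) (nat_lit 0x200010001300098000c00020000000000000000000000) (nat_lit 0x0) (nat_lit 0x3001dc006800000000000000000) := T_5 (nat_lit 90) (nat_lit 73) (nat_lit 6) (nat_lit 4) (nat_lit 8) L42940 (by decide +kernel)
theorem L42942 : W_5 (nat_lit 7) (nat_lit 0x200010001300098000c00000000000000000000000000) (nat_lit 0x0) (nat_lit 0x3001fc007800000000000000000) := T_5 (nat_lit 89) (nat_lit 72) (nat_lit 7) (nat_lit 4) (nat_lit 4) L42941 (by decide +kernel)
theorem L42943 : W_5 (nat_lit 2) (nat_lit 0x2000100013000da001c00030000000000000000000000) (nat_lit 0x0) (nat_lit 0x20000c000000000000000000000) := D_5 (nat_lit 87) (nat_lit 86) (nat_lit 105) (nat_lit 3) (nat_lit 1) (nat_lit 5) (nat_lit 0) (nat_lit 6) (nat_lit 6) (by decide +kernel)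
theorem L42944 : W_5 (nat_lit 3) (nat_lit 0x2000100013000da001c00020000000000000000000000) (nat_lit 0x0) (nat_lit 0x20001c000800000000000000000) := T_5 (nat_lit 88) (nat_lit 71) (nat_lit 4) (nat_lit 4) (nat_lit 8) L42943 (by decide +kernel)
theorem L42945 : W_5 (nat_lit 4) (nat_lit 0x2000100013000d8001c00020000000000000000000000) (nat_lit 0x0) (nat_lit 0x600020001c000800000000000000000) := T_5 (nat_lit 121) (nat_lit 122) (nat_lit 2) (nat_lit 2) (nat_lit 7) L42944 (by decide +kernel)
theorem L42946 : W_5 (nat_lit 5) (nat_lit 0x2000100013000d8000c00020000000000000000000000) (nat_lit 0x0) (nat_lit 0x600320001c000800000000000000000) := T_5 (nat_lit 108) (nat_lit 109) (nat_lit 3) (nat_lit 4) (nat_lit 6) L42945 (by decide +kernel)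
theorem L42947 : W_5 (nat_lit 6) (nat_lit 0x2000100013000d8000c00000000000000000000000000) (nat_lit 0x0) (nat_lit 0x600320003c001800000000000000000) := T_5 (nat_lit 89) (nat_lit 72) (nat_lit 7) (nat_lit 4) (nat_lit 4) L42946 (by decide +kernel)
theorem L42948 : W_5 (nat_lit 7) (nat_lit 0x200010001300098000c00000000000000000000000000) (nat_lit 0x0) (nat_lit 0x6600320003c001800000000000000000) := T_5 (nat_lit 126) (nat_lit 125) (nat_lit 1) (nat_lit 8) (nat_lit 7) L42947 (by decide +kernel)
theorem L42949 : W_5 (nat_lit 9) (nat_lit 0x200010001300098000400000000000000000000000000) (nat_lit 0x0) (nat_lit 0x66003b003fc00f800000000000000000) := Q_5 (nat_lit 107) (C_5 L42923 (C_5 L42924 (C_5 L42929 (C_5 L42936 (C_5 L42942 (C_5 L42948 N_5)))))) (by decide +kernel)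
theorem L42950 : W_5 (nat_lit 11) (nat_lit 0x200010001300098000000000000000000000000000000) (nat_lit 0x0) (nat_lit 0x8002c000800066003f003fc00f800000000000000000) := Q_5 (nat_lit 106) (C_5 L42839 (C_5 L42671 (C_5 L42949 N_5))) (by decide +kernel)
theorem L42951 : W_5 (nat_lit 2) (nat_lit 0x2000140013800d8000c00000000000000000000000000) (nat_lit 0x0) (nat_lit 0x3000080000000000000000000000) := D_5 (nat_lit 108) (nat_lit 109) (nat_lit 91) (nat_lit 3) (nat_lit 4) (nat_lit 6) (nat_lit 6) (nat_lit 5) (nat_lit 9) (by decide +kernel)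
theorem L42952 : W_5 (nat_lit 3) (nat_lit 0x2000140013800d8000800000000000000000000000000) (nat_lit 0x0) (nat_lit 0x34000a0000000000000000000000) := T_5 (nat_lit 106) (nat_lit 89) (nat_lit 7) (nat_lit 4) (nat_lit 5) L42951 (by decide +kernel)
theorem L42953 : W_5 (nat_lit 4) (nat_lit 0x200014001380098000800000000000000000000000000) (nat_lit 0x0) (nat_lit 0x600034000a0000000000000000000000) := T_5 (nat_lit 126) (nat_lit 125) (nat_lit 1) (nat_lit 7) (nat_lit 7) L42952 (by decide +kernel)
theorem L42954 : W_5 (nat_lit 2) (nat_lit 0x200014001380098000800040000000000000000000000) (nat_lit 0x0) (nat_lit 0x400020001000000000000000000) := D_5 (nat_lit 89) (nat_lit 106) (nat_lit 72) (nat_lit 7) (nat_lit 4) (nat_lit 5) (nat_lit 4) (nat_lit 5) (nat_lit 8) (by decide +kernel)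
theorem L42955 : W_5 (nat_lit 3) (nat_lit 0x200014001380098000800000000000000000000000000) (nat_lit 0x0) (nat_lit 0x400060003000000000000000000) := T_5 (nat_lit 90) (nat_lit 73) (nat_lit 5) (nat_lit 5) (nat_lit 4) L42954 (by decide +kernel)
theorem L42956 : W_5 (nat_lit 2) (nat_lit 0x200034001380098000800040000000000000000000000) (nat_lit 0x0) (nat_lit 0x1000080004000000000000000000) := D_5 (nat_lit 91) (nat_lit 108) (nat_lit 74) (nat_lit 6) (nat_lit 5) (nat_lit 9) (nat_lit 6) (nat_lit 5) (nat_lit 8) (by decide +kernel)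
theorem L42957 : W_5 (nat_lit 3) (nat_lit 0x200034001380098000800000000000000000000000000) (nat_lit 0x0) (nat_lit 0x10000c0006000000000000000000) := T_5 (nat_lit 90) (nat_lit 73) (nat_lit 5) (nat_lit 5) (nat_lit 4) L42956 (by decide +kernel)
theorem L42958 : W_5 (nat_lit 4) (nat_lit 0x200014001380098000800000000000000000000000000) (nat_lit 0x0) (nat_lit 0x280000000000010000c0006000000000000000000) := T_5 (nat_lit 161) (nat_lit 159) (nat_lit 0) (nat_lit 8) (nat_lit 9) L42957 (by decide +kernel)
theorem L42959 : W_5 (nat_lit 5) (nat_lit 0x200014001380098000000000000000000000000000000) (nat_lit 0x0) (nat_lit 0x28000000060003c000e0007000000000000000000) := Q_5 (nat_lit 107) (C_5 L42953 (C_5 L42955 (C_5 L42958 N_5))) (by decide +kernel)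
theorem L42960 : W_5 (nat_lit 2) (nat_lit 0x200014001380098000000000000000000000000000000) (nat_lit 0x0) (nat_lit 0x28000040000000000000000000000000000000000) := D_5 (nat_lit 159) (nat_lit 161) (nat_lit 138) (nat_lit 0) (nat_lit 8) (nat_lit 9) (nat_lit 3) (nat_lit 2) (nat_lit 8) (by decide +kernel)
theorem L42961 : W_5 (nat_lit 2) (nat_lit 0x200014001380098000000000000000000000000000000) (nat_lit 0x0) (nat_lit 0x60020000000000000000000000000000000) := D_5 (nat_lit 138) (nat_lit 125) (nat_lit 137) (nat_lit 2) (nat_lit 2) (nat_lit 8) (nat_lit 2) (nat_lit 1) (nat_lit 8) (by decide +kernel)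
theorem L42962 : W_5 (nat_lit 6) (nat_lit 0x200014001300098000000000000000000000000000000) (nat_lit 0x0) (nat_lit 0x280000e0060003c000e0007000000000000000000) := Q_5 (nat_lit 139) (C_5 L42959 (C_5 L42960 (C_5 L42961 N_5))) (by decide +kernel)
theorem L42963 : W_5 (nat_lit 7) (nat_lit 0x200010001300098000000000000000000000000000000) (nat_lit 0x0) (nat_lit 0x100008002c0000e0060003c000e0007000000000000000000) := Q_5 (nat_lit 158) (C_5 L42788 (C_5 L42962 (C_5 L42786 N_5))) (by decide +kernel)
theorem L42964 : W_5 (nat_lit 2) (nat_lit 0x200010001380098000000020000000000000000000000) (nat_lit 0x0) (nat_lit 0x5000000000000400000000000000000000000000) := D_5 (nat_lit 106) (nat_lit 156) (nat_lit 158) (nat_lit 5) (nat_lit 4) (nat_lit 5) (nat_lit 7) (nat_lit 4) (nat_lit 5) (by decide +kernel)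
theorem L42965 : W_5 (nat_lit 2) (nat_lit 0x2000100013800bc000200020000000000000000000000) (nat_lit 0x0) (nat_lit 0x10001800000000000000000) := D_5 (nat_lit 88) (nat_lit 71) (nat_lit 72) (nat_lit 7) (nat_lit 3) (nat_lit 4) (nat_lit 6) (nat_lit 3) (nat_lit 8) (by decide +kernel)
theorem L42966 : W_5 (nat_lit 3) (nat_lit 0x2000100013800bc000000020000000000000000000000) (nat_lit 0x0) (nat_lit 0x300010001800000000000000000) := T_5 (nat_lit 105) (nat_lit 104) (nat_lit 0) (nat_lit 6) (nat_lit 7) L42965 (by decide +kernel)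
theorem L42967 : W_5 (nat_lit 2) (nat_lit 0x20001000138009e000300000000000000000000000000) (nat_lit 0x0) (nat_lit 0x1000000000000000008000400000000000000000) := D_5 (nat_lit 87) (nat_lit 70) (nat_lit 156) (nat_lit 7) (nat_lit 2) (nat_lit 4) (nat_lit 4) (nat_lit 3) (nat_lit 9) (by decide +kernel)
theorem L42968 : W_5 (nat_lit 3) (nat_lit 0x20001000138009e000100000000000000000000000000) (nat_lit 0x0) (nat_lit 0x1000000020000200008000400000000000000000) := T_5 (nat_lit 105) (nat_lit 125) (nat_lit 0) (nat_lit 6) (nat_lit 7) L42967 (by decide +kernel)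
theorem L42969 : W_5 (nat_lit 4) (nat_lit 0x20001000138009e000000000000000000000000000000) (nat_lit 0x0) (nat_lit 0x1000000020000380008000400000000000000000) := T_5 (nat_lit 104) (nat_lit 103) (nat_lit 0) (nat_lit 5) (nat_lit 7) L42968 (by decide +kernel)
theorem L42970 : W_5 (nat_lit 5) (nat_lit 0x20001000138009c000000000000000000000000000000) (nat_lit 0x0) (nat_lit 0x1000000023000380008000400000000000000000) := T_5 (nat_lit 121) (nat_lit 120) (nat_lit 3) (nat_lit 1) (nat_lit 7) L42969 (by decide +kernel)
theorem L42971 : W_5 (nat_lit 2) (nat_lit 0x2000140013800bd001200020000000000000000000000) (nat_lit 0x0) (nat_lit 0x10001800000000000000000) := D_5 (nat_lit 88) (nat_lit 71) (nat_lit 72) (nat_lit 7) (nat_lit 3) (nat_lit 4) (nat_lit 6) (nat_lit 3) (nat_lit 8) (by decide +kernel)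
theorem L42972 : W_5 (nat_lit 3) (nat_lit 0x2000140013800bd001000020000000000000000000000) (nat_lit 0x0) (nat_lit 0x300010001800000000000000000) := T_5 (nat_lit 105) (nat_lit 104) (nat_lit 0) (nat_lit 6) (nat_lit 7) L42971 (by decide +kernel)
theorem L42973 : W_5 (nat_lit 4) (nat_lit 0x2000140013000bd001000020000000000000000000000) (nat_lit 0x0) (nat_lit 0xc0000000300010001800000000000000000) := T_5 (nat_lit 139) (nat_lit 138) (nat_lit 2) (nat_lit 2) (nat_lit 8) L42972 (by decide +kernel)
theorem L42974 : W_5 (nat_lit 5) (nat_lit 0x2000140013000bd000000020000000000000000000000) (nat_lit 0x0) (nat_lit 0xc0000003300010001800000000000000000) := T_5 (nat_lit 108) (nat_lit 109) (nat_lit 2) (nat_lit 3) (nat_lit 7) L42973 (by decide +kernel)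
theorem L42975 : W_5 (nat_lit 6) (nat_lit 0x20001400130009d000000020000000000000000000000) (nat_lit 0x0) (nat_lit 0xc0060003300010001800000000000000000) := T_5 (nat_lit 125) (nat_lit 126) (nat_lit 1) (nat_lit 8) (nat_lit 7) L42974 (by decide +kernel)
theorem L42976 : W_5 (nat_lit 7) (nat_lit 0x20001400130009d000000000000000000000000000000) (nat_lit 0x0) (nat_lit 0xc0060003700030001800000000000000000) := T_5 (nat_lit 89) (nat_lit 106) (nat_lit 7) (nat_lit 4) (nat_lit 5) L42975 (by decide +kernel)
theorem L42977 : W_5 (nat_lit 8) (nat_lit 0x20001400130009c000000000000000000000000000000) (nat_lit 0x0) (nat_lit 0xc0063003700030001800000000000000000) := T_5 (nat_lit 120) (nat_lit 121) (nat_lit 3) (nat_lit 1) (nat_lit 7) L42976 (by decide +kernel)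
theorem L42978 : W_5 (nat_lit 2) (nat_lit 0x2000340013000bc001200030007000000000000000000) (nat_lit 0x0) (nat_lit 0x4c000000000000000000000) := D_5 (nat_lit 87) (nat_lit 86) (nat_lit 90) (nat_lit 2) (nat_lit 1) (nat_lit 5) (nat_lit 2) (nat_lit 2) (nat_lit 5) (by decide +kernel)
theorem L42979 : W_5 (nat_lit 3) (nat_lit 0x2000340013000bc001200030005000000000000000000) (nat_lit 0x0) (nat_lit 0x4c00a000000000000000000) := T_5 (nat_lit 73) (nat_lit 75) (nat_lit 1) (nat_lit 7) (nat_lit 4) L42978 (by decide +kernel)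
theorem L42980 : W_5 (nat_lit 4) (nat_lit 0x2000340013000bc001200030004000000000000000000) (nat_lit 0x0) (nat_lit 0x8000000000004c00b000000000000000000) := T_5 (nat_lit 72) (nat_lit 139) (nat_lit 6) (nat_lit 3) (nat_lit 8) L42979 (by decide +kernel)
theorem L42981 : W_5 (nat_lit 5) (nat_lit 0x2000340013000bc001200010004000000000000000000) (nat_lit 0x0) (nat_lit 0x8000000040006c00b000000000000000000) := T_5 (nat_lit 89) (nat_lit 106) (nat_lit 7) (nat_lit 4) (nat_lit 5) L42980 (by decide +kernel)
theorem L42982 : W_5 (nat_lit 6) (nat_lit 0x2000340013000bc001200010000000000000000000000) (nat_lit 0x0) (nat_lit 0x800000004000ec00f000000000000000000) := T_5 (nat_lit 74) (nat_lit 91) (nat_lit 5) (nat_lit 6) (nat_lit 4) L42981 (by decide +kernel)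
theorem L42983 : W_5 (nat_lit 7) (nat_lit 0x2000340013000bc001200000000000000000000000000) (nat_lit 0x0) (nat_lit 0x800000004000fc00f800000000000000000) := T_5 (nat_lit 88) (nat_lit 71) (nat_lit 7) (nat_lit 3) (nat_lit 4) L42982 (by decide +kernel)
theorem L42984 : W_5 (nat_lit 8) (nat_lit 0x2000340013000bc000200000000000000000000000000) (nat_lit 0x0) (nat_lit 0x800000034000fc00f800000000000000000) := T_5 (nat_lit 108) (nat_lit 109) (nat_lit 2) (nat_lit 3) (nat_lit 7) L42983 (by decide +kernel)
theorem L42985 : W_5 (nat_lit 9) (nat_lit 0x2000340013000bc000000000000000000000000000000) (nat_lit 0x0) (nat_lit 0x800000037000fc00f800000000000000000) := T_5 (nat_lit 105) (nat_lit 104) (nat_lit 0) (nat_lit 6) (nat_lit 7) L42984 (by decide +kernel)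
theorem L42986 : W_5 (nat_lit 10) (nat_lit 0x2000140013000bc000000000000000000000000000000) (nat_lit 0x0) (nat_lit 0x280000800000037000fc00f800000000000000000) := T_5 (nat_lit 161) (nat_lit 159) (nat_lit 0) (nat_lit 8) (nat_lit 9) L42985 (by decide +kernel)
theorem L42987 : W_5 (nat_lit 11) (nat_lit 0x20001400130009c000000000000000000000000000000) (nat_lit 0x0) (nat_lit 0x280000800600037000fc00f800000000000000000) := T_5 (nat_lit 125) (nat_lit 126) (nat_lit 1) (nat_lit 8) (nat_lit 7) L42986 (by decide +kernel)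
theorem L42988 : W_5 (nat_lit 2) (nat_lit 0x20003400134009e000000000000000000000000000000) (nat_lit 0x0) (nat_lit 0x80060000000000000000000000000000000) := D_5 (nat_lit 125) (nat_lit 126) (nat_lit 139) (nat_lit 1) (nat_lit 8) (nat_lit 7) (nat_lit 2) (nat_lit 2) (nat_lit 8) (by decide +kernel)
theorem L42989 : W_5 (nat_lit 3) (nat_lit 0x20003400130009e000000000000000000000000000000) (nat_lit 0x0) (nat_lit 0xe0060000000000000000000000000000000) := T_5 (nat_lit 138) (nat_lit 137) (nat_lit 1) (nat_lit 5) (nat_lit 7) L42988 (by decide +kernel)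
theorem L42990 : W_5 (nat_lit 4) (nat_lit 0x20001400130009e000000000000000000000000000000) (nat_lit 0x0) (nat_lit 0x280000e0060000000000000000000000000000000) := T_5 (nat_lit 161) (nat_lit 159) (nat_lit 0) (nat_lit 8) (nat_lit 9) L42989 (by decide +kernel)
theorem L42991 : W_5 (nat_lit 5) (nat_lit 0x20001400130009c000000000000000000000000000000) (nat_lit 0x0) (nat_lit 0x280000e0063000000000000000000000000000000) := T_5 (nat_lit 121) (nat_lit 120) (nat_lit 3) (nat_lit 1) (nat_lit 7) L42990 (by decide +kernel)
theorem L42992 : W_5 (nat_lit 2) (nat_lit 0x2000340013000be000000020000000000000000000000) (nat_lit 0x0) (nat_lit 0x380000000000000000000000000) := D_5 (nat_lit 104) (nat_lit 103) (nat_lit 105) (nat_lit 0) (nat_lit 5) (nat_lit 7) (nat_lit 0) (nat_lit 6) (nat_lit 7) (by decide +kernel)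
theorem L42993 : W_5 (nat_lit 3) (nat_lit 0x20003400130009e000000020000000000000000000000) (nat_lit 0x0) (nat_lit 0x60000380000000000000000000000000) := T_5 (nat_lit 125) (nat_lit 126) (nat_lit 1) (nat_lit 8) (nat_lit 7) L42992 (by decide +kernel)
theorem L42994 : W_5 (nat_lit 4) (nat_lit 0x20003400130009c000000020000000000000000000000) (nat_lit 0x0) (nat_lit 0x63000380000000000000000000000000) := T_5 (nat_lit 121) (nat_lit 120) (nat_lit 3) (nat_lit 1) (nat_lit 7) L42993 (by decide +kernel)
theorem L42995 : W_5 (nat_lit 5) (nat_lit 0x20003400130009c000000000000000000000000000000) (nat_lit 0x0) (nat_lit 0x63000780020000000000000000000000) := T_5 (nat_lit 89) (nat_lit 106) (nat_lit 7) (nat_lit 4) (nat_lit 5) L42994 (by decide +kernel)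
theorem L42996 : W_5 (nat_lit 6) (nat_lit 0x20001400130009c000000000000000000000000000000) (nat_lit 0x0) (nat_lit 0x28000000063000780020000000000000000000000) := T_5 (nat_lit 161) (nat_lit 159) (nat_lit 0) (nat_lit 8) (nat_lit 9) L42995 (by decide +kernel)
theorem L42997 : W_5 (nat_lit 2) (nat_lit 0x20003400134009e000100020000000000000000000000) (nat_lit 0x0) (nat_lit 0x80020000200000000000000000000000000) := D_5 (nat_lit 125) (nat_lit 105) (nat_lit 139) (nat_lit 0) (nat_lit 6) (nat_lit 7) (nat_lit 2) (nat_lit 2) (nat_lit 8) (by decide +kernel)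
theorem L42998 : W_5 (nat_lit 3) (nat_lit 0x20003400130009e000100020000000000000000000000) (nat_lit 0x0) (nat_lit 0xe0020000200000000000000000000000000) := T_5 (nat_lit 138) (nat_lit 137) (nat_lit 1) (nat_lit 5) (nat_lit 7) L42997 (by decide +kernel)
theorem L42999 : W_5 (nat_lit 4) (nat_lit 0x20003400130009e000000020000000000000000000000) (nat_lit 0x0) (nat_lit 0xe0020000380000000000000000000000000) := T_5 (nat_lit 104) (nat_lit 103) (nat_lit 0) (nat_lit 5) (nat_lit 7) L42998 (by decide +kernel)
theorem L43000 : W_5 (nat_lit 5) (nat_lit 0x20003400130009c000000020000000000000000000000) (nat_lit 0x0) (nat_lit 0xe0023000380000000000000000000000000) := T_5 (nat_lit 121) (nat_lit 120) (nat_lit 3) (nat_lit 1) (nat_lit 7) L42999 (by decide +kernel)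
theorem L43001 : W_5 (nat_lit 6) (nat_lit 0x20003400130009c000000000000000000000000000000) (nat_lit 0x0) (nat_lit 0xe0023000780020000000000000000000000) := T_5 (nat_lit 89) (nat_lit 106) (nat_lit 7) (nat_lit 4) (nat_lit 5) L43000 (by decide +kernel)
theorem L43002 : W_5 (nat_lit 7) (nat_lit 0x20001400130009c000000000000000000000000000000) (nat_lit 0x0) (nat_lit 0x280000e0023000780020000000000000000000000) := T_5 (nat_lit 161) (nat_lit 159) (nat_lit 0) (nat_lit 8) (nat_lit 9) L43001 (by decide +kernel)
theorem L43003 : W_5 (nat_lit 2) (nat_lit 0x20001c00130009e000000000000000000000000000000) (nat_lit 0x0) (nat_lit 0xe0000000000000000000000000000000000) := D_5 (nat_lit 138) (nat_lit 137) (nat_lit 139) (nat_lit 1) (nat_lit 5) (nat_lit 7) (nat_lit 3) (nat_lit 2) (nat_lit 8) (by decide +kernel)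
theorem L43004 : W_5 (nat_lit 3) (nat_lit 0x20001400130009e000000000000000000000000000000) (nat_lit 0x0) (nat_lit 0x280000e0000000000000000000000000000000000) := T_5 (nat_lit 159) (nat_lit 161) (nat_lit 0) (nat_lit 8) (nat_lit 9) L43003 (by decide +kernel)
theorem L43005 : W_5 (nat_lit 4) (nat_lit 0x20001400130009c000000000000000000000000000000) (nat_lit 0x0) (nat_lit 0x280000e0003000000000000000000000000000000) := T_5 (nat_lit 121) (nat_lit 120) (nat_lit 3) (nat_lit 1) (nat_lit 7) L43004 (by decide +kernel)
theorem L43006 : W_5 (nat_lit 12) (nat_lit 0x200014001300098000000000000000000000000000000) (nat_lit 0x0) (nat_lit 0x280000e00670037800fc00f800000000000000000) := Q_5 (nat_lit 122) (C_5 L42822 (C_5 L42977 (C_5 L42987 (C_5 L42991 (C_5 L42996 (C_5 L43002 (C_5 L43005 N_5))))))) (by decide +kernel)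
theorem L43007 : W_5 (nat_lit 13) (nat_lit 0x200010001300098000000000000000000000000000000) (nat_lit 0x0) (nat_lit 0x100008002c0000e00670037800fc00f800000000000000000) := Q_5 (nat_lit 158) (C_5 L42788 (C_5 L43006 (C_5 L42786 N_5))) (by decide +kernel)
theorem L43008 : W_5 (nat_lit 2) (nat_lit 0x4002000110013800bc001200038004000000000000000000) (nat_lit 0x0) (nat_lit 0x800040002000000000000000000) := D_5 (nat_lit 90) (nat_lit 73) (nat_lit 107) (nat_lit 2) (nat_lit 2) (nat_lit 5) (nat_lit 3) (nat_lit 2) (nat_lit 5) (by decide +kernel)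
theorem L43009 : W_5 (nat_lit 3) (nat_lit 0x4002000110013800bc001200030004000000000000000000) (nat_lit 0x0) (nat_lit 0x800048002400000000000000000) := T_5 (nat_lit 87) (nat_lit 70) (nat_lit 4) (nat_lit 3) (nat_lit 8) L43008 (by decide +kernel)
theorem L43010 : W_5 (nat_lit 4) (nat_lit 0x2000110013800bc001200030004000000000000000000) (nat_lit 0x0) (nat_lit 0x400020000000000000000800048002400000000000000000) := T_5 (nat_lit 190) (nat_lit 173) (nat_lit 6) (nat_lit 3) (nat_lit 11) L43009 (by decide +kernel)
theorem L43011 : W_5 (nat_lit 5) (nat_lit 0x2000100013800bc001200030004000000000000000000) (nat_lit 0x0) (nat_lit 0x400020001000000000000c00048002400000000000000000) := T_5 (nat_lit 156) (nat_lit 106) (nat_lit 6) (nat_lit 3) (nat_lit 9) L43010 (by decide +kernel)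
theorem L43012 : W_5 (nat_lit 6) (nat_lit 0x2000100013800bc001200010004000000000000000000) (nat_lit 0x0) (nat_lit 0x400020001000000000000c00068003400000000000000000) := T_5 (nat_lit 89) (nat_lit 72) (nat_lit 6) (nat_lit 3) (nat_lit 8) L43011 (by decide +kernel)
theorem L43013 : W_5 (nat_lit 7) (nat_lit 0x2000100013800bc001200010000000000000000000000) (nat_lit 0x0) (nat_lit 0x400020001000000000000c000e8007400000000000000000) := T_5 (nat_lit 74) (nat_lit 91) (nat_lit 5) (nat_lit 6) (nat_lit 4) L43012 (by decide +kernel)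
theorem L43014 : W_5 (nat_lit 8) (nat_lit 0x2000100013800bc001200000000000000000000000000) (nat_lit 0x0) (nat_lit 0x400020001000000000000c000f8007c00000000000000000) := T_5 (nat_lit 88) (nat_lit 71) (nat_lit 7) (nat_lit 3) (nat_lit 4) L43013 (by decide +kernel)
theorem L43015 : W_5 (nat_lit 9) (nat_lit 0x2000100013800bc000200000000000000000000000000) (nat_lit 0x0) (nat_lit 0x400020001000000000003c000f8007c00000000000000000) := T_5 (nat_lit 108) (nat_lit 109) (nat_lit 2) (nat_lit 3) (nat_lit 7) L43014 (by decide +kernel)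
theorem L43016 : W_5 (nat_lit 10) (nat_lit 0x2000100013800bc000000000000000000000000000000) (nat_lit 0x0) (nat_lit 0x400020001000000000003f000f8007c00000000000000000) := T_5 (nat_lit 105) (nat_lit 104) (nat_lit 0) (nat_lit 6) (nat_lit 7) L43015 (by decide +kernel)
theorem L43017 : W_5 (nat_lit 11) (nat_lit 0x20001000138009c000000000000000000000000000000) (nat_lit 0x0) (nat_lit 0x400020001000000060003f000f8007c00000000000000000) := T_5 (nat_lit 125) (nat_lit 126) (nat_lit 1) (nat_lit 7) (nat_lit 7) L43016 (by decide +kernel)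
theorem L43018 : W_5 (nat_lit 2) (nat_lit 0x2000100013800de0009000e0000400000000000000000) (nat_lit 0x0) (nat_lit 0x20001000000000000400000000000000000000000000) := D_5 (nat_lit 156) (nat_lit 106) (nat_lit 173) (nat_lit 5) (nat_lit 4) (nat_lit 5) (nat_lit 4) (nat_lit 3) (nat_lit 10) (by decide +kernel)
theorem L43019 : W_5 (nat_lit 3) (nat_lit 0x2000100013800de0009000c0000400000000000000000) (nat_lit 0x0) (nat_lit 0x20001000000000000400020001000000000000000000) := T_5 (nat_lit 89) (nat_lit 72) (nat_lit 4) (nat_lit 5) (nat_lit 8) L43018 (by decide +kernel)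
theorem L43020 : W_5 (nat_lit 4) (nat_lit 0x2000100013800de000900040000400000000000000000) (nat_lit 0x0) (nat_lit 0x200010000000000004000a0005000000000000000000) := T_5 (nat_lit 91) (nat_lit 74) (nat_lit 6) (nat_lit 5) (nat_lit 8) L43019 (by decide +kernel)
theorem L43021 : W_5 (nat_lit 5) (nat_lit 0x2000100013800de000900040000000000000000000000) (nat_lit 0x0) (nat_lit 0x200010000000000004000a8005400000000000000000) := T_5 (nat_lit 70) (nat_lit 87) (nat_lit 7) (nat_lit 2) (nat_lit 4) L43020 (by decide +kernel)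
theorem L43022 : W_5 (nat_lit 6) (nat_lit 0x2000100013800de000900000000000000000000000000) (nat_lit 0x0) (nat_lit 0x200010000000000004000e8007400000000000000000) := T_5 (nat_lit 90) (nat_lit 73) (nat_lit 5) (nat_lit 5) (nat_lit 4) L43021 (by decide +kernel)
theorem L43023 : W_5 (nat_lit 7) (nat_lit 0x2000100013800de000800000000000000000000000000) (nat_lit 0x0) (nat_lit 0x200010000000000005800e8007400000000000000000) := T_5 (nat_lit 104) (nat_lit 103) (nat_lit 0) (nat_lit 5) (nat_lit 7) L43022 (by decide +kernel)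
theorem L43024 : W_5 (nat_lit 8) (nat_lit 0x2000100013800de000000000000000000000000000000) (nat_lit 0x0) (nat_lit 0x20001000000000001d800e8007400000000000000000) := T_5 (nat_lit 107) (nat_lit 108) (nat_lit 2) (nat_lit 2) (nat_lit 7) L43023 (by decide +kernel)
theorem L43025 : W_5 (nat_lit 9) (nat_lit 0x2000100013800dc000000000000000000000000000000) (nat_lit 0x0) (nat_lit 0x20001000000003001d800e8007400000000000000000) := T_5 (nat_lit 121) (nat_lit 120) (nat_lit 3) (nat_lit 1) (nat_lit 7) L43024 (by decide +kernel)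
theorem L43026 : W_5 (nat_lit 10) (nat_lit 0x20001000138009c000000000000000000000000000000) (nat_lit 0x0) (nat_lit 0x20001000000063001d800e8007400000000000000000) := T_5 (nat_lit 126) (nat_lit 125) (nat_lit 1) (nat_lit 7) (nat_lit 7) L43025 (by decide +kernel)
theorem L43027 : W_5 (nat_lit 2) (nat_lit 0x2000100013800de000c000e0000000000000000000000) (nat_lit 0x0) (nat_lit 0x200300000000000000000000000) := D_5 (nat_lit 92) (nat_lit 93) (nat_lit 105) (nat_lit 1) (nat_lit 8) (nat_lit 5) (nat_lit 1) (nat_lit 7) (nat_lit 5) (by decide +kernel)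
theorem L43028 : W_5 (nat_lit 3) (nat_lit 0x2000100013800de000c00060000000000000000000000) (nat_lit 0x0) (nat_lit 0x200380004000000000000000000) := T_5 (nat_lit 91) (nat_lit 74) (nat_lit 6) (nat_lit 5) (nat_lit 8) L43027 (by decide +kernel)
theorem L43029 : W_5 (nat_lit 4) (nat_lit 0x2000100013800de000800060000000000000000000000) (nat_lit 0x0) (nat_lit 0x1000000000000600380004000000000000000000) := T_5 (nat_lit 106) (nat_lit 156) (nat_lit 5) (nat_lit 4) (nat_lit 5) L43028 (by decide +kernel)
theorem L43030 : W_5 (nat_lit 5) (nat_lit 0x2000100013800de000800040000000000000000000000) (nat_lit 0x0) (nat_lit 0x10000000000006003a0005000000000000000000) := T_5 (nat_lit 89) (nat_lit 72) (nat_lit 4) (nat_lit 5) (nat_lit 8) L43029 (by decide +kernel)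
theorem L43031 : W_5 (nat_lit 6) (nat_lit 0x2000100013800de000800000000000000000000000000) (nat_lit 0x0) (nat_lit 0x10000000000006003e0007000000000000000000) := T_5 (nat_lit 90) (nat_lit 73) (nat_lit 5) (nat_lit 5) (nat_lit 4) L43030 (by decide +kernel)
theorem L43032 : W_5 (nat_lit 7) (nat_lit 0x2000100013800de000000000000000000000000000000) (nat_lit 0x0) (nat_lit 0x1000000000001e003e0007000000000000000000) := T_5 (nat_lit 107) (nat_lit 108) (nat_lit 2) (nat_lit 2) (nat_lit 7) L43031 (by decide +kernel)
theorem L43033 : W_5 (nat_lit 8) (nat_lit 0x20001000138009e000000000000000000000000000000) (nat_lit 0x0) (nat_lit 0x1000000060001e003e0007000000000000000000) := T_5 (nat_lit 126) (nat_lit 125) (nat_lit 1) (nat_lit 7) (nat_lit 7) L43032 (by decide +kernel)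
theorem L43034 : W_5 (nat_lit 9) (nat_lit 0x20001000138009c000000000000000000000000000000) (nat_lit 0x0) (nat_lit 0x1000000063001e003e0007000000000000000000) := T_5 (nat_lit 121) (nat_lit 120) (nat_lit 3) (nat_lit 1) (nat_lit 7) L43033 (by decide +kernel)
theorem L43035 : W_5 (nat_lit 12) (nat_lit 0x200010001380098000000000000000000000000000000) (nat_lit 0x0) (nat_lit 0x400020001000000067003f803f8007c00000000000000000) := Q_5 (nat_lit 122) (C_5 L42970 (C_5 L43017 (C_5 L43026 (C_5 L42610 (C_5 L42601 (C_5 L43034 N_5)))))) (by decide +kernel)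
theorem L43036 : W_5 (nat_lit 2) (nat_lit 0x2000108013c009c000200000000000000000000000000) (nat_lit 0x0) (nat_lit 0x200010001000000000000000000000000000000000000000) := D_5 (nat_lit 172) (nat_lit 189) (nat_lit 156) (nat_lit 6) (nat_lit 2) (nat_lit 11) (nat_lit 5) (nat_lit 3) (nat_lit 6) (by decide +kernel)
theorem L43037 : W_5 (nat_lit 3) (nat_lit 0x2000108013c009c000000000000000000000000000000) (nat_lit 0x0) (nat_lit 0x200010001000000000000200010000000000000000000000) := T_5 (nat_lit 105) (nat_lit 88) (nat_lit 5) (nat_lit 3) (nat_lit 5) L43036 (by decide +kernel)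
theorem L43038 : W_5 (nat_lit 4) (nat_lit 0x2000100013c009c000000000000000000000000000000) (nat_lit 0x0) (nat_lit 0x200010001c00000000000200010000000000000000000000) := T_5 (nat_lit 155) (nat_lit 154) (nat_lit 1) (nat_lit 5) (nat_lit 8) L43037 (by decide +kernel)
theorem L43039 : W_5 (nat_lit 5) (nat_lit 0x20001000138009c000000000000000000000000000000) (nat_lit 0x0) (nat_lit 0x200010001c00060000000200010000000000000000000000) := T_5 (nat_lit 138) (nat_lit 137) (nat_lit 2) (nat_lit 1) (nat_lit 8) L43038 (by decide +kernel)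
theorem L43040 : W_5 (nat_lit 11) (nat_lit 0x200010001380098000000000000000000000000000000) (nat_lit 0x0) (nat_lit 0x200030001c00060007001b800f8007c00000000000000000) := Q_5 (nat_lit 122) (C_5 L42915 (C_5 L42610 (C_5 L42900 (C_5 L43039 N_5)))) (by decide +kernel)
theorem L43041 : W_5 (nat_lit 13) (nat_lit 0x200010001300098000000000000000000000000000000) (nat_lit 0x0) (nat_lit 0x600030001c000e0067003f803f8007c00000000000000000) := Q_5 (nat_lit 139) (C_5 L43035 (C_5 L42639 (C_5 L43040 N_5))) (by decide +kernel)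
theorem L43042 : W_5 (nat_lit 2) (nat_lit 0x2000340013000bc000200000000800000000000000000) (nat_lit 0x0) (nat_lit 0x1000080000000000000001000000000000000000000000000) := D_5 (nat_lit 175) (nat_lit 192) (nat_lit 108) (nat_lit 4) (nat_lit 5) (nat_lit 11) (nat_lit 6) (nat_lit 5) (nat_lit 10) (by decide +kernel)
theorem L43043 : W_5 (nat_lit 3) (nat_lit 0x20003400130009c000200000000800000000000000000) (nat_lit 0x0) (nat_lit 0x1000080000000000020001100000000000000000000000000) := T_5 (nat_lit 125) (nat_lit 104) (nat_lit 0) (nat_lit 6) (nat_lit 7) L43042 (by decide +kernel)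
theorem L43044 : W_5 (nat_lit 4) (nat_lit 0x20003400130009c000200000000000000000000000000) (nat_lit 0x0) (nat_lit 0x1000080000000000020001100010000800000000000000000) := T_5 (nat_lit 71) (nat_lit 88) (nat_lit 7) (nat_lit 3) (nat_lit 4) L43043 (by decide +kernel)
theorem L43045 : W_5 (nat_lit 5) (nat_lit 0x20001400130009c000200000000000000000000000000) (nat_lit 0x0) (nat_lit 0x1000080028000000020001100010000800000000000000000) := T_5 (nat_lit 161) (nat_lit 159) (nat_lit 0) (nat_lit 8) (nat_lit 9) L43044 (by decide +kernel)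
theorem L43046 : W_5 (nat_lit 2) (nat_lit 0x2000140013000bc000200000000000000000000000000) (nat_lit 0x0) (nat_lit 0x1000080000000000000001000000000000000000000000000) := D_5 (nat_lit 175) (nat_lit 192) (nat_lit 108) (nat_lit 4) (nat_lit 5) (nat_lit 11) (nat_lit 6) (nat_lit 5) (nat_lit 10) (by decide +kernel)
theorem L43047 : W_5 (nat_lit 3) (nat_lit 0x20001400130009c000200000000000000000000000000) (nat_lit 0x0) (nat_lit 0x1000080000000000020001100000000000000000000000000) := T_5 (nat_lit 125) (nat_lit 104) (nat_lit 0) (nat_lit 6) (nat_lit 7) L43046 (by decide +kernel)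
theorem L43048 : W_5 (nat_lit 2) (nat_lit 0x2000140013800bc001200000000000000000000000000) (nat_lit 0x0) (nat_lit 0x800080004000000000000000000) := D_5 (nat_lit 91) (nat_lit 74) (nat_lit 107) (nat_lit 5) (nat_lit 6) (nat_lit 4) (nat_lit 6) (nat_lit 5) (nat_lit 9) (by decide +kernel)
theorem L43049 : W_5 (nat_lit 3) (nat_lit 0x2000140013800bc000200000000000000000000000000) (nat_lit 0x0) (nat_lit 0x3800080004000000000000000000) := T_5 (nat_lit 108) (nat_lit 109) (nat_lit 2) (nat_lit 3) (nat_lit 7) L43048 (by decide +kernel)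
theorem L43050 : W_5 (nat_lit 4) (nat_lit 0x2000140013000bc000200000000000000000000000000) (nat_lit 0x0) (nat_lit 0xc0000003800080004000000000000000000) := T_5 (nat_lit 139) (nat_lit 138) (nat_lit 2) (nat_lit 2) (nat_lit 8) L43049 (by decide +kernel)
theorem L43051 : W_5 (nat_lit 5) (nat_lit 0x20001400130009c000200000000000000000000000000) (nat_lit 0x0) (nat_lit 0xc0020003900080004000000000000000000) := T_5 (nat_lit 125) (nat_lit 104) (nat_lit 0) (nat_lit 6) (nat_lit 7) L43050 (by decide +kernel)
theorem L43052 : W_5 (nat_lit 2) (nat_lit 0x100021001d00138009c000340000000800000000000000000) (nat_lit 0x0) (nat_lit 0x600020000000000000000000000000000000000000000000) := D_5 (nat_lit 173) (nat_lit 190) (nat_lit 189) (nat_lit 6) (nat_lit 3) (nat_lit 11) (nat_lit 5) (nat_lit 3) (nat_lit 7) (by decide +kernel)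
theorem L43053 : W_5 (nat_lit 3) (nat_lit 0x100020001d00138009c000340000000800000000000000000) (nat_lit 0x0) (nat_lit 0x600030000800000000000000000000000000000000000000) := T_5 (nat_lit 172) (nat_lit 155) (nat_lit 5) (nat_lit 3) (nat_lit 6) L43052 (by decide +kernel)
theorem L43054 : W_5 (nat_lit 4) (nat_lit 0x100020001c00138009c000340000000800000000000000000) (nat_lit 0x0) (nat_lit 0x600030001800000000000000008000000000000000000000) := T_5 (nat_lit 156) (nat_lit 87) (nat_lit 4) (nat_lit 3) (nat_lit 9) L43053 (by decide +kernel)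
theorem L43055 : W_5 (nat_lit 5) (nat_lit 0x100020001c00130009c000340000000800000000000000000) (nat_lit 0x0) (nat_lit 0x6000300018000c0000000000008000000000000000000000) := T_5 (nat_lit 139) (nat_lit 138) (nat_lit 3) (nat_lit 2) (nat_lit 8) L43054 (by decide +kernel)
theorem L43056 : W_5 (nat_lit 6) (nat_lit 0x100020001c00130009c000300000000800000000000000000) (nat_lit 0x0) (nat_lit 0x6000300018000c00000000c0008000000000000000000000) := T_5 (nat_lit 102) (nat_lit 103) (nat_lit 3) (nat_lit 0) (nat_lit 6) L43055 (by decide +kernel)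
theorem L43057 : W_5 (nat_lit 7) (nat_lit 0x100020001400130009c000300000000800000000000000000) (nat_lit 0x0) (nat_lit 0x6000300298000c00000000c0008000000000000000000000) := T_5 (nat_lit 159) (nat_lit 161) (nat_lit 0) (nat_lit 8) (nat_lit 9) L43056 (by decide +kernel)
theorem L43058 : W_5 (nat_lit 8) (nat_lit 0x100020001400130009c000200000000800000000000000000) (nat_lit 0x0) (nat_lit 0x6000300298000c00200001c0008000000000000000000000) := T_5 (nat_lit 104) (nat_lit 125) (nat_lit 0) (nat_lit 6) (nat_lit 7) L43057 (by decide +kernel)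
theorem L43059 : W_5 (nat_lit 9) (nat_lit 0x20001400130009c000200000000800000000000000000) (nat_lit 0x0) (nat_lit 0x16000b00298000c00200001c0008000000000000000000000) := T_5 (nat_lit 192) (nat_lit 175) (nat_lit 4) (nat_lit 5) (nat_lit 11) L43058 (by decide +kernel)
theorem L43060 : W_5 (nat_lit 10) (nat_lit 0x20001400130009c000200000000000000000000000000) (nat_lit 0x0) (nat_lit 0x16000b00298000c00200001c0018000800000000000000000) := T_5 (nat_lit 71) (nat_lit 88) (nat_lit 7) (nat_lit 3) (nat_lit 4) L43059 (by decide +kernel)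
theorem L43061 : W_5 (nat_lit 2) (nat_lit 0x100021001d00138009c000200018000000000000000000000) (nat_lit 0x0) (nat_lit 0x600020000000000000000000000000000000000000000000) := D_5 (nat_lit 173) (nat_lit 190) (nat_lit 189) (nat_lit 6) (nat_lit 3) (nat_lit 11) (nat_lit 5) (nat_lit 3) (nat_lit 7) (by decide +kernel)
theorem L43062 : W_5 (nat_lit 3) (nat_lit 0x100020001d00138009c000200018000000000000000000000) (nat_lit 0x0) (nat_lit 0x600030000800000000000000000000000000000000000000) := T_5 (nat_lit 172) (nat_lit 155) (nat_lit 5) (nat_lit 3) (nat_lit 6) L43061 (by decide +kernel)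
theorem L43063 : W_5 (nat_lit 4) (nat_lit 0x100020001c00138009c000200018000000000000000000000) (nat_lit 0x0) (nat_lit 0x600030001800000000000100000000000000000000000000) := T_5 (nat_lit 156) (nat_lit 104) (nat_lit 4) (nat_lit 3) (nat_lit 9) L43062 (by decide +kernel)
theorem L43064 : W_5 (nat_lit 5) (nat_lit 0x100020001c00138009c000200010000000000000000000000) (nat_lit 0x0) (nat_lit 0x600030001800000000000100008000400000000000000000) := T_5 (nat_lit 87) (nat_lit 70) (nat_lit 4) (nat_lit 3) (nat_lit 8) L43063 (by decide +kernel)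
theorem L43065 : W_5 (nat_lit 6) (nat_lit 0x100020001c00138009c000200000000000000000000000000) (nat_lit 0x0) (nat_lit 0x600030001800000000000100018000c00000000000000000) := T_5 (nat_lit 88) (nat_lit 71) (nat_lit 7) (nat_lit 3) (nat_lit 4) L43064 (by decide +kernel)
theorem L43066 : W_5 (nat_lit 7) (nat_lit 0x100020001c00130009c000200000000000000000000000000) (nat_lit 0x0) (nat_lit 0x6000300018000c0000000100018000c00000000000000000) := T_5 (nat_lit 139) (nat_lit 138) (nat_lit 3) (nat_lit 2) (nat_lit 8) L43065 (by decide +kernel)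
theorem L43067 : W_5 (nat_lit 8) (nat_lit 0x20001c00130009c000200000000000000000000000000) (nat_lit 0x0) (nat_lit 0x16000b00018000c0000000100018000c00000000000000000) := T_5 (nat_lit 192) (nat_lit 175) (nat_lit 4) (nat_lit 5) (nat_lit 11) L43066 (by decide +kernel)
theorem L43068 : W_5 (nat_lit 9) (nat_lit 0x20001400130009c000200000000000000000000000000) (nat_lit 0x0) (nat_lit 0x16000b00298000c0000000100018000c00000000000000000) := T_5 (nat_lit 159) (nat_lit 161) (nat_lit 0) (nat_lit 8) (nat_lit 9) L43067 (by decide +kernel)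
theorem L43069 : W_5 (nat_lit 2) (nat_lit 0x2c003400130009c001a00050000000000000000000000) (nat_lit 0x0) (nat_lit 0x28001000000000000000000) := D_5 (nat_lit 89) (nat_lit 87) (nat_lit 72) (nat_lit 3) (nat_lit 2) (nat_lit 5) (nat_lit 4) (nat_lit 5) (nat_lit 8) (by decide +kernel)
theorem L43070 : W_5 (nat_lit 3) (nat_lit 0x2c003400130009c001a00010000000000000000000000) (nat_lit 0x0) (nat_lit 0x68003000000000000000000) := T_5 (nat_lit 90) (nat_lit 73) (nat_lit 5) (nat_lit 5) (nat_lit 4) L43069 (by decide +kernel)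
theorem L43071 : W_5 (nat_lit 4) (nat_lit 0x2c003400130009c001200010000000000000000000000) (nat_lit 0x0) (nat_lit 0x8000e8003000000000000000000) := T_5 (nat_lit 107) (nat_lit 91) (nat_lit 6) (nat_lit 5) (nat_lit 9) L43070 (by decide +kernel)
theorem L43072 : W_5 (nat_lit 5) (nat_lit 0x28003400130009c001200010000000000000000000000) (nat_lit 0x0) (nat_lit 0x8000400000000000000008000e8003000000000000000000) := T_5 (nat_lit 174) (nat_lit 191) (nat_lit 5) (nat_lit 5) (nat_lit 7) L43071 (by decide +kernel)
theorem L43073 : W_5 (nat_lit 6) (nat_lit 0x28003400130009c000200010000000000000000000000) (nat_lit 0x0) (nat_lit 0x8000400000000000200018000e8003000000000000000000) := T_5 (nat_lit 108) (nat_lit 125) (nat_lit 6) (nat_lit 5) (nat_lit 10) L43072 (by decide +kernel)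
theorem L43074 : W_5 (nat_lit 7) (nat_lit 0x28001400130009c000200010000000000000000000000) (nat_lit 0x0) (nat_lit 0x8000400280000000200018000e8003000000000000000000) := T_5 (nat_lit 161) (nat_lit 159) (nat_lit 0) (nat_lit 8) (nat_lit 9) L43073 (by decide +kernel)
theorem L43075 : W_5 (nat_lit 8) (nat_lit 0x20001400130009c000200010000000000000000000000) (nat_lit 0x0) (nat_lit 0x18000c00280000000200018000e8003000000000000000000) := T_5 (nat_lit 175) (nat_lit 192) (nat_lit 4) (nat_lit 5) (nat_lit 11) L43074 (by decide +kernel)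
theorem L43076 : W_5 (nat_lit 9) (nat_lit 0x20001400130009c000200000000000000000000000000) (nat_lit 0x0) (nat_lit 0x18000c00280000000200018000f8003800000000000000000) := T_5 (nat_lit 88) (nat_lit 71) (nat_lit 7) (nat_lit 3) (nat_lit 4) L43075 (by decide +kernel)
theorem L43077 : W_5 (nat_lit 11) (nat_lit 0x20001400130009c000000000000000000000000000000) (nat_lit 0x0) (nat_lit 0x1e000f00298000c0020003bc00f8007c00000000000000000) := Q_5 (nat_lit 105) (C_5 L43045 (C_5 L43047 (C_5 L43051 (C_5 L43060 (C_5 L43068 (C_5 L43076 N_5)))))) (by decide +kernel)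
theorem L43078 : W_5 (nat_lit 2) (nat_lit 0x10002000140013000be000900000000000000000000000000) (nat_lit 0x0) (nat_lit 0xe0000000000000000000000000000000000) := D_5 (nat_lit 138) (nat_lit 139) (nat_lit 137) (nat_lit 2) (nat_lit 2) (nat_lit 8) (nat_lit 1) (nat_lit 5) (nat_lit 7) (by decide +kernel)
theorem L43079 : W_5 (nat_lit 3) (nat_lit 0x100020001400130009e000900000000000000000000000000) (nat_lit 0x0) (nat_lit 0xe0020000200000000000000000000000000) := T_5 (nat_lit 125) (nat_lit 105) (nat_lit 0) (nat_lit 6) (nat_lit 7) L43078 (by decide +kernel)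
theorem L43080 : W_5 (nat_lit 4) (nat_lit 0x100020001400130009e000100000000000000000000000000) (nat_lit 0x0) (nat_lit 0xe0020001a00000000000000000000000000) := T_5 (nat_lit 107) (nat_lit 108) (nat_lit 2) (nat_lit 2) (nat_lit 7) L43079 (by decide +kernel)
theorem L43081 : W_5 (nat_lit 5) (nat_lit 0x100020001400130009e000000000000000000000000000000) (nat_lit 0x0) (nat_lit 0xe0020001b80000000000000000000000000) := T_5 (nat_lit 104) (nat_lit 103) (nat_lit 0) (nat_lit 5) (nat_lit 7) L43080 (by decide +kernel)
theorem L43082 : W_5 (nat_lit 6) (nat_lit 0x100020001400130009c000000000000000000000000000000) (nat_lit 0x0) (nat_lit 0xe0023001b80000000000000000000000000) := T_5 (nat_lit 121) (nat_lit 120) (nat_lit 3) (nat_lit 1) (nat_lit 7) L43081 (by decide +kernel)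
theorem L43083 : W_5 (nat_lit 7) (nat_lit 0x20001400130009c000000000000000000000000000000) (nat_lit 0x0) (nat_lit 0x10000800000000e0023001b80000000000000000000000000) := T_5 (nat_lit 192) (nat_lit 175) (nat_lit 4) (nat_lit 5) (nat_lit 11) L43082 (by decide +kernel)
theorem L43084 : W_5 (nat_lit 2) (nat_lit 0x20003400130009e000b000c0000000000000000000000) (nat_lit 0x0) (nat_lit 0x30001000000000000000000) := D_5 (nat_lit 89) (nat_lit 88) (nat_lit 72) (nat_lit 1) (nat_lit 6) (nat_lit 5) (nat_lit 4) (nat_lit 5) (nat_lit 8) (by decide +kernel)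
theorem L43085 : W_5 (nat_lit 3) (nat_lit 0x20003400130009e000b00040000000000000000000000) (nat_lit 0x0) (nat_lit 0xb0005000000000000000000) := T_5 (nat_lit 91) (nat_lit 74) (nat_lit 6) (nat_lit 5) (nat_lit 8) L43084 (by decide +kernel)
theorem L43086 : W_5 (nat_lit 4) (nat_lit 0x20003400130009e000900040000000000000000000000) (nat_lit 0x0) (nat_lit 0x200002000b0005000000000000000000) := T_5 (nat_lit 105) (nat_lit 125) (nat_lit 0) (nat_lit 6) (nat_lit 7) L43085 (by decide +kernel)
theorem L43087 : W_5 (nat_lit 5) (nat_lit 0x20003400130009e000900000000000000000000000000) (nat_lit 0x0) (nat_lit 0x200002000f0007000000000000000000) := T_5 (nat_lit 90) (nat_lit 73) (nat_lit 5) (nat_lit 5) (nat_lit 4) L43086 (by decide +kernel)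
theorem L43088 : W_5 (nat_lit 6) (nat_lit 0x20003400130009e000800000000000000000000000000) (nat_lit 0x0) (nat_lit 0x200003800f0007000000000000000000) := T_5 (nat_lit 104) (nat_lit 103) (nat_lit 0) (nat_lit 5) (nat_lit 7) L43087 (by decide +kernel)
theorem L43089 : W_5 (nat_lit 7) (nat_lit 0x20003400130009e000000000000000000000000000000) (nat_lit 0x0) (nat_lit 0x20001b800f0007000000000000000000) := T_5 (nat_lit 107) (nat_lit 108) (nat_lit 2) (nat_lit 2) (nat_lit 7) L43088 (by decide +kernel)
theorem L43090 : W_5 (nat_lit 8) (nat_lit 0x20001400130009e000000000000000000000000000000) (nat_lit 0x0) (nat_lit 0x28000000020001b800f0007000000000000000000) := T_5 (nat_lit 161) (nat_lit 159) (nat_lit 0) (nat_lit 8) (nat_lit 9) L43089 (by decide +kernel)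
theorem L43091 : W_5 (nat_lit 9) (nat_lit 0x20001400130009c000000000000000000000000000000) (nat_lit 0x0) (nat_lit 0x28000000023001b800f0007000000000000000000) := T_5 (nat_lit 121) (nat_lit 120) (nat_lit 3) (nat_lit 1) (nat_lit 7) L43090 (by decide +kernel)
theorem L43092 : W_5 (nat_lit 12) (nat_lit 0x200014001300098000000000000000000000000000000) (nat_lit 0x0) (nat_lit 0x1e000f00298000e0027003bc00f8007c00000000000000000) := Q_5 (nat_lit 122) (C_5 L43077 (C_5 L43083 (C_5 L43091 (C_5 L43005 N_5)))) (by decide +kernel)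
theorem L43093 : W_5 (nat_lit 2) (nat_lit 0x20001400138009c001800000000000000000000000000) (nat_lit 0x0) (nat_lit 0x2400020000000000000000000000) := D_5 (nat_lit 106) (nat_lit 89) (nat_lit 109) (nat_lit 7) (nat_lit 4) (nat_lit 5) (nat_lit 1) (nat_lit 7) (nat_lit 6) (by decide +kernel)
theorem L43094 : W_5 (nat_lit 3) (nat_lit 0x200014001380098001800000000000000000000000000) (nat_lit 0x0) (nat_lit 0x6002400020000000000000000000000) := T_5 (nat_lit 122) (nat_lit 121) (nat_lit 2) (nat_lit 2) (nat_lit 7) L43093 (by decide +kernel)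
theorem L43095 : W_5 (nat_lit 4) (nat_lit 0x200014001380098000800000000000000000000000000) (nat_lit 0x0) (nat_lit 0x60034000a0000000000000000000000) := T_5 (nat_lit 108) (nat_lit 91) (nat_lit 6) (nat_lit 5) (nat_lit 9) L43094 (by decide +kernel)
theorem L43096 : W_5 (nat_lit 5) (nat_lit 0x200014001380098000000000000000000000000000000) (nat_lit 0x0) (nat_lit 0x28000000006003c000e0007000000000000000000) := Q_5 (nat_lit 107) (C_5 L42958 (C_5 L42955 (C_5 L43095 N_5))) (by decide +kernel)
theorem L43097 : W_5 (nat_lit 6) (nat_lit 0x200014001300098000000000000000000000000000000) (nat_lit 0x0) (nat_lit 0x280000e0026003c000e0007000000000000000000) := Q_5 (nat_lit 139) (C_5 L43096 (C_5 L42961 N_5)) (by decide +kernel)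
theorem L43098 : W_5 (nat_lit 13) (nat_lit 0x200010001300098000000000000000000000000000000) (nat_lit 0x0) (nat_lit 0x1e000f002d8000e0027003fc00f8007c00000000000000000) := Q_5 (nat_lit 158) (C_5 L43092 (C_5 L42786 (C_5 L43097 N_5))) (by decide +kernel)
theorem L43099 : W_5 (nat_lit 2) (nat_lit 0x2000140013c0098000000000000000000000000000000) (nat_lit 0x0) (nat_lit 0x1000080000000000000000400000000000000000000000000) := D_5 (nat_lit 175) (nat_lit 106) (nat_lit 192) (nat_lit 4) (nat_lit 5) (nat_lit 10) (nat_lit 4) (nat_lit 5) (nat_lit 11) (by decide +kernel)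
theorem L43100 : W_5 (nat_lit 3) (nat_lit 0x2000100013c0098000000000000000000000000000000) (nat_lit 0x0) (nat_lit 0x100008000c000000000000400000000000000000000000000) := T_5 (nat_lit 158) (nat_lit 159) (nat_lit 3) (nat_lit 2) (nat_lit 8) L43099 (by decide +kernel)
theorem L43101 : W_5 (nat_lit 4) (nat_lit 0x200010001380098000000000000000000000000000000) (nat_lit 0x0) (nat_lit 0x100008000c000060000000400000000000000000000000000) := T_5 (nat_lit 138) (nat_lit 137) (nat_lit 2) (nat_lit 1) (nat_lit 8) L43100 (by decide +kernel)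
theorem L43102 : W_5 (nat_lit 9) (nat_lit 0x200010001300098000000000000000000000000000000) (nat_lit 0x0) (nat_lit 0x10000a000d0000e0067003f800d8006c00000000000000000) := Q_5 (nat_lit 139) (C_5 L42895 (C_5 L42639 (C_5 L43101 N_5))) (by decide +kernel)
theorem L43103 : W_5 (nat_lit 2) (nat_lit 0x200010001380098000800020000000000000000000000) (nat_lit 0x0) (nat_lit 0x40003000000000000000000) := D_5 (nat_lit 90) (nat_lit 73) (nat_lit 72) (nat_lit 5) (nat_lit 5) (nat_lit 4) (nat_lit 4) (nat_lit 5) (nat_lit 8) (by decide +kernel)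
theorem L43104 : W_5 (nat_lit 2) (nat_lit 0x2000100013800bc000a00020000000000000000000000) (nat_lit 0x0) (nat_lit 0x10001800000000000000000) := D_5 (nat_lit 88) (nat_lit 71) (nat_lit 72) (nat_lit 7) (nat_lit 3) (nat_lit 4) (nat_lit 6) (nat_lit 3) (nat_lit 8) (by decide +kernel)
theorem L43105 : W_5 (nat_lit 3) (nat_lit 0x2000100013800bc000800020000000000000000000000) (nat_lit 0x0) (nat_lit 0x300010001800000000000000000) := T_5 (nat_lit 105) (nat_lit 104) (nat_lit 0) (nat_lit 6) (nat_lit 7) L43104 (by decide +kernel)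
theorem L43106 : W_5 (nat_lit 4) (nat_lit 0x20001000138009c000800020000000000000000000000) (nat_lit 0x0) (nat_lit 0x60000300010001800000000000000000) := T_5 (nat_lit 125) (nat_lit 126) (nat_lit 1) (nat_lit 7) (nat_lit 7) L43105 (by decide +kernel)
theorem L43107 : W_5 (nat_lit 2) (nat_lit 0x20001000138009e000b00020000000000000000000000) (nat_lit 0x0) (nat_lit 0x1000000000000000008000400000000000000000) := D_5 (nat_lit 87) (nat_lit 70) (nat_lit 156) (nat_lit 7) (nat_lit 2) (nat_lit 4) (nat_lit 4) (nat_lit 3) (nat_lit 9) (by decide +kernel)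
theorem L43108 : W_5 (nat_lit 3) (nat_lit 0x20001000138009e000900020000000000000000000000) (nat_lit 0x0) (nat_lit 0x1000000020000200008000400000000000000000) := T_5 (nat_lit 105) (nat_lit 125) (nat_lit 0) (nat_lit 6) (nat_lit 7) L43107 (by decide +kernel)
theorem L43109 : W_5 (nat_lit 4) (nat_lit 0x20001000138009e000800020000000000000000000000) (nat_lit 0x0) (nat_lit 0x1000000020000380008000400000000000000000) := T_5 (nat_lit 104) (nat_lit 103) (nat_lit 0) (nat_lit 5) (nat_lit 7) L43108 (by decide +kernel)
theorem L43110 : W_5 (nat_lit 5) (nat_lit 0x20001000138009c000800020000000000000000000000) (nat_lit 0x0) (nat_lit 0x1000000023000380008000400000000000000000) := T_5 (nat_lit 121) (nat_lit 120) (nat_lit 3) (nat_lit 1) (nat_lit 7) L43109 (by decide +kernel)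
theorem L43111 : W_5 (nat_lit 2) (nat_lit 0x10002000148013c009d000200020000000000000000000000) (nat_lit 0x0) (nat_lit 0x200010001000000000000000000000000000000000000000) := D_5 (nat_lit 172) (nat_lit 189) (nat_lit 156) (nat_lit 6) (nat_lit 2) (nat_lit 11) (nat_lit 5) (nat_lit 3) (nat_lit 6) (by decide +kernel)
theorem L43112 : W_5 (nat_lit 3) (nat_lit 0x10002000148013c009d000000020000000000000000000000) (nat_lit 0x0) (nat_lit 0x200010001000000000000200010000000000000000000000) := T_5 (nat_lit 105) (nat_lit 88) (nat_lit 5) (nat_lit 3) (nat_lit 5) L43111 (by decide +kernel)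
theorem L43113 : W_5 (nat_lit 4) (nat_lit 0x10002000140013c009d000000020000000000000000000000) (nat_lit 0x0) (nat_lit 0x200010001c00000000000200010000000000000000000000) := T_5 (nat_lit 155) (nat_lit 154) (nat_lit 1) (nat_lit 5) (nat_lit 8) L43112 (by decide +kernel)
theorem L43114 : W_5 (nat_lit 5) (nat_lit 0x2000140013c009d000000020000000000000000000000) (nat_lit 0x0) (nat_lit 0x1200090001c00000000000200010000000000000000000000) := T_5 (nat_lit 192) (nat_lit 175) (nat_lit 4) (nat_lit 5) (nat_lit 11) L43113 (by decide +kernel)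
theorem L43115 : W_5 (nat_lit 6) (nat_lit 0x2000100013c009d000000020000000000000000000000) (nat_lit 0x0) (nat_lit 0x120009000dc00000000000200010000000000000000000000) := T_5 (nat_lit 158) (nat_lit 159) (nat_lit 3) (nat_lit 2) (nat_lit 8) L43114 (by decide +kernel)
theorem L43116 : W_5 (nat_lit 7) (nat_lit 0x20001000138009d000000020000000000000000000000) (nat_lit 0x0) (nat_lit 0x120009000dc00060000000200010000000000000000000000) := T_5 (nat_lit 138) (nat_lit 137) (nat_lit 2) (nat_lit 1) (nat_lit 8) L43115 (by decide +kernel)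
theorem L43117 : W_5 (nat_lit 8) (nat_lit 0x20001000138009c000000020000000000000000000000) (nat_lit 0x0) (nat_lit 0x120009000dc00060003000200010000000000000000000000) := T_5 (nat_lit 120) (nat_lit 121) (nat_lit 3) (nat_lit 1) (nat_lit 7) L43116 (by decide +kernel)
theorem L43118 : W_5 (nat_lit 2) (nat_lit 0x2000110013a009e000100020000000000000000000000) (nat_lit 0x0) (nat_lit 0x200008000400000000000000000) := D_5 (nat_lit 87) (nat_lit 70) (nat_lit 105) (nat_lit 7) (nat_lit 2) (nat_lit 4) (nat_lit 4) (nat_lit 3) (nat_lit 9) (by decide +kernel)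
theorem L43119 : W_5 (nat_lit 3) (nat_lit 0x2000100013a009e000100020000000000000000000000) (nat_lit 0x0) (nat_lit 0x20001000000000000200008000400000000000000000) := T_5 (nat_lit 156) (nat_lit 173) (nat_lit 4) (nat_lit 3) (nat_lit 10) L43118 (by decide +kernel)
theorem L43120 : W_5 (nat_lit 4) (nat_lit 0x2000100013a009e000000020000000000000000000000) (nat_lit 0x0) (nat_lit 0x20001000000000000380008000400000000000000000) := T_5 (nat_lit 104) (nat_lit 103) (nat_lit 0) (nat_lit 5) (nat_lit 7) L43119 (by decide +kernel)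
theorem L43121 : W_5 (nat_lit 5) (nat_lit 0x2000100013a009c000000020000000000000000000000) (nat_lit 0x0) (nat_lit 0x20001000000003000380008000400000000000000000) := T_5 (nat_lit 121) (nat_lit 120) (nat_lit 3) (nat_lit 1) (nat_lit 7) L43120 (by decide +kernel)
theorem L43122 : W_5 (nat_lit 6) (nat_lit 0x20001000138009c000000020000000000000000000000) (nat_lit 0x0) (nat_lit 0x20001000060003000380008000400000000000000000) := T_5 (nat_lit 137) (nat_lit 138) (nat_lit 2) (nat_lit 1) (nat_lit 8) L43121 (by decide +kernel)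
theorem L43123 : W_5 (nat_lit 2) (nat_lit 0x20001100138009e000100020000000000000000000000) (nat_lit 0x0) (nat_lit 0x200008000400000000000000000) := D_5 (nat_lit 87) (nat_lit 70) (nat_lit 105) (nat_lit 7) (nat_lit 2) (nat_lit 4) (nat_lit 4) (nat_lit 3) (nat_lit 9) (by decide +kernel)
theorem L43124 : W_5 (nat_lit 3) (nat_lit 0x20001000138009e000100020000000000000000000000) (nat_lit 0x0) (nat_lit 0x20001000000000000200008000400000000000000000) := T_5 (nat_lit 156) (nat_lit 173) (nat_lit 4) (nat_lit 3) (nat_lit 10) L43123 (by decide +kernel)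
theorem L43125 : W_5 (nat_lit 4) (nat_lit 0x20001000138009e000000020000000000000000000000) (nat_lit 0x0) (nat_lit 0x20001000000000000380008000400000000000000000) := T_5 (nat_lit 104) (nat_lit 103) (nat_lit 0) (nat_lit 5) (nat_lit 7) L43124 (by decide +kernel)
theorem L43126 : W_5 (nat_lit 5) (nat_lit 0x20001000138009c000000020000000000000000000000) (nat_lit 0x0) (nat_lit 0x20001000000003000380008000400000000000000000) := T_5 (nat_lit 121) (nat_lit 120) (nat_lit 3) (nat_lit 1) (nat_lit 7) L43125 (by decide +kernel)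
theorem L43127 : W_5 (nat_lit 5) (nat_lit 0x2000100013c009c000000020000000000000000000000) (nat_lit 0x0) (nat_lit 0x20001000dc00000000000200010000000000000000000000) := T_5 (nat_lit 158) (nat_lit 159) (nat_lit 3) (nat_lit 2) (nat_lit 8) L42647 (by decide +kernel)
theorem L43128 : W_5 (nat_lit 6) (nat_lit 0x20001000138009c000000020000000000000000000000) (nat_lit 0x0) (nat_lit 0x20001000dc00060000000200010000000000000000000000) := T_5 (nat_lit 138) (nat_lit 137) (nat_lit 2) (nat_lit 1) (nat_lit 8) L43127 (by decide +kernel)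
theorem L43129 : W_5 (nat_lit 2) (nat_lit 0x2000108013c009e000100020000000000000000000000) (nat_lit 0x0) (nat_lit 0x20001000000000000000008000000000000000000000) := D_5 (nat_lit 156) (nat_lit 173) (nat_lit 87) (nat_lit 7) (nat_lit 2) (nat_lit 6) (nat_lit 7) (nat_lit 2) (nat_lit 5) (by decide +kernel)
theorem L43130 : W_5 (nat_lit 3) (nat_lit 0x2000108013c009e000000020000000000000000000000) (nat_lit 0x0) (nat_lit 0x20001000000000000180008000000000000000000000) := T_5 (nat_lit 104) (nat_lit 103) (nat_lit 0) (nat_lit 5) (nat_lit 7) L43129 (by decide +kernel)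
theorem L43131 : W_5 (nat_lit 4) (nat_lit 0x2000100013c009e000000020000000000000000000000) (nat_lit 0x0) (nat_lit 0x20001c00000000000180008000000000000000000000) := T_5 (nat_lit 155) (nat_lit 154) (nat_lit 1) (nat_lit 5) (nat_lit 8) L43130 (by decide +kernel)
theorem L43132 : W_5 (nat_lit 5) (nat_lit 0x2000100013c009c000000020000000000000000000000) (nat_lit 0x0) (nat_lit 0x20001c00000003000180008000000000000000000000) := T_5 (nat_lit 121) (nat_lit 120) (nat_lit 3) (nat_lit 1) (nat_lit 7) L43131 (by decide +kernel)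
theorem L43133 : W_5 (nat_lit 6) (nat_lit 0x20001000138009c000000020000000000000000000000) (nat_lit 0x0) (nat_lit 0x20001c00060003000180008000000000000000000000) := T_5 (nat_lit 138) (nat_lit 137) (nat_lit 2) (nat_lit 1) (nat_lit 8) L43132 (by decide +kernel)
theorem L43134 : W_5 (nat_lit 2) (nat_lit 0x10002000148013c009e000100020000400000000000000000) (nat_lit 0x0) (nat_lit 0x10000000000000000200010000000000000000000000) := D_5 (nat_lit 105) (nat_lit 88) (nat_lit 172) (nat_lit 6) (nat_lit 2) (nat_lit 9) (nat_lit 6) (nat_lit 2) (nat_lit 10) (by decide +kernel)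
theorem L43135 : W_5 (nat_lit 3) (nat_lit 0x10002000140013c009e000100020000400000000000000000) (nat_lit 0x0) (nat_lit 0x10000c00000000000200010000000000000000000000) := T_5 (nat_lit 155) (nat_lit 154) (nat_lit 1) (nat_lit 5) (nat_lit 8) L43134 (by decide +kernel)
theorem L43136 : W_5 (nat_lit 4) (nat_lit 0x10002000140013c009e000100020000000000000000000000) (nat_lit 0x0) (nat_lit 0x10000c00000000000200018000400000000000000000) := T_5 (nat_lit 70) (nat_lit 87) (nat_lit 7) (nat_lit 2) (nat_lit 4) L43135 (by decide +kernel)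
theorem L43137 : W_5 (nat_lit 5) (nat_lit 0x2000140013c009e000100020000000000000000000000) (nat_lit 0x0) (nat_lit 0x1000090000c00000000000200018000400000000000000000) := T_5 (nat_lit 192) (nat_lit 175) (nat_lit 4) (nat_lit 5) (nat_lit 11) L43136 (by decide +kernel)
theorem L43138 : W_5 (nat_lit 6) (nat_lit 0x2000100013c009e000100020000000000000000000000) (nat_lit 0x0) (nat_lit 0x100009000cc00000000000200018000400000000000000000) := T_5 (nat_lit 158) (nat_lit 159) (nat_lit 3) (nat_lit 2) (nat_lit 8) L43137 (by decide +kernel)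
theorem L43139 : W_5 (nat_lit 7) (nat_lit 0x2000100013c009e000000020000000000000000000000) (nat_lit 0x0) (nat_lit 0x100009000cc00000000000380018000400000000000000000) := T_5 (nat_lit 104) (nat_lit 103) (nat_lit 0) (nat_lit 5) (nat_lit 7) L43138 (by decide +kernel)
theorem L43140 : W_5 (nat_lit 8) (nat_lit 0x20001000138009e000000020000000000000000000000) (nat_lit 0x0) (nat_lit 0x100009000cc00060000000380018000400000000000000000) := T_5 (nat_lit 138) (nat_lit 137) (nat_lit 2) (nat_lit 1) (nat_lit 8) L43139 (by decide +kernel)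
theorem L43141 : W_5 (nat_lit 9) (nat_lit 0x20001000138009c000000020000000000000000000000) (nat_lit 0x0) (nat_lit 0x100009000cc00060003000380018000400000000000000000) := T_5 (nat_lit 121) (nat_lit 120) (nat_lit 3) (nat_lit 1) (nat_lit 7) L43140 (by decide +kernel)
theorem L43142 : W_5 (nat_lit 10) (nat_lit 0x20001000130009c000000020000000000000000000000) (nat_lit 0x0) (nat_lit 0x12000b000dc000e0003000380018000400000000000000000) := Q_5 (nat_lit 139) (C_5 L43117 (C_5 L43122 (C_5 L43126 (C_5 L43128 (C_5 L43133 (C_5 L43141 N_5)))))) (by decide +kernel)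
theorem L43143 : W_5 (nat_lit 2) (nat_lit 0x2000100013800bd000200020000000000000000000000) (nat_lit 0x0) (nat_lit 0x10001800000000000000000) := D_5 (nat_lit 88) (nat_lit 71) (nat_lit 72) (nat_lit 7) (nat_lit 3) (nat_lit 4) (nat_lit 6) (nat_lit 3) (nat_lit 8) (by decide +kernel)
theorem L43144 : W_5 (nat_lit 3) (nat_lit 0x2000100013800bd000000020000000000000000000000) (nat_lit 0x0) (nat_lit 0x300010001800000000000000000) := T_5 (nat_lit 105) (nat_lit 104) (nat_lit 0) (nat_lit 6) (nat_lit 7) L43143 (by decide +kernel)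
theorem L43145 : W_5 (nat_lit 4) (nat_lit 0x2000100013000bd000000020000000000000000000000) (nat_lit 0x0) (nat_lit 0xc0000000300010001800000000000000000) := T_5 (nat_lit 139) (nat_lit 138) (nat_lit 2) (nat_lit 2) (nat_lit 8) L43144 (by decide +kernel)
theorem L43146 : W_5 (nat_lit 5) (nat_lit 0x20001000130009d000000020000000000000000000000) (nat_lit 0x0) (nat_lit 0xc0060000300010001800000000000000000) := T_5 (nat_lit 125) (nat_lit 126) (nat_lit 1) (nat_lit 8) (nat_lit 7) L43145 (by decide +kernel)
theorem L43147 : W_5 (nat_lit 6) (nat_lit 0x20001000130009c000000020000000000000000000000) (nat_lit 0x0) (nat_lit 0xc0063000300010001800000000000000000) := T_5 (nat_lit 120) (nat_lit 121) (nat_lit 3) (nat_lit 1) (nat_lit 7) L43146 (by decide +kernel)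
theorem L43148 : W_5 (nat_lit 2) (nat_lit 0x2000100013000be000000020000000000000000000000) (nat_lit 0x0) (nat_lit 0x380000000000000000000000000) := D_5 (nat_lit 104) (nat_lit 105) (nat_lit 103) (nat_lit 0) (nat_lit 6) (nat_lit 7) (nat_lit 0) (nat_lit 5) (nat_lit 7) (by decide +kernel)
theorem L43149 : W_5 (nat_lit 3) (nat_lit 0x2000100013000bc000000020000000000000000000000) (nat_lit 0x0) (nat_lit 0x3000380000000000000000000000000) := T_5 (nat_lit 121) (nat_lit 120) (nat_lit 3) (nat_lit 1) (nat_lit 7) L43148 (by decide +kernel)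
theorem L43150 : W_5 (nat_lit 4) (nat_lit 0x20001000130009c000000020000000000000000000000) (nat_lit 0x0) (nat_lit 0x63000380000000000000000000000000) := T_5 (nat_lit 125) (nat_lit 126) (nat_lit 1) (nat_lit 8) (nat_lit 7) L43149 (by decide +kernel)
theorem L43151 : W_5 (nat_lit 4) (nat_lit 0x2000100013000bc000000020000000000000000000000) (nat_lit 0x0) (nat_lit 0xc0000000300010001800000000000000000) := T_5 (nat_lit 139) (nat_lit 138) (nat_lit 2) (nat_lit 2) (nat_lit 8) L42966 (by decide +kernel)
theorem L43152 : W_5 (nat_lit 5) (nat_lit 0x20001000130009c000000020000000000000000000000) (nat_lit 0x0) (nat_lit 0xc0060000300010001800000000000000000) := T_5 (nat_lit 125) (nat_lit 126) (nat_lit 1) (nat_lit 8) (nat_lit 7) L43151 (by decide +kernel)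
theorem L43153 : W_5 (nat_lit 2) (nat_lit 0x2000100013000be000000020000000000000000000000) (nat_lit 0x0) (nat_lit 0xe0000000000000000000000000000000000) := D_5 (nat_lit 138) (nat_lit 139) (nat_lit 137) (nat_lit 2) (nat_lit 2) (nat_lit 8) (nat_lit 1) (nat_lit 5) (nat_lit 7) (by decide +kernel)
theorem L43154 : W_5 (nat_lit 3) (nat_lit 0x2000100013000bc000000020000000000000000000000) (nat_lit 0x0) (nat_lit 0xe0003000000000000000000000000000000) := T_5 (nat_lit 121) (nat_lit 120) (nat_lit 3) (nat_lit 1) (nat_lit 7) L43153 (by decide +kernel)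
theorem L43155 : W_5 (nat_lit 4) (nat_lit 0x20001000130009c000000020000000000000000000000) (nat_lit 0x0) (nat_lit 0xe0063000000000000000000000000000000) := T_5 (nat_lit 125) (nat_lit 126) (nat_lit 1) (nat_lit 8) (nat_lit 7) L43154 (by decide +kernel)
theorem L43156 : W_5 (nat_lit 11) (nat_lit 0x200010001300098000000020000000000000000000000) (nat_lit 0x0) (nat_lit 0x12000b000dc000e0067000380018001c00000000000000000) := Q_5 (nat_lit 122) (C_5 L43142 (C_5 L43147 (C_5 L43150 (C_5 L43152 (C_5 L43155 N_5))))) (by decide +kernel)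
theorem L43157 : W_5 (nat_lit 2) (nat_lit 0x200010001300098000000020000000000000000000000) (nat_lit 0x0) (nat_lit 0x4000000000000400000001000000000000000000) := D_5 (nat_lit 106) (nat_lit 158) (nat_lit 72) (nat_lit 7) (nat_lit 4) (nat_lit 5) (nat_lit 7) (nat_lit 4) (nat_lit 4) (by decide +kernel)
theorem L43158 : W_5 (nat_lit 9) (nat_lit 0x2000100013000d8000000020000000000000000000000) (nat_lit 0x0) (nat_lit 0x1c000e0007000700050003800000000000000000) := T_5 (nat_lit 106) (nat_lit 72) (nat_lit 7) (nat_lit 4) (nat_lit 4) L42678 (by decide +kernel)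
theorem L43159 : W_5 (nat_lit 10) (nat_lit 0x200010001300098000000020000000000000000000000) (nat_lit 0x0) (nat_lit 0x1c000e0067000700050003800000000000000000) := T_5 (nat_lit 126) (nat_lit 125) (nat_lit 1) (nat_lit 8) (nat_lit 7) L43158 (by decide +kernel)
theorem L43160 : W_5 (nat_lit 2) (nat_lit 0x200010001380098000400070000000000000000000000) (nat_lit 0x0) (nat_lit 0x60020000000000000000000000000000000) := D_5 (nat_lit 138) (nat_lit 125) (nat_lit 137) (nat_lit 2) (nat_lit 2) (nat_lit 8) (nat_lit 2) (nat_lit 1) (nat_lit 8) (by decide +kernel)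
theorem L43161 : W_5 (nat_lit 3) (nat_lit 0x200010001300098000400070000000000000000000000) (nat_lit 0x0) (nat_lit 0x10000e0020000000000000000000000000000000) := T_5 (nat_lit 139) (nat_lit 156) (nat_lit 5) (nat_lit 4) (nat_lit 5) L43160 (by decide +kernel)
theorem L43162 : W_5 (nat_lit 4) (nat_lit 0x200010001300098000400030000000000000000000000) (nat_lit 0x0) (nat_lit 0x10000e0020000000040002000000000000000000) := T_5 (nat_lit 90) (nat_lit 73) (nat_lit 6) (nat_lit 4) (nat_lit 8) L43161 (by decide +kernel)
theorem L43163 : W_5 (nat_lit 5) (nat_lit 0x200010001300098000400020000000000000000000000) (nat_lit 0x0) (nat_lit 0x10000e0020000000050002800000000000000000) := T_5 (nat_lit 88) (nat_lit 71) (nat_lit 4) (nat_lit 4) (nat_lit 8) L43162 (by decide +kernel)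
theorem L43164 : W_5 (nat_lit 6) (nat_lit 0x200010001300098000000020000000000000000000000) (nat_lit 0x0) (nat_lit 0x50000e0020000400050002800000000000000000) := T_5 (nat_lit 106) (nat_lit 158) (nat_lit 7) (nat_lit 4) (nat_lit 5) L43163 (by decide +kernel)
theorem L43165 : W_5 (nat_lit 12) (nat_lit 0x200010001300098000000000000000000000000000000) (nat_lit 0x0) (nat_lit 0x12000b000dc000e0067000780078003c00000000000000000) := Q_5 (nat_lit 89) (C_5 L43156 (C_5 L43157 (C_5 L43159 (C_5 L43164 N_5)))) (by decide +kernel)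
theorem L43166 : W_5 (nat_lit 9) (nat_lit 0x200014001300098000000000000000000000000000000) (nat_lit 0x0) (nat_lit 0x280000e0067003780030001800000000000000000) := Q_5 (nat_lit 122) (C_5 L43005 (C_5 L42977 (C_5 L42996 (C_5 L42822 N_5)))) (by decide +kernel)
theorem L43167 : W_5 (nat_lit 10) (nat_lit 0x200010001300098000000000000000000000000000000) (nat_lit 0x0) (nat_lit 0x100008002c0000e0067003780030001800000000000000000) := Q_5 (nat_lit 158) (C_5 L42788 (C_5 L43166 (C_5 L42786 N_5))) (by decide +kernel)
theorem L43168 : W_5 (nat_lit 2) (nat_lit 0x200014001300098000800040000000000000000000000) (nat_lit 0x0) (nat_lit 0x1000080004000000000000000000) := D_5 (nat_lit 91) (nat_lit 108) (nat_lit 74) (nat_lit 6) (nat_lit 5) (nat_lit 9) (nat_lit 6) (nat_lit 5) (nat_lit 8) (by decide +kernel)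
theorem L43169 : W_5 (nat_lit 3) (nat_lit 0x200014001300098000800000000000000000000000000) (nat_lit 0x0) (nat_lit 0x10000c0006000000000000000000) := T_5 (nat_lit 90) (nat_lit 73) (nat_lit 5) (nat_lit 5) (nat_lit 4) L43168 (by decide +kernel)
theorem L43170 : W_5 (nat_lit 2) (nat_lit 0x200010001300098000e000c0000000000000000000000) (nat_lit 0x0) (nat_lit 0x1000300000000000000000000000) := D_5 (nat_lit 92) (nat_lit 93) (nat_lit 108) (nat_lit 1) (nat_lit 8) (nat_lit 5) (nat_lit 2) (nat_lit 3) (nat_lit 6) (by decide +kernel)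
theorem L43171 : W_5 (nat_lit 3) (nat_lit 0x200010001300098000c000c0000000000000000000000) (nat_lit 0x0) (nat_lit 0x1300300000000000000000000000) := T_5 (nat_lit 105) (nat_lit 104) (nat_lit 2) (nat_lit 2) (nat_lit 6) L43170 (by decide +kernel)
theorem L43172 : W_5 (nat_lit 4) (nat_lit 0x200010001300098000c00040000000000000000000000) (nat_lit 0x0) (nat_lit 0x1300380004000000000000000000) := T_5 (nat_lit 91) (nat_lit 74) (nat_lit 6) (nat_lit 5) (nat_lit 8) L43171 (by decide +kernel)
theorem L43173 : W_5 (nat_lit 5) (nat_lit 0x200010001300098000c00000000000000000000000000) (nat_lit 0x0) (nat_lit 0x13003c0006000000000000000000) := T_5 (nat_lit 90) (nat_lit 73) (nat_lit 5) (nat_lit 5) (nat_lit 4) L43172 (by decide +kernel)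
theorem L43174 : W_5 (nat_lit 2) (nat_lit 0x20001000130009e000d00040000000000000000000000) (nat_lit 0x0) (nat_lit 0x200080004000000000000000000) := D_5 (nat_lit 91) (nat_lit 105) (nat_lit 74) (nat_lit 2) (nat_lit 2) (nat_lit 6) (nat_lit 6) (nat_lit 5) (nat_lit 8) (by decide +kernel)
theorem L43175 : W_5 (nat_lit 3) (nat_lit 0x20001000130009e000d00000000000000000000000000) (nat_lit 0x0) (nat_lit 0x2000c0006000000000000000000) := T_5 (nat_lit 90) (nat_lit 73) (nat_lit 5) (nat_lit 5) (nat_lit 4) L43174 (by decide +kernel)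
theorem L43176 : W_5 (nat_lit 4) (nat_lit 0x20001000130009e000500000000000000000000000000) (nat_lit 0x0) (nat_lit 0x1a000c0006000000000000000000) := T_5 (nat_lit 107) (nat_lit 108) (nat_lit 2) (nat_lit 2) (nat_lit 7) L43175 (by decide +kernel)
theorem L43177 : W_5 (nat_lit 5) (nat_lit 0x20001000130009e000400000000000000000000000000) (nat_lit 0x0) (nat_lit 0x1b800c0006000000000000000000) := T_5 (nat_lit 104) (nat_lit 103) (nat_lit 0) (nat_lit 5) (nat_lit 7) L43176 (by decide +kernel)
theorem L43178 : W_5 (nat_lit 6) (nat_lit 0x20001000130009c000400000000000000000000000000) (nat_lit 0x0) (nat_lit 0x3001b800c0006000000000000000000) := T_5 (nat_lit 121) (nat_lit 120) (nat_lit 3) (nat_lit 1) (nat_lit 7) L43177 (by decide +kernel)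
theorem L43179 : W_5 (nat_lit 2) (nat_lit 0x20001000134009a000f00000000000000000000000000) (nat_lit 0x0) (nat_lit 0xc0002000000000000000000) := D_5 (nat_lit 90) (nat_lit 91) (nat_lit 73) (nat_lit 2) (nat_lit 2) (nat_lit 6) (nat_lit 5) (nat_lit 5) (nat_lit 4) (by decide +kernel)
theorem L43180 : W_5 (nat_lit 3) (nat_lit 0x20001000134009a000700000000000000000000000000) (nat_lit 0x0) (nat_lit 0x10008000c0002000000000000000000) := T_5 (nat_lit 107) (nat_lit 120) (nat_lit 1) (nat_lit 5) (nat_lit 6) L43179 (by decide +kernel)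
theorem L43181 : W_5 (nat_lit 2) (nat_lit 0x2000108013c009c000200020000000000000000000000) (nat_lit 0x0) (nat_lit 0x200010001000000000000000000000000000000000000000) := D_5 (nat_lit 172) (nat_lit 156) (nat_lit 189) (nat_lit 5) (nat_lit 3) (nat_lit 6) (nat_lit 6) (nat_lit 2) (nat_lit 11) (by decide +kernel)
theorem L43182 : W_5 (nat_lit 2) (nat_lit 0x2000100013000980018000e0000000000000000000000) (nat_lit 0x0) (nat_lit 0x2000018000000000000000000000) := D_5 (nat_lit 88) (nat_lit 87) (nat_lit 109) (nat_lit 3) (nat_lit 2) (nat_lit 5) (nat_lit 3) (nat_lit 3) (nat_lit 5) (by decide +kernel)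
theorem L43183 : W_5 (nat_lit 3) (nat_lit 0x2000100013000980008000e0000000000000000000000) (nat_lit 0x0) (nat_lit 0x4000000000003000018000000000000000000000) := T_5 (nat_lit 108) (nat_lit 158) (nat_lit 6) (nat_lit 5) (nat_lit 9) L43182 (by decide +kernel)
theorem L43184 : W_5 (nat_lit 4) (nat_lit 0x200010001300098000800060000000000000000000000) (nat_lit 0x0) (nat_lit 0x4000000000003000098004000000000000000000) := T_5 (nat_lit 91) (nat_lit 74) (nat_lit 6) (nat_lit 5) (nat_lit 8) L43183 (by decide +kernel)
theorem L43185 : W_5 (nat_lit 5) (nat_lit 0x200010001300098000800040000000000000000000000) (nat_lit 0x0) (nat_lit 0x40000000000030000b8005000000000000000000) := T_5 (nat_lit 89) (nat_lit 72) (nat_lit 4) (nat_lit 5) (nat_lit 8) L43184 (by decide +kernel)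
theorem L43186 : W_5 (nat_lit 6) (nat_lit 0x200010001300098000800000000000000000000000000) (nat_lit 0x0) (nat_lit 0x40000000000030000f8007000000000000000000) := T_5 (nat_lit 90) (nat_lit 73) (nat_lit 5) (nat_lit 5) (nat_lit 4) L43185 (by decide +kernel)
theorem L43187 : W_5 (nat_lit 2) (nat_lit 0x2000140013000980008000c0000000000000000000000) (nat_lit 0x0) (nat_lit 0x1000080000000000000000400000000000000000000000000) := D_5 (nat_lit 175) (nat_lit 106) (nat_lit 192) (nat_lit 4) (nat_lit 5) (nat_lit 10) (nat_lit 4) (nat_lit 5) (nat_lit 11) (by decide +kernel)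
theorem L43188 : W_5 (nat_lit 3) (nat_lit 0x2000100013000980008000c0000000000000000000000) (nat_lit 0x0) (nat_lit 0x1000080004000000000001400000000000000000000000000) := T_5 (nat_lit 158) (nat_lit 108) (nat_lit 6) (nat_lit 5) (nat_lit 9) L43187 (by decide +kernel)
theorem L43189 : W_5 (nat_lit 4) (nat_lit 0x200010001300098000800040000000000000000000000) (nat_lit 0x0) (nat_lit 0x1000080004000000000001400080004000000000000000000) := T_5 (nat_lit 91) (nat_lit 74) (nat_lit 6) (nat_lit 5) (nat_lit 8) L43188 (by decide +kernel)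
theorem L43190 : W_5 (nat_lit 5) (nat_lit 0x200010001300098000800000000000000000000000000) (nat_lit 0x0) (nat_lit 0x10000800040000000000014000c0006000000000000000000) := T_5 (nat_lit 90) (nat_lit 73) (nat_lit 5) (nat_lit 5) (nat_lit 4) L43189 (by decide +kernel)
theorem L43191 : W_5 (nat_lit 2) (nat_lit 0x2000108013c009a002c00034000000000000000000000) (nat_lit 0x0) (nat_lit 0x4000300000000000000000000000000) := D_5 (nat_lit 105) (nat_lit 122) (nat_lit 104) (nat_lit 5) (nat_lit 3) (nat_lit 5) (nat_lit 6) (nat_lit 2) (nat_lit 9) (by decide +kernel)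
theorem L43192 : W_5 (nat_lit 3) (nat_lit 0x2000100013c009a002c00034000000000000000000000) (nat_lit 0x0) (nat_lit 0xc00000004000300000000000000000000000000) := T_5 (nat_lit 155) (nat_lit 154) (nat_lit 1) (nat_lit 5) (nat_lit 8) L43191 (by decide +kernel)
theorem L43193 : W_5 (nat_lit 4) (nat_lit 0x2000100013c0098002c00034000000000000000000000) (nat_lit 0x0) (nat_lit 0xc00000007000300000000000000000000000000) := T_5 (nat_lit 121) (nat_lit 120) (nat_lit 0) (nat_lit 5) (nat_lit 8) L43192 (by decide +kernel)
theorem L43194 : W_5 (nat_lit 5) (nat_lit 0x200010001380098002c00034000000000000000000000) (nat_lit 0x0) (nat_lit 0xc00060007000300000000000000000000000000) := T_5 (nat_lit 138) (nat_lit 137) (nat_lit 2) (nat_lit 1) (nat_lit 8) L43193 (by decide +kernel)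
theorem L43195 : W_5 (nat_lit 6) (nat_lit 0x200010001300098002c00034000000000000000000000) (nat_lit 0x0) (nat_lit 0x1c000e0007000300000000000000000000000000) := T_5 (nat_lit 139) (nat_lit 156) (nat_lit 5) (nat_lit 4) (nat_lit 5) L43194 (by decide +kernel)
theorem L43196 : W_5 (nat_lit 7) (nat_lit 0x200010001300098000c00034000000000000000000000) (nat_lit 0x0) (nat_lit 0x1c000e0007003300000000000000000000000000) := T_5 (nat_lit 109) (nat_lit 108) (nat_lit 0) (nat_lit 7) (nat_lit 6) L43195 (by decide +kernel)
theorem L43197 : W_5 (nat_lit 8) (nat_lit 0x200010001300098000c00030000000000000000000000) (nat_lit 0x0) (nat_lit 0x1c000e000700330000c000000000000000000000) := T_5 (nat_lit 86) (nat_lit 87) (nat_lit 3) (nat_lit 1) (nat_lit 5) L43196 (by decide +kernel)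
theorem L43198 : W_5 (nat_lit 9) (nat_lit 0x200010001300098000c00020000000000000000000000) (nat_lit 0x0) (nat_lit 0x1c000e000700330001c000800000000000000000) := T_5 (nat_lit 88) (nat_lit 71) (nat_lit 4) (nat_lit 4) (nat_lit 8) L43197 (by decide +kernel)
theorem L43199 : W_5 (nat_lit 10) (nat_lit 0x200010001300098000c00000000000000000000000000) (nat_lit 0x0) (nat_lit 0x1c000e000700330003c001800000000000000000) := T_5 (nat_lit 89) (nat_lit 72) (nat_lit 7) (nat_lit 4) (nat_lit 4) L43198 (by decide +kernel)
theorem L43200 : W_5 (nat_lit 2) (nat_lit 0x2000100013c0098001c00034002000000000000000000) (nat_lit 0x0) (nat_lit 0x7000000000000000000000000000000) := D_5 (nat_lit 121) (nat_lit 122) (nat_lit 120) (nat_lit 2) (nat_lit 2) (nat_lit 7) (nat_lit 0) (nat_lit 5) (nat_lit 8) (by decide +kernel)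
theorem L43201 : W_5 (nat_lit 3) (nat_lit 0x200010001380098001c00034002000000000000000000) (nat_lit 0x0) (nat_lit 0x60007000000000000000000000000000000) := T_5 (nat_lit 138) (nat_lit 137) (nat_lit 2) (nat_lit 1) (nat_lit 8) L43200 (by decide +kernel)
theorem L43202 : W_5 (nat_lit 4) (nat_lit 0x200010001300098001c00034002000000000000000000) (nat_lit 0x0) (nat_lit 0x10000e0007000000000000000000000000000000) := T_5 (nat_lit 139) (nat_lit 156) (nat_lit 5) (nat_lit 4) (nat_lit 5) L43201 (by decide +kernel)
theorem L43203 : W_5 (nat_lit 5) (nat_lit 0x200010001300098000c00034002000000000000000000) (nat_lit 0x0) (nat_lit 0x10000e0007003000000000000000000000000000) := T_5 (nat_lit 108) (nat_lit 109) (nat_lit 0) (nat_lit 7) (nat_lit 6) L43202 (by decide +kernel)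
theorem L43204 : W_5 (nat_lit 6) (nat_lit 0x200010001300098000c00030002000000000000000000) (nat_lit 0x0) (nat_lit 0x10000e000700300000c000000000000000000000) := T_5 (nat_lit 86) (nat_lit 87) (nat_lit 3) (nat_lit 1) (nat_lit 5) L43203 (by decide +kernel)
theorem L43205 : W_5 (nat_lit 7) (nat_lit 0x200010001300098000c00020002000000000000000000) (nat_lit 0x0) (nat_lit 0x10000e000700300001c000800000000000000000) := T_5 (nat_lit 88) (nat_lit 71) (nat_lit 4) (nat_lit 4) (nat_lit 8) L43204 (by decide +kernel)
theorem L43206 : W_5 (nat_lit 8) (nat_lit 0x200010001300098000c00020000000000000000000000) (nat_lit 0x0) (nat_lit 0x10000e000700300005c002800000000000000000) := T_5 (nat_lit 73) (nat_lit 90) (nat_lit 6) (nat_lit 4) (nat_lit 8) L43205 (by decide +kernel)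
theorem L43207 : W_5 (nat_lit 9) (nat_lit 0x200010001300098000c00000000000000000000000000) (nat_lit 0x0) (nat_lit 0x10000e000700300007c003800000000000000000) := T_5 (nat_lit 89) (nat_lit 72) (nat_lit 7) (nat_lit 4) (nat_lit 4) L43206 (by decide +kernel)
theorem L43208 : W_5 (nat_lit 11) (nat_lit 0x200010001300098000800000000000000000000000000) (nat_lit 0x0) (nat_lit 0x1c000e00070037003fc007800000000000000000) := Q_5 (nat_lit 106) (C_5 L43199 (C_5 L43173 (C_5 L42942 (C_5 L43207 N_5)))) (by decide +kernel)
theorem L43209 : W_5 (nat_lit 4) (nat_lit 0x200010001300098000c00060000000000000000000000) (nat_lit 0x0) (nat_lit 0x100008000000100001c000800000000000000000) := T_5 (nat_lit 139) (nat_lit 156) (nat_lit 5) (nat_lit 4) (nat_lit 5) L42227 (by decide +kernel)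
theorem L43210 : W_5 (nat_lit 5) (nat_lit 0x200010001300098000800060000000000000000000000) (nat_lit 0x0) (nat_lit 0x500008000000140001c000800000000000000000) := T_5 (nat_lit 106) (nat_lit 158) (nat_lit 7) (nat_lit 4) (nat_lit 5) L43209 (by decide +kernel)
theorem L43211 : W_5 (nat_lit 6) (nat_lit 0x200010001300098000800040000000000000000000000) (nat_lit 0x0) (nat_lit 0x500008000000140003c001800000000000000000) := T_5 (nat_lit 89) (nat_lit 72) (nat_lit 4) (nat_lit 5) (nat_lit 8) L43210 (by decide +kernel)
theorem L43212 : W_5 (nat_lit 7) (nat_lit 0x200010001300098000800000000000000000000000000) (nat_lit 0x0) (nat_lit 0x500008000000140007c003800000000000000000) := T_5 (nat_lit 90) (nat_lit 73) (nat_lit 5) (nat_lit 5) (nat_lit 4) L43211 (by decide +kernel)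
theorem L43213 : W_5 (nat_lit 2) (nat_lit 0x200010001300098000c00000000000000000000000000) (nat_lit 0x0) (nat_lit 0x80004000000000000000020000000000000000000000) := D_5 (nat_lit 158) (nat_lit 175) (nat_lit 89) (nat_lit 4) (nat_lit 5) (nat_lit 10) (nat_lit 7) (nat_lit 4) (nat_lit 5) (by decide +kernel)
theorem L43214 : W_5 (nat_lit 2) (nat_lit 0x200014001300098001c00000000000000000000000000) (nat_lit 0x0) (nat_lit 0x6002000000000000000000000000000) := D_5 (nat_lit 122) (nat_lit 121) (nat_lit 109) (nat_lit 2) (nat_lit 2) (nat_lit 7) (nat_lit 1) (nat_lit 7) (nat_lit 6) (by decide +kernel)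
theorem L43215 : W_5 (nat_lit 3) (nat_lit 0x200014001300098000c00000000000000000000000000) (nat_lit 0x0) (nat_lit 0x6003000080000000000000000000000) := T_5 (nat_lit 108) (nat_lit 91) (nat_lit 6) (nat_lit 5) (nat_lit 9) L43214 (by decide +kernel)
theorem L43216 : W_5 (nat_lit 4) (nat_lit 0x200010001300098000c00000000000000000000000000) (nat_lit 0x0) (nat_lit 0x80004000000006003000080000000000000000000000) := T_5 (nat_lit 158) (nat_lit 175) (nat_lit 4) (nat_lit 5) (nat_lit 10) L43215 (by decide +kernel)
theorem L43217 : W_5 (nat_lit 11) (nat_lit 0x200010001300098000800000000000000000000000000) (nat_lit 0x0) (nat_lit 0x80005c000e00070037000bc001800000000000000000) := Q_5 (nat_lit 106) (C_5 L43213 (C_5 L43199 (C_5 L43216 N_5))) (by decide +kernel)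
theorem L43218 : W_5 (nat_lit 6) (nat_lit 0x200010001300098000800060000000000000000000000) (nat_lit 0x0) (nat_lit 0x400000000000070019c004800000000000000000) := T_5 (nat_lit 106) (nat_lit 158) (nat_lit 7) (nat_lit 4) (nat_lit 5) L42940 (by decide +kernel)
theorem L43219 : W_5 (nat_lit 7) (nat_lit 0x200010001300098000800040000000000000000000000) (nat_lit 0x0) (nat_lit 0x40000000000007001bc005800000000000000000) := T_5 (nat_lit 89) (nat_lit 72) (nat_lit 4) (nat_lit 5) (nat_lit 8) L43218 (by decide +kernel)
theorem L43220 : W_5 (nat_lit 8) (nat_lit 0x200010001300098000800000000000000000000000000) (nat_lit 0x0) (nat_lit 0x40000000000007001fc007800000000000000000) := T_5 (nat_lit 90) (nat_lit 73) (nat_lit 5) (nat_lit 5) (nat_lit 4) L43219 (by decide +kernel)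
theorem L43221 : W_5 (nat_lit 12) (nat_lit 0x200010001300098000000000000000000000000000000) (nat_lit 0x0) (nat_lit 0x1000080005c000e0007003f003fc007800000000000000000) := Q_5 (nat_lit 107) (C_5 L43186 (C_5 L43190 (C_5 L43208 (C_5 L43212 (C_5 L43217 (C_5 L43220 N_5)))))) (by decide +kernel)
theorem L43222 : W_5 (nat_lit 14) (nat_lit 0x200010001300090000000000000000000000000000000) (nat_lit 0x0) (nat_lit 0x1e000f002dc008e006f003fc03fc00fc00000000000000000) := Q_5 (nat_lit 123) (C_5 L42669 (C_5 L42765 (C_5 L42824 (C_5 L42883 (C_5 L42917 (C_5 L42950 (C_5 L42963 (C_5 L43007 (C_5 L43041 (C_5 L43098 (C_5 L43102 (C_5 L43165 (C_5 L43167 (C_5 L43221 N_5)))))))))))))) (by decide +kernel)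
theorem L43223 : W_5 (nat_lit 2) (nat_lit 0x200014001300090000800040000000000000000000000) (nat_lit 0x0) (nat_lit 0x400020001000000000000000000) := D_5 (nat_lit 89) (nat_lit 106) (nat_lit 72) (nat_lit 4) (nat_lit 5) (nat_lit 9) (nat_lit 4) (nat_lit 5) (nat_lit 8) (by decide +kernel)
theorem L43224 : W_5 (nat_lit 2) (nat_lit 0x200034001300090000800040002000000000000000000) (nat_lit 0x0) (nat_lit 0x20001000080000000000000) := D_5 (nat_lit 72) (nat_lit 89) (nat_lit 55) (nat_lit 4) (nat_lit 5) (nat_lit 8) (nat_lit 4) (nat_lit 5) (nat_lit 7) (by decide +kernel)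
theorem L43225 : W_5 (nat_lit 3) (nat_lit 0x200034001300090000800040000000000000000000000) (nat_lit 0x0) (nat_lit 0x8000000020003000080000000000000) := T_5 (nat_lit 73) (nat_lit 123) (nat_lit 5) (nat_lit 5) (nat_lit 4) L43224 (by decide +kernel)
theorem L43226 : W_5 (nat_lit 4) (nat_lit 0x200014001300090000800040000000000000000000000) (nat_lit 0x0) (nat_lit 0x28000000008000000020003000080000000000000) := T_5 (nat_lit 161) (nat_lit 159) (nat_lit 0) (nat_lit 8) (nat_lit 9) L43225 (by decide +kernel)
theorem L43227 : W_5 (nat_lit 2) (nat_lit 0x200034001300090000800040002000280000000000000) (nat_lit 0x0) (nat_lit 0x100014000000000) := D_5 (nat_lit 56) (nat_lit 38) (nat_lit 40) (nat_lit 4) (nat_lit 5) (nat_lit 6) (nat_lit 6) (nat_lit 5) (nat_lit 6) (by decide +kernel)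
theorem L43228 : W_5 (nat_lit 3) (nat_lit 0x200034001300090000800040002000080000000000000) (nat_lit 0x0) (nat_lit 0x4000300014000000000) := T_5 (nat_lit 57) (nat_lit 74) (nat_lit 6) (nat_lit 5) (nat_lit 7) L43227 (by decide +kernel)
theorem L43229 : W_5 (nat_lit 4) (nat_lit 0x200034001300090000800040002000000000000000000) (nat_lit 0x0) (nat_lit 0x5000380014000000000) := T_5 (nat_lit 55) (nat_lit 72) (nat_lit 4) (nat_lit 5) (nat_lit 7) L43228 (by decide +kernel)
theorem L43230 : W_5 (nat_lit 5) (nat_lit 0x200034001300090000800040000000000000000000000) (nat_lit 0x0) (nat_lit 0x8000000000007000380014000000000) := T_5 (nat_lit 73) (nat_lit 123) (nat_lit 5) (nat_lit 5) (nat_lit 4) L43229 (by decide +kernel)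
theorem L43231 : W_5 (nat_lit 6) (nat_lit 0x200014001300090000800040000000000000000000000) (nat_lit 0x0) (nat_lit 0x28000000008000000000007000380014000000000) := T_5 (nat_lit 161) (nat_lit 159) (nat_lit 0) (nat_lit 8) (nat_lit 9) L43230 (by decide +kernel)
theorem L43232 : W_5 (nat_lit 2) (nat_lit 0x200014001300098000800040000000000000000000000) (nat_lit 0x0) (nat_lit 0x80000000000000000400020000000000000000000000) := D_5 (nat_lit 106) (nat_lit 89) (nat_lit 175) (nat_lit 7) (nat_lit 4) (nat_lit 5) (nat_lit 4) (nat_lit 5) (nat_lit 10) (by decide +kernel)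
theorem L43233 : W_5 (nat_lit 3) (nat_lit 0x200014001300090000800040000000000000000000000) (nat_lit 0x0) (nat_lit 0x80000000000008000400020002000000000000000000) := T_5 (nat_lit 123) (nat_lit 73) (nat_lit 5) (nat_lit 5) (nat_lit 4) L43232 (by decide +kernel)
theorem L43234 : W_5 (nat_lit 7) (nat_lit 0x200014001300090000800000000000000000000000000) (nat_lit 0x0) (nat_lit 0x80028000000008000400060007000380014000000000) := Q_5 (nat_lit 90) (C_5 L43223 (C_5 L43226 (C_5 L43231 (C_5 L43233 N_5)))) (by decide +kernel)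
theorem L43235 : W_5 (nat_lit 2) (nat_lit 0x2000340013000900008000c0001000000000000000000) (nat_lit 0x0) (nat_lit 0x8000000000002000080000000000000) := D_5 (nat_lit 73) (nat_lit 123) (nat_lit 55) (nat_lit 5) (nat_lit 5) (nat_lit 4) (nat_lit 4) (nat_lit 5) (nat_lit 7) (by decide +kernel)
theorem L43236 : W_5 (nat_lit 3) (nat_lit 0x2000340013000900008000c0000000000000000000000) (nat_lit 0x0) (nat_lit 0x8000000020003000080000000000000) := T_5 (nat_lit 72) (nat_lit 89) (nat_lit 4) (nat_lit 5) (nat_lit 8) L43235 (by decide +kernel)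
theorem L43237 : W_5 (nat_lit 4) (nat_lit 0x200034001300090000800080000000000000000000000) (nat_lit 0x0) (nat_lit 0x8000000060007000080000000000000) := T_5 (nat_lit 90) (nat_lit 74) (nat_lit 6) (nat_lit 5) (nat_lit 8) L43236 (by decide +kernel)
theorem L43238 : W_5 (nat_lit 5) (nat_lit 0x200014001300090000800080000000000000000000000) (nat_lit 0x0) (nat_lit 0x28000000008000000060007000080000000000000) := T_5 (nat_lit 161) (nat_lit 159) (nat_lit 0) (nat_lit 8) (nat_lit 9) L43237 (by decide +kernel)
theorem L43239 : W_5 (nat_lit 6) (nat_lit 0x200014001300090000800000000000000000000000000) (nat_lit 0x0) (nat_lit 0x280000000080010000e0007000080000000000000) := T_5 (nat_lit 91) (nat_lit 108) (nat_lit 6) (nat_lit 5) (nat_lit 9) L43238 (by decide +kernel)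
theorem L43240 : W_5 (nat_lit 2) (nat_lit 0x2000340013000980008000c0000000000000000000000) (nat_lit 0x0) (nat_lit 0x1000080000000000000000400000000000000000000000000) := D_5 (nat_lit 175) (nat_lit 192) (nat_lit 106) (nat_lit 4) (nat_lit 5) (nat_lit 11) (nat_lit 4) (nat_lit 5) (nat_lit 10) (by decide +kernel)
theorem L43241 : W_5 (nat_lit 3) (nat_lit 0x2000340013000900008000c0000000000000000000000) (nat_lit 0x0) (nat_lit 0x1000080000000000008000400000002000000000000000000) := T_5 (nat_lit 123) (nat_lit 73) (nat_lit 5) (nat_lit 5) (nat_lit 4) L43240 (by decide +kernel)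
theorem L43242 : W_5 (nat_lit 4) (nat_lit 0x200034001300090000800080000000000000000000000) (nat_lit 0x0) (nat_lit 0x1000080000000000008000400040006000000000000000000) := T_5 (nat_lit 90) (nat_lit 74) (nat_lit 6) (nat_lit 5) (nat_lit 8) L43241 (by decide +kernel)
theorem L43243 : W_5 (nat_lit 5) (nat_lit 0x200014001300090000800080000000000000000000000) (nat_lit 0x0) (nat_lit 0x1000080028000000008000400040006000000000000000000) := T_5 (nat_lit 161) (nat_lit 159) (nat_lit 0) (nat_lit 8) (nat_lit 9) L43242 (by decide +kernel)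
theorem L43244 : W_5 (nat_lit 6) (nat_lit 0x200014001300090000800000000000000000000000000) (nat_lit 0x0) (nat_lit 0x10000800280000000080014000c0006000000000000000000) := T_5 (nat_lit 91) (nat_lit 108) (nat_lit 6) (nat_lit 5) (nat_lit 9) L43243 (by decide +kernel)
theorem L43245 : W_5 (nat_lit 3) (nat_lit 0x200014001300090001c00000000000000000000000000) (nat_lit 0x0) (nat_lit 0x8000000000000e002000000000000000000000000000) := T_5 (nat_lit 123) (nat_lit 175) (nat_lit 4) (nat_lit 5) (nat_lit 10) L43214 (by decide +kernel)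
theorem L43246 : W_5 (nat_lit 4) (nat_lit 0x200014001300090001800000000000000000000000000) (nat_lit 0x0) (nat_lit 0x8000000000000e002400020000000000000000000000) := T_5 (nat_lit 106) (nat_lit 89) (nat_lit 4) (nat_lit 5) (nat_lit 9) L43245 (by decide +kernel)
theorem L43247 : W_5 (nat_lit 5) (nat_lit 0x200014001300090000800000000000000000000000000) (nat_lit 0x0) (nat_lit 0x8000000000000e0034000a0000000000000000000000) := T_5 (nat_lit 108) (nat_lit 91) (nat_lit 6) (nat_lit 5) (nat_lit 9) L43246 (by decide +kernel)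
theorem L43248 : W_5 (nat_lit 2) (nat_lit 0x200034001300090000800060000000000000000000000) (nat_lit 0x0) (nat_lit 0x1000080004000000000000000000) := D_5 (nat_lit 91) (nat_lit 108) (nat_lit 74) (nat_lit 6) (nat_lit 5) (nat_lit 9) (nat_lit 6) (nat_lit 5) (nat_lit 8) (by decide +kernel)
theorem L43249 : W_5 (nat_lit 3) (nat_lit 0x200034001300090000800020000000000000000000000) (nat_lit 0x0) (nat_lit 0x10000c0005000000000000000000) := T_5 (nat_lit 90) (nat_lit 72) (nat_lit 4) (nat_lit 5) (nat_lit 8) L43248 (by decide +kernel)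
theorem L43250 : W_5 (nat_lit 4) (nat_lit 0x200014001300090000800020000000000000000000000) (nat_lit 0x0) (nat_lit 0x280000000000010000c0005000000000000000000) := T_5 (nat_lit 161) (nat_lit 159) (nat_lit 0) (nat_lit 8) (nat_lit 9) L43249 (by decide +kernel)
theorem L43251 : W_5 (nat_lit 5) (nat_lit 0x200014001300090000800000000000000000000000000) (nat_lit 0x0) (nat_lit 0x280000000000014000e0005000000000000000000) := T_5 (nat_lit 89) (nat_lit 106) (nat_lit 4) (nat_lit 5) (nat_lit 9) L43250 (by decide +kernel)
theorem L43252 : W_5 (nat_lit 8) (nat_lit 0x200014001300090000000000000000000000000000000) (nat_lit 0x0) (nat_lit 0x100008002800000000e003c000e0007000380014000000000) := Q_5 (nat_lit 107) (C_5 L43234 (C_5 L43239 (C_5 L43244 (C_5 L43247 (C_5 L43251 N_5))))) (by decide +kernel)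
theorem L43253 : W_5 (nat_lit 2) (nat_lit 0x20001c0013400900008000a0000000000000000000000) (nat_lit 0x0) (nat_lit 0x40005000000000000000000) := D_5 (nat_lit 90) (nat_lit 72) (nat_lit 74) (nat_lit 4) (nat_lit 5) (nat_lit 8) (nat_lit 6) (nat_lit 5) (nat_lit 8) (by decide +kernel)
theorem L43254 : W_5 (nat_lit 3) (nat_lit 0x20001c001340090000800020000000000000000000000) (nat_lit 0x0) (nat_lit 0x10000c0005000000000000000000) := T_5 (nat_lit 91) (nat_lit 108) (nat_lit 6) (nat_lit 5) (nat_lit 9) L43253 (by decide +kernel)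
theorem L43255 : W_5 (nat_lit 4) (nat_lit 0x20001c001340090000800000000000000000000000000) (nat_lit 0x0) (nat_lit 0x14000e0005000000000000000000) := T_5 (nat_lit 89) (nat_lit 106) (nat_lit 4) (nat_lit 5) (nat_lit 9) L43254 (by decide +kernel)
theorem L43256 : W_5 (nat_lit 5) (nat_lit 0x20001c001340090000000000000000000000000000000) (nat_lit 0x0) (nat_lit 0x100000000000000001c000e0005000000000000000000) := T_5 (nat_lit 107) (nat_lit 176) (nat_lit 7) (nat_lit 5) (nat_lit 6) L43255 (by decide +kernel)
theorem L43257 : W_5 (nat_lit 6) (nat_lit 0x20001c001300090000000000000000000000000000000) (nat_lit 0x0) (nat_lit 0x1000000000c0000001c000e0005000000000000000000) := T_5 (nat_lit 138) (nat_lit 139) (nat_lit 3) (nat_lit 2) (nat_lit 8) L43256 (by decide +kernel)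
theorem L43258 : W_5 (nat_lit 7) (nat_lit 0x200014001300090000000000000000000000000000000) (nat_lit 0x0) (nat_lit 0x1000280000c0000001c000e0005000000000000000000) := T_5 (nat_lit 159) (nat_lit 161) (nat_lit 0) (nat_lit 8) (nat_lit 9) L43257 (by decide +kernel)
theorem L43259 : W_5 (nat_lit 2) (nat_lit 0x280014001300090000000000000000000000000000000) (nat_lit 0x0) (nat_lit 0x1000000000000000008000400000000000000000000000000) := D_5 (nat_lit 123) (nat_lit 106) (nat_lit 192) (nat_lit 4) (nat_lit 5) (nat_lit 10) (nat_lit 4) (nat_lit 5) (nat_lit 11) (by decide +kernel)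
theorem L43260 : W_5 (nat_lit 4) (nat_lit 0x200014001300090000000000000000000000000000000) (nat_lit 0x0) (nat_lit 0x38001c0020000000008000400000000000000000000000000) := Q_5 (nat_lit 175) (C_5 L40599 (C_5 L43259 N_5)) (by decide +kernel)
theorem L43261 : W_5 (nat_lit 2) (nat_lit 0x20001c0013400900008000c0001000000000000000000) (nat_lit 0x0) (nat_lit 0x8000000000002000080000000000000) := D_5 (nat_lit 73) (nat_lit 123) (nat_lit 55) (nat_lit 5) (nat_lit 5) (nat_lit 4) (nat_lit 4) (nat_lit 5) (nat_lit 7) (by decide +kernel)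
theorem L43262 : W_5 (nat_lit 3) (nat_lit 0x20001c0013400900008000c0000000000000000000000) (nat_lit 0x0) (nat_lit 0x8000000020003000080000000000000) := T_5 (nat_lit 72) (nat_lit 89) (nat_lit 4) (nat_lit 5) (nat_lit 8) L43261 (by decide +kernel)
theorem L43263 : W_5 (nat_lit 4) (nat_lit 0x20001c001340090000800080000000000000000000000) (nat_lit 0x0) (nat_lit 0x8000000060007000080000000000000) := T_5 (nat_lit 90) (nat_lit 74) (nat_lit 6) (nat_lit 5) (nat_lit 8) L43262 (by decide +kernel)
theorem L43264 : W_5 (nat_lit 5) (nat_lit 0x20001c001340090000800000000000000000000000000) (nat_lit 0x0) (nat_lit 0x80010000e0007000080000000000000) := T_5 (nat_lit 91) (nat_lit 108) (nat_lit 6) (nat_lit 5) (nat_lit 9) L43263 (by decide +kernel)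
theorem L43265 : W_5 (nat_lit 6) (nat_lit 0x20001c001340090000000000000000000000000000000) (nat_lit 0x0) (nat_lit 0x1000000000000080018000e0007000080000000000000) := T_5 (nat_lit 107) (nat_lit 176) (nat_lit 7) (nat_lit 5) (nat_lit 6) L43264 (by decide +kernel)
theorem L43266 : W_5 (nat_lit 7) (nat_lit 0x20001c001300090000000000000000000000000000000) (nat_lit 0x0) (nat_lit 0x1000000000c00080018000e0007000080000000000000) := T_5 (nat_lit 138) (nat_lit 139) (nat_lit 3) (nat_lit 2) (nat_lit 8) L43265 (by decide +kernel)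
theorem L43267 : W_5 (nat_lit 8) (nat_lit 0x200014001300090000000000000000000000000000000) (nat_lit 0x0) (nat_lit 0x1000280000c00080018000e0007000080000000000000) := T_5 (nat_lit 159) (nat_lit 161) (nat_lit 0) (nat_lit 8) (nat_lit 9) L43266 (by decide +kernel)
theorem L43268 : W_5 (nat_lit 2) (nat_lit 0x3c0014001300090000000000000000000000000000000) (nat_lit 0x0) (nat_lit 0x20008000000000000800000000000000000000000000) := D_5 (nat_lit 159) (nat_lit 173) (nat_lit 107) (nat_lit 2) (nat_lit 3) (nat_lit 10) (nat_lit 7) (nat_lit 5) (nat_lit 6) (by decide +kernel)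
theorem L43269 : W_5 (nat_lit 3) (nat_lit 0x2c0014001300090000000000000000000000000000000) (nat_lit 0x0) (nat_lit 0x2000120008000000000000800000000000000000000000000) := T_5 (nat_lit 176) (nat_lit 193) (nat_lit 7) (nat_lit 5) (nat_lit 7) L43268 (by decide +kernel)
theorem L43270 : W_5 (nat_lit 4) (nat_lit 0x280014001300090000000000000000000000000000000) (nat_lit 0x0) (nat_lit 0x2800160008000000000000800000000000000000000000000) := T_5 (nat_lit 174) (nat_lit 191) (nat_lit 5) (nat_lit 5) (nat_lit 7) L43269 (by decide +kernel)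
theorem L43271 : W_5 (nat_lit 5) (nat_lit 0x200014001300090000000000000000000000000000000) (nat_lit 0x0) (nat_lit 0x38001e0008000000008000c00000000000000000000000000) := Q_5 (nat_lit 175) (C_5 L43270 (C_5 L43259 N_5)) (by decide +kernel)
theorem L43272 : W_5 (nat_lit 9) (nat_lit 0x200010001300090000000000000000000000000000000) (nat_lit 0x0) (nat_lit 0x38001e002c0000c000e003c000e0007000380014000000000) := Q_5 (nat_lit 158) (C_5 L43252 (C_5 L43258 (C_5 L43260 (C_5 L43267 (C_5 L43271 N_5))))) (by decide +kernel)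
theorem L43273 : W_5 (nat_lit 2) (nat_lit 0x20001000138009c000800020000000000000000000000) (nat_lit 0x0) (nat_lit 0x3001000000000000000000000000000) := D_5 (nat_lit 121) (nat_lit 120) (nat_lit 108) (nat_lit 3) (nat_lit 1) (nat_lit 7) (nat_lit 2) (nat_lit 2) (nat_lit 7) (by decide +kernel)
theorem L43274 : W_5 (nat_lit 6) (nat_lit 0x200010001380098000800020000000000000000000000) (nat_lit 0x0) (nat_lit 0x1000000067001380018001c00000000000000000) := Q_5 (nat_lit 122) (C_5 L43110 (C_5 L43106 (C_5 L43273 N_5))) (by decide +kernel)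
theorem L43275 : W_5 (nat_lit 2) (nat_lit 0x2c00140013800d80008000e0000000000000000000000) (nat_lit 0x0) (nat_lit 0x2000100020000000000000000000000000000000000000000) := D_5 (nat_lit 176) (nat_lit 161) (nat_lit 193) (nat_lit 2) (nat_lit 4) (nat_lit 10) (nat_lit 7) (nat_lit 5) (nat_lit 7) (by decide +kernel)
theorem L43276 : W_5 (nat_lit 3) (nat_lit 0x2800140013800d80008000e0000000000000000000000) (nat_lit 0x0) (nat_lit 0x2800140020000000000000000000000000000000000000000) := T_5 (nat_lit 174) (nat_lit 191) (nat_lit 5) (nat_lit 5) (nat_lit 7) L43275 (by decide +kernel)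
theorem L43277 : W_5 (nat_lit 4) (nat_lit 0x2000140013800d80008000e0000000000000000000000) (nat_lit 0x0) (nat_lit 0x38001c0020000000000000000000000000000000000000000) := T_5 (nat_lit 175) (nat_lit 192) (nat_lit 4) (nat_lit 5) (nat_lit 11) L43276 (by decide +kernel)
theorem L43278 : W_5 (nat_lit 5) (nat_lit 0x2000100013800d80008000e0000000000000000000000) (nat_lit 0x0) (nat_lit 0x38001c0024000000000001000000000000000000000000000) := T_5 (nat_lit 158) (nat_lit 108) (nat_lit 6) (nat_lit 5) (nat_lit 9) L43277 (by decide +kernel)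
theorem L43279 : W_5 (nat_lit 6) (nat_lit 0x2000100013800d8000800060000000000000000000000) (nat_lit 0x0) (nat_lit 0x38001c0024000000000001000080004000000000000000000) := T_5 (nat_lit 91) (nat_lit 74) (nat_lit 6) (nat_lit 5) (nat_lit 8) L43278 (by decide +kernel)
theorem L43280 : W_5 (nat_lit 7) (nat_lit 0x2000100013800d8000800020000000000000000000000) (nat_lit 0x0) (nat_lit 0x38001c00240000000000010000c0006000000000000000000) := T_5 (nat_lit 90) (nat_lit 73) (nat_lit 5) (nat_lit 5) (nat_lit 4) L43279 (by decide +kernel)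
theorem L43281 : W_5 (nat_lit 8) (nat_lit 0x200010001380098000800020000000000000000000000) (nat_lit 0x0) (nat_lit 0x38001c00240000000600010000c0006000000000000000000) := T_5 (nat_lit 126) (nat_lit 125) (nat_lit 1) (nat_lit 7) (nat_lit 7) L43280 (by decide +kernel)
theorem L43282 : W_5 (nat_lit 9) (nat_lit 0x200010001380098000000020000000000000000000000) (nat_lit 0x0) (nat_lit 0x38001c0025000000067001b800d8007c00000000000000000) := Q_5 (nat_lit 107) (C_5 L43103 (C_5 L43274 (C_5 L43281 N_5))) (by decide +kernel)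
theorem L43283 : W_5 (nat_lit 2) (nat_lit 0x200010001380098000000020000000000000000000000) (nat_lit 0x0) (nat_lit 0x1000000000000400000001000000000000000000) := D_5 (nat_lit 106) (nat_lit 156) (nat_lit 72) (nat_lit 5) (nat_lit 4) (nat_lit 5) (nat_lit 7) (nat_lit 4) (nat_lit 4) (by decide +kernel)
theorem L43284 : W_5 (nat_lit 2) (nat_lit 0x200010001380098000000020000000000000000000000) (nat_lit 0x0) (nat_lit 0x4000000000000400000001000000000000000000) := D_5 (nat_lit 106) (nat_lit 158) (nat_lit 72) (nat_lit 7) (nat_lit 4) (nat_lit 5) (nat_lit 7) (nat_lit 4) (nat_lit 4) (by decide +kernel)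
theorem L43285 : W_5 (nat_lit 10) (nat_lit 0x200010001380098000000000000000000000000000000) (nat_lit 0x0) (nat_lit 0x38001c0025000000067001f800f8007c00000000000000000) := Q_5 (nat_lit 89) (C_5 L42964 (C_5 L43282 (C_5 L43283 (C_5 L43284 N_5)))) (by decide +kernel)
theorem L43286 : W_5 (nat_lit 12) (nat_lit 0x200010001300098000000000000000000000000000000) (nat_lit 0x0) (nat_lit 0x3a001f0025c000e0067001f800f8007c00000000000000000) := Q_5 (nat_lit 139) (C_5 L42639 (C_5 L43040 (C_5 L43285 N_5))) (by decide +kernel)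
theorem L43287 : W_5 (nat_lit 2) (nat_lit 0x2800100013000be000400000000000000000000000000) (nat_lit 0x0) (nat_lit 0x3800000000000000000000000000) := D_5 (nat_lit 108) (nat_lit 107) (nat_lit 109) (nat_lit 2) (nat_lit 2) (nat_lit 7) (nat_lit 2) (nat_lit 3) (nat_lit 7) (by decide +kernel)
theorem L43288 : W_5 (nat_lit 3) (nat_lit 0x28001000130009e000400000000000000000000000000) (nat_lit 0x0) (nat_lit 0x60003800000000000000000000000000) := T_5 (nat_lit 125) (nat_lit 126) (nat_lit 1) (nat_lit 8) (nat_lit 7) L43287 (by decide +kernel)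
theorem L43289 : W_5 (nat_lit 4) (nat_lit 0x28001000130009c000400000000000000000000000000) (nat_lit 0x0) (nat_lit 0x63003800000000000000000000000000) := T_5 (nat_lit 121) (nat_lit 120) (nat_lit 3) (nat_lit 1) (nat_lit 7) L43288 (by decide +kernel)
theorem L43290 : W_5 (nat_lit 5) (nat_lit 0x20001000130009c000400000000000000000000000000) (nat_lit 0x0) (nat_lit 0x80004000000063003800000000000000000000000000) := T_5 (nat_lit 175) (nat_lit 158) (nat_lit 4) (nat_lit 5) (nat_lit 10) L43289 (by decide +kernel)
theorem L43291 : W_5 (nat_lit 2) (nat_lit 0x28001000130009e000500000000000000000000000000) (nat_lit 0x0) (nat_lit 0x60000200000000000000000000000000) := D_5 (nat_lit 125) (nat_lit 126) (nat_lit 105) (nat_lit 1) (nat_lit 8) (nat_lit 7) (nat_lit 0) (nat_lit 6) (nat_lit 7) (by decide +kernel)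
theorem L43292 : W_5 (nat_lit 3) (nat_lit 0x28001000130009e000400000000000000000000000000) (nat_lit 0x0) (nat_lit 0x60000380000000000000000000000000) := T_5 (nat_lit 104) (nat_lit 103) (nat_lit 0) (nat_lit 5) (nat_lit 7) L43291 (by decide +kernel)
theorem L43293 : W_5 (nat_lit 4) (nat_lit 0x20001000130009e000400000000000000000000000000) (nat_lit 0x0) (nat_lit 0x80004000000060000380000000000000000000000000) := T_5 (nat_lit 175) (nat_lit 158) (nat_lit 4) (nat_lit 5) (nat_lit 10) L43292 (by decide +kernel)
theorem L43294 : W_5 (nat_lit 5) (nat_lit 0x20001000130009c000400000000000000000000000000) (nat_lit 0x0) (nat_lit 0x80004000000063000380000000000000000000000000) := T_5 (nat_lit 121) (nat_lit 120) (nat_lit 3) (nat_lit 1) (nat_lit 7) L43293 (by decide +kernel)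
theorem L43295 : W_5 (nat_lit 5) (nat_lit 0x2800100013000bc000600000000000000000000000000) (nat_lit 0x0) (nat_lit 0x3800198004800000000000000000) := T_5 (nat_lit 108) (nat_lit 109) (nat_lit 2) (nat_lit 3) (nat_lit 7) L42782 (by decide +kernel)
theorem L43296 : W_5 (nat_lit 6) (nat_lit 0x2800100013000bc000400000000000000000000000000) (nat_lit 0x0) (nat_lit 0x3b00198004800000000000000000) := T_5 (nat_lit 105) (nat_lit 104) (nat_lit 0) (nat_lit 6) (nat_lit 7) L43295 (by decide +kernel)
theorem L43297 : W_5 (nat_lit 7) (nat_lit 0x2000100013000bc000400000000000000000000000000) (nat_lit 0x0) (nat_lit 0x80004000000000003b00198004800000000000000000) := T_5 (nat_lit 175) (nat_lit 158) (nat_lit 4) (nat_lit 5) (nat_lit 10) L43296 (by decide +kernel)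
theorem L43298 : W_5 (nat_lit 8) (nat_lit 0x20001000130009c000400000000000000000000000000) (nat_lit 0x0) (nat_lit 0x80004000000060003b00198004800000000000000000) := T_5 (nat_lit 125) (nat_lit 126) (nat_lit 1) (nat_lit 8) (nat_lit 7) L43297 (by decide +kernel)
theorem L43299 : W_5 (nat_lit 9) (nat_lit 0x200010001300098000400000000000000000000000000) (nat_lit 0x0) (nat_lit 0x80004000000067003b801d8006800000000000000000) := Q_5 (nat_lit 122) (C_5 L43290 (C_5 L43294 (C_5 L43178 (C_5 L43298 N_5)))) (by decide +kernel)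
theorem L43300 : W_5 (nat_lit 10) (nat_lit 0x200010001300098000000000000000000000000000000) (nat_lit 0x0) (nat_lit 0x80004000000067003f803fc00f800000000000000000) := Q_5 (nat_lit 106) (C_5 L43299 (C_5 L42671 (C_5 L42949 N_5))) (by decide +kernel)
theorem L43301 : W_5 (nat_lit 12) (nat_lit 0x200010001300098000000000000000000000000000000) (nat_lit 0x0) (nat_lit 0x2000b0005c000e0067003b800f8007c00000000000000000) := Q_5 (nat_lit 139) (C_5 L42895 (C_5 L43040 (C_5 L42639 N_5))) (by decide +kernel)
theorem L43302 : W_5 (nat_lit 2) (nat_lit 0x2000140013000d8000800020000000000000000000000) (nat_lit 0x0) (nat_lit 0x40003000000000000000000) := D_5 (nat_lit 90) (nat_lit 72) (nat_lit 73) (nat_lit 4) (nat_lit 5) (nat_lit 8) (nat_lit 5) (nat_lit 5) (nat_lit 4) (by decide +kernel)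
theorem L43303 : W_5 (nat_lit 3) (nat_lit 0x2000140013000d8000800000000000000000000000000) (nat_lit 0x0) (nat_lit 0x400060003000000000000000000) := T_5 (nat_lit 89) (nat_lit 106) (nat_lit 7) (nat_lit 4) (nat_lit 5) L43302 (by decide +kernel)
theorem L43304 : W_5 (nat_lit 4) (nat_lit 0x200014001300098000800000000000000000000000000) (nat_lit 0x0) (nat_lit 0x60000400060003000000000000000000) := T_5 (nat_lit 126) (nat_lit 125) (nat_lit 1) (nat_lit 8) (nat_lit 7) L43303 (by decide +kernel)
theorem L43305 : W_5 (nat_lit 2) (nat_lit 0x2000140013000d8000c00000000000000000000000000) (nat_lit 0x0) (nat_lit 0x3000080000000000000000000000) := D_5 (nat_lit 108) (nat_lit 109) (nat_lit 91) (nat_lit 3) (nat_lit 4) (nat_lit 6) (nat_lit 6) (nat_lit 5) (nat_lit 9) (by decide +kernel)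
theorem L43306 : W_5 (nat_lit 3) (nat_lit 0x200014001300098000c00000000000000000000000000) (nat_lit 0x0) (nat_lit 0x60003000080000000000000000000000) := T_5 (nat_lit 126) (nat_lit 125) (nat_lit 1) (nat_lit 8) (nat_lit 7) L43305 (by decide +kernel)
theorem L43307 : W_5 (nat_lit 4) (nat_lit 0x200014001300098000800000000000000000000000000) (nat_lit 0x0) (nat_lit 0x600034000a0000000000000000000000) := T_5 (nat_lit 106) (nat_lit 89) (nat_lit 7) (nat_lit 4) (nat_lit 5) L43306 (by decide +kernel)
theorem L43308 : W_5 (nat_lit 5) (nat_lit 0x200014001300098000000000000000000000000000000) (nat_lit 0x0) (nat_lit 0x60003c000e0007000000000000000000) := Q_5 (nat_lit 107) (C_5 L43169 (C_5 L43304 (C_5 L43307 N_5))) (by decide +kernel)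
theorem L43309 : W_5 (nat_lit 6) (nat_lit 0x200010001300098000000000000000000000000000000) (nat_lit 0x0) (nat_lit 0x1000080004000000060003c000e0007000000000000000000) := Q_5 (nat_lit 158) (C_5 L42788 (C_5 L43308 (C_5 L42786 N_5))) (by decide +kernel)
theorem L43310 : W_5 (nat_lit 2) (nat_lit 0x2000140013000be000000000000000000000000000000) (nat_lit 0x0) (nat_lit 0x380000000000000000000000000) := D_5 (nat_lit 104) (nat_lit 105) (nat_lit 103) (nat_lit 0) (nat_lit 6) (nat_lit 7) (nat_lit 0) (nat_lit 5) (nat_lit 7) (by decide +kernel)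
theorem L43311 : W_5 (nat_lit 3) (nat_lit 0x2000140013000bc000000000000000000000000000000) (nat_lit 0x0) (nat_lit 0x3000380000000000000000000000000) := T_5 (nat_lit 121) (nat_lit 120) (nat_lit 3) (nat_lit 1) (nat_lit 7) L43310 (by decide +kernel)
theorem L43312 : W_5 (nat_lit 4) (nat_lit 0x20001400130009c000000000000000000000000000000) (nat_lit 0x0) (nat_lit 0x63000380000000000000000000000000) := T_5 (nat_lit 125) (nat_lit 126) (nat_lit 1) (nat_lit 8) (nat_lit 7) L43311 (by decide +kernel)
theorem L43313 : W_5 (nat_lit 2) (nat_lit 0x20001400134009e000100020000000000000000000000) (nat_lit 0x0) (nat_lit 0x80020000200000000000000000000000000) := D_5 (nat_lit 125) (nat_lit 139) (nat_lit 105) (nat_lit 2) (nat_lit 2) (nat_lit 8) (nat_lit 0) (nat_lit 6) (nat_lit 7) (by decide +kernel)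
theorem L43314 : W_5 (nat_lit 3) (nat_lit 0x20001400134009e000000020000000000000000000000) (nat_lit 0x0) (nat_lit 0x80020000380000000000000000000000000) := T_5 (nat_lit 104) (nat_lit 103) (nat_lit 0) (nat_lit 5) (nat_lit 7) L43313 (by decide +kernel)
theorem L43315 : W_5 (nat_lit 4) (nat_lit 0x20001400130009e000000020000000000000000000000) (nat_lit 0x0) (nat_lit 0xe0020000380000000000000000000000000) := T_5 (nat_lit 138) (nat_lit 137) (nat_lit 1) (nat_lit 5) (nat_lit 7) L43314 (by decide +kernel)
theorem L43316 : W_5 (nat_lit 5) (nat_lit 0x20001400130009e000000000000000000000000000000) (nat_lit 0x0) (nat_lit 0xe0020000780020000000000000000000000) := T_5 (nat_lit 89) (nat_lit 106) (nat_lit 7) (nat_lit 4) (nat_lit 5) L43315 (by decide +kernel)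
theorem L43317 : W_5 (nat_lit 6) (nat_lit 0x20001400130009c000000000000000000000000000000) (nat_lit 0x0) (nat_lit 0xe0023000780020000000000000000000000) := T_5 (nat_lit 121) (nat_lit 120) (nat_lit 3) (nat_lit 1) (nat_lit 7) L43316 (by decide +kernel)
theorem L43318 : W_5 (nat_lit 2) (nat_lit 0x2000140013800bc001200020000000000000000000000) (nat_lit 0x0) (nat_lit 0x10001800000000000000000) := D_5 (nat_lit 88) (nat_lit 71) (nat_lit 72) (nat_lit 7) (nat_lit 3) (nat_lit 4) (nat_lit 6) (nat_lit 3) (nat_lit 8) (by decide +kernel)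
theorem L43319 : W_5 (nat_lit 3) (nat_lit 0x2000140013800bc001000020000000000000000000000) (nat_lit 0x0) (nat_lit 0x300010001800000000000000000) := T_5 (nat_lit 105) (nat_lit 104) (nat_lit 0) (nat_lit 6) (nat_lit 7) L43318 (by decide +kernel)
theorem L43320 : W_5 (nat_lit 4) (nat_lit 0x2000140013000bc001000020000000000000000000000) (nat_lit 0x0) (nat_lit 0xc0000000300010001800000000000000000) := T_5 (nat_lit 139) (nat_lit 138) (nat_lit 2) (nat_lit 2) (nat_lit 8) L43319 (by decide +kernel)
theorem L43321 : W_5 (nat_lit 5) (nat_lit 0x2000140013000bc000000020000000000000000000000) (nat_lit 0x0) (nat_lit 0xc0000003300010001800000000000000000) := T_5 (nat_lit 108) (nat_lit 109) (nat_lit 2) (nat_lit 3) (nat_lit 7) L43320 (by decide +kernel)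
theorem L43322 : W_5 (nat_lit 6) (nat_lit 0x20001400130009c000000020000000000000000000000) (nat_lit 0x0) (nat_lit 0xc0060003300010001800000000000000000) := T_5 (nat_lit 125) (nat_lit 126) (nat_lit 1) (nat_lit 8) (nat_lit 7) L43321 (by decide +kernel)
theorem L43323 : W_5 (nat_lit 7) (nat_lit 0x20001400130009c000000000000000000000000000000) (nat_lit 0x0) (nat_lit 0xc0060003700030001800000000000000000) := T_5 (nat_lit 89) (nat_lit 106) (nat_lit 7) (nat_lit 4) (nat_lit 5) L43322 (by decide +kernel)
theorem L43324 : W_5 (nat_lit 2) (nat_lit 0x2000140013000be000000000000000000000000000000) (nat_lit 0x0) (nat_lit 0xe0000000000000000000000000000000000) := D_5 (nat_lit 138) (nat_lit 139) (nat_lit 137) (nat_lit 2) (nat_lit 2) (nat_lit 8) (nat_lit 1) (nat_lit 5) (nat_lit 7) (by decide +kernel)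
theorem L43325 : W_5 (nat_lit 3) (nat_lit 0x2000140013000bc000000000000000000000000000000) (nat_lit 0x0) (nat_lit 0xe0003000000000000000000000000000000) := T_5 (nat_lit 121) (nat_lit 120) (nat_lit 3) (nat_lit 1) (nat_lit 7) L43324 (by decide +kernel)
theorem L43326 : W_5 (nat_lit 4) (nat_lit 0x20001400130009c000000000000000000000000000000) (nat_lit 0x0) (nat_lit 0xe0063000000000000000000000000000000) := T_5 (nat_lit 125) (nat_lit 126) (nat_lit 1) (nat_lit 8) (nat_lit 7) L43325 (by decide +kernel)
theorem L43327 : W_5 (nat_lit 6) (nat_lit 0x20001400138009c000000000000000000000000000000) (nat_lit 0x0) (nat_lit 0x200010001c00060000000600030000000000000000000000) := T_5 (nat_lit 138) (nat_lit 137) (nat_lit 2) (nat_lit 1) (nat_lit 8) L42648 (by decide +kernel)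
theorem L43328 : W_5 (nat_lit 2) (nat_lit 0x20001500138009e000100020000000000000000000000) (nat_lit 0x0) (nat_lit 0x200008000400000000000000000) := D_5 (nat_lit 87) (nat_lit 70) (nat_lit 105) (nat_lit 7) (nat_lit 2) (nat_lit 4) (nat_lit 4) (nat_lit 3) (nat_lit 9) (by decide +kernel)
theorem L43329 : W_5 (nat_lit 3) (nat_lit 0x20001400138009e000100020000000000000000000000) (nat_lit 0x0) (nat_lit 0x20001000000000000200008000400000000000000000) := T_5 (nat_lit 156) (nat_lit 173) (nat_lit 4) (nat_lit 3) (nat_lit 10) L43328 (by decide +kernel)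
theorem L43330 : W_5 (nat_lit 4) (nat_lit 0x20001400138009e000000020000000000000000000000) (nat_lit 0x0) (nat_lit 0x20001000000000000380008000400000000000000000) := T_5 (nat_lit 104) (nat_lit 103) (nat_lit 0) (nat_lit 5) (nat_lit 7) L43329 (by decide +kernel)
theorem L43331 : W_5 (nat_lit 5) (nat_lit 0x20001400138009c000000020000000000000000000000) (nat_lit 0x0) (nat_lit 0x20001000000003000380008000400000000000000000) := T_5 (nat_lit 121) (nat_lit 120) (nat_lit 3) (nat_lit 1) (nat_lit 7) L43330 (by decide +kernel)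
theorem L43332 : W_5 (nat_lit 6) (nat_lit 0x20001400138009c000000000000000000000000000000) (nat_lit 0x0) (nat_lit 0x20001000000003000780028000400000000000000000) := T_5 (nat_lit 89) (nat_lit 106) (nat_lit 7) (nat_lit 4) (nat_lit 5) L43331 (by decide +kernel)
theorem L43333 : W_5 (nat_lit 2) (nat_lit 0x2000148013c009d000200000000000000000000000000) (nat_lit 0x0) (nat_lit 0x200010001000000000000000000000000000000000000000) := D_5 (nat_lit 172) (nat_lit 189) (nat_lit 156) (nat_lit 6) (nat_lit 2) (nat_lit 11) (nat_lit 5) (nat_lit 3) (nat_lit 6) (by decide +kernel)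
theorem L43334 : W_5 (nat_lit 3) (nat_lit 0x2000148013c009d000000000000000000000000000000) (nat_lit 0x0) (nat_lit 0x200010001000000000000200010000000000000000000000) := T_5 (nat_lit 105) (nat_lit 88) (nat_lit 5) (nat_lit 3) (nat_lit 5) L43333 (by decide +kernel)
theorem L43335 : W_5 (nat_lit 4) (nat_lit 0x2000140013c009d000000000000000000000000000000) (nat_lit 0x0) (nat_lit 0x200010001c00000000000200010000000000000000000000) := T_5 (nat_lit 155) (nat_lit 154) (nat_lit 1) (nat_lit 5) (nat_lit 8) L43334 (by decide +kernel)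
theorem L43336 : W_5 (nat_lit 5) (nat_lit 0x20001400138009d000000000000000000000000000000) (nat_lit 0x0) (nat_lit 0x200010001c00060000000200010000000000000000000000) := T_5 (nat_lit 138) (nat_lit 137) (nat_lit 2) (nat_lit 1) (nat_lit 8) L43335 (by decide +kernel)
theorem L43337 : W_5 (nat_lit 6) (nat_lit 0x20001400138009c000000000000000000000000000000) (nat_lit 0x0) (nat_lit 0x200010001c00060003000200010000000000000000000000) := T_5 (nat_lit 120) (nat_lit 121) (nat_lit 3) (nat_lit 1) (nat_lit 7) L43336 (by decide +kernel)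
theorem L43338 : W_5 (nat_lit 2) (nat_lit 0x2002000148013c009e000100020000000000000000000000) (nat_lit 0x0) (nat_lit 0x20001000000000000000008000000000000000000000) := D_5 (nat_lit 156) (nat_lit 173) (nat_lit 87) (nat_lit 7) (nat_lit 2) (nat_lit 6) (nat_lit 7) (nat_lit 2) (nat_lit 5) (by decide +kernel)
theorem L43339 : W_5 (nat_lit 3) (nat_lit 0x2002000148013c009e000000020000000000000000000000) (nat_lit 0x0) (nat_lit 0x20001000000000000180008000000000000000000000) := T_5 (nat_lit 104) (nat_lit 103) (nat_lit 0) (nat_lit 5) (nat_lit 7) L43338 (by decide +kernel)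
theorem L43340 : W_5 (nat_lit 4) (nat_lit 0x2000148013c009e000000020000000000000000000000) (nat_lit 0x0) (nat_lit 0x200030001000000000000180008000000000000000000000) := T_5 (nat_lit 189) (nat_lit 172) (nat_lit 6) (nat_lit 2) (nat_lit 11) L43339 (by decide +kernel)
theorem L43341 : W_5 (nat_lit 5) (nat_lit 0x2000148013c009c000000020000000000000000000000) (nat_lit 0x0) (nat_lit 0x200030001000000003000180008000000000000000000000) := T_5 (nat_lit 121) (nat_lit 120) (nat_lit 3) (nat_lit 1) (nat_lit 7) L43340 (by decide +kernel)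
theorem L43342 : W_5 (nat_lit 6) (nat_lit 0x2000140013c009c000000020000000000000000000000) (nat_lit 0x0) (nat_lit 0x200030001c00000003000180008000000000000000000000) := T_5 (nat_lit 155) (nat_lit 154) (nat_lit 1) (nat_lit 5) (nat_lit 8) L43341 (by decide +kernel)
theorem L43343 : W_5 (nat_lit 7) (nat_lit 0x2000140013c009c000000000000000000000000000000) (nat_lit 0x0) (nat_lit 0x200030001c00000003000580028000000000000000000000) := T_5 (nat_lit 89) (nat_lit 106) (nat_lit 7) (nat_lit 4) (nat_lit 5) L43342 (by decide +kernel)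
theorem L43344 : W_5 (nat_lit 8) (nat_lit 0x20001400138009c000000000000000000000000000000) (nat_lit 0x0) (nat_lit 0x200030001c00060003000580028000000000000000000000) := T_5 (nat_lit 138) (nat_lit 137) (nat_lit 2) (nat_lit 1) (nat_lit 8) L43343 (by decide +kernel)
theorem L43345 : W_5 (nat_lit 2) (nat_lit 0x2000148013c009e000000020000000000000000000000) (nat_lit 0x0) (nat_lit 0x10000000000000000200010000000000000000000000) := D_5 (nat_lit 105) (nat_lit 88) (nat_lit 172) (nat_lit 5) (nat_lit 3) (nat_lit 5) (nat_lit 6) (nat_lit 2) (nat_lit 10) (by decide +kernel)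
theorem L43346 : W_5 (nat_lit 3) (nat_lit 0x2000140013c009e000000020000000000000000000000) (nat_lit 0x0) (nat_lit 0x10000c00000000000200010000000000000000000000) := T_5 (nat_lit 155) (nat_lit 154) (nat_lit 1) (nat_lit 5) (nat_lit 8) L43345 (by decide +kernel)
theorem L43347 : W_5 (nat_lit 4) (nat_lit 0x2000140013c009c000000020000000000000000000000) (nat_lit 0x0) (nat_lit 0x10000c00000003000200010000000000000000000000) := T_5 (nat_lit 121) (nat_lit 120) (nat_lit 3) (nat_lit 1) (nat_lit 7) L43346 (by decide +kernel)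
theorem L43348 : W_5 (nat_lit 5) (nat_lit 0x20001400138009c000000020000000000000000000000) (nat_lit 0x0) (nat_lit 0x10000c00060003000200010000000000000000000000) := T_5 (nat_lit 138) (nat_lit 137) (nat_lit 2) (nat_lit 1) (nat_lit 8) L43347 (by decide +kernel)
theorem L43349 : W_5 (nat_lit 6) (nat_lit 0x20001400138009c000000000000000000000000000000) (nat_lit 0x0) (nat_lit 0x10000c00060003000600030000000000000000000000) := T_5 (nat_lit 89) (nat_lit 106) (nat_lit 7) (nat_lit 4) (nat_lit 5) L43348 (by decide +kernel)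
theorem L43350 : W_5 (nat_lit 9) (nat_lit 0x20001400130009c000000000000000000000000000000) (nat_lit 0x0) (nat_lit 0x200030001c000e0003000780038000400000000000000000) := Q_5 (nat_lit 139) (C_5 L43327 (C_5 L43332 (C_5 L43337 (C_5 L43344 (C_5 L43349 N_5))))) (by decide +kernel)
theorem L43351 : W_5 (nat_lit 10) (nat_lit 0x200014001300098000000000000000000000000000000) (nat_lit 0x0) (nat_lit 0x200030001c000e0067003780038001c00000000000000000) := Q_5 (nat_lit 122) (C_5 L43312 (C_5 L43317 (C_5 L43323 (C_5 L43326 (C_5 L43350 N_5))))) (by decide +kernel)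
theorem L43352 : W_5 (nat_lit 11) (nat_lit 0x200010001300098000000000000000000000000000000) (nat_lit 0x0) (nat_lit 0x12000b0005c000e0067003780038001c00000000000000000) := Q_5 (nat_lit 158) (C_5 L42788 (C_5 L43351 (C_5 L42786 N_5))) (by decide +kernel)
theorem L43353 : W_5 (nat_lit 2) (nat_lit 0x2000108013c009e000800000000000000000000000000) (nat_lit 0x0) (nat_lit 0x10000000000000000200010000000000000000000000) := D_5 (nat_lit 105) (nat_lit 88) (nat_lit 172) (nat_lit 5) (nat_lit 3) (nat_lit 5) (nat_lit 6) (nat_lit 2) (nat_lit 10) (by decide +kernel)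
theorem L43354 : W_5 (nat_lit 3) (nat_lit 0x2000100013c009e000800000000000000000000000000) (nat_lit 0x0) (nat_lit 0x10000c00000000000200010000000000000000000000) := T_5 (nat_lit 155) (nat_lit 154) (nat_lit 1) (nat_lit 5) (nat_lit 8) L43353 (by decide +kernel)
theorem L43355 : W_5 (nat_lit 4) (nat_lit 0x2000100013c009e000000000000000000000000000000) (nat_lit 0x0) (nat_lit 0x10000c00000000001a00010000000000000000000000) := T_5 (nat_lit 107) (nat_lit 108) (nat_lit 2) (nat_lit 2) (nat_lit 7) L43354 (by decide +kernel)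
theorem L43356 : W_5 (nat_lit 5) (nat_lit 0x20001000138009e000000000000000000000000000000) (nat_lit 0x0) (nat_lit 0x10000c00060000001a00010000000000000000000000) := T_5 (nat_lit 138) (nat_lit 137) (nat_lit 2) (nat_lit 1) (nat_lit 8) L43355 (by decide +kernel)
theorem L43357 : W_5 (nat_lit 6) (nat_lit 0x20001000138009c000000000000000000000000000000) (nat_lit 0x0) (nat_lit 0x10000c00060003001a00010000000000000000000000) := T_5 (nat_lit 121) (nat_lit 120) (nat_lit 3) (nat_lit 1) (nat_lit 7) L43356 (by decide +kernel)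
theorem L43358 : W_5 (nat_lit 8) (nat_lit 0x200010001380098000000000000000000000000000000) (nat_lit 0x0) (nat_lit 0x200030001c00060007001b80058002400000000000000000) := Q_5 (nat_lit 122) (C_5 L42610 (C_5 L43039 (C_5 L42900 (C_5 L43357 N_5)))) (by decide +kernel)
theorem L43359 : W_5 (nat_lit 9) (nat_lit 0x200010001300098000000000000000000000000000000) (nat_lit 0x0) (nat_lit 0x2000b0005c000e0067003b800d8006c00000000000000000) := Q_5 (nat_lit 139) (C_5 L42895 (C_5 L42639 (C_5 L43358 N_5))) (by decide +kernel)
theorem L43360 : W_5 (nat_lit 2) (nat_lit 0x4003c00100013800dc000000000000000000000000000000) (nat_lit 0x0) (nat_lit 0x200020001000000000000000000000000000000000000000) := D_5 (nat_lit 173) (nat_lit 189) (nat_lit 156) (nat_lit 1) (nat_lit 6) (nat_lit 10) (nat_lit 6) (nat_lit 3) (nat_lit 11) (by decide +kernel)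
theorem L43361 : W_5 (nat_lit 3) (nat_lit 0x3c00100013800dc000000000000000000000000000000) (nat_lit 0x0) (nat_lit 0xe00020001000000000000000000000000000000000000000) := T_5 (nat_lit 190) (nat_lit 191) (nat_lit 1) (nat_lit 7) (nat_lit 10) L43360 (by decide +kernel)
theorem L43362 : W_5 (nat_lit 4) (nat_lit 0x3800100013800dc000000000000000000000000000000) (nat_lit 0x0) (nat_lit 0xe00060021000000000000000000000000000000000000000) := T_5 (nat_lit 174) (nat_lit 161) (nat_lit 2) (nat_lit 4) (nat_lit 10) L43361 (by decide +kernel)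
theorem L43363 : W_5 (nat_lit 5) (nat_lit 0x38001000138009c000000000000000000000000000000) (nat_lit 0x0) (nat_lit 0xe00060021000000060000000000000000000000000000000) := T_5 (nat_lit 126) (nat_lit 125) (nat_lit 1) (nat_lit 7) (nat_lit 7) L43362 (by decide +kernel)
theorem L43364 : W_5 (nat_lit 3) (nat_lit 0x2000108013c009c000000020000000000000000000000) (nat_lit 0x0) (nat_lit 0x200010001000000000000200010000000000000000000000) := T_5 (nat_lit 105) (nat_lit 88) (nat_lit 5) (nat_lit 3) (nat_lit 5) L43181 (by decide +kernel)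
theorem L43365 : W_5 (nat_lit 4) (nat_lit 0x2000100013c009c000000020000000000000000000000) (nat_lit 0x0) (nat_lit 0x200010001c00000000000200010000000000000000000000) := T_5 (nat_lit 155) (nat_lit 154) (nat_lit 1) (nat_lit 5) (nat_lit 8) L43364 (by decide +kernel)
theorem L43366 : W_5 (nat_lit 5) (nat_lit 0x20001000138009c000000020000000000000000000000) (nat_lit 0x0) (nat_lit 0x200010001c00060000000200010000000000000000000000) := T_5 (nat_lit 138) (nat_lit 137) (nat_lit 2) (nat_lit 1) (nat_lit 8) L43365 (by decide +kernel)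
theorem L43367 : W_5 (nat_lit 2) (nat_lit 0x2000108013c009e000000020000000000000000000000) (nat_lit 0x0) (nat_lit 0x10000000000000000200010000000000000000000000) := D_5 (nat_lit 105) (nat_lit 88) (nat_lit 172) (nat_lit 5) (nat_lit 3) (nat_lit 5) (nat_lit 6) (nat_lit 2) (nat_lit 10) (by decide +kernel)
theorem L43368 : W_5 (nat_lit 3) (nat_lit 0x2000100013c009e000000020000000000000000000000) (nat_lit 0x0) (nat_lit 0x10000c00000000000200010000000000000000000000) := T_5 (nat_lit 155) (nat_lit 154) (nat_lit 1) (nat_lit 5) (nat_lit 8) L43367 (by decide +kernel)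
theorem L43369 : W_5 (nat_lit 4) (nat_lit 0x2000100013c009c000000020000000000000000000000) (nat_lit 0x0) (nat_lit 0x10000c00000003000200010000000000000000000000) := T_5 (nat_lit 121) (nat_lit 120) (nat_lit 3) (nat_lit 1) (nat_lit 7) L43368 (by decide +kernel)
theorem L43370 : W_5 (nat_lit 5) (nat_lit 0x20001000138009c000000020000000000000000000000) (nat_lit 0x0) (nat_lit 0x10000c00060003000200010000000000000000000000) := T_5 (nat_lit 138) (nat_lit 137) (nat_lit 2) (nat_lit 1) (nat_lit 8) L43369 (by decide +kernel)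
theorem L43371 : W_5 (nat_lit 7) (nat_lit 0x20001000130009c000000020000000000000000000000) (nat_lit 0x0) (nat_lit 0x200030001c000e0003000380018000400000000000000000) := Q_5 (nat_lit 139) (C_5 L43133 (C_5 L43126 (C_5 L43366 (C_5 L43370 N_5)))) (by decide +kernel)
theorem L43372 : W_5 (nat_lit 8) (nat_lit 0x200010001300098000000020000000000000000000000) (nat_lit 0x0) (nat_lit 0x200030001c000e0067000380018001c00000000000000000) := Q_5 (nat_lit 122) (C_5 L43371 (C_5 L43150 (C_5 L43152 (C_5 L43155 N_5)))) (by decide +kernel)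
theorem L43373 : W_5 (nat_lit 9) (nat_lit 0x200010001300098000000000000000000000000000000) (nat_lit 0x0) (nat_lit 0x200030005c000e0067000780078003c00000000000000000) := Q_5 (nat_lit 89) (C_5 L43372 (C_5 L43157 (C_5 L43164 N_5))) (by decide +kernel)
theorem L43374 : W_5 (nat_lit 14) (nat_lit 0x200010001300090000000000000000000000000000000) (nat_lit 0x0) (nat_lit 0x3e001f0025c000e006f003f803fc00fc00000000000000000) := Q_5 (nat_lit 123) (C_5 L43221 (C_5 L43041 (C_5 L43286 (C_5 L43300 (C_5 L43301 (C_5 L43309 (C_5 L43352 (C_5 L43359 (C_5 L43373 N_5))))))))) (by decide +kernel)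
theorem L43375 : W_5 (nat_lit 2) (nat_lit 0x2000340013000b0001000000000000000000000000000) (nat_lit 0x0) (nat_lit 0x800080004000000000000000000) := D_5 (nat_lit 91) (nat_lit 74) (nat_lit 107) (nat_lit 5) (nat_lit 6) (nat_lit 4) (nat_lit 6) (nat_lit 5) (nat_lit 9) (by decide +kernel)
theorem L43376 : W_5 (nat_lit 3) (nat_lit 0x2000340013000b0000000000000000000000000000000) (nat_lit 0x0) (nat_lit 0x80000000000000001800080004000000000000000000) := T_5 (nat_lit 108) (nat_lit 175) (nat_lit 6) (nat_lit 5) (nat_lit 10) L43375 (by decide +kernel)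
theorem L43377 : W_5 (nat_lit 4) (nat_lit 0x2000140013000b0000000000000000000000000000000) (nat_lit 0x0) (nat_lit 0x80028000000000001800080004000000000000000000) := T_5 (nat_lit 161) (nat_lit 159) (nat_lit 0) (nat_lit 8) (nat_lit 9) L43376 (by decide +kernel)
theorem L43378 : W_5 (nat_lit 5) (nat_lit 0x200014001300090000000000000000000000000000000) (nat_lit 0x0) (nat_lit 0x80028000000060001800080004000000000000000000) := T_5 (nat_lit 125) (nat_lit 126) (nat_lit 1) (nat_lit 8) (nat_lit 7) L43377 (by decide +kernel)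
theorem L43379 : W_5 (nat_lit 2) (nat_lit 0x3c00140013400b0000000000000000000000000000000) (nat_lit 0x0) (nat_lit 0x20008000000000000800000000000000000000000000) := D_5 (nat_lit 159) (nat_lit 173) (nat_lit 107) (nat_lit 2) (nat_lit 3) (nat_lit 10) (nat_lit 7) (nat_lit 5) (nat_lit 6) (by decide +kernel)
theorem L43380 : W_5 (nat_lit 3) (nat_lit 0x3800140013400b0000000000000000000000000000000) (nat_lit 0x0) (nat_lit 0x800060008000000000000800000000000000000000000000) := T_5 (nat_lit 174) (nat_lit 191) (nat_lit 5) (nat_lit 5) (nat_lit 7) L43379 (by decide +kernel)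
theorem L43381 : W_5 (nat_lit 4) (nat_lit 0x2800140013400b0000000000000000000000000000000) (nat_lit 0x0) (nat_lit 0x2800160008000000000000800000000000000000000000000) := T_5 (nat_lit 176) (nat_lit 193) (nat_lit 7) (nat_lit 5) (nat_lit 7) L43380 (by decide +kernel)
theorem L43382 : W_5 (nat_lit 5) (nat_lit 0x2000140013400b0000000000000000000000000000000) (nat_lit 0x0) (nat_lit 0x28001e0008000000000001800000000000000000000000000) := T_5 (nat_lit 175) (nat_lit 108) (nat_lit 6) (nat_lit 5) (nat_lit 10) L43381 (by decide +kernel)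
theorem L43383 : W_5 (nat_lit 6) (nat_lit 0x2000140013000b0000000000000000000000000000000) (nat_lit 0x0) (nat_lit 0x28001e00080000c0000001800000000000000000000000000) := T_5 (nat_lit 138) (nat_lit 139) (nat_lit 2) (nat_lit 2) (nat_lit 8) L43382 (by decide +kernel)
theorem L43384 : W_5 (nat_lit 7) (nat_lit 0x200014001300090000000000000000000000000000000) (nat_lit 0x0) (nat_lit 0x28001e00080000c0060001800000000000000000000000000) := T_5 (nat_lit 125) (nat_lit 126) (nat_lit 1) (nat_lit 8) (nat_lit 7) L43383 (by decide +kernel)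
theorem L43385 : W_5 (nat_lit 2) (nat_lit 0x30001c0013400d0000000000000000000000000000000) (nat_lit 0x0) (nat_lit 0x2000080000000800000000000000000000000000000000000) := D_5 (nat_lit 193) (nat_lit 175) (nat_lit 143) (nat_lit 7) (nat_lit 5) (nat_lit 7) (nat_lit 5) (nat_lit 7) (nat_lit 7) (by decide +kernel)
theorem L43386 : W_5 (nat_lit 3) (nat_lit 0x20001c0013400d0000000000000000000000000000000) (nat_lit 0x0) (nat_lit 0x2000180000000800000000800000000000000000000000000) := T_5 (nat_lit 176) (nat_lit 107) (nat_lit 7) (nat_lit 5) (nat_lit 6) L43385 (by decide +kernel)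
theorem L43387 : W_5 (nat_lit 4) (nat_lit 0x20001c0013000d0000000000000000000000000000000) (nat_lit 0x0) (nat_lit 0x20001800000008c0000000800000000000000000000000000) := T_5 (nat_lit 138) (nat_lit 139) (nat_lit 3) (nat_lit 2) (nat_lit 8) L43386 (by decide +kernel)
theorem L43388 : W_5 (nat_lit 5) (nat_lit 0x2000140013000d0000000000000000000000000000000) (nat_lit 0x0) (nat_lit 0x20001800280008c0000000800000000000000000000000000) := T_5 (nat_lit 159) (nat_lit 161) (nat_lit 0) (nat_lit 8) (nat_lit 9) L43387 (by decide +kernel)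
theorem L43389 : W_5 (nat_lit 6) (nat_lit 0x200014001300090000000000000000000000000000000) (nat_lit 0x0) (nat_lit 0x20001800280008c0060000800000000000000000000000000) := T_5 (nat_lit 126) (nat_lit 125) (nat_lit 1) (nat_lit 8) (nat_lit 7) L43388 (by decide +kernel)
theorem L43390 : W_5 (nat_lit 8) (nat_lit 0x200010001300090000000000000000000000000000000) (nat_lit 0x0) (nat_lit 0x28001e002c0008c0060001c000e0005000000000000000000) := Q_5 (nat_lit 158) (C_5 L43378 (C_5 L43258 (C_5 L40538 (C_5 L43384 (C_5 L43389 N_5))))) (by decide +kernel)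
theorem L43391 : W_5 (nat_lit 5) (nat_lit 0x2000140013000d0000000000000000000000000000000) (nat_lit 0x0) (nat_lit 0x100028000000000003c000a0000000000000000000000) := T_5 (nat_lit 159) (nat_lit 161) (nat_lit 0) (nat_lit 8) (nat_lit 9) L40496 (by decide +kernel)
theorem L43392 : W_5 (nat_lit 6) (nat_lit 0x200014001300090000000000000000000000000000000) (nat_lit 0x0) (nat_lit 0x100028000000060003c000a0000000000000000000000) := T_5 (nat_lit 126) (nat_lit 125) (nat_lit 1) (nat_lit 8) (nat_lit 7) L43391 (by decide +kernel)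
theorem L43393 : W_5 (nat_lit 7) (nat_lit 0x200010001300090000000000000000000000000000000) (nat_lit 0x0) (nat_lit 0x38001e002c000000068003c000a0004000000000000000000) := Q_5 (nat_lit 158) (C_5 L43378 (C_5 L43392 (C_5 L43260 (C_5 L43271 N_5)))) (by decide +kernel)
theorem L43394 : W_5 (nat_lit 9) (nat_lit 0x200010001300090000000000000000000000000000000) (nat_lit 0x0) (nat_lit 0x28001e002c0008c00680018000e0007000080000000000000) := Q_5 (nat_lit 158) (C_5 L43378 (C_5 L43267 (C_5 L43389 (C_5 L40538 (C_5 L43384 N_5))))) (by decide +kernel)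
theorem L43395 : W_5 (nat_lit 2) (nat_lit 0x2000140013800d0000800060000000000000000000000) (nat_lit 0x0) (nat_lit 0x100028000000000000000000000000000000000000000) := D_5 (nat_lit 159) (nat_lit 161) (nat_lit 176) (nat_lit 0) (nat_lit 8) (nat_lit 9) (nat_lit 7) (nat_lit 5) (nat_lit 6) (by decide +kernel)
theorem L43396 : W_5 (nat_lit 3) (nat_lit 0x2000100013800d0000800060000000000000000000000) (nat_lit 0x0) (nat_lit 0x10002c000000000000400000000000000000000000000) := T_5 (nat_lit 158) (nat_lit 106) (nat_lit 4) (nat_lit 5) (nat_lit 9) L43395 (by decide +kernel)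
theorem L43397 : W_5 (nat_lit 4) (nat_lit 0x2000100013800d0000800040000000000000000000000) (nat_lit 0x0) (nat_lit 0x10002c000000000000400020001000000000000000000) := T_5 (nat_lit 89) (nat_lit 72) (nat_lit 4) (nat_lit 5) (nat_lit 8) L43396 (by decide +kernel)
theorem L43398 : W_5 (nat_lit 5) (nat_lit 0x200010001380090000800040000000000000000000000) (nat_lit 0x0) (nat_lit 0x10002c000000060000400020001000000000000000000) := T_5 (nat_lit 126) (nat_lit 125) (nat_lit 1) (nat_lit 8) (nat_lit 7) L43397 (by decide +kernel)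
theorem L43399 : W_5 (nat_lit 7) (nat_lit 0x200010001380090000800000000000000000000000000) (nat_lit 0x0) (nat_lit 0x10002c0000000680014000e0007000380014000000000) := Q_5 (nat_lit 90) (C_5 L42244 (C_5 L42138 (C_5 L42114 (C_5 L42110 (C_5 L43398 N_5))))) (by decide +kernel)
theorem L43400 : W_5 (nat_lit 13) (nat_lit 0x200010001380090000000000000000000000000000000) (nat_lit 0x0) (nat_lit 0x260013002d80080036f81bfc07fc07fe003e001d000a00000) := Q_5 (nat_lit 107) (C_5 L42115 (C_5 L42567 (C_5 L42427 (C_5 L42198 (C_5 L42205 (C_5 L42225 (C_5 L42299 (C_5 L42424 (C_5 L42312 (C_5 L42426 (C_5 L43399 (C_5 L42559 N_5)))))))))))) (by decide +kernel)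
theorem L43401 : W_5 (nat_lit 14) (nat_lit 0x200010001300090000000000000000000000000000000) (nat_lit 0x0) (nat_lit 0x10000c00270013802de008e036f81bfc07fc07fe003e001d000a00000) := Q_5 (nat_lit 139) (C_5 L42587 (C_5 L42569 (C_5 L43400 N_5))) (by decide +kernel)
theorem L43402 : W_5 (nat_lit 2) (nat_lit 0x2800140013800b0000000000000000000000000000000) (nat_lit 0x0) (nat_lit 0x1000000000000000008000400000000000000000000000000) := D_5 (nat_lit 123) (nat_lit 192) (nat_lit 106) (nat_lit 4) (nat_lit 5) (nat_lit 11) (nat_lit 4) (nat_lit 5) (nat_lit 10) (by decide +kernel)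
theorem L43403 : W_5 (nat_lit 3) (nat_lit 0x2800100013800b0000000000000000000000000000000) (nat_lit 0x0) (nat_lit 0x1000000004000000008001400000000000000000000000000) := T_5 (nat_lit 158) (nat_lit 108) (nat_lit 6) (nat_lit 5) (nat_lit 10) L43402 (by decide +kernel)
theorem L43404 : W_5 (nat_lit 4) (nat_lit 0x280010001380090000000000000000000000000000000) (nat_lit 0x0) (nat_lit 0x1000000004000000068001400000000000000000000000000) := T_5 (nat_lit 125) (nat_lit 126) (nat_lit 1) (nat_lit 8) (nat_lit 7) L43403 (by decide +kernel)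
theorem L43405 : W_5 (nat_lit 2) (nat_lit 0x3800140013800b0000000000000000000000000000000) (nat_lit 0x0) (nat_lit 0x800040020000000000000000000000000000000000000000) := D_5 (nat_lit 174) (nat_lit 161) (nat_lit 191) (nat_lit 2) (nat_lit 4) (nat_lit 10) (nat_lit 5) (nat_lit 5) (nat_lit 7) (by decide +kernel)
theorem L43406 : W_5 (nat_lit 3) (nat_lit 0x2800140013800b0000000000000000000000000000000) (nat_lit 0x0) (nat_lit 0x2800140020000000000000000000000000000000000000000) := T_5 (nat_lit 176) (nat_lit 193) (nat_lit 7) (nat_lit 5) (nat_lit 7) L43405 (by decide +kernel)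
theorem L43407 : W_5 (nat_lit 4) (nat_lit 0x2800100013800b0000000000000000000000000000000) (nat_lit 0x0) (nat_lit 0x2800140024000000000001000000000000000000000000000) := T_5 (nat_lit 158) (nat_lit 108) (nat_lit 6) (nat_lit 5) (nat_lit 10) L43406 (by decide +kernel)
theorem L43408 : W_5 (nat_lit 5) (nat_lit 0x280010001380090000000000000000000000000000000) (nat_lit 0x0) (nat_lit 0x2800140024000000060001000000000000000000000000000) := T_5 (nat_lit 125) (nat_lit 126) (nat_lit 1) (nat_lit 8) (nat_lit 7) L43407 (by decide +kernel)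
theorem L43409 : W_5 (nat_lit 2) (nat_lit 0x3c0010001b800d0000000000000000000000000000000) (nat_lit 0x0) (nat_lit 0x20008000000000002000000000000000000000000000) := D_5 (nat_lit 159) (nat_lit 173) (nat_lit 109) (nat_lit 2) (nat_lit 3) (nat_lit 10) (nat_lit 5) (nat_lit 7) (nat_lit 6) (by decide +kernel)
theorem L43410 : W_5 (nat_lit 3) (nat_lit 0x380010001b800d0000000000000000000000000000000) (nat_lit 0x0) (nat_lit 0x60028000000000002000000000000000000000000000) := T_5 (nat_lit 174) (nat_lit 161) (nat_lit 2) (nat_lit 4) (nat_lit 10) L43409 (by decide +kernel)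
theorem L43411 : W_5 (nat_lit 4) (nat_lit 0x3800100013800d0000000000000000000000000000000) (nat_lit 0x0) (nat_lit 0x2000060028000800000002000000000000000000000000000) := T_5 (nat_lit 143) (nat_lit 193) (nat_lit 5) (nat_lit 7) (nat_lit 7) L43410 (by decide +kernel)
theorem L43412 : W_5 (nat_lit 5) (nat_lit 0x380010001380090000000000000000000000000000000) (nat_lit 0x0) (nat_lit 0x2000060028000800060002000000000000000000000000000) := T_5 (nat_lit 126) (nat_lit 125) (nat_lit 1) (nat_lit 8) (nat_lit 7) L43411 (by decide +kernel)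
theorem L43413 : W_5 (nat_lit 2) (nat_lit 0x4003e0010001b800d0000000000000000000000000000000) (nat_lit 0x0) (nat_lit 0x1800000008000000000000000000000000000000) := D_5 (nat_lit 156) (nat_lit 155) (nat_lit 123) (nat_lit 0) (nat_lit 6) (nat_lit 10) (nat_lit 6) (nat_lit 3) (nat_lit 11) (by decide +kernel)
theorem L43414 : W_5 (nat_lit 3) (nat_lit 0x4003c0010001b800d0000000000000000000000000000000) (nat_lit 0x0) (nat_lit 0x200020001800000008000000000000000000000000000000) := T_5 (nat_lit 173) (nat_lit 189) (nat_lit 1) (nat_lit 6) (nat_lit 10) L43413 (by decide +kernel)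
theorem L43415 : W_5 (nat_lit 4) (nat_lit 0x3c0010001b800d0000000000000000000000000000000) (nat_lit 0x0) (nat_lit 0xe00020001800000008000000000000000000000000000000) := T_5 (nat_lit 190) (nat_lit 191) (nat_lit 1) (nat_lit 7) (nat_lit 10) L43414 (by decide +kernel)
theorem L43416 : W_5 (nat_lit 5) (nat_lit 0x380010001b800d0000000000000000000000000000000) (nat_lit 0x0) (nat_lit 0xe00060021800000008000000000000000000000000000000) := T_5 (nat_lit 174) (nat_lit 161) (nat_lit 2) (nat_lit 4) (nat_lit 10) L43415 (by decide +kernel)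
theorem L43417 : W_5 (nat_lit 6) (nat_lit 0x3800100013800d0000000000000000000000000000000) (nat_lit 0x0) (nat_lit 0x2e00060021800800008000000000000000000000000000000) := T_5 (nat_lit 143) (nat_lit 193) (nat_lit 5) (nat_lit 7) (nat_lit 7) L43416 (by decide +kernel)
theorem L43418 : W_5 (nat_lit 7) (nat_lit 0x380010001380090000000000000000000000000000000) (nat_lit 0x0) (nat_lit 0x2e00060021800800068000000000000000000000000000000) := T_5 (nat_lit 126) (nat_lit 125) (nat_lit 1) (nat_lit 8) (nat_lit 7) L43417 (by decide +kernel)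
theorem L43419 : W_5 (nat_lit 2) (nat_lit 0x3e0010001380090000000000000000000000000000000) (nat_lit 0x0) (nat_lit 0xe00000000000000000000000000000000000000000000000) := D_5 (nat_lit 190) (nat_lit 191) (nat_lit 189) (nat_lit 1) (nat_lit 7) (nat_lit 10) (nat_lit 1) (nat_lit 6) (nat_lit 10) (by decide +kernel)
theorem L43420 : W_5 (nat_lit 3) (nat_lit 0x3c0010001380090000000000000000000000000000000) (nat_lit 0x0) (nat_lit 0xe00020008000000000000000000000000000000000000000) := T_5 (nat_lit 173) (nat_lit 159) (nat_lit 2) (nat_lit 3) (nat_lit 10) L43419 (by decide +kernel)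
theorem L43421 : W_5 (nat_lit 4) (nat_lit 0x380010001380090000000000000000000000000000000) (nat_lit 0x0) (nat_lit 0xe00060028000000000000000000000000000000000000000) := T_5 (nat_lit 174) (nat_lit 161) (nat_lit 2) (nat_lit 4) (nat_lit 10) L43420 (by decide +kernel)
theorem L43422 : W_5 (nat_lit 2) (nat_lit 0x380010001b800d0002000080000000000000000000000) (nat_lit 0x0) (nat_lit 0x10000c000000000000000000) := D_5 (nat_lit 92) (nat_lit 75) (nat_lit 74) (nat_lit 7) (nat_lit 7) (nat_lit 4) (nat_lit 4) (nat_lit 7) (nat_lit 8) (by decide +kernel)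
theorem L43423 : W_5 (nat_lit 3) (nat_lit 0x380010001b800d0002000000000000000000000000000) (nat_lit 0x0) (nat_lit 0x100018000c000000000000000000) := T_5 (nat_lit 91) (nat_lit 108) (nat_lit 4) (nat_lit 7) (nat_lit 9) L43422 (by decide +kernel)
theorem L43424 : W_5 (nat_lit 4) (nat_lit 0x380010001b800d0000000000000000000000000000000) (nat_lit 0x0) (nat_lit 0x800000000000300018000c000000000000000000) := T_5 (nat_lit 109) (nat_lit 159) (nat_lit 5) (nat_lit 7) (nat_lit 6) L43423 (by decide +kernel)
theorem L43425 : W_5 (nat_lit 5) (nat_lit 0x3800100013800d0000000000000000000000000000000) (nat_lit 0x0) (nat_lit 0x200000000800080000000300018000c000000000000000000) := T_5 (nat_lit 143) (nat_lit 193) (nat_lit 5) (nat_lit 7) (nat_lit 7) L43424 (by decide +kernel)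
theorem L43426 : W_5 (nat_lit 6) (nat_lit 0x380010001380090000000000000000000000000000000) (nat_lit 0x0) (nat_lit 0x200000000800080006000300018000c000000000000000000) := T_5 (nat_lit 126) (nat_lit 125) (nat_lit 1) (nat_lit 8) (nat_lit 7) L43425 (by decide +kernel)
theorem L43427 : W_5 (nat_lit 8) (nat_lit 0x280010001380090000000000000000000000000000000) (nat_lit 0x0) (nat_lit 0x2e0016002980080006800300018000c000000000000000000) := Q_5 (nat_lit 176) (C_5 L43412 (C_5 L43418 (C_5 L43421 (C_5 L43426 N_5)))) (by decide +kernel)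
theorem L43428 : W_5 (nat_lit 2) (nat_lit 0x280034001380090000000000000000000000000000000) (nat_lit 0x0) (nat_lit 0x800140000000000000000000000000000000000000000000) := D_5 (nat_lit 174) (nat_lit 176) (nat_lit 191) (nat_lit 2) (nat_lit 4) (nat_lit 10) (nat_lit 5) (nat_lit 5) (nat_lit 7) (by decide +kernel)
theorem L43429 : W_5 (nat_lit 3) (nat_lit 0x280014001380090000000000000000000000000000000) (nat_lit 0x0) (nat_lit 0x800140028000000000000000000000000000000000000000) := T_5 (nat_lit 161) (nat_lit 159) (nat_lit 0) (nat_lit 8) (nat_lit 9) L43428 (by decide +kernel)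
theorem L43430 : W_5 (nat_lit 2) (nat_lit 0x280014001380090000000000000000000000000000000) (nat_lit 0x0) (nat_lit 0x1000000000000000008000400000000000000000000000000) := D_5 (nat_lit 123) (nat_lit 106) (nat_lit 192) (nat_lit 4) (nat_lit 5) (nat_lit 10) (nat_lit 4) (nat_lit 5) (nat_lit 11) (by decide +kernel)
theorem L43431 : W_5 (nat_lit 4) (nat_lit 0x280010001380090000000000000000000000000000000) (nat_lit 0x0) (nat_lit 0x180014002c000000008000400000000000000000000000000) := Q_5 (nat_lit 158) (C_5 L43429 (C_5 L43430 N_5)) (by decide +kernel)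
theorem L43432 : W_5 (nat_lit 9) (nat_lit 0x200010001380090000000000000000000000000000000) (nat_lit 0x0) (nat_lit 0x3e001e002d80080006800340018000c000000000000000000) := Q_5 (nat_lit 175) (C_5 L43404 (C_5 L43408 (C_5 L43427 (C_5 L43431 N_5)))) (by decide +kernel)
theorem L43433 : W_5 (nat_lit 12) (nat_lit 0x200010001300090000000000000000000000000000000) (nat_lit 0x0) (nat_lit 0x10000c003f001f802de008e006f80378019c00ca00000000000000000) := Q_5 (nat_lit 139) (C_5 L42587 (C_5 L42569 (C_5 L43432 N_5))) (by decide +kernel)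
theorem L43434 : W_5 (nat_lit 2) (nat_lit 0x30001c0013400d0000000000000000000000000000000) (nat_lit 0x0) (nat_lit 0x40002000000000000800000000000000000000000000000000000) := D_5 (nat_lit 193) (nat_lit 210) (nat_lit 143) (nat_lit 4) (nat_lit 6) (nat_lit 12) (nat_lit 5) (nat_lit 7) (nat_lit 7) (by decide +kernel)
theorem L43435 : W_5 (nat_lit 3) (nat_lit 0x20001c0013400d0000000000000000000000000000000) (nat_lit 0x0) (nat_lit 0x40002000100000000800000000800000000000000000000000000) := T_5 (nat_lit 176) (nat_lit 107) (nat_lit 7) (nat_lit 5) (nat_lit 6) L43434 (by decide +kernel)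
theorem L43436 : W_5 (nat_lit 4) (nat_lit 0x20001c0013000d0000000000000000000000000000000) (nat_lit 0x0) (nat_lit 0x400020001000000008c0000000800000000000000000000000000) := T_5 (nat_lit 138) (nat_lit 139) (nat_lit 3) (nat_lit 2) (nat_lit 8) L43435 (by decide +kernel)
theorem L43437 : W_5 (nat_lit 5) (nat_lit 0x2000140013000d0000000000000000000000000000000) (nat_lit 0x0) (nat_lit 0x400020001000280008c0000000800000000000000000000000000) := T_5 (nat_lit 159) (nat_lit 161) (nat_lit 0) (nat_lit 8) (nat_lit 9) L43436 (by decide +kernel)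
theorem L43438 : W_5 (nat_lit 6) (nat_lit 0x200014001300090000000000000000000000000000000) (nat_lit 0x0) (nat_lit 0x400020001000280008c0060000800000000000000000000000000) := T_5 (nat_lit 126) (nat_lit 125) (nat_lit 1) (nat_lit 8) (nat_lit 7) L43437 (by decide +kernel)
theorem L43439 : W_5 (nat_lit 2) (nat_lit 0x2800340013400b0000000000000000000000000000000) (nat_lit 0x0) (nat_lit 0x1000000000000000008000400000000000000000000000000) := D_5 (nat_lit 123) (nat_lit 106) (nat_lit 192) (nat_lit 4) (nat_lit 5) (nat_lit 10) (nat_lit 4) (nat_lit 5) (nat_lit 11) (by decide +kernel)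
theorem L43440 : W_5 (nat_lit 3) (nat_lit 0x2000340013400b0000000000000000000000000000000) (nat_lit 0x0) (nat_lit 0x1000080000000000008001400000000000000000000000000) := T_5 (nat_lit 175) (nat_lit 108) (nat_lit 6) (nat_lit 5) (nat_lit 10) L43439 (by decide +kernel)
theorem L43441 : W_5 (nat_lit 4) (nat_lit 0x2000340013000b0000000000000000000000000000000) (nat_lit 0x0) (nat_lit 0x10000800000000c0008001400000000000000000000000000) := T_5 (nat_lit 138) (nat_lit 139) (nat_lit 2) (nat_lit 2) (nat_lit 8) L43440 (by decide +kernel)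
theorem L43442 : W_5 (nat_lit 5) (nat_lit 0x200034001300090000000000000000000000000000000) (nat_lit 0x0) (nat_lit 0x10000800000000c0068001400000000000000000000000000) := T_5 (nat_lit 125) (nat_lit 126) (nat_lit 1) (nat_lit 8) (nat_lit 7) L43441 (by decide +kernel)
theorem L43443 : W_5 (nat_lit 6) (nat_lit 0x200014001300090000000000000000000000000000000) (nat_lit 0x0) (nat_lit 0x10000800280000c0068001400000000000000000000000000) := T_5 (nat_lit 161) (nat_lit 159) (nat_lit 0) (nat_lit 8) (nat_lit 9) L43442 (by decide +kernel)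
theorem L43444 : W_5 (nat_lit 7) (nat_lit 0x200010001300090000000000000000000000000000000) (nat_lit 0x0) (nat_lit 0x400038001e002c0008c0068001c00000000000000000000000000) := Q_5 (nat_lit 158) (C_5 L43438 (C_5 L43443 (C_5 L40538 (C_5 L43271 N_5)))) (by decide +kernel)
theorem L43445 : W_5 (nat_lit 14) (nat_lit 0x200010001300090000000000000000000000000000000) (nat_lit 0x0) (nat_lit 0x16000b0005c000e006f003f803fc007c00000000000000000) := Q_5 (nat_lit 123) (C_5 L43373 (C_5 L43309 (C_5 L43359 (C_5 L43041 (C_5 L43221 (C_5 L43352 N_5)))))) (by decide +kernel)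
theorem L43446 : W_5 (nat_lit 2) (nat_lit 0x100030001c0013000d8000000000000000000000000000000) (nat_lit 0x0) (nat_lit 0x40002000000000000800000000000000000000000000000000000) := D_5 (nat_lit 193) (nat_lit 210) (nat_lit 143) (nat_lit 4) (nat_lit 6) (nat_lit 12) (nat_lit 5) (nat_lit 7) (nat_lit 7) (by decide +kernel)
theorem L43447 : W_5 (nat_lit 3) (nat_lit 0x100020001c0013000d8000000000000000000000000000000) (nat_lit 0x0) (nat_lit 0x40002000100000000800000000800000000000000000000000000) := T_5 (nat_lit 176) (nat_lit 107) (nat_lit 7) (nat_lit 5) (nat_lit 6) L43446 (by decide +kernel)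
theorem L43448 : W_5 (nat_lit 4) (nat_lit 0x10002000140013000d8000000000000000000000000000000) (nat_lit 0x0) (nat_lit 0x40002000100028000800000000800000000000000000000000000) := T_5 (nat_lit 159) (nat_lit 161) (nat_lit 0) (nat_lit 8) (nat_lit 9) L43447 (by decide +kernel)
theorem L43449 : W_5 (nat_lit 5) (nat_lit 0x2000140013000d8000000000000000000000000000000) (nat_lit 0x0) (nat_lit 0x40003000180028000800000000800000000000000000000000000) := T_5 (nat_lit 192) (nat_lit 175) (nat_lit 4) (nat_lit 5) (nat_lit 11) L43448 (by decide +kernel)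
theorem L43450 : W_5 (nat_lit 6) (nat_lit 0x200014001300098000000000000000000000000000000) (nat_lit 0x0) (nat_lit 0x40003000180028000800060000800000000000000000000000000) := T_5 (nat_lit 126) (nat_lit 125) (nat_lit 1) (nat_lit 8) (nat_lit 7) L43449 (by decide +kernel)
theorem L43451 : W_5 (nat_lit 2) (nat_lit 0x20001c0013000d8000800020000000000000000000000) (nat_lit 0x0) (nat_lit 0x40003000000000000000000) := D_5 (nat_lit 90) (nat_lit 73) (nat_lit 72) (nat_lit 5) (nat_lit 5) (nat_lit 4) (nat_lit 4) (nat_lit 5) (nat_lit 8) (by decide +kernel)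
theorem L43452 : W_5 (nat_lit 3) (nat_lit 0x20001c0013000d8000800000000000000000000000000) (nat_lit 0x0) (nat_lit 0x400060003000000000000000000) := T_5 (nat_lit 89) (nat_lit 106) (nat_lit 7) (nat_lit 4) (nat_lit 5) L43451 (by decide +kernel)
theorem L43453 : W_5 (nat_lit 4) (nat_lit 0x20001c0013000d8000000000000000000000000000000) (nat_lit 0x0) (nat_lit 0x100000000000000000c00060003000000000000000000) := T_5 (nat_lit 107) (nat_lit 176) (nat_lit 7) (nat_lit 5) (nat_lit 6) L43452 (by decide +kernel)
theorem L43454 : W_5 (nat_lit 5) (nat_lit 0x20001c001300098000000000000000000000000000000) (nat_lit 0x0) (nat_lit 0x100000000000060000c00060003000000000000000000) := T_5 (nat_lit 126) (nat_lit 125) (nat_lit 1) (nat_lit 8) (nat_lit 7) L43453 (by decide +kernel)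
theorem L43455 : W_5 (nat_lit 6) (nat_lit 0x200014001300098000000000000000000000000000000) (nat_lit 0x0) (nat_lit 0x100028000000060000c00060003000000000000000000) := T_5 (nat_lit 159) (nat_lit 161) (nat_lit 0) (nat_lit 8) (nat_lit 9) L43454 (by decide +kernel)
theorem L43456 : W_5 (nat_lit 7) (nat_lit 0x200010001300098000000000000000000000000000000) (nat_lit 0x0) (nat_lit 0x4000300018002c000800060000c00060003000000000000000000) := Q_5 (nat_lit 158) (C_5 L42786 (C_5 L43450 (C_5 L43455 N_5))) (by decide +kernel)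
theorem L43457 : W_5 (nat_lit 2) (nat_lit 0x300010001b800dc002000000000000000000000000000) (nat_lit 0x0) (nat_lit 0x20000000000000000100008000000000000000000) := D_5 (nat_lit 92) (nat_lit 161) (nat_lit 75) (nat_lit 7) (nat_lit 7) (nat_lit 5) (nat_lit 7) (nat_lit 7) (nat_lit 4) (by decide +kernel)
theorem L43458 : W_5 (nat_lit 3) (nat_lit 0x300010001b800dc000000000000000000000000000000) (nat_lit 0x0) (nat_lit 0x28000000000002000100008000000000000000000) := T_5 (nat_lit 109) (nat_lit 159) (nat_lit 5) (nat_lit 7) (nat_lit 6) L43457 (by decide +kernel)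
theorem L43459 : W_5 (nat_lit 4) (nat_lit 0x3000100013800dc000000000000000000000000000000) (nat_lit 0x0) (nat_lit 0x2000000028000800000002000100008000000000000000000) := T_5 (nat_lit 143) (nat_lit 193) (nat_lit 5) (nat_lit 7) (nat_lit 7) L43458 (by decide +kernel)
theorem L43460 : W_5 (nat_lit 5) (nat_lit 0x30001000138009c000000000000000000000000000000) (nat_lit 0x0) (nat_lit 0x2000000028000800060002000100008000000000000000000) := T_5 (nat_lit 126) (nat_lit 125) (nat_lit 1) (nat_lit 7) (nat_lit 7) L43459 (by decide +kernel)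
theorem L43461 : W_5 (nat_lit 2) (nat_lit 0x8000000024003c00100013800dc000000000000000000000000000000) (nat_lit 0x0) (nat_lit 0x200020001000000000000000000000000000000000000000) := D_5 (nat_lit 173) (nat_lit 189) (nat_lit 156) (nat_lit 1) (nat_lit 6) (nat_lit 10) (nat_lit 6) (nat_lit 3) (nat_lit 11) (by decide +kernel)
theorem L43462 : W_5 (nat_lit 3) (nat_lit 0x8000000020003c00100013800dc000000000000000000000000000000) (nat_lit 0x0) (nat_lit 0xe00020001000000000000000000000000000000000000000) := T_5 (nat_lit 190) (nat_lit 191) (nat_lit 1) (nat_lit 7) (nat_lit 10) L43461 (by decide +kernel)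
theorem L43463 : W_5 (nat_lit 4) (nat_lit 0x8000000020003800100013800dc000000000000000000000000000000) (nat_lit 0x0) (nat_lit 0xe00060021000000000000000000000000000000000000000) := T_5 (nat_lit 174) (nat_lit 161) (nat_lit 2) (nat_lit 4) (nat_lit 10) L43462 (by decide +kernel)
theorem L43464 : W_5 (nat_lit 5) (nat_lit 0x20003800100013800dc000000000000000000000000000000) (nat_lit 0x0) (nat_lit 0x800040000e00060021000000000000000000000000000000000000000) := T_5 (nat_lit 227) (nat_lit 210) (nat_lit 6) (nat_lit 6) (nat_lit 13) L43463 (by decide +kernel)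
theorem L43465 : W_5 (nat_lit 6) (nat_lit 0x20003000100013800dc000000000000000000000000000000) (nat_lit 0x0) (nat_lit 0x800040000e000e0025000000000000000000000000000000000000000) := T_5 (nat_lit 175) (nat_lit 158) (nat_lit 7) (nat_lit 5) (nat_lit 7) L43464 (by decide +kernel)
theorem L43466 : W_5 (nat_lit 7) (nat_lit 0x3000100013800dc000000000000000000000000000000) (nat_lit 0x0) (nat_lit 0x800040002e000e0025000800000000000000000000000000000000000) := T_5 (nat_lit 193) (nat_lit 143) (nat_lit 5) (nat_lit 7) (nat_lit 7) L43465 (by decide +kernel)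
theorem L43467 : W_5 (nat_lit 8) (nat_lit 0x30001000138009c000000000000000000000000000000) (nat_lit 0x0) (nat_lit 0x800040002e000e0025000800060000000000000000000000000000000) := T_5 (nat_lit 126) (nat_lit 125) (nat_lit 1) (nat_lit 7) (nat_lit 7) L43466 (by decide +kernel)
theorem L43468 : W_5 (nat_lit 2) (nat_lit 0x30001400138009c000000000000000000000000000000) (nat_lit 0x0) (nat_lit 0x28000000000000800000000000000000000000000) := D_5 (nat_lit 159) (nat_lit 161) (nat_lit 107) (nat_lit 0) (nat_lit 8) (nat_lit 9) (nat_lit 7) (nat_lit 5) (nat_lit 6) (by decide +kernel)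
theorem L43469 : W_5 (nat_lit 2) (nat_lit 0x30001400138009c000000000000000000000000000000) (nat_lit 0x0) (nat_lit 0x3000080000000000000000000000000000000000000000000) := D_5 (nat_lit 175) (nat_lit 193) (nat_lit 192) (nat_lit 7) (nat_lit 5) (nat_lit 7) (nat_lit 4) (nat_lit 5) (nat_lit 11) (by decide +kernel)
theorem L43470 : W_5 (nat_lit 3) (nat_lit 0x30001000138009c000000000000000000000000000000) (nat_lit 0x0) (nat_lit 0x300008002c000000000000800000000000000000000000000) := Q_5 (nat_lit 158) (C_5 L43468 (C_5 L43469 N_5)) (by decide +kernel)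
theorem L43471 : W_5 (nat_lit 2) (nat_lit 0x38001c001b800dc000000000000000000000000000000) (nat_lit 0x0) (nat_lit 0x800060000000000000000000000000000000000000000000) := D_5 (nat_lit 174) (nat_lit 191) (nat_lit 173) (nat_lit 5) (nat_lit 5) (nat_lit 7) (nat_lit 2) (nat_lit 3) (nat_lit 10) (by decide +kernel)
theorem L43472 : W_5 (nat_lit 3) (nat_lit 0x30001c001b800dc000000000000000000000000000000) (nat_lit 0x0) (nat_lit 0x18000e0000000000000000000000000000000000000000000) := T_5 (nat_lit 175) (nat_lit 192) (nat_lit 4) (nat_lit 5) (nat_lit 11) L43471 (by decide +kernel)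
theorem L43473 : W_5 (nat_lit 4) (nat_lit 0x300018001b800dc000000000000000000000000000000) (nat_lit 0x0) (nat_lit 0x18000e0004000000000000800000000000000000000000000) := T_5 (nat_lit 158) (nat_lit 107) (nat_lit 7) (nat_lit 5) (nat_lit 6) L43472 (by decide +kernel)
theorem L43474 : W_5 (nat_lit 5) (nat_lit 0x300010001b800dc000000000000000000000000000000) (nat_lit 0x0) (nat_lit 0x18000e000c000000000002800000000000000000000000000) := T_5 (nat_lit 159) (nat_lit 109) (nat_lit 5) (nat_lit 7) (nat_lit 6) L43473 (by decide +kernel)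
theorem L43475 : W_5 (nat_lit 6) (nat_lit 0x3000100013800dc000000000000000000000000000000) (nat_lit 0x0) (nat_lit 0x38000e000c000800000002800000000000000000000000000) := T_5 (nat_lit 143) (nat_lit 193) (nat_lit 5) (nat_lit 7) (nat_lit 7) L43474 (by decide +kernel)
theorem L43476 : W_5 (nat_lit 7) (nat_lit 0x30001000138009c000000000000000000000000000000) (nat_lit 0x0) (nat_lit 0x38000e000c000800060002800000000000000000000000000) := T_5 (nat_lit 126) (nat_lit 125) (nat_lit 1) (nat_lit 7) (nat_lit 7) L43475 (by decide +kernel)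
theorem L43477 : W_5 (nat_lit 2) (nat_lit 0x10003e001000138009c000000000000000000000000000000) (nat_lit 0x0) (nat_lit 0x800000001800000000000000000000000000000000000000) := D_5 (nat_lit 156) (nat_lit 155) (nat_lit 191) (nat_lit 0) (nat_lit 6) (nat_lit 10) (nat_lit 7) (nat_lit 3) (nat_lit 7) (by decide +kernel)
theorem L43478 : W_5 (nat_lit 3) (nat_lit 0x10003c001000138009c000000000000000000000000000000) (nat_lit 0x0) (nat_lit 0x800020009800000000000000000000000000000000000000) := T_5 (nat_lit 173) (nat_lit 159) (nat_lit 2) (nat_lit 3) (nat_lit 10) L43477 (by decide +kernel)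
theorem L43479 : W_5 (nat_lit 4) (nat_lit 0x100038001000138009c000000000000000000000000000000) (nat_lit 0x0) (nat_lit 0x800060029800000000000000000000000000000000000000) := T_5 (nat_lit 174) (nat_lit 161) (nat_lit 2) (nat_lit 4) (nat_lit 10) L43478 (by decide +kernel)
theorem L43480 : W_5 (nat_lit 5) (nat_lit 0x38001000138009c000000000000000000000000000000) (nat_lit 0x0) (nat_lit 0x180006002d800000000000000000000000000000000000000) := T_5 (nat_lit 192) (nat_lit 158) (nat_lit 4) (nat_lit 5) (nat_lit 11) L43479 (by decide +kernel)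
theorem L43481 : W_5 (nat_lit 2) (nat_lit 0x3e001000138009c000000000000000000000000000000) (nat_lit 0x0) (nat_lit 0x400000001800000000000000000000000000000000000000) := D_5 (nat_lit 156) (nat_lit 155) (nat_lit 190) (nat_lit 0) (nat_lit 6) (nat_lit 10) (nat_lit 6) (nat_lit 3) (nat_lit 11) (by decide +kernel)
theorem L43482 : W_5 (nat_lit 3) (nat_lit 0x3c001000138009c000000000000000000000000000000) (nat_lit 0x0) (nat_lit 0x400020009800000000000000000000000000000000000000) := T_5 (nat_lit 173) (nat_lit 159) (nat_lit 2) (nat_lit 3) (nat_lit 10) L43481 (by decide +kernel)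
theorem L43483 : W_5 (nat_lit 4) (nat_lit 0x38001000138009c000000000000000000000000000000) (nat_lit 0x0) (nat_lit 0x400060029800000000000000000000000000000000000000) := T_5 (nat_lit 174) (nat_lit 161) (nat_lit 2) (nat_lit 4) (nat_lit 10) L43482 (by decide +kernel)
theorem L43484 : W_5 (nat_lit 2) (nat_lit 0x3c00140013800dc000000000000000000000000000000) (nat_lit 0x0) (nat_lit 0x20008000000000000800000000000000000000000000) := D_5 (nat_lit 159) (nat_lit 173) (nat_lit 107) (nat_lit 2) (nat_lit 3) (nat_lit 10) (nat_lit 7) (nat_lit 5) (nat_lit 6) (by decide +kernel)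
theorem L43485 : W_5 (nat_lit 3) (nat_lit 0x3800140013800dc000000000000000000000000000000) (nat_lit 0x0) (nat_lit 0x800060008000000000000800000000000000000000000000) := T_5 (nat_lit 174) (nat_lit 191) (nat_lit 5) (nat_lit 5) (nat_lit 7) L43484 (by decide +kernel)
theorem L43486 : W_5 (nat_lit 4) (nat_lit 0x3800100013800dc000000000000000000000000000000) (nat_lit 0x0) (nat_lit 0x180006000c000000000000800000000000000000000000000) := T_5 (nat_lit 158) (nat_lit 192) (nat_lit 4) (nat_lit 5) (nat_lit 11) L43485 (by decide +kernel)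
theorem L43487 : W_5 (nat_lit 5) (nat_lit 0x38001000138009c000000000000000000000000000000) (nat_lit 0x0) (nat_lit 0x180006000c000000060000800000000000000000000000000) := T_5 (nat_lit 126) (nat_lit 125) (nat_lit 1) (nat_lit 7) (nat_lit 7) L43486 (by decide +kernel)
theorem L43488 : W_5 (nat_lit 2) (nat_lit 0x100038003000138009c000000000000000000000000000000) (nat_lit 0x0) (nat_lit 0xc8000000000000000000000000000000000000000) := D_5 (nat_lit 162) (nat_lit 163) (nat_lit 159) (nat_lit 1) (nat_lit 10) (nat_lit 9) (nat_lit 1) (nat_lit 9) (nat_lit 9) (by decide +kernel)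
theorem L43489 : W_5 (nat_lit 3) (nat_lit 0x100038001000138009c000000000000000000000000000000) (nat_lit 0x0) (nat_lit 0x400e8000000000000000000000000000000000000000) := T_5 (nat_lit 161) (nat_lit 174) (nat_lit 2) (nat_lit 4) (nat_lit 10) L43488 (by decide +kernel)
theorem L43490 : W_5 (nat_lit 4) (nat_lit 0x38001000138009c000000000000000000000000000000) (nat_lit 0x0) (nat_lit 0x10000400ec000000000000000000000000000000000000000) := T_5 (nat_lit 192) (nat_lit 158) (nat_lit 4) (nat_lit 5) (nat_lit 11) L43489 (by decide +kernel)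
theorem L43491 : W_5 (nat_lit 2) (nat_lit 0x3800140013800dc000000000000000000000000000000) (nat_lit 0x0) (nat_lit 0x28000000000000800000000000000000000000000) := D_5 (nat_lit 159) (nat_lit 161) (nat_lit 107) (nat_lit 0) (nat_lit 8) (nat_lit 9) (nat_lit 7) (nat_lit 5) (nat_lit 6) (by decide +kernel)
theorem L43492 : W_5 (nat_lit 3) (nat_lit 0x3800100013800dc000000000000000000000000000000) (nat_lit 0x0) (nat_lit 0x100000002c000000000000800000000000000000000000000) := T_5 (nat_lit 158) (nat_lit 192) (nat_lit 4) (nat_lit 5) (nat_lit 11) L43491 (by decide +kernel)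
theorem L43493 : W_5 (nat_lit 4) (nat_lit 0x38001000138009c000000000000000000000000000000) (nat_lit 0x0) (nat_lit 0x100000002c000000060000800000000000000000000000000) := T_5 (nat_lit 126) (nat_lit 125) (nat_lit 1) (nat_lit 7) (nat_lit 7) L43492 (by decide +kernel)
theorem L43494 : W_5 (nat_lit 6) (nat_lit 0x30001000138009c000000000000000000000000000000) (nat_lit 0x0) (nat_lit 0x1e000e00ed800000060000800000000000000000000000000) := Q_5 (nat_lit 175) (C_5 L43363 (C_5 L43480 (C_5 L43483 (C_5 L43487 (C_5 L43490 (C_5 L43493 N_5)))))) (by decide +kernel)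
theorem L43495 : W_5 (nat_lit 9) (nat_lit 0x20001000138009c000000000000000000000000000000) (nat_lit 0x0) (nat_lit 0x800040003e001e00ed800800060002800100008000000000000000000) := Q_5 (nat_lit 176) (C_5 L43460 (C_5 L43467 (C_5 L43470 (C_5 L43476 (C_5 L43494 N_5))))) (by decide +kernel)
theorem L43496 : W_5 (nat_lit 2) (nat_lit 0x20001100138009e000100000000000000000000000000) (nat_lit 0x0) (nat_lit 0x200008000400000000000000000) := D_5 (nat_lit 87) (nat_lit 70) (nat_lit 105) (nat_lit 7) (nat_lit 2) (nat_lit 4) (nat_lit 4) (nat_lit 3) (nat_lit 9) (by decide +kernel)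
theorem L43497 : W_5 (nat_lit 3) (nat_lit 0x20001000138009e000100000000000000000000000000) (nat_lit 0x0) (nat_lit 0x20001000000000000200008000400000000000000000) := T_5 (nat_lit 156) (nat_lit 173) (nat_lit 4) (nat_lit 3) (nat_lit 10) L43496 (by decide +kernel)
theorem L43498 : W_5 (nat_lit 4) (nat_lit 0x20001000138009e000000000000000000000000000000) (nat_lit 0x0) (nat_lit 0x20001000000000000380008000400000000000000000) := T_5 (nat_lit 104) (nat_lit 103) (nat_lit 0) (nat_lit 5) (nat_lit 7) L43497 (by decide +kernel)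
theorem L43499 : W_5 (nat_lit 5) (nat_lit 0x20001000138009c000000000000000000000000000000) (nat_lit 0x0) (nat_lit 0x20001000000003000380008000400000000000000000) := T_5 (nat_lit 121) (nat_lit 120) (nat_lit 3) (nat_lit 1) (nat_lit 7) L43498 (by decide +kernel)
theorem L43500 : W_5 (nat_lit 2) (nat_lit 0x2000100013800be000000000000000000000000000000) (nat_lit 0x0) (nat_lit 0x380000000000000000000000000) := D_5 (nat_lit 104) (nat_lit 103) (nat_lit 105) (nat_lit 0) (nat_lit 5) (nat_lit 7) (nat_lit 0) (nat_lit 6) (nat_lit 7) (by decide +kernel)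
theorem L43501 : W_5 (nat_lit 3) (nat_lit 0x20001000138009e000000000000000000000000000000) (nat_lit 0x0) (nat_lit 0x60000380000000000000000000000000) := T_5 (nat_lit 125) (nat_lit 126) (nat_lit 1) (nat_lit 7) (nat_lit 7) L43500 (by decide +kernel)
theorem L43502 : W_5 (nat_lit 4) (nat_lit 0x20001000138009c000000000000000000000000000000) (nat_lit 0x0) (nat_lit 0x63000380000000000000000000000000) := T_5 (nat_lit 121) (nat_lit 120) (nat_lit 3) (nat_lit 1) (nat_lit 7) L43501 (by decide +kernel)
theorem L43503 : W_5 (nat_lit 10) (nat_lit 0x200010001380098000000000000000000000000000000) (nat_lit 0x0) (nat_lit 0x800040003e001e00ed800800067002b80108008400000000000000000) := Q_5 (nat_lit 122) (C_5 L42970 (C_5 L43495 (C_5 L43499 (C_5 L43502 N_5)))) (by decide +kernel)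
theorem L43504 : W_5 (nat_lit 2) (nat_lit 0x3800140013c009a000000000000000000000000000000) (nat_lit 0x0) (nat_lit 0x800040020000000000000000000000000000000000000000) := D_5 (nat_lit 174) (nat_lit 161) (nat_lit 191) (nat_lit 2) (nat_lit 4) (nat_lit 10) (nat_lit 5) (nat_lit 5) (nat_lit 7) (by decide +kernel)
theorem L43505 : W_5 (nat_lit 3) (nat_lit 0x2800140013c009a000000000000000000000000000000) (nat_lit 0x0) (nat_lit 0x2800140020000000000000000000000000000000000000000) := T_5 (nat_lit 176) (nat_lit 193) (nat_lit 7) (nat_lit 5) (nat_lit 7) L43504 (by decide +kernel)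
theorem L43506 : W_5 (nat_lit 4) (nat_lit 0x2800140013c0098000000000000000000000000000000) (nat_lit 0x0) (nat_lit 0x2800140020000000003000000000000000000000000000000) := T_5 (nat_lit 121) (nat_lit 120) (nat_lit 0) (nat_lit 5) (nat_lit 8) L43505 (by decide +kernel)
theorem L43507 : W_5 (nat_lit 5) (nat_lit 0x2000140013c0098000000000000000000000000000000) (nat_lit 0x0) (nat_lit 0x38001c0020000000003000000000000000000000000000000) := T_5 (nat_lit 175) (nat_lit 192) (nat_lit 4) (nat_lit 5) (nat_lit 11) L43506 (by decide +kernel)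
theorem L43508 : W_5 (nat_lit 6) (nat_lit 0x2000100013c0098000000000000000000000000000000) (nat_lit 0x0) (nat_lit 0x38001c002c000000003000000000000000000000000000000) := T_5 (nat_lit 158) (nat_lit 159) (nat_lit 3) (nat_lit 2) (nat_lit 8) L43507 (by decide +kernel)
theorem L43509 : W_5 (nat_lit 7) (nat_lit 0x200010001380098000000000000000000000000000000) (nat_lit 0x0) (nat_lit 0x38001c002c000060003000000000000000000000000000000) := T_5 (nat_lit 138) (nat_lit 137) (nat_lit 2) (nat_lit 1) (nat_lit 8) L43508 (by decide +kernel)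
theorem L43510 : W_5 (nat_lit 11) (nat_lit 0x200010001300098000000000000000000000000000000) (nat_lit 0x0) (nat_lit 0x800040003e001e00ed8008e0067002b80108008400000000000000000) := Q_5 (nat_lit 139) (C_5 L43503 (C_5 L42639 (C_5 L43509 N_5))) (by decide +kernel)
theorem L43511 : W_5 (nat_lit 2) (nat_lit 0x200010001340098000000000000000000000000000000) (nat_lit 0x0) (nat_lit 0x80060000000000000000000000000000000) := D_5 (nat_lit 125) (nat_lit 126) (nat_lit 139) (nat_lit 1) (nat_lit 8) (nat_lit 7) (nat_lit 2) (nat_lit 2) (nat_lit 8) (by decide +kernel)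
theorem L43512 : W_5 (nat_lit 2) (nat_lit 0x20001000134009a000000000000000000000000000000) (nat_lit 0x0) (nat_lit 0x20005000000000000000000000000000000) := D_5 (nat_lit 122) (nat_lit 137) (nat_lit 120) (nat_lit 1) (nat_lit 5) (nat_lit 7) (nat_lit 3) (nat_lit 1) (nat_lit 7) (by decide +kernel)
theorem L43513 : W_5 (nat_lit 2) (nat_lit 0x2000108013400da00010001c000000000000000000000) (nat_lit 0x0) (nat_lit 0x8000400020000000000000000000000000000000000) := D_5 (nat_lit 154) (nat_lit 171) (nat_lit 137) (nat_lit 5) (nat_lit 2) (nat_lit 6) (nat_lit 5) (nat_lit 2) (nat_lit 5) (by decide +kernel)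
theorem L43514 : W_5 (nat_lit 3) (nat_lit 0x2000100013400da00010001c000000000000000000000) (nat_lit 0x0) (nat_lit 0x8000c00020000000080000000000000000000000000) := T_5 (nat_lit 155) (nat_lit 103) (nat_lit 4) (nat_lit 2) (nat_lit 9) L43513 (by decide +kernel)
theorem L43515 : W_5 (nat_lit 4) (nat_lit 0x2000100013400da000100018000000000000000000000) (nat_lit 0x0) (nat_lit 0x8000c00020000000080004000200000000000000000) := T_5 (nat_lit 86) (nat_lit 69) (nat_lit 4) (nat_lit 2) (nat_lit 8) L43514 (by decide +kernel)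
theorem L43516 : W_5 (nat_lit 5) (nat_lit 0x2000100013400da000100008000000000000000000000) (nat_lit 0x0) (nat_lit 0x8000c00020000000080014000a00000000000000000) := T_5 (nat_lit 88) (nat_lit 71) (nat_lit 6) (nat_lit 2) (nat_lit 8) L43515 (by decide +kernel)
theorem L43517 : W_5 (nat_lit 6) (nat_lit 0x20001000134009a000100008000000000000000000000) (nat_lit 0x0) (nat_lit 0x8000c00020060000080014000a00000000000000000) := T_5 (nat_lit 126) (nat_lit 125) (nat_lit 1) (nat_lit 8) (nat_lit 7) L43516 (by decide +kernel)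
theorem L43518 : W_5 (nat_lit 2) (nat_lit 0x20001000136009a000100018000400000000000000000) (nat_lit 0x0) (nat_lit 0x4000200010000000000000) := D_5 (nat_lit 69) (nat_lit 86) (nat_lit 52) (nat_lit 4) (nat_lit 2) (nat_lit 8) (nat_lit 4) (nat_lit 2) (nat_lit 7) (by decide +kernel)
theorem L43519 : W_5 (nat_lit 3) (nat_lit 0x20001000136009a000100018000000000000000000000) (nat_lit 0x0) (nat_lit 0x1000000004000600010000000000000) := T_5 (nat_lit 70) (nat_lit 120) (nat_lit 5) (nat_lit 2) (nat_lit 4) L43518 (by decide +kernel)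
theorem L43520 : W_5 (nat_lit 4) (nat_lit 0x20001000136009a000100008000000000000000000000) (nat_lit 0x0) (nat_lit 0x1000000014000e00010000000000000) := T_5 (nat_lit 88) (nat_lit 71) (nat_lit 6) (nat_lit 2) (nat_lit 8) L43519 (by decide +kernel)
theorem L43521 : W_5 (nat_lit 5) (nat_lit 0x20001000134009a000100008000000000000000000000) (nat_lit 0x0) (nat_lit 0x400020001000000014000e00010000000000000) := T_5 (nat_lit 137) (nat_lit 154) (nat_lit 5) (nat_lit 2) (nat_lit 5) L43520 (by decide +kernel)
theorem L43522 : W_5 (nat_lit 2) (nat_lit 0x22801080134009a00010000c000000000000000000000) (nat_lit 0x0) (nat_lit 0x500010000000000000000000000000000000000000000000) := D_5 (nat_lit 172) (nat_lit 188) (nat_lit 190) (nat_lit 5) (nat_lit 2) (nat_lit 7) (nat_lit 7) (nat_lit 2) (nat_lit 7) (by decide +kernel)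
theorem L43523 : W_5 (nat_lit 3) (nat_lit 0x20801080134009a00010000c000000000000000000000) (nat_lit 0x0) (nat_lit 0x500030001000000000000000000000000000000000000000) := T_5 (nat_lit 173) (nat_lit 156) (nat_lit 7) (nat_lit 2) (nat_lit 6) L43522 (by decide +kernel)
theorem L43524 : W_5 (nat_lit 4) (nat_lit 0x20001080134009a00010000c000000000000000000000) (nat_lit 0x0) (nat_lit 0x500038001400000000000000000000000000000000000000) := T_5 (nat_lit 171) (nat_lit 154) (nat_lit 5) (nat_lit 2) (nat_lit 6) L43523 (by decide +kernel)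
theorem L43525 : W_5 (nat_lit 5) (nat_lit 0x20001000134009a00010000c000000000000000000000) (nat_lit 0x0) (nat_lit 0x500038001c00000000000080000000000000000000000000) := T_5 (nat_lit 155) (nat_lit 103) (nat_lit 4) (nat_lit 2) (nat_lit 9) L43524 (by decide +kernel)
theorem L43526 : W_5 (nat_lit 6) (nat_lit 0x20001000134009a000100008000000000000000000000) (nat_lit 0x0) (nat_lit 0x500038001c00000000000080004000200000000000000000) := T_5 (nat_lit 86) (nat_lit 69) (nat_lit 4) (nat_lit 2) (nat_lit 8) L43525 (by decide +kernel)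
theorem L43527 : W_5 (nat_lit 2) (nat_lit 0x2000100013600da000100008000800000000000000000) (nat_lit 0x0) (nat_lit 0x1000000000000400040000000000000) := D_5 (nat_lit 70) (nat_lit 120) (nat_lit 54) (nat_lit 5) (nat_lit 2) (nat_lit 4) (nat_lit 6) (nat_lit 2) (nat_lit 7) (by decide +kernel)
theorem L43528 : W_5 (nat_lit 3) (nat_lit 0x2000100013600da000100008000000000000000000000) (nat_lit 0x0) (nat_lit 0x1000000010000c00040000000000000) := T_5 (nat_lit 71) (nat_lit 88) (nat_lit 6) (nat_lit 2) (nat_lit 8) L43527 (by decide +kernel)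
theorem L43529 : W_5 (nat_lit 4) (nat_lit 0x2000100013400da000100008000000000000000000000) (nat_lit 0x0) (nat_lit 0x400020001000000010000c00040000000000000) := T_5 (nat_lit 137) (nat_lit 154) (nat_lit 5) (nat_lit 2) (nat_lit 5) L43528 (by decide +kernel)
theorem L43530 : W_5 (nat_lit 5) (nat_lit 0x20001000134009a000100008000000000000000000000) (nat_lit 0x0) (nat_lit 0x400020061000000010000c00040000000000000) := T_5 (nat_lit 126) (nat_lit 125) (nat_lit 1) (nat_lit 8) (nat_lit 7) L43529 (by decide +kernel)
theorem L43531 : W_5 (nat_lit 2) (nat_lit 0x20001000134009a00018001c000000000000000000000) (nat_lit 0x0) (nat_lit 0x40060000000000000000000000) := D_5 (nat_lit 89) (nat_lit 90) (nat_lit 102) (nat_lit 1) (nat_lit 5) (nat_lit 5) (nat_lit 1) (nat_lit 4) (nat_lit 5) (by decide +kernel)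
theorem L43532 : W_5 (nat_lit 3) (nat_lit 0x20001000134009a00018000c000000000000000000000) (nat_lit 0x0) (nat_lit 0x40070000800000000000000000) := T_5 (nat_lit 88) (nat_lit 71) (nat_lit 6) (nat_lit 2) (nat_lit 8) L43531 (by decide +kernel)
theorem L43533 : W_5 (nat_lit 4) (nat_lit 0x20001000134009a00010000c000000000000000000000) (nat_lit 0x0) (nat_lit 0x8000000000000c0070000800000000000000000) := T_5 (nat_lit 103) (nat_lit 155) (nat_lit 4) (nat_lit 2) (nat_lit 9) L43532 (by decide +kernel)
theorem L43534 : W_5 (nat_lit 5) (nat_lit 0x20001000134009a000100008000000000000000000000) (nat_lit 0x0) (nat_lit 0x8000000000000c0074000a00000000000000000) := T_5 (nat_lit 86) (nat_lit 69) (nat_lit 4) (nat_lit 2) (nat_lit 8) L43533 (by decide +kernel)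
theorem L43535 : W_5 (nat_lit 7) (nat_lit 0x20001000134009a000100000000000000000000000000) (nat_lit 0x0) (nat_lit 0x500038001c000200610000c007c000e00050000000000000) := Q_5 (nat_lit 87) (C_5 L43517 (C_5 L43521 (C_5 L43526 (C_5 L43530 (C_5 L43534 N_5))))) (by decide +kernel)
theorem L43536 : W_5 (nat_lit 2) (nat_lit 0x200010c0134009a000300000000000000000000000000) (nat_lit 0x0) (nat_lit 0x480004000000000000000000000) := D_5 (nat_lit 103) (nat_lit 106) (nat_lit 86) (nat_lit 3) (nat_lit 1) (nat_lit 6) (nat_lit 4) (nat_lit 2) (nat_lit 9) (by decide +kernel)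
theorem L43537 : W_5 (nat_lit 3) (nat_lit 0x200010c0134009a000100000000000000000000000000) (nat_lit 0x0) (nat_lit 0x680014000000000000000000000) := T_5 (nat_lit 105) (nat_lit 88) (nat_lit 6) (nat_lit 2) (nat_lit 9) L43536 (by decide +kernel)
theorem L43538 : W_5 (nat_lit 4) (nat_lit 0x20001080134009a000100000000000000000000000000) (nat_lit 0x0) (nat_lit 0x8000400000000000680014000000000000000000000) := T_5 (nat_lit 154) (nat_lit 171) (nat_lit 5) (nat_lit 2) (nat_lit 6) L43537 (by decide +kernel)
theorem L43539 : W_5 (nat_lit 2) (nat_lit 0x200010c0134009a000300008000000000000000000000) (nat_lit 0x0) (nat_lit 0x80004000200000000000000000) := D_5 (nat_lit 86) (nat_lit 103) (nat_lit 69) (nat_lit 4) (nat_lit 2) (nat_lit 9) (nat_lit 4) (nat_lit 2) (nat_lit 8) (by decide +kernel)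
theorem L43540 : W_5 (nat_lit 3) (nat_lit 0x200010c0134009a000300000000000000000000000000) (nat_lit 0x0) (nat_lit 0x2000000008000c000200000000000000000) := T_5 (nat_lit 87) (nat_lit 137) (nat_lit 5) (nat_lit 2) (nat_lit 5) L43539 (by decide +kernel)
theorem L43541 : W_5 (nat_lit 4) (nat_lit 0x200010c0134009a000100000000000000000000000000) (nat_lit 0x0) (nat_lit 0x2000000028001c000200000000000000000) := T_5 (nat_lit 105) (nat_lit 88) (nat_lit 6) (nat_lit 2) (nat_lit 9) L43540 (by decide +kernel)
theorem L43542 : W_5 (nat_lit 5) (nat_lit 0x20001080134009a000100000000000000000000000000) (nat_lit 0x0) (nat_lit 0x800040002000000028001c000200000000000000000) := T_5 (nat_lit 154) (nat_lit 171) (nat_lit 5) (nat_lit 2) (nat_lit 6) L43541 (by decide +kernel)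
theorem L43543 : W_5 (nat_lit 2) (nat_lit 0x200011c0134009b000180008000400000000000000000) (nat_lit 0x0) (nat_lit 0x10000800040000000000000) := D_5 (nat_lit 71) (nat_lit 88) (nat_lit 54) (nat_lit 6) (nat_lit 2) (nat_lit 8) (nat_lit 6) (nat_lit 2) (nat_lit 7) (by decide +kernel)
theorem L43544 : W_5 (nat_lit 3) (nat_lit 0x200011c0134009b000180008000000000000000000000) (nat_lit 0x0) (nat_lit 0x10000c00060000000000000) := T_5 (nat_lit 70) (nat_lit 53) (nat_lit 5) (nat_lit 2) (nat_lit 3) L43543 (by decide +kernel)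
theorem L43545 : W_5 (nat_lit 4) (nat_lit 0x200011c0134009b000180000000000000000000000000) (nat_lit 0x0) (nat_lit 0x20000000000018000c00060000000000000) := T_5 (nat_lit 87) (nat_lit 137) (nat_lit 6) (nat_lit 1) (nat_lit 9) L43544 (by decide +kernel)
theorem L43546 : W_5 (nat_lit 5) (nat_lit 0x200011c0134009a000180000000000000000000000000) (nat_lit 0x0) (nat_lit 0x10000000020001000000018000c00060000000000000) := T_5 (nat_lit 120) (nat_lit 172) (nat_lit 4) (nat_lit 2) (nat_lit 10) L43545 (by decide +kernel)
theorem L43547 : W_5 (nat_lit 6) (nat_lit 0x200011c0134009a000100000000000000000000000000) (nat_lit 0x0) (nat_lit 0x1000000002000100008001c000c00060000000000000) := T_5 (nat_lit 103) (nat_lit 86) (nat_lit 4) (nat_lit 2) (nat_lit 9) L43546 (by decide +kernel)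
theorem L43548 : W_5 (nat_lit 7) (nat_lit 0x20001180134009a000100000000000000000000000000) (nat_lit 0x0) (nat_lit 0x1800040002000100008001c000c00060000000000000) := T_5 (nat_lit 154) (nat_lit 171) (nat_lit 5) (nat_lit 2) (nat_lit 6) L43547 (by decide +kernel)
theorem L43549 : W_5 (nat_lit 8) (nat_lit 0x20001080134009a000100000000000000000000000000) (nat_lit 0x0) (nat_lit 0x3800140002000100008001c000c00060000000000000) := T_5 (nat_lit 156) (nat_lit 173) (nat_lit 7) (nat_lit 2) (nat_lit 6) L43548 (by decide +kernel)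
theorem L43550 : W_5 (nat_lit 2) (nat_lit 0x200011c0134009a000100008000000000000000000000) (nat_lit 0x0) (nat_lit 0x80004000200000000000000000) := D_5 (nat_lit 86) (nat_lit 103) (nat_lit 69) (nat_lit 4) (nat_lit 2) (nat_lit 9) (nat_lit 4) (nat_lit 2) (nat_lit 8) (by decide +kernel)
theorem L43551 : W_5 (nat_lit 3) (nat_lit 0x200011c0134009a000100000000000000000000000000) (nat_lit 0x0) (nat_lit 0x2000000008000c000200000000000000000) := T_5 (nat_lit 87) (nat_lit 137) (nat_lit 5) (nat_lit 2) (nat_lit 5) L43550 (by decide +kernel)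
theorem L43552 : W_5 (nat_lit 4) (nat_lit 0x200010c0134009a000100000000000000000000000000) (nat_lit 0x0) (nat_lit 0x2000100002000000008000c000200000000000000000) := T_5 (nat_lit 156) (nat_lit 173) (nat_lit 7) (nat_lit 2) (nat_lit 6) L43551 (by decide +kernel)
theorem L43553 : W_5 (nat_lit 5) (nat_lit 0x20001080134009a000100000000000000000000000000) (nat_lit 0x0) (nat_lit 0x2800140002000000008000c000200000000000000000) := T_5 (nat_lit 154) (nat_lit 171) (nat_lit 5) (nat_lit 2) (nat_lit 6) L43552 (by decide +kernel)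
theorem L43554 : W_5 (nat_lit 2) (nat_lit 0x2b0010c0136009a000300000000000000000000000000) (nat_lit 0x0) (nat_lit 0x4000200000000000000001000000000000000000000000000000) := D_5 (nat_lit 189) (nat_lit 206) (nat_lit 120) (nat_lit 4) (nat_lit 2) (nat_lit 12) (nat_lit 4) (nat_lit 2) (nat_lit 11) (by decide +kernel)
theorem L43555 : W_5 (nat_lit 3) (nat_lit 0x2b0010c0134009a000300000000000000000000000000) (nat_lit 0x0) (nat_lit 0x4000200000000000020001000000008000000000000000000000) := T_5 (nat_lit 137) (nat_lit 87) (nat_lit 5) (nat_lit 2) (nat_lit 5) L43554 (by decide +kernel)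
theorem L43556 : W_5 (nat_lit 4) (nat_lit 0x230010c0134009a000300000000000000000000000000) (nat_lit 0x0) (nat_lit 0x40002000c0000000020001000000008000000000000000000000) := T_5 (nat_lit 175) (nat_lit 174) (nat_lit 0) (nat_lit 5) (nat_lit 10) L43555 (by decide +kernel)
theorem L43557 : W_5 (nat_lit 5) (nat_lit 0x220010c0134009a000300000000000000000000000000) (nat_lit 0x0) (nat_lit 0x40006000d0000000020001000000008000000000000000000000) := T_5 (nat_lit 172) (nat_lit 190) (nat_lit 7) (nat_lit 2) (nat_lit 7) L43556 (by decide +kernel)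
theorem L43558 : W_5 (nat_lit 6) (nat_lit 0x22001080134009a000300000000000000000000000000) (nat_lit 0x0) (nat_lit 0x40006000d8000400020001000000008000000000000000000000) := T_5 (nat_lit 154) (nat_lit 171) (nat_lit 5) (nat_lit 2) (nat_lit 6) L43557 (by decide +kernel)
theorem L43559 : W_5 (nat_lit 7) (nat_lit 0x20001080134009a000300000000000000000000000000) (nat_lit 0x0) (nat_lit 0x40006000f8001400020001000000008000000000000000000000) := T_5 (nat_lit 173) (nat_lit 156) (nat_lit 7) (nat_lit 2) (nat_lit 6) L43558 (by decide +kernel)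
theorem L43560 : W_5 (nat_lit 8) (nat_lit 0x20001080134009a000100000000000000000000000000) (nat_lit 0x0) (nat_lit 0x40006000f8001400020001000200018000000000000000000000) := T_5 (nat_lit 105) (nat_lit 88) (nat_lit 6) (nat_lit 2) (nat_lit 9) L43559 (by decide +kernel)
theorem L43561 : W_5 (nat_lit 2) (nat_lit 0x20001080134009a000180000000000000000000000000) (nat_lit 0x0) (nat_lit 0x600010000000000000000000000) := D_5 (nat_lit 105) (nat_lit 88) (nat_lit 106) (nat_lit 6) (nat_lit 2) (nat_lit 9) (nat_lit 3) (nat_lit 1) (nat_lit 6) (by decide +kernel)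
theorem L43562 : W_5 (nat_lit 3) (nat_lit 0x20001080134009a000100000000000000000000000000) (nat_lit 0x0) (nat_lit 0x680014000000000000000000000) := T_5 (nat_lit 103) (nat_lit 86) (nat_lit 4) (nat_lit 2) (nat_lit 9) L43561 (by decide +kernel)
theorem L43563 : W_5 (nat_lit 9) (nat_lit 0x20001000134009a000100000000000000000000000000) (nat_lit 0x0) (nat_lit 0x40006000f8001c0002000100068001c000e00060000000000000) := Q_5 (nat_lit 155) (C_5 L43538 (C_5 L43542 (C_5 L43549 (C_5 L43553 (C_5 L43560 (C_5 L43562 N_5)))))) (by decide +kernel)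
theorem L43564 : W_5 (nat_lit 2) (nat_lit 0x2100118013400da000380000000000000000000000000) (nat_lit 0x0) (nat_lit 0x100008000400000000000000000000000000000000000000) := D_5 (nat_lit 171) (nat_lit 188) (nat_lit 154) (nat_lit 5) (nat_lit 2) (nat_lit 7) (nat_lit 5) (nat_lit 2) (nat_lit 6) (by decide +kernel)
theorem L43565 : W_5 (nat_lit 3) (nat_lit 0x2000118013400da000380000000000000000000000000) (nat_lit 0x0) (nat_lit 0x100018000400000001000000000000000000000000000000) := T_5 (nat_lit 172) (nat_lit 120) (nat_lit 4) (nat_lit 2) (nat_lit 10) L43564 (by decide +kernel)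
theorem L43566 : W_5 (nat_lit 4) (nat_lit 0x2000118013400da000300000000000000000000000000) (nat_lit 0x0) (nat_lit 0x100018000400000001000080004000000000000000000000) := T_5 (nat_lit 103) (nat_lit 86) (nat_lit 4) (nat_lit 2) (nat_lit 9) L43565 (by decide +kernel)
theorem L43567 : W_5 (nat_lit 5) (nat_lit 0x2000108013400da000300000000000000000000000000) (nat_lit 0x0) (nat_lit 0x100038001400000001000080004000000000000000000000) := T_5 (nat_lit 156) (nat_lit 173) (nat_lit 7) (nat_lit 2) (nat_lit 6) L43566 (by decide +kernel)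
theorem L43568 : W_5 (nat_lit 6) (nat_lit 0x2000108013400da000100000000000000000000000000) (nat_lit 0x0) (nat_lit 0x100038001400000001000280014000000000000000000000) := T_5 (nat_lit 105) (nat_lit 88) (nat_lit 6) (nat_lit 2) (nat_lit 9) L43567 (by decide +kernel)
theorem L43569 : W_5 (nat_lit 7) (nat_lit 0x20001080134009a000100000000000000000000000000) (nat_lit 0x0) (nat_lit 0x100038001400000061000280014000000000000000000000) := T_5 (nat_lit 126) (nat_lit 125) (nat_lit 1) (nat_lit 8) (nat_lit 7) L43568 (by decide +kernel)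
theorem L43570 : W_5 (nat_lit 2) (nat_lit 0x220010c013400da000180000000000000000000000000) (nat_lit 0x0) (nat_lit 0x400010000000000001000000000000000000000000000000) := D_5 (nat_lit 172) (nat_lit 120) (nat_lit 190) (nat_lit 4) (nat_lit 2) (nat_lit 10) (nat_lit 7) (nat_lit 2) (nat_lit 7) (by decide +kernel)
theorem L43571 : W_5 (nat_lit 3) (nat_lit 0x220010c013400da000100000000000000000000000000) (nat_lit 0x0) (nat_lit 0x400010000000000001000080004000000000000000000000) := T_5 (nat_lit 103) (nat_lit 86) (nat_lit 4) (nat_lit 2) (nat_lit 9) L43570 (by decide +kernel)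
theorem L43572 : W_5 (nat_lit 4) (nat_lit 0x200010c013400da000100000000000000000000000000) (nat_lit 0x0) (nat_lit 0x400030001000000001000080004000000000000000000000) := T_5 (nat_lit 173) (nat_lit 156) (nat_lit 7) (nat_lit 2) (nat_lit 6) L43571 (by decide +kernel)
theorem L43573 : W_5 (nat_lit 5) (nat_lit 0x200010c0134009a000100000000000000000000000000) (nat_lit 0x0) (nat_lit 0x400030001000000061000080004000000000000000000000) := T_5 (nat_lit 126) (nat_lit 125) (nat_lit 1) (nat_lit 8) (nat_lit 7) L43572 (by decide +kernel)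
theorem L43574 : W_5 (nat_lit 6) (nat_lit 0x20001080134009a000100000000000000000000000000) (nat_lit 0x0) (nat_lit 0x400038001400000061000080004000000000000000000000) := T_5 (nat_lit 154) (nat_lit 171) (nat_lit 5) (nat_lit 2) (nat_lit 6) L43573 (by decide +kernel)
theorem L43575 : W_5 (nat_lit 2) (nat_lit 0x2180108013400da000300000000000000000000000000) (nat_lit 0x0) (nat_lit 0x400020001000000000000000000000000000000000000000) := D_5 (nat_lit 173) (nat_lit 156) (nat_lit 190) (nat_lit 7) (nat_lit 2) (nat_lit 6) (nat_lit 7) (nat_lit 2) (nat_lit 7) (by decide +kernel)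
theorem L43576 : W_5 (nat_lit 3) (nat_lit 0x2080108013400da000300000000000000000000000000) (nat_lit 0x0) (nat_lit 0x500030001000000000000000000000000000000000000000) := T_5 (nat_lit 172) (nat_lit 188) (nat_lit 5) (nat_lit 2) (nat_lit 7) L43575 (by decide +kernel)
theorem L43577 : W_5 (nat_lit 4) (nat_lit 0x20801080134009a000300000000000000000000000000) (nat_lit 0x0) (nat_lit 0x500030001000000060000000000000000000000000000000) := T_5 (nat_lit 126) (nat_lit 125) (nat_lit 1) (nat_lit 8) (nat_lit 7) L43576 (by decide +kernel)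
theorem L43578 : W_5 (nat_lit 5) (nat_lit 0x20001080134009a000300000000000000000000000000) (nat_lit 0x0) (nat_lit 0x500038001400000060000000000000000000000000000000) := T_5 (nat_lit 171) (nat_lit 154) (nat_lit 5) (nat_lit 2) (nat_lit 6) L43577 (by decide +kernel)
theorem L43579 : W_5 (nat_lit 6) (nat_lit 0x20001080134009a000100000000000000000000000000) (nat_lit 0x0) (nat_lit 0x500038001400000060000200010000000000000000000000) := T_5 (nat_lit 105) (nat_lit 88) (nat_lit 6) (nat_lit 2) (nat_lit 9) L43578 (by decide +kernel)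
theorem L43580 : W_5 (nat_lit 8) (nat_lit 0x20001000134009a000100000000000000000000000000) (nat_lit 0x0) (nat_lit 0x500038001c00000061000680014000000000000000000000) := Q_5 (nat_lit 155) (C_5 L43562 (C_5 L43569 (C_5 L43574 (C_5 L43579 N_5)))) (by decide +kernel)
theorem L43581 : W_5 (nat_lit 2) (nat_lit 0x2000100013400da000f00000001000000000000000000) (nat_lit 0x0) (nat_lit 0xc0002000000000000000000) := D_5 (nat_lit 90) (nat_lit 91) (nat_lit 73) (nat_lit 2) (nat_lit 2) (nat_lit 6) (nat_lit 5) (nat_lit 5) (nat_lit 4) (by decide +kernel)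
theorem L43582 : W_5 (nat_lit 3) (nat_lit 0x2000100013400da000700000001000000000000000000) (nat_lit 0x0) (nat_lit 0x10008000c0002000000000000000000) := T_5 (nat_lit 107) (nat_lit 120) (nat_lit 1) (nat_lit 5) (nat_lit 6) L43581 (by decide +kernel)
theorem L43583 : W_5 (nat_lit 4) (nat_lit 0x2000100013400da000500000001000000000000000000) (nat_lit 0x0) (nat_lit 0x1000a800c0002000000000000000000) := T_5 (nat_lit 105) (nat_lit 103) (nat_lit 3) (nat_lit 1) (nat_lit 6) L43582 (by decide +kernel)
theorem L43584 : W_5 (nat_lit 5) (nat_lit 0x2000100013400da000500000000000000000000000000) (nat_lit 0x0) (nat_lit 0x1000a800e0003000000000000000000) := T_5 (nat_lit 72) (nat_lit 89) (nat_lit 7) (nat_lit 4) (nat_lit 4) L43583 (by decide +kernel)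
theorem L43585 : W_5 (nat_lit 6) (nat_lit 0x20001000134009a000500000000000000000000000000) (nat_lit 0x0) (nat_lit 0x61000a800e0003000000000000000000) := T_5 (nat_lit 126) (nat_lit 125) (nat_lit 1) (nat_lit 8) (nat_lit 7) L43584 (by decide +kernel)
theorem L43586 : W_5 (nat_lit 4) (nat_lit 0x20001000134009a000500000000000000000000000000) (nat_lit 0x0) (nat_lit 0x1000a800c0002000000000000000000) := T_5 (nat_lit 105) (nat_lit 103) (nat_lit 3) (nat_lit 1) (nat_lit 6) L43180 (by decide +kernel)
theorem L43587 : W_5 (nat_lit 2) (nat_lit 0x2000100013400da000580060000000000000000000000) (nat_lit 0x0) (nat_lit 0x18000800000000000000000) := D_5 (nat_lit 88) (nat_lit 87) (nat_lit 71) (nat_lit 1) (nat_lit 5) (nat_lit 5) (nat_lit 4) (nat_lit 4) (nat_lit 8) (by decide +kernel)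
theorem L43588 : W_5 (nat_lit 3) (nat_lit 0x2000100013400da000580020000000000000000000000) (nat_lit 0x0) (nat_lit 0x58002800000000000000000) := T_5 (nat_lit 90) (nat_lit 73) (nat_lit 6) (nat_lit 4) (nat_lit 8) L43587 (by decide +kernel)
theorem L43589 : W_5 (nat_lit 4) (nat_lit 0x2000100013400da000500020000000000000000000000) (nat_lit 0x0) (nat_lit 0x280058002800000000000000000) := T_5 (nat_lit 103) (nat_lit 105) (nat_lit 3) (nat_lit 1) (nat_lit 6) L43588 (by decide +kernel)
theorem L43590 : W_5 (nat_lit 5) (nat_lit 0x2000100013400da000500000000000000000000000000) (nat_lit 0x0) (nat_lit 0x280078003800000000000000000) := T_5 (nat_lit 89) (nat_lit 72) (nat_lit 7) (nat_lit 4) (nat_lit 4) L43589 (by decide +kernel)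
theorem L43591 : W_5 (nat_lit 6) (nat_lit 0x20001000134009a000500000000000000000000000000) (nat_lit 0x0) (nat_lit 0x60000280078003800000000000000000) := T_5 (nat_lit 126) (nat_lit 125) (nat_lit 1) (nat_lit 8) (nat_lit 7) L43590 (by decide +kernel)
theorem L43592 : W_5 (nat_lit 3) (nat_lit 0x20001000134009a000500000000000000000000000000) (nat_lit 0x0) (nat_lit 0x60000a80000000000000000000000000) := T_5 (nat_lit 105) (nat_lit 103) (nat_lit 3) (nat_lit 1) (nat_lit 6) L42773 (by decide +kernel)
theorem L43593 : W_5 (nat_lit 2) (nat_lit 0x2000100013400da000500078000000000000000000000) (nat_lit 0x0) (nat_lit 0x4000600000000000000000) := D_5 (nat_lit 69) (nat_lit 70) (nat_lit 86) (nat_lit 0) (nat_lit 5) (nat_lit 5) (nat_lit 4) (nat_lit 2) (nat_lit 8) (by decide +kernel)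
theorem L43594 : W_5 (nat_lit 3) (nat_lit 0x2000100013400da000500070000000000000000000000) (nat_lit 0x0) (nat_lit 0x8000c000600000000000000000) := T_5 (nat_lit 87) (nat_lit 103) (nat_lit 1) (nat_lit 5) (nat_lit 5) L43593 (by decide +kernel)
theorem L43595 : W_5 (nat_lit 4) (nat_lit 0x2000100013400da000500030000000000000000000000) (nat_lit 0x0) (nat_lit 0x8004c002600000000000000000) := T_5 (nat_lit 90) (nat_lit 73) (nat_lit 6) (nat_lit 4) (nat_lit 8) L43594 (by decide +kernel)
theorem L43596 : W_5 (nat_lit 5) (nat_lit 0x2000100013400da000500020000000000000000000000) (nat_lit 0x0) (nat_lit 0x8005c002e00000000000000000) := T_5 (nat_lit 88) (nat_lit 71) (nat_lit 4) (nat_lit 4) (nat_lit 8) L43595 (by decide +kernel)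
theorem L43597 : W_5 (nat_lit 6) (nat_lit 0x2000100013400da000500000000000000000000000000) (nat_lit 0x0) (nat_lit 0x8007c003e00000000000000000) := T_5 (nat_lit 89) (nat_lit 72) (nat_lit 7) (nat_lit 4) (nat_lit 4) L43596 (by decide +kernel)
theorem L43598 : W_5 (nat_lit 7) (nat_lit 0x20001000134009a000500000000000000000000000000) (nat_lit 0x0) (nat_lit 0x6000008007c003e00000000000000000) := T_5 (nat_lit 126) (nat_lit 125) (nat_lit 1) (nat_lit 8) (nat_lit 7) L43597 (by decide +kernel)
theorem L43599 : W_5 (nat_lit 2) (nat_lit 0x2000100013400da0005000f0000000000000000000000) (nat_lit 0x0) (nat_lit 0x80000000c000000000000000000) := D_5 (nat_lit 74) (nat_lit 107) (nat_lit 75) (nat_lit 6) (nat_lit 5) (nat_lit 8) (nat_lit 2) (nat_lit 3) (nat_lit 5) (by decide +kernel)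
theorem L43600 : W_5 (nat_lit 3) (nat_lit 0x2000100013400da000500070000000000000000000000) (nat_lit 0x0) (nat_lit 0xa0008000c000000000000000000) := T_5 (nat_lit 91) (nat_lit 105) (nat_lit 1) (nat_lit 6) (nat_lit 5) L43599 (by decide +kernel)
theorem L43601 : W_5 (nat_lit 4) (nat_lit 0x2000100013400da000500060000000000000000000000) (nat_lit 0x0) (nat_lit 0xa0009000c800000000000000000) := T_5 (nat_lit 88) (nat_lit 71) (nat_lit 4) (nat_lit 4) (nat_lit 8) L43600 (by decide +kernel)
theorem L43602 : W_5 (nat_lit 5) (nat_lit 0x2000100013400da000500020000000000000000000000) (nat_lit 0x0) (nat_lit 0xa000d000e800000000000000000) := T_5 (nat_lit 90) (nat_lit 73) (nat_lit 6) (nat_lit 4) (nat_lit 8) L43601 (by decide +kernel)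
theorem L43603 : W_5 (nat_lit 6) (nat_lit 0x20001000134009a000500020000000000000000000000) (nat_lit 0x0) (nat_lit 0x60000a000d000e800000000000000000) := T_5 (nat_lit 126) (nat_lit 125) (nat_lit 1) (nat_lit 8) (nat_lit 7) L43602 (by decide +kernel)
theorem L43604 : W_5 (nat_lit 7) (nat_lit 0x20001000134009a000500000000000000000000000000) (nat_lit 0x0) (nat_lit 0x60000a000f000f800000000000000000) := T_5 (nat_lit 89) (nat_lit 72) (nat_lit 7) (nat_lit 4) (nat_lit 4) L43603 (by decide +kernel)
theorem L43605 : W_5 (nat_lit 8) (nat_lit 0x20001000134009a000100000000000000000000000000) (nat_lit 0x0) (nat_lit 0x61000e800fc00fe00000000000000000) := Q_5 (nat_lit 106) (C_5 L43585 (C_5 L43586 (C_5 L43591 (C_5 L43592 (C_5 L43598 (C_5 L43604 N_5)))))) (by decide +kernel)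
theorem L43606 : W_5 (nat_lit 7) (nat_lit 0x20001000134009a000100000000000000000000000000) (nat_lit 0x0) (nat_lit 0x500038001c0002006000068001c000200000000000000000) := Q_5 (nat_lit 155) (C_5 L43579 (C_5 L43562 (C_5 L43553 N_5))) (by decide +kernel)
theorem L43607 : W_5 (nat_lit 2) (nat_lit 0x2100108013400da000180000000000000000000000000) (nat_lit 0x0) (nat_lit 0x100008000400000000000000000000000000000000000000) := D_5 (nat_lit 171) (nat_lit 188) (nat_lit 154) (nat_lit 5) (nat_lit 2) (nat_lit 7) (nat_lit 5) (nat_lit 2) (nat_lit 6) (by decide +kernel)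
theorem L43608 : W_5 (nat_lit 3) (nat_lit 0x2000108013400da000180000000000000000000000000) (nat_lit 0x0) (nat_lit 0x100018000400000001000000000000000000000000000000) := T_5 (nat_lit 172) (nat_lit 120) (nat_lit 4) (nat_lit 2) (nat_lit 10) L43607 (by decide +kernel)
theorem L43609 : W_5 (nat_lit 4) (nat_lit 0x2000108013400da000100000000000000000000000000) (nat_lit 0x0) (nat_lit 0x100018000400000001000080004000000000000000000000) := T_5 (nat_lit 103) (nat_lit 86) (nat_lit 4) (nat_lit 2) (nat_lit 9) L43608 (by decide +kernel)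
theorem L43610 : W_5 (nat_lit 5) (nat_lit 0x20001080134009a000100000000000000000000000000) (nat_lit 0x0) (nat_lit 0x100018000400000061000080004000000000000000000000) := T_5 (nat_lit 126) (nat_lit 125) (nat_lit 1) (nat_lit 8) (nat_lit 7) L43609 (by decide +kernel)
theorem L43611 : W_5 (nat_lit 2) (nat_lit 0x230010c013600da000100000000000000000000000000) (nat_lit 0x0) (nat_lit 0x4000200000000000000001000000000000000000000000000000) := D_5 (nat_lit 189) (nat_lit 120) (nat_lit 206) (nat_lit 4) (nat_lit 2) (nat_lit 11) (nat_lit 4) (nat_lit 2) (nat_lit 12) (by decide +kernel)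
theorem L43612 : W_5 (nat_lit 3) (nat_lit 0x220010c013600da000100000000000000000000000000) (nat_lit 0x0) (nat_lit 0x4000600010000000000001000000000000000000000000000000) := T_5 (nat_lit 172) (nat_lit 190) (nat_lit 7) (nat_lit 2) (nat_lit 7) L43611 (by decide +kernel)
theorem L43613 : W_5 (nat_lit 4) (nat_lit 0x200010c013600da000100000000000000000000000000) (nat_lit 0x0) (nat_lit 0x4000600030001000000001000000000000000000000000000000) := T_5 (nat_lit 173) (nat_lit 156) (nat_lit 7) (nat_lit 2) (nat_lit 6) L43612 (by decide +kernel)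
theorem L43614 : W_5 (nat_lit 5) (nat_lit 0x200010c013400da000100000000000000000000000000) (nat_lit 0x0) (nat_lit 0x4000600030001000020001000000008000000000000000000000) := T_5 (nat_lit 137) (nat_lit 87) (nat_lit 5) (nat_lit 2) (nat_lit 5) L43613 (by decide +kernel)
theorem L43615 : W_5 (nat_lit 6) (nat_lit 0x200010c0134009a000100000000000000000000000000) (nat_lit 0x0) (nat_lit 0x4000600030001000020061000000008000000000000000000000) := T_5 (nat_lit 126) (nat_lit 125) (nat_lit 1) (nat_lit 8) (nat_lit 7) L43614 (by decide +kernel)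
theorem L43616 : W_5 (nat_lit 7) (nat_lit 0x20001080134009a000100000000000000000000000000) (nat_lit 0x0) (nat_lit 0x4000600038001400020061000000008000000000000000000000) := T_5 (nat_lit 154) (nat_lit 171) (nat_lit 5) (nat_lit 2) (nat_lit 6) L43615 (by decide +kernel)
theorem L43617 : W_5 (nat_lit 2) (nat_lit 0x2300108013400da000100000000000000000000000000) (nat_lit 0x0) (nat_lit 0x1000080004000000000000000000000) := D_5 (nat_lit 103) (nat_lit 120) (nat_lit 86) (nat_lit 4) (nat_lit 2) (nat_lit 10) (nat_lit 4) (nat_lit 2) (nat_lit 9) (by decide +kernel)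
theorem L43618 : W_5 (nat_lit 3) (nat_lit 0x2200108013400da000100000000000000000000000000) (nat_lit 0x0) (nat_lit 0x400010000000000001000080004000000000000000000000) := T_5 (nat_lit 172) (nat_lit 190) (nat_lit 7) (nat_lit 2) (nat_lit 7) L43617 (by decide +kernel)
theorem L43619 : W_5 (nat_lit 4) (nat_lit 0x22001080134009a000100000000000000000000000000) (nat_lit 0x0) (nat_lit 0x400010000000000061000080004000000000000000000000) := T_5 (nat_lit 126) (nat_lit 125) (nat_lit 1) (nat_lit 8) (nat_lit 7) L43618 (by decide +kernel)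
theorem L43620 : W_5 (nat_lit 5) (nat_lit 0x20001080134009a000100000000000000000000000000) (nat_lit 0x0) (nat_lit 0x400030001000000061000080004000000000000000000000) := T_5 (nat_lit 173) (nat_lit 156) (nat_lit 7) (nat_lit 2) (nat_lit 6) L43619 (by decide +kernel)
theorem L43621 : W_5 (nat_lit 8) (nat_lit 0x20001000134009a000100000000000000000000000000) (nat_lit 0x0) (nat_lit 0x4000700038001c0002006100008000c000200000000000000000) := Q_5 (nat_lit 155) (C_5 L43574 (C_5 L43553 (C_5 L43610 (C_5 L43616 (C_5 L43620 N_5))))) (by decide +kernel)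
theorem L43622 : W_5 (nat_lit 2) (nat_lit 0x2000108013400da000100018000000000000000000000) (nat_lit 0x0) (nat_lit 0x8000400020000000000000000000000000000000000) := D_5 (nat_lit 154) (nat_lit 137) (nat_lit 171) (nat_lit 5) (nat_lit 2) (nat_lit 5) (nat_lit 5) (nat_lit 2) (nat_lit 6) (by decide +kernel)
theorem L43623 : W_5 (nat_lit 3) (nat_lit 0x2000100013400da000100018000000000000000000000) (nat_lit 0x0) (nat_lit 0x8000c00020000000200000000000000000000000000) := T_5 (nat_lit 155) (nat_lit 105) (nat_lit 6) (nat_lit 2) (nat_lit 9) L43622 (by decide +kernel)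
theorem L43624 : W_5 (nat_lit 4) (nat_lit 0x2000100013400da000100008000000000000000000000) (nat_lit 0x0) (nat_lit 0x8000c00020000000200010000800000000000000000) := T_5 (nat_lit 88) (nat_lit 71) (nat_lit 6) (nat_lit 2) (nat_lit 8) L43623 (by decide +kernel)
theorem L43625 : W_5 (nat_lit 5) (nat_lit 0x20001000134009a000100008000000000000000000000) (nat_lit 0x0) (nat_lit 0x8000c00020060000200010000800000000000000000) := T_5 (nat_lit 126) (nat_lit 125) (nat_lit 1) (nat_lit 8) (nat_lit 7) L43624 (by decide +kernel)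
theorem L43626 : W_5 (nat_lit 2) (nat_lit 0x22801080134009a00010001c000000000000000000000) (nat_lit 0x0) (nat_lit 0x500010000000000000000000000000000000000000000000) := D_5 (nat_lit 172) (nat_lit 190) (nat_lit 188) (nat_lit 7) (nat_lit 2) (nat_lit 7) (nat_lit 5) (nat_lit 2) (nat_lit 7) (by decide +kernel)
theorem L43627 : W_5 (nat_lit 3) (nat_lit 0x22001080134009a00010001c000000000000000000000) (nat_lit 0x0) (nat_lit 0x500018000400000000000000000000000000000000000000) := T_5 (nat_lit 171) (nat_lit 154) (nat_lit 5) (nat_lit 2) (nat_lit 6) L43626 (by decide +kernel)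
theorem L43628 : W_5 (nat_lit 4) (nat_lit 0x20001080134009a00010001c000000000000000000000) (nat_lit 0x0) (nat_lit 0x500038001400000000000000000000000000000000000000) := T_5 (nat_lit 173) (nat_lit 156) (nat_lit 7) (nat_lit 2) (nat_lit 6) L43627 (by decide +kernel)
theorem L43629 : W_5 (nat_lit 5) (nat_lit 0x20001000134009a00010001c000000000000000000000) (nat_lit 0x0) (nat_lit 0x500038001c00000000000200000000000000000000000000) := T_5 (nat_lit 155) (nat_lit 105) (nat_lit 6) (nat_lit 2) (nat_lit 9) L43628 (by decide +kernel)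
theorem L43630 : W_5 (nat_lit 6) (nat_lit 0x20001000134009a00010000c000000000000000000000) (nat_lit 0x0) (nat_lit 0x500038001c00000000000200010000800000000000000000) := T_5 (nat_lit 88) (nat_lit 71) (nat_lit 6) (nat_lit 2) (nat_lit 8) L43629 (by decide +kernel)
theorem L43631 : W_5 (nat_lit 7) (nat_lit 0x20001000134009a000100008000000000000000000000) (nat_lit 0x0) (nat_lit 0x500038001c00000000000200014000a00000000000000000) := T_5 (nat_lit 86) (nat_lit 69) (nat_lit 4) (nat_lit 2) (nat_lit 8) L43630 (by decide +kernel)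
theorem L43632 : W_5 (nat_lit 2) (nat_lit 0x2000100013600da000100008000200000000000000000) (nat_lit 0x0) (nat_lit 0x1000000000000400010000000000000) := D_5 (nat_lit 70) (nat_lit 52) (nat_lit 120) (nat_lit 4) (nat_lit 2) (nat_lit 7) (nat_lit 5) (nat_lit 2) (nat_lit 4) (by decide +kernel)
theorem L43633 : W_5 (nat_lit 3) (nat_lit 0x2000100013400da000100008000200000000000000000) (nat_lit 0x0) (nat_lit 0x400020001000000000000400010000000000000) := T_5 (nat_lit 137) (nat_lit 154) (nat_lit 5) (nat_lit 2) (nat_lit 5) L43632 (by decide +kernel)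
theorem L43634 : W_5 (nat_lit 4) (nat_lit 0x2000100013400da000100008000000000000000000000) (nat_lit 0x0) (nat_lit 0x400020001000000004000600010000000000000) := T_5 (nat_lit 69) (nat_lit 86) (nat_lit 4) (nat_lit 2) (nat_lit 8) L43633 (by decide +kernel)
theorem L43635 : W_5 (nat_lit 5) (nat_lit 0x20001000134009a000100008000000000000000000000) (nat_lit 0x0) (nat_lit 0x400020061000000004000600010000000000000) := T_5 (nat_lit 126) (nat_lit 125) (nat_lit 1) (nat_lit 8) (nat_lit 7) L43634 (by decide +kernel)
theorem L43636 : W_5 (nat_lit 2) (nat_lit 0x2000100013400da00030001c000000000000000000000) (nat_lit 0x0) (nat_lit 0xc00002000000000000000000000) := D_5 (nat_lit 106) (nat_lit 85) (nat_lit 107) (nat_lit 3) (nat_lit 0) (nat_lit 5) (nat_lit 0) (nat_lit 5) (nat_lit 6) (by decide +kernel)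
theorem L43637 : W_5 (nat_lit 3) (nat_lit 0x2000100013400da00010001c000000000000000000000) (nat_lit 0x0) (nat_lit 0x800000000000e00002000000000000000000000) := T_5 (nat_lit 105) (nat_lit 155) (nat_lit 6) (nat_lit 2) (nat_lit 9) L43636 (by decide +kernel)
theorem L43638 : W_5 (nat_lit 4) (nat_lit 0x2000100013400da00010000c000000000000000000000) (nat_lit 0x0) (nat_lit 0x800000000000e00012000800000000000000000) := T_5 (nat_lit 88) (nat_lit 71) (nat_lit 6) (nat_lit 2) (nat_lit 8) L43637 (by decide +kernel)
theorem L43639 : W_5 (nat_lit 5) (nat_lit 0x20001000134009a00010000c000000000000000000000) (nat_lit 0x0) (nat_lit 0x800000060000e00012000800000000000000000) := T_5 (nat_lit 126) (nat_lit 125) (nat_lit 1) (nat_lit 8) (nat_lit 7) L43638 (by decide +kernel)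
theorem L43640 : W_5 (nat_lit 6) (nat_lit 0x20001000134009a000100008000000000000000000000) (nat_lit 0x0) (nat_lit 0x800000060000e00016000a00000000000000000) := T_5 (nat_lit 86) (nat_lit 69) (nat_lit 4) (nat_lit 2) (nat_lit 8) L43639 (by decide +kernel)
theorem L43641 : W_5 (nat_lit 8) (nat_lit 0x20001000134009a000100000000000000000000000000) (nat_lit 0x0) (nat_lit 0x500038001c00020061000e0001e000e00010000000000000) := Q_5 (nat_lit 87) (C_5 L43625 (C_5 L43521 (C_5 L43631 (C_5 L43635 (C_5 L43640 N_5))))) (by decide +kernel)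
theorem L43642 : W_5 (nat_lit 2) (nat_lit 0x2100108013400da000380000000000000000000000000) (nat_lit 0x0) (nat_lit 0x100008000400000000000000000000000000000000000000) := D_5 (nat_lit 171) (nat_lit 188) (nat_lit 154) (nat_lit 5) (nat_lit 2) (nat_lit 7) (nat_lit 5) (nat_lit 2) (nat_lit 6) (by decide +kernel)
theorem L43643 : W_5 (nat_lit 3) (nat_lit 0x2000108013400da000380000000000000000000000000) (nat_lit 0x0) (nat_lit 0x100018000400000001000000000000000000000000000000) := T_5 (nat_lit 172) (nat_lit 120) (nat_lit 4) (nat_lit 2) (nat_lit 10) L43642 (by decide +kernel)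
theorem L43644 : W_5 (nat_lit 4) (nat_lit 0x20001080134009a000380000000000000000000000000) (nat_lit 0x0) (nat_lit 0x100018000400000061000000000000000000000000000000) := T_5 (nat_lit 126) (nat_lit 125) (nat_lit 1) (nat_lit 8) (nat_lit 7) L43643 (by decide +kernel)
theorem L43645 : W_5 (nat_lit 5) (nat_lit 0x20001080134009a000300000000000000000000000000) (nat_lit 0x0) (nat_lit 0x100018000400000061000480000000000000000000000000) := T_5 (nat_lit 103) (nat_lit 106) (nat_lit 3) (nat_lit 1) (nat_lit 6) L43644 (by decide +kernel)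
theorem L43646 : W_5 (nat_lit 6) (nat_lit 0x20001080134009a000100000000000000000000000000) (nat_lit 0x0) (nat_lit 0x100018000400000061000680010000000000000000000000) := T_5 (nat_lit 105) (nat_lit 88) (nat_lit 6) (nat_lit 2) (nat_lit 9) L43645 (by decide +kernel)
theorem L43647 : W_5 (nat_lit 2) (nat_lit 0x200011c013400da000f00000001000000000000000000) (nat_lit 0x0) (nat_lit 0xc0002000000000000000000) := D_5 (nat_lit 90) (nat_lit 91) (nat_lit 73) (nat_lit 2) (nat_lit 2) (nat_lit 6) (nat_lit 5) (nat_lit 5) (nat_lit 4) (by decide +kernel)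
theorem L43648 : W_5 (nat_lit 3) (nat_lit 0x200011c013400da000700000001000000000000000000) (nat_lit 0x0) (nat_lit 0x10008000c0002000000000000000000) := T_5 (nat_lit 107) (nat_lit 120) (nat_lit 1) (nat_lit 5) (nat_lit 6) L43647 (by decide +kernel)
theorem L43649 : W_5 (nat_lit 4) (nat_lit 0x200011c013400da000700000000000000000000000000) (nat_lit 0x0) (nat_lit 0x10008000e0003000000000000000000) := T_5 (nat_lit 72) (nat_lit 89) (nat_lit 7) (nat_lit 4) (nat_lit 4) L43648 (by decide +kernel)
theorem L43650 : W_5 (nat_lit 5) (nat_lit 0x2000118013400da000700000000000000000000000000) (nat_lit 0x0) (nat_lit 0x80004000000010008000e0003000000000000000000) := T_5 (nat_lit 154) (nat_lit 171) (nat_lit 5) (nat_lit 2) (nat_lit 6) L43649 (by decide +kernel)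
theorem L43651 : W_5 (nat_lit 6) (nat_lit 0x2000118013400da000300000000000000000000000000) (nat_lit 0x0) (nat_lit 0x8000400000001000c800e0003000000000000000000) := T_5 (nat_lit 106) (nat_lit 103) (nat_lit 3) (nat_lit 1) (nat_lit 6) L43650 (by decide +kernel)
theorem L43652 : W_5 (nat_lit 7) (nat_lit 0x2000118013400da000100000000000000000000000000) (nat_lit 0x0) (nat_lit 0x8000400000001000e800f0003000000000000000000) := T_5 (nat_lit 105) (nat_lit 88) (nat_lit 6) (nat_lit 2) (nat_lit 9) L43651 (by decide +kernel)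
theorem L43653 : W_5 (nat_lit 8) (nat_lit 0x2000108013400da000100000000000000000000000000) (nat_lit 0x0) (nat_lit 0x28001400000001000e800f0003000000000000000000) := T_5 (nat_lit 156) (nat_lit 173) (nat_lit 7) (nat_lit 2) (nat_lit 6) L43652 (by decide +kernel)
theorem L43654 : W_5 (nat_lit 9) (nat_lit 0x20001080134009a000100000000000000000000000000) (nat_lit 0x0) (nat_lit 0x28001400000061000e800f0003000000000000000000) := T_5 (nat_lit 126) (nat_lit 125) (nat_lit 1) (nat_lit 8) (nat_lit 7) L43653 (by decide +kernel)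
theorem L43655 : W_5 (nat_lit 2) (nat_lit 0x2000118013400da000f00000000000000000000000000) (nat_lit 0x0) (nat_lit 0xc0002000000000000000000) := D_5 (nat_lit 90) (nat_lit 91) (nat_lit 73) (nat_lit 2) (nat_lit 2) (nat_lit 6) (nat_lit 5) (nat_lit 5) (nat_lit 4) (by decide +kernel)
theorem L43656 : W_5 (nat_lit 3) (nat_lit 0x2000118013400da000700000000000000000000000000) (nat_lit 0x0) (nat_lit 0x10008000c0002000000000000000000) := T_5 (nat_lit 107) (nat_lit 120) (nat_lit 1) (nat_lit 5) (nat_lit 6) L43655 (by decide +kernel)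
theorem L43657 : W_5 (nat_lit 4) (nat_lit 0x2000118013400da000300000000000000000000000000) (nat_lit 0x0) (nat_lit 0x1000c800c0002000000000000000000) := T_5 (nat_lit 106) (nat_lit 103) (nat_lit 3) (nat_lit 1) (nat_lit 6) L43656 (by decide +kernel)
theorem L43658 : W_5 (nat_lit 5) (nat_lit 0x2000118013400da000100000000000000000000000000) (nat_lit 0x0) (nat_lit 0x1000e800d0002000000000000000000) := T_5 (nat_lit 105) (nat_lit 88) (nat_lit 6) (nat_lit 2) (nat_lit 9) L43657 (by decide +kernel)
theorem L43659 : W_5 (nat_lit 6) (nat_lit 0x2000108013400da000100000000000000000000000000) (nat_lit 0x0) (nat_lit 0x20001000000001000e800d0002000000000000000000) := T_5 (nat_lit 156) (nat_lit 173) (nat_lit 7) (nat_lit 2) (nat_lit 6) L43658 (by decide +kernel)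
theorem L43660 : W_5 (nat_lit 7) (nat_lit 0x20001080134009a000100000000000000000000000000) (nat_lit 0x0) (nat_lit 0x20001000000061000e800d0002000000000000000000) := T_5 (nat_lit 126) (nat_lit 125) (nat_lit 1) (nat_lit 8) (nat_lit 7) L43659 (by decide +kernel)
theorem L43661 : W_5 (nat_lit 10) (nat_lit 0x20001000134009a000100000000000000000000000000) (nat_lit 0x0) (nat_lit 0x40007000f8001c00020061000e800f8003000000000000000000) := Q_5 (nat_lit 155) (C_5 L43616 (C_5 L43560 (C_5 L43579 (C_5 L43646 (C_5 L43654 (C_5 L43660 N_5)))))) (by decide +kernel)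
theorem L43662 : W_5 (nat_lit 11) (nat_lit 0x20001000134009a000000000000000000000000000000) (nat_lit 0x0) (nat_lit 0x40007000f8001c00020061000fc00fe00fe00070000000000000) := Q_5 (nat_lit 104) (C_5 L43535 (C_5 L43563 (C_5 L43580 (C_5 L43605 (C_5 L43606 (C_5 L43621 (C_5 L43641 (C_5 L43661 N_5)))))))) (by decide +kernel)
theorem L43663 : W_5 (nat_lit 2) (nat_lit 0x2000100013400be000000000000000000000000000000) (nat_lit 0x0) (nat_lit 0x380000000000000000000000000) := D_5 (nat_lit 104) (nat_lit 105) (nat_lit 103) (nat_lit 0) (nat_lit 6) (nat_lit 7) (nat_lit 0) (nat_lit 5) (nat_lit 7) (by decide +kernel)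
theorem L43664 : W_5 (nat_lit 3) (nat_lit 0x2000100013400ba000000000000000000000000000000) (nat_lit 0x0) (nat_lit 0x5000380000000000000000000000000) := T_5 (nat_lit 122) (nat_lit 120) (nat_lit 3) (nat_lit 1) (nat_lit 7) L43663 (by decide +kernel)
theorem L43665 : W_5 (nat_lit 4) (nat_lit 0x20001000134009a000000000000000000000000000000) (nat_lit 0x0) (nat_lit 0x65000380000000000000000000000000) := T_5 (nat_lit 125) (nat_lit 126) (nat_lit 1) (nat_lit 8) (nat_lit 7) L43664 (by decide +kernel)
theorem L43666 : W_5 (nat_lit 3) (nat_lit 0x20001000134009e000000000000000000000000000000) (nat_lit 0x0) (nat_lit 0x60000380000000000000000000000000) := T_5 (nat_lit 125) (nat_lit 126) (nat_lit 1) (nat_lit 8) (nat_lit 7) L43663 (by decide +kernel)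
theorem L43667 : W_5 (nat_lit 4) (nat_lit 0x20001000134009a000000000000000000000000000000) (nat_lit 0x0) (nat_lit 0x20064000380000000000000000000000000) := T_5 (nat_lit 122) (nat_lit 137) (nat_lit 1) (nat_lit 5) (nat_lit 7) L43666 (by decide +kernel)
theorem L43668 : W_5 (nat_lit 12) (nat_lit 0x200010001340098000000000000000000000000000000) (nat_lit 0x0) (nat_lit 0x40007000f8001c00020067000fc00fe00fe00070000000000000) := Q_5 (nat_lit 121) (C_5 L43512 (C_5 L43662 (C_5 L43665 (C_5 L43667 N_5)))) (by decide +kernel)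
theorem L43669 : W_5 (nat_lit 2) (nat_lit 0x200010001340098000000000000000000000000000000) (nat_lit 0x0) (nat_lit 0xa0020000000000000000000000000000000) := D_5 (nat_lit 139) (nat_lit 125) (nat_lit 137) (nat_lit 2) (nat_lit 2) (nat_lit 8) (nat_lit 2) (nat_lit 1) (nat_lit 8) (by decide +kernel)
theorem L43670 : W_5 (nat_lit 2) (nat_lit 0x20001000134009a000000000000000000000000000000) (nat_lit 0x0) (nat_lit 0xa0001000000000000000000000000000000) := D_5 (nat_lit 139) (nat_lit 137) (nat_lit 120) (nat_lit 2) (nat_lit 1) (nat_lit 8) (nat_lit 0) (nat_lit 5) (nat_lit 8) (by decide +kernel)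
theorem L43671 : W_5 (nat_lit 2) (nat_lit 0x20001000134009a000000000000000000000000000000) (nat_lit 0x0) (nat_lit 0x80005000000000000000000000000000000) := D_5 (nat_lit 120) (nat_lit 122) (nat_lit 139) (nat_lit 3) (nat_lit 1) (nat_lit 7) (nat_lit 0) (nat_lit 5) (nat_lit 8) (by decide +kernel)
theorem L43672 : W_5 (nat_lit 2) (nat_lit 0x20001000134009a000000000000000000000000000000) (nat_lit 0x0) (nat_lit 0xa0004000000000000000000000000000000) := D_5 (nat_lit 137) (nat_lit 122) (nat_lit 139) (nat_lit 1) (nat_lit 5) (nat_lit 7) (nat_lit 2) (nat_lit 1) (nat_lit 8) (by decide +kernel)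
theorem L43673 : W_5 (nat_lit 3) (nat_lit 0x200010001340098000000000000000000000000000000) (nat_lit 0x0) (nat_lit 0xa0007000000000000000000000000000000) := Q_5 (nat_lit 121) (C_5 L43512 (C_5 L43670 (C_5 L43671 (C_5 L43672 N_5)))) (by decide +kernel)
theorem L43674 : W_5 (nat_lit 13) (nat_lit 0x200010001300098000000000000000000000000000000) (nat_lit 0x0) (nat_lit 0x40007000f8001c000e0067000fc00fe00fe00070000000000000) := Q_5 (nat_lit 138) (C_5 L43511 (C_5 L43668 (C_5 L43669 (C_5 L43673 N_5)))) (by decide +kernel)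
theorem L43675 : W_5 (nat_lit 2) (nat_lit 0x280034001300098000000000000000000000000000000) (nat_lit 0x0) (nat_lit 0x800140000000000000000000000000000000000000000000) := D_5 (nat_lit 174) (nat_lit 191) (nat_lit 176) (nat_lit 5) (nat_lit 5) (nat_lit 7) (nat_lit 2) (nat_lit 4) (nat_lit 10) (by decide +kernel)
theorem L43676 : W_5 (nat_lit 3) (nat_lit 0x200034001300098000000000000000000000000000000) (nat_lit 0x0) (nat_lit 0x18001c0000000000000000000000000000000000000000000) := T_5 (nat_lit 175) (nat_lit 192) (nat_lit 4) (nat_lit 5) (nat_lit 11) L43675 (by decide +kernel)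
theorem L43677 : W_5 (nat_lit 4) (nat_lit 0x200014001300098000000000000000000000000000000) (nat_lit 0x0) (nat_lit 0x18001c0028000000000000000000000000000000000000000) := T_5 (nat_lit 161) (nat_lit 159) (nat_lit 0) (nat_lit 8) (nat_lit 9) L43676 (by decide +kernel)
theorem L43678 : W_5 (nat_lit 2) (nat_lit 0x20001c001340098000800020000000000000000000000) (nat_lit 0x0) (nat_lit 0x40003000000000000000000) := D_5 (nat_lit 90) (nat_lit 72) (nat_lit 73) (nat_lit 4) (nat_lit 5) (nat_lit 8) (nat_lit 5) (nat_lit 5) (nat_lit 4) (by decide +kernel)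
theorem L43679 : W_5 (nat_lit 3) (nat_lit 0x20001c001340098000000020000000000000000000000) (nat_lit 0x0) (nat_lit 0x100000000000000000800040003000000000000000000) := T_5 (nat_lit 107) (nat_lit 176) (nat_lit 7) (nat_lit 5) (nat_lit 6) L43678 (by decide +kernel)
theorem L43680 : W_5 (nat_lit 4) (nat_lit 0x20001c001300098000000020000000000000000000000) (nat_lit 0x0) (nat_lit 0x1000000000c0000000800040003000000000000000000) := T_5 (nat_lit 138) (nat_lit 139) (nat_lit 3) (nat_lit 2) (nat_lit 8) L43679 (by decide +kernel)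
theorem L43681 : W_5 (nat_lit 5) (nat_lit 0x200014001300098000000020000000000000000000000) (nat_lit 0x0) (nat_lit 0x1000280000c0000000800040003000000000000000000) := T_5 (nat_lit 159) (nat_lit 161) (nat_lit 0) (nat_lit 8) (nat_lit 9) L43680 (by decide +kernel)
theorem L43682 : W_5 (nat_lit 6) (nat_lit 0x200014001300098000000000000000000000000000000) (nat_lit 0x0) (nat_lit 0x1000280000c0000000c00060003000000000000000000) := T_5 (nat_lit 89) (nat_lit 106) (nat_lit 7) (nat_lit 4) (nat_lit 5) L43681 (by decide +kernel)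
theorem L43683 : W_5 (nat_lit 7) (nat_lit 0x200010001300098000000000000000000000000000000) (nat_lit 0x0) (nat_lit 0x18001c002c0000c0000000c00060003000000000000000000) := Q_5 (nat_lit 158) (C_5 L42786 (C_5 L43677 (C_5 L43682 N_5))) (by decide +kernel)
theorem L43684 : W_5 (nat_lit 14) (nat_lit 0x200010001300090000000000000000000000000000000) (nat_lit 0x0) (nat_lit 0x800044003f001f80edc008e006f002fc01fe00fe00070000000000000) := Q_5 (nat_lit 123) (C_5 L43373 (C_5 L43456 (C_5 L43510 (C_5 L43674 (C_5 L43683 N_5))))) (by decide +kernel)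
theorem L43685 : W_5 (nat_lit 9) (nat_lit 0x200010001300090000000000000000000000000000000) (nat_lit 0x0) (nat_lit 0x400038001c002c0008c0068003c000e0007000080000000000000) := Q_5 (nat_lit 158) (C_5 L43438 (C_5 L43443 (C_5 L40538 (C_5 L43392 (C_5 L43267 (C_5 L40464 N_5)))))) (by decide +kernel)
theorem L43686 : W_5 (nat_lit 15) (nat_lit 0x200010001300080000000000000000000000000000000) (nat_lit 0x0) (nat_lit 0x90004c003f001f80ede008e037f81bfc07fe07fe003f001d000a00000) := Q_5 (nat_lit 124) (C_5 L42588 (C_5 L43222 (C_5 L43272 (C_5 L43374 (C_5 L43390 (C_5 L43393 (C_5 L43394 (C_5 L43401 (C_5 L43433 (C_5 L43444 (C_5 L43445 (C_5 L43684 (C_5 L43685 N_5))))))))))))) (by decide +kernel)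
theorem L43687 : W_5 (nat_lit 2) (nat_lit 0x20001000138009e0009000e0000400000000000000000) (nat_lit 0x0) (nat_lit 0x20001000000000000400000000000000000000000000) := D_5 (nat_lit 156) (nat_lit 106) (nat_lit 173) (nat_lit 5) (nat_lit 4) (nat_lit 5) (nat_lit 4) (nat_lit 3) (nat_lit 10) (by decide +kernel)
theorem L43688 : W_5 (nat_lit 3) (nat_lit 0x20001000138009e0009000c0000400000000000000000) (nat_lit 0x0) (nat_lit 0x20001000000000000400020001000000000000000000) := T_5 (nat_lit 89) (nat_lit 72) (nat_lit 4) (nat_lit 5) (nat_lit 8) L43687 (by decide +kernel)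
theorem L43689 : W_5 (nat_lit 4) (nat_lit 0x20001000138009e000900040000400000000000000000) (nat_lit 0x0) (nat_lit 0x200010000000000004000a0005000000000000000000) := T_5 (nat_lit 91) (nat_lit 74) (nat_lit 6) (nat_lit 5) (nat_lit 8) L43688 (by decide +kernel)
theorem L43690 : W_5 (nat_lit 5) (nat_lit 0x20001000138009e000900040000000000000000000000) (nat_lit 0x0) (nat_lit 0x200010000000000004000a8005400000000000000000) := T_5 (nat_lit 70) (nat_lit 87) (nat_lit 7) (nat_lit 2) (nat_lit 4) L43689 (by decide +kernel)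
theorem L43691 : W_5 (nat_lit 6) (nat_lit 0x20001000138009e000900000000000000000000000000) (nat_lit 0x0) (nat_lit 0x200010000000000004000e8007400000000000000000) := T_5 (nat_lit 90) (nat_lit 73) (nat_lit 5) (nat_lit 5) (nat_lit 4) L43690 (by decide +kernel)
theorem L43692 : W_5 (nat_lit 7) (nat_lit 0x20001000138009e000800000000000000000000000000) (nat_lit 0x0) (nat_lit 0x200010000000000005800e8007400000000000000000) := T_5 (nat_lit 104) (nat_lit 103) (nat_lit 0) (nat_lit 5) (nat_lit 7) L43691 (by decide +kernel)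
theorem L43693 : W_5 (nat_lit 8) (nat_lit 0x20001000138009e000000000000000000000000000000) (nat_lit 0x0) (nat_lit 0x20001000000000001d800e8007400000000000000000) := T_5 (nat_lit 107) (nat_lit 108) (nat_lit 2) (nat_lit 2) (nat_lit 7) L43692 (by decide +kernel)
theorem L43694 : W_5 (nat_lit 2) (nat_lit 0x2000108013c009e00090001c002000000000000000000) (nat_lit 0x0) (nat_lit 0x400020001000000000000000000) := D_5 (nat_lit 89) (nat_lit 72) (nat_lit 106) (nat_lit 2) (nat_lit 1) (nat_lit 5) (nat_lit 3) (nat_lit 1) (nat_lit 5) (by decide +kernel)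
theorem L43695 : W_5 (nat_lit 3) (nat_lit 0x2000108013c009e00090000c002000000000000000000) (nat_lit 0x0) (nat_lit 0x400030001800000000000000000) := T_5 (nat_lit 88) (nat_lit 71) (nat_lit 6) (nat_lit 2) (nat_lit 8) L43694 (by decide +kernel)
theorem L43696 : W_5 (nat_lit 4) (nat_lit 0x2000108013c009e000900008002000000000000000000) (nat_lit 0x0) (nat_lit 0x400034001a00000000000000000) := T_5 (nat_lit 86) (nat_lit 69) (nat_lit 4) (nat_lit 2) (nat_lit 8) L43695 (by decide +kernel)
theorem L43697 : W_5 (nat_lit 5) (nat_lit 0x2000108013c009e000900000002000000000000000000) (nat_lit 0x0) (nat_lit 0x40003c001e00000000000000000) := T_5 (nat_lit 87) (nat_lit 70) (nat_lit 7) (nat_lit 2) (nat_lit 4) L43696 (by decide +kernel)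
theorem L43698 : W_5 (nat_lit 6) (nat_lit 0x2000108013c009e000800000002000000000000000000) (nat_lit 0x0) (nat_lit 0x58003c001e00000000000000000) := T_5 (nat_lit 104) (nat_lit 103) (nat_lit 0) (nat_lit 5) (nat_lit 7) L43697 (by decide +kernel)
theorem L43699 : W_5 (nat_lit 7) (nat_lit 0x2000108013c009e000800000000000000000000000000) (nat_lit 0x0) (nat_lit 0x58007c003e00000000000000000) := T_5 (nat_lit 73) (nat_lit 90) (nat_lit 5) (nat_lit 5) (nat_lit 4) L43698 (by decide +kernel)
theorem L43700 : W_5 (nat_lit 8) (nat_lit 0x2000100013c009e000800000000000000000000000000) (nat_lit 0x0) (nat_lit 0xc0000000000058007c003e00000000000000000) := T_5 (nat_lit 155) (nat_lit 154) (nat_lit 1) (nat_lit 5) (nat_lit 8) L43699 (by decide +kernel)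
theorem L43701 : W_5 (nat_lit 9) (nat_lit 0x2000100013c009e000000000000000000000000000000) (nat_lit 0x0) (nat_lit 0xc00000000001d8007c003e00000000000000000) := T_5 (nat_lit 107) (nat_lit 108) (nat_lit 2) (nat_lit 2) (nat_lit 7) L43700 (by decide +kernel)
theorem L43702 : W_5 (nat_lit 10) (nat_lit 0x20001000138009e000000000000000000000000000000) (nat_lit 0x0) (nat_lit 0xc00060000001d8007c003e00000000000000000) := T_5 (nat_lit 138) (nat_lit 137) (nat_lit 2) (nat_lit 1) (nat_lit 8) L43701 (by decide +kernel)
theorem L43703 : W_5 (nat_lit 2) (nat_lit 0x2000100013c009e000100000000000000000000000000) (nat_lit 0x0) (nat_lit 0x20001000000000000000008000000000000000000000) := D_5 (nat_lit 156) (nat_lit 173) (nat_lit 87) (nat_lit 4) (nat_lit 3) (nat_lit 10) (nat_lit 7) (nat_lit 2) (nat_lit 5) (by decide +kernel)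
theorem L43704 : W_5 (nat_lit 3) (nat_lit 0x2000100013c009e000000000000000000000000000000) (nat_lit 0x0) (nat_lit 0x20001000000000000180008000000000000000000000) := T_5 (nat_lit 104) (nat_lit 103) (nat_lit 0) (nat_lit 5) (nat_lit 7) L43703 (by decide +kernel)
theorem L43705 : W_5 (nat_lit 4) (nat_lit 0x20001000138009e000000000000000000000000000000) (nat_lit 0x0) (nat_lit 0x20001000060000000180008000000000000000000000) := T_5 (nat_lit 138) (nat_lit 137) (nat_lit 2) (nat_lit 1) (nat_lit 8) L43704 (by decide +kernel)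
theorem L43706 : W_5 (nat_lit 5) (nat_lit 0x20001000138009c000000000000000000000000000000) (nat_lit 0x0) (nat_lit 0x20001000060003000180008000000000000000000000) := T_5 (nat_lit 121) (nat_lit 120) (nat_lit 3) (nat_lit 1) (nat_lit 7) L43705 (by decide +kernel)
theorem L43707 : W_5 (nat_lit 7) (nat_lit 0x20001000138009e000100000000000000000000000000) (nat_lit 0x0) (nat_lit 0x20001000000000001c000e8007400000000000000000) := T_5 (nat_lit 107) (nat_lit 108) (nat_lit 2) (nat_lit 2) (nat_lit 7) L43691 (by decide +kernel)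
theorem L43708 : W_5 (nat_lit 6) (nat_lit 0x2000108013c009e000900000000000000000000000000) (nat_lit 0x0) (nat_lit 0x40007c003e00000000000000000) := T_5 (nat_lit 73) (nat_lit 90) (nat_lit 5) (nat_lit 5) (nat_lit 4) L43697 (by decide +kernel)
theorem L43709 : W_5 (nat_lit 7) (nat_lit 0x2000100013c009e000900000000000000000000000000) (nat_lit 0x0) (nat_lit 0xc0000000000040007c003e00000000000000000) := T_5 (nat_lit 155) (nat_lit 154) (nat_lit 1) (nat_lit 5) (nat_lit 8) L43708 (by decide +kernel)
theorem L43710 : W_5 (nat_lit 8) (nat_lit 0x2000100013c009e000100000000000000000000000000) (nat_lit 0x0) (nat_lit 0xc00000000001c0007c003e00000000000000000) := T_5 (nat_lit 107) (nat_lit 108) (nat_lit 2) (nat_lit 2) (nat_lit 7) L43709 (by decide +kernel)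
theorem L43711 : W_5 (nat_lit 9) (nat_lit 0x20001000138009e000100000000000000000000000000) (nat_lit 0x0) (nat_lit 0xc00060000001c0007c003e00000000000000000) := T_5 (nat_lit 138) (nat_lit 137) (nat_lit 2) (nat_lit 1) (nat_lit 8) L43710 (by decide +kernel)
theorem L43712 : W_5 (nat_lit 3) (nat_lit 0x20001000138009e000100000000000000000000000000) (nat_lit 0x0) (nat_lit 0x20001000060000000000008000000000000000000000) := T_5 (nat_lit 138) (nat_lit 137) (nat_lit 2) (nat_lit 1) (nat_lit 8) L43703 (by decide +kernel)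
theorem L43713 : W_5 (nat_lit 2) (nat_lit 0x2200108013c009e000100000000000000000000000000) (nat_lit 0x0) (nat_lit 0x600010000000000000000000000000000000000000000000) := D_5 (nat_lit 172) (nat_lit 190) (nat_lit 189) (nat_lit 7) (nat_lit 2) (nat_lit 7) (nat_lit 6) (nat_lit 2) (nat_lit 11) (by decide +kernel)
theorem L43714 : W_5 (nat_lit 3) (nat_lit 0x2000108013c009e000100000000000000000000000000) (nat_lit 0x0) (nat_lit 0x600030001000000000000000000000000000000000000000) := T_5 (nat_lit 173) (nat_lit 156) (nat_lit 7) (nat_lit 2) (nat_lit 6) L43713 (by decide +kernel)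
theorem L43715 : W_5 (nat_lit 4) (nat_lit 0x2000100013c009e000100000000000000000000000000) (nat_lit 0x0) (nat_lit 0x600030001c00000000000000000000000000000000000000) := T_5 (nat_lit 155) (nat_lit 154) (nat_lit 1) (nat_lit 5) (nat_lit 8) L43714 (by decide +kernel)
theorem L43716 : W_5 (nat_lit 5) (nat_lit 0x20001000138009e000100000000000000000000000000) (nat_lit 0x0) (nat_lit 0x600030001c00060000000000000000000000000000000000) := T_5 (nat_lit 138) (nat_lit 137) (nat_lit 2) (nat_lit 1) (nat_lit 8) L43715 (by decide +kernel)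
theorem L43717 : W_5 (nat_lit 10) (nat_lit 0x20001000130009e000100000000000000000000000000) (nat_lit 0x0) (nat_lit 0x600030001c000e0000001c000fc007e00000000000000000) := Q_5 (nat_lit 139) (C_5 L43707 (C_5 L43711 (C_5 L43712 (C_5 L43716 N_5)))) (by decide +kernel)
theorem L43718 : W_5 (nat_lit 11) (nat_lit 0x20001000130009e000000000000000000000000000000) (nat_lit 0x0) (nat_lit 0x600030001c000e0000001d800fc007e00000000000000000) := T_5 (nat_lit 104) (nat_lit 103) (nat_lit 0) (nat_lit 5) (nat_lit 7) L43717 (by decide +kernel)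
theorem L43719 : W_5 (nat_lit 12) (nat_lit 0x20001000130009c000000000000000000000000000000) (nat_lit 0x0) (nat_lit 0x600030001c000e0003001d800fc007e00000000000000000) := T_5 (nat_lit 121) (nat_lit 120) (nat_lit 3) (nat_lit 1) (nat_lit 7) L43718 (by decide +kernel)
theorem L43720 : W_5 (nat_lit 2) (nat_lit 0x200010001b000dc002c001c0001000000000000000000) (nat_lit 0x0) (nat_lit 0x2000100008000000000000000000000000000000000000000) := D_5 (nat_lit 176) (nat_lit 159) (nat_lit 193) (nat_lit 5) (nat_lit 7) (nat_lit 6) (nat_lit 5) (nat_lit 7) (nat_lit 7) (by decide +kernel)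
theorem L43721 : W_5 (nat_lit 3) (nat_lit 0x2000100013000dc002c001c0001000000000000000000) (nat_lit 0x0) (nat_lit 0x2000100028000800000000000000000000000000000000000) := T_5 (nat_lit 143) (nat_lit 161) (nat_lit 7) (nat_lit 7) (nat_lit 5) L43720 (by decide +kernel)
theorem L43722 : W_5 (nat_lit 4) (nat_lit 0x20001000130009c002c001c0001000000000000000000) (nat_lit 0x0) (nat_lit 0x2000100028000800040000000000008000000000000000000) := T_5 (nat_lit 126) (nat_lit 75) (nat_lit 7) (nat_lit 7) (nat_lit 4) L43721 (by decide +kernel)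
theorem L43723 : W_5 (nat_lit 5) (nat_lit 0x20001000130009c000c001c0001000000000000000000) (nat_lit 0x0) (nat_lit 0x2000100028000800040003000000008000000000000000000) := T_5 (nat_lit 109) (nat_lit 108) (nat_lit 1) (nat_lit 7) (nat_lit 6) L43722 (by decide +kernel)
theorem L43724 : W_5 (nat_lit 6) (nat_lit 0x20001000130009c000c000c0001000000000000000000) (nat_lit 0x0) (nat_lit 0x2000100028000800040003000300008000000000000000000) := T_5 (nat_lit 92) (nat_lit 93) (nat_lit 1) (nat_lit 8) (nat_lit 5) L43723 (by decide +kernel)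
theorem L43725 : W_5 (nat_lit 7) (nat_lit 0x20001000130009c0004000c0001000000000000000000) (nat_lit 0x0) (nat_lit 0x200010002800080004000380030000c000000000000000000) := T_5 (nat_lit 107) (nat_lit 74) (nat_lit 6) (nat_lit 5) (nat_lit 8) L43724 (by decide +kernel)
theorem L43726 : W_5 (nat_lit 8) (nat_lit 0x20001000130009c0004000c0000000000000000000000) (nat_lit 0x0) (nat_lit 0x200010002800080004000380032000d000000000000000000) := T_5 (nat_lit 72) (nat_lit 89) (nat_lit 7) (nat_lit 4) (nat_lit 4) L43725 (by decide +kernel)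
theorem L43727 : W_5 (nat_lit 2) (nat_lit 0x20001000130009c000c000f0000000000000000000000) (nat_lit 0x0) (nat_lit 0x100000c000000000000000000000) := D_5 (nat_lit 87) (nat_lit 108) (nat_lit 86) (nat_lit 3) (nat_lit 2) (nat_lit 5) (nat_lit 3) (nat_lit 1) (nat_lit 5) (by decide +kernel)
theorem L43728 : W_5 (nat_lit 3) (nat_lit 0x20001000130009c000c000e0000000000000000000000) (nat_lit 0x0) (nat_lit 0x100001c000800000000000000000) := T_5 (nat_lit 88) (nat_lit 71) (nat_lit 4) (nat_lit 4) (nat_lit 8) L43727 (by decide +kernel)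
theorem L43729 : W_5 (nat_lit 4) (nat_lit 0x20001000130009c000c000c0000000000000000000000) (nat_lit 0x0) (nat_lit 0x100003c001800000000000000000) := T_5 (nat_lit 89) (nat_lit 72) (nat_lit 7) (nat_lit 4) (nat_lit 4) L43728 (by decide +kernel)
theorem L43730 : W_5 (nat_lit 5) (nat_lit 0x20001000130009c0004000c0000000000000000000000) (nat_lit 0x0) (nat_lit 0x180003c005800000000000000000) := T_5 (nat_lit 107) (nat_lit 74) (nat_lit 6) (nat_lit 5) (nat_lit 8) L43729 (by decide +kernel)
theorem L43731 : W_5 (nat_lit 2) (nat_lit 0x20001000130009c0024000f0008000000000000000000) (nat_lit 0x0) (nat_lit 0x40000000100010000000000000000000) := D_5 (nat_lit 92) (nat_lit 76) (nat_lit 126) (nat_lit 2) (nat_lit 4) (nat_lit 5) (nat_lit 7) (nat_lit 7) (nat_lit 4) (by decide +kernel)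
theorem L43732 : W_5 (nat_lit 3) (nat_lit 0x20001000130009c0004000f0008000000000000000000) (nat_lit 0x0) (nat_lit 0x40003000100010000000000000000000) := T_5 (nat_lit 109) (nat_lit 108) (nat_lit 3) (nat_lit 3) (nat_lit 5) L43731 (by decide +kernel)
theorem L43733 : W_5 (nat_lit 4) (nat_lit 0x20001000130009c0004000f0000000000000000000000) (nat_lit 0x0) (nat_lit 0x4000300010001c000000000000000000) := T_5 (nat_lit 75) (nat_lit 74) (nat_lit 2) (nat_lit 3) (nat_lit 5) L43732 (by decide +kernel)
theorem L43734 : W_5 (nat_lit 5) (nat_lit 0x20001000130009c0004000e0000000000000000000000) (nat_lit 0x0) (nat_lit 0x4000300011001c800000000000000000) := T_5 (nat_lit 88) (nat_lit 71) (nat_lit 4) (nat_lit 4) (nat_lit 8) L43733 (by decide +kernel)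
theorem L43735 : W_5 (nat_lit 6) (nat_lit 0x20001000130009c0004000c0000000000000000000000) (nat_lit 0x0) (nat_lit 0x4000300013001d800000000000000000) := T_5 (nat_lit 89) (nat_lit 72) (nat_lit 7) (nat_lit 4) (nat_lit 4) L43734 (by decide +kernel)
theorem L43736 : W_5 (nat_lit 2) (nat_lit 0x20001000130009c0004000e0004000000000000000000) (nat_lit 0x0) (nat_lit 0x10008800000000000000000) := D_5 (nat_lit 88) (nat_lit 71) (nat_lit 75) (nat_lit 4) (nat_lit 4) (nat_lit 8) (nat_lit 2) (nat_lit 3) (nat_lit 5) (by decide +kernel)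
theorem L43737 : W_5 (nat_lit 3) (nat_lit 0x20001000130009c0004000e0000000000000000000000) (nat_lit 0x0) (nat_lit 0x80001000c800000000000000000) := T_5 (nat_lit 74) (nat_lit 107) (nat_lit 6) (nat_lit 5) (nat_lit 8) L43736 (by decide +kernel)
theorem L43738 : W_5 (nat_lit 4) (nat_lit 0x20001000130009c0004000c0000000000000000000000) (nat_lit 0x0) (nat_lit 0x80003000d800000000000000000) := T_5 (nat_lit 89) (nat_lit 72) (nat_lit 7) (nat_lit 4) (nat_lit 4) L43737 (by decide +kernel)
theorem L43739 : W_5 (nat_lit 2) (nat_lit 0x200010001b000dc002c001c0000000000000000000000) (nat_lit 0x0) (nat_lit 0x2000100008000000000000000000000000000000000000000) := D_5 (nat_lit 176) (nat_lit 159) (nat_lit 193) (nat_lit 5) (nat_lit 7) (nat_lit 6) (nat_lit 5) (nat_lit 7) (nat_lit 7) (by decide +kernel)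
theorem L43740 : W_5 (nat_lit 3) (nat_lit 0x2000100013000dc002c001c0000000000000000000000) (nat_lit 0x0) (nat_lit 0x2000100028000800000000000000000000000000000000000) := T_5 (nat_lit 143) (nat_lit 161) (nat_lit 7) (nat_lit 7) (nat_lit 5) L43739 (by decide +kernel)
theorem L43741 : W_5 (nat_lit 4) (nat_lit 0x20001000130009c002c001c0000000000000000000000) (nat_lit 0x0) (nat_lit 0x2000100028000800040000000000008000000000000000000) := T_5 (nat_lit 126) (nat_lit 75) (nat_lit 7) (nat_lit 7) (nat_lit 4) L43740 (by decide +kernel)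
theorem L43742 : W_5 (nat_lit 5) (nat_lit 0x20001000130009c000c001c0000000000000000000000) (nat_lit 0x0) (nat_lit 0x2000100028000800040003000000008000000000000000000) := T_5 (nat_lit 109) (nat_lit 108) (nat_lit 1) (nat_lit 7) (nat_lit 6) L43741 (by decide +kernel)
theorem L43743 : W_5 (nat_lit 6) (nat_lit 0x20001000130009c000c000c0000000000000000000000) (nat_lit 0x0) (nat_lit 0x2000100028000800040003000300008000000000000000000) := T_5 (nat_lit 92) (nat_lit 93) (nat_lit 1) (nat_lit 8) (nat_lit 5) L43742 (by decide +kernel)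
theorem L43744 : W_5 (nat_lit 7) (nat_lit 0x20001000130009c0004000c0000000000000000000000) (nat_lit 0x0) (nat_lit 0x200010002800080004000380030000c000000000000000000) := T_5 (nat_lit 107) (nat_lit 74) (nat_lit 6) (nat_lit 5) (nat_lit 8) L43743 (by decide +kernel)
theorem L43745 : W_5 (nat_lit 2) (nat_lit 0x20001000130009c0014800f8000200000000000000000) (nat_lit 0x0) (nat_lit 0x40004000100000000000000000) := D_5 (nat_lit 86) (nat_lit 68) (nat_lit 102) (nat_lit 0) (nat_lit 4) (nat_lit 5) (nat_lit 1) (nat_lit 4) (nat_lit 5) (by decide +kernel)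
theorem L43746 : W_5 (nat_lit 3) (nat_lit 0x20001000130009c0014000f8000200000000000000000) (nat_lit 0x0) (nat_lit 0x1c0004000100000000000000000) := T_5 (nat_lit 103) (nat_lit 104) (nat_lit 1) (nat_lit 5) (nat_lit 5) L43745 (by decide +kernel)
theorem L43747 : W_5 (nat_lit 4) (nat_lit 0x20001000130009c0014000f8000000000000000000000) (nat_lit 0x0) (nat_lit 0x1c0004000700000000000000000) := T_5 (nat_lit 69) (nat_lit 70) (nat_lit 0) (nat_lit 5) (nat_lit 5) L43746 (by decide +kernel)
theorem L43748 : W_5 (nat_lit 5) (nat_lit 0x20001000130009c0014000f0000000000000000000000) (nat_lit 0x0) (nat_lit 0x9c000c000700000000000000000) := T_5 (nat_lit 87) (nat_lit 107) (nat_lit 3) (nat_lit 2) (nat_lit 5) L43747 (by decide +kernel)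
theorem L43749 : W_5 (nat_lit 6) (nat_lit 0x20001000130009c0004000f0000000000000000000000) (nat_lit 0x0) (nat_lit 0x39c000c000700000000000000000) := T_5 (nat_lit 108) (nat_lit 109) (nat_lit 3) (nat_lit 3) (nat_lit 5) L43748 (by decide +kernel)
theorem L43750 : W_5 (nat_lit 7) (nat_lit 0x20001000130009c0004000e0000000000000000000000) (nat_lit 0x0) (nat_lit 0x39c001c000f00000000000000000) := T_5 (nat_lit 88) (nat_lit 71) (nat_lit 4) (nat_lit 4) (nat_lit 8) L43749 (by decide +kernel)
theorem L43751 : W_5 (nat_lit 8) (nat_lit 0x20001000130009c0004000c0000000000000000000000) (nat_lit 0x0) (nat_lit 0x39c003c001f00000000000000000) := T_5 (nat_lit 89) (nat_lit 72) (nat_lit 7) (nat_lit 4) (nat_lit 4) L43750 (by decide +kernel)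
theorem L43752 : W_5 (nat_lit 9) (nat_lit 0x20001000130009c000400040000000000000000000000) (nat_lit 0x0) (nat_lit 0x20001000280008000400039c03bc01df00000000000000000) := Q_5 (nat_lit 91) (C_5 L43726 (C_5 L43730 (C_5 L43735 (C_5 L43738 (C_5 L43744 (C_5 L43751 N_5)))))) (by decide +kernel)
theorem L43753 : W_5 (nat_lit 2) (nat_lit 0x20001000130009c000400040000000000000000000000) (nat_lit 0x0) (nat_lit 0x20003000000000000000000) := D_5 (nat_lit 89) (nat_lit 72) (nat_lit 73) (nat_lit 7) (nat_lit 4) (nat_lit 4) (nat_lit 6) (nat_lit 4) (nat_lit 8) (by decide +kernel)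
theorem L43754 : W_5 (nat_lit 5) (nat_lit 0x20001000130009c002c000c0000000000000000000000) (nat_lit 0x0) (nat_lit 0x2000100028000800040000000300008000000000000000000) := T_5 (nat_lit 92) (nat_lit 93) (nat_lit 1) (nat_lit 8) (nat_lit 5) L43741 (by decide +kernel)
theorem L43755 : W_5 (nat_lit 6) (nat_lit 0x20001000130009c002c00040000000000000000000000) (nat_lit 0x0) (nat_lit 0x200010002800080004000000038000c000000000000000000) := T_5 (nat_lit 91) (nat_lit 74) (nat_lit 6) (nat_lit 5) (nat_lit 8) L43754 (by decide +kernel)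
theorem L43756 : W_5 (nat_lit 7) (nat_lit 0x20001000130009c000c00040000000000000000000000) (nat_lit 0x0) (nat_lit 0x200010002800080004000300038000c000000000000000000) := T_5 (nat_lit 109) (nat_lit 108) (nat_lit 1) (nat_lit 7) (nat_lit 6) L43755 (by decide +kernel)
theorem L43757 : W_5 (nat_lit 8) (nat_lit 0x20001000130009c000400040000000000000000000000) (nat_lit 0x0) (nat_lit 0x200010002800080004000380038000e000000000000000000) := T_5 (nat_lit 107) (nat_lit 73) (nat_lit 5) (nat_lit 5) (nat_lit 4) L43756 (by decide +kernel)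
theorem L43758 : W_5 (nat_lit 10) (nat_lit 0x20001000130009c000400000000000000000000000000) (nat_lit 0x0) (nat_lit 0x20001000280008000400039c03fc01ff00000000000000000) := Q_5 (nat_lit 90) (C_5 L43752 (C_5 L43753 (C_5 L43757 N_5))) (by decide +kernel)
theorem L43759 : W_5 (nat_lit 2) (nat_lit 0x2000100013000bc000400020000000000000000000000) (nat_lit 0x0) (nat_lit 0x10000c0000000000000000000000000000000000) := D_5 (nat_lit 139) (nat_lit 156) (nat_lit 138) (nat_lit 5) (nat_lit 4) (nat_lit 5) (nat_lit 2) (nat_lit 2) (nat_lit 8) (by decide +kernel)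
theorem L43760 : W_5 (nat_lit 3) (nat_lit 0x20001000130009c000400020000000000000000000000) (nat_lit 0x0) (nat_lit 0x10000c0060000000000000000000000000000000) := T_5 (nat_lit 125) (nat_lit 126) (nat_lit 1) (nat_lit 8) (nat_lit 7) L43759 (by decide +kernel)
theorem L43761 : W_5 (nat_lit 4) (nat_lit 0x20001000130009c000400000000000000000000000000) (nat_lit 0x0) (nat_lit 0x10000c0060000000020001000000000000000000) := T_5 (nat_lit 89) (nat_lit 72) (nat_lit 7) (nat_lit 4) (nat_lit 4) L43760 (by decide +kernel)
theorem L43762 : W_5 (nat_lit 2) (nat_lit 0x20001000130009c002400000000000000000000000000) (nat_lit 0x0) (nat_lit 0x60001000000000000000000000000000) := D_5 (nat_lit 125) (nat_lit 126) (nat_lit 108) (nat_lit 1) (nat_lit 8) (nat_lit 7) (nat_lit 2) (nat_lit 3) (nat_lit 7) (by decide +kernel)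
theorem L43763 : W_5 (nat_lit 7) (nat_lit 0x20001000130009c002c00000000000000000000000000) (nat_lit 0x0) (nat_lit 0x20001000280008000400000003c000e000000000000000000) := T_5 (nat_lit 90) (nat_lit 73) (nat_lit 5) (nat_lit 5) (nat_lit 4) L43755 (by decide +kernel)
theorem L43764 : W_5 (nat_lit 8) (nat_lit 0x20001000130009c002400000000000000000000000000) (nat_lit 0x0) (nat_lit 0x20001000280008000400018003c000e000000000000000000) := T_5 (nat_lit 107) (nat_lit 108) (nat_lit 1) (nat_lit 7) (nat_lit 6) L43763 (by decide +kernel)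
theorem L43765 : W_5 (nat_lit 2) (nat_lit 0x200010001b000dc002400100000000000000000000000) (nat_lit 0x0) (nat_lit 0x2000100008000000000000000000000000000000000000000) := D_5 (nat_lit 176) (nat_lit 193) (nat_lit 159) (nat_lit 5) (nat_lit 7) (nat_lit 7) (nat_lit 5) (nat_lit 7) (nat_lit 6) (by decide +kernel)
theorem L43766 : W_5 (nat_lit 3) (nat_lit 0x2000100013000dc002400100000000000000000000000) (nat_lit 0x0) (nat_lit 0x2000100028000800000000000000000000000000000000000) := T_5 (nat_lit 143) (nat_lit 161) (nat_lit 7) (nat_lit 7) (nat_lit 5) L43765 (by decide +kernel)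
theorem L43767 : W_5 (nat_lit 4) (nat_lit 0x2000100013000dc002400000000000000000000000000) (nat_lit 0x0) (nat_lit 0x2000100028000800000000000100008000000000000000000) := T_5 (nat_lit 92) (nat_lit 75) (nat_lit 7) (nat_lit 7) (nat_lit 4) L43766 (by decide +kernel)
theorem L43768 : W_5 (nat_lit 5) (nat_lit 0x20001000130009c002400000000000000000000000000) (nat_lit 0x0) (nat_lit 0x2000100028000800060000000100008000000000000000000) := T_5 (nat_lit 126) (nat_lit 125) (nat_lit 1) (nat_lit 8) (nat_lit 7) L43767 (by decide +kernel)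
theorem L43769 : W_5 (nat_lit 2) (nat_lit 0x20001000130009c002400000000000000000000000000) (nat_lit 0x0) (nat_lit 0x20001800000000000000000000000000) := D_5 (nat_lit 108) (nat_lit 125) (nat_lit 107) (nat_lit 2) (nat_lit 3) (nat_lit 7) (nat_lit 1) (nat_lit 7) (nat_lit 6) (by decide +kernel)
theorem L43770 : W_5 (nat_lit 9) (nat_lit 0x20001000130009c000400000000000000000000000000) (nat_lit 0x0) (nat_lit 0x20001000280008000600038003c000e000000000000000000) := Q_5 (nat_lit 109) (C_5 L43762 (C_5 L43764 (C_5 L43768 (C_5 L43769 N_5)))) (by decide +kernel)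
theorem L43771 : W_5 (nat_lit 2) (nat_lit 0x20001000138009c000400070000000000000000000000) (nat_lit 0x0) (nat_lit 0x60020000000000000000000000000000000) := D_5 (nat_lit 138) (nat_lit 125) (nat_lit 137) (nat_lit 2) (nat_lit 2) (nat_lit 8) (nat_lit 2) (nat_lit 1) (nat_lit 8) (by decide +kernel)
theorem L43772 : W_5 (nat_lit 3) (nat_lit 0x20001000130009c000400070000000000000000000000) (nat_lit 0x0) (nat_lit 0x10000e0020000000000000000000000000000000) := T_5 (nat_lit 139) (nat_lit 156) (nat_lit 5) (nat_lit 4) (nat_lit 5) L43771 (by decide +kernel)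
theorem L43773 : W_5 (nat_lit 4) (nat_lit 0x20001000130009c000400030000000000000000000000) (nat_lit 0x0) (nat_lit 0x10000e0020000000040002000000000000000000) := T_5 (nat_lit 90) (nat_lit 73) (nat_lit 6) (nat_lit 4) (nat_lit 8) L43772 (by decide +kernel)
theorem L43774 : W_5 (nat_lit 5) (nat_lit 0x20001000130009c000400020000000000000000000000) (nat_lit 0x0) (nat_lit 0x10000e0020000000050002800000000000000000) := T_5 (nat_lit 88) (nat_lit 71) (nat_lit 4) (nat_lit 4) (nat_lit 8) L43773 (by decide +kernel)
theorem L43775 : W_5 (nat_lit 6) (nat_lit 0x20001000130009c000400000000000000000000000000) (nat_lit 0x0) (nat_lit 0x10000e0020000000070003800000000000000000) := T_5 (nat_lit 89) (nat_lit 72) (nat_lit 7) (nat_lit 4) (nat_lit 4) L43774 (by decide +kernel)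
theorem L43776 : W_5 (nat_lit 11) (nat_lit 0x20001000130009c000000000000000000000000000000) (nat_lit 0x0) (nat_lit 0x20001000290008e0060003dc03fc01ff00000000000000000) := Q_5 (nat_lit 106) (C_5 L43758 (C_5 L43761 (C_5 L43770 (C_5 L43775 N_5)))) (by decide +kernel)
theorem L43777 : W_5 (nat_lit 2) (nat_lit 0x2000100013000be000000000000000000000000000000) (nat_lit 0x0) (nat_lit 0xe0000000000000000000000000000000000) := D_5 (nat_lit 138) (nat_lit 139) (nat_lit 137) (nat_lit 2) (nat_lit 2) (nat_lit 8) (nat_lit 1) (nat_lit 5) (nat_lit 7) (by decide +kernel)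
theorem L43778 : W_5 (nat_lit 3) (nat_lit 0x2000100013000bc000000000000000000000000000000) (nat_lit 0x0) (nat_lit 0xe0003000000000000000000000000000000) := T_5 (nat_lit 121) (nat_lit 120) (nat_lit 3) (nat_lit 1) (nat_lit 7) L43777 (by decide +kernel)
theorem L43779 : W_5 (nat_lit 4) (nat_lit 0x20001000130009c000000000000000000000000000000) (nat_lit 0x0) (nat_lit 0xe0063000000000000000000000000000000) := T_5 (nat_lit 125) (nat_lit 126) (nat_lit 1) (nat_lit 8) (nat_lit 7) L43778 (by decide +kernel)
theorem L43780 : W_5 (nat_lit 2) (nat_lit 0x2000100013000be000000000000000000000000000000) (nat_lit 0x0) (nat_lit 0x3800000000000000000000000000) := D_5 (nat_lit 108) (nat_lit 109) (nat_lit 107) (nat_lit 2) (nat_lit 3) (nat_lit 7) (nat_lit 2) (nat_lit 2) (nat_lit 7) (by decide +kernel)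
theorem L43781 : W_5 (nat_lit 3) (nat_lit 0x2000100013000bc000000000000000000000000000000) (nat_lit 0x0) (nat_lit 0x3003800000000000000000000000000) := T_5 (nat_lit 121) (nat_lit 120) (nat_lit 3) (nat_lit 1) (nat_lit 7) L43780 (by decide +kernel)
theorem L43782 : W_5 (nat_lit 4) (nat_lit 0x20001000130009c000000000000000000000000000000) (nat_lit 0x0) (nat_lit 0x63003800000000000000000000000000) := T_5 (nat_lit 125) (nat_lit 126) (nat_lit 1) (nat_lit 8) (nat_lit 7) L43781 (by decide +kernel)
theorem L43783 : W_5 (nat_lit 13) (nat_lit 0x20001000130008c000000000000000000000000000000) (nat_lit 0x0) (nat_lit 0x2600130029c008e0073003dc03fc01ff00000000000000000) := Q_5 (nat_lit 124) (C_5 L43719 (C_5 L43776 (C_5 L43779 (C_5 L43782 N_5)))) (by decide +kernel)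
theorem L43784 : W_5 (nat_lit 2) (nat_lit 0x2000110013000bc0016000b0000000000000000000000) (nat_lit 0x0) (nat_lit 0x140002000000000000000000) := D_5 (nat_lit 90) (nat_lit 73) (nat_lit 92) (nat_lit 6) (nat_lit 4) (nat_lit 8) (nat_lit 1) (nat_lit 7) (nat_lit 5) (by decide +kernel)
theorem L43785 : W_5 (nat_lit 3) (nat_lit 0x2000110013000bc001600030000000000000000000000) (nat_lit 0x0) (nat_lit 0x1c0006000000000000000000) := T_5 (nat_lit 91) (nat_lit 74) (nat_lit 5) (nat_lit 6) (nat_lit 4) L43784 (by decide +kernel)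
theorem L43786 : W_5 (nat_lit 4) (nat_lit 0x2000100013000bc001600030000000000000000000000) (nat_lit 0x0) (nat_lit 0x10000800000000001c0006000000000000000000) := T_5 (nat_lit 156) (nat_lit 139) (nat_lit 6) (nat_lit 3) (nat_lit 9) L43785 (by decide +kernel)
theorem L43787 : W_5 (nat_lit 5) (nat_lit 0x2000100013000bc000600030000000000000000000000) (nat_lit 0x0) (nat_lit 0x10000800000030001c0006000000000000000000) := T_5 (nat_lit 108) (nat_lit 109) (nat_lit 2) (nat_lit 3) (nat_lit 7) L43786 (by decide +kernel)
theorem L43788 : W_5 (nat_lit 6) (nat_lit 0x2000100013000bc000400030000000000000000000000) (nat_lit 0x0) (nat_lit 0x10000800000033001c0006000000000000000000) := T_5 (nat_lit 105) (nat_lit 104) (nat_lit 0) (nat_lit 6) (nat_lit 7) L43787 (by decide +kernel)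
theorem L43789 : W_5 (nat_lit 7) (nat_lit 0x2000100013000bc000400020000000000000000000000) (nat_lit 0x0) (nat_lit 0x10000800000033001d0006800000000000000000) := T_5 (nat_lit 88) (nat_lit 71) (nat_lit 4) (nat_lit 4) (nat_lit 8) L43788 (by decide +kernel)
theorem L43790 : W_5 (nat_lit 8) (nat_lit 0x20001000130009c000400020000000000000000000000) (nat_lit 0x0) (nat_lit 0x10000800600033001d0006800000000000000000) := T_5 (nat_lit 125) (nat_lit 126) (nat_lit 1) (nat_lit 8) (nat_lit 7) L43789 (by decide +kernel)
theorem L43791 : W_5 (nat_lit 9) (nat_lit 0x20001000130009c000400000000000000000000000000) (nat_lit 0x0) (nat_lit 0x10000800600033001f0007800000000000000000) := T_5 (nat_lit 89) (nat_lit 72) (nat_lit 7) (nat_lit 4) (nat_lit 4) L43790 (by decide +kernel)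
theorem L43792 : W_5 (nat_lit 2) (nat_lit 0x2000100013800bc000600038000000000000000000000) (nat_lit 0x0) (nat_lit 0x800006000000000000000000000) := D_5 (nat_lit 86) (nat_lit 107) (nat_lit 85) (nat_lit 3) (nat_lit 1) (nat_lit 5) (nat_lit 3) (nat_lit 0) (nat_lit 5) (by decide +kernel)
theorem L43793 : W_5 (nat_lit 3) (nat_lit 0x2000100013800bc000600030000000000000000000000) (nat_lit 0x0) (nat_lit 0x80000e000400000000000000000) := T_5 (nat_lit 87) (nat_lit 70) (nat_lit 4) (nat_lit 3) (nat_lit 8) L43792 (by decide +kernel)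
theorem L43794 : W_5 (nat_lit 4) (nat_lit 0x2000100013000bc000600030000000000000000000000) (nat_lit 0x0) (nat_lit 0x100008000000080000e000400000000000000000) := T_5 (nat_lit 139) (nat_lit 156) (nat_lit 6) (nat_lit 3) (nat_lit 9) L43793 (by decide +kernel)
theorem L43795 : W_5 (nat_lit 5) (nat_lit 0x2000100013000bc000400030000000000000000000000) (nat_lit 0x0) (nat_lit 0x1000080000000b0000e000400000000000000000) := T_5 (nat_lit 105) (nat_lit 104) (nat_lit 0) (nat_lit 6) (nat_lit 7) L43794 (by decide +kernel)
theorem L43796 : W_5 (nat_lit 6) (nat_lit 0x2000100013000bc000400020000000000000000000000) (nat_lit 0x0) (nat_lit 0x1000080000000b0001e000c00000000000000000) := T_5 (nat_lit 88) (nat_lit 71) (nat_lit 4) (nat_lit 4) (nat_lit 8) L43795 (by decide +kernel)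
theorem L43797 : W_5 (nat_lit 7) (nat_lit 0x20001000130009c000400020000000000000000000000) (nat_lit 0x0) (nat_lit 0x1000080060000b0001e000c00000000000000000) := T_5 (nat_lit 125) (nat_lit 126) (nat_lit 1) (nat_lit 8) (nat_lit 7) L43796 (by decide +kernel)
theorem L43798 : W_5 (nat_lit 8) (nat_lit 0x20001000130009c000400000000000000000000000000) (nat_lit 0x0) (nat_lit 0x1000080060000b0003e001c00000000000000000) := T_5 (nat_lit 89) (nat_lit 72) (nat_lit 7) (nat_lit 4) (nat_lit 4) L43797 (by decide +kernel)
theorem L43799 : W_5 (nat_lit 2) (nat_lit 0x20001000130009c000600000000000000000000000000) (nat_lit 0x0) (nat_lit 0x20000180000000000000000000000000) := D_5 (nat_lit 104) (nat_lit 125) (nat_lit 103) (nat_lit 0) (nat_lit 6) (nat_lit 7) (nat_lit 3) (nat_lit 1) (nat_lit 6) (by decide +kernel)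
theorem L43800 : W_5 (nat_lit 2) (nat_lit 0x20001100130009c0006800f0000000000000000000000) (nat_lit 0x0) (nat_lit 0x80000000c000000000000000000) := D_5 (nat_lit 74) (nat_lit 107) (nat_lit 75) (nat_lit 6) (nat_lit 5) (nat_lit 8) (nat_lit 2) (nat_lit 3) (nat_lit 5) (by decide +kernel)
theorem L43801 : W_5 (nat_lit 3) (nat_lit 0x20001100130009c0006800e0000000000000000000000) (nat_lit 0x0) (nat_lit 0x80001000c800000000000000000) := T_5 (nat_lit 88) (nat_lit 71) (nat_lit 7) (nat_lit 3) (nat_lit 4) L43800 (by decide +kernel)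
theorem L43802 : W_5 (nat_lit 4) (nat_lit 0x20001100130009c000680060000000000000000000000) (nat_lit 0x0) (nat_lit 0x80019000c800000000000000000) := T_5 (nat_lit 91) (nat_lit 92) (nat_lit 1) (nat_lit 7) (nat_lit 5) L43801 (by decide +kernel)
theorem L43803 : W_5 (nat_lit 5) (nat_lit 0x20001100130009c000680020000000000000000000000) (nat_lit 0x0) (nat_lit 0x8001d000e800000000000000000) := T_5 (nat_lit 90) (nat_lit 73) (nat_lit 6) (nat_lit 4) (nat_lit 8) L43802 (by decide +kernel)
theorem L43804 : W_5 (nat_lit 6) (nat_lit 0x20001000130009c000680020000000000000000000000) (nat_lit 0x0) (nat_lit 0x10000800000008001d000e800000000000000000) := T_5 (nat_lit 156) (nat_lit 139) (nat_lit 6) (nat_lit 3) (nat_lit 9) L43803 (by decide +kernel)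
theorem L43805 : W_5 (nat_lit 7) (nat_lit 0x20001000130009c000600020000000000000000000000) (nat_lit 0x0) (nat_lit 0x10000800000009801d000e800000000000000000) := T_5 (nat_lit 103) (nat_lit 104) (nat_lit 3) (nat_lit 1) (nat_lit 6) L43804 (by decide +kernel)
theorem L43806 : W_5 (nat_lit 8) (nat_lit 0x20001000130009c000600000000000000000000000000) (nat_lit 0x0) (nat_lit 0x10000800000009801f000f800000000000000000) := T_5 (nat_lit 89) (nat_lit 72) (nat_lit 7) (nat_lit 4) (nat_lit 4) L43805 (by decide +kernel)
theorem L43807 : W_5 (nat_lit 2) (nat_lit 0x20001000138009c000600178000000000000000000000) (nat_lit 0x0) (nat_lit 0x1800004000000000000000000000) := D_5 (nat_lit 107) (nat_lit 108) (nat_lit 86) (nat_lit 3) (nat_lit 2) (nat_lit 5) (nat_lit 3) (nat_lit 1) (nat_lit 5) (by decide +kernel)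
theorem L43808 : W_5 (nat_lit 3) (nat_lit 0x20001000138009c000600170000000000000000000000) (nat_lit 0x0) (nat_lit 0x180000c000400000000000000000) := T_5 (nat_lit 87) (nat_lit 70) (nat_lit 4) (nat_lit 3) (nat_lit 8) L43807 (by decide +kernel)
theorem L43809 : W_5 (nat_lit 4) (nat_lit 0x20001000130009c000600170000000000000000000000) (nat_lit 0x0) (nat_lit 0x100008000000180000c000400000000000000000) := T_5 (nat_lit 139) (nat_lit 156) (nat_lit 6) (nat_lit 3) (nat_lit 9) L43808 (by decide +kernel)
theorem L43810 : W_5 (nat_lit 5) (nat_lit 0x20001000130009c000600070000000000000000000000) (nat_lit 0x0) (nat_lit 0x100008000000180018c000400000000000000000) := T_5 (nat_lit 92) (nat_lit 91) (nat_lit 1) (nat_lit 7) (nat_lit 5) L43809 (by decide +kernel)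
theorem L43811 : W_5 (nat_lit 6) (nat_lit 0x20001000130009c000600030000000000000000000000) (nat_lit 0x0) (nat_lit 0x10000800000018001cc002400000000000000000) := T_5 (nat_lit 90) (nat_lit 73) (nat_lit 6) (nat_lit 4) (nat_lit 8) L43810 (by decide +kernel)
theorem L43812 : W_5 (nat_lit 7) (nat_lit 0x20001000130009c000600020000000000000000000000) (nat_lit 0x0) (nat_lit 0x10000800000018001dc002c00000000000000000) := T_5 (nat_lit 88) (nat_lit 71) (nat_lit 7) (nat_lit 3) (nat_lit 4) L43811 (by decide +kernel)
theorem L43813 : W_5 (nat_lit 8) (nat_lit 0x20001000130009c000600000000000000000000000000) (nat_lit 0x0) (nat_lit 0x10000800000018001fc003c00000000000000000) := T_5 (nat_lit 89) (nat_lit 72) (nat_lit 7) (nat_lit 4) (nat_lit 4) L43812 (by decide +kernel)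
theorem L43814 : W_5 (nat_lit 9) (nat_lit 0x20001000130009c000400000000000000000000000000) (nat_lit 0x0) (nat_lit 0x1000080020001b801fc00fc00000000000000000) := Q_5 (nat_lit 105) (C_5 L43799 (C_5 L43806 (C_5 L43813 N_5))) (by decide +kernel)
theorem L43815 : W_5 (nat_lit 11) (nat_lit 0x20001000130009c000000000000000000000000000000) (nat_lit 0x0) (nat_lit 0x2000100029000880060003fc03fe01ff00000000000000000) := Q_5 (nat_lit 106) (C_5 L43758 (C_5 L43791 (C_5 L43798 (C_5 L43770 (C_5 L43814 N_5))))) (by decide +kernel)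
theorem L43816 : W_5 (nat_lit 2) (nat_lit 0x2000100013000de0009000e0000000000000000000000) (nat_lit 0x0) (nat_lit 0x600010000000000000000000000) := D_5 (nat_lit 105) (nat_lit 106) (nat_lit 88) (nat_lit 2) (nat_lit 2) (nat_lit 6) (nat_lit 1) (nat_lit 6) (nat_lit 5) (by decide +kernel)
theorem L43817 : W_5 (nat_lit 3) (nat_lit 0x2000100013000de000900060000000000000000000000) (nat_lit 0x0) (nat_lit 0x600090004000000000000000000) := T_5 (nat_lit 91) (nat_lit 74) (nat_lit 6) (nat_lit 5) (nat_lit 8) L43816 (by decide +kernel)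
theorem L43818 : W_5 (nat_lit 4) (nat_lit 0x2000100013000de000900040000000000000000000000) (nat_lit 0x0) (nat_lit 0x6000b0005000000000000000000) := T_5 (nat_lit 89) (nat_lit 72) (nat_lit 4) (nat_lit 5) (nat_lit 8) L43817 (by decide +kernel)
theorem L43819 : W_5 (nat_lit 5) (nat_lit 0x2000100013000de000900000000000000000000000000) (nat_lit 0x0) (nat_lit 0x6000f0007000000000000000000) := T_5 (nat_lit 90) (nat_lit 73) (nat_lit 5) (nat_lit 5) (nat_lit 4) L43818 (by decide +kernel)
theorem L43820 : W_5 (nat_lit 6) (nat_lit 0x2000100013000de000100000000000000000000000000) (nat_lit 0x0) (nat_lit 0x1e000f0007000000000000000000) := T_5 (nat_lit 107) (nat_lit 108) (nat_lit 2) (nat_lit 2) (nat_lit 7) L43819 (by decide +kernel)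
theorem L43821 : W_5 (nat_lit 7) (nat_lit 0x2000100013000de000000000000000000000000000000) (nat_lit 0x0) (nat_lit 0x1f800f0007000000000000000000) := T_5 (nat_lit 104) (nat_lit 103) (nat_lit 0) (nat_lit 5) (nat_lit 7) L43820 (by decide +kernel)
theorem L43822 : W_5 (nat_lit 8) (nat_lit 0x2000100013000dc000000000000000000000000000000) (nat_lit 0x0) (nat_lit 0x3001f800f0007000000000000000000) := T_5 (nat_lit 121) (nat_lit 120) (nat_lit 3) (nat_lit 1) (nat_lit 7) L43821 (by decide +kernel)
theorem L43823 : W_5 (nat_lit 9) (nat_lit 0x20001000130009c000000000000000000000000000000) (nat_lit 0x0) (nat_lit 0x63001f800f0007000000000000000000) := T_5 (nat_lit 126) (nat_lit 125) (nat_lit 1) (nat_lit 8) (nat_lit 7) L43822 (by decide +kernel)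
theorem L43824 : W_5 (nat_lit 2) (nat_lit 0x20001000130009e0009000e0000000000000000000000) (nat_lit 0x0) (nat_lit 0x600010000000000000000000000) := D_5 (nat_lit 105) (nat_lit 106) (nat_lit 88) (nat_lit 2) (nat_lit 2) (nat_lit 6) (nat_lit 1) (nat_lit 6) (nat_lit 5) (by decide +kernel)
theorem L43825 : W_5 (nat_lit 3) (nat_lit 0x20001000130009e000900060000000000000000000000) (nat_lit 0x0) (nat_lit 0x600090004000000000000000000) := T_5 (nat_lit 91) (nat_lit 74) (nat_lit 6) (nat_lit 5) (nat_lit 8) L43824 (by decide +kernel)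
theorem L43826 : W_5 (nat_lit 4) (nat_lit 0x20001000130009e000900040000000000000000000000) (nat_lit 0x0) (nat_lit 0x6000b0005000000000000000000) := T_5 (nat_lit 89) (nat_lit 72) (nat_lit 4) (nat_lit 5) (nat_lit 8) L43825 (by decide +kernel)
theorem L43827 : W_5 (nat_lit 5) (nat_lit 0x20001000130009e000900000000000000000000000000) (nat_lit 0x0) (nat_lit 0x6000f0007000000000000000000) := T_5 (nat_lit 90) (nat_lit 73) (nat_lit 5) (nat_lit 5) (nat_lit 4) L43826 (by decide +kernel)
theorem L43828 : W_5 (nat_lit 6) (nat_lit 0x20001000130009e000100000000000000000000000000) (nat_lit 0x0) (nat_lit 0x1e000f0007000000000000000000) := T_5 (nat_lit 107) (nat_lit 108) (nat_lit 2) (nat_lit 2) (nat_lit 7) L43827 (by decide +kernel)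
theorem L43829 : W_5 (nat_lit 7) (nat_lit 0x20001000130009e000000000000000000000000000000) (nat_lit 0x0) (nat_lit 0x1f800f0007000000000000000000) := T_5 (nat_lit 104) (nat_lit 103) (nat_lit 0) (nat_lit 5) (nat_lit 7) L43828 (by decide +kernel)
theorem L43830 : W_5 (nat_lit 8) (nat_lit 0x20001000130009c000000000000000000000000000000) (nat_lit 0x0) (nat_lit 0x3001f800f0007000000000000000000) := T_5 (nat_lit 121) (nat_lit 120) (nat_lit 3) (nat_lit 1) (nat_lit 7) L43829 (by decide +kernel)
theorem L43831 : W_5 (nat_lit 2) (nat_lit 0x2000100013000be000000000000000000000000000000) (nat_lit 0x0) (nat_lit 0x380000000000000000000000000) := D_5 (nat_lit 104) (nat_lit 103) (nat_lit 105) (nat_lit 0) (nat_lit 5) (nat_lit 7) (nat_lit 0) (nat_lit 6) (nat_lit 7) (by decide +kernel)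
theorem L43832 : W_5 (nat_lit 3) (nat_lit 0x20001000130009e000000000000000000000000000000) (nat_lit 0x0) (nat_lit 0x60000380000000000000000000000000) := T_5 (nat_lit 125) (nat_lit 126) (nat_lit 1) (nat_lit 8) (nat_lit 7) L43831 (by decide +kernel)
theorem L43833 : W_5 (nat_lit 4) (nat_lit 0x20001000130009c000000000000000000000000000000) (nat_lit 0x0) (nat_lit 0x63000380000000000000000000000000) := T_5 (nat_lit 121) (nat_lit 120) (nat_lit 3) (nat_lit 1) (nat_lit 7) L43832 (by decide +kernel)
theorem L43834 : W_5 (nat_lit 12) (nat_lit 0x20001000130008c000000000000000000000000000000) (nat_lit 0x0) (nat_lit 0x2000100029000880073003fc03fe01ff00000000000000000) := Q_5 (nat_lit 124) (C_5 L43815 (C_5 L43782 (C_5 L43823 (C_5 L43830 (C_5 L43833 N_5))))) (by decide +kernel)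
theorem L43835 : W_5 (nat_lit 2) (nat_lit 0x20001100138008c000600008000000000000000000000) (nat_lit 0x0) (nat_lit 0x10000c00000000000000000) := D_5 (nat_lit 88) (nat_lit 71) (nat_lit 70) (nat_lit 7) (nat_lit 3) (nat_lit 4) (nat_lit 4) (nat_lit 3) (nat_lit 8) (by decide +kernel)
theorem L43836 : W_5 (nat_lit 3) (nat_lit 0x20001100138008c000600000000000000000000000000) (nat_lit 0x0) (nat_lit 0x100018000c00000000000000000) := T_5 (nat_lit 87) (nat_lit 104) (nat_lit 4) (nat_lit 3) (nat_lit 9) L43835 (by decide +kernel)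
theorem L43837 : W_5 (nat_lit 4) (nat_lit 0x20001100138008c000200000000000000000000000000) (nat_lit 0x0) (nat_lit 0x500038000c00000000000000000) := T_5 (nat_lit 106) (nat_lit 89) (nat_lit 6) (nat_lit 3) (nat_lit 9) L43836 (by decide +kernel)
theorem L43838 : W_5 (nat_lit 2) (nat_lit 0x200011a0138008d000200008000000000000000000000) (nat_lit 0x0) (nat_lit 0x10000c00000000000000000) := D_5 (nat_lit 88) (nat_lit 71) (nat_lit 70) (nat_lit 7) (nat_lit 3) (nat_lit 4) (nat_lit 4) (nat_lit 3) (nat_lit 8) (by decide +kernel)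
theorem L43839 : W_5 (nat_lit 3) (nat_lit 0x200011a0138008d000200000000000000000000000000) (nat_lit 0x0) (nat_lit 0x100018000c00000000000000000) := T_5 (nat_lit 87) (nat_lit 104) (nat_lit 4) (nat_lit 3) (nat_lit 9) L43838 (by decide +kernel)
theorem L43840 : W_5 (nat_lit 4) (nat_lit 0x200011a0138008c000200000000000000000000000000) (nat_lit 0x0) (nat_lit 0x3000100018000c00000000000000000) := T_5 (nat_lit 120) (nat_lit 121) (nat_lit 3) (nat_lit 1) (nat_lit 7) L43839 (by decide +kernel)
theorem L43841 : W_5 (nat_lit 5) (nat_lit 0x20001180138008c000200000000000000000000000000) (nat_lit 0x0) (nat_lit 0x600000003000100018000c00000000000000000) := T_5 (nat_lit 153) (nat_lit 154) (nat_lit 2) (nat_lit 0) (nat_lit 9) L43840 (by decide +kernel)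
theorem L43842 : W_5 (nat_lit 6) (nat_lit 0x20001100138008c000200000000000000000000000000) (nat_lit 0x0) (nat_lit 0x10000e00000003000100018000c00000000000000000) := T_5 (nat_lit 155) (nat_lit 172) (nat_lit 5) (nat_lit 3) (nat_lit 6) L43841 (by decide +kernel)
theorem L43843 : W_5 (nat_lit 2) (nat_lit 0x200011a0138008d000700000000000000000000000000) (nat_lit 0x0) (nat_lit 0x8000c0000000000000000000000000) := D_5 (nat_lit 103) (nat_lit 102) (nat_lit 119) (nat_lit 3) (nat_lit 0) (nat_lit 6) (nat_lit 1) (nat_lit 4) (nat_lit 6) (by decide +kernel)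
theorem L43844 : W_5 (nat_lit 3) (nat_lit 0x200011a0138008d000600000000000000000000000000) (nat_lit 0x0) (nat_lit 0x8001c0008000000000000000000000) := T_5 (nat_lit 104) (nat_lit 87) (nat_lit 4) (nat_lit 3) (nat_lit 9) L43843 (by decide +kernel)
theorem L43845 : W_5 (nat_lit 4) (nat_lit 0x200011a0138008c000600000000000000000000000000) (nat_lit 0x0) (nat_lit 0x38001c0008000000000000000000000) := T_5 (nat_lit 120) (nat_lit 121) (nat_lit 3) (nat_lit 1) (nat_lit 7) L43844 (by decide +kernel)
theorem L43846 : W_5 (nat_lit 5) (nat_lit 0x20001180138008c000600000000000000000000000000) (nat_lit 0x0) (nat_lit 0x6000000038001c0008000000000000000000000) := T_5 (nat_lit 153) (nat_lit 154) (nat_lit 2) (nat_lit 0) (nat_lit 9) L43845 (by decide +kernel)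
theorem L43847 : W_5 (nat_lit 6) (nat_lit 0x20001100138008c000600000000000000000000000000) (nat_lit 0x0) (nat_lit 0x10000e000000038001c0008000000000000000000000) := T_5 (nat_lit 155) (nat_lit 172) (nat_lit 5) (nat_lit 3) (nat_lit 6) L43846 (by decide +kernel)
theorem L43848 : W_5 (nat_lit 7) (nat_lit 0x20001100138008c000200000000000000000000000000) (nat_lit 0x0) (nat_lit 0x10000e000000038005c0028000000000000000000000) := T_5 (nat_lit 106) (nat_lit 89) (nat_lit 6) (nat_lit 3) (nat_lit 9) L43847 (by decide +kernel)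
theorem L43849 : W_5 (nat_lit 2) (nat_lit 0x20001100138008c000200010000000000000000000000) (nat_lit 0x0) (nat_lit 0x400020001000000000000000000) := D_5 (nat_lit 89) (nat_lit 106) (nat_lit 72) (nat_lit 6) (nat_lit 3) (nat_lit 9) (nat_lit 6) (nat_lit 3) (nat_lit 8) (by decide +kernel)
theorem L43850 : W_5 (nat_lit 3) (nat_lit 0x20001100138008c000200000000000000000000000000) (nat_lit 0x0) (nat_lit 0x400030001800000000000000000) := T_5 (nat_lit 88) (nat_lit 71) (nat_lit 7) (nat_lit 3) (nat_lit 4) L43849 (by decide +kernel)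
theorem L43851 : W_5 (nat_lit 8) (nat_lit 0x20001100138008c000000000000000000000000000000) (nat_lit 0x0) (nat_lit 0x10000e000000038007c0038001c00000000000000000) := Q_5 (nat_lit 105) (C_5 L43837 (C_5 L43842 (C_5 L43848 (C_5 L43850 N_5)))) (by decide +kernel)
theorem L43852 : W_5 (nat_lit 2) (nat_lit 0x27001100138008d000200008000000000000000000000) (nat_lit 0x0) (nat_lit 0x10000c00000000000000000) := D_5 (nat_lit 88) (nat_lit 71) (nat_lit 70) (nat_lit 7) (nat_lit 3) (nat_lit 4) (nat_lit 4) (nat_lit 3) (nat_lit 8) (by decide +kernel)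
theorem L43853 : W_5 (nat_lit 3) (nat_lit 0x27001100138008d000200000000000000000000000000) (nat_lit 0x0) (nat_lit 0x100018000c00000000000000000) := T_5 (nat_lit 87) (nat_lit 104) (nat_lit 4) (nat_lit 3) (nat_lit 9) L43852 (by decide +kernel)
theorem L43854 : W_5 (nat_lit 4) (nat_lit 0x27001100138008d000000000000000000000000000000) (nat_lit 0x0) (nat_lit 0x800000000000300018000c00000000000000000) := T_5 (nat_lit 105) (nat_lit 155) (nat_lit 5) (nat_lit 3) (nat_lit 6) L43853 (by decide +kernel)
theorem L43855 : W_5 (nat_lit 5) (nat_lit 0x26001100138008d000000000000000000000000000000) (nat_lit 0x0) (nat_lit 0x200010000800000000000300018000c00000000000000000) := T_5 (nat_lit 172) (nat_lit 189) (nat_lit 5) (nat_lit 3) (nat_lit 7) L43854 (by decide +kernel)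
theorem L43856 : W_5 (nat_lit 6) (nat_lit 0x22001100138008d000000000000000000000000000000) (nat_lit 0x0) (nat_lit 0xa00050000800000000000300018000c00000000000000000) := T_5 (nat_lit 174) (nat_lit 191) (nat_lit 7) (nat_lit 3) (nat_lit 7) L43855 (by decide +kernel)
theorem L43857 : W_5 (nat_lit 7) (nat_lit 0x20001100138008d000000000000000000000000000000) (nat_lit 0x0) (nat_lit 0xe00070000800000000000300018000c00000000000000000) := T_5 (nat_lit 173) (nat_lit 190) (nat_lit 6) (nat_lit 3) (nat_lit 11) L43856 (by decide +kernel)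
theorem L43858 : W_5 (nat_lit 8) (nat_lit 0x20001100138008c000000000000000000000000000000) (nat_lit 0x0) (nat_lit 0xe00070000800000003000300018000c00000000000000000) := T_5 (nat_lit 120) (nat_lit 121) (nat_lit 3) (nat_lit 1) (nat_lit 7) L43857 (by decide +kernel)
theorem L43859 : W_5 (nat_lit 2) (nat_lit 0x20001100138008c000000000000000000000000000000) (nat_lit 0x0) (nat_lit 0x400020000000000000000400000000000000000000000000) := D_5 (nat_lit 173) (nat_lit 190) (nat_lit 106) (nat_lit 6) (nat_lit 3) (nat_lit 11) (nat_lit 6) (nat_lit 3) (nat_lit 10) (by decide +kernel)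
theorem L43860 : W_5 (nat_lit 9) (nat_lit 0x20001000138008c000000000000000000000000000000) (nat_lit 0x0) (nat_lit 0xe00070001e000000038007c0038001c00000000000000000) := Q_5 (nat_lit 156) (C_5 L43851 (C_5 L43858 (C_5 L43859 N_5))) (by decide +kernel)
theorem L43861 : W_5 (nat_lit 2) (nat_lit 0x27001100138008c000200008000000000000000000000) (nat_lit 0x0) (nat_lit 0x10000c00000000000000000) := D_5 (nat_lit 88) (nat_lit 71) (nat_lit 70) (nat_lit 7) (nat_lit 3) (nat_lit 4) (nat_lit 4) (nat_lit 3) (nat_lit 8) (by decide +kernel)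
theorem L43862 : W_5 (nat_lit 3) (nat_lit 0x27001100138008c000200000000000000000000000000) (nat_lit 0x0) (nat_lit 0x100018000c00000000000000000) := T_5 (nat_lit 87) (nat_lit 104) (nat_lit 4) (nat_lit 3) (nat_lit 9) L43861 (by decide +kernel)
theorem L43863 : W_5 (nat_lit 4) (nat_lit 0x27001100138008c000000000000000000000000000000) (nat_lit 0x0) (nat_lit 0x800000000000300018000c00000000000000000) := T_5 (nat_lit 105) (nat_lit 155) (nat_lit 5) (nat_lit 3) (nat_lit 6) L43862 (by decide +kernel)
theorem L43864 : W_5 (nat_lit 5) (nat_lit 0x26001100138008c000000000000000000000000000000) (nat_lit 0x0) (nat_lit 0x200010000800000000000300018000c00000000000000000) := T_5 (nat_lit 172) (nat_lit 189) (nat_lit 5) (nat_lit 3) (nat_lit 7) L43863 (by decide +kernel)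
theorem L43865 : W_5 (nat_lit 6) (nat_lit 0x22001100138008c000000000000000000000000000000) (nat_lit 0x0) (nat_lit 0xa00050000800000000000300018000c00000000000000000) := T_5 (nat_lit 174) (nat_lit 191) (nat_lit 7) (nat_lit 3) (nat_lit 7) L43864 (by decide +kernel)
theorem L43866 : W_5 (nat_lit 7) (nat_lit 0x20001100138008c000000000000000000000000000000) (nat_lit 0x0) (nat_lit 0xe00070000800000000000300018000c00000000000000000) := T_5 (nat_lit 173) (nat_lit 190) (nat_lit 6) (nat_lit 3) (nat_lit 11) L43865 (by decide +kernel)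
theorem L43867 : W_5 (nat_lit 2) (nat_lit 0x20001180138008c000340000000800000000000000000) (nat_lit 0x0) (nat_lit 0x600040000000000000000000000000000000000) := D_5 (nat_lit 154) (nat_lit 153) (nat_lit 138) (nat_lit 2) (nat_lit 0) (nat_lit 9) (nat_lit 1) (nat_lit 5) (nat_lit 8) (by decide +kernel)
theorem L43868 : W_5 (nat_lit 3) (nat_lit 0x20001100138008c000340000000800000000000000000) (nat_lit 0x0) (nat_lit 0x10000e00040000000000000000000000000000000000) := T_5 (nat_lit 155) (nat_lit 172) (nat_lit 5) (nat_lit 3) (nat_lit 6) L43867 (by decide +kernel)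
theorem L43869 : W_5 (nat_lit 4) (nat_lit 0x20001100138008c000300000000800000000000000000) (nat_lit 0x0) (nat_lit 0x10000e000400000000c0000000000000000000000000) := T_5 (nat_lit 102) (nat_lit 103) (nat_lit 3) (nat_lit 0) (nat_lit 6) L43868 (by decide +kernel)
theorem L43870 : W_5 (nat_lit 5) (nat_lit 0x20001100138008c000200000000800000000000000000) (nat_lit 0x0) (nat_lit 0x10000e000400000001c0008000000000000000000000) := T_5 (nat_lit 104) (nat_lit 87) (nat_lit 4) (nat_lit 3) (nat_lit 9) L43869 (by decide +kernel)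
theorem L43871 : W_5 (nat_lit 6) (nat_lit 0x20001100138008c000200000000000000000000000000) (nat_lit 0x0) (nat_lit 0x10000e000400000001c0018000800000000000000000) := T_5 (nat_lit 71) (nat_lit 88) (nat_lit 7) (nat_lit 3) (nat_lit 4) L43870 (by decide +kernel)
theorem L43872 : W_5 (nat_lit 2) (nat_lit 0x20001180138008c000200000000000000000000000000) (nat_lit 0x0) (nat_lit 0x600040000000000000000000000000000000000) := D_5 (nat_lit 154) (nat_lit 153) (nat_lit 138) (nat_lit 2) (nat_lit 0) (nat_lit 9) (nat_lit 1) (nat_lit 5) (nat_lit 8) (by decide +kernel)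
theorem L43873 : W_5 (nat_lit 3) (nat_lit 0x20001100138008c000200000000000000000000000000) (nat_lit 0x0) (nat_lit 0x10000e00040000000000000000000000000000000000) := T_5 (nat_lit 155) (nat_lit 172) (nat_lit 5) (nat_lit 3) (nat_lit 6) L43872 (by decide +kernel)
theorem L43874 : W_5 (nat_lit 7) (nat_lit 0x20001100138008c000000000000000000000000000000) (nat_lit 0x0) (nat_lit 0x10000e000400000007c0038001800000000000000000) := Q_5 (nat_lit 105) (C_5 L43850 (C_5 L43871 (C_5 L43873 N_5))) (by decide +kernel)
theorem L43875 : W_5 (nat_lit 8) (nat_lit 0x20001000138008c000000000000000000000000000000) (nat_lit 0x0) (nat_lit 0xe00070001e000400000007c0038001c00000000000000000) := Q_5 (nat_lit 156) (C_5 L43859 (C_5 L43866 (C_5 L43874 N_5))) (by decide +kernel)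
theorem L43876 : W_5 (nat_lit 2) (nat_lit 0x2000100013c008d000000000000000000000000000000) (nat_lit 0x0) (nat_lit 0x30000800000000000000000000000000000) := D_5 (nat_lit 137) (nat_lit 136) (nat_lit 119) (nat_lit 2) (nat_lit 0) (nat_lit 8) (nat_lit 0) (nat_lit 4) (nat_lit 8) (by decide +kernel)
theorem L43877 : W_5 (nat_lit 3) (nat_lit 0x2000100013c008c000000000000000000000000000000) (nat_lit 0x0) (nat_lit 0x30003800000000000000000000000000000) := T_5 (nat_lit 120) (nat_lit 121) (nat_lit 3) (nat_lit 1) (nat_lit 7) L43876 (by decide +kernel)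
theorem L43878 : W_5 (nat_lit 2) (nat_lit 0x2000108013d008c000200000000000000000000000000) (nat_lit 0x0) (nat_lit 0x200010001000000000000000000000000000000000000000) := D_5 (nat_lit 172) (nat_lit 189) (nat_lit 156) (nat_lit 6) (nat_lit 2) (nat_lit 11) (nat_lit 5) (nat_lit 3) (nat_lit 6) (by decide +kernel)
theorem L43879 : W_5 (nat_lit 3) (nat_lit 0x2000108013d008c000000000000000000000000000000) (nat_lit 0x0) (nat_lit 0x200010001000000000000200010000000000000000000000) := T_5 (nat_lit 105) (nat_lit 88) (nat_lit 5) (nat_lit 3) (nat_lit 5) L43878 (by decide +kernel)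
theorem L43880 : W_5 (nat_lit 4) (nat_lit 0x2000100013d008c000000000000000000000000000000) (nat_lit 0x0) (nat_lit 0x200010001c00000000000200010000000000000000000000) := T_5 (nat_lit 155) (nat_lit 154) (nat_lit 1) (nat_lit 5) (nat_lit 8) L43879 (by decide +kernel)
theorem L43881 : W_5 (nat_lit 5) (nat_lit 0x2000100013c008c000000000000000000000000000000) (nat_lit 0x0) (nat_lit 0x200010001c00030000000200010000000000000000000000) := T_5 (nat_lit 136) (nat_lit 137) (nat_lit 2) (nat_lit 0) (nat_lit 8) L43880 (by decide +kernel)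
theorem L43882 : W_5 (nat_lit 2) (nat_lit 0x2000108013c008e000000000000000000000000000000) (nat_lit 0x0) (nat_lit 0x200010000000000000000200000000000000000000000000) := D_5 (nat_lit 172) (nat_lit 189) (nat_lit 105) (nat_lit 6) (nat_lit 2) (nat_lit 11) (nat_lit 6) (nat_lit 2) (nat_lit 10) (by decide +kernel)
theorem L43883 : W_5 (nat_lit 3) (nat_lit 0x2000108013c008c000000000000000000000000000000) (nat_lit 0x0) (nat_lit 0x200010000000000003000200000000000000000000000000) := T_5 (nat_lit 121) (nat_lit 120) (nat_lit 3) (nat_lit 1) (nat_lit 7) L43882 (by decide +kernel)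
theorem L43884 : W_5 (nat_lit 4) (nat_lit 0x2000100013c008c000000000000000000000000000000) (nat_lit 0x0) (nat_lit 0x200010000c00000003000200000000000000000000000000) := T_5 (nat_lit 155) (nat_lit 154) (nat_lit 1) (nat_lit 5) (nat_lit 8) L43883 (by decide +kernel)
theorem L43885 : W_5 (nat_lit 6) (nat_lit 0x20001000138008c000000000000000000000000000000) (nat_lit 0x0) (nat_lit 0x200010001c00070003800200010000000000000000000000) := Q_5 (nat_lit 138) (C_5 L43877 (C_5 L43881 (C_5 L43884 N_5))) (by decide +kernel)
theorem L43886 : W_5 (nat_lit 2) (nat_lit 0x2000100013e008c000000000000000000000000000000) (nat_lit 0x0) (nat_lit 0xe00000000000000000000000000000000000000) := D_5 (nat_lit 154) (nat_lit 155) (nat_lit 153) (nat_lit 1) (nat_lit 5) (nat_lit 8) (nat_lit 1) (nat_lit 4) (nat_lit 8) (by decide +kernel)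
theorem L43887 : W_5 (nat_lit 3) (nat_lit 0x2000100013c008c000000000000000000000000000000) (nat_lit 0x0) (nat_lit 0xe00030000000000000000000000000000000000) := T_5 (nat_lit 137) (nat_lit 136) (nat_lit 2) (nat_lit 0) (nat_lit 8) L43886 (by decide +kernel)
theorem L43888 : W_5 (nat_lit 5) (nat_lit 0x20001000138008c000000000000000000000000000000) (nat_lit 0x0) (nat_lit 0x200010000e00070003800200000000000000000000000000) := Q_5 (nat_lit 138) (C_5 L43884 (C_5 L43887 (C_5 L43877 N_5))) (by decide +kernel)
theorem L43889 : W_5 (nat_lit 2) (nat_lit 0x2300108013c008e000000000000000000000000000000) (nat_lit 0x0) (nat_lit 0x1000000000000500000000000000000000000000) := D_5 (nat_lit 156) (nat_lit 104) (nat_lit 106) (nat_lit 7) (nat_lit 2) (nat_lit 6) (nat_lit 6) (nat_lit 3) (nat_lit 10) (by decide +kernel)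
theorem L43890 : W_5 (nat_lit 3) (nat_lit 0x2100108013c008e000000000000000000000000000000) (nat_lit 0x0) (nat_lit 0x400020001000000000000500000000000000000000000000) := T_5 (nat_lit 173) (nat_lit 190) (nat_lit 7) (nat_lit 2) (nat_lit 7) L43889 (by decide +kernel)
theorem L43891 : W_5 (nat_lit 4) (nat_lit 0x2000108013c008e000000000000000000000000000000) (nat_lit 0x0) (nat_lit 0x600030001000000000000500000000000000000000000000) := T_5 (nat_lit 172) (nat_lit 189) (nat_lit 6) (nat_lit 2) (nat_lit 11) L43890 (by decide +kernel)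
theorem L43892 : W_5 (nat_lit 5) (nat_lit 0x2000100013c008e000000000000000000000000000000) (nat_lit 0x0) (nat_lit 0x600030001c00000000000500000000000000000000000000) := T_5 (nat_lit 155) (nat_lit 154) (nat_lit 1) (nat_lit 5) (nat_lit 8) L43891 (by decide +kernel)
theorem L43893 : W_5 (nat_lit 6) (nat_lit 0x2000100013c008c000000000000000000000000000000) (nat_lit 0x0) (nat_lit 0x600030001c00000003000500000000000000000000000000) := T_5 (nat_lit 121) (nat_lit 120) (nat_lit 3) (nat_lit 1) (nat_lit 7) L43892 (by decide +kernel)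
theorem L43894 : W_5 (nat_lit 7) (nat_lit 0x20001000138008c000000000000000000000000000000) (nat_lit 0x0) (nat_lit 0x600030001e00070003800500000000000000000000000000) := Q_5 (nat_lit 138) (C_5 L43887 (C_5 L43877 (C_5 L43893 N_5))) (by decide +kernel)
theorem L43895 : W_5 (nat_lit 2) (nat_lit 0x20001000138008c000400000000000000000000000000) (nat_lit 0x0) (nat_lit 0x1000000000000000020001000000000000000000) := D_5 (nat_lit 89) (nat_lit 156) (nat_lit 72) (nat_lit 5) (nat_lit 4) (nat_lit 5) (nat_lit 5) (nat_lit 4) (nat_lit 4) (by decide +kernel)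
theorem L43896 : W_5 (nat_lit 2) (nat_lit 0x20001000138008c000700060000800000000000000000) (nat_lit 0x0) (nat_lit 0x800180000000000000000000000) := D_5 (nat_lit 91) (nat_lit 92) (nat_lit 107) (nat_lit 1) (nat_lit 7) (nat_lit 5) (nat_lit 2) (nat_lit 2) (nat_lit 6) (by decide +kernel)
theorem L43897 : W_5 (nat_lit 3) (nat_lit 0x20001000138008c000600060000800000000000000000) (nat_lit 0x0) (nat_lit 0x980180000000000000000000000) := T_5 (nat_lit 104) (nat_lit 103) (nat_lit 2) (nat_lit 1) (nat_lit 6) L43896 (by decide +kernel)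
theorem L43898 : W_5 (nat_lit 4) (nat_lit 0x20001000138008c000600020000800000000000000000) (nat_lit 0x0) (nat_lit 0x9801c0002000000000000000000) := T_5 (nat_lit 90) (nat_lit 73) (nat_lit 6) (nat_lit 4) (nat_lit 8) L43897 (by decide +kernel)
theorem L43899 : W_5 (nat_lit 5) (nat_lit 0x20001000138008c000600000000800000000000000000) (nat_lit 0x0) (nat_lit 0x9801e0003000000000000000000) := T_5 (nat_lit 89) (nat_lit 72) (nat_lit 5) (nat_lit 4) (nat_lit 4) L43898 (by decide +kernel)
theorem L43900 : W_5 (nat_lit 6) (nat_lit 0x20001000138008c000600000000000000000000000000) (nat_lit 0x0) (nat_lit 0x9801f0003800000000000000000) := T_5 (nat_lit 71) (nat_lit 88) (nat_lit 7) (nat_lit 3) (nat_lit 4) L43899 (by decide +kernel)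
theorem L43901 : W_5 (nat_lit 2) (nat_lit 0x2000100013c008d00060001a001000000000000000000) (nat_lit 0x0) (nat_lit 0x30000800000000000000000000000000000) := D_5 (nat_lit 137) (nat_lit 136) (nat_lit 119) (nat_lit 2) (nat_lit 0) (nat_lit 8) (nat_lit 0) (nat_lit 4) (nat_lit 8) (by decide +kernel)
theorem L43902 : W_5 (nat_lit 3) (nat_lit 0x20001000138008d00060001a001000000000000000000) (nat_lit 0x0) (nat_lit 0x800070000800000000000000000000000000000) := T_5 (nat_lit 138) (nat_lit 155) (nat_lit 5) (nat_lit 3) (nat_lit 5) L43901 (by decide +kernel)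
theorem L43903 : W_5 (nat_lit 4) (nat_lit 0x20001000138008d000600018001000000000000000000) (nat_lit 0x0) (nat_lit 0x800070000800000006000000000000000000000) := T_5 (nat_lit 85) (nat_lit 86) (nat_lit 3) (nat_lit 0) (nat_lit 5) L43902 (by decide +kernel)
theorem L43904 : W_5 (nat_lit 5) (nat_lit 0x20001000138008d000600010001000000000000000000) (nat_lit 0x0) (nat_lit 0x80007000080000000e000400000000000000000) := T_5 (nat_lit 87) (nat_lit 70) (nat_lit 4) (nat_lit 3) (nat_lit 8) L43903 (by decide +kernel)
theorem L43905 : W_5 (nat_lit 6) (nat_lit 0x20001000138008d000600000001000000000000000000) (nat_lit 0x0) (nat_lit 0x80007000080000001e000c00000000000000000) := T_5 (nat_lit 88) (nat_lit 71) (nat_lit 7) (nat_lit 3) (nat_lit 4) L43904 (by decide +kernel)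
theorem L43906 : W_5 (nat_lit 7) (nat_lit 0x20001000138008c000600000001000000000000000000) (nat_lit 0x0) (nat_lit 0x80007000380000001e000c00000000000000000) := T_5 (nat_lit 120) (nat_lit 121) (nat_lit 3) (nat_lit 1) (nat_lit 7) L43905 (by decide +kernel)
theorem L43907 : W_5 (nat_lit 8) (nat_lit 0x20001000138008c000600000000000000000000000000) (nat_lit 0x0) (nat_lit 0x80007000380000003e001c00000000000000000) := T_5 (nat_lit 72) (nat_lit 89) (nat_lit 5) (nat_lit 4) (nat_lit 4) L43906 (by decide +kernel)
theorem L43908 : W_5 (nat_lit 2) (nat_lit 0x2000100013c008d000600010000000000000000000000) (nat_lit 0x0) (nat_lit 0x30000800000000000000000000000000000) := D_5 (nat_lit 137) (nat_lit 136) (nat_lit 119) (nat_lit 2) (nat_lit 0) (nat_lit 8) (nat_lit 0) (nat_lit 4) (nat_lit 8) (by decide +kernel)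
theorem L43909 : W_5 (nat_lit 3) (nat_lit 0x20001000138008d000600010000000000000000000000) (nat_lit 0x0) (nat_lit 0x800070000800000000000000000000000000000) := T_5 (nat_lit 138) (nat_lit 155) (nat_lit 5) (nat_lit 3) (nat_lit 5) L43908 (by decide +kernel)
theorem L43910 : W_5 (nat_lit 4) (nat_lit 0x20001000138008c000600010000000000000000000000) (nat_lit 0x0) (nat_lit 0x800070003800000000000000000000000000000) := T_5 (nat_lit 120) (nat_lit 121) (nat_lit 3) (nat_lit 1) (nat_lit 7) L43909 (by decide +kernel)
theorem L43911 : W_5 (nat_lit 5) (nat_lit 0x20001000138008c000600000000000000000000000000) (nat_lit 0x0) (nat_lit 0x800070003800000010000800000000000000000) := T_5 (nat_lit 88) (nat_lit 71) (nat_lit 7) (nat_lit 3) (nat_lit 4) L43910 (by decide +kernel)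
theorem L43912 : W_5 (nat_lit 2) (nat_lit 0x20001000138008d000700060000000000000000000000) (nat_lit 0x0) (nat_lit 0x800180000000000000000000000) := D_5 (nat_lit 91) (nat_lit 92) (nat_lit 107) (nat_lit 1) (nat_lit 7) (nat_lit 5) (nat_lit 2) (nat_lit 2) (nat_lit 6) (by decide +kernel)
theorem L43913 : W_5 (nat_lit 3) (nat_lit 0x20001000138008d000600060000000000000000000000) (nat_lit 0x0) (nat_lit 0x980180000000000000000000000) := T_5 (nat_lit 104) (nat_lit 103) (nat_lit 2) (nat_lit 1) (nat_lit 6) L43912 (by decide +kernel)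
theorem L43914 : W_5 (nat_lit 4) (nat_lit 0x20001000138008d000600020000000000000000000000) (nat_lit 0x0) (nat_lit 0x9801c0002000000000000000000) := T_5 (nat_lit 90) (nat_lit 73) (nat_lit 6) (nat_lit 4) (nat_lit 8) L43913 (by decide +kernel)
theorem L43915 : W_5 (nat_lit 5) (nat_lit 0x20001000138008d000600000000000000000000000000) (nat_lit 0x0) (nat_lit 0x9801e0003000000000000000000) := T_5 (nat_lit 89) (nat_lit 72) (nat_lit 5) (nat_lit 4) (nat_lit 4) L43914 (by decide +kernel)
theorem L43916 : W_5 (nat_lit 6) (nat_lit 0x20001000138008c000600000000000000000000000000) (nat_lit 0x0) (nat_lit 0x30009801e0003000000000000000000) := T_5 (nat_lit 120) (nat_lit 121) (nat_lit 3) (nat_lit 1) (nat_lit 7) L43915 (by decide +kernel)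
theorem L43917 : W_5 (nat_lit 9) (nat_lit 0x20001000138008c000400000000000000000000000000) (nat_lit 0x0) (nat_lit 0x800070003800b801fe003c00000000000000000) := Q_5 (nat_lit 105) (C_5 L43900 (C_5 L43907 (C_5 L43911 (C_5 L43916 N_5)))) (by decide +kernel)
theorem L43918 : W_5 (nat_lit 2) (nat_lit 0x22001000138008c00060001c000000000000000000000) (nat_lit 0x0) (nat_lit 0x1900000000000000000000000000) := D_5 (nat_lit 107) (nat_lit 108) (nat_lit 104) (nat_lit 0) (nat_lit 6) (nat_lit 6) (nat_lit 0) (nat_lit 5) (nat_lit 6) (by decide +kernel)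
theorem L43919 : W_5 (nat_lit 3) (nat_lit 0x22001000138008c000600018000000000000000000000) (nat_lit 0x0) (nat_lit 0x1900006000000000000000000000) := T_5 (nat_lit 86) (nat_lit 85) (nat_lit 3) (nat_lit 0) (nat_lit 5) L43918 (by decide +kernel)
theorem L43920 : W_5 (nat_lit 4) (nat_lit 0x22001000138008c000600010000000000000000000000) (nat_lit 0x0) (nat_lit 0x190000e000400000000000000000) := T_5 (nat_lit 87) (nat_lit 70) (nat_lit 4) (nat_lit 3) (nat_lit 8) L43919 (by decide +kernel)
theorem L43921 : W_5 (nat_lit 5) (nat_lit 0x22001000138008c000600000000000000000000000000) (nat_lit 0x0) (nat_lit 0x190001e000c00000000000000000) := T_5 (nat_lit 88) (nat_lit 71) (nat_lit 7) (nat_lit 3) (nat_lit 4) L43920 (by decide +kernel)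
theorem L43922 : W_5 (nat_lit 6) (nat_lit 0x20001000138008c000600000000000000000000000000) (nat_lit 0x0) (nat_lit 0x2000100000000000190001e000c00000000000000000) := T_5 (nat_lit 173) (nat_lit 156) (nat_lit 6) (nat_lit 3) (nat_lit 10) L43921 (by decide +kernel)
theorem L43923 : W_5 (nat_lit 2) (nat_lit 0x20001180138008d000700000000000000000000000000) (nat_lit 0x0) (nat_lit 0x8000c0000000000000000000000000) := D_5 (nat_lit 103) (nat_lit 102) (nat_lit 119) (nat_lit 3) (nat_lit 0) (nat_lit 6) (nat_lit 1) (nat_lit 4) (nat_lit 6) (by decide +kernel)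
theorem L43924 : W_5 (nat_lit 3) (nat_lit 0x20001180138008d000600000000000000000000000000) (nat_lit 0x0) (nat_lit 0x8001c0008000000000000000000000) := T_5 (nat_lit 104) (nat_lit 87) (nat_lit 4) (nat_lit 3) (nat_lit 9) L43923 (by decide +kernel)
theorem L43925 : W_5 (nat_lit 4) (nat_lit 0x20001100138008d000600000000000000000000000000) (nat_lit 0x0) (nat_lit 0x100008000000008001c0008000000000000000000000) := T_5 (nat_lit 155) (nat_lit 172) (nat_lit 5) (nat_lit 3) (nat_lit 6) L43924 (by decide +kernel)
theorem L43926 : W_5 (nat_lit 5) (nat_lit 0x20001100138008c000600000000000000000000000000) (nat_lit 0x0) (nat_lit 0x100008000000038001c0008000000000000000000000) := T_5 (nat_lit 120) (nat_lit 121) (nat_lit 3) (nat_lit 1) (nat_lit 7) L43925 (by decide +kernel)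
theorem L43927 : W_5 (nat_lit 6) (nat_lit 0x20001000138008c000600000000000000000000000000) (nat_lit 0x0) (nat_lit 0x300018000000038001c0008000000000000000000000) := T_5 (nat_lit 156) (nat_lit 173) (nat_lit 6) (nat_lit 3) (nat_lit 10) L43926 (by decide +kernel)
theorem L43928 : W_5 (nat_lit 7) (nat_lit 0x20001000138008c000400000000000000000000000000) (nat_lit 0x0) (nat_lit 0x30001800070003801bc001e000c00000000000000000) := Q_5 (nat_lit 105) (C_5 L43922 (C_5 L43911 (C_5 L43927 N_5))) (by decide +kernel)
theorem L43929 : W_5 (nat_lit 10) (nat_lit 0x20001000138008c000000000000000000000000000000) (nat_lit 0x0) (nat_lit 0x30001800070003801fc01fe003c00000000000000000) := Q_5 (nat_lit 106) (C_5 L43895 (C_5 L43917 (C_5 L43928 N_5))) (by decide +kernel)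
theorem L43930 : W_5 (nat_lit 2) (nat_lit 0x20001100138008e000000000000000000000000000000) (nat_lit 0x0) (nat_lit 0x400020000000000000000100000000000000000000000000) := D_5 (nat_lit 173) (nat_lit 190) (nat_lit 104) (nat_lit 6) (nat_lit 3) (nat_lit 11) (nat_lit 4) (nat_lit 3) (nat_lit 10) (by decide +kernel)
theorem L43931 : W_5 (nat_lit 3) (nat_lit 0x20001100138008c000000000000000000000000000000) (nat_lit 0x0) (nat_lit 0x400020000000000003000100000000000000000000000000) := T_5 (nat_lit 121) (nat_lit 120) (nat_lit 3) (nat_lit 1) (nat_lit 7) L43930 (by decide +kernel)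
theorem L43932 : W_5 (nat_lit 2) (nat_lit 0x20001100138008d000200008000000000000000000000) (nat_lit 0x0) (nat_lit 0x10000c00000000000000000) := D_5 (nat_lit 88) (nat_lit 71) (nat_lit 70) (nat_lit 7) (nat_lit 3) (nat_lit 4) (nat_lit 4) (nat_lit 3) (nat_lit 8) (by decide +kernel)
theorem L43933 : W_5 (nat_lit 3) (nat_lit 0x20001100138008d000200000000000000000000000000) (nat_lit 0x0) (nat_lit 0x100018000c00000000000000000) := T_5 (nat_lit 87) (nat_lit 104) (nat_lit 4) (nat_lit 3) (nat_lit 9) L43932 (by decide +kernel)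
theorem L43934 : W_5 (nat_lit 4) (nat_lit 0x20001100138008c000200000000000000000000000000) (nat_lit 0x0) (nat_lit 0x3000100018000c00000000000000000) := T_5 (nat_lit 120) (nat_lit 121) (nat_lit 3) (nat_lit 1) (nat_lit 7) L43933 (by decide +kernel)
theorem L43935 : W_5 (nat_lit 2) (nat_lit 0x20001100138008d000700000000000000000000000000) (nat_lit 0x0) (nat_lit 0x8000c0000000000000000000000000) := D_5 (nat_lit 103) (nat_lit 102) (nat_lit 119) (nat_lit 3) (nat_lit 0) (nat_lit 6) (nat_lit 1) (nat_lit 4) (nat_lit 6) (by decide +kernel)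
theorem L43936 : W_5 (nat_lit 3) (nat_lit 0x20001100138008d000600000000000000000000000000) (nat_lit 0x0) (nat_lit 0x8001c0008000000000000000000000) := T_5 (nat_lit 104) (nat_lit 87) (nat_lit 4) (nat_lit 3) (nat_lit 9) L43935 (by decide +kernel)
theorem L43937 : W_5 (nat_lit 4) (nat_lit 0x20001100138008c000600000000000000000000000000) (nat_lit 0x0) (nat_lit 0x38001c0008000000000000000000000) := T_5 (nat_lit 120) (nat_lit 121) (nat_lit 3) (nat_lit 1) (nat_lit 7) L43936 (by decide +kernel)
theorem L43938 : W_5 (nat_lit 5) (nat_lit 0x20001100138008c000200000000000000000000000000) (nat_lit 0x0) (nat_lit 0x38005c0028000000000000000000000) := T_5 (nat_lit 106) (nat_lit 89) (nat_lit 6) (nat_lit 3) (nat_lit 9) L43937 (by decide +kernel)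
theorem L43939 : W_5 (nat_lit 6) (nat_lit 0x20001100138008c000000000000000000000000000000) (nat_lit 0x0) (nat_lit 0x38007c0038001c00000000000000000) := Q_5 (nat_lit 105) (C_5 L43850 (C_5 L43934 (C_5 L43938 N_5))) (by decide +kernel)
theorem L43940 : W_5 (nat_lit 7) (nat_lit 0x20001000138008c000000000000000000000000000000) (nat_lit 0x0) (nat_lit 0x4000200010000000038007c0038001c00000000000000000) := Q_5 (nat_lit 156) (C_5 L43859 (C_5 L43931 (C_5 L43939 N_5))) (by decide +kernel)
theorem L43941 : W_5 (nat_lit 11) (nat_lit 0x20001000130008c000000000000000000000000000000) (nat_lit 0x0) (nat_lit 0xe00070001e000f0003801fc01fe003c00000000000000000) := Q_5 (nat_lit 139) (C_5 L43860 (C_5 L43875 (C_5 L43885 (C_5 L43888 (C_5 L43894 (C_5 L43929 (C_5 L43940 N_5))))))) (by decide +kernel)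
theorem L43942 : W_5 (nat_lit 2) (nat_lit 0x2000100013800bc001a00018004000000000000000000) (nat_lit 0x0) (nat_lit 0x60001000000000000000000) := D_5 (nat_lit 89) (nat_lit 72) (nat_lit 90) (nat_lit 6) (nat_lit 3) (nat_lit 8) (nat_lit 3) (nat_lit 2) (nat_lit 5) (by decide +kernel)
theorem L43943 : W_5 (nat_lit 3) (nat_lit 0x2000100013800bc001200018004000000000000000000) (nat_lit 0x0) (nat_lit 0xc00060001000000000000000000) := T_5 (nat_lit 107) (nat_lit 106) (nat_lit 0) (nat_lit 6) (nat_lit 6) L43942 (by decide +kernel)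
theorem L43944 : W_5 (nat_lit 4) (nat_lit 0x2000100013800bc001200010004000000000000000000) (nat_lit 0x0) (nat_lit 0xc00068001400000000000000000) := T_5 (nat_lit 87) (nat_lit 70) (nat_lit 4) (nat_lit 3) (nat_lit 8) L43943 (by decide +kernel)
theorem L43945 : W_5 (nat_lit 5) (nat_lit 0x2000100013800bc001200000004000000000000000000) (nat_lit 0x0) (nat_lit 0xc00078001c00000000000000000) := T_5 (nat_lit 88) (nat_lit 71) (nat_lit 7) (nat_lit 3) (nat_lit 4) L43944 (by decide +kernel)
theorem L43946 : W_5 (nat_lit 6) (nat_lit 0x2000100013800bc001200000000000000000000000000) (nat_lit 0x0) (nat_lit 0xc000f8005c00000000000000000) := T_5 (nat_lit 74) (nat_lit 91) (nat_lit 5) (nat_lit 6) (nat_lit 4) L43945 (by decide +kernel)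
theorem L43947 : W_5 (nat_lit 7) (nat_lit 0x2000100013800bc001000000000000000000000000000) (nat_lit 0x0) (nat_lit 0xf000f8005c00000000000000000) := T_5 (nat_lit 105) (nat_lit 104) (nat_lit 0) (nat_lit 6) (nat_lit 7) L43946 (by decide +kernel)
theorem L43948 : W_5 (nat_lit 8) (nat_lit 0x2000100013000bc001000000000000000000000000000) (nat_lit 0x0) (nat_lit 0xc0000000f000f8005c00000000000000000) := T_5 (nat_lit 139) (nat_lit 138) (nat_lit 2) (nat_lit 2) (nat_lit 8) L43947 (by decide +kernel)
theorem L43949 : W_5 (nat_lit 9) (nat_lit 0x2000100013000bc000000000000000000000000000000) (nat_lit 0x0) (nat_lit 0xc0000003f000f8005c00000000000000000) := T_5 (nat_lit 108) (nat_lit 109) (nat_lit 2) (nat_lit 3) (nat_lit 7) L43948 (by decide +kernel)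
theorem L43950 : W_5 (nat_lit 10) (nat_lit 0x20001000130009c000000000000000000000000000000) (nat_lit 0x0) (nat_lit 0xc0060003f000f8005c00000000000000000) := T_5 (nat_lit 125) (nat_lit 126) (nat_lit 1) (nat_lit 8) (nat_lit 7) L43949 (by decide +kernel)
theorem L43951 : W_5 (nat_lit 11) (nat_lit 0x20001000130008c000000000000000000000000000000) (nat_lit 0x0) (nat_lit 0xc0073003f800f8007c00000000000000000) := Q_5 (nat_lit 124) (C_5 L43950 (C_5 L43833 (C_5 L43830 (C_5 L43782 N_5)))) (by decide +kernel)
theorem L43952 : W_5 (nat_lit 2) (nat_lit 0x20001000130009c000a000e0000800000000000000000) (nat_lit 0x0) (nat_lit 0x500100000000000000000000000) := D_5 (nat_lit 106) (nat_lit 104) (nat_lit 92) (nat_lit 2) (nat_lit 2) (nat_lit 6) (nat_lit 1) (nat_lit 7) (nat_lit 5) (by decide +kernel)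
theorem L43953 : W_5 (nat_lit 3) (nat_lit 0x20001000130009c000a00060000800000000000000000) (nat_lit 0x0) (nat_lit 0x500180004000000000000000000) := T_5 (nat_lit 91) (nat_lit 74) (nat_lit 6) (nat_lit 5) (nat_lit 8) L43952 (by decide +kernel)
theorem L43954 : W_5 (nat_lit 4) (nat_lit 0x20001000130009c000a00040000800000000000000000) (nat_lit 0x0) (nat_lit 0x5001a0005000000000000000000) := T_5 (nat_lit 89) (nat_lit 72) (nat_lit 4) (nat_lit 5) (nat_lit 8) L43953 (by decide +kernel)
theorem L43955 : W_5 (nat_lit 5) (nat_lit 0x20001000130009c000200040000800000000000000000) (nat_lit 0x0) (nat_lit 0xd001a0007000000000000000000) := T_5 (nat_lit 107) (nat_lit 73) (nat_lit 5) (nat_lit 5) (nat_lit 4) L43954 (by decide +kernel)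
theorem L43956 : W_5 (nat_lit 6) (nat_lit 0x20001000130009c000200040000000000000000000000) (nat_lit 0x0) (nat_lit 0xd001b0007800000000000000000) := T_5 (nat_lit 71) (nat_lit 88) (nat_lit 7) (nat_lit 3) (nat_lit 4) L43955 (by decide +kernel)
theorem L43957 : W_5 (nat_lit 2) (nat_lit 0x20001000130009c000200060000000000000000000000) (nat_lit 0x0) (nat_lit 0x400000003000000000000000000) := D_5 (nat_lit 106) (nat_lit 72) (nat_lit 73) (nat_lit 7) (nat_lit 4) (nat_lit 4) (nat_lit 6) (nat_lit 4) (nat_lit 8) (by decide +kernel)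
theorem L43958 : W_5 (nat_lit 2) (nat_lit 0x20001000130009c0022000f0008000000000000000000) (nat_lit 0x0) (nat_lit 0x40000000100010000000000000000000) := D_5 (nat_lit 92) (nat_lit 76) (nat_lit 126) (nat_lit 2) (nat_lit 4) (nat_lit 5) (nat_lit 7) (nat_lit 7) (nat_lit 4) (by decide +kernel)
theorem L43959 : W_5 (nat_lit 3) (nat_lit 0x20001000130009c0022000f0000000000000000000000) (nat_lit 0x0) (nat_lit 0x4000000010001c000000000000000000) := T_5 (nat_lit 75) (nat_lit 74) (nat_lit 2) (nat_lit 3) (nat_lit 5) L43958 (by decide +kernel)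
theorem L43960 : W_5 (nat_lit 4) (nat_lit 0x20001000130009c0002000f0000000000000000000000) (nat_lit 0x0) (nat_lit 0x4000300010001c000000000000000000) := T_5 (nat_lit 109) (nat_lit 108) (nat_lit 3) (nat_lit 3) (nat_lit 5) L43959 (by decide +kernel)
theorem L43961 : W_5 (nat_lit 5) (nat_lit 0x20001000130009c000200070000000000000000000000) (nat_lit 0x0) (nat_lit 0x4000310018001c000000000000000000) := T_5 (nat_lit 91) (nat_lit 104) (nat_lit 1) (nat_lit 6) (nat_lit 5) L43960 (by decide +kernel)
theorem L43962 : W_5 (nat_lit 6) (nat_lit 0x20001000130009c000200060000000000000000000000) (nat_lit 0x0) (nat_lit 0x4000310019001c800000000000000000) := T_5 (nat_lit 88) (nat_lit 71) (nat_lit 7) (nat_lit 3) (nat_lit 4) L43961 (by decide +kernel)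
theorem L43963 : W_5 (nat_lit 7) (nat_lit 0x20001000130009c000200040000000000000000000000) (nat_lit 0x0) (nat_lit 0x400035001b001f800000000000000000) := Q_5 (nat_lit 89) (C_5 L43957 (C_5 L43962 N_5)) (by decide +kernel)
theorem L43964 : W_5 (nat_lit 2) (nat_lit 0x20001000130009c000a00070000000000000000000000) (nat_lit 0x0) (nat_lit 0x100080004000000000000000000) := D_5 (nat_lit 91) (nat_lit 74) (nat_lit 104) (nat_lit 6) (nat_lit 5) (nat_lit 8) (nat_lit 1) (nat_lit 6) (nat_lit 5) (by decide +kernel)
theorem L43965 : W_5 (nat_lit 3) (nat_lit 0x20001000130009c000a00050000000000000000000000) (nat_lit 0x0) (nat_lit 0x1000a0005000000000000000000) := T_5 (nat_lit 89) (nat_lit 72) (nat_lit 4) (nat_lit 5) (nat_lit 8) L43964 (by decide +kernel)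
theorem L43966 : W_5 (nat_lit 4) (nat_lit 0x20001000130009c000200050000000000000000000000) (nat_lit 0x0) (nat_lit 0x9000a0007000000000000000000) := T_5 (nat_lit 107) (nat_lit 73) (nat_lit 5) (nat_lit 5) (nat_lit 4) L43965 (by decide +kernel)
theorem L43967 : W_5 (nat_lit 5) (nat_lit 0x20001000130009c000200040000000000000000000000) (nat_lit 0x0) (nat_lit 0x9000b0007800000000000000000) := T_5 (nat_lit 88) (nat_lit 71) (nat_lit 7) (nat_lit 3) (nat_lit 4) L43966 (by decide +kernel)
theorem L43968 : W_5 (nat_lit 2) (nat_lit 0x20001000130009c000e000c0000800000000000000000) (nat_lit 0x0) (nat_lit 0x3000100000000000000000000000) := D_5 (nat_lit 108) (nat_lit 92) (nat_lit 109) (nat_lit 2) (nat_lit 3) (nat_lit 6) (nat_lit 1) (nat_lit 7) (nat_lit 6) (by decide +kernel)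
theorem L43969 : W_5 (nat_lit 3) (nat_lit 0x20001000130009c000a000c0000800000000000000000) (nat_lit 0x0) (nat_lit 0x3500100000000000000000000000) := T_5 (nat_lit 106) (nat_lit 104) (nat_lit 2) (nat_lit 2) (nat_lit 6) L43968 (by decide +kernel)
theorem L43970 : W_5 (nat_lit 4) (nat_lit 0x20001000130009c000a00040000800000000000000000) (nat_lit 0x0) (nat_lit 0x3500180004000000000000000000) := T_5 (nat_lit 91) (nat_lit 74) (nat_lit 6) (nat_lit 5) (nat_lit 8) L43969 (by decide +kernel)
theorem L43971 : W_5 (nat_lit 5) (nat_lit 0x20001000130009c000a00040000000000000000000000) (nat_lit 0x0) (nat_lit 0x3500190004800000000000000000) := T_5 (nat_lit 71) (nat_lit 88) (nat_lit 7) (nat_lit 3) (nat_lit 4) L43970 (by decide +kernel)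
theorem L43972 : W_5 (nat_lit 6) (nat_lit 0x20001000130009c000200040000000000000000000000) (nat_lit 0x0) (nat_lit 0x3d00190006800000000000000000) := T_5 (nat_lit 107) (nat_lit 73) (nat_lit 5) (nat_lit 5) (nat_lit 4) L43971 (by decide +kernel)
theorem L43973 : W_5 (nat_lit 2) (nat_lit 0x20001000130009c00020007c002000000000000000000) (nat_lit 0x0) (nat_lit 0x700000000000000000) := D_5 (nat_lit 69) (nat_lit 68) (nat_lit 70) (nat_lit 0) (nat_lit 4) (nat_lit 5) (nat_lit 0) (nat_lit 5) (nat_lit 5) (by decide +kernel)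
theorem L43974 : W_5 (nat_lit 3) (nat_lit 0x20001000130009c000200078002000000000000000000) (nat_lit 0x0) (nat_lit 0x4001700000000000000000) := T_5 (nat_lit 86) (nat_lit 72) (nat_lit 2) (nat_lit 1) (nat_lit 5) L43973 (by decide +kernel)
theorem L43975 : W_5 (nat_lit 4) (nat_lit 0x20001000130009c000200070002000000000000000000) (nat_lit 0x0) (nat_lit 0xc005700000000000000000) := T_5 (nat_lit 87) (nat_lit 74) (nat_lit 2) (nat_lit 2) (nat_lit 5) L43974 (by decide +kernel)
theorem L43976 : W_5 (nat_lit 5) (nat_lit 0x20001000130009c000200050002000000000000000000) (nat_lit 0x0) (nat_lit 0x40002c005700000000000000000) := T_5 (nat_lit 89) (nat_lit 106) (nat_lit 6) (nat_lit 4) (nat_lit 8) L43975 (by decide +kernel)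
theorem L43977 : W_5 (nat_lit 6) (nat_lit 0x20001000130009c000200040002000000000000000000) (nat_lit 0x0) (nat_lit 0x40003c005f00000000000000000) := T_5 (nat_lit 88) (nat_lit 71) (nat_lit 7) (nat_lit 3) (nat_lit 4) L43976 (by decide +kernel)
theorem L43978 : W_5 (nat_lit 7) (nat_lit 0x20001000130009c000200040000000000000000000000) (nat_lit 0x0) (nat_lit 0xc0003c007f00000000000000000) := T_5 (nat_lit 73) (nat_lit 107) (nat_lit 5) (nat_lit 5) (nat_lit 4) L43977 (by decide +kernel)
theorem L43979 : W_5 (nat_lit 2) (nat_lit 0x20001000130009c000200060000000000000000000000) (nat_lit 0x0) (nat_lit 0xc00000001000000000000000000) := D_5 (nat_lit 72) (nat_lit 107) (nat_lit 106) (nat_lit 4) (nat_lit 5) (nat_lit 8) (nat_lit 7) (nat_lit 4) (nat_lit 4) (by decide +kernel)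
theorem L43980 : W_5 (nat_lit 7) (nat_lit 0x20001000130009c000200040000000000000000000000) (nat_lit 0x0) (nat_lit 0x40003d001b001d800000000000000000) := Q_5 (nat_lit 89) (C_5 L43962 (C_5 L43979 N_5)) (by decide +kernel)
theorem L43981 : W_5 (nat_lit 2) (nat_lit 0x20001000130009c000a000e0000000000000000000000) (nat_lit 0x0) (nat_lit 0x500100000000000000000000000) := D_5 (nat_lit 106) (nat_lit 104) (nat_lit 92) (nat_lit 2) (nat_lit 2) (nat_lit 6) (nat_lit 1) (nat_lit 7) (nat_lit 5) (by decide +kernel)
theorem L43982 : W_5 (nat_lit 3) (nat_lit 0x20001000130009c000a00060000000000000000000000) (nat_lit 0x0) (nat_lit 0x500180004000000000000000000) := T_5 (nat_lit 91) (nat_lit 74) (nat_lit 6) (nat_lit 5) (nat_lit 8) L43981 (by decide +kernel)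
theorem L43983 : W_5 (nat_lit 4) (nat_lit 0x20001000130009c000a00040000000000000000000000) (nat_lit 0x0) (nat_lit 0x5001a0005000000000000000000) := T_5 (nat_lit 89) (nat_lit 72) (nat_lit 4) (nat_lit 5) (nat_lit 8) L43982 (by decide +kernel)
theorem L43984 : W_5 (nat_lit 5) (nat_lit 0x20001000130009c000200040000000000000000000000) (nat_lit 0x0) (nat_lit 0xd001a0007000000000000000000) := T_5 (nat_lit 107) (nat_lit 73) (nat_lit 5) (nat_lit 5) (nat_lit 4) L43983 (by decide +kernel)
theorem L43985 : W_5 (nat_lit 2) (nat_lit 0x20001000130009c000300070002000000000000000000) (nat_lit 0x0) (nat_lit 0xc0008000000000000000000000) := D_5 (nat_lit 103) (nat_lit 87) (nat_lit 102) (nat_lit 1) (nat_lit 5) (nat_lit 5) (nat_lit 3) (nat_lit 0) (nat_lit 6) (by decide +kernel)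
theorem L43986 : W_5 (nat_lit 3) (nat_lit 0x20001000130009c000200070002000000000000000000) (nat_lit 0x0) (nat_lit 0x1c0088000000000000000000000) := T_5 (nat_lit 104) (nat_lit 91) (nat_lit 1) (nat_lit 6) (nat_lit 5) L43985 (by decide +kernel)
theorem L43987 : W_5 (nat_lit 4) (nat_lit 0x20001000130009c000200050002000000000000000000) (nat_lit 0x0) (nat_lit 0x5c00a8000000000000000000000) := T_5 (nat_lit 89) (nat_lit 106) (nat_lit 6) (nat_lit 4) (nat_lit 8) L43986 (by decide +kernel)
theorem L43988 : W_5 (nat_lit 5) (nat_lit 0x20001000130009c000200040002000000000000000000) (nat_lit 0x0) (nat_lit 0x5c00b8000800000000000000000) := T_5 (nat_lit 88) (nat_lit 71) (nat_lit 7) (nat_lit 3) (nat_lit 4) L43987 (by decide +kernel)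
theorem L43989 : W_5 (nat_lit 6) (nat_lit 0x20001000130009c000200040000000000000000000000) (nat_lit 0x0) (nat_lit 0xdc00b8002800000000000000000) := T_5 (nat_lit 73) (nat_lit 107) (nat_lit 5) (nat_lit 5) (nat_lit 4) L43988 (by decide +kernel)
theorem L43990 : W_5 (nat_lit 8) (nat_lit 0x20001000130009c000200000000000000000000000000) (nat_lit 0x0) (nat_lit 0x40003dc01fc01ff00000000000000000) := Q_5 (nat_lit 90) (C_5 L43956 (C_5 L43963 (C_5 L43967 (C_5 L43972 (C_5 L43978 (C_5 L43980 (C_5 L43984 (C_5 L43989 N_5)))))))) (by decide +kernel)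
theorem L43991 : W_5 (nat_lit 2) (nat_lit 0x20001000130009c000200000000000000000000000000) (nat_lit 0x0) (nat_lit 0x60000100000000000000000000000000) := D_5 (nat_lit 125) (nat_lit 126) (nat_lit 104) (nat_lit 1) (nat_lit 8) (nat_lit 7) (nat_lit 0) (nat_lit 6) (nat_lit 7) (by decide +kernel)
theorem L43992 : W_5 (nat_lit 2) (nat_lit 0x200010001b000dc002600160000800000000000000000) (nat_lit 0x0) (nat_lit 0x2000100008000000000000000000000000000000000000000) := D_5 (nat_lit 176) (nat_lit 159) (nat_lit 193) (nat_lit 5) (nat_lit 7) (nat_lit 6) (nat_lit 5) (nat_lit 7) (nat_lit 7) (by decide +kernel)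
theorem L43993 : W_5 (nat_lit 3) (nat_lit 0x2000100013000dc002600160000800000000000000000) (nat_lit 0x0) (nat_lit 0x2000100028000800000000000000000000000000000000000) := T_5 (nat_lit 143) (nat_lit 161) (nat_lit 7) (nat_lit 7) (nat_lit 5) L43992 (by decide +kernel)
theorem L43994 : W_5 (nat_lit 4) (nat_lit 0x2000100013000dc000600160000800000000000000000) (nat_lit 0x0) (nat_lit 0x2000100028000800000002000000008000000000000000000) := T_5 (nat_lit 109) (nat_lit 75) (nat_lit 7) (nat_lit 7) (nat_lit 4) L43993 (by decide +kernel)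
theorem L43995 : W_5 (nat_lit 5) (nat_lit 0x2000100013000dc000600060000800000000000000000) (nat_lit 0x0) (nat_lit 0x2000100028000800000002000180008000000000000000000) := T_5 (nat_lit 92) (nat_lit 91) (nat_lit 1) (nat_lit 7) (nat_lit 5) L43994 (by decide +kernel)
theorem L43996 : W_5 (nat_lit 6) (nat_lit 0x2000100013000dc000600020000800000000000000000) (nat_lit 0x0) (nat_lit 0x20001000280008000000020001c000a000000000000000000) := T_5 (nat_lit 90) (nat_lit 73) (nat_lit 6) (nat_lit 4) (nat_lit 8) L43995 (by decide +kernel)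
theorem L43997 : W_5 (nat_lit 7) (nat_lit 0x20001000130009c000600020000800000000000000000) (nat_lit 0x0) (nat_lit 0x20001000280008000600020001c000a000000000000000000) := T_5 (nat_lit 126) (nat_lit 125) (nat_lit 1) (nat_lit 8) (nat_lit 7) L43996 (by decide +kernel)
theorem L43998 : W_5 (nat_lit 8) (nat_lit 0x20001000130009c000600000000800000000000000000) (nat_lit 0x0) (nat_lit 0x20001000280008000600020001e000b000000000000000000) := T_5 (nat_lit 89) (nat_lit 72) (nat_lit 7) (nat_lit 4) (nat_lit 4) L43997 (by decide +kernel)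
theorem L43999 : W_5 (nat_lit 9) (nat_lit 0x20001000130009c000600000000000000000000000000) (nat_lit 0x0) (nat_lit 0x20001000280008000600020001f000b800000000000000000) := T_5 (nat_lit 71) (nat_lit 88) (nat_lit 7) (nat_lit 3) (nat_lit 4) L43998 (by decide +kernel)
theorem L44000 : W_5 (nat_lit 2) (nat_lit 0x2000100013000bc0006000e0000800000000000000000) (nat_lit 0x0) (nat_lit 0x1800000004000000000000000000) := D_5 (nat_lit 74) (nat_lit 107) (nat_lit 108) (nat_lit 6) (nat_lit 5) (nat_lit 8) (nat_lit 5) (nat_lit 6) (nat_lit 4) (by decide +kernel)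
theorem L44001 : W_5 (nat_lit 3) (nat_lit 0x20001000130009c0006000e0000800000000000000000) (nat_lit 0x0) (nat_lit 0x60001800000004000000000000000000) := T_5 (nat_lit 125) (nat_lit 126) (nat_lit 1) (nat_lit 8) (nat_lit 7) L44000 (by decide +kernel)
theorem L44002 : W_5 (nat_lit 4) (nat_lit 0x20001000130009c000600060000800000000000000000) (nat_lit 0x0) (nat_lit 0x60001800180004000000000000000000) := T_5 (nat_lit 91) (nat_lit 92) (nat_lit 1) (nat_lit 7) (nat_lit 5) L44001 (by decide +kernel)
theorem L44003 : W_5 (nat_lit 5) (nat_lit 0x20001000130009c000600020000800000000000000000) (nat_lit 0x0) (nat_lit 0x600018001c0006000000000000000000) := T_5 (nat_lit 90) (nat_lit 73) (nat_lit 6) (nat_lit 4) (nat_lit 8) L44002 (by decide +kernel)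
theorem L44004 : W_5 (nat_lit 6) (nat_lit 0x20001000130009c000600020000000000000000000000) (nat_lit 0x0) (nat_lit 0x600018001d0006800000000000000000) := T_5 (nat_lit 71) (nat_lit 88) (nat_lit 7) (nat_lit 3) (nat_lit 4) L44003 (by decide +kernel)
theorem L44005 : W_5 (nat_lit 7) (nat_lit 0x20001000130009c000600000000000000000000000000) (nat_lit 0x0) (nat_lit 0x600018001f0007800000000000000000) := T_5 (nat_lit 89) (nat_lit 72) (nat_lit 7) (nat_lit 4) (nat_lit 4) L44004 (by decide +kernel)
theorem L44006 : W_5 (nat_lit 2) (nat_lit 0x20001000130009c0006000f0000000000000000000000) (nat_lit 0x0) (nat_lit 0x80000000c000000000000000000) := D_5 (nat_lit 74) (nat_lit 75) (nat_lit 107) (nat_lit 2) (nat_lit 3) (nat_lit 5) (nat_lit 6) (nat_lit 5) (nat_lit 8) (by decide +kernel)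
theorem L44007 : W_5 (nat_lit 3) (nat_lit 0x20001000130009c000600070000000000000000000000) (nat_lit 0x0) (nat_lit 0x80018000c000000000000000000) := T_5 (nat_lit 91) (nat_lit 92) (nat_lit 1) (nat_lit 7) (nat_lit 5) L44006 (by decide +kernel)
theorem L44008 : W_5 (nat_lit 4) (nat_lit 0x20001000130009c000600030000000000000000000000) (nat_lit 0x0) (nat_lit 0x8001c000e000000000000000000) := T_5 (nat_lit 90) (nat_lit 73) (nat_lit 6) (nat_lit 4) (nat_lit 8) L44007 (by decide +kernel)
theorem L44009 : W_5 (nat_lit 5) (nat_lit 0x20001000130009c000600020000000000000000000000) (nat_lit 0x0) (nat_lit 0x8001d000e800000000000000000) := T_5 (nat_lit 88) (nat_lit 71) (nat_lit 7) (nat_lit 3) (nat_lit 4) L44008 (by decide +kernel)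
theorem L44010 : W_5 (nat_lit 6) (nat_lit 0x20001000130009c000600000000000000000000000000) (nat_lit 0x0) (nat_lit 0x8001f000f800000000000000000) := T_5 (nat_lit 89) (nat_lit 72) (nat_lit 7) (nat_lit 4) (nat_lit 4) L44009 (by decide +kernel)
theorem L44011 : W_5 (nat_lit 2) (nat_lit 0x2000100013000bc001e00010001000000000000000000) (nat_lit 0x0) (nat_lit 0x180004000000000000000000) := D_5 (nat_lit 91) (nat_lit 74) (nat_lit 92) (nat_lit 5) (nat_lit 6) (nat_lit 4) (nat_lit 2) (nat_lit 3) (nat_lit 6) (by decide +kernel)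
theorem L44012 : W_5 (nat_lit 3) (nat_lit 0x2000100013000bc001600010001000000000000000000) (nat_lit 0x0) (nat_lit 0x800188004000000000000000000) := T_5 (nat_lit 107) (nat_lit 87) (nat_lit 0) (nat_lit 6) (nat_lit 6) L44011 (by decide +kernel)
theorem L44013 : W_5 (nat_lit 4) (nat_lit 0x2000100013000bc000600010001000000000000000000) (nat_lit 0x0) (nat_lit 0x3800188004000000000000000000) := T_5 (nat_lit 108) (nat_lit 109) (nat_lit 2) (nat_lit 3) (nat_lit 7) L44012 (by decide +kernel)
theorem L44014 : W_5 (nat_lit 5) (nat_lit 0x2000100013000bc000600000001000000000000000000) (nat_lit 0x0) (nat_lit 0x3800198004800000000000000000) := T_5 (nat_lit 88) (nat_lit 71) (nat_lit 7) (nat_lit 3) (nat_lit 4) L44013 (by decide +kernel)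
theorem L44015 : W_5 (nat_lit 6) (nat_lit 0x20001000130009c000600000001000000000000000000) (nat_lit 0x0) (nat_lit 0x60003800198004800000000000000000) := T_5 (nat_lit 125) (nat_lit 126) (nat_lit 1) (nat_lit 8) (nat_lit 7) L44014 (by decide +kernel)
theorem L44016 : W_5 (nat_lit 7) (nat_lit 0x20001000130009c000600000000000000000000000000) (nat_lit 0x0) (nat_lit 0x600038001b8005800000000000000000) := T_5 (nat_lit 72) (nat_lit 89) (nat_lit 7) (nat_lit 4) (nat_lit 4) L44015 (by decide +kernel)
theorem L44017 : W_5 (nat_lit 2) (nat_lit 0x2000100013000bc001e00010000000000000000000000) (nat_lit 0x0) (nat_lit 0x180004000000000000000000) := D_5 (nat_lit 91) (nat_lit 74) (nat_lit 92) (nat_lit 5) (nat_lit 6) (nat_lit 4) (nat_lit 2) (nat_lit 3) (nat_lit 6) (by decide +kernel)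
theorem L44018 : W_5 (nat_lit 3) (nat_lit 0x2000100013000bc001600010000000000000000000000) (nat_lit 0x0) (nat_lit 0x800188004000000000000000000) := T_5 (nat_lit 107) (nat_lit 87) (nat_lit 0) (nat_lit 6) (nat_lit 6) L44017 (by decide +kernel)
theorem L44019 : W_5 (nat_lit 4) (nat_lit 0x2000100013000bc000600010000000000000000000000) (nat_lit 0x0) (nat_lit 0x3800188004000000000000000000) := T_5 (nat_lit 108) (nat_lit 109) (nat_lit 2) (nat_lit 3) (nat_lit 7) L44018 (by decide +kernel)
theorem L44020 : W_5 (nat_lit 5) (nat_lit 0x2000100013000bc000600000000000000000000000000) (nat_lit 0x0) (nat_lit 0x3800198004800000000000000000) := T_5 (nat_lit 88) (nat_lit 71) (nat_lit 7) (nat_lit 3) (nat_lit 4) L44019 (by decide +kernel)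
theorem L44021 : W_5 (nat_lit 6) (nat_lit 0x20001000130009c000600000000000000000000000000) (nat_lit 0x0) (nat_lit 0x60003800198004800000000000000000) := T_5 (nat_lit 125) (nat_lit 126) (nat_lit 1) (nat_lit 8) (nat_lit 7) L44020 (by decide +kernel)
theorem L44022 : W_5 (nat_lit 2) (nat_lit 0x2000100013000bc00160007c000000000000000000000) (nat_lit 0x0) (nat_lit 0x700000000000000000) := D_5 (nat_lit 69) (nat_lit 70) (nat_lit 68) (nat_lit 0) (nat_lit 5) (nat_lit 5) (nat_lit 0) (nat_lit 4) (nat_lit 5) (by decide +kernel)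
theorem L44023 : W_5 (nat_lit 3) (nat_lit 0x2000100013000bc001600078000000000000000000000) (nat_lit 0x0) (nat_lit 0x6000700000000000000000) := T_5 (nat_lit 86) (nat_lit 85) (nat_lit 3) (nat_lit 0) (nat_lit 5) L44022 (by decide +kernel)
theorem L44024 : W_5 (nat_lit 4) (nat_lit 0x2000100013000bc001600070000000000000000000000) (nat_lit 0x0) (nat_lit 0x80000e000700000000000000000) := T_5 (nat_lit 87) (nat_lit 107) (nat_lit 3) (nat_lit 2) (nat_lit 5) L44023 (by decide +kernel)
theorem L44025 : W_5 (nat_lit 5) (nat_lit 0x2000100013000bc001600060000000000000000000000) (nat_lit 0x0) (nat_lit 0x80001e000f00000000000000000) := T_5 (nat_lit 88) (nat_lit 71) (nat_lit 7) (nat_lit 3) (nat_lit 4) L44024 (by decide +kernel)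
theorem L44026 : W_5 (nat_lit 6) (nat_lit 0x2000100013000bc001600020000000000000000000000) (nat_lit 0x0) (nat_lit 0x80005e002f00000000000000000) := T_5 (nat_lit 90) (nat_lit 73) (nat_lit 6) (nat_lit 4) (nat_lit 8) L44025 (by decide +kernel)
theorem L44027 : W_5 (nat_lit 7) (nat_lit 0x2000100013000bc000600020000000000000000000000) (nat_lit 0x0) (nat_lit 0x380005e002f00000000000000000) := T_5 (nat_lit 108) (nat_lit 109) (nat_lit 2) (nat_lit 3) (nat_lit 7) L44026 (by decide +kernel)
theorem L44028 : W_5 (nat_lit 8) (nat_lit 0x2000100013000bc000600000000000000000000000000) (nat_lit 0x0) (nat_lit 0x380007e003f00000000000000000) := T_5 (nat_lit 89) (nat_lit 72) (nat_lit 7) (nat_lit 4) (nat_lit 4) L44027 (by decide +kernel)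
theorem L44029 : W_5 (nat_lit 9) (nat_lit 0x20001000130009c000600000000000000000000000000) (nat_lit 0x0) (nat_lit 0x6000380007e003f00000000000000000) := T_5 (nat_lit 125) (nat_lit 126) (nat_lit 1) (nat_lit 8) (nat_lit 7) L44028 (by decide +kernel)
theorem L44030 : W_5 (nat_lit 2) (nat_lit 0x200010001b000dc002600160000000000000000000000) (nat_lit 0x0) (nat_lit 0x2000100008000000000000000000000000000000000000000) := D_5 (nat_lit 176) (nat_lit 159) (nat_lit 193) (nat_lit 5) (nat_lit 7) (nat_lit 6) (nat_lit 5) (nat_lit 7) (nat_lit 7) (by decide +kernel)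
theorem L44031 : W_5 (nat_lit 3) (nat_lit 0x2000100013000dc002600160000000000000000000000) (nat_lit 0x0) (nat_lit 0x2000100028000800000000000000000000000000000000000) := T_5 (nat_lit 143) (nat_lit 161) (nat_lit 7) (nat_lit 7) (nat_lit 5) L44030 (by decide +kernel)
theorem L44032 : W_5 (nat_lit 4) (nat_lit 0x2000100013000dc000600160000000000000000000000) (nat_lit 0x0) (nat_lit 0x2000100028000800000002000000008000000000000000000) := T_5 (nat_lit 109) (nat_lit 75) (nat_lit 7) (nat_lit 7) (nat_lit 4) L44031 (by decide +kernel)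
theorem L44033 : W_5 (nat_lit 5) (nat_lit 0x2000100013000dc000600060000000000000000000000) (nat_lit 0x0) (nat_lit 0x2000100028000800000002000180008000000000000000000) := T_5 (nat_lit 92) (nat_lit 91) (nat_lit 1) (nat_lit 7) (nat_lit 5) L44032 (by decide +kernel)
theorem L44034 : W_5 (nat_lit 6) (nat_lit 0x2000100013000dc000600020000000000000000000000) (nat_lit 0x0) (nat_lit 0x20001000280008000000020001c000a000000000000000000) := T_5 (nat_lit 90) (nat_lit 73) (nat_lit 6) (nat_lit 4) (nat_lit 8) L44033 (by decide +kernel)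
theorem L44035 : W_5 (nat_lit 7) (nat_lit 0x2000100013000dc000600000000000000000000000000) (nat_lit 0x0) (nat_lit 0x20001000280008000000020001e000b000000000000000000) := T_5 (nat_lit 89) (nat_lit 72) (nat_lit 7) (nat_lit 4) (nat_lit 4) L44034 (by decide +kernel)
theorem L44036 : W_5 (nat_lit 8) (nat_lit 0x20001000130009c000600000000000000000000000000) (nat_lit 0x0) (nat_lit 0x20001000280008000600020001e000b000000000000000000) := T_5 (nat_lit 126) (nat_lit 125) (nat_lit 1) (nat_lit 8) (nat_lit 7) L44035 (by decide +kernel)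
theorem L44037 : W_5 (nat_lit 10) (nat_lit 0x20001000130009c000200000000000000000000000000) (nat_lit 0x0) (nat_lit 0x2000100028000800060003c001fe00ff00000000000000000) := Q_5 (nat_lit 106) (C_5 L43999 (C_5 L44005 (C_5 L44010 (C_5 L44016 (C_5 L44021 (C_5 L44029 (C_5 L44036 N_5))))))) (by decide +kernel)
theorem L44038 : W_5 (nat_lit 2) (nat_lit 0x20001000130009c000300000000000000000000000000) (nat_lit 0x0) (nat_lit 0x4c0000000000000000000000000) := D_5 (nat_lit 103) (nat_lit 102) (nat_lit 106) (nat_lit 3) (nat_lit 0) (nat_lit 6) (nat_lit 3) (nat_lit 1) (nat_lit 6) (by decide +kernel)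
theorem L44039 : W_5 (nat_lit 3) (nat_lit 0x20001000130009c000200000000000000000000000000) (nat_lit 0x0) (nat_lit 0x200005c0000000000000000000000000) := T_5 (nat_lit 104) (nat_lit 125) (nat_lit 0) (nat_lit 6) (nat_lit 7) L44038 (by decide +kernel)
theorem L44040 : W_5 (nat_lit 11) (nat_lit 0x20001000130009c000000000000000000000000000000) (nat_lit 0x0) (nat_lit 0x2000100028000800060003fc01fe01ff00000000000000000) := Q_5 (nat_lit 105) (C_5 L43990 (C_5 L43991 (C_5 L44037 (C_5 L44039 N_5)))) (by decide +kernel)
theorem L44041 : W_5 (nat_lit 12) (nat_lit 0x20001000130008c000000000000000000000000000000) (nat_lit 0x0) (nat_lit 0x2000100028000800073003fc01fe01ff00000000000000000) := Q_5 (nat_lit 124) (C_5 L44040 (C_5 L43833 (C_5 L43830 (C_5 L43782 N_5)))) (by decide +kernel)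
theorem L44042 : W_5 (nat_lit 9) (nat_lit 0x20001000130008c000000000000000000000000000000) (nat_lit 0x0) (nat_lit 0xe00070001e000f00038007c0038001c00000000000000000) := Q_5 (nat_lit 139) (C_5 L43875 (C_5 L43894 (C_5 L43940 (C_5 L43888 N_5)))) (by decide +kernel)
theorem L44043 : W_5 (nat_lit 2) (nat_lit 0x2000100013800bc001200038004000000000000000000) (nat_lit 0x0) (nat_lit 0x800040002000000000000000000) := D_5 (nat_lit 90) (nat_lit 73) (nat_lit 107) (nat_lit 2) (nat_lit 2) (nat_lit 5) (nat_lit 3) (nat_lit 2) (nat_lit 5) (by decide +kernel)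
theorem L44044 : W_5 (nat_lit 3) (nat_lit 0x2000100013800bc001200018004000000000000000000) (nat_lit 0x0) (nat_lit 0x800060003000000000000000000) := T_5 (nat_lit 89) (nat_lit 72) (nat_lit 6) (nat_lit 3) (nat_lit 8) L44043 (by decide +kernel)
theorem L44045 : W_5 (nat_lit 4) (nat_lit 0x2000100013800bc001200010004000000000000000000) (nat_lit 0x0) (nat_lit 0x800068003400000000000000000) := T_5 (nat_lit 87) (nat_lit 70) (nat_lit 4) (nat_lit 3) (nat_lit 8) L44044 (by decide +kernel)
theorem L44046 : W_5 (nat_lit 5) (nat_lit 0x2000100013800bc001200000004000000000000000000) (nat_lit 0x0) (nat_lit 0x800078003c00000000000000000) := T_5 (nat_lit 88) (nat_lit 71) (nat_lit 7) (nat_lit 3) (nat_lit 4) L44045 (by decide +kernel)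
theorem L44047 : W_5 (nat_lit 6) (nat_lit 0x2000100013800bc001200000000000000000000000000) (nat_lit 0x0) (nat_lit 0x8000f8007c00000000000000000) := T_5 (nat_lit 74) (nat_lit 91) (nat_lit 5) (nat_lit 6) (nat_lit 4) L44046 (by decide +kernel)
theorem L44048 : W_5 (nat_lit 7) (nat_lit 0x2000100013800bc001000000000000000000000000000) (nat_lit 0x0) (nat_lit 0xb000f8007c00000000000000000) := T_5 (nat_lit 105) (nat_lit 104) (nat_lit 0) (nat_lit 6) (nat_lit 7) L44047 (by decide +kernel)
theorem L44049 : W_5 (nat_lit 8) (nat_lit 0x2000100013000bc001000000000000000000000000000) (nat_lit 0x0) (nat_lit 0xc0000000b000f8007c00000000000000000) := T_5 (nat_lit 139) (nat_lit 138) (nat_lit 2) (nat_lit 2) (nat_lit 8) L44048 (by decide +kernel)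
theorem L44050 : W_5 (nat_lit 9) (nat_lit 0x2000100013000bc000000000000000000000000000000) (nat_lit 0x0) (nat_lit 0xc0000003b000f8007c00000000000000000) := T_5 (nat_lit 108) (nat_lit 109) (nat_lit 2) (nat_lit 3) (nat_lit 7) L44049 (by decide +kernel)
theorem L44051 : W_5 (nat_lit 10) (nat_lit 0x20001000130009c000000000000000000000000000000) (nat_lit 0x0) (nat_lit 0xc0060003b000f8007c00000000000000000) := T_5 (nat_lit 125) (nat_lit 126) (nat_lit 1) (nat_lit 8) (nat_lit 7) L44050 (by decide +kernel)
theorem L44052 : W_5 (nat_lit 2) (nat_lit 0x20001000134009e0009000f0000000000000000000000) (nat_lit 0x0) (nat_lit 0x8000c00000000000000000) := D_5 (nat_lit 71) (nat_lit 70) (nat_lit 87) (nat_lit 0) (nat_lit 6) (nat_lit 5) (nat_lit 6) (nat_lit 2) (nat_lit 8) (by decide +kernel)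
theorem L44053 : W_5 (nat_lit 3) (nat_lit 0x20001000134009e0009000e0000000000000000000000) (nat_lit 0x0) (nat_lit 0x200018000c00000000000000000) := T_5 (nat_lit 88) (nat_lit 105) (nat_lit 1) (nat_lit 6) (nat_lit 5) L44052 (by decide +kernel)
theorem L44054 : W_5 (nat_lit 4) (nat_lit 0x20001000134009e000900060000000000000000000000) (nat_lit 0x0) (nat_lit 0x200098004c00000000000000000) := T_5 (nat_lit 91) (nat_lit 74) (nat_lit 6) (nat_lit 5) (nat_lit 8) L44053 (by decide +kernel)
theorem L44055 : W_5 (nat_lit 5) (nat_lit 0x20001000134009e000900040000000000000000000000) (nat_lit 0x0) (nat_lit 0x2000b8005c00000000000000000) := T_5 (nat_lit 89) (nat_lit 72) (nat_lit 4) (nat_lit 5) (nat_lit 8) L44054 (by decide +kernel)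
theorem L44056 : W_5 (nat_lit 6) (nat_lit 0x20001000134009e000900000000000000000000000000) (nat_lit 0x0) (nat_lit 0x2000f8007c00000000000000000) := T_5 (nat_lit 90) (nat_lit 73) (nat_lit 5) (nat_lit 5) (nat_lit 4) L44055 (by decide +kernel)
theorem L44057 : W_5 (nat_lit 7) (nat_lit 0x20001000130009e000900000000000000000000000000) (nat_lit 0x0) (nat_lit 0x600000002000f8007c00000000000000000) := T_5 (nat_lit 138) (nat_lit 137) (nat_lit 1) (nat_lit 5) (nat_lit 7) L44056 (by decide +kernel)
theorem L44058 : W_5 (nat_lit 8) (nat_lit 0x20001000130009e000100000000000000000000000000) (nat_lit 0x0) (nat_lit 0x60000001a000f8007c00000000000000000) := T_5 (nat_lit 107) (nat_lit 108) (nat_lit 2) (nat_lit 2) (nat_lit 7) L44057 (by decide +kernel)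
theorem L44059 : W_5 (nat_lit 9) (nat_lit 0x20001000130009e000000000000000000000000000000) (nat_lit 0x0) (nat_lit 0x60000001b800f8007c00000000000000000) := T_5 (nat_lit 104) (nat_lit 103) (nat_lit 0) (nat_lit 5) (nat_lit 7) L44058 (by decide +kernel)
theorem L44060 : W_5 (nat_lit 10) (nat_lit 0x20001000130009c000000000000000000000000000000) (nat_lit 0x0) (nat_lit 0x60003001b800f8007c00000000000000000) := T_5 (nat_lit 121) (nat_lit 120) (nat_lit 3) (nat_lit 1) (nat_lit 7) L44059 (by decide +kernel)
theorem L44061 : W_5 (nat_lit 11) (nat_lit 0x20001000130008c000000000000000000000000000000) (nat_lit 0x0) (nat_lit 0xe0073003b800f8007c00000000000000000) := Q_5 (nat_lit 124) (C_5 L44051 (C_5 L43833 (C_5 L44060 (C_5 L43782 N_5)))) (by decide +kernel)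
theorem L44062 : W_5 (nat_lit 2) (nat_lit 0x2200110013800bc000200038000000000000000000000) (nat_lit 0x0) (nat_lit 0x200010000800000000000000000000000000000000000000) := D_5 (nat_lit 172) (nat_lit 155) (nat_lit 189) (nat_lit 5) (nat_lit 3) (nat_lit 6) (nat_lit 5) (nat_lit 3) (nat_lit 7) (by decide +kernel)
theorem L44063 : W_5 (nat_lit 3) (nat_lit 0x2000110013800bc000200038000000000000000000000) (nat_lit 0x0) (nat_lit 0x600030000800000000000000000000000000000000000000) := T_5 (nat_lit 173) (nat_lit 190) (nat_lit 6) (nat_lit 3) (nat_lit 11) L44062 (by decide +kernel)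
theorem L44064 : W_5 (nat_lit 4) (nat_lit 0x2000100013800bc000200038000000000000000000000) (nat_lit 0x0) (nat_lit 0x600030001800000000000400000000000000000000000000) := T_5 (nat_lit 156) (nat_lit 106) (nat_lit 6) (nat_lit 3) (nat_lit 9) L44063 (by decide +kernel)
theorem L44065 : W_5 (nat_lit 5) (nat_lit 0x2000100013800bc000200018000000000000000000000) (nat_lit 0x0) (nat_lit 0x600030001800000000000400020001000000000000000000) := T_5 (nat_lit 89) (nat_lit 72) (nat_lit 6) (nat_lit 3) (nat_lit 8) L44064 (by decide +kernel)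
theorem L44066 : W_5 (nat_lit 6) (nat_lit 0x2000100013800bc000200010000000000000000000000) (nat_lit 0x0) (nat_lit 0x600030001800000000000400028001400000000000000000) := T_5 (nat_lit 87) (nat_lit 70) (nat_lit 4) (nat_lit 3) (nat_lit 8) L44065 (by decide +kernel)
theorem L44067 : W_5 (nat_lit 7) (nat_lit 0x2000100013800bc000200000000000000000000000000) (nat_lit 0x0) (nat_lit 0x600030001800000000000400038001c00000000000000000) := T_5 (nat_lit 88) (nat_lit 71) (nat_lit 7) (nat_lit 3) (nat_lit 4) L44066 (by decide +kernel)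
theorem L44068 : W_5 (nat_lit 8) (nat_lit 0x2000100013800bc000000000000000000000000000000) (nat_lit 0x0) (nat_lit 0x600030001800000000000700038001c00000000000000000) := T_5 (nat_lit 105) (nat_lit 104) (nat_lit 0) (nat_lit 6) (nat_lit 7) L44067 (by decide +kernel)
theorem L44069 : W_5 (nat_lit 9) (nat_lit 0x2000100013000bc000000000000000000000000000000) (nat_lit 0x0) (nat_lit 0x6000300018000c0000000700038001c00000000000000000) := T_5 (nat_lit 139) (nat_lit 138) (nat_lit 2) (nat_lit 2) (nat_lit 8) L44068 (by decide +kernel)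
theorem L44070 : W_5 (nat_lit 2) (nat_lit 0x20001000130008c000700060000800000000000000000) (nat_lit 0x0) (nat_lit 0x800180000000000000000000000) := D_5 (nat_lit 91) (nat_lit 92) (nat_lit 107) (nat_lit 1) (nat_lit 7) (nat_lit 5) (nat_lit 2) (nat_lit 2) (nat_lit 6) (by decide +kernel)
theorem L44071 : W_5 (nat_lit 3) (nat_lit 0x20001000130008c000600060000800000000000000000) (nat_lit 0x0) (nat_lit 0x980180000000000000000000000) := T_5 (nat_lit 104) (nat_lit 103) (nat_lit 2) (nat_lit 1) (nat_lit 6) L44070 (by decide +kernel)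
theorem L44072 : W_5 (nat_lit 4) (nat_lit 0x20001000130008c000600020000800000000000000000) (nat_lit 0x0) (nat_lit 0x9801c0002000000000000000000) := T_5 (nat_lit 90) (nat_lit 73) (nat_lit 6) (nat_lit 4) (nat_lit 8) L44071 (by decide +kernel)
theorem L44073 : W_5 (nat_lit 5) (nat_lit 0x20001000130008c000600020000000000000000000000) (nat_lit 0x0) (nat_lit 0x9801d0002800000000000000000) := T_5 (nat_lit 71) (nat_lit 88) (nat_lit 7) (nat_lit 3) (nat_lit 4) L44072 (by decide +kernel)
theorem L44074 : W_5 (nat_lit 2) (nat_lit 0x20001000138008c000700060000000000000000000000) (nat_lit 0x0) (nat_lit 0x800180000000000000000000000) := D_5 (nat_lit 91) (nat_lit 92) (nat_lit 107) (nat_lit 1) (nat_lit 7) (nat_lit 5) (nat_lit 2) (nat_lit 2) (nat_lit 6) (by decide +kernel)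
theorem L44075 : W_5 (nat_lit 3) (nat_lit 0x20001000138008c000600060000000000000000000000) (nat_lit 0x0) (nat_lit 0x980180000000000000000000000) := T_5 (nat_lit 104) (nat_lit 103) (nat_lit 2) (nat_lit 1) (nat_lit 6) L44074 (by decide +kernel)
theorem L44076 : W_5 (nat_lit 4) (nat_lit 0x20001000138008c000600020000000000000000000000) (nat_lit 0x0) (nat_lit 0x9801c0002000000000000000000) := T_5 (nat_lit 90) (nat_lit 73) (nat_lit 6) (nat_lit 4) (nat_lit 8) L44075 (by decide +kernel)
theorem L44077 : W_5 (nat_lit 5) (nat_lit 0x20001000130008c000600020000000000000000000000) (nat_lit 0x0) (nat_lit 0x10000800000009801c0002000000000000000000) := T_5 (nat_lit 139) (nat_lit 156) (nat_lit 6) (nat_lit 3) (nat_lit 9) L44076 (by decide +kernel)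
theorem L44078 : W_5 (nat_lit 2) (nat_lit 0x2000108013c009c000200000000000000000000000000) (nat_lit 0x0) (nat_lit 0x200010001000000000000000000000000000000000000000) := D_5 (nat_lit 172) (nat_lit 156) (nat_lit 189) (nat_lit 5) (nat_lit 3) (nat_lit 6) (nat_lit 6) (nat_lit 2) (nat_lit 11) (by decide +kernel)
theorem L44079 : W_5 (nat_lit 2) (nat_lit 0x20001000138008c000600070000000000000000000000) (nat_lit 0x0) (nat_lit 0x180080000000000000000000000) := D_5 (nat_lit 104) (nat_lit 103) (nat_lit 91) (nat_lit 2) (nat_lit 1) (nat_lit 6) (nat_lit 1) (nat_lit 6) (nat_lit 5) (by decide +kernel)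
theorem L44080 : W_5 (nat_lit 3) (nat_lit 0x20001000138008c000600030000000000000000000000) (nat_lit 0x0) (nat_lit 0x1800c0002000000000000000000) := T_5 (nat_lit 90) (nat_lit 73) (nat_lit 6) (nat_lit 4) (nat_lit 8) L44079 (by decide +kernel)
theorem L44081 : W_5 (nat_lit 4) (nat_lit 0x20001000130008c000600030000000000000000000000) (nat_lit 0x0) (nat_lit 0x10000800000001800c0002000000000000000000) := T_5 (nat_lit 139) (nat_lit 156) (nat_lit 6) (nat_lit 3) (nat_lit 9) L44080 (by decide +kernel)
theorem L44082 : W_5 (nat_lit 5) (nat_lit 0x20001000130008c000600020000000000000000000000) (nat_lit 0x0) (nat_lit 0x10000800000001800d0002800000000000000000) := T_5 (nat_lit 88) (nat_lit 71) (nat_lit 7) (nat_lit 3) (nat_lit 4) L44081 (by decide +kernel)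
theorem L44083 : W_5 (nat_lit 2) (nat_lit 0x20001000138008c000600038000000000000000000000) (nat_lit 0x0) (nat_lit 0x800006000000000000000000000) := D_5 (nat_lit 86) (nat_lit 107) (nat_lit 85) (nat_lit 3) (nat_lit 1) (nat_lit 5) (nat_lit 3) (nat_lit 0) (nat_lit 5) (by decide +kernel)
theorem L44084 : W_5 (nat_lit 3) (nat_lit 0x20001000138008c000600030000000000000000000000) (nat_lit 0x0) (nat_lit 0x80000e000400000000000000000) := T_5 (nat_lit 87) (nat_lit 70) (nat_lit 4) (nat_lit 3) (nat_lit 8) L44083 (by decide +kernel)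
theorem L44085 : W_5 (nat_lit 4) (nat_lit 0x20001000130008c000600030000000000000000000000) (nat_lit 0x0) (nat_lit 0x100008000000080000e000400000000000000000) := T_5 (nat_lit 139) (nat_lit 156) (nat_lit 6) (nat_lit 3) (nat_lit 9) L44084 (by decide +kernel)
theorem L44086 : W_5 (nat_lit 5) (nat_lit 0x20001000130008c000600020000000000000000000000) (nat_lit 0x0) (nat_lit 0x100008000000080001e000c00000000000000000) := T_5 (nat_lit 88) (nat_lit 71) (nat_lit 7) (nat_lit 3) (nat_lit 4) L44085 (by decide +kernel)
theorem L44087 : W_5 (nat_lit 2) (nat_lit 0x2000104013e008d000280038000000000000000000000) (nat_lit 0x0) (nat_lit 0x40006000000000000000000000) := D_5 (nat_lit 102) (nat_lit 85) (nat_lit 86) (nat_lit 4) (nat_lit 1) (nat_lit 9) (nat_lit 1) (nat_lit 4) (nat_lit 5) (by decide +kernel)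
theorem L44088 : W_5 (nat_lit 3) (nat_lit 0x2000104013e008d000200038000000000000000000000) (nat_lit 0x0) (nat_lit 0x1c0006000000000000000000000) := T_5 (nat_lit 103) (nat_lit 104) (nat_lit 6) (nat_lit 1) (nat_lit 9) L44087 (by decide +kernel)
theorem L44089 : W_5 (nat_lit 4) (nat_lit 0x2000100013e008d000200038000000000000000000000) (nat_lit 0x0) (nat_lit 0x6000000000001c0006000000000000000000000) := T_5 (nat_lit 154) (nat_lit 153) (nat_lit 1) (nat_lit 4) (nat_lit 8) L44088 (by decide +kernel)
theorem L44090 : W_5 (nat_lit 5) (nat_lit 0x2000100013e008c000200038000000000000000000000) (nat_lit 0x0) (nat_lit 0x6000000018001c0006000000000000000000000) := T_5 (nat_lit 120) (nat_lit 119) (nat_lit 0) (nat_lit 4) (nat_lit 8) L44089 (by decide +kernel)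
theorem L44091 : W_5 (nat_lit 6) (nat_lit 0x2000100013c008c000200038000000000000000000000) (nat_lit 0x0) (nat_lit 0x6000300018001c0006000000000000000000000) := T_5 (nat_lit 137) (nat_lit 136) (nat_lit 2) (nat_lit 0) (nat_lit 8) L44090 (by decide +kernel)
theorem L44092 : W_5 (nat_lit 7) (nat_lit 0x20001000138008c000200038000000000000000000000) (nat_lit 0x0) (nat_lit 0xe000700018001c0006000000000000000000000) := T_5 (nat_lit 138) (nat_lit 155) (nat_lit 5) (nat_lit 3) (nat_lit 5) L44091 (by decide +kernel)
theorem L44093 : W_5 (nat_lit 2) (nat_lit 0x20001000130008c000400020000000000000000000000) (nat_lit 0x0) (nat_lit 0x1000080000000000000001000000000000000000) := D_5 (nat_lit 139) (nat_lit 156) (nat_lit 72) (nat_lit 5) (nat_lit 4) (nat_lit 5) (nat_lit 5) (nat_lit 4) (nat_lit 4) (by decide +kernel)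
theorem L44094 : W_5 (nat_lit 2) (nat_lit 0x20001000130008c000400020000000000000000000000) (nat_lit 0x0) (nat_lit 0x80010000000000001000000000000000000) := D_5 (nat_lit 72) (nat_lit 139) (nat_lit 124) (nat_lit 5) (nat_lit 4) (nat_lit 4) (nat_lit 7) (nat_lit 4) (nat_lit 4) (by decide +kernel)
theorem L44095 : W_5 (nat_lit 2) (nat_lit 0x20001000130008c000400160001a00080004000000000) (nat_lit 0x0) (nat_lit 0x100008000400000) := D_5 (nat_lit 39) (nat_lit 56) (nat_lit 22) (nat_lit 6) (nat_lit 4) (nat_lit 6) (nat_lit 6) (nat_lit 4) (nat_lit 5) (by decide +kernel)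
theorem L44096 : W_5 (nat_lit 3) (nat_lit 0x20001000130008c000400160001a00080000000000000) (nat_lit 0x0) (nat_lit 0x80000000000010000c000400000) := T_5 (nat_lit 38) (nat_lit 107) (nat_lit 7) (nat_lit 4) (nat_lit 2) L44095 (by decide +kernel)
theorem L44097 : W_5 (nat_lit 4) (nat_lit 0x20001000130008c000400160001a00000000000000000) (nat_lit 0x0) (nat_lit 0xa0000000000018000c000400000) := T_5 (nat_lit 55) (nat_lit 105) (nat_lit 5) (nat_lit 4) (nat_lit 3) L44096 (by decide +kernel)
theorem L44098 : W_5 (nat_lit 5) (nat_lit 0x20001000130008c000400060001a00000000000000000) (nat_lit 0x0) (nat_lit 0xa0018000000018000c000400000) := T_5 (nat_lit 92) (nat_lit 91) (nat_lit 0) (nat_lit 7) (nat_lit 5) L44097 (by decide +kernel)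
theorem L44099 : W_5 (nat_lit 6) (nat_lit 0x20001000130008c000400060001800000000000000000) (nat_lit 0x0) (nat_lit 0xa0018000060018000c000400000) := T_5 (nat_lit 69) (nat_lit 70) (nat_lit 3) (nat_lit 1) (nat_lit 4) L44098 (by decide +kernel)
theorem L44100 : W_5 (nat_lit 7) (nat_lit 0x20001000130008c000400060001000000000000000000) (nat_lit 0x0) (nat_lit 0xa00180000e001c000c000400000) := T_5 (nat_lit 71) (nat_lit 54) (nat_lit 4) (nat_lit 4) (nat_lit 7) L44099 (by decide +kernel)
theorem L44101 : W_5 (nat_lit 8) (nat_lit 0x20001000130008c000400060000000000000000000000) (nat_lit 0x0) (nat_lit 0x10000a00180001e001c000c000400000) := T_5 (nat_lit 72) (nat_lit 124) (nat_lit 7) (nat_lit 4) (nat_lit 4) L44100 (by decide +kernel)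
theorem L44102 : W_5 (nat_lit 9) (nat_lit 0x20001000130008c000400020000000000000000000000) (nat_lit 0x0) (nat_lit 0x10000a001c0003e001c000c000400000) := T_5 (nat_lit 90) (nat_lit 73) (nat_lit 6) (nat_lit 4) (nat_lit 8) L44101 (by decide +kernel)
theorem L44103 : W_5 (nat_lit 2) (nat_lit 0x200010001b800cc002c00120000000000000000000000) (nat_lit 0x0) (nat_lit 0x2000100008000000000000000000000000000000000000000) := D_5 (nat_lit 176) (nat_lit 193) (nat_lit 159) (nat_lit 5) (nat_lit 7) (nat_lit 7) (nat_lit 5) (nat_lit 7) (nat_lit 6) (by decide +kernel)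
theorem L44104 : W_5 (nat_lit 3) (nat_lit 0x2000100013800cc002c00120000000000000000000000) (nat_lit 0x0) (nat_lit 0x2000100028000800000000000000000000000000000000000) := T_5 (nat_lit 143) (nat_lit 161) (nat_lit 7) (nat_lit 7) (nat_lit 5) L44103 (by decide +kernel)
theorem L44105 : W_5 (nat_lit 4) (nat_lit 0x2000100013800cc002c00020000000000000000000000) (nat_lit 0x0) (nat_lit 0x2000100028000800000000000100008000000000000000000) := T_5 (nat_lit 92) (nat_lit 75) (nat_lit 7) (nat_lit 7) (nat_lit 4) L44104 (by decide +kernel)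
theorem L44106 : W_5 (nat_lit 5) (nat_lit 0x2000100013800cc002400020000000000000000000000) (nat_lit 0x0) (nat_lit 0x2000100028000800000001800100008000000000000000000) := T_5 (nat_lit 107) (nat_lit 108) (nat_lit 3) (nat_lit 4) (nat_lit 6) L44105 (by decide +kernel)
theorem L44107 : W_5 (nat_lit 6) (nat_lit 0x2000100013000cc002400020000000000000000000000) (nat_lit 0x0) (nat_lit 0x2000100029000880000001800100008000000000000000000) := T_5 (nat_lit 139) (nat_lit 156) (nat_lit 5) (nat_lit 4) (nat_lit 5) L44106 (by decide +kernel)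
theorem L44108 : W_5 (nat_lit 2) (nat_lit 0x200010001b002cc003400060008000000000000000000) (nat_lit 0x0) (nat_lit 0x2000100008000000000000000000000000000000000000000) := D_5 (nat_lit 176) (nat_lit 159) (nat_lit 193) (nat_lit 5) (nat_lit 7) (nat_lit 6) (nat_lit 5) (nat_lit 7) (nat_lit 7) (by decide +kernel)
theorem L44109 : W_5 (nat_lit 3) (nat_lit 0x2000100013002cc003400060008000000000000000000) (nat_lit 0x0) (nat_lit 0x2000100008000800000000000080000000000000000000000) := T_5 (nat_lit 143) (nat_lit 91) (nat_lit 4) (nat_lit 7) (nat_lit 9) L44108 (by decide +kernel)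
theorem L44110 : W_5 (nat_lit 4) (nat_lit 0x2000100013000cc003400060008000000000000000000) (nat_lit 0x0) (nat_lit 0x2000100008000800300000000080000000000000000000000) := T_5 (nat_lit 129) (nat_lit 128) (nat_lit 0) (nat_lit 10) (nat_lit 7) L44109 (by decide +kernel)
theorem L44111 : W_5 (nat_lit 5) (nat_lit 0x2000100013000cc002400060008000000000000000000) (nat_lit 0x0) (nat_lit 0x2000100008000800300001800080000000000000000000000) := T_5 (nat_lit 108) (nat_lit 107) (nat_lit 3) (nat_lit 4) (nat_lit 6) L44110 (by decide +kernel)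
theorem L44112 : W_5 (nat_lit 6) (nat_lit 0x2000100013000cc002400020008000000000000000000) (nat_lit 0x0) (nat_lit 0x20001000080008003000018000c0002000000000000000000) := T_5 (nat_lit 90) (nat_lit 73) (nat_lit 6) (nat_lit 4) (nat_lit 8) L44111 (by decide +kernel)
theorem L44113 : W_5 (nat_lit 7) (nat_lit 0x2000100013000cc002400020000000000000000000000) (nat_lit 0x0) (nat_lit 0x20001000080008003000018001c000a000000000000000000) := T_5 (nat_lit 75) (nat_lit 92) (nat_lit 7) (nat_lit 7) (nat_lit 4) L44112 (by decide +kernel)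
theorem L44114 : W_5 (nat_lit 2) (nat_lit 0x2000100013000cc0024001e0000000000000000000000) (nat_lit 0x0) (nat_lit 0x20000800000001000000000000000000000000000) := D_5 (nat_lit 143) (nat_lit 161) (nat_lit 108) (nat_lit 7) (nat_lit 7) (nat_lit 5) (nat_lit 4) (nat_lit 7) (nat_lit 9) (by decide +kernel)
theorem L44115 : W_5 (nat_lit 3) (nat_lit 0x2000100013000cc002400160000000000000000000000) (nat_lit 0x0) (nat_lit 0x20000800000001200080000000000000000000000) := T_5 (nat_lit 91) (nat_lit 105) (nat_lit 1) (nat_lit 7) (nat_lit 5) L44114 (by decide +kernel)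
theorem L44116 : W_5 (nat_lit 4) (nat_lit 0x2000100013000cc002400120000000000000000000000) (nat_lit 0x0) (nat_lit 0x200008000000012000c0002000000000000000000) := T_5 (nat_lit 90) (nat_lit 73) (nat_lit 6) (nat_lit 4) (nat_lit 8) L44115 (by decide +kernel)
theorem L44117 : W_5 (nat_lit 5) (nat_lit 0x2000100013000cc002400020000000000000000000000) (nat_lit 0x0) (nat_lit 0x200008000000012001c000a000000000000000000) := T_5 (nat_lit 92) (nat_lit 75) (nat_lit 7) (nat_lit 7) (nat_lit 4) L44116 (by decide +kernel)
theorem L44118 : W_5 (nat_lit 2) (nat_lit 0x2000100013000cc002c00160000000000000000000000) (nat_lit 0x0) (nat_lit 0x200280000000000000000000000) := D_5 (nat_lit 91) (nat_lit 93) (nat_lit 105) (nat_lit 1) (nat_lit 8) (nat_lit 5) (nat_lit 1) (nat_lit 7) (nat_lit 5) (by decide +kernel)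
theorem L44119 : W_5 (nat_lit 3) (nat_lit 0x2000100013000cc002c00060000000000000000000000) (nat_lit 0x0) (nat_lit 0x200380008000000000000000000) := T_5 (nat_lit 92) (nat_lit 75) (nat_lit 7) (nat_lit 7) (nat_lit 4) L44118 (by decide +kernel)
theorem L44120 : W_5 (nat_lit 4) (nat_lit 0x2000100013000cc002400060000000000000000000000) (nat_lit 0x0) (nat_lit 0x1a00380008000000000000000000) := T_5 (nat_lit 107) (nat_lit 108) (nat_lit 3) (nat_lit 4) (nat_lit 6) L44119 (by decide +kernel)
theorem L44121 : W_5 (nat_lit 5) (nat_lit 0x2000100013000cc002400020000000000000000000000) (nat_lit 0x0) (nat_lit 0x1a003c000a000000000000000000) := T_5 (nat_lit 90) (nat_lit 73) (nat_lit 6) (nat_lit 4) (nat_lit 8) L44120 (by decide +kernel)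
theorem L44122 : W_5 (nat_lit 2) (nat_lit 0x200010001b800cc002400160000000000000000000000) (nat_lit 0x0) (nat_lit 0x200080004000000000000000000) := D_5 (nat_lit 91) (nat_lit 74) (nat_lit 105) (nat_lit 4) (nat_lit 7) (nat_lit 8) (nat_lit 1) (nat_lit 7) (nat_lit 5) (by decide +kernel)
theorem L44123 : W_5 (nat_lit 3) (nat_lit 0x2000100013800cc002400160000000000000000000000) (nat_lit 0x0) (nat_lit 0x20000800000000200080004000000000000000000) := T_5 (nat_lit 143) (nat_lit 161) (nat_lit 7) (nat_lit 7) (nat_lit 5) L44122 (by decide +kernel)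
theorem L44124 : W_5 (nat_lit 4) (nat_lit 0x2000100013800cc002400060000000000000000000000) (nat_lit 0x0) (nat_lit 0x2000080000000020018000c000000000000000000) := T_5 (nat_lit 92) (nat_lit 75) (nat_lit 7) (nat_lit 7) (nat_lit 4) L44123 (by decide +kernel)
theorem L44125 : W_5 (nat_lit 5) (nat_lit 0x2000100013800cc002400020000000000000000000000) (nat_lit 0x0) (nat_lit 0x200008000000002001c000e000000000000000000) := T_5 (nat_lit 90) (nat_lit 73) (nat_lit 6) (nat_lit 4) (nat_lit 8) L44124 (by decide +kernel)
theorem L44126 : W_5 (nat_lit 6) (nat_lit 0x2000100013000cc002400020000000000000000000000) (nat_lit 0x0) (nat_lit 0x210008800000002001c000e000000000000000000) := T_5 (nat_lit 139) (nat_lit 156) (nat_lit 5) (nat_lit 4) (nat_lit 5) L44125 (by decide +kernel)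
theorem L44127 : W_5 (nat_lit 2) (nat_lit 0x200010001b800cc003400020000000000000000000000) (nat_lit 0x0) (nat_lit 0x2000100008000000000000000000000000000000000000000) := D_5 (nat_lit 176) (nat_lit 159) (nat_lit 193) (nat_lit 5) (nat_lit 7) (nat_lit 6) (nat_lit 5) (nat_lit 7) (nat_lit 7) (by decide +kernel)
theorem L44128 : W_5 (nat_lit 3) (nat_lit 0x2000100013800cc003400020000000000000000000000) (nat_lit 0x0) (nat_lit 0x2000100008000800000000000080000000000000000000000) := T_5 (nat_lit 143) (nat_lit 91) (nat_lit 4) (nat_lit 7) (nat_lit 9) L44127 (by decide +kernel)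
theorem L44129 : W_5 (nat_lit 4) (nat_lit 0x2000100013000cc003400020000000000000000000000) (nat_lit 0x0) (nat_lit 0x2000100009000880000000000080000000000000000000000) := T_5 (nat_lit 139) (nat_lit 156) (nat_lit 5) (nat_lit 4) (nat_lit 5) L44128 (by decide +kernel)
theorem L44130 : W_5 (nat_lit 5) (nat_lit 0x2000100013000cc002400020000000000000000000000) (nat_lit 0x0) (nat_lit 0x2000100009000880000001800080000000000000000000000) := T_5 (nat_lit 108) (nat_lit 107) (nat_lit 3) (nat_lit 4) (nat_lit 6) L44129 (by decide +kernel)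
theorem L44131 : W_5 (nat_lit 8) (nat_lit 0x2000100013000cc000400020000000000000000000000) (nat_lit 0x0) (nat_lit 0x2000100029000880300003a003c000e000000000000000000) := Q_5 (nat_lit 109) (C_5 L44107 (C_5 L44113 (C_5 L44117 (C_5 L44121 (C_5 L44126 (C_5 L44130 N_5)))))) (by decide +kernel)
theorem L44132 : W_5 (nat_lit 2) (nat_lit 0x2000100013800ec001400020000000000000000000000) (nat_lit 0x0) (nat_lit 0x100000a00000000000000000000000000) := D_5 (nat_lit 107) (nat_lit 105) (nat_lit 128) (nat_lit 3) (nat_lit 3) (nat_lit 6) (nat_lit 0) (nat_lit 9) (nat_lit 7) (by decide +kernel)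
theorem L44133 : W_5 (nat_lit 3) (nat_lit 0x2000100013800ec000400020000000000000000000000) (nat_lit 0x0) (nat_lit 0x800100001a00000000000000000000000000) := T_5 (nat_lit 108) (nat_lit 143) (nat_lit 4) (nat_lit 7) (nat_lit 10) L44132 (by decide +kernel)
theorem L44134 : W_5 (nat_lit 4) (nat_lit 0x2000100013800cc000400020000000000000000000000) (nat_lit 0x0) (nat_lit 0x800130001a00000000000000000000000000) := T_5 (nat_lit 125) (nat_lit 124) (nat_lit 1) (nat_lit 7) (nat_lit 7) L44133 (by decide +kernel)
theorem L44135 : W_5 (nat_lit 5) (nat_lit 0x2000100013000cc000400020000000000000000000000) (nat_lit 0x0) (nat_lit 0x1000880130001a00000000000000000000000000) := T_5 (nat_lit 139) (nat_lit 156) (nat_lit 5) (nat_lit 4) (nat_lit 5) L44134 (by decide +kernel)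
theorem L44136 : W_5 (nat_lit 2) (nat_lit 0x300010001b000ec002400060000000000000000000000) (nat_lit 0x0) (nat_lit 0x20000000000000000100008000000000000000000) := D_5 (nat_lit 92) (nat_lit 161) (nat_lit 75) (nat_lit 7) (nat_lit 7) (nat_lit 5) (nat_lit 7) (nat_lit 7) (nat_lit 4) (by decide +kernel)
theorem L44137 : W_5 (nat_lit 3) (nat_lit 0x300010001b000ec000400060000000000000000000000) (nat_lit 0x0) (nat_lit 0x28000000000002000100008000000000000000000) := T_5 (nat_lit 109) (nat_lit 159) (nat_lit 5) (nat_lit 7) (nat_lit 6) L44136 (by decide +kernel)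
theorem L44138 : W_5 (nat_lit 4) (nat_lit 0x200010001b000ec000400060000000000000000000000) (nat_lit 0x0) (nat_lit 0x2000100028000000000002000100008000000000000000000) := T_5 (nat_lit 176) (nat_lit 193) (nat_lit 5) (nat_lit 7) (nat_lit 7) L44137 (by decide +kernel)
theorem L44139 : W_5 (nat_lit 5) (nat_lit 0x2000100013000ec000400060000000000000000000000) (nat_lit 0x0) (nat_lit 0x2000100028000800000003000100008000000000000000000) := T_5 (nat_lit 143) (nat_lit 108) (nat_lit 4) (nat_lit 7) (nat_lit 10) L44138 (by decide +kernel)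
theorem L44140 : W_5 (nat_lit 6) (nat_lit 0x2000100013000cc000400060000000000000000000000) (nat_lit 0x0) (nat_lit 0x2000100028000800030003000100008000000000000000000) := T_5 (nat_lit 125) (nat_lit 124) (nat_lit 1) (nat_lit 8) (nat_lit 7) L44139 (by decide +kernel)
theorem L44141 : W_5 (nat_lit 7) (nat_lit 0x2000100013000cc000400020000000000000000000000) (nat_lit 0x0) (nat_lit 0x200010002800080003000300014000a000000000000000000) := T_5 (nat_lit 90) (nat_lit 73) (nat_lit 6) (nat_lit 4) (nat_lit 8) L44140 (by decide +kernel)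
theorem L44142 : W_5 (nat_lit 2) (nat_lit 0x2000100013000ec000c00020000000000000000000000) (nat_lit 0x0) (nat_lit 0x3200000000000000000000000000) := D_5 (nat_lit 108) (nat_lit 105) (nat_lit 109) (nat_lit 3) (nat_lit 3) (nat_lit 6) (nat_lit 3) (nat_lit 4) (nat_lit 6) (by decide +kernel)
theorem L44143 : W_5 (nat_lit 3) (nat_lit 0x2000100013000cc000c00020000000000000000000000) (nat_lit 0x0) (nat_lit 0x30003200000000000000000000000000) := T_5 (nat_lit 125) (nat_lit 124) (nat_lit 1) (nat_lit 8) (nat_lit 7) L44142 (by decide +kernel)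
theorem L44144 : W_5 (nat_lit 2) (nat_lit 0x2000100013000ec000c00020000000000000000000000) (nat_lit 0x0) (nat_lit 0x100001200000000000000000000000000) := D_5 (nat_lit 108) (nat_lit 105) (nat_lit 128) (nat_lit 3) (nat_lit 3) (nat_lit 6) (nat_lit 0) (nat_lit 9) (nat_lit 7) (by decide +kernel)
theorem L44145 : W_5 (nat_lit 3) (nat_lit 0x2000100013000cc000c00020000000000000000000000) (nat_lit 0x0) (nat_lit 0x130001200000000000000000000000000) := T_5 (nat_lit 125) (nat_lit 124) (nat_lit 1) (nat_lit 8) (nat_lit 7) L44144 (by decide +kernel)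
theorem L44146 : W_5 (nat_lit 2) (nat_lit 0x2000100013800cc002c00160000000000000000000000) (nat_lit 0x0) (nat_lit 0x200280000000000000000000000) := D_5 (nat_lit 91) (nat_lit 93) (nat_lit 105) (nat_lit 1) (nat_lit 8) (nat_lit 5) (nat_lit 1) (nat_lit 7) (nat_lit 5) (by decide +kernel)
theorem L44147 : W_5 (nat_lit 3) (nat_lit 0x2000100013800cc002c00120000000000000000000000) (nat_lit 0x0) (nat_lit 0x2002c0002000000000000000000) := T_5 (nat_lit 90) (nat_lit 73) (nat_lit 6) (nat_lit 4) (nat_lit 8) L44146 (by decide +kernel)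
theorem L44148 : W_5 (nat_lit 4) (nat_lit 0x2000100013800cc002c00020000000000000000000000) (nat_lit 0x0) (nat_lit 0x2003c000a000000000000000000) := T_5 (nat_lit 92) (nat_lit 75) (nat_lit 7) (nat_lit 7) (nat_lit 4) L44147 (by decide +kernel)
theorem L44149 : W_5 (nat_lit 5) (nat_lit 0x2000100013000cc002c00020000000000000000000000) (nat_lit 0x0) (nat_lit 0x10000800000002003c000a000000000000000000) := T_5 (nat_lit 139) (nat_lit 156) (nat_lit 5) (nat_lit 4) (nat_lit 5) L44148 (by decide +kernel)
theorem L44150 : W_5 (nat_lit 6) (nat_lit 0x2000100013000cc000c00020000000000000000000000) (nat_lit 0x0) (nat_lit 0x10000800000032003c000a000000000000000000) := T_5 (nat_lit 109) (nat_lit 108) (nat_lit 3) (nat_lit 4) (nat_lit 6) L44149 (by decide +kernel)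
theorem L44151 : W_5 (nat_lit 2) (nat_lit 0x2000100013a00dc000c000e0000000000000000000000) (nat_lit 0x0) (nat_lit 0x300100000000000000000000000) := D_5 (nat_lit 105) (nat_lit 104) (nat_lit 92) (nat_lit 2) (nat_lit 2) (nat_lit 6) (nat_lit 1) (nat_lit 7) (nat_lit 5) (by decide +kernel)
theorem L44152 : W_5 (nat_lit 3) (nat_lit 0x2000100013a00dc000c00060000000000000000000000) (nat_lit 0x0) (nat_lit 0x300180004000000000000000000) := T_5 (nat_lit 91) (nat_lit 74) (nat_lit 6) (nat_lit 5) (nat_lit 8) L44151 (by decide +kernel)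
theorem L44153 : W_5 (nat_lit 4) (nat_lit 0x2000100013800dc000c00060000000000000000000000) (nat_lit 0x0) (nat_lit 0x60000000300180004000000000000000000) := T_5 (nat_lit 137) (nat_lit 138) (nat_lit 2) (nat_lit 1) (nat_lit 8) L44152 (by decide +kernel)
theorem L44154 : W_5 (nat_lit 5) (nat_lit 0x2000100013000dc000c00060000000000000000000000) (nat_lit 0x0) (nat_lit 0x10000e0000000300180004000000000000000000) := T_5 (nat_lit 139) (nat_lit 156) (nat_lit 5) (nat_lit 4) (nat_lit 5) L44153 (by decide +kernel)
theorem L44155 : W_5 (nat_lit 6) (nat_lit 0x2000100013000cc000c00060000000000000000000000) (nat_lit 0x0) (nat_lit 0x10000e0030000300180004000000000000000000) := T_5 (nat_lit 124) (nat_lit 125) (nat_lit 1) (nat_lit 8) (nat_lit 7) L44154 (by decide +kernel)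
theorem L44156 : W_5 (nat_lit 7) (nat_lit 0x2000100013000cc000c00020000000000000000000000) (nat_lit 0x0) (nat_lit 0x10000e00300003001c0006000000000000000000) := T_5 (nat_lit 90) (nat_lit 73) (nat_lit 6) (nat_lit 4) (nat_lit 8) L44155 (by decide +kernel)
theorem L44157 : W_5 (nat_lit 2) (nat_lit 0x2000100013000ec000c00020000000000000000000000) (nat_lit 0x0) (nat_lit 0x100003000000000000000000000000000) := D_5 (nat_lit 108) (nat_lit 109) (nat_lit 128) (nat_lit 3) (nat_lit 4) (nat_lit 6) (nat_lit 0) (nat_lit 9) (nat_lit 7) (by decide +kernel)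
theorem L44158 : W_5 (nat_lit 3) (nat_lit 0x2000100013000cc000c00020000000000000000000000) (nat_lit 0x0) (nat_lit 0x130003000000000000000000000000000) := T_5 (nat_lit 125) (nat_lit 124) (nat_lit 1) (nat_lit 8) (nat_lit 7) L44157 (by decide +kernel)
theorem L44159 : W_5 (nat_lit 8) (nat_lit 0x2000100013000cc000400020000000000000000000000) (nat_lit 0x0) (nat_lit 0x10000e0130003b003c000e000000000000000000) := Q_5 (nat_lit 107) (C_5 L44143 (C_5 L44145 (C_5 L44150 (C_5 L44156 (C_5 L44158 N_5))))) (by decide +kernel)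
theorem L44160 : W_5 (nat_lit 2) (nat_lit 0x2000100013000ec0004001e0010000000000000000000) (nat_lit 0x0) (nat_lit 0x800200020000000000000000000) := D_5 (nat_lit 93) (nat_lit 107) (nat_lit 77) (nat_lit 1) (nat_lit 8) (nat_lit 5) (nat_lit 2) (nat_lit 5) (nat_lit 5) (by decide +kernel)
theorem L44161 : W_5 (nat_lit 3) (nat_lit 0x2000100013000ec0004001e0000000000000000000000) (nat_lit 0x0) (nat_lit 0x800200038000000000000000000) := T_5 (nat_lit 76) (nat_lit 75) (nat_lit 2) (nat_lit 4) (nat_lit 5) L44160 (by decide +kernel)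
theorem L44162 : W_5 (nat_lit 4) (nat_lit 0x2000100013000cc0004001e0000000000000000000000) (nat_lit 0x0) (nat_lit 0x30000800200038000000000000000000) := T_5 (nat_lit 125) (nat_lit 124) (nat_lit 1) (nat_lit 8) (nat_lit 7) L44161 (by decide +kernel)
theorem L44163 : W_5 (nat_lit 5) (nat_lit 0x2000100013000cc000400160000000000000000000000) (nat_lit 0x0) (nat_lit 0x30000a00280038000000000000000000) := T_5 (nat_lit 91) (nat_lit 105) (nat_lit 1) (nat_lit 7) (nat_lit 5) L44162 (by decide +kernel)
theorem L44164 : W_5 (nat_lit 6) (nat_lit 0x2000100013000cc000400120000000000000000000000) (nat_lit 0x0) (nat_lit 0x30000a002c003a000000000000000000) := T_5 (nat_lit 90) (nat_lit 73) (nat_lit 6) (nat_lit 4) (nat_lit 8) L44163 (by decide +kernel)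
theorem L44165 : W_5 (nat_lit 2) (nat_lit 0x200010001b800ec002400120000000000000000000000) (nat_lit 0x0) (nat_lit 0x2000100008000000000000000000000000000000000000000) := D_5 (nat_lit 176) (nat_lit 193) (nat_lit 159) (nat_lit 5) (nat_lit 7) (nat_lit 7) (nat_lit 5) (nat_lit 7) (nat_lit 6) (by decide +kernel)
theorem L44166 : W_5 (nat_lit 3) (nat_lit 0x2000100013800ec002400120000000000000000000000) (nat_lit 0x0) (nat_lit 0x2000100028000800000000000000000000000000000000000) := T_5 (nat_lit 143) (nat_lit 161) (nat_lit 7) (nat_lit 7) (nat_lit 5) L44165 (by decide +kernel)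
theorem L44167 : W_5 (nat_lit 4) (nat_lit 0x2000100013000ec002400120000000000000000000000) (nat_lit 0x0) (nat_lit 0x2000100029000880000000000000000000000000000000000) := T_5 (nat_lit 139) (nat_lit 156) (nat_lit 5) (nat_lit 4) (nat_lit 5) L44166 (by decide +kernel)
theorem L44168 : W_5 (nat_lit 5) (nat_lit 0x2000100013000ec000400120000000000000000000000) (nat_lit 0x0) (nat_lit 0x2000100029000880000002000000008000000000000000000) := T_5 (nat_lit 109) (nat_lit 75) (nat_lit 7) (nat_lit 7) (nat_lit 4) L44167 (by decide +kernel)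
theorem L44169 : W_5 (nat_lit 6) (nat_lit 0x2000100013000cc000400120000000000000000000000) (nat_lit 0x0) (nat_lit 0x2000100029000880030002000000008000000000000000000) := T_5 (nat_lit 125) (nat_lit 124) (nat_lit 1) (nat_lit 8) (nat_lit 7) L44168 (by decide +kernel)
theorem L44170 : W_5 (nat_lit 2) (nat_lit 0x2000100013800cc0004001e0000000000000000000000) (nat_lit 0x0) (nat_lit 0x2000000018000000000000000000) := D_5 (nat_lit 75) (nat_lit 109) (nat_lit 76) (nat_lit 7) (nat_lit 7) (nat_lit 4) (nat_lit 2) (nat_lit 4) (nat_lit 5) (by decide +kernel)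
theorem L44171 : W_5 (nat_lit 3) (nat_lit 0x2000100013800cc000400160000000000000000000000) (nat_lit 0x0) (nat_lit 0x2200080018000000000000000000) := T_5 (nat_lit 91) (nat_lit 105) (nat_lit 1) (nat_lit 7) (nat_lit 5) L44170 (by decide +kernel)
theorem L44172 : W_5 (nat_lit 4) (nat_lit 0x2000100013800cc000400120000000000000000000000) (nat_lit 0x0) (nat_lit 0x22000c001a000000000000000000) := T_5 (nat_lit 90) (nat_lit 73) (nat_lit 6) (nat_lit 4) (nat_lit 8) L44171 (by decide +kernel)
theorem L44173 : W_5 (nat_lit 5) (nat_lit 0x2000100013000cc000400120000000000000000000000) (nat_lit 0x0) (nat_lit 0x10000800000022000c001a000000000000000000) := T_5 (nat_lit 139) (nat_lit 156) (nat_lit 5) (nat_lit 4) (nat_lit 5) L44172 (by decide +kernel)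
theorem L44174 : W_5 (nat_lit 2) (nat_lit 0x2000100013800ec0004007e0020000000000000000000) (nat_lit 0x0) (nat_lit 0x100018000000000000000000000000000) := D_5 (nat_lit 111) (nat_lit 112) (nat_lit 128) (nat_lit 3) (nat_lit 6) (nat_lit 5) (nat_lit 5) (nat_lit 9) (nat_lit 4) (by decide +kernel)
theorem L44175 : W_5 (nat_lit 3) (nat_lit 0x2000100013800ec0004003e0020000000000000000000) (nat_lit 0x0) (nat_lit 0x100018000400040000000000000000000) := T_5 (nat_lit 94) (nat_lit 78) (nat_lit 2) (nat_lit 6) (nat_lit 5) L44174 (by decide +kernel)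
theorem L44176 : W_5 (nat_lit 4) (nat_lit 0x2000100013800ec0004003e0000000000000000000000) (nat_lit 0x0) (nat_lit 0x100018000400070000000000000000000) := T_5 (nat_lit 77) (nat_lit 76) (nat_lit 2) (nat_lit 5) (nat_lit 5) L44175 (by decide +kernel)
theorem L44177 : W_5 (nat_lit 5) (nat_lit 0x2000100013800ec0004001e0000000000000000000000) (nat_lit 0x0) (nat_lit 0x100018800600070000000000000000000) := T_5 (nat_lit 93) (nat_lit 107) (nat_lit 1) (nat_lit 8) (nat_lit 5) L44176 (by decide +kernel)
theorem L44178 : W_5 (nat_lit 6) (nat_lit 0x2000100013800ec000400160000000000000000000000) (nat_lit 0x0) (nat_lit 0x100018a00680070000000000000000000) := T_5 (nat_lit 91) (nat_lit 105) (nat_lit 1) (nat_lit 7) (nat_lit 5) L44177 (by decide +kernel)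
theorem L44179 : W_5 (nat_lit 7) (nat_lit 0x2000100013800ec000400120000000000000000000000) (nat_lit 0x0) (nat_lit 0x100018a006c0072000000000000000000) := T_5 (nat_lit 90) (nat_lit 73) (nat_lit 6) (nat_lit 4) (nat_lit 8) L44178 (by decide +kernel)
theorem L44180 : W_5 (nat_lit 8) (nat_lit 0x2000100013000ec000400120000000000000000000000) (nat_lit 0x0) (nat_lit 0x1000080100018a006c0072000000000000000000) := T_5 (nat_lit 139) (nat_lit 156) (nat_lit 5) (nat_lit 4) (nat_lit 5) L44179 (by decide +kernel)
theorem L44181 : W_5 (nat_lit 9) (nat_lit 0x2000100013000cc000400120000000000000000000000) (nat_lit 0x0) (nat_lit 0x1000080130018a006c0072000000000000000000) := T_5 (nat_lit 125) (nat_lit 124) (nat_lit 1) (nat_lit 8) (nat_lit 7) L44180 (by decide +kernel)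
theorem L44182 : W_5 (nat_lit 10) (nat_lit 0x2000100013000cc000400020000000000000000000000) (nat_lit 0x0) (nat_lit 0x200010002900088013001aa007c007a000000000000000000) := Q_5 (nat_lit 92) (C_5 L44164 (C_5 L44169 (C_5 L44173 (C_5 L44181 N_5)))) (by decide +kernel)
theorem L44183 : W_5 (nat_lit 11) (nat_lit 0x20001000130008c000400020000000000000000000000) (nat_lit 0x0) (nat_lit 0x20001000290008e037001bb007c007e000000000000000000) := Q_5 (nat_lit 126) (C_5 L44131 (C_5 L44135 (C_5 L44141 (C_5 L44159 (C_5 L44182 N_5))))) (by decide +kernel)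
theorem L44184 : W_5 (nat_lit 12) (nat_lit 0x20001000130008c000000020000000000000000000000) (nat_lit 0x0) (nat_lit 0x20001000290008e037001bf007c007fe001c000c000400000) := Q_5 (nat_lit 106) (C_5 L44093 (C_5 L44094 (C_5 L44102 (C_5 L44183 N_5)))) (by decide +kernel)
theorem L44185 : W_5 (nat_lit 6) (nat_lit 0x20001000130008c000400020000000000000000000000) (nat_lit 0x0) (nat_lit 0x1000080000000b801de002c00000000000000000) := Q_5 (nat_lit 105) (C_5 L44086 (C_5 L44073 (C_5 L44082 (C_5 L44077 N_5)))) (by decide +kernel)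
theorem L44186 : W_5 (nat_lit 10) (nat_lit 0x20001000130008c000000020000000000000000000000) (nat_lit 0x0) (nat_lit 0x1000080010000f801de003e001c000c000400000) := Q_5 (nat_lit 106) (C_5 L44102 (C_5 L44094 (C_5 L44093 (C_5 L44185 N_5)))) (by decide +kernel)
theorem L44187 : W_5 (nat_lit 2) (nat_lit 0x20001000130008c000000030000000000000000000000) (nat_lit 0x0) (nat_lit 0x600000000800000000000000000) := D_5 (nat_lit 71) (nat_lit 106) (nat_lit 105) (nat_lit 4) (nat_lit 4) (nat_lit 8) (nat_lit 7) (nat_lit 3) (nat_lit 4) (by decide +kernel)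
theorem L44188 : W_5 (nat_lit 8) (nat_lit 0x20001000138008c000200030000000000000000000000) (nat_lit 0x0) (nat_lit 0xe000700018001c000e000400000000000000000) := T_5 (nat_lit 87) (nat_lit 70) (nat_lit 4) (nat_lit 3) (nat_lit 8) L44092 (by decide +kernel)
theorem L44189 : W_5 (nat_lit 9) (nat_lit 0x20001000130008c000200030000000000000000000000) (nat_lit 0x0) (nat_lit 0xe000f00018001c000e001400000000000000000) := T_5 (nat_lit 139) (nat_lit 72) (nat_lit 6) (nat_lit 3) (nat_lit 8) L44188 (by decide +kernel)
theorem L44190 : W_5 (nat_lit 10) (nat_lit 0x20001000130008c000000030000000000000000000000) (nat_lit 0x0) (nat_lit 0xe000f00018003c000e001c00000000000000000) := T_5 (nat_lit 105) (nat_lit 71) (nat_lit 7) (nat_lit 3) (nat_lit 4) L44189 (by decide +kernel)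
theorem L44191 : W_5 (nat_lit 2) (nat_lit 0x20001000130008c000400030000000000000000000000) (nat_lit 0x0) (nat_lit 0x80010000000000001000000000000000000) := D_5 (nat_lit 72) (nat_lit 139) (nat_lit 124) (nat_lit 5) (nat_lit 4) (nat_lit 4) (nat_lit 7) (nat_lit 4) (nat_lit 4) (by decide +kernel)
theorem L44192 : W_5 (nat_lit 3) (nat_lit 0x20001000130008c000000030000000000000000000000) (nat_lit 0x0) (nat_lit 0x80010000400000001800000000000000000) := T_5 (nat_lit 106) (nat_lit 71) (nat_lit 4) (nat_lit 4) (nat_lit 8) L44191 (by decide +kernel)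
theorem L44193 : W_5 (nat_lit 2) (nat_lit 0x20001000130008c000400070001000180004000000000) (nat_lit 0x0) (nat_lit 0x40002000100000) := D_5 (nat_lit 37) (nat_lit 20) (nat_lit 54) (nat_lit 4) (nat_lit 4) (nat_lit 5) (nat_lit 4) (nat_lit 4) (nat_lit 6) (by decide +kernel)
theorem L44194 : W_5 (nat_lit 3) (nat_lit 0x20001000130008c000400070001000180000000000000) (nat_lit 0x0) (nat_lit 0x800000000000040006000100000) := T_5 (nat_lit 38) (nat_lit 107) (nat_lit 7) (nat_lit 4) (nat_lit 2) L44193 (by decide +kernel)
theorem L44195 : W_5 (nat_lit 4) (nat_lit 0x20001000130008c000400070001000080000000000000) (nat_lit 0x0) (nat_lit 0x80000000000014000e000100000) := T_5 (nat_lit 56) (nat_lit 39) (nat_lit 6) (nat_lit 4) (nat_lit 6) L44194 (by decide +kernel)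
theorem L44196 : W_5 (nat_lit 5) (nat_lit 0x20001000130008c000400070001000000000000000000) (nat_lit 0x0) (nat_lit 0xa000000000001c000e000100000) := T_5 (nat_lit 55) (nat_lit 105) (nat_lit 5) (nat_lit 4) (nat_lit 3) L44195 (by decide +kernel)
theorem L44197 : W_5 (nat_lit 6) (nat_lit 0x20001000130008c000400070000000000000000000000) (nat_lit 0x0) (nat_lit 0x10000a000000010001c000e000100000) := T_5 (nat_lit 72) (nat_lit 124) (nat_lit 7) (nat_lit 4) (nat_lit 4) L44196 (by decide +kernel)
theorem L44198 : W_5 (nat_lit 7) (nat_lit 0x20001000130008c000400030000000000000000000000) (nat_lit 0x0) (nat_lit 0x10000a000400030001c000e000100000) := T_5 (nat_lit 90) (nat_lit 73) (nat_lit 6) (nat_lit 4) (nat_lit 8) L44197 (by decide +kernel)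
theorem L44199 : W_5 (nat_lit 2) (nat_lit 0x20001000130008c000400030001000000000000000000) (nat_lit 0x0) (nat_lit 0x40002000100000000000000) := D_5 (nat_lit 73) (nat_lit 90) (nat_lit 56) (nat_lit 6) (nat_lit 4) (nat_lit 8) (nat_lit 6) (nat_lit 4) (nat_lit 7) (by decide +kernel)
theorem L44200 : W_5 (nat_lit 3) (nat_lit 0x20001000130008c000400030000000000000000000000) (nat_lit 0x0) (nat_lit 0x80000000000040003000100000000000000) := T_5 (nat_lit 72) (nat_lit 139) (nat_lit 5) (nat_lit 4) (nat_lit 4) L44199 (by decide +kernel)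
theorem L44201 : W_5 (nat_lit 2) (nat_lit 0x20001000130008c001400070000000000000000000000) (nat_lit 0x0) (nat_lit 0x2800080000000000000000000000) := D_5 (nat_lit 109) (nat_lit 91) (nat_lit 107) (nat_lit 3) (nat_lit 3) (nat_lit 5) (nat_lit 1) (nat_lit 7) (nat_lit 6) (by decide +kernel)
theorem L44202 : W_5 (nat_lit 3) (nat_lit 0x20001000130008c001400030000000000000000000000) (nat_lit 0x0) (nat_lit 0x28000c0002000000000000000000) := T_5 (nat_lit 90) (nat_lit 73) (nat_lit 6) (nat_lit 4) (nat_lit 8) L44201 (by decide +kernel)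
theorem L44203 : W_5 (nat_lit 2) (nat_lit 0x20001000130008c001500078000400000000000000000) (nat_lit 0x0) (nat_lit 0x80000000200080000000000000000000000) := D_5 (nat_lit 105) (nat_lit 139) (nat_lit 91) (nat_lit 4) (nat_lit 3) (nat_lit 8) (nat_lit 1) (nat_lit 6) (nat_lit 5) (by decide +kernel)
theorem L44204 : W_5 (nat_lit 3) (nat_lit 0x20001000130008c001400078000400000000000000000) (nat_lit 0x0) (nat_lit 0x80000000380080000000000000000000000) := T_5 (nat_lit 104) (nat_lit 103) (nat_lit 1) (nat_lit 5) (nat_lit 5) L44203 (by decide +kernel)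
theorem L44205 : W_5 (nat_lit 4) (nat_lit 0x20001000130008c001400078000000000000000000000) (nat_lit 0x0) (nat_lit 0x80000000380080000600000000000000000) := T_5 (nat_lit 70) (nat_lit 69) (nat_lit 0) (nat_lit 5) (nat_lit 5) L44204 (by decide +kernel)
theorem L44206 : W_5 (nat_lit 5) (nat_lit 0x20001000130008c001400070000000000000000000000) (nat_lit 0x0) (nat_lit 0x80000000b80088000600000000000000000) := T_5 (nat_lit 87) (nat_lit 107) (nat_lit 3) (nat_lit 2) (nat_lit 5) L44205 (by decide +kernel)
theorem L44207 : W_5 (nat_lit 6) (nat_lit 0x20001000130008c001400030000000000000000000000) (nat_lit 0x0) (nat_lit 0x80000000b800c8002600000000000000000) := T_5 (nat_lit 90) (nat_lit 73) (nat_lit 6) (nat_lit 4) (nat_lit 8) L44206 (by decide +kernel)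
theorem L44208 : W_5 (nat_lit 2) (nat_lit 0x20001000130008c0014000f0000000000000000000000) (nat_lit 0x0) (nat_lit 0x300100000000000000000000000) := D_5 (nat_lit 105) (nat_lit 92) (nat_lit 104) (nat_lit 1) (nat_lit 7) (nat_lit 5) (nat_lit 1) (nat_lit 6) (nat_lit 5) (by decide +kernel)
theorem L44209 : W_5 (nat_lit 3) (nat_lit 0x20001000130008c001400070000000000000000000000) (nat_lit 0x0) (nat_lit 0x2300180000000000000000000000) := T_5 (nat_lit 91) (nat_lit 109) (nat_lit 3) (nat_lit 3) (nat_lit 5) L44208 (by decide +kernel)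
theorem L44210 : W_5 (nat_lit 4) (nat_lit 0x20001000130008c001400030000000000000000000000) (nat_lit 0x0) (nat_lit 0x23001c0002000000000000000000) := T_5 (nat_lit 90) (nat_lit 73) (nat_lit 6) (nat_lit 4) (nat_lit 8) L44209 (by decide +kernel)
theorem L44211 : W_5 (nat_lit 2) (nat_lit 0x20001000130008c001c00030000000000000000000000) (nat_lit 0x0) (nat_lit 0x20000c000000000000000000000) := D_5 (nat_lit 87) (nat_lit 105) (nat_lit 86) (nat_lit 0) (nat_lit 6) (nat_lit 6) (nat_lit 3) (nat_lit 1) (nat_lit 5) (by decide +kernel)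
theorem L44212 : W_5 (nat_lit 3) (nat_lit 0x20001000130008c001400030000000000000000000000) (nat_lit 0x0) (nat_lit 0x2a0000c000000000000000000000) := T_5 (nat_lit 107) (nat_lit 109) (nat_lit 1) (nat_lit 7) (nat_lit 6) L44211 (by decide +kernel)
theorem L44213 : W_5 (nat_lit 7) (nat_lit 0x20001000130008c000400030000000000000000000000) (nat_lit 0x0) (nat_lit 0x80000003b801cc002600000000000000000) := Q_5 (nat_lit 108) (C_5 L44202 (C_5 L44207 (C_5 L44210 (C_5 L44212 N_5)))) (by decide +kernel)
theorem L44214 : W_5 (nat_lit 8) (nat_lit 0x20001000130008c000000030000000000000000000000) (nat_lit 0x0) (nat_lit 0x80010003f801cc0036001c000e000100000) := Q_5 (nat_lit 106) (C_5 L44191 (C_5 L44198 (C_5 L44200 (C_5 L44213 N_5)))) (by decide +kernel)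
theorem L44215 : W_5 (nat_lit 11) (nat_lit 0x20001000130008c000000020000000000000000000000) (nat_lit 0x0) (nat_lit 0xe000f0011803fc01de003e001c000e000100000) := Q_5 (nat_lit 88) (C_5 L44187 (C_5 L44190 (C_5 L44192 (C_5 L44214 N_5)))) (by decide +kernel)
theorem L44216 : W_5 (nat_lit 2) (nat_lit 0x20001000130008c00040007000100008000a000000000) (nat_lit 0x0) (nat_lit 0x4000500000) := D_5 (nat_lit 38) (nat_lit 22) (nat_lit 20) (nat_lit 6) (nat_lit 4) (nat_lit 5) (nat_lit 4) (nat_lit 4) (nat_lit 5) (by decide +kernel)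
theorem L44217 : W_5 (nat_lit 3) (nat_lit 0x20001000130008c000400070001000080008000000000) (nat_lit 0x0) (nat_lit 0x40006000500000) := T_5 (nat_lit 37) (nat_lit 54) (nat_lit 4) (nat_lit 4) (nat_lit 6) L44216 (by decide +kernel)
theorem L44218 : W_5 (nat_lit 4) (nat_lit 0x20001000130008c000400070001000080000000000000) (nat_lit 0x0) (nat_lit 0x14000e000500000) := T_5 (nat_lit 39) (nat_lit 56) (nat_lit 6) (nat_lit 4) (nat_lit 6) L44217 (by decide +kernel)
theorem L44219 : W_5 (nat_lit 5) (nat_lit 0x20001000130008c000400070001000000000000000000) (nat_lit 0x0) (nat_lit 0x2000000000001c000e000500000) := T_5 (nat_lit 55) (nat_lit 105) (nat_lit 5) (nat_lit 4) (nat_lit 3) L44218 (by decide +kernel)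
theorem L44220 : W_5 (nat_lit 6) (nat_lit 0x20001000130008c000400070000000000000000000000) (nat_lit 0x0) (nat_lit 0x100002000000010001c000e000500000) := T_5 (nat_lit 72) (nat_lit 124) (nat_lit 7) (nat_lit 4) (nat_lit 4) L44219 (by decide +kernel)
theorem L44221 : W_5 (nat_lit 7) (nat_lit 0x20001000130008c000400030000000000000000000000) (nat_lit 0x0) (nat_lit 0x100002000400030001c000e000500000) := T_5 (nat_lit 90) (nat_lit 73) (nat_lit 6) (nat_lit 4) (nat_lit 8) L44220 (by decide +kernel)
theorem L44222 : W_5 (nat_lit 8) (nat_lit 0x20001000130008c000400020000000000000000000000) (nat_lit 0x0) (nat_lit 0x100002000500038001c000e000500000) := T_5 (nat_lit 88) (nat_lit 71) (nat_lit 4) (nat_lit 4) (nat_lit 8) L44221 (by decide +kernel)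
theorem L44223 : W_5 (nat_lit 7) (nat_lit 0x20001000130008c000400060000800000000000000000) (nat_lit 0x0) (nat_lit 0xa001800016001c000c000400000) := T_5 (nat_lit 72) (nat_lit 54) (nat_lit 4) (nat_lit 4) (nat_lit 7) L44099 (by decide +kernel)
theorem L44224 : W_5 (nat_lit 8) (nat_lit 0x20001000130008c000400020000800000000000000000) (nat_lit 0x0) (nat_lit 0xa001c00036001c000c000400000) := T_5 (nat_lit 90) (nat_lit 73) (nat_lit 6) (nat_lit 4) (nat_lit 8) L44223 (by decide +kernel)
theorem L44225 : W_5 (nat_lit 9) (nat_lit 0x20001000130008c000400020000000000000000000000) (nat_lit 0x0) (nat_lit 0xa001d0003e001c000c000400000) := T_5 (nat_lit 71) (nat_lit 88) (nat_lit 4) (nat_lit 4) (nat_lit 8) L44224 (by decide +kernel)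
theorem L44226 : W_5 (nat_lit 3) (nat_lit 0x20001000130008c000400030000000000000000000000) (nat_lit 0x0) (nat_lit 0x10000000040003000100000000000000) := T_5 (nat_lit 72) (nat_lit 124) (nat_lit 7) (nat_lit 4) (nat_lit 4) L44199 (by decide +kernel)
theorem L44227 : W_5 (nat_lit 4) (nat_lit 0x20001000130008c000400020000000000000000000000) (nat_lit 0x0) (nat_lit 0x10000000050003800100000000000000) := T_5 (nat_lit 88) (nat_lit 71) (nat_lit 4) (nat_lit 4) (nat_lit 8) L44226 (by decide +kernel)
theorem L44228 : W_5 (nat_lit 2) (nat_lit 0x20001000130008c000400030001000080000000000000) (nat_lit 0x0) (nat_lit 0x2000100008000000000) := D_5 (nat_lit 56) (nat_lit 73) (nat_lit 39) (nat_lit 6) (nat_lit 4) (nat_lit 7) (nat_lit 6) (nat_lit 4) (nat_lit 6) (by decide +kernel)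
theorem L44229 : W_5 (nat_lit 3) (nat_lit 0x20001000130008c000400030001000000000000000000) (nat_lit 0x0) (nat_lit 0x200000002000180008000000000) := T_5 (nat_lit 55) (nat_lit 105) (nat_lit 5) (nat_lit 4) (nat_lit 3) L44228 (by decide +kernel)
theorem L44230 : W_5 (nat_lit 4) (nat_lit 0x20001000130008c000400030000000000000000000000) (nat_lit 0x0) (nat_lit 0x10000200000003000180008000000000) := T_5 (nat_lit 72) (nat_lit 124) (nat_lit 7) (nat_lit 4) (nat_lit 4) L44229 (by decide +kernel)
theorem L44231 : W_5 (nat_lit 5) (nat_lit 0x20001000130008c000400020000000000000000000000) (nat_lit 0x0) (nat_lit 0x10000200010003800180008000000000) := T_5 (nat_lit 88) (nat_lit 71) (nat_lit 4) (nat_lit 4) (nat_lit 8) L44230 (by decide +kernel)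
theorem L44232 : W_5 (nat_lit 2) (nat_lit 0x20001000130008c000400020001000000000000000000) (nat_lit 0x0) (nat_lit 0x10000800040000000000000) := D_5 (nat_lit 71) (nat_lit 54) (nat_lit 88) (nat_lit 4) (nat_lit 4) (nat_lit 7) (nat_lit 4) (nat_lit 4) (nat_lit 8) (by decide +kernel)
theorem L44233 : W_5 (nat_lit 3) (nat_lit 0x20001000130008c000400020000000000000000000000) (nat_lit 0x0) (nat_lit 0x10000000010001800040000000000000) := T_5 (nat_lit 72) (nat_lit 124) (nat_lit 7) (nat_lit 4) (nat_lit 4) L44232 (by decide +kernel)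
theorem L44234 : W_5 (nat_lit 2) (nat_lit 0x2000100013000cc0025000f8008200000000000000000) (nat_lit 0x0) (nat_lit 0x800004000100000000000000000) := D_5 (nat_lit 86) (nat_lit 107) (nat_lit 68) (nat_lit 3) (nat_lit 1) (nat_lit 5) (nat_lit 0) (nat_lit 4) (nat_lit 5) (by decide +kernel)
theorem L44235 : W_5 (nat_lit 3) (nat_lit 0x2000100013000cc0025000f8008000000000000000000) (nat_lit 0x0) (nat_lit 0x800004000700000000000000000) := T_5 (nat_lit 69) (nat_lit 70) (nat_lit 0) (nat_lit 5) (nat_lit 5) L44234 (by decide +kernel)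
theorem L44236 : W_5 (nat_lit 4) (nat_lit 0x2000100013000cc0025000f0008000000000000000000) (nat_lit 0x0) (nat_lit 0x88000c000700000000000000000) := T_5 (nat_lit 87) (nat_lit 103) (nat_lit 1) (nat_lit 5) (nat_lit 5) L44235 (by decide +kernel)
theorem L44237 : W_5 (nat_lit 5) (nat_lit 0x2000100013000cc0024000f0008000000000000000000) (nat_lit 0x0) (nat_lit 0xb8000c000700000000000000000) := T_5 (nat_lit 104) (nat_lit 105) (nat_lit 1) (nat_lit 6) (nat_lit 5) L44236 (by decide +kernel)
theorem L44238 : W_5 (nat_lit 6) (nat_lit 0x2000100013000cc002400070008000000000000000000) (nat_lit 0x0) (nat_lit 0xb8008c004700000000000000000) := T_5 (nat_lit 91) (nat_lit 74) (nat_lit 2) (nat_lit 3) (nat_lit 5) L44237 (by decide +kernel)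
theorem L44239 : W_5 (nat_lit 7) (nat_lit 0x2000100013000cc002400030008000000000000000000) (nat_lit 0x0) (nat_lit 0xb800cc006700000000000000000) := T_5 (nat_lit 90) (nat_lit 73) (nat_lit 6) (nat_lit 4) (nat_lit 8) L44238 (by decide +kernel)
theorem L44240 : W_5 (nat_lit 8) (nat_lit 0x2000100013000cc002400030000000000000000000000) (nat_lit 0x0) (nat_lit 0xb801cc00e700000000000000000) := T_5 (nat_lit 75) (nat_lit 92) (nat_lit 7) (nat_lit 7) (nat_lit 4) L44239 (by decide +kernel)
theorem L44241 : W_5 (nat_lit 9) (nat_lit 0x2000100013000cc002400020000000000000000000000) (nat_lit 0x0) (nat_lit 0xb801dc00ef00000000000000000) := T_5 (nat_lit 88) (nat_lit 71) (nat_lit 4) (nat_lit 4) (nat_lit 8) L44240 (by decide +kernel)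
theorem L44242 : W_5 (nat_lit 2) (nat_lit 0x200010001b000cc002c00134000000000000000000000) (nat_lit 0x0) (nat_lit 0x2000100008000000000000000000000000000000000000000) := D_5 (nat_lit 176) (nat_lit 193) (nat_lit 159) (nat_lit 5) (nat_lit 7) (nat_lit 7) (nat_lit 5) (nat_lit 7) (nat_lit 6) (by decide +kernel)
theorem L44243 : W_5 (nat_lit 3) (nat_lit 0x2000100013000cc002c00134000000000000000000000) (nat_lit 0x0) (nat_lit 0x2000100028000800000000000000000000000000000000000) := T_5 (nat_lit 143) (nat_lit 161) (nat_lit 7) (nat_lit 7) (nat_lit 5) L44242 (by decide +kernel)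
theorem L44244 : W_5 (nat_lit 4) (nat_lit 0x2000100013000cc002c00034000000000000000000000) (nat_lit 0x0) (nat_lit 0x2000100028000800000000000100008000000000000000000) := T_5 (nat_lit 92) (nat_lit 75) (nat_lit 7) (nat_lit 7) (nat_lit 4) L44243 (by decide +kernel)
theorem L44245 : W_5 (nat_lit 5) (nat_lit 0x2000100013000cc002c00030000000000000000000000) (nat_lit 0x0) (nat_lit 0x200010002800080000000000010c008000000000000000000) := T_5 (nat_lit 86) (nat_lit 87) (nat_lit 3) (nat_lit 1) (nat_lit 5) L44244 (by decide +kernel)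
theorem L44246 : W_5 (nat_lit 6) (nat_lit 0x2000100013000cc002c00020000000000000000000000) (nat_lit 0x0) (nat_lit 0x200010002800080000000000011c008800000000000000000) := T_5 (nat_lit 88) (nat_lit 71) (nat_lit 4) (nat_lit 4) (nat_lit 8) L44245 (by decide +kernel)
theorem L44247 : W_5 (nat_lit 7) (nat_lit 0x2000100013000cc002400020000000000000000000000) (nat_lit 0x0) (nat_lit 0x200010002800080000000180011c008800000000000000000) := T_5 (nat_lit 107) (nat_lit 108) (nat_lit 3) (nat_lit 4) (nat_lit 6) L44246 (by decide +kernel)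
theorem L44248 : W_5 (nat_lit 2) (nat_lit 0x2000100013000cc002d00078000400000000000000000) (nat_lit 0x0) (nat_lit 0x200080000000020000000000000) := D_5 (nat_lit 105) (nat_lit 91) (nat_lit 53) (nat_lit 2) (nat_lit 2) (nat_lit 6) (nat_lit 7) (nat_lit 2) (nat_lit 3) (by decide +kernel)
theorem L44249 : W_5 (nat_lit 3) (nat_lit 0x2000100013000cc002c00078000400000000000000000) (nat_lit 0x0) (nat_lit 0x380080000000020000000000000) := T_5 (nat_lit 104) (nat_lit 103) (nat_lit 1) (nat_lit 5) (nat_lit 5) L44248 (by decide +kernel)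
theorem L44250 : W_5 (nat_lit 4) (nat_lit 0x2000100013000cc002c00078000000000000000000000) (nat_lit 0x0) (nat_lit 0x380080000600020000000000000) := T_5 (nat_lit 70) (nat_lit 69) (nat_lit 0) (nat_lit 5) (nat_lit 5) L44249 (by decide +kernel)
theorem L44251 : W_5 (nat_lit 5) (nat_lit 0x2000100013000cc002c00070000000000000000000000) (nat_lit 0x0) (nat_lit 0x38008c000600020000000000000) := T_5 (nat_lit 87) (nat_lit 86) (nat_lit 3) (nat_lit 1) (nat_lit 5) L44250 (by decide +kernel)
theorem L44252 : W_5 (nat_lit 6) (nat_lit 0x2000100013000cc002c00060000000000000000000000) (nat_lit 0x0) (nat_lit 0x38009c000e00020000000000000) := T_5 (nat_lit 88) (nat_lit 71) (nat_lit 4) (nat_lit 4) (nat_lit 8) L44251 (by decide +kernel)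
theorem L44253 : W_5 (nat_lit 7) (nat_lit 0x2000100013000cc002400060000000000000000000000) (nat_lit 0x0) (nat_lit 0x1b8009c000e00020000000000000) := T_5 (nat_lit 107) (nat_lit 108) (nat_lit 3) (nat_lit 4) (nat_lit 6) L44252 (by decide +kernel)
theorem L44254 : W_5 (nat_lit 8) (nat_lit 0x2000100013000cc002400020000000000000000000000) (nat_lit 0x0) (nat_lit 0x1b800dc002e00020000000000000) := T_5 (nat_lit 90) (nat_lit 73) (nat_lit 6) (nat_lit 4) (nat_lit 8) L44253 (by decide +kernel)
theorem L44255 : W_5 (nat_lit 10) (nat_lit 0x2000100013000cc000400020000000000000000000000) (nat_lit 0x0) (nat_lit 0x2000100028000800300003b803dc00ef00020000000000000) := Q_5 (nat_lit 109) (C_5 L44121 (C_5 L44117 (C_5 L44241 (C_5 L44113 (C_5 L44247 (C_5 L44254 N_5)))))) (by decide +kernel)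
theorem L44256 : W_5 (nat_lit 2) (nat_lit 0x2000100013000ec001400070000000000000000000000) (nat_lit 0x0) (nat_lit 0x100000800008000000000000000000000) := D_5 (nat_lit 107) (nat_lit 87) (nat_lit 128) (nat_lit 3) (nat_lit 2) (nat_lit 5) (nat_lit 0) (nat_lit 9) (nat_lit 7) (by decide +kernel)
theorem L44257 : W_5 (nat_lit 3) (nat_lit 0x2000100013000ec000400070000000000000000000000) (nat_lit 0x0) (nat_lit 0x800100001800008000000000000000000000) := T_5 (nat_lit 108) (nat_lit 143) (nat_lit 4) (nat_lit 7) (nat_lit 10) L44256 (by decide +kernel)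
theorem L44258 : W_5 (nat_lit 4) (nat_lit 0x2000100013000ec000400030000000000000000000000) (nat_lit 0x0) (nat_lit 0x800100001800048002000000000000000000) := T_5 (nat_lit 90) (nat_lit 73) (nat_lit 6) (nat_lit 4) (nat_lit 8) L44257 (by decide +kernel)
theorem L44259 : W_5 (nat_lit 5) (nat_lit 0x2000100013000cc000400030000000000000000000000) (nat_lit 0x0) (nat_lit 0x800130001800048002000000000000000000) := T_5 (nat_lit 125) (nat_lit 124) (nat_lit 1) (nat_lit 8) (nat_lit 7) L44258 (by decide +kernel)
theorem L44260 : W_5 (nat_lit 6) (nat_lit 0x2000100013000cc000400020000000000000000000000) (nat_lit 0x0) (nat_lit 0x800130001800058002800000000000000000) := T_5 (nat_lit 88) (nat_lit 71) (nat_lit 4) (nat_lit 4) (nat_lit 8) L44259 (by decide +kernel)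
theorem L44261 : W_5 (nat_lit 2) (nat_lit 0x2000100013000cc001c00030000000000000000000000) (nat_lit 0x0) (nat_lit 0x200048000000000000000000000) := D_5 (nat_lit 87) (nat_lit 90) (nat_lit 105) (nat_lit 3) (nat_lit 2) (nat_lit 5) (nat_lit 0) (nat_lit 6) (nat_lit 6) (by decide +kernel)
theorem L44262 : W_5 (nat_lit 3) (nat_lit 0x2000100013000cc001c00020000000000000000000000) (nat_lit 0x0) (nat_lit 0x200058000800000000000000000) := T_5 (nat_lit 88) (nat_lit 71) (nat_lit 4) (nat_lit 4) (nat_lit 8) L44261 (by decide +kernel)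
theorem L44263 : W_5 (nat_lit 4) (nat_lit 0x2000100013000cc000c00020000000000000000000000) (nat_lit 0x0) (nat_lit 0x3200058000800000000000000000) := T_5 (nat_lit 108) (nat_lit 109) (nat_lit 3) (nat_lit 4) (nat_lit 6) L44262 (by decide +kernel)
theorem L44264 : W_5 (nat_lit 2) (nat_lit 0x2000100013000dc000c000f4000000000000000000000) (nat_lit 0x0) (nat_lit 0x300100000000000000000000000) := D_5 (nat_lit 105) (nat_lit 104) (nat_lit 92) (nat_lit 2) (nat_lit 2) (nat_lit 6) (nat_lit 1) (nat_lit 7) (nat_lit 5) (by decide +kernel)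
theorem L44265 : W_5 (nat_lit 3) (nat_lit 0x2000100013000dc000c00074000000000000000000000) (nat_lit 0x0) (nat_lit 0x300180004000000000000000000) := T_5 (nat_lit 91) (nat_lit 74) (nat_lit 6) (nat_lit 5) (nat_lit 8) L44264 (by decide +kernel)
theorem L44266 : W_5 (nat_lit 4) (nat_lit 0x2000100013000dc000c00034000000000000000000000) (nat_lit 0x0) (nat_lit 0x3001c0006000000000000000000) := T_5 (nat_lit 90) (nat_lit 73) (nat_lit 6) (nat_lit 4) (nat_lit 8) L44265 (by decide +kernel)
theorem L44267 : W_5 (nat_lit 5) (nat_lit 0x2000100013000cc000c00034000000000000000000000) (nat_lit 0x0) (nat_lit 0x300003001c0006000000000000000000) := T_5 (nat_lit 124) (nat_lit 125) (nat_lit 1) (nat_lit 8) (nat_lit 7) L44266 (by decide +kernel)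
theorem L44268 : W_5 (nat_lit 6) (nat_lit 0x2000100013000cc000c00030000000000000000000000) (nat_lit 0x0) (nat_lit 0x300003001cc006000000000000000000) := T_5 (nat_lit 86) (nat_lit 87) (nat_lit 3) (nat_lit 1) (nat_lit 5) L44267 (by decide +kernel)
theorem L44269 : W_5 (nat_lit 7) (nat_lit 0x2000100013000cc000c00020000000000000000000000) (nat_lit 0x0) (nat_lit 0x300003001dc006800000000000000000) := T_5 (nat_lit 88) (nat_lit 71) (nat_lit 4) (nat_lit 4) (nat_lit 8) L44268 (by decide +kernel)
theorem L44270 : W_5 (nat_lit 8) (nat_lit 0x2000100013000cc000400020000000000000000000000) (nat_lit 0x0) (nat_lit 0x130003b001dc006800000000000000000) := Q_5 (nat_lit 107) (C_5 L44158 (C_5 L44145 (C_5 L44263 (C_5 L44269 N_5)))) (by decide +kernel)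
theorem L44271 : W_5 (nat_lit 2) (nat_lit 0x2000100013000cc000400170008000000000000000000) (nat_lit 0x0) (nat_lit 0x200080010000000000000000000) := D_5 (nat_lit 91) (nat_lit 76) (nat_lit 105) (nat_lit 2) (nat_lit 4) (nat_lit 5) (nat_lit 1) (nat_lit 7) (nat_lit 5) (by decide +kernel)
theorem L44272 : W_5 (nat_lit 3) (nat_lit 0x2000100013000cc000400130008000000000000000000) (nat_lit 0x0) (nat_lit 0x2000c0012000000000000000000) := T_5 (nat_lit 90) (nat_lit 73) (nat_lit 6) (nat_lit 4) (nat_lit 8) L44271 (by decide +kernel)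
theorem L44273 : W_5 (nat_lit 4) (nat_lit 0x2000100013000cc000400130000000000000000000000) (nat_lit 0x0) (nat_lit 0x22000c001a000000000000000000) := T_5 (nat_lit 75) (nat_lit 109) (nat_lit 7) (nat_lit 7) (nat_lit 4) L44272 (by decide +kernel)
theorem L44274 : W_5 (nat_lit 5) (nat_lit 0x2000100013000cc000400120000000000000000000000) (nat_lit 0x0) (nat_lit 0x22000d001a800000000000000000) := T_5 (nat_lit 88) (nat_lit 71) (nat_lit 4) (nat_lit 4) (nat_lit 8) L44273 (by decide +kernel)
theorem L44275 : W_5 (nat_lit 2) (nat_lit 0x2000100013000ec000400170008000000000000000000) (nat_lit 0x0) (nat_lit 0x80014000000000000000000) := D_5 (nat_lit 91) (nat_lit 76) (nat_lit 74) (nat_lit 2) (nat_lit 4) (nat_lit 5) (nat_lit 2) (nat_lit 3) (nat_lit 5) (by decide +kernel)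
theorem L44276 : W_5 (nat_lit 3) (nat_lit 0x2000100013000ec000400170000000000000000000000) (nat_lit 0x0) (nat_lit 0x200008001c000000000000000000) := T_5 (nat_lit 75) (nat_lit 109) (nat_lit 7) (nat_lit 7) (nat_lit 4) L44275 (by decide +kernel)
theorem L44277 : W_5 (nat_lit 4) (nat_lit 0x2000100013000ec000400160000000000000000000000) (nat_lit 0x0) (nat_lit 0x200009001c800000000000000000) := T_5 (nat_lit 88) (nat_lit 71) (nat_lit 4) (nat_lit 4) (nat_lit 8) L44276 (by decide +kernel)
theorem L44278 : W_5 (nat_lit 5) (nat_lit 0x2000100013000cc000400160000000000000000000000) (nat_lit 0x0) (nat_lit 0x3000200009001c800000000000000000) := T_5 (nat_lit 125) (nat_lit 124) (nat_lit 1) (nat_lit 8) (nat_lit 7) L44277 (by decide +kernel)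
theorem L44279 : W_5 (nat_lit 6) (nat_lit 0x2000100013000cc000400120000000000000000000000) (nat_lit 0x0) (nat_lit 0x300020000d001e800000000000000000) := T_5 (nat_lit 90) (nat_lit 73) (nat_lit 6) (nat_lit 4) (nat_lit 8) L44278 (by decide +kernel)
theorem L44280 : W_5 (nat_lit 2) (nat_lit 0x200010001b000ec002400120000000000000000000000) (nat_lit 0x0) (nat_lit 0x2000100008000000000000000000000000000000000000000) := D_5 (nat_lit 176) (nat_lit 193) (nat_lit 159) (nat_lit 5) (nat_lit 7) (nat_lit 7) (nat_lit 5) (nat_lit 7) (nat_lit 6) (by decide +kernel)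
theorem L44281 : W_5 (nat_lit 3) (nat_lit 0x2000100013000ec002400120000000000000000000000) (nat_lit 0x0) (nat_lit 0x2000100028000800000000000000000000000000000000000) := T_5 (nat_lit 143) (nat_lit 161) (nat_lit 7) (nat_lit 7) (nat_lit 5) L44280 (by decide +kernel)
theorem L44282 : W_5 (nat_lit 4) (nat_lit 0x2000100013000cc002400120000000000000000000000) (nat_lit 0x0) (nat_lit 0x2000100028000800030000000000000000000000000000000) := T_5 (nat_lit 125) (nat_lit 124) (nat_lit 1) (nat_lit 8) (nat_lit 7) L44281 (by decide +kernel)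
theorem L44283 : W_5 (nat_lit 5) (nat_lit 0x2000100013000cc000400120000000000000000000000) (nat_lit 0x0) (nat_lit 0x2000100028000800030002000000008000000000000000000) := T_5 (nat_lit 109) (nat_lit 75) (nat_lit 7) (nat_lit 7) (nat_lit 4) L44282 (by decide +kernel)
theorem L44284 : W_5 (nat_lit 2) (nat_lit 0x2000100013000ec0004007f0020000000000000000000) (nat_lit 0x0) (nat_lit 0x100018000000000000000000000000000) := D_5 (nat_lit 111) (nat_lit 112) (nat_lit 128) (nat_lit 3) (nat_lit 6) (nat_lit 5) (nat_lit 5) (nat_lit 9) (nat_lit 4) (by decide +kernel)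
theorem L44285 : W_5 (nat_lit 3) (nat_lit 0x2000100013000ec0004003f0020000000000000000000) (nat_lit 0x0) (nat_lit 0x100018000400040000000000000000000) := T_5 (nat_lit 94) (nat_lit 78) (nat_lit 2) (nat_lit 6) (nat_lit 5) L44284 (by decide +kernel)
theorem L44286 : W_5 (nat_lit 4) (nat_lit 0x2000100013000ec0004003f0000000000000000000000) (nat_lit 0x0) (nat_lit 0x100018000400070000000000000000000) := T_5 (nat_lit 77) (nat_lit 76) (nat_lit 2) (nat_lit 5) (nat_lit 5) L44285 (by decide +kernel)
theorem L44287 : W_5 (nat_lit 5) (nat_lit 0x2000100013000ec0004001f0000000000000000000000) (nat_lit 0x0) (nat_lit 0x100018800600070000000000000000000) := T_5 (nat_lit 93) (nat_lit 107) (nat_lit 1) (nat_lit 8) (nat_lit 5) L44286 (by decide +kernel)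
theorem L44288 : W_5 (nat_lit 6) (nat_lit 0x2000100013000ec0004001e0000000000000000000000) (nat_lit 0x0) (nat_lit 0x100018800610070800000000000000000) := T_5 (nat_lit 88) (nat_lit 71) (nat_lit 4) (nat_lit 4) (nat_lit 8) L44287 (by decide +kernel)
theorem L44289 : W_5 (nat_lit 7) (nat_lit 0x2000100013000ec000400160000000000000000000000) (nat_lit 0x0) (nat_lit 0x100018a00690070800000000000000000) := T_5 (nat_lit 91) (nat_lit 105) (nat_lit 1) (nat_lit 7) (nat_lit 5) L44288 (by decide +kernel)
theorem L44290 : W_5 (nat_lit 8) (nat_lit 0x2000100013000ec000400120000000000000000000000) (nat_lit 0x0) (nat_lit 0x100018a006d0072800000000000000000) := T_5 (nat_lit 90) (nat_lit 73) (nat_lit 6) (nat_lit 4) (nat_lit 8) L44289 (by decide +kernel)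
theorem L44291 : W_5 (nat_lit 9) (nat_lit 0x2000100013000cc000400120000000000000000000000) (nat_lit 0x0) (nat_lit 0x130018a006d0072800000000000000000) := T_5 (nat_lit 125) (nat_lit 124) (nat_lit 1) (nat_lit 8) (nat_lit 7) L44290 (by decide +kernel)
theorem L44292 : W_5 (nat_lit 10) (nat_lit 0x2000100013000cc000400020000000000000000000000) (nat_lit 0x0) (nat_lit 0x200010002800080013001aa007d007e800000000000000000) := Q_5 (nat_lit 92) (C_5 L44164 (C_5 L44274 (C_5 L44279 (C_5 L44283 (C_5 L44291 N_5))))) (by decide +kernel)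
theorem L44293 : W_5 (nat_lit 2) (nat_lit 0x300010001b000ec002400030000000000000000000000) (nat_lit 0x0) (nat_lit 0x20000000000000000100008000000000000000000) := D_5 (nat_lit 92) (nat_lit 161) (nat_lit 75) (nat_lit 7) (nat_lit 7) (nat_lit 5) (nat_lit 7) (nat_lit 7) (nat_lit 4) (by decide +kernel)
theorem L44294 : W_5 (nat_lit 3) (nat_lit 0x300010001b000ec000400030000000000000000000000) (nat_lit 0x0) (nat_lit 0x28000000000002000100008000000000000000000) := T_5 (nat_lit 109) (nat_lit 159) (nat_lit 5) (nat_lit 7) (nat_lit 6) L44293 (by decide +kernel)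
theorem L44295 : W_5 (nat_lit 4) (nat_lit 0x200010001b000ec000400030000000000000000000000) (nat_lit 0x0) (nat_lit 0x2000100028000000000002000100008000000000000000000) := T_5 (nat_lit 176) (nat_lit 193) (nat_lit 5) (nat_lit 7) (nat_lit 7) L44294 (by decide +kernel)
theorem L44296 : W_5 (nat_lit 5) (nat_lit 0x2000100013000ec000400030000000000000000000000) (nat_lit 0x0) (nat_lit 0x2000100028000800000003000100008000000000000000000) := T_5 (nat_lit 143) (nat_lit 108) (nat_lit 4) (nat_lit 7) (nat_lit 10) L44295 (by decide +kernel)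
theorem L44297 : W_5 (nat_lit 6) (nat_lit 0x2000100013000cc000400030000000000000000000000) (nat_lit 0x0) (nat_lit 0x2000100028000800030003000100008000000000000000000) := T_5 (nat_lit 125) (nat_lit 124) (nat_lit 1) (nat_lit 8) (nat_lit 7) L44296 (by decide +kernel)
theorem L44298 : W_5 (nat_lit 7) (nat_lit 0x2000100013000cc000400020000000000000000000000) (nat_lit 0x0) (nat_lit 0x2000100028000800030003000110008800000000000000000) := T_5 (nat_lit 88) (nat_lit 71) (nat_lit 4) (nat_lit 4) (nat_lit 8) L44297 (by decide +kernel)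
theorem L44299 : W_5 (nat_lit 11) (nat_lit 0x20001000130008c000400020000000000000000000000) (nat_lit 0x0) (nat_lit 0x200010002800080037001bb807dc07ef00020000000000000) := Q_5 (nat_lit 126) (C_5 L44255 (C_5 L44260 (C_5 L44141 (C_5 L44270 (C_5 L44292 (C_5 L44298 N_5)))))) (by decide +kernel)
theorem L44300 : W_5 (nat_lit 2) (nat_lit 0x20001000130008c0004000600010000c0008000000000) (nat_lit 0x0) (nat_lit 0x800000000000000004000400000) := D_5 (nat_lit 38) (nat_lit 107) (nat_lit 22) (nat_lit 7) (nat_lit 4) (nat_lit 2) (nat_lit 6) (nat_lit 4) (nat_lit 5) (by decide +kernel)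
theorem L44301 : W_5 (nat_lit 3) (nat_lit 0x20001000130008c0004000600010000c0000000000000) (nat_lit 0x0) (nat_lit 0x80000000000010000c000400000) := T_5 (nat_lit 39) (nat_lit 56) (nat_lit 6) (nat_lit 4) (nat_lit 6) L44300 (by decide +kernel)
theorem L44302 : W_5 (nat_lit 4) (nat_lit 0x20001000130008c000400060001000080000000000000) (nat_lit 0x0) (nat_lit 0x80000000000014000e000400000) := T_5 (nat_lit 54) (nat_lit 37) (nat_lit 4) (nat_lit 4) (nat_lit 6) L44301 (by decide +kernel)
theorem L44303 : W_5 (nat_lit 5) (nat_lit 0x20001000130008c000400060001000000000000000000) (nat_lit 0x0) (nat_lit 0xa000000000001c000e000400000) := T_5 (nat_lit 55) (nat_lit 105) (nat_lit 5) (nat_lit 4) (nat_lit 3) L44302 (by decide +kernel)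
theorem L44304 : W_5 (nat_lit 6) (nat_lit 0x20001000130008c000400060000000000000000000000) (nat_lit 0x0) (nat_lit 0x10000a000000010001c000e000400000) := T_5 (nat_lit 72) (nat_lit 124) (nat_lit 7) (nat_lit 4) (nat_lit 4) L44303 (by decide +kernel)
theorem L44305 : W_5 (nat_lit 7) (nat_lit 0x20001000130008c000400020000000000000000000000) (nat_lit 0x0) (nat_lit 0x10000a000400030001c000e000400000) := T_5 (nat_lit 90) (nat_lit 73) (nat_lit 6) (nat_lit 4) (nat_lit 8) L44304 (by decide +kernel)
theorem L44306 : W_5 (nat_lit 12) (nat_lit 0x20001000130008c000000020000000000000000000000) (nat_lit 0x0) (nat_lit 0x200010002800080037001bf807dc07ff001e000e000500000) := Q_5 (nat_lit 106) (C_5 L44102 (C_5 L44222 (C_5 L44225 (C_5 L44227 (C_5 L44231 (C_5 L44233 (C_5 L44299 (C_5 L44305 N_5)))))))) (by decide +kernel)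
theorem L44307 : W_5 (nat_lit 2) (nat_lit 0x2000100013c009c000400030000000000000000000000) (nat_lit 0x0) (nat_lit 0xc00000000000200000000000000000000000000) := D_5 (nat_lit 155) (nat_lit 105) (nat_lit 154) (nat_lit 5) (nat_lit 3) (nat_lit 5) (nat_lit 1) (nat_lit 5) (nat_lit 8) (by decide +kernel)
theorem L44308 : W_5 (nat_lit 3) (nat_lit 0x2000100013c009c000400020000000000000000000000) (nat_lit 0x0) (nat_lit 0xc00000000000200010000800000000000000000) := T_5 (nat_lit 88) (nat_lit 71) (nat_lit 4) (nat_lit 4) (nat_lit 8) L44307 (by decide +kernel)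
theorem L44309 : W_5 (nat_lit 4) (nat_lit 0x20001000138009c000400020000000000000000000000) (nat_lit 0x0) (nat_lit 0xc00060000000200010000800000000000000000) := T_5 (nat_lit 138) (nat_lit 137) (nat_lit 2) (nat_lit 1) (nat_lit 8) L44308 (by decide +kernel)
theorem L44310 : W_5 (nat_lit 5) (nat_lit 0x20001000130009c000400020000000000000000000000) (nat_lit 0x0) (nat_lit 0x1c000e0000000200010000800000000000000000) := T_5 (nat_lit 139) (nat_lit 156) (nat_lit 5) (nat_lit 4) (nat_lit 5) L44309 (by decide +kernel)
theorem L44311 : W_5 (nat_lit 2) (nat_lit 0x2000100013400bc0006000f0000000000000000000000) (nat_lit 0x0) (nat_lit 0x3000000004000000000000000000) := D_5 (nat_lit 108) (nat_lit 109) (nat_lit 74) (nat_lit 3) (nat_lit 3) (nat_lit 5) (nat_lit 5) (nat_lit 6) (nat_lit 4) (by decide +kernel)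
theorem L44312 : W_5 (nat_lit 3) (nat_lit 0x2000100013400bc000600070000000000000000000000) (nat_lit 0x0) (nat_lit 0x3000180004000000000000000000) := T_5 (nat_lit 91) (nat_lit 92) (nat_lit 1) (nat_lit 7) (nat_lit 5) L44311 (by decide +kernel)
theorem L44313 : W_5 (nat_lit 4) (nat_lit 0x2000100013400bc000400070000000000000000000000) (nat_lit 0x0) (nat_lit 0x3300180004000000000000000000) := T_5 (nat_lit 105) (nat_lit 104) (nat_lit 0) (nat_lit 6) (nat_lit 7) L44312 (by decide +kernel)
theorem L44314 : W_5 (nat_lit 5) (nat_lit 0x2000100013000bc000400070000000000000000000000) (nat_lit 0x0) (nat_lit 0xc0000003300180004000000000000000000) := T_5 (nat_lit 138) (nat_lit 139) (nat_lit 2) (nat_lit 2) (nat_lit 8) L44313 (by decide +kernel)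
theorem L44315 : W_5 (nat_lit 6) (nat_lit 0x2000100013000bc000400030000000000000000000000) (nat_lit 0x0) (nat_lit 0xc00000033001c0006000000000000000000) := T_5 (nat_lit 90) (nat_lit 73) (nat_lit 6) (nat_lit 4) (nat_lit 8) L44314 (by decide +kernel)
theorem L44316 : W_5 (nat_lit 7) (nat_lit 0x20001000130009c000400030000000000000000000000) (nat_lit 0x0) (nat_lit 0xc00600033001c0006000000000000000000) := T_5 (nat_lit 125) (nat_lit 126) (nat_lit 1) (nat_lit 8) (nat_lit 7) L44315 (by decide +kernel)
theorem L44317 : W_5 (nat_lit 8) (nat_lit 0x20001000130009c000400020000000000000000000000) (nat_lit 0x0) (nat_lit 0xc00600033001d0006800000000000000000) := T_5 (nat_lit 88) (nat_lit 71) (nat_lit 4) (nat_lit 4) (nat_lit 8) L44316 (by decide +kernel)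
theorem L44318 : W_5 (nat_lit 2) (nat_lit 0x2000100013000bc0006000f0000000000000000000000) (nat_lit 0x0) (nat_lit 0x3000000004000000000000000000) := D_5 (nat_lit 108) (nat_lit 109) (nat_lit 74) (nat_lit 3) (nat_lit 3) (nat_lit 5) (nat_lit 5) (nat_lit 6) (nat_lit 4) (by decide +kernel)
theorem L44319 : W_5 (nat_lit 3) (nat_lit 0x2000100013000bc000600070000000000000000000000) (nat_lit 0x0) (nat_lit 0x3000180004000000000000000000) := T_5 (nat_lit 91) (nat_lit 92) (nat_lit 1) (nat_lit 7) (nat_lit 5) L44318 (by decide +kernel)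
theorem L44320 : W_5 (nat_lit 4) (nat_lit 0x2000100013000bc000400070000000000000000000000) (nat_lit 0x0) (nat_lit 0x3300180004000000000000000000) := T_5 (nat_lit 105) (nat_lit 104) (nat_lit 0) (nat_lit 6) (nat_lit 7) L44319 (by decide +kernel)
theorem L44321 : W_5 (nat_lit 5) (nat_lit 0x20001000130009c000400070000000000000000000000) (nat_lit 0x0) (nat_lit 0x60003300180004000000000000000000) := T_5 (nat_lit 125) (nat_lit 126) (nat_lit 1) (nat_lit 8) (nat_lit 7) L44320 (by decide +kernel)
theorem L44322 : W_5 (nat_lit 6) (nat_lit 0x20001000130009c000400060000000000000000000000) (nat_lit 0x0) (nat_lit 0x60003300190004800000000000000000) := T_5 (nat_lit 88) (nat_lit 71) (nat_lit 4) (nat_lit 4) (nat_lit 8) L44321 (by decide +kernel)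
theorem L44323 : W_5 (nat_lit 7) (nat_lit 0x20001000130009c000400020000000000000000000000) (nat_lit 0x0) (nat_lit 0x600033001d0006800000000000000000) := T_5 (nat_lit 90) (nat_lit 73) (nat_lit 6) (nat_lit 4) (nat_lit 8) L44322 (by decide +kernel)
theorem L44324 : W_5 (nat_lit 9) (nat_lit 0x20001000130008c000400020000000000000000000000) (nat_lit 0x0) (nat_lit 0x1c000e00700033001d0006800000000000000000) := Q_5 (nat_lit 124) (C_5 L44310 (C_5 L43790 (C_5 L44317 (C_5 L44323 (C_5 L43774 (C_5 L43760 N_5)))))) (by decide +kernel)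
theorem L44325 : W_5 (nat_lit 10) (nat_lit 0x20001000130008c000000020000000000000000000000) (nat_lit 0x0) (nat_lit 0x1c000e00700037001d0007800040000000000000) := Q_5 (nat_lit 106) (C_5 L44233 (C_5 L44093 (C_5 L44324 N_5))) (by decide +kernel)
theorem L44326 : W_5 (nat_lit 2) (nat_lit 0x21001100138008c000200038000000000000000000000) (nat_lit 0x0) (nat_lit 0x600020000000000000000000000000000000000000000000) := D_5 (nat_lit 173) (nat_lit 190) (nat_lit 189) (nat_lit 6) (nat_lit 3) (nat_lit 11) (nat_lit 5) (nat_lit 3) (nat_lit 7) (by decide +kernel)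
theorem L44327 : W_5 (nat_lit 3) (nat_lit 0x20001100138008c000200038000000000000000000000) (nat_lit 0x0) (nat_lit 0x600030000800000000000000000000000000000000000000) := T_5 (nat_lit 172) (nat_lit 155) (nat_lit 5) (nat_lit 3) (nat_lit 6) L44326 (by decide +kernel)
theorem L44328 : W_5 (nat_lit 4) (nat_lit 0x20001000138008c000200038000000000000000000000) (nat_lit 0x0) (nat_lit 0x600030001800000000000100000000000000000000000000) := T_5 (nat_lit 156) (nat_lit 104) (nat_lit 4) (nat_lit 3) (nat_lit 9) L44327 (by decide +kernel)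
theorem L44329 : W_5 (nat_lit 5) (nat_lit 0x20001000138008c000200030000000000000000000000) (nat_lit 0x0) (nat_lit 0x600030001800000000000100008000400000000000000000) := T_5 (nat_lit 87) (nat_lit 70) (nat_lit 4) (nat_lit 3) (nat_lit 8) L44328 (by decide +kernel)
theorem L44330 : W_5 (nat_lit 6) (nat_lit 0x20001000130008c000200030000000000000000000000) (nat_lit 0x0) (nat_lit 0x600030001800080000000100008001400000000000000000) := T_5 (nat_lit 139) (nat_lit 72) (nat_lit 6) (nat_lit 3) (nat_lit 8) L44329 (by decide +kernel)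
theorem L44331 : W_5 (nat_lit 7) (nat_lit 0x20001000130008c000000030000000000000000000000) (nat_lit 0x0) (nat_lit 0x600030001800080000000300008001c00000000000000000) := T_5 (nat_lit 105) (nat_lit 71) (nat_lit 7) (nat_lit 3) (nat_lit 4) L44330 (by decide +kernel)
theorem L44332 : W_5 (nat_lit 2) (nat_lit 0x20001000130008c0000001f0000800000000000000000) (nat_lit 0x0) (nat_lit 0x1c000000000000000000) := D_5 (nat_lit 75) (nat_lit 74) (nat_lit 76) (nat_lit 2) (nat_lit 3) (nat_lit 5) (nat_lit 2) (nat_lit 4) (nat_lit 5) (by decide +kernel)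
theorem L44333 : W_5 (nat_lit 3) (nat_lit 0x20001000130008c0000000f0000800000000000000000) (nat_lit 0x0) (nat_lit 0x10001d000000000000000000) := T_5 (nat_lit 92) (nat_lit 72) (nat_lit 0) (nat_lit 7) (nat_lit 5) L44332 (by decide +kernel)
theorem L44334 : W_5 (nat_lit 4) (nat_lit 0x20001000130008c000000070000800000000000000000) (nat_lit 0x0) (nat_lit 0x18001d400000000000000000) := T_5 (nat_lit 91) (nat_lit 70) (nat_lit 0) (nat_lit 6) (nat_lit 5) L44333 (by decide +kernel)
theorem L44335 : W_5 (nat_lit 5) (nat_lit 0x20001000130008c000000070000000000000000000000) (nat_lit 0x0) (nat_lit 0x20018001dc00000000000000000) := T_5 (nat_lit 71) (nat_lit 105) (nat_lit 7) (nat_lit 3) (nat_lit 4) L44334 (by decide +kernel)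
theorem L44336 : W_5 (nat_lit 2) (nat_lit 0x20001000130008c000100078002000000000000000000) (nat_lit 0x0) (nat_lit 0x10001800000000000000000000000000) := D_5 (nat_lit 107) (nat_lit 108) (nat_lit 124) (nat_lit 3) (nat_lit 2) (nat_lit 5) (nat_lit 5) (nat_lit 5) (nat_lit 4) (by decide +kernel)
theorem L44337 : W_5 (nat_lit 3) (nat_lit 0x20001000130008c000100078000000000000000000000) (nat_lit 0x0) (nat_lit 0x10001800000006000000000000000000) := T_5 (nat_lit 73) (nat_lit 74) (nat_lit 2) (nat_lit 2) (nat_lit 5) L44336 (by decide +kernel)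
theorem L44338 : W_5 (nat_lit 4) (nat_lit 0x20001000130008c000000078000000000000000000000) (nat_lit 0x0) (nat_lit 0x10001980000006000000000000000000) := T_5 (nat_lit 104) (nat_lit 103) (nat_lit 1) (nat_lit 5) (nat_lit 5) L44337 (by decide +kernel)
theorem L44339 : W_5 (nat_lit 2) (nat_lit 0x20001000130008c00000007c002000000000000000000) (nat_lit 0x0) (nat_lit 0x700000000000000000) := D_5 (nat_lit 69) (nat_lit 68) (nat_lit 70) (nat_lit 0) (nat_lit 4) (nat_lit 5) (nat_lit 0) (nat_lit 5) (nat_lit 5) (by decide +kernel)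
theorem L44340 : W_5 (nat_lit 3) (nat_lit 0x20001000130008c000000078002000000000000000000) (nat_lit 0x0) (nat_lit 0x4001700000000000000000) := T_5 (nat_lit 86) (nat_lit 72) (nat_lit 2) (nat_lit 1) (nat_lit 5) L44339 (by decide +kernel)
theorem L44341 : W_5 (nat_lit 4) (nat_lit 0x20001000130008c000000078000000000000000000000) (nat_lit 0x0) (nat_lit 0x4007700000000000000000) := T_5 (nat_lit 73) (nat_lit 74) (nat_lit 2) (nat_lit 2) (nat_lit 5) L44340 (by decide +kernel)
theorem L44342 : W_5 (nat_lit 2) (nat_lit 0x20001000130009c000900078000400000000000000000) (nat_lit 0x0) (nat_lit 0x80004800000000000000000) := D_5 (nat_lit 91) (nat_lit 71) (nat_lit 74) (nat_lit 0) (nat_lit 6) (nat_lit 5) (nat_lit 6) (nat_lit 5) (nat_lit 8) (by decide +kernel)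
theorem L44343 : W_5 (nat_lit 3) (nat_lit 0x20001000130008c000900078000400000000000000000) (nat_lit 0x0) (nat_lit 0x10000000080005800000000000000000) := T_5 (nat_lit 124) (nat_lit 72) (nat_lit 4) (nat_lit 5) (nat_lit 8) L44342 (by decide +kernel)
theorem L44344 : W_5 (nat_lit 4) (nat_lit 0x20001000130008c000900078000000000000000000000) (nat_lit 0x0) (nat_lit 0x10000000080005e00000000000000000) := T_5 (nat_lit 70) (nat_lit 69) (nat_lit 0) (nat_lit 5) (nat_lit 5) L44343 (by decide +kernel)
theorem L44345 : W_5 (nat_lit 5) (nat_lit 0x20001000130008c000100078000000000000000000000) (nat_lit 0x0) (nat_lit 0x10001800080005e00000000000000000) := T_5 (nat_lit 107) (nat_lit 108) (nat_lit 3) (nat_lit 2) (nat_lit 5) L44344 (by decide +kernel)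
theorem L44346 : W_5 (nat_lit 6) (nat_lit 0x20001000130008c000000078000000000000000000000) (nat_lit 0x0) (nat_lit 0x10001980080005e00000000000000000) := T_5 (nat_lit 104) (nat_lit 103) (nat_lit 1) (nat_lit 5) (nat_lit 5) L44345 (by decide +kernel)
theorem L44347 : W_5 (nat_lit 2) (nat_lit 0x20001000130008c000800078000000000000000000000) (nat_lit 0x0) (nat_lit 0x10000000000003000000000000000000) := D_5 (nat_lit 124) (nat_lit 73) (nat_lit 72) (nat_lit 5) (nat_lit 5) (nat_lit 4) (nat_lit 4) (nat_lit 5) (nat_lit 8) (by decide +kernel)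
theorem L44348 : W_5 (nat_lit 3) (nat_lit 0x20001000130008c000000078000000000000000000000) (nat_lit 0x0) (nat_lit 0x10001800000003000000000000000000) := T_5 (nat_lit 107) (nat_lit 108) (nat_lit 3) (nat_lit 2) (nat_lit 5) L44347 (by decide +kernel)
theorem L44349 : W_5 (nat_lit 7) (nat_lit 0x20001000130008c000000070000000000000000000000) (nat_lit 0x0) (nat_lit 0x1000198008c007f00000000000000000) := Q_5 (nat_lit 87) (C_5 L44338 (C_5 L44341 (C_5 L44346 (C_5 L44348 N_5)))) (by decide +kernel)
theorem L44350 : W_5 (nat_lit 2) (nat_lit 0x20001000130008c000880078001c00000000000000000) (nat_lit 0x0) (nat_lit 0x40006000000000000000000000) := D_5 (nat_lit 86) (nat_lit 85) (nat_lit 102) (nat_lit 2) (nat_lit 0) (nat_lit 5) (nat_lit 1) (nat_lit 4) (nat_lit 5) (by decide +kernel)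
theorem L44351 : W_5 (nat_lit 3) (nat_lit 0x20001000130008c000800078001c00000000000000000) (nat_lit 0x0) (nat_lit 0x1c0006000000000000000000000) := T_5 (nat_lit 103) (nat_lit 104) (nat_lit 1) (nat_lit 5) (nat_lit 5) L44350 (by decide +kernel)
theorem L44352 : W_5 (nat_lit 4) (nat_lit 0x20001000130008c000800078000c00000000000000000) (nat_lit 0x0) (nat_lit 0x100001c0006001000000000000000000) := T_5 (nat_lit 72) (nat_lit 124) (nat_lit 4) (nat_lit 5) (nat_lit 8) L44351 (by decide +kernel)
theorem L44353 : W_5 (nat_lit 5) (nat_lit 0x20001000130008c000800078000800000000000000000) (nat_lit 0x0) (nat_lit 0x100001c0006001600000000000000000) := T_5 (nat_lit 70) (nat_lit 69) (nat_lit 0) (nat_lit 5) (nat_lit 5) L44352 (by decide +kernel)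
theorem L44354 : W_5 (nat_lit 6) (nat_lit 0x20001000130008c000000078000800000000000000000) (nat_lit 0x0) (nat_lit 0x100019c0006001600000000000000000) := T_5 (nat_lit 107) (nat_lit 108) (nat_lit 3) (nat_lit 2) (nat_lit 5) L44353 (by decide +kernel)
theorem L44355 : W_5 (nat_lit 7) (nat_lit 0x20001000130008c000000078000000000000000000000) (nat_lit 0x0) (nat_lit 0x10001bc0006001e00000000000000000) := T_5 (nat_lit 71) (nat_lit 105) (nat_lit 7) (nat_lit 3) (nat_lit 4) L44354 (by decide +kernel)
theorem L44356 : W_5 (nat_lit 8) (nat_lit 0x20001000130008c000000070000000000000000000000) (nat_lit 0x0) (nat_lit 0x10001bc000e007f00000000000000000) := Q_5 (nat_lit 87) (C_5 L44348 (C_5 L44341 (C_5 L44355 (C_5 L44338 N_5)))) (by decide +kernel)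
theorem L44357 : W_5 (nat_lit 2) (nat_lit 0x20001000130008c0018001f000a800000000000000000) (nat_lit 0x0) (nat_lit 0x20000000000000000100008000000000) := D_5 (nat_lit 56) (nat_lit 125) (nat_lit 39) (nat_lit 7) (nat_lit 5) (nat_lit 3) (nat_lit 7) (nat_lit 5) (nat_lit 2) (by decide +kernel)
theorem L44358 : W_5 (nat_lit 3) (nat_lit 0x20001000130008c0018001f0008800000000000000000) (nat_lit 0x0) (nat_lit 0x30000000000002000100008000000000) := T_5 (nat_lit 73) (nat_lit 124) (nat_lit 5) (nat_lit 5) (nat_lit 4) L44357 (by decide +kernel)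
theorem L44359 : W_5 (nat_lit 4) (nat_lit 0x20001000130008c0018001f0000800000000000000000) (nat_lit 0x0) (nat_lit 0x3000000000001a000100008000000000) := T_5 (nat_lit 75) (nat_lit 76) (nat_lit 2) (nat_lit 4) (nat_lit 5) L44358 (by decide +kernel)
theorem L44360 : W_5 (nat_lit 5) (nat_lit 0x20001000130008c0010001f0000800000000000000000) (nat_lit 0x0) (nat_lit 0x3000080000801a000100008000000000) := T_5 (nat_lit 107) (nat_lit 87) (nat_lit 3) (nat_lit 2) (nat_lit 5) L44359 (by decide +kernel)
theorem L44361 : W_5 (nat_lit 6) (nat_lit 0x20001000130008c0000001f0000800000000000000000) (nat_lit 0x0) (nat_lit 0x3000380000801a000100008000000000) := T_5 (nat_lit 108) (nat_lit 109) (nat_lit 3) (nat_lit 3) (nat_lit 5) L44360 (by decide +kernel)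
theorem L44362 : W_5 (nat_lit 7) (nat_lit 0x20001000130008c0000000f0000800000000000000000) (nat_lit 0x0) (nat_lit 0x3000380010801b000100008000000000) := T_5 (nat_lit 92) (nat_lit 72) (nat_lit 0) (nat_lit 7) (nat_lit 5) L44361 (by decide +kernel)
theorem L44363 : W_5 (nat_lit 8) (nat_lit 0x20001000130008c000000070000800000000000000000) (nat_lit 0x0) (nat_lit 0x3000380018801b400100008000000000) := T_5 (nat_lit 91) (nat_lit 70) (nat_lit 0) (nat_lit 6) (nat_lit 5) L44362 (by decide +kernel)
theorem L44364 : W_5 (nat_lit 9) (nat_lit 0x20001000130008c000000070000000000000000000000) (nat_lit 0x0) (nat_lit 0x30003a0018801bc00100008000000000) := T_5 (nat_lit 71) (nat_lit 105) (nat_lit 7) (nat_lit 3) (nat_lit 4) L44363 (by decide +kernel)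
theorem L44365 : W_5 (nat_lit 2) (nat_lit 0x20001000130008c0010000f8000800000000000000000) (nat_lit 0x0) (nat_lit 0xe000000000000000000) := D_5 (nat_lit 74) (nat_lit 75) (nat_lit 73) (nat_lit 2) (nat_lit 3) (nat_lit 5) (nat_lit 2) (nat_lit 2) (nat_lit 5) (by decide +kernel)
theorem L44366 : W_5 (nat_lit 3) (nat_lit 0x20001000130008c0010000f0000800000000000000000) (nat_lit 0x0) (nat_lit 0x80000800e000000000000000000) := T_5 (nat_lit 87) (nat_lit 107) (nat_lit 3) (nat_lit 2) (nat_lit 5) L44365 (by decide +kernel)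
theorem L44367 : W_5 (nat_lit 4) (nat_lit 0x20001000130008c0000000f0000800000000000000000) (nat_lit 0x0) (nat_lit 0x380000800e000000000000000000) := T_5 (nat_lit 108) (nat_lit 109) (nat_lit 3) (nat_lit 3) (nat_lit 5) L44366 (by decide +kernel)
theorem L44368 : W_5 (nat_lit 5) (nat_lit 0x20001000130008c000000070000800000000000000000) (nat_lit 0x0) (nat_lit 0x380008800e400000000000000000) := T_5 (nat_lit 91) (nat_lit 70) (nat_lit 0) (nat_lit 6) (nat_lit 5) L44367 (by decide +kernel)
theorem L44369 : W_5 (nat_lit 6) (nat_lit 0x20001000130008c000000070000000000000000000000) (nat_lit 0x0) (nat_lit 0x3a0008800ec00000000000000000) := T_5 (nat_lit 71) (nat_lit 105) (nat_lit 7) (nat_lit 3) (nat_lit 4) L44368 (by decide +kernel)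
theorem L44370 : W_5 (nat_lit 2) (nat_lit 0x20001000130008c0009000f8000000000000000000000) (nat_lit 0x0) (nat_lit 0x10000000000005000000000000000000) := D_5 (nat_lit 124) (nat_lit 72) (nat_lit 74) (nat_lit 4) (nat_lit 5) (nat_lit 8) (nat_lit 6) (nat_lit 5) (nat_lit 8) (by decide +kernel)
theorem L44371 : W_5 (nat_lit 3) (nat_lit 0x20001000130008c000900078000000000000000000000) (nat_lit 0x0) (nat_lit 0x10000200080005000000000000000000) := T_5 (nat_lit 91) (nat_lit 105) (nat_lit 1) (nat_lit 6) (nat_lit 5) L44370 (by decide +kernel)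
theorem L44372 : W_5 (nat_lit 4) (nat_lit 0x20001000130008c000100078000000000000000000000) (nat_lit 0x0) (nat_lit 0x10001a00080005000000000000000000) := T_5 (nat_lit 107) (nat_lit 108) (nat_lit 3) (nat_lit 2) (nat_lit 5) L44371 (by decide +kernel)
theorem L44373 : W_5 (nat_lit 5) (nat_lit 0x20001000130008c000000078000000000000000000000) (nat_lit 0x0) (nat_lit 0x10001b80080005000000000000000000) := T_5 (nat_lit 104) (nat_lit 103) (nat_lit 1) (nat_lit 5) (nat_lit 5) L44372 (by decide +kernel)
theorem L44374 : W_5 (nat_lit 6) (nat_lit 0x20001000130008c000000070000000000000000000000) (nat_lit 0x0) (nat_lit 0x10001b8008c007700000000000000000) := Q_5 (nat_lit 87) (C_5 L44348 (C_5 L44341 (C_5 L44373 (C_5 L44338 N_5)))) (by decide +kernel)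
theorem L44375 : W_5 (nat_lit 2) (nat_lit 0x20001000130008c0012000f8000000000000000000000) (nat_lit 0x0) (nat_lit 0xe000000000000000000) := D_5 (nat_lit 74) (nat_lit 75) (nat_lit 73) (nat_lit 2) (nat_lit 3) (nat_lit 5) (nat_lit 2) (nat_lit 2) (nat_lit 5) (by decide +kernel)
theorem L44376 : W_5 (nat_lit 3) (nat_lit 0x20001000130008c0012000f0000000000000000000000) (nat_lit 0x0) (nat_lit 0x80000800e000000000000000000) := T_5 (nat_lit 87) (nat_lit 107) (nat_lit 3) (nat_lit 2) (nat_lit 5) L44375 (by decide +kernel)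
theorem L44377 : W_5 (nat_lit 4) (nat_lit 0x20001000130008c0002000f0000000000000000000000) (nat_lit 0x0) (nat_lit 0x380000800e000000000000000000) := T_5 (nat_lit 108) (nat_lit 109) (nat_lit 3) (nat_lit 3) (nat_lit 5) L44376 (by decide +kernel)
theorem L44378 : W_5 (nat_lit 5) (nat_lit 0x20001000130008c000200070000000000000000000000) (nat_lit 0x0) (nat_lit 0x390008800e000000000000000000) := T_5 (nat_lit 91) (nat_lit 104) (nat_lit 1) (nat_lit 6) (nat_lit 5) L44377 (by decide +kernel)
theorem L44379 : W_5 (nat_lit 6) (nat_lit 0x20001000130008c000000070000000000000000000000) (nat_lit 0x0) (nat_lit 0x3b0008800e800000000000000000) := T_5 (nat_lit 105) (nat_lit 71) (nat_lit 7) (nat_lit 3) (nat_lit 4) L44378 (by decide +kernel)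
theorem L44380 : W_5 (nat_lit 10) (nat_lit 0x20001000130008c000000030000000000000000000000) (nat_lit 0x0) (nat_lit 0x30003bc01ce01ff00100008000000000) := Q_5 (nat_lit 90) (C_5 L44335 (C_5 L44349 (C_5 L44356 (C_5 L44364 (C_5 L44369 (C_5 L44374 (C_5 L44379 N_5))))))) (by decide +kernel)
theorem L44381 : W_5 (nat_lit 4) (nat_lit 0x20001000130008c0000000f0000000000000000000000) (nat_lit 0x0) (nat_lit 0x10001dc00000000000000000) := T_5 (nat_lit 71) (nat_lit 70) (nat_lit 0) (nat_lit 6) (nat_lit 5) L44333 (by decide +kernel)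
theorem L44382 : W_5 (nat_lit 2) (nat_lit 0x20001000130008c0000000f8004000000000000000000) (nat_lit 0x0) (nat_lit 0xe00000000000000000) := D_5 (nat_lit 70) (nat_lit 69) (nat_lit 71) (nat_lit 0) (nat_lit 5) (nat_lit 5) (nat_lit 0) (nat_lit 6) (nat_lit 5) (by decide +kernel)
theorem L44383 : W_5 (nat_lit 3) (nat_lit 0x20001000130008c0000000f0004000000000000000000) (nat_lit 0x0) (nat_lit 0x8002e00000000000000000) := T_5 (nat_lit 87) (nat_lit 73) (nat_lit 2) (nat_lit 2) (nat_lit 5) L44382 (by decide +kernel)
theorem L44384 : W_5 (nat_lit 4) (nat_lit 0x20001000130008c0000000f0000000000000000000000) (nat_lit 0x0) (nat_lit 0x800ee00000000000000000) := T_5 (nat_lit 74) (nat_lit 75) (nat_lit 2) (nat_lit 3) (nat_lit 5) L44383 (by decide +kernel)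
theorem L44385 : W_5 (nat_lit 2) (nat_lit 0x20001000130008c0020001f0000800000000000000000) (nat_lit 0x0) (nat_lit 0x40000000000018000000000000000000) := D_5 (nat_lit 75) (nat_lit 76) (nat_lit 126) (nat_lit 2) (nat_lit 4) (nat_lit 5) (nat_lit 7) (nat_lit 7) (nat_lit 4) (by decide +kernel)
theorem L44386 : W_5 (nat_lit 3) (nat_lit 0x20001000130008c0020000f0000800000000000000000) (nat_lit 0x0) (nat_lit 0x40000000100019000000000000000000) := T_5 (nat_lit 92) (nat_lit 72) (nat_lit 0) (nat_lit 7) (nat_lit 5) L44385 (by decide +kernel)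
theorem L44387 : W_5 (nat_lit 4) (nat_lit 0x20001000130008c0000000f0000800000000000000000) (nat_lit 0x0) (nat_lit 0x40003000100019000000000000000000) := T_5 (nat_lit 109) (nat_lit 108) (nat_lit 3) (nat_lit 3) (nat_lit 5) L44386 (by decide +kernel)
theorem L44388 : W_5 (nat_lit 5) (nat_lit 0x20001000130008c0000000f0000000000000000000000) (nat_lit 0x0) (nat_lit 0x40003000100019c00000000000000000) := T_5 (nat_lit 71) (nat_lit 70) (nat_lit 0) (nat_lit 6) (nat_lit 5) L44387 (by decide +kernel)
theorem L44389 : W_5 (nat_lit 2) (nat_lit 0x20001000130008c0000800f8004200000000000000000) (nat_lit 0x0) (nat_lit 0x40004000100000000000000000) := D_5 (nat_lit 86) (nat_lit 68) (nat_lit 102) (nat_lit 0) (nat_lit 4) (nat_lit 5) (nat_lit 1) (nat_lit 4) (nat_lit 5) (by decide +kernel)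
theorem L44390 : W_5 (nat_lit 3) (nat_lit 0x20001000130008c0000000f8004200000000000000000) (nat_lit 0x0) (nat_lit 0x1c0004000100000000000000000) := T_5 (nat_lit 103) (nat_lit 104) (nat_lit 1) (nat_lit 5) (nat_lit 5) L44389 (by decide +kernel)
theorem L44391 : W_5 (nat_lit 4) (nat_lit 0x20001000130008c0000000f8004000000000000000000) (nat_lit 0x0) (nat_lit 0x1c0004000700000000000000000) := T_5 (nat_lit 69) (nat_lit 70) (nat_lit 0) (nat_lit 5) (nat_lit 5) L44390 (by decide +kernel)
theorem L44392 : W_5 (nat_lit 5) (nat_lit 0x20001000130008c0000000f0004000000000000000000) (nat_lit 0x0) (nat_lit 0x1c000c002700000000000000000) := T_5 (nat_lit 87) (nat_lit 73) (nat_lit 2) (nat_lit 2) (nat_lit 5) L44391 (by decide +kernel)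
theorem L44393 : W_5 (nat_lit 6) (nat_lit 0x20001000130008c0000000f0000000000000000000000) (nat_lit 0x0) (nat_lit 0x1c000c00e700000000000000000) := T_5 (nat_lit 74) (nat_lit 75) (nat_lit 2) (nat_lit 3) (nat_lit 5) L44392 (by decide +kernel)
theorem L44394 : W_5 (nat_lit 2) (nat_lit 0x20001000130008c0010800f8002400000000000000000) (nat_lit 0x0) (nat_lit 0x40004001000000000000000000) := D_5 (nat_lit 86) (nat_lit 72) (nat_lit 102) (nat_lit 2) (nat_lit 1) (nat_lit 5) (nat_lit 1) (nat_lit 4) (nat_lit 5) (by decide +kernel)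
theorem L44395 : W_5 (nat_lit 3) (nat_lit 0x20001000130008c0010800f8000400000000000000000) (nat_lit 0x0) (nat_lit 0x40004007000000000000000000) := T_5 (nat_lit 73) (nat_lit 74) (nat_lit 2) (nat_lit 2) (nat_lit 5) L44394 (by decide +kernel)
theorem L44396 : W_5 (nat_lit 4) (nat_lit 0x20001000130008c0010000f8000400000000000000000) (nat_lit 0x0) (nat_lit 0x1c0004007000000000000000000) := T_5 (nat_lit 103) (nat_lit 104) (nat_lit 1) (nat_lit 5) (nat_lit 5) L44395 (by decide +kernel)
theorem L44397 : W_5 (nat_lit 5) (nat_lit 0x20001000130008c0010000f0000400000000000000000) (nat_lit 0x0) (nat_lit 0x1c000c007200000000000000000) := T_5 (nat_lit 87) (nat_lit 69) (nat_lit 0) (nat_lit 5) (nat_lit 5) L44396 (by decide +kernel)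
theorem L44398 : W_5 (nat_lit 6) (nat_lit 0x20001000130008c0010000f0000000000000000000000) (nat_lit 0x0) (nat_lit 0x1c000c007e00000000000000000) := T_5 (nat_lit 70) (nat_lit 71) (nat_lit 0) (nat_lit 6) (nat_lit 5) L44397 (by decide +kernel)
theorem L44399 : W_5 (nat_lit 7) (nat_lit 0x20001000130008c0000000f0000000000000000000000) (nat_lit 0x0) (nat_lit 0x31c000c007e00000000000000000) := T_5 (nat_lit 108) (nat_lit 109) (nat_lit 3) (nat_lit 3) (nat_lit 5) L44398 (by decide +kernel)
theorem L44400 : W_5 (nat_lit 2) (nat_lit 0x20001000130008c0010000f0006000000000000000000) (nat_lit 0x0) (nat_lit 0x30000000000000000100000000000000) := D_5 (nat_lit 125) (nat_lit 124) (nat_lit 56) (nat_lit 5) (nat_lit 6) (nat_lit 4) (nat_lit 4) (nat_lit 6) (nat_lit 7) (by decide +kernel)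
theorem L44401 : W_5 (nat_lit 3) (nat_lit 0x20001000130008c0000000f0006000000000000000000) (nat_lit 0x0) (nat_lit 0x30003000000000000100000000000000) := T_5 (nat_lit 108) (nat_lit 109) (nat_lit 3) (nat_lit 3) (nat_lit 5) L44400 (by decide +kernel)
theorem L44402 : W_5 (nat_lit 4) (nat_lit 0x20001000130008c0000000f0004000000000000000000) (nat_lit 0x0) (nat_lit 0x30003000008002000100000000000000) := T_5 (nat_lit 73) (nat_lit 87) (nat_lit 2) (nat_lit 2) (nat_lit 5) L44401 (by decide +kernel)
theorem L44403 : W_5 (nat_lit 5) (nat_lit 0x20001000130008c0000000f0000000000000000000000) (nat_lit 0x0) (nat_lit 0x3000300000800e000100000000000000) := T_5 (nat_lit 74) (nat_lit 75) (nat_lit 2) (nat_lit 3) (nat_lit 5) L44402 (by decide +kernel)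
theorem L44404 : W_5 (nat_lit 8) (nat_lit 0x20001000130008c000000070000000000000000000000) (nat_lit 0x0) (nat_lit 0x700031c018c01ff00100000000000000) := Q_5 (nat_lit 91) (C_5 L44381 (C_5 L44384 (C_5 L44388 (C_5 L44393 (C_5 L44399 (C_5 L44403 N_5)))))) (by decide +kernel)
theorem L44405 : W_5 (nat_lit 2) (nat_lit 0x20001000130008c000080078000200000000000000000) (nat_lit 0x0) (nat_lit 0x40004000100000000000000000) := D_5 (nat_lit 86) (nat_lit 102) (nat_lit 68) (nat_lit 1) (nat_lit 4) (nat_lit 5) (nat_lit 0) (nat_lit 4) (nat_lit 5) (by decide +kernel)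
theorem L44406 : W_5 (nat_lit 3) (nat_lit 0x20001000130008c000080078000000000000000000000) (nat_lit 0x0) (nat_lit 0x40004000700000000000000000) := T_5 (nat_lit 69) (nat_lit 70) (nat_lit 0) (nat_lit 5) (nat_lit 5) L44405 (by decide +kernel)
theorem L44407 : W_5 (nat_lit 4) (nat_lit 0x20001000130008c000000078000000000000000000000) (nat_lit 0x0) (nat_lit 0x1c0004000700000000000000000) := T_5 (nat_lit 103) (nat_lit 104) (nat_lit 1) (nat_lit 5) (nat_lit 5) L44406 (by decide +kernel)
theorem L44408 : W_5 (nat_lit 2) (nat_lit 0x20001000130008c00000007c002000000000000000000) (nat_lit 0x0) (nat_lit 0x1c0000000000000000000000000) := D_5 (nat_lit 103) (nat_lit 104) (nat_lit 102) (nat_lit 1) (nat_lit 5) (nat_lit 5) (nat_lit 1) (nat_lit 4) (nat_lit 5) (by decide +kernel)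
theorem L44409 : W_5 (nat_lit 3) (nat_lit 0x20001000130008c000000078002000000000000000000) (nat_lit 0x0) (nat_lit 0x1c0004001000000000000000000) := T_5 (nat_lit 86) (nat_lit 72) (nat_lit 2) (nat_lit 1) (nat_lit 5) L44408 (by decide +kernel)
theorem L44410 : W_5 (nat_lit 4) (nat_lit 0x20001000130008c000000078000000000000000000000) (nat_lit 0x0) (nat_lit 0x1c0004007000000000000000000) := T_5 (nat_lit 73) (nat_lit 74) (nat_lit 2) (nat_lit 2) (nat_lit 5) L44409 (by decide +kernel)
theorem L44411 : W_5 (nat_lit 2) (nat_lit 0x20001000130008c000000078004400000000000000000) (nat_lit 0x0) (nat_lit 0x80008800000000000000000) := D_5 (nat_lit 91) (nat_lit 75) (nat_lit 71) (nat_lit 2) (nat_lit 3) (nat_lit 5) (nat_lit 0) (nat_lit 6) (nat_lit 5) (by decide +kernel)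
theorem L44412 : W_5 (nat_lit 3) (nat_lit 0x20001000130008c000000078004000000000000000000) (nat_lit 0x0) (nat_lit 0x80008e00000000000000000) := T_5 (nat_lit 70) (nat_lit 69) (nat_lit 0) (nat_lit 5) (nat_lit 5) L44411 (by decide +kernel)
theorem L44413 : W_5 (nat_lit 4) (nat_lit 0x20001000130008c000000078000000000000000000000) (nat_lit 0x0) (nat_lit 0x8000ee00000000000000000) := T_5 (nat_lit 74) (nat_lit 73) (nat_lit 2) (nat_lit 2) (nat_lit 5) L44412 (by decide +kernel)
theorem L44414 : W_5 (nat_lit 5) (nat_lit 0x20001000130008c000000070000000000000000000000) (nat_lit 0x0) (nat_lit 0x1c008c00ff00000000000000000) := Q_5 (nat_lit 87) (C_5 L44341 (C_5 L44407 (C_5 L44410 (C_5 L44413 N_5)))) (by decide +kernel)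
theorem L44415 : W_5 (nat_lit 5) (nat_lit 0x20001000130008c000000070000000000000000000000) (nat_lit 0x0) (nat_lit 0x100019c000c007700000000000000000) := Q_5 (nat_lit 87) (C_5 L44410 (C_5 L44407 (C_5 L44348 N_5))) (by decide +kernel)
theorem L44416 : W_5 (nat_lit 2) (nat_lit 0x20001000130008c0018000f0000800000000000000000) (nat_lit 0x0) (nat_lit 0x1000000000000c000000000000000000) := D_5 (nat_lit 74) (nat_lit 75) (nat_lit 124) (nat_lit 2) (nat_lit 3) (nat_lit 5) (nat_lit 6) (nat_lit 5) (nat_lit 8) (by decide +kernel)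
theorem L44417 : W_5 (nat_lit 3) (nat_lit 0x20001000130008c0010000f0000800000000000000000) (nat_lit 0x0) (nat_lit 0x1000080000800c000000000000000000) := T_5 (nat_lit 107) (nat_lit 87) (nat_lit 3) (nat_lit 2) (nat_lit 5) L44416 (by decide +kernel)
theorem L44418 : W_5 (nat_lit 4) (nat_lit 0x20001000130008c0000000f0000800000000000000000) (nat_lit 0x0) (nat_lit 0x1000380000800c000000000000000000) := T_5 (nat_lit 108) (nat_lit 109) (nat_lit 3) (nat_lit 3) (nat_lit 5) L44417 (by decide +kernel)
theorem L44419 : W_5 (nat_lit 5) (nat_lit 0x20001000130008c0000000f0000000000000000000000) (nat_lit 0x0) (nat_lit 0x1000380000800cc00000000000000000) := T_5 (nat_lit 71) (nat_lit 70) (nat_lit 0) (nat_lit 6) (nat_lit 5) L44418 (by decide +kernel)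
theorem L44420 : W_5 (nat_lit 2) (nat_lit 0x20001000130008c0010000f0004000000000000000000) (nat_lit 0x0) (nat_lit 0x10000800008000000000000000000000) := D_5 (nat_lit 107) (nat_lit 87) (nat_lit 124) (nat_lit 3) (nat_lit 2) (nat_lit 5) (nat_lit 6) (nat_lit 5) (nat_lit 8) (by decide +kernel)
theorem L44421 : W_5 (nat_lit 3) (nat_lit 0x20001000130008c0000000f0004000000000000000000) (nat_lit 0x0) (nat_lit 0x10003800008000000000000000000000) := T_5 (nat_lit 108) (nat_lit 109) (nat_lit 3) (nat_lit 3) (nat_lit 5) L44420 (by decide +kernel)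
theorem L44422 : W_5 (nat_lit 4) (nat_lit 0x20001000130008c0000000f0000000000000000000000) (nat_lit 0x0) (nat_lit 0x1000380000800c000000000000000000) := T_5 (nat_lit 74) (nat_lit 75) (nat_lit 2) (nat_lit 3) (nat_lit 5) L44421 (by decide +kernel)
theorem L44423 : W_5 (nat_lit 2) (nat_lit 0x20001000130008c0010000f8000000000000000000000) (nat_lit 0x0) (nat_lit 0xe00000000000000000) := D_5 (nat_lit 70) (nat_lit 69) (nat_lit 71) (nat_lit 0) (nat_lit 5) (nat_lit 5) (nat_lit 0) (nat_lit 6) (nat_lit 5) (by decide +kernel)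
theorem L44424 : W_5 (nat_lit 3) (nat_lit 0x20001000130008c0010000f0000000000000000000000) (nat_lit 0x0) (nat_lit 0x800008000e00000000000000000) := T_5 (nat_lit 87) (nat_lit 107) (nat_lit 3) (nat_lit 2) (nat_lit 5) L44423 (by decide +kernel)
theorem L44425 : W_5 (nat_lit 4) (nat_lit 0x20001000130008c0000000f0000000000000000000000) (nat_lit 0x0) (nat_lit 0x3800008000e00000000000000000) := T_5 (nat_lit 108) (nat_lit 109) (nat_lit 3) (nat_lit 3) (nat_lit 5) L44424 (by decide +kernel)
theorem L44426 : W_5 (nat_lit 6) (nat_lit 0x20001000130008c000000070000000000000000000000) (nat_lit 0x0) (nat_lit 0x5000380018801de00000000000000000) := Q_5 (nat_lit 91) (C_5 L44388 (C_5 L44381 (C_5 L44419 (C_5 L44422 (C_5 L44425 N_5))))) (by decide +kernel)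
theorem L44427 : W_5 (nat_lit 5) (nat_lit 0x20001000130008c000000070000000000000000000000) (nat_lit 0x0) (nat_lit 0x100019c000c003700000000000000000) := Q_5 (nat_lit 87) (C_5 L44407 (C_5 L44348 N_5)) (by decide +kernel)
theorem L44428 : W_5 (nat_lit 5) (nat_lit 0x20001000130008c000000070000000000000000000000) (nat_lit 0x0) (nat_lit 0x100019c008c00ef00000000000000000) := Q_5 (nat_lit 87) (C_5 L44413 (C_5 L44407 (C_5 L44338 N_5))) (by decide +kernel)
theorem L44429 : W_5 (nat_lit 2) (nat_lit 0x20001000130008c0010000f0004800000000000000000) (nat_lit 0x0) (nat_lit 0x30000800000000000000000000000000) := D_5 (nat_lit 124) (nat_lit 125) (nat_lit 107) (nat_lit 5) (nat_lit 6) (nat_lit 4) (nat_lit 6) (nat_lit 5) (nat_lit 8) (by decide +kernel)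
theorem L44430 : W_5 (nat_lit 3) (nat_lit 0x20001000130008c0010000f0000800000000000000000) (nat_lit 0x0) (nat_lit 0x3000080000000c000000000000000000) := T_5 (nat_lit 74) (nat_lit 75) (nat_lit 2) (nat_lit 3) (nat_lit 5) L44429 (by decide +kernel)
theorem L44431 : W_5 (nat_lit 4) (nat_lit 0x20001000130008c0000000f0000800000000000000000) (nat_lit 0x0) (nat_lit 0x3000380000000c000000000000000000) := T_5 (nat_lit 108) (nat_lit 109) (nat_lit 3) (nat_lit 3) (nat_lit 5) L44430 (by decide +kernel)
theorem L44432 : W_5 (nat_lit 5) (nat_lit 0x20001000130008c0000000f0000000000000000000000) (nat_lit 0x0) (nat_lit 0x3000380000000cc00000000000000000) := T_5 (nat_lit 71) (nat_lit 70) (nat_lit 0) (nat_lit 6) (nat_lit 5) L44431 (by decide +kernel)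
theorem L44433 : W_5 (nat_lit 2) (nat_lit 0x20001000130008c0010000f0004000000000000000000) (nat_lit 0x0) (nat_lit 0x30000800000000000000000000000000) := D_5 (nat_lit 124) (nat_lit 107) (nat_lit 125) (nat_lit 6) (nat_lit 5) (nat_lit 8) (nat_lit 5) (nat_lit 6) (nat_lit 4) (by decide +kernel)
theorem L44434 : W_5 (nat_lit 3) (nat_lit 0x20001000130008c0000000f0004000000000000000000) (nat_lit 0x0) (nat_lit 0x30003800000000000000000000000000) := T_5 (nat_lit 108) (nat_lit 109) (nat_lit 3) (nat_lit 3) (nat_lit 5) L44433 (by decide +kernel)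
theorem L44435 : W_5 (nat_lit 4) (nat_lit 0x20001000130008c0000000f0000000000000000000000) (nat_lit 0x0) (nat_lit 0x3000380000000c000000000000000000) := T_5 (nat_lit 74) (nat_lit 75) (nat_lit 2) (nat_lit 3) (nat_lit 5) L44434 (by decide +kernel)
theorem L44436 : W_5 (nat_lit 2) (nat_lit 0x20001000130009c0010000f0001800000000000000000) (nat_lit 0x0) (nat_lit 0x60000000000004000000000000000000) := D_5 (nat_lit 125) (nat_lit 74) (nat_lit 126) (nat_lit 5) (nat_lit 6) (nat_lit 4) (nat_lit 1) (nat_lit 8) (nat_lit 7) (by decide +kernel)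
theorem L44437 : W_5 (nat_lit 3) (nat_lit 0x20001000130008c0010000f0001800000000000000000) (nat_lit 0x0) (nat_lit 0x70000800000004000000000000000000) := T_5 (nat_lit 124) (nat_lit 107) (nat_lit 4) (nat_lit 5) (nat_lit 8) L44436 (by decide +kernel)
theorem L44438 : W_5 (nat_lit 4) (nat_lit 0x20001000130008c0010000f0000800000000000000000) (nat_lit 0x0) (nat_lit 0x70000800100005000000000000000000) := T_5 (nat_lit 72) (nat_lit 92) (nat_lit 0) (nat_lit 7) (nat_lit 5) L44437 (by decide +kernel)
theorem L44439 : W_5 (nat_lit 5) (nat_lit 0x20001000130008c0000000f0000800000000000000000) (nat_lit 0x0) (nat_lit 0x70003800100005000000000000000000) := T_5 (nat_lit 108) (nat_lit 109) (nat_lit 3) (nat_lit 3) (nat_lit 5) L44438 (by decide +kernel)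
theorem L44440 : W_5 (nat_lit 6) (nat_lit 0x20001000130008c0000000f0000000000000000000000) (nat_lit 0x0) (nat_lit 0x70003800100005c00000000000000000) := T_5 (nat_lit 71) (nat_lit 70) (nat_lit 0) (nat_lit 6) (nat_lit 5) L44439 (by decide +kernel)
theorem L44441 : W_5 (nat_lit 7) (nat_lit 0x20001000130008c000000070000000000000000000000) (nat_lit 0x0) (nat_lit 0x7000380018001dc00000000000000000) := Q_5 (nat_lit 91) (C_5 L44388 (C_5 L44381 (C_5 L44432 (C_5 L44435 (C_5 L44440 N_5))))) (by decide +kernel)
theorem L44442 : W_5 (nat_lit 2) (nat_lit 0x2000100013000bc001000070006000000000000000000) (nat_lit 0x0) (nat_lit 0x19000000000000000000) := D_5 (nat_lit 75) (nat_lit 76) (nat_lit 72) (nat_lit 1) (nat_lit 8) (nat_lit 4) (nat_lit 1) (nat_lit 7) (nat_lit 4) (by decide +kernel)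
theorem L44443 : W_5 (nat_lit 3) (nat_lit 0x2000100013000bc001000070004000000000000000000) (nat_lit 0x0) (nat_lit 0x801b000000000000000000) := T_5 (nat_lit 73) (nat_lit 87) (nat_lit 2) (nat_lit 2) (nat_lit 5) L44442 (by decide +kernel)
theorem L44444 : W_5 (nat_lit 4) (nat_lit 0x2000100013000bc001000070000000000000000000000) (nat_lit 0x0) (nat_lit 0x8801f000000000000000000) := T_5 (nat_lit 74) (nat_lit 91) (nat_lit 5) (nat_lit 6) (nat_lit 4) L44443 (by decide +kernel)
theorem L44445 : W_5 (nat_lit 5) (nat_lit 0x2000100013000bc000000070000000000000000000000) (nat_lit 0x0) (nat_lit 0x300008801f000000000000000000) := T_5 (nat_lit 108) (nat_lit 109) (nat_lit 2) (nat_lit 3) (nat_lit 7) L44444 (by decide +kernel)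
theorem L44446 : W_5 (nat_lit 6) (nat_lit 0x20001000130009c000000070000000000000000000000) (nat_lit 0x0) (nat_lit 0x6000300008801f000000000000000000) := T_5 (nat_lit 125) (nat_lit 126) (nat_lit 1) (nat_lit 8) (nat_lit 7) L44445 (by decide +kernel)
theorem L44447 : W_5 (nat_lit 2) (nat_lit 0x20001000130009c000000070000000000000000000000) (nat_lit 0x0) (nat_lit 0x800000003000000000000000000) := D_5 (nat_lit 107) (nat_lit 73) (nat_lit 72) (nat_lit 5) (nat_lit 5) (nat_lit 4) (nat_lit 4) (nat_lit 5) (nat_lit 8) (by decide +kernel)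
theorem L44448 : W_5 (nat_lit 2) (nat_lit 0x2000100013000dc001800070000000000000000000000) (nat_lit 0x0) (nat_lit 0x2000080004000000000000000000) := D_5 (nat_lit 91) (nat_lit 74) (nat_lit 109) (nat_lit 6) (nat_lit 5) (nat_lit 8) (nat_lit 3) (nat_lit 3) (nat_lit 5) (by decide +kernel)
theorem L44449 : W_5 (nat_lit 3) (nat_lit 0x2000100013000dc000800070000000000000000000000) (nat_lit 0x0) (nat_lit 0x3000088004000000000000000000) := T_5 (nat_lit 108) (nat_lit 87) (nat_lit 3) (nat_lit 2) (nat_lit 5) L44448 (by decide +kernel)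
theorem L44450 : W_5 (nat_lit 4) (nat_lit 0x2000100013000dc000000070000000000000000000000) (nat_lit 0x0) (nat_lit 0x3800088005000000000000000000) := T_5 (nat_lit 107) (nat_lit 72) (nat_lit 4) (nat_lit 5) (nat_lit 8) L44449 (by decide +kernel)
theorem L44451 : W_5 (nat_lit 5) (nat_lit 0x20001000130009c000000070000000000000000000000) (nat_lit 0x0) (nat_lit 0x60003800088005000000000000000000) := T_5 (nat_lit 126) (nat_lit 125) (nat_lit 1) (nat_lit 8) (nat_lit 7) L44450 (by decide +kernel)
theorem L44452 : W_5 (nat_lit 2) (nat_lit 0x20001000130009c000000070006000000000000000000) (nat_lit 0x0) (nat_lit 0x80018000000000000000000) := D_5 (nat_lit 75) (nat_lit 76) (nat_lit 91) (nat_lit 1) (nat_lit 8) (nat_lit 4) (nat_lit 2) (nat_lit 3) (nat_lit 5) (by decide +kernel)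
theorem L44453 : W_5 (nat_lit 3) (nat_lit 0x20001000130009c000000070002000000000000000000) (nat_lit 0x0) (nat_lit 0x8801c000000000000000000) := T_5 (nat_lit 74) (nat_lit 87) (nat_lit 2) (nat_lit 2) (nat_lit 5) L44452 (by decide +kernel)
theorem L44454 : W_5 (nat_lit 4) (nat_lit 0x20001000130009c000000070000000000000000000000) (nat_lit 0x0) (nat_lit 0x80008801e000000000000000000) := T_5 (nat_lit 73) (nat_lit 107) (nat_lit 5) (nat_lit 5) (nat_lit 4) L44453 (by decide +kernel)
theorem L44455 : W_5 (nat_lit 7) (nat_lit 0x20001000130008c000000070000000000000000000000) (nat_lit 0x0) (nat_lit 0x7000380008801f000000000000000000) := Q_5 (nat_lit 124) (C_5 L44446 (C_5 L44447 (C_5 L44451 (C_5 L44454 N_5)))) (by decide +kernel)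
theorem L44456 : W_5 (nat_lit 9) (nat_lit 0x20001000130008c000000030000000000000000000000) (nat_lit 0x0) (nat_lit 0x700039c01cc01ff00100000000000000) := Q_5 (nat_lit 90) (C_5 L44349 (C_5 L44404 (C_5 L44414 (C_5 L44415 (C_5 L44426 (C_5 L44427 (C_5 L44428 (C_5 L44441 (C_5 L44455 N_5))))))))) (by decide +kernel)
theorem L44457 : W_5 (nat_lit 2) (nat_lit 0x2000100013c008c000200038000000000000000000000) (nat_lit 0x0) (nat_lit 0x20030000000000000000000000000000000) := D_5 (nat_lit 124) (nat_lit 125) (nat_lit 137) (nat_lit 2) (nat_lit 2) (nat_lit 8) (nat_lit 2) (nat_lit 1) (nat_lit 8) (by decide +kernel)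
theorem L44458 : W_5 (nat_lit 3) (nat_lit 0x20001000138008c000200038000000000000000000000) (nat_lit 0x0) (nat_lit 0x800060030000000000000000000000000000000) := T_5 (nat_lit 138) (nat_lit 155) (nat_lit 5) (nat_lit 3) (nat_lit 5) L44457 (by decide +kernel)
theorem L44459 : W_5 (nat_lit 4) (nat_lit 0x20001000138008c000200030000000000000000000000) (nat_lit 0x0) (nat_lit 0x800060030000000008000400000000000000000) := T_5 (nat_lit 87) (nat_lit 70) (nat_lit 4) (nat_lit 3) (nat_lit 8) L44458 (by decide +kernel)
theorem L44460 : W_5 (nat_lit 5) (nat_lit 0x20001000130008c000200030000000000000000000000) (nat_lit 0x0) (nat_lit 0x8000e0030000000008001400000000000000000) := T_5 (nat_lit 139) (nat_lit 72) (nat_lit 6) (nat_lit 3) (nat_lit 8) L44459 (by decide +kernel)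
theorem L44461 : W_5 (nat_lit 6) (nat_lit 0x20001000130008c000000030000000000000000000000) (nat_lit 0x0) (nat_lit 0x8000e0030000200008001c00000000000000000) := T_5 (nat_lit 105) (nat_lit 71) (nat_lit 7) (nat_lit 3) (nat_lit 4) L44460 (by decide +kernel)
theorem L44462 : W_5 (nat_lit 2) (nat_lit 0x20001000130009c000200030000000000000000000000) (nat_lit 0x0) (nat_lit 0x60000100000000000000000000000000) := D_5 (nat_lit 125) (nat_lit 126) (nat_lit 104) (nat_lit 1) (nat_lit 8) (nat_lit 7) (nat_lit 0) (nat_lit 6) (nat_lit 7) (by decide +kernel)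
theorem L44463 : W_5 (nat_lit 3) (nat_lit 0x20001000130009c000000030000000000000000000000) (nat_lit 0x0) (nat_lit 0x60000300000000800000000000000000) := T_5 (nat_lit 105) (nat_lit 71) (nat_lit 7) (nat_lit 3) (nat_lit 4) L44462 (by decide +kernel)
theorem L44464 : W_5 (nat_lit 2) (nat_lit 0x20001000130009c0020000f0008800000000000000000) (nat_lit 0x0) (nat_lit 0x40000000100010000000000000000000) := D_5 (nat_lit 92) (nat_lit 76) (nat_lit 126) (nat_lit 2) (nat_lit 4) (nat_lit 5) (nat_lit 7) (nat_lit 7) (nat_lit 4) (by decide +kernel)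
theorem L44465 : W_5 (nat_lit 3) (nat_lit 0x20001000130009c0020000f0000800000000000000000) (nat_lit 0x0) (nat_lit 0x4000000010001c000000000000000000) := T_5 (nat_lit 75) (nat_lit 74) (nat_lit 2) (nat_lit 3) (nat_lit 5) L44464 (by decide +kernel)
theorem L44466 : W_5 (nat_lit 4) (nat_lit 0x20001000130009c0000000f0000800000000000000000) (nat_lit 0x0) (nat_lit 0x4000300010001c000000000000000000) := T_5 (nat_lit 109) (nat_lit 108) (nat_lit 3) (nat_lit 3) (nat_lit 5) L44465 (by decide +kernel)
theorem L44467 : W_5 (nat_lit 5) (nat_lit 0x20001000130009c000000070000800000000000000000) (nat_lit 0x0) (nat_lit 0x4000300018001c400000000000000000) := T_5 (nat_lit 91) (nat_lit 70) (nat_lit 0) (nat_lit 6) (nat_lit 5) L44466 (by decide +kernel)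
theorem L44468 : W_5 (nat_lit 6) (nat_lit 0x20001000130009c000000070000000000000000000000) (nat_lit 0x0) (nat_lit 0x4000320018001cc00000000000000000) := T_5 (nat_lit 71) (nat_lit 105) (nat_lit 7) (nat_lit 3) (nat_lit 4) L44467 (by decide +kernel)
theorem L44469 : W_5 (nat_lit 2) (nat_lit 0x20001000130009c000080078002a00000000000000000) (nat_lit 0x0) (nat_lit 0x40004000100000000000000000) := D_5 (nat_lit 86) (nat_lit 68) (nat_lit 102) (nat_lit 0) (nat_lit 4) (nat_lit 5) (nat_lit 1) (nat_lit 4) (nat_lit 5) (by decide +kernel)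
theorem L44470 : W_5 (nat_lit 3) (nat_lit 0x20001000130009c000000078002a00000000000000000) (nat_lit 0x0) (nat_lit 0x1c0004000100000000000000000) := T_5 (nat_lit 103) (nat_lit 104) (nat_lit 1) (nat_lit 5) (nat_lit 5) L44469 (by decide +kernel)
theorem L44471 : W_5 (nat_lit 4) (nat_lit 0x20001000130009c000000078002800000000000000000) (nat_lit 0x0) (nat_lit 0x1c0004000700000000000000000) := T_5 (nat_lit 69) (nat_lit 70) (nat_lit 0) (nat_lit 5) (nat_lit 5) L44470 (by decide +kernel)
theorem L44472 : W_5 (nat_lit 5) (nat_lit 0x20001000130009c000000070002800000000000000000) (nat_lit 0x0) (nat_lit 0x1c000c004700000000000000000) := T_5 (nat_lit 87) (nat_lit 74) (nat_lit 2) (nat_lit 2) (nat_lit 5) L44471 (by decide +kernel)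
theorem L44473 : W_5 (nat_lit 6) (nat_lit 0x20001000130009c000000070000800000000000000000) (nat_lit 0x0) (nat_lit 0x9c000c006700000000000000000) := T_5 (nat_lit 73) (nat_lit 107) (nat_lit 5) (nat_lit 5) (nat_lit 4) L44472 (by decide +kernel)
theorem L44474 : W_5 (nat_lit 7) (nat_lit 0x20001000130009c000000070000000000000000000000) (nat_lit 0x0) (nat_lit 0xbc000c006f00000000000000000) := T_5 (nat_lit 71) (nat_lit 105) (nat_lit 7) (nat_lit 3) (nat_lit 4) L44473 (by decide +kernel)
theorem L44475 : W_5 (nat_lit 2) (nat_lit 0x20001000130009c000000070002c00000000000000000) (nat_lit 0x0) (nat_lit 0x8000300000000000000000) := D_5 (nat_lit 69) (nat_lit 87) (nat_lit 68) (nat_lit 0) (nat_lit 5) (nat_lit 5) (nat_lit 3) (nat_lit 0) (nat_lit 4) (by decide +kernel)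
theorem L44476 : W_5 (nat_lit 3) (nat_lit 0x20001000130009c000000070002800000000000000000) (nat_lit 0x0) (nat_lit 0x88000700000000000000000) := T_5 (nat_lit 70) (nat_lit 91) (nat_lit 0) (nat_lit 6) (nat_lit 5) L44475 (by decide +kernel)
theorem L44477 : W_5 (nat_lit 4) (nat_lit 0x20001000130009c000000070002000000000000000000) (nat_lit 0x0) (nat_lit 0x200088000f00000000000000000) := T_5 (nat_lit 71) (nat_lit 105) (nat_lit 7) (nat_lit 3) (nat_lit 4) L44476 (by decide +kernel)
theorem L44478 : W_5 (nat_lit 5) (nat_lit 0x20001000130009c000000070000000000000000000000) (nat_lit 0x0) (nat_lit 0xa00088002f00000000000000000) := T_5 (nat_lit 73) (nat_lit 107) (nat_lit 5) (nat_lit 5) (nat_lit 4) L44477 (by decide +kernel)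
theorem L44479 : W_5 (nat_lit 8) (nat_lit 0x20001000130009c000000030000000000000000000000) (nat_lit 0x0) (nat_lit 0x40003bc01cc01ef00000000000000000) := Q_5 (nat_lit 90) (C_5 L44468 (C_5 L44454 (C_5 L44474 (C_5 L44478 N_5)))) (by decide +kernel)
theorem L44480 : W_5 (nat_lit 2) (nat_lit 0x2000100013000bc001080078004200000000000000000) (nat_lit 0x0) (nat_lit 0x40004000100000000000000000) := D_5 (nat_lit 86) (nat_lit 68) (nat_lit 102) (nat_lit 0) (nat_lit 4) (nat_lit 5) (nat_lit 1) (nat_lit 4) (nat_lit 5) (by decide +kernel)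
theorem L44481 : W_5 (nat_lit 3) (nat_lit 0x2000100013000bc001000078004200000000000000000) (nat_lit 0x0) (nat_lit 0x1c0004000100000000000000000) := T_5 (nat_lit 103) (nat_lit 104) (nat_lit 1) (nat_lit 5) (nat_lit 5) L44480 (by decide +kernel)
theorem L44482 : W_5 (nat_lit 4) (nat_lit 0x2000100013000bc001000078004000000000000000000) (nat_lit 0x0) (nat_lit 0x1c0004000700000000000000000) := T_5 (nat_lit 69) (nat_lit 70) (nat_lit 0) (nat_lit 5) (nat_lit 5) L44481 (by decide +kernel)
theorem L44483 : W_5 (nat_lit 5) (nat_lit 0x2000100013000bc001000070004000000000000000000) (nat_lit 0x0) (nat_lit 0x1c000c002700000000000000000) := T_5 (nat_lit 87) (nat_lit 73) (nat_lit 2) (nat_lit 2) (nat_lit 5) L44482 (by decide +kernel)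
theorem L44484 : W_5 (nat_lit 6) (nat_lit 0x2000100013000bc001000070000000000000000000000) (nat_lit 0x0) (nat_lit 0x1c008c006700000000000000000) := T_5 (nat_lit 74) (nat_lit 91) (nat_lit 5) (nat_lit 6) (nat_lit 4) L44483 (by decide +kernel)
theorem L44485 : W_5 (nat_lit 7) (nat_lit 0x2000100013000bc000000070000000000000000000000) (nat_lit 0x0) (nat_lit 0x31c008c006700000000000000000) := T_5 (nat_lit 108) (nat_lit 109) (nat_lit 2) (nat_lit 3) (nat_lit 7) L44484 (by decide +kernel)
theorem L44486 : W_5 (nat_lit 8) (nat_lit 0x20001000130009c000000070000000000000000000000) (nat_lit 0x0) (nat_lit 0x600031c008c006700000000000000000) := T_5 (nat_lit 125) (nat_lit 126) (nat_lit 1) (nat_lit 8) (nat_lit 7) L44485 (by decide +kernel)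
theorem L44487 : W_5 (nat_lit 2) (nat_lit 0x200010001b000dc0028001f0000800000000000000000) (nat_lit 0x0) (nat_lit 0x2000100008000000000000000000000000000000000000000) := D_5 (nat_lit 176) (nat_lit 159) (nat_lit 193) (nat_lit 5) (nat_lit 7) (nat_lit 6) (nat_lit 5) (nat_lit 7) (nat_lit 7) (by decide +kernel)
theorem L44488 : W_5 (nat_lit 3) (nat_lit 0x2000100013000dc0028001f0000800000000000000000) (nat_lit 0x0) (nat_lit 0x2000100028000800000000000000000000000000000000000) := T_5 (nat_lit 143) (nat_lit 161) (nat_lit 7) (nat_lit 7) (nat_lit 5) L44487 (by decide +kernel)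
theorem L44489 : W_5 (nat_lit 4) (nat_lit 0x2000100013000dc0028000f0000800000000000000000) (nat_lit 0x0) (nat_lit 0x2000100028000800000000000100008000000000000000000) := T_5 (nat_lit 92) (nat_lit 75) (nat_lit 7) (nat_lit 7) (nat_lit 4) L44488 (by decide +kernel)
theorem L44490 : W_5 (nat_lit 5) (nat_lit 0x2000100013000dc0028000f0000000000000000000000) (nat_lit 0x0) (nat_lit 0x2000100028000800000000000100008c00000000000000000) := T_5 (nat_lit 71) (nat_lit 70) (nat_lit 0) (nat_lit 6) (nat_lit 5) L44489 (by decide +kernel)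
theorem L44491 : W_5 (nat_lit 6) (nat_lit 0x2000100013000dc0008000f0000000000000000000000) (nat_lit 0x0) (nat_lit 0x2000100028000800000003000100008c00000000000000000) := T_5 (nat_lit 109) (nat_lit 108) (nat_lit 3) (nat_lit 3) (nat_lit 5) L44490 (by decide +kernel)
theorem L44492 : W_5 (nat_lit 7) (nat_lit 0x2000100013000dc000800070000000000000000000000) (nat_lit 0x0) (nat_lit 0x200010002800080000000300018000cc00000000000000000) := T_5 (nat_lit 91) (nat_lit 74) (nat_lit 6) (nat_lit 5) (nat_lit 8) L44491 (by decide +kernel)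
theorem L44493 : W_5 (nat_lit 8) (nat_lit 0x2000100013000dc000000070000000000000000000000) (nat_lit 0x0) (nat_lit 0x200010002800080000000380018000ec00000000000000000) := T_5 (nat_lit 107) (nat_lit 73) (nat_lit 5) (nat_lit 5) (nat_lit 4) L44492 (by decide +kernel)
theorem L44494 : W_5 (nat_lit 9) (nat_lit 0x20001000130009c000000070000000000000000000000) (nat_lit 0x0) (nat_lit 0x200010002800080006000380018000ec00000000000000000) := T_5 (nat_lit 126) (nat_lit 125) (nat_lit 1) (nat_lit 8) (nat_lit 7) L44493 (by decide +kernel)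
theorem L44495 : W_5 (nat_lit 2) (nat_lit 0x20001000130009c000080078002200000000000000000) (nat_lit 0x0) (nat_lit 0x40004000100000000000000000) := D_5 (nat_lit 86) (nat_lit 68) (nat_lit 102) (nat_lit 0) (nat_lit 4) (nat_lit 5) (nat_lit 1) (nat_lit 4) (nat_lit 5) (by decide +kernel)
theorem L44496 : W_5 (nat_lit 3) (nat_lit 0x20001000130009c000000078002200000000000000000) (nat_lit 0x0) (nat_lit 0x1c0004000100000000000000000) := T_5 (nat_lit 103) (nat_lit 104) (nat_lit 1) (nat_lit 5) (nat_lit 5) L44495 (by decide +kernel)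
theorem L44497 : W_5 (nat_lit 4) (nat_lit 0x20001000130009c000000078002000000000000000000) (nat_lit 0x0) (nat_lit 0x1c0004000700000000000000000) := T_5 (nat_lit 69) (nat_lit 70) (nat_lit 0) (nat_lit 5) (nat_lit 5) L44496 (by decide +kernel)
theorem L44498 : W_5 (nat_lit 5) (nat_lit 0x20001000130009c000000070002000000000000000000) (nat_lit 0x0) (nat_lit 0x1c000c004700000000000000000) := T_5 (nat_lit 87) (nat_lit 74) (nat_lit 2) (nat_lit 2) (nat_lit 5) L44497 (by decide +kernel)
theorem L44499 : W_5 (nat_lit 6) (nat_lit 0x20001000130009c000000070000000000000000000000) (nat_lit 0x0) (nat_lit 0x9c000c006700000000000000000) := T_5 (nat_lit 73) (nat_lit 107) (nat_lit 5) (nat_lit 5) (nat_lit 4) L44498 (by decide +kernel)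
theorem L44500 : W_5 (nat_lit 5) (nat_lit 0x2000100013000bc001000070004000000000000000000) (nat_lit 0x0) (nat_lit 0x9c000c000700000000000000000) := T_5 (nat_lit 87) (nat_lit 107) (nat_lit 3) (nat_lit 2) (nat_lit 5) L44482 (by decide +kernel)
theorem L44501 : W_5 (nat_lit 6) (nat_lit 0x2000100013000bc001000070000000000000000000000) (nat_lit 0x0) (nat_lit 0x9c008c004700000000000000000) := T_5 (nat_lit 74) (nat_lit 91) (nat_lit 5) (nat_lit 6) (nat_lit 4) L44500 (by decide +kernel)
theorem L44502 : W_5 (nat_lit 7) (nat_lit 0x2000100013000bc000000070000000000000000000000) (nat_lit 0x0) (nat_lit 0x39c008c004700000000000000000) := T_5 (nat_lit 108) (nat_lit 109) (nat_lit 2) (nat_lit 3) (nat_lit 7) L44501 (by decide +kernel)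
theorem L44503 : W_5 (nat_lit 8) (nat_lit 0x20001000130009c000000070000000000000000000000) (nat_lit 0x0) (nat_lit 0x600039c008c004700000000000000000) := T_5 (nat_lit 125) (nat_lit 126) (nat_lit 1) (nat_lit 8) (nat_lit 7) L44502 (by decide +kernel)
theorem L44504 : W_5 (nat_lit 2) (nat_lit 0x2000100013000dc000880078000200000000000000000) (nat_lit 0x0) (nat_lit 0x40004000100000000000000000) := D_5 (nat_lit 86) (nat_lit 68) (nat_lit 102) (nat_lit 0) (nat_lit 4) (nat_lit 5) (nat_lit 1) (nat_lit 4) (nat_lit 5) (by decide +kernel)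
theorem L44505 : W_5 (nat_lit 3) (nat_lit 0x2000100013000dc000800078000200000000000000000) (nat_lit 0x0) (nat_lit 0x1c0004000100000000000000000) := T_5 (nat_lit 103) (nat_lit 104) (nat_lit 1) (nat_lit 5) (nat_lit 5) L44504 (by decide +kernel)
theorem L44506 : W_5 (nat_lit 4) (nat_lit 0x2000100013000dc000800078000000000000000000000) (nat_lit 0x0) (nat_lit 0x1c0004000700000000000000000) := T_5 (nat_lit 69) (nat_lit 70) (nat_lit 0) (nat_lit 5) (nat_lit 5) L44505 (by decide +kernel)
theorem L44507 : W_5 (nat_lit 5) (nat_lit 0x2000100013000dc000800070000000000000000000000) (nat_lit 0x0) (nat_lit 0x11c000c000700000000000000000) := T_5 (nat_lit 87) (nat_lit 108) (nat_lit 3) (nat_lit 2) (nat_lit 5) L44506 (by decide +kernel)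
theorem L44508 : W_5 (nat_lit 6) (nat_lit 0x2000100013000dc000000070000000000000000000000) (nat_lit 0x0) (nat_lit 0x19c000c002700000000000000000) := T_5 (nat_lit 107) (nat_lit 73) (nat_lit 5) (nat_lit 5) (nat_lit 4) L44507 (by decide +kernel)
theorem L44509 : W_5 (nat_lit 7) (nat_lit 0x20001000130009c000000070000000000000000000000) (nat_lit 0x0) (nat_lit 0x600019c000c002700000000000000000) := T_5 (nat_lit 126) (nat_lit 125) (nat_lit 1) (nat_lit 8) (nat_lit 7) L44508 (by decide +kernel)
theorem L44510 : W_5 (nat_lit 10) (nat_lit 0x20001000130009c000000030000000000000000000000) (nat_lit 0x0) (nat_lit 0x20001000280008000600039c01cc01ef00000000000000000) := Q_5 (nat_lit 90) (C_5 L44486 (C_5 L44494 (C_5 L44454 (C_5 L44499 (C_5 L44503 (C_5 L44509 N_5)))))) (by decide +kernel)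
theorem L44511 : W_5 (nat_lit 2) (nat_lit 0x2000100013400bc0010000f0000800000000000000000) (nat_lit 0x0) (nat_lit 0x800008002000000000000000000) := D_5 (nat_lit 107) (nat_lit 87) (nat_lit 73) (nat_lit 3) (nat_lit 2) (nat_lit 5) (nat_lit 5) (nat_lit 5) (nat_lit 4) (by decide +kernel)
theorem L44512 : W_5 (nat_lit 3) (nat_lit 0x2000100013400bc0010000b0000800000000000000000) (nat_lit 0x0) (nat_lit 0x800048002400000000000000000) := T_5 (nat_lit 90) (nat_lit 70) (nat_lit 0) (nat_lit 6) (nat_lit 5) L44511 (by decide +kernel)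
theorem L44513 : W_5 (nat_lit 4) (nat_lit 0x2000100013400bc001000030000800000000000000000) (nat_lit 0x0) (nat_lit 0x8000c8006400000000000000000) := T_5 (nat_lit 91) (nat_lit 74) (nat_lit 5) (nat_lit 6) (nat_lit 4) L44512 (by decide +kernel)
theorem L44514 : W_5 (nat_lit 5) (nat_lit 0x2000100013400bc000000030000800000000000000000) (nat_lit 0x0) (nat_lit 0x38000c8006400000000000000000) := T_5 (nat_lit 108) (nat_lit 109) (nat_lit 2) (nat_lit 3) (nat_lit 7) L44513 (by decide +kernel)
theorem L44515 : W_5 (nat_lit 6) (nat_lit 0x2000100013000bc000000030000800000000000000000) (nat_lit 0x0) (nat_lit 0xc00000038000c8006400000000000000000) := T_5 (nat_lit 138) (nat_lit 139) (nat_lit 2) (nat_lit 2) (nat_lit 8) L44514 (by decide +kernel)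
theorem L44516 : W_5 (nat_lit 7) (nat_lit 0x2000100013000bc000000030000000000000000000000) (nat_lit 0x0) (nat_lit 0xc0000003a000c8006c00000000000000000) := T_5 (nat_lit 71) (nat_lit 105) (nat_lit 7) (nat_lit 3) (nat_lit 4) L44515 (by decide +kernel)
theorem L44517 : W_5 (nat_lit 8) (nat_lit 0x20001000130009c000000030000000000000000000000) (nat_lit 0x0) (nat_lit 0xc0060003a000c8006c00000000000000000) := T_5 (nat_lit 125) (nat_lit 126) (nat_lit 1) (nat_lit 8) (nat_lit 7) L44516 (by decide +kernel)
theorem L44518 : W_5 (nat_lit 2) (nat_lit 0x2000100013800bc001200078000000000000000000000) (nat_lit 0x0) (nat_lit 0x80006000000000000000000) := D_5 (nat_lit 74) (nat_lit 91) (nat_lit 73) (nat_lit 5) (nat_lit 6) (nat_lit 4) (nat_lit 2) (nat_lit 2) (nat_lit 5) (by decide +kernel)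
theorem L44519 : W_5 (nat_lit 3) (nat_lit 0x2000100013800bc001200038000000000000000000000) (nat_lit 0x0) (nat_lit 0x8000c0006000000000000000000) := T_5 (nat_lit 90) (nat_lit 107) (nat_lit 3) (nat_lit 2) (nat_lit 5) L44518 (by decide +kernel)
theorem L44520 : W_5 (nat_lit 4) (nat_lit 0x2000100013800bc001200030000000000000000000000) (nat_lit 0x0) (nat_lit 0x8000c8006400000000000000000) := T_5 (nat_lit 87) (nat_lit 70) (nat_lit 4) (nat_lit 3) (nat_lit 8) L44519 (by decide +kernel)
theorem L44521 : W_5 (nat_lit 5) (nat_lit 0x2000100013800bc000200030000000000000000000000) (nat_lit 0x0) (nat_lit 0x38000c8006400000000000000000) := T_5 (nat_lit 108) (nat_lit 109) (nat_lit 2) (nat_lit 3) (nat_lit 7) L44520 (by decide +kernel)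
theorem L44522 : W_5 (nat_lit 6) (nat_lit 0x2000100013000bc000200030000000000000000000000) (nat_lit 0x0) (nat_lit 0xc00000038000c8006400000000000000000) := T_5 (nat_lit 139) (nat_lit 138) (nat_lit 2) (nat_lit 2) (nat_lit 8) L44521 (by decide +kernel)
theorem L44523 : W_5 (nat_lit 7) (nat_lit 0x20001000130009c000200030000000000000000000000) (nat_lit 0x0) (nat_lit 0xc00200039000c8006400000000000000000) := T_5 (nat_lit 125) (nat_lit 104) (nat_lit 0) (nat_lit 6) (nat_lit 7) L44522 (by decide +kernel)
theorem L44524 : W_5 (nat_lit 8) (nat_lit 0x20001000130009c000000030000000000000000000000) (nat_lit 0x0) (nat_lit 0xc0020003b000c8006c00000000000000000) := T_5 (nat_lit 105) (nat_lit 71) (nat_lit 7) (nat_lit 3) (nat_lit 4) L44523 (by decide +kernel)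
theorem L44525 : W_5 (nat_lit 5) (nat_lit 0x2000100013800bc001000030000000000000000000000) (nat_lit 0x0) (nat_lit 0xb000c8006400000000000000000) := T_5 (nat_lit 105) (nat_lit 104) (nat_lit 0) (nat_lit 6) (nat_lit 7) L44520 (by decide +kernel)
theorem L44526 : W_5 (nat_lit 6) (nat_lit 0x2000100013000bc001000030000000000000000000000) (nat_lit 0x0) (nat_lit 0xc0000000b000c8006400000000000000000) := T_5 (nat_lit 139) (nat_lit 138) (nat_lit 2) (nat_lit 2) (nat_lit 8) L44525 (by decide +kernel)
theorem L44527 : W_5 (nat_lit 7) (nat_lit 0x2000100013000bc000000030000000000000000000000) (nat_lit 0x0) (nat_lit 0xc0000003b000c8006400000000000000000) := T_5 (nat_lit 108) (nat_lit 109) (nat_lit 2) (nat_lit 3) (nat_lit 7) L44526 (by decide +kernel)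
theorem L44528 : W_5 (nat_lit 8) (nat_lit 0x20001000130009c000000030000000000000000000000) (nat_lit 0x0) (nat_lit 0xc0060003b000c8006400000000000000000) := T_5 (nat_lit 125) (nat_lit 126) (nat_lit 1) (nat_lit 8) (nat_lit 7) L44527 (by decide +kernel)
theorem L44529 : W_5 (nat_lit 11) (nat_lit 0x20001000130008c000000030000000000000000000000) (nat_lit 0x0) (nat_lit 0x20001000280008c0070003bc01cc01ef00000000000000000) := Q_5 (nat_lit 124) (C_5 L44463 (C_5 L44479 (C_5 L44510 (C_5 L44517 (C_5 L44524 (C_5 L44528 N_5)))))) (by decide +kernel)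
theorem L44530 : W_5 (nat_lit 2) (nat_lit 0x20001000130008c000b00078002000000000000000000) (nat_lit 0x0) (nat_lit 0x80000000000000000600000000000000000) := D_5 (nat_lit 70) (nat_lit 69) (nat_lit 139) (nat_lit 0) (nat_lit 5) (nat_lit 5) (nat_lit 4) (nat_lit 3) (nat_lit 8) (by decide +kernel)
theorem L44531 : W_5 (nat_lit 3) (nat_lit 0x20001000130008c000900078002000000000000000000) (nat_lit 0x0) (nat_lit 0x80000000200080000600000000000000000) := T_5 (nat_lit 105) (nat_lit 91) (nat_lit 1) (nat_lit 6) (nat_lit 5) L44530 (by decide +kernel)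
theorem L44532 : W_5 (nat_lit 4) (nat_lit 0x20001000130008c000100078002000000000000000000) (nat_lit 0x0) (nat_lit 0x80000001a00080000600000000000000000) := T_5 (nat_lit 107) (nat_lit 108) (nat_lit 3) (nat_lit 2) (nat_lit 5) L44531 (by decide +kernel)
theorem L44533 : W_5 (nat_lit 5) (nat_lit 0x20001000130008c000000078002000000000000000000) (nat_lit 0x0) (nat_lit 0x80000001b80080000600000000000000000) := T_5 (nat_lit 104) (nat_lit 103) (nat_lit 1) (nat_lit 5) (nat_lit 5) L44532 (by decide +kernel)
theorem L44534 : W_5 (nat_lit 6) (nat_lit 0x20001000130008c000000078000000000000000000000) (nat_lit 0x0) (nat_lit 0x80000001b80080006600000000000000000) := T_5 (nat_lit 73) (nat_lit 74) (nat_lit 2) (nat_lit 2) (nat_lit 5) L44533 (by decide +kernel)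
theorem L44535 : W_5 (nat_lit 7) (nat_lit 0x20001000130008c000000070000000000000000000000) (nat_lit 0x0) (nat_lit 0x80000001bc008c007700000000000000000) := Q_5 (nat_lit 87) (C_5 L44410 (C_5 L44407 (C_5 L44341 (C_5 L44534 N_5)))) (by decide +kernel)
theorem L44536 : W_5 (nat_lit 2) (nat_lit 0x20001000130008c000100078002400000000000000000) (nat_lit 0x0) (nat_lit 0x80000000200080000000000000000000000) := D_5 (nat_lit 105) (nat_lit 91) (nat_lit 139) (nat_lit 1) (nat_lit 6) (nat_lit 5) (nat_lit 4) (nat_lit 3) (nat_lit 8) (by decide +kernel)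
theorem L44537 : W_5 (nat_lit 3) (nat_lit 0x20001000130008c000100078002000000000000000000) (nat_lit 0x0) (nat_lit 0x80000000200080000600000000000000000) := T_5 (nat_lit 70) (nat_lit 69) (nat_lit 0) (nat_lit 5) (nat_lit 5) L44536 (by decide +kernel)
theorem L44538 : W_5 (nat_lit 4) (nat_lit 0x20001000130008c000000078002000000000000000000) (nat_lit 0x0) (nat_lit 0x80000000380080000600000000000000000) := T_5 (nat_lit 104) (nat_lit 103) (nat_lit 1) (nat_lit 5) (nat_lit 5) L44537 (by decide +kernel)
theorem L44539 : W_5 (nat_lit 5) (nat_lit 0x20001000130008c000000078000000000000000000000) (nat_lit 0x0) (nat_lit 0x80000000380080006600000000000000000) := T_5 (nat_lit 73) (nat_lit 74) (nat_lit 2) (nat_lit 2) (nat_lit 5) L44538 (by decide +kernel)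
theorem L44540 : W_5 (nat_lit 6) (nat_lit 0x20001000130008c000000070000000000000000000000) (nat_lit 0x0) (nat_lit 0x800000003c008c007700000000000000000) := Q_5 (nat_lit 87) (C_5 L44410 (C_5 L44407 (C_5 L44341 (C_5 L44539 N_5)))) (by decide +kernel)
theorem L44541 : W_5 (nat_lit 2) (nat_lit 0x2000100013000bc000800078000400000000000000000) (nat_lit 0x0) (nat_lit 0xc0000000200000000000000000000000000) := D_5 (nat_lit 139) (nat_lit 105) (nat_lit 138) (nat_lit 4) (nat_lit 3) (nat_lit 8) (nat_lit 2) (nat_lit 2) (nat_lit 8) (by decide +kernel)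
theorem L44542 : W_5 (nat_lit 3) (nat_lit 0x20001000130009c000800078000400000000000000000) (nat_lit 0x0) (nat_lit 0xc0060000200000000000000000000000000) := T_5 (nat_lit 125) (nat_lit 126) (nat_lit 1) (nat_lit 8) (nat_lit 7) L44541 (by decide +kernel)
theorem L44543 : W_5 (nat_lit 4) (nat_lit 0x20001000130008c000800078000400000000000000000) (nat_lit 0x0) (nat_lit 0xc0070000200000001000000000000000000) := T_5 (nat_lit 124) (nat_lit 72) (nat_lit 4) (nat_lit 5) (nat_lit 8) L44542 (by decide +kernel)
theorem L44544 : W_5 (nat_lit 5) (nat_lit 0x20001000130008c000800078000000000000000000000) (nat_lit 0x0) (nat_lit 0xc0070000200000001600000000000000000) := T_5 (nat_lit 70) (nat_lit 69) (nat_lit 0) (nat_lit 5) (nat_lit 5) L44543 (by decide +kernel)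
theorem L44545 : W_5 (nat_lit 6) (nat_lit 0x20001000130008c000000078000000000000000000000) (nat_lit 0x0) (nat_lit 0xc0070001a00000001600000000000000000) := T_5 (nat_lit 107) (nat_lit 108) (nat_lit 3) (nat_lit 2) (nat_lit 5) L44544 (by decide +kernel)
theorem L44546 : W_5 (nat_lit 7) (nat_lit 0x20001000130008c000000070000000000000000000000) (nat_lit 0x0) (nat_lit 0xc0070001bc008c005700000000000000000) := Q_5 (nat_lit 87) (C_5 L44407 (C_5 L44545 (C_5 L44373 N_5))) (by decide +kernel)
theorem L44547 : W_5 (nat_lit 2) (nat_lit 0x20001000130008c000800078000000000000000000000) (nat_lit 0x0) (nat_lit 0x10000000000006000000000000000000) := D_5 (nat_lit 73) (nat_lit 74) (nat_lit 124) (nat_lit 2) (nat_lit 2) (nat_lit 5) (nat_lit 5) (nat_lit 5) (nat_lit 4) (by decide +kernel)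
theorem L44548 : W_5 (nat_lit 3) (nat_lit 0x20001000130008c000000078000000000000000000000) (nat_lit 0x0) (nat_lit 0x10001800000006000000000000000000) := T_5 (nat_lit 107) (nat_lit 108) (nat_lit 3) (nat_lit 2) (nat_lit 5) L44547 (by decide +kernel)
theorem L44549 : W_5 (nat_lit 6) (nat_lit 0x20001000130008c000000070000000000000000000000) (nat_lit 0x0) (nat_lit 0x80010001bc008c006700000000000000000) := Q_5 (nat_lit 87) (C_5 L44539 (C_5 L44407 (C_5 L44548 N_5))) (by decide +kernel)
theorem L44550 : W_5 (nat_lit 2) (nat_lit 0x2000100013800bc001000070004000000000000000000) (nat_lit 0x0) (nat_lit 0x300000001000000000000000000) := D_5 (nat_lit 105) (nat_lit 104) (nat_lit 72) (nat_lit 0) (nat_lit 6) (nat_lit 7) (nat_lit 6) (nat_lit 3) (nat_lit 8) (by decide +kernel)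
theorem L44551 : W_5 (nat_lit 3) (nat_lit 0x2000100013000bc001000070004000000000000000000) (nat_lit 0x0) (nat_lit 0xc0000000300000001000000000000000000) := T_5 (nat_lit 139) (nat_lit 138) (nat_lit 2) (nat_lit 2) (nat_lit 8) L44550 (by decide +kernel)
theorem L44552 : W_5 (nat_lit 4) (nat_lit 0x2000100013000bc001000070000000000000000000000) (nat_lit 0x0) (nat_lit 0xc0000000300080005000000000000000000) := T_5 (nat_lit 74) (nat_lit 91) (nat_lit 5) (nat_lit 6) (nat_lit 4) L44551 (by decide +kernel)
theorem L44553 : W_5 (nat_lit 5) (nat_lit 0x2000100013000bc000000070000000000000000000000) (nat_lit 0x0) (nat_lit 0xc0000003300080005000000000000000000) := T_5 (nat_lit 108) (nat_lit 109) (nat_lit 2) (nat_lit 3) (nat_lit 7) L44552 (by decide +kernel)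
theorem L44554 : W_5 (nat_lit 6) (nat_lit 0x20001000130009c000000070000000000000000000000) (nat_lit 0x0) (nat_lit 0xc0060003300080005000000000000000000) := T_5 (nat_lit 125) (nat_lit 126) (nat_lit 1) (nat_lit 8) (nat_lit 7) L44553 (by decide +kernel)
theorem L44555 : W_5 (nat_lit 2) (nat_lit 0x200010001b000dc002a001f0000000000000000000000) (nat_lit 0x0) (nat_lit 0x2000100008000000000000000000000000000000000000000) := D_5 (nat_lit 176) (nat_lit 159) (nat_lit 193) (nat_lit 5) (nat_lit 7) (nat_lit 6) (nat_lit 5) (nat_lit 7) (nat_lit 7) (by decide +kernel)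
theorem L44556 : W_5 (nat_lit 3) (nat_lit 0x2000100013000dc002a001f0000000000000000000000) (nat_lit 0x0) (nat_lit 0x2000100028000800000000000000000000000000000000000) := T_5 (nat_lit 143) (nat_lit 161) (nat_lit 7) (nat_lit 7) (nat_lit 5) L44555 (by decide +kernel)
theorem L44557 : W_5 (nat_lit 4) (nat_lit 0x2000100013000dc002a000f0000000000000000000000) (nat_lit 0x0) (nat_lit 0x2000100028000800000000000100008000000000000000000) := T_5 (nat_lit 92) (nat_lit 75) (nat_lit 7) (nat_lit 7) (nat_lit 4) L44556 (by decide +kernel)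
theorem L44558 : W_5 (nat_lit 5) (nat_lit 0x2000100013000dc0028000f0000000000000000000000) (nat_lit 0x0) (nat_lit 0x2000100028000800000000300100008000000000000000000) := T_5 (nat_lit 105) (nat_lit 104) (nat_lit 1) (nat_lit 6) (nat_lit 5) L44557 (by decide +kernel)
theorem L44559 : W_5 (nat_lit 6) (nat_lit 0x2000100013000dc0008000f0000000000000000000000) (nat_lit 0x0) (nat_lit 0x2000100028000800000003300100008000000000000000000) := T_5 (nat_lit 109) (nat_lit 108) (nat_lit 3) (nat_lit 3) (nat_lit 5) L44558 (by decide +kernel)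
theorem L44560 : W_5 (nat_lit 7) (nat_lit 0x2000100013000dc000800070000000000000000000000) (nat_lit 0x0) (nat_lit 0x200010002800080000000330018000c000000000000000000) := T_5 (nat_lit 91) (nat_lit 74) (nat_lit 6) (nat_lit 5) (nat_lit 8) L44559 (by decide +kernel)
theorem L44561 : W_5 (nat_lit 8) (nat_lit 0x2000100013000dc000000070000000000000000000000) (nat_lit 0x0) (nat_lit 0x2000100028000800000003b0018000e000000000000000000) := T_5 (nat_lit 107) (nat_lit 73) (nat_lit 5) (nat_lit 5) (nat_lit 4) L44560 (by decide +kernel)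
theorem L44562 : W_5 (nat_lit 9) (nat_lit 0x20001000130009c000000070000000000000000000000) (nat_lit 0x0) (nat_lit 0x2000100028000800060003b0018000e000000000000000000) := T_5 (nat_lit 126) (nat_lit 125) (nat_lit 1) (nat_lit 8) (nat_lit 7) L44561 (by decide +kernel)
theorem L44563 : W_5 (nat_lit 10) (nat_lit 0x20001000130008c000000070000000000000000000000) (nat_lit 0x0) (nat_lit 0x20001000280008c0070003b0018000f000000000000000000) := Q_5 (nat_lit 124) (C_5 L44554 (C_5 L44447 (C_5 L44562 N_5))) (by decide +kernel)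
theorem L44564 : W_5 (nat_lit 11) (nat_lit 0x20001000130008c000000030000000000000000000000) (nat_lit 0x0) (nat_lit 0x20001000280008c0070003bc01cc01f700000000000000000) := Q_5 (nat_lit 90) (C_5 L44535 (C_5 L44455 (C_5 L44540 (C_5 L44427 (C_5 L44546 (C_5 L44549 (C_5 L44563 N_5))))))) (by decide +kernel)
theorem L44565 : W_5 (nat_lit 2) (nat_lit 0x2000100013c008c000200030000000000000000000000) (nat_lit 0x0) (nat_lit 0x20030000000000000000000000000000000) := D_5 (nat_lit 124) (nat_lit 125) (nat_lit 137) (nat_lit 2) (nat_lit 2) (nat_lit 8) (nat_lit 2) (nat_lit 1) (nat_lit 8) (by decide +kernel)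
theorem L44566 : W_5 (nat_lit 3) (nat_lit 0x20001000138008c000200030000000000000000000000) (nat_lit 0x0) (nat_lit 0x800060030000000000000000000000000000000) := T_5 (nat_lit 138) (nat_lit 155) (nat_lit 5) (nat_lit 3) (nat_lit 5) L44565 (by decide +kernel)
theorem L44567 : W_5 (nat_lit 4) (nat_lit 0x20001000130008c000200030000000000000000000000) (nat_lit 0x0) (nat_lit 0x8000e0030000000000001000000000000000000) := T_5 (nat_lit 139) (nat_lit 72) (nat_lit 6) (nat_lit 3) (nat_lit 8) L44566 (by decide +kernel)
theorem L44568 : W_5 (nat_lit 5) (nat_lit 0x20001000130008c000000030000000000000000000000) (nat_lit 0x0) (nat_lit 0x8000e0030000200000001800000000000000000) := T_5 (nat_lit 105) (nat_lit 71) (nat_lit 7) (nat_lit 3) (nat_lit 4) L44567 (by decide +kernel)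
theorem L44569 : W_5 (nat_lit 12) (nat_lit 0x20001000130008c000000020000000000000000000000) (nat_lit 0x0) (nat_lit 0x2600130029e008f0071803bc01de01ff00100008000000000) := Q_5 (nat_lit 88) (C_5 L44190 (C_5 L44331 (C_5 L44380 (C_5 L44456 (C_5 L44461 (C_5 L44529 (C_5 L44564 (C_5 L44568 N_5)))))))) (by decide +kernel)
theorem L44570 : W_5 (nat_lit 10) (nat_lit 0x20001000130008c000000020000000000000000000000) (nat_lit 0x0) (nat_lit 0x1000080000000f801de003e001c000c000400000) := Q_5 (nat_lit 106) (C_5 L44225 (C_5 L44093 (C_5 L44185 N_5))) (by decide +kernel)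
theorem L44571 : W_5 (nat_lit 2) (nat_lit 0x300010001b000ec002000020000000000000000000000) (nat_lit 0x0) (nat_lit 0x20000000000000000100008000000000000000000) := D_5 (nat_lit 92) (nat_lit 161) (nat_lit 75) (nat_lit 7) (nat_lit 7) (nat_lit 5) (nat_lit 7) (nat_lit 7) (nat_lit 4) (by decide +kernel)
theorem L44572 : W_5 (nat_lit 3) (nat_lit 0x300010001b000ec000000020000000000000000000000) (nat_lit 0x0) (nat_lit 0x28000000000002000100008000000000000000000) := T_5 (nat_lit 109) (nat_lit 159) (nat_lit 5) (nat_lit 7) (nat_lit 6) L44571 (by decide +kernel)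
theorem L44573 : W_5 (nat_lit 4) (nat_lit 0x200010001b000ec000000020000000000000000000000) (nat_lit 0x0) (nat_lit 0x2000100028000000000002000100008000000000000000000) := T_5 (nat_lit 176) (nat_lit 193) (nat_lit 5) (nat_lit 7) (nat_lit 7) L44572 (by decide +kernel)
theorem L44574 : W_5 (nat_lit 5) (nat_lit 0x2000100013000ec000000020000000000000000000000) (nat_lit 0x0) (nat_lit 0x2000100028000800000003000100008000000000000000000) := T_5 (nat_lit 143) (nat_lit 108) (nat_lit 4) (nat_lit 7) (nat_lit 10) L44573 (by decide +kernel)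
theorem L44575 : W_5 (nat_lit 6) (nat_lit 0x2000100013000cc000000020000000000000000000000) (nat_lit 0x0) (nat_lit 0x2000100028000800030003000100008000000000000000000) := T_5 (nat_lit 125) (nat_lit 124) (nat_lit 1) (nat_lit 8) (nat_lit 7) L44574 (by decide +kernel)
theorem L44576 : W_5 (nat_lit 2) (nat_lit 0x2000100013000cc000400020000000000000000000000) (nat_lit 0x0) (nat_lit 0x1000080000000000000001000000000000000000) := D_5 (nat_lit 139) (nat_lit 156) (nat_lit 72) (nat_lit 5) (nat_lit 4) (nat_lit 5) (nat_lit 5) (nat_lit 4) (nat_lit 4) (by decide +kernel)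
theorem L44577 : W_5 (nat_lit 7) (nat_lit 0x2000100013000cc000000020000000000000000000000) (nat_lit 0x0) (nat_lit 0x1000880130001c00058003800000000000000000) := Q_5 (nat_lit 106) (C_5 L44576 (C_5 L44260 N_5)) (by decide +kernel)
theorem L44578 : W_5 (nat_lit 2) (nat_lit 0x2000100013000cc000400020000000000000000000000) (nat_lit 0x0) (nat_lit 0x80010000000000001000000000000000000) := D_5 (nat_lit 72) (nat_lit 139) (nat_lit 124) (nat_lit 5) (nat_lit 4) (nat_lit 4) (nat_lit 7) (nat_lit 4) (nat_lit 4) (by decide +kernel)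
theorem L44579 : W_5 (nat_lit 2) (nat_lit 0x2000100013000cc000400060000800000000000000000) (nat_lit 0x0) (nat_lit 0x10000000000001000040000000000000) := D_5 (nat_lit 72) (nat_lit 124) (nat_lit 54) (nat_lit 7) (nat_lit 4) (nat_lit 4) (nat_lit 4) (nat_lit 4) (nat_lit 7) (by decide +kernel)
theorem L44580 : W_5 (nat_lit 3) (nat_lit 0x2000100013000cc000400060000000000000000000000) (nat_lit 0x0) (nat_lit 0x10000000010001800040000000000000) := T_5 (nat_lit 71) (nat_lit 88) (nat_lit 4) (nat_lit 4) (nat_lit 8) L44579 (by decide +kernel)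
theorem L44581 : W_5 (nat_lit 4) (nat_lit 0x2000100013000cc000400020000000000000000000000) (nat_lit 0x0) (nat_lit 0x10000000050003800040000000000000) := T_5 (nat_lit 90) (nat_lit 73) (nat_lit 6) (nat_lit 4) (nat_lit 8) L44580 (by decide +kernel)
theorem L44582 : W_5 (nat_lit 2) (nat_lit 0x2000100013800cc002400070008000000000000000000) (nat_lit 0x0) (nat_lit 0x1000080004000000000000000000) := D_5 (nat_lit 91) (nat_lit 74) (nat_lit 108) (nat_lit 2) (nat_lit 3) (nat_lit 5) (nat_lit 3) (nat_lit 3) (nat_lit 5) (by decide +kernel)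
theorem L44583 : W_5 (nat_lit 3) (nat_lit 0x2000100013800cc002400060008000000000000000000) (nat_lit 0x0) (nat_lit 0x1000090004800000000000000000) := T_5 (nat_lit 88) (nat_lit 71) (nat_lit 4) (nat_lit 4) (nat_lit 8) L44582 (by decide +kernel)
theorem L44584 : W_5 (nat_lit 4) (nat_lit 0x2000100013800cc002400060000000000000000000000) (nat_lit 0x0) (nat_lit 0x100019000c800000000000000000) := T_5 (nat_lit 75) (nat_lit 92) (nat_lit 7) (nat_lit 7) (nat_lit 4) L44583 (by decide +kernel)
theorem L44585 : W_5 (nat_lit 5) (nat_lit 0x2000100013800cc002400020000000000000000000000) (nat_lit 0x0) (nat_lit 0x10001d000e800000000000000000) := T_5 (nat_lit 90) (nat_lit 73) (nat_lit 6) (nat_lit 4) (nat_lit 8) L44584 (by decide +kernel)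
theorem L44586 : W_5 (nat_lit 6) (nat_lit 0x2000100013000cc002400020000000000000000000000) (nat_lit 0x0) (nat_lit 0x10000800000010001d000e800000000000000000) := T_5 (nat_lit 139) (nat_lit 156) (nat_lit 5) (nat_lit 4) (nat_lit 5) L44585 (by decide +kernel)
theorem L44587 : W_5 (nat_lit 2) (nat_lit 0x200010001b800cc002400170000000000000000000000) (nat_lit 0x0) (nat_lit 0x2000100008000000000000000000000000000000000000000) := D_5 (nat_lit 176) (nat_lit 193) (nat_lit 159) (nat_lit 5) (nat_lit 7) (nat_lit 7) (nat_lit 5) (nat_lit 7) (nat_lit 6) (by decide +kernel)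
theorem L44588 : W_5 (nat_lit 3) (nat_lit 0x2000100013800cc002400170000000000000000000000) (nat_lit 0x0) (nat_lit 0x2000100028000800000000000000000000000000000000000) := T_5 (nat_lit 143) (nat_lit 161) (nat_lit 7) (nat_lit 7) (nat_lit 5) L44587 (by decide +kernel)
theorem L44589 : W_5 (nat_lit 4) (nat_lit 0x2000100013800cc002400070000000000000000000000) (nat_lit 0x0) (nat_lit 0x2000100028000800000000000100008000000000000000000) := T_5 (nat_lit 92) (nat_lit 75) (nat_lit 7) (nat_lit 7) (nat_lit 4) L44588 (by decide +kernel)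
theorem L44590 : W_5 (nat_lit 5) (nat_lit 0x2000100013800cc002400030000000000000000000000) (nat_lit 0x0) (nat_lit 0x200010002800080000000000014000a000000000000000000) := T_5 (nat_lit 90) (nat_lit 73) (nat_lit 6) (nat_lit 4) (nat_lit 8) L44589 (by decide +kernel)
theorem L44591 : W_5 (nat_lit 6) (nat_lit 0x2000100013000cc002400030000000000000000000000) (nat_lit 0x0) (nat_lit 0x200010002900088000000000014000a000000000000000000) := T_5 (nat_lit 139) (nat_lit 156) (nat_lit 5) (nat_lit 4) (nat_lit 5) L44590 (by decide +kernel)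
theorem L44592 : W_5 (nat_lit 7) (nat_lit 0x2000100013000cc002400020000000000000000000000) (nat_lit 0x0) (nat_lit 0x200010002900088000000000015000a800000000000000000) := T_5 (nat_lit 88) (nat_lit 71) (nat_lit 4) (nat_lit 4) (nat_lit 8) L44591 (by decide +kernel)
theorem L44593 : W_5 (nat_lit 8) (nat_lit 0x2000100013000cc000400020000000000000000000000) (nat_lit 0x0) (nat_lit 0x20001000290008800000038001dc00e800000000000000000) := Q_5 (nat_lit 109) (C_5 L44247 (C_5 L44586 (C_5 L44592 (C_5 L44130 N_5)))) (by decide +kernel)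
theorem L44594 : W_5 (nat_lit 9) (nat_lit 0x2000100013000cc000000020000000000000000000000) (nat_lit 0x0) (nat_lit 0x2000100029000880010003c001dc00f800040000000000000) := Q_5 (nat_lit 106) (C_5 L44576 (C_5 L44578 (C_5 L44581 (C_5 L44593 N_5)))) (by decide +kernel)
theorem L44595 : W_5 (nat_lit 2) (nat_lit 0x2000100013000cc001c00060000000000000000000000) (nat_lit 0x0) (nat_lit 0x18000800000000000000000) := D_5 (nat_lit 88) (nat_lit 71) (nat_lit 87) (nat_lit 4) (nat_lit 4) (nat_lit 8) (nat_lit 3) (nat_lit 2) (nat_lit 5) (by decide +kernel)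
theorem L44596 : W_5 (nat_lit 3) (nat_lit 0x2000100013000cc000c00060000000000000000000000) (nat_lit 0x0) (nat_lit 0x3000018000800000000000000000) := T_5 (nat_lit 108) (nat_lit 109) (nat_lit 3) (nat_lit 4) (nat_lit 6) L44595 (by decide +kernel)
theorem L44597 : W_5 (nat_lit 4) (nat_lit 0x2000100013000cc000c00020000000000000000000000) (nat_lit 0x0) (nat_lit 0x3000058002800000000000000000) := T_5 (nat_lit 90) (nat_lit 73) (nat_lit 6) (nat_lit 4) (nat_lit 8) L44596 (by decide +kernel)
theorem L44598 : W_5 (nat_lit 2) (nat_lit 0x2000100013800ec001c00060000000000000000000000) (nat_lit 0x0) (nat_lit 0x18000800000000000000000) := D_5 (nat_lit 88) (nat_lit 87) (nat_lit 71) (nat_lit 3) (nat_lit 2) (nat_lit 5) (nat_lit 4) (nat_lit 4) (nat_lit 8) (by decide +kernel)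
theorem L44599 : W_5 (nat_lit 3) (nat_lit 0x2000100013800ec001c00020000000000000000000000) (nat_lit 0x0) (nat_lit 0x58002800000000000000000) := T_5 (nat_lit 90) (nat_lit 73) (nat_lit 6) (nat_lit 4) (nat_lit 8) L44598 (by decide +kernel)
theorem L44600 : W_5 (nat_lit 4) (nat_lit 0x2000100013800ec000c00020000000000000000000000) (nat_lit 0x0) (nat_lit 0x100001000058002800000000000000000) := T_5 (nat_lit 108) (nat_lit 128) (nat_lit 0) (nat_lit 9) (nat_lit 7) L44599 (by decide +kernel)
theorem L44601 : W_5 (nat_lit 5) (nat_lit 0x2000100013800cc000c00020000000000000000000000) (nat_lit 0x0) (nat_lit 0x130001000058002800000000000000000) := T_5 (nat_lit 125) (nat_lit 124) (nat_lit 1) (nat_lit 7) (nat_lit 7) L44600 (by decide +kernel)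
theorem L44602 : W_5 (nat_lit 6) (nat_lit 0x2000100013000cc000c00020000000000000000000000) (nat_lit 0x0) (nat_lit 0x1000080130001000058002800000000000000000) := T_5 (nat_lit 139) (nat_lit 156) (nat_lit 5) (nat_lit 4) (nat_lit 5) L44601 (by decide +kernel)
theorem L44603 : W_5 (nat_lit 2) (nat_lit 0x2000100013800dc000c001f4000000000000000000000) (nat_lit 0x0) (nat_lit 0x2000000018000000000000000000) := D_5 (nat_lit 75) (nat_lit 76) (nat_lit 109) (nat_lit 2) (nat_lit 4) (nat_lit 5) (nat_lit 7) (nat_lit 7) (nat_lit 4) (by decide +kernel)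
theorem L44604 : W_5 (nat_lit 3) (nat_lit 0x2000100013800dc000c000f4000000000000000000000) (nat_lit 0x0) (nat_lit 0x2000300018000000000000000000) := T_5 (nat_lit 92) (nat_lit 93) (nat_lit 1) (nat_lit 8) (nat_lit 5) L44603 (by decide +kernel)
theorem L44605 : W_5 (nat_lit 4) (nat_lit 0x2000100013800dc000c00074000000000000000000000) (nat_lit 0x0) (nat_lit 0x200038001c000000000000000000) := T_5 (nat_lit 91) (nat_lit 74) (nat_lit 6) (nat_lit 5) (nat_lit 8) L44604 (by decide +kernel)
theorem L44606 : W_5 (nat_lit 5) (nat_lit 0x2000100013800dc000c00034000000000000000000000) (nat_lit 0x0) (nat_lit 0x20003c001e000000000000000000) := T_5 (nat_lit 90) (nat_lit 73) (nat_lit 6) (nat_lit 4) (nat_lit 8) L44605 (by decide +kernel)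
theorem L44607 : W_5 (nat_lit 6) (nat_lit 0x2000100013800cc000c00034000000000000000000000) (nat_lit 0x0) (nat_lit 0x300020003c001e000000000000000000) := T_5 (nat_lit 124) (nat_lit 125) (nat_lit 1) (nat_lit 7) (nat_lit 7) L44606 (by decide +kernel)
theorem L44608 : W_5 (nat_lit 7) (nat_lit 0x2000100013000cc000c00034000000000000000000000) (nat_lit 0x0) (nat_lit 0x10000800300020003c001e000000000000000000) := T_5 (nat_lit 139) (nat_lit 156) (nat_lit 5) (nat_lit 4) (nat_lit 5) L44607 (by decide +kernel)
theorem L44609 : W_5 (nat_lit 8) (nat_lit 0x2000100013000cc000c00030000000000000000000000) (nat_lit 0x0) (nat_lit 0x10000800300020003cc01e000000000000000000) := T_5 (nat_lit 86) (nat_lit 87) (nat_lit 3) (nat_lit 1) (nat_lit 5) L44608 (by decide +kernel)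
theorem L44610 : W_5 (nat_lit 9) (nat_lit 0x2000100013000cc000c00020000000000000000000000) (nat_lit 0x0) (nat_lit 0x10000800300020003dc01e800000000000000000) := T_5 (nat_lit 88) (nat_lit 71) (nat_lit 4) (nat_lit 4) (nat_lit 8) L44609 (by decide +kernel)
theorem L44611 : W_5 (nat_lit 10) (nat_lit 0x2000100013000cc000400020000000000000000000000) (nat_lit 0x0) (nat_lit 0x10000801300038003dc01e800000000000000000) := Q_5 (nat_lit 107) (C_5 L44597 (C_5 L44158 (C_5 L44602 (C_5 L44610 N_5)))) (by decide +kernel)
theorem L44612 : W_5 (nat_lit 11) (nat_lit 0x2000100013000cc000000020000000000000000000000) (nat_lit 0x0) (nat_lit 0x1000080130003c003dc01f800040000000000000) := Q_5 (nat_lit 106) (C_5 L44581 (C_5 L44576 (C_5 L44611 N_5))) (by decide +kernel)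
theorem L44613 : W_5 (nat_lit 2) (nat_lit 0x2000100013000cc000000020001000000000000000000) (nat_lit 0x0) (nat_lit 0x80010000400000000000000000000000000) := D_5 (nat_lit 106) (nat_lit 124) (nat_lit 139) (nat_lit 7) (nat_lit 4) (nat_lit 4) (nat_lit 5) (nat_lit 4) (nat_lit 4) (by decide +kernel)
theorem L44614 : W_5 (nat_lit 2) (nat_lit 0x2000100013000cc000000020001000000000000000000) (nat_lit 0x0) (nat_lit 0x30000400000000000000000000000000) := D_5 (nat_lit 124) (nat_lit 106) (nat_lit 125) (nat_lit 7) (nat_lit 4) (nat_lit 4) (nat_lit 1) (nat_lit 8) (nat_lit 7) (by decide +kernel)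
theorem L44615 : W_5 (nat_lit 2) (nat_lit 0x200010001b000cc002000120001000000000000000000) (nat_lit 0x0) (nat_lit 0x2000100008000000000000000000000000000000000000000) := D_5 (nat_lit 176) (nat_lit 193) (nat_lit 159) (nat_lit 5) (nat_lit 7) (nat_lit 7) (nat_lit 5) (nat_lit 7) (nat_lit 6) (by decide +kernel)
theorem L44616 : W_5 (nat_lit 3) (nat_lit 0x2000100013000cc002000120001000000000000000000) (nat_lit 0x0) (nat_lit 0x2000100028000800000000000000000000000000000000000) := T_5 (nat_lit 143) (nat_lit 161) (nat_lit 7) (nat_lit 7) (nat_lit 5) L44615 (by decide +kernel)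
theorem L44617 : W_5 (nat_lit 4) (nat_lit 0x2000100013000cc000000120001000000000000000000) (nat_lit 0x0) (nat_lit 0x2000100028000800000002000000008000000000000000000) := T_5 (nat_lit 109) (nat_lit 75) (nat_lit 7) (nat_lit 7) (nat_lit 4) L44616 (by decide +kernel)
theorem L44618 : W_5 (nat_lit 2) (nat_lit 0x2000100013000dc0000003e0001000000000000000000) (nat_lit 0x0) (nat_lit 0x38000000000000000000) := D_5 (nat_lit 76) (nat_lit 75) (nat_lit 77) (nat_lit 2) (nat_lit 4) (nat_lit 5) (nat_lit 2) (nat_lit 5) (nat_lit 5) (by decide +kernel)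
theorem L44619 : W_5 (nat_lit 3) (nat_lit 0x2000100013000dc0000001e0001000000000000000000) (nat_lit 0x0) (nat_lit 0x20003a000000000000000000) := T_5 (nat_lit 93) (nat_lit 73) (nat_lit 0) (nat_lit 8) (nat_lit 5) L44618 (by decide +kernel)
theorem L44620 : W_5 (nat_lit 4) (nat_lit 0x2000100013000dc000000160001000000000000000000) (nat_lit 0x0) (nat_lit 0x28003a800000000000000000) := T_5 (nat_lit 91) (nat_lit 71) (nat_lit 0) (nat_lit 7) (nat_lit 5) L44619 (by decide +kernel)
theorem L44621 : W_5 (nat_lit 5) (nat_lit 0x2000100013000dc000000120001000000000000000000) (nat_lit 0x0) (nat_lit 0x8002c003a800000000000000000) := T_5 (nat_lit 90) (nat_lit 107) (nat_lit 4) (nat_lit 5) (nat_lit 8) L44620 (by decide +kernel)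
theorem L44622 : W_5 (nat_lit 6) (nat_lit 0x2000100013000cc000000120001000000000000000000) (nat_lit 0x0) (nat_lit 0x300008002c003a800000000000000000) := T_5 (nat_lit 124) (nat_lit 125) (nat_lit 1) (nat_lit 8) (nat_lit 7) L44621 (by decide +kernel)
theorem L44623 : W_5 (nat_lit 2) (nat_lit 0x2000100013000dc0000007e0021000000000000000000) (nat_lit 0x0) (nat_lit 0x100018000000000000000000000000000) := D_5 (nat_lit 111) (nat_lit 112) (nat_lit 128) (nat_lit 3) (nat_lit 6) (nat_lit 5) (nat_lit 5) (nat_lit 9) (nat_lit 4) (by decide +kernel)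
theorem L44624 : W_5 (nat_lit 3) (nat_lit 0x2000100013000dc0000003e0021000000000000000000) (nat_lit 0x0) (nat_lit 0x100018000400040000000000000000000) := T_5 (nat_lit 94) (nat_lit 78) (nat_lit 2) (nat_lit 6) (nat_lit 5) L44623 (by decide +kernel)
theorem L44625 : W_5 (nat_lit 4) (nat_lit 0x2000100013000dc0000003e0001000000000000000000) (nat_lit 0x0) (nat_lit 0x100018000400070000000000000000000) := T_5 (nat_lit 77) (nat_lit 76) (nat_lit 2) (nat_lit 5) (nat_lit 5) L44624 (by decide +kernel)
theorem L44626 : W_5 (nat_lit 5) (nat_lit 0x2000100013000dc0000001e0001000000000000000000) (nat_lit 0x0) (nat_lit 0x100018000600072000000000000000000) := T_5 (nat_lit 93) (nat_lit 73) (nat_lit 0) (nat_lit 8) (nat_lit 5) L44625 (by decide +kernel)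
theorem L44627 : W_5 (nat_lit 6) (nat_lit 0x2000100013000dc000000160001000000000000000000) (nat_lit 0x0) (nat_lit 0x100018000680072800000000000000000) := T_5 (nat_lit 91) (nat_lit 71) (nat_lit 0) (nat_lit 7) (nat_lit 5) L44626 (by decide +kernel)
theorem L44628 : W_5 (nat_lit 7) (nat_lit 0x2000100013000dc000000120001000000000000000000) (nat_lit 0x0) (nat_lit 0x1000188006c0072800000000000000000) := T_5 (nat_lit 90) (nat_lit 107) (nat_lit 4) (nat_lit 5) (nat_lit 8) L44627 (by decide +kernel)
theorem L44629 : W_5 (nat_lit 8) (nat_lit 0x2000100013000cc000000120001000000000000000000) (nat_lit 0x0) (nat_lit 0x1300188006c0072800000000000000000) := T_5 (nat_lit 124) (nat_lit 125) (nat_lit 1) (nat_lit 8) (nat_lit 7) L44628 (by decide +kernel)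
theorem L44630 : W_5 (nat_lit 9) (nat_lit 0x2000100013000cc000000020001000000000000000000) (nat_lit 0x0) (nat_lit 0x200010002800080013001a8007c007a800000000000000000) := Q_5 (nat_lit 92) (C_5 L44617 (C_5 L44622 (C_5 L44629 N_5))) (by decide +kernel)
theorem L44631 : W_5 (nat_lit 2) (nat_lit 0x2000100013000cc000400020001000000000000000000) (nat_lit 0x0) (nat_lit 0x40002000100000000000000) := D_5 (nat_lit 73) (nat_lit 56) (nat_lit 90) (nat_lit 6) (nat_lit 4) (nat_lit 7) (nat_lit 6) (nat_lit 4) (nat_lit 8) (by decide +kernel)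
theorem L44632 : W_5 (nat_lit 3) (nat_lit 0x2000100013000cc000000020001000000000000000000) (nat_lit 0x0) (nat_lit 0x80000000400040002000100000000000000) := T_5 (nat_lit 106) (nat_lit 139) (nat_lit 5) (nat_lit 4) (nat_lit 4) L44631 (by decide +kernel)
theorem L44633 : W_5 (nat_lit 10) (nat_lit 0x2000100013000cc000000020000000000000000000000) (nat_lit 0x0) (nat_lit 0x200010002800088013001ac007c007b800100000000000000) := Q_5 (nat_lit 72) (C_5 L44613 (C_5 L44614 (C_5 L44630 (C_5 L44632 N_5)))) (by decide +kernel)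
theorem L44634 : W_5 (nat_lit 2) (nat_lit 0x2000100013000cc000400060000800000000000000000) (nat_lit 0x0) (nat_lit 0x80000000000000001000040000000000000) := D_5 (nat_lit 72) (nat_lit 139) (nat_lit 54) (nat_lit 5) (nat_lit 4) (nat_lit 4) (nat_lit 4) (nat_lit 4) (nat_lit 7) (by decide +kernel)
theorem L44635 : W_5 (nat_lit 3) (nat_lit 0x2000100013000cc000400060000000000000000000000) (nat_lit 0x0) (nat_lit 0x80000000000010001800040000000000000) := T_5 (nat_lit 71) (nat_lit 88) (nat_lit 4) (nat_lit 4) (nat_lit 8) L44634 (by decide +kernel)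
theorem L44636 : W_5 (nat_lit 4) (nat_lit 0x2000100013000cc000400020000000000000000000000) (nat_lit 0x0) (nat_lit 0x80000000000050003800040000000000000) := T_5 (nat_lit 90) (nat_lit 73) (nat_lit 6) (nat_lit 4) (nat_lit 8) L44635 (by decide +kernel)
theorem L44637 : W_5 (nat_lit 2) (nat_lit 0x200010001b000cc002400160001a00000000000000000) (nat_lit 0x0) (nat_lit 0x20001800000000000000000000000000) := D_5 (nat_lit 108) (nat_lit 125) (nat_lit 107) (nat_lit 4) (nat_lit 7) (nat_lit 10) (nat_lit 3) (nat_lit 4) (nat_lit 6) (by decide +kernel)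
theorem L44638 : W_5 (nat_lit 3) (nat_lit 0x2000100013000cc002400160001a00000000000000000) (nat_lit 0x0) (nat_lit 0x20000800020001800000000000000000000000000) := T_5 (nat_lit 143) (nat_lit 161) (nat_lit 7) (nat_lit 7) (nat_lit 5) L44637 (by decide +kernel)
theorem L44639 : W_5 (nat_lit 4) (nat_lit 0x2000100013000cc000400160001a00000000000000000) (nat_lit 0x0) (nat_lit 0x20000800020003800000008000000000000000000) := T_5 (nat_lit 109) (nat_lit 75) (nat_lit 7) (nat_lit 7) (nat_lit 4) L44638 (by decide +kernel)
theorem L44640 : W_5 (nat_lit 5) (nat_lit 0x2000100013000cc000400060001a00000000000000000) (nat_lit 0x0) (nat_lit 0x20000800020003800180008000000000000000000) := T_5 (nat_lit 92) (nat_lit 91) (nat_lit 0) (nat_lit 7) (nat_lit 5) L44639 (by decide +kernel)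
theorem L44641 : W_5 (nat_lit 6) (nat_lit 0x2000100013000cc000400060001800000000000000000) (nat_lit 0x0) (nat_lit 0x20000800020003800180008600000000000000000) := T_5 (nat_lit 69) (nat_lit 70) (nat_lit 3) (nat_lit 1) (nat_lit 4) L44640 (by decide +kernel)
theorem L44642 : W_5 (nat_lit 7) (nat_lit 0x2000100013000cc000400060000800000000000000000) (nat_lit 0x0) (nat_lit 0x20000800020003800180009600040000000000000) := T_5 (nat_lit 72) (nat_lit 54) (nat_lit 4) (nat_lit 4) (nat_lit 7) L44641 (by decide +kernel)
theorem L44643 : W_5 (nat_lit 8) (nat_lit 0x2000100013000cc000400060000000000000000000000) (nat_lit 0x0) (nat_lit 0x20000800020003800190009e00040000000000000) := T_5 (nat_lit 71) (nat_lit 88) (nat_lit 4) (nat_lit 4) (nat_lit 8) L44642 (by decide +kernel)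
theorem L44644 : W_5 (nat_lit 9) (nat_lit 0x2000100013000cc000400020000000000000000000000) (nat_lit 0x0) (nat_lit 0x200008000200038001d000be00040000000000000) := T_5 (nat_lit 90) (nat_lit 73) (nat_lit 6) (nat_lit 4) (nat_lit 8) L44643 (by decide +kernel)
theorem L44645 : W_5 (nat_lit 10) (nat_lit 0x2000100013000cc000000020000000000000000000000) (nat_lit 0x0) (nat_lit 0x2000100029000880020003c001dc00fe00040000000000000) := Q_5 (nat_lit 106) (C_5 L44593 (C_5 L44576 (C_5 L44636 (C_5 L44644 N_5)))) (by decide +kernel)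
theorem L44646 : W_5 (nat_lit 12) (nat_lit 0x20001000130008c000000020000000000000000000000) (nat_lit 0x0) (nat_lit 0x200010002900088017001bc007dc07fe00140000000000000) := Q_5 (nat_lit 126) (C_5 L44575 (C_5 L44577 (C_5 L44594 (C_5 L44612 (C_5 L44633 (C_5 L44645 N_5)))))) (by decide +kernel)
theorem L44647 : W_5 (nat_lit 2) (nat_lit 0x200010001b800cc002400130000000000000000000000) (nat_lit 0x0) (nat_lit 0x1000080004000000000000000000) := D_5 (nat_lit 91) (nat_lit 74) (nat_lit 108) (nat_lit 4) (nat_lit 7) (nat_lit 8) (nat_lit 4) (nat_lit 7) (nat_lit 9) (by decide +kernel)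
theorem L44648 : W_5 (nat_lit 3) (nat_lit 0x2000100013800cc002400130000000000000000000000) (nat_lit 0x0) (nat_lit 0x20000800000001000080004000000000000000000) := T_5 (nat_lit 143) (nat_lit 161) (nat_lit 7) (nat_lit 7) (nat_lit 5) L44647 (by decide +kernel)
theorem L44649 : W_5 (nat_lit 4) (nat_lit 0x2000100013800cc002400120000000000000000000000) (nat_lit 0x0) (nat_lit 0x20000800000001000090004800000000000000000) := T_5 (nat_lit 88) (nat_lit 71) (nat_lit 4) (nat_lit 4) (nat_lit 8) L44648 (by decide +kernel)
theorem L44650 : W_5 (nat_lit 5) (nat_lit 0x2000100013800cc002400020000000000000000000000) (nat_lit 0x0) (nat_lit 0x2000080000000100019000c800000000000000000) := T_5 (nat_lit 92) (nat_lit 75) (nat_lit 7) (nat_lit 7) (nat_lit 4) L44649 (by decide +kernel)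
theorem L44651 : W_5 (nat_lit 6) (nat_lit 0x2000100013000cc002400020000000000000000000000) (nat_lit 0x0) (nat_lit 0x2100088000000100019000c800000000000000000) := T_5 (nat_lit 139) (nat_lit 156) (nat_lit 5) (nat_lit 4) (nat_lit 5) L44650 (by decide +kernel)
theorem L44652 : W_5 (nat_lit 2) (nat_lit 0x2000100013c00cc002e00038008000000000000000000) (nat_lit 0x0) (nat_lit 0x30010000000000000000000000000000000) := D_5 (nat_lit 137) (nat_lit 124) (nat_lit 136) (nat_lit 2) (nat_lit 1) (nat_lit 8) (nat_lit 2) (nat_lit 0) (nat_lit 8) (by decide +kernel)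
theorem L44653 : W_5 (nat_lit 3) (nat_lit 0x2000100013800cc002e00038008000000000000000000) (nat_lit 0x0) (nat_lit 0x800070010000000000000000000000000000000) := T_5 (nat_lit 138) (nat_lit 155) (nat_lit 5) (nat_lit 3) (nat_lit 5) L44652 (by decide +kernel)
theorem L44654 : W_5 (nat_lit 4) (nat_lit 0x2000100013800cc002c00038008000000000000000000) (nat_lit 0x0) (nat_lit 0x800070010000200000000400000000000000000) := T_5 (nat_lit 105) (nat_lit 70) (nat_lit 4) (nat_lit 3) (nat_lit 8) L44653 (by decide +kernel)
theorem L44655 : W_5 (nat_lit 5) (nat_lit 0x2000100013800cc002c00038000000000000000000000) (nat_lit 0x0) (nat_lit 0x800070010000200100008400000000000000000) := T_5 (nat_lit 75) (nat_lit 92) (nat_lit 7) (nat_lit 7) (nat_lit 4) L44654 (by decide +kernel)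
theorem L44656 : W_5 (nat_lit 6) (nat_lit 0x2000100013800cc002c00030000000000000000000000) (nat_lit 0x0) (nat_lit 0x80007001000020010c008400000000000000000) := T_5 (nat_lit 87) (nat_lit 86) (nat_lit 3) (nat_lit 1) (nat_lit 5) L44655 (by decide +kernel)
theorem L44657 : W_5 (nat_lit 7) (nat_lit 0x2000100013000cc002c00030000000000000000000000) (nat_lit 0x0) (nat_lit 0x18000f001000020010c008400000000000000000) := T_5 (nat_lit 139) (nat_lit 156) (nat_lit 5) (nat_lit 4) (nat_lit 5) L44656 (by decide +kernel)
theorem L44658 : W_5 (nat_lit 8) (nat_lit 0x2000100013000cc002400030000000000000000000000) (nat_lit 0x0) (nat_lit 0x18000f0010001a0010c008400000000000000000) := T_5 (nat_lit 107) (nat_lit 108) (nat_lit 3) (nat_lit 4) (nat_lit 6) L44657 (by decide +kernel)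
theorem L44659 : W_5 (nat_lit 9) (nat_lit 0x2000100013000cc002400020000000000000000000000) (nat_lit 0x0) (nat_lit 0x18000f0010001a0011c008c00000000000000000) := T_5 (nat_lit 88) (nat_lit 71) (nat_lit 4) (nat_lit 4) (nat_lit 8) L44658 (by decide +kernel)
theorem L44660 : W_5 (nat_lit 2) (nat_lit 0x200010001b800cc002400130000000000000000000000) (nat_lit 0x0) (nat_lit 0x2000100008000000000000000000000000000000000000000) := D_5 (nat_lit 176) (nat_lit 193) (nat_lit 159) (nat_lit 5) (nat_lit 7) (nat_lit 7) (nat_lit 5) (nat_lit 7) (nat_lit 6) (by decide +kernel)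
theorem L44661 : W_5 (nat_lit 3) (nat_lit 0x2000100013800cc002400130000000000000000000000) (nat_lit 0x0) (nat_lit 0x2000100028000800000000000000000000000000000000000) := T_5 (nat_lit 143) (nat_lit 161) (nat_lit 7) (nat_lit 7) (nat_lit 5) L44660 (by decide +kernel)
theorem L44662 : W_5 (nat_lit 4) (nat_lit 0x2000100013800cc002400030000000000000000000000) (nat_lit 0x0) (nat_lit 0x2000100028000800000000000100008000000000000000000) := T_5 (nat_lit 92) (nat_lit 75) (nat_lit 7) (nat_lit 7) (nat_lit 4) L44661 (by decide +kernel)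
theorem L44663 : W_5 (nat_lit 5) (nat_lit 0x2000100013000cc002400030000000000000000000000) (nat_lit 0x0) (nat_lit 0x2000100029000880000000000100008000000000000000000) := T_5 (nat_lit 139) (nat_lit 156) (nat_lit 5) (nat_lit 4) (nat_lit 5) L44662 (by decide +kernel)
theorem L44664 : W_5 (nat_lit 6) (nat_lit 0x2000100013000cc002400020000000000000000000000) (nat_lit 0x0) (nat_lit 0x2000100029000880000000000110008800000000000000000) := T_5 (nat_lit 88) (nat_lit 71) (nat_lit 4) (nat_lit 4) (nat_lit 8) L44663 (by decide +kernel)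
theorem L44665 : W_5 (nat_lit 10) (nat_lit 0x2000100013000cc000400020000000000000000000000) (nat_lit 0x0) (nat_lit 0x20001000298008f0010003a0019c00cc00000000000000000) := Q_5 (nat_lit 109) (C_5 L44247 (C_5 L44651 (C_5 L44659 (C_5 L44664 (C_5 L44130 N_5))))) (by decide +kernel)
theorem L44666 : W_5 (nat_lit 2) (nat_lit 0x2000100013c00dc000400030000000000000000000000) (nat_lit 0x0) (nat_lit 0xc00000000000200000000000000000000000000) := D_5 (nat_lit 155) (nat_lit 105) (nat_lit 154) (nat_lit 5) (nat_lit 3) (nat_lit 5) (nat_lit 1) (nat_lit 5) (nat_lit 8) (by decide +kernel)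
theorem L44667 : W_5 (nat_lit 3) (nat_lit 0x2000100013800dc000400030000000000000000000000) (nat_lit 0x0) (nat_lit 0xc00060000000200000000000000000000000000) := T_5 (nat_lit 138) (nat_lit 137) (nat_lit 2) (nat_lit 1) (nat_lit 8) L44666 (by decide +kernel)
theorem L44668 : W_5 (nat_lit 4) (nat_lit 0x2000100013000dc000400030000000000000000000000) (nat_lit 0x0) (nat_lit 0x1c000e0000000200000000000000000000000000) := T_5 (nat_lit 139) (nat_lit 156) (nat_lit 5) (nat_lit 4) (nat_lit 5) L44667 (by decide +kernel)
theorem L44669 : W_5 (nat_lit 5) (nat_lit 0x2000100013000cc000400030000000000000000000000) (nat_lit 0x0) (nat_lit 0x1c000e0030000200000000000000000000000000) := T_5 (nat_lit 124) (nat_lit 125) (nat_lit 1) (nat_lit 8) (nat_lit 7) L44668 (by decide +kernel)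
theorem L44670 : W_5 (nat_lit 6) (nat_lit 0x2000100013000cc000400020000000000000000000000) (nat_lit 0x0) (nat_lit 0x1c000e0030000200010000800000000000000000) := T_5 (nat_lit 88) (nat_lit 71) (nat_lit 4) (nat_lit 4) (nat_lit 8) L44669 (by decide +kernel)
theorem L44671 : W_5 (nat_lit 2) (nat_lit 0x2000100013800cc001c00030000000000000000000000) (nat_lit 0x0) (nat_lit 0x20000c000000000000000000000) := D_5 (nat_lit 87) (nat_lit 86) (nat_lit 105) (nat_lit 3) (nat_lit 1) (nat_lit 5) (nat_lit 0) (nat_lit 6) (nat_lit 6) (by decide +kernel)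
theorem L44672 : W_5 (nat_lit 3) (nat_lit 0x2000100013800cc001c00020000000000000000000000) (nat_lit 0x0) (nat_lit 0x20001c000800000000000000000) := T_5 (nat_lit 88) (nat_lit 71) (nat_lit 4) (nat_lit 4) (nat_lit 8) L44671 (by decide +kernel)
theorem L44673 : W_5 (nat_lit 4) (nat_lit 0x2000100013800cc001400020000000000000000000000) (nat_lit 0x0) (nat_lit 0x2a0001c000800000000000000000) := T_5 (nat_lit 107) (nat_lit 109) (nat_lit 3) (nat_lit 4) (nat_lit 6) L44672 (by decide +kernel)
theorem L44674 : W_5 (nat_lit 5) (nat_lit 0x2000100013000cc001400020000000000000000000000) (nat_lit 0x0) (nat_lit 0x1000080000002a0001c000800000000000000000) := T_5 (nat_lit 139) (nat_lit 156) (nat_lit 5) (nat_lit 4) (nat_lit 5) L44673 (by decide +kernel)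
theorem L44675 : W_5 (nat_lit 2) (nat_lit 0x2000100013800ec001400030000000000000000000000) (nat_lit 0x0) (nat_lit 0x100000a00000000000000000000000000) := D_5 (nat_lit 107) (nat_lit 105) (nat_lit 128) (nat_lit 3) (nat_lit 3) (nat_lit 6) (nat_lit 0) (nat_lit 9) (nat_lit 7) (by decide +kernel)
theorem L44676 : W_5 (nat_lit 3) (nat_lit 0x2000100013800cc001400030000000000000000000000) (nat_lit 0x0) (nat_lit 0x800120000a00000000000000000000000000) := T_5 (nat_lit 125) (nat_lit 143) (nat_lit 4) (nat_lit 7) (nat_lit 10) L44675 (by decide +kernel)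
theorem L44677 : W_5 (nat_lit 4) (nat_lit 0x2000100013000cc001400030000000000000000000000) (nat_lit 0x0) (nat_lit 0x1000880120000a00000000000000000000000000) := T_5 (nat_lit 139) (nat_lit 156) (nat_lit 5) (nat_lit 4) (nat_lit 5) L44676 (by decide +kernel)
theorem L44678 : W_5 (nat_lit 5) (nat_lit 0x2000100013000cc001400020000000000000000000000) (nat_lit 0x0) (nat_lit 0x1000880120000a00010000800000000000000000) := T_5 (nat_lit 88) (nat_lit 71) (nat_lit 4) (nat_lit 4) (nat_lit 8) L44677 (by decide +kernel)
theorem L44679 : W_5 (nat_lit 2) (nat_lit 0x200010001b000cc001400020000000000000000000000) (nat_lit 0x0) (nat_lit 0x2800080000000000000000000000) := D_5 (nat_lit 109) (nat_lit 107) (nat_lit 91) (nat_lit 3) (nat_lit 4) (nat_lit 6) (nat_lit 4) (nat_lit 7) (nat_lit 9) (by decide +kernel)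
theorem L44680 : W_5 (nat_lit 3) (nat_lit 0x2000100013000cc001400020000000000000000000000) (nat_lit 0x0) (nat_lit 0x800020002800080000000000000000000000) := T_5 (nat_lit 143) (nat_lit 125) (nat_lit 4) (nat_lit 7) (nat_lit 10) L44679 (by decide +kernel)
theorem L44681 : W_5 (nat_lit 2) (nat_lit 0x300010001b000cc001400020000000000000000000000) (nat_lit 0x0) (nat_lit 0x8000000000002000080000000000000000000000) := D_5 (nat_lit 109) (nat_lit 91) (nat_lit 159) (nat_lit 4) (nat_lit 7) (nat_lit 9) (nat_lit 5) (nat_lit 7) (nat_lit 6) (by decide +kernel)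
theorem L44682 : W_5 (nat_lit 3) (nat_lit 0x200010001b000cc001400020000000000000000000000) (nat_lit 0x0) (nat_lit 0x2000100008000000000002000080000000000000000000000) := T_5 (nat_lit 176) (nat_lit 193) (nat_lit 5) (nat_lit 7) (nat_lit 7) L44681 (by decide +kernel)
theorem L44683 : W_5 (nat_lit 4) (nat_lit 0x2000100013000cc001400020000000000000000000000) (nat_lit 0x0) (nat_lit 0x2000100008000800020002000080000000000000000000000) := T_5 (nat_lit 143) (nat_lit 125) (nat_lit 4) (nat_lit 7) (nat_lit 10) L44682 (by decide +kernel)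
theorem L44684 : W_5 (nat_lit 6) (nat_lit 0x2000100013000cc000400020000000000000000000000) (nat_lit 0x0) (nat_lit 0x2000100009000880120003a0009c000800000000000000000) := Q_5 (nat_lit 108) (C_5 L44674 (C_5 L44678 (C_5 L44680 (C_5 L44683 N_5)))) (by decide +kernel)
theorem L44685 : W_5 (nat_lit 11) (nat_lit 0x20001000130008c000400020000000000000000000000) (nat_lit 0x0) (nat_lit 0x2000100029c008f0170003a0019c00cc00000000000000000) := Q_5 (nat_lit 126) (C_5 L44298 (C_5 L44665 (C_5 L44135 (C_5 L44670 (C_5 L44684 N_5))))) (by decide +kernel)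
theorem L44686 : W_5 (nat_lit 12) (nat_lit 0x20001000130008c000000020000000000000000000000) (nat_lit 0x0) (nat_lit 0x2000100029c008f0170003e0019c00dc00040000000000000) := Q_5 (nat_lit 106) (C_5 L44685 (C_5 L44233 (C_5 L44093 N_5))) (by decide +kernel)
theorem L44687 : W_5 (nat_lit 6) (nat_lit 0x2000100013000bc001400060000000000000000000000) (nat_lit 0x0) (nat_lit 0xb0001e000f00000000000000000) := T_5 (nat_lit 105) (nat_lit 104) (nat_lit 0) (nat_lit 6) (nat_lit 7) L44025 (by decide +kernel)
theorem L44688 : W_5 (nat_lit 7) (nat_lit 0x2000100013000bc000400060000000000000000000000) (nat_lit 0x0) (nat_lit 0x3b0001e000f00000000000000000) := T_5 (nat_lit 108) (nat_lit 109) (nat_lit 2) (nat_lit 3) (nat_lit 7) L44687 (by decide +kernel)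
theorem L44689 : W_5 (nat_lit 8) (nat_lit 0x2000100013000bc000400020000000000000000000000) (nat_lit 0x0) (nat_lit 0x3b0005e002f00000000000000000) := T_5 (nat_lit 90) (nat_lit 73) (nat_lit 6) (nat_lit 4) (nat_lit 8) L44688 (by decide +kernel)
theorem L44690 : W_5 (nat_lit 9) (nat_lit 0x20001000130009c000400020000000000000000000000) (nat_lit 0x0) (nat_lit 0x60003b0005e002f00000000000000000) := T_5 (nat_lit 125) (nat_lit 126) (nat_lit 1) (nat_lit 8) (nat_lit 7) L44689 (by decide +kernel)
theorem L44691 : W_5 (nat_lit 10) (nat_lit 0x20001000130008c000400020000000000000000000000) (nat_lit 0x0) (nat_lit 0x1c000e0070003b0005e002f00000000000000000) := Q_5 (nat_lit 124) (C_5 L43760 (C_5 L44690 (C_5 L44310 N_5))) (by decide +kernel)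
theorem L44692 : W_5 (nat_lit 11) (nat_lit 0x20001000130008c000000020000000000000000000000) (nat_lit 0x0) (nat_lit 0x1c000e0070003f0005e003f001c000e000400000) := Q_5 (nat_lit 106) (C_5 L44691 (C_5 L44305 (C_5 L44233 (C_5 L44093 N_5)))) (by decide +kernel)
theorem L44693 : W_5 (nat_lit 2) (nat_lit 0x20001000130008c000000070000000000000000000000) (nat_lit 0x0) (nat_lit 0x400000002800000000000000000) := D_5 (nat_lit 106) (nat_lit 71) (nat_lit 73) (nat_lit 4) (nat_lit 4) (nat_lit 8) (nat_lit 6) (nat_lit 4) (nat_lit 8) (by decide +kernel)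
theorem L44694 : W_5 (nat_lit 5) (nat_lit 0x20001000130008c000000070000800000000000000000) (nat_lit 0x0) (nat_lit 0x3000380008000c400000000000000000) := T_5 (nat_lit 91) (nat_lit 70) (nat_lit 0) (nat_lit 6) (nat_lit 5) L44431 (by decide +kernel)
theorem L44695 : W_5 (nat_lit 6) (nat_lit 0x20001000130008c000000070000000000000000000000) (nat_lit 0x0) (nat_lit 0x30003c0008000cc00000000000000000) := T_5 (nat_lit 71) (nat_lit 106) (nat_lit 4) (nat_lit 4) (nat_lit 8) L44694 (by decide +kernel)
theorem L44696 : W_5 (nat_lit 2) (nat_lit 0x20001000130008c000800070002000000000000000000) (nat_lit 0x0) (nat_lit 0x1000008004000000000000000000) := D_5 (nat_lit 87) (nat_lit 108) (nat_lit 74) (nat_lit 3) (nat_lit 2) (nat_lit 5) (nat_lit 2) (nat_lit 2) (nat_lit 5) (by decide +kernel)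
theorem L44697 : W_5 (nat_lit 3) (nat_lit 0x20001000130008c000000070002000000000000000000) (nat_lit 0x0) (nat_lit 0x10001800008004000000000000000000) := T_5 (nat_lit 107) (nat_lit 124) (nat_lit 5) (nat_lit 5) (nat_lit 4) L44696 (by decide +kernel)
theorem L44698 : W_5 (nat_lit 4) (nat_lit 0x20001000130008c000000070000000000000000000000) (nat_lit 0x0) (nat_lit 0x10001c00008006000000000000000000) := T_5 (nat_lit 73) (nat_lit 106) (nat_lit 6) (nat_lit 4) (nat_lit 8) L44697 (by decide +kernel)
theorem L44699 : W_5 (nat_lit 7) (nat_lit 0x20001000130008c000000030000000000000000000000) (nat_lit 0x0) (nat_lit 0x30003dc00cc00ef00000000000000000) := Q_5 (nat_lit 90) (C_5 L44428 (C_5 L44693 (C_5 L44695 (C_5 L44698 N_5)))) (by decide +kernel)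
theorem L44700 : W_5 (nat_lit 5) (nat_lit 0x20001000130008c000000070002000000000000000000) (nat_lit 0x0) (nat_lit 0x80000000380088004600000000000000000) := T_5 (nat_lit 87) (nat_lit 74) (nat_lit 2) (nat_lit 2) (nat_lit 5) L44538 (by decide +kernel)
theorem L44701 : W_5 (nat_lit 6) (nat_lit 0x20001000130008c000000070000000000000000000000) (nat_lit 0x0) (nat_lit 0x80000000780088006600000000000000000) := T_5 (nat_lit 73) (nat_lit 106) (nat_lit 6) (nat_lit 4) (nat_lit 8) L44700 (by decide +kernel)
theorem L44702 : W_5 (nat_lit 2) (nat_lit 0x20001000130008c00080007c000000000000000000000) (nat_lit 0x0) (nat_lit 0x700000000000000000) := D_5 (nat_lit 69) (nat_lit 68) (nat_lit 70) (nat_lit 0) (nat_lit 4) (nat_lit 5) (nat_lit 0) (nat_lit 5) (nat_lit 5) (by decide +kernel)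
theorem L44703 : W_5 (nat_lit 3) (nat_lit 0x20001000130008c000800078000000000000000000000) (nat_lit 0x0) (nat_lit 0x400004000700000000000000000) := T_5 (nat_lit 86) (nat_lit 106) (nat_lit 3) (nat_lit 1) (nat_lit 5) L44702 (by decide +kernel)
theorem L44704 : W_5 (nat_lit 4) (nat_lit 0x20001000130008c000000078000000000000000000000) (nat_lit 0x0) (nat_lit 0x1c00004000700000000000000000) := T_5 (nat_lit 107) (nat_lit 108) (nat_lit 3) (nat_lit 2) (nat_lit 5) L44703 (by decide +kernel)
theorem L44705 : W_5 (nat_lit 2) (nat_lit 0x20001000130008c0009000fc000200000000000000000) (nat_lit 0x0) (nat_lit 0x1000000000000c000000000000000000) := D_5 (nat_lit 74) (nat_lit 75) (nat_lit 124) (nat_lit 2) (nat_lit 3) (nat_lit 5) (nat_lit 6) (nat_lit 5) (nat_lit 8) (by decide +kernel)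
theorem L44706 : W_5 (nat_lit 3) (nat_lit 0x20001000130008c00090007c000200000000000000000) (nat_lit 0x0) (nat_lit 0x1000020008000c000000000000000000) := T_5 (nat_lit 91) (nat_lit 105) (nat_lit 1) (nat_lit 6) (nat_lit 5) L44705 (by decide +kernel)
theorem L44707 : W_5 (nat_lit 4) (nat_lit 0x20001000130008c00090007c000000000000000000000) (nat_lit 0x0) (nat_lit 0x1000020008000c300000000000000000) := T_5 (nat_lit 69) (nat_lit 68) (nat_lit 0) (nat_lit 4) (nat_lit 5) L44706 (by decide +kernel)
theorem L44708 : W_5 (nat_lit 5) (nat_lit 0x20001000130008c000900078000000000000000000000) (nat_lit 0x0) (nat_lit 0x1000060008400c300000000000000000) := T_5 (nat_lit 86) (nat_lit 106) (nat_lit 3) (nat_lit 1) (nat_lit 5) L44707 (by decide +kernel)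
theorem L44709 : W_5 (nat_lit 6) (nat_lit 0x20001000130008c000100078000000000000000000000) (nat_lit 0x0) (nat_lit 0x10001e0008400c300000000000000000) := T_5 (nat_lit 107) (nat_lit 108) (nat_lit 3) (nat_lit 2) (nat_lit 5) L44708 (by decide +kernel)
theorem L44710 : W_5 (nat_lit 7) (nat_lit 0x20001000130008c000000078000000000000000000000) (nat_lit 0x0) (nat_lit 0x10001f8008400c300000000000000000) := T_5 (nat_lit 104) (nat_lit 103) (nat_lit 1) (nat_lit 5) (nat_lit 5) L44709 (by decide +kernel)
theorem L44711 : W_5 (nat_lit 2) (nat_lit 0x20001000130008c000100078000400000000000000000) (nat_lit 0x0) (nat_lit 0x80000000200080000000000000000000000) := D_5 (nat_lit 105) (nat_lit 91) (nat_lit 139) (nat_lit 1) (nat_lit 6) (nat_lit 5) (nat_lit 4) (nat_lit 3) (nat_lit 8) (by decide +kernel)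
theorem L44712 : W_5 (nat_lit 3) (nat_lit 0x20001000130008c000100078000000000000000000000) (nat_lit 0x0) (nat_lit 0x80000000200080000600000000000000000) := T_5 (nat_lit 70) (nat_lit 69) (nat_lit 0) (nat_lit 5) (nat_lit 5) L44711 (by decide +kernel)
theorem L44713 : W_5 (nat_lit 4) (nat_lit 0x20001000130008c000000078000000000000000000000) (nat_lit 0x0) (nat_lit 0x80000000380080000600000000000000000) := T_5 (nat_lit 104) (nat_lit 103) (nat_lit 1) (nat_lit 5) (nat_lit 5) L44712 (by decide +kernel)
theorem L44714 : W_5 (nat_lit 2) (nat_lit 0x20001000130008c0009000fc000000000000000000000) (nat_lit 0x0) (nat_lit 0x1000000000000c000000000000000000) := D_5 (nat_lit 74) (nat_lit 75) (nat_lit 124) (nat_lit 2) (nat_lit 3) (nat_lit 5) (nat_lit 6) (nat_lit 5) (nat_lit 8) (by decide +kernel)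
theorem L44715 : W_5 (nat_lit 3) (nat_lit 0x20001000130008c00090007c000000000000000000000) (nat_lit 0x0) (nat_lit 0x1000020008000c000000000000000000) := T_5 (nat_lit 91) (nat_lit 105) (nat_lit 1) (nat_lit 6) (nat_lit 5) L44714 (by decide +kernel)
theorem L44716 : W_5 (nat_lit 4) (nat_lit 0x20001000130008c000900078000000000000000000000) (nat_lit 0x0) (nat_lit 0x1000060008400c000000000000000000) := T_5 (nat_lit 86) (nat_lit 106) (nat_lit 3) (nat_lit 1) (nat_lit 5) L44715 (by decide +kernel)
theorem L44717 : W_5 (nat_lit 5) (nat_lit 0x20001000130008c000100078000000000000000000000) (nat_lit 0x0) (nat_lit 0x10001e0008400c000000000000000000) := T_5 (nat_lit 107) (nat_lit 108) (nat_lit 3) (nat_lit 2) (nat_lit 5) L44716 (by decide +kernel)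
theorem L44718 : W_5 (nat_lit 6) (nat_lit 0x20001000130008c000000078000000000000000000000) (nat_lit 0x0) (nat_lit 0x10001f8008400c000000000000000000) := T_5 (nat_lit 104) (nat_lit 103) (nat_lit 1) (nat_lit 5) (nat_lit 5) L44717 (by decide +kernel)
theorem L44719 : W_5 (nat_lit 8) (nat_lit 0x20001000130008c000000070000000000000000000000) (nat_lit 0x0) (nat_lit 0x80010001fc008c00c700000000000000000) := Q_5 (nat_lit 87) (C_5 L44407 (C_5 L44704 (C_5 L44710 (C_5 L44713 (C_5 L44718 N_5))))) (by decide +kernel)
theorem L44720 : W_5 (nat_lit 2) (nat_lit 0x20001000130008c000900078002400000000000000000) (nat_lit 0x0) (nat_lit 0x80000000200080000000000000000000000) := D_5 (nat_lit 105) (nat_lit 139) (nat_lit 91) (nat_lit 4) (nat_lit 3) (nat_lit 8) (nat_lit 1) (nat_lit 6) (nat_lit 5) (by decide +kernel)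
theorem L44721 : W_5 (nat_lit 3) (nat_lit 0x20001000130008c000800078002400000000000000000) (nat_lit 0x0) (nat_lit 0x80000000380080000000000000000000000) := T_5 (nat_lit 104) (nat_lit 103) (nat_lit 1) (nat_lit 5) (nat_lit 5) L44720 (by decide +kernel)
theorem L44722 : W_5 (nat_lit 4) (nat_lit 0x20001000130008c000800078002000000000000000000) (nat_lit 0x0) (nat_lit 0x80000000380080000600000000000000000) := T_5 (nat_lit 70) (nat_lit 69) (nat_lit 0) (nat_lit 5) (nat_lit 5) L44721 (by decide +kernel)
theorem L44723 : W_5 (nat_lit 5) (nat_lit 0x20001000130008c000800070002000000000000000000) (nat_lit 0x0) (nat_lit 0x80000001380088000600000000000000000) := T_5 (nat_lit 87) (nat_lit 108) (nat_lit 3) (nat_lit 2) (nat_lit 5) L44722 (by decide +kernel)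
theorem L44724 : W_5 (nat_lit 6) (nat_lit 0x20001000130008c000000070002000000000000000000) (nat_lit 0x0) (nat_lit 0x80010001b80088000600000000000000000) := T_5 (nat_lit 107) (nat_lit 124) (nat_lit 5) (nat_lit 5) (nat_lit 4) L44723 (by decide +kernel)
theorem L44725 : W_5 (nat_lit 7) (nat_lit 0x20001000130008c000000070000000000000000000000) (nat_lit 0x0) (nat_lit 0x80010001f80088002600000000000000000) := T_5 (nat_lit 73) (nat_lit 106) (nat_lit 6) (nat_lit 4) (nat_lit 8) L44724 (by decide +kernel)
theorem L44726 : W_5 (nat_lit 2) (nat_lit 0x20001000130008c0004000f0000000000000000000000) (nat_lit 0x0) (nat_lit 0x300100000000000000000000000) := D_5 (nat_lit 105) (nat_lit 104) (nat_lit 92) (nat_lit 1) (nat_lit 6) (nat_lit 5) (nat_lit 1) (nat_lit 7) (nat_lit 5) (by decide +kernel)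
theorem L44727 : W_5 (nat_lit 3) (nat_lit 0x20001000130008c0000000f0000000000000000000000) (nat_lit 0x0) (nat_lit 0x700100002000000000000000000) := T_5 (nat_lit 106) (nat_lit 73) (nat_lit 6) (nat_lit 4) (nat_lit 8) L44726 (by decide +kernel)
theorem L44728 : W_5 (nat_lit 5) (nat_lit 0x20001000130008c000000070000000000000000000000) (nat_lit 0x0) (nat_lit 0x30003f0018000e000000000000000000) := Q_5 (nat_lit 91) (C_5 L44435 (C_5 L44727 N_5)) (by decide +kernel)
theorem L44729 : W_5 (nat_lit 9) (nat_lit 0x20001000130008c000000030000000000000000000000) (nat_lit 0x0) (nat_lit 0x80030003fc01cc00e700000000000000000) := Q_5 (nat_lit 90) (C_5 L44698 (C_5 L44701 (C_5 L44549 (C_5 L44719 (C_5 L44725 (C_5 L44728 N_5)))))) (by decide +kernel)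
theorem L44730 : W_5 (nat_lit 12) (nat_lit 0x20001000130008c000000020000000000000000000000) (nat_lit 0x0) (nat_lit 0x20001000280008c0070003fc01dc01ef00000000000000000) := Q_5 (nat_lit 88) (C_5 L44529 (C_5 L44187 (C_5 L44699 (C_5 L44729 N_5)))) (by decide +kernel)
theorem L44731 : W_5 (nat_lit 12) (nat_lit 0x20001000130008c000000020000000000000000000000) (nat_lit 0x0) (nat_lit 0x20001000290008e037001bf007c007f0001c000e000400000) := Q_5 (nat_lit 106) (C_5 L44183 (C_5 L44305 (C_5 L44094 (C_5 L44093 N_5)))) (by decide +kernel)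
theorem L44732 : W_5 (nat_lit 13) (nat_lit 0x20001000130008c000000000000000000000000000000) (nat_lit 0x0) (nat_lit 0x2600130029e008f037181bfc07fe07ff001e000e000500000) := Q_5 (nat_lit 89) (C_5 L44184 (C_5 L44186 (C_5 L44215 (C_5 L44306 (C_5 L44325 (C_5 L44569 (C_5 L44570 (C_5 L44646 (C_5 L44686 (C_5 L44692 (C_5 L44730 (C_5 L44731 N_5)))))))))))) (by decide +kernel)
theorem L44733 : W_5 (nat_lit 2) (nat_lit 0x2000100013c008c000000000000000000000000000000) (nat_lit 0x0) (nat_lit 0x20030000000000000000000000000000000) := D_5 (nat_lit 124) (nat_lit 125) (nat_lit 137) (nat_lit 2) (nat_lit 2) (nat_lit 8) (nat_lit 2) (nat_lit 1) (nat_lit 8) (by decide +kernel)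
theorem L44734 : W_5 (nat_lit 3) (nat_lit 0x2000108013c009c000000000000000000000000000000) (nat_lit 0x0) (nat_lit 0x200010001000000000000200010000000000000000000000) := T_5 (nat_lit 105) (nat_lit 88) (nat_lit 5) (nat_lit 3) (nat_lit 5) L44078 (by decide +kernel)
theorem L44735 : W_5 (nat_lit 4) (nat_lit 0x2000100013c009c000000000000000000000000000000) (nat_lit 0x0) (nat_lit 0x200010001c00000000000200010000000000000000000000) := T_5 (nat_lit 155) (nat_lit 154) (nat_lit 1) (nat_lit 5) (nat_lit 8) L44734 (by decide +kernel)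
theorem L44736 : W_5 (nat_lit 5) (nat_lit 0x2000100013c008c000000000000000000000000000000) (nat_lit 0x0) (nat_lit 0x200010001c00000030000200010000000000000000000000) := T_5 (nat_lit 124) (nat_lit 125) (nat_lit 2) (nat_lit 2) (nat_lit 8) L44735 (by decide +kernel)
theorem L44737 : W_5 (nat_lit 6) (nat_lit 0x20001000138008c000000000000000000000000000000) (nat_lit 0x0) (nat_lit 0x200010001e00070030000200010000000000000000000000) := Q_5 (nat_lit 138) (C_5 L43887 (C_5 L44733 (C_5 L44736 N_5))) (by decide +kernel)
theorem L44738 : W_5 (nat_lit 2) (nat_lit 0x200011a0138008d000380000000800000000000000000) (nat_lit 0x0) (nat_lit 0x30000400000000000000000000000000) := D_5 (nat_lit 124) (nat_lit 125) (nat_lit 106) (nat_lit 0) (nat_lit 6) (nat_lit 7) (nat_lit 3) (nat_lit 1) (nat_lit 6) (by decide +kernel)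
theorem L44739 : W_5 (nat_lit 3) (nat_lit 0x200011a0138008d000300000000800000000000000000) (nat_lit 0x0) (nat_lit 0x300004c0000000000000000000000000) := T_5 (nat_lit 103) (nat_lit 102) (nat_lit 3) (nat_lit 0) (nat_lit 6) L44738 (by decide +kernel)
theorem L44740 : W_5 (nat_lit 4) (nat_lit 0x200011a0138008d000300000000000000000000000000) (nat_lit 0x0) (nat_lit 0x300004c0010000800000000000000000) := T_5 (nat_lit 71) (nat_lit 88) (nat_lit 7) (nat_lit 3) (nat_lit 4) L44739 (by decide +kernel)
theorem L44741 : W_5 (nat_lit 5) (nat_lit 0x20001180138008d000300000000000000000000000000) (nat_lit 0x0) (nat_lit 0x6000000300004c0010000800000000000000000) := T_5 (nat_lit 153) (nat_lit 154) (nat_lit 2) (nat_lit 0) (nat_lit 9) L44740 (by decide +kernel)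
theorem L44742 : W_5 (nat_lit 6) (nat_lit 0x20001100138008d000300000000000000000000000000) (nat_lit 0x0) (nat_lit 0x10000e000000300004c0010000800000000000000000) := T_5 (nat_lit 155) (nat_lit 172) (nat_lit 5) (nat_lit 3) (nat_lit 6) L44741 (by decide +kernel)
theorem L44743 : W_5 (nat_lit 7) (nat_lit 0x20001100138008d000100000000000000000000000000) (nat_lit 0x0) (nat_lit 0x10000e000000300006c0018000800000000000000000) := T_5 (nat_lit 105) (nat_lit 87) (nat_lit 4) (nat_lit 3) (nat_lit 9) L44742 (by decide +kernel)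
theorem L44744 : W_5 (nat_lit 8) (nat_lit 0x20001100138008c000100000000000000000000000000) (nat_lit 0x0) (nat_lit 0x10000e000000330006c0018000800000000000000000) := T_5 (nat_lit 120) (nat_lit 121) (nat_lit 3) (nat_lit 1) (nat_lit 7) L44743 (by decide +kernel)
theorem L44745 : W_5 (nat_lit 2) (nat_lit 0x200011a0138008c000380000000800000000000000000) (nat_lit 0x0) (nat_lit 0x13000000000000000000000000000000) := D_5 (nat_lit 121) (nat_lit 120) (nat_lit 124) (nat_lit 3) (nat_lit 1) (nat_lit 7) (nat_lit 0) (nat_lit 5) (nat_lit 7) (by decide +kernel)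
theorem L44746 : W_5 (nat_lit 3) (nat_lit 0x200011a0138008c000300000000800000000000000000) (nat_lit 0x0) (nat_lit 0x130000c0000000000000000000000000) := T_5 (nat_lit 103) (nat_lit 102) (nat_lit 3) (nat_lit 0) (nat_lit 6) L44745 (by decide +kernel)
theorem L44747 : W_5 (nat_lit 4) (nat_lit 0x200011a0138008c000300000000000000000000000000) (nat_lit 0x0) (nat_lit 0x130000c0010000800000000000000000) := T_5 (nat_lit 71) (nat_lit 88) (nat_lit 7) (nat_lit 3) (nat_lit 4) L44746 (by decide +kernel)
theorem L44748 : W_5 (nat_lit 5) (nat_lit 0x20001180138008c000300000000000000000000000000) (nat_lit 0x0) (nat_lit 0x6000000130000c0010000800000000000000000) := T_5 (nat_lit 153) (nat_lit 154) (nat_lit 2) (nat_lit 0) (nat_lit 9) L44747 (by decide +kernel)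
theorem L44749 : W_5 (nat_lit 6) (nat_lit 0x20001100138008c000300000000000000000000000000) (nat_lit 0x0) (nat_lit 0x10000e000000130000c0010000800000000000000000) := T_5 (nat_lit 155) (nat_lit 172) (nat_lit 5) (nat_lit 3) (nat_lit 6) L44748 (by decide +kernel)
theorem L44750 : W_5 (nat_lit 7) (nat_lit 0x20001100138008c000100000000000000000000000000) (nat_lit 0x0) (nat_lit 0x10000e000000130002c0018000800000000000000000) := T_5 (nat_lit 105) (nat_lit 87) (nat_lit 4) (nat_lit 3) (nat_lit 9) L44749 (by decide +kernel)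
theorem L44751 : W_5 (nat_lit 2) (nat_lit 0x200011a0138008c000380000000800000000000000000) (nat_lit 0x0) (nat_lit 0x30000400000000000000000000000000) := D_5 (nat_lit 124) (nat_lit 125) (nat_lit 106) (nat_lit 0) (nat_lit 6) (nat_lit 7) (nat_lit 3) (nat_lit 1) (nat_lit 6) (by decide +kernel)
theorem L44752 : W_5 (nat_lit 3) (nat_lit 0x200011a0138008c000300000000800000000000000000) (nat_lit 0x0) (nat_lit 0x300004c0000000000000000000000000) := T_5 (nat_lit 103) (nat_lit 102) (nat_lit 3) (nat_lit 0) (nat_lit 6) L44751 (by decide +kernel)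
theorem L44753 : W_5 (nat_lit 4) (nat_lit 0x200011a0138008c000300000000000000000000000000) (nat_lit 0x0) (nat_lit 0x300004c0010000800000000000000000) := T_5 (nat_lit 71) (nat_lit 88) (nat_lit 7) (nat_lit 3) (nat_lit 4) L44752 (by decide +kernel)
theorem L44754 : W_5 (nat_lit 5) (nat_lit 0x20001180138008c000300000000000000000000000000) (nat_lit 0x0) (nat_lit 0x6000000300004c0010000800000000000000000) := T_5 (nat_lit 153) (nat_lit 154) (nat_lit 2) (nat_lit 0) (nat_lit 9) L44753 (by decide +kernel)
theorem L44755 : W_5 (nat_lit 6) (nat_lit 0x20001100138008c000300000000000000000000000000) (nat_lit 0x0) (nat_lit 0x10000e000000300004c0010000800000000000000000) := T_5 (nat_lit 155) (nat_lit 172) (nat_lit 5) (nat_lit 3) (nat_lit 6) L44754 (by decide +kernel)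
theorem L44756 : W_5 (nat_lit 7) (nat_lit 0x20001100138008c000100000000000000000000000000) (nat_lit 0x0) (nat_lit 0x10000e000000300006c0018000800000000000000000) := T_5 (nat_lit 105) (nat_lit 87) (nat_lit 4) (nat_lit 3) (nat_lit 9) L44755 (by decide +kernel)
theorem L44757 : W_5 (nat_lit 2) (nat_lit 0x200011a0139008d800380000000800000000000000000) (nat_lit 0x0) (nat_lit 0x20000000000004000200000000000000000) := D_5 (nat_lit 86) (nat_lit 69) (nat_lit 137) (nat_lit 5) (nat_lit 1) (nat_lit 4) (nat_lit 5) (nat_lit 1) (nat_lit 5) (by decide +kernel)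
theorem L44758 : W_5 (nat_lit 3) (nat_lit 0x200011a0138008d800380000000800000000000000000) (nat_lit 0x0) (nat_lit 0x4000000030000000000004000200000000000000000) := T_5 (nat_lit 136) (nat_lit 170) (nat_lit 6) (nat_lit 0) (nat_lit 10) L44757 (by decide +kernel)
theorem L44759 : W_5 (nat_lit 4) (nat_lit 0x200011a0138008d000380000000800000000000000000) (nat_lit 0x0) (nat_lit 0x4000000030000800400004000200000000000000000) := T_5 (nat_lit 119) (nat_lit 106) (nat_lit 1) (nat_lit 4) (nat_lit 6) L44758 (by decide +kernel)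
theorem L44760 : W_5 (nat_lit 5) (nat_lit 0x200011a0138008c000380000000800000000000000000) (nat_lit 0x0) (nat_lit 0x4000000030003800400004000200000000000000000) := T_5 (nat_lit 120) (nat_lit 121) (nat_lit 3) (nat_lit 1) (nat_lit 7) L44759 (by decide +kernel)
theorem L44761 : W_5 (nat_lit 6) (nat_lit 0x200011a0138008c000300000000800000000000000000) (nat_lit 0x0) (nat_lit 0x40000000300038004c0004000200000000000000000) := T_5 (nat_lit 103) (nat_lit 102) (nat_lit 3) (nat_lit 0) (nat_lit 6) L44760 (by decide +kernel)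
theorem L44762 : W_5 (nat_lit 7) (nat_lit 0x200011a0138008c000300000000000000000000000000) (nat_lit 0x0) (nat_lit 0x40000000300038004c0014000a00000000000000000) := T_5 (nat_lit 71) (nat_lit 88) (nat_lit 7) (nat_lit 3) (nat_lit 4) L44761 (by decide +kernel)
theorem L44763 : W_5 (nat_lit 8) (nat_lit 0x20001180138008c000300000000000000000000000000) (nat_lit 0x0) (nat_lit 0x40006000300038004c0014000a00000000000000000) := T_5 (nat_lit 153) (nat_lit 154) (nat_lit 2) (nat_lit 0) (nat_lit 9) L44762 (by decide +kernel)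
theorem L44764 : W_5 (nat_lit 9) (nat_lit 0x20001100138008c000300000000000000000000000000) (nat_lit 0x0) (nat_lit 0x14000e000300038004c0014000a00000000000000000) := T_5 (nat_lit 155) (nat_lit 172) (nat_lit 5) (nat_lit 3) (nat_lit 6) L44763 (by decide +kernel)
theorem L44765 : W_5 (nat_lit 10) (nat_lit 0x20001100138008c000100000000000000000000000000) (nat_lit 0x0) (nat_lit 0x14000e000300038006c001c000a00000000000000000) := T_5 (nat_lit 105) (nat_lit 87) (nat_lit 4) (nat_lit 3) (nat_lit 9) L44764 (by decide +kernel)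
theorem L44766 : W_5 (nat_lit 2) (nat_lit 0x2000110013800be000100000000400000000000000000) (nat_lit 0x0) (nat_lit 0x3800000000000000000000000000) := D_5 (nat_lit 108) (nat_lit 107) (nat_lit 109) (nat_lit 2) (nat_lit 2) (nat_lit 7) (nat_lit 2) (nat_lit 3) (nat_lit 7) (by decide +kernel)
theorem L44767 : W_5 (nat_lit 3) (nat_lit 0x20001100138009e000100000000400000000000000000) (nat_lit 0x0) (nat_lit 0x60003800000000000000000000000000) := T_5 (nat_lit 125) (nat_lit 126) (nat_lit 1) (nat_lit 7) (nat_lit 7) L44766 (by decide +kernel)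
theorem L44768 : W_5 (nat_lit 4) (nat_lit 0x20001100138008e000100000000400000000000000000) (nat_lit 0x0) (nat_lit 0x70003880000000000000000000000000) := T_5 (nat_lit 124) (nat_lit 103) (nat_lit 0) (nat_lit 5) (nat_lit 7) L44767 (by decide +kernel)
theorem L44769 : W_5 (nat_lit 5) (nat_lit 0x20001100138008e000100000000000000000000000000) (nat_lit 0x0) (nat_lit 0x70003880008000400000000000000000) := T_5 (nat_lit 70) (nat_lit 87) (nat_lit 7) (nat_lit 2) (nat_lit 4) L44768 (by decide +kernel)
theorem L44770 : W_5 (nat_lit 6) (nat_lit 0x20001100138008c000100000000000000000000000000) (nat_lit 0x0) (nat_lit 0x73003880008000400000000000000000) := T_5 (nat_lit 121) (nat_lit 120) (nat_lit 3) (nat_lit 1) (nat_lit 7) L44769 (by decide +kernel)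
theorem L44771 : W_5 (nat_lit 2) (nat_lit 0x20001100138009e000100000000000000000000000000) (nat_lit 0x0) (nat_lit 0x60000200000000000000000000000000) := D_5 (nat_lit 125) (nat_lit 126) (nat_lit 105) (nat_lit 1) (nat_lit 7) (nat_lit 7) (nat_lit 0) (nat_lit 6) (nat_lit 7) (by decide +kernel)
theorem L44772 : W_5 (nat_lit 3) (nat_lit 0x20001100138008e000100000000000000000000000000) (nat_lit 0x0) (nat_lit 0x70000280000000000000000000000000) := T_5 (nat_lit 124) (nat_lit 103) (nat_lit 0) (nat_lit 5) (nat_lit 7) L44771 (by decide +kernel)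
theorem L44773 : W_5 (nat_lit 4) (nat_lit 0x20001100138008c000100000000000000000000000000) (nat_lit 0x0) (nat_lit 0x73000280000000000000000000000000) := T_5 (nat_lit 121) (nat_lit 120) (nat_lit 3) (nat_lit 1) (nat_lit 7) L44772 (by decide +kernel)
theorem L44774 : W_5 (nat_lit 2) (nat_lit 0x20001100138008e000100000000000000000000000000) (nat_lit 0x0) (nat_lit 0x200008000400000000000000000) := D_5 (nat_lit 87) (nat_lit 105) (nat_lit 70) (nat_lit 4) (nat_lit 3) (nat_lit 9) (nat_lit 7) (nat_lit 2) (nat_lit 4) (by decide +kernel)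
theorem L44775 : W_5 (nat_lit 3) (nat_lit 0x20001100138008c000100000000000000000000000000) (nat_lit 0x0) (nat_lit 0x3000200008000400000000000000000) := T_5 (nat_lit 121) (nat_lit 120) (nat_lit 3) (nat_lit 1) (nat_lit 7) L44774 (by decide +kernel)
theorem L44776 : W_5 (nat_lit 11) (nat_lit 0x20001100138008c000000000000000000000000000000) (nat_lit 0x0) (nat_lit 0x14000e00030073803fc001c000e00000000000000000) := Q_5 (nat_lit 104) (C_5 L44744 (C_5 L44750 (C_5 L44756 (C_5 L44765 (C_5 L44770 (C_5 L44773 (C_5 L44775 N_5))))))) (by decide +kernel)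
theorem L44777 : W_5 (nat_lit 12) (nat_lit 0x20001000138008c000000000000000000000000000000) (nat_lit 0x0) (nat_lit 0xe00074001e00030073803fc001c000e00000000000000000) := Q_5 (nat_lit 156) (C_5 L43931 (C_5 L43866 (C_5 L44776 (C_5 L43859 N_5)))) (by decide +kernel)
theorem L44778 : W_5 (nat_lit 2) (nat_lit 0x20001000138009c000000000000000000000000000000) (nat_lit 0x0) (nat_lit 0x60020000000000000000000000000000000) := D_5 (nat_lit 138) (nat_lit 125) (nat_lit 137) (nat_lit 2) (nat_lit 2) (nat_lit 8) (nat_lit 2) (nat_lit 1) (nat_lit 8) (by decide +kernel)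
theorem L44779 : W_5 (nat_lit 7) (nat_lit 0x20001000138008c000000000000000000000000000000) (nat_lit 0x0) (nat_lit 0x20001000060073000380008000400000000000000000) := Q_5 (nat_lit 124) (C_5 L43706 (C_5 L44778 (C_5 L42606 N_5))) (by decide +kernel)
theorem L44780 : W_5 (nat_lit 2) (nat_lit 0x20001180138009e000b000c0000400000000000000000) (nat_lit 0x0) (nat_lit 0x600040000000000000000000000000000000000) := D_5 (nat_lit 154) (nat_lit 153) (nat_lit 138) (nat_lit 2) (nat_lit 0) (nat_lit 9) (nat_lit 1) (nat_lit 5) (nat_lit 8) (by decide +kernel)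
theorem L44781 : W_5 (nat_lit 3) (nat_lit 0x20001100138009e000b000c0000400000000000000000) (nat_lit 0x0) (nat_lit 0x10000e00040000000000000000000000000000000000) := T_5 (nat_lit 155) (nat_lit 172) (nat_lit 5) (nat_lit 3) (nat_lit 6) L44780 (by decide +kernel)
theorem L44782 : W_5 (nat_lit 4) (nat_lit 0x20001100138009e0009000c0000400000000000000000) (nat_lit 0x0) (nat_lit 0x10000e00040000000600000000000000000000000000) := T_5 (nat_lit 105) (nat_lit 106) (nat_lit 2) (nat_lit 2) (nat_lit 6) L44781 (by decide +kernel)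
theorem L44783 : W_5 (nat_lit 5) (nat_lit 0x20001100138009e000900040000400000000000000000) (nat_lit 0x0) (nat_lit 0x10000e00040000000600080004000000000000000000) := T_5 (nat_lit 91) (nat_lit 74) (nat_lit 6) (nat_lit 5) (nat_lit 8) L44782 (by decide +kernel)
theorem L44784 : W_5 (nat_lit 6) (nat_lit 0x20001000138009e000900040000400000000000000000) (nat_lit 0x0) (nat_lit 0x30001e00040000000600080004000000000000000000) := T_5 (nat_lit 156) (nat_lit 173) (nat_lit 4) (nat_lit 3) (nat_lit 10) L44783 (by decide +kernel)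
theorem L44785 : W_5 (nat_lit 7) (nat_lit 0x20001000138009e000900000000400000000000000000) (nat_lit 0x0) (nat_lit 0x30001e000400000006000c0006000000000000000000) := T_5 (nat_lit 90) (nat_lit 73) (nat_lit 5) (nat_lit 5) (nat_lit 4) L44784 (by decide +kernel)
theorem L44786 : W_5 (nat_lit 8) (nat_lit 0x20001000138009e000900000000000000000000000000) (nat_lit 0x0) (nat_lit 0x30001e000400000006000c8006400000000000000000) := T_5 (nat_lit 70) (nat_lit 87) (nat_lit 7) (nat_lit 2) (nat_lit 4) L44785 (by decide +kernel)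
theorem L44787 : W_5 (nat_lit 9) (nat_lit 0x20001000138009e000100000000000000000000000000) (nat_lit 0x0) (nat_lit 0x30001e00040000001e000c8006400000000000000000) := T_5 (nat_lit 107) (nat_lit 108) (nat_lit 2) (nat_lit 2) (nat_lit 7) L44786 (by decide +kernel)
theorem L44788 : W_5 (nat_lit 10) (nat_lit 0x20001000138009e000000000000000000000000000000) (nat_lit 0x0) (nat_lit 0x30001e00040000001f800c8006400000000000000000) := T_5 (nat_lit 104) (nat_lit 103) (nat_lit 0) (nat_lit 5) (nat_lit 7) L44787 (by decide +kernel)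
theorem L44789 : W_5 (nat_lit 11) (nat_lit 0x20001000138009c000000000000000000000000000000) (nat_lit 0x0) (nat_lit 0x30001e00040003001f800c8006400000000000000000) := T_5 (nat_lit 121) (nat_lit 120) (nat_lit 3) (nat_lit 1) (nat_lit 7) L44788 (by decide +kernel)
theorem L44790 : W_5 (nat_lit 2) (nat_lit 0x20001000138009c000000000000000000000000000000) (nat_lit 0x0) (nat_lit 0x40060000000000000000000000000000000) := D_5 (nat_lit 125) (nat_lit 138) (nat_lit 126) (nat_lit 2) (nat_lit 2) (nat_lit 8) (nat_lit 1) (nat_lit 7) (nat_lit 7) (by decide +kernel)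
theorem L44791 : W_5 (nat_lit 12) (nat_lit 0x20001000138008c000000000000000000000000000000) (nat_lit 0x0) (nat_lit 0x30001e00040073001f800c8006400000000000000000) := Q_5 (nat_lit 124) (C_5 L44789 (C_5 L44790 (C_5 L42606 N_5))) (by decide +kernel)
theorem L44792 : W_5 (nat_lit 13) (nat_lit 0x20001000130008c000000000000000000000000000000) (nat_lit 0x0) (nat_lit 0xe00074001e000f0073803fc00dc006e00000000000000000) := Q_5 (nat_lit 139) (C_5 L44737 (C_5 L43894 (C_5 L44777 (C_5 L43888 (C_5 L44779 (C_5 L44791 N_5)))))) (by decide +kernel)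
theorem L44793 : W_5 (nat_lit 2) (nat_lit 0x2100118013c009c000000000000000000000000000000) (nat_lit 0x0) (nat_lit 0x20000000000000000400020000000000000000000000) := D_5 (nat_lit 106) (nat_lit 89) (nat_lit 173) (nat_lit 5) (nat_lit 4) (nat_lit 5) (nat_lit 6) (nat_lit 3) (nat_lit 10) (by decide +kernel)
theorem L44794 : W_5 (nat_lit 3) (nat_lit 0x2100108013c009c000000000000000000000000000000) (nat_lit 0x0) (nat_lit 0x20001000000000000600020000000000000000000000) := T_5 (nat_lit 156) (nat_lit 105) (nat_lit 5) (nat_lit 3) (nat_lit 6) L44793 (by decide +kernel)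
theorem L44795 : W_5 (nat_lit 4) (nat_lit 0x2000108013c009c000000000000000000000000000000) (nat_lit 0x0) (nat_lit 0x200030001000000000000600020000000000000000000000) := T_5 (nat_lit 172) (nat_lit 189) (nat_lit 6) (nat_lit 2) (nat_lit 11) L44794 (by decide +kernel)
theorem L44796 : W_5 (nat_lit 5) (nat_lit 0x2000100013c009c000000000000000000000000000000) (nat_lit 0x0) (nat_lit 0x200030001c00000000000600020000000000000000000000) := T_5 (nat_lit 155) (nat_lit 154) (nat_lit 1) (nat_lit 5) (nat_lit 8) L44795 (by decide +kernel)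
theorem L44797 : W_5 (nat_lit 6) (nat_lit 0x20001000138009c000000000000000000000000000000) (nat_lit 0x0) (nat_lit 0x200030001c00060000000600020000000000000000000000) := T_5 (nat_lit 138) (nat_lit 137) (nat_lit 2) (nat_lit 1) (nat_lit 8) L44796 (by decide +kernel)
theorem L44798 : W_5 (nat_lit 2) (nat_lit 0x20001000138009c000400000000000000000000000000) (nat_lit 0x0) (nat_lit 0x1000000000000000020001000000000000000000) := D_5 (nat_lit 89) (nat_lit 156) (nat_lit 72) (nat_lit 5) (nat_lit 4) (nat_lit 5) (nat_lit 7) (nat_lit 4) (nat_lit 4) (by decide +kernel)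
theorem L44799 : W_5 (nat_lit 2) (nat_lit 0x2000100013800bc0006000e0000000000000000000000) (nat_lit 0x0) (nat_lit 0x3000000004000000000000000000) := D_5 (nat_lit 108) (nat_lit 109) (nat_lit 74) (nat_lit 2) (nat_lit 3) (nat_lit 7) (nat_lit 5) (nat_lit 6) (nat_lit 4) (by decide +kernel)
theorem L44800 : W_5 (nat_lit 3) (nat_lit 0x2000100013800bc000600060000000000000000000000) (nat_lit 0x0) (nat_lit 0x3000180004000000000000000000) := T_5 (nat_lit 91) (nat_lit 92) (nat_lit 1) (nat_lit 7) (nat_lit 5) L44799 (by decide +kernel)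
theorem L44801 : W_5 (nat_lit 4) (nat_lit 0x2000100013800bc000600020000000000000000000000) (nat_lit 0x0) (nat_lit 0x30001c0006000000000000000000) := T_5 (nat_lit 90) (nat_lit 73) (nat_lit 6) (nat_lit 4) (nat_lit 8) L44800 (by decide +kernel)
theorem L44802 : W_5 (nat_lit 5) (nat_lit 0x2000100013800bc000400020000000000000000000000) (nat_lit 0x0) (nat_lit 0x33001c0006000000000000000000) := T_5 (nat_lit 105) (nat_lit 104) (nat_lit 0) (nat_lit 6) (nat_lit 7) L44801 (by decide +kernel)
theorem L44803 : W_5 (nat_lit 6) (nat_lit 0x2000100013800bc000400000000000000000000000000) (nat_lit 0x0) (nat_lit 0x33001e0007000000000000000000) := T_5 (nat_lit 89) (nat_lit 72) (nat_lit 7) (nat_lit 4) (nat_lit 4) L44802 (by decide +kernel)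
theorem L44804 : W_5 (nat_lit 7) (nat_lit 0x20001000138009c000400000000000000000000000000) (nat_lit 0x0) (nat_lit 0x600033001e0007000000000000000000) := T_5 (nat_lit 125) (nat_lit 126) (nat_lit 1) (nat_lit 7) (nat_lit 7) L44803 (by decide +kernel)
theorem L44805 : W_5 (nat_lit 2) (nat_lit 0x220010001b800dc002400100000000000000000000000) (nat_lit 0x0) (nat_lit 0x2000100008000000000000000000000000000000000000000) := D_5 (nat_lit 176) (nat_lit 193) (nat_lit 159) (nat_lit 5) (nat_lit 7) (nat_lit 7) (nat_lit 5) (nat_lit 7) (nat_lit 6) (by decide +kernel)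
theorem L44806 : W_5 (nat_lit 3) (nat_lit 0x2200100013800dc002400100000000000000000000000) (nat_lit 0x0) (nat_lit 0x2000100028000800000000000000000000000000000000000) := T_5 (nat_lit 143) (nat_lit 161) (nat_lit 7) (nat_lit 7) (nat_lit 5) L44805 (by decide +kernel)
theorem L44807 : W_5 (nat_lit 4) (nat_lit 0x2200100013800dc002400000000000000000000000000) (nat_lit 0x0) (nat_lit 0x2000100028000800000000000100008000000000000000000) := T_5 (nat_lit 92) (nat_lit 75) (nat_lit 7) (nat_lit 7) (nat_lit 4) L44806 (by decide +kernel)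
theorem L44808 : W_5 (nat_lit 5) (nat_lit 0x2000100013800dc002400000000000000000000000000) (nat_lit 0x0) (nat_lit 0x2000120029000800000000000100008000000000000000000) := T_5 (nat_lit 173) (nat_lit 156) (nat_lit 6) (nat_lit 3) (nat_lit 10) L44807 (by decide +kernel)
theorem L44809 : W_5 (nat_lit 6) (nat_lit 0x20001000138009c002400000000000000000000000000) (nat_lit 0x0) (nat_lit 0x2000120029000800060000000100008000000000000000000) := T_5 (nat_lit 126) (nat_lit 125) (nat_lit 1) (nat_lit 7) (nat_lit 7) L44808 (by decide +kernel)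
theorem L44810 : W_5 (nat_lit 2) (nat_lit 0x20001000138009c002400000000000000000000000000) (nat_lit 0x0) (nat_lit 0x60001000000000000000000000000000) := D_5 (nat_lit 125) (nat_lit 126) (nat_lit 108) (nat_lit 1) (nat_lit 7) (nat_lit 7) (nat_lit 2) (nat_lit 3) (nat_lit 7) (by decide +kernel)
theorem L44811 : W_5 (nat_lit 2) (nat_lit 0x220010001b800dc002c001c0000000000000000000000) (nat_lit 0x0) (nat_lit 0x2000100008000000000000000000000000000000000000000) := D_5 (nat_lit 176) (nat_lit 159) (nat_lit 193) (nat_lit 5) (nat_lit 7) (nat_lit 6) (nat_lit 5) (nat_lit 7) (nat_lit 7) (by decide +kernel)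
theorem L44812 : W_5 (nat_lit 3) (nat_lit 0x2200100013800dc002c001c0000000000000000000000) (nat_lit 0x0) (nat_lit 0x2000100028000800000000000000000000000000000000000) := T_5 (nat_lit 143) (nat_lit 161) (nat_lit 7) (nat_lit 7) (nat_lit 5) L44811 (by decide +kernel)
theorem L44813 : W_5 (nat_lit 4) (nat_lit 0x22001000138009c002c001c0000000000000000000000) (nat_lit 0x0) (nat_lit 0x2000100028000800040000000000008000000000000000000) := T_5 (nat_lit 126) (nat_lit 75) (nat_lit 7) (nat_lit 7) (nat_lit 4) L44812 (by decide +kernel)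
theorem L44814 : W_5 (nat_lit 5) (nat_lit 0x22001000138009c002c000c0000000000000000000000) (nat_lit 0x0) (nat_lit 0x2000100028000800040000000300008000000000000000000) := T_5 (nat_lit 92) (nat_lit 93) (nat_lit 1) (nat_lit 8) (nat_lit 5) L44813 (by decide +kernel)
theorem L44815 : W_5 (nat_lit 6) (nat_lit 0x22001000138009c002c00040000000000000000000000) (nat_lit 0x0) (nat_lit 0x200010002800080004000000038000c000000000000000000) := T_5 (nat_lit 91) (nat_lit 74) (nat_lit 6) (nat_lit 5) (nat_lit 8) L44814 (by decide +kernel)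
theorem L44816 : W_5 (nat_lit 7) (nat_lit 0x22001000138009c002c00000000000000000000000000) (nat_lit 0x0) (nat_lit 0x20001000280008000400000003c000e000000000000000000) := T_5 (nat_lit 90) (nat_lit 73) (nat_lit 5) (nat_lit 5) (nat_lit 4) L44815 (by decide +kernel)
theorem L44817 : W_5 (nat_lit 8) (nat_lit 0x22001000138009c002400000000000000000000000000) (nat_lit 0x0) (nat_lit 0x20001000280008000400018003c000e000000000000000000) := T_5 (nat_lit 107) (nat_lit 108) (nat_lit 1) (nat_lit 7) (nat_lit 6) L44816 (by decide +kernel)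
theorem L44818 : W_5 (nat_lit 9) (nat_lit 0x20001000138009c002400000000000000000000000000) (nat_lit 0x0) (nat_lit 0x20001200290008000400018003c000e000000000000000000) := T_5 (nat_lit 173) (nat_lit 156) (nat_lit 6) (nat_lit 3) (nat_lit 10) L44817 (by decide +kernel)
theorem L44819 : W_5 (nat_lit 2) (nat_lit 0x20001000138009c002400000000000000000000000000) (nat_lit 0x0) (nat_lit 0x20001800000000000000000000000000) := D_5 (nat_lit 108) (nat_lit 107) (nat_lit 125) (nat_lit 1) (nat_lit 7) (nat_lit 6) (nat_lit 2) (nat_lit 3) (nat_lit 7) (by decide +kernel)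
theorem L44820 : W_5 (nat_lit 10) (nat_lit 0x20001000138009c000400000000000000000000000000) (nat_lit 0x0) (nat_lit 0x20001200290008000600038003c000e000000000000000000) := Q_5 (nat_lit 109) (C_5 L44809 (C_5 L44810 (C_5 L44818 (C_5 L44819 N_5)))) (by decide +kernel)
theorem L44821 : W_5 (nat_lit 11) (nat_lit 0x20001000138009c000000000000000000000000000000) (nat_lit 0x0) (nat_lit 0x2000120029000800060003f003e000f000000000000000000) := Q_5 (nat_lit 106) (C_5 L44798 (C_5 L44804 (C_5 L44820 N_5))) (by decide +kernel)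
theorem L44822 : W_5 (nat_lit 12) (nat_lit 0x20001000130009c000000000000000000000000000000) (nat_lit 0x0) (nat_lit 0x2200130029c008e0060003f003e000f000000000000000000) := Q_5 (nat_lit 139) (C_5 L44797 (C_5 L44821 (C_5 L44790 N_5))) (by decide +kernel)
theorem L44823 : W_5 (nat_lit 2) (nat_lit 0x20001080134009e000b000e0000000000000000000000) (nat_lit 0x0) (nat_lit 0x8000400080000000000000000000000000000000000) := D_5 (nat_lit 154) (nat_lit 139) (nat_lit 171) (nat_lit 1) (nat_lit 5) (nat_lit 8) (nat_lit 5) (nat_lit 2) (nat_lit 6) (by decide +kernel)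
theorem L44824 : W_5 (nat_lit 3) (nat_lit 0x20001000134009e000b000e0000000000000000000000) (nat_lit 0x0) (nat_lit 0x18000c00080000000000000000000000000000000000) := T_5 (nat_lit 155) (nat_lit 172) (nat_lit 6) (nat_lit 2) (nat_lit 10) L44823 (by decide +kernel)
theorem L44825 : W_5 (nat_lit 4) (nat_lit 0x20001000134009e0009000e0000000000000000000000) (nat_lit 0x0) (nat_lit 0x18000c00080000000600000000000000000000000000) := T_5 (nat_lit 105) (nat_lit 106) (nat_lit 2) (nat_lit 2) (nat_lit 6) L44824 (by decide +kernel)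
theorem L44826 : W_5 (nat_lit 5) (nat_lit 0x20001000134009e000900060000000000000000000000) (nat_lit 0x0) (nat_lit 0x18000c00080000000600080004000000000000000000) := T_5 (nat_lit 91) (nat_lit 74) (nat_lit 6) (nat_lit 5) (nat_lit 8) L44825 (by decide +kernel)
theorem L44827 : W_5 (nat_lit 6) (nat_lit 0x20001000134009e000900040000000000000000000000) (nat_lit 0x0) (nat_lit 0x18000c000800000006000a0005000000000000000000) := T_5 (nat_lit 89) (nat_lit 72) (nat_lit 4) (nat_lit 5) (nat_lit 8) L44826 (by decide +kernel)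
theorem L44828 : W_5 (nat_lit 7) (nat_lit 0x20001000134009e000900000000000000000000000000) (nat_lit 0x0) (nat_lit 0x18000c000800000006000e0007000000000000000000) := T_5 (nat_lit 90) (nat_lit 73) (nat_lit 5) (nat_lit 5) (nat_lit 4) L44827 (by decide +kernel)
theorem L44829 : W_5 (nat_lit 8) (nat_lit 0x20001000130009e000900000000000000000000000000) (nat_lit 0x0) (nat_lit 0x18000c000e00000006000e0007000000000000000000) := T_5 (nat_lit 138) (nat_lit 137) (nat_lit 1) (nat_lit 5) (nat_lit 7) L44828 (by decide +kernel)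
theorem L44830 : W_5 (nat_lit 9) (nat_lit 0x20001000130009e000100000000000000000000000000) (nat_lit 0x0) (nat_lit 0x18000c000e0000001e000e0007000000000000000000) := T_5 (nat_lit 107) (nat_lit 108) (nat_lit 2) (nat_lit 2) (nat_lit 7) L44829 (by decide +kernel)
theorem L44831 : W_5 (nat_lit 10) (nat_lit 0x20001000130009e000000000000000000000000000000) (nat_lit 0x0) (nat_lit 0x18000c000e0000001f800e0007000000000000000000) := T_5 (nat_lit 104) (nat_lit 103) (nat_lit 0) (nat_lit 5) (nat_lit 7) L44830 (by decide +kernel)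
theorem L44832 : W_5 (nat_lit 11) (nat_lit 0x20001000130009c000000000000000000000000000000) (nat_lit 0x0) (nat_lit 0x18000c000e0003001f800e0007000000000000000000) := T_5 (nat_lit 121) (nat_lit 120) (nat_lit 3) (nat_lit 1) (nat_lit 7) L44831 (by decide +kernel)
theorem L44833 : W_5 (nat_lit 13) (nat_lit 0x20001000130008c000000000000000000000000000000) (nat_lit 0x0) (nat_lit 0x2200138029c008e0073003f803e000f000000000000000000) := Q_5 (nat_lit 124) (C_5 L44822 (C_5 L43833 (C_5 L44832 (C_5 L43782 N_5)))) (by decide +kernel)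
theorem L44834 : W_5 (nat_lit 10) (nat_lit 0x20001000130009c000000000000000000000000000000) (nat_lit 0x0) (nat_lit 0x6000300018000c0060000700038001c00000000000000000) := T_5 (nat_lit 125) (nat_lit 126) (nat_lit 1) (nat_lit 8) (nat_lit 7) L44069 (by decide +kernel)
theorem L44835 : W_5 (nat_lit 2) (nat_lit 0x2000108013c009e000100000000400000000000000000) (nat_lit 0x0) (nat_lit 0x10000000000000000200010000000000000000000000) := D_5 (nat_lit 105) (nat_lit 88) (nat_lit 172) (nat_lit 6) (nat_lit 2) (nat_lit 9) (nat_lit 6) (nat_lit 2) (nat_lit 10) (by decide +kernel)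
theorem L44836 : W_5 (nat_lit 3) (nat_lit 0x2000100013c009e000100000000400000000000000000) (nat_lit 0x0) (nat_lit 0x10000c00000000000200010000000000000000000000) := T_5 (nat_lit 155) (nat_lit 154) (nat_lit 1) (nat_lit 5) (nat_lit 8) L44835 (by decide +kernel)
theorem L44837 : W_5 (nat_lit 4) (nat_lit 0x2000100013c009e000100000000000000000000000000) (nat_lit 0x0) (nat_lit 0x10000c00000000000200018000400000000000000000) := T_5 (nat_lit 70) (nat_lit 87) (nat_lit 7) (nat_lit 2) (nat_lit 4) L44836 (by decide +kernel)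
theorem L44838 : W_5 (nat_lit 5) (nat_lit 0x20001000138009e000100000000000000000000000000) (nat_lit 0x0) (nat_lit 0x10000c00060000000200018000400000000000000000) := T_5 (nat_lit 138) (nat_lit 137) (nat_lit 2) (nat_lit 1) (nat_lit 8) L44837 (by decide +kernel)
theorem L44839 : W_5 (nat_lit 6) (nat_lit 0x20001000138009e000000000000000000000000000000) (nat_lit 0x0) (nat_lit 0x10000c00060000000380018000400000000000000000) := T_5 (nat_lit 104) (nat_lit 103) (nat_lit 0) (nat_lit 5) (nat_lit 7) L44838 (by decide +kernel)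
theorem L44840 : W_5 (nat_lit 2) (nat_lit 0x2000108013c009e000000000000000000000000000000) (nat_lit 0x0) (nat_lit 0x10000000000000000200010000000000000000000000) := D_5 (nat_lit 105) (nat_lit 88) (nat_lit 172) (nat_lit 5) (nat_lit 3) (nat_lit 5) (nat_lit 6) (nat_lit 2) (nat_lit 10) (by decide +kernel)
theorem L44841 : W_5 (nat_lit 3) (nat_lit 0x2000100013c009e000000000000000000000000000000) (nat_lit 0x0) (nat_lit 0x10000c00000000000200010000000000000000000000) := T_5 (nat_lit 155) (nat_lit 154) (nat_lit 1) (nat_lit 5) (nat_lit 8) L44840 (by decide +kernel)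
theorem L44842 : W_5 (nat_lit 4) (nat_lit 0x20001000138009e000000000000000000000000000000) (nat_lit 0x0) (nat_lit 0x10000c00060000000200010000000000000000000000) := T_5 (nat_lit 138) (nat_lit 137) (nat_lit 2) (nat_lit 1) (nat_lit 8) L44841 (by decide +kernel)
theorem L44843 : W_5 (nat_lit 7) (nat_lit 0x20001000130009e000000000000000000000000000000) (nat_lit 0x0) (nat_lit 0x30001c000e0000000380018000400000000000000000) := Q_5 (nat_lit 139) (C_5 L43705 (C_5 L43498 (C_5 L44839 (C_5 L44842 N_5)))) (by decide +kernel)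
theorem L44844 : W_5 (nat_lit 2) (nat_lit 0x20001000138009e000c000e0000000000000000000000) (nat_lit 0x0) (nat_lit 0x200300000000000000000000000) := D_5 (nat_lit 92) (nat_lit 93) (nat_lit 105) (nat_lit 1) (nat_lit 8) (nat_lit 5) (nat_lit 1) (nat_lit 7) (nat_lit 5) (by decide +kernel)
theorem L44845 : W_5 (nat_lit 3) (nat_lit 0x20001000138009e000c00060000000000000000000000) (nat_lit 0x0) (nat_lit 0x200380004000000000000000000) := T_5 (nat_lit 91) (nat_lit 74) (nat_lit 6) (nat_lit 5) (nat_lit 8) L44844 (by decide +kernel)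
theorem L44846 : W_5 (nat_lit 2) (nat_lit 0x20001000134009e000b000c0000000000000000000000) (nat_lit 0x0) (nat_lit 0x800000000000000010000800000000000000000) := D_5 (nat_lit 88) (nat_lit 71) (nat_lit 155) (nat_lit 7) (nat_lit 3) (nat_lit 4) (nat_lit 6) (nat_lit 2) (nat_lit 9) (by decide +kernel)
theorem L44847 : W_5 (nat_lit 3) (nat_lit 0x20001000134009e0009000c0000000000000000000000) (nat_lit 0x0) (nat_lit 0x800000000000600010000800000000000000000) := T_5 (nat_lit 105) (nat_lit 106) (nat_lit 2) (nat_lit 2) (nat_lit 6) L44846 (by decide +kernel)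
theorem L44848 : W_5 (nat_lit 4) (nat_lit 0x20001000134009e000900040000000000000000000000) (nat_lit 0x0) (nat_lit 0x800000000000600090004800000000000000000) := T_5 (nat_lit 91) (nat_lit 74) (nat_lit 6) (nat_lit 5) (nat_lit 8) L44847 (by decide +kernel)
theorem L44849 : W_5 (nat_lit 5) (nat_lit 0x20001000134009e000900000000000000000000000000) (nat_lit 0x0) (nat_lit 0x8000000000006000d0006800000000000000000) := T_5 (nat_lit 90) (nat_lit 73) (nat_lit 5) (nat_lit 5) (nat_lit 4) L44848 (by decide +kernel)
theorem L44850 : W_5 (nat_lit 6) (nat_lit 0x20001000130009e000900000000000000000000000000) (nat_lit 0x0) (nat_lit 0x8000600000006000d0006800000000000000000) := T_5 (nat_lit 138) (nat_lit 137) (nat_lit 1) (nat_lit 5) (nat_lit 7) L44849 (by decide +kernel)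
theorem L44851 : W_5 (nat_lit 7) (nat_lit 0x20001000130009e000800000000000000000000000000) (nat_lit 0x0) (nat_lit 0x8000600000007800d0006800000000000000000) := T_5 (nat_lit 104) (nat_lit 103) (nat_lit 0) (nat_lit 5) (nat_lit 7) L44850 (by decide +kernel)
theorem L44852 : W_5 (nat_lit 8) (nat_lit 0x20001000130009c000800000000000000000000000000) (nat_lit 0x0) (nat_lit 0x8000600020017800d0006800000000000000000) := T_5 (nat_lit 121) (nat_lit 108) (nat_lit 2) (nat_lit 2) (nat_lit 7) L44851 (by decide +kernel)
theorem L44853 : W_5 (nat_lit 2) (nat_lit 0x20001000130009c001c00030002000000000000000000) (nat_lit 0x0) (nat_lit 0x20000c000000000000000000000) := D_5 (nat_lit 87) (nat_lit 86) (nat_lit 105) (nat_lit 3) (nat_lit 1) (nat_lit 5) (nat_lit 0) (nat_lit 6) (nat_lit 6) (by decide +kernel)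
theorem L44854 : W_5 (nat_lit 3) (nat_lit 0x20001000130009c001c00020002000000000000000000) (nat_lit 0x0) (nat_lit 0x20001c000800000000000000000) := T_5 (nat_lit 88) (nat_lit 71) (nat_lit 4) (nat_lit 4) (nat_lit 8) L44853 (by decide +kernel)
theorem L44855 : W_5 (nat_lit 4) (nat_lit 0x20001000130009c001c00000002000000000000000000) (nat_lit 0x0) (nat_lit 0x20003c001800000000000000000) := T_5 (nat_lit 89) (nat_lit 72) (nat_lit 7) (nat_lit 4) (nat_lit 4) L44854 (by decide +kernel)
theorem L44856 : W_5 (nat_lit 5) (nat_lit 0x20001000130009c001800000002000000000000000000) (nat_lit 0x0) (nat_lit 0x260003c001800000000000000000) := T_5 (nat_lit 106) (nat_lit 109) (nat_lit 1) (nat_lit 7) (nat_lit 6) L44855 (by decide +kernel)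
theorem L44857 : W_5 (nat_lit 6) (nat_lit 0x20001000130009c000800000002000000000000000000) (nat_lit 0x0) (nat_lit 0x200360003c001800000000000000000) := T_5 (nat_lit 108) (nat_lit 121) (nat_lit 2) (nat_lit 2) (nat_lit 7) L44856 (by decide +kernel)
theorem L44858 : W_5 (nat_lit 7) (nat_lit 0x20001000130009c000800000000000000000000000000) (nat_lit 0x0) (nat_lit 0x200360007c003800000000000000000) := T_5 (nat_lit 73) (nat_lit 90) (nat_lit 5) (nat_lit 5) (nat_lit 4) L44857 (by decide +kernel)
theorem L44859 : W_5 (nat_lit 8) (nat_lit 0x20001000130009e000800000000000000000000000000) (nat_lit 0x0) (nat_lit 0x600000003800f8007c00000000000000000) := T_5 (nat_lit 104) (nat_lit 103) (nat_lit 0) (nat_lit 5) (nat_lit 7) L44057 (by decide +kernel)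
theorem L44860 : W_5 (nat_lit 9) (nat_lit 0x20001000130009c000800000000000000000000000000) (nat_lit 0x0) (nat_lit 0x600020013800f8007c00000000000000000) := T_5 (nat_lit 121) (nat_lit 108) (nat_lit 2) (nat_lit 2) (nat_lit 7) L44859 (by decide +kernel)
theorem L44861 : W_5 (nat_lit 2) (nat_lit 0x20001000130009c000800020000000000000000000000) (nat_lit 0x0) (nat_lit 0x40003000000000000000000) := D_5 (nat_lit 90) (nat_lit 73) (nat_lit 72) (nat_lit 5) (nat_lit 5) (nat_lit 4) (nat_lit 4) (nat_lit 5) (nat_lit 8) (by decide +kernel)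
theorem L44862 : W_5 (nat_lit 2) (nat_lit 0x2000100013c009c000c00034000000000000000000000) (nat_lit 0x0) (nat_lit 0xc00000000000200000000000000000000000000) := D_5 (nat_lit 155) (nat_lit 105) (nat_lit 154) (nat_lit 5) (nat_lit 3) (nat_lit 5) (nat_lit 1) (nat_lit 5) (nat_lit 8) (by decide +kernel)
theorem L44863 : W_5 (nat_lit 3) (nat_lit 0x20001000138009c000c00034000000000000000000000) (nat_lit 0x0) (nat_lit 0xc00060000000200000000000000000000000000) := T_5 (nat_lit 138) (nat_lit 137) (nat_lit 2) (nat_lit 1) (nat_lit 8) L44862 (by decide +kernel)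
theorem L44864 : W_5 (nat_lit 4) (nat_lit 0x20001000130009c000c00034000000000000000000000) (nat_lit 0x0) (nat_lit 0x1c000e0000000200000000000000000000000000) := T_5 (nat_lit 139) (nat_lit 156) (nat_lit 5) (nat_lit 4) (nat_lit 5) L44863 (by decide +kernel)
theorem L44865 : W_5 (nat_lit 5) (nat_lit 0x20001000130009c000c00030000000000000000000000) (nat_lit 0x0) (nat_lit 0x1c000e000000020000c000000000000000000000) := T_5 (nat_lit 86) (nat_lit 87) (nat_lit 3) (nat_lit 1) (nat_lit 5) L44864 (by decide +kernel)
theorem L44866 : W_5 (nat_lit 6) (nat_lit 0x20001000130009c000c00020000000000000000000000) (nat_lit 0x0) (nat_lit 0x1c000e000000020001c000800000000000000000) := T_5 (nat_lit 88) (nat_lit 71) (nat_lit 4) (nat_lit 4) (nat_lit 8) L44865 (by decide +kernel)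
theorem L44867 : W_5 (nat_lit 7) (nat_lit 0x20001000130009c000800020000000000000000000000) (nat_lit 0x0) (nat_lit 0x1c000e000000060001c001800000000000000000) := T_5 (nat_lit 106) (nat_lit 72) (nat_lit 7) (nat_lit 4) (nat_lit 4) L44866 (by decide +kernel)
theorem L44868 : W_5 (nat_lit 2) (nat_lit 0x20001000130009c000c000f4000000000000000000000) (nat_lit 0x0) (nat_lit 0x300100000000000000000000000) := D_5 (nat_lit 105) (nat_lit 104) (nat_lit 92) (nat_lit 2) (nat_lit 2) (nat_lit 6) (nat_lit 1) (nat_lit 7) (nat_lit 5) (by decide +kernel)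
theorem L44869 : W_5 (nat_lit 3) (nat_lit 0x20001000130009c000c00074000000000000000000000) (nat_lit 0x0) (nat_lit 0x300180004000000000000000000) := T_5 (nat_lit 91) (nat_lit 74) (nat_lit 6) (nat_lit 5) (nat_lit 8) L44868 (by decide +kernel)
theorem L44870 : W_5 (nat_lit 4) (nat_lit 0x20001000130009c000c00070000000000000000000000) (nat_lit 0x0) (nat_lit 0x30018c004000000000000000000) := T_5 (nat_lit 86) (nat_lit 87) (nat_lit 3) (nat_lit 1) (nat_lit 5) L44869 (by decide +kernel)
theorem L44871 : W_5 (nat_lit 5) (nat_lit 0x20001000130009c000c00060000000000000000000000) (nat_lit 0x0) (nat_lit 0x30019c004800000000000000000) := T_5 (nat_lit 88) (nat_lit 71) (nat_lit 4) (nat_lit 4) (nat_lit 8) L44870 (by decide +kernel)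
theorem L44872 : W_5 (nat_lit 6) (nat_lit 0x20001000130009c000c00020000000000000000000000) (nat_lit 0x0) (nat_lit 0x3001dc006800000000000000000) := T_5 (nat_lit 90) (nat_lit 73) (nat_lit 6) (nat_lit 4) (nat_lit 8) L44871 (by decide +kernel)
theorem L44873 : W_5 (nat_lit 2) (nat_lit 0x2000100013a009c000c000f8000400000000000000000) (nat_lit 0x0) (nat_lit 0x2000180000000000000000000000000) := D_5 (nat_lit 104) (nat_lit 103) (nat_lit 121) (nat_lit 1) (nat_lit 5) (nat_lit 5) (nat_lit 7) (nat_lit 2) (nat_lit 4) (by decide +kernel)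
theorem L44874 : W_5 (nat_lit 3) (nat_lit 0x2000100013a009c000c000f8000000000000000000000) (nat_lit 0x0) (nat_lit 0x2000180000000600000000000000000) := T_5 (nat_lit 70) (nat_lit 69) (nat_lit 0) (nat_lit 5) (nat_lit 5) L44873 (by decide +kernel)
theorem L44875 : W_5 (nat_lit 4) (nat_lit 0x2000100013a009c000c00078000000000000000000000) (nat_lit 0x0) (nat_lit 0x2000180080004600000000000000000) := T_5 (nat_lit 91) (nat_lit 74) (nat_lit 6) (nat_lit 5) (nat_lit 8) L44874 (by decide +kernel)
theorem L44876 : W_5 (nat_lit 5) (nat_lit 0x2000100013a009c000c00070000000000000000000000) (nat_lit 0x0) (nat_lit 0x200018008c004600000000000000000) := T_5 (nat_lit 87) (nat_lit 86) (nat_lit 3) (nat_lit 1) (nat_lit 5) L44875 (by decide +kernel)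
theorem L44877 : W_5 (nat_lit 6) (nat_lit 0x2000100013a009c000c00060000000000000000000000) (nat_lit 0x0) (nat_lit 0x200018009c004e00000000000000000) := T_5 (nat_lit 88) (nat_lit 71) (nat_lit 4) (nat_lit 4) (nat_lit 8) L44876 (by decide +kernel)
theorem L44878 : W_5 (nat_lit 7) (nat_lit 0x2000100013a009c000c00020000000000000000000000) (nat_lit 0x0) (nat_lit 0x20001800dc006e00000000000000000) := T_5 (nat_lit 90) (nat_lit 73) (nat_lit 6) (nat_lit 4) (nat_lit 8) L44877 (by decide +kernel)
theorem L44879 : W_5 (nat_lit 8) (nat_lit 0x20001000138009c000c00020000000000000000000000) (nat_lit 0x0) (nat_lit 0x600020001800dc006e00000000000000000) := T_5 (nat_lit 137) (nat_lit 138) (nat_lit 2) (nat_lit 1) (nat_lit 8) L44878 (by decide +kernel)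
theorem L44880 : W_5 (nat_lit 9) (nat_lit 0x20001000130009c000c00020000000000000000000000) (nat_lit 0x0) (nat_lit 0x10000e00020001800dc006e00000000000000000) := T_5 (nat_lit 139) (nat_lit 156) (nat_lit 5) (nat_lit 4) (nat_lit 5) L44879 (by decide +kernel)
theorem L44881 : W_5 (nat_lit 2) (nat_lit 0x2000100013a009c000c000e0000000000000000000000) (nat_lit 0x0) (nat_lit 0x300100000000000000000000000) := D_5 (nat_lit 105) (nat_lit 104) (nat_lit 92) (nat_lit 2) (nat_lit 2) (nat_lit 6) (nat_lit 1) (nat_lit 7) (nat_lit 5) (by decide +kernel)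
theorem L44882 : W_5 (nat_lit 3) (nat_lit 0x2000100013a009c000c00060000000000000000000000) (nat_lit 0x0) (nat_lit 0x300180004000000000000000000) := T_5 (nat_lit 91) (nat_lit 74) (nat_lit 6) (nat_lit 5) (nat_lit 8) L44881 (by decide +kernel)
theorem L44883 : W_5 (nat_lit 4) (nat_lit 0x2000100013a009c000c00020000000000000000000000) (nat_lit 0x0) (nat_lit 0x3001c0006000000000000000000) := T_5 (nat_lit 90) (nat_lit 73) (nat_lit 6) (nat_lit 4) (nat_lit 8) L44882 (by decide +kernel)
theorem L44884 : W_5 (nat_lit 5) (nat_lit 0x20001000138009c000c00020000000000000000000000) (nat_lit 0x0) (nat_lit 0x600000003001c0006000000000000000000) := T_5 (nat_lit 137) (nat_lit 138) (nat_lit 2) (nat_lit 1) (nat_lit 8) L44883 (by decide +kernel)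
theorem L44885 : W_5 (nat_lit 6) (nat_lit 0x20001000130009c000c00020000000000000000000000) (nat_lit 0x0) (nat_lit 0x10000e00000003001c0006000000000000000000) := T_5 (nat_lit 139) (nat_lit 156) (nat_lit 5) (nat_lit 4) (nat_lit 5) L44884 (by decide +kernel)
theorem L44886 : W_5 (nat_lit 10) (nat_lit 0x20001000130009c000800020000000000000000000000) (nat_lit 0x0) (nat_lit 0x1c000e00020007801dc006e00000000000000000) := Q_5 (nat_lit 106) (C_5 L44872 (C_5 L44880 (C_5 L44866 (C_5 L44885 N_5)))) (by decide +kernel)
theorem L44887 : W_5 (nat_lit 11) (nat_lit 0x20001000130009c000800000000000000000000000000) (nat_lit 0x0) (nat_lit 0x1c000e00020007801fc007e00000000000000000) := Q_5 (nat_lit 89) (C_5 L44861 (C_5 L44867 (C_5 L44886 N_5))) (by decide +kernel)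
theorem L44888 : W_5 (nat_lit 8) (nat_lit 0x20001000130009c000c00000000000000000000000000) (nat_lit 0x0) (nat_lit 0x20001000280008000400030003c000e000000000000000000) := T_5 (nat_lit 90) (nat_lit 73) (nat_lit 5) (nat_lit 5) (nat_lit 4) L43756 (by decide +kernel)
theorem L44889 : W_5 (nat_lit 2) (nat_lit 0x20001000130009c000e000c0001000000000000000000) (nat_lit 0x0) (nat_lit 0x1000300000000000000000000000) := D_5 (nat_lit 92) (nat_lit 93) (nat_lit 108) (nat_lit 1) (nat_lit 8) (nat_lit 5) (nat_lit 2) (nat_lit 3) (nat_lit 6) (by decide +kernel)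
theorem L44890 : W_5 (nat_lit 3) (nat_lit 0x20001000130009c000c000c0001000000000000000000) (nat_lit 0x0) (nat_lit 0x1300300000000000000000000000) := T_5 (nat_lit 105) (nat_lit 104) (nat_lit 2) (nat_lit 2) (nat_lit 6) L44889 (by decide +kernel)
theorem L44891 : W_5 (nat_lit 4) (nat_lit 0x20001000130009c000c00040001000000000000000000) (nat_lit 0x0) (nat_lit 0x1300380004000000000000000000) := T_5 (nat_lit 91) (nat_lit 74) (nat_lit 6) (nat_lit 5) (nat_lit 8) L44890 (by decide +kernel)
theorem L44892 : W_5 (nat_lit 5) (nat_lit 0x20001000130009c000c00000001000000000000000000) (nat_lit 0x0) (nat_lit 0x13003c0006000000000000000000) := T_5 (nat_lit 90) (nat_lit 73) (nat_lit 5) (nat_lit 5) (nat_lit 4) L44891 (by decide +kernel)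
theorem L44893 : W_5 (nat_lit 6) (nat_lit 0x20001000130009c000c00000000000000000000000000) (nat_lit 0x0) (nat_lit 0x13003e0007000000000000000000) := T_5 (nat_lit 72) (nat_lit 89) (nat_lit 7) (nat_lit 4) (nat_lit 4) L44892 (by decide +kernel)
theorem L44894 : W_5 (nat_lit 2) (nat_lit 0x2000100013c009c000c00034002000000000000000000) (nat_lit 0x0) (nat_lit 0xc00000000000200000000000000000000000000) := D_5 (nat_lit 155) (nat_lit 105) (nat_lit 154) (nat_lit 5) (nat_lit 3) (nat_lit 5) (nat_lit 1) (nat_lit 5) (nat_lit 8) (by decide +kernel)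
theorem L44895 : W_5 (nat_lit 3) (nat_lit 0x20001000138009c000c00034002000000000000000000) (nat_lit 0x0) (nat_lit 0xc00060000000200000000000000000000000000) := T_5 (nat_lit 138) (nat_lit 137) (nat_lit 2) (nat_lit 1) (nat_lit 8) L44894 (by decide +kernel)
theorem L44896 : W_5 (nat_lit 4) (nat_lit 0x20001000130009c000c00034002000000000000000000) (nat_lit 0x0) (nat_lit 0x1c000e0000000200000000000000000000000000) := T_5 (nat_lit 139) (nat_lit 156) (nat_lit 5) (nat_lit 4) (nat_lit 5) L44895 (by decide +kernel)
theorem L44897 : W_5 (nat_lit 5) (nat_lit 0x20001000130009c000c00030002000000000000000000) (nat_lit 0x0) (nat_lit 0x1c000e000000020000c000000000000000000000) := T_5 (nat_lit 86) (nat_lit 87) (nat_lit 3) (nat_lit 1) (nat_lit 5) L44896 (by decide +kernel)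
theorem L44898 : W_5 (nat_lit 6) (nat_lit 0x20001000130009c000c00020002000000000000000000) (nat_lit 0x0) (nat_lit 0x1c000e000000020001c000800000000000000000) := T_5 (nat_lit 88) (nat_lit 71) (nat_lit 4) (nat_lit 4) (nat_lit 8) L44897 (by decide +kernel)
theorem L44899 : W_5 (nat_lit 7) (nat_lit 0x20001000130009c000c00000002000000000000000000) (nat_lit 0x0) (nat_lit 0x1c000e000000020003c001800000000000000000) := T_5 (nat_lit 89) (nat_lit 72) (nat_lit 7) (nat_lit 4) (nat_lit 4) L44898 (by decide +kernel)
theorem L44900 : W_5 (nat_lit 8) (nat_lit 0x20001000130009c000c00000000000000000000000000) (nat_lit 0x0) (nat_lit 0x1c000e000000020007c003800000000000000000) := T_5 (nat_lit 73) (nat_lit 90) (nat_lit 5) (nat_lit 5) (nat_lit 4) L44899 (by decide +kernel)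
theorem L44901 : W_5 (nat_lit 7) (nat_lit 0x20001000130009c000c00000000000000000000000000) (nat_lit 0x0) (nat_lit 0x1c000e000000020003c001800000000000000000) := T_5 (nat_lit 89) (nat_lit 72) (nat_lit 7) (nat_lit 4) (nat_lit 4) L44866 (by decide +kernel)
theorem L44902 : W_5 (nat_lit 9) (nat_lit 0x20001000130009c000800000000000000000000000000) (nat_lit 0x0) (nat_lit 0x2000100029c008e00400037003fc00f800000000000000000) := Q_5 (nat_lit 106) (C_5 L44888 (C_5 L44893 (C_5 L44900 (C_5 L44901 N_5)))) (by decide +kernel)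
theorem L44903 : W_5 (nat_lit 2) (nat_lit 0x20001000130009c0038000c0000000000000000000000) (nat_lit 0x0) (nat_lit 0x30001000000000000000000) := D_5 (nat_lit 89) (nat_lit 72) (nat_lit 88) (nat_lit 4) (nat_lit 5) (nat_lit 8) (nat_lit 3) (nat_lit 3) (nat_lit 5) (by decide +kernel)
theorem L44904 : W_5 (nat_lit 3) (nat_lit 0x20001000130009c0018000c0000000000000000000000) (nat_lit 0x0) (nat_lit 0x2400030001000000000000000000) := T_5 (nat_lit 109) (nat_lit 106) (nat_lit 1) (nat_lit 7) (nat_lit 6) L44903 (by decide +kernel)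
theorem L44905 : W_5 (nat_lit 4) (nat_lit 0x20001000130009c001800040000000000000000000000) (nat_lit 0x0) (nat_lit 0x24000b0005000000000000000000) := T_5 (nat_lit 91) (nat_lit 74) (nat_lit 6) (nat_lit 5) (nat_lit 8) L44904 (by decide +kernel)
theorem L44906 : W_5 (nat_lit 5) (nat_lit 0x20001000130009c000800040000000000000000000000) (nat_lit 0x0) (nat_lit 0x20034000b0005000000000000000000) := T_5 (nat_lit 108) (nat_lit 121) (nat_lit 2) (nat_lit 2) (nat_lit 7) L44905 (by decide +kernel)
theorem L44907 : W_5 (nat_lit 6) (nat_lit 0x20001000130009c000800000000000000000000000000) (nat_lit 0x0) (nat_lit 0x20034000f0007000000000000000000) := T_5 (nat_lit 90) (nat_lit 73) (nat_lit 5) (nat_lit 5) (nat_lit 4) L44906 (by decide +kernel)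
theorem L44908 : W_5 (nat_lit 2) (nat_lit 0x20001000130009c001c00030000000000000000000000) (nat_lit 0x0) (nat_lit 0x20000c000000000000000000000) := D_5 (nat_lit 87) (nat_lit 86) (nat_lit 105) (nat_lit 3) (nat_lit 1) (nat_lit 5) (nat_lit 0) (nat_lit 6) (nat_lit 6) (by decide +kernel)
theorem L44909 : W_5 (nat_lit 3) (nat_lit 0x20001000130009c001c00020000000000000000000000) (nat_lit 0x0) (nat_lit 0x20001c000800000000000000000) := T_5 (nat_lit 88) (nat_lit 71) (nat_lit 4) (nat_lit 4) (nat_lit 8) L44908 (by decide +kernel)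
theorem L44910 : W_5 (nat_lit 4) (nat_lit 0x20001000130009c001c00000000000000000000000000) (nat_lit 0x0) (nat_lit 0x20003c001800000000000000000) := T_5 (nat_lit 89) (nat_lit 72) (nat_lit 7) (nat_lit 4) (nat_lit 4) L44909 (by decide +kernel)
theorem L44911 : W_5 (nat_lit 5) (nat_lit 0x20001000130009c001800000000000000000000000000) (nat_lit 0x0) (nat_lit 0x260003c001800000000000000000) := T_5 (nat_lit 106) (nat_lit 109) (nat_lit 1) (nat_lit 7) (nat_lit 6) L44910 (by decide +kernel)
theorem L44912 : W_5 (nat_lit 6) (nat_lit 0x20001000130009c000800000000000000000000000000) (nat_lit 0x0) (nat_lit 0x200360003c001800000000000000000) := T_5 (nat_lit 108) (nat_lit 121) (nat_lit 2) (nat_lit 2) (nat_lit 7) L44911 (by decide +kernel)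
theorem L44913 : W_5 (nat_lit 9) (nat_lit 0x20001000130009e000800000000000000000000000000) (nat_lit 0x0) (nat_lit 0x18000c000e00000007800e0007000000000000000000) := T_5 (nat_lit 104) (nat_lit 103) (nat_lit 0) (nat_lit 5) (nat_lit 7) L44829 (by decide +kernel)
theorem L44914 : W_5 (nat_lit 10) (nat_lit 0x20001000130009c000800000000000000000000000000) (nat_lit 0x0) (nat_lit 0x18000c000e00020017800e0007000000000000000000) := T_5 (nat_lit 121) (nat_lit 108) (nat_lit 2) (nat_lit 2) (nat_lit 7) L44913 (by decide +kernel)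
theorem L44915 : W_5 (nat_lit 12) (nat_lit 0x20001000130009c000000000000000000000000000000) (nat_lit 0x0) (nat_lit 0x2000118029c008e0042003f803fc00fe00000000000000000) := Q_5 (nat_lit 107) (C_5 L44852 (C_5 L44858 (C_5 L44860 (C_5 L44887 (C_5 L44902 (C_5 L44907 (C_5 L44912 (C_5 L44914 N_5)))))))) (by decide +kernel)
theorem L44916 : W_5 (nat_lit 2) (nat_lit 0x2000100013000be001000000000000000000000000000) (nat_lit 0x0) (nat_lit 0x380000000000000000000000000) := D_5 (nat_lit 104) (nat_lit 103) (nat_lit 105) (nat_lit 0) (nat_lit 5) (nat_lit 7) (nat_lit 0) (nat_lit 6) (nat_lit 7) (by decide +kernel)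
theorem L44917 : W_5 (nat_lit 3) (nat_lit 0x2000100013000bc001000000000000000000000000000) (nat_lit 0x0) (nat_lit 0x2000b80000000000000000000000000) := T_5 (nat_lit 121) (nat_lit 107) (nat_lit 2) (nat_lit 2) (nat_lit 7) L44916 (by decide +kernel)
theorem L44918 : W_5 (nat_lit 4) (nat_lit 0x2000100013000bc000000000000000000000000000000) (nat_lit 0x0) (nat_lit 0x2003b80000000000000000000000000) := T_5 (nat_lit 108) (nat_lit 109) (nat_lit 2) (nat_lit 3) (nat_lit 7) L44917 (by decide +kernel)
theorem L44919 : W_5 (nat_lit 5) (nat_lit 0x20001000130009c000000000000000000000000000000) (nat_lit 0x0) (nat_lit 0x62003b80000000000000000000000000) := T_5 (nat_lit 125) (nat_lit 126) (nat_lit 1) (nat_lit 8) (nat_lit 7) L44918 (by decide +kernel)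
theorem L44920 : W_5 (nat_lit 2) (nat_lit 0x2000100013000be001000000000000000000000000000) (nat_lit 0x0) (nat_lit 0xe0000000000000000000000000000000000) := D_5 (nat_lit 138) (nat_lit 137) (nat_lit 139) (nat_lit 1) (nat_lit 5) (nat_lit 7) (nat_lit 2) (nat_lit 2) (nat_lit 8) (by decide +kernel)
theorem L44921 : W_5 (nat_lit 3) (nat_lit 0x2000100013000bc001000000000000000000000000000) (nat_lit 0x0) (nat_lit 0xe0002000800000000000000000000000000) := T_5 (nat_lit 121) (nat_lit 107) (nat_lit 2) (nat_lit 2) (nat_lit 7) L44920 (by decide +kernel)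
theorem L44922 : W_5 (nat_lit 4) (nat_lit 0x2000100013000bc000000000000000000000000000000) (nat_lit 0x0) (nat_lit 0xe0002003800000000000000000000000000) := T_5 (nat_lit 108) (nat_lit 109) (nat_lit 2) (nat_lit 3) (nat_lit 7) L44921 (by decide +kernel)
theorem L44923 : W_5 (nat_lit 5) (nat_lit 0x20001000130009c000000000000000000000000000000) (nat_lit 0x0) (nat_lit 0xe0062003800000000000000000000000000) := T_5 (nat_lit 125) (nat_lit 126) (nat_lit 1) (nat_lit 8) (nat_lit 7) L44922 (by decide +kernel)
theorem L44924 : W_5 (nat_lit 2) (nat_lit 0x20001000138009c000700018001000000000000000000) (nat_lit 0x0) (nat_lit 0x800006000000000000000000000) := D_5 (nat_lit 86) (nat_lit 85) (nat_lit 107) (nat_lit 3) (nat_lit 0) (nat_lit 5) (nat_lit 0) (nat_lit 5) (nat_lit 6) (by decide +kernel)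
theorem L44925 : W_5 (nat_lit 3) (nat_lit 0x20001000138009c000700010001000000000000000000) (nat_lit 0x0) (nat_lit 0x80000e000400000000000000000) := T_5 (nat_lit 87) (nat_lit 70) (nat_lit 4) (nat_lit 3) (nat_lit 8) L44924 (by decide +kernel)
theorem L44926 : W_5 (nat_lit 4) (nat_lit 0x20001000138009c000700000001000000000000000000) (nat_lit 0x0) (nat_lit 0x80001e000c00000000000000000) := T_5 (nat_lit 88) (nat_lit 71) (nat_lit 7) (nat_lit 3) (nat_lit 4) L44925 (by decide +kernel)
theorem L44927 : W_5 (nat_lit 5) (nat_lit 0x20001000138009c000600000001000000000000000000) (nat_lit 0x0) (nat_lit 0x98001e000c00000000000000000) := T_5 (nat_lit 104) (nat_lit 103) (nat_lit 3) (nat_lit 1) (nat_lit 6) L44926 (by decide +kernel)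
theorem L44928 : W_5 (nat_lit 6) (nat_lit 0x20001000138009c000600000000000000000000000000) (nat_lit 0x0) (nat_lit 0x98003e001c00000000000000000) := T_5 (nat_lit 72) (nat_lit 89) (nat_lit 7) (nat_lit 4) (nat_lit 4) L44927 (by decide +kernel)
theorem L44929 : W_5 (nat_lit 2) (nat_lit 0x20001000138009c000e000e0000800000000000000000) (nat_lit 0x0) (nat_lit 0x2003000000000000000000000000000) := D_5 (nat_lit 108) (nat_lit 121) (nat_lit 109) (nat_lit 2) (nat_lit 2) (nat_lit 7) (nat_lit 1) (nat_lit 7) (nat_lit 6) (by decide +kernel)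
theorem L44930 : W_5 (nat_lit 3) (nat_lit 0x20001000138009c0006000e0000800000000000000000) (nat_lit 0x0) (nat_lit 0x2003800000004000000000000000000) := T_5 (nat_lit 107) (nat_lit 74) (nat_lit 6) (nat_lit 5) (nat_lit 8) L44929 (by decide +kernel)
theorem L44931 : W_5 (nat_lit 4) (nat_lit 0x20001000138009c000600060000800000000000000000) (nat_lit 0x0) (nat_lit 0x2003800180004000000000000000000) := T_5 (nat_lit 91) (nat_lit 92) (nat_lit 1) (nat_lit 7) (nat_lit 5) L44930 (by decide +kernel)
theorem L44932 : W_5 (nat_lit 5) (nat_lit 0x20001000138009c000600020000800000000000000000) (nat_lit 0x0) (nat_lit 0x20038001c0006000000000000000000) := T_5 (nat_lit 90) (nat_lit 73) (nat_lit 6) (nat_lit 4) (nat_lit 8) L44931 (by decide +kernel)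
theorem L44933 : W_5 (nat_lit 6) (nat_lit 0x20001000138009c000600000000800000000000000000) (nat_lit 0x0) (nat_lit 0x20038001e0007000000000000000000) := T_5 (nat_lit 89) (nat_lit 72) (nat_lit 7) (nat_lit 4) (nat_lit 4) L44932 (by decide +kernel)
theorem L44934 : W_5 (nat_lit 7) (nat_lit 0x20001000138009c000600000000000000000000000000) (nat_lit 0x0) (nat_lit 0x20038001f0007800000000000000000) := T_5 (nat_lit 71) (nat_lit 88) (nat_lit 7) (nat_lit 3) (nat_lit 4) L44933 (by decide +kernel)
theorem L44935 : W_5 (nat_lit 2) (nat_lit 0x20001100138009c000000000000000000000000000000) (nat_lit 0x0) (nat_lit 0x400020000000000000000400000000000000000000000000) := D_5 (nat_lit 173) (nat_lit 106) (nat_lit 190) (nat_lit 6) (nat_lit 3) (nat_lit 10) (nat_lit 6) (nat_lit 3) (nat_lit 11) (by decide +kernel)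
theorem L44936 : W_5 (nat_lit 2) (nat_lit 0x27001180138009e000800000002000000000000000000) (nat_lit 0x0) (nat_lit 0x80000600000000000000000000000000000000000000) := D_5 (nat_lit 154) (nat_lit 153) (nat_lit 175) (nat_lit 3) (nat_lit 0) (nat_lit 9) (nat_lit 0) (nat_lit 5) (nat_lit 10) (by decide +kernel)
theorem L44937 : W_5 (nat_lit 3) (nat_lit 0x27001100138009e000800000002000000000000000000) (nat_lit 0x0) (nat_lit 0x80000e00000000000200000000000000000000000000) := T_5 (nat_lit 155) (nat_lit 105) (nat_lit 5) (nat_lit 3) (nat_lit 6) L44936 (by decide +kernel)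
theorem L44938 : W_5 (nat_lit 4) (nat_lit 0x27001100138009e000800000000000000000000000000) (nat_lit 0x0) (nat_lit 0x80000e00000000000200040002000000000000000000) := T_5 (nat_lit 73) (nat_lit 90) (nat_lit 5) (nat_lit 5) (nat_lit 4) L44937 (by decide +kernel)
theorem L44939 : W_5 (nat_lit 5) (nat_lit 0x26001100138009e000800000000000000000000000000) (nat_lit 0x0) (nat_lit 0x200090000e00000000000200040002000000000000000000) := T_5 (nat_lit 172) (nat_lit 189) (nat_lit 5) (nat_lit 3) (nat_lit 7) L44938 (by decide +kernel)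
theorem L44940 : W_5 (nat_lit 6) (nat_lit 0x26001100138009e000000000000000000000000000000) (nat_lit 0x0) (nat_lit 0x200090000e00000000001a00040002000000000000000000) := T_5 (nat_lit 107) (nat_lit 108) (nat_lit 2) (nat_lit 2) (nat_lit 7) L44939 (by decide +kernel)
theorem L44941 : W_5 (nat_lit 7) (nat_lit 0x26001100138009c000000000000000000000000000000) (nat_lit 0x0) (nat_lit 0x200090000e00000002001b00040002000000000000000000) := T_5 (nat_lit 121) (nat_lit 104) (nat_lit 4) (nat_lit 3) (nat_lit 10) L44940 (by decide +kernel)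
theorem L44942 : W_5 (nat_lit 8) (nat_lit 0x22001100138009c000000000000000000000000000000) (nat_lit 0x0) (nat_lit 0xa000d0000e00000002001b00040002000000000000000000) := T_5 (nat_lit 174) (nat_lit 191) (nat_lit 7) (nat_lit 3) (nat_lit 7) L44941 (by decide +kernel)
theorem L44943 : W_5 (nat_lit 9) (nat_lit 0x20001100138009c000000000000000000000000000000) (nat_lit 0x0) (nat_lit 0xe000f0000e00000002001b00040002000000000000000000) := T_5 (nat_lit 173) (nat_lit 190) (nat_lit 6) (nat_lit 3) (nat_lit 11) L44942 (by decide +kernel)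
theorem L44944 : W_5 (nat_lit 2) (nat_lit 0x20001100138009c000200000000000000000000000000) (nat_lit 0x0) (nat_lit 0x20000100008000000000000000000000) := D_5 (nat_lit 104) (nat_lit 125) (nat_lit 87) (nat_lit 0) (nat_lit 6) (nat_lit 7) (nat_lit 4) (nat_lit 3) (nat_lit 9) (by decide +kernel)
theorem L44945 : W_5 (nat_lit 2) (nat_lit 0x20001100138009c000200020000000000000000000000) (nat_lit 0x0) (nat_lit 0x10001800000000000000000) := D_5 (nat_lit 88) (nat_lit 71) (nat_lit 72) (nat_lit 7) (nat_lit 3) (nat_lit 4) (nat_lit 6) (nat_lit 3) (nat_lit 8) (by decide +kernel)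
theorem L44946 : W_5 (nat_lit 3) (nat_lit 0x20001100138009c000200000000000000000000000000) (nat_lit 0x0) (nat_lit 0x400030001800000000000000000) := T_5 (nat_lit 89) (nat_lit 106) (nat_lit 6) (nat_lit 3) (nat_lit 9) L44945 (by decide +kernel)
theorem L44947 : W_5 (nat_lit 4) (nat_lit 0x20001100138009c000000000000000000000000000000) (nat_lit 0x0) (nat_lit 0x20000700038001800000000000000000) := Q_5 (nat_lit 105) (C_5 L44944 (C_5 L44946 N_5)) (by decide +kernel)
theorem L44948 : W_5 (nat_lit 10) (nat_lit 0x20001000138009c000000000000000000000000000000) (nat_lit 0x0) (nat_lit 0xe000f0001e00000022001f00078003800000000000000000) := Q_5 (nat_lit 156) (C_5 L44935 (C_5 L44943 (C_5 L44947 N_5))) (by decide +kernel)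
theorem L44949 : W_5 (nat_lit 11) (nat_lit 0x20001000130009c000000000000000000000000000000) (nat_lit 0x0) (nat_lit 0xe000f0001e000e0022001f00078003800000000000000000) := Q_5 (nat_lit 139) (C_5 L44778 (C_5 L44797 (C_5 L44948 N_5))) (by decide +kernel)
theorem L44950 : W_5 (nat_lit 13) (nat_lit 0x20001000130008c000000000000000000000000000000) (nat_lit 0x0) (nat_lit 0x2e001f8029e008e0072003fc03fe01ff00000000000000000) := Q_5 (nat_lit 124) (C_5 L44822 (C_5 L44834 (C_5 L44040 (C_5 L44915 (C_5 L44051 (C_5 L43776 (C_5 L44919 (C_5 L44923 (C_5 L44949 N_5))))))))) (by decide +kernel)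
theorem L44951 : W_5 (nat_lit 2) (nat_lit 0x2000100013800bc001400078004000000000000000000) (nat_lit 0x0) (nat_lit 0x200000000600000000000000000) := D_5 (nat_lit 70) (nat_lit 69) (nat_lit 105) (nat_lit 0) (nat_lit 5) (nat_lit 5) (nat_lit 4) (nat_lit 3) (nat_lit 8) (by decide +kernel)
theorem L44952 : W_5 (nat_lit 3) (nat_lit 0x2000100013800bc001400070004000000000000000000) (nat_lit 0x0) (nat_lit 0xa00008000600000000000000000) := T_5 (nat_lit 87) (nat_lit 107) (nat_lit 3) (nat_lit 2) (nat_lit 5) L44951 (by decide +kernel)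
theorem L44953 : W_5 (nat_lit 4) (nat_lit 0x2000100013800bc001400060004000000000000000000) (nat_lit 0x0) (nat_lit 0xa00018000e00000000000000000) := T_5 (nat_lit 88) (nat_lit 71) (nat_lit 4) (nat_lit 4) (nat_lit 8) L44952 (by decide +kernel)
theorem L44954 : W_5 (nat_lit 5) (nat_lit 0x2000100013800bc001400020004000000000000000000) (nat_lit 0x0) (nat_lit 0xa00058002e00000000000000000) := T_5 (nat_lit 90) (nat_lit 73) (nat_lit 6) (nat_lit 4) (nat_lit 8) L44953 (by decide +kernel)
theorem L44955 : W_5 (nat_lit 6) (nat_lit 0x2000100013800bc001400020000000000000000000000) (nat_lit 0x0) (nat_lit 0xa000d8006e00000000000000000) := T_5 (nat_lit 74) (nat_lit 91) (nat_lit 5) (nat_lit 6) (nat_lit 4) L44954 (by decide +kernel)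
theorem L44956 : W_5 (nat_lit 7) (nat_lit 0x2000100013800bc000400020000000000000000000000) (nat_lit 0x0) (nat_lit 0x3a000d8006e00000000000000000) := T_5 (nat_lit 108) (nat_lit 109) (nat_lit 2) (nat_lit 3) (nat_lit 7) L44955 (by decide +kernel)
theorem L44957 : W_5 (nat_lit 8) (nat_lit 0x2000100013800bc000400000000000000000000000000) (nat_lit 0x0) (nat_lit 0x3a000f8007e00000000000000000) := T_5 (nat_lit 89) (nat_lit 72) (nat_lit 7) (nat_lit 4) (nat_lit 4) L44956 (by decide +kernel)
theorem L44958 : W_5 (nat_lit 9) (nat_lit 0x20001000138009c000400000000000000000000000000) (nat_lit 0x0) (nat_lit 0x60003a000f8007e00000000000000000) := T_5 (nat_lit 125) (nat_lit 126) (nat_lit 1) (nat_lit 7) (nat_lit 7) L44957 (by decide +kernel)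
theorem L44959 : W_5 (nat_lit 11) (nat_lit 0x20001000138009c000000000000000000000000000000) (nat_lit 0x0) (nat_lit 0x2000120029000800060003e003f800fe00000000000000000) := Q_5 (nat_lit 106) (C_5 L44820 (C_5 L44798 (C_5 L44958 N_5))) (by decide +kernel)
theorem L44960 : W_5 (nat_lit 12) (nat_lit 0x20001000130009c000000000000000000000000000000) (nat_lit 0x0) (nat_lit 0x2200130029c008e0060003e003f800fe00000000000000000) := Q_5 (nat_lit 139) (C_5 L44790 (C_5 L44797 (C_5 L44959 N_5))) (by decide +kernel)
theorem L44961 : W_5 (nat_lit 2) (nat_lit 0x2000108013c009d000200000000000000000000000000) (nat_lit 0x0) (nat_lit 0x200010001000000000000000000000000000000000000000) := D_5 (nat_lit 172) (nat_lit 189) (nat_lit 156) (nat_lit 6) (nat_lit 2) (nat_lit 11) (nat_lit 5) (nat_lit 3) (nat_lit 6) (by decide +kernel)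
theorem L44962 : W_5 (nat_lit 3) (nat_lit 0x2000108013c009d000000000000000000000000000000) (nat_lit 0x0) (nat_lit 0x200010001000000000000200010000000000000000000000) := T_5 (nat_lit 105) (nat_lit 88) (nat_lit 5) (nat_lit 3) (nat_lit 5) L44961 (by decide +kernel)
theorem L44963 : W_5 (nat_lit 4) (nat_lit 0x2000100013c009d000000000000000000000000000000) (nat_lit 0x0) (nat_lit 0x200010001c00000000000200010000000000000000000000) := T_5 (nat_lit 155) (nat_lit 154) (nat_lit 1) (nat_lit 5) (nat_lit 8) L44962 (by decide +kernel)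
theorem L44964 : W_5 (nat_lit 5) (nat_lit 0x20001000138009d000000000000000000000000000000) (nat_lit 0x0) (nat_lit 0x200010001c00060000000200010000000000000000000000) := T_5 (nat_lit 138) (nat_lit 137) (nat_lit 2) (nat_lit 1) (nat_lit 8) L44963 (by decide +kernel)
theorem L44965 : W_5 (nat_lit 6) (nat_lit 0x20001000138009c000000000000000000000000000000) (nat_lit 0x0) (nat_lit 0x200010001c00060003000200010000000000000000000000) := T_5 (nat_lit 120) (nat_lit 121) (nat_lit 3) (nat_lit 1) (nat_lit 7) L44964 (by decide +kernel)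
theorem L44966 : W_5 (nat_lit 4) (nat_lit 0x20001000138009e000800060000000000000000000000) (nat_lit 0x0) (nat_lit 0x1000000000000600380004000000000000000000) := T_5 (nat_lit 106) (nat_lit 156) (nat_lit 5) (nat_lit 4) (nat_lit 5) L44845 (by decide +kernel)
theorem L44967 : W_5 (nat_lit 5) (nat_lit 0x20001000138009e000800040000000000000000000000) (nat_lit 0x0) (nat_lit 0x10000000000006003a0005000000000000000000) := T_5 (nat_lit 89) (nat_lit 72) (nat_lit 4) (nat_lit 5) (nat_lit 8) L44966 (by decide +kernel)
theorem L44968 : W_5 (nat_lit 6) (nat_lit 0x20001000138009e000800000000000000000000000000) (nat_lit 0x0) (nat_lit 0x10000000000006003e0007000000000000000000) := T_5 (nat_lit 90) (nat_lit 73) (nat_lit 5) (nat_lit 5) (nat_lit 4) L44967 (by decide +kernel)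
theorem L44969 : W_5 (nat_lit 7) (nat_lit 0x20001000138009e000000000000000000000000000000) (nat_lit 0x0) (nat_lit 0x1000000000001e003e0007000000000000000000) := T_5 (nat_lit 107) (nat_lit 108) (nat_lit 2) (nat_lit 2) (nat_lit 7) L44968 (by decide +kernel)
theorem L44970 : W_5 (nat_lit 8) (nat_lit 0x20001000138009c000000000000000000000000000000) (nat_lit 0x0) (nat_lit 0x1000000003001e003e0007000000000000000000) := T_5 (nat_lit 121) (nat_lit 120) (nat_lit 3) (nat_lit 1) (nat_lit 7) L44969 (by decide +kernel)
theorem L44971 : W_5 (nat_lit 5) (nat_lit 0x20001000138009c000000000000000000000000000000) (nat_lit 0x0) (nat_lit 0x10000c00060003000200010000000000000000000000) := T_5 (nat_lit 121) (nat_lit 120) (nat_lit 3) (nat_lit 1) (nat_lit 7) L44842 (by decide +kernel)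
theorem L44972 : W_5 (nat_lit 2) (nat_lit 0x2000100013a009c000800020001000000000000000000) (nat_lit 0x0) (nat_lit 0x3001000000000000000000000000000) := D_5 (nat_lit 121) (nat_lit 108) (nat_lit 120) (nat_lit 2) (nat_lit 2) (nat_lit 7) (nat_lit 3) (nat_lit 1) (nat_lit 7) (by decide +kernel)
theorem L44973 : W_5 (nat_lit 3) (nat_lit 0x2000100013a009c000000020001000000000000000000) (nat_lit 0x0) (nat_lit 0x3001800040000000000000000000000) := T_5 (nat_lit 107) (nat_lit 90) (nat_lit 4) (nat_lit 5) (nat_lit 8) L44972 (by decide +kernel)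
theorem L44974 : W_5 (nat_lit 4) (nat_lit 0x2000100013a009c000000020000000000000000000000) (nat_lit 0x0) (nat_lit 0x3001c00040001000000000000000000) := T_5 (nat_lit 72) (nat_lit 106) (nat_lit 7) (nat_lit 4) (nat_lit 4) L44973 (by decide +kernel)
theorem L44975 : W_5 (nat_lit 5) (nat_lit 0x20001000138009c000000020000000000000000000000) (nat_lit 0x0) (nat_lit 0x60003001c00040001000000000000000000) := T_5 (nat_lit 137) (nat_lit 138) (nat_lit 2) (nat_lit 1) (nat_lit 8) L44974 (by decide +kernel)
theorem L44976 : W_5 (nat_lit 2) (nat_lit 0x20001000138009c000000020000000000000000000000) (nat_lit 0x0) (nat_lit 0x1000000000000400000001000000000000000000) := D_5 (nat_lit 106) (nat_lit 72) (nat_lit 156) (nat_lit 7) (nat_lit 4) (nat_lit 4) (nat_lit 5) (nat_lit 4) (nat_lit 5) (by decide +kernel)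
theorem L44977 : W_5 (nat_lit 2) (nat_lit 0x2000100013a009e000800020000000000000000000000) (nat_lit 0x0) (nat_lit 0x40003000000000000000000) := D_5 (nat_lit 90) (nat_lit 73) (nat_lit 72) (nat_lit 5) (nat_lit 5) (nat_lit 4) (nat_lit 4) (nat_lit 5) (nat_lit 8) (by decide +kernel)
theorem L44978 : W_5 (nat_lit 3) (nat_lit 0x2000100013a009e000000020000000000000000000000) (nat_lit 0x0) (nat_lit 0x1800040003000000000000000000) := T_5 (nat_lit 107) (nat_lit 108) (nat_lit 2) (nat_lit 2) (nat_lit 7) L44977 (by decide +kernel)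
theorem L44979 : W_5 (nat_lit 4) (nat_lit 0x20001000138009e000000020000000000000000000000) (nat_lit 0x0) (nat_lit 0x60000001800040003000000000000000000) := T_5 (nat_lit 137) (nat_lit 138) (nat_lit 2) (nat_lit 1) (nat_lit 8) L44978 (by decide +kernel)
theorem L44980 : W_5 (nat_lit 5) (nat_lit 0x20001000138009c000000020000000000000000000000) (nat_lit 0x0) (nat_lit 0x60003001800040003000000000000000000) := T_5 (nat_lit 121) (nat_lit 120) (nat_lit 3) (nat_lit 1) (nat_lit 7) L44979 (by decide +kernel)
theorem L44981 : W_5 (nat_lit 2) (nat_lit 0x20001040138009c000000020000000000000000000000) (nat_lit 0x0) (nat_lit 0x800060000000000000000000000000000000000) := D_5 (nat_lit 138) (nat_lit 137) (nat_lit 155) (nat_lit 2) (nat_lit 1) (nat_lit 8) (nat_lit 1) (nat_lit 5) (nat_lit 8) (by decide +kernel)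
theorem L44982 : W_5 (nat_lit 2) (nat_lit 0x26001160138009d000000020000000000000000000000) (nat_lit 0x0) (nat_lit 0x200018000000000000000000000000000000000000000000) := D_5 (nat_lit 172) (nat_lit 171) (nat_lit 189) (nat_lit 0) (nat_lit 4) (nat_lit 10) (nat_lit 5) (nat_lit 3) (nat_lit 7) (by decide +kernel)
theorem L44983 : W_5 (nat_lit 3) (nat_lit 0x22001160138009d000000020000000000000000000000) (nat_lit 0x0) (nat_lit 0xa00058000000000000000000000000000000000000000000) := T_5 (nat_lit 174) (nat_lit 191) (nat_lit 7) (nat_lit 3) (nat_lit 7) L44982 (by decide +kernel)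
theorem L44984 : W_5 (nat_lit 4) (nat_lit 0x20001160138009d000000020000000000000000000000) (nat_lit 0x0) (nat_lit 0xe00078000000000000000000000000000000000000000000) := T_5 (nat_lit 173) (nat_lit 190) (nat_lit 6) (nat_lit 3) (nat_lit 11) L44983 (by decide +kernel)
theorem L44985 : W_5 (nat_lit 5) (nat_lit 0x20001140138009d000000020000000000000000000000) (nat_lit 0x0) (nat_lit 0xe00078000a00000000000000000000000000000000000000) := T_5 (nat_lit 153) (nat_lit 155) (nat_lit 2) (nat_lit 0) (nat_lit 9) L44984 (by decide +kernel)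
theorem L44986 : W_5 (nat_lit 6) (nat_lit 0x20001040138009d000000020000000000000000000000) (nat_lit 0x0) (nat_lit 0xe00078001a00000000000400000000000000000000000000) := T_5 (nat_lit 156) (nat_lit 106) (nat_lit 5) (nat_lit 4) (nat_lit 5) L44985 (by decide +kernel)
theorem L44987 : W_5 (nat_lit 7) (nat_lit 0x20001040138009c000000020000000000000000000000) (nat_lit 0x0) (nat_lit 0xe00078001a00000003000400000000000000000000000000) := T_5 (nat_lit 120) (nat_lit 121) (nat_lit 3) (nat_lit 1) (nat_lit 7) L44986 (by decide +kernel)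
theorem L44988 : W_5 (nat_lit 2) (nat_lit 0x2780114013a009d000000020000000000000000000000) (nat_lit 0x0) (nat_lit 0x180004000000000000000000000000000000000000000000) := D_5 (nat_lit 187) (nat_lit 188) (nat_lit 170) (nat_lit 1) (nat_lit 4) (nat_lit 10) (nat_lit 5) (nat_lit 1) (nat_lit 7) (by decide +kernel)
theorem L44989 : W_5 (nat_lit 3) (nat_lit 0x2700114013a009d000000020000000000000000000000) (nat_lit 0x0) (nat_lit 0x18000c000200000000000000000000000000000000000000) := T_5 (nat_lit 171) (nat_lit 153) (nat_lit 0) (nat_lit 4) (nat_lit 10) L44988 (by decide +kernel)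
theorem L44990 : W_5 (nat_lit 4) (nat_lit 0x2300114013a009d000000020000000000000000000000) (nat_lit 0x0) (nat_lit 0x98004c000200000000000000000000000000000000000000) := T_5 (nat_lit 174) (nat_lit 191) (nat_lit 7) (nat_lit 3) (nat_lit 7) L44989 (by decide +kernel)
theorem L44991 : W_5 (nat_lit 5) (nat_lit 0x2200114013a009d000000020000000000000000000000) (nat_lit 0x0) (nat_lit 0xb8005c000200000000000000000000000000000000000000) := T_5 (nat_lit 172) (nat_lit 189) (nat_lit 5) (nat_lit 3) (nat_lit 7) L44990 (by decide +kernel)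
theorem L44992 : W_5 (nat_lit 6) (nat_lit 0x2200114013a009c000000020000000000000000000000) (nat_lit 0x0) (nat_lit 0xb8005c000200000003000000000000000000000000000000) := T_5 (nat_lit 120) (nat_lit 121) (nat_lit 3) (nat_lit 1) (nat_lit 7) L44991 (by decide +kernel)
theorem L44993 : W_5 (nat_lit 7) (nat_lit 0x2000114013a009c000000020000000000000000000000) (nat_lit 0x0) (nat_lit 0xf8007c000200000003000000000000000000000000000000) := T_5 (nat_lit 173) (nat_lit 190) (nat_lit 6) (nat_lit 3) (nat_lit 11) L44992 (by decide +kernel)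
theorem L44994 : W_5 (nat_lit 8) (nat_lit 0x20001140138009c000000020000000000000000000000) (nat_lit 0x0) (nat_lit 0xf8007c000200060003000000000000000000000000000000) := T_5 (nat_lit 137) (nat_lit 138) (nat_lit 2) (nat_lit 1) (nat_lit 8) L44993 (by decide +kernel)
theorem L44995 : W_5 (nat_lit 9) (nat_lit 0x20001040138009c000000020000000000000000000000) (nat_lit 0x0) (nat_lit 0xf8007c001200060003000400000000000000000000000000) := T_5 (nat_lit 156) (nat_lit 106) (nat_lit 5) (nat_lit 4) (nat_lit 5) L44994 (by decide +kernel)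
theorem L44996 : W_5 (nat_lit 10) (nat_lit 0x20001000138009c000000020000000000000000000000) (nat_lit 0x0) (nat_lit 0xf8007c001e00060003000400000000000000000000000000) := Q_5 (nat_lit 154) (C_5 L44981 (C_5 L44987 (C_5 L44995 N_5))) (by decide +kernel)
theorem L44997 : W_5 (nat_lit 11) (nat_lit 0x20001000138009c000000000000000000000000000000) (nat_lit 0x0) (nat_lit 0xf8007c001e00060003001c00060003000000000000000000) := Q_5 (nat_lit 89) (C_5 L44975 (C_5 L44976 (C_5 L44980 (C_5 L44996 N_5)))) (by decide +kernel)
theorem L44998 : W_5 (nat_lit 12) (nat_lit 0x20001000130009c000000000000000000000000000000) (nat_lit 0x0) (nat_lit 0xf8007c001e000e0003001e003f0007000000000000000000) := Q_5 (nat_lit 139) (C_5 L44965 (C_5 L44970 (C_5 L44971 (C_5 L44797 (C_5 L44997 N_5))))) (by decide +kernel)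
theorem L44999 : W_5 (nat_lit 13) (nat_lit 0x20001000130008c000000000000000000000000000000) (nat_lit 0x0) (nat_lit 0x2f8017c029e008e0073003e003f800fe00000000000000000) := Q_5 (nat_lit 124) (C_5 L44960 (C_5 L44923 (C_5 L43779 (C_5 L43782 (C_5 L44998 N_5))))) (by decide +kernel)
theorem L45000 : W_5 (nat_lit 14) (nat_lit 0x200010001300088000000000000000000000000000000) (nat_lit 0x0) (nat_lit 0x2f801fc029e008f037781bfc07fe07ff001e000e000500000) := Q_5 (nat_lit 122) (C_5 L43783 (C_5 L43834 (C_5 L43941 (C_5 L43951 (C_5 L44041 (C_5 L44042 (C_5 L44061 (C_5 L44732 (C_5 L44792 (C_5 L44833 (C_5 L44950 (C_5 L44999 N_5)))))))))))) (by decide +kernel)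
theorem L45001 : W_5 (nat_lit 2) (nat_lit 0x2000120013000d8000400030000000000000000000000) (nat_lit 0x0) (nat_lit 0x800040002000000000000000000) := D_5 (nat_lit 90) (nat_lit 107) (nat_lit 73) (nat_lit 6) (nat_lit 4) (nat_lit 9) (nat_lit 6) (nat_lit 4) (nat_lit 8) (by decide +kernel)
theorem L45002 : W_5 (nat_lit 3) (nat_lit 0x2000100013000d8000400030000000000000000000000) (nat_lit 0x0) (nat_lit 0x2000000000000a00040002000000000000000000) := T_5 (nat_lit 157) (nat_lit 105) (nat_lit 4) (nat_lit 4) (nat_lit 9) L45001 (by decide +kernel)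
theorem L45003 : W_5 (nat_lit 4) (nat_lit 0x2000100013000d8000400020000000000000000000000) (nat_lit 0x0) (nat_lit 0x2000000000000a00050002800000000000000000) := T_5 (nat_lit 88) (nat_lit 71) (nat_lit 4) (nat_lit 4) (nat_lit 8) L45002 (by decide +kernel)
theorem L45004 : W_5 (nat_lit 5) (nat_lit 0x2000100013000d8000400000000000000000000000000) (nat_lit 0x0) (nat_lit 0x2000000000000a00070003800000000000000000) := T_5 (nat_lit 89) (nat_lit 72) (nat_lit 7) (nat_lit 4) (nat_lit 4) L45003 (by decide +kernel)
theorem L45005 : W_5 (nat_lit 6) (nat_lit 0x200010001300098000400000000000000000000000000) (nat_lit 0x0) (nat_lit 0x2000000060000a00070003800000000000000000) := T_5 (nat_lit 126) (nat_lit 125) (nat_lit 1) (nat_lit 8) (nat_lit 7) L45004 (by decide +kernel)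
theorem L45006 : W_5 (nat_lit 2) (nat_lit 0x2000120013000d8000400060000000000000000000000) (nat_lit 0x0) (nat_lit 0x20001000080000000000000000000000000000000000) := D_5 (nat_lit 156) (nat_lit 173) (nat_lit 139) (nat_lit 5) (nat_lit 4) (nat_lit 6) (nat_lit 5) (nat_lit 4) (nat_lit 5) (by decide +kernel)
theorem L45007 : W_5 (nat_lit 3) (nat_lit 0x2000100013000d8000400060000000000000000000000) (nat_lit 0x0) (nat_lit 0x20003000080000000800000000000000000000000000) := T_5 (nat_lit 157) (nat_lit 107) (nat_lit 6) (nat_lit 4) (nat_lit 9) L45006 (by decide +kernel)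
theorem L45008 : W_5 (nat_lit 4) (nat_lit 0x2000100013000d8000400020000000000000000000000) (nat_lit 0x0) (nat_lit 0x20003000080000000800040002000000000000000000) := T_5 (nat_lit 90) (nat_lit 73) (nat_lit 6) (nat_lit 4) (nat_lit 8) L45007 (by decide +kernel)
theorem L45009 : W_5 (nat_lit 5) (nat_lit 0x200010001300098000400020000000000000000000000) (nat_lit 0x0) (nat_lit 0x20003000080060000800040002000000000000000000) := T_5 (nat_lit 126) (nat_lit 125) (nat_lit 1) (nat_lit 8) (nat_lit 7) L45008 (by decide +kernel)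
theorem L45010 : W_5 (nat_lit 6) (nat_lit 0x200010001300098000400000000000000000000000000) (nat_lit 0x0) (nat_lit 0x20003000080060000800060003000000000000000000) := T_5 (nat_lit 89) (nat_lit 72) (nat_lit 7) (nat_lit 4) (nat_lit 4) L45009 (by decide +kernel)
theorem L45011 : W_5 (nat_lit 2) (nat_lit 0x200010001300098000700000000000000000000000000) (nat_lit 0x0) (nat_lit 0x64000000000000000000000000000000) := D_5 (nat_lit 125) (nat_lit 126) (nat_lit 122) (nat_lit 1) (nat_lit 8) (nat_lit 7) (nat_lit 0) (nat_lit 6) (nat_lit 7) (by decide +kernel)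
theorem L45012 : W_5 (nat_lit 3) (nat_lit 0x200010001300098000600000000000000000000000000) (nat_lit 0x0) (nat_lit 0x64000180000000000000000000000000) := T_5 (nat_lit 104) (nat_lit 103) (nat_lit 3) (nat_lit 1) (nat_lit 6) L45011 (by decide +kernel)
theorem L45013 : W_5 (nat_lit 2) (nat_lit 0x200010001b800d8002600170000000000000000000000) (nat_lit 0x0) (nat_lit 0x2000100008000000000000000000000000000000000000000) := D_5 (nat_lit 176) (nat_lit 159) (nat_lit 193) (nat_lit 5) (nat_lit 7) (nat_lit 6) (nat_lit 5) (nat_lit 7) (nat_lit 7) (by decide +kernel)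
theorem L45014 : W_5 (nat_lit 3) (nat_lit 0x2000100013800d8002600170000000000000000000000) (nat_lit 0x0) (nat_lit 0x2000100028000800000000000000000000000000000000000) := T_5 (nat_lit 143) (nat_lit 161) (nat_lit 7) (nat_lit 7) (nat_lit 5) L45013 (by decide +kernel)
theorem L45015 : W_5 (nat_lit 4) (nat_lit 0x2000100013800d8000600170000000000000000000000) (nat_lit 0x0) (nat_lit 0x2000100028000800000002000000008000000000000000000) := T_5 (nat_lit 109) (nat_lit 75) (nat_lit 7) (nat_lit 7) (nat_lit 4) L45014 (by decide +kernel)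
theorem L45016 : W_5 (nat_lit 5) (nat_lit 0x2000100013000d8000600170000000000000000000000) (nat_lit 0x0) (nat_lit 0x2000100029000880000002000000008000000000000000000) := T_5 (nat_lit 139) (nat_lit 156) (nat_lit 5) (nat_lit 4) (nat_lit 5) L45015 (by decide +kernel)
theorem L45017 : W_5 (nat_lit 6) (nat_lit 0x2000100013000d8000600070000000000000000000000) (nat_lit 0x0) (nat_lit 0x2000100029000880000002000180008000000000000000000) := T_5 (nat_lit 92) (nat_lit 91) (nat_lit 1) (nat_lit 7) (nat_lit 5) L45016 (by decide +kernel)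
theorem L45018 : W_5 (nat_lit 7) (nat_lit 0x2000100013000d8000600030000000000000000000000) (nat_lit 0x0) (nat_lit 0x20001000290008800000020001c000a000000000000000000) := T_5 (nat_lit 90) (nat_lit 73) (nat_lit 6) (nat_lit 4) (nat_lit 8) L45017 (by decide +kernel)
theorem L45019 : W_5 (nat_lit 8) (nat_lit 0x2000100013000d8000600020000000000000000000000) (nat_lit 0x0) (nat_lit 0x20001000290008800000020001d000a800000000000000000) := T_5 (nat_lit 88) (nat_lit 71) (nat_lit 4) (nat_lit 4) (nat_lit 8) L45018 (by decide +kernel)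
theorem L45020 : W_5 (nat_lit 9) (nat_lit 0x2000100013000d8000600000000000000000000000000) (nat_lit 0x0) (nat_lit 0x20001000290008800000020001f000b800000000000000000) := T_5 (nat_lit 89) (nat_lit 72) (nat_lit 7) (nat_lit 4) (nat_lit 4) L45019 (by decide +kernel)
theorem L45021 : W_5 (nat_lit 10) (nat_lit 0x200010001300098000600000000000000000000000000) (nat_lit 0x0) (nat_lit 0x20001000290008800600020001f000b800000000000000000) := T_5 (nat_lit 126) (nat_lit 125) (nat_lit 1) (nat_lit 8) (nat_lit 7) L45020 (by decide +kernel)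
theorem L45022 : W_5 (nat_lit 2) (nat_lit 0x200010001380098000e800f0000000000000000000000) (nat_lit 0x0) (nat_lit 0x3000008000000000000000000000) := D_5 (nat_lit 108) (nat_lit 109) (nat_lit 87) (nat_lit 3) (nat_lit 3) (nat_lit 5) (nat_lit 3) (nat_lit 2) (nat_lit 5) (by decide +kernel)
theorem L45023 : W_5 (nat_lit 3) (nat_lit 0x200010001380098000e800e0000000000000000000000) (nat_lit 0x0) (nat_lit 0x3000018000800000000000000000) := T_5 (nat_lit 88) (nat_lit 71) (nat_lit 4) (nat_lit 4) (nat_lit 8) L45022 (by decide +kernel)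
theorem L45024 : W_5 (nat_lit 4) (nat_lit 0x2000100013800980006800e0000000000000000000000) (nat_lit 0x0) (nat_lit 0x3800018004800000000000000000) := T_5 (nat_lit 107) (nat_lit 74) (nat_lit 6) (nat_lit 5) (nat_lit 8) L45023 (by decide +kernel)
theorem L45025 : W_5 (nat_lit 5) (nat_lit 0x2000100013000980006800e0000000000000000000000) (nat_lit 0x0) (nat_lit 0x1000080000003800018004800000000000000000) := T_5 (nat_lit 139) (nat_lit 156) (nat_lit 5) (nat_lit 4) (nat_lit 5) L45024 (by decide +kernel)
theorem L45026 : W_5 (nat_lit 6) (nat_lit 0x200010001300098000680060000000000000000000000) (nat_lit 0x0) (nat_lit 0x1000080000003800198004800000000000000000) := T_5 (nat_lit 91) (nat_lit 92) (nat_lit 1) (nat_lit 7) (nat_lit 5) L45025 (by decide +kernel)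
theorem L45027 : W_5 (nat_lit 7) (nat_lit 0x200010001300098000680020000000000000000000000) (nat_lit 0x0) (nat_lit 0x10000800000038001d8006800000000000000000) := T_5 (nat_lit 90) (nat_lit 73) (nat_lit 6) (nat_lit 4) (nat_lit 8) L45026 (by decide +kernel)
theorem L45028 : W_5 (nat_lit 8) (nat_lit 0x200010001300098000600020000000000000000000000) (nat_lit 0x0) (nat_lit 0x10000800000039801d8006800000000000000000) := T_5 (nat_lit 103) (nat_lit 104) (nat_lit 3) (nat_lit 1) (nat_lit 6) L45027 (by decide +kernel)
theorem L45029 : W_5 (nat_lit 9) (nat_lit 0x200010001300098000600000000000000000000000000) (nat_lit 0x0) (nat_lit 0x10000800000039801f8007800000000000000000) := T_5 (nat_lit 89) (nat_lit 72) (nat_lit 7) (nat_lit 4) (nat_lit 4) L45028 (by decide +kernel)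
theorem L45030 : W_5 (nat_lit 11) (nat_lit 0x200010001300098000400000000000000000000000000) (nat_lit 0x0) (nat_lit 0x2000100029000880064003b801f800f800000000000000000) := Q_5 (nat_lit 105) (C_5 L45012 (C_5 L45021 (C_5 L45029 N_5))) (by decide +kernel)
theorem L45031 : W_5 (nat_lit 2) (nat_lit 0x200012001300098000400030000000000000000000000) (nat_lit 0x0) (nat_lit 0x800040002000000000000000000) := D_5 (nat_lit 90) (nat_lit 107) (nat_lit 73) (nat_lit 6) (nat_lit 4) (nat_lit 9) (nat_lit 6) (nat_lit 4) (nat_lit 8) (by decide +kernel)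
theorem L45032 : W_5 (nat_lit 3) (nat_lit 0x200010001300098000400030000000000000000000000) (nat_lit 0x0) (nat_lit 0x2000000000000a00040002000000000000000000) := T_5 (nat_lit 157) (nat_lit 105) (nat_lit 4) (nat_lit 4) (nat_lit 9) L45031 (by decide +kernel)
theorem L45033 : W_5 (nat_lit 4) (nat_lit 0x200010001300098000400020000000000000000000000) (nat_lit 0x0) (nat_lit 0x2000000000000a00050002800000000000000000) := T_5 (nat_lit 88) (nat_lit 71) (nat_lit 4) (nat_lit 4) (nat_lit 8) L45032 (by decide +kernel)
theorem L45034 : W_5 (nat_lit 5) (nat_lit 0x200010001300098000400000000000000000000000000) (nat_lit 0x0) (nat_lit 0x2000000000000a00070003800000000000000000) := T_5 (nat_lit 89) (nat_lit 72) (nat_lit 7) (nat_lit 4) (nat_lit 4) L45033 (by decide +kernel)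
theorem L45035 : W_5 (nat_lit 2) (nat_lit 0x2000100013800d8000600070000000000000000000000) (nat_lit 0x0) (nat_lit 0x180080000000000000000000000) := D_5 (nat_lit 104) (nat_lit 103) (nat_lit 91) (nat_lit 3) (nat_lit 1) (nat_lit 6) (nat_lit 1) (nat_lit 6) (nat_lit 5) (by decide +kernel)
theorem L45036 : W_5 (nat_lit 3) (nat_lit 0x2000100013800d8000400070000000000000000000000) (nat_lit 0x0) (nat_lit 0x2000000000000380080000000000000000000000) := T_5 (nat_lit 105) (nat_lit 157) (nat_lit 4) (nat_lit 4) (nat_lit 9) L45035 (by decide +kernel)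
theorem L45037 : W_5 (nat_lit 4) (nat_lit 0x2000100013800d8000400060000000000000000000000) (nat_lit 0x0) (nat_lit 0x2000000000000380090000800000000000000000) := T_5 (nat_lit 88) (nat_lit 71) (nat_lit 4) (nat_lit 4) (nat_lit 8) L45036 (by decide +kernel)
theorem L45038 : W_5 (nat_lit 5) (nat_lit 0x2000100013000d8000400060000000000000000000000) (nat_lit 0x0) (nat_lit 0x3000080000000380090000800000000000000000) := T_5 (nat_lit 139) (nat_lit 156) (nat_lit 5) (nat_lit 4) (nat_lit 5) L45037 (by decide +kernel)
theorem L45039 : W_5 (nat_lit 6) (nat_lit 0x2000100013000d8000400020000000000000000000000) (nat_lit 0x0) (nat_lit 0x30000800000003800d0002800000000000000000) := T_5 (nat_lit 90) (nat_lit 73) (nat_lit 6) (nat_lit 4) (nat_lit 8) L45038 (by decide +kernel)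
theorem L45040 : W_5 (nat_lit 7) (nat_lit 0x200010001300098000400020000000000000000000000) (nat_lit 0x0) (nat_lit 0x30000800600003800d0002800000000000000000) := T_5 (nat_lit 126) (nat_lit 125) (nat_lit 1) (nat_lit 8) (nat_lit 7) L45039 (by decide +kernel)
theorem L45041 : W_5 (nat_lit 8) (nat_lit 0x200010001300098000400000000000000000000000000) (nat_lit 0x0) (nat_lit 0x30000800600003800f0003800000000000000000) := T_5 (nat_lit 89) (nat_lit 72) (nat_lit 7) (nat_lit 4) (nat_lit 4) L45040 (by decide +kernel)
theorem L45042 : W_5 (nat_lit 2) (nat_lit 0x2000110013000d8000400030000000000000000000000) (nat_lit 0x0) (nat_lit 0x20002000000000000200000000000000000000000000) := D_5 (nat_lit 157) (nat_lit 105) (nat_lit 173) (nat_lit 4) (nat_lit 4) (nat_lit 9) (nat_lit 5) (nat_lit 4) (nat_lit 6) (by decide +kernel)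
theorem L45043 : W_5 (nat_lit 3) (nat_lit 0x2000110013000d8000400020000000000000000000000) (nat_lit 0x0) (nat_lit 0x20002000000000000200010000800000000000000000) := T_5 (nat_lit 88) (nat_lit 71) (nat_lit 4) (nat_lit 4) (nat_lit 8) L45042 (by decide +kernel)
theorem L45044 : W_5 (nat_lit 4) (nat_lit 0x2000100013000d8000400020000000000000000000000) (nat_lit 0x0) (nat_lit 0x20003000080000000200010000800000000000000000) := T_5 (nat_lit 156) (nat_lit 139) (nat_lit 5) (nat_lit 4) (nat_lit 5) L45043 (by decide +kernel)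
theorem L45045 : W_5 (nat_lit 5) (nat_lit 0x200010001300098000400020000000000000000000000) (nat_lit 0x0) (nat_lit 0x20003000080060000200010000800000000000000000) := T_5 (nat_lit 126) (nat_lit 125) (nat_lit 1) (nat_lit 8) (nat_lit 7) L45044 (by decide +kernel)
theorem L45046 : W_5 (nat_lit 6) (nat_lit 0x200010001300098000400000000000000000000000000) (nat_lit 0x0) (nat_lit 0x20003000080060000200030001800000000000000000) := T_5 (nat_lit 89) (nat_lit 72) (nat_lit 7) (nat_lit 4) (nat_lit 4) L45045 (by decide +kernel)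
theorem L45047 : W_5 (nat_lit 2) (nat_lit 0x200010001300098000c00000000000000000000000000) (nat_lit 0x0) (nat_lit 0x2000000000000000040002000000000000000000) := D_5 (nat_lit 90) (nat_lit 157) (nat_lit 73) (nat_lit 6) (nat_lit 4) (nat_lit 9) (nat_lit 5) (nat_lit 5) (nat_lit 4) (by decide +kernel)
theorem L45048 : W_5 (nat_lit 2) (nat_lit 0x200010001b000d8002c00100000000000000000000000) (nat_lit 0x0) (nat_lit 0x2000100008000000000000000000000000000000000000000) := D_5 (nat_lit 176) (nat_lit 193) (nat_lit 159) (nat_lit 5) (nat_lit 7) (nat_lit 7) (nat_lit 5) (nat_lit 7) (nat_lit 6) (by decide +kernel)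
theorem L45049 : W_5 (nat_lit 3) (nat_lit 0x2000100013000d8002c00100000000000000000000000) (nat_lit 0x0) (nat_lit 0x2000100028000800000000000000000000000000000000000) := T_5 (nat_lit 143) (nat_lit 161) (nat_lit 7) (nat_lit 7) (nat_lit 5) L45048 (by decide +kernel)
theorem L45050 : W_5 (nat_lit 4) (nat_lit 0x2000100013000d8002c00000000000000000000000000) (nat_lit 0x0) (nat_lit 0x2000100028000800000000000100008000000000000000000) := T_5 (nat_lit 92) (nat_lit 75) (nat_lit 7) (nat_lit 7) (nat_lit 4) L45049 (by decide +kernel)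
theorem L45051 : W_5 (nat_lit 5) (nat_lit 0x2000100013000d8000c00000000000000000000000000) (nat_lit 0x0) (nat_lit 0x2000100028000800000003000100008000000000000000000) := T_5 (nat_lit 109) (nat_lit 108) (nat_lit 3) (nat_lit 4) (nat_lit 6) L45050 (by decide +kernel)
theorem L45052 : W_5 (nat_lit 6) (nat_lit 0x200010001300098000c00000000000000000000000000) (nat_lit 0x0) (nat_lit 0x2000100028000800060003000100008000000000000000000) := T_5 (nat_lit 126) (nat_lit 125) (nat_lit 1) (nat_lit 8) (nat_lit 7) L45051 (by decide +kernel)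
theorem L45053 : W_5 (nat_lit 8) (nat_lit 0x200010001300098000400000000000000000000000000) (nat_lit 0x0) (nat_lit 0x200010002a000800066003b001c000e000000000000000000) := Q_5 (nat_lit 107) (C_5 L45047 (C_5 L42689 (C_5 L45052 N_5))) (by decide +kernel)
theorem L45054 : W_5 (nat_lit 12) (nat_lit 0x200010001300098000000000000000000000000000000) (nat_lit 0x0) (nat_lit 0x200012002b000880066003f801f800f800000000000000000) := Q_5 (nat_lit 106) (C_5 L45005 (C_5 L45010 (C_5 L45030 (C_5 L45034 (C_5 L45041 (C_5 L45046 (C_5 L45053 N_5))))))) (by decide +kernel)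
theorem L45055 : W_5 (nat_lit 2) (nat_lit 0x200010001380098000c00000000000000000000000000) (nat_lit 0x0) (nat_lit 0x2000000000000000040002000000000000000000) := D_5 (nat_lit 90) (nat_lit 157) (nat_lit 73) (nat_lit 6) (nat_lit 4) (nat_lit 9) (nat_lit 5) (nat_lit 5) (nat_lit 4) (by decide +kernel)
theorem L45056 : W_5 (nat_lit 2) (nat_lit 0x2000138013800bc000e00000000000000000000000000) (nat_lit 0x0) (nat_lit 0x3001000000000000000000000000000) := D_5 (nat_lit 121) (nat_lit 108) (nat_lit 120) (nat_lit 2) (nat_lit 2) (nat_lit 7) (nat_lit 3) (nat_lit 1) (nat_lit 7) (by decide +kernel)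
theorem L45057 : W_5 (nat_lit 3) (nat_lit 0x2000138013800b8000e00000000000000000000000000) (nat_lit 0x0) (nat_lit 0x10000000000007001000000000000000000000000000) := T_5 (nat_lit 122) (nat_lit 172) (nat_lit 5) (nat_lit 3) (nat_lit 6) L45056 (by decide +kernel)
theorem L45058 : W_5 (nat_lit 4) (nat_lit 0x2000130013800b8000e00000000000000000000000000) (nat_lit 0x0) (nat_lit 0x10000c00000007001000000000000000000000000000) := T_5 (nat_lit 155) (nat_lit 154) (nat_lit 2) (nat_lit 1) (nat_lit 9) L45057 (by decide +kernel)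
theorem L45059 : W_5 (nat_lit 5) (nat_lit 0x2000120013800b8000e00000000000000000000000000) (nat_lit 0x0) (nat_lit 0x30001c00000007001000000000000000000000000000) := T_5 (nat_lit 156) (nat_lit 173) (nat_lit 5) (nat_lit 4) (nat_lit 6) L45058 (by decide +kernel)
theorem L45060 : W_5 (nat_lit 6) (nat_lit 0x2000100013800b8000e00000000000000000000000000) (nat_lit 0x0) (nat_lit 0x30003c00000007001000010000000000000000000000) := T_5 (nat_lit 157) (nat_lit 88) (nat_lit 4) (nat_lit 4) (nat_lit 9) L45059 (by decide +kernel)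
theorem L45061 : W_5 (nat_lit 7) (nat_lit 0x2000100013800b8000c00000000000000000000000000) (nat_lit 0x0) (nat_lit 0x30003c00000007001300010000000000000000000000) := T_5 (nat_lit 105) (nat_lit 104) (nat_lit 3) (nat_lit 2) (nat_lit 6) L45060 (by decide +kernel)
theorem L45062 : W_5 (nat_lit 8) (nat_lit 0x200010001380098000c00000000000000000000000000) (nat_lit 0x0) (nat_lit 0x30003c00000067001300010000000000000000000000) := T_5 (nat_lit 125) (nat_lit 126) (nat_lit 1) (nat_lit 7) (nat_lit 7) L45061 (by decide +kernel)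
theorem L45063 : W_5 (nat_lit 9) (nat_lit 0x200010001380098000400000000000000000000000000) (nat_lit 0x0) (nat_lit 0x30003c00000067001b003d0006000000000000000000) := Q_5 (nat_lit 107) (C_5 L45055 (C_5 L42464 (C_5 L45062 N_5))) (by decide +kernel)
theorem L45064 : W_5 (nat_lit 2) (nat_lit 0x200010001380098000400000000000000000000000000) (nat_lit 0x0) (nat_lit 0x1000000000000000020001000000000000000000) := D_5 (nat_lit 89) (nat_lit 156) (nat_lit 72) (nat_lit 5) (nat_lit 4) (nat_lit 5) (nat_lit 7) (nat_lit 4) (nat_lit 4) (by decide +kernel)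
theorem L45065 : W_5 (nat_lit 2) (nat_lit 0x2000120013800d8000400030000000000000000000000) (nat_lit 0x0) (nat_lit 0x800040002000000000000000000) := D_5 (nat_lit 90) (nat_lit 107) (nat_lit 73) (nat_lit 6) (nat_lit 4) (nat_lit 9) (nat_lit 6) (nat_lit 4) (nat_lit 8) (by decide +kernel)
theorem L45066 : W_5 (nat_lit 3) (nat_lit 0x2000100013800d8000400030000000000000000000000) (nat_lit 0x0) (nat_lit 0x2000000000000a00040002000000000000000000) := T_5 (nat_lit 157) (nat_lit 105) (nat_lit 4) (nat_lit 4) (nat_lit 9) L45065 (by decide +kernel)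
theorem L45067 : W_5 (nat_lit 4) (nat_lit 0x2000100013800d8000400020000000000000000000000) (nat_lit 0x0) (nat_lit 0x2000000000000a00050002800000000000000000) := T_5 (nat_lit 88) (nat_lit 71) (nat_lit 4) (nat_lit 4) (nat_lit 8) L45066 (by decide +kernel)
theorem L45068 : W_5 (nat_lit 5) (nat_lit 0x2000100013800d8000400000000000000000000000000) (nat_lit 0x0) (nat_lit 0x2000000000000a00070003800000000000000000) := T_5 (nat_lit 89) (nat_lit 72) (nat_lit 7) (nat_lit 4) (nat_lit 4) L45067 (by decide +kernel)
theorem L45069 : W_5 (nat_lit 6) (nat_lit 0x200010001380098000400000000000000000000000000) (nat_lit 0x0) (nat_lit 0x2000000060000a00070003800000000000000000) := T_5 (nat_lit 126) (nat_lit 125) (nat_lit 1) (nat_lit 7) (nat_lit 7) L45068 (by decide +kernel)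
theorem L45070 : W_5 (nat_lit 10) (nat_lit 0x200010001380098000000000000000000000000000000) (nat_lit 0x0) (nat_lit 0x30003c00000067001f003f0007800000000000000000) := Q_5 (nat_lit 106) (C_5 L45063 (C_5 L45064 (C_5 L45069 N_5))) (by decide +kernel)
theorem L45071 : W_5 (nat_lit 2) (nat_lit 0x2000100013a009e000d00000000000000000000000000) (nat_lit 0x0) (nat_lit 0x2000000000000000040002000000000000000000) := D_5 (nat_lit 90) (nat_lit 157) (nat_lit 73) (nat_lit 6) (nat_lit 4) (nat_lit 9) (nat_lit 5) (nat_lit 5) (nat_lit 4) (by decide +kernel)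
theorem L45072 : W_5 (nat_lit 3) (nat_lit 0x2000100013a009e000500000000000000000000000000) (nat_lit 0x0) (nat_lit 0x2000000000001800040002000000000000000000) := T_5 (nat_lit 107) (nat_lit 108) (nat_lit 2) (nat_lit 2) (nat_lit 7) L45071 (by decide +kernel)
theorem L45073 : W_5 (nat_lit 4) (nat_lit 0x2000100013a009e000400000000000000000000000000) (nat_lit 0x0) (nat_lit 0x2000000000001980040002000000000000000000) := T_5 (nat_lit 104) (nat_lit 103) (nat_lit 0) (nat_lit 5) (nat_lit 7) L45072 (by decide +kernel)
theorem L45074 : W_5 (nat_lit 5) (nat_lit 0x2000100013a009c000400000000000000000000000000) (nat_lit 0x0) (nat_lit 0x2000000003001980040002000000000000000000) := T_5 (nat_lit 121) (nat_lit 120) (nat_lit 3) (nat_lit 1) (nat_lit 7) L45073 (by decide +kernel)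
theorem L45075 : W_5 (nat_lit 6) (nat_lit 0x20001000138009c000400000000000000000000000000) (nat_lit 0x0) (nat_lit 0x2000060003001980040002000000000000000000) := T_5 (nat_lit 137) (nat_lit 138) (nat_lit 2) (nat_lit 1) (nat_lit 8) L45074 (by decide +kernel)
theorem L45076 : W_5 (nat_lit 2) (nat_lit 0x22001000138009e000d00000000000000000000000000) (nat_lit 0x0) (nat_lit 0x2000000000000000040002000000000000000000) := D_5 (nat_lit 90) (nat_lit 157) (nat_lit 73) (nat_lit 6) (nat_lit 4) (nat_lit 9) (nat_lit 5) (nat_lit 5) (nat_lit 4) (by decide +kernel)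
theorem L45077 : W_5 (nat_lit 3) (nat_lit 0x22001000138009e000500000000000000000000000000) (nat_lit 0x0) (nat_lit 0x2000000000001800040002000000000000000000) := T_5 (nat_lit 107) (nat_lit 108) (nat_lit 2) (nat_lit 2) (nat_lit 7) L45076 (by decide +kernel)
theorem L45078 : W_5 (nat_lit 4) (nat_lit 0x22001000138009e000400000000000000000000000000) (nat_lit 0x0) (nat_lit 0x2000000000001980040002000000000000000000) := T_5 (nat_lit 104) (nat_lit 103) (nat_lit 0) (nat_lit 5) (nat_lit 7) L45077 (by decide +kernel)
theorem L45079 : W_5 (nat_lit 5) (nat_lit 0x20001000138009e000400000000000000000000000000) (nat_lit 0x0) (nat_lit 0x20003000000000001980040002000000000000000000) := T_5 (nat_lit 173) (nat_lit 156) (nat_lit 6) (nat_lit 3) (nat_lit 10) L45078 (by decide +kernel)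
theorem L45080 : W_5 (nat_lit 6) (nat_lit 0x20001000138009c000400000000000000000000000000) (nat_lit 0x0) (nat_lit 0x20003000000003001980040002000000000000000000) := T_5 (nat_lit 121) (nat_lit 120) (nat_lit 3) (nat_lit 1) (nat_lit 7) L45079 (by decide +kernel)
theorem L45081 : W_5 (nat_lit 7) (nat_lit 0x22001000138009c000400000000000000000000000000) (nat_lit 0x0) (nat_lit 0x60003001b800c0006000000000000000000) := T_5 (nat_lit 137) (nat_lit 138) (nat_lit 2) (nat_lit 1) (nat_lit 8) L42740 (by decide +kernel)
theorem L45082 : W_5 (nat_lit 8) (nat_lit 0x20001000138009c000400000000000000000000000000) (nat_lit 0x0) (nat_lit 0x20001000060003001b800c0006000000000000000000) := T_5 (nat_lit 173) (nat_lit 156) (nat_lit 6) (nat_lit 3) (nat_lit 10) L45081 (by decide +kernel)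
theorem L45083 : W_5 (nat_lit 2) (nat_lit 0x2000118013c009d000400000000000000000000000000) (nat_lit 0x0) (nat_lit 0x200010000000000000000200000000000000000000000000) := D_5 (nat_lit 172) (nat_lit 189) (nat_lit 105) (nat_lit 6) (nat_lit 2) (nat_lit 11) (nat_lit 5) (nat_lit 3) (nat_lit 6) (by decide +kernel)
theorem L45084 : W_5 (nat_lit 3) (nat_lit 0x2000110013c009d000400000000000000000000000000) (nat_lit 0x0) (nat_lit 0x200010000c00000000000200000000000000000000000000) := T_5 (nat_lit 155) (nat_lit 154) (nat_lit 1) (nat_lit 5) (nat_lit 8) L45083 (by decide +kernel)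
theorem L45085 : W_5 (nat_lit 4) (nat_lit 0x20001100138009d000400000000000000000000000000) (nat_lit 0x0) (nat_lit 0x200010000c00060000000200000000000000000000000000) := T_5 (nat_lit 138) (nat_lit 137) (nat_lit 2) (nat_lit 1) (nat_lit 8) L45084 (by decide +kernel)
theorem L45086 : W_5 (nat_lit 5) (nat_lit 0x20001000138009d000400000000000000000000000000) (nat_lit 0x0) (nat_lit 0x200030001c00060000000200000000000000000000000000) := T_5 (nat_lit 156) (nat_lit 173) (nat_lit 6) (nat_lit 3) (nat_lit 10) L45085 (by decide +kernel)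
theorem L45087 : W_5 (nat_lit 6) (nat_lit 0x20001000138009c000400000000000000000000000000) (nat_lit 0x0) (nat_lit 0x200030001c00060003000200000000000000000000000000) := T_5 (nat_lit 120) (nat_lit 121) (nat_lit 3) (nat_lit 1) (nat_lit 7) L45086 (by decide +kernel)
theorem L45088 : W_5 (nat_lit 2) (nat_lit 0x2000118013c009c000400000000000000000000000000) (nat_lit 0x0) (nat_lit 0x200010000000000000000200000000000000000000000000) := D_5 (nat_lit 172) (nat_lit 189) (nat_lit 105) (nat_lit 6) (nat_lit 2) (nat_lit 11) (nat_lit 5) (nat_lit 3) (nat_lit 6) (by decide +kernel)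
theorem L45089 : W_5 (nat_lit 3) (nat_lit 0x2000110013c009c000400000000000000000000000000) (nat_lit 0x0) (nat_lit 0x200010000c00000000000200000000000000000000000000) := T_5 (nat_lit 155) (nat_lit 154) (nat_lit 1) (nat_lit 5) (nat_lit 8) L45088 (by decide +kernel)
theorem L45090 : W_5 (nat_lit 4) (nat_lit 0x2000100013c009c000400000000000000000000000000) (nat_lit 0x0) (nat_lit 0x200030001c00000000000200000000000000000000000000) := T_5 (nat_lit 156) (nat_lit 173) (nat_lit 6) (nat_lit 3) (nat_lit 10) L45089 (by decide +kernel)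
theorem L45091 : W_5 (nat_lit 5) (nat_lit 0x20001000138009c000400000000000000000000000000) (nat_lit 0x0) (nat_lit 0x200030001c00060000000200000000000000000000000000) := T_5 (nat_lit 138) (nat_lit 137) (nat_lit 2) (nat_lit 1) (nat_lit 8) L45090 (by decide +kernel)
theorem L45092 : W_5 (nat_lit 9) (nat_lit 0x200010001380098000400000000000000000000000000) (nat_lit 0x0) (nat_lit 0x200030003c00060007001b800c0006000000000000000000) := Q_5 (nat_lit 122) (C_5 L45075 (C_5 L45080 (C_5 L45082 (C_5 L45087 (C_5 L45091 N_5))))) (by decide +kernel)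
theorem L45093 : W_5 (nat_lit 2) (nat_lit 0x2000120013a0098000400030000000000000000000000) (nat_lit 0x0) (nat_lit 0x800040002000000000000000000) := D_5 (nat_lit 90) (nat_lit 107) (nat_lit 73) (nat_lit 6) (nat_lit 4) (nat_lit 9) (nat_lit 6) (nat_lit 4) (nat_lit 8) (by decide +kernel)
theorem L45094 : W_5 (nat_lit 3) (nat_lit 0x2000100013a0098000400030000000000000000000000) (nat_lit 0x0) (nat_lit 0x2000000000000a00040002000000000000000000) := T_5 (nat_lit 157) (nat_lit 105) (nat_lit 4) (nat_lit 4) (nat_lit 9) L45093 (by decide +kernel)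
theorem L45095 : W_5 (nat_lit 4) (nat_lit 0x2000100013a0098000400020000000000000000000000) (nat_lit 0x0) (nat_lit 0x2000000000000a00050002800000000000000000) := T_5 (nat_lit 88) (nat_lit 71) (nat_lit 4) (nat_lit 4) (nat_lit 8) L45094 (by decide +kernel)
theorem L45096 : W_5 (nat_lit 5) (nat_lit 0x2000100013a0098000400000000000000000000000000) (nat_lit 0x0) (nat_lit 0x2000000000000a00070003800000000000000000) := T_5 (nat_lit 89) (nat_lit 72) (nat_lit 7) (nat_lit 4) (nat_lit 4) L45095 (by decide +kernel)
theorem L45097 : W_5 (nat_lit 6) (nat_lit 0x200010001380098000400000000000000000000000000) (nat_lit 0x0) (nat_lit 0x2000060000000a00070003800000000000000000) := T_5 (nat_lit 137) (nat_lit 138) (nat_lit 2) (nat_lit 1) (nat_lit 8) L45096 (by decide +kernel)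
theorem L45098 : W_5 (nat_lit 10) (nat_lit 0x200010001380098000000000000000000000000000000) (nat_lit 0x0) (nat_lit 0x200030003c00060007001f800f0007800000000000000000) := Q_5 (nat_lit 106) (C_5 L45092 (C_5 L45064 (C_5 L45097 N_5))) (by decide +kernel)
theorem L45099 : W_5 (nat_lit 11) (nat_lit 0x200010001300098000000000000000000000000000000) (nat_lit 0x0) (nat_lit 0x200030003c000e0067001f803f0007800000000000000000) := Q_5 (nat_lit 139) (C_5 L42589 (C_5 L45070 (C_5 L45098 N_5))) (by decide +kernel)
theorem L45100 : W_5 (nat_lit 2) (nat_lit 0x200010001380098000800000000000000000000000000) (nat_lit 0x0) (nat_lit 0x2000000000000000040002000000000000000000) := D_5 (nat_lit 90) (nat_lit 157) (nat_lit 73) (nat_lit 5) (nat_lit 5) (nat_lit 5) (nat_lit 5) (nat_lit 5) (nat_lit 4) (by decide +kernel)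
theorem L45101 : W_5 (nat_lit 2) (nat_lit 0x2000100013800da001c000c0000000000000000000000) (nat_lit 0x0) (nat_lit 0x300100000000000000000000000) := D_5 (nat_lit 105) (nat_lit 92) (nat_lit 104) (nat_lit 2) (nat_lit 3) (nat_lit 6) (nat_lit 2) (nat_lit 2) (nat_lit 6) (by decide +kernel)
theorem L45102 : W_5 (nat_lit 3) (nat_lit 0x2000100013800da001c00040000000000000000000000) (nat_lit 0x0) (nat_lit 0x300180004000000000000000000) := T_5 (nat_lit 91) (nat_lit 74) (nat_lit 6) (nat_lit 5) (nat_lit 8) L45101 (by decide +kernel)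
theorem L45103 : W_5 (nat_lit 4) (nat_lit 0x2000100013800da001c00000000000000000000000000) (nat_lit 0x0) (nat_lit 0x3001c0006000000000000000000) := T_5 (nat_lit 90) (nat_lit 73) (nat_lit 5) (nat_lit 5) (nat_lit 4) L45102 (by decide +kernel)
theorem L45104 : W_5 (nat_lit 5) (nat_lit 0x2000100013800da001800000000000000000000000000) (nat_lit 0x0) (nat_lit 0x27001c0006000000000000000000) := T_5 (nat_lit 106) (nat_lit 109) (nat_lit 3) (nat_lit 4) (nat_lit 6) L45103 (by decide +kernel)
theorem L45105 : W_5 (nat_lit 6) (nat_lit 0x2000100013800d8001800000000000000000000000000) (nat_lit 0x0) (nat_lit 0x60027001c0006000000000000000000) := T_5 (nat_lit 121) (nat_lit 122) (nat_lit 2) (nat_lit 2) (nat_lit 7) L45104 (by decide +kernel)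
theorem L45106 : W_5 (nat_lit 7) (nat_lit 0x200010001380098001800000000000000000000000000) (nat_lit 0x0) (nat_lit 0x660027001c0006000000000000000000) := T_5 (nat_lit 126) (nat_lit 125) (nat_lit 1) (nat_lit 7) (nat_lit 7) L45105 (by decide +kernel)
theorem L45107 : W_5 (nat_lit 2) (nat_lit 0x2000100013800bc001a00010006000000000000000000) (nat_lit 0x0) (nat_lit 0x400008000400000000000000000) := D_5 (nat_lit 87) (nat_lit 70) (nat_lit 106) (nat_lit 4) (nat_lit 3) (nat_lit 8) (nat_lit 0) (nat_lit 6) (nat_lit 6) (by decide +kernel)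
theorem L45108 : W_5 (nat_lit 3) (nat_lit 0x2000100013800bc001a00000006000000000000000000) (nat_lit 0x0) (nat_lit 0x400018000c00000000000000000) := T_5 (nat_lit 88) (nat_lit 71) (nat_lit 7) (nat_lit 3) (nat_lit 4) L45107 (by decide +kernel)
theorem L45109 : W_5 (nat_lit 4) (nat_lit 0x2000100013800bc001800000006000000000000000000) (nat_lit 0x0) (nat_lit 0x700018000c00000000000000000) := T_5 (nat_lit 105) (nat_lit 104) (nat_lit 0) (nat_lit 6) (nat_lit 7) L45108 (by decide +kernel)
theorem L45110 : W_5 (nat_lit 5) (nat_lit 0x2000100013800bc001800000002000000000000000000) (nat_lit 0x0) (nat_lit 0x700098004c00000000000000000) := T_5 (nat_lit 74) (nat_lit 91) (nat_lit 5) (nat_lit 6) (nat_lit 4) L45109 (by decide +kernel)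
theorem L45111 : W_5 (nat_lit 6) (nat_lit 0x2000100013800b8001800000002000000000000000000) (nat_lit 0x0) (nat_lit 0x6000700098004c00000000000000000) := T_5 (nat_lit 122) (nat_lit 121) (nat_lit 2) (nat_lit 2) (nat_lit 7) L45110 (by decide +kernel)
theorem L45112 : W_5 (nat_lit 7) (nat_lit 0x200010001380098001800000002000000000000000000) (nat_lit 0x0) (nat_lit 0x66000700098004c00000000000000000) := T_5 (nat_lit 125) (nat_lit 126) (nat_lit 1) (nat_lit 7) (nat_lit 7) L45111 (by decide +kernel)
theorem L45113 : W_5 (nat_lit 8) (nat_lit 0x200010001380098001800000000000000000000000000) (nat_lit 0x0) (nat_lit 0x660007000d8006c00000000000000000) := T_5 (nat_lit 73) (nat_lit 90) (nat_lit 5) (nat_lit 5) (nat_lit 4) L45112 (by decide +kernel)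
theorem L45114 : W_5 (nat_lit 2) (nat_lit 0x2000100013800d8001c00030002000000000000000000) (nat_lit 0x0) (nat_lit 0x20000c000000000000000000000) := D_5 (nat_lit 87) (nat_lit 86) (nat_lit 105) (nat_lit 3) (nat_lit 1) (nat_lit 5) (nat_lit 0) (nat_lit 6) (nat_lit 6) (by decide +kernel)
theorem L45115 : W_5 (nat_lit 3) (nat_lit 0x2000100013800d8001c00020002000000000000000000) (nat_lit 0x0) (nat_lit 0x20001c000800000000000000000) := T_5 (nat_lit 88) (nat_lit 71) (nat_lit 4) (nat_lit 4) (nat_lit 8) L45114 (by decide +kernel)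
theorem L45116 : W_5 (nat_lit 4) (nat_lit 0x2000100013800d8001c00000002000000000000000000) (nat_lit 0x0) (nat_lit 0x20003c001800000000000000000) := T_5 (nat_lit 89) (nat_lit 72) (nat_lit 7) (nat_lit 4) (nat_lit 4) L45115 (by decide +kernel)
theorem L45117 : W_5 (nat_lit 5) (nat_lit 0x2000100013800d8001800000002000000000000000000) (nat_lit 0x0) (nat_lit 0x260003c001800000000000000000) := T_5 (nat_lit 106) (nat_lit 109) (nat_lit 3) (nat_lit 4) (nat_lit 6) L45116 (by decide +kernel)
theorem L45118 : W_5 (nat_lit 6) (nat_lit 0x2000100013800d8001800000000000000000000000000) (nat_lit 0x0) (nat_lit 0x260007c003800000000000000000) := T_5 (nat_lit 73) (nat_lit 90) (nat_lit 5) (nat_lit 5) (nat_lit 4) L45117 (by decide +kernel)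
theorem L45119 : W_5 (nat_lit 7) (nat_lit 0x200010001380098001800000000000000000000000000) (nat_lit 0x0) (nat_lit 0x6000260007c003800000000000000000) := T_5 (nat_lit 126) (nat_lit 125) (nat_lit 1) (nat_lit 7) (nat_lit 7) L45118 (by decide +kernel)
theorem L45120 : W_5 (nat_lit 2) (nat_lit 0x20001000138009a001800070000000000000000000000) (nat_lit 0x0) (nat_lit 0x2000080004000000000000000000) := D_5 (nat_lit 91) (nat_lit 74) (nat_lit 109) (nat_lit 6) (nat_lit 5) (nat_lit 8) (nat_lit 3) (nat_lit 3) (nat_lit 5) (by decide +kernel)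
theorem L45121 : W_5 (nat_lit 3) (nat_lit 0x20001000138009a001800060000000000000000000000) (nat_lit 0x0) (nat_lit 0x2000098004000000000000000000) := T_5 (nat_lit 88) (nat_lit 87) (nat_lit 3) (nat_lit 2) (nat_lit 5) L45120 (by decide +kernel)
theorem L45122 : W_5 (nat_lit 4) (nat_lit 0x20001000138009a001800040000000000000000000000) (nat_lit 0x0) (nat_lit 0x20000b8005000000000000000000) := T_5 (nat_lit 89) (nat_lit 72) (nat_lit 4) (nat_lit 5) (nat_lit 8) L45121 (by decide +kernel)
theorem L45123 : W_5 (nat_lit 5) (nat_lit 0x20001000138009a001800000000000000000000000000) (nat_lit 0x0) (nat_lit 0x20000f8007000000000000000000) := T_5 (nat_lit 90) (nat_lit 73) (nat_lit 5) (nat_lit 5) (nat_lit 4) L45122 (by decide +kernel)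
theorem L45124 : W_5 (nat_lit 6) (nat_lit 0x200010001380098001800000000000000000000000000) (nat_lit 0x0) (nat_lit 0x60020000f8007000000000000000000) := T_5 (nat_lit 121) (nat_lit 122) (nat_lit 2) (nat_lit 2) (nat_lit 7) L45123 (by decide +kernel)
theorem L45125 : W_5 (nat_lit 2) (nat_lit 0x2000100013800da001c00030000000000000000000000) (nat_lit 0x0) (nat_lit 0x20000c000000000000000000000) := D_5 (nat_lit 87) (nat_lit 86) (nat_lit 105) (nat_lit 3) (nat_lit 1) (nat_lit 5) (nat_lit 0) (nat_lit 6) (nat_lit 6) (by decide +kernel)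
theorem L45126 : W_5 (nat_lit 3) (nat_lit 0x2000100013800da001c00020000000000000000000000) (nat_lit 0x0) (nat_lit 0x20001c000800000000000000000) := T_5 (nat_lit 88) (nat_lit 71) (nat_lit 4) (nat_lit 4) (nat_lit 8) L45125 (by decide +kernel)
theorem L45127 : W_5 (nat_lit 4) (nat_lit 0x2000100013800da001c00000000000000000000000000) (nat_lit 0x0) (nat_lit 0x20003c001800000000000000000) := T_5 (nat_lit 89) (nat_lit 72) (nat_lit 7) (nat_lit 4) (nat_lit 4) L45126 (by decide +kernel)
theorem L45128 : W_5 (nat_lit 5) (nat_lit 0x2000100013800da001800000000000000000000000000) (nat_lit 0x0) (nat_lit 0x260003c001800000000000000000) := T_5 (nat_lit 106) (nat_lit 109) (nat_lit 3) (nat_lit 4) (nat_lit 6) L45127 (by decide +kernel)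
theorem L45129 : W_5 (nat_lit 6) (nat_lit 0x2000100013800d8001800000000000000000000000000) (nat_lit 0x0) (nat_lit 0x600260003c001800000000000000000) := T_5 (nat_lit 121) (nat_lit 122) (nat_lit 2) (nat_lit 2) (nat_lit 7) L45128 (by decide +kernel)
theorem L45130 : W_5 (nat_lit 7) (nat_lit 0x200010001380098001800000000000000000000000000) (nat_lit 0x0) (nat_lit 0x6600260003c001800000000000000000) := T_5 (nat_lit 126) (nat_lit 125) (nat_lit 1) (nat_lit 7) (nat_lit 7) L45129 (by decide +kernel)
theorem L45131 : W_5 (nat_lit 9) (nat_lit 0x200010001380098000800000000000000000000000000) (nat_lit 0x0) (nat_lit 0x660037001fc007c00000000000000000) := Q_5 (nat_lit 108) (C_5 L45106 (C_5 L45113 (C_5 L45119 (C_5 L45124 (C_5 L45130 N_5))))) (by decide +kernel)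
theorem L45132 : W_5 (nat_lit 2) (nat_lit 0x200010001b800d8002c00100000000000000000000000) (nat_lit 0x0) (nat_lit 0x2000100008000000000000000000000000000000000000000) := D_5 (nat_lit 176) (nat_lit 193) (nat_lit 159) (nat_lit 5) (nat_lit 7) (nat_lit 7) (nat_lit 5) (nat_lit 7) (nat_lit 6) (by decide +kernel)
theorem L45133 : W_5 (nat_lit 3) (nat_lit 0x2000100013800d8002c00100000000000000000000000) (nat_lit 0x0) (nat_lit 0x2000100028000800000000000000000000000000000000000) := T_5 (nat_lit 143) (nat_lit 161) (nat_lit 7) (nat_lit 7) (nat_lit 5) L45132 (by decide +kernel)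
theorem L45134 : W_5 (nat_lit 4) (nat_lit 0x2000100013800d8002c00000000000000000000000000) (nat_lit 0x0) (nat_lit 0x2000100028000800000000000100008000000000000000000) := T_5 (nat_lit 92) (nat_lit 75) (nat_lit 7) (nat_lit 7) (nat_lit 4) L45133 (by decide +kernel)
theorem L45135 : W_5 (nat_lit 5) (nat_lit 0x2000100013800d8000c00000000000000000000000000) (nat_lit 0x0) (nat_lit 0x2000100028000800000003000100008000000000000000000) := T_5 (nat_lit 109) (nat_lit 108) (nat_lit 3) (nat_lit 4) (nat_lit 6) L45134 (by decide +kernel)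
theorem L45136 : W_5 (nat_lit 6) (nat_lit 0x200010001380098000c00000000000000000000000000) (nat_lit 0x0) (nat_lit 0x2000100028000800060003000100008000000000000000000) := T_5 (nat_lit 126) (nat_lit 125) (nat_lit 1) (nat_lit 7) (nat_lit 7) L45135 (by decide +kernel)
theorem L45137 : W_5 (nat_lit 2) (nat_lit 0x2000100013800d8000e00030000000000000000000000) (nat_lit 0x0) (nat_lit 0x100000c000000000000000000000) := D_5 (nat_lit 87) (nat_lit 86) (nat_lit 108) (nat_lit 3) (nat_lit 1) (nat_lit 5) (nat_lit 0) (nat_lit 6) (nat_lit 6) (by decide +kernel)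
theorem L45138 : W_5 (nat_lit 3) (nat_lit 0x2000100013800d8000c00030000000000000000000000) (nat_lit 0x0) (nat_lit 0x200000000000120000c000000000000000000000) := T_5 (nat_lit 105) (nat_lit 157) (nat_lit 4) (nat_lit 4) (nat_lit 9) L45137 (by decide +kernel)
theorem L45139 : W_5 (nat_lit 4) (nat_lit 0x2000100013800d8000c00020000000000000000000000) (nat_lit 0x0) (nat_lit 0x200000000000120001c000800000000000000000) := T_5 (nat_lit 88) (nat_lit 71) (nat_lit 4) (nat_lit 4) (nat_lit 8) L45138 (by decide +kernel)
theorem L45140 : W_5 (nat_lit 5) (nat_lit 0x2000100013800d8000c00000000000000000000000000) (nat_lit 0x0) (nat_lit 0x200000000000120003c001800000000000000000) := T_5 (nat_lit 89) (nat_lit 72) (nat_lit 7) (nat_lit 4) (nat_lit 4) L45139 (by decide +kernel)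
theorem L45141 : W_5 (nat_lit 6) (nat_lit 0x200010001380098000c00000000000000000000000000) (nat_lit 0x0) (nat_lit 0x200000006000120003c001800000000000000000) := T_5 (nat_lit 126) (nat_lit 125) (nat_lit 1) (nat_lit 7) (nat_lit 7) L45140 (by decide +kernel)
theorem L45142 : W_5 (nat_lit 2) (nat_lit 0x200010001380098000e00030000000000000000000000) (nat_lit 0x0) (nat_lit 0x100000c000000000000000000000) := D_5 (nat_lit 87) (nat_lit 86) (nat_lit 108) (nat_lit 3) (nat_lit 1) (nat_lit 5) (nat_lit 0) (nat_lit 6) (nat_lit 6) (by decide +kernel)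
theorem L45143 : W_5 (nat_lit 3) (nat_lit 0x200010001380098000c00030000000000000000000000) (nat_lit 0x0) (nat_lit 0x200000000000120000c000000000000000000000) := T_5 (nat_lit 105) (nat_lit 157) (nat_lit 4) (nat_lit 4) (nat_lit 9) L45142 (by decide +kernel)
theorem L45144 : W_5 (nat_lit 4) (nat_lit 0x200010001380098000c00020000000000000000000000) (nat_lit 0x0) (nat_lit 0x200000000000120001c000800000000000000000) := T_5 (nat_lit 88) (nat_lit 71) (nat_lit 4) (nat_lit 4) (nat_lit 8) L45143 (by decide +kernel)
theorem L45145 : W_5 (nat_lit 5) (nat_lit 0x200010001380098000c00000000000000000000000000) (nat_lit 0x0) (nat_lit 0x200000000000120003c001800000000000000000) := T_5 (nat_lit 89) (nat_lit 72) (nat_lit 7) (nat_lit 4) (nat_lit 4) L45144 (by decide +kernel)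
theorem L45146 : W_5 (nat_lit 2) (nat_lit 0x2000100013800b8000e00010001000000000000000000) (nat_lit 0x0) (nat_lit 0x4000000000000800040000000000000) := D_5 (nat_lit 71) (nat_lit 54) (nat_lit 122) (nat_lit 7) (nat_lit 3) (nat_lit 3) (nat_lit 7) (nat_lit 3) (nat_lit 4) (by decide +kernel)
theorem L45147 : W_5 (nat_lit 3) (nat_lit 0x2000100013800b8000e00000001000000000000000000) (nat_lit 0x0) (nat_lit 0x2000000004000000010000800040000000000000) := T_5 (nat_lit 88) (nat_lit 157) (nat_lit 4) (nat_lit 4) (nat_lit 9) L45146 (by decide +kernel)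
theorem L45148 : W_5 (nat_lit 4) (nat_lit 0x2000100013800b8000c00000001000000000000000000) (nat_lit 0x0) (nat_lit 0x2000000004000300010000800040000000000000) := T_5 (nat_lit 105) (nat_lit 104) (nat_lit 3) (nat_lit 2) (nat_lit 6) L45147 (by decide +kernel)
theorem L45149 : W_5 (nat_lit 5) (nat_lit 0x200010001380098000c00000001000000000000000000) (nat_lit 0x0) (nat_lit 0x2000000064000300010000800040000000000000) := T_5 (nat_lit 125) (nat_lit 126) (nat_lit 1) (nat_lit 7) (nat_lit 7) L45148 (by decide +kernel)
theorem L45150 : W_5 (nat_lit 6) (nat_lit 0x200010001380098000c00000000000000000000000000) (nat_lit 0x0) (nat_lit 0x2000000064000300030001800040000000000000) := T_5 (nat_lit 72) (nat_lit 89) (nat_lit 7) (nat_lit 4) (nat_lit 4) L45149 (by decide +kernel)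
theorem L45151 : W_5 (nat_lit 7) (nat_lit 0x200010001380098000800000000000000000000000000) (nat_lit 0x0) (nat_lit 0x200010002a00080006400370013c009800040000000000000) := Q_5 (nat_lit 106) (C_5 L45136 (C_5 L45141 (C_5 L45145 (C_5 L45150 N_5)))) (by decide +kernel)
theorem L45152 : W_5 (nat_lit 10) (nat_lit 0x200010001380098000000000000000000000000000000) (nat_lit 0x0) (nat_lit 0x200010002a000800066003f001fc00fc00040000000000000) := Q_5 (nat_lit 107) (C_5 L45100 (C_5 L45131 (C_5 L45151 N_5))) (by decide +kernel)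
theorem L45153 : W_5 (nat_lit 2) (nat_lit 0x20001000138009e000800000000000000000000000000) (nat_lit 0x0) (nat_lit 0x2000000000000000040002000000000000000000) := D_5 (nat_lit 90) (nat_lit 157) (nat_lit 73) (nat_lit 5) (nat_lit 5) (nat_lit 5) (nat_lit 5) (nat_lit 5) (nat_lit 4) (by decide +kernel)
theorem L45154 : W_5 (nat_lit 3) (nat_lit 0x20001000138009e000000000000000000000000000000) (nat_lit 0x0) (nat_lit 0x2000000000001800040002000000000000000000) := T_5 (nat_lit 107) (nat_lit 108) (nat_lit 2) (nat_lit 2) (nat_lit 7) L45153 (by decide +kernel)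
theorem L45155 : W_5 (nat_lit 4) (nat_lit 0x20001000138009c000000000000000000000000000000) (nat_lit 0x0) (nat_lit 0x2000000003001800040002000000000000000000) := T_5 (nat_lit 121) (nat_lit 120) (nat_lit 3) (nat_lit 1) (nat_lit 7) L45154 (by decide +kernel)
theorem L45156 : W_5 (nat_lit 7) (nat_lit 0x2000108013c009a000800000002000000000000000000) (nat_lit 0x0) (nat_lit 0x400158003c001e00000000000000000) := T_5 (nat_lit 122) (nat_lit 108) (nat_lit 2) (nat_lit 2) (nat_lit 7) L43698 (by decide +kernel)
theorem L45157 : W_5 (nat_lit 8) (nat_lit 0x2000108013c0098000800000002000000000000000000) (nat_lit 0x0) (nat_lit 0x700158003c001e00000000000000000) := T_5 (nat_lit 121) (nat_lit 120) (nat_lit 0) (nat_lit 5) (nat_lit 8) L45156 (by decide +kernel)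
theorem L45158 : W_5 (nat_lit 9) (nat_lit 0x2000100013c0098000800000002000000000000000000) (nat_lit 0x0) (nat_lit 0xc0000000700158003c001e00000000000000000) := T_5 (nat_lit 155) (nat_lit 154) (nat_lit 1) (nat_lit 5) (nat_lit 8) L45157 (by decide +kernel)
theorem L45159 : W_5 (nat_lit 10) (nat_lit 0x2000100013c0098000800000000000000000000000000) (nat_lit 0x0) (nat_lit 0xc0000000700158007c003e00000000000000000) := T_5 (nat_lit 73) (nat_lit 90) (nat_lit 5) (nat_lit 5) (nat_lit 4) L45158 (by decide +kernel)
theorem L45160 : W_5 (nat_lit 11) (nat_lit 0x200010001380098000800000000000000000000000000) (nat_lit 0x0) (nat_lit 0xc0006000700158007c003e00000000000000000) := T_5 (nat_lit 138) (nat_lit 137) (nat_lit 2) (nat_lit 1) (nat_lit 8) L45159 (by decide +kernel)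
theorem L45161 : W_5 (nat_lit 3) (nat_lit 0x2000108013c009a000800000000000000000000000000) (nat_lit 0x0) (nat_lit 0x10000000000004001200010000000000000000000000) := T_5 (nat_lit 122) (nat_lit 108) (nat_lit 2) (nat_lit 2) (nat_lit 7) L43353 (by decide +kernel)
theorem L45162 : W_5 (nat_lit 4) (nat_lit 0x2000100013c009a000800000000000000000000000000) (nat_lit 0x0) (nat_lit 0x10000c00000004001200010000000000000000000000) := T_5 (nat_lit 155) (nat_lit 154) (nat_lit 1) (nat_lit 5) (nat_lit 8) L45161 (by decide +kernel)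
theorem L45163 : W_5 (nat_lit 5) (nat_lit 0x2000100013c0098000800000000000000000000000000) (nat_lit 0x0) (nat_lit 0x10000c00000007001200010000000000000000000000) := T_5 (nat_lit 121) (nat_lit 120) (nat_lit 0) (nat_lit 5) (nat_lit 8) L45162 (by decide +kernel)
theorem L45164 : W_5 (nat_lit 6) (nat_lit 0x200010001380098000800000000000000000000000000) (nat_lit 0x0) (nat_lit 0x10000c00060007001200010000000000000000000000) := T_5 (nat_lit 138) (nat_lit 137) (nat_lit 2) (nat_lit 1) (nat_lit 8) L45163 (by decide +kernel)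
theorem L45165 : W_5 (nat_lit 12) (nat_lit 0x200010001380098000000000000000000000000000000) (nat_lit 0x0) (nat_lit 0x10002c00060007001f8007c003e00000000000000000) := Q_5 (nat_lit 107) (C_5 L45100 (C_5 L45160 (C_5 L45164 N_5))) (by decide +kernel)
theorem L45166 : W_5 (nat_lit 13) (nat_lit 0x200010001300098000000000000000000000000000000) (nat_lit 0x0) (nat_lit 0x200011002ac008e0067003f801fc00fe00040000000000000) := Q_5 (nat_lit 139) (C_5 L42589 (C_5 L45152 (C_5 L45165 N_5))) (by decide +kernel)
theorem L45167 : W_5 (nat_lit 2) (nat_lit 0x200010001300098000800000000000000000000000000) (nat_lit 0x0) (nat_lit 0x2000000000000000040002000000000000000000) := D_5 (nat_lit 90) (nat_lit 157) (nat_lit 73) (nat_lit 5) (nat_lit 5) (nat_lit 5) (nat_lit 5) (nat_lit 5) (nat_lit 4) (by decide +kernel)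
theorem L45168 : W_5 (nat_lit 2) (nat_lit 0x2000100013400da000f00038002000000000000000000) (nat_lit 0x0) (nat_lit 0x400020004000000000000000000000000000000) := D_5 (nat_lit 137) (nat_lit 154) (nat_lit 122) (nat_lit 5) (nat_lit 2) (nat_lit 5) (nat_lit 1) (nat_lit 5) (nat_lit 7) (by decide +kernel)
theorem L45169 : W_5 (nat_lit 3) (nat_lit 0x2000100013000da000f00038002000000000000000000) (nat_lit 0x0) (nat_lit 0xc00060004000000000000000000000000000000) := T_5 (nat_lit 138) (nat_lit 155) (nat_lit 6) (nat_lit 2) (nat_lit 9) L45168 (by decide +kernel)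
theorem L45170 : W_5 (nat_lit 4) (nat_lit 0x2000100013000d8000f00038002000000000000000000) (nat_lit 0x0) (nat_lit 0xc00060007000000000000000000000000000000) := T_5 (nat_lit 121) (nat_lit 120) (nat_lit 1) (nat_lit 5) (nat_lit 6) L45169 (by decide +kernel)
theorem L45171 : W_5 (nat_lit 5) (nat_lit 0x2000100013000d8000e00038002000000000000000000) (nat_lit 0x0) (nat_lit 0xc00060007000180000000000000000000000000) := T_5 (nat_lit 104) (nat_lit 103) (nat_lit 3) (nat_lit 1) (nat_lit 6) L45170 (by decide +kernel)
theorem L45172 : W_5 (nat_lit 6) (nat_lit 0x2000100013000d8000c00038002000000000000000000) (nat_lit 0x0) (nat_lit 0xc00060007001380000000000000000000000000) := T_5 (nat_lit 105) (nat_lit 108) (nat_lit 0) (nat_lit 6) (nat_lit 6) L45171 (by decide +kernel)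
theorem L45173 : W_5 (nat_lit 7) (nat_lit 0x2000100013000d8000c00030002000000000000000000) (nat_lit 0x0) (nat_lit 0xc0006000700138000c000000000000000000000) := T_5 (nat_lit 87) (nat_lit 86) (nat_lit 3) (nat_lit 1) (nat_lit 5) L45172 (by decide +kernel)
theorem L45174 : W_5 (nat_lit 8) (nat_lit 0x2000100013000d8000c00020002000000000000000000) (nat_lit 0x0) (nat_lit 0xc0006000700138001c000800000000000000000) := T_5 (nat_lit 88) (nat_lit 71) (nat_lit 4) (nat_lit 4) (nat_lit 8) L45173 (by decide +kernel)
theorem L45175 : W_5 (nat_lit 9) (nat_lit 0x200010001300098000c00020002000000000000000000) (nat_lit 0x0) (nat_lit 0xc0006006700138001c000800000000000000000) := T_5 (nat_lit 126) (nat_lit 125) (nat_lit 1) (nat_lit 8) (nat_lit 7) L45174 (by decide +kernel)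
theorem L45176 : W_5 (nat_lit 10) (nat_lit 0x200010001300098000c00000002000000000000000000) (nat_lit 0x0) (nat_lit 0xc0006006700138003c001800000000000000000) := T_5 (nat_lit 89) (nat_lit 72) (nat_lit 7) (nat_lit 4) (nat_lit 4) L45175 (by decide +kernel)
theorem L45177 : W_5 (nat_lit 11) (nat_lit 0x200010001300098000c00000000000000000000000000) (nat_lit 0x0) (nat_lit 0xc0006006700138007c003800000000000000000) := T_5 (nat_lit 73) (nat_lit 90) (nat_lit 5) (nat_lit 5) (nat_lit 4) L45176 (by decide +kernel)
theorem L45178 : W_5 (nat_lit 2) (nat_lit 0x2000100013000d8000d002f0000000000000000000000) (nat_lit 0x0) (nat_lit 0x8000c000000000000000000000) := D_5 (nat_lit 87) (nat_lit 86) (nat_lit 103) (nat_lit 3) (nat_lit 1) (nat_lit 5) (nat_lit 1) (nat_lit 5) (nat_lit 5) (by decide +kernel)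
theorem L45179 : W_5 (nat_lit 3) (nat_lit 0x2000100013000d8000d002e0000000000000000000000) (nat_lit 0x0) (nat_lit 0x8001c000800000000000000000) := T_5 (nat_lit 88) (nat_lit 71) (nat_lit 4) (nat_lit 4) (nat_lit 8) L45178 (by decide +kernel)
theorem L45180 : W_5 (nat_lit 4) (nat_lit 0x2000100013000d8000d002c0000000000000000000000) (nat_lit 0x0) (nat_lit 0x8003c001800000000000000000) := T_5 (nat_lit 89) (nat_lit 72) (nat_lit 7) (nat_lit 4) (nat_lit 4) L45179 (by decide +kernel)
theorem L45181 : W_5 (nat_lit 5) (nat_lit 0x2000100013000d8000d000c0000000000000000000000) (nat_lit 0x0) (nat_lit 0x8033c001800000000000000000) := T_5 (nat_lit 93) (nat_lit 92) (nat_lit 1) (nat_lit 8) (nat_lit 5) L45180 (by decide +kernel)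
theorem L45182 : W_5 (nat_lit 6) (nat_lit 0x2000100013000d8000c000c0000000000000000000000) (nat_lit 0x0) (nat_lit 0x38033c001800000000000000000) := T_5 (nat_lit 104) (nat_lit 105) (nat_lit 2) (nat_lit 2) (nat_lit 6) L45181 (by decide +kernel)
theorem L45183 : W_5 (nat_lit 7) (nat_lit 0x2000100013000d8000c00040000000000000000000000) (nat_lit 0x0) (nat_lit 0x3803bc005800000000000000000) := T_5 (nat_lit 91) (nat_lit 74) (nat_lit 6) (nat_lit 5) (nat_lit 8) L45182 (by decide +kernel)
theorem L45184 : W_5 (nat_lit 8) (nat_lit 0x200010001300098000c00040000000000000000000000) (nat_lit 0x0) (nat_lit 0x600003803bc005800000000000000000) := T_5 (nat_lit 126) (nat_lit 125) (nat_lit 1) (nat_lit 8) (nat_lit 7) L45183 (by decide +kernel)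
theorem L45185 : W_5 (nat_lit 9) (nat_lit 0x200010001300098000c00000000000000000000000000) (nat_lit 0x0) (nat_lit 0x600003803fc007800000000000000000) := T_5 (nat_lit 90) (nat_lit 73) (nat_lit 5) (nat_lit 5) (nat_lit 4) L45184 (by decide +kernel)
theorem L45186 : W_5 (nat_lit 12) (nat_lit 0x200010001300098000800000000000000000000000000) (nat_lit 0x0) (nat_lit 0x2000100028c008600670037803fc00f800000000000000000) := Q_5 (nat_lit 106) (C_5 L45052 (C_5 L45177 (C_5 L42929 (C_5 L45185 N_5)))) (by decide +kernel)
theorem L45187 : W_5 (nat_lit 2) (nat_lit 0x2000100013000d8000e00030000000000000000000000) (nat_lit 0x0) (nat_lit 0x100000c000000000000000000000) := D_5 (nat_lit 87) (nat_lit 86) (nat_lit 108) (nat_lit 3) (nat_lit 1) (nat_lit 5) (nat_lit 0) (nat_lit 6) (nat_lit 6) (by decide +kernel)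
theorem L45188 : W_5 (nat_lit 3) (nat_lit 0x2000100013000d8000c00030000000000000000000000) (nat_lit 0x0) (nat_lit 0x200000000000120000c000000000000000000000) := T_5 (nat_lit 105) (nat_lit 157) (nat_lit 4) (nat_lit 4) (nat_lit 9) L45187 (by decide +kernel)
theorem L45189 : W_5 (nat_lit 4) (nat_lit 0x2000100013000d8000c00020000000000000000000000) (nat_lit 0x0) (nat_lit 0x200000000000120001c000800000000000000000) := T_5 (nat_lit 88) (nat_lit 71) (nat_lit 4) (nat_lit 4) (nat_lit 8) L45188 (by decide +kernel)
theorem L45190 : W_5 (nat_lit 5) (nat_lit 0x2000100013000d8000c00000000000000000000000000) (nat_lit 0x0) (nat_lit 0x200000000000120003c001800000000000000000) := T_5 (nat_lit 89) (nat_lit 72) (nat_lit 7) (nat_lit 4) (nat_lit 4) L45189 (by decide +kernel)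
theorem L45191 : W_5 (nat_lit 6) (nat_lit 0x200010001300098000c00000000000000000000000000) (nat_lit 0x0) (nat_lit 0x200000006000120003c001800000000000000000) := T_5 (nat_lit 126) (nat_lit 125) (nat_lit 1) (nat_lit 8) (nat_lit 7) L45190 (by decide +kernel)
theorem L45192 : W_5 (nat_lit 2) (nat_lit 0x200010001300098000e00030000000000000000000000) (nat_lit 0x0) (nat_lit 0x100000c000000000000000000000) := D_5 (nat_lit 87) (nat_lit 86) (nat_lit 108) (nat_lit 3) (nat_lit 1) (nat_lit 5) (nat_lit 0) (nat_lit 6) (nat_lit 6) (by decide +kernel)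
theorem L45193 : W_5 (nat_lit 3) (nat_lit 0x200010001300098000c00030000000000000000000000) (nat_lit 0x0) (nat_lit 0x200000000000120000c000000000000000000000) := T_5 (nat_lit 105) (nat_lit 157) (nat_lit 4) (nat_lit 4) (nat_lit 9) L45192 (by decide +kernel)
theorem L45194 : W_5 (nat_lit 4) (nat_lit 0x200010001300098000c00020000000000000000000000) (nat_lit 0x0) (nat_lit 0x200000000000120001c000800000000000000000) := T_5 (nat_lit 88) (nat_lit 71) (nat_lit 4) (nat_lit 4) (nat_lit 8) L45193 (by decide +kernel)
theorem L45195 : W_5 (nat_lit 5) (nat_lit 0x200010001300098000c00000000000000000000000000) (nat_lit 0x0) (nat_lit 0x200000000000120003c001800000000000000000) := T_5 (nat_lit 89) (nat_lit 72) (nat_lit 7) (nat_lit 4) (nat_lit 4) L45194 (by decide +kernel)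
theorem L45196 : W_5 (nat_lit 2) (nat_lit 0x2000100013000b8000e00010001000000000000000000) (nat_lit 0x0) (nat_lit 0x4000000000000800040000000000000) := D_5 (nat_lit 71) (nat_lit 122) (nat_lit 54) (nat_lit 7) (nat_lit 3) (nat_lit 4) (nat_lit 7) (nat_lit 3) (nat_lit 3) (by decide +kernel)
theorem L45197 : W_5 (nat_lit 3) (nat_lit 0x2000100013000b8000e00000001000000000000000000) (nat_lit 0x0) (nat_lit 0x2000000004000000010000800040000000000000) := T_5 (nat_lit 88) (nat_lit 157) (nat_lit 4) (nat_lit 4) (nat_lit 9) L45196 (by decide +kernel)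
theorem L45198 : W_5 (nat_lit 4) (nat_lit 0x2000100013000b8000c00000001000000000000000000) (nat_lit 0x0) (nat_lit 0x2000000004000300010000800040000000000000) := T_5 (nat_lit 105) (nat_lit 104) (nat_lit 3) (nat_lit 2) (nat_lit 6) L45197 (by decide +kernel)
theorem L45199 : W_5 (nat_lit 5) (nat_lit 0x200010001300098000c00000001000000000000000000) (nat_lit 0x0) (nat_lit 0x2000000064000300010000800040000000000000) := T_5 (nat_lit 125) (nat_lit 126) (nat_lit 1) (nat_lit 8) (nat_lit 7) L45198 (by decide +kernel)
theorem L45200 : W_5 (nat_lit 6) (nat_lit 0x200010001300098000c00000000000000000000000000) (nat_lit 0x0) (nat_lit 0x2000000064000300030001800040000000000000) := T_5 (nat_lit 72) (nat_lit 89) (nat_lit 7) (nat_lit 4) (nat_lit 4) L45199 (by decide +kernel)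
theorem L45201 : W_5 (nat_lit 7) (nat_lit 0x200010001300098000800000000000000000000000000) (nat_lit 0x0) (nat_lit 0x200010002a00080006400370013c009800040000000000000) := Q_5 (nat_lit 106) (C_5 L45052 (C_5 L45191 (C_5 L45195 (C_5 L45200 N_5)))) (by decide +kernel)
theorem L45202 : W_5 (nat_lit 13) (nat_lit 0x200010001300098000000000000000000000000000000) (nat_lit 0x0) (nat_lit 0x200010002ac00860067003f803fc00f800040000000000000) := Q_5 (nat_lit 107) (C_5 L45167 (C_5 L45186 (C_5 L45201 N_5))) (by decide +kernel)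
theorem L45203 : W_5 (nat_lit 2) (nat_lit 0x2000100013800de000d00040000000000000000000000) (nat_lit 0x0) (nat_lit 0x200080004000000000000000000) := D_5 (nat_lit 91) (nat_lit 74) (nat_lit 105) (nat_lit 6) (nat_lit 5) (nat_lit 8) (nat_lit 2) (nat_lit 2) (nat_lit 6) (by decide +kernel)
theorem L45204 : W_5 (nat_lit 3) (nat_lit 0x2000100013800de000c00040000000000000000000000) (nat_lit 0x0) (nat_lit 0x380080004000000000000000000) := T_5 (nat_lit 104) (nat_lit 103) (nat_lit 0) (nat_lit 5) (nat_lit 7) L45203 (by decide +kernel)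
theorem L45205 : W_5 (nat_lit 4) (nat_lit 0x2000100013800de000c00000000000000000000000000) (nat_lit 0x0) (nat_lit 0x3800c0006000000000000000000) := T_5 (nat_lit 90) (nat_lit 73) (nat_lit 5) (nat_lit 5) (nat_lit 4) L45204 (by decide +kernel)
theorem L45206 : W_5 (nat_lit 5) (nat_lit 0x2000100013800de000400000000000000000000000000) (nat_lit 0x0) (nat_lit 0x1b800c0006000000000000000000) := T_5 (nat_lit 107) (nat_lit 108) (nat_lit 2) (nat_lit 2) (nat_lit 7) L45205 (by decide +kernel)
theorem L45207 : W_5 (nat_lit 6) (nat_lit 0x2000100013800dc000400000000000000000000000000) (nat_lit 0x0) (nat_lit 0x3001b800c0006000000000000000000) := T_5 (nat_lit 121) (nat_lit 120) (nat_lit 3) (nat_lit 1) (nat_lit 7) L45206 (by decide +kernel)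
theorem L45208 : W_5 (nat_lit 7) (nat_lit 0x20001000138009c000400000000000000000000000000) (nat_lit 0x0) (nat_lit 0x63001b800c0006000000000000000000) := T_5 (nat_lit 126) (nat_lit 125) (nat_lit 1) (nat_lit 7) (nat_lit 7) L45207 (by decide +kernel)
theorem L45209 : W_5 (nat_lit 2) (nat_lit 0x22001000138009e000d00040000000000000000000000) (nat_lit 0x0) (nat_lit 0x200080004000000000000000000) := D_5 (nat_lit 91) (nat_lit 105) (nat_lit 74) (nat_lit 2) (nat_lit 2) (nat_lit 6) (nat_lit 6) (nat_lit 5) (nat_lit 8) (by decide +kernel)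
theorem L45210 : W_5 (nat_lit 3) (nat_lit 0x22001000138009e000d00000000000000000000000000) (nat_lit 0x0) (nat_lit 0x2000c0006000000000000000000) := T_5 (nat_lit 90) (nat_lit 73) (nat_lit 5) (nat_lit 5) (nat_lit 4) L45209 (by decide +kernel)
theorem L45211 : W_5 (nat_lit 4) (nat_lit 0x22001000138009e000500000000000000000000000000) (nat_lit 0x0) (nat_lit 0x1a000c0006000000000000000000) := T_5 (nat_lit 107) (nat_lit 108) (nat_lit 2) (nat_lit 2) (nat_lit 7) L45210 (by decide +kernel)
theorem L45212 : W_5 (nat_lit 5) (nat_lit 0x22001000138009e000400000000000000000000000000) (nat_lit 0x0) (nat_lit 0x1b800c0006000000000000000000) := T_5 (nat_lit 104) (nat_lit 103) (nat_lit 0) (nat_lit 5) (nat_lit 7) L45211 (by decide +kernel)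
theorem L45213 : W_5 (nat_lit 6) (nat_lit 0x20001000138009e000400000000000000000000000000) (nat_lit 0x0) (nat_lit 0x20001000000000001b800c0006000000000000000000) := T_5 (nat_lit 173) (nat_lit 156) (nat_lit 6) (nat_lit 3) (nat_lit 10) L45212 (by decide +kernel)
theorem L45214 : W_5 (nat_lit 7) (nat_lit 0x20001000138009c000400000000000000000000000000) (nat_lit 0x0) (nat_lit 0x20001000000003001b800c0006000000000000000000) := T_5 (nat_lit 121) (nat_lit 120) (nat_lit 3) (nat_lit 1) (nat_lit 7) L45213 (by decide +kernel)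
theorem L45215 : W_5 (nat_lit 11) (nat_lit 0x200010001380098000400000000000000000000000000) (nat_lit 0x0) (nat_lit 0x2000120029000800067003b803c800e400000000000000000) := Q_5 (nat_lit 122) (C_5 L42699 (C_5 L45208 (C_5 L45214 (C_5 L44820 N_5)))) (by decide +kernel)
theorem L45216 : W_5 (nat_lit 2) (nat_lit 0x200010001380098000e000c0001000000000000000000) (nat_lit 0x0) (nat_lit 0x1000300000000000000000000000) := D_5 (nat_lit 92) (nat_lit 93) (nat_lit 108) (nat_lit 1) (nat_lit 8) (nat_lit 5) (nat_lit 2) (nat_lit 3) (nat_lit 6) (by decide +kernel)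
theorem L45217 : W_5 (nat_lit 3) (nat_lit 0x200010001380098000c000c0001000000000000000000) (nat_lit 0x0) (nat_lit 0x1300300000000000000000000000) := T_5 (nat_lit 105) (nat_lit 104) (nat_lit 2) (nat_lit 2) (nat_lit 6) L45216 (by decide +kernel)
theorem L45218 : W_5 (nat_lit 4) (nat_lit 0x200010001380098000c00040001000000000000000000) (nat_lit 0x0) (nat_lit 0x1300380004000000000000000000) := T_5 (nat_lit 91) (nat_lit 74) (nat_lit 6) (nat_lit 5) (nat_lit 8) L45217 (by decide +kernel)
theorem L45219 : W_5 (nat_lit 5) (nat_lit 0x200010001380098000c00000001000000000000000000) (nat_lit 0x0) (nat_lit 0x13003c0006000000000000000000) := T_5 (nat_lit 90) (nat_lit 73) (nat_lit 5) (nat_lit 5) (nat_lit 4) L45218 (by decide +kernel)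
theorem L45220 : W_5 (nat_lit 6) (nat_lit 0x200010001380098000c00000000000000000000000000) (nat_lit 0x0) (nat_lit 0x13003e0007000000000000000000) := T_5 (nat_lit 72) (nat_lit 89) (nat_lit 7) (nat_lit 4) (nat_lit 4) L45219 (by decide +kernel)
theorem L45221 : W_5 (nat_lit 2) (nat_lit 0x2000100013800d8000c000f4000000000000000000000) (nat_lit 0x0) (nat_lit 0x300100000000000000000000000) := D_5 (nat_lit 105) (nat_lit 104) (nat_lit 92) (nat_lit 2) (nat_lit 2) (nat_lit 6) (nat_lit 1) (nat_lit 7) (nat_lit 5) (by decide +kernel)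
theorem L45222 : W_5 (nat_lit 3) (nat_lit 0x2000100013800d8000c00074000000000000000000000) (nat_lit 0x0) (nat_lit 0x300180004000000000000000000) := T_5 (nat_lit 91) (nat_lit 74) (nat_lit 6) (nat_lit 5) (nat_lit 8) L45221 (by decide +kernel)
theorem L45223 : W_5 (nat_lit 4) (nat_lit 0x2000100013800d8000c00070000000000000000000000) (nat_lit 0x0) (nat_lit 0x30018c004000000000000000000) := T_5 (nat_lit 86) (nat_lit 87) (nat_lit 3) (nat_lit 1) (nat_lit 5) L45222 (by decide +kernel)
theorem L45224 : W_5 (nat_lit 5) (nat_lit 0x2000100013800d8000c00060000000000000000000000) (nat_lit 0x0) (nat_lit 0x30019c004800000000000000000) := T_5 (nat_lit 88) (nat_lit 71) (nat_lit 4) (nat_lit 4) (nat_lit 8) L45223 (by decide +kernel)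
theorem L45225 : W_5 (nat_lit 6) (nat_lit 0x2000100013800d8000c00040000000000000000000000) (nat_lit 0x0) (nat_lit 0x3001bc005800000000000000000) := T_5 (nat_lit 89) (nat_lit 72) (nat_lit 7) (nat_lit 4) (nat_lit 4) L45224 (by decide +kernel)
theorem L45226 : W_5 (nat_lit 7) (nat_lit 0x200010001380098000c00040000000000000000000000) (nat_lit 0x0) (nat_lit 0x600003001bc005800000000000000000) := T_5 (nat_lit 126) (nat_lit 125) (nat_lit 1) (nat_lit 7) (nat_lit 7) L45225 (by decide +kernel)
theorem L45227 : W_5 (nat_lit 8) (nat_lit 0x200010001380098000c00000000000000000000000000) (nat_lit 0x0) (nat_lit 0x600003001fc007800000000000000000) := T_5 (nat_lit 90) (nat_lit 73) (nat_lit 5) (nat_lit 5) (nat_lit 4) L45226 (by decide +kernel)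
theorem L45228 : W_5 (nat_lit 5) (nat_lit 0x2000100013800d8001c00000000000000000000000000) (nat_lit 0x0) (nat_lit 0x600020003c001800000000000000000) := T_5 (nat_lit 121) (nat_lit 122) (nat_lit 2) (nat_lit 2) (nat_lit 7) L45127 (by decide +kernel)
theorem L45229 : W_5 (nat_lit 6) (nat_lit 0x2000100013800d8000c00000000000000000000000000) (nat_lit 0x0) (nat_lit 0x600320003c001800000000000000000) := T_5 (nat_lit 108) (nat_lit 109) (nat_lit 3) (nat_lit 4) (nat_lit 6) L45228 (by decide +kernel)
theorem L45230 : W_5 (nat_lit 7) (nat_lit 0x200010001380098000c00000000000000000000000000) (nat_lit 0x0) (nat_lit 0x6600320003c001800000000000000000) := T_5 (nat_lit 126) (nat_lit 125) (nat_lit 1) (nat_lit 7) (nat_lit 7) L45229 (by decide +kernel)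
theorem L45231 : W_5 (nat_lit 9) (nat_lit 0x200010001380098000400000000000000000000000000) (nat_lit 0x0) (nat_lit 0x2000100028000800066003b003fc00f800000000000000000) := Q_5 (nat_lit 107) (C_5 L45136 (C_5 L42464 (C_5 L45220 (C_5 L45227 (C_5 L45230 N_5))))) (by decide +kernel)
theorem L45232 : W_5 (nat_lit 12) (nat_lit 0x200010001380098000000000000000000000000000000) (nat_lit 0x0) (nat_lit 0x2000120029000800067003f803fc00fc00000000000000000) := Q_5 (nat_lit 106) (C_5 L45064 (C_5 L45215 (C_5 L45231 N_5))) (by decide +kernel)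
theorem L45233 : W_5 (nat_lit 2) (nat_lit 0x2000100013a009e000d00040000000000000000000000) (nat_lit 0x0) (nat_lit 0x200080004000000000000000000) := D_5 (nat_lit 91) (nat_lit 105) (nat_lit 74) (nat_lit 2) (nat_lit 2) (nat_lit 6) (nat_lit 6) (nat_lit 5) (nat_lit 8) (by decide +kernel)
theorem L45234 : W_5 (nat_lit 3) (nat_lit 0x2000100013a009e000d00000000000000000000000000) (nat_lit 0x0) (nat_lit 0x2000c0006000000000000000000) := T_5 (nat_lit 90) (nat_lit 73) (nat_lit 5) (nat_lit 5) (nat_lit 4) L45233 (by decide +kernel)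
theorem L45235 : W_5 (nat_lit 4) (nat_lit 0x2000100013a009e000500000000000000000000000000) (nat_lit 0x0) (nat_lit 0x1a000c0006000000000000000000) := T_5 (nat_lit 107) (nat_lit 108) (nat_lit 2) (nat_lit 2) (nat_lit 7) L45234 (by decide +kernel)
theorem L45236 : W_5 (nat_lit 5) (nat_lit 0x2000100013a009e000400000000000000000000000000) (nat_lit 0x0) (nat_lit 0x1b800c0006000000000000000000) := T_5 (nat_lit 104) (nat_lit 103) (nat_lit 0) (nat_lit 5) (nat_lit 7) L45235 (by decide +kernel)
theorem L45237 : W_5 (nat_lit 6) (nat_lit 0x2000100013a009c000400000000000000000000000000) (nat_lit 0x0) (nat_lit 0x3001b800c0006000000000000000000) := T_5 (nat_lit 121) (nat_lit 120) (nat_lit 3) (nat_lit 1) (nat_lit 7) L45236 (by decide +kernel)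
theorem L45238 : W_5 (nat_lit 7) (nat_lit 0x20001000138009c000400000000000000000000000000) (nat_lit 0x0) (nat_lit 0x60003001b800c0006000000000000000000) := T_5 (nat_lit 137) (nat_lit 138) (nat_lit 2) (nat_lit 1) (nat_lit 8) L45237 (by decide +kernel)
theorem L45239 : W_5 (nat_lit 2) (nat_lit 0x2200108013c009e000c00000002000000000000000000) (nat_lit 0x0) (nat_lit 0x600010000000000000000000000000000000000000000000) := D_5 (nat_lit 172) (nat_lit 190) (nat_lit 189) (nat_lit 7) (nat_lit 2) (nat_lit 7) (nat_lit 6) (nat_lit 2) (nat_lit 11) (by decide +kernel)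
theorem L45240 : W_5 (nat_lit 3) (nat_lit 0x2200100013c009e000c00000002000000000000000000) (nat_lit 0x0) (nat_lit 0x600010000c00000000000000000000000000000000000000) := T_5 (nat_lit 155) (nat_lit 154) (nat_lit 1) (nat_lit 5) (nat_lit 8) L45239 (by decide +kernel)
theorem L45241 : W_5 (nat_lit 4) (nat_lit 0x22001000138009e000c00000002000000000000000000) (nat_lit 0x0) (nat_lit 0x600010000c00060000000000000000000000000000000000) := T_5 (nat_lit 138) (nat_lit 137) (nat_lit 2) (nat_lit 1) (nat_lit 8) L45240 (by decide +kernel)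
theorem L45242 : W_5 (nat_lit 5) (nat_lit 0x22001000138009e000c00000000000000000000000000) (nat_lit 0x0) (nat_lit 0x600010000c00060000000000040002000000000000000000) := T_5 (nat_lit 73) (nat_lit 90) (nat_lit 5) (nat_lit 5) (nat_lit 4) L45241 (by decide +kernel)
theorem L45243 : W_5 (nat_lit 6) (nat_lit 0x22001000138009e000400000000000000000000000000) (nat_lit 0x0) (nat_lit 0x600010000c00060000001800040002000000000000000000) := T_5 (nat_lit 107) (nat_lit 108) (nat_lit 2) (nat_lit 2) (nat_lit 7) L45242 (by decide +kernel)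
theorem L45244 : W_5 (nat_lit 7) (nat_lit 0x20001000138009e000400000000000000000000000000) (nat_lit 0x0) (nat_lit 0x600030001c00060000001800040002000000000000000000) := T_5 (nat_lit 173) (nat_lit 156) (nat_lit 6) (nat_lit 3) (nat_lit 10) L45243 (by decide +kernel)
theorem L45245 : W_5 (nat_lit 8) (nat_lit 0x20001000138009c000400000000000000000000000000) (nat_lit 0x0) (nat_lit 0x600030001c00060003001800040002000000000000000000) := T_5 (nat_lit 121) (nat_lit 120) (nat_lit 3) (nat_lit 1) (nat_lit 7) L45244 (by decide +kernel)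
theorem L45246 : W_5 (nat_lit 9) (nat_lit 0x200010001380098000400000000000000000000000000) (nat_lit 0x0) (nat_lit 0x600030001c00060007001b800c0006000000000000000000) := Q_5 (nat_lit 122) (C_5 L45091 (C_5 L45214 (C_5 L45238 (C_5 L45245 N_5)))) (by decide +kernel)
theorem L45247 : W_5 (nat_lit 2) (nat_lit 0x2000108013c0098000600070000000000000000000000) (nat_lit 0x0) (nat_lit 0x180080000000000000000000000) := D_5 (nat_lit 104) (nat_lit 103) (nat_lit 91) (nat_lit 3) (nat_lit 1) (nat_lit 6) (nat_lit 1) (nat_lit 6) (nat_lit 5) (by decide +kernel)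
theorem L45248 : W_5 (nat_lit 3) (nat_lit 0x2000108013c0098000400070000000000000000000000) (nat_lit 0x0) (nat_lit 0x4000380080000000000000000000000) := T_5 (nat_lit 105) (nat_lit 122) (nat_lit 5) (nat_lit 3) (nat_lit 5) L45247 (by decide +kernel)
theorem L45249 : W_5 (nat_lit 4) (nat_lit 0x2000108013c0098000400060000000000000000000000) (nat_lit 0x0) (nat_lit 0x4000380090000800000000000000000) := T_5 (nat_lit 88) (nat_lit 71) (nat_lit 4) (nat_lit 4) (nat_lit 8) L45248 (by decide +kernel)
theorem L45250 : W_5 (nat_lit 5) (nat_lit 0x2000108013c0098000400020000000000000000000000) (nat_lit 0x0) (nat_lit 0x40003800d0002800000000000000000) := T_5 (nat_lit 90) (nat_lit 73) (nat_lit 6) (nat_lit 4) (nat_lit 8) L45249 (by decide +kernel)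
theorem L45251 : W_5 (nat_lit 6) (nat_lit 0x2000100013c0098000400020000000000000000000000) (nat_lit 0x0) (nat_lit 0xc000000040003800d0002800000000000000000) := T_5 (nat_lit 155) (nat_lit 154) (nat_lit 1) (nat_lit 5) (nat_lit 8) L45250 (by decide +kernel)
theorem L45252 : W_5 (nat_lit 7) (nat_lit 0x2000100013c0098000400000000000000000000000000) (nat_lit 0x0) (nat_lit 0xc000000040003800f0003800000000000000000) := T_5 (nat_lit 89) (nat_lit 72) (nat_lit 7) (nat_lit 4) (nat_lit 4) L45251 (by decide +kernel)
theorem L45253 : W_5 (nat_lit 8) (nat_lit 0x200010001380098000400000000000000000000000000) (nat_lit 0x0) (nat_lit 0xc000600040003800f0003800000000000000000) := T_5 (nat_lit 138) (nat_lit 137) (nat_lit 2) (nat_lit 1) (nat_lit 8) L45252 (by decide +kernel)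
theorem L45254 : W_5 (nat_lit 10) (nat_lit 0x200010001380098000000000000000000000000000000) (nat_lit 0x0) (nat_lit 0x600030001c00060007001f800f0007800000000000000000) := Q_5 (nat_lit 106) (C_5 L45064 (C_5 L45246 (C_5 L45253 N_5))) (by decide +kernel)
theorem L45255 : W_5 (nat_lit 13) (nat_lit 0x200010001300098000000000000000000000000000000) (nat_lit 0x0) (nat_lit 0x2600130029c008e0067003f803fc00fc00000000000000000) := Q_5 (nat_lit 139) (C_5 L42589 (C_5 L45232 (C_5 L45254 N_5))) (by decide +kernel)
theorem L45256 : W_5 (nat_lit 7) (nat_lit 0x200010001380098000400000000000000000000000000) (nat_lit 0x0) (nat_lit 0x200010002a000800060003b003c000e000000000000000000) := Q_5 (nat_lit 107) (C_5 L45136 (C_5 L42464 (C_5 L45055 N_5))) (by decide +kernel)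
theorem L45257 : W_5 (nat_lit 8) (nat_lit 0x200010001380098000000000000000000000000000000) (nat_lit 0x0) (nat_lit 0x200010002b000800060003f003f000f800000000000000000) := Q_5 (nat_lit 106) (C_5 L45069 (C_5 L45256 (C_5 L45064 N_5))) (by decide +kernel)
theorem L45258 : W_5 (nat_lit 2) (nat_lit 0x2000100013a0098003e80010000000040000000000000) (nat_lit 0x0) (nat_lit 0x380000000000000000000000) := D_5 (nat_lit 92) (nat_lit 91) (nat_lit 93) (nat_lit 2) (nat_lit 3) (nat_lit 6) (nat_lit 2) (nat_lit 4) (nat_lit 6) (by decide +kernel)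
theorem L45259 : W_5 (nat_lit 3) (nat_lit 0x2000100013a0098001e80010000000040000000000000) (nat_lit 0x0) (nat_lit 0x40002000380000000000000000000000) := T_5 (nat_lit 109) (nat_lit 126) (nat_lit 3) (nat_lit 4) (nat_lit 6) L45258 (by decide +kernel)
theorem L45260 : W_5 (nat_lit 4) (nat_lit 0x2000100013a0098000e80010000000040000000000000) (nat_lit 0x0) (nat_lit 0x40003000388000000000000000000000) := T_5 (nat_lit 108) (nat_lit 87) (nat_lit 0) (nat_lit 6) (nat_lit 6) L45259 (by decide +kernel)
theorem L45261 : W_5 (nat_lit 5) (nat_lit 0x2000100013a0098000e80010000000000000000000000) (nat_lit 0x0) (nat_lit 0x40003000388000800040000000000000) := T_5 (nat_lit 54) (nat_lit 71) (nat_lit 7) (nat_lit 3) (nat_lit 3) L45260 (by decide +kernel)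
theorem L45262 : W_5 (nat_lit 6) (nat_lit 0x2000100013a0098000e00010000000000000000000000) (nat_lit 0x0) (nat_lit 0x40003180388000800040000000000000) := T_5 (nat_lit 103) (nat_lit 104) (nat_lit 3) (nat_lit 1) (nat_lit 6) L45261 (by decide +kernel)
theorem L45263 : W_5 (nat_lit 7) (nat_lit 0x2000100013a0098000e00000000000000000000000000) (nat_lit 0x0) (nat_lit 0x2000000040003180398000800040000000000000) := T_5 (nat_lit 88) (nat_lit 157) (nat_lit 4) (nat_lit 4) (nat_lit 9) L45262 (by decide +kernel)
theorem L45264 : W_5 (nat_lit 8) (nat_lit 0x200010001380098000e00000000000000000000000000) (nat_lit 0x0) (nat_lit 0x2000060040003180398000800040000000000000) := T_5 (nat_lit 137) (nat_lit 138) (nat_lit 2) (nat_lit 1) (nat_lit 8) L45263 (by decide +kernel)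
theorem L45265 : W_5 (nat_lit 2) (nat_lit 0x2000100013a009a000f00008000000000000000000000) (nat_lit 0x0) (nat_lit 0x2000000000001000010000000000000000000000) := D_5 (nat_lit 88) (nat_lit 157) (nat_lit 108) (nat_lit 4) (nat_lit 4) (nat_lit 9) (nat_lit 0) (nat_lit 6) (nat_lit 6) (by decide +kernel)
theorem L45266 : W_5 (nat_lit 3) (nat_lit 0x2000100013a009a000f00000000000000000000000000) (nat_lit 0x0) (nat_lit 0x200000000000100001c000000000000000000000) := T_5 (nat_lit 87) (nat_lit 86) (nat_lit 0) (nat_lit 5) (nat_lit 6) L45265 (by decide +kernel)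
theorem L45267 : W_5 (nat_lit 4) (nat_lit 0x2000100013a0098000f00000000000000000000000000) (nat_lit 0x0) (nat_lit 0x200000000300100001c000000000000000000000) := T_5 (nat_lit 121) (nat_lit 120) (nat_lit 1) (nat_lit 5) (nat_lit 6) L45266 (by decide +kernel)
theorem L45268 : W_5 (nat_lit 5) (nat_lit 0x200010001380098000f00000000000000000000000000) (nat_lit 0x0) (nat_lit 0x200006000300100001c000000000000000000000) := T_5 (nat_lit 137) (nat_lit 138) (nat_lit 2) (nat_lit 1) (nat_lit 8) L45267 (by decide +kernel)
theorem L45269 : W_5 (nat_lit 6) (nat_lit 0x200010001380098000e00000000000000000000000000) (nat_lit 0x0) (nat_lit 0x200006000300118001c000000000000000000000) := T_5 (nat_lit 104) (nat_lit 103) (nat_lit 3) (nat_lit 1) (nat_lit 6) L45268 (by decide +kernel)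
theorem L45270 : W_5 (nat_lit 2) (nat_lit 0x200010001380098003e80010000000040000000000000) (nat_lit 0x0) (nat_lit 0x380000000000000000000000) := D_5 (nat_lit 92) (nat_lit 91) (nat_lit 93) (nat_lit 2) (nat_lit 3) (nat_lit 6) (nat_lit 2) (nat_lit 4) (nat_lit 6) (by decide +kernel)
theorem L45271 : W_5 (nat_lit 3) (nat_lit 0x200010001380098001e80010000000040000000000000) (nat_lit 0x0) (nat_lit 0x40002000380000000000000000000000) := T_5 (nat_lit 109) (nat_lit 126) (nat_lit 3) (nat_lit 4) (nat_lit 6) L45270 (by decide +kernel)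
theorem L45272 : W_5 (nat_lit 4) (nat_lit 0x200010001380098000e80010000000040000000000000) (nat_lit 0x0) (nat_lit 0x40003000388000000000000000000000) := T_5 (nat_lit 108) (nat_lit 87) (nat_lit 0) (nat_lit 6) (nat_lit 6) L45271 (by decide +kernel)
theorem L45273 : W_5 (nat_lit 5) (nat_lit 0x200010001380098000e80010000000000000000000000) (nat_lit 0x0) (nat_lit 0x40003000388000800040000000000000) := T_5 (nat_lit 54) (nat_lit 71) (nat_lit 7) (nat_lit 3) (nat_lit 3) L45272 (by decide +kernel)
theorem L45274 : W_5 (nat_lit 6) (nat_lit 0x200010001380098000e00010000000000000000000000) (nat_lit 0x0) (nat_lit 0x40003180388000800040000000000000) := T_5 (nat_lit 103) (nat_lit 104) (nat_lit 3) (nat_lit 1) (nat_lit 6) L45273 (by decide +kernel)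
theorem L45275 : W_5 (nat_lit 7) (nat_lit 0x200010001380098000e00000000000000000000000000) (nat_lit 0x0) (nat_lit 0x2000000040003180398000800040000000000000) := T_5 (nat_lit 88) (nat_lit 157) (nat_lit 4) (nat_lit 4) (nat_lit 9) L45274 (by decide +kernel)
theorem L45276 : W_5 (nat_lit 2) (nat_lit 0x2000100013a009a003f00008000000000000000000000) (nat_lit 0x0) (nat_lit 0x380000000000000000000000) := D_5 (nat_lit 92) (nat_lit 91) (nat_lit 93) (nat_lit 2) (nat_lit 3) (nat_lit 6) (nat_lit 2) (nat_lit 4) (nat_lit 6) (by decide +kernel)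
theorem L45277 : W_5 (nat_lit 3) (nat_lit 0x2000100013a009a001f00008000000000000000000000) (nat_lit 0x0) (nat_lit 0x40002000380000000000000000000000) := T_5 (nat_lit 109) (nat_lit 126) (nat_lit 3) (nat_lit 4) (nat_lit 6) L45276 (by decide +kernel)
theorem L45278 : W_5 (nat_lit 4) (nat_lit 0x2000100013a009a000f00008000000000000000000000) (nat_lit 0x0) (nat_lit 0x40003000390000000000000000000000) := T_5 (nat_lit 108) (nat_lit 88) (nat_lit 0) (nat_lit 6) (nat_lit 6) L45277 (by decide +kernel)
theorem L45279 : W_5 (nat_lit 5) (nat_lit 0x2000100013a009a000f00000000000000000000000000) (nat_lit 0x0) (nat_lit 0x4000300039c000000000000000000000) := T_5 (nat_lit 87) (nat_lit 86) (nat_lit 0) (nat_lit 5) (nat_lit 6) L45278 (by decide +kernel)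
theorem L45280 : W_5 (nat_lit 6) (nat_lit 0x2000100013a0098000f00000000000000000000000000) (nat_lit 0x0) (nat_lit 0x4300300039c000000000000000000000) := T_5 (nat_lit 121) (nat_lit 120) (nat_lit 1) (nat_lit 5) (nat_lit 6) L45279 (by decide +kernel)
theorem L45281 : W_5 (nat_lit 7) (nat_lit 0x200010001380098000f00000000000000000000000000) (nat_lit 0x0) (nat_lit 0x6004300300039c000000000000000000000) := T_5 (nat_lit 137) (nat_lit 138) (nat_lit 2) (nat_lit 1) (nat_lit 8) L45280 (by decide +kernel)
theorem L45282 : W_5 (nat_lit 8) (nat_lit 0x200010001380098000e00000000000000000000000000) (nat_lit 0x0) (nat_lit 0x6004300318039c000000000000000000000) := T_5 (nat_lit 104) (nat_lit 103) (nat_lit 3) (nat_lit 1) (nat_lit 6) L45281 (by decide +kernel)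
theorem L45283 : W_5 (nat_lit 2) (nat_lit 0x2000134013c009a000e00000000000000000000000000) (nat_lit 0x0) (nat_lit 0x180008000000000000000000000) := D_5 (nat_lit 104) (nat_lit 87) (nat_lit 103) (nat_lit 7) (nat_lit 2) (nat_lit 5) (nat_lit 3) (nat_lit 1) (nat_lit 6) (by decide +kernel)
theorem L45284 : W_5 (nat_lit 3) (nat_lit 0x2000134013c0098000e00000000000000000000000000) (nat_lit 0x0) (nat_lit 0x3000180008000000000000000000000) := T_5 (nat_lit 121) (nat_lit 120) (nat_lit 0) (nat_lit 5) (nat_lit 8) L45283 (by decide +kernel)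
theorem L45285 : W_5 (nat_lit 4) (nat_lit 0x2000130013c0098000e00000000000000000000000000) (nat_lit 0x0) (nat_lit 0xc00000003000180008000000000000000000000) := T_5 (nat_lit 154) (nat_lit 155) (nat_lit 2) (nat_lit 1) (nat_lit 9) L45284 (by decide +kernel)
theorem L45286 : W_5 (nat_lit 5) (nat_lit 0x2000120013c0098000e00000000000000000000000000) (nat_lit 0x0) (nat_lit 0x20001c00000003000180008000000000000000000000) := T_5 (nat_lit 156) (nat_lit 173) (nat_lit 5) (nat_lit 4) (nat_lit 6) L45285 (by decide +kernel)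
theorem L45287 : W_5 (nat_lit 6) (nat_lit 0x2000100013c0098000e00000000000000000000000000) (nat_lit 0x0) (nat_lit 0x20003c00000003000180018000000000000000000000) := T_5 (nat_lit 157) (nat_lit 88) (nat_lit 4) (nat_lit 4) (nat_lit 9) L45286 (by decide +kernel)
theorem L45288 : W_5 (nat_lit 7) (nat_lit 0x200010001380098000e00000000000000000000000000) (nat_lit 0x0) (nat_lit 0x20003c00060003000180018000000000000000000000) := T_5 (nat_lit 138) (nat_lit 137) (nat_lit 2) (nat_lit 1) (nat_lit 8) L45287 (by decide +kernel)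
theorem L45289 : W_5 (nat_lit 2) (nat_lit 0x2000108013c009a000f00000000000000000000000000) (nat_lit 0x0) (nat_lit 0x100000000000000000c000000000000000000000) := D_5 (nat_lit 87) (nat_lit 86) (nat_lit 156) (nat_lit 0) (nat_lit 5) (nat_lit 6) (nat_lit 7) (nat_lit 2) (nat_lit 5) (by decide +kernel)
theorem L45290 : W_5 (nat_lit 3) (nat_lit 0x2000108013c0098000f00000000000000000000000000) (nat_lit 0x0) (nat_lit 0x100000000300000000c000000000000000000000) := T_5 (nat_lit 121) (nat_lit 120) (nat_lit 1) (nat_lit 5) (nat_lit 6) L45289 (by decide +kernel)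
theorem L45291 : W_5 (nat_lit 4) (nat_lit 0x2000100013c0098000f00000000000000000000000000) (nat_lit 0x0) (nat_lit 0x1c0000000300000000c000000000000000000000) := T_5 (nat_lit 155) (nat_lit 154) (nat_lit 1) (nat_lit 5) (nat_lit 8) L45290 (by decide +kernel)
theorem L45292 : W_5 (nat_lit 5) (nat_lit 0x2000100013c0098000e00000000000000000000000000) (nat_lit 0x0) (nat_lit 0x1c0000000300018000c000000000000000000000) := T_5 (nat_lit 104) (nat_lit 103) (nat_lit 3) (nat_lit 1) (nat_lit 6) L45291 (by decide +kernel)
theorem L45293 : W_5 (nat_lit 6) (nat_lit 0x200010001380098000e00000000000000000000000000) (nat_lit 0x0) (nat_lit 0x1c0006000300018000c000000000000000000000) := T_5 (nat_lit 138) (nat_lit 137) (nat_lit 2) (nat_lit 1) (nat_lit 8) L45292 (by decide +kernel)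
theorem L45294 : W_5 (nat_lit 2) (nat_lit 0x2000100013a0098003e00010000000040000000000000) (nat_lit 0x0) (nat_lit 0x380000000000000000000000) := D_5 (nat_lit 92) (nat_lit 91) (nat_lit 93) (nat_lit 2) (nat_lit 3) (nat_lit 6) (nat_lit 2) (nat_lit 4) (nat_lit 6) (by decide +kernel)
theorem L45295 : W_5 (nat_lit 3) (nat_lit 0x2000100013a0098001e00010000000040000000000000) (nat_lit 0x0) (nat_lit 0x40002000380000000000000000000000) := T_5 (nat_lit 109) (nat_lit 126) (nat_lit 3) (nat_lit 4) (nat_lit 6) L45294 (by decide +kernel)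
theorem L45296 : W_5 (nat_lit 4) (nat_lit 0x2000100013a0098000e00010000000040000000000000) (nat_lit 0x0) (nat_lit 0x40003000388000000000000000000000) := T_5 (nat_lit 108) (nat_lit 87) (nat_lit 0) (nat_lit 6) (nat_lit 6) L45295 (by decide +kernel)
theorem L45297 : W_5 (nat_lit 5) (nat_lit 0x2000100013a0098000e00010000000000000000000000) (nat_lit 0x0) (nat_lit 0x40003000388000800040000000000000) := T_5 (nat_lit 54) (nat_lit 71) (nat_lit 7) (nat_lit 3) (nat_lit 3) L45296 (by decide +kernel)
theorem L45298 : W_5 (nat_lit 6) (nat_lit 0x200010001380098000e00010000000000000000000000) (nat_lit 0x0) (nat_lit 0x60040003000388000800040000000000000) := T_5 (nat_lit 137) (nat_lit 138) (nat_lit 2) (nat_lit 1) (nat_lit 8) L45297 (by decide +kernel)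
theorem L45299 : W_5 (nat_lit 7) (nat_lit 0x200010001380098000e00000000000000000000000000) (nat_lit 0x0) (nat_lit 0x2000060040003000398000800040000000000000) := T_5 (nat_lit 88) (nat_lit 157) (nat_lit 4) (nat_lit 4) (nat_lit 9) L45298 (by decide +kernel)
theorem L45300 : W_5 (nat_lit 2) (nat_lit 0x2000108013c0098000f00000000000000000000000000) (nat_lit 0x0) (nat_lit 0x3000000010000000000000000000000) := D_5 (nat_lit 121) (nat_lit 120) (nat_lit 88) (nat_lit 1) (nat_lit 5) (nat_lit 6) (nat_lit 6) (nat_lit 2) (nat_lit 9) (by decide +kernel)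
theorem L45301 : W_5 (nat_lit 3) (nat_lit 0x2000100013c0098000f00000000000000000000000000) (nat_lit 0x0) (nat_lit 0xc00000003000000010000000000000000000000) := T_5 (nat_lit 155) (nat_lit 154) (nat_lit 1) (nat_lit 5) (nat_lit 8) L45300 (by decide +kernel)
theorem L45302 : W_5 (nat_lit 4) (nat_lit 0x2000100013c0098000e00000000000000000000000000) (nat_lit 0x0) (nat_lit 0xc00000003000180010000000000000000000000) := T_5 (nat_lit 104) (nat_lit 103) (nat_lit 3) (nat_lit 1) (nat_lit 6) L45301 (by decide +kernel)
theorem L45303 : W_5 (nat_lit 5) (nat_lit 0x200010001380098000e00000000000000000000000000) (nat_lit 0x0) (nat_lit 0xc00060003000180010000000000000000000000) := T_5 (nat_lit 138) (nat_lit 137) (nat_lit 2) (nat_lit 1) (nat_lit 8) L45302 (by decide +kernel)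
theorem L45304 : W_5 (nat_lit 9) (nat_lit 0x200010001380098000c00000000000000000000000000) (nat_lit 0x0) (nat_lit 0x20003c0006004300338039c000800040000000000000) := Q_5 (nat_lit 105) (C_5 L45264 (C_5 L45269 (C_5 L45275 (C_5 L45282 (C_5 L45288 (C_5 L45293 (C_5 L45299 (C_5 L45303 N_5)))))))) (by decide +kernel)
theorem L45305 : W_5 (nat_lit 2) (nat_lit 0x2000100013a0098000e000c0000000000000000000000) (nat_lit 0x0) (nat_lit 0x1000300000000000000000000000) := D_5 (nat_lit 92) (nat_lit 93) (nat_lit 108) (nat_lit 1) (nat_lit 8) (nat_lit 5) (nat_lit 2) (nat_lit 3) (nat_lit 6) (by decide +kernel)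
theorem L45306 : W_5 (nat_lit 3) (nat_lit 0x2000100013a0098000c000c0000000000000000000000) (nat_lit 0x0) (nat_lit 0x1300300000000000000000000000) := T_5 (nat_lit 105) (nat_lit 104) (nat_lit 2) (nat_lit 2) (nat_lit 6) L45305 (by decide +kernel)
theorem L45307 : W_5 (nat_lit 4) (nat_lit 0x2000100013a0098000c00040000000000000000000000) (nat_lit 0x0) (nat_lit 0x1300380004000000000000000000) := T_5 (nat_lit 91) (nat_lit 74) (nat_lit 6) (nat_lit 5) (nat_lit 8) L45306 (by decide +kernel)
theorem L45308 : W_5 (nat_lit 5) (nat_lit 0x2000100013a0098000c00000000000000000000000000) (nat_lit 0x0) (nat_lit 0x13003c0006000000000000000000) := T_5 (nat_lit 90) (nat_lit 73) (nat_lit 5) (nat_lit 5) (nat_lit 4) L45307 (by decide +kernel)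
theorem L45309 : W_5 (nat_lit 6) (nat_lit 0x200010001380098000c00000000000000000000000000) (nat_lit 0x0) (nat_lit 0x600000013003c0006000000000000000000) := T_5 (nat_lit 137) (nat_lit 138) (nat_lit 2) (nat_lit 1) (nat_lit 8) L45308 (by decide +kernel)
theorem L45310 : W_5 (nat_lit 10) (nat_lit 0x200010001380098000400000000000000000000000000) (nat_lit 0x0) (nat_lit 0x20003c00060043003b803dc006800040000000000000) := Q_5 (nat_lit 107) (C_5 L45304 (C_5 L45055 (C_5 L45309 N_5))) (by decide +kernel)
theorem L45311 : W_5 (nat_lit 11) (nat_lit 0x200010001380098000000000000000000000000000000) (nat_lit 0x0) (nat_lit 0x20003c00060043003f803fc007800040000000000000) := Q_5 (nat_lit 106) (C_5 L45097 (C_5 L45310 (C_5 L45064 N_5))) (by decide +kernel)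
theorem L45312 : W_5 (nat_lit 2) (nat_lit 0x200010001380098000000000000000000000000000000) (nat_lit 0x0) (nat_lit 0x60020000000000000000000000000000000) := D_5 (nat_lit 138) (nat_lit 137) (nat_lit 125) (nat_lit 2) (nat_lit 1) (nat_lit 8) (nat_lit 2) (nat_lit 2) (nat_lit 8) (by decide +kernel)
theorem L45313 : W_5 (nat_lit 12) (nat_lit 0x200010001300098000000000000000000000000000000) (nat_lit 0x0) (nat_lit 0x200012002bc008e0063003f803fc00f800040000000000000) := Q_5 (nat_lit 139) (C_5 L42589 (C_5 L45257 (C_5 L45311 (C_5 L45312 N_5)))) (by decide +kernel)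
theorem L45314 : W_5 (nat_lit 2) (nat_lit 0x2000108013c009a000c00034002000000000000000000) (nat_lit 0x0) (nat_lit 0x4000300000000000000000000000000) := D_5 (nat_lit 105) (nat_lit 122) (nat_lit 104) (nat_lit 5) (nat_lit 3) (nat_lit 5) (nat_lit 6) (nat_lit 2) (nat_lit 9) (by decide +kernel)
theorem L45315 : W_5 (nat_lit 3) (nat_lit 0x2000100013c009a000c00034002000000000000000000) (nat_lit 0x0) (nat_lit 0xc00000004000300000000000000000000000000) := T_5 (nat_lit 155) (nat_lit 154) (nat_lit 1) (nat_lit 5) (nat_lit 8) L45314 (by decide +kernel)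
theorem L45316 : W_5 (nat_lit 4) (nat_lit 0x2000100013c0098000c00034002000000000000000000) (nat_lit 0x0) (nat_lit 0xc00000007000300000000000000000000000000) := T_5 (nat_lit 121) (nat_lit 120) (nat_lit 0) (nat_lit 5) (nat_lit 8) L45315 (by decide +kernel)
theorem L45317 : W_5 (nat_lit 5) (nat_lit 0x200010001380098000c00034002000000000000000000) (nat_lit 0x0) (nat_lit 0xc00060007000300000000000000000000000000) := T_5 (nat_lit 138) (nat_lit 137) (nat_lit 2) (nat_lit 1) (nat_lit 8) L45316 (by decide +kernel)
theorem L45318 : W_5 (nat_lit 6) (nat_lit 0x200010001300098000c00034002000000000000000000) (nat_lit 0x0) (nat_lit 0x1c000e0007000300000000000000000000000000) := T_5 (nat_lit 139) (nat_lit 156) (nat_lit 5) (nat_lit 4) (nat_lit 5) L45317 (by decide +kernel)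
theorem L45319 : W_5 (nat_lit 7) (nat_lit 0x200010001300098000c00030002000000000000000000) (nat_lit 0x0) (nat_lit 0x1c000e000700030000c000000000000000000000) := T_5 (nat_lit 86) (nat_lit 87) (nat_lit 3) (nat_lit 1) (nat_lit 5) L45318 (by decide +kernel)
theorem L45320 : W_5 (nat_lit 8) (nat_lit 0x200010001300098000c00020002000000000000000000) (nat_lit 0x0) (nat_lit 0x1c000e000700030001c000800000000000000000) := T_5 (nat_lit 88) (nat_lit 71) (nat_lit 4) (nat_lit 4) (nat_lit 8) L45319 (by decide +kernel)
theorem L45321 : W_5 (nat_lit 9) (nat_lit 0x200010001300098000c00000002000000000000000000) (nat_lit 0x0) (nat_lit 0x1c000e000700030003c001800000000000000000) := T_5 (nat_lit 89) (nat_lit 72) (nat_lit 7) (nat_lit 4) (nat_lit 4) L45320 (by decide +kernel)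
theorem L45322 : W_5 (nat_lit 10) (nat_lit 0x200010001300098000c00000000000000000000000000) (nat_lit 0x0) (nat_lit 0x1c000e000700030007c003800000000000000000) := T_5 (nat_lit 73) (nat_lit 90) (nat_lit 5) (nat_lit 5) (nat_lit 4) L45321 (by decide +kernel)
theorem L45323 : W_5 (nat_lit 11) (nat_lit 0x200010001300098000800000000000000000000000000) (nat_lit 0x0) (nat_lit 0x1c000e00070037003fc007800000000000000000) := Q_5 (nat_lit 106) (C_5 L42929 (C_5 L43173 (C_5 L45322 (C_5 L43207 (C_5 L43199 N_5))))) (by decide +kernel)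
theorem L45324 : W_5 (nat_lit 2) (nat_lit 0x200010001300098001c00000000000000000000000000) (nat_lit 0x0) (nat_lit 0x44002000000000000000000000000000) := D_5 (nat_lit 109) (nat_lit 122) (nat_lit 126) (nat_lit 1) (nat_lit 7) (nat_lit 6) (nat_lit 3) (nat_lit 4) (nat_lit 6) (by decide +kernel)
theorem L45325 : W_5 (nat_lit 2) (nat_lit 0x200010001300098001e00000000000000000000000000) (nat_lit 0x0) (nat_lit 0x2000000000000000018000000000000000000000) := D_5 (nat_lit 88) (nat_lit 87) (nat_lit 157) (nat_lit 0) (nat_lit 6) (nat_lit 6) (nat_lit 4) (nat_lit 4) (nat_lit 9) (by decide +kernel)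
theorem L45326 : W_5 (nat_lit 2) (nat_lit 0x20001000130009a001e00000000000000000000000000) (nat_lit 0x0) (nat_lit 0x1000180000000000000000000000000) := D_5 (nat_lit 104) (nat_lit 120) (nat_lit 103) (nat_lit 1) (nat_lit 5) (nat_lit 6) (nat_lit 3) (nat_lit 1) (nat_lit 6) (by decide +kernel)
theorem L45327 : W_5 (nat_lit 3) (nat_lit 0x200010001300098001e00000000000000000000000000) (nat_lit 0x0) (nat_lit 0x7000180000000000000000000000000) := T_5 (nat_lit 121) (nat_lit 122) (nat_lit 2) (nat_lit 2) (nat_lit 7) L45326 (by decide +kernel)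
theorem L45328 : W_5 (nat_lit 4) (nat_lit 0x200010001300098001c00000000000000000000000000) (nat_lit 0x0) (nat_lit 0x2000000007000380018000000000000000000000) := Q_5 (nat_lit 105) (C_5 L45325 (C_5 L45327 N_5)) (by decide +kernel)
theorem L45329 : W_5 (nat_lit 2) (nat_lit 0x200010001300098003e00100000000000000000000000) (nat_lit 0x0) (nat_lit 0x2000000000000000018000000000000000000000) := D_5 (nat_lit 88) (nat_lit 87) (nat_lit 157) (nat_lit 0) (nat_lit 6) (nat_lit 6) (nat_lit 4) (nat_lit 4) (nat_lit 9) (by decide +kernel)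
theorem L45330 : W_5 (nat_lit 3) (nat_lit 0x200010001300098003c00100000000000000000000000) (nat_lit 0x0) (nat_lit 0x2000000000000200098000000000000000000000) := T_5 (nat_lit 105) (nat_lit 91) (nat_lit 2) (nat_lit 3) (nat_lit 6) L45329 (by decide +kernel)
theorem L45331 : W_5 (nat_lit 4) (nat_lit 0x200010001300098003c00000000000000000000000000) (nat_lit 0x0) (nat_lit 0x2000000000000200398000000000000000000000) := T_5 (nat_lit 92) (nat_lit 93) (nat_lit 2) (nat_lit 4) (nat_lit 6) L45330 (by decide +kernel)
theorem L45332 : W_5 (nat_lit 5) (nat_lit 0x200010001300098001c00000000000000000000000000) (nat_lit 0x0) (nat_lit 0x2000000040002200398000000000000000000000) := T_5 (nat_lit 109) (nat_lit 126) (nat_lit 3) (nat_lit 4) (nat_lit 6) L45331 (by decide +kernel)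
theorem L45333 : W_5 (nat_lit 6) (nat_lit 0x200010001300098000c00000000000000000000000000) (nat_lit 0x0) (nat_lit 0x2000000047003380398000000000000000000000) := Q_5 (nat_lit 108) (C_5 L45324 (C_5 L45328 (C_5 L45332 N_5))) (by decide +kernel)
theorem L45334 : W_5 (nat_lit 2) (nat_lit 0x200012001300098000c00030000000000000000000000) (nat_lit 0x0) (nat_lit 0x20001000080000000000000000000000000000000000) := D_5 (nat_lit 156) (nat_lit 173) (nat_lit 139) (nat_lit 5) (nat_lit 4) (nat_lit 6) (nat_lit 5) (nat_lit 4) (nat_lit 5) (by decide +kernel)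
theorem L45335 : W_5 (nat_lit 3) (nat_lit 0x200010001300098000c00030000000000000000000000) (nat_lit 0x0) (nat_lit 0x20003000080000000200000000000000000000000000) := T_5 (nat_lit 157) (nat_lit 105) (nat_lit 4) (nat_lit 4) (nat_lit 9) L45334 (by decide +kernel)
theorem L45336 : W_5 (nat_lit 4) (nat_lit 0x200010001300098000c00020000000000000000000000) (nat_lit 0x0) (nat_lit 0x20003000080000000200010000800000000000000000) := T_5 (nat_lit 88) (nat_lit 71) (nat_lit 4) (nat_lit 4) (nat_lit 8) L45335 (by decide +kernel)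
theorem L45337 : W_5 (nat_lit 5) (nat_lit 0x200010001300098000c00000000000000000000000000) (nat_lit 0x0) (nat_lit 0x20003000080000000200030001800000000000000000) := T_5 (nat_lit 89) (nat_lit 72) (nat_lit 7) (nat_lit 4) (nat_lit 4) L45336 (by decide +kernel)
theorem L45338 : W_5 (nat_lit 2) (nat_lit 0x2000100013c0098001c00034000000000000000000000) (nat_lit 0x0) (nat_lit 0x7000000000000000000000000000000) := D_5 (nat_lit 121) (nat_lit 122) (nat_lit 120) (nat_lit 2) (nat_lit 2) (nat_lit 7) (nat_lit 0) (nat_lit 5) (nat_lit 8) (by decide +kernel)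
theorem L45339 : W_5 (nat_lit 3) (nat_lit 0x200010001380098001c00034000000000000000000000) (nat_lit 0x0) (nat_lit 0x60007000000000000000000000000000000) := T_5 (nat_lit 138) (nat_lit 137) (nat_lit 2) (nat_lit 1) (nat_lit 8) L45338 (by decide +kernel)
theorem L45340 : W_5 (nat_lit 4) (nat_lit 0x200010001300098001c00034000000000000000000000) (nat_lit 0x0) (nat_lit 0x10000e0007000000000000000000000000000000) := T_5 (nat_lit 139) (nat_lit 156) (nat_lit 5) (nat_lit 4) (nat_lit 5) L45339 (by decide +kernel)
theorem L45341 : W_5 (nat_lit 5) (nat_lit 0x200010001300098000c00034000000000000000000000) (nat_lit 0x0) (nat_lit 0x10000e0007003000000000000000000000000000) := T_5 (nat_lit 108) (nat_lit 109) (nat_lit 0) (nat_lit 7) (nat_lit 6) L45340 (by decide +kernel)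
theorem L45342 : W_5 (nat_lit 6) (nat_lit 0x200010001300098000c00030000000000000000000000) (nat_lit 0x0) (nat_lit 0x10000e000700300000c000000000000000000000) := T_5 (nat_lit 86) (nat_lit 87) (nat_lit 3) (nat_lit 1) (nat_lit 5) L45341 (by decide +kernel)
theorem L45343 : W_5 (nat_lit 7) (nat_lit 0x200010001300098000c00020000000000000000000000) (nat_lit 0x0) (nat_lit 0x10000e000700300001c000800000000000000000) := T_5 (nat_lit 88) (nat_lit 71) (nat_lit 4) (nat_lit 4) (nat_lit 8) L45342 (by decide +kernel)
theorem L45344 : W_5 (nat_lit 8) (nat_lit 0x200010001300098000c00000000000000000000000000) (nat_lit 0x0) (nat_lit 0x10000e000700300003c001800000000000000000) := T_5 (nat_lit 89) (nat_lit 72) (nat_lit 7) (nat_lit 4) (nat_lit 4) L45343 (by decide +kernel)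
theorem L45345 : W_5 (nat_lit 2) (nat_lit 0x2000108013c009e000c00020000000000000000000000) (nat_lit 0x0) (nat_lit 0x200010000000000000000200000000000000000000000000) := D_5 (nat_lit 172) (nat_lit 105) (nat_lit 189) (nat_lit 6) (nat_lit 2) (nat_lit 10) (nat_lit 6) (nat_lit 2) (nat_lit 11) (by decide +kernel)
theorem L45346 : W_5 (nat_lit 3) (nat_lit 0x2000108013c009a000c00020000000000000000000000) (nat_lit 0x0) (nat_lit 0x200010000000000004001200000000000000000000000000) := T_5 (nat_lit 122) (nat_lit 108) (nat_lit 2) (nat_lit 2) (nat_lit 7) L45345 (by decide +kernel)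
theorem L45347 : W_5 (nat_lit 4) (nat_lit 0x2000100013c009a000c00020000000000000000000000) (nat_lit 0x0) (nat_lit 0x200010000c00000004001200000000000000000000000000) := T_5 (nat_lit 155) (nat_lit 154) (nat_lit 1) (nat_lit 5) (nat_lit 8) L45346 (by decide +kernel)
theorem L45348 : W_5 (nat_lit 5) (nat_lit 0x2000100013c0098000c00020000000000000000000000) (nat_lit 0x0) (nat_lit 0x200010000c00000007001200000000000000000000000000) := T_5 (nat_lit 121) (nat_lit 120) (nat_lit 0) (nat_lit 5) (nat_lit 8) L45347 (by decide +kernel)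
theorem L45349 : W_5 (nat_lit 6) (nat_lit 0x200010001380098000c00020000000000000000000000) (nat_lit 0x0) (nat_lit 0x200010000c00060007001200000000000000000000000000) := T_5 (nat_lit 138) (nat_lit 137) (nat_lit 2) (nat_lit 1) (nat_lit 8) L45348 (by decide +kernel)
theorem L45350 : W_5 (nat_lit 7) (nat_lit 0x200010001300098000c00020000000000000000000000) (nat_lit 0x0) (nat_lit 0x200010001c000e0007001200000000000000000000000000) := T_5 (nat_lit 139) (nat_lit 156) (nat_lit 5) (nat_lit 4) (nat_lit 5) L45349 (by decide +kernel)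
theorem L45351 : W_5 (nat_lit 8) (nat_lit 0x200010001300098000c00000000000000000000000000) (nat_lit 0x0) (nat_lit 0x200010001c000e0007001200020001000000000000000000) := T_5 (nat_lit 89) (nat_lit 72) (nat_lit 7) (nat_lit 4) (nat_lit 4) L45350 (by decide +kernel)
theorem L45352 : W_5 (nat_lit 11) (nat_lit 0x200010001300098000800000000000000000000000000) (nat_lit 0x0) (nat_lit 0x200030003c000e00470037803bc001800000000000000000) := Q_5 (nat_lit 106) (C_5 L45195 (C_5 L45333 (C_5 L43199 (C_5 L45337 (C_5 L45344 (C_5 L45351 N_5)))))) (by decide +kernel)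
theorem L45353 : W_5 (nat_lit 12) (nat_lit 0x200010001300098000000000000000000000000000000) (nat_lit 0x0) (nat_lit 0x200030003c000e0047003f803fc007800000000000000000) := Q_5 (nat_lit 107) (C_5 L45167 (C_5 L45323 (C_5 L45352 N_5))) (by decide +kernel)
theorem L45354 : W_5 (nat_lit 2) (nat_lit 0x2000100013800b8000600000000000000000000000000) (nat_lit 0x0) (nat_lit 0x4000180000000000000000000000000) := D_5 (nat_lit 104) (nat_lit 103) (nat_lit 122) (nat_lit 3) (nat_lit 1) (nat_lit 6) (nat_lit 0) (nat_lit 6) (nat_lit 7) (by decide +kernel)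
theorem L45355 : W_5 (nat_lit 3) (nat_lit 0x200010001380098000600000000000000000000000000) (nat_lit 0x0) (nat_lit 0x64000180000000000000000000000000) := T_5 (nat_lit 125) (nat_lit 126) (nat_lit 1) (nat_lit 7) (nat_lit 7) L45354 (by decide +kernel)
theorem L45356 : W_5 (nat_lit 2) (nat_lit 0x200011001380098000400000000000000000000000000) (nat_lit 0x0) (nat_lit 0x400020002000000000000000000000000000000000000000) := D_5 (nat_lit 173) (nat_lit 157) (nat_lit 190) (nat_lit 5) (nat_lit 4) (nat_lit 6) (nat_lit 6) (nat_lit 3) (nat_lit 11) (by decide +kernel)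
theorem L45357 : W_5 (nat_lit 2) (nat_lit 0x2000120013800b8000600000000000000000000000000) (nat_lit 0x0) (nat_lit 0x4000180000000000000000000000000) := D_5 (nat_lit 104) (nat_lit 103) (nat_lit 122) (nat_lit 3) (nat_lit 1) (nat_lit 6) (nat_lit 0) (nat_lit 6) (nat_lit 7) (by decide +kernel)
theorem L45358 : W_5 (nat_lit 3) (nat_lit 0x2000120013800b8000400000000000000000000000000) (nat_lit 0x0) (nat_lit 0x4000380010000000000000000000000) := T_5 (nat_lit 105) (nat_lit 88) (nat_lit 4) (nat_lit 4) (nat_lit 9) L45357 (by decide +kernel)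
theorem L45359 : W_5 (nat_lit 4) (nat_lit 0x200012001380098000400000000000000000000000000) (nat_lit 0x0) (nat_lit 0x64000380010000000000000000000000) := T_5 (nat_lit 125) (nat_lit 126) (nat_lit 1) (nat_lit 7) (nat_lit 7) L45358 (by decide +kernel)
theorem L45360 : W_5 (nat_lit 2) (nat_lit 0x200010001b800d8002400100000000000000000000000) (nat_lit 0x0) (nat_lit 0x1000080004000000000000000000) := D_5 (nat_lit 91) (nat_lit 74) (nat_lit 108) (nat_lit 4) (nat_lit 7) (nat_lit 8) (nat_lit 4) (nat_lit 7) (nat_lit 9) (by decide +kernel)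
theorem L45361 : W_5 (nat_lit 3) (nat_lit 0x2000100013800d8002400100000000000000000000000) (nat_lit 0x0) (nat_lit 0x20000800000001000080004000000000000000000) := T_5 (nat_lit 143) (nat_lit 161) (nat_lit 7) (nat_lit 7) (nat_lit 5) L45360 (by decide +kernel)
theorem L45362 : W_5 (nat_lit 4) (nat_lit 0x2000100013800d8002400000000000000000000000000) (nat_lit 0x0) (nat_lit 0x2000080000000100018000c000000000000000000) := T_5 (nat_lit 92) (nat_lit 75) (nat_lit 7) (nat_lit 7) (nat_lit 4) L45361 (by decide +kernel)
theorem L45363 : W_5 (nat_lit 2) (nat_lit 0x2000100013800bd001200000000000000000000000000) (nat_lit 0x0) (nat_lit 0x2000000000000000010000800000000000000000) := D_5 (nat_lit 88) (nat_lit 157) (nat_lit 71) (nat_lit 7) (nat_lit 3) (nat_lit 5) (nat_lit 7) (nat_lit 3) (nat_lit 4) (by decide +kernel)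
theorem L45364 : W_5 (nat_lit 3) (nat_lit 0x2000100013800bd001000000000000000000000000000) (nat_lit 0x0) (nat_lit 0x2000000000000300010000800000000000000000) := T_5 (nat_lit 105) (nat_lit 104) (nat_lit 0) (nat_lit 6) (nat_lit 7) L45363 (by decide +kernel)
theorem L45365 : W_5 (nat_lit 4) (nat_lit 0x2000100013800bd000000000000000000000000000000) (nat_lit 0x0) (nat_lit 0x2000000000003300010000800000000000000000) := T_5 (nat_lit 108) (nat_lit 109) (nat_lit 2) (nat_lit 3) (nat_lit 7) L45364 (by decide +kernel)
theorem L45366 : W_5 (nat_lit 5) (nat_lit 0x2000100013800bc000000000000000000000000000000) (nat_lit 0x0) (nat_lit 0x2000000003003300010000800000000000000000) := T_5 (nat_lit 120) (nat_lit 121) (nat_lit 3) (nat_lit 1) (nat_lit 7) L45365 (by decide +kernel)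
theorem L45367 : W_5 (nat_lit 6) (nat_lit 0x20001000138009c000000000000000000000000000000) (nat_lit 0x0) (nat_lit 0x2000000063003300010000800000000000000000) := T_5 (nat_lit 125) (nat_lit 126) (nat_lit 1) (nat_lit 7) (nat_lit 7) L45366 (by decide +kernel)
theorem L45368 : W_5 (nat_lit 2) (nat_lit 0x20001000138009d0024000f0008000000000000000000) (nat_lit 0x0) (nat_lit 0x40000000100010000000000000000000) := D_5 (nat_lit 92) (nat_lit 76) (nat_lit 126) (nat_lit 2) (nat_lit 4) (nat_lit 5) (nat_lit 7) (nat_lit 7) (nat_lit 4) (by decide +kernel)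
theorem L45369 : W_5 (nat_lit 3) (nat_lit 0x20001000138009d0024000f0000000000000000000000) (nat_lit 0x0) (nat_lit 0x4000000010001c000000000000000000) := T_5 (nat_lit 75) (nat_lit 74) (nat_lit 2) (nat_lit 3) (nat_lit 5) L45368 (by decide +kernel)
theorem L45370 : W_5 (nat_lit 4) (nat_lit 0x20001000138009d002400070000000000000000000000) (nat_lit 0x0) (nat_lit 0x4000100018001c000000000000000000) := T_5 (nat_lit 91) (nat_lit 108) (nat_lit 3) (nat_lit 3) (nat_lit 5) L45369 (by decide +kernel)
theorem L45371 : W_5 (nat_lit 5) (nat_lit 0x20001000138009d002400060000000000000000000000) (nat_lit 0x0) (nat_lit 0x4000100019001c800000000000000000) := T_5 (nat_lit 88) (nat_lit 71) (nat_lit 4) (nat_lit 4) (nat_lit 8) L45370 (by decide +kernel)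
theorem L45372 : W_5 (nat_lit 6) (nat_lit 0x20001000138009d002400020000000000000000000000) (nat_lit 0x0) (nat_lit 0x400010001d001e800000000000000000) := T_5 (nat_lit 90) (nat_lit 73) (nat_lit 6) (nat_lit 4) (nat_lit 8) L45371 (by decide +kernel)
theorem L45373 : W_5 (nat_lit 7) (nat_lit 0x20001000138009c002400020000000000000000000000) (nat_lit 0x0) (nat_lit 0x430010001d001e800000000000000000) := T_5 (nat_lit 120) (nat_lit 121) (nat_lit 3) (nat_lit 1) (nat_lit 7) L45372 (by decide +kernel)
theorem L45374 : W_5 (nat_lit 8) (nat_lit 0x20001000138009c002400000000000000000000000000) (nat_lit 0x0) (nat_lit 0x430010001f001f800000000000000000) := T_5 (nat_lit 89) (nat_lit 72) (nat_lit 7) (nat_lit 4) (nat_lit 4) L45373 (by decide +kernel)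
theorem L45375 : W_5 (nat_lit 2) (nat_lit 0x200010001b800dd002400100001000000000000000000) (nat_lit 0x0) (nat_lit 0x2000100008000000000000000000000000000000000000000) := D_5 (nat_lit 176) (nat_lit 193) (nat_lit 159) (nat_lit 5) (nat_lit 7) (nat_lit 7) (nat_lit 5) (nat_lit 7) (nat_lit 6) (by decide +kernel)
theorem L45376 : W_5 (nat_lit 3) (nat_lit 0x2000100013800dd002400100001000000000000000000) (nat_lit 0x0) (nat_lit 0x2000100028000800000000000000000000000000000000000) := T_5 (nat_lit 143) (nat_lit 161) (nat_lit 7) (nat_lit 7) (nat_lit 5) L45375 (by decide +kernel)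
theorem L45377 : W_5 (nat_lit 4) (nat_lit 0x2000100013800dd002400000001000000000000000000) (nat_lit 0x0) (nat_lit 0x2000100028000800000000000100008000000000000000000) := T_5 (nat_lit 92) (nat_lit 75) (nat_lit 7) (nat_lit 7) (nat_lit 4) L45376 (by decide +kernel)
theorem L45378 : W_5 (nat_lit 5) (nat_lit 0x2000100013800dc002400000001000000000000000000) (nat_lit 0x0) (nat_lit 0x2000100028000800003000000100008000000000000000000) := T_5 (nat_lit 120) (nat_lit 121) (nat_lit 3) (nat_lit 1) (nat_lit 7) L45377 (by decide +kernel)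
theorem L45379 : W_5 (nat_lit 6) (nat_lit 0x20001000138009c002400000001000000000000000000) (nat_lit 0x0) (nat_lit 0x2000100028000800063000000100008000000000000000000) := T_5 (nat_lit 126) (nat_lit 125) (nat_lit 1) (nat_lit 7) (nat_lit 7) L45378 (by decide +kernel)
theorem L45380 : W_5 (nat_lit 7) (nat_lit 0x20001000138009c002400000000000000000000000000) (nat_lit 0x0) (nat_lit 0x2000100028000800063000000120009000000000000000000) := T_5 (nat_lit 72) (nat_lit 89) (nat_lit 7) (nat_lit 4) (nat_lit 4) L45379 (by decide +kernel)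
theorem L45381 : W_5 (nat_lit 2) (nat_lit 0x20001000138009d003400060000000000000000000000) (nat_lit 0x0) (nat_lit 0x90000800000000000000000) := D_5 (nat_lit 88) (nat_lit 91) (nat_lit 71) (nat_lit 3) (nat_lit 3) (nat_lit 5) (nat_lit 4) (nat_lit 4) (nat_lit 8) (by decide +kernel)
theorem L45382 : W_5 (nat_lit 3) (nat_lit 0x20001000138009d003400020000000000000000000000) (nat_lit 0x0) (nat_lit 0xd0002800000000000000000) := T_5 (nat_lit 90) (nat_lit 73) (nat_lit 6) (nat_lit 4) (nat_lit 8) L45381 (by decide +kernel)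
theorem L45383 : W_5 (nat_lit 4) (nat_lit 0x20001000138009c003400020000000000000000000000) (nat_lit 0x0) (nat_lit 0x30000000d0002800000000000000000) := T_5 (nat_lit 120) (nat_lit 121) (nat_lit 3) (nat_lit 1) (nat_lit 7) L45382 (by decide +kernel)
theorem L45384 : W_5 (nat_lit 5) (nat_lit 0x20001000138009c003400000000000000000000000000) (nat_lit 0x0) (nat_lit 0x30000000f0003800000000000000000) := T_5 (nat_lit 89) (nat_lit 72) (nat_lit 7) (nat_lit 4) (nat_lit 4) L45383 (by decide +kernel)
theorem L45385 : W_5 (nat_lit 6) (nat_lit 0x20001000138009c002400000000000000000000000000) (nat_lit 0x0) (nat_lit 0x230010000f0003800000000000000000) := T_5 (nat_lit 108) (nat_lit 125) (nat_lit 2) (nat_lit 3) (nat_lit 7) L45384 (by decide +kernel)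
theorem L45386 : W_5 (nat_lit 9) (nat_lit 0x20001000138009c000400000000000000000000000000) (nat_lit 0x0) (nat_lit 0x20001000280008000630030001f001f800000000000000000) := Q_5 (nat_lit 109) (C_5 L44810 (C_5 L45374 (C_5 L45380 (C_5 L45385 N_5)))) (by decide +kernel)
theorem L45387 : W_5 (nat_lit 2) (nat_lit 0x220011001380098000000000000000000000000000000) (nat_lit 0x0) (nat_lit 0x2000000004000400000000000000000000000000) := D_5 (nat_lit 106) (nat_lit 157) (nat_lit 122) (nat_lit 5) (nat_lit 4) (nat_lit 6) (nat_lit 6) (nat_lit 3) (nat_lit 10) (by decide +kernel)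
theorem L45388 : W_5 (nat_lit 3) (nat_lit 0x200011001380098000000000000000000000000000000) (nat_lit 0x0) (nat_lit 0x400020002000000004000400000000000000000000000000) := T_5 (nat_lit 173) (nat_lit 190) (nat_lit 6) (nat_lit 3) (nat_lit 11) L45387 (by decide +kernel)
theorem L45389 : W_5 (nat_lit 2) (nat_lit 0x20001100138009e000100020000000000000000000000) (nat_lit 0x0) (nat_lit 0x200008000400000000000000000) := D_5 (nat_lit 87) (nat_lit 105) (nat_lit 70) (nat_lit 4) (nat_lit 3) (nat_lit 9) (nat_lit 7) (nat_lit 2) (nat_lit 4) (by decide +kernel)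
theorem L45390 : W_5 (nat_lit 3) (nat_lit 0x2000100013800d8000600030000000000000000000000) (nat_lit 0x0) (nat_lit 0x1800c0002000000000000000000) := T_5 (nat_lit 90) (nat_lit 73) (nat_lit 6) (nat_lit 4) (nat_lit 8) L45035 (by decide +kernel)
theorem L45391 : W_5 (nat_lit 4) (nat_lit 0x2000100013800d8000400030000000000000000000000) (nat_lit 0x0) (nat_lit 0x20000000000003800c0002000000000000000000) := T_5 (nat_lit 105) (nat_lit 157) (nat_lit 4) (nat_lit 4) (nat_lit 9) L45390 (by decide +kernel)
theorem L45392 : W_5 (nat_lit 5) (nat_lit 0x2000100013800d8000400020000000000000000000000) (nat_lit 0x0) (nat_lit 0x20000000000003800d0002800000000000000000) := T_5 (nat_lit 88) (nat_lit 71) (nat_lit 4) (nat_lit 4) (nat_lit 8) L45391 (by decide +kernel)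
theorem L45393 : W_5 (nat_lit 3) (nat_lit 0x20001000138009e000100020000000000000000000000) (nat_lit 0x0) (nat_lit 0x20001000000000000200008000400000000000000000) := T_5 (nat_lit 156) (nat_lit 173) (nat_lit 4) (nat_lit 3) (nat_lit 10) L45389 (by decide +kernel)
theorem L45394 : W_5 (nat_lit 4) (nat_lit 0x20001000138009e000000020000000000000000000000) (nat_lit 0x0) (nat_lit 0x20001000000000000380008000400000000000000000) := T_5 (nat_lit 104) (nat_lit 103) (nat_lit 0) (nat_lit 5) (nat_lit 7) L45393 (by decide +kernel)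
theorem L45395 : W_5 (nat_lit 5) (nat_lit 0x20001000138009c000000020000000000000000000000) (nat_lit 0x0) (nat_lit 0x20001000000003000380008000400000000000000000) := T_5 (nat_lit 121) (nat_lit 120) (nat_lit 3) (nat_lit 1) (nat_lit 7) L45394 (by decide +kernel)
theorem L45396 : W_5 (nat_lit 2) (nat_lit 0x2000100013800bc000200000000000000000000000000) (nat_lit 0x0) (nat_lit 0x2000000000000000010000800000000000000000) := D_5 (nat_lit 88) (nat_lit 157) (nat_lit 71) (nat_lit 7) (nat_lit 3) (nat_lit 5) (nat_lit 7) (nat_lit 3) (nat_lit 4) (by decide +kernel)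
theorem L45397 : W_5 (nat_lit 6) (nat_lit 0x2000100013800d8000400000000000000000000000000) (nat_lit 0x0) (nat_lit 0x20000000000003800f0003800000000000000000) := T_5 (nat_lit 89) (nat_lit 72) (nat_lit 7) (nat_lit 4) (nat_lit 4) L45392 (by decide +kernel)
theorem L45398 : W_5 (nat_lit 2) (nat_lit 0x2000100013800b8000600030000000000000000000000) (nat_lit 0x0) (nat_lit 0x4000180000000000000000000000000) := D_5 (nat_lit 104) (nat_lit 103) (nat_lit 122) (nat_lit 3) (nat_lit 1) (nat_lit 6) (nat_lit 0) (nat_lit 6) (nat_lit 7) (by decide +kernel)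
theorem L45399 : W_5 (nat_lit 3) (nat_lit 0x2000100013800b8000400030000000000000000000000) (nat_lit 0x0) (nat_lit 0x2000000004000380000000000000000000000000) := T_5 (nat_lit 105) (nat_lit 157) (nat_lit 4) (nat_lit 4) (nat_lit 9) L45398 (by decide +kernel)
theorem L45400 : W_5 (nat_lit 4) (nat_lit 0x2000100013800b8000400020000000000000000000000) (nat_lit 0x0) (nat_lit 0x2000000004000380010000800000000000000000) := T_5 (nat_lit 88) (nat_lit 71) (nat_lit 4) (nat_lit 4) (nat_lit 8) L45399 (by decide +kernel)
theorem L45401 : W_5 (nat_lit 5) (nat_lit 0x2000100013800b8000400000000000000000000000000) (nat_lit 0x0) (nat_lit 0x2000000004000380030001800000000000000000) := T_5 (nat_lit 89) (nat_lit 72) (nat_lit 7) (nat_lit 4) (nat_lit 4) L45400 (by decide +kernel)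
theorem L45402 : W_5 (nat_lit 2) (nat_lit 0x20001000134009c000000000000000000000000000000) (nat_lit 0x0) (nat_lit 0x20003000000000000000000000000000000) := D_5 (nat_lit 121) (nat_lit 137) (nat_lit 120) (nat_lit 1) (nat_lit 5) (nat_lit 7) (nat_lit 3) (nat_lit 1) (nat_lit 7) (by decide +kernel)
theorem L45403 : W_5 (nat_lit 2) (nat_lit 0x2000100013400bc0016000b0000000000000000000000) (nat_lit 0x0) (nat_lit 0x140002000000000000000000) := D_5 (nat_lit 90) (nat_lit 73) (nat_lit 92) (nat_lit 6) (nat_lit 4) (nat_lit 8) (nat_lit 1) (nat_lit 7) (nat_lit 5) (by decide +kernel)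
theorem L45404 : W_5 (nat_lit 3) (nat_lit 0x2000100013400bc001600090000000000000000000000) (nat_lit 0x0) (nat_lit 0x160003000000000000000000) := T_5 (nat_lit 89) (nat_lit 72) (nat_lit 7) (nat_lit 4) (nat_lit 4) L45403 (by decide +kernel)
theorem L45405 : W_5 (nat_lit 4) (nat_lit 0x2000100013400bc001200090000000000000000000000) (nat_lit 0x0) (nat_lit 0x2000000000000400160003000000000000000000) := T_5 (nat_lit 106) (nat_lit 157) (nat_lit 4) (nat_lit 4) (nat_lit 9) L45404 (by decide +kernel)
theorem L45406 : W_5 (nat_lit 5) (nat_lit 0x2000100013400bc001200010000000000000000000000) (nat_lit 0x0) (nat_lit 0x20000000000004001e0007000000000000000000) := T_5 (nat_lit 91) (nat_lit 74) (nat_lit 5) (nat_lit 6) (nat_lit 4) L45405 (by decide +kernel)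
theorem L45407 : W_5 (nat_lit 6) (nat_lit 0x2000100013400bc001200000000000000000000000000) (nat_lit 0x0) (nat_lit 0x20000000000004001f0007800000000000000000) := T_5 (nat_lit 88) (nat_lit 71) (nat_lit 7) (nat_lit 3) (nat_lit 4) L45406 (by decide +kernel)
theorem L45408 : W_5 (nat_lit 7) (nat_lit 0x2000100013400bc000200000000000000000000000000) (nat_lit 0x0) (nat_lit 0x20000000000034001f0007800000000000000000) := T_5 (nat_lit 108) (nat_lit 109) (nat_lit 2) (nat_lit 3) (nat_lit 7) L45407 (by decide +kernel)
theorem L45409 : W_5 (nat_lit 8) (nat_lit 0x2000100013400bc000000000000000000000000000000) (nat_lit 0x0) (nat_lit 0x20000000000037001f0007800000000000000000) := T_5 (nat_lit 105) (nat_lit 104) (nat_lit 0) (nat_lit 6) (nat_lit 7) L45408 (by decide +kernel)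
theorem L45410 : W_5 (nat_lit 9) (nat_lit 0x20001000134009c000000000000000000000000000000) (nat_lit 0x0) (nat_lit 0x20000000600037001f0007800000000000000000) := T_5 (nat_lit 125) (nat_lit 126) (nat_lit 1) (nat_lit 8) (nat_lit 7) L45409 (by decide +kernel)
theorem L45411 : W_5 (nat_lit 10) (nat_lit 0x200010001340098000000000000000000000000000000) (nat_lit 0x0) (nat_lit 0x20000200670037001f0007800000000000000000) := Q_5 (nat_lit 122) (C_5 L45402 (C_5 L45410 N_5)) (by decide +kernel)
theorem L45412 : W_5 (nat_lit 2) (nat_lit 0x20001000134009a000000000000000000000000000000) (nat_lit 0x0) (nat_lit 0x80005000000000000000000000000000000) := D_5 (nat_lit 120) (nat_lit 139) (nat_lit 122) (nat_lit 0) (nat_lit 5) (nat_lit 8) (nat_lit 3) (nat_lit 1) (nat_lit 7) (by decide +kernel)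
theorem L45413 : W_5 (nat_lit 2) (nat_lit 0x20001000134009a000000000000000000000000000000) (nat_lit 0x0) (nat_lit 0xa0004000000000000000000000000000000) := D_5 (nat_lit 137) (nat_lit 139) (nat_lit 122) (nat_lit 2) (nat_lit 1) (nat_lit 8) (nat_lit 1) (nat_lit 5) (nat_lit 7) (by decide +kernel)
theorem L45414 : W_5 (nat_lit 3) (nat_lit 0x200010001340098000000000000000000000000000000) (nat_lit 0x0) (nat_lit 0xa0007000000000000000000000000000000) := Q_5 (nat_lit 121) (C_5 L43670 (C_5 L43512 (C_5 L45412 (C_5 L45413 N_5)))) (by decide +kernel)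
theorem L45415 : W_5 (nat_lit 11) (nat_lit 0x200010001300098000000000000000000000000000000) (nat_lit 0x0) (nat_lit 0x20000e00670037001f0007800000000000000000) := Q_5 (nat_lit 138) (C_5 L43511 (C_5 L45411 (C_5 L45414 N_5))) (by decide +kernel)
theorem L45416 : W_5 (nat_lit 3) (nat_lit 0x2000100013800bc000000000000000000000000000000) (nat_lit 0x0) (nat_lit 0x2000000000000300010000800000000000000000) := T_5 (nat_lit 105) (nat_lit 104) (nat_lit 0) (nat_lit 6) (nat_lit 7) L45396 (by decide +kernel)
theorem L45417 : W_5 (nat_lit 4) (nat_lit 0x20001000138009c000000000000000000000000000000) (nat_lit 0x0) (nat_lit 0x2000000060000300010000800000000000000000) := T_5 (nat_lit 125) (nat_lit 126) (nat_lit 1) (nat_lit 7) (nat_lit 7) L45416 (by decide +kernel)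
theorem L45418 : W_5 (nat_lit 7) (nat_lit 0x200010001380098000000000000000000000000000000) (nat_lit 0x0) (nat_lit 0x20003000000067003b80058002c00000000000000000) := Q_5 (nat_lit 122) (C_5 L45367 (C_5 L43499 (C_5 L45417 (C_5 L45155 N_5)))) (by decide +kernel)
theorem L45419 : W_5 (nat_lit 2) (nat_lit 0x20001000138009a000000000000000000000000000000) (nat_lit 0x0) (nat_lit 0x60001000000000000000000000000000000) := D_5 (nat_lit 138) (nat_lit 137) (nat_lit 120) (nat_lit 2) (nat_lit 1) (nat_lit 8) (nat_lit 0) (nat_lit 5) (nat_lit 8) (by decide +kernel)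
theorem L45420 : W_5 (nat_lit 4) (nat_lit 0x20001000138009a000000000000000000000000000000) (nat_lit 0x0) (nat_lit 0x2000000005001800040002000000000000000000) := T_5 (nat_lit 122) (nat_lit 120) (nat_lit 3) (nat_lit 1) (nat_lit 7) L45154 (by decide +kernel)
theorem L45421 : W_5 (nat_lit 5) (nat_lit 0x20001000138009a000000000000000000000000000000) (nat_lit 0x0) (nat_lit 0x10002c00060004001a00050002000000000000000000) := Q_5 (nat_lit 122) (C_5 L45154 (C_5 L44842 N_5)) (by decide +kernel)
theorem L45422 : W_5 (nat_lit 6) (nat_lit 0x200010001380098000000000000000000000000000000) (nat_lit 0x0) (nat_lit 0x10002c00060007001a00050002000000000000000000) := Q_5 (nat_lit 121) (C_5 L45419 (C_5 L45420 (C_5 L45421 N_5))) (by decide +kernel)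
theorem L45423 : W_5 (nat_lit 8) (nat_lit 0x200010001300098000000000000000000000000000000) (nat_lit 0x0) (nat_lit 0x30003c000e0067003b80058002c00000000000000000) := Q_5 (nat_lit 139) (C_5 L45418 (C_5 L45312 (C_5 L45422 N_5))) (by decide +kernel)
theorem L45424 : W_5 (nat_lit 2) (nat_lit 0x200010001b800d8002d001c0000000000000000000000) (nat_lit 0x0) (nat_lit 0x2000100008000000000000000000000000000000000000000) := D_5 (nat_lit 176) (nat_lit 159) (nat_lit 193) (nat_lit 5) (nat_lit 7) (nat_lit 6) (nat_lit 5) (nat_lit 7) (nat_lit 7) (by decide +kernel)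
theorem L45425 : W_5 (nat_lit 3) (nat_lit 0x2000100013800d8002d001c0000000000000000000000) (nat_lit 0x0) (nat_lit 0x2000100028000800000000000000000000000000000000000) := T_5 (nat_lit 143) (nat_lit 161) (nat_lit 7) (nat_lit 7) (nat_lit 5) L45424 (by decide +kernel)
theorem L45426 : W_5 (nat_lit 4) (nat_lit 0x2000100013800d8000d001c0000000000000000000000) (nat_lit 0x0) (nat_lit 0x2000100028000800000002000000008000000000000000000) := T_5 (nat_lit 109) (nat_lit 75) (nat_lit 7) (nat_lit 7) (nat_lit 4) L45425 (by decide +kernel)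
theorem L45427 : W_5 (nat_lit 5) (nat_lit 0x2000100013800d8000d000c0000000000000000000000) (nat_lit 0x0) (nat_lit 0x2000100028000800000002000300008000000000000000000) := T_5 (nat_lit 92) (nat_lit 93) (nat_lit 1) (nat_lit 8) (nat_lit 5) L45426 (by decide +kernel)
theorem L45428 : W_5 (nat_lit 6) (nat_lit 0x2000100013800d8000c000c0000000000000000000000) (nat_lit 0x0) (nat_lit 0x2000100028000800000002300300008000000000000000000) := T_5 (nat_lit 104) (nat_lit 105) (nat_lit 2) (nat_lit 2) (nat_lit 6) L45427 (by decide +kernel)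
theorem L45429 : W_5 (nat_lit 7) (nat_lit 0x2000100013800d8000c00040000000000000000000000) (nat_lit 0x0) (nat_lit 0x200010002800080000000230038000c000000000000000000) := T_5 (nat_lit 91) (nat_lit 74) (nat_lit 6) (nat_lit 5) (nat_lit 8) L45428 (by decide +kernel)
theorem L45430 : W_5 (nat_lit 8) (nat_lit 0x2000100013800d8000c00000000000000000000000000) (nat_lit 0x0) (nat_lit 0x20001000280008000000023003c000e000000000000000000) := T_5 (nat_lit 90) (nat_lit 73) (nat_lit 5) (nat_lit 5) (nat_lit 4) L45429 (by decide +kernel)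
theorem L45431 : W_5 (nat_lit 9) (nat_lit 0x200010001380098000c00000000000000000000000000) (nat_lit 0x0) (nat_lit 0x20001000280008000600023003c000e000000000000000000) := T_5 (nat_lit 126) (nat_lit 125) (nat_lit 1) (nat_lit 7) (nat_lit 7) L45430 (by decide +kernel)
theorem L45432 : W_5 (nat_lit 2) (nat_lit 0x2000100013800b8000e00010000000000000000000000) (nat_lit 0x0) (nat_lit 0x4000000000000800040000000000000) := D_5 (nat_lit 71) (nat_lit 54) (nat_lit 122) (nat_lit 7) (nat_lit 3) (nat_lit 3) (nat_lit 7) (nat_lit 3) (nat_lit 4) (by decide +kernel)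
theorem L45433 : W_5 (nat_lit 3) (nat_lit 0x2000100013800b8000e00000000000000000000000000) (nat_lit 0x0) (nat_lit 0x2000000004000000010000800040000000000000) := T_5 (nat_lit 88) (nat_lit 157) (nat_lit 4) (nat_lit 4) (nat_lit 9) L45432 (by decide +kernel)
theorem L45434 : W_5 (nat_lit 4) (nat_lit 0x2000100013800b8000c00000000000000000000000000) (nat_lit 0x0) (nat_lit 0x2000000004000300010000800040000000000000) := T_5 (nat_lit 105) (nat_lit 104) (nat_lit 3) (nat_lit 2) (nat_lit 6) L45433 (by decide +kernel)
theorem L45435 : W_5 (nat_lit 5) (nat_lit 0x200010001380098000c00000000000000000000000000) (nat_lit 0x0) (nat_lit 0x2000000064000300010000800040000000000000) := T_5 (nat_lit 125) (nat_lit 126) (nat_lit 1) (nat_lit 7) (nat_lit 7) L45434 (by decide +kernel)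
theorem L45436 : W_5 (nat_lit 10) (nat_lit 0x200010001380098000400000000000000000000000000) (nat_lit 0x0) (nat_lit 0x200010002a000800064002b003d000e800040000000000000) := Q_5 (nat_lit 107) (C_5 L45055 (C_5 L45431 (C_5 L45435 N_5))) (by decide +kernel)
theorem L45437 : W_5 (nat_lit 11) (nat_lit 0x200010001380098000000000000000000000000000000) (nat_lit 0x0) (nat_lit 0x200010002b000800064002f003f000f800040000000000000) := Q_5 (nat_lit 106) (C_5 L45069 (C_5 L45064 (C_5 L45436 N_5))) (by decide +kernel)
theorem L45438 : W_5 (nat_lit 2) (nat_lit 0x2000120013c009a000f00000000000000000000000000) (nat_lit 0x0) (nat_lit 0x20001000000000000000008000000000000000000000) := D_5 (nat_lit 156) (nat_lit 173) (nat_lit 87) (nat_lit 5) (nat_lit 4) (nat_lit 6) (nat_lit 7) (nat_lit 2) (nat_lit 5) (by decide +kernel)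
end Crest.Agent.Helper32.Snaky.R1_0
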