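import Crest.Agent.Helper32.Snaky.Gen.R1_0_p1
set_option autoImplicit false
set_option maxRecDepth 100000
set_option linter.all false
set_option Elab.async false
namespace Crest.Agent.Helper32.Snaky.R1_0
@[reducible] def W_50 (d M Bz Z : Nat) : Prop := Crest.Agent.Helper32.Snaky.Wins (nat_lit 17) d M Bz Z
theorem D_50 {d M Bz Z : Nat} (m t1 t2 o1 x1 y1 o2 x2 y2 : Nat) (h : Crest.Agent.Helper32.Snaky.chkDoubleC (nat_lit 17) d M Bz Z m t1 t2 o1 x1 y1 o2 x2 y2 = true) : W_50 d M Bz Z := Crest.Agent.Helper32.Snaky.doubleC m t1 t2 o1 x1 y1 o2 x2 y2 h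
theorem T_50 {d M Bz Z cd cM cBz cZ : Nat} (m t o x y : Nat) (child : W_50 cd cM cBz cZ) (h : Crest.Agent.Helper32.Snaky.chkThreatC (nat_lit 17) d M Bz Z cd cM cBz cZ m t o x y = true) : W_50 d M Bz Z := Crest.Agent.Helper32.Snaky.threatC m t o x y child h
theorem Q_50 {d M Bz Z : Nat} (m : Nat) {l : List Crest.Agent.Helper32.Snaky.Spec} (kids : Crest.Agent.Helper32.Snaky.AllWins (nat_lit 17) l) (h : Crest.Agent.Helper32.Snaky.chkQuiet d M Bz Z m l = true) : W_50 d M Bz Z := Crest.Agent.Helper32.Snaky.quiet m kids h
theorem C_50 {cd cM cBz cZ : Nat} {l : List Crest.Agent.Helper32.Snaky.Spec} (h : W_50 cd cM cBz cZ) (hl : Crest.Agent.Helper32.Snaky.AllWins (nat_lit 17) l) : Crest.Agent.Helper32.Snaky.AllWins (nat_lit 17) ((cd, cM, cBz, cZ) :: l) := Crest.Agent.Helper32.Snaky.AllWins.cons h hl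
theorem N_50 : Crest.Agent.Helper32.Snaky.AllWins (nat_lit 17) [] := Crest.Agent.Helper32.Snaky.AllWins.nil
theorem L1607 : W_50 (nat_lit 4) (nat_lit 0x10000f0005000080006000000000000000000000000000) (nat_lit 0x0) (nat_lit 0x700038000400000000000000000000000) := T_50 (nat_lit 111) (nat_lit 94) (nat_lit 6) (nat_lit 8) (nat_lit 9) L1606 (by decide +kernel)
theorem L1608 : W_50 (nat_lit 5) (nat_lit 0x10000f0005000080004000000000000000000000000000) (nat_lit 0x0) (nat_lit 0x70003a000500000000000000000000000) := T_50 (nat_lit 109) (nat_lit 92) (nat_lit 4) (nat_lit 8) (nat_lit 9) L1607 (by decide +kernel)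
theorem L1609 : W_50 (nat_lit 6) (nat_lit 0x10000f0001000080004000000000000000000000000000) (nat_lit 0x0) (nat_lit 0xc00070003a000500000000000000000000000) := T_50 (nat_lit 146) (nat_lit 147) (nat_lit 2) (nat_lit 7) (nat_lit 9) L1608 (by decide +kernel)
theorem L1610 : W_50 (nat_lit 7) (nat_lit 0xf0001000080004000000000000000000000000000) (nat_lit 0x0) (nat_lit 0x300000000c00070003a000500000000000000000000000) := T_50 (nat_lit 180) (nat_lit 181) (nat_lit 3) (nat_lit 7) (nat_lit 9) L1609 (by decide +kernel)
theorem L1611 : W_50 (nat_lit 8) (nat_lit 0xe0001000080004000000000000000000000000000) (nat_lit 0x0) (nat_lit 0x320001000c00070003a000500000000000000000000000) := T_50 (nat_lit 160) (nat_lit 177) (nat_lit 5) (nat_lit 8) (nat_lit 6) L1610 (by decide +kernel)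
theorem L1615 : W_50 (nat_lit 12) (nat_lit 0x60001000080004000000000000000000000000000) (nat_lit 0x0) (nat_lit 0x100008000f20039001cc0074003a003d00000000000000000000000) := Q_50 (nat_lit 163) (C_50 L1604 (C_50 L1611 (C_50 L1614 (C_50 L705 N_50)))) (by decide +kernel)
theorem L1616 : W_50 (nat_lit 13) (nat_lit 0x20001000080004000000000000000000000000000) (nat_lit 0x0) (nat_lit 0x100008000fa003d001cc0074003a003d00000000000000000000000) := T_50 (nat_lit 162) (nat_lit 179) (nat_lit 7) (nat_lit 8) (nat_lit 6) L1615 (by decide +kernel)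
theorem L1617 : W_50 (nat_lit 2) (nat_lit 0x60001000080004000600000000000000000000000) (nat_lit 0x0) (nat_lit 0x2000100008000000000000000000) := D_50 (nat_lit 92) (nat_lit 75) (nat_lit 109) (nat_lit 4) (nat_lit 8) (nat_lit 8) (nat_lit 4) (nat_lit 8) (nat_lit 9) (by decide +kernel)
theorem L1618 : W_50 (nat_lit 3) (nat_lit 0x60001000080004000400000000000000000000000) (nat_lit 0x0) (nat_lit 0x2000300028000000000000000000) := T_50 (nat_lit 93) (nat_lit 77) (nat_lit 6) (nat_lit 8) (nat_lit 8) L1617 (by decide +kernel)
theorem L1619 : W_50 (nat_lit 4) (nat_lit 0x20001000080004000400000000000000000000000) (nat_lit 0x0) (nat_lit 0x800040000000000002000300028000000000000000000) := T_50 (nat_lit 162) (nat_lit 179) (nat_lit 7) (nat_lit 8) (nat_lit 6) L1618 (by decide +kernel)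
theorem L1620 : W_50 (nat_lit 5) (nat_lit 0x20001000080004000000000000000000000000000) (nat_lit 0x0) (nat_lit 0x80004000000000000a000700028000000000000000000) := T_50 (nat_lit 94) (nat_lit 111) (nat_lit 6) (nat_lit 8) (nat_lit 9) L1619 (by decide +kernel)
theorem L1625 : W_50 (nat_lit 14) (nat_lit 0x20001000080000000000000000000000000000000) (nat_lit 0x0) (nat_lit 0x100008000fa003d001cc0074003e003f00028000000000000000000) := Q_50 (nat_lit 110) (C_50 L1616 (C_50 L1620 (C_50 L1032 (C_50 L1624 N_50)))) (by decide +kernel)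
theorem L1626 : W_50 (nat_lit 2) (nat_lit 0xe000300018000c0000000000000000000000000000000) (nat_lit 0x0) (nat_lit 0x100000c000000000000000000000000000000000000000) := D_50 (nat_lit 159) (nat_lit 158) (nat_lit 180) (nat_lit 3) (nat_lit 5) (nat_lit 9) (nat_lit 0) (nat_lit 10) (nat_lit 10) (by decide +kernel)
theorem L1627 : W_50 (nat_lit 3) (nat_lit 0x6000300018000c0000000000000000000000000000000) (nat_lit 0x0) (nat_lit 0x1000180000c000000000000000000000000000000000000000) := T_50 (nat_lit 179) (nat_lit 196) (nat_lit 7) (nat_lit 8) (nat_lit 7) L1626 (by decide +kernel)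
theorem L1628 : W_50 (nat_lit 4) (nat_lit 0x4000300018000c0000000000000000000000000000000) (nat_lit 0x0) (nat_lit 0x14001a0000c000000000000000000000000000000000000000) := T_50 (nat_lit 177) (nat_lit 194) (nat_lit 6) (nat_lit 7) (nat_lit 11) L1627 (by decide +kernel)
theorem L1629 : W_50 (nat_lit 5) (nat_lit 0x400030001800080000000000000000000000000000000) (nat_lit 0x0) (nat_lit 0x14001a0000c000000040002000000000000000000000000000) := T_50 (nat_lit 126) (nat_lit 109) (nat_lit 7) (nat_lit 7) (nat_lit 6) L1628 (by decide +kernel)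
theorem L1632 : W_50 (nat_lit 4) (nat_lit 0x600030001800080000000000000000000000000000000) (nat_lit 0x0) (nat_lit 0x20001c0040000000040002000000000000000000000000000) := T_50 (nat_lit 126) (nat_lit 109) (nat_lit 7) (nat_lit 7) (nat_lit 6) L1631 (by decide +kernel)
theorem L1633 : W_50 (nat_lit 5) (nat_lit 0x400030001800080000000000000000000000000000000) (nat_lit 0x0) (nat_lit 0x60003c0040000000040002000000000000000000000000000) := T_50 (nat_lit 177) (nat_lit 194) (nat_lit 6) (nat_lit 7) (nat_lit 11) L1632 (by decide +kernel)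
theorem L1634 : W_50 (nat_lit 9) (nat_lit 0x400020001800080000000000000000000000000000000) (nat_lit 0x0) (nat_lit 0x76003bc01dc000400040002000000000000000000000000000) := Q_50 (nat_lit 160) (C_50 L1629 (C_50 L839 (C_50 L439 (C_50 L1633 N_50)))) (by decide +kernel)
theorem L1635 : W_50 (nat_lit 4) (nat_lit 0xe000200058003c0000000000000000000000000000000) (nat_lit 0x0) (nat_lit 0x30001c0000000000030000000000000000000000000000) := T_50 (nat_lit 112) (nat_lit 113) (nat_lit 2) (nat_lit 7) (nat_lit 7) L504 (by decide +kernel)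
theorem L1636 : W_50 (nat_lit 5) (nat_lit 0xe000200018003c0000000000000000000000000000000) (nat_lit 0x0) (nat_lit 0x30001c000c000000030000000000000000000000000000) := T_50 (nat_lit 146) (nat_lit 147) (nat_lit 3) (nat_lit 7) (nat_lit 7) L1635 (by decide +kernel)
theorem L1637 : W_50 (nat_lit 6) (nat_lit 0xc000200018003c0000000000000000000000000000000) (nat_lit 0x0) (nat_lit 0x40032001c000c000000030000000000000000000000000000) := T_50 (nat_lit 177) (nat_lit 194) (nat_lit 5) (nat_lit 8) (nat_lit 7) L1636 (by decide +kernel)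
theorem L1638 : W_50 (nat_lit 7) (nat_lit 0xc000200018001c0000000000000000000000000000000) (nat_lit 0x0) (nat_lit 0x40032001c000c000600030000000000000000000000000000) := T_50 (nat_lit 129) (nat_lit 130) (nat_lit 1) (nat_lit 11) (nat_lit 7) L1637 (by decide +kernel)
theorem L1639 : W_50 (nat_lit 8) (nat_lit 0xc000200018000c0000000000000000000000000000000) (nat_lit 0x0) (nat_lit 0x40032001c000c000700038000000000000000000000000000) := T_50 (nat_lit 128) (nat_lit 111) (nat_lit 6) (nat_lit 8) (nat_lit 10) L1638 (by decide +kernel)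
theorem L1640 : W_50 (nat_lit 9) (nat_lit 0xc00020001800080000000000000000000000000000000) (nat_lit 0x0) (nat_lit 0x40032001c000c00074003a000000000000000000000000000) := T_50 (nat_lit 126) (nat_lit 109) (nat_lit 4) (nat_lit 8) (nat_lit 10) L1639 (by decide +kernel)
theorem L1641 : W_50 (nat_lit 10) (nat_lit 0x400020001800080000000000000000000000000000000) (nat_lit 0x0) (nat_lit 0x14003a001c000c00074003a000000000000000000000000000) := T_50 (nat_lit 179) (nat_lit 196) (nat_lit 7) (nat_lit 8) (nat_lit 7) L1640 (by decide +kernel)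
theorem L1645 : W_50 (nat_lit 5) (nat_lit 0x600020001800080000000000000000000000000000000) (nat_lit 0x0) (nat_lit 0x10000800000000600740008000000000000000000000000000) := T_50 (nat_lit 179) (nat_lit 196) (nat_lit 7) (nat_lit 8) (nat_lit 7) L1644 (by decide +kernel)
theorem L1646 : W_50 (nat_lit 6) (nat_lit 0x400020001800080000000000000000000000000000000) (nat_lit 0x0) (nat_lit 0x14000a00000000600740008000000000000000000000000000) := T_50 (nat_lit 177) (nat_lit 194) (nat_lit 5) (nat_lit 8) (nat_lit 7) L1645 (by decide +kernel)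
theorem L1647 : W_50 (nat_lit 2) (nat_lit 0x6000e0001a00580000000000000000000000000000000) (nat_lit 0x0) (nat_lit 0x980000000000000000000000000000000000000000000) := D_50 (nat_lit 176) (nat_lit 179) (nat_lit 175) (nat_lit 2) (nat_lit 6) (nat_lit 10) (nat_lit 2) (nat_lit 5) (nat_lit 10) (by decide +kernel)
theorem L1648 : W_50 (nat_lit 3) (nat_lit 0x4000e0001a00580000000000000000000000000000000) (nat_lit 0x0) (nat_lit 0x4000b80000000000000000000000000000000000000000000) := T_50 (nat_lit 177) (nat_lit 194) (nat_lit 5) (nat_lit 8) (nat_lit 7) L1647 (by decide +kernel)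
theorem L1649 : W_50 (nat_lit 4) (nat_lit 0x400060001a00580000000000000000000000000000000) (nat_lit 0x0) (nat_lit 0x4000b80180000000000000000000000000000000000000000) := T_50 (nat_lit 163) (nat_lit 164) (nat_lit 0) (nat_lit 11) (nat_lit 9) L1648 (by decide +kernel)
theorem L1650 : W_50 (nat_lit 5) (nat_lit 0x400060001a00180000000000000000000000000000000) (nat_lit 0x0) (nat_lit 0x4000b80180000000600000000000000000000000000000000) := T_50 (nat_lit 130) (nat_lit 129) (nat_lit 1) (nat_lit 11) (nat_lit 7) L1649 (by decide +kernel)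
theorem L1651 : W_50 (nat_lit 6) (nat_lit 0x400060001800180000000000000000000000000000000) (nat_lit 0x0) (nat_lit 0x4000b80180000600600000000000000000000000000000000) := T_50 (nat_lit 141) (nat_lit 142) (nat_lit 3) (nat_lit 5) (nat_lit 8) L1650 (by decide +kernel)
theorem L1652 : W_50 (nat_lit 7) (nat_lit 0x400060001800080000000000000000000000000000000) (nat_lit 0x0) (nat_lit 0x4000b80180000600700008000000000000000000000000000) := T_50 (nat_lit 128) (nat_lit 111) (nat_lit 6) (nat_lit 8) (nat_lit 10) L1651 (by decide +kernel)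
theorem L1653 : W_50 (nat_lit 7) (nat_lit 0xc00060001a00080000000000000000000000000000000) (nat_lit 0x0) (nat_lit 0x4000700138019c000000000000000000000000000000000000000) := T_50 (nat_lit 164) (nat_lit 163) (nat_lit 0) (nat_lit 11) (nat_lit 9) L936 (by decide +kernel)
theorem L1654 : W_50 (nat_lit 8) (nat_lit 0xc00060001800080000000000000000000000000000000) (nat_lit 0x0) (nat_lit 0x4000700138019c000600000000000000000000000000000000000) := T_50 (nat_lit 141) (nat_lit 142) (nat_lit 3) (nat_lit 5) (nat_lit 8) L1653 (by decide +kernel)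
theorem L1655 : W_50 (nat_lit 9) (nat_lit 0x400060001800080000000000000000000000000000000) (nat_lit 0x0) (nat_lit 0x40017001b8019c000600000000000000000000000000000000000) := T_50 (nat_lit 179) (nat_lit 196) (nat_lit 7) (nat_lit 8) (nat_lit 7) L1654 (by decide +kernel)
theorem L1656 : W_50 (nat_lit 2) (nat_lit 0xe800f0005800380000000000000000000000000000000) (nat_lit 0x0) (nat_lit 0x3000008000000000000000000000000000000000000000) := D_50 (nat_lit 180) (nat_lit 181) (nat_lit 159) (nat_lit 3) (nat_lit 7) (nat_lit 9) (nat_lit 3) (nat_lit 6) (nat_lit 9) (by decide +kernel)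
theorem L1657 : W_50 (nat_lit 3) (nat_lit 0xe800e0005800380000000000000000000000000000000) (nat_lit 0x0) (nat_lit 0x3000018008000000000000000000000000000000000000) := T_50 (nat_lit 160) (nat_lit 147) (nat_lit 2) (nat_lit 7) (nat_lit 9) L1656 (by decide +kernel)
theorem L1658 : W_50 (nat_lit 4) (nat_lit 0xe800e0001800380000000000000000000000000000000) (nat_lit 0x0) (nat_lit 0x300001800c000000010000000000000000000000000000) := T_50 (nat_lit 146) (nat_lit 112) (nat_lit 5) (nat_lit 10) (nat_lit 6) L1657 (by decide +kernel)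
theorem L1659 : W_50 (nat_lit 5) (nat_lit 0x6800e0001800380000000000000000000000000000000) (nat_lit 0x0) (nat_lit 0x1000380001800c000000010000000000000000000000000000) := T_50 (nat_lit 179) (nat_lit 196) (nat_lit 7) (nat_lit 8) (nat_lit 7) L1658 (by decide +kernel)
theorem L1660 : W_50 (nat_lit 6) (nat_lit 0x6800e0001800180000000000000000000000000000000) (nat_lit 0x0) (nat_lit 0x1000380001800c000600010000000000000000000000000000) := T_50 (nat_lit 129) (nat_lit 130) (nat_lit 1) (nat_lit 11) (nat_lit 7) L1659 (by decide +kernel)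
theorem L1661 : W_50 (nat_lit 7) (nat_lit 0x6800e0001800080000000000000000000000000000000) (nat_lit 0x0) (nat_lit 0x1000380001800c000700018000000000000000000000000000) := T_50 (nat_lit 128) (nat_lit 111) (nat_lit 6) (nat_lit 8) (nat_lit 10) L1660 (by decide +kernel)
theorem L1662 : W_50 (nat_lit 8) (nat_lit 0x680060001800080000000000000000000000000000000) (nat_lit 0x0) (nat_lit 0x1000380019800c000700018000000000000000000000000000) := T_50 (nat_lit 163) (nat_lit 164) (nat_lit 1) (nat_lit 11) (nat_lit 9) L1661 (by decide +kernel)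
theorem L1663 : W_50 (nat_lit 9) (nat_lit 0x600060001800080000000000000000000000000000000) (nat_lit 0x0) (nat_lit 0x1000398019800c000700018000000000000000000000000000) := T_50 (nat_lit 175) (nat_lit 176) (nat_lit 2) (nat_lit 5) (nat_lit 10) L1662 (by decide +kernel)
theorem L1664 : W_50 (nat_lit 10) (nat_lit 0x400060001800080000000000000000000000000000000) (nat_lit 0x0) (nat_lit 0x14003b8019800c000700018000000000000000000000000000) := T_50 (nat_lit 177) (nat_lit 194) (nat_lit 5) (nat_lit 8) (nat_lit 7) L1663 (by decide +kernel)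
theorem L1665 : W_50 (nat_lit 5) (nat_lit 0xc000e0001a00180000000000000000000000000000000) (nat_lit 0x0) (nat_lit 0x300001800c000600010000000000000000000000000000) := T_50 (nat_lit 129) (nat_lit 130) (nat_lit 1) (nat_lit 11) (nat_lit 7) L804 (by decide +kernel)
theorem L1666 : W_50 (nat_lit 6) (nat_lit 0xc000e0001a00080000000000000000000000000000000) (nat_lit 0x0) (nat_lit 0x300001800c000700018000000000000000000000000000) := T_50 (nat_lit 128) (nat_lit 111) (nat_lit 6) (nat_lit 8) (nat_lit 10) L1665 (by decide +kernel)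
theorem L1667 : W_50 (nat_lit 7) (nat_lit 0xc00060001a00080000000000000000000000000000000) (nat_lit 0x0) (nat_lit 0x300019800c000700018000000000000000000000000000) := T_50 (nat_lit 163) (nat_lit 164) (nat_lit 0) (nat_lit 11) (nat_lit 9) L1666 (by decide +kernel)
theorem L1668 : W_50 (nat_lit 8) (nat_lit 0xc00060001800080000000000000000000000000000000) (nat_lit 0x0) (nat_lit 0x300019800c600700018000000000000000000000000000) := T_50 (nat_lit 141) (nat_lit 142) (nat_lit 3) (nat_lit 5) (nat_lit 8) L1667 (by decide +kernel)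
theorem L1669 : W_50 (nat_lit 9) (nat_lit 0x400060001800080000000000000000000000000000000) (nat_lit 0x0) (nat_lit 0x1000380019800c600700018000000000000000000000000000) := T_50 (nat_lit 179) (nat_lit 196) (nat_lit 7) (nat_lit 8) (nat_lit 7) L1668 (by decide +kernel)
theorem L1672 : W_50 (nat_lit 4) (nat_lit 0x400060001a00580000000000000000000000000000000) (nat_lit 0x0) (nat_lit 0x4000380190000000000000000000000000000000000000000) := T_50 (nat_lit 177) (nat_lit 194) (nat_lit 5) (nat_lit 8) (nat_lit 7) L1671 (by decide +kernel)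
theorem L1673 : W_50 (nat_lit 5) (nat_lit 0x400060001a00180000000000000000000000000000000) (nat_lit 0x0) (nat_lit 0x4000380190000000600000000000000000000000000000000) := T_50 (nat_lit 130) (nat_lit 129) (nat_lit 1) (nat_lit 11) (nat_lit 7) L1672 (by decide +kernel)
theorem L1674 : W_50 (nat_lit 6) (nat_lit 0x400060001800180000000000000000000000000000000) (nat_lit 0x0) (nat_lit 0x4000380190000600600000000000000000000000000000000) := T_50 (nat_lit 141) (nat_lit 142) (nat_lit 3) (nat_lit 5) (nat_lit 8) L1673 (by decide +kernel)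
theorem L1675 : W_50 (nat_lit 7) (nat_lit 0x400060001800080000000000000000000000000000000) (nat_lit 0x0) (nat_lit 0x4000380190000600700008000000000000000000000000000) := T_50 (nat_lit 128) (nat_lit 111) (nat_lit 6) (nat_lit 8) (nat_lit 10) L1674 (by decide +kernel)
theorem L1676 : W_50 (nat_lit 11) (nat_lit 0x400020001800080000000000000000000000000000000) (nat_lit 0x0) (nat_lit 0x40017003b801dc00c600700018000000000000000000000000000) := Q_50 (nat_lit 162) (C_50 L1652 (C_50 L1655 (C_50 L1664 (C_50 L1669 (C_50 L1675 (C_50 L497 N_50)))))) (by decide +kernel)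
theorem L1677 : W_50 (nat_lit 12) (nat_lit 0x400020001000080000000000000000000000000000000) (nat_lit 0x0) (nat_lit 0x40077003bc01dc00ce0074003a000000000000000000000000000) := Q_50 (nat_lit 143) (C_50 L1634 (C_50 L982 (C_50 L1641 (C_50 L1646 (C_50 L1676 N_50))))) (by decide +kernel)
theorem L1678 : W_50 (nat_lit 2) (nat_lit 0x180004000200010000c0000000000000000000000000000000) (nat_lit 0x0) (nat_lit 0x80004000200000000000000000000000000000000000000000000) := D_50 (nat_lit 194) (nat_lit 211) (nat_lit 177) (nat_lit 5) (nat_lit 8) (nat_lit 8) (nat_lit 5) (nat_lit 8) (nat_lit 7) (by decide +kernel)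
theorem L1679 : W_50 (nat_lit 3) (nat_lit 0x100004000200010000c0000000000000000000000000000000) (nat_lit 0x0) (nat_lit 0x28000c000200000000000000000000000000000000000000000000) := T_50 (nat_lit 195) (nat_lit 213) (nat_lit 7) (nat_lit 8) (nat_lit 8) L1678 (by decide +kernel)
theorem L1680 : W_50 (nat_lit 4) (nat_lit 0x10000400020001000080000000000000000000000000000000) (nat_lit 0x0) (nat_lit 0x28000c000200000000000040002000000000000000000000000000) := T_50 (nat_lit 126) (nat_lit 109) (nat_lit 4) (nat_lit 8) (nat_lit 10) L1679 (by decide +kernel)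
theorem L1681 : W_50 (nat_lit 5) (nat_lit 0x400020001000080000000000000000000000000000000) (nat_lit 0x0) (nat_lit 0x28001c000a00000000000040002000000000000000000000000000) := T_50 (nat_lit 196) (nat_lit 179) (nat_lit 7) (nat_lit 8) (nat_lit 7) L1680 (by decide +kernel)
theorem L1684 : W_50 (nat_lit 8) (nat_lit 0x400020001000180000000000000000000000000000000) (nat_lit 0x0) (nat_lit 0x8000700038001c000800040000800040002000000000000000000000000000) := T_50 (nat_lit 179) (nat_lit 196) (nat_lit 7) (nat_lit 8) (nat_lit 7) L1683 (by decide +kernel)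
theorem L1685 : W_50 (nat_lit 9) (nat_lit 0x400020001000080000000000000000000000000000000) (nat_lit 0x0) (nat_lit 0x8000700038001c00080004000080014000a000000000000000000000000000) := T_50 (nat_lit 128) (nat_lit 111) (nat_lit 6) (nat_lit 8) (nat_lit 10) L1684 (by decide +kernel)
theorem L1686 : W_50 (nat_lit 13) (nat_lit 0x20001000080000000000000000000000000000000) (nat_lit 0x0) (nat_lit 0xa00070003c007f003fc01dc00ce0074003a000000000000000000000000000) := Q_50 (nat_lit 178) (C_50 L1677 (C_50 L1681 (C_50 L1685 (C_50 L849 (C_50 L1001 (C_50 L1004 (C_50 L1006 N_50))))))) (by decide +kernel)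
theorem L1695 : W_50 (nat_lit 6) (nat_lit 0x20001000080000000000000000000000000000000) (nat_lit 0x0) (nat_lit 0x28001c000e0005000000014000e000500000000000000000000000) := Q_50 (nat_lit 178) (C_50 L1690 (C_50 L1681 (C_50 L849 (C_50 L1694 N_50)))) (by decide +kernel)
theorem L1700 : W_50 (nat_lit 6) (nat_lit 0x20001000080000000000000000000000000000000) (nat_lit 0x0) (nat_lit 0x10000e0005000080004000e000700028000000000000000000) := Q_50 (nat_lit 110) (C_50 L1624 (C_50 L1620 (C_50 L1032 (C_50 L1699 N_50)))) (by decide +kernel)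
theorem L1705 : W_50 (nat_lit 8) (nat_lit 0x20001000080000000000000000000000000000000) (nat_lit 0x0) (nat_lit 0x600038001e000fc0050000800040006000200010000000000000000000) := Q_50 (nat_lit 178) (C_50 L1011 (C_50 L594 (C_50 L1681 (C_50 L575 (C_50 L589 (C_50 L1704 N_50)))))) (by decide +kernel)
theorem L1725 : W_50 (nat_lit 12) (nat_lit 0x20001000080000000000000000000000000000000) (nat_lit 0x0) (nat_lit 0x500038001c000c0005000080017003e000700038000400000000000000) := Q_50 (nat_lit 110) (C_50 L1699 (C_50 L1021 (C_50 L1708 (C_50 L1620 (C_50 L1714 (C_50 L1724 N_50)))))) (by decide +kernel)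
theorem L1732 : W_50 (nat_lit 8) (nat_lit 0x20001000080000000000000000000000000000000) (nat_lit 0x0) (nat_lit 0x10000800060001000080014000e000700018000c00000000000000) := Q_50 (nat_lit 110) (C_50 L1708 (C_50 L1032 (C_50 L1731 (C_50 L643 N_50)))) (by decide +kernel)
theorem L1733 : W_50 (nat_lit 7) (nat_lit 0x20001000080000000000000000000000000000000) (nat_lit 0x0) (nat_lit 0x28001c000e00040000e0034000e000400000000000000000000000) := Q_50 (nat_lit 178) (C_50 L1690 (C_50 L1681 (C_50 L849 (C_50 L1006 N_50)))) (by decide +kernel)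
theorem L1734 : W_50 (nat_lit 9) (nat_lit 0x20001000080000000000000000000000000000000) (nat_lit 0x0) (nat_lit 0x400038001c000e00050000e0014000c000400000000000000000000000) := Q_50 (nat_lit 178) (C_50 L575 (C_50 L871 (C_50 L849 (C_50 L868 (C_50 L578 N_50))))) (by decide +kernel)
theorem L1735 : W_50 (nat_lit 6) (nat_lit 0x20001000080000000000000000000000000000000) (nat_lit 0x0) (nat_lit 0x28001c000e0005000000010000c000400000000000000000000000) := Q_50 (nat_lit 178) (C_50 L578 (C_50 L575 (C_50 L871 (C_50 L849 N_50)))) (by decide +kernel)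
theorem L1736 : W_50 (nat_lit 15) (nat_lit 0x1000080000000000000000000000000000000) (nat_lit 0x0) (nat_lit 0xa00070013c00ff00ffc03fc01ce0077003e003f00038000c00000000000000) := Q_50 (nat_lit 161) (C_50 L1625 (C_50 L1686 (C_50 L1695 (C_50 L1700 (C_50 L1705 (C_50 L1725 (C_50 L1732 (C_50 L1733 (C_50 L1734 (C_50 L1735 N_50)))))))))) (by decide +kernel)
theorem L75760 : W_50 (nat_lit 2) (nat_lit 0x1600018005a000f000080004000500000000000000) (nat_lit 0x0) (nat_lit 0x200028000000000) := D_50 (nat_lit 57) (nat_lit 41) (nat_lit 39) (nat_lit 6) (nat_lit 6) (nat_lit 6) (nat_lit 4) (nat_lit 6) (nat_lit 6) (by decide +kernel)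
theorem L75761 : W_50 (nat_lit 3) (nat_lit 0x1600018005a000f000080004000400000000000000) (nat_lit 0x0) (nat_lit 0x2000300028000000000) := T_50 (nat_lit 56) (nat_lit 73) (nat_lit 4) (nat_lit 6) (nat_lit 7) L75760 (by decide +kernel)
theorem L75762 : W_50 (nat_lit 4) (nat_lit 0x1600018005a000f000080004000000000000000000) (nat_lit 0x0) (nat_lit 0xa000700028000000000) := T_50 (nat_lit 58) (nat_lit 75) (nat_lit 6) (nat_lit 6) (nat_lit 7) L75761 (by decide +kernel)
theorem L75763 : W_50 (nat_lit 5) (nat_lit 0x1600018005a000f000080000000000000000000000) (nat_lit 0x0) (nat_lit 0x4000000000000e000700028000000000) := T_50 (nat_lit 74) (nat_lit 126) (nat_lit 7) (nat_lit 6) (nat_lit 4) L75762 (by decide +kernel)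
theorem L75764 : W_50 (nat_lit 6) (nat_lit 0x600018005a000f000080000000000000000000000) (nat_lit 0x0) (nat_lit 0x18000000004000000000000e000700028000000000) := T_50 (nat_lit 164) (nat_lit 163) (nat_lit 0) (nat_lit 11) (nat_lit 9) L75763 (by decide +kernel)
theorem L75765 : W_50 (nat_lit 7) (nat_lit 0x200018005a000f000080000000000000000000000) (nat_lit 0x0) (nat_lit 0x8001c000000004000000000000e000700028000000000) := T_50 (nat_lit 162) (nat_lit 179) (nat_lit 7) (nat_lit 8) (nat_lit 6) L75764 (by decide +kernel)
theorem L75766 : W_50 (nat_lit 8) (nat_lit 0x200018005a000f000000000000000000000000000) (nat_lit 0x0) (nat_lit 0x8001c00000000400000000c000e000700028000000000) := T_50 (nat_lit 91) (nat_lit 90) (nat_lit 0) (nat_lit 9) (nat_lit 6) L75765 (by decide +kernel)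
theorem L75767 : W_50 (nat_lit 9) (nat_lit 0x2000180058000f000000000000000000000000000) (nat_lit 0x0) (nat_lit 0x8001c00000000700000000c000e000700028000000000) := T_50 (nat_lit 125) (nat_lit 124) (nat_lit 1) (nat_lit 9) (nat_lit 6) L75766 (by decide +kernel)
theorem L75768 : W_50 (nat_lit 10) (nat_lit 0x20001800580007000000000000000000000000000) (nat_lit 0x0) (nat_lit 0x8001c00000000700080004c000e000700028000000000) := T_50 (nat_lit 111) (nat_lit 94) (nat_lit 6) (nat_lit 8) (nat_lit 9) L75767 (by decide +kernel)
theorem L75769 : W_50 (nat_lit 11) (nat_lit 0x20001800580006000000000000000000000000000) (nat_lit 0x0) (nat_lit 0x8001c00000000700098004c000e000700028000000000) := T_50 (nat_lit 108) (nat_lit 107) (nat_lit 3) (nat_lit 5) (nat_lit 6) L75768 (by decide +kernel)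
theorem L75770 : W_50 (nat_lit 12) (nat_lit 0x20001800580004000000000000000000000000000) (nat_lit 0x0) (nat_lit 0x8001c000000007000b8005c000e000700028000000000) := T_50 (nat_lit 109) (nat_lit 92) (nat_lit 4) (nat_lit 8) (nat_lit 9) L75769 (by decide +kernel)
theorem L75771 : W_50 (nat_lit 13) (nat_lit 0x20001800180004000000000000000000000000000) (nat_lit 0x0) (nat_lit 0x8001c000000067000b8005c000e000700028000000000) := T_50 (nat_lit 130) (nat_lit 129) (nat_lit 1) (nat_lit 11) (nat_lit 7) L75770 (by decide +kernel)
theorem L75772 : W_50 (nat_lit 2) (nat_lit 0x160001a001a000f000080004000500000000000000) (nat_lit 0x0) (nat_lit 0x200028000000000) := D_50 (nat_lit 57) (nat_lit 41) (nat_lit 39) (nat_lit 6) (nat_lit 6) (nat_lit 6) (nat_lit 4) (nat_lit 6) (nat_lit 6) (by decide +kernel)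
theorem L75773 : W_50 (nat_lit 3) (nat_lit 0x160001a001a000f000080004000400000000000000) (nat_lit 0x0) (nat_lit 0x2000300028000000000) := T_50 (nat_lit 56) (nat_lit 73) (nat_lit 4) (nat_lit 6) (nat_lit 7) L75772 (by decide +kernel)
theorem L75774 : W_50 (nat_lit 4) (nat_lit 0x160001a001a000f000080004000000000000000000) (nat_lit 0x0) (nat_lit 0xa000700028000000000) := T_50 (nat_lit 58) (nat_lit 75) (nat_lit 6) (nat_lit 6) (nat_lit 7) L75773 (by decide +kernel)
theorem L75775 : W_50 (nat_lit 5) (nat_lit 0x160001a001a000f000080000000000000000000000) (nat_lit 0x0) (nat_lit 0x4000000000000e000700028000000000) := T_50 (nat_lit 74) (nat_lit 126) (nat_lit 7) (nat_lit 6) (nat_lit 4) L75774 (by decide +kernel)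
theorem L75776 : W_50 (nat_lit 6) (nat_lit 0x160001a001a000f000000000000000000000000000) (nat_lit 0x0) (nat_lit 0x400000000c000e000700028000000000) := T_50 (nat_lit 91) (nat_lit 90) (nat_lit 0) (nat_lit 9) (nat_lit 6) L75775 (by decide +kernel)
theorem L75777 : W_50 (nat_lit 7) (nat_lit 0x160001a0018000f000000000000000000000000000) (nat_lit 0x0) (nat_lit 0x700000000c000e000700028000000000) := T_50 (nat_lit 125) (nat_lit 124) (nat_lit 1) (nat_lit 9) (nat_lit 6) L75776 (by decide +kernel)
theorem L75778 : W_50 (nat_lit 8) (nat_lit 0x160001a00180007000000000000000000000000000) (nat_lit 0x0) (nat_lit 0x700080004c000e000700028000000000) := T_50 (nat_lit 111) (nat_lit 94) (nat_lit 6) (nat_lit 8) (nat_lit 9) L75777 (by decide +kernel)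
theorem L75779 : W_50 (nat_lit 9) (nat_lit 0x160001a00180006000000000000000000000000000) (nat_lit 0x0) (nat_lit 0x700098004c000e000700028000000000) := T_50 (nat_lit 108) (nat_lit 107) (nat_lit 3) (nat_lit 5) (nat_lit 6) L75778 (by decide +kernel)
theorem L75780 : W_50 (nat_lit 10) (nat_lit 0x160001a00180004000000000000000000000000000) (nat_lit 0x0) (nat_lit 0x7000b8005c000e000700028000000000) := T_50 (nat_lit 109) (nat_lit 92) (nat_lit 4) (nat_lit 8) (nat_lit 9) L75779 (by decide +kernel)
theorem L75781 : W_50 (nat_lit 11) (nat_lit 0x60001a00180004000000000000000000000000000) (nat_lit 0x0) (nat_lit 0x18000000007000b8005c000e000700028000000000) := T_50 (nat_lit 164) (nat_lit 163) (nat_lit 0) (nat_lit 11) (nat_lit 9) L75780 (by decide +kernel)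
theorem L75782 : W_50 (nat_lit 12) (nat_lit 0x60001800180004000000000000000000000000000) (nat_lit 0x0) (nat_lit 0x18000060007000b8005c000e000700028000000000) := T_50 (nat_lit 141) (nat_lit 142) (nat_lit 3) (nat_lit 5) (nat_lit 8) L75781 (by decide +kernel)
theorem L75783 : W_50 (nat_lit 13) (nat_lit 0x20001800180004000000000000000000000000000) (nat_lit 0x0) (nat_lit 0x8001c000060007000b8005c000e000700028000000000) := T_50 (nat_lit 162) (nat_lit 179) (nat_lit 7) (nat_lit 8) (nat_lit 6) L75782 (by decide +kernel)
theorem L75784 : W_50 (nat_lit 2) (nat_lit 0x2000180038000c000000000000000000000000000) (nat_lit 0x0) (nat_lit 0x3000100000000000000000000000) := D_50 (nat_lit 109) (nat_lit 92) (nat_lit 108) (nat_lit 4) (nat_lit 8) (nat_lit 9) (nat_lit 3) (nat_lit 6) (nat_lit 6) (by decide +kernel)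
theorem L75785 : W_50 (nat_lit 3) (nat_lit 0x2000180018000c000000000000000000000000000) (nat_lit 0x0) (nat_lit 0x600003000100000000000000000000000) := T_50 (nat_lit 129) (nat_lit 130) (nat_lit 1) (nat_lit 11) (nat_lit 7) L75784 (by decide +kernel)
theorem L75786 : W_50 (nat_lit 4) (nat_lit 0x20001800180004000000000000000000000000000) (nat_lit 0x0) (nat_lit 0x60000b000500000000000000000000000) := T_50 (nat_lit 111) (nat_lit 94) (nat_lit 6) (nat_lit 8) (nat_lit 9) L75785 (by decide +kernel)
theorem L75787 : W_50 (nat_lit 14) (nat_lit 0x20001800080004000000000000000000000000000) (nat_lit 0x0) (nat_lit 0x8001c000060077000b8005c000e000700028000000000) := Q_50 (nat_lit 128) (C_50 L75759 (C_50 L75771 (C_50 L75783 (C_50 L75786 N_50)))) (by decide +kernel)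
theorem L75788 : W_50 (nat_lit 2) (nat_lit 0x10000f000580018000f000000000000000000000000000) (nat_lit 0x0) (nat_lit 0x400000000c0000000000000000000000) := D_50 (nat_lit 91) (nat_lit 90) (nat_lit 126) (nat_lit 0) (nat_lit 9) (nat_lit 6) (nat_lit 4) (nat_lit 7) (nat_lit 9) (by decide +kernel)
theorem L75789 : W_50 (nat_lit 3) (nat_lit 0x10000f000580018000e000000000000000000000000000) (nat_lit 0x0) (nat_lit 0x400018000c0000000000000000000000) := T_50 (nat_lit 108) (nat_lit 107) (nat_lit 3) (nat_lit 5) (nat_lit 6) L75788 (by decide +kernel)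
theorem L75790 : W_50 (nat_lit 4) (nat_lit 0x10000f000580008000e000000000000000000000000000) (nat_lit 0x0) (nat_lit 0x3400018000c0000000000000000000000) := T_50 (nat_lit 128) (nat_lit 129) (nat_lit 4) (nat_lit 10) (nat_lit 10) L75789 (by decide +kernel)
theorem L75791 : W_50 (nat_lit 5) (nat_lit 0x10000f000180008000e000000000000000000000000000) (nat_lit 0x0) (nat_lit 0xc0003400018000c0000000000000000000000) := T_50 (nat_lit 146) (nat_lit 147) (nat_lit 2) (nat_lit 7) (nat_lit 9) L75790 (by decide +kernel)
theorem L75792 : W_50 (nat_lit 6) (nat_lit 0xf000180008000e000000000000000000000000000) (nat_lit 0x0) (nat_lit 0x300000000c0003400018000c0000000000000000000000) := T_50 (nat_lit 180) (nat_lit 181) (nat_lit 3) (nat_lit 7) (nat_lit 9) L75791 (by decide +kernel)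
theorem L75793 : W_50 (nat_lit 7) (nat_lit 0xe000180008000e000000000000000000000000000) (nat_lit 0x0) (nat_lit 0x320001000c0003400018000c0000000000000000000000) := T_50 (nat_lit 160) (nat_lit 177) (nat_lit 5) (nat_lit 8) (nat_lit 6) L75792 (by decide +kernel)
theorem L75794 : W_50 (nat_lit 8) (nat_lit 0x6000180008000e000000000000000000000000000) (nat_lit 0x0) (nat_lit 0x320019000c0003400018000c0000000000000000000000) := T_50 (nat_lit 163) (nat_lit 164) (nat_lit 0) (nat_lit 11) (nat_lit 9) L75793 (by decide +kernel)
theorem L75795 : W_50 (nat_lit 9) (nat_lit 0x2000180008000e000000000000000000000000000) (nat_lit 0x0) (nat_lit 0x3a001d000c0003400018000c0000000000000000000000) := T_50 (nat_lit 162) (nat_lit 179) (nat_lit 7) (nat_lit 8) (nat_lit 6) L75794 (by decide +kernel)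
theorem L75796 : W_50 (nat_lit 10) (nat_lit 0x2000180008000c000000000000000000000000000) (nat_lit 0x0) (nat_lit 0x3a001d000c0003400038001c0000000000000000000000) := T_50 (nat_lit 109) (nat_lit 92) (nat_lit 4) (nat_lit 8) (nat_lit 9) L75795 (by decide +kernel)
theorem L75797 : W_50 (nat_lit 11) (nat_lit 0x20001800080004000000000000000000000000000) (nat_lit 0x0) (nat_lit 0x3a001d000c00034000b8005c0000000000000000000000) := T_50 (nat_lit 111) (nat_lit 94) (nat_lit 6) (nat_lit 8) (nat_lit 9) L75796 (by decide +kernel)
theorem L75798 : W_50 (nat_lit 2) (nat_lit 0x30001a0018000f000000000000000000000000000) (nat_lit 0x0) (nat_lit 0x400000000c0000000000000000000000) := D_50 (nat_lit 91) (nat_lit 126) (nat_lit 90) (nat_lit 4) (nat_lit 7) (nat_lit 9) (nat_lit 0) (nat_lit 9) (nat_lit 6) (by decide +kernel)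
theorem L75799 : W_50 (nat_lit 3) (nat_lit 0x30001a00180007000000000000000000000000000) (nat_lit 0x0) (nat_lit 0x400080004c0000000000000000000000) := T_50 (nat_lit 111) (nat_lit 94) (nat_lit 6) (nat_lit 8) (nat_lit 9) L75798 (by decide +kernel)
theorem L75800 : W_50 (nat_lit 4) (nat_lit 0x30001a00180006000000000000000000000000000) (nat_lit 0x0) (nat_lit 0x400098004c0000000000000000000000) := T_50 (nat_lit 108) (nat_lit 107) (nat_lit 3) (nat_lit 5) (nat_lit 6) L75799 (by decide +kernel)
theorem L75801 : W_50 (nat_lit 5) (nat_lit 0x30001a00180004000000000000000000000000000) (nat_lit 0x0) (nat_lit 0x4000b8005c0000000000000000000000) := T_50 (nat_lit 109) (nat_lit 92) (nat_lit 4) (nat_lit 8) (nat_lit 9) L75800 (by decide +kernel)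
theorem L75802 : W_50 (nat_lit 6) (nat_lit 0x30001800180004000000000000000000000000000) (nat_lit 0x0) (nat_lit 0x60004000b8005c0000000000000000000000) := T_50 (nat_lit 141) (nat_lit 142) (nat_lit 2) (nat_lit 5) (nat_lit 8) L75801 (by decide +kernel)
theorem L75803 : W_50 (nat_lit 7) (nat_lit 0x20001800180004000000000000000000000000000) (nat_lit 0x0) (nat_lit 0x20001000060004000b8005c0000000000000000000000) := T_50 (nat_lit 160) (nat_lit 177) (nat_lit 5) (nat_lit 8) (nat_lit 6) L75802 (by decide +kernel)
theorem L75804 : W_50 (nat_lit 8) (nat_lit 0x20001800080004000000000000000000000000000) (nat_lit 0x0) (nat_lit 0x20001000060074000b8005c0000000000000000000000) := Q_50 (nat_lit 128) (C_50 L75759 (C_50 L75786 (C_50 L75803 N_50))) (by decide +kernel)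
theorem L75805 : W_50 (nat_lit 15) (nat_lit 0x20001000080004000000000000000000000000000) (nat_lit 0x0) (nat_lit 0x3a001d000ce0077000b8005c000e000700028000000000) := Q_50 (nat_lit 143) (C_50 L75787 (C_50 L2433 (C_50 L75797 (C_50 L75804 N_50)))) (by decide +kernel)
theorem L75813 : W_50 (nat_lit 16) (nat_lit 0x20001000080000000000000000000000000000000) (nat_lit 0x0) (nat_lit 0x3a001d000ce0077000f8007c002e000700028000000000) := Q_50 (nat_lit 110) (C_50 L75805 (C_50 L75809 (C_50 L75810 (C_50 L75812 N_50)))) (by decide +kernel)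
theorem L75828 : W_50 (nat_lit 2) (nat_lit 0x6000200010000c0004000000000000000000000000000) (nat_lit 0x0) (nat_lit 0x10000800040000000000000000000000000000000000000000) := D_50 (nat_lit 179) (nat_lit 196) (nat_lit 162) (nat_lit 7) (nat_lit 8) (nat_lit 7) (nat_lit 7) (nat_lit 8) (nat_lit 6) (by decide +kernel)
theorem L75829 : W_50 (nat_lit 3) (nat_lit 0x6000200010000c0000000000000000000000000000000) (nat_lit 0x0) (nat_lit 0x10000800050000000000004000000000000000000000000000) := T_50 (nat_lit 110) (nat_lit 160) (nat_lit 5) (nat_lit 8) (nat_lit 6) L75828 (by decide +kernel)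
theorem L75830 : W_50 (nat_lit 4) (nat_lit 0x4000200010000c0000000000000000000000000000000) (nat_lit 0x0) (nat_lit 0x14000a00050000000000004000000000000000000000000000) := T_50 (nat_lit 177) (nat_lit 194) (nat_lit 5) (nat_lit 8) (nat_lit 7) L75829 (by decide +kernel)
theorem L75831 : W_50 (nat_lit 5) (nat_lit 0x400020001000080000000000000000000000000000000) (nat_lit 0x0) (nat_lit 0x14000a00050000000040006000000000000000000000000000) := T_50 (nat_lit 126) (nat_lit 109) (nat_lit 4) (nat_lit 8) (nat_lit 10) L75830 (by decide +kernel)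
theorem L75832 : W_50 (nat_lit 7) (nat_lit 0x20001000080000000000000000000000000000000) (nat_lit 0x0) (nat_lit 0x28001c000e0005000000014000e000400000000000000000000000) := Q_50 (nat_lit 178) (C_50 L75827 (C_50 L75817 (C_50 L1690 (C_50 L75831 (C_50 L75821 N_50))))) (by decide +kernel)
theorem L75833 : W_50 (nat_lit 2) (nat_lit 0x400010000c000c00020001a00580000000000000000000000000000000) (nat_lit 0x0) (nat_lit 0x80002000000000000000040000000000000000000000000000000000000000) := D_50 (nat_lit 229) (nat_lit 162) (nat_lit 247) (nat_lit 6) (nat_lit 8) (nat_lit 13) (nat_lit 7) (nat_lit 8) (nat_lit 10) (by decide +kernel)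
theorem L75834 : W_50 (nat_lit 3) (nat_lit 0x10000c000c00020001a00580000000000000000000000000000000) (nat_lit 0x0) (nat_lit 0x80006000200000000000040000000000000000000000000000000000000000) := T_50 (nat_lit 230) (nat_lit 213) (nat_lit 7) (nat_lit 8) (nat_lit 9) L75833 (by decide +kernel)
theorem L75835 : W_50 (nat_lit 4) (nat_lit 0x10000c000c00020001a00180000000000000000000000000000000) (nat_lit 0x0) (nat_lit 0x80006000200000000000040000000600000000000000000000000000000000) := T_50 (nat_lit 130) (nat_lit 129) (nat_lit 1) (nat_lit 11) (nat_lit 7) L75834 (by decide +kernel)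
theorem L75836 : W_50 (nat_lit 5) (nat_lit 0xc000c00020001a00180000000000000000000000000000000) (nat_lit 0x0) (nat_lit 0x80006000300000000000050000000600000000000000000000000000000000) := T_50 (nat_lit 212) (nat_lit 160) (nat_lit 4) (nat_lit 8) (nat_lit 12) L75835 (by decide +kernel)
theorem L75837 : W_50 (nat_lit 6) (nat_lit 0xc000c00020001800180000000000000000000000000000000) (nat_lit 0x0) (nat_lit 0x80006000300000000000050000600600000000000000000000000000000000) := T_50 (nat_lit 141) (nat_lit 142) (nat_lit 2) (nat_lit 5) (nat_lit 8) L75836 (by decide +kernel)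
theorem L75838 : W_50 (nat_lit 7) (nat_lit 0xc000c00020001000180000000000000000000000000000000) (nat_lit 0x0) (nat_lit 0x80006000300000000000050000e00640000000000000000000000000000000) := T_50 (nat_lit 143) (nat_lit 126) (nat_lit 4) (nat_lit 8) (nat_lit 11) L75837 (by decide +kernel)
theorem L75839 : W_50 (nat_lit 8) (nat_lit 0x4000c00020001000180000000000000000000000000000000) (nat_lit 0x0) (nat_lit 0x80006000380008000000050000e00640000000000000000000000000000000) := T_50 (nat_lit 195) (nat_lit 211) (nat_lit 5) (nat_lit 8) (nat_lit 8) L75838 (by decide +kernel)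
theorem L75840 : W_50 (nat_lit 9) (nat_lit 0xc00020001000180000000000000000000000000000000) (nat_lit 0x0) (nat_lit 0x8000600038000c000200050000e00640000000000000000000000000000000) := T_50 (nat_lit 194) (nat_lit 177) (nat_lit 5) (nat_lit 8) (nat_lit 7) L75839 (by decide +kernel)
theorem L75841 : W_50 (nat_lit 10) (nat_lit 0xc00020001000080000000000000000000000000000000) (nat_lit 0x0) (nat_lit 0x8000600038000c000200050000e00740008000000000000000000000000000) := T_50 (nat_lit 128) (nat_lit 111) (nat_lit 6) (nat_lit 8) (nat_lit 10) L75840 (by decide +kernel)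
theorem L75842 : W_50 (nat_lit 11) (nat_lit 0x400020001000080000000000000000000000000000000) (nat_lit 0x0) (nat_lit 0x8000600038001c000a00050000e00740008000000000000000000000000000) := T_50 (nat_lit 179) (nat_lit 196) (nat_lit 7) (nat_lit 8) (nat_lit 7) L75841 (by decide +kernel)
theorem L75843 : W_50 (nat_lit 5) (nat_lit 0xc00020001800080000000000000000000000000000000) (nat_lit 0x0) (nat_lit 0x4000200000000600740008000000000000000000000000000) := T_50 (nat_lit 177) (nat_lit 194) (nat_lit 5) (nat_lit 8) (nat_lit 7) L1644 (by decide +kernel)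
theorem L75844 : W_50 (nat_lit 6) (nat_lit 0x400020001800080000000000000000000000000000000) (nat_lit 0x0) (nat_lit 0x14000a00000000600740008000000000000000000000000000) := T_50 (nat_lit 179) (nat_lit 196) (nat_lit 7) (nat_lit 8) (nat_lit 7) L75843 (by decide +kernel)
theorem L75845 : W_50 (nat_lit 2) (nat_lit 0x4000c00038001800580000000000000000000000000000000) (nat_lit 0x0) (nat_lit 0x3000040000000000000000000000000000000000000000) := D_50 (nat_lit 180) (nat_lit 181) (nat_lit 162) (nat_lit 0) (nat_lit 11) (nat_lit 10) (nat_lit 3) (nat_lit 6) (nat_lit 9) (by decide +kernel)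
theorem L75846 : W_50 (nat_lit 3) (nat_lit 0x4000c00030001800580000000000000000000000000000000) (nat_lit 0x0) (nat_lit 0x300004c000000000000000000000000000000000000000) := T_50 (nat_lit 159) (nat_lit 158) (nat_lit 3) (nat_lit 5) (nat_lit 9) L75845 (by decide +kernel)
theorem L75847 : W_50 (nat_lit 4) (nat_lit 0x4000400030001800580000000000000000000000000000000) (nat_lit 0x0) (nat_lit 0x1000380004c000000000000000000000000000000000000000) := T_50 (nat_lit 179) (nat_lit 196) (nat_lit 7) (nat_lit 8) (nat_lit 7) L75846 (by decide +kernel)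
theorem L75848 : W_50 (nat_lit 5) (nat_lit 0x400030001800580000000000000000000000000000000) (nat_lit 0x0) (nat_lit 0x14003a0004c000000000000000000000000000000000000000) := T_50 (nat_lit 194) (nat_lit 177) (nat_lit 6) (nat_lit 7) (nat_lit 11) L75847 (by decide +kernel)
theorem L75849 : W_50 (nat_lit 6) (nat_lit 0x400030001800180000000000000000000000000000000) (nat_lit 0x0) (nat_lit 0x14003a0004c000000600000000000000000000000000000000) := T_50 (nat_lit 130) (nat_lit 129) (nat_lit 1) (nat_lit 11) (nat_lit 7) L75848 (by decide +kernel)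
theorem L75850 : W_50 (nat_lit 7) (nat_lit 0x400030001800080000000000000000000000000000000) (nat_lit 0x0) (nat_lit 0x14003a0004c000000700008000000000000000000000000000) := T_50 (nat_lit 128) (nat_lit 111) (nat_lit 6) (nat_lit 8) (nat_lit 10) L75849 (by decide +kernel)
theorem L75851 : W_50 (nat_lit 2) (nat_lit 0x7000300018005c0000000000000000000000000000000) (nat_lit 0x0) (nat_lit 0xc0040000000000000000000000000000000000000000) := D_50 (nat_lit 175) (nat_lit 162) (nat_lit 174) (nat_lit 2) (nat_lit 5) (nat_lit 10) (nat_lit 2) (nat_lit 4) (nat_lit 10) (by decide +kernel)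
theorem L75852 : W_50 (nat_lit 3) (nat_lit 0x6000300018005c0000000000000000000000000000000) (nat_lit 0x0) (nat_lit 0x20001c0040000000000000000000000000000000000000000) := T_50 (nat_lit 176) (nat_lit 193) (nat_lit 5) (nat_lit 7) (nat_lit 7) L75851 (by decide +kernel)
theorem L75853 : W_50 (nat_lit 4) (nat_lit 0x6000300018001c0000000000000000000000000000000) (nat_lit 0x0) (nat_lit 0x20001c0040000000600000000000000000000000000000000) := T_50 (nat_lit 130) (nat_lit 129) (nat_lit 1) (nat_lit 11) (nat_lit 7) L75852 (by decide +kernel)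
theorem L75854 : W_50 (nat_lit 5) (nat_lit 0x6000300018000c0000000000000000000000000000000) (nat_lit 0x0) (nat_lit 0x20001c0040000000700008000000000000000000000000000) := T_50 (nat_lit 128) (nat_lit 111) (nat_lit 6) (nat_lit 8) (nat_lit 10) L75853 (by decide +kernel)
theorem L75855 : W_50 (nat_lit 6) (nat_lit 0x4000300018000c0000000000000000000000000000000) (nat_lit 0x0) (nat_lit 0x60003c0040000000700008000000000000000000000000000) := T_50 (nat_lit 177) (nat_lit 194) (nat_lit 6) (nat_lit 7) (nat_lit 11) L75854 (by decide +kernel)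
theorem L75856 : W_50 (nat_lit 7) (nat_lit 0x400030001800080000000000000000000000000000000) (nat_lit 0x0) (nat_lit 0x60003c004000000074000a000000000000000000000000000) := T_50 (nat_lit 126) (nat_lit 109) (nat_lit 7) (nat_lit 7) (nat_lit 6) L75855 (by decide +kernel)
theorem L75857 : W_50 (nat_lit 2) (nat_lit 0xe00030001800580000000000000000000000000000000) (nat_lit 0x0) (nat_lit 0x100000c000000000000000000000000000000000000000) := D_50 (nat_lit 159) (nat_lit 158) (nat_lit 180) (nat_lit 3) (nat_lit 5) (nat_lit 9) (nat_lit 0) (nat_lit 10) (nat_lit 10) (by decide +kernel)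
theorem L75858 : W_50 (nat_lit 3) (nat_lit 0x600030001800580000000000000000000000000000000) (nat_lit 0x0) (nat_lit 0x1000180000c000000000000000000000000000000000000000) := T_50 (nat_lit 179) (nat_lit 196) (nat_lit 7) (nat_lit 8) (nat_lit 7) L75857 (by decide +kernel)
theorem L75859 : W_50 (nat_lit 4) (nat_lit 0x600030001800180000000000000000000000000000000) (nat_lit 0x0) (nat_lit 0x1000180000c000000600000000000000000000000000000000) := T_50 (nat_lit 130) (nat_lit 129) (nat_lit 1) (nat_lit 11) (nat_lit 7) L75858 (by decide +kernel)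
theorem L75860 : W_50 (nat_lit 5) (nat_lit 0x600030001800080000000000000000000000000000000) (nat_lit 0x0) (nat_lit 0x1000180000c000000700008000000000000000000000000000) := T_50 (nat_lit 128) (nat_lit 111) (nat_lit 6) (nat_lit 8) (nat_lit 10) L75859 (by decide +kernel)
theorem L75861 : W_50 (nat_lit 6) (nat_lit 0x400030001800080000000000000000000000000000000) (nat_lit 0x0) (nat_lit 0x14001a0000c000000700008000000000000000000000000000) := T_50 (nat_lit 177) (nat_lit 194) (nat_lit 6) (nat_lit 7) (nat_lit 11) L75860 (by decide +kernel)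
theorem L75862 : W_50 (nat_lit 8) (nat_lit 0x400020001800080000000000000000000000000000000) (nat_lit 0x0) (nat_lit 0x16003bc005c00000074000a000000000000000000000000000) := Q_50 (nat_lit 160) (C_50 L75850 (C_50 L75416 (C_50 L75856 (C_50 L75861 N_50)))) (by decide +kernel)
theorem L75863 : W_50 (nat_lit 2) (nat_lit 0x2e00034001a001e0000000000000000000000000000000) (nat_lit 0x0) (nat_lit 0x100018000000000000000000000000000000) := D_50 (nat_lit 124) (nat_lit 123) (nat_lit 140) (nat_lit 3) (nat_lit 4) (nat_lit 7) (nat_lit 1) (nat_lit 8) (nat_lit 7) (by decide +kernel)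
theorem L75864 : W_50 (nat_lit 3) (nat_lit 0x2e00034001a001c0000000000000000000000000000000) (nat_lit 0x0) (nat_lit 0x100038001000000000000000000000000000) := T_50 (nat_lit 125) (nat_lit 108) (nat_lit 4) (nat_lit 7) (nat_lit 10) L75863 (by decide +kernel)
theorem L75865 : W_50 (nat_lit 4) (nat_lit 0x2e00034001a00180000000000000000000000000000000) (nat_lit 0x0) (nat_lit 0x100078003000000000000000000000000000) := T_50 (nat_lit 126) (nat_lit 109) (nat_lit 7) (nat_lit 7) (nat_lit 6) L75864 (by decide +kernel)
theorem L75866 : W_50 (nat_lit 5) (nat_lit 0x2c00034001a00180000000000000000000000000000000) (nat_lit 0x0) (nat_lit 0x4000200000000100078003000000000000000000000000000) := T_50 (nat_lit 177) (nat_lit 194) (nat_lit 6) (nat_lit 7) (nat_lit 11) L75865 (by decide +kernel)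
theorem L75867 : W_50 (nat_lit 6) (nat_lit 0xc00034001a00180000000000000000000000000000000) (nat_lit 0x0) (nat_lit 0x4003200000000100078003000000000000000000000000000) := T_50 (nat_lit 181) (nat_lit 180) (nat_lit 0) (nat_lit 11) (nat_lit 10) L75866 (by decide +kernel)
theorem L75868 : W_50 (nat_lit 7) (nat_lit 0xc00030001a00180000000000000000000000000000000) (nat_lit 0x0) (nat_lit 0x400320000c000100078003000000000000000000000000000) := T_50 (nat_lit 158) (nat_lit 159) (nat_lit 3) (nat_lit 5) (nat_lit 9) L75867 (by decide +kernel)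
theorem L75869 : W_50 (nat_lit 8) (nat_lit 0x400030001a00180000000000000000000000000000000) (nat_lit 0x0) (nat_lit 0x14003a0000c000100078003000000000000000000000000000) := T_50 (nat_lit 179) (nat_lit 196) (nat_lit 7) (nat_lit 8) (nat_lit 7) L75868 (by decide +kernel)
theorem L75870 : W_50 (nat_lit 9) (nat_lit 0x400030001800180000000000000000000000000000000) (nat_lit 0x0) (nat_lit 0x14003a0000c000700078003000000000000000000000000000) := T_50 (nat_lit 141) (nat_lit 142) (nat_lit 2) (nat_lit 5) (nat_lit 8) L75869 (by decide +kernel)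
theorem L75871 : W_50 (nat_lit 10) (nat_lit 0x400030001800080000000000000000000000000000000) (nat_lit 0x0) (nat_lit 0x14003a0000c00070017800b000000000000000000000000000) := T_50 (nat_lit 128) (nat_lit 111) (nat_lit 6) (nat_lit 8) (nat_lit 10) L75870 (by decide +kernel)
theorem L75872 : W_50 (nat_lit 11) (nat_lit 0x400020001800080000000000000000000000000000000) (nat_lit 0x0) (nat_lit 0x16003bc005c00070017800b000000000000000000000000000) := Q_50 (nat_lit 160) (C_50 L75416 (C_50 L75473 (C_50 L75871 N_50))) (by decide +kernel)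
theorem L75873 : W_50 (nat_lit 2) (nat_lit 0xe00060001800080000000000000000000000000000000) (nat_lit 0x0) (nat_lit 0x180080000000000000000000000000000000000000000) := D_50 (nat_lit 176) (nat_lit 163) (nat_lit 175) (nat_lit 2) (nat_lit 6) (nat_lit 10) (nat_lit 2) (nat_lit 5) (nat_lit 10) (by decide +kernel)
theorem L75874 : W_50 (nat_lit 3) (nat_lit 0xc00060001800080000000000000000000000000000000) (nat_lit 0x0) (nat_lit 0x4000380080000000000000000000000000000000000000000) := T_50 (nat_lit 177) (nat_lit 194) (nat_lit 5) (nat_lit 8) (nat_lit 7) L75873 (by decide +kernel)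
theorem L75875 : W_50 (nat_lit 4) (nat_lit 0x400060001800080000000000000000000000000000000) (nat_lit 0x0) (nat_lit 0x14000b80080000000000000000000000000000000000000000) := T_50 (nat_lit 179) (nat_lit 196) (nat_lit 7) (nat_lit 8) (nat_lit 7) L75874 (by decide +kernel)
theorem L75876 : W_50 (nat_lit 11) (nat_lit 0x400020001800080000000000000000000000000000000) (nat_lit 0x0) (nat_lit 0x40017001b801dc000600700008000000000000000000000000000) := Q_50 (nat_lit 162) (C_50 L480 (C_50 L795 (C_50 L2087 (C_50 L75875 (C_50 L958 N_50))))) (by decide +kernel)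
theorem L75877 : W_50 (nat_lit 8) (nat_lit 0x400020001800080000000000000000000000000000000) (nat_lit 0x0) (nat_lit 0x16003bc005c000000078003000000000000000000000000000) := Q_50 (nat_lit 160) (C_50 L75416 (C_50 L75473 (C_50 L835 N_50))) (by decide +kernel)
theorem L75878 : W_50 (nat_lit 12) (nat_lit 0x400020001000080000000000000000000000000000000) (nat_lit 0x0) (nat_lit 0x40017003bc01dc000f0077800b000000000000000000000000000) := Q_50 (nat_lit 143) (C_50 L982 (C_50 L75844 (C_50 L75862 (C_50 L75872 (C_50 L75876 (C_50 L75877 N_50)))))) (by decide +kernel)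
theorem L75879 : W_50 (nat_lit 13) (nat_lit 0x20001000080000000000000000000000000000000) (nat_lit 0x0) (nat_lit 0x800070003c001f003fc01dc000f0077800b000000000000000000000000000) := Q_50 (nat_lit 178) (C_50 L75827 (C_50 L75842 (C_50 L543 (C_50 L527 (C_50 L1004 (C_50 L1006 (C_50 L75878 N_50))))))) (by decide +kernel)
theorem L75880 : W_50 (nat_lit 9) (nat_lit 0x20001000080000000000000000000000000000000) (nat_lit 0x0) (nat_lit 0x400038001c000e00050000e0014000c000400000000000000000000000) := Q_50 (nat_lit 178) (C_50 L527 (C_50 L871 (C_50 L868 (C_50 L578 N_50)))) (by decide +kernel)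
theorem L75888 : W_50 (nat_lit 6) (nat_lit 0x20001000080000000000000000000000000000000) (nat_lit 0x0) (nat_lit 0x10000c0004000000014000e000700028000000000000000000) := Q_50 (nat_lit 110) (C_50 L75884 (C_50 L75887 (C_50 L75809 (C_50 L1021 (C_50 L1708 N_50))))) (by decide +kernel)
theorem L75889 : W_50 (nat_lit 6) (nat_lit 0x20001000080000000000000000000000000000000) (nat_lit 0x0) (nat_lit 0x10000e0005000080010000e000700028000000000000000000) := Q_50 (nat_lit 110) (C_50 L75887 (C_50 L75812 (C_50 L75810 N_50))) (by decide +kernel)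
theorem L75890 : W_50 (nat_lit 5) (nat_lit 0x20001000080000000000000000000000000000000) (nat_lit 0x0) (nat_lit 0x10000e0005000080004000e000700020000000000000000000) := Q_50 (nat_lit 110) (C_50 L1021 (C_50 L75810 N_50)) (by decide +kernel)
theorem L75891 : W_50 (nat_lit 10) (nat_lit 0x20001000080000000000000000000000000000000) (nat_lit 0x0) (nat_lit 0x600038001e000fc0050000800078007000200010000000000000000000) := Q_50 (nat_lit 178) (C_50 L527 (C_50 L594 (C_50 L589 (C_50 L598 (C_50 L75831 N_50))))) (by decide +kernel)
theorem L75898 : W_50 (nat_lit 8) (nat_lit 0x20001000080000000000000000000000000000000) (nat_lit 0x0) (nat_lit 0x60001000080014000fc00780020000000000000000000) := Q_50 (nat_lit 110) (C_50 L1708 (C_50 L75810 (C_50 L75897 N_50))) (by decide +kernel)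
theorem L75899 : W_50 (nat_lit 17) (nat_lit 0x1000080000000000000000000000000000000) (nat_lit 0x0) (nat_lit 0x800070003c001f003fc01fc00cf0077800fc007c003e000700028000000000) := Q_50 (nat_lit 161) (C_50 L75813 (C_50 L75822 (C_50 L75832 (C_50 L75879 (C_50 L75880 (C_50 L75888 (C_50 L75889 (C_50 L75890 (C_50 L75891 (C_50 L75898 N_50)))))))))) (by decide +kernel)
theorem L100148 : W_50 (nat_lit 2) (nat_lit 0x1800080005000780004000000000000000000) (nat_lit 0x0) (nat_lit 0x40002000800000000000000000000000) := D_50 (nat_lit 109) (nat_lit 95) (nat_lit 126) (nat_lit 1) (nat_lit 10) (nat_lit 5) (nat_lit 4) (nat_lit 7) (nat_lit 8) (by decide +kernel)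
theorem L100149 : W_50 (nat_lit 3) (nat_lit 0x1800080005000780000000000000000000000) (nat_lit 0x0) (nat_lit 0x40002000800006000000000000000000) := T_50 (nat_lit 74) (nat_lit 73) (nat_lit 0) (nat_lit 9) (nat_lit 5) L100148 (by decide +kernel)
theorem L100150 : W_50 (nat_lit 4) (nat_lit 0x1800080004000780000000000000000000000) (nat_lit 0x0) (nat_lit 0x40003800800006000000000000000000) := T_50 (nat_lit 108) (nat_lit 107) (nat_lit 1) (nat_lit 9) (nat_lit 5) L100149 (by decide +kernel)
theorem L100151 : W_50 (nat_lit 5) (nat_lit 0x1800080004000380000000000000000000000) (nat_lit 0x0) (nat_lit 0x40003800c00026000000000000000000) := T_50 (nat_lit 94) (nat_lit 77) (nat_lit 6) (nat_lit 8) (nat_lit 8) L100150 (by decide +kernel)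
theorem L100152 : W_50 (nat_lit 6) (nat_lit 0x1000080004000380000000000000000000000) (nat_lit 0x0) (nat_lit 0x10000800040003800c00026000000000000000000) := T_50 (nat_lit 143) (nat_lit 160) (nat_lit 5) (nat_lit 8) (nat_lit 5) L100151 (by decide +kernel)
theorem L100153 : W_50 (nat_lit 7) (nat_lit 0x1000080004000300000000000000000000000) (nat_lit 0x0) (nat_lit 0x1000080004001be00ce0026000000000000000000) := Q_50 (nat_lit 91) (C_50 L100144 (C_50 L100147 (C_50 L100152 N_50))) (by decide +kernel)
theorem L100154 : W_50 (nat_lit 8) (nat_lit 0x1000080004000200000000000000000000000) (nat_lit 0x0) (nat_lit 0x1000080004001be00de002e000000000000000000) := T_50 (nat_lit 92) (nat_lit 75) (nat_lit 4) (nat_lit 8) (nat_lit 8) L100153 (by decide +kernel)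
theorem L100155 : W_50 (nat_lit 2) (nat_lit 0x1800080004000600008000000000000000000) (nat_lit 0x0) (nat_lit 0x40000000000010000400000000000000) := D_50 (nat_lit 76) (nat_lit 126) (nat_lit 58) (nat_lit 5) (nat_lit 8) (nat_lit 4) (nat_lit 4) (nat_lit 8) (nat_lit 7) (by decide +kernel)
theorem L100156 : W_50 (nat_lit 3) (nat_lit 0x1000080004000600008000000000000000000) (nat_lit 0x0) (nat_lit 0x10000800040000000000010000400000000000000) := T_50 (nat_lit 143) (nat_lit 160) (nat_lit 5) (nat_lit 8) (nat_lit 5) L100155 (by decide +kernel)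
theorem L100157 : W_50 (nat_lit 4) (nat_lit 0x1000080004000600000000000000000000000) (nat_lit 0x0) (nat_lit 0x10000800040000000100018000400000000000000) := T_50 (nat_lit 75) (nat_lit 92) (nat_lit 4) (nat_lit 8) (nat_lit 8) L100156 (by decide +kernel)
theorem L100158 : W_50 (nat_lit 5) (nat_lit 0x1000080004000200000000000000000000000) (nat_lit 0x0) (nat_lit 0x10000800040000000500038000400000000000000) := T_50 (nat_lit 94) (nat_lit 77) (nat_lit 6) (nat_lit 8) (nat_lit 8) L100157 (by decide +kernel)
theorem L100159 : W_50 (nat_lit 2) (nat_lit 0x10000c000400160001a000800040000000000) (nat_lit 0x0) (nat_lit 0x1000080004000000) := D_50 (nat_lit 43) (nat_lit 26) (nat_lit 60) (nat_lit 6) (nat_lit 8) (nat_lit 5) (nat_lit 6) (nat_lit 8) (nat_lit 6) (by decide +kernel)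
theorem L100160 : W_50 (nat_lit 3) (nat_lit 0x10000c000400160001a000800000000000000) (nat_lit 0x0) (nat_lit 0x80000000000010000c0004000000) := T_50 (nat_lit 42) (nat_lit 111) (nat_lit 7) (nat_lit 8) (nat_lit 2) L100159 (by decide +kernel)
theorem L100161 : W_50 (nat_lit 4) (nat_lit 0x10000c000400060001a000800000000000000) (nat_lit 0x0) (nat_lit 0x80018000000010000c0004000000) := T_50 (nat_lit 96) (nat_lit 95) (nat_lit 0) (nat_lit 11) (nat_lit 5) L100160 (by decide +kernel)
theorem L100162 : W_50 (nat_lit 5) (nat_lit 0x10000c000400060001a000000000000000000) (nat_lit 0x0) (nat_lit 0xa0018000000018000c0004000000) := T_50 (nat_lit 59) (nat_lit 109) (nat_lit 5) (nat_lit 8) (nat_lit 3) L100161 (by decide +kernel)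
theorem L100163 : W_50 (nat_lit 6) (nat_lit 0x100008000400060001a000000000000000000) (nat_lit 0x0) (nat_lit 0x80004000a0018000000018000c0004000000) := T_50 (nat_lit 126) (nat_lit 143) (nat_lit 5) (nat_lit 8) (nat_lit 4) L100162 (by decide +kernel)
theorem L100164 : W_50 (nat_lit 7) (nat_lit 0x1000080004000600018000000000000000000) (nat_lit 0x0) (nat_lit 0x80004000a0018000060018000c0004000000) := T_50 (nat_lit 73) (nat_lit 74) (nat_lit 3) (nat_lit 5) (nat_lit 4) L100163 (by decide +kernel)
theorem L100165 : W_50 (nat_lit 8) (nat_lit 0x1000080004000600008000000000000000000) (nat_lit 0x0) (nat_lit 0x80004000a001800016001c000c0004000000) := T_50 (nat_lit 76) (nat_lit 58) (nat_lit 4) (nat_lit 8) (nat_lit 7) L100164 (by decide +kernel)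
theorem L100166 : W_50 (nat_lit 9) (nat_lit 0x1000080004000600000000000000000000000) (nat_lit 0x0) (nat_lit 0x80004000a00190001e001c000c0004000000) := T_50 (nat_lit 75) (nat_lit 92) (nat_lit 4) (nat_lit 8) (nat_lit 8) L100165 (by decide +kernel)
theorem L100167 : W_50 (nat_lit 10) (nat_lit 0x1000080004000200000000000000000000000) (nat_lit 0x0) (nat_lit 0x80004000a001d0003e001c000c0004000000) := T_50 (nat_lit 94) (nat_lit 77) (nat_lit 6) (nat_lit 8) (nat_lit 8) L100166 (by decide +kernel)
theorem L100171 : W_50 (nat_lit 2) (nat_lit 0x1800080004000600010000c00080000000000) (nat_lit 0x0) (nat_lit 0x8000000000000000040004000000) := D_50 (nat_lit 42) (nat_lit 111) (nat_lit 26) (nat_lit 7) (nat_lit 8) (nat_lit 2) (nat_lit 6) (nat_lit 8) (nat_lit 5) (by decide +kernel)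
theorem L100172 : W_50 (nat_lit 3) (nat_lit 0x1800080004000600010000c00000000000000) (nat_lit 0x0) (nat_lit 0x80000000000010000c0004000000) := T_50 (nat_lit 43) (nat_lit 60) (nat_lit 6) (nat_lit 8) (nat_lit 6) L100171 (by decide +kernel)
theorem L100173 : W_50 (nat_lit 4) (nat_lit 0x1800080004000600010000400000000000000) (nat_lit 0x0) (nat_lit 0x80000000000018000e0004000000) := T_50 (nat_lit 59) (nat_lit 41) (nat_lit 4) (nat_lit 8) (nat_lit 6) L100172 (by decide +kernel)
theorem L100174 : W_50 (nat_lit 5) (nat_lit 0x1800080004000600010000000000000000000) (nat_lit 0x0) (nat_lit 0x8000000008001c000e0004000000) := T_50 (nat_lit 58) (nat_lit 75) (nat_lit 4) (nat_lit 8) (nat_lit 7) L100173 (by decide +kernel)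
theorem L100175 : W_50 (nat_lit 6) (nat_lit 0x1800080004000600000000000000000000000) (nat_lit 0x0) (nat_lit 0x40008000000018001c000e0004000000) := T_50 (nat_lit 76) (nat_lit 126) (nat_lit 5) (nat_lit 8) (nat_lit 4) L100174 (by decide +kernel)
theorem L100176 : W_50 (nat_lit 7) (nat_lit 0x1000080004000600000000000000000000000) (nat_lit 0x0) (nat_lit 0x10000800040008000000018001c000e0004000000) := T_50 (nat_lit 143) (nat_lit 160) (nat_lit 5) (nat_lit 8) (nat_lit 5) L100175 (by decide +kernel)
theorem L100177 : W_50 (nat_lit 8) (nat_lit 0x1000080004000200000000000000000000000) (nat_lit 0x0) (nat_lit 0x10000800040008000400038001c000e0004000000) := T_50 (nat_lit 94) (nat_lit 77) (nat_lit 6) (nat_lit 8) (nat_lit 8) L100176 (by decide +kernel)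
theorem L100184 : W_50 (nat_lit 11) (nat_lit 0x1000080004000000000000000000000000000) (nat_lit 0x0) (nat_lit 0x1000080004001be01fe003e001c000e0004000000) := Q_50 (nat_lit 93) (C_50 L100154 (C_50 L100158 (C_50 L100167 (C_50 L100170 (C_50 L100177 (C_50 L100180 (C_50 L100183 N_50))))))) (by decide +kernel)
theorem L100185 : W_50 (nat_lit 2) (nat_lit 0xe000200010000c0004000600000000000000000000000) (nat_lit 0x0) (nat_lit 0x8000000000000800000000000000010000000000000000000) := D_50 (nat_lit 143) (nat_lit 195) (nat_lit 76) (nat_lit 4) (nat_lit 8) (nat_lit 11) (nat_lit 5) (nat_lit 8) (nat_lit 4) (by decide +kernel)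
theorem L100186 : W_50 (nat_lit 3) (nat_lit 0xe00020001000080004000600000000000000000000000) (nat_lit 0x0) (nat_lit 0x8000000000000800040002000000010000000000000000000) := T_50 (nat_lit 126) (nat_lit 109) (nat_lit 4) (nat_lit 8) (nat_lit 10) L100185 (by decide +kernel)
theorem L100187 : W_50 (nat_lit 4) (nat_lit 0xc00020001000080004000600000000000000000000000) (nat_lit 0x0) (nat_lit 0xc000200000000800040002000000010000000000000000000) := T_50 (nat_lit 177) (nat_lit 194) (nat_lit 5) (nat_lit 8) (nat_lit 7) L100186 (by decide +kernel)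
theorem L100188 : W_50 (nat_lit 5) (nat_lit 0x800020001000080004000600000000000000000000000) (nat_lit 0x0) (nat_lit 0x1c000600000000800040002000000010000000000000000000) := T_50 (nat_lit 178) (nat_lit 196) (nat_lit 7) (nat_lit 8) (nat_lit 7) L100187 (by decide +kernel)
theorem L100189 : W_50 (nat_lit 6) (nat_lit 0x20001000080004000600000000000000000000000) (nat_lit 0x0) (nat_lit 0x1c000e00040000800040002000000010000000000000000000) := T_50 (nat_lit 179) (nat_lit 162) (nat_lit 7) (nat_lit 8) (nat_lit 6) L100188 (by decide +kernel)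
theorem L100190 : W_50 (nat_lit 7) (nat_lit 0x1000080004000600000000000000000000000) (nat_lit 0x0) (nat_lit 0x1c000e0006000080004000a000000010000000000000000000) := T_50 (nat_lit 161) (nat_lit 111) (nat_lit 6) (nat_lit 8) (nat_lit 9) L100189 (by decide +kernel)
theorem L100191 : W_50 (nat_lit 8) (nat_lit 0x1000080004000200000000000000000000000) (nat_lit 0x0) (nat_lit 0x1c000e0006000080004000a000400030000000000000000000) := T_50 (nat_lit 94) (nat_lit 77) (nat_lit 6) (nat_lit 8) (nat_lit 8) L100190 (by decide +kernel)
theorem L100197 : W_50 (nat_lit 2) (nat_lit 0x200010000c000e000200018000000000000000000) (nat_lit 0x0) (nat_lit 0x30010000000000000000000000000000) := D_50 (nat_lit 125) (nat_lit 124) (nat_lit 112) (nat_lit 2) (nat_lit 5) (nat_lit 7) (nat_lit 1) (nat_lit 10) (nat_lit 6) (by decide +kernel)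
theorem L100198 : W_50 (nat_lit 3) (nat_lit 0x200010000c0006000200018000000000000000000) (nat_lit 0x0) (nat_lit 0x30018000400000000000000000000000) := T_50 (nat_lit 111) (nat_lit 94) (nat_lit 6) (nat_lit 8) (nat_lit 9) L100197 (by decide +kernel)
theorem L100199 : W_50 (nat_lit 4) (nat_lit 0x10000c0006000200018000000000000000000) (nat_lit 0x0) (nat_lit 0x400020000000030018000400000000000000000000000) := T_50 (nat_lit 161) (nat_lit 178) (nat_lit 4) (nat_lit 8) (nat_lit 10) L100198 (by decide +kernel)
theorem L100200 : W_50 (nat_lit 5) (nat_lit 0x10000c0004000200018000000000000000000) (nat_lit 0x0) (nat_lit 0x40002000000003001a000400000000800000000000000) := T_50 (nat_lit 109) (nat_lit 59) (nat_lit 5) (nat_lit 8) (nat_lit 3) L100199 (by decide +kernel)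
theorem L100201 : W_50 (nat_lit 6) (nat_lit 0x1000080004000200018000000000000000000) (nat_lit 0x0) (nat_lit 0x40002000080007001a000400000000800000000000000) := T_50 (nat_lit 126) (nat_lit 143) (nat_lit 5) (nat_lit 8) (nat_lit 4) L100200 (by decide +kernel)
theorem L100202 : W_50 (nat_lit 7) (nat_lit 0x1000080004000200008000000000000000000) (nat_lit 0x0) (nat_lit 0x40002000080007001a000400010000c00000000000000) := T_50 (nat_lit 76) (nat_lit 58) (nat_lit 4) (nat_lit 8) (nat_lit 7) L100201 (by decide +kernel)
theorem L100203 : W_50 (nat_lit 8) (nat_lit 0x1000080004000200000000000000000000000) (nat_lit 0x0) (nat_lit 0x40002000080007001a000500018000c00000000000000) := T_50 (nat_lit 75) (nat_lit 92) (nat_lit 4) (nat_lit 8) (nat_lit 8) L100202 (by decide +kernel)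
theorem L100207 : W_50 (nat_lit 9) (nat_lit 0x1000080004000000000000000000000000000) (nat_lit 0x0) (nat_lit 0x1c000e0006000080007001a000700038001c00080000000000) := Q_50 (nat_lit 93) (C_50 L100170 (C_50 L100191 (C_50 L100196 (C_50 L100203 (C_50 L100206 N_50))))) (by decide +kernel)
theorem L100216 : W_50 (nat_lit 10) (nat_lit 0x1000080004000000000000000000000000000) (nat_lit 0x0) (nat_lit 0x8001c000e00070000800040008000700038001400000000000000) := Q_50 (nat_lit 93) (C_50 L100183 (C_50 L100170 (C_50 L100180 (C_50 L100215 N_50)))) (by decide +kernel)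
theorem L100217 : W_50 (nat_lit 2) (nat_lit 0xc0002000100008000c000000000000000000000000000) (nat_lit 0x0) (nat_lit 0x4000200010000000000000000000000000000000000000000) := D_50 (nat_lit 177) (nat_lit 194) (nat_lit 160) (nat_lit 5) (nat_lit 8) (nat_lit 7) (nat_lit 5) (nat_lit 8) (nat_lit 6) (by decide +kernel)
theorem L100218 : W_50 (nat_lit 3) (nat_lit 0x80002000100008000c000000000000000000000000000) (nat_lit 0x0) (nat_lit 0x14000600010000000000000000000000000000000000000000) := T_50 (nat_lit 178) (nat_lit 196) (nat_lit 7) (nat_lit 8) (nat_lit 7) L100217 (by decide +kernel)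
theorem L100219 : W_50 (nat_lit 4) (nat_lit 0x800020001000080004000000000000000000000000000) (nat_lit 0x0) (nat_lit 0x14000600010000000000008000400000000000000000000000) := T_50 (nat_lit 111) (nat_lit 94) (nat_lit 6) (nat_lit 8) (nat_lit 9) L100218 (by decide +kernel)
theorem L100220 : W_50 (nat_lit 5) (nat_lit 0x20001000080004000000000000000000000000000) (nat_lit 0x0) (nat_lit 0x14000e00050000000000008000400000000000000000000000) := T_50 (nat_lit 179) (nat_lit 162) (nat_lit 7) (nat_lit 8) (nat_lit 6) L100219 (by decide +kernel)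
theorem L100221 : W_50 (nat_lit 2) (nat_lit 0x200060001000080006000000000000000000000000000) (nat_lit 0x0) (nat_lit 0x4000400000000000040000000000000000000000000000000) := D_50 (nat_lit 178) (nat_lit 194) (nat_lit 126) (nat_lit 5) (nat_lit 8) (nat_lit 7) (nat_lit 4) (nat_lit 8) (nat_lit 10) (by decide +kernel)
theorem L100222 : W_50 (nat_lit 3) (nat_lit 0x200060001000080004000000000000000000000000000) (nat_lit 0x0) (nat_lit 0x4000400000000000040002000100000000000000000000000) := T_50 (nat_lit 109) (nat_lit 92) (nat_lit 4) (nat_lit 8) (nat_lit 9) L100221 (by decide +kernel)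
theorem L100223 : W_50 (nat_lit 4) (nat_lit 0x60001000080004000000000000000000000000000) (nat_lit 0x0) (nat_lit 0x4000600010000000040002000100000000000000000000000) := T_50 (nat_lit 177) (nat_lit 160) (nat_lit 5) (nat_lit 8) (nat_lit 6) L100222 (by decide +kernel)
theorem L100224 : W_50 (nat_lit 5) (nat_lit 0x20001000080004000000000000000000000000000) (nat_lit 0x0) (nat_lit 0x4000e00050000000040002000100000000000000000000000) := T_50 (nat_lit 162) (nat_lit 179) (nat_lit 7) (nat_lit 8) (nat_lit 6) L100223 (by decide +kernel)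
theorem L100228 : W_50 (nat_lit 5) (nat_lit 0x30001000080004000000000000000000000000000) (nat_lit 0x0) (nat_lit 0x40000000000007001a000500000000000000000000000) := T_50 (nat_lit 111) (nat_lit 94) (nat_lit 6) (nat_lit 8) (nat_lit 9) L100227 (by decide +kernel)
theorem L100229 : W_50 (nat_lit 6) (nat_lit 0x20001000080004000000000000000000000000000) (nat_lit 0x0) (nat_lit 0x60001000000007001a000500000000000000000000000) := T_50 (nat_lit 160) (nat_lit 177) (nat_lit 5) (nat_lit 8) (nat_lit 6) L100228 (by decide +kernel)
theorem L100230 : W_50 (nat_lit 7) (nat_lit 0x1000080004000000000000000000000000000) (nat_lit 0x0) (nat_lit 0x14000e0007000000007001a000700028000000000000000000) := Q_50 (nat_lit 161) (C_50 L100220 (C_50 L1699 (C_50 L100224 (C_50 L100229 (C_50 L75809 N_50))))) (by decide +kernel)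
theorem L100231 : W_50 (nat_lit 2) (nat_lit 0x4000c000200010000c000c000000000000000000000000000) (nat_lit 0x0) (nat_lit 0x80008000000000000800000000000000000000000000000000000) := D_50 (nat_lit 195) (nat_lit 211) (nat_lit 143) (nat_lit 5) (nat_lit 8) (nat_lit 8) (nat_lit 4) (nat_lit 8) (nat_lit 11) (by decide +kernel)
theorem L100232 : W_50 (nat_lit 3) (nat_lit 0x4000c0002000100008000c000000000000000000000000000) (nat_lit 0x0) (nat_lit 0x80008000000000000800040002000000000000000000000000000) := T_50 (nat_lit 126) (nat_lit 109) (nat_lit 4) (nat_lit 8) (nat_lit 10) L100231 (by decide +kernel)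
theorem L100233 : W_50 (nat_lit 4) (nat_lit 0xc0002000100008000c000000000000000000000000000) (nat_lit 0x0) (nat_lit 0x8000c000200000000800040002000000000000000000000000000) := T_50 (nat_lit 194) (nat_lit 177) (nat_lit 5) (nat_lit 8) (nat_lit 7) L100232 (by decide +kernel)
theorem L100234 : W_50 (nat_lit 5) (nat_lit 0x80002000100008000c000000000000000000000000000) (nat_lit 0x0) (nat_lit 0x8001c000600000000800040002000000000000000000000000000) := T_50 (nat_lit 178) (nat_lit 196) (nat_lit 7) (nat_lit 8) (nat_lit 7) L100233 (by decide +kernel)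
theorem L100235 : W_50 (nat_lit 6) (nat_lit 0x800020001000080004000000000000000000000000000) (nat_lit 0x0) (nat_lit 0x8001c00060000000080004000a000400000000000000000000000) := T_50 (nat_lit 111) (nat_lit 94) (nat_lit 6) (nat_lit 8) (nat_lit 9) L100234 (by decide +kernel)
theorem L100236 : W_50 (nat_lit 7) (nat_lit 0x20001000080004000000000000000000000000000) (nat_lit 0x0) (nat_lit 0x8001c000e0004000080004000a000400000000000000000000000) := T_50 (nat_lit 179) (nat_lit 162) (nat_lit 7) (nat_lit 8) (nat_lit 6) L100235 (by decide +kernel)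
theorem L100237 : W_50 (nat_lit 2) (nat_lit 0xc000200018000d000c000000000000000000000000000) (nat_lit 0x0) (nat_lit 0x10000000000000000200010000000000000000000) := D_50 (nat_lit 93) (nat_lit 76) (nat_lit 160) (nat_lit 5) (nat_lit 8) (nat_lit 4) (nat_lit 5) (nat_lit 8) (nat_lit 5) (by decide +kernel)
theorem L100238 : W_50 (nat_lit 3) (nat_lit 0xc000200010000d000c000000000000000000000000000) (nat_lit 0x0) (nat_lit 0x8000000010000800000000000200010000000000000000000) := T_50 (nat_lit 143) (nat_lit 195) (nat_lit 4) (nat_lit 8) (nat_lit 11) L100237 (by decide +kernel)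
theorem L100239 : W_50 (nat_lit 4) (nat_lit 0xc000200010000c000c000000000000000000000000000) (nat_lit 0x0) (nat_lit 0x8000000010000800030000000200010000000000000000000) := T_50 (nat_lit 124) (nat_lit 125) (nat_lit 2) (nat_lit 5) (nat_lit 7) L100238 (by decide +kernel)
theorem L100240 : W_50 (nat_lit 5) (nat_lit 0xc0002000100008000c000000000000000000000000000) (nat_lit 0x0) (nat_lit 0x8000000010000800070002000200010000000000000000000) := T_50 (nat_lit 126) (nat_lit 109) (nat_lit 4) (nat_lit 8) (nat_lit 10) L100239 (by decide +kernel)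
theorem L100241 : W_50 (nat_lit 6) (nat_lit 0x80002000100008000c000000000000000000000000000) (nat_lit 0x0) (nat_lit 0x18000400010000800070002000200010000000000000000000) := T_50 (nat_lit 178) (nat_lit 196) (nat_lit 7) (nat_lit 8) (nat_lit 7) L100240 (by decide +kernel)
theorem L100242 : W_50 (nat_lit 7) (nat_lit 0x2000100008000c000000000000000000000000000) (nat_lit 0x0) (nat_lit 0x18000c00050000800070002000200010000000000000000000) := T_50 (nat_lit 179) (nat_lit 162) (nat_lit 7) (nat_lit 8) (nat_lit 6) L100241 (by decide +kernel)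
theorem L100243 : W_50 (nat_lit 8) (nat_lit 0x20001000080004000000000000000000000000000) (nat_lit 0x0) (nat_lit 0x18000c0005000080007000a000600010000000000000000000) := T_50 (nat_lit 111) (nat_lit 94) (nat_lit 6) (nat_lit 8) (nat_lit 9) L100242 (by decide +kernel)
theorem L100244 : W_50 (nat_lit 9) (nat_lit 0x1000080004000000000000000000000000000) (nat_lit 0x0) (nat_lit 0x8001c000e000f0000e0007000a000600030000000000000000000) := Q_50 (nat_lit 161) (C_50 L100220 (C_50 L100236 (C_50 L1029 (C_50 L100243 (C_50 L75810 N_50))))) (by decide +kernel)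
theorem L100248 : W_50 (nat_lit 6) (nat_lit 0x1000080004000000000000000000000000000) (nat_lit 0x0) (nat_lit 0x10000e000f0000e00040002000300008000000000000000000) := Q_50 (nat_lit 161) (C_50 L1029 (C_50 L100247 (C_50 L1032 N_50))) (by decide +kernel)
theorem L100249 : W_50 (nat_lit 6) (nat_lit 0x1000080004000000000000000000000000000) (nat_lit 0x0) (nat_lit 0x14000e0007000080000000a000700028000000000000000000) := Q_50 (nat_lit 161) (C_50 L75810 (C_50 L1032 (C_50 L75809 (C_50 L100220 N_50)))) (by decide +kernel)
theorem L100266 : W_50 (nat_lit 4) (nat_lit 0x1e000100008000c000000000000000000000000000) (nat_lit 0x0) (nat_lit 0x20001001c000000002000100000000000000000000000) := T_50 (nat_lit 109) (nat_lit 92) (nat_lit 4) (nat_lit 8) (nat_lit 9) L700 (by decide +kernel)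
theorem L100267 : W_50 (nat_lit 5) (nat_lit 0xe000100008000c000000000000000000000000000) (nat_lit 0x0) (nat_lit 0x20011001c800000002000100000000000000000000000) := T_50 (nat_lit 164) (nat_lit 143) (nat_lit 0) (nat_lit 11) (nat_lit 9) L100266 (by decide +kernel)
theorem L100268 : W_50 (nat_lit 6) (nat_lit 0xe0001000080004000000000000000000000000000) (nat_lit 0x0) (nat_lit 0x20011001c80000000a000500000000000000000000000) := T_50 (nat_lit 111) (nat_lit 94) (nat_lit 6) (nat_lit 8) (nat_lit 9) L100267 (by decide +kernel)
theorem L100269 : W_50 (nat_lit 12) (nat_lit 0x60001000080004000000000000000000000000000) (nat_lit 0x0) (nat_lit 0x14000a000f38039801ce0047003b803d00000000000000000000000) := Q_50 (nat_lit 163) (C_50 L1604 (C_50 L1614 (C_50 L100259 (C_50 L100265 (C_50 L100268 N_50))))) (by decide +kernel)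
theorem L100270 : W_50 (nat_lit 13) (nat_lit 0x20001000080004000000000000000000000000000) (nat_lit 0x0) (nat_lit 0x14000a000fb803d801ce0047003b803d00000000000000000000000) := T_50 (nat_lit 162) (nat_lit 179) (nat_lit 7) (nat_lit 8) (nat_lit 6) L100269 (by decide +kernel)
theorem L100271 : W_50 (nat_lit 14) (nat_lit 0x1000080004000000000000000000000000000) (nat_lit 0x0) (nat_lit 0x14000b400ff803f801ce0047003b803d00000000000000000000000) := Q_50 (nat_lit 161) (C_50 L100220 (C_50 L100247 (C_50 L100229 (C_50 L100270 N_50)))) (by decide +kernel)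
theorem L100272 : W_50 (nat_lit 15) (nat_lit 0x1000080000000000000000000000000000000) (nat_lit 0x0) (nat_lit 0x14800bc00ff803f801ce0047003fe03fe003e001c000e0004000000) := Q_50 (nat_lit 110) (C_50 L100184 (C_50 L100207 (C_50 L100216 (C_50 L100230 (C_50 L100244 (C_50 L100248 (C_50 L100249 (C_50 L100271 N_50)))))))) (by decide +kernel)
theorem L100273 : W_50 (nat_lit 2) (nat_lit 0x200010001a001f001080000000000000000000000) (nat_lit 0x0) (nat_lit 0x60002000000000000000000000000) := D_50 (nat_lit 113) (nat_lit 114) (nat_lit 97) (nat_lit 1) (nat_lit 12) (nat_lit 6) (nat_lit 2) (nat_lit 8) (nat_lit 6) (by decide +kernel)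
theorem L100274 : W_50 (nat_lit 3) (nat_lit 0x200010001a001f000080000000000000000000000) (nat_lit 0x0) (nat_lit 0x60003800000000000000000000000) := T_50 (nat_lit 96) (nat_lit 95) (nat_lit 2) (nat_lit 7) (nat_lit 6) L100273 (by decide +kernel)
theorem L100275 : W_50 (nat_lit 4) (nat_lit 0x200010000a001f000080000000000000000000000) (nat_lit 0x0) (nat_lit 0x100060803800000000000000000000000) := T_50 (nat_lit 128) (nat_lit 107) (nat_lit 3) (nat_lit 5) (nat_lit 6) L100274 (by decide +kernel)
theorem L100276 : W_50 (nat_lit 5) (nat_lit 0x200010000a000f000080000000000000000000000) (nat_lit 0x0) (nat_lit 0x140070803800000000000000000000000) := T_50 (nat_lit 112) (nat_lit 126) (nat_lit 1) (nat_lit 10) (nat_lit 6) L100275 (by decide +kernel)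
theorem L100277 : W_50 (nat_lit 6) (nat_lit 0x200010000a000f000000000000000000000000000) (nat_lit 0x0) (nat_lit 0x1400708038c0000000000000000000000) := T_50 (nat_lit 91) (nat_lit 90) (nat_lit 0) (nat_lit 9) (nat_lit 6) L100276 (by decide +kernel)
theorem L100278 : W_50 (nat_lit 7) (nat_lit 0x2000100008000f000000000000000000000000000) (nat_lit 0x0) (nat_lit 0x1700708038c0000000000000000000000) := T_50 (nat_lit 125) (nat_lit 124) (nat_lit 1) (nat_lit 9) (nat_lit 6) L100277 (by decide +kernel)
theorem L100279 : W_50 (nat_lit 8) (nat_lit 0x20001000080007000000000000000000000000000) (nat_lit 0x0) (nat_lit 0x170078803cc0000000000000000000000) := T_50 (nat_lit 111) (nat_lit 94) (nat_lit 6) (nat_lit 8) (nat_lit 9) L100278 (by decide +kernel)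
theorem L100280 : W_50 (nat_lit 2) (nat_lit 0x700014000a000f800080000000000000000000000) (nat_lit 0x0) (nat_lit 0xc000200000000000000000000000000000000000) := D_50 (nat_lit 141) (nat_lit 158) (nat_lit 159) (nat_lit 5) (nat_lit 6) (nat_lit 5) (nat_lit 0) (nat_lit 9) (nat_lit 9) (by decide +kernel)
theorem L100281 : W_50 (nat_lit 3) (nat_lit 0x700010000a000f800080000000000000000000000) (nat_lit 0x0) (nat_lit 0xc000e00000000000000000000000000000000000) := T_50 (nat_lit 142) (nat_lit 143) (nat_lit 7) (nat_lit 6) (nat_lit 5) L100280 (by decide +kernel)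
theorem L100282 : W_50 (nat_lit 4) (nat_lit 0x700010000a000f000080000000000000000000000) (nat_lit 0x0) (nat_lit 0xc000e00100000800000000000000000000000000) := T_50 (nat_lit 107) (nat_lit 128) (nat_lit 3) (nat_lit 5) (nat_lit 6) L100281 (by decide +kernel)
theorem L100283 : W_50 (nat_lit 5) (nat_lit 0x700010000a000f000000000000000000000000000) (nat_lit 0x0) (nat_lit 0xc000e001000008000c0000000000000000000000) := T_50 (nat_lit 91) (nat_lit 90) (nat_lit 0) (nat_lit 9) (nat_lit 6) L100282 (by decide +kernel)
theorem L100284 : W_50 (nat_lit 6) (nat_lit 0x7000100008000f000000000000000000000000000) (nat_lit 0x0) (nat_lit 0xc000e001300008000c0000000000000000000000) := T_50 (nat_lit 125) (nat_lit 124) (nat_lit 1) (nat_lit 9) (nat_lit 6) L100283 (by decide +kernel)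
theorem L100285 : W_50 (nat_lit 7) (nat_lit 0x70001000080007000000000000000000000000000) (nat_lit 0x0) (nat_lit 0xc000e001300088004c0000000000000000000000) := T_50 (nat_lit 111) (nat_lit 94) (nat_lit 6) (nat_lit 8) (nat_lit 9) L100284 (by decide +kernel)
theorem L100286 : W_50 (nat_lit 8) (nat_lit 0x30001000080007000000000000000000000000000) (nat_lit 0x0) (nat_lit 0x80004c000e001300088004c0000000000000000000000) := T_50 (nat_lit 162) (nat_lit 179) (nat_lit 7) (nat_lit 8) (nat_lit 6) L100285 (by decide +kernel)
theorem L100287 : W_50 (nat_lit 9) (nat_lit 0x20001000080007000000000000000000000000000) (nat_lit 0x0) (nat_lit 0xa0005c000e001300088004c0000000000000000000000) := T_50 (nat_lit 160) (nat_lit 177) (nat_lit 5) (nat_lit 8) (nat_lit 6) L100286 (by decide +kernel)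
theorem L100288 : W_50 (nat_lit 2) (nat_lit 0x20001000080007c00000000000000000000000000) (nat_lit 0x0) (nat_lit 0x70000000000000000000000) := D_50 (nat_lit 89) (nat_lit 90) (nat_lit 88) (nat_lit 0) (nat_lit 8) (nat_lit 6) (nat_lit 0) (nat_lit 7) (nat_lit 6) (by decide +kernel)
theorem L100289 : W_50 (nat_lit 3) (nat_lit 0x20001000080007800000000000000000000000000) (nat_lit 0x0) (nat_lit 0x40000400070000000000000000000000) := T_50 (nat_lit 106) (nat_lit 126) (nat_lit 3) (nat_lit 4) (nat_lit 6) L100288 (by decide +kernel)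
theorem L100290 : W_50 (nat_lit 4) (nat_lit 0x20001000080007000000000000000000000000000) (nat_lit 0x0) (nat_lit 0x140000c00070000000000000000000000) := T_50 (nat_lit 107) (nat_lit 128) (nat_lit 3) (nat_lit 5) (nat_lit 6) L100289 (by decide +kernel)
theorem L100291 : W_50 (nat_lit 10) (nat_lit 0x20001000080006000000000000000000000000000) (nat_lit 0x0) (nat_lit 0xa0005c000e0017c079c03cf0000000000000000000000) := Q_50 (nat_lit 108) (C_50 L656 (C_50 L100279 (C_50 L100287 (C_50 L100290 (C_50 L662 N_50))))) (by decide +kernel)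
theorem L100292 : W_50 (nat_lit 11) (nat_lit 0x20001000080004000000000000000000000000000) (nat_lit 0x0) (nat_lit 0xa0005c000e0017c07bc03df0000000000000000000000) := T_50 (nat_lit 109) (nat_lit 92) (nat_lit 4) (nat_lit 8) (nat_lit 9) L100291 (by decide +kernel)
theorem L100293 : W_50 (nat_lit 4) (nat_lit 0x3000100008000e000000000000000000000000000) (nat_lit 0x0) (nat_lit 0x8000c0000e00000000000200000000000000000000000) := T_50 (nat_lit 143) (nat_lit 93) (nat_lit 5) (nat_lit 8) (nat_lit 5) L75981 (by decide +kernel)
theorem L100294 : W_50 (nat_lit 5) (nat_lit 0x2000100008000e000000000000000000000000000) (nat_lit 0x0) (nat_lit 0xa000d0000e00000000000200000000000000000000000) := T_50 (nat_lit 160) (nat_lit 177) (nat_lit 5) (nat_lit 8) (nat_lit 6) L100293 (by decide +kernel)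
theorem L100295 : W_50 (nat_lit 6) (nat_lit 0x2000100008000c000000000000000000000000000) (nat_lit 0x0) (nat_lit 0xa000d0000e00000002000300000000000000000000000) := T_50 (nat_lit 109) (nat_lit 92) (nat_lit 4) (nat_lit 8) (nat_lit 9) L100294 (by decide +kernel)
theorem L100296 : W_50 (nat_lit 7) (nat_lit 0x20001000080004000000000000000000000000000) (nat_lit 0x0) (nat_lit 0xa000d0000e0000000a000700000000000000000000000) := T_50 (nat_lit 111) (nat_lit 94) (nat_lit 6) (nat_lit 8) (nat_lit 9) L100295 (by decide +kernel)
theorem L100297 : W_50 (nat_lit 2) (nat_lit 0x60001000080004000500000000000000000000000) (nat_lit 0x0) (nat_lit 0x200028000000000000000000) := D_50 (nat_lit 93) (nat_lit 77) (nat_lit 75) (nat_lit 6) (nat_lit 8) (nat_lit 8) (nat_lit 4) (nat_lit 8) (nat_lit 8) (by decide +kernel)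
theorem L100298 : W_50 (nat_lit 3) (nat_lit 0x60001000080004000400000000000000000000000) (nat_lit 0x0) (nat_lit 0x2000300028000000000000000000) := T_50 (nat_lit 92) (nat_lit 109) (nat_lit 4) (nat_lit 8) (nat_lit 9) L100297 (by decide +kernel)
theorem L100299 : W_50 (nat_lit 4) (nat_lit 0x60001000080004000000000000000000000000000) (nat_lit 0x0) (nat_lit 0xa000700028000000000000000000) := T_50 (nat_lit 94) (nat_lit 111) (nat_lit 6) (nat_lit 8) (nat_lit 9) L100298 (by decide +kernel)
theorem L100300 : W_50 (nat_lit 5) (nat_lit 0x20001000080004000000000000000000000000000) (nat_lit 0x0) (nat_lit 0x80004000000000000a000700028000000000000000000) := T_50 (nat_lit 162) (nat_lit 179) (nat_lit 7) (nat_lit 8) (nat_lit 6) L100299 (by decide +kernel)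
theorem L100301 : W_50 (nat_lit 8) (nat_lit 0x60001000080004000000000000000000000000000) (nat_lit 0x0) (nat_lit 0x200010000800100008000700038001c00080000000000) := T_50 (nat_lit 111) (nat_lit 94) (nat_lit 6) (nat_lit 8) (nat_lit 9) L76006 (by decide +kernel)
theorem L100302 : W_50 (nat_lit 9) (nat_lit 0x20001000080004000000000000000000000000000) (nat_lit 0x0) (nat_lit 0xa00050000800100008000700038001c00080000000000) := T_50 (nat_lit 162) (nat_lit 179) (nat_lit 7) (nat_lit 8) (nat_lit 6) L100301 (by decide +kernel)
theorem L100303 : W_50 (nat_lit 12) (nat_lit 0x20001000080000000000000000000000000000000) (nat_lit 0x0) (nat_lit 0xa000dc000e0017c07fc03ff0038001c00080000000000) := Q_50 (nat_lit 110) (C_50 L100292 (C_50 L100296 (C_50 L100300 (C_50 L100302 (C_50 L1032 (C_50 L1624 N_50)))))) (by decide +kernel)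
theorem L100304 : W_50 (nat_lit 2) (nat_lit 0x2000f000280010000c0000000000000000000000000000000) (nat_lit 0x0) (nat_lit 0x1000010000800000000000000000000000000000000000) := D_50 (nat_lit 160) (nat_lit 180) (nat_lit 143) (nat_lit 0) (nat_lit 10) (nat_lit 10) (nat_lit 5) (nat_lit 7) (nat_lit 7) (by decide +kernel)
theorem L100305 : W_50 (nat_lit 3) (nat_lit 0x2000f00028001000080000000000000000000000000000000) (nat_lit 0x0) (nat_lit 0x1000010000800040002000000000000000000000000000) := T_50 (nat_lit 126) (nat_lit 109) (nat_lit 4) (nat_lit 8) (nat_lit 10) L100304 (by decide +kernel)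
theorem L100306 : W_50 (nat_lit 4) (nat_lit 0x2000f00020001000080000000000000000000000000000000) (nat_lit 0x0) (nat_lit 0x100001c000800040002000000000000000000000000000) := T_50 (nat_lit 159) (nat_lit 158) (nat_lit 0) (nat_lit 9) (nat_lit 10) L100305 (by decide +kernel)
theorem L100307 : W_50 (nat_lit 5) (nat_lit 0xf00020001000080000000000000000000000000000000) (nat_lit 0x0) (nat_lit 0x300100001c000800040002000000000000000000000000000) := T_50 (nat_lit 193) (nat_lit 192) (nat_lit 1) (nat_lit 9) (nat_lit 10) L100306 (by decide +kernel)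
theorem L100308 : W_50 (nat_lit 6) (nat_lit 0x700020001000080000000000000000000000000000000) (nat_lit 0x0) (nat_lit 0x1300180001c000800040002000000000000000000000000000) := T_50 (nat_lit 179) (nat_lit 196) (nat_lit 7) (nat_lit 8) (nat_lit 7) L100307 (by decide +kernel)
theorem L100309 : W_50 (nat_lit 7) (nat_lit 0x600020001000080000000000000000000000000000000) (nat_lit 0x0) (nat_lit 0x13c019c00dc00080014000a000000000000000000000000000) := Q_50 (nat_lit 176) (C_50 L5673 (C_50 L4938 (C_50 L100308 (C_50 L17111 (C_50 L5675 N_50))))) (by decide +kernel)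
theorem L100310 : W_50 (nat_lit 8) (nat_lit 0x400020001000080000000000000000000000000000000) (nat_lit 0x0) (nat_lit 0x17c01bc00dc00080014000a000000000000000000000000000) := T_50 (nat_lit 177) (nat_lit 194) (nat_lit 5) (nat_lit 8) (nat_lit 7) L100309 (by decide +kernel)
theorem L100311 : W_50 (nat_lit 6) (nat_lit 0x80006000200010000c0000000000000000000000000000000) (nat_lit 0x0) (nat_lit 0x20007000380010000000010000000100008000000000000000000000000000) := T_50 (nat_lit 128) (nat_lit 111) (nat_lit 6) (nat_lit 8) (nat_lit 10) L531 (by decide +kernel)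
theorem L100312 : W_50 (nat_lit 7) (nat_lit 0x6000200010000c0000000000000000000000000000000) (nat_lit 0x0) (nat_lit 0x20007000380018000000010000800100008000000000000000000000000000) := T_50 (nat_lit 195) (nat_lit 143) (nat_lit 4) (nat_lit 8) (nat_lit 11) L100311 (by decide +kernel)
theorem L100313 : W_50 (nat_lit 8) (nat_lit 0x4000200010000c0000000000000000000000000000000) (nat_lit 0x0) (nat_lit 0x2000700038001c000200010000800100008000000000000000000000000000) := T_50 (nat_lit 177) (nat_lit 194) (nat_lit 5) (nat_lit 8) (nat_lit 7) L100312 (by decide +kernel)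
theorem L100314 : W_50 (nat_lit 9) (nat_lit 0x400020001000080000000000000000000000000000000) (nat_lit 0x0) (nat_lit 0x2000700038001c00020001000080014000a000000000000000000000000000) := T_50 (nat_lit 126) (nat_lit 109) (nat_lit 4) (nat_lit 8) (nat_lit 10) L100313 (by decide +kernel)
theorem L100315 : W_50 (nat_lit 10) (nat_lit 0x20001000080000000000000000000000000000000) (nat_lit 0x0) (nat_lit 0xa000700038001fc01fc00dc00080014000a000000000000000000000000000) := Q_50 (nat_lit 178) (C_50 L100310 (C_50 L527 (C_50 L543 (C_50 L100314 (C_50 L75575 (C_50 L75572 N_50)))))) (by decide +kernel)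
theorem L100316 : W_50 (nat_lit 2) (nat_lit 0x700014001a000f000080000000000000000000000) (nat_lit 0x0) (nat_lit 0xc000200000000000000000000000000000000000) := D_50 (nat_lit 141) (nat_lit 158) (nat_lit 159) (nat_lit 5) (nat_lit 6) (nat_lit 5) (nat_lit 0) (nat_lit 9) (nat_lit 9) (by decide +kernel)
theorem L100317 : W_50 (nat_lit 3) (nat_lit 0x700010001a000f000080000000000000000000000) (nat_lit 0x0) (nat_lit 0xc000e00000000000000000000000000000000000) := T_50 (nat_lit 142) (nat_lit 143) (nat_lit 7) (nat_lit 6) (nat_lit 5) L100316 (by decide +kernel)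
theorem L100318 : W_50 (nat_lit 4) (nat_lit 0x700010001a000f000000000000000000000000000) (nat_lit 0x0) (nat_lit 0xc000e000000000000c0000000000000000000000) := T_50 (nat_lit 91) (nat_lit 90) (nat_lit 0) (nat_lit 9) (nat_lit 6) L100317 (by decide +kernel)
theorem L100319 : W_50 (nat_lit 5) (nat_lit 0x7000100018000f000000000000000000000000000) (nat_lit 0x0) (nat_lit 0xc000e000300000000c0000000000000000000000) := T_50 (nat_lit 125) (nat_lit 124) (nat_lit 1) (nat_lit 9) (nat_lit 6) L100318 (by decide +kernel)
theorem L100320 : W_50 (nat_lit 6) (nat_lit 0x7000100018000e000000000000000000000000000) (nat_lit 0x0) (nat_lit 0xc000e000300018000c0000000000000000000000) := T_50 (nat_lit 108) (nat_lit 107) (nat_lit 3) (nat_lit 5) (nat_lit 6) L100319 (by decide +kernel)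
theorem L100321 : W_50 (nat_lit 7) (nat_lit 0x7000100008000e000000000000000000000000000) (nat_lit 0x0) (nat_lit 0x40000c000e001300018000c0000000000000000000000) := T_50 (nat_lit 128) (nat_lit 178) (nat_lit 6) (nat_lit 8) (nat_lit 10) L100320 (by decide +kernel)
theorem L100322 : W_50 (nat_lit 8) (nat_lit 0x6000100008000e000000000000000000000000000) (nat_lit 0x0) (nat_lit 0x60001c000e001300018000c0000000000000000000000) := T_50 (nat_lit 160) (nat_lit 177) (nat_lit 5) (nat_lit 8) (nat_lit 6) L100321 (by decide +kernel)
theorem L100323 : W_50 (nat_lit 9) (nat_lit 0x60001000080006000000000000000000000000000) (nat_lit 0x0) (nat_lit 0x60001c000e001300098004c0000000000000000000000) := T_50 (nat_lit 111) (nat_lit 94) (nat_lit 6) (nat_lit 8) (nat_lit 9) L100322 (by decide +kernel)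
theorem L100324 : W_50 (nat_lit 10) (nat_lit 0x20001000080006000000000000000000000000000) (nat_lit 0x0) (nat_lit 0xe0005c000e001300098004c0000000000000000000000) := T_50 (nat_lit 162) (nat_lit 179) (nat_lit 7) (nat_lit 8) (nat_lit 6) L100323 (by decide +kernel)
theorem L100325 : W_50 (nat_lit 11) (nat_lit 0x20001000080004000000000000000000000000000) (nat_lit 0x0) (nat_lit 0xe0005c000e0013000b8005c0000000000000000000000) := T_50 (nat_lit 109) (nat_lit 92) (nat_lit 4) (nat_lit 8) (nat_lit 9) L100324 (by decide +kernel)
theorem L100326 : W_50 (nat_lit 12) (nat_lit 0x20001000080000000000000000000000000000000) (nat_lit 0x0) (nat_lit 0xe0005c000e0013000f8007c0028000000000000000000) := Q_50 (nat_lit 110) (C_50 L1624 (C_50 L100300 (C_50 L1032 (C_50 L100325 N_50)))) (by decide +kernel)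
theorem L100327 : W_50 (nat_lit 6) (nat_lit 0x20001000080000000000000000000000000000000) (nat_lit 0x0) (nat_lit 0x28001c000e0005000000014000e000500000000000000000000000) := Q_50 (nat_lit 178) (C_50 L1690 (C_50 L527 (C_50 L1694 N_50))) (by decide +kernel)
theorem L100328 : W_50 (nat_lit 9) (nat_lit 0x20001000080000000000000000000000000000000) (nat_lit 0x0) (nat_lit 0x400038001c000e00050000e0014000c000400000000000000000000000) := Q_50 (nat_lit 178) (C_50 L575 (C_50 L871 (C_50 L868 (C_50 L578 N_50)))) (by decide +kernel)
theorem L100329 : W_50 (nat_lit 10) (nat_lit 0x60001000080004000000000000000000000000000) (nat_lit 0x0) (nat_lit 0x500038001c00040000000080017003a000400000000000000000000000) := T_50 (nat_lit 111) (nat_lit 94) (nat_lit 6) (nat_lit 8) (nat_lit 9) L1722 (by decide +kernel)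
theorem L100330 : W_50 (nat_lit 11) (nat_lit 0x20001000080004000000000000000000000000000) (nat_lit 0x0) (nat_lit 0x500038001c000c0004000080017003a000400000000000000000000000) := T_50 (nat_lit 162) (nat_lit 179) (nat_lit 7) (nat_lit 8) (nat_lit 6) L100329 (by decide +kernel)
theorem L100331 : W_50 (nat_lit 12) (nat_lit 0x20001000080000000000000000000000000000000) (nat_lit 0x0) (nat_lit 0x500038001c000c0005000080017003e000700038000400000000000000) := Q_50 (nat_lit 110) (C_50 L100300 (C_50 L1714 (C_50 L76111 (C_50 L100247 (C_50 L100330 N_50))))) (by decide +kernel)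
theorem L100332 : W_50 (nat_lit 8) (nat_lit 0x20001000080000000000000000000000000000000) (nat_lit 0x0) (nat_lit 0x10000800060001000080014000e000700018000c00000000000000) := Q_50 (nat_lit 110) (C_50 L76111 (C_50 L1032 (C_50 L1731 (C_50 L643 N_50)))) (by decide +kernel)
theorem L100333 : W_50 (nat_lit 5) (nat_lit 0x20001000080000000000000000000000000000000) (nat_lit 0x0) (nat_lit 0x28001c000e00050000800040006000000000000000000000000000) := Q_50 (nat_lit 178) (C_50 L575 (C_50 L75575 (C_50 L75572 N_50))) (by decide +kernel)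
theorem L100334 : W_50 (nat_lit 5) (nat_lit 0x20001000080000000000000000000000000000000) (nat_lit 0x0) (nat_lit 0x8001c000e0004000080014000e000400000000000000000000000) := Q_50 (nat_lit 178) (C_50 L871 (C_50 L75572 N_50)) (by decide +kernel)
theorem L100335 : W_50 (nat_lit 13) (nat_lit 0x1000080000000000000000000000000000000) (nat_lit 0x0) (nat_lit 0xa000700038001fc01fc00fc000e0017c07fc03ff0038001c00080000000000) := Q_50 (nat_lit 161) (C_50 L100303 (C_50 L100315 (C_50 L100326 (C_50 L100327 (C_50 L100328 (C_50 L100331 (C_50 L100332 (C_50 L100333 (C_50 L100334 N_50))))))))) (by decide +kernel)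
theorem L100336 : W_50 (nat_lit 2) (nat_lit 0x18000a0005001f80084000000000000000000) (nat_lit 0x0) (nat_lit 0x70000000000000000000000000000) := D_50 (nat_lit 113) (nat_lit 112) (nat_lit 114) (nat_lit 3) (nat_lit 7) (nat_lit 5) (nat_lit 3) (nat_lit 8) (nat_lit 5) (by decide +kernel)
theorem L100337 : W_50 (nat_lit 3) (nat_lit 0x18000a0005000f80084000000000000000000) (nat_lit 0x0) (nat_lit 0x70001000100000000000000000000) := T_50 (nat_lit 96) (nat_lit 80) (nat_lit 2) (nat_lit 8) (nat_lit 5) L100336 (by decide +kernel)
theorem L100338 : W_50 (nat_lit 4) (nat_lit 0x1800080005000f80084000000000000000000) (nat_lit 0x0) (nat_lit 0x60070001000100000000000000000000) := T_50 (nat_lit 125) (nat_lit 126) (nat_lit 7) (nat_lit 6) (nat_lit 4) L100337 (by decide +kernel)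
theorem L100339 : W_50 (nat_lit 5) (nat_lit 0x1800080005000f80004000000000000000000) (nat_lit 0x0) (nat_lit 0x600700010001c0000000000000000000) := T_50 (nat_lit 79) (nat_lit 78) (nat_lit 2) (nat_lit 7) (nat_lit 5) L100338 (by decide +kernel)
theorem L100340 : W_50 (nat_lit 6) (nat_lit 0x1000080005000f80004000000000000000000) (nat_lit 0x0) (nat_lit 0x100008000600700010001c0000000000000000000) := T_50 (nat_lit 143) (nat_lit 160) (nat_lit 5) (nat_lit 8) (nat_lit 5) L100339 (by decide +kernel)
theorem L100341 : W_50 (nat_lit 7) (nat_lit 0x1000080005000780004000000000000000000) (nat_lit 0x0) (nat_lit 0x100008000600720018001c0000000000000000000) := T_50 (nat_lit 95) (nat_lit 109) (nat_lit 1) (nat_lit 10) (nat_lit 5) L100340 (by decide +kernel)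
theorem L100342 : W_50 (nat_lit 8) (nat_lit 0x1000080005000780000000000000000000000) (nat_lit 0x0) (nat_lit 0x100008000600720018001c6000000000000000000) := T_50 (nat_lit 74) (nat_lit 73) (nat_lit 0) (nat_lit 9) (nat_lit 5) L100341 (by decide +kernel)
theorem L100343 : W_50 (nat_lit 9) (nat_lit 0x1000080004000780000000000000000000000) (nat_lit 0x0) (nat_lit 0x100008000600738018001c6000000000000000000) := T_50 (nat_lit 108) (nat_lit 107) (nat_lit 1) (nat_lit 9) (nat_lit 5) L100342 (by decide +kernel)
theorem L100344 : W_50 (nat_lit 10) (nat_lit 0x1000080004000380000000000000000000000) (nat_lit 0x0) (nat_lit 0x10000800060073801c001e6000000000000000000) := T_50 (nat_lit 94) (nat_lit 77) (nat_lit 6) (nat_lit 8) (nat_lit 8) L100343 (by decide +kernel)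
theorem L100345 : W_50 (nat_lit 2) (nat_lit 0x18000800040003e0000000000000000000000) (nat_lit 0x0) (nat_lit 0xe00000000000000000000000000) := D_50 (nat_lit 106) (nat_lit 105) (nat_lit 107) (nat_lit 1) (nat_lit 7) (nat_lit 5) (nat_lit 1) (nat_lit 8) (nat_lit 5) (by decide +kernel)
theorem L100346 : W_50 (nat_lit 3) (nat_lit 0x18000800040003c0000000000000000000000) (nat_lit 0x0) (nat_lit 0x2e00020000000000000000000000) := T_50 (nat_lit 89) (nat_lit 109) (nat_lit 3) (nat_lit 4) (nat_lit 5) L100345 (by decide +kernel)
theorem L100347 : W_50 (nat_lit 4) (nat_lit 0x1800080004000380000000000000000000000) (nat_lit 0x0) (nat_lit 0xae00060000000000000000000000) := T_50 (nat_lit 90) (nat_lit 111) (nat_lit 3) (nat_lit 5) (nat_lit 5) L100346 (by decide +kernel)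
theorem L100348 : W_50 (nat_lit 5) (nat_lit 0x1000080004000380000000000000000000000) (nat_lit 0x0) (nat_lit 0x1000080000000ae00060000000000000000000000) := T_50 (nat_lit 143) (nat_lit 160) (nat_lit 5) (nat_lit 8) (nat_lit 5) L100347 (by decide +kernel)
theorem L100349 : W_50 (nat_lit 11) (nat_lit 0x1000080004000300000000000000000000000) (nat_lit 0x0) (nat_lit 0x1000080006007be01ce01e6000000000000000000) := Q_50 (nat_lit 91) (C_50 L100144 (C_50 L100344 (C_50 L100348 N_50))) (by decide +kernel)
theorem L100350 : W_50 (nat_lit 12) (nat_lit 0x1000080004000200000000000000000000000) (nat_lit 0x0) (nat_lit 0x1000080006007be01de01ee000000000000000000) := T_50 (nat_lit 92) (nat_lit 75) (nat_lit 4) (nat_lit 8) (nat_lit 8) L100349 (by decide +kernel)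
theorem L100357 : W_50 (nat_lit 2) (nat_lit 0x1800080004000300010001800040000000000) (nat_lit 0x0) (nat_lit 0x400020001000000) := D_50 (nat_lit 41) (nat_lit 24) (nat_lit 58) (nat_lit 4) (nat_lit 8) (nat_lit 5) (nat_lit 4) (nat_lit 8) (nat_lit 6) (by decide +kernel)
theorem L100358 : W_50 (nat_lit 3) (nat_lit 0x1800080004000300010001800000000000000) (nat_lit 0x0) (nat_lit 0x2000000000000400060001000000) := T_50 (nat_lit 42) (nat_lit 109) (nat_lit 5) (nat_lit 8) (nat_lit 2) L100357 (by decide +kernel)
theorem L100359 : W_50 (nat_lit 4) (nat_lit 0x1800080004000300010001000000000000000) (nat_lit 0x0) (nat_lit 0x2000000000000c000e0001000000) := T_50 (nat_lit 59) (nat_lit 43) (nat_lit 6) (nat_lit 8) (nat_lit 6) L100358 (by decide +kernel)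
theorem L100360 : W_50 (nat_lit 5) (nat_lit 0x1800080004000300010000000000000000000) (nat_lit 0x0) (nat_lit 0x2000000020001c000e0001000000) := T_50 (nat_lit 60) (nat_lit 77) (nat_lit 6) (nat_lit 8) (nat_lit 7) L100359 (by decide +kernel)
theorem L100361 : W_50 (nat_lit 6) (nat_lit 0x1800080004000300000000000000000000000) (nat_lit 0x0) (nat_lit 0x40002000000030001c000e0001000000) := T_50 (nat_lit 76) (nat_lit 126) (nat_lit 5) (nat_lit 8) (nat_lit 4) L100360 (by decide +kernel)
theorem L100362 : W_50 (nat_lit 7) (nat_lit 0x1000080004000300000000000000000000000) (nat_lit 0x0) (nat_lit 0x10000800040002000000030001c000e0001000000) := T_50 (nat_lit 143) (nat_lit 160) (nat_lit 5) (nat_lit 8) (nat_lit 5) L100361 (by decide +kernel)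
theorem L100363 : W_50 (nat_lit 8) (nat_lit 0x1000080004000200000000000000000000000) (nat_lit 0x0) (nat_lit 0x10000800040002000100038001c000e0001000000) := T_50 (nat_lit 92) (nat_lit 75) (nat_lit 4) (nat_lit 8) (nat_lit 8) L100362 (by decide +kernel)
theorem L100364 : W_50 (nat_lit 13) (nat_lit 0x1000080004000000000000000000000000000) (nat_lit 0x0) (nat_lit 0x1000080006007be01fe01fe001c000e0001000000) := Q_50 (nat_lit 93) (C_50 L100350 (C_50 L100353 (C_50 L100356 (C_50 L100363 (C_50 L100180 N_50))))) (by decide +kernel)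
theorem L100366 : W_50 (nat_lit 3) (nat_lit 0x700010000c0006000000000000000000000000000) (nat_lit 0x0) (nat_lit 0x30018000400000000000000000000000) := T_50 (nat_lit 111) (nat_lit 94) (nat_lit 6) (nat_lit 8) (nat_lit 9) L100365 (by decide +kernel)
theorem L100367 : W_50 (nat_lit 4) (nat_lit 0x70001000080006000000000000000000000000000) (nat_lit 0x0) (nat_lit 0x400000000000070018000400000000000000000000000) := T_50 (nat_lit 126) (nat_lit 178) (nat_lit 4) (nat_lit 8) (nat_lit 10) L100366 (by decide +kernel)
theorem L100368 : W_50 (nat_lit 5) (nat_lit 0x30001000080006000000000000000000000000000) (nat_lit 0x0) (nat_lit 0xc00040000000070018000400000000000000000000000) := T_50 (nat_lit 162) (nat_lit 179) (nat_lit 7) (nat_lit 8) (nat_lit 6) L100367 (by decide +kernel)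
theorem L100369 : W_50 (nat_lit 6) (nat_lit 0x30001000080004000000000000000000000000000) (nat_lit 0x0) (nat_lit 0xc0004000000007001a000500000000000000000000000) := T_50 (nat_lit 109) (nat_lit 92) (nat_lit 4) (nat_lit 8) (nat_lit 9) L100368 (by decide +kernel)
theorem L100370 : W_50 (nat_lit 7) (nat_lit 0x20001000080004000000000000000000000000000) (nat_lit 0x0) (nat_lit 0xe0005000000007001a000500000000000000000000000) := T_50 (nat_lit 160) (nat_lit 177) (nat_lit 5) (nat_lit 8) (nat_lit 6) L100369 (by decide +kernel)
theorem L100371 : W_50 (nat_lit 2) (nat_lit 0x800030001000080006000000000000000000000000000) (nat_lit 0x0) (nat_lit 0x10000400000000000040000000000000000000000000000000) := D_50 (nat_lit 178) (nat_lit 196) (nat_lit 126) (nat_lit 7) (nat_lit 8) (nat_lit 7) (nat_lit 4) (nat_lit 8) (nat_lit 10) (by decide +kernel)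
theorem L100372 : W_50 (nat_lit 3) (nat_lit 0x800030001000080004000000000000000000000000000) (nat_lit 0x0) (nat_lit 0x10000400000000000040002000100000000000000000000000) := T_50 (nat_lit 109) (nat_lit 92) (nat_lit 4) (nat_lit 8) (nat_lit 9) L100371 (by decide +kernel)
theorem L100373 : W_50 (nat_lit 4) (nat_lit 0x30001000080004000000000000000000000000000) (nat_lit 0x0) (nat_lit 0x10000c00040000000040002000100000000000000000000000) := T_50 (nat_lit 179) (nat_lit 162) (nat_lit 7) (nat_lit 8) (nat_lit 6) L100372 (by decide +kernel)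
theorem L100374 : W_50 (nat_lit 5) (nat_lit 0x20001000080004000000000000000000000000000) (nat_lit 0x0) (nat_lit 0x10000e00050000000040002000100000000000000000000000) := T_50 (nat_lit 160) (nat_lit 177) (nat_lit 5) (nat_lit 8) (nat_lit 6) L100373 (by decide +kernel)
theorem L100375 : W_50 (nat_lit 2) (nat_lit 0x70001000080004000600000000000000000000000) (nat_lit 0x0) (nat_lit 0x2000100008000000000000000000) := D_50 (nat_lit 92) (nat_lit 75) (nat_lit 109) (nat_lit 4) (nat_lit 8) (nat_lit 8) (nat_lit 4) (nat_lit 8) (nat_lit 9) (by decide +kernel)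
theorem L100376 : W_50 (nat_lit 3) (nat_lit 0x70001000080004000400000000000000000000000) (nat_lit 0x0) (nat_lit 0x2000300028000000000000000000) := T_50 (nat_lit 93) (nat_lit 77) (nat_lit 6) (nat_lit 8) (nat_lit 8) L100375 (by decide +kernel)
theorem L100377 : W_50 (nat_lit 4) (nat_lit 0x60001000080004000400000000000000000000000) (nat_lit 0x0) (nat_lit 0x200010000000000002000300028000000000000000000) := T_50 (nat_lit 160) (nat_lit 177) (nat_lit 5) (nat_lit 8) (nat_lit 6) L100376 (by decide +kernel)
theorem L100378 : W_50 (nat_lit 5) (nat_lit 0x60001000080004000000000000000000000000000) (nat_lit 0x0) (nat_lit 0x20001000000000000a000700028000000000000000000) := T_50 (nat_lit 94) (nat_lit 111) (nat_lit 6) (nat_lit 8) (nat_lit 9) L100377 (by decide +kernel)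
theorem L100379 : W_50 (nat_lit 6) (nat_lit 0x20001000080004000000000000000000000000000) (nat_lit 0x0) (nat_lit 0xa0005000000000000a000700028000000000000000000) := T_50 (nat_lit 162) (nat_lit 179) (nat_lit 7) (nat_lit 8) (nat_lit 6) L100378 (by decide +kernel)
theorem L100380 : W_50 (nat_lit 8) (nat_lit 0x1000080004000000000000000000000000000) (nat_lit 0x0) (nat_lit 0x14000e0007000000017001a000700028000000000000000000) := Q_50 (nat_lit 161) (C_50 L75884 (C_50 L634 (C_50 L100370 (C_50 L100374 (C_50 L100379 (C_50 L1708 N_50)))))) (by decide +kernel)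
theorem L100381 : W_50 (nat_lit 7) (nat_lit 0x1800080004000300000000000000000000000) (nat_lit 0x0) (nat_lit 0x8001c000e00060000000040008000400020000000000000000000) := T_50 (nat_lit 94) (nat_lit 77) (nat_lit 6) (nat_lit 8) (nat_lit 8) L100212 (by decide +kernel)
theorem L100382 : W_50 (nat_lit 8) (nat_lit 0x1800080004000200000000000000000000000) (nat_lit 0x0) (nat_lit 0x8001c000e00060000000040008000500028000000000000000000) := T_50 (nat_lit 92) (nat_lit 75) (nat_lit 4) (nat_lit 8) (nat_lit 8) L100381 (by decide +kernel)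
theorem L100383 : W_50 (nat_lit 9) (nat_lit 0x1000080004000200000000000000000000000) (nat_lit 0x0) (nat_lit 0x8001c000e00070000800040008000500028000000000000000000) := T_50 (nat_lit 143) (nat_lit 160) (nat_lit 5) (nat_lit 8) (nat_lit 5) L100382 (by decide +kernel)
theorem L100384 : W_50 (nat_lit 10) (nat_lit 0x1000080004000000000000000000000000000) (nat_lit 0x0) (nat_lit 0x8001c000e00070000800040008000700038001400000000000000) := Q_50 (nat_lit 93) (C_50 L100180 (C_50 L100353 (C_50 L100356 (C_50 L100383 N_50)))) (by decide +kernel)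
theorem L100385 : W_50 (nat_lit 2) (nat_lit 0x70001800080004000000000000000000000000000) (nat_lit 0x0) (nat_lit 0x180000400000000000000000000000000000000000) := D_50 (nat_lit 163) (nat_lit 164) (nat_lit 142) (nat_lit 0) (nat_lit 11) (nat_lit 9) (nat_lit 0) (nat_lit 10) (nat_lit 9) (by decide +kernel)
theorem L100386 : W_50 (nat_lit 3) (nat_lit 0x70001000080004000000000000000000000000000) (nat_lit 0x0) (nat_lit 0x180000c00000000000200000000000000000000000) := T_50 (nat_lit 143) (nat_lit 93) (nat_lit 5) (nat_lit 8) (nat_lit 5) L100385 (by decide +kernel)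
theorem L100387 : W_50 (nat_lit 4) (nat_lit 0x60001000080004000000000000000000000000000) (nat_lit 0x0) (nat_lit 0x200190000c00000000000200000000000000000000000) := T_50 (nat_lit 160) (nat_lit 177) (nat_lit 5) (nat_lit 8) (nat_lit 6) L100386 (by decide +kernel)
theorem L100388 : W_50 (nat_lit 5) (nat_lit 0x20001000080004000000000000000000000000000) (nat_lit 0x0) (nat_lit 0xa001d0000c00000000000200000000000000000000000) := T_50 (nat_lit 162) (nat_lit 179) (nat_lit 7) (nat_lit 8) (nat_lit 6) L100387 (by decide +kernel)
theorem L100389 : W_50 (nat_lit 12) (nat_lit 0x1000080004000000000000000000000000000) (nat_lit 0x0) (nat_lit 0x500038001c000e001f0000c0017003a000600020000000000000000000) := Q_50 (nat_lit 161) (C_50 L634 (C_50 L75810 (C_50 L100388 (C_50 L1724 N_50)))) (by decide +kernel)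
theorem L100390 : W_50 (nat_lit 6) (nat_lit 0x1800080004000700000000000000000000000) (nat_lit 0x0) (nat_lit 0x8001c000e00060000000040002000000000000000000000000000) := T_50 (nat_lit 161) (nat_lit 109) (nat_lit 4) (nat_lit 8) (nat_lit 9) L100211 (by decide +kernel)
theorem L100391 : W_50 (nat_lit 7) (nat_lit 0x1800080004000300000000000000000000000) (nat_lit 0x0) (nat_lit 0x8001c000e00060000000040002000400020000000000000000000) := T_50 (nat_lit 94) (nat_lit 77) (nat_lit 6) (nat_lit 8) (nat_lit 8) L100390 (by decide +kernel)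
theorem L100392 : W_50 (nat_lit 8) (nat_lit 0x1800080004000200000000000000000000000) (nat_lit 0x0) (nat_lit 0x8001c000e00060000000040002000500028000000000000000000) := T_50 (nat_lit 92) (nat_lit 75) (nat_lit 4) (nat_lit 8) (nat_lit 8) L100391 (by decide +kernel)
theorem L100393 : W_50 (nat_lit 9) (nat_lit 0x1000080004000200000000000000000000000) (nat_lit 0x0) (nat_lit 0x8001c000e00070000800040002000500028000000000000000000) := T_50 (nat_lit 143) (nat_lit 160) (nat_lit 5) (nat_lit 8) (nat_lit 5) L100392 (by decide +kernel)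
theorem L100394 : W_50 (nat_lit 10) (nat_lit 0x1000080004000000000000000000000000000) (nat_lit 0x0) (nat_lit 0x8001c000e00070000800040002000700038001400000000000000) := Q_50 (nat_lit 93) (C_50 L100180 (C_50 L100353 (C_50 L100356 (C_50 L100393 N_50)))) (by decide +kernel)
theorem L100395 : W_50 (nat_lit 3) (nat_lit 0x6000100008000e000000000000000000000000000) (nat_lit 0x0) (nat_lit 0x400000000000300001800000000000000000000000000) := T_50 (nat_lit 128) (nat_lit 178) (nat_lit 6) (nat_lit 8) (nat_lit 10) L923 (by decide +kernel)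
theorem L100396 : W_50 (nat_lit 4) (nat_lit 0x2000100008000e000000000000000000000000000) (nat_lit 0x0) (nat_lit 0xc00040000000300001800000000000000000000000000) := T_50 (nat_lit 162) (nat_lit 179) (nat_lit 7) (nat_lit 8) (nat_lit 6) L100395 (by decide +kernel)
theorem L100397 : W_50 (nat_lit 5) (nat_lit 0x20001000080006000000000000000000000000000) (nat_lit 0x0) (nat_lit 0xc00040000000300009800400000000000000000000000) := T_50 (nat_lit 111) (nat_lit 94) (nat_lit 6) (nat_lit 8) (nat_lit 9) L100396 (by decide +kernel)
theorem L100398 : W_50 (nat_lit 6) (nat_lit 0x20001000080004000000000000000000000000000) (nat_lit 0x0) (nat_lit 0xc0004000000030000b800500000000000000000000000) := T_50 (nat_lit 109) (nat_lit 92) (nat_lit 4) (nat_lit 8) (nat_lit 9) L100397 (by decide +kernel)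
theorem L100399 : W_50 (nat_lit 7) (nat_lit 0x1000080004000000000000000000000000000) (nat_lit 0x0) (nat_lit 0xe001f0000c0030000b800700028000000000000000000) := Q_50 (nat_lit 161) (C_50 L100388 (C_50 L100379 (C_50 L100398 (C_50 L75810 N_50)))) (by decide +kernel)
theorem L100400 : W_50 (nat_lit 8) (nat_lit 0x1000080004000000000000000000000000000) (nat_lit 0x0) (nat_lit 0x10000e001f0000c00140003c00380000000000000000000000) := Q_50 (nat_lit 161) (C_50 L100388 (C_50 L100374 (C_50 L1021 (C_50 L75897 N_50)))) (by decide +kernel)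
theorem L100405 : W_50 (nat_lit 2) (nat_lit 0x70001800180004000000000000000000000000000) (nat_lit 0x0) (nat_lit 0x180000400000000000000000000000000000000000) := D_50 (nat_lit 163) (nat_lit 164) (nat_lit 142) (nat_lit 0) (nat_lit 11) (nat_lit 9) (nat_lit 0) (nat_lit 10) (nat_lit 9) (by decide +kernel)
theorem L100406 : W_50 (nat_lit 3) (nat_lit 0x30001800180004000000000000000000000000000) (nat_lit 0x0) (nat_lit 0x8001c0000400000000000000000000000000000000000) := T_50 (nat_lit 162) (nat_lit 179) (nat_lit 7) (nat_lit 8) (nat_lit 6) L100405 (by decide +kernel)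
theorem L100407 : W_50 (nat_lit 4) (nat_lit 0x20001800180004000000000000000000000000000) (nat_lit 0x0) (nat_lit 0xa001d0000400000000000000000000000000000000000) := T_50 (nat_lit 160) (nat_lit 177) (nat_lit 5) (nat_lit 8) (nat_lit 6) L100406 (by decide +kernel)
theorem L100408 : W_50 (nat_lit 2) (nat_lit 0x1600018003c000d000000000000000000000000000) (nat_lit 0x0) (nat_lit 0x20030000000000000000000000000000) := D_50 (nat_lit 112) (nat_lit 113) (nat_lit 125) (nat_lit 2) (nat_lit 7) (nat_lit 7) (nat_lit 2) (nat_lit 6) (nat_lit 7) (by decide +kernel)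
theorem L100409 : W_50 (nat_lit 3) (nat_lit 0x16000180038000d000000000000000000000000000) (nat_lit 0x0) (nat_lit 0x400060030000000000000000000000000000) := T_50 (nat_lit 126) (nat_lit 142) (nat_lit 1) (nat_lit 10) (nat_lit 7) L100408 (by decide +kernel)
theorem L100410 : W_50 (nat_lit 4) (nat_lit 0x16000180038000c000000000000000000000000000) (nat_lit 0x0) (nat_lit 0x400060033000000000000000000000000000) := T_50 (nat_lit 108) (nat_lit 109) (nat_lit 3) (nat_lit 6) (nat_lit 6) L100409 (by decide +kernel)
theorem L100411 : W_50 (nat_lit 5) (nat_lit 0x6000180038000c000000000000000000000000000) (nat_lit 0x0) (nat_lit 0x180000400060033000000000000000000000000000) := T_50 (nat_lit 164) (nat_lit 163) (nat_lit 0) (nat_lit 11) (nat_lit 9) L100410 (by decide +kernel)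
theorem L100412 : W_50 (nat_lit 6) (nat_lit 0x2000180038000c000000000000000000000000000) (nat_lit 0x0) (nat_lit 0x8001c0000400060033000000000000000000000000000) := T_50 (nat_lit 162) (nat_lit 179) (nat_lit 7) (nat_lit 8) (nat_lit 6) L100411 (by decide +kernel)
theorem L100413 : W_50 (nat_lit 7) (nat_lit 0x2000180018000c000000000000000000000000000) (nat_lit 0x0) (nat_lit 0x8001c0000400660033000000000000000000000000000) := T_50 (nat_lit 129) (nat_lit 130) (nat_lit 1) (nat_lit 11) (nat_lit 7) L100412 (by decide +kernel)
theorem L100414 : W_50 (nat_lit 8) (nat_lit 0x20001800180004000000000000000000000000000) (nat_lit 0x0) (nat_lit 0x8001c000040066003b000400000000000000000000000) := T_50 (nat_lit 111) (nat_lit 94) (nat_lit 6) (nat_lit 8) (nat_lit 9) L100413 (by decide +kernel)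
theorem L100415 : W_50 (nat_lit 2) (nat_lit 0x300018003c000c000000000000000000000000000) (nat_lit 0x0) (nat_lit 0x20030000000000000000000000000000) := D_50 (nat_lit 112) (nat_lit 113) (nat_lit 125) (nat_lit 2) (nat_lit 7) (nat_lit 7) (nat_lit 2) (nat_lit 6) (nat_lit 7) (by decide +kernel)
theorem L100416 : W_50 (nat_lit 3) (nat_lit 0x3000180038000c000000000000000000000000000) (nat_lit 0x0) (nat_lit 0x400060030000000000000000000000000000) := T_50 (nat_lit 126) (nat_lit 142) (nat_lit 1) (nat_lit 10) (nat_lit 7) L100415 (by decide +kernel)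
theorem L100417 : W_50 (nat_lit 4) (nat_lit 0x3000180018000c000000000000000000000000000) (nat_lit 0x0) (nat_lit 0x400660030000000000000000000000000000) := T_50 (nat_lit 129) (nat_lit 130) (nat_lit 1) (nat_lit 11) (nat_lit 7) L100416 (by decide +kernel)
theorem L100418 : W_50 (nat_lit 5) (nat_lit 0x30001800180004000000000000000000000000000) (nat_lit 0x0) (nat_lit 0x400660038000400000000000000000000000) := T_50 (nat_lit 111) (nat_lit 94) (nat_lit 6) (nat_lit 8) (nat_lit 9) L100417 (by decide +kernel)
theorem L100419 : W_50 (nat_lit 6) (nat_lit 0x20001800180004000000000000000000000000000) (nat_lit 0x0) (nat_lit 0x200010000400660038000400000000000000000000000) := T_50 (nat_lit 160) (nat_lit 177) (nat_lit 5) (nat_lit 8) (nat_lit 6) L100418 (by decide +kernel)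
theorem L100420 : W_50 (nat_lit 2) (nat_lit 0x10000f0001800380004000000000000000000000000000) (nat_lit 0x0) (nat_lit 0xc000000008000000000000000000000000000) := D_50 (nat_lit 146) (nat_lit 147) (nat_lit 111) (nat_lit 2) (nat_lit 7) (nat_lit 9) (nat_lit 4) (nat_lit 10) (nat_lit 10) (by decide +kernel)
theorem L100421 : W_50 (nat_lit 3) (nat_lit 0xf0001800380004000000000000000000000000000) (nat_lit 0x0) (nat_lit 0x300000000c000000008000000000000000000000000000) := T_50 (nat_lit 180) (nat_lit 181) (nat_lit 3) (nat_lit 7) (nat_lit 9) L100420 (by decide +kernel)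
theorem L100422 : W_50 (nat_lit 4) (nat_lit 0xe0001800380004000000000000000000000000000) (nat_lit 0x0) (nat_lit 0x320001000c000000008000000000000000000000000000) := T_50 (nat_lit 160) (nat_lit 177) (nat_lit 5) (nat_lit 8) (nat_lit 6) L100421 (by decide +kernel)
theorem L100423 : W_50 (nat_lit 5) (nat_lit 0x60001800380004000000000000000000000000000) (nat_lit 0x0) (nat_lit 0x320019000c000000008000000000000000000000000000) := T_50 (nat_lit 163) (nat_lit 164) (nat_lit 0) (nat_lit 11) (nat_lit 9) L100422 (by decide +kernel)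
theorem L100424 : W_50 (nat_lit 6) (nat_lit 0x20001800380004000000000000000000000000000) (nat_lit 0x0) (nat_lit 0x3a001d000c000000008000000000000000000000000000) := T_50 (nat_lit 162) (nat_lit 179) (nat_lit 7) (nat_lit 8) (nat_lit 6) L100423 (by decide +kernel)
theorem L100425 : W_50 (nat_lit 7) (nat_lit 0x20001800180004000000000000000000000000000) (nat_lit 0x0) (nat_lit 0x3a001d000c000600008000000000000000000000000000) := T_50 (nat_lit 129) (nat_lit 130) (nat_lit 1) (nat_lit 11) (nat_lit 7) L100424 (by decide +kernel)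
theorem L100426 : W_50 (nat_lit 9) (nat_lit 0x20001000180004000000000000000000000000000) (nat_lit 0x0) (nat_lit 0x3a001d000cc0066003b000400000000000000000000000) := Q_50 (nat_lit 143) (C_50 L100407 (C_50 L100414 (C_50 L100419 (C_50 L100425 N_50)))) (by decide +kernel)
theorem L100427 : W_50 (nat_lit 2) (nat_lit 0x700010001a000f000080000000000000000000000) (nat_lit 0x0) (nat_lit 0x800040010000000000000000000000000000) := D_50 (nat_lit 126) (nat_lit 112) (nat_lit 143) (nat_lit 2) (nat_lit 6) (nat_lit 7) (nat_lit 4) (nat_lit 7) (nat_lit 9) (by decide +kernel)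
theorem L100428 : W_50 (nat_lit 3) (nat_lit 0x700010001a000f000000000000000000000000000) (nat_lit 0x0) (nat_lit 0x8000400100000c0000000000000000000000) := T_50 (nat_lit 91) (nat_lit 90) (nat_lit 0) (nat_lit 9) (nat_lit 6) L100427 (by decide +kernel)
theorem L100429 : W_50 (nat_lit 4) (nat_lit 0x7000100018000f000000000000000000000000000) (nat_lit 0x0) (nat_lit 0x8000700100000c0000000000000000000000) := T_50 (nat_lit 125) (nat_lit 124) (nat_lit 1) (nat_lit 9) (nat_lit 6) L100428 (by decide +kernel)
theorem L100430 : W_50 (nat_lit 5) (nat_lit 0x70001000180007000000000000000000000000000) (nat_lit 0x0) (nat_lit 0x8000700180004c0000000000000000000000) := T_50 (nat_lit 111) (nat_lit 94) (nat_lit 6) (nat_lit 8) (nat_lit 9) L100429 (by decide +kernel)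
theorem L100431 : W_50 (nat_lit 6) (nat_lit 0x30001000180007000000000000000000000000000) (nat_lit 0x0) (nat_lit 0x8000400008000700180004c0000000000000000000000) := T_50 (nat_lit 162) (nat_lit 179) (nat_lit 7) (nat_lit 8) (nat_lit 6) L100430 (by decide +kernel)
theorem L100432 : W_50 (nat_lit 7) (nat_lit 0x30001000180006000000000000000000000000000) (nat_lit 0x0) (nat_lit 0x8000400008000700198004c0000000000000000000000) := T_50 (nat_lit 108) (nat_lit 107) (nat_lit 3) (nat_lit 5) (nat_lit 6) L100431 (by decide +kernel)
theorem L100433 : W_50 (nat_lit 8) (nat_lit 0x30001000180004000000000000000000000000000) (nat_lit 0x0) (nat_lit 0x80004000080007001b8005c0000000000000000000000) := T_50 (nat_lit 109) (nat_lit 92) (nat_lit 4) (nat_lit 8) (nat_lit 9) L100432 (by decide +kernel)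
theorem L100434 : W_50 (nat_lit 9) (nat_lit 0x20001000180004000000000000000000000000000) (nat_lit 0x0) (nat_lit 0xa0005000080007001b8005c0000000000000000000000) := T_50 (nat_lit 160) (nat_lit 177) (nat_lit 5) (nat_lit 8) (nat_lit 6) L100433 (by decide +kernel)
theorem L100437 : W_50 (nat_lit 4) (nat_lit 0x6000180038000c000000000000000000000000000) (nat_lit 0x0) (nat_lit 0x180000400060030000000000000000000000000000) := T_50 (nat_lit 164) (nat_lit 163) (nat_lit 0) (nat_lit 11) (nat_lit 9) L100436 (by decide +kernel)
theorem L100438 : W_50 (nat_lit 5) (nat_lit 0x2000180038000c000000000000000000000000000) (nat_lit 0x0) (nat_lit 0x8001c0000400060030000000000000000000000000000) := T_50 (nat_lit 162) (nat_lit 179) (nat_lit 7) (nat_lit 8) (nat_lit 6) L100437 (by decide +kernel)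
theorem L100439 : W_50 (nat_lit 6) (nat_lit 0x2000180018000c000000000000000000000000000) (nat_lit 0x0) (nat_lit 0x8001c0000400660030000000000000000000000000000) := T_50 (nat_lit 129) (nat_lit 130) (nat_lit 1) (nat_lit 11) (nat_lit 7) L100438 (by decide +kernel)
theorem L100440 : W_50 (nat_lit 7) (nat_lit 0x20001800180004000000000000000000000000000) (nat_lit 0x0) (nat_lit 0x8001c0000400660038000400000000000000000000000) := T_50 (nat_lit 111) (nat_lit 94) (nat_lit 6) (nat_lit 8) (nat_lit 9) L100439 (by decide +kernel)
theorem L100441 : W_50 (nat_lit 8) (nat_lit 0x20001000180004000000000000000000000000000) (nat_lit 0x0) (nat_lit 0x3a001d000cc00660038000400000000000000000000000) := Q_50 (nat_lit 143) (C_50 L100407 (C_50 L100425 (C_50 L100440 (C_50 L100419 N_50)))) (by decide +kernel)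
theorem L100442 : W_50 (nat_lit 2) (nat_lit 0x30001000180007000000000000000000000000000) (nat_lit 0x0) (nat_lit 0x600008000000000000000000000000000) := D_50 (nat_lit 129) (nat_lit 130) (nat_lit 111) (nat_lit 0) (nat_lit 11) (nat_lit 7) (nat_lit 3) (nat_lit 6) (nat_lit 6) (by decide +kernel)
theorem L100443 : W_50 (nat_lit 3) (nat_lit 0x30001000180006000000000000000000000000000) (nat_lit 0x0) (nat_lit 0x600009800000000000000000000000000) := T_50 (nat_lit 108) (nat_lit 107) (nat_lit 3) (nat_lit 5) (nat_lit 6) L100442 (by decide +kernel)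
theorem L100444 : W_50 (nat_lit 4) (nat_lit 0x30001000180004000000000000000000000000000) (nat_lit 0x0) (nat_lit 0x60000b800100000000000000000000000) := T_50 (nat_lit 109) (nat_lit 92) (nat_lit 4) (nat_lit 8) (nat_lit 9) L100443 (by decide +kernel)
theorem L100445 : W_50 (nat_lit 5) (nat_lit 0x20001000180004000000000000000000000000000) (nat_lit 0x0) (nat_lit 0x20001000000060000b800100000000000000000000000) := T_50 (nat_lit 160) (nat_lit 177) (nat_lit 5) (nat_lit 8) (nat_lit 6) L100444 (by decide +kernel)
theorem L100446 : W_50 (nat_lit 10) (nat_lit 0x20001000080004000000000000000000000000000) (nat_lit 0x0) (nat_lit 0x3a001d000cc0077003b8005c0000000000000000000000) := Q_50 (nat_lit 128) (C_50 L100404 (C_50 L100426 (C_50 L100434 (C_50 L100441 (C_50 L100445 N_50))))) (by decide +kernel)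
theorem L100447 : W_50 (nat_lit 11) (nat_lit 0x1000080004000000000000000000000000000) (nat_lit 0x0) (nat_lit 0x14003e001f000cc0077003b8005c0000000000000000000000) := Q_50 (nat_lit 161) (C_50 L1021 (C_50 L634 (C_50 L100446 (C_50 L1708 N_50)))) (by decide +kernel)
theorem L100452 : W_50 (nat_lit 6) (nat_lit 0x1000080004000000000000000000000000000) (nat_lit 0x0) (nat_lit 0x10000c0006000000014000a000700028000000000000000000) := Q_50 (nat_lit 161) (C_50 L1021 (C_50 L2015 (C_50 L100451 (C_50 L1708 N_50)))) (by decide +kernel)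
theorem L100453 : W_50 (nat_lit 14) (nat_lit 0x1000080000000000000000000000000000000) (nat_lit 0x0) (nat_lit 0x500038001c003e001f000cc0077007fe01fe01fe001c000e0001000000) := Q_50 (nat_lit 110) (C_50 L100364 (C_50 L100380 (C_50 L100384 (C_50 L100389 (C_50 L100394 (C_50 L100399 (C_50 L100400 (C_50 L100447 (C_50 L100452 N_50))))))))) (by decide +kernel)
theorem L132630 : W_50 (nat_lit 2) (nat_lit 0x300016000a003f001080000000000000000000000) (nat_lit 0x0) (nat_lit 0xe00000000000000000000000000000000) := D_50 (nat_lit 130) (nat_lit 129) (nat_lit 131) (nat_lit 3) (nat_lit 7) (nat_lit 6) (nat_lit 3) (nat_lit 8) (nat_lit 6) (by decide +kernel)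
theorem L132631 : W_50 (nat_lit 3) (nat_lit 0x300016000a001f001080000000000000000000000) (nat_lit 0x0) (nat_lit 0xe00020002000000000000000000000000) := T_50 (nat_lit 113) (nat_lit 97) (nat_lit 2) (nat_lit 8) (nat_lit 6) L132630 (by decide +kernel)
theorem L132632 : W_50 (nat_lit 4) (nat_lit 0x300014000a001f001080000000000000000000000) (nat_lit 0x0) (nat_lit 0x4000200e00020002000000000000000000000000) := T_50 (nat_lit 141) (nat_lit 158) (nat_lit 5) (nat_lit 6) (nat_lit 5) L132631 (by decide +kernel)
theorem L132633 : W_50 (nat_lit 5) (nat_lit 0x300010000a001f001080000000000000000000000) (nat_lit 0x0) (nat_lit 0x4000e00e00020002000000000000000000000000) := T_50 (nat_lit 142) (nat_lit 143) (nat_lit 7) (nat_lit 6) (nat_lit 5) L132632 (by decide +kernel)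
theorem L132634 : W_50 (nat_lit 6) (nat_lit 0x300010000a001f000080000000000000000000000) (nat_lit 0x0) (nat_lit 0x4000e00e00020003800000000000000000000000) := T_50 (nat_lit 96) (nat_lit 95) (nat_lit 2) (nat_lit 7) (nat_lit 6) L132633 (by decide +kernel)
theorem L132635 : W_50 (nat_lit 7) (nat_lit 0x200010000a001f000080000000000000000000000) (nat_lit 0x0) (nat_lit 0x200014000e00e00020003800000000000000000000000) := T_50 (nat_lit 160) (nat_lit 177) (nat_lit 5) (nat_lit 8) (nat_lit 6) L132634 (by decide +kernel)
theorem L132636 : W_50 (nat_lit 8) (nat_lit 0x200010000a000f000080000000000000000000000) (nat_lit 0x0) (nat_lit 0x200014000e00e40030003800000000000000000000000) := T_50 (nat_lit 112) (nat_lit 126) (nat_lit 1) (nat_lit 10) (nat_lit 6) L132635 (by decide +kernel)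
theorem L132637 : W_50 (nat_lit 9) (nat_lit 0x200010000a000f000000000000000000000000000) (nat_lit 0x0) (nat_lit 0x200014000e00e400300038c0000000000000000000000) := T_50 (nat_lit 91) (nat_lit 90) (nat_lit 0) (nat_lit 9) (nat_lit 6) L132636 (by decide +kernel)
theorem L132638 : W_50 (nat_lit 10) (nat_lit 0x2000100008000f000000000000000000000000000) (nat_lit 0x0) (nat_lit 0x200014000e00e700300038c0000000000000000000000) := T_50 (nat_lit 125) (nat_lit 124) (nat_lit 1) (nat_lit 9) (nat_lit 6) L132637 (by decide +kernel)
theorem L132639 : W_50 (nat_lit 11) (nat_lit 0x20001000080007000000000000000000000000000) (nat_lit 0x0) (nat_lit 0x200014000e00e70038003cc0000000000000000000000) := T_50 (nat_lit 111) (nat_lit 94) (nat_lit 6) (nat_lit 8) (nat_lit 9) L132638 (by decide +kernel)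
theorem L132651 : W_50 (nat_lit 12) (nat_lit 0x20001000080006000000000000000000000000000) (nat_lit 0x0) (nat_lit 0x200014000e00f7c039c03cc0000000000000000000000) := Q_50 (nat_lit 108) (C_50 L132639 (C_50 L132643 (C_50 L132647 (C_50 L132650 (C_50 L664 N_50))))) (by decide +kernel)
theorem L132652 : W_50 (nat_lit 13) (nat_lit 0x20001000080004000000000000000000000000000) (nat_lit 0x0) (nat_lit 0x200014000e00f7c03bc03dc0000000000000000000000) := T_50 (nat_lit 109) (nat_lit 92) (nat_lit 4) (nat_lit 8) (nat_lit 9) L132651 (by decide +kernel)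
theorem L132653 : W_50 (nat_lit 2) (nat_lit 0x8001800040003000100008000e000000000000000000000000000) (nat_lit 0x0) (nat_lit 0x1000100000000000000000800000000000000000000000000000000000) := D_50 (nat_lit 212) (nat_lit 143) (nat_lit 228) (nat_lit 4) (nat_lit 8) (nat_lit 12) (nat_lit 5) (nat_lit 8) (nat_lit 9) (by decide +kernel)
theorem L132654 : W_50 (nat_lit 3) (nat_lit 0x1800040003000100008000e000000000000000000000000000) (nat_lit 0x0) (nat_lit 0x1000180004000000000000800000000000000000000000000000000000) := T_50 (nat_lit 211) (nat_lit 194) (nat_lit 5) (nat_lit 8) (nat_lit 8) L132653 (by decide +kernel)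
theorem L132655 : W_50 (nat_lit 4) (nat_lit 0x1000040003000100008000e000000000000000000000000000) (nat_lit 0x0) (nat_lit 0x100038000c000000000000800000000000000000000000000000000000) := T_50 (nat_lit 195) (nat_lit 213) (nat_lit 7) (nat_lit 8) (nat_lit 8) L132654 (by decide +kernel)
theorem L132656 : W_50 (nat_lit 5) (nat_lit 0x40003000100008000e000000000000000000000000000) (nat_lit 0x0) (nat_lit 0x100038001c000800000000800000000000000000000000000000000000) := T_50 (nat_lit 196) (nat_lit 179) (nat_lit 7) (nat_lit 8) (nat_lit 7) L132655 (by decide +kernel)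
theorem L132657 : W_50 (nat_lit 6) (nat_lit 0x3000100008000e000000000000000000000000000) (nat_lit 0x0) (nat_lit 0x100038001c000c00000000800100000000000000000000000000000000) := T_50 (nat_lit 178) (nat_lit 128) (nat_lit 6) (nat_lit 8) (nat_lit 10) L132656 (by decide +kernel)
theorem L132658 : W_50 (nat_lit 7) (nat_lit 0x30001000080006000000000000000000000000000) (nat_lit 0x0) (nat_lit 0x100038001c000c00000000800100008000400000000000000000000000) := T_50 (nat_lit 111) (nat_lit 94) (nat_lit 6) (nat_lit 8) (nat_lit 9) L132657 (by decide +kernel)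
theorem L132659 : W_50 (nat_lit 8) (nat_lit 0x30001000080004000000000000000000000000000) (nat_lit 0x0) (nat_lit 0x100038001c000c0000000080010000a000500000000000000000000000) := T_50 (nat_lit 109) (nat_lit 92) (nat_lit 4) (nat_lit 8) (nat_lit 9) L132658 (by decide +kernel)
theorem L132660 : W_50 (nat_lit 9) (nat_lit 0x20001000080004000000000000000000000000000) (nat_lit 0x0) (nat_lit 0x100038001c000e0001000080010000a000500000000000000000000000) := T_50 (nat_lit 160) (nat_lit 177) (nat_lit 5) (nat_lit 8) (nat_lit 6) L132659 (by decide +kernel)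
theorem L132661 : W_50 (nat_lit 6) (nat_lit 0x3000100008000e000000000000000000000000000) (nat_lit 0x0) (nat_lit 0x100038001c000c00000000800040000000000000000000000000000000) := T_50 (nat_lit 178) (nat_lit 126) (nat_lit 4) (nat_lit 8) (nat_lit 10) L132656 (by decide +kernel)
theorem L132662 : W_50 (nat_lit 7) (nat_lit 0x3000100008000c000000000000000000000000000) (nat_lit 0x0) (nat_lit 0x100038001c000c00000000800040002000100000000000000000000000) := T_50 (nat_lit 109) (nat_lit 92) (nat_lit 4) (nat_lit 8) (nat_lit 9) L132661 (by decide +kernel)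
theorem L132663 : W_50 (nat_lit 8) (nat_lit 0x2000100008000c000000000000000000000000000) (nat_lit 0x0) (nat_lit 0x100038001c000e00010000800040002000100000000000000000000000) := T_50 (nat_lit 160) (nat_lit 177) (nat_lit 5) (nat_lit 8) (nat_lit 6) L132662 (by decide +kernel)
theorem L132664 : W_50 (nat_lit 9) (nat_lit 0x20001000080004000000000000000000000000000) (nat_lit 0x0) (nat_lit 0x100038001c000e0001000080004000a000500000000000000000000000) := T_50 (nat_lit 111) (nat_lit 94) (nat_lit 6) (nat_lit 8) (nat_lit 9) L132663 (by decide +kernel)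
theorem L132665 : W_50 (nat_lit 2) (nat_lit 0x1800040003000100008000c000000000000000000000000000) (nat_lit 0x0) (nat_lit 0x100000000000000000800040000000000000000000000000000000) := D_50 (nat_lit 143) (nat_lit 126) (nat_lit 212) (nat_lit 4) (nat_lit 8) (nat_lit 11) (nat_lit 4) (nat_lit 8) (nat_lit 12) (by decide +kernel)
theorem L132666 : W_50 (nat_lit 3) (nat_lit 0x1000040003000100008000c000000000000000000000000000) (nat_lit 0x0) (nat_lit 0x300008000000000000800040000000000000000000000000000000) := T_50 (nat_lit 195) (nat_lit 213) (nat_lit 7) (nat_lit 8) (nat_lit 8) L132665 (by decide +kernel)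
theorem L132667 : W_50 (nat_lit 4) (nat_lit 0x40003000100008000c000000000000000000000000000) (nat_lit 0x0) (nat_lit 0x300018000800000000800040000000000000000000000000000000) := T_50 (nat_lit 196) (nat_lit 179) (nat_lit 7) (nat_lit 8) (nat_lit 7) L132666 (by decide +kernel)
theorem L132668 : W_50 (nat_lit 5) (nat_lit 0x3000100008000c000000000000000000000000000) (nat_lit 0x0) (nat_lit 0x300018000c00000000800140000000000000000000000000000000) := T_50 (nat_lit 178) (nat_lit 128) (nat_lit 6) (nat_lit 8) (nat_lit 10) L132667 (by decide +kernel)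
theorem L132669 : W_50 (nat_lit 6) (nat_lit 0x2000100008000c000000000000000000000000000) (nat_lit 0x0) (nat_lit 0x300018000e00010000800140000000000000000000000000000000) := T_50 (nat_lit 160) (nat_lit 177) (nat_lit 5) (nat_lit 8) (nat_lit 6) L132668 (by decide +kernel)
theorem L132670 : W_50 (nat_lit 7) (nat_lit 0x20001000080004000000000000000000000000000) (nat_lit 0x0) (nat_lit 0x300018000e00010000800140008000400000000000000000000000) := T_50 (nat_lit 111) (nat_lit 94) (nat_lit 6) (nat_lit 8) (nat_lit 9) L132669 (by decide +kernel)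
theorem L132671 : W_50 (nat_lit 2) (nat_lit 0x80018000400030001000080006000000000000000000000000000) (nat_lit 0x0) (nat_lit 0x1000100000000000000000800000000000000000000000000000000000) := D_50 (nat_lit 212) (nat_lit 143) (nat_lit 228) (nat_lit 4) (nat_lit 8) (nat_lit 12) (nat_lit 5) (nat_lit 8) (nat_lit 9) (by decide +kernel)
theorem L132672 : W_50 (nat_lit 3) (nat_lit 0x18000400030001000080006000000000000000000000000000) (nat_lit 0x0) (nat_lit 0x1000180004000000000000800000000000000000000000000000000000) := T_50 (nat_lit 211) (nat_lit 194) (nat_lit 5) (nat_lit 8) (nat_lit 8) L132671 (by decide +kernel)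
theorem L132673 : W_50 (nat_lit 4) (nat_lit 0x10000400030001000080006000000000000000000000000000) (nat_lit 0x0) (nat_lit 0x100038000c000000000000800000000000000000000000000000000000) := T_50 (nat_lit 195) (nat_lit 213) (nat_lit 7) (nat_lit 8) (nat_lit 8) L132672 (by decide +kernel)
theorem L132674 : W_50 (nat_lit 5) (nat_lit 0x400030001000080006000000000000000000000000000) (nat_lit 0x0) (nat_lit 0x100038001c000800000000800000000000000000000000000000000000) := T_50 (nat_lit 196) (nat_lit 179) (nat_lit 7) (nat_lit 8) (nat_lit 7) L132673 (by decide +kernel)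
theorem L132675 : W_50 (nat_lit 6) (nat_lit 0x30001000080006000000000000000000000000000) (nat_lit 0x0) (nat_lit 0x100038001c000c00000000800040000000000000000000000000000000) := T_50 (nat_lit 178) (nat_lit 126) (nat_lit 4) (nat_lit 8) (nat_lit 10) L132674 (by decide +kernel)
theorem L132676 : W_50 (nat_lit 7) (nat_lit 0x20001000080006000000000000000000000000000) (nat_lit 0x0) (nat_lit 0x100038001c000e00010000800040000000000000000000000000000000) := T_50 (nat_lit 160) (nat_lit 177) (nat_lit 5) (nat_lit 8) (nat_lit 6) L132675 (by decide +kernel)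
theorem L132677 : W_50 (nat_lit 8) (nat_lit 0x20001000080004000000000000000000000000000) (nat_lit 0x0) (nat_lit 0x100038001c000e00010000800040002000100000000000000000000000) := T_50 (nat_lit 109) (nat_lit 92) (nat_lit 4) (nat_lit 8) (nat_lit 9) L132676 (by decide +kernel)
theorem L132678 : W_50 (nat_lit 14) (nat_lit 0x1000080004000000000000000000000000000) (nat_lit 0x0) (nat_lit 0x100038001c000e00034000e00f7c03bc03dc0000000000000000000000) := Q_50 (nat_lit 161) (C_50 L132652 (C_50 L132660 (C_50 L132664 (C_50 L132670 (C_50 L76111 (C_50 L132677 N_50)))))) (by decide +kernel)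
theorem L132691 : W_50 (nat_lit 2) (nat_lit 0x1000180007000200000000000000000000000) (nat_lit 0x0) (nat_lit 0x640000000000000000000000000000000) := D_50 (nat_lit 129) (nat_lit 130) (nat_lit 126) (nat_lit 0) (nat_lit 11) (nat_lit 7) (nat_lit 0) (nat_lit 10) (nat_lit 7) (by decide +kernel)
theorem L132692 : W_50 (nat_lit 3) (nat_lit 0x1000180006000200000000000000000000000) (nat_lit 0x0) (nat_lit 0x640001800000000000000000000000000) := T_50 (nat_lit 108) (nat_lit 107) (nat_lit 3) (nat_lit 5) (nat_lit 6) L132691 (by decide +kernel)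
theorem L132704 : W_50 (nat_lit 10) (nat_lit 0x1000080006000200000000000000000000000) (nat_lit 0x0) (nat_lit 0x18000e00740009c001c000c000000000000000000) := Q_50 (nat_lit 128) (C_50 L132686 (C_50 L132690 (C_50 L132692 (C_50 L132699 (C_50 L132703 N_50))))) (by decide +kernel)
theorem L132719 : W_50 (nat_lit 11) (nat_lit 0x1000080004000200000000000000000000000) (nat_lit 0x0) (nat_lit 0x18000e0074003bc01dc00ee000000000000000000) := Q_50 (nat_lit 109) (C_50 L132704 (C_50 L132707 (C_50 L132710 (C_50 L132718 N_50)))) (by decide +kernel)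
theorem L132720 : W_50 (nat_lit 2) (nat_lit 0x1800080004000200030000000000000000000) (nat_lit 0x0) (nat_lit 0x100008000400000000000000) := D_50 (nat_lit 75) (nat_lit 58) (nat_lit 92) (nat_lit 4) (nat_lit 8) (nat_lit 7) (nat_lit 4) (nat_lit 8) (nat_lit 8) (by decide +kernel)
theorem L132721 : W_50 (nat_lit 3) (nat_lit 0x1800080004000200020000000000000000000) (nat_lit 0x0) (nat_lit 0x100018001400000000000000) := T_50 (nat_lit 76) (nat_lit 60) (nat_lit 6) (nat_lit 8) (nat_lit 7) L132720 (by decide +kernel)
theorem L132722 : W_50 (nat_lit 4) (nat_lit 0x1000080004000200020000000000000000000) (nat_lit 0x0) (nat_lit 0x10000800000000000100018001400000000000000) := T_50 (nat_lit 143) (nat_lit 160) (nat_lit 5) (nat_lit 8) (nat_lit 5) L132721 (by decide +kernel)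
theorem L132723 : W_50 (nat_lit 5) (nat_lit 0x1000080004000200000000000000000000000) (nat_lit 0x0) (nat_lit 0x10000800000000000500038001400000000000000) := T_50 (nat_lit 77) (nat_lit 94) (nat_lit 6) (nat_lit 8) (nat_lit 8) L132722 (by decide +kernel)
theorem L132724 : W_50 (nat_lit 12) (nat_lit 0x1000080004000000000000000000000000000) (nat_lit 0x0) (nat_lit 0x18000e0074003bc01fc00fe001400000000000000) := Q_50 (nat_lit 93) (C_50 L132719 (C_50 L132723 (C_50 L100170 (C_50 L100183 (C_50 L100180 N_50))))) (by decide +kernel)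
theorem L132731 : W_50 (nat_lit 5) (nat_lit 0x1000080004000000000000000000000000000) (nat_lit 0x0) (nat_lit 0x20003000080000000a000700038001400000000000000) := Q_50 (nat_lit 93) (C_50 L100170 (C_50 L132727 (C_50 L132730 N_50))) (by decide +kernel)
theorem L132732 : W_50 (nat_lit 5) (nat_lit 0x1000080004000000000000000000000000000) (nat_lit 0x0) (nat_lit 0x200030000800040008000700038001400000000000000) := Q_50 (nat_lit 93) (C_50 L132727 (C_50 L100170 (C_50 L100180 N_50))) (by decide +kernel)
theorem L132733 : W_50 (nat_lit 4) (nat_lit 0x2000100008000e000000000000000000000000000) (nat_lit 0x0) (nat_lit 0x600010000000300001800000000000000000000000000) := T_50 (nat_lit 160) (nat_lit 177) (nat_lit 5) (nat_lit 8) (nat_lit 6) L919 (by decide +kernel)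
theorem L132734 : W_50 (nat_lit 5) (nat_lit 0x20001000080006000000000000000000000000000) (nat_lit 0x0) (nat_lit 0x600010000000300009800400000000000000000000000) := T_50 (nat_lit 111) (nat_lit 94) (nat_lit 6) (nat_lit 8) (nat_lit 9) L132733 (by decide +kernel)
theorem L132735 : W_50 (nat_lit 6) (nat_lit 0x20001000080004000000000000000000000000000) (nat_lit 0x0) (nat_lit 0x60001000000030000b800500000000000000000000000) := T_50 (nat_lit 109) (nat_lit 92) (nat_lit 4) (nat_lit 8) (nat_lit 9) L132734 (by decide +kernel)
theorem L132736 : W_50 (nat_lit 4) (nat_lit 0x2000100008000e000000000000000000000000000) (nat_lit 0x0) (nat_lit 0x600010000000070010000000000000000000000000000) := T_50 (nat_lit 160) (nat_lit 177) (nat_lit 5) (nat_lit 8) (nat_lit 6) L100226 (by decide +kernel)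
theorem L132737 : W_50 (nat_lit 5) (nat_lit 0x2000100008000c000000000000000000000000000) (nat_lit 0x0) (nat_lit 0x600010000000070012000100000000000000000000000) := T_50 (nat_lit 109) (nat_lit 92) (nat_lit 4) (nat_lit 8) (nat_lit 9) L132736 (by decide +kernel)
theorem L132738 : W_50 (nat_lit 6) (nat_lit 0x20001000080004000000000000000000000000000) (nat_lit 0x0) (nat_lit 0x60001000000007001a000500000000000000000000000) := T_50 (nat_lit 111) (nat_lit 94) (nat_lit 6) (nat_lit 8) (nat_lit 9) L132737 (by decide +kernel)
theorem L132741 : W_50 (nat_lit 7) (nat_lit 0x1000080004000000000000000000000000000) (nat_lit 0x0) (nat_lit 0x400060003000000037001b800700028000000000000000000) := Q_50 (nat_lit 161) (C_50 L76111 (C_50 L132735 (C_50 L132738 (C_50 L132740 (C_50 L1584 (C_50 L108893 N_50)))))) (by decide +kernel)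
theorem L132742 : W_50 (nat_lit 5) (nat_lit 0x1000080004000000000000000000000000000) (nat_lit 0x0) (nat_lit 0x200030000800040002000700038001400000000000000) := Q_50 (nat_lit 93) (C_50 L132730 (C_50 L100180 (C_50 L100170 (C_50 L100183 N_50)))) (by decide +kernel)
theorem L132743 : W_50 (nat_lit 2) (nat_lit 0x14000400020001000080006801600000000000000000000000) (nat_lit 0x0) (nat_lit 0x280008000000000000000000000000000000000000000000000000) := D_50 (nat_lit 195) (nat_lit 213) (nat_lit 211) (nat_lit 7) (nat_lit 8) (nat_lit 8) (nat_lit 5) (nat_lit 8) (nat_lit 8) (by decide +kernel)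
theorem L132744 : W_50 (nat_lit 3) (nat_lit 0x10000400020001000080006801600000000000000000000000) (nat_lit 0x0) (nat_lit 0x28000c000200000000000000000000000000000000000000000000) := T_50 (nat_lit 194) (nat_lit 177) (nat_lit 5) (nat_lit 8) (nat_lit 7) L132743 (by decide +kernel)
theorem L132745 : W_50 (nat_lit 4) (nat_lit 0x400020001000080006801600000000000000000000000) (nat_lit 0x0) (nat_lit 0x28001c000a00000000000000000000000000000000000000000000) := T_50 (nat_lit 196) (nat_lit 179) (nat_lit 7) (nat_lit 8) (nat_lit 7) L132744 (by decide +kernel)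
theorem L132746 : W_50 (nat_lit 5) (nat_lit 0x400020001000080006800600000000000000000000000) (nat_lit 0x0) (nat_lit 0x28001c000a00000000000000000001800000000000000000000000) := T_50 (nat_lit 96) (nat_lit 95) (nat_lit 1) (nat_lit 11) (nat_lit 5) L132745 (by decide +kernel)
theorem L132747 : W_50 (nat_lit 6) (nat_lit 0x20001000080006800600000000000000000000000) (nat_lit 0x0) (nat_lit 0x28001c000e00000000000040000001800000000000000000000000) := T_50 (nat_lit 178) (nat_lit 126) (nat_lit 4) (nat_lit 8) (nat_lit 10) L132746 (by decide +kernel)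
theorem L132748 : W_50 (nat_lit 7) (nat_lit 0x20001000080006000600000000000000000000000) (nat_lit 0x0) (nat_lit 0x28001c000e00000000000040001801800000000000000000000000) := T_50 (nat_lit 107) (nat_lit 108) (nat_lit 2) (nat_lit 5) (nat_lit 6) L132747 (by decide +kernel)
theorem L132749 : W_50 (nat_lit 8) (nat_lit 0x20001000080004000600000000000000000000000) (nat_lit 0x0) (nat_lit 0x28001c000e00000000000040003801900000000000000000000000) := T_50 (nat_lit 109) (nat_lit 92) (nat_lit 4) (nat_lit 8) (nat_lit 9) L132748 (by decide +kernel)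
theorem L132750 : W_50 (nat_lit 9) (nat_lit 0x1000080004000600000000000000000000000) (nat_lit 0x0) (nat_lit 0x28001c000e0002000000004000b801900000000000000000000000) := T_50 (nat_lit 161) (nat_lit 111) (nat_lit 6) (nat_lit 8) (nat_lit 9) L132749 (by decide +kernel)
theorem L132751 : W_50 (nat_lit 10) (nat_lit 0x1000080004000200000000000000000000000) (nat_lit 0x0) (nat_lit 0x28001c000e0002000000004000b801d00020000000000000000000) := T_50 (nat_lit 94) (nat_lit 77) (nat_lit 6) (nat_lit 8) (nat_lit 8) L132750 (by decide +kernel)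
theorem L132757 : W_50 (nat_lit 2) (nat_lit 0x1400040002000100008000c000340000000000000000000000) (nat_lit 0x0) (nat_lit 0x280008000000000000000000000000000000000000000000000000) := D_50 (nat_lit 195) (nat_lit 211) (nat_lit 213) (nat_lit 5) (nat_lit 8) (nat_lit 8) (nat_lit 7) (nat_lit 8) (nat_lit 8) (by decide +kernel)
theorem L132758 : W_50 (nat_lit 3) (nat_lit 0x400040002000100008000c000340000000000000000000000) (nat_lit 0x0) (nat_lit 0x280018000800000000000000000000000000000000000000000000) := T_50 (nat_lit 196) (nat_lit 179) (nat_lit 7) (nat_lit 8) (nat_lit 7) L132757 (by decide +kernel)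
theorem L132759 : W_50 (nat_lit 4) (nat_lit 0x40002000100008000c000340000000000000000000000) (nat_lit 0x0) (nat_lit 0x28001c000a00000000000000000000000000000000000000000000) := T_50 (nat_lit 194) (nat_lit 177) (nat_lit 5) (nat_lit 8) (nat_lit 7) L132758 (by decide +kernel)
theorem L132760 : W_50 (nat_lit 5) (nat_lit 0x2000100008000c000340000000000000000000000) (nat_lit 0x0) (nat_lit 0x28001c000e00000000000100000000000000000000000000000000) := T_50 (nat_lit 178) (nat_lit 128) (nat_lit 6) (nat_lit 8) (nat_lit 10) L132759 (by decide +kernel)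
theorem L132761 : W_50 (nat_lit 6) (nat_lit 0x2000100008000c000300000000000000000000000) (nat_lit 0x0) (nat_lit 0x28001c000e000000000001000000000c0000000000000000000000) := T_50 (nat_lit 90) (nat_lit 91) (nat_lit 3) (nat_lit 5) (nat_lit 5) L132760 (by decide +kernel)
theorem L132762 : W_50 (nat_lit 7) (nat_lit 0x20001000080004000300000000000000000000000) (nat_lit 0x0) (nat_lit 0x28001c000e000000000001000080004c0000000000000000000000) := T_50 (nat_lit 111) (nat_lit 94) (nat_lit 6) (nat_lit 8) (nat_lit 9) L132761 (by decide +kernel)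
theorem L132763 : W_50 (nat_lit 8) (nat_lit 0x1000080004000300000000000000000000000) (nat_lit 0x0) (nat_lit 0x28001c000e0002000000010000a0004c0000000000000000000000) := T_50 (nat_lit 161) (nat_lit 109) (nat_lit 4) (nat_lit 8) (nat_lit 9) L132762 (by decide +kernel)
theorem L132764 : W_50 (nat_lit 9) (nat_lit 0x1000080004000200000000000000000000000) (nat_lit 0x0) (nat_lit 0x28001c000e0002000000010000a0005c0008000000000000000000) := T_50 (nat_lit 92) (nat_lit 75) (nat_lit 4) (nat_lit 8) (nat_lit 8) L132763 (by decide +kernel)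
theorem L132765 : W_50 (nat_lit 11) (nat_lit 0x1000080004000000000000000000000000000) (nat_lit 0x0) (nat_lit 0x28001c000e0002000080014000b801fc0038001c000a0000000000) := Q_50 (nat_lit 93) (C_50 L100170 (C_50 L132751 (C_50 L100196 (C_50 L132756 (C_50 L132764 N_50))))) (by decide +kernel)
theorem L132796 : W_50 (nat_lit 11) (nat_lit 0x1000080006000000000000000000000000000) (nat_lit 0x0) (nat_lit 0x18000e00740019c003c00fc001c000e0001000000) := Q_50 (nat_lit 93) (C_50 L132772 (C_50 L132777 (C_50 L132793 (C_50 L132795 (C_50 L132704 N_50))))) (by decide +kernel)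
theorem L132800 : W_50 (nat_lit 2) (nat_lit 0x8000400030001800180006800000000000000000000000000) (nat_lit 0x0) (nat_lit 0x200010000800000000000000000000000000000000000000000000) := D_50 (nat_lit 196) (nat_lit 179) (nat_lit 213) (nat_lit 7) (nat_lit 8) (nat_lit 7) (nat_lit 7) (nat_lit 8) (nat_lit 8) (by decide +kernel)
theorem L132801 : W_50 (nat_lit 3) (nat_lit 0x400030001800180006800000000000000000000000000) (nat_lit 0x0) (nat_lit 0x300018000800000000000000000000000000000000000000000000) := T_50 (nat_lit 195) (nat_lit 212) (nat_lit 4) (nat_lit 8) (nat_lit 12) L132800 (by decide +kernel)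
theorem L132802 : W_50 (nat_lit 4) (nat_lit 0x30001800180006800000000000000000000000000) (nat_lit 0x0) (nat_lit 0x300018000c00000000000000008000000000000000000000000000) := T_50 (nat_lit 178) (nat_lit 111) (nat_lit 6) (nat_lit 8) (nat_lit 10) L132801 (by decide +kernel)
theorem L132803 : W_50 (nat_lit 5) (nat_lit 0x30001000180006800000000000000000000000000) (nat_lit 0x0) (nat_lit 0x300018000c00000000800000008000200000000000000000000000) := T_50 (nat_lit 143) (nat_lit 93) (nat_lit 5) (nat_lit 8) (nat_lit 5) L132802 (by decide +kernel)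
theorem L132804 : W_50 (nat_lit 6) (nat_lit 0x20001000180006800000000000000000000000000) (nat_lit 0x0) (nat_lit 0x300018000e00010000800000008000200000000000000000000000) := T_50 (nat_lit 160) (nat_lit 177) (nat_lit 5) (nat_lit 8) (nat_lit 6) L132803 (by decide +kernel)
theorem L132805 : W_50 (nat_lit 7) (nat_lit 0x20001000180006000000000000000000000000000) (nat_lit 0x0) (nat_lit 0x300018000e00010000800000009800200000000000000000000000) := T_50 (nat_lit 107) (nat_lit 108) (nat_lit 3) (nat_lit 5) (nat_lit 6) L132804 (by decide +kernel)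
theorem L132815 : W_50 (nat_lit 9) (nat_lit 0x1000180006000000000000000000000000000) (nat_lit 0x0) (nat_lit 0x30001c000f0003e000f00040009800280000000000000000000000) := Q_50 (nat_lit 161) (C_50 L132799 (C_50 L132805 (C_50 L132807 (C_50 L132814 N_50)))) (by decide +kernel)
theorem L132826 : W_50 (nat_lit 10) (nat_lit 0x1000080006000000000000000000000000000) (nat_lit 0x0) (nat_lit 0x30001c000f0003e000f00740009800280030001800080000000000) := Q_50 (nat_lit 128) (C_50 L120992 (C_50 L132798 (C_50 L132815 (C_50 L132825 N_50)))) (by decide +kernel)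
theorem L132827 : W_50 (nat_lit 12) (nat_lit 0x1000080004000000000000000000000000000) (nat_lit 0x0) (nat_lit 0x30001c000f0003e000f0074001bc003c00fc001c000e0001000000) := Q_50 (nat_lit 109) (C_50 L132766 (C_50 L132768 (C_50 L132796 (C_50 L132826 N_50)))) (by decide +kernel)
theorem L132828 : W_50 (nat_lit 2) (nat_lit 0x80004000200010000d000c000000000000000000000000000) (nat_lit 0x0) (nat_lit 0x200010000800000000000000000000000000000000000000000000) := D_50 (nat_lit 196) (nat_lit 179) (nat_lit 213) (nat_lit 7) (nat_lit 8) (nat_lit 7) (nat_lit 7) (nat_lit 8) (nat_lit 8) (by decide +kernel)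
theorem L132829 : W_50 (nat_lit 3) (nat_lit 0x4000200010000d000c000000000000000000000000000) (nat_lit 0x0) (nat_lit 0x200018000800000000800000000000000000000000000000000000) := T_50 (nat_lit 195) (nat_lit 143) (nat_lit 4) (nat_lit 8) (nat_lit 11) L132828 (by decide +kernel)
theorem L132830 : W_50 (nat_lit 4) (nat_lit 0x4000200010000c000c000000000000000000000000000) (nat_lit 0x0) (nat_lit 0x200018000800000000800030000000000000000000000000000000) := T_50 (nat_lit 124) (nat_lit 125) (nat_lit 2) (nat_lit 5) (nat_lit 7) L132829 (by decide +kernel)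
theorem L132831 : W_50 (nat_lit 5) (nat_lit 0x40002000100008000c000000000000000000000000000) (nat_lit 0x0) (nat_lit 0x200018000800000000800070002000000000000000000000000000) := T_50 (nat_lit 126) (nat_lit 109) (nat_lit 4) (nat_lit 8) (nat_lit 10) L132830 (by decide +kernel)
theorem L132832 : W_50 (nat_lit 6) (nat_lit 0x2000100008000c000000000000000000000000000) (nat_lit 0x0) (nat_lit 0x200018000c00000000800170002000000000000000000000000000) := T_50 (nat_lit 178) (nat_lit 128) (nat_lit 6) (nat_lit 8) (nat_lit 10) L132831 (by decide +kernel)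
theorem L132833 : W_50 (nat_lit 7) (nat_lit 0x20001000080004000000000000000000000000000) (nat_lit 0x0) (nat_lit 0x200018000c0000000080017000a000400000000000000000000000) := T_50 (nat_lit 111) (nat_lit 94) (nat_lit 6) (nat_lit 8) (nat_lit 9) L132832 (by decide +kernel)
theorem L132834 : W_50 (nat_lit 8) (nat_lit 0x1000080004000000000000000000000000000) (nat_lit 0x0) (nat_lit 0x20001c000e0003000080017000a000600020000000000000000000) := Q_50 (nat_lit 161) (C_50 L132740 (C_50 L75810 (C_50 L75686 (C_50 L132833 N_50)))) (by decide +kernel)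
theorem L132835 : W_50 (nat_lit 15) (nat_lit 0x1000080000000000000000000000000000000) (nat_lit 0x0) (nat_lit 0x100038001c000f0003e000f00f7c03fc03fc00fe001c000e0001000000) := Q_50 (nat_lit 110) (C_50 L132678 (C_50 L132724 (C_50 L132731 (C_50 L132732 (C_50 L132741 (C_50 L132742 (C_50 L132765 (C_50 L132827 (C_50 L132834 N_50))))))))) (by decide +kernel)
theorem L133371 : W_50 (nat_lit 2) (nat_lit 0x700016000a003f001080000000000000000000000) (nat_lit 0x0) (nat_lit 0xe00000000000000000000000000000000) := D_50 (nat_lit 130) (nat_lit 129) (nat_lit 131) (nat_lit 3) (nat_lit 7) (nat_lit 6) (nat_lit 3) (nat_lit 8) (nat_lit 6) (by decide +kernel)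
theorem L133372 : W_50 (nat_lit 3) (nat_lit 0x700016000a001f001080000000000000000000000) (nat_lit 0x0) (nat_lit 0xe00020002000000000000000000000000) := T_50 (nat_lit 113) (nat_lit 97) (nat_lit 2) (nat_lit 8) (nat_lit 6) L133371 (by decide +kernel)
theorem L133373 : W_50 (nat_lit 4) (nat_lit 0x300016000a001f001080000000000000000000000) (nat_lit 0x0) (nat_lit 0x48000000e00020002000000000000000000000000) := T_50 (nat_lit 162) (nat_lit 159) (nat_lit 0) (nat_lit 9) (nat_lit 9) L133372 (by decide +kernel)
theorem L133374 : W_50 (nat_lit 5) (nat_lit 0x300014000a001f001080000000000000000000000) (nat_lit 0x0) (nat_lit 0x4c000200e00020002000000000000000000000000) := T_50 (nat_lit 141) (nat_lit 158) (nat_lit 5) (nat_lit 6) (nat_lit 5) L133373 (by decide +kernel)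
theorem L133375 : W_50 (nat_lit 6) (nat_lit 0x300010000a001f001080000000000000000000000) (nat_lit 0x0) (nat_lit 0x4c000e00e00020002000000000000000000000000) := T_50 (nat_lit 142) (nat_lit 143) (nat_lit 7) (nat_lit 6) (nat_lit 5) L133374 (by decide +kernel)
theorem L133376 : W_50 (nat_lit 7) (nat_lit 0x300010000a001f000080000000000000000000000) (nat_lit 0x0) (nat_lit 0x4c000e00e00020003800000000000000000000000) := T_50 (nat_lit 96) (nat_lit 95) (nat_lit 2) (nat_lit 7) (nat_lit 6) L133375 (by decide +kernel)
theorem L133377 : W_50 (nat_lit 8) (nat_lit 0x200010000a001f000080000000000000000000000) (nat_lit 0x0) (nat_lit 0x20005c000e00e00020003800000000000000000000000) := T_50 (nat_lit 160) (nat_lit 177) (nat_lit 5) (nat_lit 8) (nat_lit 6) L133376 (by decide +kernel)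
theorem L133378 : W_50 (nat_lit 9) (nat_lit 0x200010000a000f000080000000000000000000000) (nat_lit 0x0) (nat_lit 0x20005c000e00e40030003800000000000000000000000) := T_50 (nat_lit 112) (nat_lit 126) (nat_lit 1) (nat_lit 10) (nat_lit 6) L133377 (by decide +kernel)
theorem L133379 : W_50 (nat_lit 10) (nat_lit 0x200010000a000f000000000000000000000000000) (nat_lit 0x0) (nat_lit 0x20005c000e00e400300038c0000000000000000000000) := T_50 (nat_lit 91) (nat_lit 90) (nat_lit 0) (nat_lit 9) (nat_lit 6) L133378 (by decide +kernel)
theorem L133380 : W_50 (nat_lit 11) (nat_lit 0x2000100008000f000000000000000000000000000) (nat_lit 0x0) (nat_lit 0x20005c000e00e700300038c0000000000000000000000) := T_50 (nat_lit 125) (nat_lit 124) (nat_lit 1) (nat_lit 9) (nat_lit 6) L133379 (by decide +kernel)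
theorem L133381 : W_50 (nat_lit 12) (nat_lit 0x20001000080007000000000000000000000000000) (nat_lit 0x0) (nat_lit 0x20005c000e00e70038003cc0000000000000000000000) := T_50 (nat_lit 111) (nat_lit 94) (nat_lit 6) (nat_lit 8) (nat_lit 9) L133380 (by decide +kernel)
theorem L133382 : W_50 (nat_lit 13) (nat_lit 0x20001000080006000000000000000000000000000) (nat_lit 0x0) (nat_lit 0x20005c000e00f7c039c03cc0000000000000000000000) := Q_50 (nat_lit 108) (C_50 L133381 (C_50 L132643 (C_50 L132647 (C_50 L132650 (C_50 L664 N_50))))) (by decide +kernel)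
theorem L133383 : W_50 (nat_lit 14) (nat_lit 0x20001000080004000000000000000000000000000) (nat_lit 0x0) (nat_lit 0x20005c000e00f7c03bc03dc0000000000000000000000) := T_50 (nat_lit 109) (nat_lit 92) (nat_lit 4) (nat_lit 8) (nat_lit 9) L133382 (by decide +kernel)
theorem L133384 : W_50 (nat_lit 5) (nat_lit 0x2000100008000c000000000000000000000000000) (nat_lit 0x0) (nat_lit 0x600010000000070012000100000000000000000000000) := T_50 (nat_lit 160) (nat_lit 177) (nat_lit 5) (nat_lit 8) (nat_lit 6) L100227 (by decide +kernel)
theorem L133385 : W_50 (nat_lit 6) (nat_lit 0x20001000080004000000000000000000000000000) (nat_lit 0x0) (nat_lit 0x60001000000007001a000500000000000000000000000) := T_50 (nat_lit 111) (nat_lit 94) (nat_lit 6) (nat_lit 8) (nat_lit 9) L133384 (by decide +kernel)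
theorem L133386 : W_50 (nat_lit 15) (nat_lit 0x1000080004000000000000000000000000000) (nat_lit 0x0) (nat_lit 0x400060007c000e00f7c03bc03dc0000000000000000000000) := Q_50 (nat_lit 161) (C_50 L133383 (C_50 L922 (C_50 L133385 (C_50 L132740 (C_50 L1584 (C_50 L1708 N_50)))))) (by decide +kernel)
theorem L133387 : W_50 (nat_lit 5) (nat_lit 0x1c00580006800200000000000000000000000) (nat_lit 0x0) (nat_lit 0x80000000400004001e000c000000000000000000) := T_50 (nat_lit 92) (nat_lit 75) (nat_lit 4) (nat_lit 8) (nat_lit 8) L132965 (by decide +kernel)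
theorem L133388 : W_50 (nat_lit 6) (nat_lit 0x1c00580006000200000000000000000000000) (nat_lit 0x0) (nat_lit 0x8000000040001c001e000c000000000000000000) := T_50 (nat_lit 107) (nat_lit 108) (nat_lit 3) (nat_lit 5) (nat_lit 6) L133387 (by decide +kernel)
theorem L133389 : W_50 (nat_lit 7) (nat_lit 0x1800580006000200000000000000000000000) (nat_lit 0x0) (nat_lit 0x8000600040001c001e000c000000000000000000) := T_50 (nat_lit 142) (nat_lit 141) (nat_lit 2) (nat_lit 5) (nat_lit 8) L133388 (by decide +kernel)
theorem L133390 : W_50 (nat_lit 8) (nat_lit 0x1000580006000200000000000000000000000) (nat_lit 0x0) (nat_lit 0x18000e00040001c001e000c000000000000000000) := T_50 (nat_lit 143) (nat_lit 160) (nat_lit 5) (nat_lit 8) (nat_lit 5) L133389 (by decide +kernel)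
theorem L133391 : W_50 (nat_lit 9) (nat_lit 0x1000180006000200000000000000000000000) (nat_lit 0x0) (nat_lit 0x18000e00640001c001e000c000000000000000000) := T_50 (nat_lit 130) (nat_lit 129) (nat_lit 0) (nat_lit 11) (nat_lit 7) L133390 (by decide +kernel)
theorem L133392 : W_50 (nat_lit 2) (nat_lit 0x1a00380006000200000000000000000000000) (nat_lit 0x0) (nat_lit 0x40009000000000000000000000000000) := D_50 (nat_lit 108) (nat_lit 126) (nat_lit 111) (nat_lit 0) (nat_lit 10) (nat_lit 7) (nat_lit 3) (nat_lit 6) (nat_lit 6) (by decide +kernel)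
theorem L133393 : W_50 (nat_lit 3) (nat_lit 0x1a00180006000200000000000000000000000) (nat_lit 0x0) (nat_lit 0x640009000000000000000000000000000) := T_50 (nat_lit 129) (nat_lit 130) (nat_lit 1) (nat_lit 11) (nat_lit 7) L133392 (by decide +kernel)
theorem L133394 : W_50 (nat_lit 4) (nat_lit 0x1800180006000200000000000000000000000) (nat_lit 0x0) (nat_lit 0x600640009000000000000000000000000000) := T_50 (nat_lit 141) (nat_lit 142) (nat_lit 2) (nat_lit 5) (nat_lit 8) L133393 (by decide +kernel)
theorem L133395 : W_50 (nat_lit 5) (nat_lit 0x1000180006000200000000000000000000000) (nat_lit 0x0) (nat_lit 0x10000e00640009000000000000000000000000000) := T_50 (nat_lit 143) (nat_lit 160) (nat_lit 5) (nat_lit 8) (nat_lit 5) L133394 (by decide +kernel)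
theorem L133396 : W_50 (nat_lit 10) (nat_lit 0x1000080006000200000000000000000000000) (nat_lit 0x0) (nat_lit 0x18000e00740009c001e000c000000000000000000) := Q_50 (nat_lit 128) (C_50 L132686 (C_50 L132690 (C_50 L133225 (C_50 L133391 (C_50 L132974 (C_50 L133395 (C_50 L132985 N_50))))))) (by decide +kernel)
theorem L133400 : W_50 (nat_lit 2) (nat_lit 0x1800080006000e00000000000000000000000) (nat_lit 0x0) (nat_lit 0x1000100008000000000000000000) := D_50 (nat_lit 92) (nat_lit 75) (nat_lit 108) (nat_lit 4) (nat_lit 8) (nat_lit 8) (nat_lit 1) (nat_lit 10) (nat_lit 5) (by decide +kernel)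
theorem L133401 : W_50 (nat_lit 3) (nat_lit 0x1800080006000600000000000000000000000) (nat_lit 0x0) (nat_lit 0x1001900008000000000000000000) := T_50 (nat_lit 95) (nat_lit 96) (nat_lit 1) (nat_lit 11) (nat_lit 5) L133400 (by decide +kernel)
theorem L133402 : W_50 (nat_lit 4) (nat_lit 0x1800080006000200000000000000000000000) (nat_lit 0x0) (nat_lit 0x1001d00028000000000000000000) := T_50 (nat_lit 94) (nat_lit 77) (nat_lit 6) (nat_lit 8) (nat_lit 8) L133401 (by decide +kernel)
theorem L133403 : W_50 (nat_lit 5) (nat_lit 0x1000080006000200000000000000000000000) (nat_lit 0x0) (nat_lit 0x10000800000001001d00028000000000000000000) := T_50 (nat_lit 143) (nat_lit 160) (nat_lit 5) (nat_lit 8) (nat_lit 5) L133402 (by decide +kernel)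
theorem L133404 : W_50 (nat_lit 8) (nat_lit 0x1000080006000300000000000000000000000) (nat_lit 0x0) (nat_lit 0x10000800040038001c800e6000000000000000000) := T_50 (nat_lit 143) (nat_lit 160) (nat_lit 5) (nat_lit 8) (nat_lit 5) L132716 (by decide +kernel)
theorem L133405 : W_50 (nat_lit 9) (nat_lit 0x1000080006000200000000000000000000000) (nat_lit 0x0) (nat_lit 0x10000800040038001d800ee000000000000000000) := T_50 (nat_lit 92) (nat_lit 75) (nat_lit 4) (nat_lit 8) (nat_lit 8) L133404 (by decide +kernel)
theorem L133406 : W_50 (nat_lit 11) (nat_lit 0x1000080004000200000000000000000000000) (nat_lit 0x0) (nat_lit 0x18000e0074003bc01de00ee000000000000000000) := Q_50 (nat_lit 109) (C_50 L133396 (C_50 L132941 (C_50 L133230 (C_50 L133399 (C_50 L133403 (C_50 L133405 N_50)))))) (by decide +kernel)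
theorem L133407 : W_50 (nat_lit 12) (nat_lit 0x1000080004000000000000000000000000000) (nat_lit 0x0) (nat_lit 0x18000e0074003bc01fe00fe001400000000000000) := Q_50 (nat_lit 93) (C_50 L133406 (C_50 L100353 (C_50 L100183 (C_50 L100180 N_50)))) (by decide +kernel)
theorem L133408 : W_50 (nat_lit 5) (nat_lit 0x1000080004000000000000000000000000000) (nat_lit 0x0) (nat_lit 0x20003000080000000a000700038001400000000000000) := Q_50 (nat_lit 93) (C_50 L100206 (C_50 L100353 (C_50 L132727 (C_50 L132730 N_50)))) (by decide +kernel)
theorem L133409 : W_50 (nat_lit 5) (nat_lit 0x1000080004000000000000000000000000000) (nat_lit 0x0) (nat_lit 0x400060003000000014000a000700028000000000000000000) := Q_50 (nat_lit 161) (C_50 L1708 (C_50 L132740 (C_50 L1584 (C_50 L108893 N_50)))) (by decide +kernel)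
theorem L133410 : W_50 (nat_lit 5) (nat_lit 0x1000080004000000000000000000000000000) (nat_lit 0x0) (nat_lit 0x200030000800040008000700038001400000000000000) := Q_50 (nat_lit 93) (C_50 L132727 (C_50 L100353 (C_50 L100180 N_50))) (by decide +kernel)
theorem L133411 : W_50 (nat_lit 5) (nat_lit 0x1000080004000000000000000000000000000) (nat_lit 0x0) (nat_lit 0x200030000800040002000700038001400000000000000) := Q_50 (nat_lit 93) (C_50 L132730 (C_50 L100353 (C_50 L100183 N_50))) (by decide +kernel)
theorem L133412 : W_50 (nat_lit 2) (nat_lit 0x200010000c0006800600000000000000000000000) (nat_lit 0x0) (nat_lit 0x800000000000000010000800000000000000) := D_50 (nat_lit 76) (nat_lit 59) (nat_lit 143) (nat_lit 5) (nat_lit 8) (nat_lit 3) (nat_lit 5) (nat_lit 8) (nat_lit 4) (by decide +kernel)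
theorem L133413 : W_50 (nat_lit 3) (nat_lit 0x20001000080006800600000000000000000000000) (nat_lit 0x0) (nat_lit 0x400000000800040000000000010000800000000000000) := T_50 (nat_lit 126) (nat_lit 178) (nat_lit 4) (nat_lit 8) (nat_lit 10) L133412 (by decide +kernel)
theorem L133414 : W_50 (nat_lit 4) (nat_lit 0x20001000080006000600000000000000000000000) (nat_lit 0x0) (nat_lit 0x400000000800040001800000010000800000000000000) := T_50 (nat_lit 107) (nat_lit 108) (nat_lit 2) (nat_lit 5) (nat_lit 6) L133413 (by decide +kernel)
theorem L133415 : W_50 (nat_lit 5) (nat_lit 0x20001000080004000600000000000000000000000) (nat_lit 0x0) (nat_lit 0x400000000800040003800100010000800000000000000) := T_50 (nat_lit 109) (nat_lit 92) (nat_lit 4) (nat_lit 8) (nat_lit 9) L133414 (by decide +kernel)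
theorem L133416 : W_50 (nat_lit 6) (nat_lit 0x1000080004000600000000000000000000000) (nat_lit 0x0) (nat_lit 0x40002000080004000b800100010000800000000000000) := T_50 (nat_lit 161) (nat_lit 111) (nat_lit 6) (nat_lit 8) (nat_lit 9) L133415 (by decide +kernel)
theorem L133417 : W_50 (nat_lit 7) (nat_lit 0x1000080004000200000000000000000000000) (nat_lit 0x0) (nat_lit 0x40002000080004000b800500030000800000000000000) := T_50 (nat_lit 94) (nat_lit 77) (nat_lit 6) (nat_lit 8) (nat_lit 8) L133416 (by decide +kernel)
theorem L133418 : W_50 (nat_lit 2) (nat_lit 0x2000100018001c000340010000000000000000000) (nat_lit 0x0) (nat_lit 0x800060000000000000000000000000000000) := D_50 (nat_lit 126) (nat_lit 125) (nat_lit 143) (nat_lit 2) (nat_lit 6) (nat_lit 7) (nat_lit 5) (nat_lit 8) (nat_lit 4) (by decide +kernel)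
theorem L133419 : W_50 (nat_lit 3) (nat_lit 0x2000100018001c000340000000000000000000000) (nat_lit 0x0) (nat_lit 0x800060000000000010000800000000000000) := T_50 (nat_lit 76) (nat_lit 59) (nat_lit 7) (nat_lit 8) (nat_lit 3) L133418 (by decide +kernel)
theorem L133420 : W_50 (nat_lit 4) (nat_lit 0x2000100018000c000340000000000000000000000) (nat_lit 0x0) (nat_lit 0x800060030000000010000800000000000000) := T_50 (nat_lit 112) (nat_lit 113) (nat_lit 0) (nat_lit 11) (nat_lit 6) L133419 (by decide +kernel)
theorem L133421 : W_50 (nat_lit 5) (nat_lit 0x2000100008000c000340000000000000000000000) (nat_lit 0x0) (nat_lit 0x400000000800160030000000010000800000000000000) := T_50 (nat_lit 128) (nat_lit 178) (nat_lit 6) (nat_lit 8) (nat_lit 10) L133420 (by decide +kernel)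
theorem L133422 : W_50 (nat_lit 6) (nat_lit 0x2000100008000c000300000000000000000000000) (nat_lit 0x0) (nat_lit 0x4000000008001600300000c0010000800000000000000) := T_50 (nat_lit 90) (nat_lit 91) (nat_lit 3) (nat_lit 5) (nat_lit 5) L133421 (by decide +kernel)
theorem L133423 : W_50 (nat_lit 7) (nat_lit 0x20001000080004000300000000000000000000000) (nat_lit 0x0) (nat_lit 0x4000000008001600380004c0010000800000000000000) := T_50 (nat_lit 111) (nat_lit 94) (nat_lit 6) (nat_lit 8) (nat_lit 9) L133422 (by decide +kernel)
theorem L133424 : W_50 (nat_lit 8) (nat_lit 0x1000080004000300000000000000000000000) (nat_lit 0x0) (nat_lit 0x40002000080016003a0004c0010000800000000000000) := T_50 (nat_lit 161) (nat_lit 109) (nat_lit 4) (nat_lit 8) (nat_lit 9) L133423 (by decide +kernel)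
theorem L133425 : W_50 (nat_lit 9) (nat_lit 0x1000080004000200000000000000000000000) (nat_lit 0x0) (nat_lit 0x40002000080016003a0005c0018000800000000000000) := T_50 (nat_lit 92) (nat_lit 75) (nat_lit 4) (nat_lit 8) (nat_lit 8) L133424 (by decide +kernel)
theorem L133426 : W_50 (nat_lit 10) (nat_lit 0x1000080004000000000000000000000000000) (nat_lit 0x0) (nat_lit 0x40002000080016003b8007c0038001c000a0000000000) := Q_50 (nat_lit 93) (C_50 L100206 (C_50 L100353 (C_50 L133417 (C_50 L133425 (C_50 L132756 (C_50 L100196 N_50)))))) (by decide +kernel)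
theorem L133427 : W_50 (nat_lit 7) (nat_lit 0x1000080004000200000000000000000000000) (nat_lit 0x0) (nat_lit 0x2000000014000a000400038001c000e0000000000) := Q_50 (nat_lit 76) (C_50 L132999 (C_50 L133025 (C_50 L133251 N_50))) (by decide +kernel)
theorem L133428 : W_50 (nat_lit 9) (nat_lit 0x1000080004000000000000000000000000000) (nat_lit 0x0) (nat_lit 0x20003000080014000a000600038001c000e0000000000) := Q_50 (nat_lit 93) (C_50 L132727 (C_50 L132756 (C_50 L133427 (C_50 L133036 (C_50 L133034 N_50))))) (by decide +kernel)
theorem L133429 : W_50 (nat_lit 11) (nat_lit 0x1000080006000000000000000000000000000) (nat_lit 0x0) (nat_lit 0x18000e00740019c003e00fc001c000e0001000000) := Q_50 (nat_lit 93) (C_50 L132772 (C_50 L132777 (C_50 L132793 (C_50 L133396 (C_50 L132795 N_50))))) (by decide +kernel)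
theorem L133430 : W_50 (nat_lit 2) (nat_lit 0x200020001000180006800000000000000000000000000) (nat_lit 0x0) (nat_lit 0x4000400000000000000008000000000000000000000000000) := D_50 (nat_lit 178) (nat_lit 111) (nat_lit 194) (nat_lit 6) (nat_lit 8) (nat_lit 10) (nat_lit 5) (nat_lit 8) (nat_lit 7) (by decide +kernel)
theorem L133431 : W_50 (nat_lit 3) (nat_lit 0x20001000180006800000000000000000000000000) (nat_lit 0x0) (nat_lit 0x4000600010000000000008000000000000000000000000000) := T_50 (nat_lit 177) (nat_lit 160) (nat_lit 5) (nat_lit 8) (nat_lit 6) L133430 (by decide +kernel)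
theorem L133432 : W_50 (nat_lit 4) (nat_lit 0x20001000180006000000000000000000000000000) (nat_lit 0x0) (nat_lit 0x4000600010000000000009800000000000000000000000000) := T_50 (nat_lit 107) (nat_lit 108) (nat_lit 3) (nat_lit 5) (nat_lit 6) L133431 (by decide +kernel)
theorem L133433 : W_50 (nat_lit 9) (nat_lit 0x1000180006000000000000000000000000000) (nat_lit 0x0) (nat_lit 0x400070003e000f00040009800280000000000000000000000) := Q_50 (nat_lit 161) (C_50 L132799 (C_50 L133432 (C_50 L132807 (C_50 L132814 N_50)))) (by decide +kernel)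
theorem L133434 : W_50 (nat_lit 2) (nat_lit 0x1000380006000000000000000000000000000) (nat_lit 0x0) (nat_lit 0x40009000000000000000000000000000) := D_50 (nat_lit 108) (nat_lit 126) (nat_lit 111) (nat_lit 0) (nat_lit 10) (nat_lit 7) (nat_lit 3) (nat_lit 6) (nat_lit 6) (by decide +kernel)
theorem L133435 : W_50 (nat_lit 3) (nat_lit 0x1000180006000000000000000000000000000) (nat_lit 0x0) (nat_lit 0x640009000000000000000000000000000) := T_50 (nat_lit 129) (nat_lit 130) (nat_lit 0) (nat_lit 11) (nat_lit 7) L133434 (by decide +kernel)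
theorem L133436 : W_50 (nat_lit 10) (nat_lit 0x1000080006000000000000000000000000000) (nat_lit 0x0) (nat_lit 0x400070003e000f00740009800280030001800080000000000) := Q_50 (nat_lit 128) (C_50 L120992 (C_50 L132798 (C_50 L133433 (C_50 L133435 (C_50 L132825 N_50))))) (by decide +kernel)
theorem L133437 : W_50 (nat_lit 12) (nat_lit 0x1000080004000000000000000000000000000) (nat_lit 0x0) (nat_lit 0x400070003e000f0074001bc003e00fc001c000e0001000000) := Q_50 (nat_lit 109) (C_50 L132766 (C_50 L132768 (C_50 L133429 (C_50 L133436 N_50)))) (by decide +kernel)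
theorem L133438 : W_50 (nat_lit 16) (nat_lit 0x1000080000000000000000000000000000000) (nat_lit 0x0) (nat_lit 0x400070007e000f00f7c03fc03fe00fe001c000e0001000000) := Q_50 (nat_lit 110) (C_50 L133386 (C_50 L133407 (C_50 L133408 (C_50 L133409 (C_50 L133410 (C_50 L133411 (C_50 L133426 (C_50 L133428 (C_50 L133437 N_50))))))))) (by decide +kernel)
theorem L133439 : W_50 (nat_lit 6) (nat_lit 0x1c00180006000200000000000000000000000) (nat_lit 0x0) (nat_lit 0x8000000040009c001c000c000000000000000000) := T_50 (nat_lit 92) (nat_lit 75) (nat_lit 4) (nat_lit 8) (nat_lit 8) L132971 (by decide +kernel)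
theorem L133440 : W_50 (nat_lit 7) (nat_lit 0x1800180006000200000000000000000000000) (nat_lit 0x0) (nat_lit 0x8000600040009c001c000c000000000000000000) := T_50 (nat_lit 142) (nat_lit 141) (nat_lit 2) (nat_lit 5) (nat_lit 8) L133439 (by decide +kernel)
theorem L133441 : W_50 (nat_lit 8) (nat_lit 0x1000180006000200000000000000000000000) (nat_lit 0x0) (nat_lit 0x18000e00040009c001c000c000000000000000000) := T_50 (nat_lit 143) (nat_lit 160) (nat_lit 5) (nat_lit 8) (nat_lit 5) L133440 (by decide +kernel)
theorem L133442 : W_50 (nat_lit 2) (nat_lit 0x1000380006000200000000000000000000000) (nat_lit 0x0) (nat_lit 0x40001800000000000000000000000000) := D_50 (nat_lit 108) (nat_lit 107) (nat_lit 126) (nat_lit 3) (nat_lit 5) (nat_lit 6) (nat_lit 0) (nat_lit 10) (nat_lit 7) (by decide +kernel)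
theorem L133443 : W_50 (nat_lit 3) (nat_lit 0x1000180006000200000000000000000000000) (nat_lit 0x0) (nat_lit 0x640001800000000000000000000000000) := T_50 (nat_lit 129) (nat_lit 130) (nat_lit 0) (nat_lit 11) (nat_lit 7) L133442 (by decide +kernel)
theorem L133444 : W_50 (nat_lit 2) (nat_lit 0x1c00180006000200000000000000000000000) (nat_lit 0x0) (nat_lit 0x640000000000000000000000000000000) := D_50 (nat_lit 129) (nat_lit 130) (nat_lit 126) (nat_lit 1) (nat_lit 11) (nat_lit 7) (nat_lit 1) (nat_lit 10) (nat_lit 7) (by decide +kernel)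
theorem L133445 : W_50 (nat_lit 3) (nat_lit 0x1800180006000200000000000000000000000) (nat_lit 0x0) (nat_lit 0x600640000000000000000000000000000000) := T_50 (nat_lit 142) (nat_lit 141) (nat_lit 2) (nat_lit 5) (nat_lit 8) L133444 (by decide +kernel)
theorem L133446 : W_50 (nat_lit 4) (nat_lit 0x1000180006000200000000000000000000000) (nat_lit 0x0) (nat_lit 0x10000e00640000000000000000000000000000000) := T_50 (nat_lit 143) (nat_lit 160) (nat_lit 5) (nat_lit 8) (nat_lit 5) L133445 (by decide +kernel)
theorem L133447 : W_50 (nat_lit 10) (nat_lit 0x1000080006000200000000000000000000000) (nat_lit 0x0) (nat_lit 0x18000e00740009c001c000c000000000000000000) := Q_50 (nat_lit 128) (C_50 L132686 (C_50 L132962 (C_50 L133441 (C_50 L133443 (C_50 L133446 N_50))))) (by decide +kernel)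
theorem L133448 : W_50 (nat_lit 2) (nat_lit 0x1800080016800f80000000000000000000000) (nat_lit 0x0) (nat_lit 0x400060000000000000000000000) := D_50 (nat_lit 90) (nat_lit 89) (nat_lit 106) (nat_lit 3) (nat_lit 4) (nat_lit 5) (nat_lit 1) (nat_lit 8) (nat_lit 5) (by decide +kernel)
theorem L133449 : W_50 (nat_lit 3) (nat_lit 0x1800080016800f00000000000000000000000) (nat_lit 0x0) (nat_lit 0x84000e0000000000000000000000) := T_50 (nat_lit 91) (nat_lit 111) (nat_lit 3) (nat_lit 6) (nat_lit 5) L133448 (by decide +kernel)
theorem L133450 : W_50 (nat_lit 4) (nat_lit 0x1800080006800f00000000000000000000000) (nat_lit 0x0) (nat_lit 0x384000e0000000000000000000000) := T_50 (nat_lit 112) (nat_lit 113) (nat_lit 3) (nat_lit 7) (nat_lit 5) L133449 (by decide +kernel)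
theorem L133451 : W_50 (nat_lit 5) (nat_lit 0x1800080006800e00000000000000000000000) (nat_lit 0x0) (nat_lit 0x384001e0008000000000000000000) := T_50 (nat_lit 92) (nat_lit 75) (nat_lit 4) (nat_lit 8) (nat_lit 8) L133450 (by decide +kernel)
theorem L133452 : W_50 (nat_lit 6) (nat_lit 0x1800080006800600000000000000000000000) (nat_lit 0x0) (nat_lit 0x384019e0008000000000000000000) := T_50 (nat_lit 95) (nat_lit 96) (nat_lit 1) (nat_lit 11) (nat_lit 5) L133451 (by decide +kernel)
theorem L133453 : W_50 (nat_lit 7) (nat_lit 0x1800080006000600000000000000000000000) (nat_lit 0x0) (nat_lit 0x39c019e0008000000000000000000) := T_50 (nat_lit 107) (nat_lit 108) (nat_lit 2) (nat_lit 5) (nat_lit 6) L133452 (by decide +kernel)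
theorem L133454 : W_50 (nat_lit 8) (nat_lit 0x1800080006000200000000000000000000000) (nat_lit 0x0) (nat_lit 0x39c01de0028000000000000000000) := T_50 (nat_lit 94) (nat_lit 77) (nat_lit 6) (nat_lit 8) (nat_lit 8) L133453 (by decide +kernel)
theorem L133455 : W_50 (nat_lit 9) (nat_lit 0x1000080006000200000000000000000000000) (nat_lit 0x0) (nat_lit 0x10000800000039c01de0028000000000000000000) := T_50 (nat_lit 143) (nat_lit 160) (nat_lit 5) (nat_lit 8) (nat_lit 5) L133454 (by decide +kernel)
theorem L133456 : W_50 (nat_lit 11) (nat_lit 0x1000080004000200000000000000000000000) (nat_lit 0x0) (nat_lit 0x18000e0074003bc01de00ee000000000000000000) := Q_50 (nat_lit 109) (C_50 L133447 (C_50 L133455 (C_50 L132707 (C_50 L133399 (C_50 L132718 (C_50 L132710 N_50)))))) (by decide +kernel)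
theorem L133457 : W_50 (nat_lit 12) (nat_lit 0x1000080004000000000000000000000000000) (nat_lit 0x0) (nat_lit 0x18000e0074003bc01fe00fe001400000000000000) := Q_50 (nat_lit 93) (C_50 L133456 (C_50 L100180 (C_50 L100170 (C_50 L100183 N_50)))) (by decide +kernel)
theorem L133458 : W_50 (nat_lit 2) (nat_lit 0x400070001000080006000400000000000000000000000) (nat_lit 0x0) (nat_lit 0x800000000000200020000000000000000000) := D_50 (nat_lit 93) (nat_lit 143) (nat_lit 77) (nat_lit 5) (nat_lit 8) (nat_lit 5) (nat_lit 6) (nat_lit 8) (nat_lit 8) (by decide +kernel)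
theorem L133459 : W_50 (nat_lit 3) (nat_lit 0x400060001000080006000400000000000000000000000) (nat_lit 0x0) (nat_lit 0x200010000800000000000200020000000000000000000) := T_50 (nat_lit 160) (nat_lit 177) (nat_lit 5) (nat_lit 8) (nat_lit 6) L133458 (by decide +kernel)
theorem L133460 : W_50 (nat_lit 4) (nat_lit 0x400060001000080006000000000000000000000000000) (nat_lit 0x0) (nat_lit 0x200010000800000008000600020000000000000000000) := T_50 (nat_lit 94) (nat_lit 111) (nat_lit 6) (nat_lit 8) (nat_lit 9) L133459 (by decide +kernel)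
theorem L133461 : W_50 (nat_lit 5) (nat_lit 0x60001000080006000000000000000000000000000) (nat_lit 0x0) (nat_lit 0x600010000800040008000600020000000000000000000) := T_50 (nat_lit 178) (nat_lit 126) (nat_lit 4) (nat_lit 8) (nat_lit 10) L133460 (by decide +kernel)
theorem L133462 : W_50 (nat_lit 6) (nat_lit 0x20001000080006000000000000000000000000000) (nat_lit 0x0) (nat_lit 0xe00050000800040008000600020000000000000000000) := T_50 (nat_lit 162) (nat_lit 179) (nat_lit 7) (nat_lit 8) (nat_lit 6) L133461 (by decide +kernel)
theorem L133463 : W_50 (nat_lit 7) (nat_lit 0x20001000080004000000000000000000000000000) (nat_lit 0x0) (nat_lit 0xe0005000080004000a000700020000000000000000000) := T_50 (nat_lit 109) (nat_lit 92) (nat_lit 4) (nat_lit 8) (nat_lit 9) L133462 (by decide +kernel)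
theorem L133464 : W_50 (nat_lit 3) (nat_lit 0x7000100008000e000000000000000000000000000) (nat_lit 0x0) (nat_lit 0x400000000000070010000000000000000000000000000) := T_50 (nat_lit 126) (nat_lit 178) (nat_lit 4) (nat_lit 8) (nat_lit 10) L100365 (by decide +kernel)
theorem L133465 : W_50 (nat_lit 4) (nat_lit 0x70001000080006000000000000000000000000000) (nat_lit 0x0) (nat_lit 0x400000000000070018000400000000000000000000000) := T_50 (nat_lit 111) (nat_lit 94) (nat_lit 6) (nat_lit 8) (nat_lit 9) L133464 (by decide +kernel)
theorem L133466 : W_50 (nat_lit 5) (nat_lit 0x70001000080004000000000000000000000000000) (nat_lit 0x0) (nat_lit 0x40000000000007001a000500000000000000000000000) := T_50 (nat_lit 109) (nat_lit 92) (nat_lit 4) (nat_lit 8) (nat_lit 9) L133465 (by decide +kernel)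
theorem L133467 : W_50 (nat_lit 6) (nat_lit 0x30001000080004000000000000000000000000000) (nat_lit 0x0) (nat_lit 0xc0004000000007001a000500000000000000000000000) := T_50 (nat_lit 162) (nat_lit 179) (nat_lit 7) (nat_lit 8) (nat_lit 6) L133466 (by decide +kernel)
theorem L133468 : W_50 (nat_lit 7) (nat_lit 0x20001000080004000000000000000000000000000) (nat_lit 0x0) (nat_lit 0xe0005000000007001a000500000000000000000000000) := T_50 (nat_lit 160) (nat_lit 177) (nat_lit 5) (nat_lit 8) (nat_lit 6) L133467 (by decide +kernel)
theorem L133469 : W_50 (nat_lit 3) (nat_lit 0x600010000c0006000000000000000000000000000) (nat_lit 0x0) (nat_lit 0x30018000400000000000000000000000) := T_50 (nat_lit 111) (nat_lit 94) (nat_lit 6) (nat_lit 8) (nat_lit 9) L132861 (by decide +kernel)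
theorem L133470 : W_50 (nat_lit 4) (nat_lit 0x60001000080006000000000000000000000000000) (nat_lit 0x0) (nat_lit 0x400000000000070018000400000000000000000000000) := T_50 (nat_lit 126) (nat_lit 178) (nat_lit 4) (nat_lit 8) (nat_lit 10) L133469 (by decide +kernel)
theorem L133471 : W_50 (nat_lit 5) (nat_lit 0x20001000080006000000000000000000000000000) (nat_lit 0x0) (nat_lit 0xc00040000000070018000400000000000000000000000) := T_50 (nat_lit 162) (nat_lit 179) (nat_lit 7) (nat_lit 8) (nat_lit 6) L133470 (by decide +kernel)
theorem L133472 : W_50 (nat_lit 6) (nat_lit 0x20001000080004000000000000000000000000000) (nat_lit 0x0) (nat_lit 0xc0004000000007001a000500000000000000000000000) := T_50 (nat_lit 109) (nat_lit 92) (nat_lit 4) (nat_lit 8) (nat_lit 9) L133471 (by decide +kernel)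
theorem L133473 : W_50 (nat_lit 8) (nat_lit 0x1000080004000000000000000000000000000) (nat_lit 0x0) (nat_lit 0xe0007000080007001a000700028000000000000000000) := Q_50 (nat_lit 161) (C_50 L133463 (C_50 L133468 (C_50 L75810 (C_50 L75812 (C_50 L133472 N_50))))) (by decide +kernel)
theorem L133474 : W_50 (nat_lit 7) (nat_lit 0x1000080004000000000000000000000000000) (nat_lit 0x0) (nat_lit 0x10000c0006000000017001a000700028000000000000000000) := Q_50 (nat_lit 161) (C_50 L133472 (C_50 L2015 (C_50 L100451 (C_50 L100247 (C_50 L76111 N_50))))) (by decide +kernel)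
theorem L133475 : W_50 (nat_lit 6) (nat_lit 0x1000080004000000000000000000000000000) (nat_lit 0x0) (nat_lit 0x10000e000f0000e00100008000600020000000000000000000) := Q_50 (nat_lit 161) (C_50 L2015 (C_50 L75810 (C_50 L638 N_50))) (by decide +kernel)
theorem L133476 : W_50 (nat_lit 2) (nat_lit 0x2000200018000e000c000000000000000000000000000) (nat_lit 0x0) (nat_lit 0x100030000000000000000000000000000) := D_50 (nat_lit 112) (nat_lit 113) (nat_lit 128) (nat_lit 1) (nat_lit 11) (nat_lit 6) (nat_lit 2) (nat_lit 6) (nat_lit 7) (by decide +kernel)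
theorem L133477 : W_50 (nat_lit 3) (nat_lit 0x2000200018000c000c000000000000000000000000000) (nat_lit 0x0) (nat_lit 0x130030000000000000000000000000000) := T_50 (nat_lit 125) (nat_lit 124) (nat_lit 2) (nat_lit 5) (nat_lit 7) L133476 (by decide +kernel)
theorem L133478 : W_50 (nat_lit 4) (nat_lit 0x2000200018000c0004000000000000000000000000000) (nat_lit 0x0) (nat_lit 0x130038000400000000000000000000000) := T_50 (nat_lit 111) (nat_lit 94) (nat_lit 6) (nat_lit 8) (nat_lit 9) L133477 (by decide +kernel)
theorem L133479 : W_50 (nat_lit 5) (nat_lit 0x200018000c0004000000000000000000000000000) (nat_lit 0x0) (nat_lit 0x200010000000130038000400000000000000000000000) := T_50 (nat_lit 177) (nat_lit 160) (nat_lit 6) (nat_lit 7) (nat_lit 10) L133478 (by decide +kernel)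
theorem L133480 : W_50 (nat_lit 2) (nat_lit 0x3a0018000d002f000000000000000000000000000) (nat_lit 0x0) (nat_lit 0x8000c00000000000000000000000000) := D_50 (nat_lit 107) (nat_lit 106) (nat_lit 123) (nat_lit 3) (nat_lit 4) (nat_lit 6) (nat_lit 1) (nat_lit 8) (nat_lit 6) (by decide +kernel)
theorem L133481 : W_50 (nat_lit 3) (nat_lit 0x3a0018000d002e000000000000000000000000000) (nat_lit 0x0) (nat_lit 0x8001c00080000000000000000000000) := T_50 (nat_lit 108) (nat_lit 91) (nat_lit 4) (nat_lit 7) (nat_lit 9) L133480 (by decide +kernel)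
theorem L133482 : W_50 (nat_lit 4) (nat_lit 0x380018000d002e000000000000000000000000000) (nat_lit 0x0) (nat_lit 0x6000000008001c00080000000000000000000000) := T_50 (nat_lit 157) (nat_lit 158) (nat_lit 2) (nat_lit 4) (nat_lit 9) L133481 (by decide +kernel)
theorem L133483 : W_50 (nat_lit 5) (nat_lit 0x300018000d002e000000000000000000000000000) (nat_lit 0x0) (nat_lit 0x10000e000000008001c00080000000000000000000000) := T_50 (nat_lit 159) (nat_lit 176) (nat_lit 5) (nat_lit 7) (nat_lit 6) L133482 (by decide +kernel)
theorem L133484 : W_50 (nat_lit 6) (nat_lit 0x200018000d002e000000000000000000000000000) (nat_lit 0x0) (nat_lit 0x30001e000000008001c00080000000000000000000000) := T_50 (nat_lit 160) (nat_lit 177) (nat_lit 6) (nat_lit 7) (nat_lit 10) L133483 (by decide +kernel)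
theorem L133485 : W_50 (nat_lit 7) (nat_lit 0x200018000d002c000000000000000000000000000) (nat_lit 0x0) (nat_lit 0x30001e000000008003c00180000000000000000000000) := T_50 (nat_lit 109) (nat_lit 92) (nat_lit 7) (nat_lit 7) (nat_lit 5) L133484 (by decide +kernel)
theorem L133486 : W_50 (nat_lit 8) (nat_lit 0x200018000d000c000000000000000000000000000) (nat_lit 0x0) (nat_lit 0x30001e000000008033c00180000000000000000000000) := T_50 (nat_lit 113) (nat_lit 112) (nat_lit 1) (nat_lit 11) (nat_lit 6) L133485 (by decide +kernel)
theorem L133487 : W_50 (nat_lit 9) (nat_lit 0x200018000c000c000000000000000000000000000) (nat_lit 0x0) (nat_lit 0x30001e000000038033c00180000000000000000000000) := T_50 (nat_lit 124) (nat_lit 125) (nat_lit 2) (nat_lit 5) (nat_lit 7) L133486 (by decide +kernel)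
theorem L133488 : W_50 (nat_lit 10) (nat_lit 0x200018000c0004000000000000000000000000000) (nat_lit 0x0) (nat_lit 0x30001e00000003803bc00580000000000000000000000) := T_50 (nat_lit 111) (nat_lit 94) (nat_lit 6) (nat_lit 8) (nat_lit 9) L133487 (by decide +kernel)
theorem L133489 : W_50 (nat_lit 2) (nat_lit 0x300018000c002f000000000000000000000000000) (nat_lit 0x0) (nat_lit 0x300000800000000000000000000000000) := D_50 (nat_lit 128) (nat_lit 129) (nat_lit 107) (nat_lit 3) (nat_lit 6) (nat_lit 6) (nat_lit 3) (nat_lit 5) (nat_lit 6) (by decide +kernel)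
theorem L133490 : W_50 (nat_lit 3) (nat_lit 0x300018000c002e000000000000000000000000000) (nat_lit 0x0) (nat_lit 0x300001800080000000000000000000000) := T_50 (nat_lit 108) (nat_lit 91) (nat_lit 4) (nat_lit 7) (nat_lit 9) L133489 (by decide +kernel)
theorem L133491 : W_50 (nat_lit 4) (nat_lit 0x300018000c002c000000000000000000000000000) (nat_lit 0x0) (nat_lit 0x300003800180000000000000000000000) := T_50 (nat_lit 109) (nat_lit 92) (nat_lit 7) (nat_lit 7) (nat_lit 5) L133490 (by decide +kernel)
theorem L133492 : W_50 (nat_lit 5) (nat_lit 0x300018000c000c000000000000000000000000000) (nat_lit 0x0) (nat_lit 0x300033800180000000000000000000000) := T_50 (nat_lit 113) (nat_lit 112) (nat_lit 1) (nat_lit 11) (nat_lit 6) L133491 (by decide +kernel)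
theorem L133493 : W_50 (nat_lit 6) (nat_lit 0x300018000c0004000000000000000000000000000) (nat_lit 0x0) (nat_lit 0x30003b800580000000000000000000000) := T_50 (nat_lit 111) (nat_lit 94) (nat_lit 6) (nat_lit 8) (nat_lit 9) L133492 (by decide +kernel)
theorem L133494 : W_50 (nat_lit 7) (nat_lit 0x200018000c0004000000000000000000000000000) (nat_lit 0x0) (nat_lit 0x20001000000030003b800580000000000000000000000) := T_50 (nat_lit 160) (nat_lit 177) (nat_lit 6) (nat_lit 7) (nat_lit 10) L133493 (by decide +kernel)
theorem L133495 : W_50 (nat_lit 2) (nat_lit 0x200018002d001e000000000000000000000000000) (nat_lit 0x0) (nat_lit 0x400100001000000000000000000000000000) := D_50 (nat_lit 128) (nat_lit 108) (nat_lit 142) (nat_lit 3) (nat_lit 6) (nat_lit 6) (nat_lit 1) (nat_lit 10) (nat_lit 7) (by decide +kernel)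
theorem L133496 : W_50 (nat_lit 3) (nat_lit 0x200018000d001e000000000000000000000000000) (nat_lit 0x0) (nat_lit 0x400700001000000000000000000000000000) := T_50 (nat_lit 129) (nat_lit 130) (nat_lit 3) (nat_lit 7) (nat_lit 6) L133495 (by decide +kernel)
theorem L133497 : W_50 (nat_lit 4) (nat_lit 0x200018000d001c000000000000000000000000000) (nat_lit 0x0) (nat_lit 0x400700003000100000000000000000000000) := T_50 (nat_lit 109) (nat_lit 92) (nat_lit 7) (nat_lit 7) (nat_lit 5) L133496 (by decide +kernel)
theorem L133498 : W_50 (nat_lit 5) (nat_lit 0x200018000d000c000000000000000000000000000) (nat_lit 0x0) (nat_lit 0x400700033000100000000000000000000000) := T_50 (nat_lit 112) (nat_lit 113) (nat_lit 1) (nat_lit 11) (nat_lit 6) L133497 (by decide +kernel)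
theorem L133499 : W_50 (nat_lit 6) (nat_lit 0x200018000c000c000000000000000000000000000) (nat_lit 0x0) (nat_lit 0x400730033000100000000000000000000000) := T_50 (nat_lit 124) (nat_lit 125) (nat_lit 2) (nat_lit 5) (nat_lit 7) L133498 (by decide +kernel)
theorem L133500 : W_50 (nat_lit 7) (nat_lit 0x200018000c0004000000000000000000000000000) (nat_lit 0x0) (nat_lit 0x40073003b000500000000000000000000000) := T_50 (nat_lit 111) (nat_lit 94) (nat_lit 6) (nat_lit 8) (nat_lit 9) L133499 (by decide +kernel)
theorem L133501 : W_50 (nat_lit 11) (nat_lit 0x20001800080004000000000000000000000000000) (nat_lit 0x0) (nat_lit 0x30001e00040077803bc00580000000000000000000000) := Q_50 (nat_lit 126) (C_50 L133479 (C_50 L133488 (C_50 L133494 (C_50 L75968 (C_50 L133500 N_50))))) (by decide +kernel)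
theorem L133502 : W_50 (nat_lit 4) (nat_lit 0xf000580008000e000000000000000000000000000) (nat_lit 0x0) (nat_lit 0x3000000000000700030000000000000000000000000000) := T_50 (nat_lit 180) (nat_lit 181) (nat_lit 3) (nat_lit 7) (nat_lit 9) L75986 (by decide +kernel)
theorem L133503 : W_50 (nat_lit 5) (nat_lit 0xf000180008000e000000000000000000000000000) (nat_lit 0x0) (nat_lit 0x300000000c000700030000000000000000000000000000) := T_50 (nat_lit 146) (nat_lit 147) (nat_lit 2) (nat_lit 7) (nat_lit 9) L133502 (by decide +kernel)
theorem L133504 : W_50 (nat_lit 6) (nat_lit 0x7000180008000e000000000000000000000000000) (nat_lit 0x0) (nat_lit 0x300018000c000700030000000000000000000000000000) := T_50 (nat_lit 163) (nat_lit 164) (nat_lit 0) (nat_lit 11) (nat_lit 9) L133503 (by decide +kernel)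
theorem L133505 : W_50 (nat_lit 7) (nat_lit 0x3000180008000e000000000000000000000000000) (nat_lit 0x0) (nat_lit 0x38001c000c000700030000000000000000000000000000) := T_50 (nat_lit 162) (nat_lit 179) (nat_lit 7) (nat_lit 8) (nat_lit 6) L133504 (by decide +kernel)
theorem L133506 : W_50 (nat_lit 8) (nat_lit 0x2000180008000e000000000000000000000000000) (nat_lit 0x0) (nat_lit 0x3a001d000c000700030000000000000000000000000000) := T_50 (nat_lit 160) (nat_lit 177) (nat_lit 5) (nat_lit 8) (nat_lit 6) L133505 (by decide +kernel)
theorem L133507 : W_50 (nat_lit 9) (nat_lit 0x2000180008000c000000000000000000000000000) (nat_lit 0x0) (nat_lit 0x3a001d000c000700032000100000000000000000000000) := T_50 (nat_lit 109) (nat_lit 92) (nat_lit 4) (nat_lit 8) (nat_lit 9) L133506 (by decide +kernel)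
theorem L133508 : W_50 (nat_lit 10) (nat_lit 0x20001800080004000000000000000000000000000) (nat_lit 0x0) (nat_lit 0x3a001d000c00070003a000500000000000000000000000) := T_50 (nat_lit 111) (nat_lit 94) (nat_lit 6) (nat_lit 8) (nat_lit 9) L133507 (by decide +kernel)
theorem L133509 : W_50 (nat_lit 5) (nat_lit 0xe0001a00380004000000000000000000000000000) (nat_lit 0x0) (nat_lit 0x100000000c000060038000400000000000000000000000) := T_50 (nat_lit 111) (nat_lit 94) (nat_lit 6) (nat_lit 8) (nat_lit 9) L75909 (by decide +kernel)
theorem L133510 : W_50 (nat_lit 6) (nat_lit 0x60001a00380004000000000000000000000000000) (nat_lit 0x0) (nat_lit 0x100018000c000060038000400000000000000000000000) := T_50 (nat_lit 163) (nat_lit 164) (nat_lit 0) (nat_lit 11) (nat_lit 9) L133509 (by decide +kernel)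
theorem L133511 : W_50 (nat_lit 7) (nat_lit 0x60001a00180004000000000000000000000000000) (nat_lit 0x0) (nat_lit 0x100018000c000660038000400000000000000000000000) := T_50 (nat_lit 129) (nat_lit 130) (nat_lit 1) (nat_lit 11) (nat_lit 7) L133510 (by decide +kernel)
theorem L133512 : W_50 (nat_lit 8) (nat_lit 0x60001800180004000000000000000000000000000) (nat_lit 0x0) (nat_lit 0x100018000c600660038000400000000000000000000000) := T_50 (nat_lit 141) (nat_lit 142) (nat_lit 3) (nat_lit 5) (nat_lit 8) L133511 (by decide +kernel)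
theorem L133513 : W_50 (nat_lit 9) (nat_lit 0x20001800180004000000000000000000000000000) (nat_lit 0x0) (nat_lit 0x18001c000c600660038000400000000000000000000000) := T_50 (nat_lit 162) (nat_lit 179) (nat_lit 7) (nat_lit 8) (nat_lit 6) L133512 (by decide +kernel)
theorem L133514 : W_50 (nat_lit 2) (nat_lit 0x2000180018000e000000000000000000000000000) (nat_lit 0x0) (nat_lit 0x200001800000000000000000000000000) := D_50 (nat_lit 108) (nat_lit 129) (nat_lit 107) (nat_lit 3) (nat_lit 6) (nat_lit 6) (nat_lit 3) (nat_lit 5) (nat_lit 6) (by decide +kernel)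
theorem L133515 : W_50 (nat_lit 3) (nat_lit 0x2000180018000c000000000000000000000000000) (nat_lit 0x0) (nat_lit 0x200003800100000000000000000000000) := T_50 (nat_lit 109) (nat_lit 92) (nat_lit 4) (nat_lit 8) (nat_lit 9) L133514 (by decide +kernel)
theorem L133516 : W_50 (nat_lit 4) (nat_lit 0x20001800180004000000000000000000000000000) (nat_lit 0x0) (nat_lit 0x20000b800500000000000000000000000) := T_50 (nat_lit 111) (nat_lit 94) (nat_lit 6) (nat_lit 8) (nat_lit 9) L133515 (by decide +kernel)
theorem L133517 : W_50 (nat_lit 2) (nat_lit 0x200018001a000f000080000000000000000000000) (nat_lit 0x0) (nat_lit 0x40010000000004000000000000000000) := D_50 (nat_lit 126) (nat_lit 112) (nat_lit 74) (nat_lit 2) (nat_lit 6) (nat_lit 7) (nat_lit 7) (nat_lit 6) (nat_lit 4) (by decide +kernel)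
theorem L133518 : W_50 (nat_lit 3) (nat_lit 0x200018001a000f000000000000000000000000000) (nat_lit 0x0) (nat_lit 0x400100000c0004000000000000000000) := T_50 (nat_lit 91) (nat_lit 90) (nat_lit 0) (nat_lit 9) (nat_lit 6) L133517 (by decide +kernel)
theorem L133519 : W_50 (nat_lit 4) (nat_lit 0x2000180018000f000000000000000000000000000) (nat_lit 0x0) (nat_lit 0x700100000c0004000000000000000000) := T_50 (nat_lit 125) (nat_lit 124) (nat_lit 1) (nat_lit 9) (nat_lit 6) L133518 (by decide +kernel)
theorem L133520 : W_50 (nat_lit 5) (nat_lit 0x20001800180007000000000000000000000000000) (nat_lit 0x0) (nat_lit 0x700180004c0004000000000000000000) := T_50 (nat_lit 111) (nat_lit 94) (nat_lit 6) (nat_lit 8) (nat_lit 9) L133519 (by decide +kernel)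
theorem L133521 : W_50 (nat_lit 6) (nat_lit 0x20001800180006000000000000000000000000000) (nat_lit 0x0) (nat_lit 0x700198004c0004000000000000000000) := T_50 (nat_lit 108) (nat_lit 107) (nat_lit 3) (nat_lit 5) (nat_lit 6) L133520 (by decide +kernel)
theorem L133522 : W_50 (nat_lit 7) (nat_lit 0x20001800180004000000000000000000000000000) (nat_lit 0x0) (nat_lit 0x7001b8005c0004000000000000000000) := T_50 (nat_lit 109) (nat_lit 92) (nat_lit 4) (nat_lit 8) (nat_lit 9) L133521 (by decide +kernel)
theorem L133523 : W_50 (nat_lit 2) (nat_lit 0x60001a00180007000000000000000000000000000) (nat_lit 0x0) (nat_lit 0x640000000000000000000000000000000) := D_50 (nat_lit 129) (nat_lit 130) (nat_lit 126) (nat_lit 1) (nat_lit 11) (nat_lit 7) (nat_lit 0) (nat_lit 10) (nat_lit 7) (by decide +kernel)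
theorem L133524 : W_50 (nat_lit 3) (nat_lit 0x60001a00180006000000000000000000000000000) (nat_lit 0x0) (nat_lit 0x640001800000000000000000000000000) := T_50 (nat_lit 108) (nat_lit 107) (nat_lit 3) (nat_lit 5) (nat_lit 6) L133523 (by decide +kernel)
theorem L133525 : W_50 (nat_lit 4) (nat_lit 0x60001a00180004000000000000000000000000000) (nat_lit 0x0) (nat_lit 0x640003800100000000000000000000000) := T_50 (nat_lit 109) (nat_lit 92) (nat_lit 4) (nat_lit 8) (nat_lit 9) L133524 (by decide +kernel)
theorem L133526 : W_50 (nat_lit 5) (nat_lit 0x60001800180004000000000000000000000000000) (nat_lit 0x0) (nat_lit 0x600640003800100000000000000000000000) := T_50 (nat_lit 141) (nat_lit 142) (nat_lit 3) (nat_lit 5) (nat_lit 8) L133525 (by decide +kernel)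
theorem L133527 : W_50 (nat_lit 6) (nat_lit 0x20001800180004000000000000000000000000000) (nat_lit 0x0) (nat_lit 0x800040000600640003800100000000000000000000000) := T_50 (nat_lit 162) (nat_lit 179) (nat_lit 7) (nat_lit 8) (nat_lit 6) L133526 (by decide +kernel)
theorem L133528 : W_50 (nat_lit 10) (nat_lit 0x20001800080004000000000000000000000000000) (nat_lit 0x0) (nat_lit 0x18001c000c60077003b8005c0004000000000000000000) := Q_50 (nat_lit 128) (C_50 L133513 (C_50 L133516 (C_50 L133522 (C_50 L133527 N_50)))) (by decide +kernel)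
theorem L133529 : W_50 (nat_lit 12) (nat_lit 0x20001000080004000000000000000000000000000) (nat_lit 0x0) (nat_lit 0x3b001de00ce0077803bc005c0004000000000000000000) := Q_50 (nat_lit 143) (C_50 L133501 (C_50 L133069 (C_50 L75994 (C_50 L133508 (C_50 L133528 N_50))))) (by decide +kernel)
theorem L133530 : W_50 (nat_lit 13) (nat_lit 0x1000080004000000000000000000000000000) (nat_lit 0x0) (nat_lit 0x10003f001fe00ce0077803bc005c0004000000000000000000) := Q_50 (nat_lit 161) (C_50 L133529 (C_50 L76111 (C_50 L100247 (C_50 L2015 N_50)))) (by decide +kernel)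
theorem L133531 : W_50 (nat_lit 2) (nat_lit 0x8000400030001a00580006800000000000000000000000000) (nat_lit 0x0) (nat_lit 0x200010000800000000000000000000000000000000000000000000) := D_50 (nat_lit 196) (nat_lit 179) (nat_lit 213) (nat_lit 7) (nat_lit 8) (nat_lit 7) (nat_lit 7) (nat_lit 8) (nat_lit 8) (by decide +kernel)
theorem L133532 : W_50 (nat_lit 3) (nat_lit 0x400030001a00580006800000000000000000000000000) (nat_lit 0x0) (nat_lit 0x300018000800000000000000000000000000000000000000000000) := T_50 (nat_lit 195) (nat_lit 212) (nat_lit 4) (nat_lit 8) (nat_lit 12) L133531 (by decide +kernel)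
theorem L133533 : W_50 (nat_lit 4) (nat_lit 0x400030001a00180006800000000000000000000000000) (nat_lit 0x0) (nat_lit 0x300018000800000000000600000000000000000000000000000000) := T_50 (nat_lit 130) (nat_lit 129) (nat_lit 1) (nat_lit 11) (nat_lit 7) L133532 (by decide +kernel)
theorem L133534 : W_50 (nat_lit 5) (nat_lit 0x400030001800180006800000000000000000000000000) (nat_lit 0x0) (nat_lit 0x300018000800000000600600000000000000000000000000000000) := T_50 (nat_lit 141) (nat_lit 142) (nat_lit 2) (nat_lit 5) (nat_lit 8) L133533 (by decide +kernel)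
theorem L133535 : W_50 (nat_lit 6) (nat_lit 0x400030001800180006000000000000000000000000000) (nat_lit 0x0) (nat_lit 0x300018000800000000600600001800000000000000000000000000) := T_50 (nat_lit 107) (nat_lit 108) (nat_lit 3) (nat_lit 5) (nat_lit 6) L133534 (by decide +kernel)
theorem L133536 : W_50 (nat_lit 7) (nat_lit 0x400030001800080006000000000000000000000000000) (nat_lit 0x0) (nat_lit 0x300018000800000000600700009800000000000000000000000000) := T_50 (nat_lit 128) (nat_lit 111) (nat_lit 6) (nat_lit 8) (nat_lit 10) L133535 (by decide +kernel)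
theorem L133537 : W_50 (nat_lit 8) (nat_lit 0x30001800080006000000000000000000000000000) (nat_lit 0x0) (nat_lit 0x300018000c00000000600740009800000000000000000000000000) := T_50 (nat_lit 178) (nat_lit 126) (nat_lit 7) (nat_lit 7) (nat_lit 6) L133536 (by decide +kernel)
theorem L133538 : W_50 (nat_lit 9) (nat_lit 0x30001000080006000000000000000000000000000) (nat_lit 0x0) (nat_lit 0x300018000c00000000e00740009800200000000000000000000000) := T_50 (nat_lit 143) (nat_lit 93) (nat_lit 5) (nat_lit 8) (nat_lit 5) L133537 (by decide +kernel)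
theorem L133539 : W_50 (nat_lit 10) (nat_lit 0x20001000080006000000000000000000000000000) (nat_lit 0x0) (nat_lit 0x300018000e00010000e00740009800200000000000000000000000) := T_50 (nat_lit 160) (nat_lit 177) (nat_lit 5) (nat_lit 8) (nat_lit 6) L133538 (by decide +kernel)
theorem L133540 : W_50 (nat_lit 11) (nat_lit 0x20001000080004000000000000000000000000000) (nat_lit 0x0) (nat_lit 0x300018000e00010000e0074000b800300000000000000000000000) := T_50 (nat_lit 109) (nat_lit 92) (nat_lit 4) (nat_lit 8) (nat_lit 9) L133539 (by decide +kernel)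
theorem L133541 : W_50 (nat_lit 12) (nat_lit 0x1000080004000000000000000000000000000) (nat_lit 0x0) (nat_lit 0x300018000f000fe000e0074000bc00380000000000000000000000) := Q_50 (nat_lit 161) (C_50 L100247 (C_50 L638 (C_50 L133540 (C_50 L76128 N_50)))) (by decide +kernel)
theorem L133542 : W_50 (nat_lit 10) (nat_lit 0x1000080004000000000000000000000000000) (nat_lit 0x0) (nat_lit 0x10000f000fe000e00140003c00380000000000000000000000) := Q_50 (nat_lit 161) (C_50 L76128 (C_50 L638 (C_50 L100247 N_50))) (by decide +kernel)
theorem L133543 : W_50 (nat_lit 14) (nat_lit 0x1000080000000000000000000000000000000) (nat_lit 0x0) (nat_lit 0x300018003f001fe00ce0077803fc01fe00fe001400000000000000) := Q_50 (nat_lit 110) (C_50 L133457 (C_50 L133473 (C_50 L133474 (C_50 L133475 (C_50 L133530 (C_50 L133541 (C_50 L133542 N_50))))))) (by decide +kernel)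
end Crest.Agent.Helper32.Snaky.R1_0
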