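import Crest.Agent.Helper32.Snaky.Gen.R1_0_p5
set_option autoImplicit false
set_option maxRecDepth 100000
set_option linter.all false
set_option Elab.async false
namespace Crest.Agent.Helper32.Snaky.R1_0
@[reducible] def W_6 (d M Bz Z : Nat) : Prop := Crest.Agent.Helper32.Snaky.Wins (nat_lit 17) d M Bz Z
theorem D_6 {d M Bz Z : Nat} (m t1 t2 o1 x1 y1 o2 x2 y2 : Nat) (h : Crest.Agent.Helper32.Snaky.chkDoubleC (nat_lit 17) d M Bz Z m t1 t2 o1 x1 y1 o2 x2 y2 = true) : W_6 d M Bz Z := Crest.Agent.Helper32.Snaky.doubleC m t1 t2 o1 x1 y1 o2 x2 y2 h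
theorem T_6 {d M Bz Z cd cM cBz cZ : Nat} (m t o x y : Nat) (child : W_6 cd cM cBz cZ) (h : Crest.Agent.Helper32.Snaky.chkThreatC (nat_lit 17) d M Bz Z cd cM cBz cZ m t o x y = true) : W_6 d M Bz Z := Crest.Agent.Helper32.Snaky.threatC m t o x y child h
theorem Q_6 {d M Bz Z : Nat} (m : Nat) {l : List Crest.Agent.Helper32.Snaky.Spec} (kids : Crest.Agent.Helper32.Snaky.AllWins (nat_lit 17) l) (h : Crest.Agent.Helper32.Snaky.chkQuiet d M Bz Z m l = true) : W_6 d M Bz Z := Crest.Agent.Helper32.Snaky.quiet m kids h
theorem C_6 {cd cM cBz cZ : Nat} {l : List Crest.Agent.Helper32.Snaky.Spec} (h : W_6 cd cM cBz cZ) (hl : Crest.Agent.Helper32.Snaky.AllWins (nat_lit 17) l) : Crest.Agent.Helper32.Snaky.AllWins (nat_lit 17) ((cd, cM, cBz, cZ) :: l) := Crest.Agent.Helper32.Snaky.AllWins.cons h hl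
theorem N_6 : Crest.Agent.Helper32.Snaky.AllWins (nat_lit 17) [] := Crest.Agent.Helper32.Snaky.AllWins.nil
theorem L45439 : W_6 (nat_lit 3) (nat_lit 0x2000120013c009a000e00000000000000000000000000) (nat_lit 0x0) (nat_lit 0x20001000000000000180008000000000000000000000) := T_6 (nat_lit 104) (nat_lit 103) (nat_lit 3) (nat_lit 1) (nat_lit 6) L45438 (by decide +kernel)
theorem L45440 : W_6 (nat_lit 4) (nat_lit 0x2000120013c009a000c00000000000000000000000000) (nat_lit 0x0) (nat_lit 0x20001000000000000380018000000000000000000000) := T_6 (nat_lit 105) (nat_lit 88) (nat_lit 4) (nat_lit 4) (nat_lit 9) L45439 (by decide +kernel)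
theorem L45441 : W_6 (nat_lit 5) (nat_lit 0x2000120013c0098000c00000000000000000000000000) (nat_lit 0x0) (nat_lit 0x20001000000003000380018000000000000000000000) := T_6 (nat_lit 121) (nat_lit 120) (nat_lit 0) (nat_lit 5) (nat_lit 8) L45440 (by decide +kernel)
theorem L45442 : W_6 (nat_lit 6) (nat_lit 0x2000120013c0098000400000000000000000000000000) (nat_lit 0x0) (nat_lit 0x20001000000003000b80058000000000000000000000) := T_6 (nat_lit 107) (nat_lit 90) (nat_lit 6) (nat_lit 4) (nat_lit 9) L45441 (by decide +kernel)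
theorem L45443 : W_6 (nat_lit 7) (nat_lit 0x200012001380098000400000000000000000000000000) (nat_lit 0x0) (nat_lit 0x20001000060003000b80058000000000000000000000) := T_6 (nat_lit 138) (nat_lit 137) (nat_lit 2) (nat_lit 1) (nat_lit 8) L45442 (by decide +kernel)
theorem L45444 : W_6 (nat_lit 2) (nat_lit 0x5002100128013c009a000600040000000000000000000000) (nat_lit 0x0) (nat_lit 0xa000200000000000000000000000000000000000000000000000) := D_6 (nat_lit 189) (nat_lit 207) (nat_lit 205) (nat_lit 7) (nat_lit 2) (nat_lit 8) (nat_lit 5) (nat_lit 2) (nat_lit 8) (by decide +kernel)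
theorem L45445 : W_6 (nat_lit 3) (nat_lit 0x4002100128013c009a000600040000000000000000000000) (nat_lit 0x0) (nat_lit 0xa000300008000000000000000000000000000000000000000000) := T_6 (nat_lit 188) (nat_lit 171) (nat_lit 5) (nat_lit 2) (nat_lit 7) L45444 (by decide +kernel)
theorem L45446 : W_6 (nat_lit 4) (nat_lit 0x2100128013c009a000600040000000000000000000000) (nat_lit 0x0) (nat_lit 0xa000700028000000000000000000000000000000000000000000) := T_6 (nat_lit 190) (nat_lit 173) (nat_lit 7) (nat_lit 2) (nat_lit 7) L45445 (by decide +kernel)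
theorem L45447 : W_6 (nat_lit 5) (nat_lit 0x2000128013c009a000600040000000000000000000000) (nat_lit 0x0) (nat_lit 0xa000700038000000000004000000000000000000000000000000) := T_6 (nat_lit 172) (nat_lit 122) (nat_lit 6) (nat_lit 2) (nat_lit 10) L45446 (by decide +kernel)
theorem L45448 : W_6 (nat_lit 6) (nat_lit 0x2000128013c0098000600040000000000000000000000) (nat_lit 0x0) (nat_lit 0xa000700038000000000007000000000000000000000000000000) := T_6 (nat_lit 121) (nat_lit 120) (nat_lit 0) (nat_lit 5) (nat_lit 8) L45447 (by decide +kernel)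
theorem L45449 : W_6 (nat_lit 7) (nat_lit 0x2000128013c0098000400040000000000000000000000) (nat_lit 0x0) (nat_lit 0xa000700038000000000007000200010000000000000000000000) := T_6 (nat_lit 105) (nat_lit 88) (nat_lit 4) (nat_lit 4) (nat_lit 9) L45448 (by decide +kernel)
theorem L45450 : W_6 (nat_lit 8) (nat_lit 0x2000120013c0098000400040000000000000000000000) (nat_lit 0x0) (nat_lit 0xa000700038000c00000007000200010000000000000000000000) := T_6 (nat_lit 155) (nat_lit 154) (nat_lit 1) (nat_lit 5) (nat_lit 8) L45449 (by decide +kernel)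
theorem L45451 : W_6 (nat_lit 9) (nat_lit 0x2000120013c0098000400000000000000000000000000) (nat_lit 0x0) (nat_lit 0xa000700038000c00000007000a00050000000000000000000000) := T_6 (nat_lit 90) (nat_lit 107) (nat_lit 6) (nat_lit 4) (nat_lit 9) L45450 (by decide +kernel)
theorem L45452 : W_6 (nat_lit 10) (nat_lit 0x200012001380098000400000000000000000000000000) (nat_lit 0x0) (nat_lit 0xa000700038000c00060007000a00050000000000000000000000) := T_6 (nat_lit 138) (nat_lit 137) (nat_lit 2) (nat_lit 1) (nat_lit 8) L45451 (by decide +kernel)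
theorem L45453 : W_6 (nat_lit 2) (nat_lit 0x200013401380098000700008000000000000000000000) (nat_lit 0x0) (nat_lit 0x800044000000000000000000000) := D_6 (nat_lit 107) (nat_lit 90) (nat_lit 86) (nat_lit 6) (nat_lit 4) (nat_lit 9) (nat_lit 0) (nat_lit 5) (nat_lit 6) (by decide +kernel)
theorem L45454 : W_6 (nat_lit 3) (nat_lit 0x200013401380098000700000000000000000000000000) (nat_lit 0x0) (nat_lit 0x400080004c000000000000000000000) := T_6 (nat_lit 87) (nat_lit 122) (nat_lit 4) (nat_lit 3) (nat_lit 9) L45453 (by decide +kernel)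
theorem L45455 : W_6 (nat_lit 4) (nat_lit 0x200013001380098000700000000000000000000000000) (nat_lit 0x0) (nat_lit 0xc0000000400080004c000000000000000000000) := T_6 (nat_lit 154) (nat_lit 155) (nat_lit 2) (nat_lit 1) (nat_lit 9) L45454 (by decide +kernel)
theorem L45456 : W_6 (nat_lit 5) (nat_lit 0x200012001380098000700000000000000000000000000) (nat_lit 0x0) (nat_lit 0x20001c0000000400080004c000000000000000000000) := T_6 (nat_lit 156) (nat_lit 173) (nat_lit 5) (nat_lit 4) (nat_lit 6) L45455 (by decide +kernel)
theorem L45457 : W_6 (nat_lit 6) (nat_lit 0x200012001380098000600000000000000000000000000) (nat_lit 0x0) (nat_lit 0x20001c0000000400098004c000000000000000000000) := T_6 (nat_lit 104) (nat_lit 103) (nat_lit 3) (nat_lit 1) (nat_lit 6) L45456 (by decide +kernel)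
theorem L45458 : W_6 (nat_lit 7) (nat_lit 0x200012001380098000400000000000000000000000000) (nat_lit 0x0) (nat_lit 0x20001c00000004000b8005c000000000000000000000) := T_6 (nat_lit 105) (nat_lit 88) (nat_lit 4) (nat_lit 4) (nat_lit 9) L45457 (by decide +kernel)
theorem L45459 : W_6 (nat_lit 2) (nat_lit 0x2000138013a009c000600000000000000000000000000) (nat_lit 0x0) (nat_lit 0x180008000000000000000000000) := D_6 (nat_lit 104) (nat_lit 103) (nat_lit 87) (nat_lit 3) (nat_lit 1) (nat_lit 6) (nat_lit 4) (nat_lit 3) (nat_lit 9) (by decide +kernel)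
theorem L45460 : W_6 (nat_lit 3) (nat_lit 0x2000138013a0098000600000000000000000000000000) (nat_lit 0x0) (nat_lit 0x10000000000004000180008000000000000000000000) := T_6 (nat_lit 122) (nat_lit 172) (nat_lit 5) (nat_lit 3) (nat_lit 6) L45459 (by decide +kernel)
theorem L45461 : W_6 (nat_lit 4) (nat_lit 0x2000138013a0098000400000000000000000000000000) (nat_lit 0x0) (nat_lit 0x10000000000004000380018000000000000000000000) := T_6 (nat_lit 105) (nat_lit 88) (nat_lit 4) (nat_lit 4) (nat_lit 9) L45460 (by decide +kernel)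
theorem L45462 : W_6 (nat_lit 5) (nat_lit 0x2000130013a0098000400000000000000000000000000) (nat_lit 0x0) (nat_lit 0x10000c00000004000380018000000000000000000000) := T_6 (nat_lit 155) (nat_lit 154) (nat_lit 2) (nat_lit 1) (nat_lit 9) L45461 (by decide +kernel)
theorem L45463 : W_6 (nat_lit 6) (nat_lit 0x2000120013a0098000400000000000000000000000000) (nat_lit 0x0) (nat_lit 0x30001c00000004000380018000000000000000000000) := T_6 (nat_lit 156) (nat_lit 173) (nat_lit 5) (nat_lit 4) (nat_lit 6) L45462 (by decide +kernel)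
theorem L45464 : W_6 (nat_lit 7) (nat_lit 0x200012001380098000400000000000000000000000000) (nat_lit 0x0) (nat_lit 0x30001c00060004000380018000000000000000000000) := T_6 (nat_lit 137) (nat_lit 138) (nat_lit 2) (nat_lit 1) (nat_lit 8) L45463 (by decide +kernel)
theorem L45465 : W_6 (nat_lit 2) (nat_lit 0x2000138013c009a000d00000000000000000000000000) (nat_lit 0x0) (nat_lit 0x4000080004000000000000000000000) := D_6 (nat_lit 103) (nat_lit 86) (nat_lit 122) (nat_lit 4) (nat_lit 2) (nat_lit 9) (nat_lit 0) (nat_lit 5) (nat_lit 7) (by decide +kernel)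
theorem L45466 : W_6 (nat_lit 3) (nat_lit 0x2000138013c009a000c00000000000000000000000000) (nat_lit 0x0) (nat_lit 0x400018000c000000000000000000000) := T_6 (nat_lit 104) (nat_lit 87) (nat_lit 7) (nat_lit 2) (nat_lit 5) L45465 (by decide +kernel)
theorem L45467 : W_6 (nat_lit 4) (nat_lit 0x2000138013c0098000c00000000000000000000000000) (nat_lit 0x0) (nat_lit 0x700018000c000000000000000000000) := T_6 (nat_lit 121) (nat_lit 120) (nat_lit 0) (nat_lit 5) (nat_lit 8) L45466 (by decide +kernel)
theorem L45468 : W_6 (nat_lit 5) (nat_lit 0x2000130013c0098000c00000000000000000000000000) (nat_lit 0x0) (nat_lit 0xc0000000700018000c000000000000000000000) := T_6 (nat_lit 155) (nat_lit 154) (nat_lit 2) (nat_lit 1) (nat_lit 9) L45467 (by decide +kernel)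
theorem L45469 : W_6 (nat_lit 6) (nat_lit 0x2000120013c0098000c00000000000000000000000000) (nat_lit 0x0) (nat_lit 0x20001c0000000700018000c000000000000000000000) := T_6 (nat_lit 156) (nat_lit 173) (nat_lit 5) (nat_lit 4) (nat_lit 6) L45468 (by decide +kernel)
theorem L45470 : W_6 (nat_lit 7) (nat_lit 0x200012001380098000c00000000000000000000000000) (nat_lit 0x0) (nat_lit 0x20001c0006000700018000c000000000000000000000) := T_6 (nat_lit 138) (nat_lit 137) (nat_lit 2) (nat_lit 1) (nat_lit 8) L45469 (by decide +kernel)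
theorem L45471 : W_6 (nat_lit 8) (nat_lit 0x200012001380098000400000000000000000000000000) (nat_lit 0x0) (nat_lit 0x20001c0006000700098004c000000000000000000000) := T_6 (nat_lit 107) (nat_lit 90) (nat_lit 6) (nat_lit 4) (nat_lit 9) L45470 (by decide +kernel)
theorem L45472 : W_6 (nat_lit 2) (nat_lit 0x2000120013a009a000f00008000000000000000000000) (nat_lit 0x0) (nat_lit 0x1000000004000000000000400000000000000000) := D_6 (nat_lit 122) (nat_lit 156) (nat_lit 70) (nat_lit 4) (nat_lit 3) (nat_lit 9) (nat_lit 7) (nat_lit 2) (nat_lit 4) (by decide +kernel)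
theorem L45473 : W_6 (nat_lit 3) (nat_lit 0x2000120013a009a000f00000000000000000000000000) (nat_lit 0x0) (nat_lit 0x100000000400000000c000400000000000000000) := T_6 (nat_lit 87) (nat_lit 86) (nat_lit 0) (nat_lit 5) (nat_lit 6) L45472 (by decide +kernel)
theorem L45474 : W_6 (nat_lit 4) (nat_lit 0x20001200138009a000f00000000000000000000000000) (nat_lit 0x0) (nat_lit 0x100006000400000000c000400000000000000000) := T_6 (nat_lit 137) (nat_lit 138) (nat_lit 2) (nat_lit 1) (nat_lit 8) L45473 (by decide +kernel)
theorem L45475 : W_6 (nat_lit 5) (nat_lit 0x200012001380098000f00000000000000000000000000) (nat_lit 0x0) (nat_lit 0x100006000700000000c000400000000000000000) := T_6 (nat_lit 121) (nat_lit 120) (nat_lit 1) (nat_lit 5) (nat_lit 6) L45474 (by decide +kernel)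
theorem L45476 : W_6 (nat_lit 6) (nat_lit 0x200012001380098000700000000000000000000000000) (nat_lit 0x0) (nat_lit 0x100006000700080004c000400000000000000000) := T_6 (nat_lit 107) (nat_lit 90) (nat_lit 6) (nat_lit 4) (nat_lit 9) L45475 (by decide +kernel)
theorem L45477 : W_6 (nat_lit 7) (nat_lit 0x200012001380098000600000000000000000000000000) (nat_lit 0x0) (nat_lit 0x100006000700098004c000400000000000000000) := T_6 (nat_lit 104) (nat_lit 103) (nat_lit 3) (nat_lit 1) (nat_lit 6) L45476 (by decide +kernel)
theorem L45478 : W_6 (nat_lit 8) (nat_lit 0x200012001380098000400000000000000000000000000) (nat_lit 0x0) (nat_lit 0x1000060007000b8005c000400000000000000000) := T_6 (nat_lit 105) (nat_lit 88) (nat_lit 4) (nat_lit 4) (nat_lit 9) L45477 (by decide +kernel)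
theorem L45479 : W_6 (nat_lit 11) (nat_lit 0x200010001380098000400000000000000000000000000) (nat_lit 0x0) (nat_lit 0xa000700038003c00060007000b8005c000400000000000000000) := Q_6 (nat_lit 157) (C_6 L45443 (C_6 L45452 (C_6 L45458 (C_6 L45464 (C_6 L45471 (C_6 L45478 N_6)))))) (by decide +kernel)
theorem L45480 : W_6 (nat_lit 12) (nat_lit 0x200010001380098000000000000000000000000000000) (nat_lit 0x0) (nat_lit 0xa000700038003c00060007000f800fc003c00000000000000000) := Q_6 (nat_lit 106) (C_6 L45097 (C_6 L45253 (C_6 L45064 (C_6 L45479 N_6)))) (by decide +kernel)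
theorem L45481 : W_6 (nat_lit 13) (nat_lit 0x200010001300098000000000000000000000000000000) (nat_lit 0x0) (nat_lit 0xa00270013802bc008e0067002f803fc00fc00040000000000000) := Q_6 (nat_lit 139) (C_6 L45437 (C_6 L45312 (C_6 L45480 N_6))) (by decide +kernel)
theorem L45482 : W_6 (nat_lit 2) (nat_lit 0x2000134013a0098000f00000000000000000000000000) (nat_lit 0x0) (nat_lit 0x400000000c000000000000000000000) := D_6 (nat_lit 87) (nat_lit 86) (nat_lit 122) (nat_lit 0) (nat_lit 5) (nat_lit 6) (nat_lit 4) (nat_lit 3) (nat_lit 9) (by decide +kernel)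
theorem L45483 : W_6 (nat_lit 3) (nat_lit 0x2000134013a0098000e00000000000000000000000000) (nat_lit 0x0) (nat_lit 0x400018000c000000000000000000000) := T_6 (nat_lit 104) (nat_lit 103) (nat_lit 3) (nat_lit 1) (nat_lit 6) L45482 (by decide +kernel)
theorem L45484 : W_6 (nat_lit 4) (nat_lit 0x2000130013a0098000e00000000000000000000000000) (nat_lit 0x0) (nat_lit 0xc0000000400018000c000000000000000000000) := T_6 (nat_lit 154) (nat_lit 155) (nat_lit 2) (nat_lit 1) (nat_lit 9) L45483 (by decide +kernel)
theorem L45485 : W_6 (nat_lit 5) (nat_lit 0x2000120013a0098000e00000000000000000000000000) (nat_lit 0x0) (nat_lit 0x20001c0000000400018000c000000000000000000000) := T_6 (nat_lit 156) (nat_lit 173) (nat_lit 5) (nat_lit 4) (nat_lit 6) L45484 (by decide +kernel)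
theorem L45486 : W_6 (nat_lit 6) (nat_lit 0x2000100013a0098000e00000000000000000000000000) (nat_lit 0x0) (nat_lit 0x20003c0000000400018001c000000000000000000000) := T_6 (nat_lit 157) (nat_lit 88) (nat_lit 4) (nat_lit 4) (nat_lit 9) L45485 (by decide +kernel)
theorem L45487 : W_6 (nat_lit 7) (nat_lit 0x200010001380098000e00000000000000000000000000) (nat_lit 0x0) (nat_lit 0x20003c0006000400018001c000000000000000000000) := T_6 (nat_lit 137) (nat_lit 138) (nat_lit 2) (nat_lit 1) (nat_lit 8) L45486 (by decide +kernel)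
theorem L45488 : W_6 (nat_lit 2) (nat_lit 0x2000108013c0098001e80110000000040000000000000) (nat_lit 0x0) (nat_lit 0x40002000200000000000000000000000) := D_6 (nat_lit 109) (nat_lit 126) (nat_lit 93) (nat_lit 3) (nat_lit 4) (nat_lit 6) (nat_lit 2) (nat_lit 4) (nat_lit 6) (by decide +kernel)
theorem L45489 : W_6 (nat_lit 3) (nat_lit 0x2000108013c0098001e80010000000040000000000000) (nat_lit 0x0) (nat_lit 0x40002000380000000000000000000000) := T_6 (nat_lit 92) (nat_lit 91) (nat_lit 2) (nat_lit 3) (nat_lit 6) L45488 (by decide +kernel)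
theorem L45490 : W_6 (nat_lit 4) (nat_lit 0x2000108013c0098001e80010000000000000000000000) (nat_lit 0x0) (nat_lit 0x40002000380000800040000000000000) := T_6 (nat_lit 54) (nat_lit 71) (nat_lit 7) (nat_lit 3) (nat_lit 3) L45489 (by decide +kernel)
theorem L45491 : W_6 (nat_lit 5) (nat_lit 0x2000108013c0098000e80010000000000000000000000) (nat_lit 0x0) (nat_lit 0x40003000388000800040000000000000) := T_6 (nat_lit 108) (nat_lit 87) (nat_lit 0) (nat_lit 6) (nat_lit 6) L45490 (by decide +kernel)
theorem L45492 : W_6 (nat_lit 6) (nat_lit 0x2000108013c0098000e80000000000000000000000000) (nat_lit 0x0) (nat_lit 0x44003000398000800040000000000000) := T_6 (nat_lit 88) (nat_lit 122) (nat_lit 5) (nat_lit 3) (nat_lit 5) L45491 (by decide +kernel)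
theorem L45493 : W_6 (nat_lit 7) (nat_lit 0x2000100013c0098000e80000000000000000000000000) (nat_lit 0x0) (nat_lit 0xc00000044003000398000800040000000000000) := T_6 (nat_lit 155) (nat_lit 154) (nat_lit 1) (nat_lit 5) (nat_lit 8) L45492 (by decide +kernel)
theorem L45494 : W_6 (nat_lit 8) (nat_lit 0x200010001380098000e80000000000000000000000000) (nat_lit 0x0) (nat_lit 0xc00060044003000398000800040000000000000) := T_6 (nat_lit 138) (nat_lit 137) (nat_lit 2) (nat_lit 1) (nat_lit 8) L45493 (by decide +kernel)
theorem L45495 : W_6 (nat_lit 9) (nat_lit 0x200010001380098000e00000000000000000000000000) (nat_lit 0x0) (nat_lit 0xc00060044003180398000800040000000000000) := T_6 (nat_lit 103) (nat_lit 104) (nat_lit 3) (nat_lit 1) (nat_lit 6) L45494 (by decide +kernel)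
theorem L45496 : W_6 (nat_lit 2) (nat_lit 0x2000110013a0098000f00008000000000000000000000) (nat_lit 0x0) (nat_lit 0x400020002000000000000000000000000000000000000000) := D_6 (nat_lit 173) (nat_lit 157) (nat_lit 190) (nat_lit 5) (nat_lit 4) (nat_lit 6) (nat_lit 6) (nat_lit 3) (nat_lit 11) (by decide +kernel)
theorem L45497 : W_6 (nat_lit 3) (nat_lit 0x2000100013a0098000f00008000000000000000000000) (nat_lit 0x0) (nat_lit 0x400020003000000004000000000000000000000000000000) := T_6 (nat_lit 156) (nat_lit 122) (nat_lit 4) (nat_lit 3) (nat_lit 9) L45496 (by decide +kernel)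
theorem L45498 : W_6 (nat_lit 4) (nat_lit 0x2000100013a0098000f00000000000000000000000000) (nat_lit 0x0) (nat_lit 0x40002000300000000400000000c000000000000000000000) := T_6 (nat_lit 87) (nat_lit 86) (nat_lit 0) (nat_lit 5) (nat_lit 6) L45497 (by decide +kernel)
theorem L45499 : W_6 (nat_lit 5) (nat_lit 0x2000100013a0098000e00000000000000000000000000) (nat_lit 0x0) (nat_lit 0x40002000300000000400018000c000000000000000000000) := T_6 (nat_lit 104) (nat_lit 103) (nat_lit 3) (nat_lit 1) (nat_lit 6) L45498 (by decide +kernel)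
theorem L45500 : W_6 (nat_lit 6) (nat_lit 0x200010001380098000e00000000000000000000000000) (nat_lit 0x0) (nat_lit 0x40002000300006000400018000c000000000000000000000) := T_6 (nat_lit 137) (nat_lit 138) (nat_lit 2) (nat_lit 1) (nat_lit 8) L45499 (by decide +kernel)
theorem L45501 : W_6 (nat_lit 2) (nat_lit 0x200010001380098000e80010000000000000000000000) (nat_lit 0x0) (nat_lit 0x4000000000000800040000000000000) := D_6 (nat_lit 71) (nat_lit 54) (nat_lit 122) (nat_lit 7) (nat_lit 3) (nat_lit 3) (nat_lit 7) (nat_lit 3) (nat_lit 4) (by decide +kernel)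
theorem L45502 : W_6 (nat_lit 3) (nat_lit 0x200010001380098000e80000000000000000000000000) (nat_lit 0x0) (nat_lit 0x2000000004000000010000800040000000000000) := T_6 (nat_lit 88) (nat_lit 157) (nat_lit 4) (nat_lit 4) (nat_lit 9) L45501 (by decide +kernel)
theorem L45503 : W_6 (nat_lit 4) (nat_lit 0x200010001380098000e00000000000000000000000000) (nat_lit 0x0) (nat_lit 0x2000000004000180010000800040000000000000) := T_6 (nat_lit 103) (nat_lit 104) (nat_lit 3) (nat_lit 1) (nat_lit 6) L45502 (by decide +kernel)
theorem L45504 : W_6 (nat_lit 10) (nat_lit 0x200010001380098000c00000000000000000000000000) (nat_lit 0x0) (nat_lit 0x400020003c0006004400338039c000800040000000000000) := Q_6 (nat_lit 105) (C_6 L45299 (C_6 L45487 (C_6 L45275 (C_6 L45495 (C_6 L45500 (C_6 L45503 N_6)))))) (by decide +kernel)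
theorem L45505 : W_6 (nat_lit 11) (nat_lit 0x200010001380098000400000000000000000000000000) (nat_lit 0x0) (nat_lit 0x400020003c00060044003b803dc006800040000000000000) := Q_6 (nat_lit 107) (C_6 L45309 (C_6 L45055 (C_6 L45504 N_6))) (by decide +kernel)
theorem L45506 : W_6 (nat_lit 12) (nat_lit 0x200010001380098000000000000000000000000000000) (nat_lit 0x0) (nat_lit 0x400020003c00060044003f803fc007800040000000000000) := Q_6 (nat_lit 106) (C_6 L45097 (C_6 L45253 (C_6 L45064 (C_6 L45505 N_6)))) (by decide +kernel)
theorem L45507 : W_6 (nat_lit 13) (nat_lit 0x200010001300098000000000000000000000000000000) (nat_lit 0x0) (nat_lit 0x240012002bc008e0064003f803fc00f800040000000000000) := Q_6 (nat_lit 139) (C_6 L45437 (C_6 L45312 (C_6 L45506 N_6))) (by decide +kernel)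
theorem L45508 : W_6 (nat_lit 3) (nat_lit 0x2000100013800d8000400070000000000000000000000) (nat_lit 0x0) (nat_lit 0x200000000000180000c000000000000000000000) := T_6 (nat_lit 107) (nat_lit 157) (nat_lit 6) (nat_lit 4) (nat_lit 9) L42199 (by decide +kernel)
theorem L45509 : W_6 (nat_lit 4) (nat_lit 0x2000100013800d8000400030000000000000000000000) (nat_lit 0x0) (nat_lit 0x200000000000180004c002000000000000000000) := T_6 (nat_lit 90) (nat_lit 73) (nat_lit 6) (nat_lit 4) (nat_lit 8) L45508 (by decide +kernel)
theorem L45510 : W_6 (nat_lit 5) (nat_lit 0x2000100013800d8000400020000000000000000000000) (nat_lit 0x0) (nat_lit 0x200000000000180005c002800000000000000000) := T_6 (nat_lit 88) (nat_lit 71) (nat_lit 4) (nat_lit 4) (nat_lit 8) L45509 (by decide +kernel)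
theorem L45511 : W_6 (nat_lit 6) (nat_lit 0x2000100013800d8000400000000000000000000000000) (nat_lit 0x0) (nat_lit 0x200000000000180007c003800000000000000000) := T_6 (nat_lit 89) (nat_lit 72) (nat_lit 7) (nat_lit 4) (nat_lit 4) L45510 (by decide +kernel)
theorem L45512 : W_6 (nat_lit 7) (nat_lit 0x200010001380098000400000000000000000000000000) (nat_lit 0x0) (nat_lit 0x200000006000180007c003800000000000000000) := T_6 (nat_lit 126) (nat_lit 125) (nat_lit 1) (nat_lit 7) (nat_lit 7) L45511 (by decide +kernel)
theorem L45513 : W_6 (nat_lit 7) (nat_lit 0x200010001380098000400000000000000000000000000) (nat_lit 0x0) (nat_lit 0x200010002a00080006000380014000a000000000000000000) := Q_6 (nat_lit 107) (C_6 L45136 (C_6 L45055 N_6)) (by decide +kernel)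
theorem L45514 : W_6 (nat_lit 8) (nat_lit 0x200010001380098000000000000000000000000000000) (nat_lit 0x0) (nat_lit 0x200010002b000800060003c0017c00b800000000000000000) := Q_6 (nat_lit 106) (C_6 L45064 (C_6 L45512 (C_6 L45513 N_6))) (by decide +kernel)
theorem L45515 : W_6 (nat_lit 2) (nat_lit 0x2000100013a0098000c00070000000000000000000000) (nat_lit 0x0) (nat_lit 0x100000c000000000000000000000) := D_6 (nat_lit 87) (nat_lit 108) (nat_lit 86) (nat_lit 3) (nat_lit 2) (nat_lit 5) (nat_lit 3) (nat_lit 1) (nat_lit 5) (by decide +kernel)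
theorem L45516 : W_6 (nat_lit 3) (nat_lit 0x2000100013a0098000400070000000000000000000000) (nat_lit 0x0) (nat_lit 0x200000000000180000c000000000000000000000) := T_6 (nat_lit 107) (nat_lit 157) (nat_lit 6) (nat_lit 4) (nat_lit 9) L45515 (by decide +kernel)
theorem L45517 : W_6 (nat_lit 4) (nat_lit 0x2000100013a0098000400030000000000000000000000) (nat_lit 0x0) (nat_lit 0x200000000000180004c002000000000000000000) := T_6 (nat_lit 90) (nat_lit 73) (nat_lit 6) (nat_lit 4) (nat_lit 8) L45516 (by decide +kernel)
theorem L45518 : W_6 (nat_lit 5) (nat_lit 0x2000100013a0098000400020000000000000000000000) (nat_lit 0x0) (nat_lit 0x200000000000180005c002800000000000000000) := T_6 (nat_lit 88) (nat_lit 71) (nat_lit 4) (nat_lit 4) (nat_lit 8) L45517 (by decide +kernel)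
theorem L45519 : W_6 (nat_lit 6) (nat_lit 0x2000100013a0098000400000000000000000000000000) (nat_lit 0x0) (nat_lit 0x200000000000180007c003800000000000000000) := T_6 (nat_lit 89) (nat_lit 72) (nat_lit 7) (nat_lit 4) (nat_lit 4) L45518 (by decide +kernel)
theorem L45520 : W_6 (nat_lit 7) (nat_lit 0x200010001380098000400000000000000000000000000) (nat_lit 0x0) (nat_lit 0x200006000000180007c003800000000000000000) := T_6 (nat_lit 137) (nat_lit 138) (nat_lit 2) (nat_lit 1) (nat_lit 8) L45519 (by decide +kernel)
theorem L45521 : W_6 (nat_lit 2) (nat_lit 0x2000108013c009e000d00000002000000000000000000) (nat_lit 0x0) (nat_lit 0x20001000000000000000008000000000000000000000) := D_6 (nat_lit 156) (nat_lit 173) (nat_lit 87) (nat_lit 7) (nat_lit 2) (nat_lit 6) (nat_lit 7) (nat_lit 2) (nat_lit 5) (by decide +kernel)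
theorem L45522 : W_6 (nat_lit 3) (nat_lit 0x2000108013c009e000c00000002000000000000000000) (nat_lit 0x0) (nat_lit 0x20001000000000000180008000000000000000000000) := T_6 (nat_lit 104) (nat_lit 103) (nat_lit 0) (nat_lit 5) (nat_lit 7) L45521 (by decide +kernel)
theorem L45523 : W_6 (nat_lit 4) (nat_lit 0x2000108013c009a000c00000002000000000000000000) (nat_lit 0x0) (nat_lit 0x20001000000004001180008000000000000000000000) := T_6 (nat_lit 122) (nat_lit 108) (nat_lit 2) (nat_lit 2) (nat_lit 7) L45522 (by decide +kernel)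
theorem L45524 : W_6 (nat_lit 5) (nat_lit 0x2000108013c0098000c00000002000000000000000000) (nat_lit 0x0) (nat_lit 0x20001000000007001180008000000000000000000000) := T_6 (nat_lit 121) (nat_lit 120) (nat_lit 0) (nat_lit 5) (nat_lit 8) L45523 (by decide +kernel)
theorem L45525 : W_6 (nat_lit 6) (nat_lit 0x2000100013c0098000c00000002000000000000000000) (nat_lit 0x0) (nat_lit 0x20001c00000007001180008000000000000000000000) := T_6 (nat_lit 155) (nat_lit 154) (nat_lit 1) (nat_lit 5) (nat_lit 8) L45524 (by decide +kernel)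
theorem L45526 : W_6 (nat_lit 7) (nat_lit 0x2000100013c0098000c00000000000000000000000000) (nat_lit 0x0) (nat_lit 0x20001c00000007001180048002000000000000000000) := T_6 (nat_lit 73) (nat_lit 90) (nat_lit 5) (nat_lit 5) (nat_lit 4) L45525 (by decide +kernel)
theorem L45527 : W_6 (nat_lit 8) (nat_lit 0x200010001380098000c00000000000000000000000000) (nat_lit 0x0) (nat_lit 0x20001c00060007001180048002000000000000000000) := T_6 (nat_lit 138) (nat_lit 137) (nat_lit 2) (nat_lit 1) (nat_lit 8) L45526 (by decide +kernel)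
theorem L45528 : W_6 (nat_lit 2) (nat_lit 0x2000108013c009e000d00000000000000000000000000) (nat_lit 0x0) (nat_lit 0x20001000000000000000008000000000000000000000) := D_6 (nat_lit 156) (nat_lit 173) (nat_lit 87) (nat_lit 7) (nat_lit 2) (nat_lit 6) (nat_lit 7) (nat_lit 2) (nat_lit 5) (by decide +kernel)
theorem L45529 : W_6 (nat_lit 3) (nat_lit 0x2000108013c009e000c00000000000000000000000000) (nat_lit 0x0) (nat_lit 0x20001000000000000180008000000000000000000000) := T_6 (nat_lit 104) (nat_lit 103) (nat_lit 0) (nat_lit 5) (nat_lit 7) L45528 (by decide +kernel)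
theorem L45530 : W_6 (nat_lit 4) (nat_lit 0x2000108013c009a000c00000000000000000000000000) (nat_lit 0x0) (nat_lit 0x20001000000004001180008000000000000000000000) := T_6 (nat_lit 122) (nat_lit 108) (nat_lit 2) (nat_lit 2) (nat_lit 7) L45529 (by decide +kernel)
theorem L45531 : W_6 (nat_lit 5) (nat_lit 0x2000100013c009a000c00000000000000000000000000) (nat_lit 0x0) (nat_lit 0x20001c00000004001180008000000000000000000000) := T_6 (nat_lit 155) (nat_lit 154) (nat_lit 1) (nat_lit 5) (nat_lit 8) L45530 (by decide +kernel)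
theorem L45532 : W_6 (nat_lit 6) (nat_lit 0x2000100013c0098000c00000000000000000000000000) (nat_lit 0x0) (nat_lit 0x20001c00000007001180008000000000000000000000) := T_6 (nat_lit 121) (nat_lit 120) (nat_lit 0) (nat_lit 5) (nat_lit 8) L45531 (by decide +kernel)
theorem L45533 : W_6 (nat_lit 7) (nat_lit 0x200010001380098000c00000000000000000000000000) (nat_lit 0x0) (nat_lit 0x20001c00060007001180008000000000000000000000) := T_6 (nat_lit 138) (nat_lit 137) (nat_lit 2) (nat_lit 1) (nat_lit 8) L45532 (by decide +kernel)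
theorem L45534 : W_6 (nat_lit 9) (nat_lit 0x200010001380098000400000000000000000000000000) (nat_lit 0x0) (nat_lit 0x20003c00060007001980048002000000000000000000) := Q_6 (nat_lit 107) (C_6 L45055 (C_6 L45527 (C_6 L45533 N_6))) (by decide +kernel)
theorem L45535 : W_6 (nat_lit 10) (nat_lit 0x200010001380098000000000000000000000000000000) (nat_lit 0x0) (nat_lit 0x20003c00060007001d8007c003800000000000000000) := Q_6 (nat_lit 106) (C_6 L45064 (C_6 L45520 (C_6 L45534 N_6))) (by decide +kernel)
theorem L45536 : W_6 (nat_lit 11) (nat_lit 0x200010001300098000000000000000000000000000000) (nat_lit 0x0) (nat_lit 0x200012002bc008e0067003d8017c00b800000000000000000) := Q_6 (nat_lit 139) (C_6 L45514 (C_6 L45312 (C_6 L45535 N_6))) (by decide +kernel)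
theorem L45537 : W_6 (nat_lit 6) (nat_lit 0x200010001380098000400000000000000000000000000) (nat_lit 0x0) (nat_lit 0x2000000064000380030001800000000000000000) := T_6 (nat_lit 125) (nat_lit 126) (nat_lit 1) (nat_lit 7) (nat_lit 7) L45401 (by decide +kernel)
theorem L45538 : W_6 (nat_lit 2) (nat_lit 0x2000100013800b8000600000000000000000000000000) (nat_lit 0x0) (nat_lit 0x980000000000000000000000000) := D_6 (nat_lit 104) (nat_lit 103) (nat_lit 107) (nat_lit 3) (nat_lit 1) (nat_lit 6) (nat_lit 3) (nat_lit 2) (nat_lit 6) (by decide +kernel)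
theorem L45539 : W_6 (nat_lit 3) (nat_lit 0x200010001380098000600000000000000000000000000) (nat_lit 0x0) (nat_lit 0x60000980000000000000000000000000) := T_6 (nat_lit 125) (nat_lit 126) (nat_lit 1) (nat_lit 7) (nat_lit 7) L45538 (by decide +kernel)
theorem L45540 : W_6 (nat_lit 2) (nat_lit 0x200010001380098000680010000000000000000000000) (nat_lit 0x0) (nat_lit 0x4000000000000800040000000000000) := D_6 (nat_lit 71) (nat_lit 54) (nat_lit 122) (nat_lit 7) (nat_lit 3) (nat_lit 3) (nat_lit 7) (nat_lit 3) (nat_lit 4) (by decide +kernel)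
theorem L45541 : W_6 (nat_lit 3) (nat_lit 0x200010001380098000680000000000000000000000000) (nat_lit 0x0) (nat_lit 0x2000000004000000010000800040000000000000) := T_6 (nat_lit 88) (nat_lit 157) (nat_lit 4) (nat_lit 4) (nat_lit 9) L45540 (by decide +kernel)
theorem L45542 : W_6 (nat_lit 4) (nat_lit 0x200010001380098000600000000000000000000000000) (nat_lit 0x0) (nat_lit 0x2000000004000180010000800040000000000000) := T_6 (nat_lit 103) (nat_lit 104) (nat_lit 3) (nat_lit 1) (nat_lit 6) L45541 (by decide +kernel)
theorem L45543 : W_6 (nat_lit 2) (nat_lit 0x2000138013800bc001600000000000000000000000000) (nat_lit 0x0) (nat_lit 0x3000800000000000000000000000000) := D_6 (nat_lit 121) (nat_lit 107) (nat_lit 120) (nat_lit 2) (nat_lit 2) (nat_lit 7) (nat_lit 3) (nat_lit 1) (nat_lit 7) (by decide +kernel)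
theorem L45544 : W_6 (nat_lit 3) (nat_lit 0x2000138013800bc000600000000000000000000000000) (nat_lit 0x0) (nat_lit 0x3003800000000000000000000000000) := T_6 (nat_lit 108) (nat_lit 109) (nat_lit 2) (nat_lit 3) (nat_lit 7) L45543 (by decide +kernel)
theorem L45545 : W_6 (nat_lit 4) (nat_lit 0x2000138013800b8000600000000000000000000000000) (nat_lit 0x0) (nat_lit 0x10000000000007003800000000000000000000000000) := T_6 (nat_lit 122) (nat_lit 172) (nat_lit 5) (nat_lit 3) (nat_lit 6) L45544 (by decide +kernel)
theorem L45546 : W_6 (nat_lit 5) (nat_lit 0x200013801380098000600000000000000000000000000) (nat_lit 0x0) (nat_lit 0x10000000000067003800000000000000000000000000) := T_6 (nat_lit 125) (nat_lit 126) (nat_lit 1) (nat_lit 7) (nat_lit 7) L45545 (by decide +kernel)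
theorem L45547 : W_6 (nat_lit 6) (nat_lit 0x200013001380098000600000000000000000000000000) (nat_lit 0x0) (nat_lit 0x10000c00000067003800000000000000000000000000) := T_6 (nat_lit 155) (nat_lit 154) (nat_lit 2) (nat_lit 1) (nat_lit 9) L45546 (by decide +kernel)
theorem L45548 : W_6 (nat_lit 7) (nat_lit 0x200012001380098000600000000000000000000000000) (nat_lit 0x0) (nat_lit 0x30001c00000067003800000000000000000000000000) := T_6 (nat_lit 156) (nat_lit 173) (nat_lit 5) (nat_lit 4) (nat_lit 6) L45547 (by decide +kernel)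
theorem L45549 : W_6 (nat_lit 8) (nat_lit 0x200010001380098000600000000000000000000000000) (nat_lit 0x0) (nat_lit 0x30003c00000067003800010000000000000000000000) := T_6 (nat_lit 157) (nat_lit 88) (nat_lit 4) (nat_lit 4) (nat_lit 9) L45548 (by decide +kernel)
theorem L45550 : W_6 (nat_lit 9) (nat_lit 0x200010001380098000400000000000000000000000000) (nat_lit 0x0) (nat_lit 0x30003c00000067003b80010000800040000000000000) := Q_6 (nat_lit 105) (C_6 L45539 (C_6 L45542 (C_6 L45549 N_6))) (by decide +kernel)
theorem L45551 : W_6 (nat_lit 10) (nat_lit 0x200010001380098000000000000000000000000000000) (nat_lit 0x0) (nat_lit 0x30003c00000067003f80030001800040000000000000) := Q_6 (nat_lit 106) (C_6 L45064 (C_6 L45537 (C_6 L45550 N_6))) (by decide +kernel)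
theorem L45552 : W_6 (nat_lit 7) (nat_lit 0x200010001380098000000000000000000000000000000) (nat_lit 0x0) (nat_lit 0x200030001c00060007000780038000400000000000000000) := Q_6 (nat_lit 122) (C_6 L44971 (C_6 L43499 (C_6 L44797 (C_6 L43706 N_6)))) (by decide +kernel)
theorem L45553 : W_6 (nat_lit 11) (nat_lit 0x200010001300098000000000000000000000000000000) (nat_lit 0x0) (nat_lit 0x200030003c000e0067003f80038001c00040000000000000) := Q_6 (nat_lit 139) (C_6 L45551 (C_6 L45312 (C_6 L45552 N_6))) (by decide +kernel)
theorem L45554 : W_6 (nat_lit 8) (nat_lit 0x200010001380098000000000000000000000000000000) (nat_lit 0x0) (nat_lit 0x200010002b000800060003c0016000b000000000000000000) := Q_6 (nat_lit 106) (C_6 L45513 (C_6 L45064 N_6)) (by decide +kernel)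
theorem L45555 : W_6 (nat_lit 2) (nat_lit 0x2000100013a0098000c000e0000000000000000000000) (nat_lit 0x0) (nat_lit 0x300100000000000000000000000) := D_6 (nat_lit 105) (nat_lit 104) (nat_lit 92) (nat_lit 2) (nat_lit 2) (nat_lit 6) (nat_lit 1) (nat_lit 7) (nat_lit 5) (by decide +kernel)
theorem L45556 : W_6 (nat_lit 3) (nat_lit 0x2000100013a0098000c00060000000000000000000000) (nat_lit 0x0) (nat_lit 0x300180004000000000000000000) := T_6 (nat_lit 91) (nat_lit 74) (nat_lit 6) (nat_lit 5) (nat_lit 8) L45555 (by decide +kernel)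
theorem L45557 : W_6 (nat_lit 4) (nat_lit 0x2000100013a0098000400060000000000000000000000) (nat_lit 0x0) (nat_lit 0x2000000000000b00180004000000000000000000) := T_6 (nat_lit 107) (nat_lit 157) (nat_lit 6) (nat_lit 4) (nat_lit 9) L45556 (by decide +kernel)
theorem L45558 : W_6 (nat_lit 5) (nat_lit 0x2000100013a0098000400020000000000000000000000) (nat_lit 0x0) (nat_lit 0x2000000000000b001c0006000000000000000000) := T_6 (nat_lit 90) (nat_lit 73) (nat_lit 6) (nat_lit 4) (nat_lit 8) L45557 (by decide +kernel)
theorem L45559 : W_6 (nat_lit 6) (nat_lit 0x2000100013a0098000400000000000000000000000000) (nat_lit 0x0) (nat_lit 0x2000000000000b001e0007000000000000000000) := T_6 (nat_lit 89) (nat_lit 72) (nat_lit 7) (nat_lit 4) (nat_lit 4) L45558 (by decide +kernel)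
theorem L45560 : W_6 (nat_lit 7) (nat_lit 0x200010001380098000400000000000000000000000000) (nat_lit 0x0) (nat_lit 0x2000060000000b001e0007000000000000000000) := T_6 (nat_lit 137) (nat_lit 138) (nat_lit 2) (nat_lit 1) (nat_lit 8) L45559 (by decide +kernel)
theorem L45561 : W_6 (nat_lit 10) (nat_lit 0x200010001380098000000000000000000000000000000) (nat_lit 0x0) (nat_lit 0x20003c00060007001f801e8007000000000000000000) := Q_6 (nat_lit 106) (C_6 L45064 (C_6 L45560 (C_6 L45534 N_6))) (by decide +kernel)
theorem L45562 : W_6 (nat_lit 11) (nat_lit 0x200010001300098000000000000000000000000000000) (nat_lit 0x0) (nat_lit 0x200012002bc008e0067003f801e800f000000000000000000) := Q_6 (nat_lit 139) (C_6 L45554 (C_6 L45312 (C_6 L45561 N_6))) (by decide +kernel)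
theorem L45563 : W_6 (nat_lit 9) (nat_lit 0x200010001300098000000000000000000000000000000) (nat_lit 0x0) (nat_lit 0x200011002bc008e0067003e0017000b000000000000000000) := Q_6 (nat_lit 139) (C_6 L45554 (C_6 L45422 (C_6 L45312 N_6))) (by decide +kernel)
theorem L45564 : W_6 (nat_lit 2) (nat_lit 0x200012001380098000400030000000000000000000000) (nat_lit 0x0) (nat_lit 0x800040002000000000000000000) := D_6 (nat_lit 90) (nat_lit 107) (nat_lit 73) (nat_lit 6) (nat_lit 4) (nat_lit 9) (nat_lit 6) (nat_lit 4) (nat_lit 8) (by decide +kernel)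
theorem L45565 : W_6 (nat_lit 3) (nat_lit 0x200010001380098000400030000000000000000000000) (nat_lit 0x0) (nat_lit 0x2000000000000a00040002000000000000000000) := T_6 (nat_lit 157) (nat_lit 105) (nat_lit 4) (nat_lit 4) (nat_lit 9) L45564 (by decide +kernel)
theorem L45566 : W_6 (nat_lit 4) (nat_lit 0x200010001380098000400020000000000000000000000) (nat_lit 0x0) (nat_lit 0x2000000000000a00050002800000000000000000) := T_6 (nat_lit 88) (nat_lit 71) (nat_lit 4) (nat_lit 4) (nat_lit 8) L45565 (by decide +kernel)
theorem L45567 : W_6 (nat_lit 5) (nat_lit 0x200010001380098000400000000000000000000000000) (nat_lit 0x0) (nat_lit 0x2000000000000a00070003800000000000000000) := T_6 (nat_lit 89) (nat_lit 72) (nat_lit 7) (nat_lit 4) (nat_lit 4) L45566 (by decide +kernel)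
theorem L45568 : W_6 (nat_lit 2) (nat_lit 0x200010001380098000e000c0000000000000000000000) (nat_lit 0x0) (nat_lit 0x1000300000000000000000000000) := D_6 (nat_lit 92) (nat_lit 93) (nat_lit 108) (nat_lit 1) (nat_lit 8) (nat_lit 5) (nat_lit 2) (nat_lit 3) (nat_lit 6) (by decide +kernel)
theorem L45569 : W_6 (nat_lit 3) (nat_lit 0x200010001380098000c000c0000000000000000000000) (nat_lit 0x0) (nat_lit 0x1300300000000000000000000000) := T_6 (nat_lit 105) (nat_lit 104) (nat_lit 2) (nat_lit 2) (nat_lit 6) L45568 (by decide +kernel)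
theorem L45570 : W_6 (nat_lit 4) (nat_lit 0x200010001380098000c00040000000000000000000000) (nat_lit 0x0) (nat_lit 0x1300380004000000000000000000) := T_6 (nat_lit 91) (nat_lit 74) (nat_lit 6) (nat_lit 5) (nat_lit 8) L45569 (by decide +kernel)
theorem L45571 : W_6 (nat_lit 5) (nat_lit 0x200010001380098000c00000000000000000000000000) (nat_lit 0x0) (nat_lit 0x13003c0006000000000000000000) := T_6 (nat_lit 90) (nat_lit 73) (nat_lit 5) (nat_lit 5) (nat_lit 4) L45570 (by decide +kernel)
theorem L45572 : W_6 (nat_lit 2) (nat_lit 0x200010001380098000e00000000000000000000000000) (nat_lit 0x0) (nat_lit 0x20000180000000000000000000000000) := D_6 (nat_lit 104) (nat_lit 103) (nat_lit 125) (nat_lit 3) (nat_lit 1) (nat_lit 6) (nat_lit 3) (nat_lit 2) (nat_lit 6) (by decide +kernel)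
theorem L45573 : W_6 (nat_lit 2) (nat_lit 0x20001380138009c000e00000000000000000000000000) (nat_lit 0x0) (nat_lit 0x3001000000000000000000000000000) := D_6 (nat_lit 121) (nat_lit 108) (nat_lit 120) (nat_lit 2) (nat_lit 2) (nat_lit 7) (nat_lit 3) (nat_lit 1) (nat_lit 7) (by decide +kernel)
theorem L45574 : W_6 (nat_lit 3) (nat_lit 0x200013801380098000e00000000000000000000000000) (nat_lit 0x0) (nat_lit 0x10000000000007001000000000000000000000000000) := T_6 (nat_lit 122) (nat_lit 172) (nat_lit 5) (nat_lit 3) (nat_lit 6) L45573 (by decide +kernel)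
theorem L45575 : W_6 (nat_lit 4) (nat_lit 0x200013001380098000e00000000000000000000000000) (nat_lit 0x0) (nat_lit 0x10000c00000007001000000000000000000000000000) := T_6 (nat_lit 155) (nat_lit 154) (nat_lit 2) (nat_lit 1) (nat_lit 9) L45574 (by decide +kernel)
theorem L45576 : W_6 (nat_lit 5) (nat_lit 0x200012001380098000e00000000000000000000000000) (nat_lit 0x0) (nat_lit 0x30001c00000007001000000000000000000000000000) := T_6 (nat_lit 156) (nat_lit 173) (nat_lit 5) (nat_lit 4) (nat_lit 6) L45575 (by decide +kernel)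
theorem L45577 : W_6 (nat_lit 6) (nat_lit 0x200010001380098000e00000000000000000000000000) (nat_lit 0x0) (nat_lit 0x30003c00000007001000010000000000000000000000) := T_6 (nat_lit 157) (nat_lit 88) (nat_lit 4) (nat_lit 4) (nat_lit 9) L45576 (by decide +kernel)
theorem L45578 : W_6 (nat_lit 7) (nat_lit 0x200010001380098000c00000000000000000000000000) (nat_lit 0x0) (nat_lit 0x30003c00000027001380010000800040000000000000) := Q_6 (nat_lit 105) (C_6 L45503 (C_6 L45572 (C_6 L45577 N_6))) (by decide +kernel)
theorem L45579 : W_6 (nat_lit 8) (nat_lit 0x200010001380098000400000000000000000000000000) (nat_lit 0x0) (nat_lit 0x30003c00000027001b803d0006800040000000000000) := Q_6 (nat_lit 107) (C_6 L45055 (C_6 L45571 (C_6 L45578 N_6))) (by decide +kernel)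
theorem L45580 : W_6 (nat_lit 9) (nat_lit 0x200010001380098000000000000000000000000000000) (nat_lit 0x0) (nat_lit 0x30003c00000027001f803f0007800040000000000000) := Q_6 (nat_lit 106) (C_6 L45064 (C_6 L45567 (C_6 L45579 N_6))) (by decide +kernel)
theorem L45581 : W_6 (nat_lit 11) (nat_lit 0x200010001300098000000000000000000000000000000) (nat_lit 0x0) (nat_lit 0x30003c000e0027001f803f8007800040000000000000) := Q_6 (nat_lit 139) (C_6 L45580 (C_6 L45312 (C_6 L45561 N_6))) (by decide +kernel)
theorem L45582 : W_6 (nat_lit 14) (nat_lit 0x200010001300088000000000000000000000000000000) (nat_lit 0x0) (nat_lit 0xa00270013802bc008e0077003f803fc00fe00040000000000000) := Q_6 (nat_lit 124) (C_6 L45054 (C_6 L45099 (C_6 L45166 (C_6 L45202 (C_6 L45255 (C_6 L45313 (C_6 L45353 (C_6 L45415 (C_6 L45423 (C_6 L45481 (C_6 L45507 (C_6 L45536 (C_6 L45553 (C_6 L45562 (C_6 L45563 (C_6 L45581 N_6)))))))))))))))) (by decide +kernel)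
theorem L45583 : W_6 (nat_lit 2) (nat_lit 0x200012001300098000000000000000000000000000000) (nat_lit 0x0) (nat_lit 0x40000000000000000800040000000000000000000000) := D_6 (nat_lit 107) (nat_lit 90) (nat_lit 174) (nat_lit 5) (nat_lit 5) (nat_lit 5) (nat_lit 6) (nat_lit 4) (nat_lit 10) (by decide +kernel)
theorem L45584 : W_6 (nat_lit 2) (nat_lit 0x2000130013000d8000e80000000000000000000000000) (nat_lit 0x0) (nat_lit 0x80000000000020001000000000000000000) := D_6 (nat_lit 89) (nat_lit 72) (nat_lit 139) (nat_lit 7) (nat_lit 4) (nat_lit 4) (nat_lit 5) (nat_lit 4) (nat_lit 5) (by decide +kernel)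
theorem L45585 : W_6 (nat_lit 3) (nat_lit 0x2000120013000d8000e80000000000000000000000000) (nat_lit 0x0) (nat_lit 0x20001000080000000000020001000000000000000000) := T_6 (nat_lit 156) (nat_lit 173) (nat_lit 5) (nat_lit 4) (nat_lit 6) L45584 (by decide +kernel)
theorem L45586 : W_6 (nat_lit 4) (nat_lit 0x2000120013000d8000e00000000000000000000000000) (nat_lit 0x0) (nat_lit 0x20001000080000000180020001000000000000000000) := T_6 (nat_lit 103) (nat_lit 104) (nat_lit 3) (nat_lit 1) (nat_lit 6) L45585 (by decide +kernel)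
theorem L45587 : W_6 (nat_lit 5) (nat_lit 0x2000120013000d8000c00000000000000000000000000) (nat_lit 0x0) (nat_lit 0x20001000080000000380030001000000000000000000) := T_6 (nat_lit 105) (nat_lit 88) (nat_lit 4) (nat_lit 4) (nat_lit 9) L45586 (by decide +kernel)
theorem L45588 : W_6 (nat_lit 6) (nat_lit 0x2000120013000d8000400000000000000000000000000) (nat_lit 0x0) (nat_lit 0x20001000080000000b80070001000000000000000000) := T_6 (nat_lit 107) (nat_lit 90) (nat_lit 6) (nat_lit 4) (nat_lit 9) L45587 (by decide +kernel)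
theorem L45589 : W_6 (nat_lit 7) (nat_lit 0x200012001300098000400000000000000000000000000) (nat_lit 0x0) (nat_lit 0x20001000080060000b80070001000000000000000000) := T_6 (nat_lit 126) (nat_lit 125) (nat_lit 1) (nat_lit 8) (nat_lit 7) L45588 (by decide +kernel)
theorem L45590 : W_6 (nat_lit 2) (nat_lit 0x2000120013000de000f00008001000000000000000000) (nat_lit 0x0) (nat_lit 0x80000000000000000400020000000000000) := D_6 (nat_lit 70) (nat_lit 139) (nat_lit 53) (nat_lit 7) (nat_lit 2) (nat_lit 4) (nat_lit 7) (nat_lit 2) (nat_lit 3) (by decide +kernel)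
theorem L45591 : W_6 (nat_lit 3) (nat_lit 0x2000120013000da000f00008001000000000000000000) (nat_lit 0x0) (nat_lit 0x80004001000000000400020000000000000) := T_6 (nat_lit 122) (nat_lit 108) (nat_lit 2) (nat_lit 2) (nat_lit 7) L45590 (by decide +kernel)
theorem L45592 : W_6 (nat_lit 4) (nat_lit 0x2000120013000da000f00000001000000000000000000) (nat_lit 0x0) (nat_lit 0x8000400100000c000400020000000000000) := T_6 (nat_lit 87) (nat_lit 86) (nat_lit 0) (nat_lit 5) (nat_lit 6) L45591 (by decide +kernel)
theorem L45593 : W_6 (nat_lit 5) (nat_lit 0x2000120013000d8000f00000001000000000000000000) (nat_lit 0x0) (nat_lit 0x8000700100000c000400020000000000000) := T_6 (nat_lit 121) (nat_lit 120) (nat_lit 1) (nat_lit 5) (nat_lit 6) L45592 (by decide +kernel)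
theorem L45594 : W_6 (nat_lit 6) (nat_lit 0x2000120013000d8000f00000000000000000000000000) (nat_lit 0x0) (nat_lit 0x8000700100002c001400020000000000000) := T_6 (nat_lit 72) (nat_lit 89) (nat_lit 7) (nat_lit 4) (nat_lit 4) L45593 (by decide +kernel)
theorem L45595 : W_6 (nat_lit 7) (nat_lit 0x2000120013000d8000e00000000000000000000000000) (nat_lit 0x0) (nat_lit 0x8000700118002c001400020000000000000) := T_6 (nat_lit 104) (nat_lit 103) (nat_lit 3) (nat_lit 1) (nat_lit 6) L45594 (by decide +kernel)
theorem L45596 : W_6 (nat_lit 8) (nat_lit 0x2000120013000d8000c00000000000000000000000000) (nat_lit 0x0) (nat_lit 0x8000700138003c001400020000000000000) := T_6 (nat_lit 105) (nat_lit 88) (nat_lit 4) (nat_lit 4) (nat_lit 9) L45595 (by decide +kernel)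
theorem L45597 : W_6 (nat_lit 9) (nat_lit 0x2000120013000d8000400000000000000000000000000) (nat_lit 0x0) (nat_lit 0x80007001b8007c001400020000000000000) := T_6 (nat_lit 107) (nat_lit 90) (nat_lit 6) (nat_lit 4) (nat_lit 9) L45596 (by decide +kernel)
theorem L45598 : W_6 (nat_lit 10) (nat_lit 0x200012001300098000400000000000000000000000000) (nat_lit 0x0) (nat_lit 0x80067001b8007c001400020000000000000) := T_6 (nat_lit 126) (nat_lit 125) (nat_lit 1) (nat_lit 8) (nat_lit 7) L45597 (by decide +kernel)
theorem L45599 : W_6 (nat_lit 2) (nat_lit 0x2000134013000b8000600040001000000000000000000) (nat_lit 0x0) (nat_lit 0x4000180000000000000000000000000) := D_6 (nat_lit 104) (nat_lit 103) (nat_lit 122) (nat_lit 3) (nat_lit 1) (nat_lit 6) (nat_lit 0) (nat_lit 6) (nat_lit 7) (by decide +kernel)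
theorem L45600 : W_6 (nat_lit 3) (nat_lit 0x2000134013000b8000400040001000000000000000000) (nat_lit 0x0) (nat_lit 0x4000380010000000000000000000000) := T_6 (nat_lit 105) (nat_lit 88) (nat_lit 4) (nat_lit 4) (nat_lit 9) L45599 (by decide +kernel)
theorem L45601 : W_6 (nat_lit 4) (nat_lit 0x2000134013000b8000400000001000000000000000000) (nat_lit 0x0) (nat_lit 0x4000b80050000000000000000000000) := T_6 (nat_lit 90) (nat_lit 107) (nat_lit 6) (nat_lit 4) (nat_lit 9) L45600 (by decide +kernel)
theorem L45602 : W_6 (nat_lit 5) (nat_lit 0x200013401300098000400000001000000000000000000) (nat_lit 0x0) (nat_lit 0x64000b80050000000000000000000000) := T_6 (nat_lit 125) (nat_lit 126) (nat_lit 1) (nat_lit 8) (nat_lit 7) L45601 (by decide +kernel)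
theorem L45603 : W_6 (nat_lit 6) (nat_lit 0x200013001300098000400000001000000000000000000) (nat_lit 0x0) (nat_lit 0xc00000064000b80050000000000000000000000) := T_6 (nat_lit 154) (nat_lit 155) (nat_lit 2) (nat_lit 1) (nat_lit 9) L45602 (by decide +kernel)
theorem L45604 : W_6 (nat_lit 7) (nat_lit 0x200012001300098000400000001000000000000000000) (nat_lit 0x0) (nat_lit 0x20001c00000064000b80050000000000000000000000) := T_6 (nat_lit 156) (nat_lit 173) (nat_lit 5) (nat_lit 4) (nat_lit 6) L45603 (by decide +kernel)
theorem L45605 : W_6 (nat_lit 8) (nat_lit 0x200012001300098000400000000000000000000000000) (nat_lit 0x0) (nat_lit 0x20001c00000064000b80070001000000000000000000) := T_6 (nat_lit 72) (nat_lit 89) (nat_lit 7) (nat_lit 4) (nat_lit 4) L45604 (by decide +kernel)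
theorem L45606 : W_6 (nat_lit 2) (nat_lit 0x200013001300098000680000000000000000000000000) (nat_lit 0x0) (nat_lit 0x80000000000020001000000000000000000) := D_6 (nat_lit 89) (nat_lit 72) (nat_lit 139) (nat_lit 7) (nat_lit 4) (nat_lit 4) (nat_lit 5) (nat_lit 4) (nat_lit 5) (by decide +kernel)
theorem L45607 : W_6 (nat_lit 3) (nat_lit 0x200012001300098000680000000000000000000000000) (nat_lit 0x0) (nat_lit 0x20001000080000000000020001000000000000000000) := T_6 (nat_lit 156) (nat_lit 173) (nat_lit 5) (nat_lit 4) (nat_lit 6) L45606 (by decide +kernel)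
theorem L45608 : W_6 (nat_lit 4) (nat_lit 0x200012001300098000600000000000000000000000000) (nat_lit 0x0) (nat_lit 0x20001000080000000180020001000000000000000000) := T_6 (nat_lit 103) (nat_lit 104) (nat_lit 3) (nat_lit 1) (nat_lit 6) L45607 (by decide +kernel)
theorem L45609 : W_6 (nat_lit 5) (nat_lit 0x200012001300098000400000000000000000000000000) (nat_lit 0x0) (nat_lit 0x20001000080000000380030001000000000000000000) := T_6 (nat_lit 105) (nat_lit 88) (nat_lit 4) (nat_lit 4) (nat_lit 9) L45608 (by decide +kernel)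
theorem L45610 : W_6 (nat_lit 2) (nat_lit 0x200013001300098000400000000000000000000000000) (nat_lit 0x0) (nat_lit 0x80000000000020001000000000000000000) := D_6 (nat_lit 89) (nat_lit 72) (nat_lit 139) (nat_lit 7) (nat_lit 4) (nat_lit 4) (nat_lit 5) (nat_lit 4) (nat_lit 5) (by decide +kernel)
theorem L45611 : W_6 (nat_lit 3) (nat_lit 0x200012001300098000400000000000000000000000000) (nat_lit 0x0) (nat_lit 0x20001000080000000000020001000000000000000000) := T_6 (nat_lit 156) (nat_lit 173) (nat_lit 5) (nat_lit 4) (nat_lit 6) L45610 (by decide +kernel)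
theorem L45612 : W_6 (nat_lit 2) (nat_lit 0x2000134013000da000f00008000000000000000000000) (nat_lit 0x0) (nat_lit 0x80004001000000000000000000000000000) := D_6 (nat_lit 122) (nat_lit 139) (nat_lit 108) (nat_lit 4) (nat_lit 3) (nat_lit 9) (nat_lit 2) (nat_lit 2) (nat_lit 7) (by decide +kernel)
theorem L45613 : W_6 (nat_lit 3) (nat_lit 0x2000134013000d8000f00008000000000000000000000) (nat_lit 0x0) (nat_lit 0x80007001000000000000000000000000000) := T_6 (nat_lit 121) (nat_lit 120) (nat_lit 1) (nat_lit 5) (nat_lit 6) L45612 (by decide +kernel)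
theorem L45614 : W_6 (nat_lit 4) (nat_lit 0x2000134013000d8000f00000000000000000000000000) (nat_lit 0x0) (nat_lit 0x8000700100000c000000000000000000000) := T_6 (nat_lit 87) (nat_lit 86) (nat_lit 0) (nat_lit 5) (nat_lit 6) L45613 (by decide +kernel)
theorem L45615 : W_6 (nat_lit 5) (nat_lit 0x2000134013000d8000700000000000000000000000000) (nat_lit 0x0) (nat_lit 0x8000700180004c000000000000000000000) := T_6 (nat_lit 107) (nat_lit 90) (nat_lit 6) (nat_lit 4) (nat_lit 9) L45614 (by decide +kernel)
theorem L45616 : W_6 (nat_lit 6) (nat_lit 0x2000134013000d8000600000000000000000000000000) (nat_lit 0x0) (nat_lit 0x8000700198004c000000000000000000000) := T_6 (nat_lit 104) (nat_lit 103) (nat_lit 3) (nat_lit 1) (nat_lit 6) L45615 (by decide +kernel)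
theorem L45617 : W_6 (nat_lit 7) (nat_lit 0x2000134013000d8000400000000000000000000000000) (nat_lit 0x0) (nat_lit 0x80007001b8005c000000000000000000000) := T_6 (nat_lit 105) (nat_lit 88) (nat_lit 4) (nat_lit 4) (nat_lit 9) L45616 (by decide +kernel)
theorem L45618 : W_6 (nat_lit 8) (nat_lit 0x200013401300098000400000000000000000000000000) (nat_lit 0x0) (nat_lit 0x80067001b8005c000000000000000000000) := T_6 (nat_lit 126) (nat_lit 125) (nat_lit 1) (nat_lit 8) (nat_lit 7) L45617 (by decide +kernel)
theorem L45619 : W_6 (nat_lit 9) (nat_lit 0x200013001300098000400000000000000000000000000) (nat_lit 0x0) (nat_lit 0xc00080067001b8005c000000000000000000000) := T_6 (nat_lit 154) (nat_lit 155) (nat_lit 2) (nat_lit 1) (nat_lit 9) L45618 (by decide +kernel)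
theorem L45620 : W_6 (nat_lit 10) (nat_lit 0x200012001300098000400000000000000000000000000) (nat_lit 0x0) (nat_lit 0x20001c00080067001b8005c000000000000000000000) := T_6 (nat_lit 156) (nat_lit 173) (nat_lit 5) (nat_lit 4) (nat_lit 6) L45619 (by decide +kernel)
theorem L45621 : W_6 (nat_lit 11) (nat_lit 0x200012001300098000000000000000000000000000000) (nat_lit 0x0) (nat_lit 0x20001c00080067001f8007c001400020000000000000) := Q_6 (nat_lit 106) (C_6 L45589 (C_6 L45598 (C_6 L45605 (C_6 L45609 (C_6 L45611 (C_6 L45620 N_6)))))) (by decide +kernel)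
theorem L45622 : W_6 (nat_lit 2) (nat_lit 0x2e00120013000dd000000000000000000000000000000) (nat_lit 0x0) (nat_lit 0x100021000000000000000000000000000000000000000) := D_6 (nat_lit 176) (nat_lit 161) (nat_lit 156) (nat_lit 2) (nat_lit 4) (nat_lit 10) (nat_lit 0) (nat_lit 7) (nat_lit 10) (by decide +kernel)
theorem L45623 : W_6 (nat_lit 3) (nat_lit 0x2600120013000dd000000000000000000000000000000) (nat_lit 0x0) (nat_lit 0x1000180021000000000000000000000000000000000000000) := T_6 (nat_lit 175) (nat_lit 192) (nat_lit 7) (nat_lit 4) (nat_lit 7) L45622 (by decide +kernel)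
theorem L45624 : W_6 (nat_lit 4) (nat_lit 0x2400120013000dd000000000000000000000000000000) (nat_lit 0x0) (nat_lit 0x14001a0021000000000000000000000000000000000000000) := T_6 (nat_lit 173) (nat_lit 190) (nat_lit 5) (nat_lit 4) (nat_lit 7) L45623 (by decide +kernel)
theorem L45625 : W_6 (nat_lit 5) (nat_lit 0x2400120013000dc000000000000000000000000000000) (nat_lit 0x0) (nat_lit 0x14001a0021000000003000000000000000000000000000000) := T_6 (nat_lit 120) (nat_lit 121) (nat_lit 3) (nat_lit 1) (nat_lit 7) L45624 (by decide +kernel)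
theorem L45626 : W_6 (nat_lit 6) (nat_lit 0x2400120013000d8000000000000000000000000000000) (nat_lit 0x0) (nat_lit 0x14001a0021000000007000200000000000000000000000000) := T_6 (nat_lit 122) (nat_lit 105) (nat_lit 4) (nat_lit 4) (nat_lit 10) L45625 (by decide +kernel)
theorem L45627 : W_6 (nat_lit 7) (nat_lit 0x240012001300098000000000000000000000000000000) (nat_lit 0x0) (nat_lit 0x14001a0021000000067000200000000000000000000000000) := T_6 (nat_lit 126) (nat_lit 125) (nat_lit 1) (nat_lit 8) (nat_lit 7) L45626 (by decide +kernel)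
theorem L45628 : W_6 (nat_lit 8) (nat_lit 0x200012001300098000000000000000000000000000000) (nat_lit 0x0) (nat_lit 0x1c001e0021000000067000200000000000000000000000000) := T_6 (nat_lit 174) (nat_lit 191) (nat_lit 6) (nat_lit 4) (nat_lit 11) L45627 (by decide +kernel)
theorem L45629 : W_6 (nat_lit 12) (nat_lit 0x200010001300098000000000000000000000000000000) (nat_lit 0x0) (nat_lit 0x1c001e0023c00080067001f8007c001400020000000000000) := Q_6 (nat_lit 157) (C_6 L45583 (C_6 L45621 (C_6 L45628 N_6))) (by decide +kernel)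
theorem L45630 : W_6 (nat_lit 2) (nat_lit 0x200010001300098000c002f0000000000000000000000) (nat_lit 0x0) (nat_lit 0x100000c000000000000000000000) := D_6 (nat_lit 87) (nat_lit 108) (nat_lit 86) (nat_lit 3) (nat_lit 2) (nat_lit 5) (nat_lit 3) (nat_lit 1) (nat_lit 5) (by decide +kernel)
theorem L45631 : W_6 (nat_lit 3) (nat_lit 0x200010001300098000c002e0000000000000000000000) (nat_lit 0x0) (nat_lit 0x100001c000800000000000000000) := T_6 (nat_lit 88) (nat_lit 71) (nat_lit 4) (nat_lit 4) (nat_lit 8) L45630 (by decide +kernel)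
theorem L45632 : W_6 (nat_lit 4) (nat_lit 0x200010001300098000c000e0000000000000000000000) (nat_lit 0x0) (nat_lit 0x100031c000800000000000000000) := T_6 (nat_lit 93) (nat_lit 92) (nat_lit 1) (nat_lit 8) (nat_lit 5) L45631 (by decide +kernel)
theorem L45633 : W_6 (nat_lit 5) (nat_lit 0x200010001300098000c00060000000000000000000000) (nat_lit 0x0) (nat_lit 0x100039c004800000000000000000) := T_6 (nat_lit 91) (nat_lit 74) (nat_lit 6) (nat_lit 5) (nat_lit 8) L45632 (by decide +kernel)
theorem L45634 : W_6 (nat_lit 6) (nat_lit 0x200010001300098000c00040000000000000000000000) (nat_lit 0x0) (nat_lit 0x10003bc005800000000000000000) := T_6 (nat_lit 89) (nat_lit 72) (nat_lit 7) (nat_lit 4) (nat_lit 4) L45633 (by decide +kernel)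
theorem L45635 : W_6 (nat_lit 7) (nat_lit 0x200010001300098000c00000000000000000000000000) (nat_lit 0x0) (nat_lit 0x10003fc007800000000000000000) := T_6 (nat_lit 90) (nat_lit 73) (nat_lit 5) (nat_lit 5) (nat_lit 4) L45634 (by decide +kernel)
theorem L45636 : W_6 (nat_lit 2) (nat_lit 0x2000100013400da000f00038000000000000000000000) (nat_lit 0x0) (nat_lit 0x400020004000000000000000000000000000000) := D_6 (nat_lit 137) (nat_lit 154) (nat_lit 122) (nat_lit 5) (nat_lit 2) (nat_lit 5) (nat_lit 1) (nat_lit 5) (nat_lit 7) (by decide +kernel)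
theorem L45637 : W_6 (nat_lit 3) (nat_lit 0x2000100013000da000f00038000000000000000000000) (nat_lit 0x0) (nat_lit 0xc00060004000000000000000000000000000000) := T_6 (nat_lit 138) (nat_lit 155) (nat_lit 6) (nat_lit 2) (nat_lit 9) L45636 (by decide +kernel)
theorem L45638 : W_6 (nat_lit 4) (nat_lit 0x2000100013000d8000f00038000000000000000000000) (nat_lit 0x0) (nat_lit 0xc00060007000000000000000000000000000000) := T_6 (nat_lit 121) (nat_lit 120) (nat_lit 1) (nat_lit 5) (nat_lit 6) L45637 (by decide +kernel)
theorem L45639 : W_6 (nat_lit 5) (nat_lit 0x2000100013000d8000e00038000000000000000000000) (nat_lit 0x0) (nat_lit 0xc00060007000180000000000000000000000000) := T_6 (nat_lit 104) (nat_lit 103) (nat_lit 3) (nat_lit 1) (nat_lit 6) L45638 (by decide +kernel)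
theorem L45640 : W_6 (nat_lit 6) (nat_lit 0x2000100013000d8000c00038000000000000000000000) (nat_lit 0x0) (nat_lit 0xc00060007001380000000000000000000000000) := T_6 (nat_lit 105) (nat_lit 108) (nat_lit 0) (nat_lit 6) (nat_lit 6) L45639 (by decide +kernel)
theorem L45641 : W_6 (nat_lit 7) (nat_lit 0x2000100013000d8000c00030000000000000000000000) (nat_lit 0x0) (nat_lit 0xc0006000700138000c000000000000000000000) := T_6 (nat_lit 87) (nat_lit 86) (nat_lit 3) (nat_lit 1) (nat_lit 5) L45640 (by decide +kernel)
theorem L45642 : W_6 (nat_lit 8) (nat_lit 0x2000100013000d8000c00020000000000000000000000) (nat_lit 0x0) (nat_lit 0xc0006000700138001c000800000000000000000) := T_6 (nat_lit 88) (nat_lit 71) (nat_lit 4) (nat_lit 4) (nat_lit 8) L45641 (by decide +kernel)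
theorem L45643 : W_6 (nat_lit 9) (nat_lit 0x2000100013000d8000c00000000000000000000000000) (nat_lit 0x0) (nat_lit 0xc0006000700138003c001800000000000000000) := T_6 (nat_lit 89) (nat_lit 72) (nat_lit 7) (nat_lit 4) (nat_lit 4) L45642 (by decide +kernel)
theorem L45644 : W_6 (nat_lit 10) (nat_lit 0x200010001300098000c00000000000000000000000000) (nat_lit 0x0) (nat_lit 0xc0006006700138003c001800000000000000000) := T_6 (nat_lit 126) (nat_lit 125) (nat_lit 1) (nat_lit 8) (nat_lit 7) L45643 (by decide +kernel)
theorem L45645 : W_6 (nat_lit 11) (nat_lit 0x200010001300098000800000000000000000000000000) (nat_lit 0x0) (nat_lit 0xc000600670017803fc007800000000000000000) := Q_6 (nat_lit 106) (C_6 L43173 (C_6 L45185 (C_6 L45635 (C_6 L45644 N_6)))) (by decide +kernel)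
theorem L45646 : W_6 (nat_lit 2) (nat_lit 0x20001000130009c000800000000000000000000000000) (nat_lit 0x0) (nat_lit 0x3001000000000000000000000000000) := D_6 (nat_lit 121) (nat_lit 120) (nat_lit 108) (nat_lit 3) (nat_lit 1) (nat_lit 7) (nat_lit 2) (nat_lit 2) (nat_lit 7) (by decide +kernel)
theorem L45647 : W_6 (nat_lit 2) (nat_lit 0x2000100013800bd000a00000000000000000000000000) (nat_lit 0x0) (nat_lit 0x40002000000000000000010000000000000000000000) := D_6 (nat_lit 157) (nat_lit 174) (nat_lit 88) (nat_lit 6) (nat_lit 4) (nat_lit 10) (nat_lit 7) (nat_lit 3) (nat_lit 5) (by decide +kernel)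
theorem L45648 : W_6 (nat_lit 3) (nat_lit 0x2000100013000bd000a00000000000000000000000000) (nat_lit 0x0) (nat_lit 0x400020000c0000000000010000000000000000000000) := T_6 (nat_lit 139) (nat_lit 138) (nat_lit 2) (nat_lit 2) (nat_lit 8) L45647 (by decide +kernel)
theorem L45649 : W_6 (nat_lit 4) (nat_lit 0x2000100013000bd000800000000000000000000000000) (nat_lit 0x0) (nat_lit 0x400020000c0000000300010000000000000000000000) := T_6 (nat_lit 105) (nat_lit 104) (nat_lit 0) (nat_lit 6) (nat_lit 7) L45648 (by decide +kernel)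
theorem L45650 : W_6 (nat_lit 5) (nat_lit 0x2000100013000bc000800000000000000000000000000) (nat_lit 0x0) (nat_lit 0x400020000c0003000300010000000000000000000000) := T_6 (nat_lit 120) (nat_lit 121) (nat_lit 3) (nat_lit 1) (nat_lit 7) L45649 (by decide +kernel)
theorem L45651 : W_6 (nat_lit 6) (nat_lit 0x20001000130009c000800000000000000000000000000) (nat_lit 0x0) (nat_lit 0x400020000c0063000300010000000000000000000000) := T_6 (nat_lit 125) (nat_lit 126) (nat_lit 1) (nat_lit 8) (nat_lit 7) L45650 (by decide +kernel)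
theorem L45652 : W_6 (nat_lit 2) (nat_lit 0x2400100013800bc000e00018000000000000000000000) (nat_lit 0x0) (nat_lit 0x24001000000000000000000) := D_6 (nat_lit 89) (nat_lit 72) (nat_lit 86) (nat_lit 7) (nat_lit 4) (nat_lit 4) (nat_lit 3) (nat_lit 1) (nat_lit 5) (by decide +kernel)
theorem L45653 : W_6 (nat_lit 3) (nat_lit 0x2400100013800bc000a00018000000000000000000000) (nat_lit 0x0) (nat_lit 0x1400024001000000000000000000) := T_6 (nat_lit 106) (nat_lit 108) (nat_lit 0) (nat_lit 6) (nat_lit 6) L45652 (by decide +kernel)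
theorem L45654 : W_6 (nat_lit 4) (nat_lit 0x2400100013800bc000a00010000000000000000000000) (nat_lit 0x0) (nat_lit 0x140002c001400000000000000000) := T_6 (nat_lit 87) (nat_lit 70) (nat_lit 4) (nat_lit 3) (nat_lit 8) L45653 (by decide +kernel)
theorem L45655 : W_6 (nat_lit 5) (nat_lit 0x2400100013800bc000a00000000000000000000000000) (nat_lit 0x0) (nat_lit 0x140003c001c00000000000000000) := T_6 (nat_lit 88) (nat_lit 71) (nat_lit 7) (nat_lit 3) (nat_lit 4) L45654 (by decide +kernel)
theorem L45656 : W_6 (nat_lit 6) (nat_lit 0x2400100013000bc000a00000000000000000000000000) (nat_lit 0x0) (nat_lit 0xc000000140003c001c00000000000000000) := T_6 (nat_lit 139) (nat_lit 138) (nat_lit 2) (nat_lit 2) (nat_lit 8) L45655 (by decide +kernel)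
theorem L45657 : W_6 (nat_lit 7) (nat_lit 0x2400100013000bc000800000000000000000000000000) (nat_lit 0x0) (nat_lit 0xc000000170003c001c00000000000000000) := T_6 (nat_lit 105) (nat_lit 104) (nat_lit 0) (nat_lit 6) (nat_lit 7) L45656 (by decide +kernel)
theorem L45658 : W_6 (nat_lit 8) (nat_lit 0x2000100013000bc000800000000000000000000000000) (nat_lit 0x0) (nat_lit 0x400020000c000000170003c001c00000000000000000) := T_6 (nat_lit 174) (nat_lit 157) (nat_lit 6) (nat_lit 4) (nat_lit 10) L45657 (by decide +kernel)
theorem L45659 : W_6 (nat_lit 9) (nat_lit 0x20001000130009c000800000000000000000000000000) (nat_lit 0x0) (nat_lit 0x400020000c006000170003c001c00000000000000000) := T_6 (nat_lit 125) (nat_lit 126) (nat_lit 1) (nat_lit 8) (nat_lit 7) L45658 (by decide +kernel)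
theorem L45660 : W_6 (nat_lit 10) (nat_lit 0x200010001300098000800000000000000000000000000) (nat_lit 0x0) (nat_lit 0x400020000c006700170003c001c00000000000000000) := Q_6 (nat_lit 122) (C_6 L45646 (C_6 L45651 (C_6 L45659 N_6))) (by decide +kernel)
theorem L45661 : W_6 (nat_lit 12) (nat_lit 0x200010001300098000000000000000000000000000000) (nat_lit 0x0) (nat_lit 0x40002c000e0067001f803fc007c00000000000000000) := Q_6 (nat_lit 107) (C_6 L45167 (C_6 L45645 (C_6 L45660 N_6))) (by decide +kernel)
theorem L45662 : W_6 (nat_lit 2) (nat_lit 0x2000120013000d8000400020000000000000000000000) (nat_lit 0x0) (nat_lit 0x800040002000000000000000000) := D_6 (nat_lit 90) (nat_lit 107) (nat_lit 73) (nat_lit 6) (nat_lit 4) (nat_lit 9) (nat_lit 6) (nat_lit 4) (nat_lit 8) (by decide +kernel)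
theorem L45663 : W_6 (nat_lit 3) (nat_lit 0x2000120013000d8000400000000000000000000000000) (nat_lit 0x0) (nat_lit 0x800060003000000000000000000) := T_6 (nat_lit 89) (nat_lit 72) (nat_lit 7) (nat_lit 4) (nat_lit 4) L45662 (by decide +kernel)
theorem L45664 : W_6 (nat_lit 4) (nat_lit 0x200012001300098000400000000000000000000000000) (nat_lit 0x0) (nat_lit 0x60000800060003000000000000000000) := T_6 (nat_lit 126) (nat_lit 125) (nat_lit 1) (nat_lit 8) (nat_lit 7) L45663 (by decide +kernel)
theorem L45665 : W_6 (nat_lit 2) (nat_lit 0x200012001300098000400040000000000000000000000) (nat_lit 0x0) (nat_lit 0x20003000000000000000000) := D_6 (nat_lit 89) (nat_lit 73) (nat_lit 72) (nat_lit 6) (nat_lit 4) (nat_lit 8) (nat_lit 7) (nat_lit 4) (nat_lit 4) (by decide +kernel)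
theorem L45666 : W_6 (nat_lit 3) (nat_lit 0x200012001300098000400000000000000000000000000) (nat_lit 0x0) (nat_lit 0x800060003000000000000000000) := T_6 (nat_lit 90) (nat_lit 107) (nat_lit 6) (nat_lit 4) (nat_lit 9) L45665 (by decide +kernel)
theorem L45667 : W_6 (nat_lit 2) (nat_lit 0x200012001300098000700000000000000000000000000) (nat_lit 0x0) (nat_lit 0x64000000000000000000000000000000) := D_6 (nat_lit 125) (nat_lit 126) (nat_lit 122) (nat_lit 1) (nat_lit 8) (nat_lit 7) (nat_lit 0) (nat_lit 6) (nat_lit 7) (by decide +kernel)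
theorem L45668 : W_6 (nat_lit 3) (nat_lit 0x200012001300098000600000000000000000000000000) (nat_lit 0x0) (nat_lit 0x64000180000000000000000000000000) := T_6 (nat_lit 104) (nat_lit 103) (nat_lit 3) (nat_lit 1) (nat_lit 6) L45667 (by decide +kernel)
theorem L45669 : W_6 (nat_lit 4) (nat_lit 0x200012001300098000400000000000000000000000000) (nat_lit 0x0) (nat_lit 0x64000380010000000000000000000000) := T_6 (nat_lit 105) (nat_lit 88) (nat_lit 4) (nat_lit 4) (nat_lit 9) L45668 (by decide +kernel)
theorem L45670 : W_6 (nat_lit 5) (nat_lit 0x200012001300098000000000000000000000000000000) (nat_lit 0x0) (nat_lit 0x64000f80070003000000000000000000) := Q_6 (nat_lit 106) (C_6 L45664 (C_6 L45666 (C_6 L45669 N_6))) (by decide +kernel)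
theorem L45671 : W_6 (nat_lit 9) (nat_lit 0x200010001300098000000000000000000000000000000) (nat_lit 0x0) (nat_lit 0x1c001e0023000000067000f80070003000000000000000000) := Q_6 (nat_lit 157) (C_6 L45628 (C_6 L45583 (C_6 L45670 N_6))) (by decide +kernel)
theorem L45672 : W_6 (nat_lit 2) (nat_lit 0x2000134013000da000f00008000000000000000000000) (nat_lit 0x0) (nat_lit 0xe0000000000000000000000000000000000) := D_6 (nat_lit 138) (nat_lit 137) (nat_lit 139) (nat_lit 5) (nat_lit 2) (nat_lit 5) (nat_lit 7) (nat_lit 2) (nat_lit 5) (by decide +kernel)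
theorem L45673 : W_6 (nat_lit 3) (nat_lit 0x2000134013000d8000f00008000000000000000000000) (nat_lit 0x0) (nat_lit 0xe0003000000000000000000000000000000) := T_6 (nat_lit 121) (nat_lit 120) (nat_lit 1) (nat_lit 5) (nat_lit 6) L45672 (by decide +kernel)
theorem L45674 : W_6 (nat_lit 4) (nat_lit 0x2000134013000d8000f00000000000000000000000000) (nat_lit 0x0) (nat_lit 0xe000300000000c000000000000000000000) := T_6 (nat_lit 87) (nat_lit 86) (nat_lit 0) (nat_lit 5) (nat_lit 6) L45673 (by decide +kernel)
theorem L45675 : W_6 (nat_lit 5) (nat_lit 0x2000134013000d8000e00000000000000000000000000) (nat_lit 0x0) (nat_lit 0xe000300018000c000000000000000000000) := T_6 (nat_lit 104) (nat_lit 103) (nat_lit 3) (nat_lit 1) (nat_lit 6) L45674 (by decide +kernel)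
theorem L45676 : W_6 (nat_lit 6) (nat_lit 0x2000134013000d8000c00000000000000000000000000) (nat_lit 0x0) (nat_lit 0xe000300038001c000000000000000000000) := T_6 (nat_lit 105) (nat_lit 88) (nat_lit 4) (nat_lit 4) (nat_lit 9) L45675 (by decide +kernel)
theorem L45677 : W_6 (nat_lit 7) (nat_lit 0x2000130013000d8000c00000000000000000000000000) (nat_lit 0x0) (nat_lit 0xc000e000300038001c000000000000000000000) := T_6 (nat_lit 154) (nat_lit 155) (nat_lit 2) (nat_lit 1) (nat_lit 9) L45676 (by decide +kernel)
theorem L45678 : W_6 (nat_lit 8) (nat_lit 0x2000120013000d8000c00000000000000000000000000) (nat_lit 0x0) (nat_lit 0x20001c000e000300038001c000000000000000000000) := T_6 (nat_lit 156) (nat_lit 173) (nat_lit 5) (nat_lit 4) (nat_lit 6) L45677 (by decide +kernel)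
theorem L45679 : W_6 (nat_lit 9) (nat_lit 0x2000120013000d8000400000000000000000000000000) (nat_lit 0x0) (nat_lit 0x20001c000e0003000b8005c000000000000000000000) := T_6 (nat_lit 107) (nat_lit 90) (nat_lit 6) (nat_lit 4) (nat_lit 9) L45678 (by decide +kernel)
theorem L45680 : W_6 (nat_lit 10) (nat_lit 0x200012001300098000400000000000000000000000000) (nat_lit 0x0) (nat_lit 0x20001c000e0063000b8005c000000000000000000000) := T_6 (nat_lit 126) (nat_lit 125) (nat_lit 1) (nat_lit 8) (nat_lit 7) L45679 (by decide +kernel)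
theorem L45681 : W_6 (nat_lit 11) (nat_lit 0x200012001300098000000000000000000000000000000) (nat_lit 0x0) (nat_lit 0x20001c000e0063000f8007c003000000000000000000) := Q_6 (nat_lit 106) (C_6 L45666 (C_6 L45611 (C_6 L45680 N_6))) (by decide +kernel)
theorem L45682 : W_6 (nat_lit 2) (nat_lit 0x2c00120013000d8000000000000000000000000000000) (nat_lit 0x0) (nat_lit 0x100021000000000000000000000000000000000000000) := D_6 (nat_lit 176) (nat_lit 161) (nat_lit 156) (nat_lit 2) (nat_lit 4) (nat_lit 10) (nat_lit 0) (nat_lit 7) (nat_lit 10) (by decide +kernel)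
theorem L45683 : W_6 (nat_lit 3) (nat_lit 0x2400120013000d8000000000000000000000000000000) (nat_lit 0x0) (nat_lit 0x1000180021000000000000000000000000000000000000000) := T_6 (nat_lit 175) (nat_lit 192) (nat_lit 7) (nat_lit 4) (nat_lit 7) L45682 (by decide +kernel)
theorem L45684 : W_6 (nat_lit 4) (nat_lit 0x2000120013000d8000000000000000000000000000000) (nat_lit 0x0) (nat_lit 0x18001c0021000000000000000000000000000000000000000) := T_6 (nat_lit 174) (nat_lit 191) (nat_lit 6) (nat_lit 4) (nat_lit 11) L45683 (by decide +kernel)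
theorem L45685 : W_6 (nat_lit 5) (nat_lit 0x200012001300098000000000000000000000000000000) (nat_lit 0x0) (nat_lit 0x18001c0021000000060000000000000000000000000000000) := T_6 (nat_lit 126) (nat_lit 125) (nat_lit 1) (nat_lit 8) (nat_lit 7) L45684 (by decide +kernel)
theorem L45686 : W_6 (nat_lit 12) (nat_lit 0x200010001300098000000000000000000000000000000) (nat_lit 0x0) (nat_lit 0x18001e0023c000e0063000f8007c003000000000000000000) := Q_6 (nat_lit 157) (C_6 L45583 (C_6 L45681 (C_6 L45685 N_6))) (by decide +kernel)
theorem L45687 : W_6 (nat_lit 2) (nat_lit 0x2000100013800de000800020000000000000000000000) (nat_lit 0x0) (nat_lit 0x40003000000000000000000) := D_6 (nat_lit 90) (nat_lit 73) (nat_lit 72) (nat_lit 5) (nat_lit 5) (nat_lit 4) (nat_lit 4) (nat_lit 5) (nat_lit 8) (by decide +kernel)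
theorem L45688 : W_6 (nat_lit 3) (nat_lit 0x2000100013800de000000020000000000000000000000) (nat_lit 0x0) (nat_lit 0x1800040003000000000000000000) := T_6 (nat_lit 107) (nat_lit 108) (nat_lit 2) (nat_lit 2) (nat_lit 7) L45687 (by decide +kernel)
theorem L45689 : W_6 (nat_lit 4) (nat_lit 0x2000100013800dc000000020000000000000000000000) (nat_lit 0x0) (nat_lit 0x3001800040003000000000000000000) := T_6 (nat_lit 121) (nat_lit 120) (nat_lit 3) (nat_lit 1) (nat_lit 7) L45688 (by decide +kernel)
theorem L45690 : W_6 (nat_lit 5) (nat_lit 0x20001000138009c000000020000000000000000000000) (nat_lit 0x0) (nat_lit 0x63001800040003000000000000000000) := T_6 (nat_lit 126) (nat_lit 125) (nat_lit 1) (nat_lit 7) (nat_lit 7) L45689 (by decide +kernel)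
theorem L45691 : W_6 (nat_lit 4) (nat_lit 0x20001000138009c000000020000000000000000000000) (nat_lit 0x0) (nat_lit 0x60000300010001800000000000000000) := T_6 (nat_lit 125) (nat_lit 126) (nat_lit 1) (nat_lit 7) (nat_lit 7) L42966 (by decide +kernel)
theorem L45692 : W_6 (nat_lit 6) (nat_lit 0x200010001380098000000020000000000000000000000) (nat_lit 0x0) (nat_lit 0x20001000000067001b80058003c00000000000000000) := Q_6 (nat_lit 122) (C_6 L45395 (C_6 L45690 (C_6 L45691 N_6))) (by decide +kernel)
theorem L45693 : W_6 (nat_lit 2) (nat_lit 0x200010001380098000000060000000000000000000000) (nat_lit 0x0) (nat_lit 0x400000003000000000000000000) := D_6 (nat_lit 106) (nat_lit 72) (nat_lit 73) (nat_lit 7) (nat_lit 4) (nat_lit 4) (nat_lit 6) (nat_lit 4) (nat_lit 8) (by decide +kernel)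
theorem L45694 : W_6 (nat_lit 2) (nat_lit 0x200010001380098000000060000000000000000000000) (nat_lit 0x0) (nat_lit 0x800000003000000000000000000) := D_6 (nat_lit 107) (nat_lit 72) (nat_lit 73) (nat_lit 4) (nat_lit 5) (nat_lit 8) (nat_lit 5) (nat_lit 5) (nat_lit 4) (by decide +kernel)
theorem L45695 : W_6 (nat_lit 2) (nat_lit 0x200010001380098000000060000000000000000000000) (nat_lit 0x0) (nat_lit 0xc00000001000000000000000000) := D_6 (nat_lit 72) (nat_lit 107) (nat_lit 106) (nat_lit 4) (nat_lit 5) (nat_lit 8) (nat_lit 7) (nat_lit 4) (nat_lit 4) (by decide +kernel)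
theorem L45696 : W_6 (nat_lit 2) (nat_lit 0x200010001380098000000060000000000000000000000) (nat_lit 0x0) (nat_lit 0xc00000002000000000000000000) := D_6 (nat_lit 73) (nat_lit 106) (nat_lit 107) (nat_lit 6) (nat_lit 4) (nat_lit 8) (nat_lit 5) (nat_lit 5) (nat_lit 4) (by decide +kernel)
theorem L45697 : W_6 (nat_lit 3) (nat_lit 0x200010001380098000000020000000000000000000000) (nat_lit 0x0) (nat_lit 0xc00040003000000000000000000) := Q_6 (nat_lit 90) (C_6 L45693 (C_6 L45694 (C_6 L45695 (C_6 L45696 N_6)))) (by decide +kernel)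
theorem L45698 : W_6 (nat_lit 2) (nat_lit 0x2000100013800de0009000e0000400000000000000000) (nat_lit 0x0) (nat_lit 0x600010000000000000000000000) := D_6 (nat_lit 105) (nat_lit 106) (nat_lit 88) (nat_lit 2) (nat_lit 2) (nat_lit 6) (nat_lit 1) (nat_lit 6) (nat_lit 5) (by decide +kernel)
theorem L45699 : W_6 (nat_lit 3) (nat_lit 0x2000100013800de000900060000400000000000000000) (nat_lit 0x0) (nat_lit 0x600090004000000000000000000) := T_6 (nat_lit 91) (nat_lit 74) (nat_lit 6) (nat_lit 5) (nat_lit 8) L45698 (by decide +kernel)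
theorem L45700 : W_6 (nat_lit 4) (nat_lit 0x2000100013800de000900060000000000000000000000) (nat_lit 0x0) (nat_lit 0x600098004400000000000000000) := T_6 (nat_lit 70) (nat_lit 87) (nat_lit 7) (nat_lit 2) (nat_lit 4) L45699 (by decide +kernel)
theorem L45701 : W_6 (nat_lit 5) (nat_lit 0x2000100013800de000900020000000000000000000000) (nat_lit 0x0) (nat_lit 0x6000d8006400000000000000000) := T_6 (nat_lit 90) (nat_lit 73) (nat_lit 5) (nat_lit 5) (nat_lit 4) L45700 (by decide +kernel)
theorem L45702 : W_6 (nat_lit 6) (nat_lit 0x2000100013800de000800020000000000000000000000) (nat_lit 0x0) (nat_lit 0x7800d8006400000000000000000) := T_6 (nat_lit 104) (nat_lit 103) (nat_lit 0) (nat_lit 5) (nat_lit 7) L45701 (by decide +kernel)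
theorem L45703 : W_6 (nat_lit 7) (nat_lit 0x2000100013800de000000020000000000000000000000) (nat_lit 0x0) (nat_lit 0x1f800d8006400000000000000000) := T_6 (nat_lit 107) (nat_lit 108) (nat_lit 2) (nat_lit 2) (nat_lit 7) L45702 (by decide +kernel)
theorem L45704 : W_6 (nat_lit 8) (nat_lit 0x2000100013800dc000000020000000000000000000000) (nat_lit 0x0) (nat_lit 0x3001f800d8006400000000000000000) := T_6 (nat_lit 121) (nat_lit 120) (nat_lit 3) (nat_lit 1) (nat_lit 7) L45703 (by decide +kernel)
theorem L45705 : W_6 (nat_lit 9) (nat_lit 0x20001000138009c000000020000000000000000000000) (nat_lit 0x0) (nat_lit 0x63001f800d8006400000000000000000) := T_6 (nat_lit 126) (nat_lit 125) (nat_lit 1) (nat_lit 7) (nat_lit 7) L45704 (by decide +kernel)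
theorem L45706 : W_6 (nat_lit 2) (nat_lit 0x2000100013800bc000600178000000000000000000000) (nat_lit 0x0) (nat_lit 0x1800004000000000000000000000) := D_6 (nat_lit 107) (nat_lit 108) (nat_lit 86) (nat_lit 3) (nat_lit 2) (nat_lit 5) (nat_lit 3) (nat_lit 1) (nat_lit 5) (by decide +kernel)
theorem L45707 : W_6 (nat_lit 3) (nat_lit 0x2000100013800bc000600170000000000000000000000) (nat_lit 0x0) (nat_lit 0x180000c000400000000000000000) := T_6 (nat_lit 87) (nat_lit 70) (nat_lit 4) (nat_lit 3) (nat_lit 8) L45706 (by decide +kernel)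
theorem L45708 : W_6 (nat_lit 4) (nat_lit 0x2000100013800bc000600160000000000000000000000) (nat_lit 0x0) (nat_lit 0x180001c000c00000000000000000) := T_6 (nat_lit 88) (nat_lit 71) (nat_lit 7) (nat_lit 3) (nat_lit 4) L45707 (by decide +kernel)
theorem L45709 : W_6 (nat_lit 5) (nat_lit 0x2000100013800bc000600060000000000000000000000) (nat_lit 0x0) (nat_lit 0x180019c000c00000000000000000) := T_6 (nat_lit 92) (nat_lit 91) (nat_lit 1) (nat_lit 7) (nat_lit 5) L45708 (by decide +kernel)
theorem L45710 : W_6 (nat_lit 6) (nat_lit 0x2000100013800bc000400060000000000000000000000) (nat_lit 0x0) (nat_lit 0x1b0019c000c00000000000000000) := T_6 (nat_lit 105) (nat_lit 104) (nat_lit 0) (nat_lit 6) (nat_lit 7) L45709 (by decide +kernel)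
theorem L45711 : W_6 (nat_lit 7) (nat_lit 0x2000100013800bc000400020000000000000000000000) (nat_lit 0x0) (nat_lit 0x1b001dc002c00000000000000000) := T_6 (nat_lit 90) (nat_lit 73) (nat_lit 6) (nat_lit 4) (nat_lit 8) L45710 (by decide +kernel)
theorem L45712 : W_6 (nat_lit 8) (nat_lit 0x20001000138009c000400020000000000000000000000) (nat_lit 0x0) (nat_lit 0x60001b001dc002c00000000000000000) := T_6 (nat_lit 125) (nat_lit 126) (nat_lit 1) (nat_lit 7) (nat_lit 7) L45711 (by decide +kernel)
theorem L45713 : W_6 (nat_lit 9) (nat_lit 0x20001000138009c000000020000000000000000000000) (nat_lit 0x0) (nat_lit 0x1000000060001f001dc002c00000000000000000) := T_6 (nat_lit 106) (nat_lit 156) (nat_lit 5) (nat_lit 4) (nat_lit 5) L45712 (by decide +kernel)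
theorem L45714 : W_6 (nat_lit 2) (nat_lit 0x2000100013800de000500078000000000000000000000) (nat_lit 0x0) (nat_lit 0x1800004000000000000000000000) := D_6 (nat_lit 107) (nat_lit 108) (nat_lit 86) (nat_lit 3) (nat_lit 2) (nat_lit 5) (nat_lit 3) (nat_lit 1) (nat_lit 5) (by decide +kernel)
theorem L45715 : W_6 (nat_lit 3) (nat_lit 0x2000100013800de000500068000000000000000000000) (nat_lit 0x0) (nat_lit 0x1800014000800000000000000000) := T_6 (nat_lit 88) (nat_lit 71) (nat_lit 4) (nat_lit 4) (nat_lit 8) L45714 (by decide +kernel)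
theorem L45716 : W_6 (nat_lit 4) (nat_lit 0x2000100013800de000500060000000000000000000000) (nat_lit 0x0) (nat_lit 0x180001c000c00000000000000000) := T_6 (nat_lit 87) (nat_lit 70) (nat_lit 7) (nat_lit 2) (nat_lit 4) L45715 (by decide +kernel)
theorem L45717 : W_6 (nat_lit 5) (nat_lit 0x2000100013800de000500020000000000000000000000) (nat_lit 0x0) (nat_lit 0x180005c002c00000000000000000) := T_6 (nat_lit 90) (nat_lit 73) (nat_lit 6) (nat_lit 4) (nat_lit 8) L45716 (by decide +kernel)
theorem L45718 : W_6 (nat_lit 6) (nat_lit 0x2000100013800de000400020000000000000000000000) (nat_lit 0x0) (nat_lit 0x198005c002c00000000000000000) := T_6 (nat_lit 104) (nat_lit 103) (nat_lit 0) (nat_lit 5) (nat_lit 7) L45717 (by decide +kernel)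
theorem L45719 : W_6 (nat_lit 7) (nat_lit 0x2000100013800de000000020000000000000000000000) (nat_lit 0x0) (nat_lit 0x1000000000001d8005c002c00000000000000000) := T_6 (nat_lit 106) (nat_lit 156) (nat_lit 5) (nat_lit 4) (nat_lit 5) L45718 (by decide +kernel)
theorem L45720 : W_6 (nat_lit 8) (nat_lit 0x2000100013800dc000000020000000000000000000000) (nat_lit 0x0) (nat_lit 0x1000000003001d8005c002c00000000000000000) := T_6 (nat_lit 121) (nat_lit 120) (nat_lit 3) (nat_lit 1) (nat_lit 7) L45719 (by decide +kernel)
theorem L45721 : W_6 (nat_lit 9) (nat_lit 0x20001000138009c000000020000000000000000000000) (nat_lit 0x0) (nat_lit 0x1000000063001d8005c002c00000000000000000) := T_6 (nat_lit 126) (nat_lit 125) (nat_lit 1) (nat_lit 7) (nat_lit 7) L45720 (by decide +kernel)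
theorem L45722 : W_6 (nat_lit 2) (nat_lit 0x2700118013800dd000000020000000000000000000000) (nat_lit 0x0) (nat_lit 0x80000600000000000000000000000000000000000000) := D_6 (nat_lit 154) (nat_lit 153) (nat_lit 175) (nat_lit 3) (nat_lit 0) (nat_lit 9) (nat_lit 0) (nat_lit 5) (nat_lit 10) (by decide +kernel)
theorem L45723 : W_6 (nat_lit 3) (nat_lit 0x2700110013800dd000000020000000000000000000000) (nat_lit 0x0) (nat_lit 0x80000e00000000000200000000000000000000000000) := T_6 (nat_lit 155) (nat_lit 105) (nat_lit 5) (nat_lit 3) (nat_lit 6) L45722 (by decide +kernel)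
theorem L45724 : W_6 (nat_lit 4) (nat_lit 0x2600110013800dd000000020000000000000000000000) (nat_lit 0x0) (nat_lit 0x200090000e00000000000200000000000000000000000000) := T_6 (nat_lit 172) (nat_lit 189) (nat_lit 5) (nat_lit 3) (nat_lit 7) L45723 (by decide +kernel)
theorem L45725 : W_6 (nat_lit 5) (nat_lit 0x2200110013800dd000000020000000000000000000000) (nat_lit 0x0) (nat_lit 0xa000d0000e00000000000200000000000000000000000000) := T_6 (nat_lit 174) (nat_lit 191) (nat_lit 7) (nat_lit 3) (nat_lit 7) L45724 (by decide +kernel)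
theorem L45726 : W_6 (nat_lit 6) (nat_lit 0x2000110013800dd000000020000000000000000000000) (nat_lit 0x0) (nat_lit 0xe000f0000e00000000000200000000000000000000000000) := T_6 (nat_lit 173) (nat_lit 190) (nat_lit 6) (nat_lit 3) (nat_lit 11) L45725 (by decide +kernel)
theorem L45727 : W_6 (nat_lit 7) (nat_lit 0x2000100013800dd000000020000000000000000000000) (nat_lit 0x0) (nat_lit 0xe000f0001e00000000000600000000000000000000000000) := T_6 (nat_lit 156) (nat_lit 106) (nat_lit 5) (nat_lit 4) (nat_lit 5) L45726 (by decide +kernel)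
theorem L45728 : W_6 (nat_lit 8) (nat_lit 0x20001000138009d000000020000000000000000000000) (nat_lit 0x0) (nat_lit 0xe000f0001e00000060000600000000000000000000000000) := T_6 (nat_lit 126) (nat_lit 125) (nat_lit 1) (nat_lit 7) (nat_lit 7) L45727 (by decide +kernel)
theorem L45729 : W_6 (nat_lit 9) (nat_lit 0x20001000138009c000000020000000000000000000000) (nat_lit 0x0) (nat_lit 0xe000f0001e00000063000600000000000000000000000000) := T_6 (nat_lit 120) (nat_lit 121) (nat_lit 3) (nat_lit 1) (nat_lit 7) L45728 (by decide +kernel)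
theorem L45730 : W_6 (nat_lit 10) (nat_lit 0x200010001380098000000020000000000000000000000) (nat_lit 0x0) (nat_lit 0xe000f0001e00000067001f801dc006c00000000000000000) := Q_6 (nat_lit 122) (C_6 L45395 (C_6 L45705 (C_6 L45713 (C_6 L45721 (C_6 L45729 N_6))))) (by decide +kernel)
theorem L45731 : W_6 (nat_lit 11) (nat_lit 0x200010001380098000000000000000000000000000000) (nat_lit 0x0) (nat_lit 0xe000f0001e00000067001f801fc007c00000000000000000) := Q_6 (nat_lit 89) (C_6 L45692 (C_6 L43283 (C_6 L45697 (C_6 L45730 N_6)))) (by decide +kernel)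
theorem L45732 : W_6 (nat_lit 12) (nat_lit 0x200010001300098000000000000000000000000000000) (nat_lit 0x0) (nat_lit 0xe000f0001e000e0067001f801fc007c00000000000000000) := Q_6 (nat_lit 139) (C_6 L45731 (C_6 L45312 (C_6 L45552 N_6))) (by decide +kernel)
theorem L45733 : W_6 (nat_lit 2) (nat_lit 0x20001340130009a000f00008000000000000000000000) (nat_lit 0x0) (nat_lit 0x80004001000000000000000000000000000) := D_6 (nat_lit 122) (nat_lit 108) (nat_lit 139) (nat_lit 2) (nat_lit 2) (nat_lit 7) (nat_lit 4) (nat_lit 3) (nat_lit 9) (by decide +kernel)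
theorem L45734 : W_6 (nat_lit 3) (nat_lit 0x20001340130009a000f00000000000000000000000000) (nat_lit 0x0) (nat_lit 0x8000400100000c000000000000000000000) := T_6 (nat_lit 87) (nat_lit 86) (nat_lit 0) (nat_lit 5) (nat_lit 6) L45733 (by decide +kernel)
theorem L45735 : W_6 (nat_lit 4) (nat_lit 0x200013401300098000f00000000000000000000000000) (nat_lit 0x0) (nat_lit 0x8000700100000c000000000000000000000) := T_6 (nat_lit 121) (nat_lit 120) (nat_lit 1) (nat_lit 5) (nat_lit 6) L45734 (by decide +kernel)
theorem L45736 : W_6 (nat_lit 5) (nat_lit 0x200013001300098000f00000000000000000000000000) (nat_lit 0x0) (nat_lit 0xc0008000700100000c000000000000000000000) := T_6 (nat_lit 154) (nat_lit 155) (nat_lit 2) (nat_lit 1) (nat_lit 9) L45735 (by decide +kernel)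
theorem L45737 : W_6 (nat_lit 6) (nat_lit 0x200012001300098000f00000000000000000000000000) (nat_lit 0x0) (nat_lit 0x20001c0008000700100000c000000000000000000000) := T_6 (nat_lit 156) (nat_lit 173) (nat_lit 5) (nat_lit 4) (nat_lit 6) L45736 (by decide +kernel)
theorem L45738 : W_6 (nat_lit 7) (nat_lit 0x200012001300098000e00000000000000000000000000) (nat_lit 0x0) (nat_lit 0x20001c0008000700118000c000000000000000000000) := T_6 (nat_lit 104) (nat_lit 103) (nat_lit 3) (nat_lit 1) (nat_lit 6) L45737 (by decide +kernel)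
theorem L45739 : W_6 (nat_lit 8) (nat_lit 0x200012001300098000c00000000000000000000000000) (nat_lit 0x0) (nat_lit 0x20001c0008000700138001c000000000000000000000) := T_6 (nat_lit 105) (nat_lit 88) (nat_lit 4) (nat_lit 4) (nat_lit 9) L45738 (by decide +kernel)
theorem L45740 : W_6 (nat_lit 9) (nat_lit 0x200012001300098000400000000000000000000000000) (nat_lit 0x0) (nat_lit 0x20001c00080007001b8005c000000000000000000000) := T_6 (nat_lit 107) (nat_lit 90) (nat_lit 6) (nat_lit 4) (nat_lit 9) L45739 (by decide +kernel)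
theorem L45741 : W_6 (nat_lit 10) (nat_lit 0x200012001300098000000000000000000000000000000) (nat_lit 0x0) (nat_lit 0x20001c00080007001f8007c003000000000000000000) := Q_6 (nat_lit 106) (C_6 L45740 (C_6 L45666 (C_6 L45611 N_6))) (by decide +kernel)
theorem L45742 : W_6 (nat_lit 2) (nat_lit 0x2c0012001300098000000000000000000000000000000) (nat_lit 0x0) (nat_lit 0x100021000000000000000000000000000000000000000) := D_6 (nat_lit 176) (nat_lit 161) (nat_lit 156) (nat_lit 2) (nat_lit 4) (nat_lit 10) (nat_lit 0) (nat_lit 7) (nat_lit 10) (by decide +kernel)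
theorem L45743 : W_6 (nat_lit 3) (nat_lit 0x240012001300098000000000000000000000000000000) (nat_lit 0x0) (nat_lit 0x1000180021000000000000000000000000000000000000000) := T_6 (nat_lit 175) (nat_lit 192) (nat_lit 7) (nat_lit 4) (nat_lit 7) L45742 (by decide +kernel)
theorem L45744 : W_6 (nat_lit 4) (nat_lit 0x200012001300098000000000000000000000000000000) (nat_lit 0x0) (nat_lit 0x18001c0021000000000000000000000000000000000000000) := T_6 (nat_lit 174) (nat_lit 191) (nat_lit 6) (nat_lit 4) (nat_lit 11) L45743 (by decide +kernel)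
theorem L45745 : W_6 (nat_lit 11) (nat_lit 0x200010001300098000000000000000000000000000000) (nat_lit 0x0) (nat_lit 0x18001e0023c00080007001f8007c003000000000000000000) := Q_6 (nat_lit 157) (C_6 L45583 (C_6 L45741 (C_6 L45744 N_6))) (by decide +kernel)
theorem L45746 : W_6 (nat_lit 2) (nat_lit 0x2400134013800d8000680000000000000000000000000) (nat_lit 0x0) (nat_lit 0x1000180000000000000000000000000000000000000000000) := D_6 (nat_lit 175) (nat_lit 192) (nat_lit 176) (nat_lit 7) (nat_lit 4) (nat_lit 7) (nat_lit 0) (nat_lit 7) (nat_lit 10) (by decide +kernel)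
theorem L45747 : W_6 (nat_lit 3) (nat_lit 0x2000134013800d8000680000000000000000000000000) (nat_lit 0x0) (nat_lit 0x18001c0000000000000000000000000000000000000000000) := T_6 (nat_lit 174) (nat_lit 191) (nat_lit 6) (nat_lit 4) (nat_lit 11) L45746 (by decide +kernel)
theorem L45748 : W_6 (nat_lit 4) (nat_lit 0x2000130013800d8000680000000000000000000000000) (nat_lit 0x0) (nat_lit 0x18001c0000c00000000000000000000000000000000000000) := T_6 (nat_lit 154) (nat_lit 155) (nat_lit 2) (nat_lit 1) (nat_lit 9) L45747 (by decide +kernel)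
theorem L45749 : W_6 (nat_lit 5) (nat_lit 0x2000120013800d8000680000000000000000000000000) (nat_lit 0x0) (nat_lit 0x18001e0001c00000000000000000000000000000000000000) := T_6 (nat_lit 156) (nat_lit 173) (nat_lit 5) (nat_lit 4) (nat_lit 6) L45748 (by decide +kernel)
theorem L45750 : W_6 (nat_lit 6) (nat_lit 0x2000120013800d8000600000000000000000000000000) (nat_lit 0x0) (nat_lit 0x18001e0001c00000000000180000000000000000000000000) := T_6 (nat_lit 103) (nat_lit 104) (nat_lit 3) (nat_lit 1) (nat_lit 6) L45749 (by decide +kernel)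
theorem L45751 : W_6 (nat_lit 7) (nat_lit 0x2000120013800d8000400000000000000000000000000) (nat_lit 0x0) (nat_lit 0x18001e0001c00000000000380010000000000000000000000) := T_6 (nat_lit 105) (nat_lit 88) (nat_lit 4) (nat_lit 4) (nat_lit 9) L45750 (by decide +kernel)
theorem L45752 : W_6 (nat_lit 8) (nat_lit 0x200012001380098000400000000000000000000000000) (nat_lit 0x0) (nat_lit 0x18001e0001c00000060000380010000000000000000000000) := T_6 (nat_lit 126) (nat_lit 125) (nat_lit 1) (nat_lit 7) (nat_lit 7) L45751 (by decide +kernel)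
theorem L45753 : W_6 (nat_lit 2) (nat_lit 0x800200013801380098000700000000000000000000000000) (nat_lit 0x0) (nat_lit 0x10000000000004000000008000000000000000000000) := D_6 (nat_lit 122) (nat_lit 87) (nat_lit 172) (nat_lit 4) (nat_lit 3) (nat_lit 9) (nat_lit 5) (nat_lit 3) (nat_lit 6) (by decide +kernel)
theorem L45754 : W_6 (nat_lit 3) (nat_lit 0x800200013001380098000700000000000000000000000000) (nat_lit 0x0) (nat_lit 0x10000c00000004000000008000000000000000000000) := T_6 (nat_lit 155) (nat_lit 154) (nat_lit 2) (nat_lit 1) (nat_lit 9) L45753 (by decide +kernel)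
theorem L45755 : W_6 (nat_lit 4) (nat_lit 0x800200012001380098000700000000000000000000000000) (nat_lit 0x0) (nat_lit 0x30001c00000004000000008000000000000000000000) := T_6 (nat_lit 156) (nat_lit 173) (nat_lit 5) (nat_lit 4) (nat_lit 6) L45754 (by decide +kernel)
theorem L45756 : W_6 (nat_lit 5) (nat_lit 0x800200012001380098000600000000000000000000000000) (nat_lit 0x0) (nat_lit 0x30001c00000004000180008000000000000000000000) := T_6 (nat_lit 104) (nat_lit 103) (nat_lit 3) (nat_lit 1) (nat_lit 6) L45755 (by decide +kernel)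
theorem L45757 : W_6 (nat_lit 6) (nat_lit 0x800200012001380098000400000000000000000000000000) (nat_lit 0x0) (nat_lit 0x30001c00000004000380018000000000000000000000) := T_6 (nat_lit 105) (nat_lit 88) (nat_lit 4) (nat_lit 4) (nat_lit 9) L45756 (by decide +kernel)
theorem L45758 : W_6 (nat_lit 7) (nat_lit 0x200012001380098000400000000000000000000000000) (nat_lit 0x0) (nat_lit 0x800070001c00000004000380018000000000000000000000) := T_6 (nat_lit 191) (nat_lit 174) (nat_lit 6) (nat_lit 4) (nat_lit 11) L45757 (by decide +kernel)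
theorem L45759 : W_6 (nat_lit 2) (nat_lit 0x2400134013800d8000400000000000000000000000000) (nat_lit 0x0) (nat_lit 0x1000180000000000000000000000000000000000000000000) := D_6 (nat_lit 175) (nat_lit 192) (nat_lit 176) (nat_lit 7) (nat_lit 4) (nat_lit 7) (nat_lit 0) (nat_lit 7) (nat_lit 10) (by decide +kernel)
theorem L45760 : W_6 (nat_lit 3) (nat_lit 0x2000134013800d8000400000000000000000000000000) (nat_lit 0x0) (nat_lit 0x18001c0000000000000000000000000000000000000000000) := T_6 (nat_lit 174) (nat_lit 191) (nat_lit 6) (nat_lit 4) (nat_lit 11) L45759 (by decide +kernel)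
theorem L45761 : W_6 (nat_lit 4) (nat_lit 0x200013401380098000400000000000000000000000000) (nat_lit 0x0) (nat_lit 0x18001c0000000000060000000000000000000000000000000) := T_6 (nat_lit 126) (nat_lit 125) (nat_lit 1) (nat_lit 7) (nat_lit 7) L45760 (by decide +kernel)
theorem L45762 : W_6 (nat_lit 5) (nat_lit 0x200013001380098000400000000000000000000000000) (nat_lit 0x0) (nat_lit 0x18001c0000c00000060000000000000000000000000000000) := T_6 (nat_lit 154) (nat_lit 155) (nat_lit 2) (nat_lit 1) (nat_lit 9) L45761 (by decide +kernel)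
theorem L45763 : W_6 (nat_lit 6) (nat_lit 0x200012001380098000400000000000000000000000000) (nat_lit 0x0) (nat_lit 0x18001e0001c00000060000000000000000000000000000000) := T_6 (nat_lit 156) (nat_lit 173) (nat_lit 5) (nat_lit 4) (nat_lit 6) L45762 (by decide +kernel)
theorem L45764 : W_6 (nat_lit 9) (nat_lit 0x200010001380098000400000000000000000000000000) (nat_lit 0x0) (nat_lit 0x18001f0003c00000064000380018000000000000000000000) := Q_6 (nat_lit 157) (C_6 L45752 (C_6 L45359 (C_6 L45758 (C_6 L45763 N_6)))) (by decide +kernel)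
theorem L45765 : W_6 (nat_lit 10) (nat_lit 0x200010001380098000000000000000000000000000000) (nat_lit 0x0) (nat_lit 0x18001f0003c00000064000780038001800000000000000000) := Q_6 (nat_lit 106) (C_6 L45764 (C_6 L45064 (C_6 L45537 N_6))) (by decide +kernel)
theorem L45766 : W_6 (nat_lit 11) (nat_lit 0x200010001300098000000000000000000000000000000) (nat_lit 0x0) (nat_lit 0x1a001f0003c000e0067000780038001c00000000000000000) := Q_6 (nat_lit 139) (C_6 L45765 (C_6 L45312 (C_6 L45552 N_6))) (by decide +kernel)
theorem L45767 : W_6 (nat_lit 2) (nat_lit 0x200012001380098000000000000000000000000000000) (nat_lit 0x0) (nat_lit 0x40000000000000000800040000000000000000000000) := D_6 (nat_lit 107) (nat_lit 90) (nat_lit 174) (nat_lit 5) (nat_lit 5) (nat_lit 5) (nat_lit 6) (nat_lit 4) (nat_lit 10) (by decide +kernel)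
theorem L45768 : W_6 (nat_lit 2) (nat_lit 0x2000120013800de000300000000000000000000000000) (nat_lit 0x0) (nat_lit 0x1000000000000000008000400000000000000000) := D_6 (nat_lit 87) (nat_lit 70) (nat_lit 156) (nat_lit 7) (nat_lit 2) (nat_lit 4) (nat_lit 4) (nat_lit 3) (nat_lit 9) (by decide +kernel)
theorem L45769 : W_6 (nat_lit 3) (nat_lit 0x2000120013800de000200000000000000000000000000) (nat_lit 0x0) (nat_lit 0x1000000000000180008000400000000000000000) := T_6 (nat_lit 104) (nat_lit 103) (nat_lit 0) (nat_lit 5) (nat_lit 7) L45768 (by decide +kernel)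
theorem L45770 : W_6 (nat_lit 4) (nat_lit 0x2000120013800dc000200000000000000000000000000) (nat_lit 0x0) (nat_lit 0x1000000003000180008000400000000000000000) := T_6 (nat_lit 121) (nat_lit 120) (nat_lit 3) (nat_lit 1) (nat_lit 7) L45769 (by decide +kernel)
theorem L45771 : W_6 (nat_lit 5) (nat_lit 0x2000120013800dc000000000000000000000000000000) (nat_lit 0x0) (nat_lit 0x1000000003000380018000400000000000000000) := T_6 (nat_lit 105) (nat_lit 88) (nat_lit 7) (nat_lit 3) (nat_lit 5) L45770 (by decide +kernel)
theorem L45772 : W_6 (nat_lit 6) (nat_lit 0x20001200138009c000000000000000000000000000000) (nat_lit 0x0) (nat_lit 0x1000000063000380018000400000000000000000) := T_6 (nat_lit 126) (nat_lit 125) (nat_lit 1) (nat_lit 7) (nat_lit 7) L45771 (by decide +kernel)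
theorem L45773 : W_6 (nat_lit 2) (nat_lit 0x2000120013800bd000000040000000000000000000000) (nat_lit 0x0) (nat_lit 0x300010000000000000000000000) := D_6 (nat_lit 105) (nat_lit 88) (nat_lit 104) (nat_lit 7) (nat_lit 3) (nat_lit 5) (nat_lit 0) (nat_lit 6) (nat_lit 7) (by decide +kernel)
theorem L45774 : W_6 (nat_lit 3) (nat_lit 0x20001200138009d000000040000000000000000000000) (nat_lit 0x0) (nat_lit 0x60000300010000000000000000000000) := T_6 (nat_lit 125) (nat_lit 126) (nat_lit 1) (nat_lit 7) (nat_lit 7) L45773 (by decide +kernel)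
theorem L45775 : W_6 (nat_lit 4) (nat_lit 0x20001200138009d000000000000000000000000000000) (nat_lit 0x0) (nat_lit 0x60000b00050000000000000000000000) := T_6 (nat_lit 90) (nat_lit 107) (nat_lit 5) (nat_lit 5) (nat_lit 5) L45774 (by decide +kernel)
theorem L45776 : W_6 (nat_lit 5) (nat_lit 0x20001200138009c000000000000000000000000000000) (nat_lit 0x0) (nat_lit 0x63000b00050000000000000000000000) := T_6 (nat_lit 120) (nat_lit 121) (nat_lit 3) (nat_lit 1) (nat_lit 7) L45775 (by decide +kernel)
theorem L45777 : W_6 (nat_lit 2) (nat_lit 0x20001200138009e000000010000000000000000000000) (nat_lit 0x0) (nat_lit 0x1800040000000000000000000000) := D_6 (nat_lit 107) (nat_lit 90) (nat_lit 108) (nat_lit 5) (nat_lit 5) (nat_lit 5) (nat_lit 2) (nat_lit 2) (nat_lit 7) (by decide +kernel)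
theorem L45778 : W_6 (nat_lit 3) (nat_lit 0x20001200138009c000000010000000000000000000000) (nat_lit 0x0) (nat_lit 0x3001800040000000000000000000000) := T_6 (nat_lit 121) (nat_lit 120) (nat_lit 3) (nat_lit 1) (nat_lit 7) L45777 (by decide +kernel)
theorem L45779 : W_6 (nat_lit 4) (nat_lit 0x20001200138009c000000000000000000000000000000) (nat_lit 0x0) (nat_lit 0x3001a00050000000000000000000000) := T_6 (nat_lit 88) (nat_lit 105) (nat_lit 7) (nat_lit 3) (nat_lit 5) L45778 (by decide +kernel)
theorem L45780 : W_6 (nat_lit 2) (nat_lit 0x2000120013800bc000000040000000000000000000000) (nat_lit 0x0) (nat_lit 0x300010000000000000000000000) := D_6 (nat_lit 105) (nat_lit 88) (nat_lit 104) (nat_lit 7) (nat_lit 3) (nat_lit 5) (nat_lit 0) (nat_lit 6) (nat_lit 7) (by decide +kernel)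
theorem L45781 : W_6 (nat_lit 3) (nat_lit 0x20001200138009c000000040000000000000000000000) (nat_lit 0x0) (nat_lit 0x60000300010000000000000000000000) := T_6 (nat_lit 125) (nat_lit 126) (nat_lit 1) (nat_lit 7) (nat_lit 7) L45780 (by decide +kernel)
theorem L45782 : W_6 (nat_lit 4) (nat_lit 0x20001200138009c000000000000000000000000000000) (nat_lit 0x0) (nat_lit 0x60000b00050000000000000000000000) := T_6 (nat_lit 90) (nat_lit 107) (nat_lit 5) (nat_lit 5) (nat_lit 5) L45781 (by decide +kernel)
theorem L45783 : W_6 (nat_lit 2) (nat_lit 0x20001200138009e000000000000000000000000000000) (nat_lit 0x0) (nat_lit 0x1800040000000000000000000000) := D_6 (nat_lit 107) (nat_lit 90) (nat_lit 108) (nat_lit 5) (nat_lit 5) (nat_lit 5) (nat_lit 2) (nat_lit 2) (nat_lit 7) (by decide +kernel)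
theorem L45784 : W_6 (nat_lit 3) (nat_lit 0x20001200138009c000000000000000000000000000000) (nat_lit 0x0) (nat_lit 0x3001800040000000000000000000000) := T_6 (nat_lit 121) (nat_lit 120) (nat_lit 3) (nat_lit 1) (nat_lit 7) L45783 (by decide +kernel)
theorem L45785 : W_6 (nat_lit 7) (nat_lit 0x200012001380098000000000000000000000000000000) (nat_lit 0x0) (nat_lit 0x1000000067001b80058000400000000000000000) := Q_6 (nat_lit 122) (C_6 L45772 (C_6 L45776 (C_6 L45779 (C_6 L45782 (C_6 L45784 N_6))))) (by decide +kernel)
theorem L45786 : W_6 (nat_lit 2) (nat_lit 0x2e00120013800d8000000000000000000000000000000) (nat_lit 0x0) (nat_lit 0x100021000000000000000000000000000000000000000) := D_6 (nat_lit 176) (nat_lit 161) (nat_lit 156) (nat_lit 2) (nat_lit 4) (nat_lit 10) (nat_lit 0) (nat_lit 7) (nat_lit 10) (by decide +kernel)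
theorem L45787 : W_6 (nat_lit 3) (nat_lit 0x2600120013800d8000000000000000000000000000000) (nat_lit 0x0) (nat_lit 0x1000180021000000000000000000000000000000000000000) := T_6 (nat_lit 175) (nat_lit 192) (nat_lit 7) (nat_lit 4) (nat_lit 7) L45786 (by decide +kernel)
theorem L45788 : W_6 (nat_lit 4) (nat_lit 0x2400120013800d8000000000000000000000000000000) (nat_lit 0x0) (nat_lit 0x14001a0021000000000000000000000000000000000000000) := T_6 (nat_lit 173) (nat_lit 190) (nat_lit 5) (nat_lit 4) (nat_lit 7) L45787 (by decide +kernel)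
theorem L45789 : W_6 (nat_lit 5) (nat_lit 0x240012001380098000000000000000000000000000000) (nat_lit 0x0) (nat_lit 0x14001a0021000000060000000000000000000000000000000) := T_6 (nat_lit 126) (nat_lit 125) (nat_lit 1) (nat_lit 7) (nat_lit 7) L45788 (by decide +kernel)
theorem L45790 : W_6 (nat_lit 6) (nat_lit 0x200012001380098000000000000000000000000000000) (nat_lit 0x0) (nat_lit 0x1c001e0021000000060000000000000000000000000000000) := T_6 (nat_lit 174) (nat_lit 191) (nat_lit 6) (nat_lit 4) (nat_lit 11) L45789 (by decide +kernel)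
theorem L45791 : W_6 (nat_lit 8) (nat_lit 0x200010001380098000000000000000000000000000000) (nat_lit 0x0) (nat_lit 0x1c001e0023000000067001b80058000400000000000000000) := Q_6 (nat_lit 157) (C_6 L45767 (C_6 L45785 (C_6 L45790 N_6))) (by decide +kernel)
theorem L45792 : W_6 (nat_lit 9) (nat_lit 0x200010001300098000000000000000000000000000000) (nat_lit 0x0) (nat_lit 0x1c001f0023c000e0067001b80058002400000000000000000) := Q_6 (nat_lit 139) (C_6 L45791 (C_6 L45312 (C_6 L45422 N_6))) (by decide +kernel)
theorem L45793 : W_6 (nat_lit 6) (nat_lit 0x200010001300098000000000000000000000000000000) (nat_lit 0x0) (nat_lit 0x18001c0023000000064000f80070003000000000000000000) := Q_6 (nat_lit 157) (C_6 L45744 (C_6 L45670 N_6)) (by decide +kernel)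
theorem L45794 : W_6 (nat_lit 2) (nat_lit 0x20023001080134009b000000000000000000000000000000) (nat_lit 0x0) (nat_lit 0x2000100008000000000000000000000000000000000000000000) := D_6 (nat_lit 188) (nat_lit 205) (nat_lit 171) (nat_lit 5) (nat_lit 2) (nat_lit 8) (nat_lit 5) (nat_lit 2) (nat_lit 7) (by decide +kernel)
theorem L45795 : W_6 (nat_lit 3) (nat_lit 0x23001080134009b000000000000000000000000000000) (nat_lit 0x0) (nat_lit 0x2000300008000000020000000000000000000000000000000000) := T_6 (nat_lit 189) (nat_lit 137) (nat_lit 4) (nat_lit 2) (nat_lit 11) L45794 (by decide +kernel)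
theorem L45796 : W_6 (nat_lit 4) (nat_lit 0x23001080134009a000000000000000000000000000000) (nat_lit 0x0) (nat_lit 0x2000300008000000020001000080000000000000000000000000) := T_6 (nat_lit 120) (nat_lit 103) (nat_lit 4) (nat_lit 2) (nat_lit 10) L45795 (by decide +kernel)
theorem L45797 : W_6 (nat_lit 5) (nat_lit 0x21001080134009a000000000000000000000000000000) (nat_lit 0x0) (nat_lit 0x2000700028000000020001000080000000000000000000000000) := T_6 (nat_lit 173) (nat_lit 190) (nat_lit 7) (nat_lit 2) (nat_lit 7) L45796 (by decide +kernel)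
theorem L45798 : W_6 (nat_lit 2) (nat_lit 0x2002100108013400db000000000000000000000000000000) (nat_lit 0x0) (nat_lit 0x2000100008000000000000000000000000000000000000000000) := D_6 (nat_lit 188) (nat_lit 205) (nat_lit 171) (nat_lit 5) (nat_lit 2) (nat_lit 8) (nat_lit 5) (nat_lit 2) (nat_lit 7) (by decide +kernel)
theorem L45799 : W_6 (nat_lit 3) (nat_lit 0x2100108013400db000000000000000000000000000000) (nat_lit 0x0) (nat_lit 0x2000300008000000020000000000000000000000000000000000) := T_6 (nat_lit 189) (nat_lit 137) (nat_lit 4) (nat_lit 2) (nat_lit 11) L45798 (by decide +kernel)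
theorem L45800 : W_6 (nat_lit 4) (nat_lit 0x2100108013400da000000000000000000000000000000) (nat_lit 0x0) (nat_lit 0x2000300008000000020001000080000000000000000000000000) := T_6 (nat_lit 120) (nat_lit 103) (nat_lit 4) (nat_lit 2) (nat_lit 10) L45799 (by decide +kernel)
theorem L45801 : W_6 (nat_lit 5) (nat_lit 0x21001080134009a000000000000000000000000000000) (nat_lit 0x0) (nat_lit 0x2000300008000000020061000080000000000000000000000000) := T_6 (nat_lit 126) (nat_lit 125) (nat_lit 1) (nat_lit 8) (nat_lit 7) L45800 (by decide +kernel)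
theorem L45802 : W_6 (nat_lit 2) (nat_lit 0x23801080134009a000000000000000000000000000000) (nat_lit 0x0) (nat_lit 0x1400000000000100000000000000000000000000) := D_6 (nat_lit 104) (nat_lit 154) (nat_lit 156) (nat_lit 5) (nat_lit 2) (nat_lit 6) (nat_lit 7) (nat_lit 2) (nat_lit 6) (by decide +kernel)
theorem L45803 : W_6 (nat_lit 3) (nat_lit 0x21801080134009a000000000000000000000000000000) (nat_lit 0x0) (nat_lit 0x400020001400000000000100000000000000000000000000) := T_6 (nat_lit 173) (nat_lit 190) (nat_lit 7) (nat_lit 2) (nat_lit 7) L45802 (by decide +kernel)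
theorem L45804 : W_6 (nat_lit 4) (nat_lit 0x21001080134009a000000000000000000000000000000) (nat_lit 0x0) (nat_lit 0x500028001400000000000100000000000000000000000000) := T_6 (nat_lit 171) (nat_lit 188) (nat_lit 5) (nat_lit 2) (nat_lit 7) L45803 (by decide +kernel)
theorem L45805 : W_6 (nat_lit 2) (nat_lit 0x2300108013400da000100000000000000000000000000) (nat_lit 0x0) (nat_lit 0x1000080004000000000000000000000) := D_6 (nat_lit 103) (nat_lit 86) (nat_lit 120) (nat_lit 4) (nat_lit 2) (nat_lit 9) (nat_lit 4) (nat_lit 2) (nat_lit 10) (by decide +kernel)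
theorem L45806 : W_6 (nat_lit 3) (nat_lit 0x2300108013400da000000000000000000000000000000) (nat_lit 0x0) (nat_lit 0x1000000001000180004000000000000000000000) := T_6 (nat_lit 104) (nat_lit 156) (nat_lit 7) (nat_lit 2) (nat_lit 6) L45805 (by decide +kernel)
theorem L45807 : W_6 (nat_lit 4) (nat_lit 0x23001080134009a000000000000000000000000000000) (nat_lit 0x0) (nat_lit 0x1000000061000180004000000000000000000000) := T_6 (nat_lit 126) (nat_lit 125) (nat_lit 1) (nat_lit 8) (nat_lit 7) L45806 (by decide +kernel)
theorem L45808 : W_6 (nat_lit 5) (nat_lit 0x21001080134009a000000000000000000000000000000) (nat_lit 0x0) (nat_lit 0x400020001000000061000180004000000000000000000000) := T_6 (nat_lit 173) (nat_lit 190) (nat_lit 7) (nat_lit 2) (nat_lit 7) L45807 (by decide +kernel)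
theorem L45809 : W_6 (nat_lit 6) (nat_lit 0x20001080134009a000000000000000000000000000000) (nat_lit 0x0) (nat_lit 0x2000700038001400020061000180004000000000000000000000) := Q_6 (nat_lit 172) (C_6 L45797 (C_6 L45801 (C_6 L45804 (C_6 L45808 N_6)))) (by decide +kernel)
theorem L45810 : W_6 (nat_lit 2) (nat_lit 0x238010c013400db000000000000000000000000000000) (nat_lit 0x0) (nat_lit 0xc0000200000000000000000000000000000000000000) := D_6 (nat_lit 174) (nat_lit 175) (nat_lit 153) (nat_lit 0) (nat_lit 5) (nat_lit 10) (nat_lit 0) (nat_lit 4) (nat_lit 10) (by decide +kernel)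
theorem L45811 : W_6 (nat_lit 3) (nat_lit 0x2380108013400db000000000000000000000000000000) (nat_lit 0x0) (nat_lit 0xc0000600000000000100000000000000000000000000) := T_6 (nat_lit 154) (nat_lit 104) (nat_lit 5) (nat_lit 2) (nat_lit 6) L45810 (by decide +kernel)
theorem L45812 : W_6 (nat_lit 4) (nat_lit 0x2300108013400db000000000000000000000000000000) (nat_lit 0x0) (nat_lit 0x1000c8000600000000000100000000000000000000000000) := T_6 (nat_lit 171) (nat_lit 188) (nat_lit 5) (nat_lit 2) (nat_lit 7) L45811 (by decide +kernel)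
theorem L45813 : W_6 (nat_lit 5) (nat_lit 0x2300108013400da000000000000000000000000000000) (nat_lit 0x0) (nat_lit 0x1000c8000600000001000180000000000000000000000000) := T_6 (nat_lit 120) (nat_lit 103) (nat_lit 4) (nat_lit 2) (nat_lit 10) L45812 (by decide +kernel)
theorem L45814 : W_6 (nat_lit 6) (nat_lit 0x23001080134009a000000000000000000000000000000) (nat_lit 0x0) (nat_lit 0x1000c8000600000061000180000000000000000000000000) := T_6 (nat_lit 126) (nat_lit 125) (nat_lit 1) (nat_lit 8) (nat_lit 7) L45813 (by decide +kernel)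
theorem L45815 : W_6 (nat_lit 7) (nat_lit 0x21001080134009a000000000000000000000000000000) (nat_lit 0x0) (nat_lit 0x5000e8000600000061000180000000000000000000000000) := T_6 (nat_lit 173) (nat_lit 190) (nat_lit 7) (nat_lit 2) (nat_lit 7) L45814 (by decide +kernel)
theorem L45816 : W_6 (nat_lit 2) (nat_lit 0x238010c013400da000000000000000000000000000000) (nat_lit 0x0) (nat_lit 0xc0000200000000000000000000000000000000000000) := D_6 (nat_lit 174) (nat_lit 175) (nat_lit 153) (nat_lit 0) (nat_lit 5) (nat_lit 10) (nat_lit 0) (nat_lit 4) (nat_lit 10) (by decide +kernel)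
theorem L45817 : W_6 (nat_lit 3) (nat_lit 0x218010c013400da000000000000000000000000000000) (nat_lit 0x0) (nat_lit 0x4000e0000200000000000000000000000000000000000000) := T_6 (nat_lit 173) (nat_lit 190) (nat_lit 7) (nat_lit 2) (nat_lit 7) L45816 (by decide +kernel)
theorem L45818 : W_6 (nat_lit 4) (nat_lit 0x2180108013400da000000000000000000000000000000) (nat_lit 0x0) (nat_lit 0x4000e0000600000000000100000000000000000000000000) := T_6 (nat_lit 154) (nat_lit 104) (nat_lit 5) (nat_lit 2) (nat_lit 6) L45817 (by decide +kernel)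
theorem L45819 : W_6 (nat_lit 5) (nat_lit 0x21801080134009a000000000000000000000000000000) (nat_lit 0x0) (nat_lit 0x4000e0000600000060000100000000000000000000000000) := T_6 (nat_lit 126) (nat_lit 125) (nat_lit 1) (nat_lit 8) (nat_lit 7) L45818 (by decide +kernel)
theorem L45820 : W_6 (nat_lit 6) (nat_lit 0x21001080134009a000000000000000000000000000000) (nat_lit 0x0) (nat_lit 0x5000e8000600000060000100000000000000000000000000) := T_6 (nat_lit 171) (nat_lit 188) (nat_lit 5) (nat_lit 2) (nat_lit 7) L45819 (by decide +kernel)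
theorem L45821 : W_6 (nat_lit 2) (nat_lit 0x270010c013400da000180000000000000000000000000) (nat_lit 0x0) (nat_lit 0x800000002000000000000800000000000000000000000000) := D_6 (nat_lit 157) (nat_lit 191) (nat_lit 107) (nat_lit 6) (nat_lit 4) (nat_lit 11) (nat_lit 6) (nat_lit 4) (nat_lit 10) (by decide +kernel)
theorem L45822 : W_6 (nat_lit 3) (nat_lit 0x230010c013400da000180000000000000000000000000) (nat_lit 0x0) (nat_lit 0x8000c0002000000000000800000000000000000000000000) := T_6 (nat_lit 174) (nat_lit 175) (nat_lit 0) (nat_lit 5) (nat_lit 10) L45821 (by decide +kernel)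
theorem L45823 : W_6 (nat_lit 4) (nat_lit 0x2300108013400da000180000000000000000000000000) (nat_lit 0x0) (nat_lit 0x8000c8002400000000000800000000000000000000000000) := T_6 (nat_lit 154) (nat_lit 171) (nat_lit 5) (nat_lit 2) (nat_lit 6) L45822 (by decide +kernel)
theorem L45824 : W_6 (nat_lit 5) (nat_lit 0x2300108013400da000080000000000000000000000000) (nat_lit 0x0) (nat_lit 0x8000c8002400000000000900004000000000000000000000) := T_6 (nat_lit 104) (nat_lit 86) (nat_lit 4) (nat_lit 2) (nat_lit 9) L45823 (by decide +kernel)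
theorem L45825 : W_6 (nat_lit 6) (nat_lit 0x2300108013400da000000000000000000000000000000) (nat_lit 0x0) (nat_lit 0x8000c8002400000001000980004000000000000000000000) := T_6 (nat_lit 103) (nat_lit 120) (nat_lit 4) (nat_lit 2) (nat_lit 10) L45824 (by decide +kernel)
theorem L45826 : W_6 (nat_lit 7) (nat_lit 0x23001080134009a000000000000000000000000000000) (nat_lit 0x0) (nat_lit 0x8000c8002400000061000980004000000000000000000000) := T_6 (nat_lit 126) (nat_lit 125) (nat_lit 1) (nat_lit 8) (nat_lit 7) L45825 (by decide +kernel)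
theorem L45827 : W_6 (nat_lit 8) (nat_lit 0x21001080134009a000000000000000000000000000000) (nat_lit 0x0) (nat_lit 0xc000e8002400000061000980004000000000000000000000) := T_6 (nat_lit 173) (nat_lit 190) (nat_lit 7) (nat_lit 2) (nat_lit 7) L45826 (by decide +kernel)
theorem L45828 : W_6 (nat_lit 2) (nat_lit 0x20021001080134009b000000000000000000000000000000) (nat_lit 0x0) (nat_lit 0x8000400020000000000000000000000000000000000000000000) := D_6 (nat_lit 190) (nat_lit 173) (nat_lit 207) (nat_lit 7) (nat_lit 2) (nat_lit 7) (nat_lit 7) (nat_lit 2) (nat_lit 8) (by decide +kernel)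
theorem L45829 : W_6 (nat_lit 3) (nat_lit 0x21001080134009b000000000000000000000000000000) (nat_lit 0x0) (nat_lit 0x8000600020000000020000000000000000000000000000000000) := T_6 (nat_lit 189) (nat_lit 137) (nat_lit 4) (nat_lit 2) (nat_lit 11) L45828 (by decide +kernel)
theorem L45830 : W_6 (nat_lit 4) (nat_lit 0x21001080134009a000000000000000000000000000000) (nat_lit 0x0) (nat_lit 0x8000600020000000020001000080000000000000000000000000) := T_6 (nat_lit 120) (nat_lit 103) (nat_lit 4) (nat_lit 2) (nat_lit 10) L45829 (by decide +kernel)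
theorem L45831 : W_6 (nat_lit 9) (nat_lit 0x20001080134009a000000000000000000000000000000) (nat_lit 0x0) (nat_lit 0xa000f000f8002600020061000980004000000000000000000000) := Q_6 (nat_lit 172) (C_6 L45801 (C_6 L45797 (C_6 L45815 (C_6 L45820 (C_6 L45827 (C_6 L45830 N_6)))))) (by decide +kernel)
theorem L45832 : W_6 (nat_lit 2) (nat_lit 0x20001280134009a000000000000000000000000000000) (nat_lit 0x0) (nat_lit 0x40000000000000000800040000000000000000000000) := D_6 (nat_lit 107) (nat_lit 90) (nat_lit 174) (nat_lit 5) (nat_lit 5) (nat_lit 5) (nat_lit 6) (nat_lit 4) (nat_lit 10) (by decide +kernel)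
theorem L45833 : W_6 (nat_lit 2) (nat_lit 0x200012c0134009a000100048000000000000000000000) (nat_lit 0x0) (nat_lit 0x80004000200000000000000000) := D_6 (nat_lit 86) (nat_lit 103) (nat_lit 69) (nat_lit 4) (nat_lit 2) (nat_lit 9) (nat_lit 4) (nat_lit 2) (nat_lit 8) (by decide +kernel)
theorem L45834 : W_6 (nat_lit 3) (nat_lit 0x200012c0134009a000100040000000000000000000000) (nat_lit 0x0) (nat_lit 0x2000000008000c000200000000000000000) := T_6 (nat_lit 87) (nat_lit 137) (nat_lit 5) (nat_lit 2) (nat_lit 5) L45833 (by decide +kernel)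
theorem L45835 : W_6 (nat_lit 4) (nat_lit 0x200012c0134009a000000040000000000000000000000) (nat_lit 0x0) (nat_lit 0x800000002000000018000c000200000000000000000) := T_6 (nat_lit 104) (nat_lit 171) (nat_lit 5) (nat_lit 2) (nat_lit 6) L45834 (by decide +kernel)
theorem L45836 : W_6 (nat_lit 5) (nat_lit 0x200012c0134009a000000000000000000000000000000) (nat_lit 0x0) (nat_lit 0x800000002000000098004c000200000000000000000) := T_6 (nat_lit 90) (nat_lit 107) (nat_lit 5) (nat_lit 5) (nat_lit 5) L45835 (by decide +kernel)
theorem L45837 : W_6 (nat_lit 6) (nat_lit 0x20001280134009a000000000000000000000000000000) (nat_lit 0x0) (nat_lit 0x800140002000000098004c000200000000000000000) := T_6 (nat_lit 154) (nat_lit 156) (nat_lit 2) (nat_lit 1) (nat_lit 9) L45836 (by decide +kernel)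
theorem L45838 : W_6 (nat_lit 2) (nat_lit 0x800200012c0134009a000100008000000000000000000000) (nat_lit 0x0) (nat_lit 0x80004000200000000000000000) := D_6 (nat_lit 86) (nat_lit 103) (nat_lit 69) (nat_lit 4) (nat_lit 2) (nat_lit 9) (nat_lit 4) (nat_lit 2) (nat_lit 8) (by decide +kernel)
theorem L45839 : W_6 (nat_lit 3) (nat_lit 0x800200012c0134009a000100000000000000000000000000) (nat_lit 0x0) (nat_lit 0x2000000008000c000200000000000000000) := T_6 (nat_lit 87) (nat_lit 137) (nat_lit 5) (nat_lit 2) (nat_lit 5) L45838 (by decide +kernel)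
theorem L45840 : W_6 (nat_lit 4) (nat_lit 0x800200012c0134009a000000000000000000000000000000) (nat_lit 0x0) (nat_lit 0x800000002000000018000c000200000000000000000) := T_6 (nat_lit 104) (nat_lit 171) (nat_lit 5) (nat_lit 2) (nat_lit 6) L45839 (by decide +kernel)
theorem L45841 : W_6 (nat_lit 5) (nat_lit 0x200012c0134009a000000000000000000000000000000) (nat_lit 0x0) (nat_lit 0x80004800000002000000018000c000200000000000000000) := T_6 (nat_lit 191) (nat_lit 174) (nat_lit 6) (nat_lit 4) (nat_lit 11) L45840 (by decide +kernel)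
theorem L45842 : W_6 (nat_lit 6) (nat_lit 0x20001280134009a000000000000000000000000000000) (nat_lit 0x0) (nat_lit 0x80004800140002000000018000c000200000000000000000) := T_6 (nat_lit 154) (nat_lit 156) (nat_lit 2) (nat_lit 1) (nat_lit 9) L45841 (by decide +kernel)
theorem L45843 : W_6 (nat_lit 7) (nat_lit 0x20001080134009a000000000000000000000000000000) (nat_lit 0x0) (nat_lit 0x80004800340002000000098004c000200000000000000000) := Q_6 (nat_lit 157) (C_6 L45832 (C_6 L45837 (C_6 L45842 N_6))) (by decide +kernel)
theorem L45844 : W_6 (nat_lit 2) (nat_lit 0x2380118013400da000000000000000000000000000000) (nat_lit 0x0) (nat_lit 0x4002000000000000400000000000000000000000000) := D_6 (nat_lit 157) (nat_lit 106) (nat_lit 170) (nat_lit 5) (nat_lit 4) (nat_lit 6) (nat_lit 2) (nat_lit 0) (nat_lit 10) (by decide +kernel)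
theorem L45845 : W_6 (nat_lit 3) (nat_lit 0x2380108013400da000000000000000000000000000000) (nat_lit 0x0) (nat_lit 0x4003000000000000500000000000000000000000000) := T_6 (nat_lit 156) (nat_lit 104) (nat_lit 7) (nat_lit 2) (nat_lit 6) L45844 (by decide +kernel)
theorem L45846 : W_6 (nat_lit 4) (nat_lit 0x2300108013400da000000000000000000000000000000) (nat_lit 0x0) (nat_lit 0x10000c003000000000000500000000000000000000000000) := T_6 (nat_lit 171) (nat_lit 188) (nat_lit 5) (nat_lit 2) (nat_lit 7) L45845 (by decide +kernel)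
theorem L45847 : W_6 (nat_lit 5) (nat_lit 0x2100108013400da000000000000000000000000000000) (nat_lit 0x0) (nat_lit 0x50002c003000000000000500000000000000000000000000) := T_6 (nat_lit 173) (nat_lit 190) (nat_lit 7) (nat_lit 2) (nat_lit 7) L45846 (by decide +kernel)
theorem L45848 : W_6 (nat_lit 6) (nat_lit 0x21001080134009a000000000000000000000000000000) (nat_lit 0x0) (nat_lit 0x50002c003000000060000500000000000000000000000000) := T_6 (nat_lit 126) (nat_lit 125) (nat_lit 1) (nat_lit 8) (nat_lit 7) L45847 (by decide +kernel)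
theorem L45849 : W_6 (nat_lit 7) (nat_lit 0x20001080134009a000000000000000000000000000000) (nat_lit 0x0) (nat_lit 0xa00070003c003000020061000580004000000000000000000000) := Q_6 (nat_lit 172) (C_6 L45830 (C_6 L45801 (C_6 L45808 (C_6 L45848 N_6)))) (by decide +kernel)
theorem L45850 : W_6 (nat_lit 2) (nat_lit 0x208012c013400da000000040000000000000000000000) (nat_lit 0x0) (nat_lit 0x2000100010000000000000000000000000000000000000000000) := D_6 (nat_lit 188) (nat_lit 172) (nat_lit 205) (nat_lit 5) (nat_lit 2) (nat_lit 7) (nat_lit 6) (nat_lit 1) (nat_lit 12) (by decide +kernel)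
theorem L45851 : W_6 (nat_lit 3) (nat_lit 0x200012c013400da000000040000000000000000000000) (nat_lit 0x0) (nat_lit 0x2000100018000000000000000100000000000000000000000000) := T_6 (nat_lit 171) (nat_lit 104) (nat_lit 5) (nat_lit 2) (nat_lit 6) L45850 (by decide +kernel)
theorem L45852 : W_6 (nat_lit 4) (nat_lit 0x2000128013400da000000040000000000000000000000) (nat_lit 0x0) (nat_lit 0x2000100018001400000000000100000000000000000000000000) := T_6 (nat_lit 154) (nat_lit 156) (nat_lit 2) (nat_lit 1) (nat_lit 9) L45851 (by decide +kernel)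
theorem L45853 : W_6 (nat_lit 5) (nat_lit 0x2000128013400da000000000000000000000000000000) (nat_lit 0x0) (nat_lit 0x2000100018001400000000000900040000000000000000000000) := T_6 (nat_lit 90) (nat_lit 107) (nat_lit 5) (nat_lit 5) (nat_lit 5) L45852 (by decide +kernel)
theorem L45854 : W_6 (nat_lit 6) (nat_lit 0x20001280134009a000000000000000000000000000000) (nat_lit 0x0) (nat_lit 0x2000100018001400000060000900040000000000000000000000) := T_6 (nat_lit 126) (nat_lit 125) (nat_lit 1) (nat_lit 8) (nat_lit 7) L45853 (by decide +kernel)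
theorem L45855 : W_6 (nat_lit 2) (nat_lit 0x250012c013400da000180000000000000000000000000) (nat_lit 0x0) (nat_lit 0x10000a0000000000000000000000000000000000000000000) := D_6 (nat_lit 175) (nat_lit 173) (nat_lit 192) (nat_lit 0) (nat_lit 5) (nat_lit 10) (nat_lit 7) (nat_lit 4) (nat_lit 7) (by decide +kernel)
theorem L45856 : W_6 (nat_lit 3) (nat_lit 0x240012c013400da000180000000000000000000000000) (nat_lit 0x0) (nat_lit 0x10000b0000000000001000000000000000000000000000000) := T_6 (nat_lit 172) (nat_lit 120) (nat_lit 4) (nat_lit 2) (nat_lit 10) L45855 (by decide +kernel)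
theorem L45857 : W_6 (nat_lit 4) (nat_lit 0x240012c013400da000100000000000000000000000000) (nat_lit 0x0) (nat_lit 0x10000b0000000000001000080004000000000000000000000) := T_6 (nat_lit 103) (nat_lit 86) (nat_lit 4) (nat_lit 2) (nat_lit 9) L45856 (by decide +kernel)
theorem L45858 : W_6 (nat_lit 5) (nat_lit 0x200012c013400da000100000000000000000000000000) (nat_lit 0x0) (nat_lit 0x18000f0000000000001000080004000000000000000000000) := T_6 (nat_lit 174) (nat_lit 191) (nat_lit 6) (nat_lit 4) (nat_lit 11) L45857 (by decide +kernel)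
theorem L45859 : W_6 (nat_lit 6) (nat_lit 0x200012c013400da000000000000000000000000000000) (nat_lit 0x0) (nat_lit 0x18000f8000000000001000180004000000000000000000000) := T_6 (nat_lit 104) (nat_lit 171) (nat_lit 5) (nat_lit 2) (nat_lit 6) L45858 (by decide +kernel)
theorem L45860 : W_6 (nat_lit 7) (nat_lit 0x200012c0134009a000000000000000000000000000000) (nat_lit 0x0) (nat_lit 0x18000f8000000000061000180004000000000000000000000) := T_6 (nat_lit 126) (nat_lit 125) (nat_lit 1) (nat_lit 8) (nat_lit 7) L45859 (by decide +kernel)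
theorem L45861 : W_6 (nat_lit 8) (nat_lit 0x20001280134009a000000000000000000000000000000) (nat_lit 0x0) (nat_lit 0x18000f8001400000061000180004000000000000000000000) := T_6 (nat_lit 154) (nat_lit 156) (nat_lit 2) (nat_lit 1) (nat_lit 9) L45860 (by decide +kernel)
theorem L45862 : W_6 (nat_lit 9) (nat_lit 0x20001080134009a000000000000000000000000000000) (nat_lit 0x0) (nat_lit 0x20019000f8003400000061000980044000000000000000000000) := Q_6 (nat_lit 157) (C_6 L45832 (C_6 L45854 (C_6 L45861 N_6))) (by decide +kernel)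
theorem L45863 : W_6 (nat_lit 2) (nat_lit 0x2000138013400da000400040000000000000000000000) (nat_lit 0x0) (nat_lit 0x20003000000000000000000) := D_6 (nat_lit 89) (nat_lit 72) (nat_lit 73) (nat_lit 7) (nat_lit 4) (nat_lit 4) (nat_lit 6) (nat_lit 4) (nat_lit 8) (by decide +kernel)
theorem L45864 : W_6 (nat_lit 3) (nat_lit 0x2000138013400da000000040000000000000000000000) (nat_lit 0x0) (nat_lit 0x20000000000000000400020003000000000000000000) := T_6 (nat_lit 106) (nat_lit 173) (nat_lit 5) (nat_lit 4) (nat_lit 6) L45863 (by decide +kernel)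
theorem L45865 : W_6 (nat_lit 4) (nat_lit 0x2000128013400da000000040000000000000000000000) (nat_lit 0x0) (nat_lit 0x20001400000000000400020003000000000000000000) := T_6 (nat_lit 156) (nat_lit 154) (nat_lit 2) (nat_lit 1) (nat_lit 9) L45864 (by decide +kernel)
theorem L45866 : W_6 (nat_lit 5) (nat_lit 0x2000128013400da000000000000000000000000000000) (nat_lit 0x0) (nat_lit 0x20001400000000000c00060003000000000000000000) := T_6 (nat_lit 90) (nat_lit 107) (nat_lit 5) (nat_lit 5) (nat_lit 5) L45865 (by decide +kernel)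
theorem L45867 : W_6 (nat_lit 6) (nat_lit 0x20001280134009a000000000000000000000000000000) (nat_lit 0x0) (nat_lit 0x20001400000060000c00060003000000000000000000) := T_6 (nat_lit 126) (nat_lit 125) (nat_lit 1) (nat_lit 8) (nat_lit 7) L45866 (by decide +kernel)
theorem L45868 : W_6 (nat_lit 2) (nat_lit 0x2c0012c013400da000000000000000000000000000000) (nat_lit 0x0) (nat_lit 0x400030000000000000000000000000000000000000000000) := D_6 (nat_lit 173) (nat_lit 190) (nat_lit 172) (nat_lit 5) (nat_lit 4) (nat_lit 7) (nat_lit 0) (nat_lit 5) (nat_lit 10) (by decide +kernel)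
theorem L45869 : W_6 (nat_lit 3) (nat_lit 0x240012c013400da000000000000000000000000000000) (nat_lit 0x0) (nat_lit 0x14000b0000000000000000000000000000000000000000000) := T_6 (nat_lit 175) (nat_lit 192) (nat_lit 7) (nat_lit 4) (nat_lit 7) L45868 (by decide +kernel)
theorem L45870 : W_6 (nat_lit 4) (nat_lit 0x200012c013400da000000000000000000000000000000) (nat_lit 0x0) (nat_lit 0x1c000f0000000000000000000000000000000000000000000) := T_6 (nat_lit 174) (nat_lit 191) (nat_lit 6) (nat_lit 4) (nat_lit 11) L45869 (by decide +kernel)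
theorem L45871 : W_6 (nat_lit 5) (nat_lit 0x200012c0134009a000000000000000000000000000000) (nat_lit 0x0) (nat_lit 0x1c000f0000000000060000000000000000000000000000000) := T_6 (nat_lit 126) (nat_lit 125) (nat_lit 1) (nat_lit 8) (nat_lit 7) L45870 (by decide +kernel)
theorem L45872 : W_6 (nat_lit 6) (nat_lit 0x20001280134009a000000000000000000000000000000) (nat_lit 0x0) (nat_lit 0x1c000f0001400000060000000000000000000000000000000) := T_6 (nat_lit 154) (nat_lit 156) (nat_lit 2) (nat_lit 1) (nat_lit 9) L45871 (by decide +kernel)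
theorem L45873 : W_6 (nat_lit 7) (nat_lit 0x20001080134009a000000000000000000000000000000) (nat_lit 0x0) (nat_lit 0x1c000f0003400000060000c00060003000000000000000000) := Q_6 (nat_lit 157) (C_6 L45832 (C_6 L45867 (C_6 L45872 N_6))) (by decide +kernel)
theorem L45874 : W_6 (nat_lit 10) (nat_lit 0x20001000134009a000000000000000000000000000000) (nat_lit 0x0) (nat_lit 0xa001f000fc003e00020061000d8006c003200000000000000000) := Q_6 (nat_lit 155) (C_6 L45809 (C_6 L45831 (C_6 L45843 (C_6 L45849 (C_6 L45862 (C_6 L45873 N_6)))))) (by decide +kernel)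
theorem L45875 : W_6 (nat_lit 2) (nat_lit 0x2000100013400de000900000000000000000000000000) (nat_lit 0x0) (nat_lit 0x2000000000000000040002000000000000000000) := D_6 (nat_lit 90) (nat_lit 157) (nat_lit 73) (nat_lit 5) (nat_lit 5) (nat_lit 5) (nat_lit 5) (nat_lit 5) (nat_lit 4) (by decide +kernel)
theorem L45876 : W_6 (nat_lit 3) (nat_lit 0x2000100013400de000100000000000000000000000000) (nat_lit 0x0) (nat_lit 0x2000000000001800040002000000000000000000) := T_6 (nat_lit 107) (nat_lit 108) (nat_lit 2) (nat_lit 2) (nat_lit 7) L45875 (by decide +kernel)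
theorem L45877 : W_6 (nat_lit 4) (nat_lit 0x2000100013400de000000000000000000000000000000) (nat_lit 0x0) (nat_lit 0x2000000000001980040002000000000000000000) := T_6 (nat_lit 104) (nat_lit 103) (nat_lit 0) (nat_lit 5) (nat_lit 7) L45876 (by decide +kernel)
theorem L45878 : W_6 (nat_lit 5) (nat_lit 0x2000100013400da000000000000000000000000000000) (nat_lit 0x0) (nat_lit 0x2000000005001980040002000000000000000000) := T_6 (nat_lit 122) (nat_lit 120) (nat_lit 3) (nat_lit 1) (nat_lit 7) L45877 (by decide +kernel)
theorem L45879 : W_6 (nat_lit 6) (nat_lit 0x20001000134009a000000000000000000000000000000) (nat_lit 0x0) (nat_lit 0x2000000065001980040002000000000000000000) := T_6 (nat_lit 126) (nat_lit 125) (nat_lit 1) (nat_lit 8) (nat_lit 7) L45878 (by decide +kernel)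
theorem L45880 : W_6 (nat_lit 5) (nat_lit 0x20001000134009e000000000000000000000000000000) (nat_lit 0x0) (nat_lit 0x2000000060001980040002000000000000000000) := T_6 (nat_lit 126) (nat_lit 125) (nat_lit 1) (nat_lit 8) (nat_lit 7) L45877 (by decide +kernel)
theorem L45881 : W_6 (nat_lit 6) (nat_lit 0x20001000134009a000000000000000000000000000000) (nat_lit 0x0) (nat_lit 0x2000020064001980040002000000000000000000) := T_6 (nat_lit 122) (nat_lit 137) (nat_lit 1) (nat_lit 5) (nat_lit 7) L45880 (by decide +kernel)
theorem L45882 : W_6 (nat_lit 11) (nat_lit 0x200010001340098000000000000000000000000000000) (nat_lit 0x0) (nat_lit 0xa001f000fc003e00020067001d8006c003200000000000000000) := Q_6 (nat_lit 121) (C_6 L43512 (C_6 L45874 (C_6 L45879 (C_6 L45881 N_6)))) (by decide +kernel)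
theorem L45883 : W_6 (nat_lit 12) (nat_lit 0x200010001300098000000000000000000000000000000) (nat_lit 0x0) (nat_lit 0xa001f000fc003e000e0067001d8006c003200000000000000000) := Q_6 (nat_lit 138) (C_6 L45414 (C_6 L45882 (C_6 L43511 N_6))) (by decide +kernel)
theorem L45884 : W_6 (nat_lit 2) (nat_lit 0x200012001380098000000000000000000000000000000) (nat_lit 0x0) (nat_lit 0x40060000000000000000000000000000000) := D_6 (nat_lit 125) (nat_lit 126) (nat_lit 138) (nat_lit 1) (nat_lit 7) (nat_lit 7) (nat_lit 2) (nat_lit 2) (nat_lit 8) (by decide +kernel)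
theorem L45885 : W_6 (nat_lit 2) (nat_lit 0x200013001380098000000000000000000000000000000) (nat_lit 0x0) (nat_lit 0x400020000000000000000400000000000000000000000000) := D_6 (nat_lit 173) (nat_lit 190) (nat_lit 106) (nat_lit 6) (nat_lit 3) (nat_lit 11) (nat_lit 5) (nat_lit 4) (nat_lit 6) (by decide +kernel)
theorem L45886 : W_6 (nat_lit 2) (nat_lit 0x20001340138009c000800000000000000000000000000) (nat_lit 0x0) (nat_lit 0x3001000000000000000000000000000) := D_6 (nat_lit 121) (nat_lit 120) (nat_lit 108) (nat_lit 3) (nat_lit 1) (nat_lit 7) (nat_lit 2) (nat_lit 2) (nat_lit 7) (by decide +kernel)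
theorem L45887 : W_6 (nat_lit 3) (nat_lit 0x20001340138009c000000000000000000000000000000) (nat_lit 0x0) (nat_lit 0x3001800040000000000000000000000) := T_6 (nat_lit 107) (nat_lit 90) (nat_lit 5) (nat_lit 5) (nat_lit 5) L45886 (by decide +kernel)
theorem L45888 : W_6 (nat_lit 4) (nat_lit 0x20001300138009c000000000000000000000000000000) (nat_lit 0x0) (nat_lit 0xc00000003001800040000000000000000000000) := T_6 (nat_lit 154) (nat_lit 155) (nat_lit 2) (nat_lit 1) (nat_lit 9) L45887 (by decide +kernel)
theorem L45889 : W_6 (nat_lit 2) (nat_lit 0x4002000138013800dc000000000000000000000000000000) (nat_lit 0x0) (nat_lit 0x10000000000000000200010000000000000000000000) := D_6 (nat_lit 105) (nat_lit 88) (nat_lit 172) (nat_lit 7) (nat_lit 3) (nat_lit 5) (nat_lit 5) (nat_lit 3) (nat_lit 6) (by decide +kernel)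
theorem L45890 : W_6 (nat_lit 3) (nat_lit 0x4002000130013800dc000000000000000000000000000000) (nat_lit 0x0) (nat_lit 0x10000c00000000000200010000000000000000000000) := T_6 (nat_lit 155) (nat_lit 154) (nat_lit 2) (nat_lit 1) (nat_lit 9) L45889 (by decide +kernel)
theorem L45891 : W_6 (nat_lit 4) (nat_lit 0x40020001300138009c000000000000000000000000000000) (nat_lit 0x0) (nat_lit 0x10000c00000060000200010000000000000000000000) := T_6 (nat_lit 126) (nat_lit 125) (nat_lit 1) (nat_lit 7) (nat_lit 7) L45890 (by decide +kernel)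
theorem L45892 : W_6 (nat_lit 5) (nat_lit 0x20001300138009c000000000000000000000000000000) (nat_lit 0x0) (nat_lit 0x400030000c00000060000200010000000000000000000000) := T_6 (nat_lit 190) (nat_lit 173) (nat_lit 6) (nat_lit 3) (nat_lit 11) L45891 (by decide +kernel)
theorem L45893 : W_6 (nat_lit 2) (nat_lit 0x2300130013800dd000000000000000000000000000000) (nat_lit 0x0) (nat_lit 0x800000000000200010000000000000000000000) := D_6 (nat_lit 105) (nat_lit 88) (nat_lit 155) (nat_lit 7) (nat_lit 3) (nat_lit 5) (nat_lit 5) (nat_lit 3) (nat_lit 6) (by decide +kernel)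
theorem L45894 : W_6 (nat_lit 3) (nat_lit 0x2200130013800dd000000000000000000000000000000) (nat_lit 0x0) (nat_lit 0x200010000800000000000200010000000000000000000000) := T_6 (nat_lit 172) (nat_lit 189) (nat_lit 5) (nat_lit 3) (nat_lit 7) L45893 (by decide +kernel)
theorem L45895 : W_6 (nat_lit 4) (nat_lit 0x22001300138009d000000000000000000000000000000) (nat_lit 0x0) (nat_lit 0x200010000800000060000200010000000000000000000000) := T_6 (nat_lit 126) (nat_lit 125) (nat_lit 1) (nat_lit 7) (nat_lit 7) L45894 (by decide +kernel)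
theorem L45896 : W_6 (nat_lit 5) (nat_lit 0x20001300138009d000000000000000000000000000000) (nat_lit 0x0) (nat_lit 0x600030000800000060000200010000000000000000000000) := T_6 (nat_lit 173) (nat_lit 190) (nat_lit 6) (nat_lit 3) (nat_lit 11) L45895 (by decide +kernel)
theorem L45897 : W_6 (nat_lit 6) (nat_lit 0x20001300138009c000000000000000000000000000000) (nat_lit 0x0) (nat_lit 0x600030000800000063000200010000000000000000000000) := T_6 (nat_lit 120) (nat_lit 121) (nat_lit 3) (nat_lit 1) (nat_lit 7) L45896 (by decide +kernel)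
theorem L45898 : W_6 (nat_lit 2) (nat_lit 0x2000130013800de000000000000000000000000000000) (nat_lit 0x0) (nat_lit 0x1800040000000000000000000000) := D_6 (nat_lit 107) (nat_lit 90) (nat_lit 108) (nat_lit 5) (nat_lit 5) (nat_lit 5) (nat_lit 2) (nat_lit 2) (nat_lit 7) (by decide +kernel)
theorem L45899 : W_6 (nat_lit 3) (nat_lit 0x2000130013800dc000000000000000000000000000000) (nat_lit 0x0) (nat_lit 0x3001800040000000000000000000000) := T_6 (nat_lit 121) (nat_lit 120) (nat_lit 3) (nat_lit 1) (nat_lit 7) L45898 (by decide +kernel)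
theorem L45900 : W_6 (nat_lit 4) (nat_lit 0x20001300138009c000000000000000000000000000000) (nat_lit 0x0) (nat_lit 0x63001800040000000000000000000000) := T_6 (nat_lit 126) (nat_lit 125) (nat_lit 1) (nat_lit 7) (nat_lit 7) L45899 (by decide +kernel)
theorem L45901 : W_6 (nat_lit 7) (nat_lit 0x200013001380098000000000000000000000000000000) (nat_lit 0x0) (nat_lit 0x600030000c00000067001a00050000000000000000000000) := Q_6 (nat_lit 122) (C_6 L45888 (C_6 L45892 (C_6 L45897 (C_6 L45900 N_6)))) (by decide +kernel)
theorem L45902 : W_6 (nat_lit 2) (nat_lit 0x2000138013800dc000e00000000000000000000000000) (nat_lit 0x0) (nat_lit 0x3001000000000000000000000000000) := D_6 (nat_lit 121) (nat_lit 108) (nat_lit 120) (nat_lit 2) (nat_lit 2) (nat_lit 7) (nat_lit 3) (nat_lit 1) (nat_lit 7) (by decide +kernel)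
theorem L45903 : W_6 (nat_lit 3) (nat_lit 0x2000138013800d8000e00000000000000000000000000) (nat_lit 0x0) (nat_lit 0x10000000000007001000000000000000000000000000) := T_6 (nat_lit 122) (nat_lit 172) (nat_lit 5) (nat_lit 3) (nat_lit 6) L45902 (by decide +kernel)
theorem L45904 : W_6 (nat_lit 4) (nat_lit 0x2000138013800d8000c00000000000000000000000000) (nat_lit 0x0) (nat_lit 0x10000000000007001200010000000000000000000000) := T_6 (nat_lit 105) (nat_lit 88) (nat_lit 4) (nat_lit 4) (nat_lit 9) L45903 (by decide +kernel)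
theorem L45905 : W_6 (nat_lit 5) (nat_lit 0x2000138013800d8000800000000000000000000000000) (nat_lit 0x0) (nat_lit 0x10000000000007001600030000000000000000000000) := T_6 (nat_lit 106) (nat_lit 89) (nat_lit 5) (nat_lit 4) (nat_lit 5) L45904 (by decide +kernel)
theorem L45906 : W_6 (nat_lit 6) (nat_lit 0x2000130013800d8000800000000000000000000000000) (nat_lit 0x0) (nat_lit 0x10000c00000007001600030000000000000000000000) := T_6 (nat_lit 155) (nat_lit 154) (nat_lit 2) (nat_lit 1) (nat_lit 9) L45905 (by decide +kernel)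
theorem L45907 : W_6 (nat_lit 7) (nat_lit 0x200013001380098000800000000000000000000000000) (nat_lit 0x0) (nat_lit 0x10000c00000067001600030000000000000000000000) := T_6 (nat_lit 126) (nat_lit 125) (nat_lit 1) (nat_lit 7) (nat_lit 7) L45906 (by decide +kernel)
theorem L45908 : W_6 (nat_lit 8) (nat_lit 0x200013001380098000000000000000000000000000000) (nat_lit 0x0) (nat_lit 0x10000c00000067001e00070000000000000000000000) := T_6 (nat_lit 107) (nat_lit 90) (nat_lit 5) (nat_lit 5) (nat_lit 5) L45907 (by decide +kernel)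
theorem L45909 : W_6 (nat_lit 9) (nat_lit 0x200012001380098000000000000000000000000000000) (nat_lit 0x0) (nat_lit 0x600030001c00000067001e00070000000000000000000000) := Q_6 (nat_lit 156) (C_6 L45885 (C_6 L45901 (C_6 L45908 N_6))) (by decide +kernel)
theorem L45910 : W_6 (nat_lit 2) (nat_lit 0x2000128013c009e000800000000000000000000000000) (nat_lit 0x0) (nat_lit 0x10000000000000000200010000000000000000000000) := D_6 (nat_lit 105) (nat_lit 88) (nat_lit 172) (nat_lit 7) (nat_lit 3) (nat_lit 5) (nat_lit 6) (nat_lit 2) (nat_lit 10) (by decide +kernel)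
theorem L45911 : W_6 (nat_lit 3) (nat_lit 0x2000128013c009a000800000000000000000000000000) (nat_lit 0x0) (nat_lit 0x10000000000004001200010000000000000000000000) := T_6 (nat_lit 122) (nat_lit 108) (nat_lit 2) (nat_lit 2) (nat_lit 7) L45910 (by decide +kernel)
theorem L45912 : W_6 (nat_lit 4) (nat_lit 0x2000120013c009a000800000000000000000000000000) (nat_lit 0x0) (nat_lit 0x10000c00000004001200010000000000000000000000) := T_6 (nat_lit 155) (nat_lit 154) (nat_lit 1) (nat_lit 5) (nat_lit 8) L45911 (by decide +kernel)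
theorem L45913 : W_6 (nat_lit 5) (nat_lit 0x2000120013c0098000800000000000000000000000000) (nat_lit 0x0) (nat_lit 0x10000c00000007001200010000000000000000000000) := T_6 (nat_lit 121) (nat_lit 120) (nat_lit 0) (nat_lit 5) (nat_lit 8) L45912 (by decide +kernel)
theorem L45914 : W_6 (nat_lit 6) (nat_lit 0x200012001380098000800000000000000000000000000) (nat_lit 0x0) (nat_lit 0x10000c00060007001200010000000000000000000000) := T_6 (nat_lit 138) (nat_lit 137) (nat_lit 2) (nat_lit 1) (nat_lit 8) L45913 (by decide +kernel)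
theorem L45915 : W_6 (nat_lit 7) (nat_lit 0x200012001380098000000000000000000000000000000) (nat_lit 0x0) (nat_lit 0x10000c00060007001a00050000000000000000000000) := T_6 (nat_lit 107) (nat_lit 90) (nat_lit 5) (nat_lit 5) (nat_lit 5) L45914 (by decide +kernel)
theorem L45916 : W_6 (nat_lit 10) (nat_lit 0x200012001300098000000000000000000000000000000) (nat_lit 0x0) (nat_lit 0x600030001c000e0067001e00070000000000000000000000) := Q_6 (nat_lit 139) (C_6 L45884 (C_6 L45909 (C_6 L45915 N_6))) (by decide +kernel)
theorem L45917 : W_6 (nat_lit 11) (nat_lit 0x200010001300098000000000000000000000000000000) (nat_lit 0x0) (nat_lit 0x1e001f0023c000e0067001e00070000000000000000000000) := Q_6 (nat_lit 157) (C_6 L45744 (C_6 L45916 (C_6 L45583 N_6))) (by decide +kernel)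
theorem L45918 : W_6 (nat_lit 13) (nat_lit 0x200010001300088000000000000000000000000000000) (nat_lit 0x0) (nat_lit 0xa001f001fc023e000e0077001f803fc007e00060000000000000) := Q_6 (nat_lit 124) (C_6 L45629 (C_6 L45661 (C_6 L45671 (C_6 L45686 (C_6 L45732 (C_6 L45745 (C_6 L45581 (C_6 L45766 (C_6 L45792 (C_6 L45793 (C_6 L45883 (C_6 L45917 N_6)))))))))))) (by decide +kernel)
theorem L45919 : W_6 (nat_lit 2) (nat_lit 0x2000100013000dc001e000c0001000000000000000000) (nat_lit 0x0) (nat_lit 0x18000800000000000000000) := D_6 (nat_lit 88) (nat_lit 71) (nat_lit 87) (nat_lit 7) (nat_lit 3) (nat_lit 4) (nat_lit 0) (nat_lit 6) (nat_lit 6) (by decide +kernel)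
theorem L45920 : W_6 (nat_lit 3) (nat_lit 0x2000100013000dc001c000c0001000000000000000000) (nat_lit 0x0) (nat_lit 0x300018000800000000000000000) := T_6 (nat_lit 105) (nat_lit 104) (nat_lit 2) (nat_lit 2) (nat_lit 6) L45919 (by decide +kernel)
theorem L45921 : W_6 (nat_lit 4) (nat_lit 0x2000100013000dc001c00040001000000000000000000) (nat_lit 0x0) (nat_lit 0x300098004800000000000000000) := T_6 (nat_lit 91) (nat_lit 74) (nat_lit 6) (nat_lit 5) (nat_lit 8) L45920 (by decide +kernel)
theorem L45922 : W_6 (nat_lit 5) (nat_lit 0x2000100013000d8001c00040001000000000000000000) (nat_lit 0x0) (nat_lit 0x6000300098004800000000000000000) := T_6 (nat_lit 122) (nat_lit 121) (nat_lit 2) (nat_lit 2) (nat_lit 7) L45921 (by decide +kernel)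
theorem L45923 : W_6 (nat_lit 6) (nat_lit 0x2000100013000d8000c00040001000000000000000000) (nat_lit 0x0) (nat_lit 0x6003300098004800000000000000000) := T_6 (nat_lit 108) (nat_lit 109) (nat_lit 3) (nat_lit 4) (nat_lit 6) L45922 (by decide +kernel)
theorem L45924 : W_6 (nat_lit 7) (nat_lit 0x200010001300098000c00040001000000000000000000) (nat_lit 0x0) (nat_lit 0x66003300098004800000000000000000) := T_6 (nat_lit 126) (nat_lit 125) (nat_lit 1) (nat_lit 8) (nat_lit 7) L45923 (by decide +kernel)
theorem L45925 : W_6 (nat_lit 8) (nat_lit 0x200010001300098000c00000001000000000000000000) (nat_lit 0x0) (nat_lit 0x660033000d8006800000000000000000) := T_6 (nat_lit 90) (nat_lit 73) (nat_lit 5) (nat_lit 5) (nat_lit 4) L45924 (by decide +kernel)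
theorem L45926 : W_6 (nat_lit 9) (nat_lit 0x200010001300098000c00000000000000000000000000) (nat_lit 0x0) (nat_lit 0x660033000f8007800000000000000000) := T_6 (nat_lit 72) (nat_lit 89) (nat_lit 7) (nat_lit 4) (nat_lit 4) L45925 (by decide +kernel)
theorem L45927 : W_6 (nat_lit 10) (nat_lit 0x200010001300098000800000000000000000000000000) (nat_lit 0x0) (nat_lit 0x20001000280008000660037803fc00f800000000000000000) := Q_6 (nat_lit 106) (C_6 L43173 (C_6 L45635 (C_6 L45185 (C_6 L45052 (C_6 L45926 N_6))))) (by decide +kernel)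
theorem L45928 : W_6 (nat_lit 11) (nat_lit 0x200010001300098000000000000000000000000000000) (nat_lit 0x0) (nat_lit 0x200010002a000800066003f803fc00f800040000000000000) := Q_6 (nat_lit 107) (C_6 L45201 (C_6 L45167 (C_6 L45927 N_6))) (by decide +kernel)
theorem L45929 : W_6 (nat_lit 2) (nat_lit 0x200013401b000d8002e80100000000000000000000000) (nat_lit 0x0) (nat_lit 0x2000100008000000000000000000000000000000000000000) := D_6 (nat_lit 176) (nat_lit 193) (nat_lit 159) (nat_lit 5) (nat_lit 7) (nat_lit 7) (nat_lit 5) (nat_lit 7) (nat_lit 6) (by decide +kernel)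
theorem L45930 : W_6 (nat_lit 3) (nat_lit 0x2000134013000d8002e80100000000000000000000000) (nat_lit 0x0) (nat_lit 0x2000100028000800000000000000000000000000000000000) := T_6 (nat_lit 143) (nat_lit 161) (nat_lit 7) (nat_lit 7) (nat_lit 5) L45929 (by decide +kernel)
theorem L45931 : W_6 (nat_lit 4) (nat_lit 0x2000134013000d8002e80000000000000000000000000) (nat_lit 0x0) (nat_lit 0x2000100028000800000000000100008000000000000000000) := T_6 (nat_lit 92) (nat_lit 75) (nat_lit 7) (nat_lit 7) (nat_lit 4) L45930 (by decide +kernel)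
theorem L45932 : W_6 (nat_lit 5) (nat_lit 0x2000134013000d8000e80000000000000000000000000) (nat_lit 0x0) (nat_lit 0x2000100028000800000003000100008000000000000000000) := T_6 (nat_lit 109) (nat_lit 108) (nat_lit 3) (nat_lit 4) (nat_lit 6) L45931 (by decide +kernel)
theorem L45933 : W_6 (nat_lit 6) (nat_lit 0x2000130013000d8000e80000000000000000000000000) (nat_lit 0x0) (nat_lit 0x2000100028c00800000003000100008000000000000000000) := T_6 (nat_lit 154) (nat_lit 155) (nat_lit 2) (nat_lit 1) (nat_lit 9) L45932 (by decide +kernel)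
theorem L45934 : W_6 (nat_lit 7) (nat_lit 0x2000120013000d8000e80000000000000000000000000) (nat_lit 0x0) (nat_lit 0x2000120029c00800000003000100008000000000000000000) := T_6 (nat_lit 156) (nat_lit 173) (nat_lit 5) (nat_lit 4) (nat_lit 6) L45933 (by decide +kernel)
theorem L45935 : W_6 (nat_lit 8) (nat_lit 0x2000120013000d8000e00000000000000000000000000) (nat_lit 0x0) (nat_lit 0x2000120029c00800000003180100008000000000000000000) := T_6 (nat_lit 103) (nat_lit 104) (nat_lit 3) (nat_lit 1) (nat_lit 6) L45934 (by decide +kernel)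
theorem L45936 : W_6 (nat_lit 9) (nat_lit 0x2000120013000d8000c00000000000000000000000000) (nat_lit 0x0) (nat_lit 0x2000120029c00800000003380110008000000000000000000) := T_6 (nat_lit 105) (nat_lit 88) (nat_lit 4) (nat_lit 4) (nat_lit 9) L45935 (by decide +kernel)
theorem L45937 : W_6 (nat_lit 10) (nat_lit 0x2000120013000d8000400000000000000000000000000) (nat_lit 0x0) (nat_lit 0x2000120029c00800000003b80150008000000000000000000) := T_6 (nat_lit 107) (nat_lit 90) (nat_lit 6) (nat_lit 4) (nat_lit 9) L45936 (by decide +kernel)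
theorem L45938 : W_6 (nat_lit 11) (nat_lit 0x200012001300098000400000000000000000000000000) (nat_lit 0x0) (nat_lit 0x2000120029c00800060003b80150008000000000000000000) := T_6 (nat_lit 126) (nat_lit 125) (nat_lit 1) (nat_lit 8) (nat_lit 7) L45937 (by decide +kernel)
theorem L45939 : W_6 (nat_lit 12) (nat_lit 0x200012001300098000000000000000000000000000000) (nat_lit 0x0) (nat_lit 0x2000120029c00880060003f8017000b000000000000000000) := Q_6 (nat_lit 106) (C_6 L45938 (C_6 L45666 (C_6 L45611 N_6))) (by decide +kernel)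
theorem L45940 : W_6 (nat_lit 13) (nat_lit 0x200010001300098000000000000000000000000000000) (nat_lit 0x0) (nat_lit 0x38001e002bc00880060003f8017000b000000000000000000) := Q_6 (nat_lit 157) (C_6 L45744 (C_6 L45939 (C_6 L45583 N_6))) (by decide +kernel)
theorem L45941 : W_6 (nat_lit 2) (nat_lit 0x200010001300098000700060000000000000000000000) (nat_lit 0x0) (nat_lit 0x190000000000000000000000) := D_6 (nat_lit 91) (nat_lit 92) (nat_lit 88) (nat_lit 1) (nat_lit 7) (nat_lit 5) (nat_lit 1) (nat_lit 6) (nat_lit 5) (by decide +kernel)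
theorem L45942 : W_6 (nat_lit 3) (nat_lit 0x200010001300098000700020000000000000000000000) (nat_lit 0x0) (nat_lit 0x1d0002000000000000000000) := T_6 (nat_lit 90) (nat_lit 73) (nat_lit 6) (nat_lit 4) (nat_lit 8) L45941 (by decide +kernel)
theorem L45943 : W_6 (nat_lit 4) (nat_lit 0x200010001300098000600020000000000000000000000) (nat_lit 0x0) (nat_lit 0x1801d0002000000000000000000) := T_6 (nat_lit 104) (nat_lit 103) (nat_lit 3) (nat_lit 1) (nat_lit 6) L45942 (by decide +kernel)
theorem L45944 : W_6 (nat_lit 5) (nat_lit 0x200010001300098000600000000000000000000000000) (nat_lit 0x0) (nat_lit 0x1801f0003000000000000000000) := T_6 (nat_lit 89) (nat_lit 72) (nat_lit 7) (nat_lit 4) (nat_lit 4) L45943 (by decide +kernel)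
theorem L45945 : W_6 (nat_lit 11) (nat_lit 0x200010001300098000400000000000000000000000000) (nat_lit 0x0) (nat_lit 0x20001000290008800640023801f000b800000000000000000) := Q_6 (nat_lit 105) (C_6 L45012 (C_6 L45021 (C_6 L45944 N_6))) (by decide +kernel)
theorem L45946 : W_6 (nat_lit 4) (nat_lit 0x2000100013000b8000e00020000000000000000000000) (nat_lit 0x0) (nat_lit 0x100008000000100001c000800000000000000000) := T_6 (nat_lit 139) (nat_lit 156) (nat_lit 5) (nat_lit 4) (nat_lit 5) L42354 (by decide +kernel)
theorem L45947 : W_6 (nat_lit 5) (nat_lit 0x2000100013000b8000c00020000000000000000000000) (nat_lit 0x0) (nat_lit 0x100008000000130001c000800000000000000000) := T_6 (nat_lit 105) (nat_lit 104) (nat_lit 3) (nat_lit 2) (nat_lit 6) L45946 (by decide +kernel)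
theorem L45948 : W_6 (nat_lit 6) (nat_lit 0x2000100013000b8000c00000000000000000000000000) (nat_lit 0x0) (nat_lit 0x100008000000130003c001800000000000000000) := T_6 (nat_lit 89) (nat_lit 72) (nat_lit 7) (nat_lit 4) (nat_lit 4) L45947 (by decide +kernel)
theorem L45949 : W_6 (nat_lit 7) (nat_lit 0x200010001300098000c00000000000000000000000000) (nat_lit 0x0) (nat_lit 0x100008006000130003c001800000000000000000) := T_6 (nat_lit 125) (nat_lit 126) (nat_lit 1) (nat_lit 8) (nat_lit 7) L45948 (by decide +kernel)
theorem L45950 : W_6 (nat_lit 10) (nat_lit 0x200010001300098000400000000000000000000000000) (nat_lit 0x0) (nat_lit 0x1000080060001b803fc007800000000000000000) := Q_6 (nat_lit 107) (C_6 L43173 (C_6 L45635 (C_6 L45185 (C_6 L45949 N_6)))) (by decide +kernel)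
theorem L45951 : W_6 (nat_lit 2) (nat_lit 0x200010001b000d8002600170000000000000000000000) (nat_lit 0x0) (nat_lit 0x2000100008000000000000000000000000000000000000000) := D_6 (nat_lit 176) (nat_lit 159) (nat_lit 193) (nat_lit 5) (nat_lit 7) (nat_lit 6) (nat_lit 5) (nat_lit 7) (nat_lit 7) (by decide +kernel)
theorem L45952 : W_6 (nat_lit 3) (nat_lit 0x2000100013000d8002600170000000000000000000000) (nat_lit 0x0) (nat_lit 0x2000100028000800000000000000000000000000000000000) := T_6 (nat_lit 143) (nat_lit 161) (nat_lit 7) (nat_lit 7) (nat_lit 5) L45951 (by decide +kernel)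
theorem L45953 : W_6 (nat_lit 4) (nat_lit 0x2000100013000d8000600170000000000000000000000) (nat_lit 0x0) (nat_lit 0x2000100028000800000002000000008000000000000000000) := T_6 (nat_lit 109) (nat_lit 75) (nat_lit 7) (nat_lit 7) (nat_lit 4) L45952 (by decide +kernel)
theorem L45954 : W_6 (nat_lit 5) (nat_lit 0x2000100013000d8000600070000000000000000000000) (nat_lit 0x0) (nat_lit 0x2000100028000800000002000180008000000000000000000) := T_6 (nat_lit 92) (nat_lit 91) (nat_lit 1) (nat_lit 7) (nat_lit 5) L45953 (by decide +kernel)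
theorem L45955 : W_6 (nat_lit 6) (nat_lit 0x2000100013000d8000600030000000000000000000000) (nat_lit 0x0) (nat_lit 0x20001000280008000000020001c000a000000000000000000) := T_6 (nat_lit 90) (nat_lit 73) (nat_lit 6) (nat_lit 4) (nat_lit 8) L45954 (by decide +kernel)
theorem L45956 : W_6 (nat_lit 7) (nat_lit 0x2000100013000d8000600020000000000000000000000) (nat_lit 0x0) (nat_lit 0x20001000280008000000020001d000a800000000000000000) := T_6 (nat_lit 88) (nat_lit 71) (nat_lit 4) (nat_lit 4) (nat_lit 8) L45955 (by decide +kernel)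
theorem L45957 : W_6 (nat_lit 8) (nat_lit 0x200010001300098000600020000000000000000000000) (nat_lit 0x0) (nat_lit 0x20001000280008000600020001d000a800000000000000000) := T_6 (nat_lit 126) (nat_lit 125) (nat_lit 1) (nat_lit 8) (nat_lit 7) L45956 (by decide +kernel)
theorem L45958 : W_6 (nat_lit 9) (nat_lit 0x200010001300098000600000000000000000000000000) (nat_lit 0x0) (nat_lit 0x20001000280008000600020001f000b800000000000000000) := T_6 (nat_lit 89) (nat_lit 72) (nat_lit 7) (nat_lit 4) (nat_lit 4) L45957 (by decide +kernel)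
theorem L45959 : W_6 (nat_lit 10) (nat_lit 0x200010001300098000400000000000000000000000000) (nat_lit 0x0) (nat_lit 0x20001000280008000640023801f000b800000000000000000) := Q_6 (nat_lit 105) (C_6 L45012 (C_6 L45944 (C_6 L45958 N_6))) (by decide +kernel)
theorem L45960 : W_6 (nat_lit 2) (nat_lit 0x200010001300098000c000e0000000000000000000000) (nat_lit 0x0) (nat_lit 0x300100000000000000000000000) := D_6 (nat_lit 105) (nat_lit 104) (nat_lit 92) (nat_lit 2) (nat_lit 2) (nat_lit 6) (nat_lit 1) (nat_lit 7) (nat_lit 5) (by decide +kernel)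
theorem L45961 : W_6 (nat_lit 3) (nat_lit 0x200010001300098000c00060000000000000000000000) (nat_lit 0x0) (nat_lit 0x300180004000000000000000000) := T_6 (nat_lit 91) (nat_lit 74) (nat_lit 6) (nat_lit 5) (nat_lit 8) L45960 (by decide +kernel)
theorem L45962 : W_6 (nat_lit 4) (nat_lit 0x200010001300098000c00040000000000000000000000) (nat_lit 0x0) (nat_lit 0x3001a0005000000000000000000) := T_6 (nat_lit 89) (nat_lit 72) (nat_lit 7) (nat_lit 4) (nat_lit 4) L45961 (by decide +kernel)
theorem L45963 : W_6 (nat_lit 5) (nat_lit 0x200010001300098000c00000000000000000000000000) (nat_lit 0x0) (nat_lit 0x3001e0007000000000000000000) := T_6 (nat_lit 90) (nat_lit 73) (nat_lit 5) (nat_lit 5) (nat_lit 4) L45962 (by decide +kernel)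
theorem L45964 : W_6 (nat_lit 2) (nat_lit 0x200010001300098000c00038000000000000000000000) (nat_lit 0x0) (nat_lit 0x3200000000000000000000000000) := D_6 (nat_lit 108) (nat_lit 109) (nat_lit 105) (nat_lit 0) (nat_lit 7) (nat_lit 6) (nat_lit 0) (nat_lit 6) (nat_lit 6) (by decide +kernel)
theorem L45965 : W_6 (nat_lit 3) (nat_lit 0x200010001300098000c00030000000000000000000000) (nat_lit 0x0) (nat_lit 0x320000c000000000000000000000) := T_6 (nat_lit 87) (nat_lit 86) (nat_lit 3) (nat_lit 1) (nat_lit 5) L45964 (by decide +kernel)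
theorem L45966 : W_6 (nat_lit 4) (nat_lit 0x200010001300098000c00020000000000000000000000) (nat_lit 0x0) (nat_lit 0x320001c000800000000000000000) := T_6 (nat_lit 88) (nat_lit 71) (nat_lit 4) (nat_lit 4) (nat_lit 8) L45965 (by decide +kernel)
theorem L45967 : W_6 (nat_lit 5) (nat_lit 0x200010001300098000c00000000000000000000000000) (nat_lit 0x0) (nat_lit 0x320003c001800000000000000000) := T_6 (nat_lit 89) (nat_lit 72) (nat_lit 7) (nat_lit 4) (nat_lit 4) L45966 (by decide +kernel)
theorem L45968 : W_6 (nat_lit 8) (nat_lit 0x200010001300098000400000000000000000000000000) (nat_lit 0x0) (nat_lit 0x3b003fc007800000000000000000) := Q_6 (nat_lit 107) (C_6 L43173 (C_6 L45635 (C_6 L45963 (C_6 L45967 N_6)))) (by decide +kernel)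
theorem L45969 : W_6 (nat_lit 2) (nat_lit 0x200010001b000d8002c001c0001000000000000000000) (nat_lit 0x0) (nat_lit 0x2000100008000000000000000000000000000000000000000) := D_6 (nat_lit 176) (nat_lit 159) (nat_lit 193) (nat_lit 5) (nat_lit 7) (nat_lit 6) (nat_lit 5) (nat_lit 7) (nat_lit 7) (by decide +kernel)
theorem L45970 : W_6 (nat_lit 3) (nat_lit 0x2000100013000d8002c001c0001000000000000000000) (nat_lit 0x0) (nat_lit 0x2000100028000800000000000000000000000000000000000) := T_6 (nat_lit 143) (nat_lit 161) (nat_lit 7) (nat_lit 7) (nat_lit 5) L45969 (by decide +kernel)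
theorem L45971 : W_6 (nat_lit 4) (nat_lit 0x2000100013000d8000c001c0001000000000000000000) (nat_lit 0x0) (nat_lit 0x2000100028000800000002000000008000000000000000000) := T_6 (nat_lit 109) (nat_lit 75) (nat_lit 7) (nat_lit 7) (nat_lit 4) L45970 (by decide +kernel)
theorem L45972 : W_6 (nat_lit 5) (nat_lit 0x200010001300098000c001c0001000000000000000000) (nat_lit 0x0) (nat_lit 0x2000100028000800060002000000008000000000000000000) := T_6 (nat_lit 126) (nat_lit 125) (nat_lit 1) (nat_lit 8) (nat_lit 7) L45971 (by decide +kernel)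
theorem L45973 : W_6 (nat_lit 6) (nat_lit 0x200010001300098000c000c0001000000000000000000) (nat_lit 0x0) (nat_lit 0x2000100028000800060002000300008000000000000000000) := T_6 (nat_lit 92) (nat_lit 93) (nat_lit 1) (nat_lit 8) (nat_lit 5) L45972 (by decide +kernel)
theorem L45974 : W_6 (nat_lit 7) (nat_lit 0x200010001300098000c00040001000000000000000000) (nat_lit 0x0) (nat_lit 0x200010002800080006000200038000c000000000000000000) := T_6 (nat_lit 91) (nat_lit 74) (nat_lit 6) (nat_lit 5) (nat_lit 8) L45973 (by decide +kernel)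
theorem L45975 : W_6 (nat_lit 8) (nat_lit 0x200010001300098000c00040000000000000000000000) (nat_lit 0x0) (nat_lit 0x20001000280008000600020003a000d000000000000000000) := T_6 (nat_lit 72) (nat_lit 89) (nat_lit 7) (nat_lit 4) (nat_lit 4) L45974 (by decide +kernel)
theorem L45976 : W_6 (nat_lit 9) (nat_lit 0x200010001300098000c00000000000000000000000000) (nat_lit 0x0) (nat_lit 0x20001000280008000600020003e000f000000000000000000) := T_6 (nat_lit 90) (nat_lit 73) (nat_lit 5) (nat_lit 5) (nat_lit 4) L45975 (by decide +kernel)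
theorem L45977 : W_6 (nat_lit 2) (nat_lit 0x2000100013000da001c00060000000000000000000000) (nat_lit 0x0) (nat_lit 0x18000800000000000000000) := D_6 (nat_lit 88) (nat_lit 71) (nat_lit 87) (nat_lit 4) (nat_lit 4) (nat_lit 8) (nat_lit 3) (nat_lit 2) (nat_lit 5) (by decide +kernel)
theorem L45978 : W_6 (nat_lit 3) (nat_lit 0x2000100013000da001c00040000000000000000000000) (nat_lit 0x0) (nat_lit 0x38001800000000000000000) := T_6 (nat_lit 89) (nat_lit 72) (nat_lit 7) (nat_lit 4) (nat_lit 4) L45977 (by decide +kernel)
theorem L45979 : W_6 (nat_lit 4) (nat_lit 0x2000100013000da001c00000000000000000000000000) (nat_lit 0x0) (nat_lit 0x78003800000000000000000) := T_6 (nat_lit 90) (nat_lit 73) (nat_lit 5) (nat_lit 5) (nat_lit 4) L45978 (by decide +kernel)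
theorem L45980 : W_6 (nat_lit 5) (nat_lit 0x2000100013000d8001c00000000000000000000000000) (nat_lit 0x0) (nat_lit 0x6000000078003800000000000000000) := T_6 (nat_lit 121) (nat_lit 122) (nat_lit 2) (nat_lit 2) (nat_lit 7) L45979 (by decide +kernel)
theorem L45981 : W_6 (nat_lit 6) (nat_lit 0x2000100013000d8000c00000000000000000000000000) (nat_lit 0x0) (nat_lit 0x6003000078003800000000000000000) := T_6 (nat_lit 108) (nat_lit 109) (nat_lit 3) (nat_lit 4) (nat_lit 6) L45980 (by decide +kernel)
theorem L45982 : W_6 (nat_lit 7) (nat_lit 0x200010001300098000c00000000000000000000000000) (nat_lit 0x0) (nat_lit 0x66003000078003800000000000000000) := T_6 (nat_lit 126) (nat_lit 125) (nat_lit 1) (nat_lit 8) (nat_lit 7) L45981 (by decide +kernel)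
theorem L45983 : W_6 (nat_lit 10) (nat_lit 0x200010001300098000400000000000000000000000000) (nat_lit 0x0) (nat_lit 0x20001000280008000660038003fc00f800000000000000000) := Q_6 (nat_lit 107) (C_6 L45052 (C_6 L45635 (C_6 L45976 (C_6 L45982 N_6)))) (by decide +kernel)
theorem L45984 : W_6 (nat_lit 2) (nat_lit 0x2000100013000b8000600000000000000000000000000) (nat_lit 0x0) (nat_lit 0x980000000000000000000000000) := D_6 (nat_lit 104) (nat_lit 103) (nat_lit 107) (nat_lit 3) (nat_lit 1) (nat_lit 6) (nat_lit 3) (nat_lit 2) (nat_lit 6) (by decide +kernel)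
theorem L45985 : W_6 (nat_lit 3) (nat_lit 0x200010001300098000600000000000000000000000000) (nat_lit 0x0) (nat_lit 0x60000980000000000000000000000000) := T_6 (nat_lit 125) (nat_lit 126) (nat_lit 1) (nat_lit 8) (nat_lit 7) L45984 (by decide +kernel)
theorem L45986 : W_6 (nat_lit 2) (nat_lit 0x200010001300098000600010000000000000000000000) (nat_lit 0x0) (nat_lit 0x20001800000000000000000) := D_6 (nat_lit 89) (nat_lit 72) (nat_lit 71) (nat_lit 7) (nat_lit 4) (nat_lit 4) (nat_lit 4) (nat_lit 4) (nat_lit 8) (by decide +kernel)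
theorem L45987 : W_6 (nat_lit 2) (nat_lit 0x200010001300098000600010000000000000000000000) (nat_lit 0x0) (nat_lit 0x4000000000000800040000000000000) := D_6 (nat_lit 71) (nat_lit 122) (nat_lit 54) (nat_lit 7) (nat_lit 3) (nat_lit 4) (nat_lit 7) (nat_lit 3) (nat_lit 3) (by decide +kernel)
theorem L45988 : W_6 (nat_lit 2) (nat_lit 0x200010001300098001e00010001000000000000000000) (nat_lit 0x0) (nat_lit 0x44002000000000000000000000000000) := D_6 (nat_lit 109) (nat_lit 122) (nat_lit 126) (nat_lit 1) (nat_lit 7) (nat_lit 6) (nat_lit 3) (nat_lit 4) (nat_lit 6) (by decide +kernel)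
theorem L45989 : W_6 (nat_lit 3) (nat_lit 0x200010001300098000e00010001000000000000000000) (nat_lit 0x0) (nat_lit 0x44003000008000000000000000000000) := T_6 (nat_lit 108) (nat_lit 87) (nat_lit 0) (nat_lit 6) (nat_lit 6) L45988 (by decide +kernel)
theorem L45990 : W_6 (nat_lit 4) (nat_lit 0x200010001300098000e00010000000000000000000000) (nat_lit 0x0) (nat_lit 0x44003000028001000000000000000000) := T_6 (nat_lit 72) (nat_lit 89) (nat_lit 7) (nat_lit 4) (nat_lit 4) L45989 (by decide +kernel)
theorem L45991 : W_6 (nat_lit 2) (nat_lit 0x20001000130009a001e00010000000000000000000000) (nat_lit 0x0) (nat_lit 0x1000180000000000000000000000000) := D_6 (nat_lit 104) (nat_lit 103) (nat_lit 120) (nat_lit 3) (nat_lit 1) (nat_lit 6) (nat_lit 1) (nat_lit 5) (nat_lit 6) (by decide +kernel)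
theorem L45992 : W_6 (nat_lit 3) (nat_lit 0x200010001300098001e00010000000000000000000000) (nat_lit 0x0) (nat_lit 0x7000180000000000000000000000000) := T_6 (nat_lit 121) (nat_lit 122) (nat_lit 2) (nat_lit 2) (nat_lit 7) L45991 (by decide +kernel)
theorem L45993 : W_6 (nat_lit 4) (nat_lit 0x200010001300098000e00010000000000000000000000) (nat_lit 0x0) (nat_lit 0x7001180008000000000000000000000) := T_6 (nat_lit 108) (nat_lit 87) (nat_lit 0) (nat_lit 6) (nat_lit 6) L45992 (by decide +kernel)
theorem L45994 : W_6 (nat_lit 2) (nat_lit 0x200010001300098001e00010000000000000000000000) (nat_lit 0x0) (nat_lit 0x2000020001000000000000000000) := D_6 (nat_lit 89) (nat_lit 72) (nat_lit 109) (nat_lit 7) (nat_lit 4) (nat_lit 4) (nat_lit 0) (nat_lit 7) (nat_lit 6) (by decide +kernel)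
theorem L45995 : W_6 (nat_lit 3) (nat_lit 0x200010001300098000e00010000000000000000000000) (nat_lit 0x0) (nat_lit 0x3000028001000000000000000000) := T_6 (nat_lit 108) (nat_lit 87) (nat_lit 0) (nat_lit 6) (nat_lit 6) L45994 (by decide +kernel)
theorem L45996 : W_6 (nat_lit 2) (nat_lit 0x20001000138009a000f00038000400010000000000000) (nat_lit 0x0) (nat_lit 0x20001800000000) := D_6 (nat_lit 53) (nat_lit 36) (nat_lit 35) (nat_lit 7) (nat_lit 2) (nat_lit 2) (nat_lit 4) (nat_lit 2) (nat_lit 6) (by decide +kernel)
theorem L45997 : W_6 (nat_lit 3) (nat_lit 0x20001000138009a000f00038000400000000000000000) (nat_lit 0x0) (nat_lit 0x200030001800000000) := T_6 (nat_lit 52) (nat_lit 69) (nat_lit 4) (nat_lit 2) (nat_lit 7) L45996 (by decide +kernel)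
theorem L45998 : W_6 (nat_lit 4) (nat_lit 0x20001000138009a000f00038000000000000000000000) (nat_lit 0x0) (nat_lit 0x4000000000000600030001800000000) := T_6 (nat_lit 70) (nat_lit 122) (nat_lit 7) (nat_lit 2) (nat_lit 4) L45997 (by decide +kernel)
theorem L45999 : W_6 (nat_lit 5) (nat_lit 0x20001000130009a000f00038000000000000000000000) (nat_lit 0x0) (nat_lit 0x1000080004000000000000600030001800000000) := T_6 (nat_lit 139) (nat_lit 156) (nat_lit 5) (nat_lit 4) (nat_lit 5) L45998 (by decide +kernel)
theorem L46000 : W_6 (nat_lit 6) (nat_lit 0x200010001300098000f00038000000000000000000000) (nat_lit 0x0) (nat_lit 0x1000080007000000000000600030001800000000) := T_6 (nat_lit 121) (nat_lit 120) (nat_lit 1) (nat_lit 5) (nat_lit 6) L45999 (by decide +kernel)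
theorem L46001 : W_6 (nat_lit 7) (nat_lit 0x200010001300098000f00030000000000000000000000) (nat_lit 0x0) (nat_lit 0x100008000700000000c000600030001800000000) := T_6 (nat_lit 87) (nat_lit 86) (nat_lit 3) (nat_lit 1) (nat_lit 5) L46000 (by decide +kernel)
theorem L46002 : W_6 (nat_lit 8) (nat_lit 0x200010001300098000e00030000000000000000000000) (nat_lit 0x0) (nat_lit 0x100008000700018000c000600030001800000000) := T_6 (nat_lit 104) (nat_lit 103) (nat_lit 3) (nat_lit 1) (nat_lit 6) L46001 (by decide +kernel)
theorem L46003 : W_6 (nat_lit 9) (nat_lit 0x200010001300098000e00010000000000000000000000) (nat_lit 0x0) (nat_lit 0x100008000700018002c001600030001800000000) := T_6 (nat_lit 89) (nat_lit 72) (nat_lit 7) (nat_lit 4) (nat_lit 4) L46002 (by decide +kernel)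
theorem L46004 : W_6 (nat_lit 2) (nat_lit 0x20001000130009a003f00010001000000000000000000) (nat_lit 0x0) (nat_lit 0x380000000000000000000000) := D_6 (nat_lit 92) (nat_lit 91) (nat_lit 93) (nat_lit 2) (nat_lit 3) (nat_lit 6) (nat_lit 2) (nat_lit 4) (nat_lit 6) (by decide +kernel)
theorem L46005 : W_6 (nat_lit 3) (nat_lit 0x20001000130009a001f00010001000000000000000000) (nat_lit 0x0) (nat_lit 0x40002000380000000000000000000000) := T_6 (nat_lit 109) (nat_lit 126) (nat_lit 3) (nat_lit 4) (nat_lit 6) L46004 (by decide +kernel)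
theorem L46006 : W_6 (nat_lit 4) (nat_lit 0x20001000130009a000f00010001000000000000000000) (nat_lit 0x0) (nat_lit 0x44003000380000000000000000000000) := T_6 (nat_lit 108) (nat_lit 122) (nat_lit 2) (nat_lit 2) (nat_lit 7) L46005 (by decide +kernel)
theorem L46007 : W_6 (nat_lit 5) (nat_lit 0x200010001300098000f00010001000000000000000000) (nat_lit 0x0) (nat_lit 0x47003000380000000000000000000000) := T_6 (nat_lit 121) (nat_lit 120) (nat_lit 1) (nat_lit 5) (nat_lit 6) L46006 (by decide +kernel)
theorem L46008 : W_6 (nat_lit 6) (nat_lit 0x200010001300098000e00010001000000000000000000) (nat_lit 0x0) (nat_lit 0x47003180380000000000000000000000) := T_6 (nat_lit 104) (nat_lit 103) (nat_lit 3) (nat_lit 1) (nat_lit 6) L46007 (by decide +kernel)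
theorem L46009 : W_6 (nat_lit 7) (nat_lit 0x200010001300098000e00010000000000000000000000) (nat_lit 0x0) (nat_lit 0x470031803a0001000000000000000000) := T_6 (nat_lit 72) (nat_lit 89) (nat_lit 7) (nat_lit 4) (nat_lit 4) L46008 (by decide +kernel)
theorem L46010 : W_6 (nat_lit 10) (nat_lit 0x200010001300098000600010000000000000000000000) (nat_lit 0x0) (nat_lit 0x10000800470039803ac001600030001800000000) := Q_6 (nat_lit 107) (C_6 L45990 (C_6 L45993 (C_6 L45995 (C_6 L46003 (C_6 L46009 N_6))))) (by decide +kernel)
theorem L46011 : W_6 (nat_lit 11) (nat_lit 0x200010001300098000600000000000000000000000000) (nat_lit 0x0) (nat_lit 0x10000800470039803bc001e00070001800000000) := Q_6 (nat_lit 88) (C_6 L45986 (C_6 L45987 (C_6 L46010 N_6))) (by decide +kernel)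
theorem L46012 : W_6 (nat_lit 2) (nat_lit 0x2000100013000d800060001c000000000000000000000) (nat_lit 0x0) (nat_lit 0x800020001000000000000000000) := D_6 (nat_lit 89) (nat_lit 72) (nat_lit 107) (nat_lit 7) (nat_lit 4) (nat_lit 4) (nat_lit 3) (nat_lit 1) (nat_lit 5) (by decide +kernel)
theorem L46013 : W_6 (nat_lit 3) (nat_lit 0x2000100013000d8000600018000000000000000000000) (nat_lit 0x0) (nat_lit 0x800026001000000000000000000) := T_6 (nat_lit 86) (nat_lit 85) (nat_lit 3) (nat_lit 0) (nat_lit 5) L46012 (by decide +kernel)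
theorem L46014 : W_6 (nat_lit 4) (nat_lit 0x200010001300098000600018000000000000000000000) (nat_lit 0x0) (nat_lit 0x60000800026001000000000000000000) := T_6 (nat_lit 126) (nat_lit 125) (nat_lit 1) (nat_lit 8) (nat_lit 7) L46013 (by decide +kernel)
theorem L46015 : W_6 (nat_lit 2) (nat_lit 0x2000100013800d800068003c000600000000000000000) (nat_lit 0x0) (nat_lit 0x20001000000000000000020000000000000) := D_6 (nat_lit 120) (nat_lit 137) (nat_lit 53) (nat_lit 6) (nat_lit 1) (nat_lit 8) (nat_lit 6) (nat_lit 1) (nat_lit 7) (by decide +kernel)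
theorem L46016 : W_6 (nat_lit 3) (nat_lit 0x2000100013800d800068003c000400000000000000000) (nat_lit 0x0) (nat_lit 0x20001000000000000300020000000000000) := T_6 (nat_lit 69) (nat_lit 68) (nat_lit 0) (nat_lit 4) (nat_lit 5) L46015 (by decide +kernel)
theorem L46017 : W_6 (nat_lit 4) (nat_lit 0x2000100013800d800068003c000000000000000000000) (nat_lit 0x0) (nat_lit 0x20005000000000000700020000000000000) := T_6 (nat_lit 70) (nat_lit 122) (nat_lit 4) (nat_lit 3) (nat_lit 8) L46016 (by decide +kernel)
theorem L46018 : W_6 (nat_lit 5) (nat_lit 0x2000100013800d800060003c000000000000000000000) (nat_lit 0x0) (nat_lit 0x200050000c0000000700020000000000000) := T_6 (nat_lit 103) (nat_lit 102) (nat_lit 1) (nat_lit 4) (nat_lit 5) L46017 (by decide +kernel)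
theorem L46019 : W_6 (nat_lit 6) (nat_lit 0x2000100013000d800060003c000000000000000000000) (nat_lit 0x0) (nat_lit 0x10000a00050000c0000000700020000000000000) := T_6 (nat_lit 139) (nat_lit 156) (nat_lit 5) (nat_lit 4) (nat_lit 5) L46018 (by decide +kernel)
theorem L46020 : W_6 (nat_lit 7) (nat_lit 0x2000100013000d8000600038000000000000000000000) (nat_lit 0x0) (nat_lit 0x10000a00050000c0006000700020000000000000) := T_6 (nat_lit 86) (nat_lit 85) (nat_lit 3) (nat_lit 0) (nat_lit 5) L46019 (by decide +kernel)
theorem L46021 : W_6 (nat_lit 8) (nat_lit 0x200010001300098000600038000000000000000000000) (nat_lit 0x0) (nat_lit 0x10000a00650000c0006000700020000000000000) := T_6 (nat_lit 126) (nat_lit 125) (nat_lit 1) (nat_lit 8) (nat_lit 7) L46020 (by decide +kernel)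
theorem L46022 : W_6 (nat_lit 9) (nat_lit 0x200010001300098000600018000000000000000000000) (nat_lit 0x0) (nat_lit 0x10000a00650000c0026001700020000000000000) := T_6 (nat_lit 89) (nat_lit 72) (nat_lit 7) (nat_lit 4) (nat_lit 4) L46021 (by decide +kernel)
theorem L46023 : W_6 (nat_lit 2) (nat_lit 0x20001000138009800168003c000600000000000000000) (nat_lit 0x0) (nat_lit 0x20001000000000000000020000000000000) := D_6 (nat_lit 120) (nat_lit 137) (nat_lit 53) (nat_lit 6) (nat_lit 1) (nat_lit 8) (nat_lit 6) (nat_lit 1) (nat_lit 7) (by decide +kernel)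
theorem L46024 : W_6 (nat_lit 3) (nat_lit 0x20001000138009800168003c000400000000000000000) (nat_lit 0x0) (nat_lit 0x20001000000000000300020000000000000) := T_6 (nat_lit 69) (nat_lit 68) (nat_lit 0) (nat_lit 4) (nat_lit 5) L46023 (by decide +kernel)
theorem L46025 : W_6 (nat_lit 4) (nat_lit 0x20001000138009800168003c000000000000000000000) (nat_lit 0x0) (nat_lit 0x20005000000000000700020000000000000) := T_6 (nat_lit 70) (nat_lit 122) (nat_lit 4) (nat_lit 3) (nat_lit 8) L46024 (by decide +kernel)
theorem L46026 : W_6 (nat_lit 5) (nat_lit 0x20001000138009800160003c000000000000000000000) (nat_lit 0x0) (nat_lit 0x200050000c0000000700020000000000000) := T_6 (nat_lit 103) (nat_lit 102) (nat_lit 1) (nat_lit 4) (nat_lit 5) L46025 (by decide +kernel)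
theorem L46027 : W_6 (nat_lit 6) (nat_lit 0x20001000130009800160003c000000000000000000000) (nat_lit 0x0) (nat_lit 0x10000a00050000c0000000700020000000000000) := T_6 (nat_lit 139) (nat_lit 156) (nat_lit 5) (nat_lit 4) (nat_lit 5) L46026 (by decide +kernel)
theorem L46028 : W_6 (nat_lit 7) (nat_lit 0x200010001300098001600038000000000000000000000) (nat_lit 0x0) (nat_lit 0x10000a00050000c0006000700020000000000000) := T_6 (nat_lit 86) (nat_lit 85) (nat_lit 3) (nat_lit 0) (nat_lit 5) L46027 (by decide +kernel)
theorem L46029 : W_6 (nat_lit 8) (nat_lit 0x200010001300098001600018000000000000000000000) (nat_lit 0x0) (nat_lit 0x10000a00050000c0026001700020000000000000) := T_6 (nat_lit 89) (nat_lit 72) (nat_lit 7) (nat_lit 4) (nat_lit 4) L46028 (by decide +kernel)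
theorem L46030 : W_6 (nat_lit 9) (nat_lit 0x200010001300098000600018000000000000000000000) (nat_lit 0x0) (nat_lit 0x10000a00050018c0026001700020000000000000) := T_6 (nat_lit 108) (nat_lit 107) (nat_lit 0) (nat_lit 6) (nat_lit 6) L46029 (by decide +kernel)
theorem L46031 : W_6 (nat_lit 2) (nat_lit 0x2000100013000bd00160001c000400020000000000000) (nat_lit 0x0) (nat_lit 0x20000000080000000200000000000000000) := D_6 (nat_lit 103) (nat_lit 137) (nat_lit 69) (nat_lit 6) (nat_lit 1) (nat_lit 8) (nat_lit 6) (nat_lit 1) (nat_lit 7) (by decide +kernel)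
theorem L46032 : W_6 (nat_lit 3) (nat_lit 0x2000100013000bd00160001c000400000000000000000) (nat_lit 0x0) (nat_lit 0x20000000080000000200020001000000000) := T_6 (nat_lit 53) (nat_lit 36) (nat_lit 7) (nat_lit 2) (nat_lit 2) L46031 (by decide +kernel)
theorem L46033 : W_6 (nat_lit 4) (nat_lit 0x2000100013000bd00160001c000000000000000000000) (nat_lit 0x0) (nat_lit 0xa0000000080000000600020001000000000) := T_6 (nat_lit 70) (nat_lit 139) (nat_lit 4) (nat_lit 3) (nat_lit 8) L46032 (by decide +kernel)
theorem L46034 : W_6 (nat_lit 5) (nat_lit 0x2000100013000bc00160001c000000000000000000000) (nat_lit 0x0) (nat_lit 0xa0003000080000000600020001000000000) := T_6 (nat_lit 120) (nat_lit 121) (nat_lit 3) (nat_lit 1) (nat_lit 7) L46033 (by decide +kernel)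
theorem L46035 : W_6 (nat_lit 6) (nat_lit 0x2000100013000b800160001c000000000000000000000) (nat_lit 0x0) (nat_lit 0xa0007002080000000600020001000000000) := T_6 (nat_lit 122) (nat_lit 109) (nat_lit 2) (nat_lit 3) (nat_lit 7) L46034 (by decide +kernel)
theorem L46036 : W_6 (nat_lit 7) (nat_lit 0x2000100013000b800060001c000000000000000000000) (nat_lit 0x0) (nat_lit 0xa0007003880000000600020001000000000) := T_6 (nat_lit 108) (nat_lit 107) (nat_lit 0) (nat_lit 6) (nat_lit 6) L46035 (by decide +kernel)
theorem L46037 : W_6 (nat_lit 8) (nat_lit 0x20001000130009800060001c000000000000000000000) (nat_lit 0x0) (nat_lit 0xa0067003880000000600020001000000000) := T_6 (nat_lit 125) (nat_lit 126) (nat_lit 1) (nat_lit 8) (nat_lit 7) L46036 (by decide +kernel)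
theorem L46038 : W_6 (nat_lit 9) (nat_lit 0x200010001300098000600018000000000000000000000) (nat_lit 0x0) (nat_lit 0xa0067003880006000600020001000000000) := T_6 (nat_lit 86) (nat_lit 85) (nat_lit 3) (nat_lit 0) (nat_lit 5) L46037 (by decide +kernel)
theorem L46039 : W_6 (nat_lit 2) (nat_lit 0x2000100013800b8001600038000000000000000000000) (nat_lit 0x0) (nat_lit 0x4002000000000400000000000000000) := D_6 (nat_lit 122) (nat_lit 109) (nat_lit 70) (nat_lit 2) (nat_lit 3) (nat_lit 7) (nat_lit 4) (nat_lit 3) (nat_lit 8) (by decide +kernel)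
theorem L46040 : W_6 (nat_lit 3) (nat_lit 0x2000100013000b8001600038000000000000000000000) (nat_lit 0x0) (nat_lit 0x1000080004002000000000400000000000000000) := T_6 (nat_lit 139) (nat_lit 156) (nat_lit 5) (nat_lit 4) (nat_lit 5) L46039 (by decide +kernel)
theorem L46041 : W_6 (nat_lit 4) (nat_lit 0x200010001300098001600038000000000000000000000) (nat_lit 0x0) (nat_lit 0x1000080064002000000000400000000000000000) := T_6 (nat_lit 125) (nat_lit 126) (nat_lit 1) (nat_lit 8) (nat_lit 7) L46040 (by decide +kernel)
theorem L46042 : W_6 (nat_lit 5) (nat_lit 0x200010001300098001600018000000000000000000000) (nat_lit 0x0) (nat_lit 0x1000080064002000020001400000000000000000) := T_6 (nat_lit 89) (nat_lit 72) (nat_lit 7) (nat_lit 4) (nat_lit 4) L46041 (by decide +kernel)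
theorem L46043 : W_6 (nat_lit 6) (nat_lit 0x200010001300098000600018000000000000000000000) (nat_lit 0x0) (nat_lit 0x1000080064003800020001400000000000000000) := T_6 (nat_lit 108) (nat_lit 107) (nat_lit 0) (nat_lit 6) (nat_lit 6) L46042 (by decide +kernel)
theorem L46044 : W_6 (nat_lit 10) (nat_lit 0x200010001300098000600010000000000000000000000) (nat_lit 0x0) (nat_lit 0x10000a00670038c002e001700020001000000000) := Q_6 (nat_lit 87) (C_6 L46014 (C_6 L46022 (C_6 L46030 (C_6 L46038 (C_6 L46043 N_6))))) (by decide +kernel)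
theorem L46045 : W_6 (nat_lit 11) (nat_lit 0x200010001300098000600000000000000000000000000) (nat_lit 0x0) (nat_lit 0x10000a00670038c003e001f00060001000000000) := Q_6 (nat_lit 88) (C_6 L45987 (C_6 L45986 (C_6 L46044 N_6))) (by decide +kernel)
theorem L46046 : W_6 (nat_lit 2) (nat_lit 0x200010001300098000700000001000000000000000000) (nat_lit 0x0) (nat_lit 0x24000800000000000000000000000000) := D_6 (nat_lit 125) (nat_lit 122) (nat_lit 107) (nat_lit 0) (nat_lit 6) (nat_lit 7) (nat_lit 3) (nat_lit 2) (nat_lit 6) (by decide +kernel)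
theorem L46047 : W_6 (nat_lit 3) (nat_lit 0x200010001300098000600000001000000000000000000) (nat_lit 0x0) (nat_lit 0x24000980000000000000000000000000) := T_6 (nat_lit 104) (nat_lit 103) (nat_lit 3) (nat_lit 1) (nat_lit 6) L46046 (by decide +kernel)
theorem L46048 : W_6 (nat_lit 4) (nat_lit 0x200010001300098000600000000000000000000000000) (nat_lit 0x0) (nat_lit 0x24000980020001000000000000000000) := T_6 (nat_lit 72) (nat_lit 89) (nat_lit 7) (nat_lit 4) (nat_lit 4) L46047 (by decide +kernel)
theorem L46049 : W_6 (nat_lit 2) (nat_lit 0x2000100013000b8000600000000000000000000000000) (nat_lit 0x0) (nat_lit 0x4000900000000000000000000000000) := D_6 (nat_lit 104) (nat_lit 107) (nat_lit 122) (nat_lit 3) (nat_lit 2) (nat_lit 6) (nat_lit 0) (nat_lit 6) (nat_lit 7) (by decide +kernel)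
theorem L46050 : W_6 (nat_lit 3) (nat_lit 0x200010001300098000600000000000000000000000000) (nat_lit 0x0) (nat_lit 0x64000900000000000000000000000000) := T_6 (nat_lit 125) (nat_lit 126) (nat_lit 1) (nat_lit 8) (nat_lit 7) L46049 (by decide +kernel)
theorem L46051 : W_6 (nat_lit 12) (nat_lit 0x200010001300098000400000000000000000000000000) (nat_lit 0x0) (nat_lit 0x10000a0067003bc03be001f00070001800000000) := Q_6 (nat_lit 105) (C_6 L45012 (C_6 L45985 (C_6 L46011 (C_6 L46045 (C_6 L46048 (C_6 L46050 N_6)))))) (by decide +kernel)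
theorem L46052 : W_6 (nat_lit 2) (nat_lit 0x200010001b000d8002d001c0000000000000000000000) (nat_lit 0x0) (nat_lit 0x2000100008000000000000000000000000000000000000000) := D_6 (nat_lit 176) (nat_lit 159) (nat_lit 193) (nat_lit 5) (nat_lit 7) (nat_lit 6) (nat_lit 5) (nat_lit 7) (nat_lit 7) (by decide +kernel)
theorem L46053 : W_6 (nat_lit 3) (nat_lit 0x2000100013000d8002d001c0000000000000000000000) (nat_lit 0x0) (nat_lit 0x2000100028000800000000000000000000000000000000000) := T_6 (nat_lit 143) (nat_lit 161) (nat_lit 7) (nat_lit 7) (nat_lit 5) L46052 (by decide +kernel)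
theorem L46054 : W_6 (nat_lit 4) (nat_lit 0x2000100013000d8000d001c0000000000000000000000) (nat_lit 0x0) (nat_lit 0x2000100028000800000002000000008000000000000000000) := T_6 (nat_lit 109) (nat_lit 75) (nat_lit 7) (nat_lit 7) (nat_lit 4) L46053 (by decide +kernel)
theorem L46055 : W_6 (nat_lit 5) (nat_lit 0x2000100013000d8000d000c0000000000000000000000) (nat_lit 0x0) (nat_lit 0x2000100028000800000002000300008000000000000000000) := T_6 (nat_lit 92) (nat_lit 93) (nat_lit 1) (nat_lit 8) (nat_lit 5) L46054 (by decide +kernel)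
theorem L46056 : W_6 (nat_lit 6) (nat_lit 0x2000100013000d8000c000c0000000000000000000000) (nat_lit 0x0) (nat_lit 0x2000100028000800000002300300008000000000000000000) := T_6 (nat_lit 104) (nat_lit 105) (nat_lit 2) (nat_lit 2) (nat_lit 6) L46055 (by decide +kernel)
theorem L46057 : W_6 (nat_lit 7) (nat_lit 0x2000100013000d8000c00040000000000000000000000) (nat_lit 0x0) (nat_lit 0x200010002800080000000230038000c000000000000000000) := T_6 (nat_lit 91) (nat_lit 74) (nat_lit 6) (nat_lit 5) (nat_lit 8) L46056 (by decide +kernel)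
theorem L46058 : W_6 (nat_lit 8) (nat_lit 0x2000100013000d8000c00000000000000000000000000) (nat_lit 0x0) (nat_lit 0x20001000280008000000023003c000e000000000000000000) := T_6 (nat_lit 90) (nat_lit 73) (nat_lit 5) (nat_lit 5) (nat_lit 4) L46057 (by decide +kernel)
theorem L46059 : W_6 (nat_lit 9) (nat_lit 0x200010001300098000c00000000000000000000000000) (nat_lit 0x0) (nat_lit 0x20001000280008000600023003c000e000000000000000000) := T_6 (nat_lit 126) (nat_lit 125) (nat_lit 1) (nat_lit 8) (nat_lit 7) L46058 (by decide +kernel)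
theorem L46060 : W_6 (nat_lit 2) (nat_lit 0x2000100013000dc001e000c0000000000000000000000) (nat_lit 0x0) (nat_lit 0x18000800000000000000000) := D_6 (nat_lit 88) (nat_lit 71) (nat_lit 87) (nat_lit 7) (nat_lit 3) (nat_lit 4) (nat_lit 0) (nat_lit 6) (nat_lit 6) (by decide +kernel)
theorem L46061 : W_6 (nat_lit 3) (nat_lit 0x2000100013000dc001c000c0000000000000000000000) (nat_lit 0x0) (nat_lit 0x300018000800000000000000000) := T_6 (nat_lit 105) (nat_lit 104) (nat_lit 2) (nat_lit 2) (nat_lit 6) L46060 (by decide +kernel)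
theorem L46062 : W_6 (nat_lit 4) (nat_lit 0x2000100013000dc001c00040000000000000000000000) (nat_lit 0x0) (nat_lit 0x300098004800000000000000000) := T_6 (nat_lit 91) (nat_lit 74) (nat_lit 6) (nat_lit 5) (nat_lit 8) L46061 (by decide +kernel)
theorem L46063 : W_6 (nat_lit 5) (nat_lit 0x2000100013000d8001c00040000000000000000000000) (nat_lit 0x0) (nat_lit 0x6000300098004800000000000000000) := T_6 (nat_lit 122) (nat_lit 121) (nat_lit 2) (nat_lit 2) (nat_lit 7) L46062 (by decide +kernel)
theorem L46064 : W_6 (nat_lit 6) (nat_lit 0x2000100013000d8000c00040000000000000000000000) (nat_lit 0x0) (nat_lit 0x6003300098004800000000000000000) := T_6 (nat_lit 108) (nat_lit 109) (nat_lit 3) (nat_lit 4) (nat_lit 6) L46063 (by decide +kernel)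
theorem L46065 : W_6 (nat_lit 7) (nat_lit 0x200010001300098000c00040000000000000000000000) (nat_lit 0x0) (nat_lit 0x66003300098004800000000000000000) := T_6 (nat_lit 126) (nat_lit 125) (nat_lit 1) (nat_lit 8) (nat_lit 7) L46064 (by decide +kernel)
theorem L46066 : W_6 (nat_lit 8) (nat_lit 0x200010001300098000c00000000000000000000000000) (nat_lit 0x0) (nat_lit 0x660033000d8006800000000000000000) := T_6 (nat_lit 90) (nat_lit 73) (nat_lit 5) (nat_lit 5) (nat_lit 4) L46065 (by decide +kernel)
theorem L46067 : W_6 (nat_lit 10) (nat_lit 0x200010001300098000400000000000000000000000000) (nat_lit 0x0) (nat_lit 0x2000100028000800066003b003d800e800000000000000000) := Q_6 (nat_lit 107) (C_6 L45052 (C_6 L43173 (C_6 L46059 (C_6 L46066 N_6)))) (by decide +kernel)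
theorem L46068 : W_6 (nat_lit 3) (nat_lit 0x2000100013800d8000d00078000000000000000000000) (nat_lit 0x0) (nat_lit 0x6000200000000600000000000000000) := T_6 (nat_lit 70) (nat_lit 69) (nat_lit 0) (nat_lit 5) (nat_lit 5) L42274 (by decide +kernel)
theorem L46069 : W_6 (nat_lit 4) (nat_lit 0x2000100013800d8000c00078000000000000000000000) (nat_lit 0x0) (nat_lit 0x6000380000000600000000000000000) := T_6 (nat_lit 104) (nat_lit 103) (nat_lit 1) (nat_lit 5) (nat_lit 5) L46068 (by decide +kernel)
theorem L46070 : W_6 (nat_lit 5) (nat_lit 0x2000100013000d8000c00078000000000000000000000) (nat_lit 0x0) (nat_lit 0x1000080006000380000000600000000000000000) := T_6 (nat_lit 139) (nat_lit 156) (nat_lit 5) (nat_lit 4) (nat_lit 5) L46069 (by decide +kernel)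
theorem L46071 : W_6 (nat_lit 6) (nat_lit 0x2000100013000d8000c00038000000000000000000000) (nat_lit 0x0) (nat_lit 0x1000080006000380040002600000000000000000) := T_6 (nat_lit 90) (nat_lit 73) (nat_lit 6) (nat_lit 4) (nat_lit 8) L46070 (by decide +kernel)
theorem L46072 : W_6 (nat_lit 7) (nat_lit 0x2000100013000d8000c00030000000000000000000000) (nat_lit 0x0) (nat_lit 0x100008000600038004c002600000000000000000) := T_6 (nat_lit 87) (nat_lit 86) (nat_lit 3) (nat_lit 1) (nat_lit 5) L46071 (by decide +kernel)
theorem L46073 : W_6 (nat_lit 8) (nat_lit 0x2000100013000d8000c00020000000000000000000000) (nat_lit 0x0) (nat_lit 0x100008000600038005c002e00000000000000000) := T_6 (nat_lit 88) (nat_lit 71) (nat_lit 4) (nat_lit 4) (nat_lit 8) L46072 (by decide +kernel)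
theorem L46074 : W_6 (nat_lit 9) (nat_lit 0x200010001300098000c00020000000000000000000000) (nat_lit 0x0) (nat_lit 0x100008006600038005c002e00000000000000000) := T_6 (nat_lit 126) (nat_lit 125) (nat_lit 1) (nat_lit 8) (nat_lit 7) L46073 (by decide +kernel)
theorem L46075 : W_6 (nat_lit 10) (nat_lit 0x200010001300098000c00000000000000000000000000) (nat_lit 0x0) (nat_lit 0x100008006600038007c003e00000000000000000) := T_6 (nat_lit 89) (nat_lit 72) (nat_lit 7) (nat_lit 4) (nat_lit 4) L46074 (by decide +kernel)
theorem L46076 : W_6 (nat_lit 11) (nat_lit 0x200010001300098000400000000000000000000000000) (nat_lit 0x0) (nat_lit 0x2000100029000880066003b8017c00be00000000000000000) := Q_6 (nat_lit 107) (C_6 L45052 (C_6 L45982 (C_6 L45949 (C_6 L45967 (C_6 L46075 N_6))))) (by decide +kernel)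
theorem L46077 : W_6 (nat_lit 2) (nat_lit 0x200010001300098000700030000000000000000000000) (nat_lit 0x0) (nat_lit 0xc0002000000000000000000) := D_6 (nat_lit 90) (nat_lit 91) (nat_lit 73) (nat_lit 1) (nat_lit 6) (nat_lit 5) (nat_lit 6) (nat_lit 4) (nat_lit 8) (by decide +kernel)
theorem L46078 : W_6 (nat_lit 3) (nat_lit 0x200010001300098000700020000000000000000000000) (nat_lit 0x0) (nat_lit 0xd0002800000000000000000) := T_6 (nat_lit 88) (nat_lit 71) (nat_lit 4) (nat_lit 4) (nat_lit 8) L46077 (by decide +kernel)
theorem L46079 : W_6 (nat_lit 4) (nat_lit 0x200010001300098000600020000000000000000000000) (nat_lit 0x0) (nat_lit 0x1800d0002800000000000000000) := T_6 (nat_lit 104) (nat_lit 103) (nat_lit 3) (nat_lit 1) (nat_lit 6) L46078 (by decide +kernel)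
theorem L46080 : W_6 (nat_lit 5) (nat_lit 0x200010001300098000600000000000000000000000000) (nat_lit 0x0) (nat_lit 0x1800f0003800000000000000000) := T_6 (nat_lit 89) (nat_lit 72) (nat_lit 7) (nat_lit 4) (nat_lit 4) L46079 (by decide +kernel)
theorem L46081 : W_6 (nat_lit 12) (nat_lit 0x200010001300098000400000000000000000000000000) (nat_lit 0x0) (nat_lit 0x10000a0067003bc00fe003f00060001000000000) := Q_6 (nat_lit 105) (C_6 L46045 (C_6 L46050 (C_6 L45985 (C_6 L46080 N_6)))) (by decide +kernel)
theorem L46082 : W_6 (nat_lit 2) (nat_lit 0x2000100013000de000d00040001000000000000000000) (nat_lit 0x0) (nat_lit 0x200080004000000000000000000) := D_6 (nat_lit 91) (nat_lit 74) (nat_lit 105) (nat_lit 6) (nat_lit 5) (nat_lit 8) (nat_lit 2) (nat_lit 2) (nat_lit 6) (by decide +kernel)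
theorem L46083 : W_6 (nat_lit 3) (nat_lit 0x2000100013000de000c00040001000000000000000000) (nat_lit 0x0) (nat_lit 0x380080004000000000000000000) := T_6 (nat_lit 104) (nat_lit 103) (nat_lit 0) (nat_lit 5) (nat_lit 7) L46082 (by decide +kernel)
theorem L46084 : W_6 (nat_lit 4) (nat_lit 0x2000100013000de000c00000001000000000000000000) (nat_lit 0x0) (nat_lit 0x3800c0006000000000000000000) := T_6 (nat_lit 90) (nat_lit 73) (nat_lit 5) (nat_lit 5) (nat_lit 4) L46083 (by decide +kernel)
theorem L46085 : W_6 (nat_lit 5) (nat_lit 0x2000100013000de000400000001000000000000000000) (nat_lit 0x0) (nat_lit 0x1b800c0006000000000000000000) := T_6 (nat_lit 107) (nat_lit 108) (nat_lit 2) (nat_lit 2) (nat_lit 7) L46084 (by decide +kernel)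
theorem L46086 : W_6 (nat_lit 6) (nat_lit 0x20001000130009e000400000001000000000000000000) (nat_lit 0x0) (nat_lit 0x60001b800c0006000000000000000000) := T_6 (nat_lit 126) (nat_lit 125) (nat_lit 1) (nat_lit 8) (nat_lit 7) L46085 (by decide +kernel)
theorem L46087 : W_6 (nat_lit 7) (nat_lit 0x20001000130009c000400000001000000000000000000) (nat_lit 0x0) (nat_lit 0x63001b800c0006000000000000000000) := T_6 (nat_lit 121) (nat_lit 120) (nat_lit 3) (nat_lit 1) (nat_lit 7) L46086 (by decide +kernel)
theorem L46088 : W_6 (nat_lit 8) (nat_lit 0x20001000130009c000400000000000000000000000000) (nat_lit 0x0) (nat_lit 0x63001b800e0007000000000000000000) := T_6 (nat_lit 72) (nat_lit 89) (nat_lit 7) (nat_lit 4) (nat_lit 4) L46087 (by decide +kernel)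
theorem L46089 : W_6 (nat_lit 2) (nat_lit 0x20001000130009e000d00040001000000000000000000) (nat_lit 0x0) (nat_lit 0x200080004000000000000000000) := D_6 (nat_lit 91) (nat_lit 105) (nat_lit 74) (nat_lit 2) (nat_lit 2) (nat_lit 6) (nat_lit 6) (nat_lit 5) (nat_lit 8) (by decide +kernel)
theorem L46090 : W_6 (nat_lit 3) (nat_lit 0x20001000130009e000d00000001000000000000000000) (nat_lit 0x0) (nat_lit 0x2000c0006000000000000000000) := T_6 (nat_lit 90) (nat_lit 73) (nat_lit 5) (nat_lit 5) (nat_lit 4) L46089 (by decide +kernel)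
theorem L46091 : W_6 (nat_lit 4) (nat_lit 0x20001000130009e000500000001000000000000000000) (nat_lit 0x0) (nat_lit 0x1a000c0006000000000000000000) := T_6 (nat_lit 107) (nat_lit 108) (nat_lit 2) (nat_lit 2) (nat_lit 7) L46090 (by decide +kernel)
theorem L46092 : W_6 (nat_lit 5) (nat_lit 0x20001000130009e000400000001000000000000000000) (nat_lit 0x0) (nat_lit 0x1b800c0006000000000000000000) := T_6 (nat_lit 104) (nat_lit 103) (nat_lit 0) (nat_lit 5) (nat_lit 7) L46091 (by decide +kernel)
theorem L46093 : W_6 (nat_lit 6) (nat_lit 0x20001000130009c000400000001000000000000000000) (nat_lit 0x0) (nat_lit 0x3001b800c0006000000000000000000) := T_6 (nat_lit 121) (nat_lit 120) (nat_lit 3) (nat_lit 1) (nat_lit 7) L46092 (by decide +kernel)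
theorem L46094 : W_6 (nat_lit 7) (nat_lit 0x20001000130009c000400000000000000000000000000) (nat_lit 0x0) (nat_lit 0x3001b800e0007000000000000000000) := T_6 (nat_lit 72) (nat_lit 89) (nat_lit 7) (nat_lit 4) (nat_lit 4) L46093 (by decide +kernel)
theorem L46095 : W_6 (nat_lit 2) (nat_lit 0x2000100013800bd0006000e0000000000000000000000) (nat_lit 0x0) (nat_lit 0x3000000004000000000000000000) := D_6 (nat_lit 108) (nat_lit 109) (nat_lit 74) (nat_lit 2) (nat_lit 3) (nat_lit 7) (nat_lit 5) (nat_lit 6) (nat_lit 4) (by decide +kernel)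
theorem L46096 : W_6 (nat_lit 3) (nat_lit 0x2000100013800bd000600060000000000000000000000) (nat_lit 0x0) (nat_lit 0x3000180004000000000000000000) := T_6 (nat_lit 91) (nat_lit 92) (nat_lit 1) (nat_lit 7) (nat_lit 5) L46095 (by decide +kernel)
theorem L46097 : W_6 (nat_lit 4) (nat_lit 0x2000100013800bd000600020000000000000000000000) (nat_lit 0x0) (nat_lit 0x30001c0006000000000000000000) := T_6 (nat_lit 90) (nat_lit 73) (nat_lit 6) (nat_lit 4) (nat_lit 8) L46096 (by decide +kernel)
theorem L46098 : W_6 (nat_lit 5) (nat_lit 0x2000100013000bd000600020000000000000000000000) (nat_lit 0x0) (nat_lit 0x10000800000030001c0006000000000000000000) := T_6 (nat_lit 139) (nat_lit 156) (nat_lit 6) (nat_lit 3) (nat_lit 9) L46097 (by decide +kernel)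
theorem L46099 : W_6 (nat_lit 6) (nat_lit 0x2000100013000bd000400020000000000000000000000) (nat_lit 0x0) (nat_lit 0x10000800000033001c0006000000000000000000) := T_6 (nat_lit 105) (nat_lit 104) (nat_lit 0) (nat_lit 6) (nat_lit 7) L46098 (by decide +kernel)
theorem L46100 : W_6 (nat_lit 7) (nat_lit 0x2000100013000bd000400000000000000000000000000) (nat_lit 0x0) (nat_lit 0x10000800000033001e0007000000000000000000) := T_6 (nat_lit 89) (nat_lit 72) (nat_lit 7) (nat_lit 4) (nat_lit 4) L46099 (by decide +kernel)
theorem L46101 : W_6 (nat_lit 8) (nat_lit 0x20001000130009d000400000000000000000000000000) (nat_lit 0x0) (nat_lit 0x10000800600033001e0007000000000000000000) := T_6 (nat_lit 125) (nat_lit 126) (nat_lit 1) (nat_lit 8) (nat_lit 7) L46100 (by decide +kernel)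
theorem L46102 : W_6 (nat_lit 9) (nat_lit 0x20001000130009c000400000000000000000000000000) (nat_lit 0x0) (nat_lit 0x10000800630033001e0007000000000000000000) := T_6 (nat_lit 120) (nat_lit 121) (nat_lit 3) (nat_lit 1) (nat_lit 7) L46101 (by decide +kernel)
theorem L46103 : W_6 (nat_lit 2) (nat_lit 0x2000100013000bc000500000001000000000000000000) (nat_lit 0x0) (nat_lit 0x3000080000000000000000000000000) := D_6 (nat_lit 121) (nat_lit 120) (nat_lit 103) (nat_lit 3) (nat_lit 1) (nat_lit 7) (nat_lit 0) (nat_lit 5) (nat_lit 7) (by decide +kernel)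
theorem L46104 : W_6 (nat_lit 3) (nat_lit 0x2000100013000bc000400000001000000000000000000) (nat_lit 0x0) (nat_lit 0x3000380000000000000000000000000) := T_6 (nat_lit 104) (nat_lit 105) (nat_lit 0) (nat_lit 6) (nat_lit 7) L46103 (by decide +kernel)
theorem L46105 : W_6 (nat_lit 4) (nat_lit 0x2000100013000bc000400000000000000000000000000) (nat_lit 0x0) (nat_lit 0x3000380020001000000000000000000) := T_6 (nat_lit 72) (nat_lit 89) (nat_lit 7) (nat_lit 4) (nat_lit 4) L46104 (by decide +kernel)
theorem L46106 : W_6 (nat_lit 5) (nat_lit 0x20001000130009c000400000000000000000000000000) (nat_lit 0x0) (nat_lit 0x63000380020001000000000000000000) := T_6 (nat_lit 125) (nat_lit 126) (nat_lit 1) (nat_lit 8) (nat_lit 7) L46105 (by decide +kernel)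
theorem L46107 : W_6 (nat_lit 10) (nat_lit 0x200010001300098000400000000000000000000000000) (nat_lit 0x0) (nat_lit 0x2000100029000880067003b803e000f000000000000000000) := Q_6 (nat_lit 122) (C_6 L46088 (C_6 L46094 (C_6 L46102 (C_6 L46106 (C_6 L43770 N_6))))) (by decide +kernel)
theorem L46108 : W_6 (nat_lit 13) (nat_lit 0x200010001300098000000000000000000000000000000) (nat_lit 0x0) (nat_lit 0x20001000290008a0067003fc03fe00ff00070001800000000) := Q_6 (nat_lit 106) (C_6 L45945 (C_6 L45950 (C_6 L45959 (C_6 L45968 (C_6 L45983 (C_6 L46051 (C_6 L46067 (C_6 L46076 (C_6 L46081 (C_6 L46107 N_6)))))))))) (by decide +kernel)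
theorem L46109 : W_6 (nat_lit 2) (nat_lit 0x200012001300098000400030000000000000000000000) (nat_lit 0x0) (nat_lit 0x20001000080000000000000000000000000000000000) := D_6 (nat_lit 156) (nat_lit 173) (nat_lit 139) (nat_lit 5) (nat_lit 4) (nat_lit 6) (nat_lit 5) (nat_lit 4) (nat_lit 5) (by decide +kernel)
theorem L46110 : W_6 (nat_lit 3) (nat_lit 0x200010001300098000400030000000000000000000000) (nat_lit 0x0) (nat_lit 0x20003000080000000200000000000000000000000000) := T_6 (nat_lit 157) (nat_lit 105) (nat_lit 4) (nat_lit 4) (nat_lit 9) L46109 (by decide +kernel)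
theorem L46111 : W_6 (nat_lit 4) (nat_lit 0x200010001300098000400020000000000000000000000) (nat_lit 0x0) (nat_lit 0x20003000080000000200010000800000000000000000) := T_6 (nat_lit 88) (nat_lit 71) (nat_lit 4) (nat_lit 4) (nat_lit 8) L46110 (by decide +kernel)
theorem L46112 : W_6 (nat_lit 5) (nat_lit 0x200010001300098000400000000000000000000000000) (nat_lit 0x0) (nat_lit 0x20003000080000000200030001800000000000000000) := T_6 (nat_lit 89) (nat_lit 72) (nat_lit 7) (nat_lit 4) (nat_lit 4) L46111 (by decide +kernel)
theorem L46113 : W_6 (nat_lit 2) (nat_lit 0x2400134013000d8000400070000000000000000000000) (nat_lit 0x0) (nat_lit 0x1000180000000000000000000000000000000000000000000) := D_6 (nat_lit 175) (nat_lit 192) (nat_lit 176) (nat_lit 7) (nat_lit 4) (nat_lit 7) (nat_lit 0) (nat_lit 7) (nat_lit 10) (by decide +kernel)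
theorem L46114 : W_6 (nat_lit 3) (nat_lit 0x2000134013000d8000400070000000000000000000000) (nat_lit 0x0) (nat_lit 0x18001c0000000000000000000000000000000000000000000) := T_6 (nat_lit 174) (nat_lit 191) (nat_lit 6) (nat_lit 4) (nat_lit 11) L46113 (by decide +kernel)
theorem L46115 : W_6 (nat_lit 4) (nat_lit 0x2000130013000d8000400070000000000000000000000) (nat_lit 0x0) (nat_lit 0x18001c0000c00000000000000000000000000000000000000) := T_6 (nat_lit 154) (nat_lit 155) (nat_lit 2) (nat_lit 1) (nat_lit 9) L46114 (by decide +kernel)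
theorem L46116 : W_6 (nat_lit 5) (nat_lit 0x2000110013000d8000400070000000000000000000000) (nat_lit 0x0) (nat_lit 0x18001e0002c00000000000000000000000000000000000000) := T_6 (nat_lit 157) (nat_lit 173) (nat_lit 5) (nat_lit 4) (nat_lit 6) L46115 (by decide +kernel)
theorem L46117 : W_6 (nat_lit 6) (nat_lit 0x2000110013000d8000400060000000000000000000000) (nat_lit 0x0) (nat_lit 0x18001e0002c00000000000000010000800000000000000000) := T_6 (nat_lit 88) (nat_lit 71) (nat_lit 4) (nat_lit 4) (nat_lit 8) L46116 (by decide +kernel)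
theorem L46118 : W_6 (nat_lit 7) (nat_lit 0x2000100013000d8000400060000000000000000000000) (nat_lit 0x0) (nat_lit 0x18001e0003c00080000000000010000800000000000000000) := T_6 (nat_lit 156) (nat_lit 139) (nat_lit 5) (nat_lit 4) (nat_lit 5) L46117 (by decide +kernel)
theorem L46119 : W_6 (nat_lit 8) (nat_lit 0x2000100013000d8000400020000000000000000000000) (nat_lit 0x0) (nat_lit 0x18001e0003c00080000000000050002800000000000000000) := T_6 (nat_lit 90) (nat_lit 73) (nat_lit 6) (nat_lit 4) (nat_lit 8) L46118 (by decide +kernel)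
theorem L46120 : W_6 (nat_lit 9) (nat_lit 0x200010001300098000400020000000000000000000000) (nat_lit 0x0) (nat_lit 0x18001e0003c00080060000000050002800000000000000000) := T_6 (nat_lit 126) (nat_lit 125) (nat_lit 1) (nat_lit 8) (nat_lit 7) L46119 (by decide +kernel)
theorem L46121 : W_6 (nat_lit 10) (nat_lit 0x200010001300098000400000000000000000000000000) (nat_lit 0x0) (nat_lit 0x18001e0003c00080060000000070003800000000000000000) := T_6 (nat_lit 89) (nat_lit 72) (nat_lit 7) (nat_lit 4) (nat_lit 4) L46120 (by decide +kernel)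
theorem L46122 : W_6 (nat_lit 2) (nat_lit 0x2400134013000d8000680000000000000000000000000) (nat_lit 0x0) (nat_lit 0x1000180000000000000000000000000000000000000000000) := D_6 (nat_lit 175) (nat_lit 192) (nat_lit 176) (nat_lit 7) (nat_lit 4) (nat_lit 7) (nat_lit 0) (nat_lit 7) (nat_lit 10) (by decide +kernel)
theorem L46123 : W_6 (nat_lit 3) (nat_lit 0x2000134013000d8000680000000000000000000000000) (nat_lit 0x0) (nat_lit 0x18001c0000000000000000000000000000000000000000000) := T_6 (nat_lit 174) (nat_lit 191) (nat_lit 6) (nat_lit 4) (nat_lit 11) L46122 (by decide +kernel)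
theorem L46124 : W_6 (nat_lit 4) (nat_lit 0x2000130013000d8000680000000000000000000000000) (nat_lit 0x0) (nat_lit 0x18001c0000c00000000000000000000000000000000000000) := T_6 (nat_lit 154) (nat_lit 155) (nat_lit 2) (nat_lit 1) (nat_lit 9) L46123 (by decide +kernel)
theorem L46125 : W_6 (nat_lit 5) (nat_lit 0x2000120013000d8000680000000000000000000000000) (nat_lit 0x0) (nat_lit 0x18001e0001c00000000000000000000000000000000000000) := T_6 (nat_lit 156) (nat_lit 173) (nat_lit 5) (nat_lit 4) (nat_lit 6) L46124 (by decide +kernel)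
theorem L46126 : W_6 (nat_lit 6) (nat_lit 0x2000100013000d8000680000000000000000000000000) (nat_lit 0x0) (nat_lit 0x18001e0003c00000000000000010000000000000000000000) := T_6 (nat_lit 157) (nat_lit 88) (nat_lit 4) (nat_lit 4) (nat_lit 9) L46125 (by decide +kernel)
theorem L46127 : W_6 (nat_lit 7) (nat_lit 0x2000100013000d8000600000000000000000000000000) (nat_lit 0x0) (nat_lit 0x18001e0003c00000000000180010000000000000000000000) := T_6 (nat_lit 103) (nat_lit 104) (nat_lit 3) (nat_lit 1) (nat_lit 6) L46126 (by decide +kernel)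
theorem L46128 : W_6 (nat_lit 8) (nat_lit 0x200010001300098000600000000000000000000000000) (nat_lit 0x0) (nat_lit 0x18001e0003c00000060000180010000000000000000000000) := T_6 (nat_lit 126) (nat_lit 125) (nat_lit 1) (nat_lit 8) (nat_lit 7) L46127 (by decide +kernel)
theorem L46129 : W_6 (nat_lit 2) (nat_lit 0x200012001300098000600000000000000000000000000) (nat_lit 0x0) (nat_lit 0x800040000000000004000000000000000000000000000000) := D_6 (nat_lit 174) (nat_lit 122) (nat_lit 191) (nat_lit 4) (nat_lit 4) (nat_lit 10) (nat_lit 6) (nat_lit 4) (nat_lit 11) (by decide +kernel)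
theorem L46130 : W_6 (nat_lit 3) (nat_lit 0x200010001300098000600000000000000000000000000) (nat_lit 0x0) (nat_lit 0x800040002000000004000000010000000000000000000000) := T_6 (nat_lit 157) (nat_lit 88) (nat_lit 4) (nat_lit 4) (nat_lit 9) L46129 (by decide +kernel)
theorem L46131 : W_6 (nat_lit 9) (nat_lit 0x200010001300098000400000000000000000000000000) (nat_lit 0x0) (nat_lit 0x18001e0003c00000064000380010000000000000000000000) := Q_6 (nat_lit 105) (C_6 L45012 (C_6 L46128 (C_6 L46130 N_6))) (by decide +kernel)
theorem L46132 : W_6 (nat_lit 2) (nat_lit 0x2400134013000d8000400060000000000000000000000) (nat_lit 0x0) (nat_lit 0x1000180000000000000000000000000000000000000000000) := D_6 (nat_lit 175) (nat_lit 192) (nat_lit 176) (nat_lit 7) (nat_lit 4) (nat_lit 7) (nat_lit 0) (nat_lit 7) (nat_lit 10) (by decide +kernel)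
theorem L46133 : W_6 (nat_lit 3) (nat_lit 0x2000134013000d8000400060000000000000000000000) (nat_lit 0x0) (nat_lit 0x18001c0000000000000000000000000000000000000000000) := T_6 (nat_lit 174) (nat_lit 191) (nat_lit 6) (nat_lit 4) (nat_lit 11) L46132 (by decide +kernel)
theorem L46134 : W_6 (nat_lit 4) (nat_lit 0x2000130013000d8000400060000000000000000000000) (nat_lit 0x0) (nat_lit 0x18001c0000c00000000000000000000000000000000000000) := T_6 (nat_lit 154) (nat_lit 155) (nat_lit 2) (nat_lit 1) (nat_lit 9) L46133 (by decide +kernel)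
theorem L46135 : W_6 (nat_lit 5) (nat_lit 0x2000110013000d8000400060000000000000000000000) (nat_lit 0x0) (nat_lit 0x18001e0002c00000000000000000000000000000000000000) := T_6 (nat_lit 157) (nat_lit 173) (nat_lit 5) (nat_lit 4) (nat_lit 6) L46134 (by decide +kernel)
theorem L46136 : W_6 (nat_lit 6) (nat_lit 0x2000110013000d8000400020000000000000000000000) (nat_lit 0x0) (nat_lit 0x18001e0002c00000000000000040002000000000000000000) := T_6 (nat_lit 90) (nat_lit 73) (nat_lit 6) (nat_lit 4) (nat_lit 8) L46135 (by decide +kernel)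
theorem L46137 : W_6 (nat_lit 7) (nat_lit 0x2000100013000d8000400020000000000000000000000) (nat_lit 0x0) (nat_lit 0x18001e0003c00080000000000040002000000000000000000) := T_6 (nat_lit 156) (nat_lit 139) (nat_lit 5) (nat_lit 4) (nat_lit 5) L46136 (by decide +kernel)
theorem L46138 : W_6 (nat_lit 8) (nat_lit 0x2000100013000d8000400000000000000000000000000) (nat_lit 0x0) (nat_lit 0x18001e0003c00080000000000060003000000000000000000) := T_6 (nat_lit 89) (nat_lit 72) (nat_lit 7) (nat_lit 4) (nat_lit 4) L46137 (by decide +kernel)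
theorem L46139 : W_6 (nat_lit 9) (nat_lit 0x200010001300098000400000000000000000000000000) (nat_lit 0x0) (nat_lit 0x18001e0003c00080060000000060003000000000000000000) := T_6 (nat_lit 126) (nat_lit 125) (nat_lit 1) (nat_lit 8) (nat_lit 7) L46138 (by decide +kernel)
theorem L46140 : W_6 (nat_lit 11) (nat_lit 0x200010001300098000000000000000000000000000000) (nat_lit 0x0) (nat_lit 0x38001e002bc008800640027801f000b800000000000000000) := Q_6 (nat_lit 106) (C_6 L45959 (C_6 L45046 (C_6 L46112 (C_6 L46121 (C_6 L46131 (C_6 L46139 N_6)))))) (by decide +kernel)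
theorem L46141 : W_6 (nat_lit 2) (nat_lit 0x2000120013000de000000000000000000000000000000) (nat_lit 0x0) (nat_lit 0x1800040000000000000000000000) := D_6 (nat_lit 107) (nat_lit 90) (nat_lit 108) (nat_lit 5) (nat_lit 5) (nat_lit 5) (nat_lit 2) (nat_lit 2) (nat_lit 7) (by decide +kernel)
theorem L46142 : W_6 (nat_lit 3) (nat_lit 0x2000120013000dc000000000000000000000000000000) (nat_lit 0x0) (nat_lit 0x3001800040000000000000000000000) := T_6 (nat_lit 121) (nat_lit 120) (nat_lit 3) (nat_lit 1) (nat_lit 7) L46141 (by decide +kernel)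
theorem L46143 : W_6 (nat_lit 4) (nat_lit 0x20001200130009c000000000000000000000000000000) (nat_lit 0x0) (nat_lit 0x63001800040000000000000000000000) := T_6 (nat_lit 126) (nat_lit 125) (nat_lit 1) (nat_lit 8) (nat_lit 7) L46142 (by decide +kernel)
theorem L46144 : W_6 (nat_lit 2) (nat_lit 0x20001200130009c000800000000000000000000000000) (nat_lit 0x0) (nat_lit 0x3001000000000000000000000000000) := D_6 (nat_lit 121) (nat_lit 120) (nat_lit 108) (nat_lit 3) (nat_lit 1) (nat_lit 7) (nat_lit 2) (nat_lit 2) (nat_lit 7) (by decide +kernel)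
theorem L46145 : W_6 (nat_lit 3) (nat_lit 0x20001200130009c000000000000000000000000000000) (nat_lit 0x0) (nat_lit 0x3001800040000000000000000000000) := T_6 (nat_lit 107) (nat_lit 90) (nat_lit 5) (nat_lit 5) (nat_lit 5) L46144 (by decide +kernel)
theorem L46146 : W_6 (nat_lit 2) (nat_lit 0x2000120013000bd001200000000000000000000000000) (nat_lit 0x0) (nat_lit 0x80000000000010000800000000000000000) := D_6 (nat_lit 88) (nat_lit 139) (nat_lit 71) (nat_lit 7) (nat_lit 3) (nat_lit 5) (nat_lit 7) (nat_lit 3) (nat_lit 4) (by decide +kernel)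
theorem L46147 : W_6 (nat_lit 3) (nat_lit 0x2000120013000bd001000000000000000000000000000) (nat_lit 0x0) (nat_lit 0x80000000300010000800000000000000000) := T_6 (nat_lit 105) (nat_lit 104) (nat_lit 0) (nat_lit 6) (nat_lit 7) L46146 (by decide +kernel)
theorem L46148 : W_6 (nat_lit 4) (nat_lit 0x2000120013000bd000000000000000000000000000000) (nat_lit 0x0) (nat_lit 0x80000003300010000800000000000000000) := T_6 (nat_lit 108) (nat_lit 109) (nat_lit 2) (nat_lit 3) (nat_lit 7) L46147 (by decide +kernel)
theorem L46149 : W_6 (nat_lit 5) (nat_lit 0x20001200130009d000000000000000000000000000000) (nat_lit 0x0) (nat_lit 0x80060003300010000800000000000000000) := T_6 (nat_lit 125) (nat_lit 126) (nat_lit 1) (nat_lit 8) (nat_lit 7) L46148 (by decide +kernel)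
theorem L46150 : W_6 (nat_lit 6) (nat_lit 0x20001200130009c000000000000000000000000000000) (nat_lit 0x0) (nat_lit 0x80063003300010000800000000000000000) := T_6 (nat_lit 120) (nat_lit 121) (nat_lit 3) (nat_lit 1) (nat_lit 7) L46149 (by decide +kernel)
theorem L46151 : W_6 (nat_lit 2) (nat_lit 0x2000120013000bc000200040000000000000000000000) (nat_lit 0x0) (nat_lit 0x80000000000010000800000000000000000) := D_6 (nat_lit 88) (nat_lit 139) (nat_lit 71) (nat_lit 7) (nat_lit 3) (nat_lit 5) (nat_lit 7) (nat_lit 3) (nat_lit 4) (by decide +kernel)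
theorem L46152 : W_6 (nat_lit 3) (nat_lit 0x2000120013000bc000000040000000000000000000000) (nat_lit 0x0) (nat_lit 0x80000000300010000800000000000000000) := T_6 (nat_lit 105) (nat_lit 104) (nat_lit 0) (nat_lit 6) (nat_lit 7) L46151 (by decide +kernel)
theorem L46153 : W_6 (nat_lit 4) (nat_lit 0x2000120013000bc000000000000000000000000000000) (nat_lit 0x0) (nat_lit 0x80000000b00050000800000000000000000) := T_6 (nat_lit 90) (nat_lit 107) (nat_lit 5) (nat_lit 5) (nat_lit 5) L46152 (by decide +kernel)
theorem L46154 : W_6 (nat_lit 5) (nat_lit 0x20001200130009c000000000000000000000000000000) (nat_lit 0x0) (nat_lit 0x80060000b00050000800000000000000000) := T_6 (nat_lit 125) (nat_lit 126) (nat_lit 1) (nat_lit 8) (nat_lit 7) L46153 (by decide +kernel)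
theorem L46155 : W_6 (nat_lit 7) (nat_lit 0x200012001300098000000000000000000000000000000) (nat_lit 0x0) (nat_lit 0x80067003b00050000800000000000000000) := Q_6 (nat_lit 122) (C_6 L46143 (C_6 L46145 (C_6 L46150 (C_6 L46154 N_6)))) (by decide +kernel)
theorem L46156 : W_6 (nat_lit 8) (nat_lit 0x200010001300098000000000000000000000000000000) (nat_lit 0x0) (nat_lit 0x18001c0023000080067003b00050000800000000000000000) := Q_6 (nat_lit 157) (C_6 L45744 (C_6 L46155 N_6)) (by decide +kernel)
theorem L46157 : W_6 (nat_lit 2) (nat_lit 0x3c00120013000d8000000000000000000000000000000) (nat_lit 0x0) (nat_lit 0x400020008000000000000000000000000000000000000000) := D_6 (nat_lit 173) (nat_lit 190) (nat_lit 159) (nat_lit 5) (nat_lit 4) (nat_lit 7) (nat_lit 2) (nat_lit 3) (nat_lit 10) (by decide +kernel)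
theorem L46158 : W_6 (nat_lit 3) (nat_lit 0x2c00120013000d8000000000000000000000000000000) (nat_lit 0x0) (nat_lit 0x400120009000000000000000000000000000000000000000) := T_6 (nat_lit 176) (nat_lit 156) (nat_lit 0) (nat_lit 7) (nat_lit 10) L46157 (by decide +kernel)
theorem L46159 : W_6 (nat_lit 4) (nat_lit 0x2400120013000d8000000000000000000000000000000) (nat_lit 0x0) (nat_lit 0x14001a0009000000000000000000000000000000000000000) := T_6 (nat_lit 175) (nat_lit 192) (nat_lit 7) (nat_lit 4) (nat_lit 7) L46158 (by decide +kernel)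
theorem L46160 : W_6 (nat_lit 5) (nat_lit 0x2000120013000d8000000000000000000000000000000) (nat_lit 0x0) (nat_lit 0x1c001e0009000000000000000000000000000000000000000) := T_6 (nat_lit 174) (nat_lit 191) (nat_lit 6) (nat_lit 4) (nat_lit 11) L46159 (by decide +kernel)
theorem L46161 : W_6 (nat_lit 6) (nat_lit 0x200012001300098000000000000000000000000000000) (nat_lit 0x0) (nat_lit 0x1c001e0009000000060000000000000000000000000000000) := T_6 (nat_lit 126) (nat_lit 125) (nat_lit 1) (nat_lit 8) (nat_lit 7) L46160 (by decide +kernel)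
theorem L46162 : W_6 (nat_lit 11) (nat_lit 0x200010001300098000000000000000000000000000000) (nat_lit 0x0) (nat_lit 0x1c001e000bc00080067003f8007c003800000000000000000) := Q_6 (nat_lit 157) (C_6 L46161 (C_6 L46155 (C_6 L45741 N_6))) (by decide +kernel)
theorem L46163 : W_6 (nat_lit 2) (nat_lit 0x2e00120013000de000100000000000000000000000000) (nat_lit 0x0) (nat_lit 0x1000080000000400000000000000000000000000) := D_6 (nat_lit 156) (nat_lit 106) (nat_lit 139) (nat_lit 5) (nat_lit 4) (nat_lit 6) (nat_lit 4) (nat_lit 3) (nat_lit 10) (by decide +kernel)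
theorem L46164 : W_6 (nat_lit 3) (nat_lit 0x2e00120013000de000000000000000000000000000000) (nat_lit 0x0) (nat_lit 0x1000080000000580000000000000000000000000) := T_6 (nat_lit 104) (nat_lit 103) (nat_lit 0) (nat_lit 5) (nat_lit 7) L46163 (by decide +kernel)
theorem L46165 : W_6 (nat_lit 4) (nat_lit 0x2c00120013000de000000000000000000000000000000) (nat_lit 0x0) (nat_lit 0x400020001000080000000580000000000000000000000000) := T_6 (nat_lit 173) (nat_lit 190) (nat_lit 5) (nat_lit 4) (nat_lit 7) L46164 (by decide +kernel)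
theorem L46166 : W_6 (nat_lit 5) (nat_lit 0x2c00120013000dc000000000000000000000000000000) (nat_lit 0x0) (nat_lit 0x400020001000080003000580000000000000000000000000) := T_6 (nat_lit 121) (nat_lit 120) (nat_lit 3) (nat_lit 1) (nat_lit 7) L46165 (by decide +kernel)
theorem L46167 : W_6 (nat_lit 6) (nat_lit 0x2c00120013000d8000000000000000000000000000000) (nat_lit 0x0) (nat_lit 0x400020001000080007000780000000000000000000000000) := T_6 (nat_lit 122) (nat_lit 105) (nat_lit 4) (nat_lit 4) (nat_lit 10) L46166 (by decide +kernel)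
theorem L46168 : W_6 (nat_lit 7) (nat_lit 0x2400120013000d8000000000000000000000000000000) (nat_lit 0x0) (nat_lit 0x14000a0001000080007000780000000000000000000000000) := T_6 (nat_lit 175) (nat_lit 192) (nat_lit 7) (nat_lit 4) (nat_lit 7) L46167 (by decide +kernel)
theorem L46169 : W_6 (nat_lit 8) (nat_lit 0x2000120013000d8000000000000000000000000000000) (nat_lit 0x0) (nat_lit 0x1c000e0001000080007000780000000000000000000000000) := T_6 (nat_lit 174) (nat_lit 191) (nat_lit 6) (nat_lit 4) (nat_lit 11) L46168 (by decide +kernel)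
theorem L46170 : W_6 (nat_lit 9) (nat_lit 0x200012001300098000000000000000000000000000000) (nat_lit 0x0) (nat_lit 0x1c000e0001000080067000780000000000000000000000000) := T_6 (nat_lit 126) (nat_lit 125) (nat_lit 1) (nat_lit 8) (nat_lit 7) L46169 (by decide +kernel)
theorem L46171 : W_6 (nat_lit 10) (nat_lit 0x200010001300098000000000000000000000000000000) (nat_lit 0x0) (nat_lit 0x1c000e0003000080067003f80070003800000000000000000) := Q_6 (nat_lit 157) (C_6 L46170 (C_6 L46155 (C_6 L45670 (C_6 L45583 N_6)))) (by decide +kernel)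
theorem L46172 : W_6 (nat_lit 10) (nat_lit 0x200010001300098000800000000000000000000000000) (nat_lit 0x0) (nat_lit 0x20001000280008000660034003fc00f800000000000000000) := Q_6 (nat_lit 106) (C_6 L45982 (C_6 L45976 (C_6 L45635 (C_6 L45052 N_6)))) (by decide +kernel)
theorem L46173 : W_6 (nat_lit 2) (nat_lit 0x200012001300098000c00020000000000000000000000) (nat_lit 0x0) (nat_lit 0x20001000080000000000000000000000000000000000) := D_6 (nat_lit 156) (nat_lit 173) (nat_lit 139) (nat_lit 5) (nat_lit 4) (nat_lit 6) (nat_lit 5) (nat_lit 4) (nat_lit 5) (by decide +kernel)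
theorem L46174 : W_6 (nat_lit 3) (nat_lit 0x200012001300098000c00000000000000000000000000) (nat_lit 0x0) (nat_lit 0x20001000080000000000020001000000000000000000) := T_6 (nat_lit 89) (nat_lit 72) (nat_lit 7) (nat_lit 4) (nat_lit 4) L46173 (by decide +kernel)
theorem L46175 : W_6 (nat_lit 4) (nat_lit 0x200010001300098000c00000000000000000000000000) (nat_lit 0x0) (nat_lit 0x60003000080000000000020001000000000000000000) := T_6 (nat_lit 157) (nat_lit 174) (nat_lit 6) (nat_lit 4) (nat_lit 10) L46174 (by decide +kernel)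
theorem L46176 : W_6 (nat_lit 7) (nat_lit 0x200010001300098000800000000000000000000000000) (nat_lit 0x0) (nat_lit 0x200016002b000880060003400120009000000000000000000) := Q_6 (nat_lit 106) (C_6 L46175 (C_6 L45052 N_6)) (by decide +kernel)
theorem L46177 : W_6 (nat_lit 11) (nat_lit 0x200010001300098000000000000000000000000000000) (nat_lit 0x0) (nat_lit 0x200016002b000880066003c003fc00f800000000000000000) := Q_6 (nat_lit 107) (C_6 L45167 (C_6 L46172 (C_6 L46176 N_6))) (by decide +kernel)
theorem L46178 : W_6 (nat_lit 5) (nat_lit 0x200012001300098000000000000000000000000000000) (nat_lit 0x0) (nat_lit 0x20001000080064000780030001000000000000000000) := Q_6 (nat_lit 106) (C_6 L45669 (C_6 L45611 N_6)) (by decide +kernel)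
theorem L46179 : W_6 (nat_lit 2) (nat_lit 0x200012001300098000000000000000000000000000000) (nat_lit 0x0) (nat_lit 0x800040000000000000000800000000000000000000000000) := D_6 (nat_lit 174) (nat_lit 191) (nat_lit 107) (nat_lit 6) (nat_lit 4) (nat_lit 11) (nat_lit 6) (nat_lit 4) (nat_lit 10) (by decide +kernel)
theorem L46180 : W_6 (nat_lit 10) (nat_lit 0x200010001300098000000000000000000000000000000) (nat_lit 0x0) (nat_lit 0x1c000e0003000080067000f80030001000000000000000000) := Q_6 (nat_lit 157) (C_6 L46170 (C_6 L46178 (C_6 L46179 N_6))) (by decide +kernel)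
theorem L46181 : W_6 (nat_lit 2) (nat_lit 0x2000100013000be000800000002000000000000000000) (nat_lit 0x0) (nat_lit 0x380000000000000000000000000) := D_6 (nat_lit 104) (nat_lit 103) (nat_lit 105) (nat_lit 0) (nat_lit 5) (nat_lit 7) (nat_lit 0) (nat_lit 6) (nat_lit 7) (by decide +kernel)
theorem L46182 : W_6 (nat_lit 3) (nat_lit 0x20001000130009e000800000002000000000000000000) (nat_lit 0x0) (nat_lit 0x60000380000000000000000000000000) := T_6 (nat_lit 125) (nat_lit 126) (nat_lit 1) (nat_lit 8) (nat_lit 7) L46181 (by decide +kernel)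
theorem L46183 : W_6 (nat_lit 4) (nat_lit 0x20001000130009c000800000002000000000000000000) (nat_lit 0x0) (nat_lit 0x63000380000000000000000000000000) := T_6 (nat_lit 121) (nat_lit 120) (nat_lit 3) (nat_lit 1) (nat_lit 7) L46182 (by decide +kernel)
theorem L46184 : W_6 (nat_lit 5) (nat_lit 0x20001000130009c000800000000000000000000000000) (nat_lit 0x0) (nat_lit 0x63000380040002000000000000000000) := T_6 (nat_lit 73) (nat_lit 90) (nat_lit 5) (nat_lit 5) (nat_lit 4) L46183 (by decide +kernel)
theorem L46185 : W_6 (nat_lit 2) (nat_lit 0x2000100013000bc001a003e0000000000000000000000) (nat_lit 0x0) (nat_lit 0x38000000000000000000) := D_6 (nat_lit 76) (nat_lit 75) (nat_lit 77) (nat_lit 2) (nat_lit 4) (nat_lit 5) (nat_lit 2) (nat_lit 5) (nat_lit 5) (by decide +kernel)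
theorem L46186 : W_6 (nat_lit 3) (nat_lit 0x2000100013000bc001a003c0000000000000000000000) (nat_lit 0x0) (nat_lit 0x20039000000000000000000) := T_6 (nat_lit 89) (nat_lit 72) (nat_lit 4) (nat_lit 5) (nat_lit 8) L46185 (by decide +kernel)
theorem L46187 : W_6 (nat_lit 4) (nat_lit 0x2000100013000bc001a001c0000000000000000000000) (nat_lit 0x0) (nat_lit 0x620039000000000000000000) := T_6 (nat_lit 93) (nat_lit 94) (nat_lit 1) (nat_lit 9) (nat_lit 5) L46186 (by decide +kernel)
theorem L46188 : W_6 (nat_lit 5) (nat_lit 0x2000100013000bc001a000c0000000000000000000000) (nat_lit 0x0) (nat_lit 0x400720039000000000000000000) := T_6 (nat_lit 92) (nat_lit 106) (nat_lit 2) (nat_lit 3) (nat_lit 6) L46187 (by decide +kernel)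
theorem L46189 : W_6 (nat_lit 6) (nat_lit 0x2000100013000bc000a000c0000000000000000000000) (nat_lit 0x0) (nat_lit 0x3400720039000000000000000000) := T_6 (nat_lit 108) (nat_lit 109) (nat_lit 2) (nat_lit 3) (nat_lit 7) L46188 (by decide +kernel)
theorem L46190 : W_6 (nat_lit 7) (nat_lit 0x2000100013000bc0008000c0000000000000000000000) (nat_lit 0x0) (nat_lit 0x3700720039000000000000000000) := T_6 (nat_lit 105) (nat_lit 104) (nat_lit 0) (nat_lit 6) (nat_lit 7) L46189 (by decide +kernel)
theorem L46191 : W_6 (nat_lit 8) (nat_lit 0x2000100013000bc000800040000000000000000000000) (nat_lit 0x0) (nat_lit 0x37007a003d000000000000000000) := T_6 (nat_lit 91) (nat_lit 74) (nat_lit 6) (nat_lit 5) (nat_lit 8) L46190 (by decide +kernel)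
theorem L46192 : W_6 (nat_lit 9) (nat_lit 0x20001000130009c000800040000000000000000000000) (nat_lit 0x0) (nat_lit 0x600037007a003d000000000000000000) := T_6 (nat_lit 125) (nat_lit 126) (nat_lit 1) (nat_lit 8) (nat_lit 7) L46191 (by decide +kernel)
theorem L46193 : W_6 (nat_lit 10) (nat_lit 0x20001000130009c000800000000000000000000000000) (nat_lit 0x0) (nat_lit 0x600037007e003f000000000000000000) := T_6 (nat_lit 90) (nat_lit 73) (nat_lit 5) (nat_lit 5) (nat_lit 4) L46192 (by decide +kernel)
theorem L46194 : W_6 (nat_lit 11) (nat_lit 0x200010001300098000800000000000000000000000000) (nat_lit 0x0) (nat_lit 0x670037807e003f000000000000000000) := Q_6 (nat_lit 122) (C_6 L45646 (C_6 L46184 (C_6 L46193 N_6))) (by decide +kernel)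
theorem L46195 : W_6 (nat_lit 12) (nat_lit 0x200010001300098000000000000000000000000000000) (nat_lit 0x0) (nat_lit 0x200016002b000880067003f807e003f000000000000000000) := Q_6 (nat_lit 107) (C_6 L45167 (C_6 L46176 (C_6 L46194 N_6))) (by decide +kernel)
theorem L46196 : W_6 (nat_lit 14) (nat_lit 0x200010001300088000000000000000000000000000000) (nat_lit 0x0) (nat_lit 0x3c001e002bc008a0077003fc07fe03ff00070001800000000) := Q_6 (nat_lit 124) (C_6 L45793 (C_6 L45928 (C_6 L45940 (C_6 L46108 (C_6 L45745 (C_6 L46140 (C_6 L46156 (C_6 L46162 (C_6 L46171 (C_6 L46177 (C_6 L46180 (C_6 L46195 N_6)))))))))))) (by decide +kernel)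
theorem L46197 : W_6 (nat_lit 10) (nat_lit 0x200010001300098000800000000000000000000000000) (nat_lit 0x0) (nat_lit 0x20001000280008000600037003fc00f800000000000000000) := Q_6 (nat_lit 106) (C_6 L45967 (C_6 L46059 (C_6 L45963 (C_6 L45976 N_6)))) (by decide +kernel)
theorem L46198 : W_6 (nat_lit 2) (nat_lit 0x2000120013000d8000c00010000000000000000000000) (nat_lit 0x0) (nat_lit 0x20001800000000000000000) := D_6 (nat_lit 89) (nat_lit 72) (nat_lit 71) (nat_lit 7) (nat_lit 4) (nat_lit 4) (nat_lit 4) (nat_lit 4) (nat_lit 8) (by decide +kernel)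
theorem L46199 : W_6 (nat_lit 3) (nat_lit 0x2000120013000d8000c00000000000000000000000000) (nat_lit 0x0) (nat_lit 0x200030001800000000000000000) := T_6 (nat_lit 88) (nat_lit 105) (nat_lit 4) (nat_lit 4) (nat_lit 9) L46198 (by decide +kernel)
theorem L46200 : W_6 (nat_lit 4) (nat_lit 0x200012001300098000c00000000000000000000000000) (nat_lit 0x0) (nat_lit 0x60000200030001800000000000000000) := T_6 (nat_lit 126) (nat_lit 125) (nat_lit 1) (nat_lit 8) (nat_lit 7) L46199 (by decide +kernel)
theorem L46201 : W_6 (nat_lit 5) (nat_lit 0x200010001300098000c00000000000000000000000000) (nat_lit 0x0) (nat_lit 0x40002000000060000200030001800000000000000000) := T_6 (nat_lit 157) (nat_lit 174) (nat_lit 6) (nat_lit 4) (nat_lit 10) L46200 (by decide +kernel)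
theorem L46202 : W_6 (nat_lit 7) (nat_lit 0x200010001300098000800000000000000000000000000) (nat_lit 0x0) (nat_lit 0x200014002a00080006000360013c009800000000000000000) := Q_6 (nat_lit 106) (C_6 L45967 (C_6 L45052 (C_6 L45195 (C_6 L46201 N_6)))) (by decide +kernel)
theorem L46203 : W_6 (nat_lit 11) (nat_lit 0x200010001300098000000000000000000000000000000) (nat_lit 0x0) (nat_lit 0x200014002a000800060003f003fc00f800000000000000000) := Q_6 (nat_lit 107) (C_6 L45167 (C_6 L46197 (C_6 L46202 N_6))) (by decide +kernel)
theorem L46204 : W_6 (nat_lit 2) (nat_lit 0x2000100013800d8000d000f0000000000000000000000) (nat_lit 0x0) (nat_lit 0x8000c000000000000000000000) := D_6 (nat_lit 87) (nat_lit 86) (nat_lit 103) (nat_lit 3) (nat_lit 1) (nat_lit 5) (nat_lit 1) (nat_lit 5) (nat_lit 5) (by decide +kernel)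
theorem L46205 : W_6 (nat_lit 3) (nat_lit 0x2000100013800d8000d000e0000000000000000000000) (nat_lit 0x0) (nat_lit 0x8001c000800000000000000000) := T_6 (nat_lit 88) (nat_lit 71) (nat_lit 4) (nat_lit 4) (nat_lit 8) L46204 (by decide +kernel)
theorem L46206 : W_6 (nat_lit 4) (nat_lit 0x2000100013800d8000c000e0000000000000000000000) (nat_lit 0x0) (nat_lit 0x38001c000800000000000000000) := T_6 (nat_lit 104) (nat_lit 105) (nat_lit 2) (nat_lit 2) (nat_lit 6) L46205 (by decide +kernel)
theorem L46207 : W_6 (nat_lit 5) (nat_lit 0x2000100013800d8000c00060000000000000000000000) (nat_lit 0x0) (nat_lit 0x38009c004800000000000000000) := T_6 (nat_lit 91) (nat_lit 74) (nat_lit 6) (nat_lit 5) (nat_lit 8) L46206 (by decide +kernel)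
theorem L46208 : W_6 (nat_lit 6) (nat_lit 0x2000100013800d8000c00020000000000000000000000) (nat_lit 0x0) (nat_lit 0x3800dc006800000000000000000) := T_6 (nat_lit 90) (nat_lit 73) (nat_lit 6) (nat_lit 4) (nat_lit 8) L46207 (by decide +kernel)
theorem L46209 : W_6 (nat_lit 7) (nat_lit 0x200010001380098000c00020000000000000000000000) (nat_lit 0x0) (nat_lit 0x600003800dc006800000000000000000) := T_6 (nat_lit 126) (nat_lit 125) (nat_lit 1) (nat_lit 7) (nat_lit 7) L46208 (by decide +kernel)
theorem L46210 : W_6 (nat_lit 8) (nat_lit 0x200010001380098000c00000000000000000000000000) (nat_lit 0x0) (nat_lit 0x600003800fc007800000000000000000) := T_6 (nat_lit 89) (nat_lit 72) (nat_lit 7) (nat_lit 4) (nat_lit 4) L46209 (by decide +kernel)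
theorem L46211 : W_6 (nat_lit 4) (nat_lit 0x2000100013800d8000c00020000000000000000000000) (nat_lit 0x0) (nat_lit 0x3000058002800000000000000000) := T_6 (nat_lit 90) (nat_lit 73) (nat_lit 6) (nat_lit 4) (nat_lit 8) L42117 (by decide +kernel)
theorem L46212 : W_6 (nat_lit 5) (nat_lit 0x200010001380098000c00020000000000000000000000) (nat_lit 0x0) (nat_lit 0x60003000058002800000000000000000) := T_6 (nat_lit 126) (nat_lit 125) (nat_lit 1) (nat_lit 7) (nat_lit 7) L46211 (by decide +kernel)
theorem L46213 : W_6 (nat_lit 6) (nat_lit 0x200010001380098000c00000000000000000000000000) (nat_lit 0x0) (nat_lit 0x60003000078003800000000000000000) := T_6 (nat_lit 89) (nat_lit 72) (nat_lit 7) (nat_lit 4) (nat_lit 4) L46212 (by decide +kernel)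
theorem L46214 : W_6 (nat_lit 2) (nat_lit 0x2000100013800dc001e000c0000000000000000000000) (nat_lit 0x0) (nat_lit 0x18000800000000000000000) := D_6 (nat_lit 88) (nat_lit 71) (nat_lit 87) (nat_lit 7) (nat_lit 3) (nat_lit 4) (nat_lit 0) (nat_lit 6) (nat_lit 6) (by decide +kernel)
theorem L46215 : W_6 (nat_lit 3) (nat_lit 0x2000100013800dc001c000c0000000000000000000000) (nat_lit 0x0) (nat_lit 0x300018000800000000000000000) := T_6 (nat_lit 105) (nat_lit 104) (nat_lit 2) (nat_lit 2) (nat_lit 6) L46214 (by decide +kernel)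
theorem L46216 : W_6 (nat_lit 4) (nat_lit 0x2000100013800dc001c00040000000000000000000000) (nat_lit 0x0) (nat_lit 0x300098004800000000000000000) := T_6 (nat_lit 91) (nat_lit 74) (nat_lit 6) (nat_lit 5) (nat_lit 8) L46215 (by decide +kernel)
theorem L46217 : W_6 (nat_lit 5) (nat_lit 0x2000100013800dc001c00000000000000000000000000) (nat_lit 0x0) (nat_lit 0x3000d8006800000000000000000) := T_6 (nat_lit 90) (nat_lit 73) (nat_lit 5) (nat_lit 5) (nat_lit 4) L46216 (by decide +kernel)
theorem L46218 : W_6 (nat_lit 6) (nat_lit 0x2000100013800d8001c00000000000000000000000000) (nat_lit 0x0) (nat_lit 0x60003000d8006800000000000000000) := T_6 (nat_lit 122) (nat_lit 121) (nat_lit 2) (nat_lit 2) (nat_lit 7) L46217 (by decide +kernel)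
theorem L46219 : W_6 (nat_lit 7) (nat_lit 0x2000100013800d8000c00000000000000000000000000) (nat_lit 0x0) (nat_lit 0x60033000d8006800000000000000000) := T_6 (nat_lit 108) (nat_lit 109) (nat_lit 3) (nat_lit 4) (nat_lit 6) L46218 (by decide +kernel)
theorem L46220 : W_6 (nat_lit 8) (nat_lit 0x200010001380098000c00000000000000000000000000) (nat_lit 0x0) (nat_lit 0x660033000d8006800000000000000000) := T_6 (nat_lit 126) (nat_lit 125) (nat_lit 1) (nat_lit 7) (nat_lit 7) L46219 (by decide +kernel)
theorem L46221 : W_6 (nat_lit 2) (nat_lit 0x2000100013800be000400000001000000000000000000) (nat_lit 0x0) (nat_lit 0x380000000000000000000000000) := D_6 (nat_lit 104) (nat_lit 103) (nat_lit 105) (nat_lit 0) (nat_lit 5) (nat_lit 7) (nat_lit 0) (nat_lit 6) (nat_lit 7) (by decide +kernel)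
theorem L46222 : W_6 (nat_lit 3) (nat_lit 0x20001000138009e000400000001000000000000000000) (nat_lit 0x0) (nat_lit 0x60000380000000000000000000000000) := T_6 (nat_lit 125) (nat_lit 126) (nat_lit 1) (nat_lit 7) (nat_lit 7) L46221 (by decide +kernel)
theorem L46223 : W_6 (nat_lit 4) (nat_lit 0x20001000138009c000400000001000000000000000000) (nat_lit 0x0) (nat_lit 0x63000380000000000000000000000000) := T_6 (nat_lit 121) (nat_lit 120) (nat_lit 3) (nat_lit 1) (nat_lit 7) L46222 (by decide +kernel)
theorem L46224 : W_6 (nat_lit 5) (nat_lit 0x20001000138009c000400000000000000000000000000) (nat_lit 0x0) (nat_lit 0x63000380020001000000000000000000) := T_6 (nat_lit 72) (nat_lit 89) (nat_lit 7) (nat_lit 4) (nat_lit 4) L46223 (by decide +kernel)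
theorem L46225 : W_6 (nat_lit 2) (nat_lit 0x20001000138009e000d00040001000000000000000000) (nat_lit 0x0) (nat_lit 0x200080004000000000000000000) := D_6 (nat_lit 91) (nat_lit 74) (nat_lit 105) (nat_lit 6) (nat_lit 5) (nat_lit 8) (nat_lit 2) (nat_lit 2) (nat_lit 6) (by decide +kernel)
theorem L46226 : W_6 (nat_lit 3) (nat_lit 0x20001000138009e000c00040001000000000000000000) (nat_lit 0x0) (nat_lit 0x380080004000000000000000000) := T_6 (nat_lit 104) (nat_lit 103) (nat_lit 0) (nat_lit 5) (nat_lit 7) L46225 (by decide +kernel)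
theorem L46227 : W_6 (nat_lit 4) (nat_lit 0x20001000138009e000c00000001000000000000000000) (nat_lit 0x0) (nat_lit 0x3800c0006000000000000000000) := T_6 (nat_lit 90) (nat_lit 73) (nat_lit 5) (nat_lit 5) (nat_lit 4) L46226 (by decide +kernel)
theorem L46228 : W_6 (nat_lit 5) (nat_lit 0x20001000138009e000400000001000000000000000000) (nat_lit 0x0) (nat_lit 0x1b800c0006000000000000000000) := T_6 (nat_lit 107) (nat_lit 108) (nat_lit 2) (nat_lit 2) (nat_lit 7) L46227 (by decide +kernel)
theorem L46229 : W_6 (nat_lit 6) (nat_lit 0x20001000138009c000400000001000000000000000000) (nat_lit 0x0) (nat_lit 0x3001b800c0006000000000000000000) := T_6 (nat_lit 121) (nat_lit 120) (nat_lit 3) (nat_lit 1) (nat_lit 7) L46228 (by decide +kernel)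
theorem L46230 : W_6 (nat_lit 7) (nat_lit 0x20001000138009c000400000000000000000000000000) (nat_lit 0x0) (nat_lit 0x3001b800e0007000000000000000000) := T_6 (nat_lit 72) (nat_lit 89) (nat_lit 7) (nat_lit 4) (nat_lit 4) L46229 (by decide +kernel)
theorem L46231 : W_6 (nat_lit 7) (nat_lit 0x2000100013800de000400000000000000000000000000) (nat_lit 0x0) (nat_lit 0x198007c003c00000000000000000) := T_6 (nat_lit 89) (nat_lit 72) (nat_lit 7) (nat_lit 4) (nat_lit 4) L45718 (by decide +kernel)
theorem L46232 : W_6 (nat_lit 8) (nat_lit 0x2000100013800dc000400000000000000000000000000) (nat_lit 0x0) (nat_lit 0x300198007c003c00000000000000000) := T_6 (nat_lit 121) (nat_lit 120) (nat_lit 3) (nat_lit 1) (nat_lit 7) L46231 (by decide +kernel)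
theorem L46233 : W_6 (nat_lit 9) (nat_lit 0x20001000138009c000400000000000000000000000000) (nat_lit 0x0) (nat_lit 0x6300198007c003c00000000000000000) := T_6 (nat_lit 126) (nat_lit 125) (nat_lit 1) (nat_lit 7) (nat_lit 7) L46232 (by decide +kernel)
theorem L46234 : W_6 (nat_lit 10) (nat_lit 0x200010001380098000400000000000000000000000000) (nat_lit 0x0) (nat_lit 0x67003b800fc007e00000000000000000) := Q_6 (nat_lit 122) (C_6 L45208 (C_6 L46224 (C_6 L46230 (C_6 L44958 (C_6 L46233 N_6))))) (by decide +kernel)
theorem L46235 : W_6 (nat_lit 2) (nat_lit 0x2000100013800de000d001e0000000000000000000000) (nat_lit 0x0) (nat_lit 0x2000000018000000000000000000) := D_6 (nat_lit 75) (nat_lit 76) (nat_lit 109) (nat_lit 2) (nat_lit 4) (nat_lit 5) (nat_lit 7) (nat_lit 7) (nat_lit 4) (by decide +kernel)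
theorem L46236 : W_6 (nat_lit 3) (nat_lit 0x2000100013800de000d000e0000000000000000000000) (nat_lit 0x0) (nat_lit 0x2000300018000000000000000000) := T_6 (nat_lit 92) (nat_lit 93) (nat_lit 1) (nat_lit 8) (nat_lit 5) L46235 (by decide +kernel)
theorem L46237 : W_6 (nat_lit 4) (nat_lit 0x2000100013800de000d00060000000000000000000000) (nat_lit 0x0) (nat_lit 0x200038001c000000000000000000) := T_6 (nat_lit 91) (nat_lit 74) (nat_lit 6) (nat_lit 5) (nat_lit 8) L46236 (by decide +kernel)
theorem L46238 : W_6 (nat_lit 5) (nat_lit 0x2000100013800de000c00060000000000000000000000) (nat_lit 0x0) (nat_lit 0x218038001c000000000000000000) := T_6 (nat_lit 104) (nat_lit 103) (nat_lit 0) (nat_lit 5) (nat_lit 7) L46237 (by decide +kernel)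
theorem L46239 : W_6 (nat_lit 6) (nat_lit 0x2000100013800de000c00020000000000000000000000) (nat_lit 0x0) (nat_lit 0x21803c001e000000000000000000) := T_6 (nat_lit 90) (nat_lit 73) (nat_lit 6) (nat_lit 4) (nat_lit 8) L46238 (by decide +kernel)
theorem L46240 : W_6 (nat_lit 7) (nat_lit 0x2000100013800de000400020000000000000000000000) (nat_lit 0x0) (nat_lit 0x39803c001e000000000000000000) := T_6 (nat_lit 107) (nat_lit 108) (nat_lit 2) (nat_lit 2) (nat_lit 7) L46239 (by decide +kernel)
theorem L46241 : W_6 (nat_lit 8) (nat_lit 0x2000100013800de000400000000000000000000000000) (nat_lit 0x0) (nat_lit 0x39803e001f000000000000000000) := T_6 (nat_lit 89) (nat_lit 72) (nat_lit 7) (nat_lit 4) (nat_lit 4) L46240 (by decide +kernel)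
theorem L46242 : W_6 (nat_lit 9) (nat_lit 0x2000100013800dc000400000000000000000000000000) (nat_lit 0x0) (nat_lit 0x30039803e001f000000000000000000) := T_6 (nat_lit 121) (nat_lit 120) (nat_lit 3) (nat_lit 1) (nat_lit 7) L46241 (by decide +kernel)
theorem L46243 : W_6 (nat_lit 10) (nat_lit 0x20001000138009c000400000000000000000000000000) (nat_lit 0x0) (nat_lit 0x630039803e001f000000000000000000) := T_6 (nat_lit 126) (nat_lit 125) (nat_lit 1) (nat_lit 7) (nat_lit 7) L46242 (by decide +kernel)
theorem L46244 : W_6 (nat_lit 2) (nat_lit 0x2000100013800bd0014003e0000000000000000000000) (nat_lit 0x0) (nat_lit 0x38000000000000000000) := D_6 (nat_lit 76) (nat_lit 75) (nat_lit 77) (nat_lit 2) (nat_lit 4) (nat_lit 5) (nat_lit 2) (nat_lit 5) (nat_lit 5) (by decide +kernel)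
theorem L46245 : W_6 (nat_lit 3) (nat_lit 0x2000100013800bd0014001e0000000000000000000000) (nat_lit 0x0) (nat_lit 0x800200038000000000000000000) := T_6 (nat_lit 93) (nat_lit 107) (nat_lit 1) (nat_lit 8) (nat_lit 5) L46244 (by decide +kernel)
theorem L46246 : W_6 (nat_lit 4) (nat_lit 0x2000100013800bd0014000e0000000000000000000000) (nat_lit 0x0) (nat_lit 0xa00300038000000000000000000) := T_6 (nat_lit 92) (nat_lit 105) (nat_lit 1) (nat_lit 7) (nat_lit 5) L46245 (by decide +kernel)
theorem L46247 : W_6 (nat_lit 5) (nat_lit 0x2000100013800bd001400060000000000000000000000) (nat_lit 0x0) (nat_lit 0xa0038003c000000000000000000) := T_6 (nat_lit 91) (nat_lit 74) (nat_lit 5) (nat_lit 6) (nat_lit 4) L46246 (by decide +kernel)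
theorem L46248 : W_6 (nat_lit 6) (nat_lit 0x2000100013800bd000400060000000000000000000000) (nat_lit 0x0) (nat_lit 0x3a0038003c000000000000000000) := T_6 (nat_lit 108) (nat_lit 109) (nat_lit 2) (nat_lit 3) (nat_lit 7) L46247 (by decide +kernel)
theorem L46249 : W_6 (nat_lit 7) (nat_lit 0x2000100013800bd000400020000000000000000000000) (nat_lit 0x0) (nat_lit 0x3a003c003e000000000000000000) := T_6 (nat_lit 90) (nat_lit 73) (nat_lit 6) (nat_lit 4) (nat_lit 8) L46248 (by decide +kernel)
theorem L46250 : W_6 (nat_lit 8) (nat_lit 0x20001000138009d000400020000000000000000000000) (nat_lit 0x0) (nat_lit 0x60003a003c003e000000000000000000) := T_6 (nat_lit 125) (nat_lit 126) (nat_lit 1) (nat_lit 7) (nat_lit 7) L46249 (by decide +kernel)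
theorem L46251 : W_6 (nat_lit 9) (nat_lit 0x20001000138009d000400000000000000000000000000) (nat_lit 0x0) (nat_lit 0x60003a003e003f000000000000000000) := T_6 (nat_lit 89) (nat_lit 72) (nat_lit 7) (nat_lit 4) (nat_lit 4) L46250 (by decide +kernel)
theorem L46252 : W_6 (nat_lit 10) (nat_lit 0x20001000138009c000400000000000000000000000000) (nat_lit 0x0) (nat_lit 0x63003a003e003f000000000000000000) := T_6 (nat_lit 120) (nat_lit 121) (nat_lit 3) (nat_lit 1) (nat_lit 7) L46251 (by decide +kernel)
theorem L46253 : W_6 (nat_lit 11) (nat_lit 0x200010001380098000400000000000000000000000000) (nat_lit 0x0) (nat_lit 0x67003b803e003f000000000000000000) := Q_6 (nat_lit 122) (C_6 L46230 (C_6 L46224 (C_6 L44804 (C_6 L46243 (C_6 L45208 (C_6 L46252 N_6)))))) (by decide +kernel)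
theorem L46254 : W_6 (nat_lit 2) (nat_lit 0x2000100013800d8000c002f0000000000000000000000) (nat_lit 0x0) (nat_lit 0x100000c000000000000000000000) := D_6 (nat_lit 87) (nat_lit 108) (nat_lit 86) (nat_lit 3) (nat_lit 2) (nat_lit 5) (nat_lit 3) (nat_lit 1) (nat_lit 5) (by decide +kernel)
theorem L46255 : W_6 (nat_lit 3) (nat_lit 0x2000100013800d8000c002e0000000000000000000000) (nat_lit 0x0) (nat_lit 0x100001c000800000000000000000) := T_6 (nat_lit 88) (nat_lit 71) (nat_lit 4) (nat_lit 4) (nat_lit 8) L46254 (by decide +kernel)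
theorem L46256 : W_6 (nat_lit 4) (nat_lit 0x2000100013800d8000c000e0000000000000000000000) (nat_lit 0x0) (nat_lit 0x100031c000800000000000000000) := T_6 (nat_lit 93) (nat_lit 92) (nat_lit 1) (nat_lit 8) (nat_lit 5) L46255 (by decide +kernel)
theorem L46257 : W_6 (nat_lit 5) (nat_lit 0x2000100013800d8000c00060000000000000000000000) (nat_lit 0x0) (nat_lit 0x100039c004800000000000000000) := T_6 (nat_lit 91) (nat_lit 74) (nat_lit 6) (nat_lit 5) (nat_lit 8) L46256 (by decide +kernel)
theorem L46258 : W_6 (nat_lit 6) (nat_lit 0x2000100013800d8000c00040000000000000000000000) (nat_lit 0x0) (nat_lit 0x10003bc005800000000000000000) := T_6 (nat_lit 89) (nat_lit 72) (nat_lit 7) (nat_lit 4) (nat_lit 4) L46257 (by decide +kernel)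
theorem L46259 : W_6 (nat_lit 7) (nat_lit 0x2000100013800d8000c00000000000000000000000000) (nat_lit 0x0) (nat_lit 0x10003fc007800000000000000000) := T_6 (nat_lit 90) (nat_lit 73) (nat_lit 5) (nat_lit 5) (nat_lit 4) L46258 (by decide +kernel)
theorem L46260 : W_6 (nat_lit 8) (nat_lit 0x200010001380098000c00000000000000000000000000) (nat_lit 0x0) (nat_lit 0x600010003fc007800000000000000000) := T_6 (nat_lit 126) (nat_lit 125) (nat_lit 1) (nat_lit 7) (nat_lit 7) L46259 (by decide +kernel)
theorem L46261 : W_6 (nat_lit 2) (nat_lit 0x2000100013800b8000c00038000000000000000000000) (nat_lit 0x0) (nat_lit 0x1300000000000000000000000000) := D_6 (nat_lit 105) (nat_lit 104) (nat_lit 108) (nat_lit 3) (nat_lit 2) (nat_lit 6) (nat_lit 0) (nat_lit 6) (nat_lit 6) (by decide +kernel)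
theorem L46262 : W_6 (nat_lit 3) (nat_lit 0x2000100013800b8000c00030000000000000000000000) (nat_lit 0x0) (nat_lit 0x130000c000000000000000000000) := T_6 (nat_lit 87) (nat_lit 86) (nat_lit 3) (nat_lit 1) (nat_lit 5) L46261 (by decide +kernel)
theorem L46263 : W_6 (nat_lit 4) (nat_lit 0x2000100013800b8000c00020000000000000000000000) (nat_lit 0x0) (nat_lit 0x130001c000800000000000000000) := T_6 (nat_lit 88) (nat_lit 71) (nat_lit 4) (nat_lit 4) (nat_lit 8) L46262 (by decide +kernel)
theorem L46264 : W_6 (nat_lit 5) (nat_lit 0x200010001380098000c00020000000000000000000000) (nat_lit 0x0) (nat_lit 0x6000130001c000800000000000000000) := T_6 (nat_lit 125) (nat_lit 126) (nat_lit 1) (nat_lit 7) (nat_lit 7) L46263 (by decide +kernel)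
theorem L46265 : W_6 (nat_lit 6) (nat_lit 0x200010001380098000c00000000000000000000000000) (nat_lit 0x0) (nat_lit 0x6000130003c001800000000000000000) := T_6 (nat_lit 89) (nat_lit 72) (nat_lit 7) (nat_lit 4) (nat_lit 4) L46264 (by decide +kernel)
theorem L46266 : W_6 (nat_lit 9) (nat_lit 0x200010001380098000400000000000000000000000000) (nat_lit 0x0) (nat_lit 0x60001b803fc007800000000000000000) := Q_6 (nat_lit 107) (C_6 L46210 (C_6 L45571 (C_6 L46260 (C_6 L46265 N_6)))) (by decide +kernel)
theorem L46267 : W_6 (nat_lit 2) (nat_lit 0x20001000138009c000600070000000000000000000000) (nat_lit 0x0) (nat_lit 0x180080000000000000000000000) := D_6 (nat_lit 104) (nat_lit 103) (nat_lit 91) (nat_lit 3) (nat_lit 1) (nat_lit 6) (nat_lit 1) (nat_lit 6) (nat_lit 5) (by decide +kernel)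
theorem L46268 : W_6 (nat_lit 3) (nat_lit 0x20001000138009c000600030000000000000000000000) (nat_lit 0x0) (nat_lit 0x1800c0002000000000000000000) := T_6 (nat_lit 90) (nat_lit 73) (nat_lit 6) (nat_lit 4) (nat_lit 8) L46267 (by decide +kernel)
theorem L46269 : W_6 (nat_lit 4) (nat_lit 0x20001000138009c000600020000000000000000000000) (nat_lit 0x0) (nat_lit 0x1800d0002800000000000000000) := T_6 (nat_lit 88) (nat_lit 71) (nat_lit 7) (nat_lit 3) (nat_lit 4) L46268 (by decide +kernel)
theorem L46270 : W_6 (nat_lit 5) (nat_lit 0x20001000138009c000600000000000000000000000000) (nat_lit 0x0) (nat_lit 0x1800f0003800000000000000000) := T_6 (nat_lit 89) (nat_lit 72) (nat_lit 7) (nat_lit 4) (nat_lit 4) L46269 (by decide +kernel)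
theorem L46271 : W_6 (nat_lit 2) (nat_lit 0x20001000138009c000700018000000000000000000000) (nat_lit 0x0) (nat_lit 0x800006000000000000000000000) := D_6 (nat_lit 86) (nat_lit 85) (nat_lit 107) (nat_lit 3) (nat_lit 0) (nat_lit 5) (nat_lit 0) (nat_lit 5) (nat_lit 6) (by decide +kernel)
theorem L46272 : W_6 (nat_lit 3) (nat_lit 0x20001000138009c000700010000000000000000000000) (nat_lit 0x0) (nat_lit 0x80000e000400000000000000000) := T_6 (nat_lit 87) (nat_lit 70) (nat_lit 4) (nat_lit 3) (nat_lit 8) L46271 (by decide +kernel)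
theorem L46273 : W_6 (nat_lit 4) (nat_lit 0x20001000138009c000600010000000000000000000000) (nat_lit 0x0) (nat_lit 0x98000e000400000000000000000) := T_6 (nat_lit 104) (nat_lit 103) (nat_lit 3) (nat_lit 1) (nat_lit 6) L46272 (by decide +kernel)
theorem L46274 : W_6 (nat_lit 5) (nat_lit 0x20001000138009c000600000000000000000000000000) (nat_lit 0x0) (nat_lit 0x98001e000c00000000000000000) := T_6 (nat_lit 88) (nat_lit 71) (nat_lit 7) (nat_lit 3) (nat_lit 4) L46273 (by decide +kernel)
theorem L46275 : W_6 (nat_lit 2) (nat_lit 0x20001000138009c000e800e0000000000000000000000) (nat_lit 0x0) (nat_lit 0x2003000000000000000000000000000) := D_6 (nat_lit 108) (nat_lit 121) (nat_lit 109) (nat_lit 2) (nat_lit 2) (nat_lit 7) (nat_lit 1) (nat_lit 7) (nat_lit 6) (by decide +kernel)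
theorem L46276 : W_6 (nat_lit 3) (nat_lit 0x20001000138009c0006800e0000000000000000000000) (nat_lit 0x0) (nat_lit 0x2003800000004000000000000000000) := T_6 (nat_lit 107) (nat_lit 74) (nat_lit 6) (nat_lit 5) (nat_lit 8) L46275 (by decide +kernel)
theorem L46277 : W_6 (nat_lit 4) (nat_lit 0x20001000138009c000680060000000000000000000000) (nat_lit 0x0) (nat_lit 0x2003800180004000000000000000000) := T_6 (nat_lit 91) (nat_lit 92) (nat_lit 1) (nat_lit 7) (nat_lit 5) L46276 (by decide +kernel)
theorem L46278 : W_6 (nat_lit 5) (nat_lit 0x20001000138009c000680020000000000000000000000) (nat_lit 0x0) (nat_lit 0x20038001c0006000000000000000000) := T_6 (nat_lit 90) (nat_lit 73) (nat_lit 6) (nat_lit 4) (nat_lit 8) L46277 (by decide +kernel)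
theorem L46279 : W_6 (nat_lit 6) (nat_lit 0x20001000138009c000600020000000000000000000000) (nat_lit 0x0) (nat_lit 0x20039801c0006000000000000000000) := T_6 (nat_lit 103) (nat_lit 104) (nat_lit 3) (nat_lit 1) (nat_lit 6) L46278 (by decide +kernel)
theorem L46280 : W_6 (nat_lit 7) (nat_lit 0x20001000138009c000600000000000000000000000000) (nat_lit 0x0) (nat_lit 0x20039801e0007000000000000000000) := T_6 (nat_lit 89) (nat_lit 72) (nat_lit 7) (nat_lit 4) (nat_lit 4) L46279 (by decide +kernel)
theorem L46281 : W_6 (nat_lit 8) (nat_lit 0x20001000138009c000400000000000000000000000000) (nat_lit 0x0) (nat_lit 0x2003b801fe007c00000000000000000) := Q_6 (nat_lit 105) (C_6 L46270 (C_6 L44928 (C_6 L46274 (C_6 L46280 (C_6 L44934 N_6))))) (by decide +kernel)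
theorem L46282 : W_6 (nat_lit 2) (nat_lit 0x20001000138009e0025000f0008000000000000000000) (nat_lit 0x0) (nat_lit 0x40000000100010000000000000000000) := D_6 (nat_lit 92) (nat_lit 76) (nat_lit 126) (nat_lit 2) (nat_lit 4) (nat_lit 5) (nat_lit 7) (nat_lit 7) (nat_lit 4) (by decide +kernel)
theorem L46283 : W_6 (nat_lit 3) (nat_lit 0x20001000138009e0005000f0008000000000000000000) (nat_lit 0x0) (nat_lit 0x40003000100010000000000000000000) := T_6 (nat_lit 109) (nat_lit 108) (nat_lit 3) (nat_lit 3) (nat_lit 5) L46282 (by decide +kernel)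
theorem L46284 : W_6 (nat_lit 4) (nat_lit 0x20001000138009e0005000f0000000000000000000000) (nat_lit 0x0) (nat_lit 0x4000300010001c000000000000000000) := T_6 (nat_lit 75) (nat_lit 74) (nat_lit 2) (nat_lit 3) (nat_lit 5) L46283 (by decide +kernel)
theorem L46285 : W_6 (nat_lit 5) (nat_lit 0x20001000138009e000500070000000000000000000000) (nat_lit 0x0) (nat_lit 0x4000320018001c000000000000000000) := T_6 (nat_lit 91) (nat_lit 105) (nat_lit 1) (nat_lit 6) (nat_lit 5) L46284 (by decide +kernel)
theorem L46286 : W_6 (nat_lit 6) (nat_lit 0x20001000138009e000500060000000000000000000000) (nat_lit 0x0) (nat_lit 0x4000320019001c800000000000000000) := T_6 (nat_lit 88) (nat_lit 71) (nat_lit 4) (nat_lit 4) (nat_lit 8) L46285 (by decide +kernel)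
theorem L46287 : W_6 (nat_lit 7) (nat_lit 0x20001000138009e000400060000000000000000000000) (nat_lit 0x0) (nat_lit 0x4000338019001c800000000000000000) := T_6 (nat_lit 104) (nat_lit 103) (nat_lit 0) (nat_lit 5) (nat_lit 7) L46286 (by decide +kernel)
theorem L46288 : W_6 (nat_lit 8) (nat_lit 0x20001000138009e000400020000000000000000000000) (nat_lit 0x0) (nat_lit 0x400033801d001e800000000000000000) := T_6 (nat_lit 90) (nat_lit 73) (nat_lit 6) (nat_lit 4) (nat_lit 8) L46287 (by decide +kernel)
theorem L46289 : W_6 (nat_lit 9) (nat_lit 0x20001000138009c000400020000000000000000000000) (nat_lit 0x0) (nat_lit 0x430033801d001e800000000000000000) := T_6 (nat_lit 121) (nat_lit 120) (nat_lit 3) (nat_lit 1) (nat_lit 7) L46288 (by decide +kernel)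
theorem L46290 : W_6 (nat_lit 10) (nat_lit 0x20001000138009c000400000000000000000000000000) (nat_lit 0x0) (nat_lit 0x430033801f001f800000000000000000) := T_6 (nat_lit 89) (nat_lit 72) (nat_lit 7) (nat_lit 4) (nat_lit 4) L46289 (by decide +kernel)
theorem L46291 : W_6 (nat_lit 2) (nat_lit 0x20001000138009e0005000f0000000000000000000000) (nat_lit 0x0) (nat_lit 0x80000000c000000000000000000) := D_6 (nat_lit 74) (nat_lit 107) (nat_lit 75) (nat_lit 6) (nat_lit 5) (nat_lit 8) (nat_lit 2) (nat_lit 3) (nat_lit 5) (by decide +kernel)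
theorem L46292 : W_6 (nat_lit 3) (nat_lit 0x20001000138009e000500070000000000000000000000) (nat_lit 0x0) (nat_lit 0xa0008000c000000000000000000) := T_6 (nat_lit 91) (nat_lit 105) (nat_lit 1) (nat_lit 6) (nat_lit 5) L46291 (by decide +kernel)
theorem L46293 : W_6 (nat_lit 4) (nat_lit 0x20001000138009e000500060000000000000000000000) (nat_lit 0x0) (nat_lit 0xa0009000c800000000000000000) := T_6 (nat_lit 88) (nat_lit 71) (nat_lit 4) (nat_lit 4) (nat_lit 8) L46292 (by decide +kernel)
theorem L46294 : W_6 (nat_lit 5) (nat_lit 0x20001000138009e000400060000000000000000000000) (nat_lit 0x0) (nat_lit 0xb8009000c800000000000000000) := T_6 (nat_lit 104) (nat_lit 103) (nat_lit 0) (nat_lit 5) (nat_lit 7) L46293 (by decide +kernel)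
theorem L46295 : W_6 (nat_lit 6) (nat_lit 0x20001000138009e000400020000000000000000000000) (nat_lit 0x0) (nat_lit 0xb800d000e800000000000000000) := T_6 (nat_lit 90) (nat_lit 73) (nat_lit 6) (nat_lit 4) (nat_lit 8) L46294 (by decide +kernel)
theorem L46296 : W_6 (nat_lit 7) (nat_lit 0x20001000138009c000400020000000000000000000000) (nat_lit 0x0) (nat_lit 0x3000b800d000e800000000000000000) := T_6 (nat_lit 121) (nat_lit 120) (nat_lit 3) (nat_lit 1) (nat_lit 7) L46295 (by decide +kernel)
theorem L46297 : W_6 (nat_lit 8) (nat_lit 0x20001000138009c000400000000000000000000000000) (nat_lit 0x0) (nat_lit 0x3000b800f000f800000000000000000) := T_6 (nat_lit 89) (nat_lit 72) (nat_lit 7) (nat_lit 4) (nat_lit 4) L46296 (by decide +kernel)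
theorem L46298 : W_6 (nat_lit 2) (nat_lit 0x20001000138009c000700060000000000000000000000) (nat_lit 0x0) (nat_lit 0x800180000000000000000000000) := D_6 (nat_lit 91) (nat_lit 107) (nat_lit 92) (nat_lit 2) (nat_lit 2) (nat_lit 6) (nat_lit 1) (nat_lit 7) (nat_lit 5) (by decide +kernel)
theorem L46299 : W_6 (nat_lit 3) (nat_lit 0x20001000138009c000700020000000000000000000000) (nat_lit 0x0) (nat_lit 0x8001c0002000000000000000000) := T_6 (nat_lit 90) (nat_lit 73) (nat_lit 6) (nat_lit 4) (nat_lit 8) L46298 (by decide +kernel)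
theorem L46300 : W_6 (nat_lit 4) (nat_lit 0x20001000138009c000600020000000000000000000000) (nat_lit 0x0) (nat_lit 0x9801c0002000000000000000000) := T_6 (nat_lit 104) (nat_lit 103) (nat_lit 3) (nat_lit 1) (nat_lit 6) L46299 (by decide +kernel)
theorem L46301 : W_6 (nat_lit 5) (nat_lit 0x20001000138009c000600000000000000000000000000) (nat_lit 0x0) (nat_lit 0x9801e0003000000000000000000) := T_6 (nat_lit 89) (nat_lit 72) (nat_lit 7) (nat_lit 4) (nat_lit 4) L46300 (by decide +kernel)
theorem L46302 : W_6 (nat_lit 4) (nat_lit 0x20001000138009c000600070000000000000000000000) (nat_lit 0x0) (nat_lit 0x180018c000400000000000000000) := T_6 (nat_lit 92) (nat_lit 91) (nat_lit 1) (nat_lit 7) (nat_lit 5) L43808 (by decide +kernel)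
theorem L46303 : W_6 (nat_lit 5) (nat_lit 0x20001000138009c000600030000000000000000000000) (nat_lit 0x0) (nat_lit 0x18001cc002400000000000000000) := T_6 (nat_lit 90) (nat_lit 73) (nat_lit 6) (nat_lit 4) (nat_lit 8) L46302 (by decide +kernel)
theorem L46304 : W_6 (nat_lit 6) (nat_lit 0x20001000138009c000600020000000000000000000000) (nat_lit 0x0) (nat_lit 0x18001dc002c00000000000000000) := T_6 (nat_lit 88) (nat_lit 71) (nat_lit 7) (nat_lit 3) (nat_lit 4) L46303 (by decide +kernel)
theorem L46305 : W_6 (nat_lit 7) (nat_lit 0x20001000138009c000600000000000000000000000000) (nat_lit 0x0) (nat_lit 0x18001fc003c00000000000000000) := T_6 (nat_lit 89) (nat_lit 72) (nat_lit 7) (nat_lit 4) (nat_lit 4) L46304 (by decide +kernel)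
theorem L46306 : W_6 (nat_lit 8) (nat_lit 0x20001000138009c000400000000000000000000000000) (nat_lit 0x0) (nat_lit 0x1b801fe003c00000000000000000) := Q_6 (nat_lit 105) (C_6 L46270 (C_6 L46274 (C_6 L46301 (C_6 L46305 N_6)))) (by decide +kernel)
theorem L46307 : W_6 (nat_lit 2) (nat_lit 0x20001000138009e000d002e8000000000000000000000) (nat_lit 0x0) (nat_lit 0x14000800000000000000000) := D_6 (nat_lit 88) (nat_lit 71) (nat_lit 86) (nat_lit 4) (nat_lit 4) (nat_lit 8) (nat_lit 3) (nat_lit 1) (nat_lit 5) (by decide +kernel)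
theorem L46308 : W_6 (nat_lit 3) (nat_lit 0x20001000138009e000d002e0000000000000000000000) (nat_lit 0x0) (nat_lit 0x1c000c00000000000000000) := T_6 (nat_lit 87) (nat_lit 70) (nat_lit 7) (nat_lit 2) (nat_lit 4) L46307 (by decide +kernel)
theorem L46309 : W_6 (nat_lit 4) (nat_lit 0x20001000138009e000d000e0000000000000000000000) (nat_lit 0x0) (nat_lit 0x31c000c00000000000000000) := T_6 (nat_lit 93) (nat_lit 92) (nat_lit 1) (nat_lit 8) (nat_lit 5) L46308 (by decide +kernel)
theorem L46310 : W_6 (nat_lit 5) (nat_lit 0x20001000138009e000d00060000000000000000000000) (nat_lit 0x0) (nat_lit 0x39c004c00000000000000000) := T_6 (nat_lit 91) (nat_lit 74) (nat_lit 6) (nat_lit 5) (nat_lit 8) L46309 (by decide +kernel)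
theorem L46311 : W_6 (nat_lit 6) (nat_lit 0x20001000138009e000500060000000000000000000000) (nat_lit 0x0) (nat_lit 0x180039c004c00000000000000000) := T_6 (nat_lit 107) (nat_lit 108) (nat_lit 2) (nat_lit 2) (nat_lit 7) L46310 (by decide +kernel)
theorem L46312 : W_6 (nat_lit 7) (nat_lit 0x20001000138009e000400060000000000000000000000) (nat_lit 0x0) (nat_lit 0x198039c004c00000000000000000) := T_6 (nat_lit 104) (nat_lit 103) (nat_lit 0) (nat_lit 5) (nat_lit 7) L46311 (by decide +kernel)
theorem L46313 : W_6 (nat_lit 8) (nat_lit 0x20001000138009e000400020000000000000000000000) (nat_lit 0x0) (nat_lit 0x19803dc006c00000000000000000) := T_6 (nat_lit 90) (nat_lit 73) (nat_lit 6) (nat_lit 4) (nat_lit 8) L46312 (by decide +kernel)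
theorem L46314 : W_6 (nat_lit 9) (nat_lit 0x20001000138009c000400020000000000000000000000) (nat_lit 0x0) (nat_lit 0x30019803dc006c00000000000000000) := T_6 (nat_lit 121) (nat_lit 120) (nat_lit 3) (nat_lit 1) (nat_lit 7) L46313 (by decide +kernel)
theorem L46315 : W_6 (nat_lit 10) (nat_lit 0x20001000138009c000400000000000000000000000000) (nat_lit 0x0) (nat_lit 0x30019803fc007c00000000000000000) := T_6 (nat_lit 89) (nat_lit 72) (nat_lit 7) (nat_lit 4) (nat_lit 4) L46314 (by decide +kernel)
theorem L46316 : W_6 (nat_lit 2) (nat_lit 0x20001000138009e000d00030000000000000000000000) (nat_lit 0x0) (nat_lit 0xc000400000000000000000) := D_6 (nat_lit 87) (nat_lit 86) (nat_lit 70) (nat_lit 3) (nat_lit 1) (nat_lit 5) (nat_lit 7) (nat_lit 2) (nat_lit 4) (by decide +kernel)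
theorem L46317 : W_6 (nat_lit 3) (nat_lit 0x20001000138009e000500030000000000000000000000) (nat_lit 0x0) (nat_lit 0x180000c000400000000000000000) := T_6 (nat_lit 107) (nat_lit 108) (nat_lit 2) (nat_lit 2) (nat_lit 7) L46316 (by decide +kernel)
theorem L46318 : W_6 (nat_lit 4) (nat_lit 0x20001000138009e000400030000000000000000000000) (nat_lit 0x0) (nat_lit 0x198000c000400000000000000000) := T_6 (nat_lit 104) (nat_lit 103) (nat_lit 0) (nat_lit 5) (nat_lit 7) L46317 (by decide +kernel)
theorem L46319 : W_6 (nat_lit 5) (nat_lit 0x20001000138009e000400020000000000000000000000) (nat_lit 0x0) (nat_lit 0x198001c000c00000000000000000) := T_6 (nat_lit 88) (nat_lit 71) (nat_lit 4) (nat_lit 4) (nat_lit 8) L46318 (by decide +kernel)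
theorem L46320 : W_6 (nat_lit 6) (nat_lit 0x20001000138009c000400020000000000000000000000) (nat_lit 0x0) (nat_lit 0x300198001c000c00000000000000000) := T_6 (nat_lit 121) (nat_lit 120) (nat_lit 3) (nat_lit 1) (nat_lit 7) L46319 (by decide +kernel)
theorem L46321 : W_6 (nat_lit 7) (nat_lit 0x20001000138009c000400000000000000000000000000) (nat_lit 0x0) (nat_lit 0x300198003c001c00000000000000000) := T_6 (nat_lit 89) (nat_lit 72) (nat_lit 7) (nat_lit 4) (nat_lit 4) L46320 (by decide +kernel)
theorem L46322 : W_6 (nat_lit 2) (nat_lit 0x20001000138009e000d00040000000000000000000000) (nat_lit 0x0) (nat_lit 0x200080004000000000000000000) := D_6 (nat_lit 91) (nat_lit 74) (nat_lit 105) (nat_lit 6) (nat_lit 5) (nat_lit 8) (nat_lit 2) (nat_lit 2) (nat_lit 6) (by decide +kernel)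
theorem L46323 : W_6 (nat_lit 3) (nat_lit 0x20001000138009e000c00040000000000000000000000) (nat_lit 0x0) (nat_lit 0x380080004000000000000000000) := T_6 (nat_lit 104) (nat_lit 103) (nat_lit 0) (nat_lit 5) (nat_lit 7) L46322 (by decide +kernel)
theorem L46324 : W_6 (nat_lit 4) (nat_lit 0x20001000138009e000c00000000000000000000000000) (nat_lit 0x0) (nat_lit 0x3800c0006000000000000000000) := T_6 (nat_lit 90) (nat_lit 73) (nat_lit 5) (nat_lit 5) (nat_lit 4) L46323 (by decide +kernel)
theorem L46325 : W_6 (nat_lit 5) (nat_lit 0x20001000138009e000400000000000000000000000000) (nat_lit 0x0) (nat_lit 0x1b800c0006000000000000000000) := T_6 (nat_lit 107) (nat_lit 108) (nat_lit 2) (nat_lit 2) (nat_lit 7) L46324 (by decide +kernel)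
theorem L46326 : W_6 (nat_lit 6) (nat_lit 0x20001000138009c000400000000000000000000000000) (nat_lit 0x0) (nat_lit 0x3001b800c0006000000000000000000) := T_6 (nat_lit 121) (nat_lit 120) (nat_lit 3) (nat_lit 1) (nat_lit 7) L46325 (by decide +kernel)
theorem L46327 : W_6 (nat_lit 4) (nat_lit 0x20001000138009e000c00020000000000000000000000) (nat_lit 0x0) (nat_lit 0x2003c0006000000000000000000) := T_6 (nat_lit 90) (nat_lit 73) (nat_lit 6) (nat_lit 4) (nat_lit 8) L44845 (by decide +kernel)
theorem L46328 : W_6 (nat_lit 5) (nat_lit 0x20001000138009e000400020000000000000000000000) (nat_lit 0x0) (nat_lit 0x1a003c0006000000000000000000) := T_6 (nat_lit 107) (nat_lit 108) (nat_lit 2) (nat_lit 2) (nat_lit 7) L46327 (by decide +kernel)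
theorem L46329 : W_6 (nat_lit 6) (nat_lit 0x20001000138009e000400000000000000000000000000) (nat_lit 0x0) (nat_lit 0x1a003e0007000000000000000000) := T_6 (nat_lit 89) (nat_lit 72) (nat_lit 7) (nat_lit 4) (nat_lit 4) L46328 (by decide +kernel)
theorem L46330 : W_6 (nat_lit 7) (nat_lit 0x20001000138009c000400000000000000000000000000) (nat_lit 0x0) (nat_lit 0x3001a003e0007000000000000000000) := T_6 (nat_lit 121) (nat_lit 120) (nat_lit 3) (nat_lit 1) (nat_lit 7) L46329 (by decide +kernel)
theorem L46331 : W_6 (nat_lit 11) (nat_lit 0x200010001380098000400000000000000000000000000) (nat_lit 0x0) (nat_lit 0x47003b803fe01fc00000000000000000) := Q_6 (nat_lit 122) (C_6 L46281 (C_6 L46230 (C_6 L46290 (C_6 L46297 (C_6 L46306 (C_6 L46315 (C_6 L46321 (C_6 L46326 (C_6 L46330 N_6))))))))) (by decide +kernel)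
theorem L46332 : W_6 (nat_lit 2) (nat_lit 0x2000100013800be000400000000000000000000000000) (nat_lit 0x0) (nat_lit 0x380000000000000000000000000) := D_6 (nat_lit 104) (nat_lit 103) (nat_lit 105) (nat_lit 0) (nat_lit 5) (nat_lit 7) (nat_lit 0) (nat_lit 6) (nat_lit 7) (by decide +kernel)
theorem L46333 : W_6 (nat_lit 3) (nat_lit 0x20001000138009e000400000000000000000000000000) (nat_lit 0x0) (nat_lit 0x60000380000000000000000000000000) := T_6 (nat_lit 125) (nat_lit 126) (nat_lit 1) (nat_lit 7) (nat_lit 7) L46332 (by decide +kernel)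
theorem L46334 : W_6 (nat_lit 4) (nat_lit 0x20001000138009c000400000000000000000000000000) (nat_lit 0x0) (nat_lit 0x63000380000000000000000000000000) := T_6 (nat_lit 121) (nat_lit 120) (nat_lit 3) (nat_lit 1) (nat_lit 7) L46333 (by decide +kernel)
theorem L46335 : W_6 (nat_lit 2) (nat_lit 0x20001000138009e000500070000000000000000000000) (nat_lit 0x0) (nat_lit 0x20000200080000000000000000000000) := D_6 (nat_lit 105) (nat_lit 91) (nat_lit 125) (nat_lit 1) (nat_lit 6) (nat_lit 5) (nat_lit 0) (nat_lit 6) (nat_lit 7) (by decide +kernel)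
theorem L46336 : W_6 (nat_lit 3) (nat_lit 0x20001000138009e000500060000000000000000000000) (nat_lit 0x0) (nat_lit 0x20000200090000800000000000000000) := T_6 (nat_lit 88) (nat_lit 71) (nat_lit 4) (nat_lit 4) (nat_lit 8) L46335 (by decide +kernel)
theorem L46337 : W_6 (nat_lit 4) (nat_lit 0x20001000138009e000400060000000000000000000000) (nat_lit 0x0) (nat_lit 0x20000380090000800000000000000000) := T_6 (nat_lit 104) (nat_lit 103) (nat_lit 0) (nat_lit 5) (nat_lit 7) L46336 (by decide +kernel)
theorem L46338 : W_6 (nat_lit 5) (nat_lit 0x20001000138009e000400020000000000000000000000) (nat_lit 0x0) (nat_lit 0x200003800d0002800000000000000000) := T_6 (nat_lit 90) (nat_lit 73) (nat_lit 6) (nat_lit 4) (nat_lit 8) L46337 (by decide +kernel)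
theorem L46339 : W_6 (nat_lit 6) (nat_lit 0x20001000138009c000400020000000000000000000000) (nat_lit 0x0) (nat_lit 0x230003800d0002800000000000000000) := T_6 (nat_lit 121) (nat_lit 120) (nat_lit 3) (nat_lit 1) (nat_lit 7) L46338 (by decide +kernel)
theorem L46340 : W_6 (nat_lit 7) (nat_lit 0x20001000138009c000400000000000000000000000000) (nat_lit 0x0) (nat_lit 0x230003800f0003800000000000000000) := T_6 (nat_lit 89) (nat_lit 72) (nat_lit 7) (nat_lit 4) (nat_lit 4) L46339 (by decide +kernel)
theorem L46341 : W_6 (nat_lit 11) (nat_lit 0x200010001380098000400000000000000000000000000) (nat_lit 0x0) (nat_lit 0x20001000280008000670033801f001f800000000000000000) := Q_6 (nat_lit 122) (C_6 L45386 (C_6 L46224 (C_6 L46290 (C_6 L44804 (C_6 L46334 (C_6 L46340 N_6)))))) (by decide +kernel)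
theorem L46342 : W_6 (nat_lit 2) (nat_lit 0x2000100013800980006800f0000000000000000000000) (nat_lit 0x0) (nat_lit 0x80000000c000000000000000000) := D_6 (nat_lit 74) (nat_lit 75) (nat_lit 107) (nat_lit 2) (nat_lit 3) (nat_lit 5) (nat_lit 6) (nat_lit 5) (nat_lit 8) (by decide +kernel)
theorem L46343 : W_6 (nat_lit 3) (nat_lit 0x200010001380098000680070000000000000000000000) (nat_lit 0x0) (nat_lit 0x80018000c000000000000000000) := T_6 (nat_lit 91) (nat_lit 92) (nat_lit 1) (nat_lit 7) (nat_lit 5) L46342 (by decide +kernel)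
theorem L46344 : W_6 (nat_lit 4) (nat_lit 0x200010001380098000680030000000000000000000000) (nat_lit 0x0) (nat_lit 0x8001c000e000000000000000000) := T_6 (nat_lit 90) (nat_lit 73) (nat_lit 6) (nat_lit 4) (nat_lit 8) L46343 (by decide +kernel)
theorem L46345 : W_6 (nat_lit 5) (nat_lit 0x200010001380098000680020000000000000000000000) (nat_lit 0x0) (nat_lit 0x8001d000e800000000000000000) := T_6 (nat_lit 88) (nat_lit 71) (nat_lit 4) (nat_lit 4) (nat_lit 8) L46344 (by decide +kernel)
theorem L46346 : W_6 (nat_lit 6) (nat_lit 0x200010001380098000680000000000000000000000000) (nat_lit 0x0) (nat_lit 0x8001f000f800000000000000000) := T_6 (nat_lit 89) (nat_lit 72) (nat_lit 7) (nat_lit 4) (nat_lit 4) L46345 (by decide +kernel)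
theorem L46347 : W_6 (nat_lit 7) (nat_lit 0x200010001380098000600000000000000000000000000) (nat_lit 0x0) (nat_lit 0x9801f000f800000000000000000) := T_6 (nat_lit 103) (nat_lit 104) (nat_lit 3) (nat_lit 1) (nat_lit 6) L46346 (by decide +kernel)
theorem L46348 : W_6 (nat_lit 5) (nat_lit 0x2000100013800d8000600070000000000000000000000) (nat_lit 0x0) (nat_lit 0x2000100028000800000002000180008000000000000000000) := T_6 (nat_lit 92) (nat_lit 91) (nat_lit 1) (nat_lit 7) (nat_lit 5) L45015 (by decide +kernel)
theorem L46349 : W_6 (nat_lit 6) (nat_lit 0x2000100013800d8000600030000000000000000000000) (nat_lit 0x0) (nat_lit 0x20001000280008000000020001c000a000000000000000000) := T_6 (nat_lit 90) (nat_lit 73) (nat_lit 6) (nat_lit 4) (nat_lit 8) L46348 (by decide +kernel)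
theorem L46350 : W_6 (nat_lit 7) (nat_lit 0x2000100013800d8000600020000000000000000000000) (nat_lit 0x0) (nat_lit 0x20001000280008000000020001d000a800000000000000000) := T_6 (nat_lit 88) (nat_lit 71) (nat_lit 4) (nat_lit 4) (nat_lit 8) L46349 (by decide +kernel)
theorem L46351 : W_6 (nat_lit 8) (nat_lit 0x200010001380098000600020000000000000000000000) (nat_lit 0x0) (nat_lit 0x20001000280008000600020001d000a800000000000000000) := T_6 (nat_lit 126) (nat_lit 125) (nat_lit 1) (nat_lit 7) (nat_lit 7) L46350 (by decide +kernel)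
theorem L46352 : W_6 (nat_lit 9) (nat_lit 0x200010001380098000600000000000000000000000000) (nat_lit 0x0) (nat_lit 0x20001000280008000600020001f000b800000000000000000) := T_6 (nat_lit 89) (nat_lit 72) (nat_lit 7) (nat_lit 4) (nat_lit 4) L46351 (by decide +kernel)
theorem L46353 : W_6 (nat_lit 10) (nat_lit 0x200010001380098000400000000000000000000000000) (nat_lit 0x0) (nat_lit 0x2000100028000800064002b801f000f800000000000000000) := Q_6 (nat_lit 105) (C_6 L45539 (C_6 L46347 (C_6 L45355 (C_6 L46352 N_6)))) (by decide +kernel)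
theorem L46354 : W_6 (nat_lit 5) (nat_lit 0x200010001380098000c00000000000000000000000000) (nat_lit 0x0) (nat_lit 0x100007c003800000000000000000) := T_6 (nat_lit 89) (nat_lit 72) (nat_lit 7) (nat_lit 4) (nat_lit 4) L42475 (by decide +kernel)
theorem L46355 : W_6 (nat_lit 2) (nat_lit 0x200010001b800d8002c001c0001000000000000000000) (nat_lit 0x0) (nat_lit 0x2000100008000000000000000000000000000000000000000) := D_6 (nat_lit 176) (nat_lit 159) (nat_lit 193) (nat_lit 5) (nat_lit 7) (nat_lit 6) (nat_lit 5) (nat_lit 7) (nat_lit 7) (by decide +kernel)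
theorem L46356 : W_6 (nat_lit 3) (nat_lit 0x2000100013800d8002c001c0001000000000000000000) (nat_lit 0x0) (nat_lit 0x2000100028000800000000000000000000000000000000000) := T_6 (nat_lit 143) (nat_lit 161) (nat_lit 7) (nat_lit 7) (nat_lit 5) L46355 (by decide +kernel)
theorem L46357 : W_6 (nat_lit 4) (nat_lit 0x2000100013800d8000c001c0001000000000000000000) (nat_lit 0x0) (nat_lit 0x2000100028000800000002000000008000000000000000000) := T_6 (nat_lit 109) (nat_lit 75) (nat_lit 7) (nat_lit 7) (nat_lit 4) L46356 (by decide +kernel)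
theorem L46358 : W_6 (nat_lit 5) (nat_lit 0x2000100013800d8000c001c0000000000000000000000) (nat_lit 0x0) (nat_lit 0x2000100028000800000002000020009000000000000000000) := T_6 (nat_lit 72) (nat_lit 89) (nat_lit 7) (nat_lit 4) (nat_lit 4) L46357 (by decide +kernel)
theorem L46359 : W_6 (nat_lit 6) (nat_lit 0x2000100013800d8000c000c0000000000000000000000) (nat_lit 0x0) (nat_lit 0x2000100028000800000002000320009000000000000000000) := T_6 (nat_lit 92) (nat_lit 93) (nat_lit 1) (nat_lit 8) (nat_lit 5) L46358 (by decide +kernel)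
theorem L46360 : W_6 (nat_lit 7) (nat_lit 0x2000100013800d8000c00040000000000000000000000) (nat_lit 0x0) (nat_lit 0x20001000280008000000020003a000d000000000000000000) := T_6 (nat_lit 91) (nat_lit 74) (nat_lit 6) (nat_lit 5) (nat_lit 8) L46359 (by decide +kernel)
theorem L46361 : W_6 (nat_lit 8) (nat_lit 0x200010001380098000c00040000000000000000000000) (nat_lit 0x0) (nat_lit 0x20001000280008000600020003a000d000000000000000000) := T_6 (nat_lit 126) (nat_lit 125) (nat_lit 1) (nat_lit 7) (nat_lit 7) L46360 (by decide +kernel)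
theorem L46362 : W_6 (nat_lit 9) (nat_lit 0x200010001380098000c00000000000000000000000000) (nat_lit 0x0) (nat_lit 0x20001000280008000600020003e000f000000000000000000) := T_6 (nat_lit 90) (nat_lit 73) (nat_lit 5) (nat_lit 5) (nat_lit 4) L46361 (by decide +kernel)
theorem L46363 : W_6 (nat_lit 10) (nat_lit 0x200010001380098000400000000000000000000000000) (nat_lit 0x0) (nat_lit 0x20001000280008000600038003fc00f800000000000000000) := Q_6 (nat_lit 107) (C_6 L45136 (C_6 L46213 (C_6 L46260 (C_6 L46354 (C_6 L46362 N_6))))) (by decide +kernel)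
theorem L46364 : W_6 (nat_lit 2) (nat_lit 0x2000100013800bc001600010005000000000000000000) (nat_lit 0x0) (nat_lit 0x800008000400000000000000000) := D_6 (nat_lit 87) (nat_lit 70) (nat_lit 107) (nat_lit 4) (nat_lit 3) (nat_lit 8) (nat_lit 0) (nat_lit 6) (nat_lit 6) (by decide +kernel)
theorem L46365 : W_6 (nat_lit 3) (nat_lit 0x2000100013800bc001600000005000000000000000000) (nat_lit 0x0) (nat_lit 0x800018000c00000000000000000) := T_6 (nat_lit 88) (nat_lit 71) (nat_lit 7) (nat_lit 3) (nat_lit 4) L46364 (by decide +kernel)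
theorem L46366 : W_6 (nat_lit 4) (nat_lit 0x2000100013800bc001600000001000000000000000000) (nat_lit 0x0) (nat_lit 0x800098004c00000000000000000) := T_6 (nat_lit 74) (nat_lit 91) (nat_lit 5) (nat_lit 6) (nat_lit 4) L46365 (by decide +kernel)
theorem L46367 : W_6 (nat_lit 5) (nat_lit 0x2000100013800bc000600000001000000000000000000) (nat_lit 0x0) (nat_lit 0x3800098004c00000000000000000) := T_6 (nat_lit 108) (nat_lit 109) (nat_lit 2) (nat_lit 3) (nat_lit 7) L46366 (by decide +kernel)
theorem L46368 : W_6 (nat_lit 6) (nat_lit 0x2000100013800bc000400000001000000000000000000) (nat_lit 0x0) (nat_lit 0x3b00098004c00000000000000000) := T_6 (nat_lit 105) (nat_lit 104) (nat_lit 0) (nat_lit 6) (nat_lit 7) L46367 (by decide +kernel)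
theorem L46369 : W_6 (nat_lit 7) (nat_lit 0x20001000138009c000400000001000000000000000000) (nat_lit 0x0) (nat_lit 0x60003b00098004c00000000000000000) := T_6 (nat_lit 125) (nat_lit 126) (nat_lit 1) (nat_lit 7) (nat_lit 7) L46368 (by decide +kernel)
theorem L46370 : W_6 (nat_lit 8) (nat_lit 0x20001000138009c000400000000000000000000000000) (nat_lit 0x0) (nat_lit 0x60003b000b8005c00000000000000000) := T_6 (nat_lit 72) (nat_lit 89) (nat_lit 7) (nat_lit 4) (nat_lit 4) L46369 (by decide +kernel)
theorem L46371 : W_6 (nat_lit 2) (nat_lit 0x2000100013800bc001400000001000000000000000000) (nat_lit 0x0) (nat_lit 0x3000800000000000000000000000000) := D_6 (nat_lit 121) (nat_lit 107) (nat_lit 120) (nat_lit 2) (nat_lit 2) (nat_lit 7) (nat_lit 3) (nat_lit 1) (nat_lit 7) (by decide +kernel)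
theorem L46372 : W_6 (nat_lit 3) (nat_lit 0x2000100013800bc000400000001000000000000000000) (nat_lit 0x0) (nat_lit 0x3003800000000000000000000000000) := T_6 (nat_lit 108) (nat_lit 109) (nat_lit 2) (nat_lit 3) (nat_lit 7) L46371 (by decide +kernel)
theorem L46373 : W_6 (nat_lit 4) (nat_lit 0x2000100013800bc000400000000000000000000000000) (nat_lit 0x0) (nat_lit 0x3003800020001000000000000000000) := T_6 (nat_lit 72) (nat_lit 89) (nat_lit 7) (nat_lit 4) (nat_lit 4) L46372 (by decide +kernel)
theorem L46374 : W_6 (nat_lit 5) (nat_lit 0x20001000138009c000400000000000000000000000000) (nat_lit 0x0) (nat_lit 0x63003800020001000000000000000000) := T_6 (nat_lit 125) (nat_lit 126) (nat_lit 1) (nat_lit 7) (nat_lit 7) L46373 (by decide +kernel)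
theorem L46375 : W_6 (nat_lit 9) (nat_lit 0x200010001380098000400000000000000000000000000) (nat_lit 0x0) (nat_lit 0x67003b800bc005c00000000000000000) := Q_6 (nat_lit 122) (C_6 L46334 (C_6 L46321 (C_6 L46370 (C_6 L46374 N_6)))) (by decide +kernel)
theorem L46376 : W_6 (nat_lit 10) (nat_lit 0x200010001380098000400000000000000000000000000) (nat_lit 0x0) (nat_lit 0x2000100028000800066003b003d800e800000000000000000) := Q_6 (nat_lit 107) (C_6 L45136 (C_6 L46220 (C_6 L45571 (C_6 L45431 N_6)))) (by decide +kernel)
theorem L46377 : W_6 (nat_lit 5) (nat_lit 0x2000100013800d8000c00070000000000000000000000) (nat_lit 0x0) (nat_lit 0x600038000c000600000000000000000) := T_6 (nat_lit 87) (nat_lit 86) (nat_lit 3) (nat_lit 1) (nat_lit 5) L46069 (by decide +kernel)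
theorem L46378 : W_6 (nat_lit 6) (nat_lit 0x2000100013800d8000c00060000000000000000000000) (nat_lit 0x0) (nat_lit 0x600038001c000e00000000000000000) := T_6 (nat_lit 88) (nat_lit 71) (nat_lit 4) (nat_lit 4) (nat_lit 8) L46377 (by decide +kernel)
theorem L46379 : W_6 (nat_lit 7) (nat_lit 0x2000100013800d8000c00040000000000000000000000) (nat_lit 0x0) (nat_lit 0x600038003c001e00000000000000000) := T_6 (nat_lit 89) (nat_lit 72) (nat_lit 7) (nat_lit 4) (nat_lit 4) L46378 (by decide +kernel)
theorem L46380 : W_6 (nat_lit 8) (nat_lit 0x2000100013800d8000c00000000000000000000000000) (nat_lit 0x0) (nat_lit 0x600038007c003e00000000000000000) := T_6 (nat_lit 90) (nat_lit 73) (nat_lit 5) (nat_lit 5) (nat_lit 4) L46379 (by decide +kernel)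
theorem L46381 : W_6 (nat_lit 9) (nat_lit 0x200010001380098000c00000000000000000000000000) (nat_lit 0x0) (nat_lit 0x6600038007c003e00000000000000000) := T_6 (nat_lit 126) (nat_lit 125) (nat_lit 1) (nat_lit 7) (nat_lit 7) L46380 (by decide +kernel)
theorem L46382 : W_6 (nat_lit 10) (nat_lit 0x200010001380098000400000000000000000000000000) (nat_lit 0x0) (nat_lit 0x2000100028000800066003b8017c00be00000000000000000) := Q_6 (nat_lit 107) (C_6 L46265 (C_6 L46354 (C_6 L46381 (C_6 L45136 N_6)))) (by decide +kernel)
theorem L46383 : W_6 (nat_lit 9) (nat_lit 0x200010001380098000400000000000000000000000000) (nat_lit 0x0) (nat_lit 0x27001b803fe007c00000000000000000) := Q_6 (nat_lit 122) (C_6 L46321 (C_6 L46340 (C_6 L46306 (C_6 L46326 (C_6 L46330 N_6))))) (by decide +kernel)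
theorem L46384 : W_6 (nat_lit 12) (nat_lit 0x200010001380098000000000000000000000000000000) (nat_lit 0x0) (nat_lit 0x2000100028000800067003f803fe03fe00000000000000000) := Q_6 (nat_lit 106) (C_6 L46234 (C_6 L46253 (C_6 L46266 (C_6 L46331 (C_6 L46341 (C_6 L46353 (C_6 L46363 (C_6 L46375 (C_6 L46376 (C_6 L46382 (C_6 L46383 N_6))))))))))) (by decide +kernel)
theorem L46385 : W_6 (nat_lit 2) (nat_lit 0x20001000138009e000b000c0000400000000000000000) (nat_lit 0x0) (nat_lit 0x30001000000000000000000) := D_6 (nat_lit 89) (nat_lit 88) (nat_lit 72) (nat_lit 1) (nat_lit 6) (nat_lit 5) (nat_lit 4) (nat_lit 5) (nat_lit 8) (by decide +kernel)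
theorem L46386 : W_6 (nat_lit 3) (nat_lit 0x20001000138009e0009000c0000400000000000000000) (nat_lit 0x0) (nat_lit 0x600030001000000000000000000) := T_6 (nat_lit 105) (nat_lit 106) (nat_lit 2) (nat_lit 2) (nat_lit 6) L46385 (by decide +kernel)
theorem L46387 : W_6 (nat_lit 4) (nat_lit 0x20001000138009e000900040000400000000000000000) (nat_lit 0x0) (nat_lit 0x6000b0005000000000000000000) := T_6 (nat_lit 91) (nat_lit 74) (nat_lit 6) (nat_lit 5) (nat_lit 8) L46386 (by decide +kernel)
theorem L46388 : W_6 (nat_lit 5) (nat_lit 0x20001000138009e000900040000000000000000000000) (nat_lit 0x0) (nat_lit 0x6000b8005400000000000000000) := T_6 (nat_lit 70) (nat_lit 87) (nat_lit 7) (nat_lit 2) (nat_lit 4) L46387 (by decide +kernel)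
theorem L46389 : W_6 (nat_lit 6) (nat_lit 0x20001000138009e000900000000000000000000000000) (nat_lit 0x0) (nat_lit 0x6000f8007400000000000000000) := T_6 (nat_lit 90) (nat_lit 73) (nat_lit 5) (nat_lit 5) (nat_lit 4) L46388 (by decide +kernel)
theorem L46390 : W_6 (nat_lit 7) (nat_lit 0x20001000138009e000800000000000000000000000000) (nat_lit 0x0) (nat_lit 0x7800f8007400000000000000000) := T_6 (nat_lit 104) (nat_lit 103) (nat_lit 0) (nat_lit 5) (nat_lit 7) L46389 (by decide +kernel)
theorem L46391 : W_6 (nat_lit 8) (nat_lit 0x20001000138009e000000000000000000000000000000) (nat_lit 0x0) (nat_lit 0x1f800f8007400000000000000000) := T_6 (nat_lit 107) (nat_lit 108) (nat_lit 2) (nat_lit 2) (nat_lit 7) L46390 (by decide +kernel)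
theorem L46392 : W_6 (nat_lit 9) (nat_lit 0x20001000138009a000000000000000000000000000000) (nat_lit 0x0) (nat_lit 0x5001f800f8007400000000000000000) := T_6 (nat_lit 122) (nat_lit 120) (nat_lit 3) (nat_lit 1) (nat_lit 7) L46391 (by decide +kernel)
theorem L46393 : W_6 (nat_lit 2) (nat_lit 0x2000108013c009e000100000000000000000000000000) (nat_lit 0x0) (nat_lit 0x200010000000000000000200000000000000000000000000) := D_6 (nat_lit 172) (nat_lit 105) (nat_lit 189) (nat_lit 6) (nat_lit 2) (nat_lit 10) (nat_lit 6) (nat_lit 2) (nat_lit 11) (by decide +kernel)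
theorem L46394 : W_6 (nat_lit 3) (nat_lit 0x2000100013c009e000100000000000000000000000000) (nat_lit 0x0) (nat_lit 0x200010000c00000000000200000000000000000000000000) := T_6 (nat_lit 155) (nat_lit 154) (nat_lit 1) (nat_lit 5) (nat_lit 8) L46393 (by decide +kernel)
theorem L46395 : W_6 (nat_lit 4) (nat_lit 0x2000100013c009e000000000000000000000000000000) (nat_lit 0x0) (nat_lit 0x200010000c00000000000380000000000000000000000000) := T_6 (nat_lit 104) (nat_lit 103) (nat_lit 0) (nat_lit 5) (nat_lit 7) L46394 (by decide +kernel)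
theorem L46396 : W_6 (nat_lit 5) (nat_lit 0x20001000138009e000000000000000000000000000000) (nat_lit 0x0) (nat_lit 0x200010000c00060000000380000000000000000000000000) := T_6 (nat_lit 138) (nat_lit 137) (nat_lit 2) (nat_lit 1) (nat_lit 8) L46395 (by decide +kernel)
theorem L46397 : W_6 (nat_lit 11) (nat_lit 0x20001000138009a000000000000000000000000000000) (nat_lit 0x0) (nat_lit 0x200010000c00060004001f800fc007e00000000000000000) := Q_6 (nat_lit 122) (C_6 L44842 (C_6 L46391 (C_6 L43702 (C_6 L46396 N_6)))) (by decide +kernel)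
theorem L46398 : W_6 (nat_lit 12) (nat_lit 0x200010001380098000000000000000000000000000000) (nat_lit 0x0) (nat_lit 0x200010000c00060007001f800fc007e00000000000000000) := Q_6 (nat_lit 121) (C_6 L45419 (C_6 L46392 (C_6 L46397 N_6))) (by decide +kernel)
theorem L46399 : W_6 (nat_lit 13) (nat_lit 0x200010001300098000000000000000000000000000000) (nat_lit 0x0) (nat_lit 0x2200110028c008e0067003f803fe03fe00000000000000000) := Q_6 (nat_lit 139) (C_6 L45312 (C_6 L46384 (C_6 L46398 N_6))) (by decide +kernel)
theorem L46400 : W_6 (nat_lit 2) (nat_lit 0x3c0012001300098000000000000000000000000000000) (nat_lit 0x0) (nat_lit 0x400020008000000000000000000000000000000000000000) := D_6 (nat_lit 173) (nat_lit 159) (nat_lit 190) (nat_lit 2) (nat_lit 3) (nat_lit 10) (nat_lit 5) (nat_lit 4) (nat_lit 7) (by decide +kernel)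
theorem L46401 : W_6 (nat_lit 3) (nat_lit 0x2c0012001300098000000000000000000000000000000) (nat_lit 0x0) (nat_lit 0x400120028000000000000000000000000000000000000000) := T_6 (nat_lit 176) (nat_lit 161) (nat_lit 2) (nat_lit 4) (nat_lit 10) L46400 (by decide +kernel)
theorem L46402 : W_6 (nat_lit 4) (nat_lit 0x240012001300098000000000000000000000000000000) (nat_lit 0x0) (nat_lit 0x14001a0028000000000000000000000000000000000000000) := T_6 (nat_lit 175) (nat_lit 192) (nat_lit 7) (nat_lit 4) (nat_lit 7) L46401 (by decide +kernel)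
theorem L46403 : W_6 (nat_lit 5) (nat_lit 0x200012001300098000000000000000000000000000000) (nat_lit 0x0) (nat_lit 0x1c001e0028000000000000000000000000000000000000000) := T_6 (nat_lit 174) (nat_lit 191) (nat_lit 6) (nat_lit 4) (nat_lit 11) L46402 (by decide +kernel)
theorem L46404 : W_6 (nat_lit 2) (nat_lit 0x200012001300098000400020000000000000000000000) (nat_lit 0x0) (nat_lit 0x200010000800000000000000000) := D_6 (nat_lit 88) (nat_lit 105) (nat_lit 71) (nat_lit 4) (nat_lit 4) (nat_lit 9) (nat_lit 4) (nat_lit 4) (nat_lit 8) (by decide +kernel)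
theorem L46405 : W_6 (nat_lit 3) (nat_lit 0x200012001300098000400000000000000000000000000) (nat_lit 0x0) (nat_lit 0x200030001800000000000000000) := T_6 (nat_lit 89) (nat_lit 72) (nat_lit 7) (nat_lit 4) (nat_lit 4) L46404 (by decide +kernel)
theorem L46406 : W_6 (nat_lit 2) (nat_lit 0x20001200130009a003f00008000000000000000000000) (nat_lit 0x0) (nat_lit 0x380000000000000000000000) := D_6 (nat_lit 92) (nat_lit 91) (nat_lit 93) (nat_lit 2) (nat_lit 3) (nat_lit 6) (nat_lit 2) (nat_lit 4) (nat_lit 6) (by decide +kernel)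
theorem L46407 : W_6 (nat_lit 3) (nat_lit 0x20001200130009a001f00008000000000000000000000) (nat_lit 0x0) (nat_lit 0x40002000380000000000000000000000) := T_6 (nat_lit 109) (nat_lit 126) (nat_lit 3) (nat_lit 4) (nat_lit 6) L46406 (by decide +kernel)
theorem L46408 : W_6 (nat_lit 4) (nat_lit 0x20001200130009a000f00008000000000000000000000) (nat_lit 0x0) (nat_lit 0x44003000380000000000000000000000) := T_6 (nat_lit 108) (nat_lit 122) (nat_lit 2) (nat_lit 2) (nat_lit 7) L46407 (by decide +kernel)
theorem L46409 : W_6 (nat_lit 5) (nat_lit 0x200012001300098000f00008000000000000000000000) (nat_lit 0x0) (nat_lit 0x47003000380000000000000000000000) := T_6 (nat_lit 121) (nat_lit 120) (nat_lit 1) (nat_lit 5) (nat_lit 6) L46408 (by decide +kernel)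
theorem L46410 : W_6 (nat_lit 6) (nat_lit 0x200012001300098000f00000000000000000000000000) (nat_lit 0x0) (nat_lit 0x4700300038c000000000000000000000) := T_6 (nat_lit 87) (nat_lit 86) (nat_lit 0) (nat_lit 5) (nat_lit 6) L46409 (by decide +kernel)
theorem L46411 : W_6 (nat_lit 7) (nat_lit 0x200012001300098000700000000000000000000000000) (nat_lit 0x0) (nat_lit 0x470038003cc000000000000000000000) := T_6 (nat_lit 107) (nat_lit 90) (nat_lit 6) (nat_lit 4) (nat_lit 9) L46410 (by decide +kernel)
theorem L46412 : W_6 (nat_lit 8) (nat_lit 0x200012001300098000600000000000000000000000000) (nat_lit 0x0) (nat_lit 0x470039803cc000000000000000000000) := T_6 (nat_lit 104) (nat_lit 103) (nat_lit 3) (nat_lit 1) (nat_lit 6) L46411 (by decide +kernel)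
theorem L46413 : W_6 (nat_lit 9) (nat_lit 0x200012001300098000400000000000000000000000000) (nat_lit 0x0) (nat_lit 0x47003b803dc000000000000000000000) := T_6 (nat_lit 105) (nat_lit 88) (nat_lit 4) (nat_lit 4) (nat_lit 9) L46412 (by decide +kernel)
theorem L46414 : W_6 (nat_lit 10) (nat_lit 0x200012001300098000000000000000000000000000000) (nat_lit 0x0) (nat_lit 0x47003f803fc003800000000000000000) := Q_6 (nat_lit 106) (C_6 L45666 (C_6 L46405 (C_6 L46413 N_6))) (by decide +kernel)
theorem L46415 : W_6 (nat_lit 11) (nat_lit 0x200010001300098000000000000000000000000000000) (nat_lit 0x0) (nat_lit 0x1c001e002a000000047003f803fc003800000000000000000) := Q_6 (nat_lit 157) (C_6 L46179 (C_6 L46403 (C_6 L46414 N_6))) (by decide +kernel)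
theorem L46416 : W_6 (nat_lit 2) (nat_lit 0x2000120013800bc000000000000000000000000000000) (nat_lit 0x0) (nat_lit 0x300010000000000000000000000) := D_6 (nat_lit 105) (nat_lit 88) (nat_lit 104) (nat_lit 7) (nat_lit 3) (nat_lit 5) (nat_lit 0) (nat_lit 6) (nat_lit 7) (by decide +kernel)
theorem L46417 : W_6 (nat_lit 3) (nat_lit 0x20001200138009c000000000000000000000000000000) (nat_lit 0x0) (nat_lit 0x60000300010000000000000000000000) := T_6 (nat_lit 125) (nat_lit 126) (nat_lit 1) (nat_lit 7) (nat_lit 7) L46416 (by decide +kernel)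
theorem L46418 : W_6 (nat_lit 4) (nat_lit 0x200012001380098000000000000000000000000000000) (nat_lit 0x0) (nat_lit 0x67001b00050000000000000000000000) := Q_6 (nat_lit 122) (C_6 L46417 (C_6 L45784 N_6)) (by decide +kernel)
theorem L46419 : W_6 (nat_lit 2) (nat_lit 0x3c00120013800d8000000000000000000000000000000) (nat_lit 0x0) (nat_lit 0x400020008000000000000000000000000000000000000000) := D_6 (nat_lit 173) (nat_lit 159) (nat_lit 190) (nat_lit 2) (nat_lit 3) (nat_lit 10) (nat_lit 5) (nat_lit 4) (nat_lit 7) (by decide +kernel)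
theorem L46420 : W_6 (nat_lit 3) (nat_lit 0x2c00120013800d8000000000000000000000000000000) (nat_lit 0x0) (nat_lit 0x400120028000000000000000000000000000000000000000) := T_6 (nat_lit 176) (nat_lit 161) (nat_lit 2) (nat_lit 4) (nat_lit 10) L46419 (by decide +kernel)
theorem L46421 : W_6 (nat_lit 4) (nat_lit 0x2400120013800d8000000000000000000000000000000) (nat_lit 0x0) (nat_lit 0x14001a0028000000000000000000000000000000000000000) := T_6 (nat_lit 175) (nat_lit 192) (nat_lit 7) (nat_lit 4) (nat_lit 7) L46420 (by decide +kernel)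
theorem L46422 : W_6 (nat_lit 5) (nat_lit 0x2000120013800d8000000000000000000000000000000) (nat_lit 0x0) (nat_lit 0x1c001e0028000000000000000000000000000000000000000) := T_6 (nat_lit 174) (nat_lit 191) (nat_lit 6) (nat_lit 4) (nat_lit 11) L46421 (by decide +kernel)
theorem L46423 : W_6 (nat_lit 6) (nat_lit 0x200012001380098000000000000000000000000000000) (nat_lit 0x0) (nat_lit 0x1c001e0028000000060000000000000000000000000000000) := T_6 (nat_lit 126) (nat_lit 125) (nat_lit 1) (nat_lit 7) (nat_lit 7) L46422 (by decide +kernel)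
theorem L46424 : W_6 (nat_lit 7) (nat_lit 0x200010001380098000000000000000000000000000000) (nat_lit 0x0) (nat_lit 0x1c001e002a000000067001b00050000000000000000000000) := Q_6 (nat_lit 157) (C_6 L45767 (C_6 L46418 (C_6 L46423 N_6))) (by decide +kernel)
theorem L46425 : W_6 (nat_lit 8) (nat_lit 0x200010001300098000000000000000000000000000000) (nat_lit 0x0) (nat_lit 0x1c001f002ac000e0067001b00050002000000000000000000) := Q_6 (nat_lit 139) (C_6 L45312 (C_6 L45422 (C_6 L46424 N_6))) (by decide +kernel)
theorem L46426 : W_6 (nat_lit 6) (nat_lit 0x200010001300098000000000000000000000000000000) (nat_lit 0x0) (nat_lit 0x1c001e002a000000064000f80070003000000000000000000) := Q_6 (nat_lit 157) (C_6 L46403 (C_6 L45670 N_6)) (by decide +kernel)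
theorem L46427 : W_6 (nat_lit 2) (nat_lit 0x2000100013000be000800000000000000000000000000) (nat_lit 0x0) (nat_lit 0xe0000000000000000000000000000000000) := D_6 (nat_lit 138) (nat_lit 139) (nat_lit 137) (nat_lit 2) (nat_lit 2) (nat_lit 8) (nat_lit 1) (nat_lit 5) (nat_lit 7) (by decide +kernel)
theorem L46428 : W_6 (nat_lit 3) (nat_lit 0x2000100013000bc000800000000000000000000000000) (nat_lit 0x0) (nat_lit 0xe0003000000000000000000000000000000) := T_6 (nat_lit 121) (nat_lit 120) (nat_lit 3) (nat_lit 1) (nat_lit 7) L46427 (by decide +kernel)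
theorem L46429 : W_6 (nat_lit 4) (nat_lit 0x20001000130009c000800000000000000000000000000) (nat_lit 0x0) (nat_lit 0xe0063000000000000000000000000000000) := T_6 (nat_lit 125) (nat_lit 126) (nat_lit 1) (nat_lit 8) (nat_lit 7) L46428 (by decide +kernel)
theorem L46430 : W_6 (nat_lit 2) (nat_lit 0x3e00100013000dc000800000000000000000000000000) (nat_lit 0x0) (nat_lit 0xe00000000000000000000000000000000000000000000000) := D_6 (nat_lit 190) (nat_lit 189) (nat_lit 191) (nat_lit 1) (nat_lit 6) (nat_lit 10) (nat_lit 1) (nat_lit 7) (nat_lit 10) (by decide +kernel)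
theorem L46431 : W_6 (nat_lit 3) (nat_lit 0x3c00100013000dc000800000000000000000000000000) (nat_lit 0x0) (nat_lit 0xe00020008000000000000000000000000000000000000000) := T_6 (nat_lit 173) (nat_lit 159) (nat_lit 2) (nat_lit 3) (nat_lit 10) L46430 (by decide +kernel)
theorem L46432 : W_6 (nat_lit 4) (nat_lit 0x3400100013000dc000800000000000000000000000000) (nat_lit 0x0) (nat_lit 0xe000a0028000000000000000000000000000000000000000) := T_6 (nat_lit 175) (nat_lit 161) (nat_lit 2) (nat_lit 4) (nat_lit 10) L46431 (by decide +kernel)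
theorem L46433 : W_6 (nat_lit 5) (nat_lit 0x3000100013000dc000800000000000000000000000000) (nat_lit 0x0) (nat_lit 0xe000e002a000000000000000000000000000000000000000) := T_6 (nat_lit 174) (nat_lit 157) (nat_lit 6) (nat_lit 4) (nat_lit 10) L46432 (by decide +kernel)
theorem L46434 : W_6 (nat_lit 2) (nat_lit 0x300010001b000dc002800000000000000000000000000) (nat_lit 0x0) (nat_lit 0x1400080000000000000000000000) := D_6 (nat_lit 108) (nat_lit 106) (nat_lit 91) (nat_lit 3) (nat_lit 4) (nat_lit 6) (nat_lit 4) (nat_lit 7) (nat_lit 9) (by decide +kernel)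
theorem L46435 : W_6 (nat_lit 3) (nat_lit 0x300010001b000dc000800000000000000000000000000) (nat_lit 0x0) (nat_lit 0x8000000000003400080000000000000000000000) := T_6 (nat_lit 109) (nat_lit 159) (nat_lit 5) (nat_lit 7) (nat_lit 6) L46434 (by decide +kernel)
theorem L46436 : W_6 (nat_lit 4) (nat_lit 0x3000100013000dc000800000000000000000000000000) (nat_lit 0x0) (nat_lit 0x2000000008000800000003400080000000000000000000000) := T_6 (nat_lit 143) (nat_lit 193) (nat_lit 5) (nat_lit 7) (nat_lit 7) L46435 (by decide +kernel)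
theorem L46437 : W_6 (nat_lit 2) (nat_lit 0x3400b0001b000dc002800000000000000000000000000) (nat_lit 0x0) (nat_lit 0x1400080000000000000000000000) := D_6 (nat_lit 108) (nat_lit 91) (nat_lit 106) (nat_lit 4) (nat_lit 7) (nat_lit 9) (nat_lit 3) (nat_lit 4) (nat_lit 6) (by decide +kernel)
theorem L46438 : W_6 (nat_lit 3) (nat_lit 0x3400b0001b000dc000800000000000000000000000000) (nat_lit 0x0) (nat_lit 0x3400180000000000000000000000) := T_6 (nat_lit 109) (nat_lit 92) (nat_lit 7) (nat_lit 7) (nat_lit 5) L46437 (by decide +kernel)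
theorem L46439 : W_6 (nat_lit 4) (nat_lit 0x340030001b000dc000800000000000000000000000000) (nat_lit 0x0) (nat_lit 0xc0000000000003400180000000000000000000000) := T_6 (nat_lit 163) (nat_lit 162) (nat_lit 1) (nat_lit 10) (nat_lit 9) L46438 (by decide +kernel)
theorem L46440 : W_6 (nat_lit 5) (nat_lit 0x340010001b000dc000800000000000000000000000000) (nat_lit 0x0) (nat_lit 0x800e0000000000003400180000000000000000000000) := T_6 (nat_lit 161) (nat_lit 175) (nat_lit 2) (nat_lit 4) (nat_lit 10) L46439 (by decide +kernel)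
theorem L46441 : W_6 (nat_lit 6) (nat_lit 0x300010001b000dc000800000000000000000000000000) (nat_lit 0x0) (nat_lit 0xc00e2000000000003400180000000000000000000000) := T_6 (nat_lit 174) (nat_lit 157) (nat_lit 6) (nat_lit 4) (nat_lit 10) L46440 (by decide +kernel)
theorem L46442 : W_6 (nat_lit 7) (nat_lit 0x3000100013000dc000800000000000000000000000000) (nat_lit 0x0) (nat_lit 0x20000c00e2000800000003400180000000000000000000000) := T_6 (nat_lit 143) (nat_lit 193) (nat_lit 5) (nat_lit 7) (nat_lit 7) L46441 (by decide +kernel)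
theorem L46443 : W_6 (nat_lit 8) (nat_lit 0x2000100013000dc000800000000000000000000000000) (nat_lit 0x0) (nat_lit 0x2e001e00ea000800000003400180000000000000000000000) := Q_6 (nat_lit 176) (C_6 L46433 (C_6 L46436 (C_6 L46442 N_6))) (by decide +kernel)
theorem L46444 : W_6 (nat_lit 9) (nat_lit 0x20001000130009c000800000000000000000000000000) (nat_lit 0x0) (nat_lit 0x2e001e00ea000800060003400180000000000000000000000) := T_6 (nat_lit 126) (nat_lit 125) (nat_lit 1) (nat_lit 8) (nat_lit 7) L46443 (by decide +kernel)
theorem L46445 : W_6 (nat_lit 10) (nat_lit 0x200010001300098000800000000000000000000000000) (nat_lit 0x0) (nat_lit 0x2e001e00ea0008e0067003400180000000000000000000000) := Q_6 (nat_lit 122) (C_6 L45646 (C_6 L46429 (C_6 L46444 N_6))) (by decide +kernel)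
theorem L46446 : W_6 (nat_lit 11) (nat_lit 0x200010001300098000000000000000000000000000000) (nat_lit 0x0) (nat_lit 0x2e001e00ea0008e0067003c003fc00f800000000000000000) := Q_6 (nat_lit 107) (C_6 L46445 (C_6 L45167 (C_6 L46172 N_6))) (by decide +kernel)
theorem L46447 : W_6 (nat_lit 2) (nat_lit 0x24001000138009c000000000000000000000000000000) (nat_lit 0x0) (nat_lit 0x800000002000000000000200000000000000000000000000) := D_6 (nat_lit 157) (nat_lit 191) (nat_lit 105) (nat_lit 6) (nat_lit 4) (nat_lit 11) (nat_lit 4) (nat_lit 4) (nat_lit 10) (by decide +kernel)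
theorem L46448 : W_6 (nat_lit 2) (nat_lit 0x3e001000138009c000000000000000000000000000000) (nat_lit 0x0) (nat_lit 0xe00000000000000000000000000000000000000000000000) := D_6 (nat_lit 190) (nat_lit 189) (nat_lit 191) (nat_lit 1) (nat_lit 6) (nat_lit 10) (nat_lit 1) (nat_lit 7) (nat_lit 10) (by decide +kernel)
theorem L46449 : W_6 (nat_lit 3) (nat_lit 0x3c001000138009c000000000000000000000000000000) (nat_lit 0x0) (nat_lit 0xe00020008000000000000000000000000000000000000000) := T_6 (nat_lit 173) (nat_lit 159) (nat_lit 2) (nat_lit 3) (nat_lit 10) L46448 (by decide +kernel)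
theorem L46450 : W_6 (nat_lit 2) (nat_lit 0x240010001380098000000000000000000000000000000) (nat_lit 0x0) (nat_lit 0x800000002000000000000800000000000000000000000000) := D_6 (nat_lit 157) (nat_lit 191) (nat_lit 107) (nat_lit 6) (nat_lit 4) (nat_lit 11) (nat_lit 6) (nat_lit 4) (nat_lit 10) (by decide +kernel)
theorem L46451 : W_6 (nat_lit 4) (nat_lit 0x34001000138009c000000000000000000000000000000) (nat_lit 0x0) (nat_lit 0xe000a0028000000000000000000000000000000000000000) := T_6 (nat_lit 175) (nat_lit 161) (nat_lit 2) (nat_lit 4) (nat_lit 10) L46449 (by decide +kernel)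
theorem L46452 : W_6 (nat_lit 2) (nat_lit 0x340010001b800dc002000080000000000000000000000) (nat_lit 0x0) (nat_lit 0x10000c000000000000000000) := D_6 (nat_lit 92) (nat_lit 75) (nat_lit 74) (nat_lit 7) (nat_lit 7) (nat_lit 4) (nat_lit 4) (nat_lit 7) (nat_lit 8) (by decide +kernel)
theorem L46453 : W_6 (nat_lit 3) (nat_lit 0x340010001b800dc002000000000000000000000000000) (nat_lit 0x0) (nat_lit 0x100018000c000000000000000000) := T_6 (nat_lit 91) (nat_lit 108) (nat_lit 4) (nat_lit 7) (nat_lit 9) L46452 (by decide +kernel)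
theorem L46454 : W_6 (nat_lit 4) (nat_lit 0x340010001b800dc000000000000000000000000000000) (nat_lit 0x0) (nat_lit 0x800000000000300018000c000000000000000000) := T_6 (nat_lit 109) (nat_lit 159) (nat_lit 5) (nat_lit 7) (nat_lit 6) L46453 (by decide +kernel)
theorem L46455 : W_6 (nat_lit 5) (nat_lit 0x3400100013800dc000000000000000000000000000000) (nat_lit 0x0) (nat_lit 0x200000000800080000000300018000c000000000000000000) := T_6 (nat_lit 143) (nat_lit 193) (nat_lit 5) (nat_lit 7) (nat_lit 7) L46454 (by decide +kernel)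
theorem L46456 : W_6 (nat_lit 6) (nat_lit 0x34001000138009c000000000000000000000000000000) (nat_lit 0x0) (nat_lit 0x200000000800080006000300018000c000000000000000000) := T_6 (nat_lit 126) (nat_lit 125) (nat_lit 1) (nat_lit 7) (nat_lit 7) L46455 (by decide +kernel)
theorem L46457 : W_6 (nat_lit 2) (nat_lit 0x3e00100013800d8000400000000000000000000000000) (nat_lit 0x0) (nat_lit 0xe00000000000000000000000000000000000000000000000) := D_6 (nat_lit 190) (nat_lit 189) (nat_lit 191) (nat_lit 1) (nat_lit 6) (nat_lit 10) (nat_lit 1) (nat_lit 7) (nat_lit 10) (by decide +kernel)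
theorem L46458 : W_6 (nat_lit 3) (nat_lit 0x3c00100013800d8000400000000000000000000000000) (nat_lit 0x0) (nat_lit 0xe00020008000000000000000000000000000000000000000) := T_6 (nat_lit 173) (nat_lit 159) (nat_lit 2) (nat_lit 3) (nat_lit 10) L46457 (by decide +kernel)
theorem L46459 : W_6 (nat_lit 4) (nat_lit 0x3400100013800d8000400000000000000000000000000) (nat_lit 0x0) (nat_lit 0xe000a0028000000000000000000000000000000000000000) := T_6 (nat_lit 175) (nat_lit 161) (nat_lit 2) (nat_lit 4) (nat_lit 10) L46458 (by decide +kernel)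
theorem L46460 : W_6 (nat_lit 5) (nat_lit 0x340010001380098000400000000000000000000000000) (nat_lit 0x0) (nat_lit 0xe000a0028000000060000000000000000000000000000000) := T_6 (nat_lit 126) (nat_lit 125) (nat_lit 1) (nat_lit 7) (nat_lit 7) L46459 (by decide +kernel)
theorem L46461 : W_6 (nat_lit 2) (nat_lit 0x3e0010001380098000400000000000000000000000000) (nat_lit 0x0) (nat_lit 0xe00000000000000000000000000000000000000000000000) := D_6 (nat_lit 190) (nat_lit 189) (nat_lit 191) (nat_lit 1) (nat_lit 6) (nat_lit 10) (nat_lit 1) (nat_lit 7) (nat_lit 10) (by decide +kernel)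
theorem L46462 : W_6 (nat_lit 3) (nat_lit 0x3c0010001380098000400000000000000000000000000) (nat_lit 0x0) (nat_lit 0xe00020008000000000000000000000000000000000000000) := T_6 (nat_lit 173) (nat_lit 159) (nat_lit 2) (nat_lit 3) (nat_lit 10) L46461 (by decide +kernel)
theorem L46463 : W_6 (nat_lit 2) (nat_lit 0x3e0010001380098000000000000000000000000000000) (nat_lit 0x0) (nat_lit 0xe00000000000000000000000000000000000000000000000) := D_6 (nat_lit 190) (nat_lit 189) (nat_lit 191) (nat_lit 1) (nat_lit 6) (nat_lit 10) (nat_lit 1) (nat_lit 7) (nat_lit 10) (by decide +kernel)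
theorem L46464 : W_6 (nat_lit 3) (nat_lit 0x3c0010001380098000000000000000000000000000000) (nat_lit 0x0) (nat_lit 0xe00020008000000000000000000000000000000000000000) := T_6 (nat_lit 173) (nat_lit 159) (nat_lit 2) (nat_lit 3) (nat_lit 10) L46463 (by decide +kernel)
theorem L46465 : W_6 (nat_lit 4) (nat_lit 0x340010001380098000000000000000000000000000000) (nat_lit 0x0) (nat_lit 0xe000a0028000000000000000000000000000000000000000) := T_6 (nat_lit 175) (nat_lit 161) (nat_lit 2) (nat_lit 4) (nat_lit 10) L46464 (by decide +kernel)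
theorem L46466 : W_6 (nat_lit 2) (nat_lit 0x340010001b800d8002000080000000000000000000000) (nat_lit 0x0) (nat_lit 0x10000c000000000000000000) := D_6 (nat_lit 92) (nat_lit 75) (nat_lit 74) (nat_lit 7) (nat_lit 7) (nat_lit 4) (nat_lit 4) (nat_lit 7) (nat_lit 8) (by decide +kernel)
theorem L46467 : W_6 (nat_lit 3) (nat_lit 0x340010001b800d8002000000000000000000000000000) (nat_lit 0x0) (nat_lit 0x100018000c000000000000000000) := T_6 (nat_lit 91) (nat_lit 108) (nat_lit 4) (nat_lit 7) (nat_lit 9) L46466 (by decide +kernel)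
theorem L46468 : W_6 (nat_lit 4) (nat_lit 0x340010001b800d8000000000000000000000000000000) (nat_lit 0x0) (nat_lit 0x800000000000300018000c000000000000000000) := T_6 (nat_lit 109) (nat_lit 159) (nat_lit 5) (nat_lit 7) (nat_lit 6) L46467 (by decide +kernel)
theorem L46469 : W_6 (nat_lit 5) (nat_lit 0x3400100013800d8000000000000000000000000000000) (nat_lit 0x0) (nat_lit 0x200000000800080000000300018000c000000000000000000) := T_6 (nat_lit 143) (nat_lit 193) (nat_lit 5) (nat_lit 7) (nat_lit 7) L46468 (by decide +kernel)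
theorem L46470 : W_6 (nat_lit 6) (nat_lit 0x340010001380098000000000000000000000000000000) (nat_lit 0x0) (nat_lit 0x200000000800080006000300018000c000000000000000000) := T_6 (nat_lit 126) (nat_lit 125) (nat_lit 1) (nat_lit 7) (nat_lit 7) L46469 (by decide +kernel)
theorem L46471 : W_6 (nat_lit 2) (nat_lit 0x3e001000138009a000000000000000000000000000000) (nat_lit 0x0) (nat_lit 0xe00000000000000000000000000000000000000000000000) := D_6 (nat_lit 190) (nat_lit 189) (nat_lit 191) (nat_lit 1) (nat_lit 6) (nat_lit 10) (nat_lit 1) (nat_lit 7) (nat_lit 10) (by decide +kernel)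
theorem L46472 : W_6 (nat_lit 3) (nat_lit 0x3c001000138009a000000000000000000000000000000) (nat_lit 0x0) (nat_lit 0xe00020008000000000000000000000000000000000000000) := T_6 (nat_lit 173) (nat_lit 159) (nat_lit 2) (nat_lit 3) (nat_lit 10) L46471 (by decide +kernel)
theorem L46473 : W_6 (nat_lit 4) (nat_lit 0x34001000138009a000000000000000000000000000000) (nat_lit 0x0) (nat_lit 0xe000a0028000000000000000000000000000000000000000) := T_6 (nat_lit 175) (nat_lit 161) (nat_lit 2) (nat_lit 4) (nat_lit 10) L46472 (by decide +kernel)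
theorem L46474 : W_6 (nat_lit 2) (nat_lit 0x340010001b800da002000080000000000000000000000) (nat_lit 0x0) (nat_lit 0x10000c000000000000000000) := D_6 (nat_lit 92) (nat_lit 75) (nat_lit 74) (nat_lit 7) (nat_lit 7) (nat_lit 4) (nat_lit 4) (nat_lit 7) (nat_lit 8) (by decide +kernel)
theorem L46475 : W_6 (nat_lit 3) (nat_lit 0x340010001b800da002000000000000000000000000000) (nat_lit 0x0) (nat_lit 0x100018000c000000000000000000) := T_6 (nat_lit 91) (nat_lit 108) (nat_lit 4) (nat_lit 7) (nat_lit 9) L46474 (by decide +kernel)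
theorem L46476 : W_6 (nat_lit 4) (nat_lit 0x340010001b800da000000000000000000000000000000) (nat_lit 0x0) (nat_lit 0x800000000000300018000c000000000000000000) := T_6 (nat_lit 109) (nat_lit 159) (nat_lit 5) (nat_lit 7) (nat_lit 6) L46475 (by decide +kernel)
theorem L46477 : W_6 (nat_lit 5) (nat_lit 0x3400100013800da000000000000000000000000000000) (nat_lit 0x0) (nat_lit 0x200000000800080000000300018000c000000000000000000) := T_6 (nat_lit 143) (nat_lit 193) (nat_lit 5) (nat_lit 7) (nat_lit 7) L46476 (by decide +kernel)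
theorem L46478 : W_6 (nat_lit 6) (nat_lit 0x34001000138009a000000000000000000000000000000) (nat_lit 0x0) (nat_lit 0x200000000800080006000300018000c000000000000000000) := T_6 (nat_lit 126) (nat_lit 125) (nat_lit 1) (nat_lit 7) (nat_lit 7) L46477 (by decide +kernel)
theorem L46479 : W_6 (nat_lit 2) (nat_lit 0x21003f00104013800d8000000000000000000000000000000) (nat_lit 0x0) (nat_lit 0x80008000200000000000000000000000000000000000000) := D_6 (nat_lit 171) (nat_lit 153) (nat_lit 187) (nat_lit 0) (nat_lit 4) (nat_lit 10) (nat_lit 1) (nat_lit 4) (nat_lit 10) (by decide +kernel)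
theorem L46480 : W_6 (nat_lit 3) (nat_lit 0x20003f00104013800d8000000000000000000000000000000) (nat_lit 0x0) (nat_lit 0x380008000200000000000000000000000000000000000000) := T_6 (nat_lit 188) (nat_lit 189) (nat_lit 1) (nat_lit 5) (nat_lit 10) L46479 (by decide +kernel)
theorem L46481 : W_6 (nat_lit 4) (nat_lit 0x20003f00100013800d8000000000000000000000000000000) (nat_lit 0x0) (nat_lit 0x380008000e00000000000000000000000000000000000000) := T_6 (nat_lit 154) (nat_lit 155) (nat_lit 0) (nat_lit 5) (nat_lit 10) L46480 (by decide +kernel)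
theorem L46482 : W_6 (nat_lit 5) (nat_lit 0x20003e00100013800d8000000000000000000000000000000) (nat_lit 0x0) (nat_lit 0x1380018000e00000000000000000000000000000000000000) := T_6 (nat_lit 172) (nat_lit 192) (nat_lit 3) (nat_lit 2) (nat_lit 10) L46481 (by decide +kernel)
theorem L46483 : W_6 (nat_lit 6) (nat_lit 0x3e00100013800d8000000000000000000000000000000) (nat_lit 0x0) (nat_lit 0x3380018000e00800000000000000000000000000000000000) := T_6 (nat_lit 193) (nat_lit 143) (nat_lit 5) (nat_lit 7) (nat_lit 7) L46482 (by decide +kernel)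
theorem L46484 : W_6 (nat_lit 2) (nat_lit 0x2400100013800bc000100000000000000000000000000) (nat_lit 0x0) (nat_lit 0x3000080000000000000000000000000) := D_6 (nat_lit 121) (nat_lit 103) (nat_lit 120) (nat_lit 0) (nat_lit 5) (nat_lit 7) (nat_lit 3) (nat_lit 1) (nat_lit 7) (by decide +kernel)
theorem L46485 : W_6 (nat_lit 3) (nat_lit 0x2400100013800bc000000000000000000000000000000) (nat_lit 0x0) (nat_lit 0x3000380000000000000000000000000) := T_6 (nat_lit 104) (nat_lit 105) (nat_lit 0) (nat_lit 6) (nat_lit 7) L46484 (by decide +kernel)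
theorem L46486 : W_6 (nat_lit 2) (nat_lit 0x200012001380098000000000000000000000000000000) (nat_lit 0x0) (nat_lit 0x800040000000000000000800000000000000000000000000) := D_6 (nat_lit 174) (nat_lit 191) (nat_lit 107) (nat_lit 6) (nat_lit 4) (nat_lit 11) (nat_lit 6) (nat_lit 4) (nat_lit 10) (by decide +kernel)
theorem L46487 : W_6 (nat_lit 2) (nat_lit 0x200012001380098000200000000000000000000000000) (nat_lit 0x0) (nat_lit 0x4000400010000000000000000000000) := D_6 (nat_lit 88) (nat_lit 106) (nat_lit 122) (nat_lit 4) (nat_lit 4) (nat_lit 9) (nat_lit 7) (nat_lit 3) (nat_lit 5) (by decide +kernel)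
theorem L46488 : W_6 (nat_lit 2) (nat_lit 0x200012001380098000700000000000000000000000000) (nat_lit 0x0) (nat_lit 0x60000800000000000000000000000000) := D_6 (nat_lit 125) (nat_lit 126) (nat_lit 107) (nat_lit 1) (nat_lit 7) (nat_lit 7) (nat_lit 3) (nat_lit 2) (nat_lit 6) (by decide +kernel)
theorem L46489 : W_6 (nat_lit 3) (nat_lit 0x200012001380098000600000000000000000000000000) (nat_lit 0x0) (nat_lit 0x60000980000000000000000000000000) := T_6 (nat_lit 104) (nat_lit 103) (nat_lit 3) (nat_lit 1) (nat_lit 6) L46488 (by decide +kernel)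
theorem L46490 : W_6 (nat_lit 4) (nat_lit 0x200012001380098000200000000000000000000000000) (nat_lit 0x0) (nat_lit 0x60000d80010000000000000000000000) := T_6 (nat_lit 106) (nat_lit 88) (nat_lit 4) (nat_lit 4) (nat_lit 9) L46489 (by decide +kernel)
theorem L46491 : W_6 (nat_lit 2) (nat_lit 0x20001200138009c000200000000000000000000000000) (nat_lit 0x0) (nat_lit 0x60000100000000000000000000000000) := D_6 (nat_lit 125) (nat_lit 126) (nat_lit 104) (nat_lit 1) (nat_lit 7) (nat_lit 7) (nat_lit 0) (nat_lit 6) (nat_lit 7) (by decide +kernel)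
theorem L46492 : W_6 (nat_lit 3) (nat_lit 0x200012001380098000200000000000000000000000000) (nat_lit 0x0) (nat_lit 0x64000100010000000000000000000000) := T_6 (nat_lit 122) (nat_lit 88) (nat_lit 7) (nat_lit 3) (nat_lit 5) L46491 (by decide +kernel)
theorem L46493 : W_6 (nat_lit 2) (nat_lit 0x2000120013800be000200000000000000000000000000) (nat_lit 0x0) (nat_lit 0x3800000000000000000000000000) := D_6 (nat_lit 108) (nat_lit 109) (nat_lit 107) (nat_lit 2) (nat_lit 3) (nat_lit 7) (nat_lit 2) (nat_lit 2) (nat_lit 7) (by decide +kernel)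
theorem L46494 : W_6 (nat_lit 3) (nat_lit 0x2000120013800bc000200000000000000000000000000) (nat_lit 0x0) (nat_lit 0x3003800000000000000000000000000) := T_6 (nat_lit 121) (nat_lit 120) (nat_lit 3) (nat_lit 1) (nat_lit 7) L46493 (by decide +kernel)
theorem L46495 : W_6 (nat_lit 4) (nat_lit 0x2000120013800b8000200000000000000000000000000) (nat_lit 0x0) (nat_lit 0x7003900000000000000000000000000) := T_6 (nat_lit 122) (nat_lit 104) (nat_lit 0) (nat_lit 6) (nat_lit 7) L46494 (by decide +kernel)
theorem L46496 : W_6 (nat_lit 5) (nat_lit 0x200012001380098000200000000000000000000000000) (nat_lit 0x0) (nat_lit 0x67003900000000000000000000000000) := T_6 (nat_lit 125) (nat_lit 126) (nat_lit 1) (nat_lit 7) (nat_lit 7) L46495 (by decide +kernel)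
theorem L46497 : W_6 (nat_lit 6) (nat_lit 0x200012001380098000000000000000000000000000000) (nat_lit 0x0) (nat_lit 0x67003f80010000000000000000000000) := Q_6 (nat_lit 105) (C_6 L46487 (C_6 L46490 (C_6 L46492 (C_6 L46496 N_6)))) (by decide +kernel)
theorem L46498 : W_6 (nat_lit 7) (nat_lit 0x200010001380098000000000000000000000000000000) (nat_lit 0x0) (nat_lit 0x1c001e002a000000067003f80010000000000000000000000) := Q_6 (nat_lit 157) (C_6 L46486 (C_6 L46497 (C_6 L46423 N_6))) (by decide +kernel)
theorem L46499 : W_6 (nat_lit 2) (nat_lit 0x200012001380098000400020000000000000000000000) (nat_lit 0x0) (nat_lit 0x200010000800000000000000000) := D_6 (nat_lit 88) (nat_lit 105) (nat_lit 71) (nat_lit 4) (nat_lit 4) (nat_lit 9) (nat_lit 4) (nat_lit 4) (nat_lit 8) (by decide +kernel)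
theorem L46500 : W_6 (nat_lit 3) (nat_lit 0x200012001380098000400000000000000000000000000) (nat_lit 0x0) (nat_lit 0x200030001800000000000000000) := T_6 (nat_lit 89) (nat_lit 72) (nat_lit 7) (nat_lit 4) (nat_lit 4) L46499 (by decide +kernel)
theorem L46501 : W_6 (nat_lit 2) (nat_lit 0x2000128013c0098000200010000000000000000000000) (nat_lit 0x0) (nat_lit 0x3000100000000000000000000000000) := D_6 (nat_lit 121) (nat_lit 120) (nat_lit 104) (nat_lit 0) (nat_lit 5) (nat_lit 8) (nat_lit 6) (nat_lit 2) (nat_lit 9) (by decide +kernel)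
theorem L46502 : W_6 (nat_lit 3) (nat_lit 0x2000120013c0098000200010000000000000000000000) (nat_lit 0x0) (nat_lit 0xc00000003000100000000000000000000000000) := T_6 (nat_lit 155) (nat_lit 154) (nat_lit 1) (nat_lit 5) (nat_lit 8) L46501 (by decide +kernel)
theorem L46503 : W_6 (nat_lit 4) (nat_lit 0x2000120013c0098000200000000000000000000000000) (nat_lit 0x0) (nat_lit 0xc00000003000500010000000000000000000000) := T_6 (nat_lit 88) (nat_lit 106) (nat_lit 4) (nat_lit 4) (nat_lit 9) L46502 (by decide +kernel)
theorem L46504 : W_6 (nat_lit 5) (nat_lit 0x200012001380098000200000000000000000000000000) (nat_lit 0x0) (nat_lit 0xc00060003000500010000000000000000000000) := T_6 (nat_lit 138) (nat_lit 137) (nat_lit 2) (nat_lit 1) (nat_lit 8) L46503 (by decide +kernel)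
theorem L46505 : W_6 (nat_lit 4) (nat_lit 0x200012001380098000200010000000000000000000000) (nat_lit 0x0) (nat_lit 0xc00060003000100000000000000000000000000) := T_6 (nat_lit 138) (nat_lit 137) (nat_lit 2) (nat_lit 1) (nat_lit 8) L46502 (by decide +kernel)
theorem L46506 : W_6 (nat_lit 5) (nat_lit 0x200012001380098000200000000000000000000000000) (nat_lit 0x0) (nat_lit 0xc00060007000100010000000000000000000000) := T_6 (nat_lit 88) (nat_lit 122) (nat_lit 7) (nat_lit 3) (nat_lit 5) L46505 (by decide +kernel)
theorem L46507 : W_6 (nat_lit 2) (nat_lit 0x5002100128013c009a000200000000000000000000000000) (nat_lit 0x0) (nat_lit 0xa000200000000000000000000000000000000000000000000000) := D_6 (nat_lit 189) (nat_lit 207) (nat_lit 205) (nat_lit 7) (nat_lit 2) (nat_lit 8) (nat_lit 5) (nat_lit 2) (nat_lit 8) (by decide +kernel)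
theorem L46508 : W_6 (nat_lit 3) (nat_lit 0x4002100128013c009a000200000000000000000000000000) (nat_lit 0x0) (nat_lit 0xa000300008000000000000000000000000000000000000000000) := T_6 (nat_lit 188) (nat_lit 171) (nat_lit 5) (nat_lit 2) (nat_lit 7) L46507 (by decide +kernel)
theorem L46509 : W_6 (nat_lit 4) (nat_lit 0x2100128013c009a000200000000000000000000000000) (nat_lit 0x0) (nat_lit 0xa000700028000000000000000000000000000000000000000000) := T_6 (nat_lit 190) (nat_lit 173) (nat_lit 7) (nat_lit 2) (nat_lit 7) L46508 (by decide +kernel)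
theorem L46510 : W_6 (nat_lit 5) (nat_lit 0x2000128013c009a000200000000000000000000000000) (nat_lit 0x0) (nat_lit 0xa000700038000000000004000000000000000000000000000000) := T_6 (nat_lit 172) (nat_lit 122) (nat_lit 6) (nat_lit 2) (nat_lit 10) L46509 (by decide +kernel)
theorem L46511 : W_6 (nat_lit 6) (nat_lit 0x2000120013c009a000200000000000000000000000000) (nat_lit 0x0) (nat_lit 0xa000700038000c00000004000000000000000000000000000000) := T_6 (nat_lit 155) (nat_lit 154) (nat_lit 1) (nat_lit 5) (nat_lit 8) L46510 (by decide +kernel)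
theorem L46512 : W_6 (nat_lit 7) (nat_lit 0x2000120013c0098000200000000000000000000000000) (nat_lit 0x0) (nat_lit 0xa000700038000c00000007000000000000000000000000000000) := T_6 (nat_lit 121) (nat_lit 120) (nat_lit 0) (nat_lit 5) (nat_lit 8) L46511 (by decide +kernel)
theorem L46513 : W_6 (nat_lit 8) (nat_lit 0x200012001380098000200000000000000000000000000) (nat_lit 0x0) (nat_lit 0xa000700038000c00060007000000000000000000000000000000) := T_6 (nat_lit 138) (nat_lit 137) (nat_lit 2) (nat_lit 1) (nat_lit 8) L46512 (by decide +kernel)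
theorem L46514 : W_6 (nat_lit 9) (nat_lit 0x200012001380098000000000000000000000000000000) (nat_lit 0x0) (nat_lit 0xa000700038000c00060007000700010000000000000000000000) := Q_6 (nat_lit 105) (C_6 L46487 (C_6 L46504 (C_6 L46506 (C_6 L46513 N_6)))) (by decide +kernel)
theorem L46515 : W_6 (nat_lit 10) (nat_lit 0x200010001380098000000000000000000000000000000) (nat_lit 0x0) (nat_lit 0xa000f00078002c00060007000f00010000000000000000000000) := Q_6 (nat_lit 157) (C_6 L46486 (C_6 L46514 N_6)) (by decide +kernel)
theorem L46516 : W_6 (nat_lit 11) (nat_lit 0x200010001300098000000000000000000000000000000) (nat_lit 0x0) (nat_lit 0xa001f001f802ac000e0067003f80010000000000000000000000) := Q_6 (nat_lit 139) (C_6 L45312 (C_6 L46498 (C_6 L46515 N_6))) (by decide +kernel)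
theorem L46517 : W_6 (nat_lit 12) (nat_lit 0x200010001300098000000000000000000000000000000) (nat_lit 0x0) (nat_lit 0x2e001e00ea0008e0067003f807e003f000000000000000000) := Q_6 (nat_lit 107) (C_6 L46445 (C_6 L45167 (C_6 L46194 N_6))) (by decide +kernel)
theorem L46518 : W_6 (nat_lit 2) (nat_lit 0x24001000134009e000900000000000000000000000000) (nat_lit 0x0) (nat_lit 0x80020000200000000000000000000000000) := D_6 (nat_lit 125) (nat_lit 105) (nat_lit 139) (nat_lit 0) (nat_lit 6) (nat_lit 7) (nat_lit 2) (nat_lit 2) (nat_lit 8) (by decide +kernel)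
theorem L46519 : W_6 (nat_lit 3) (nat_lit 0x24001000130009e000900000000000000000000000000) (nat_lit 0x0) (nat_lit 0xe0020000200000000000000000000000000) := T_6 (nat_lit 138) (nat_lit 137) (nat_lit 1) (nat_lit 5) (nat_lit 7) L46518 (by decide +kernel)
theorem L46520 : W_6 (nat_lit 4) (nat_lit 0x24001000130009e000800000000000000000000000000) (nat_lit 0x0) (nat_lit 0xe0020000380000000000000000000000000) := T_6 (nat_lit 104) (nat_lit 103) (nat_lit 0) (nat_lit 5) (nat_lit 7) L46519 (by decide +kernel)
theorem L46521 : W_6 (nat_lit 5) (nat_lit 0x24001000130009c000800000000000000000000000000) (nat_lit 0x0) (nat_lit 0xe0023000380000000000000000000000000) := T_6 (nat_lit 121) (nat_lit 120) (nat_lit 3) (nat_lit 1) (nat_lit 7) L46520 (by decide +kernel)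
theorem L46522 : W_6 (nat_lit 6) (nat_lit 0x20001000130009c000800000000000000000000000000) (nat_lit 0x0) (nat_lit 0x400020000e0023000380000000000000000000000000) := T_6 (nat_lit 174) (nat_lit 157) (nat_lit 6) (nat_lit 4) (nat_lit 10) L46521 (by decide +kernel)
theorem L46523 : W_6 (nat_lit 2) (nat_lit 0x24001000130009c000b00000000800000000000000000) (nat_lit 0x0) (nat_lit 0x4c0000000000000000000000000) := D_6 (nat_lit 103) (nat_lit 102) (nat_lit 106) (nat_lit 3) (nat_lit 0) (nat_lit 6) (nat_lit 3) (nat_lit 1) (nat_lit 6) (by decide +kernel)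
theorem L46524 : W_6 (nat_lit 3) (nat_lit 0x24001000130009c000a00000000800000000000000000) (nat_lit 0x0) (nat_lit 0x200005c0000000000000000000000000) := T_6 (nat_lit 104) (nat_lit 125) (nat_lit 0) (nat_lit 6) (nat_lit 7) L46523 (by decide +kernel)
theorem L46525 : W_6 (nat_lit 4) (nat_lit 0x24001000130009c000a00000000000000000000000000) (nat_lit 0x0) (nat_lit 0x200005c0010000800000000000000000) := T_6 (nat_lit 71) (nat_lit 88) (nat_lit 7) (nat_lit 3) (nat_lit 4) L46524 (by decide +kernel)
theorem L46526 : W_6 (nat_lit 5) (nat_lit 0x20001000130009c000a00000000000000000000000000) (nat_lit 0x0) (nat_lit 0x400020000000200005c0010000800000000000000000) := T_6 (nat_lit 174) (nat_lit 157) (nat_lit 6) (nat_lit 4) (nat_lit 10) L46525 (by decide +kernel)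
theorem L46527 : W_6 (nat_lit 6) (nat_lit 0x2000100013000bc000a00000000000000000000000000) (nat_lit 0x0) (nat_lit 0xc0000003400098004c00000000000000000) := T_6 (nat_lit 139) (nat_lit 138) (nat_lit 2) (nat_lit 2) (nat_lit 8) L42431 (by decide +kernel)
theorem L46528 : W_6 (nat_lit 7) (nat_lit 0x20001000130009c000a00000000000000000000000000) (nat_lit 0x0) (nat_lit 0xc0020003500098004c00000000000000000) := T_6 (nat_lit 125) (nat_lit 104) (nat_lit 0) (nat_lit 6) (nat_lit 7) L46527 (by decide +kernel)
theorem L46529 : W_6 (nat_lit 2) (nat_lit 0x20001000130009c000a00010000000000000000000000) (nat_lit 0x0) (nat_lit 0x40002000080000000000000000000000000000000000) := D_6 (nat_lit 157) (nat_lit 174) (nat_lit 139) (nat_lit 6) (nat_lit 4) (nat_lit 10) (nat_lit 7) (nat_lit 3) (nat_lit 5) (by decide +kernel)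
theorem L46530 : W_6 (nat_lit 3) (nat_lit 0x20001000130009c000a00000000000000000000000000) (nat_lit 0x0) (nat_lit 0x40002000080000000000010000800000000000000000) := T_6 (nat_lit 88) (nat_lit 71) (nat_lit 7) (nat_lit 3) (nat_lit 4) L46529 (by decide +kernel)
theorem L46531 : W_6 (nat_lit 2) (nat_lit 0x24001000130009c000b00000000000000000000000000) (nat_lit 0x0) (nat_lit 0x4c0000000000000000000000000) := D_6 (nat_lit 103) (nat_lit 102) (nat_lit 106) (nat_lit 3) (nat_lit 0) (nat_lit 6) (nat_lit 3) (nat_lit 1) (nat_lit 6) (by decide +kernel)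
theorem L46532 : W_6 (nat_lit 3) (nat_lit 0x24001000130009c000a00000000000000000000000000) (nat_lit 0x0) (nat_lit 0x200005c0000000000000000000000000) := T_6 (nat_lit 104) (nat_lit 125) (nat_lit 0) (nat_lit 6) (nat_lit 7) L46531 (by decide +kernel)
theorem L46533 : W_6 (nat_lit 4) (nat_lit 0x20001000130009c000a00000000000000000000000000) (nat_lit 0x0) (nat_lit 0x400020000000200005c0000000000000000000000000) := T_6 (nat_lit 174) (nat_lit 157) (nat_lit 6) (nat_lit 4) (nat_lit 10) L46532 (by decide +kernel)
theorem L46534 : W_6 (nat_lit 8) (nat_lit 0x20001000130009c000800000000000000000000000000) (nat_lit 0x0) (nat_lit 0x400020000c00200037c0098004c00000000000000000) := Q_6 (nat_lit 105) (C_6 L46526 (C_6 L46528 (C_6 L46530 (C_6 L46533 N_6)))) (by decide +kernel)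
theorem L46535 : W_6 (nat_lit 9) (nat_lit 0x200010001300098000800000000000000000000000000) (nat_lit 0x0) (nat_lit 0x400020000e00270037c0098004c00000000000000000) := Q_6 (nat_lit 122) (C_6 L45646 (C_6 L46522 (C_6 L46534 N_6))) (by decide +kernel)
theorem L46536 : W_6 (nat_lit 2) (nat_lit 0x20001000134009e000900000002000000000000000000) (nat_lit 0x0) (nat_lit 0x80020000200000000000000000000000000) := D_6 (nat_lit 125) (nat_lit 105) (nat_lit 139) (nat_lit 0) (nat_lit 6) (nat_lit 7) (nat_lit 2) (nat_lit 2) (nat_lit 8) (by decide +kernel)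
theorem L46537 : W_6 (nat_lit 3) (nat_lit 0x20001000130009e000900000002000000000000000000) (nat_lit 0x0) (nat_lit 0xe0020000200000000000000000000000000) := T_6 (nat_lit 138) (nat_lit 137) (nat_lit 1) (nat_lit 5) (nat_lit 7) L46536 (by decide +kernel)
theorem L46538 : W_6 (nat_lit 4) (nat_lit 0x20001000130009e000800000002000000000000000000) (nat_lit 0x0) (nat_lit 0xe0020000380000000000000000000000000) := T_6 (nat_lit 104) (nat_lit 103) (nat_lit 0) (nat_lit 5) (nat_lit 7) L46537 (by decide +kernel)
theorem L46539 : W_6 (nat_lit 5) (nat_lit 0x20001000130009c000800000002000000000000000000) (nat_lit 0x0) (nat_lit 0xe0023000380000000000000000000000000) := T_6 (nat_lit 121) (nat_lit 120) (nat_lit 3) (nat_lit 1) (nat_lit 7) L46538 (by decide +kernel)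
theorem L46540 : W_6 (nat_lit 6) (nat_lit 0x20001000130009c000800000000000000000000000000) (nat_lit 0x0) (nat_lit 0xe0023000380040002000000000000000000) := T_6 (nat_lit 73) (nat_lit 90) (nat_lit 5) (nat_lit 5) (nat_lit 4) L46539 (by decide +kernel)
theorem L46541 : W_6 (nat_lit 4) (nat_lit 0x20001000130009c000c00060000000000000000000000) (nat_lit 0x0) (nat_lit 0x100009c004800000000000000000) := T_6 (nat_lit 91) (nat_lit 74) (nat_lit 6) (nat_lit 5) (nat_lit 8) L43728 (by decide +kernel)
theorem L46542 : W_6 (nat_lit 5) (nat_lit 0x20001000130009c000c00040000000000000000000000) (nat_lit 0x0) (nat_lit 0x10000bc005800000000000000000) := T_6 (nat_lit 89) (nat_lit 72) (nat_lit 7) (nat_lit 4) (nat_lit 4) L46541 (by decide +kernel)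
theorem L46543 : W_6 (nat_lit 6) (nat_lit 0x20001000130009c000c00000000000000000000000000) (nat_lit 0x0) (nat_lit 0x10000fc007800000000000000000) := T_6 (nat_lit 90) (nat_lit 73) (nat_lit 5) (nat_lit 5) (nat_lit 4) L46542 (by decide +kernel)
theorem L46544 : W_6 (nat_lit 7) (nat_lit 0x20001000130009c000c00000000000000000000000000) (nat_lit 0x0) (nat_lit 0x3001fc007800000000000000000) := T_6 (nat_lit 89) (nat_lit 72) (nat_lit 7) (nat_lit 4) (nat_lit 4) L44872 (by decide +kernel)
theorem L46545 : W_6 (nat_lit 5) (nat_lit 0x20001000130009c000c00000000000000000000000000) (nat_lit 0x0) (nat_lit 0x320003c001800000000000000000) := T_6 (nat_lit 108) (nat_lit 109) (nat_lit 1) (nat_lit 7) (nat_lit 6) L44910 (by decide +kernel)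
theorem L46546 : W_6 (nat_lit 2) (nat_lit 0x20001000130009c001c000c0000000000000000000000) (nat_lit 0x0) (nat_lit 0x300100000000000000000000000) := D_6 (nat_lit 105) (nat_lit 92) (nat_lit 104) (nat_lit 2) (nat_lit 3) (nat_lit 6) (nat_lit 2) (nat_lit 2) (nat_lit 6) (by decide +kernel)
theorem L46547 : W_6 (nat_lit 3) (nat_lit 0x20001000130009c001c00040000000000000000000000) (nat_lit 0x0) (nat_lit 0x300180004000000000000000000) := T_6 (nat_lit 91) (nat_lit 74) (nat_lit 6) (nat_lit 5) (nat_lit 8) L46546 (by decide +kernel)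
theorem L46548 : W_6 (nat_lit 4) (nat_lit 0x20001000130009c000c00040000000000000000000000) (nat_lit 0x0) (nat_lit 0x3300180004000000000000000000) := T_6 (nat_lit 108) (nat_lit 109) (nat_lit 1) (nat_lit 7) (nat_lit 6) L46547 (by decide +kernel)
theorem L46549 : W_6 (nat_lit 5) (nat_lit 0x20001000130009c000c00000000000000000000000000) (nat_lit 0x0) (nat_lit 0x33001c0006000000000000000000) := T_6 (nat_lit 90) (nat_lit 73) (nat_lit 5) (nat_lit 5) (nat_lit 4) L46548 (by decide +kernel)
theorem L46550 : W_6 (nat_lit 8) (nat_lit 0x20001000130009c000800000000000000000000000000) (nat_lit 0x0) (nat_lit 0x37001fc007800000000000000000) := Q_6 (nat_lit 106) (C_6 L46543 (C_6 L46544 (C_6 L46545 (C_6 L46549 N_6)))) (by decide +kernel)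
theorem L46551 : W_6 (nat_lit 9) (nat_lit 0x200010001300098000800000000000000000000000000) (nat_lit 0x0) (nat_lit 0xe00270037801fc007800000000000000000) := Q_6 (nat_lit 122) (C_6 L45646 (C_6 L46540 (C_6 L46550 N_6))) (by decide +kernel)
theorem L46552 : W_6 (nat_lit 10) (nat_lit 0x200010001300098000000000000000000000000000000) (nat_lit 0x0) (nat_lit 0x400020000e0027003fc01fc007c00000000000000000) := Q_6 (nat_lit 107) (C_6 L46535 (C_6 L45167 (C_6 L46551 N_6))) (by decide +kernel)
theorem L46553 : W_6 (nat_lit 14) (nat_lit 0x200010001300088000000000000000000000000000000) (nat_lit 0x0) (nat_lit 0xa003f001f80eac008e0077003fc07fe03fe00040000000000000) := Q_6 (nat_lit 124) (C_6 L45928 (C_6 L45661 (C_6 L46203 (C_6 L46399 (C_6 L46415 (C_6 L45415 (C_6 L46425 (C_6 L46426 (C_6 L46446 (C_6 L46516 (C_6 L46517 (C_6 L46552 N_6)))))))))))) (by decide +kernel)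
theorem L46554 : W_6 (nat_lit 2) (nat_lit 0x2000100013000be000400000000000000000000000000) (nat_lit 0x0) (nat_lit 0x3800000000000000000000000000) := D_6 (nat_lit 108) (nat_lit 109) (nat_lit 107) (nat_lit 2) (nat_lit 3) (nat_lit 7) (nat_lit 2) (nat_lit 2) (nat_lit 7) (by decide +kernel)
theorem L46555 : W_6 (nat_lit 3) (nat_lit 0x2000100013000bc000400000000000000000000000000) (nat_lit 0x0) (nat_lit 0x3003800000000000000000000000000) := T_6 (nat_lit 121) (nat_lit 120) (nat_lit 3) (nat_lit 1) (nat_lit 7) L46554 (by decide +kernel)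
theorem L46556 : W_6 (nat_lit 4) (nat_lit 0x20001000130009c000400000000000000000000000000) (nat_lit 0x0) (nat_lit 0x63003800000000000000000000000000) := T_6 (nat_lit 125) (nat_lit 126) (nat_lit 1) (nat_lit 8) (nat_lit 7) L46555 (by decide +kernel)
theorem L46557 : W_6 (nat_lit 2) (nat_lit 0x22801080134009e000d00030000000000000000000000) (nat_lit 0x0) (nat_lit 0x500010000000000000000000000000000000000000000000) := D_6 (nat_lit 172) (nat_lit 190) (nat_lit 188) (nat_lit 7) (nat_lit 2) (nat_lit 7) (nat_lit 5) (nat_lit 2) (nat_lit 7) (by decide +kernel)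
theorem L46558 : W_6 (nat_lit 3) (nat_lit 0x22001080134009e000d00030000000000000000000000) (nat_lit 0x0) (nat_lit 0x500018000400000000000000000000000000000000000000) := T_6 (nat_lit 171) (nat_lit 154) (nat_lit 5) (nat_lit 2) (nat_lit 6) L46557 (by decide +kernel)
theorem L46559 : W_6 (nat_lit 4) (nat_lit 0x20001080134009e000d00030000000000000000000000) (nat_lit 0x0) (nat_lit 0x500038001400000000000000000000000000000000000000) := T_6 (nat_lit 173) (nat_lit 156) (nat_lit 7) (nat_lit 2) (nat_lit 6) L46558 (by decide +kernel)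
theorem L46560 : W_6 (nat_lit 5) (nat_lit 0x20001000134009e000d00030000000000000000000000) (nat_lit 0x0) (nat_lit 0x500038001c00000000000200000000000000000000000000) := T_6 (nat_lit 155) (nat_lit 105) (nat_lit 6) (nat_lit 2) (nat_lit 9) L46559 (by decide +kernel)
theorem L46561 : W_6 (nat_lit 6) (nat_lit 0x20001000130009e000d00030000000000000000000000) (nat_lit 0x0) (nat_lit 0x500038001c00060000000200000000000000000000000000) := T_6 (nat_lit 138) (nat_lit 137) (nat_lit 1) (nat_lit 5) (nat_lit 7) L46560 (by decide +kernel)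
theorem L46562 : W_6 (nat_lit 7) (nat_lit 0x20001000130009e000c00030000000000000000000000) (nat_lit 0x0) (nat_lit 0x500038001c00060000000380000000000000000000000000) := T_6 (nat_lit 104) (nat_lit 103) (nat_lit 0) (nat_lit 5) (nat_lit 7) L46561 (by decide +kernel)
theorem L46563 : W_6 (nat_lit 8) (nat_lit 0x20001000130009e000c00020000000000000000000000) (nat_lit 0x0) (nat_lit 0x500038001c00060000000380010000800000000000000000) := T_6 (nat_lit 88) (nat_lit 71) (nat_lit 4) (nat_lit 4) (nat_lit 8) L46562 (by decide +kernel)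
theorem L46564 : W_6 (nat_lit 9) (nat_lit 0x20001000130009e000400020000000000000000000000) (nat_lit 0x0) (nat_lit 0x500038001c00060000001b80010000800000000000000000) := T_6 (nat_lit 107) (nat_lit 108) (nat_lit 2) (nat_lit 2) (nat_lit 7) L46563 (by decide +kernel)
theorem L46565 : W_6 (nat_lit 10) (nat_lit 0x20001000130009e000400000000000000000000000000) (nat_lit 0x0) (nat_lit 0x500038001c00060000001b80030001800000000000000000) := T_6 (nat_lit 89) (nat_lit 72) (nat_lit 7) (nat_lit 4) (nat_lit 4) L46564 (by decide +kernel)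
theorem L46566 : W_6 (nat_lit 11) (nat_lit 0x20001000130009c000400000000000000000000000000) (nat_lit 0x0) (nat_lit 0x500038001c00060003001b80030001800000000000000000) := T_6 (nat_lit 121) (nat_lit 120) (nat_lit 3) (nat_lit 1) (nat_lit 7) L46565 (by decide +kernel)
theorem L46567 : W_6 (nat_lit 6) (nat_lit 0x2000100013000bc000400000001000000000000000000) (nat_lit 0x0) (nat_lit 0x3b00198004800000000000000000) := T_6 (nat_lit 105) (nat_lit 104) (nat_lit 0) (nat_lit 6) (nat_lit 7) L44014 (by decide +kernel)
theorem L46568 : W_6 (nat_lit 7) (nat_lit 0x20001000130009c000400000001000000000000000000) (nat_lit 0x0) (nat_lit 0x60003b00198004800000000000000000) := T_6 (nat_lit 125) (nat_lit 126) (nat_lit 1) (nat_lit 8) (nat_lit 7) L46567 (by decide +kernel)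
theorem L46569 : W_6 (nat_lit 8) (nat_lit 0x20001000130009c000400000000000000000000000000) (nat_lit 0x0) (nat_lit 0x60003b001b8005800000000000000000) := T_6 (nat_lit 72) (nat_lit 89) (nat_lit 7) (nat_lit 4) (nat_lit 4) L46568 (by decide +kernel)
theorem L46570 : W_6 (nat_lit 12) (nat_lit 0x200010001300098000400000000000000000000000000) (nat_lit 0x0) (nat_lit 0x500038001c00060067003b801b8005800000000000000000) := Q_6 (nat_lit 122) (C_6 L46556 (C_6 L46106 (C_6 L46566 (C_6 L46569 N_6)))) (by decide +kernel)
theorem L46571 : W_6 (nat_lit 11) (nat_lit 0x200010001300098000400000000000000000000000000) (nat_lit 0x0) (nat_lit 0xc00060067001b803fc007800000000000000000) := Q_6 (nat_lit 107) (C_6 L45635 (C_6 L45963 (C_6 L45644 (C_6 L43173 N_6)))) (by decide +kernel)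
theorem L46572 : W_6 (nat_lit 2) (nat_lit 0x2000100013000b8000d00070000000000000000000000) (nat_lit 0x0) (nat_lit 0x8000c000000000000000000000) := D_6 (nat_lit 87) (nat_lit 86) (nat_lit 103) (nat_lit 3) (nat_lit 1) (nat_lit 5) (nat_lit 1) (nat_lit 5) (nat_lit 5) (by decide +kernel)
theorem L46573 : W_6 (nat_lit 3) (nat_lit 0x2000100013000b8000d00060000000000000000000000) (nat_lit 0x0) (nat_lit 0x8001c000800000000000000000) := T_6 (nat_lit 88) (nat_lit 71) (nat_lit 4) (nat_lit 4) (nat_lit 8) L46572 (by decide +kernel)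
theorem L46574 : W_6 (nat_lit 4) (nat_lit 0x2000100013000b8000d00040000000000000000000000) (nat_lit 0x0) (nat_lit 0x8003c001800000000000000000) := T_6 (nat_lit 89) (nat_lit 72) (nat_lit 7) (nat_lit 4) (nat_lit 4) L46573 (by decide +kernel)
theorem L46575 : W_6 (nat_lit 5) (nat_lit 0x2000100013000b8000c00040000000000000000000000) (nat_lit 0x0) (nat_lit 0x38003c001800000000000000000) := T_6 (nat_lit 104) (nat_lit 105) (nat_lit 3) (nat_lit 2) (nat_lit 6) L46574 (by decide +kernel)
theorem L46576 : W_6 (nat_lit 6) (nat_lit 0x2000100013000b8000c00000000000000000000000000) (nat_lit 0x0) (nat_lit 0x38007c003800000000000000000) := T_6 (nat_lit 90) (nat_lit 73) (nat_lit 5) (nat_lit 5) (nat_lit 4) L46575 (by decide +kernel)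
theorem L46577 : W_6 (nat_lit 7) (nat_lit 0x200010001300098000c00000000000000000000000000) (nat_lit 0x0) (nat_lit 0x6000038007c003800000000000000000) := T_6 (nat_lit 125) (nat_lit 126) (nat_lit 1) (nat_lit 8) (nat_lit 7) L46576 (by decide +kernel)
theorem L46578 : W_6 (nat_lit 11) (nat_lit 0x200010001300098000400000000000000000000000000) (nat_lit 0x0) (nat_lit 0x2000100028c00860067003b8017c00b800000000000000000) := Q_6 (nat_lit 107) (C_6 L45982 (C_6 L45644 (C_6 L45967 (C_6 L46577 (C_6 L45052 N_6))))) (by decide +kernel)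
theorem L46579 : W_6 (nat_lit 2) (nat_lit 0x2000100013000d800160007c000000000000000000000) (nat_lit 0x0) (nat_lit 0x700000000000000000) := D_6 (nat_lit 69) (nat_lit 70) (nat_lit 68) (nat_lit 0) (nat_lit 5) (nat_lit 5) (nat_lit 0) (nat_lit 4) (nat_lit 5) (by decide +kernel)
theorem L46580 : W_6 (nat_lit 3) (nat_lit 0x2000100013000d800160003c000000000000000000000) (nat_lit 0x0) (nat_lit 0x40002700000000000000000) := T_6 (nat_lit 90) (nat_lit 73) (nat_lit 6) (nat_lit 4) (nat_lit 8) L46579 (by decide +kernel)
theorem L46581 : W_6 (nat_lit 4) (nat_lit 0x2000100013000d8001600038000000000000000000000) (nat_lit 0x0) (nat_lit 0x46002700000000000000000) := T_6 (nat_lit 86) (nat_lit 85) (nat_lit 3) (nat_lit 0) (nat_lit 5) L46580 (by decide +kernel)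
theorem L46582 : W_6 (nat_lit 5) (nat_lit 0x2000100013000d8001600018000000000000000000000) (nat_lit 0x0) (nat_lit 0x66003700000000000000000) := T_6 (nat_lit 89) (nat_lit 72) (nat_lit 7) (nat_lit 4) (nat_lit 4) L46581 (by decide +kernel)
theorem L46583 : W_6 (nat_lit 6) (nat_lit 0x2000100013000d8001600010000000000000000000000) (nat_lit 0x0) (nat_lit 0x80006e003700000000000000000) := T_6 (nat_lit 87) (nat_lit 107) (nat_lit 0) (nat_lit 6) (nat_lit 6) L46582 (by decide +kernel)
theorem L46584 : W_6 (nat_lit 7) (nat_lit 0x200010001300098001600010000000000000000000000) (nat_lit 0x0) (nat_lit 0x6000080006e003700000000000000000) := T_6 (nat_lit 126) (nat_lit 125) (nat_lit 1) (nat_lit 8) (nat_lit 7) L46583 (by decide +kernel)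
theorem L46585 : W_6 (nat_lit 3) (nat_lit 0x200010001300098001600010001000000000000000000) (nat_lit 0x0) (nat_lit 0x44002800008000000000000000000000) := T_6 (nat_lit 107) (nat_lit 87) (nat_lit 0) (nat_lit 6) (nat_lit 6) L45988 (by decide +kernel)
theorem L46586 : W_6 (nat_lit 4) (nat_lit 0x200010001300098001600010000000000000000000000) (nat_lit 0x0) (nat_lit 0x44002800028001000000000000000000) := T_6 (nat_lit 72) (nat_lit 89) (nat_lit 7) (nat_lit 4) (nat_lit 4) L46585 (by decide +kernel)
theorem L46587 : W_6 (nat_lit 2) (nat_lit 0x2000100013000b8003600030000000000000000000000) (nat_lit 0x0) (nat_lit 0xc0002000000000000000000) := D_6 (nat_lit 90) (nat_lit 73) (nat_lit 91) (nat_lit 6) (nat_lit 4) (nat_lit 8) (nat_lit 3) (nat_lit 3) (nat_lit 5) (by decide +kernel)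
theorem L46588 : W_6 (nat_lit 3) (nat_lit 0x2000100013000b8001600030000000000000000000000) (nat_lit 0x0) (nat_lit 0x40020000c0002000000000000000000) := T_6 (nat_lit 109) (nat_lit 122) (nat_lit 2) (nat_lit 3) (nat_lit 7) L46587 (by decide +kernel)
theorem L46589 : W_6 (nat_lit 4) (nat_lit 0x2000100013000b8001600010000000000000000000000) (nat_lit 0x0) (nat_lit 0x40020000e0003000000000000000000) := T_6 (nat_lit 89) (nat_lit 72) (nat_lit 7) (nat_lit 4) (nat_lit 4) L46588 (by decide +kernel)
theorem L46590 : W_6 (nat_lit 5) (nat_lit 0x200010001300098001600010000000000000000000000) (nat_lit 0x0) (nat_lit 0x640020000e0003000000000000000000) := T_6 (nat_lit 125) (nat_lit 126) (nat_lit 1) (nat_lit 8) (nat_lit 7) L46589 (by decide +kernel)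
theorem L46591 : W_6 (nat_lit 2) (nat_lit 0x200010001300098001e00010000000000000000000000) (nat_lit 0x0) (nat_lit 0x60002000000000000000000000000000) := D_6 (nat_lit 126) (nat_lit 125) (nat_lit 109) (nat_lit 3) (nat_lit 3) (nat_lit 6) (nat_lit 3) (nat_lit 4) (nat_lit 6) (by decide +kernel)
theorem L46592 : W_6 (nat_lit 3) (nat_lit 0x200010001300098001600010000000000000000000000) (nat_lit 0x0) (nat_lit 0x60002800008000000000000000000000) := T_6 (nat_lit 107) (nat_lit 87) (nat_lit 0) (nat_lit 6) (nat_lit 6) L46591 (by decide +kernel)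
theorem L46593 : W_6 (nat_lit 3) (nat_lit 0x200010001300098001600010000000000000000000000) (nat_lit 0x0) (nat_lit 0x2800028001000000000000000000) := T_6 (nat_lit 107) (nat_lit 87) (nat_lit 0) (nat_lit 6) (nat_lit 6) L45994 (by decide +kernel)
theorem L46594 : W_6 (nat_lit 8) (nat_lit 0x200010001300098000600010000000000000000000000) (nat_lit 0x0) (nat_lit 0x640038000ee003700000000000000000) := Q_6 (nat_lit 108) (C_6 L46584 (C_6 L46586 (C_6 L46590 (C_6 L46592 (C_6 L46593 N_6))))) (by decide +kernel)
theorem L46595 : W_6 (nat_lit 9) (nat_lit 0x200010001300098000600000000000000000000000000) (nat_lit 0x0) (nat_lit 0x640038000fe003f00040000000000000) := Q_6 (nat_lit 88) (C_6 L45987 (C_6 L45986 (C_6 L46594 N_6))) (by decide +kernel)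
theorem L46596 : W_6 (nat_lit 10) (nat_lit 0x200010001300098000400000000000000000000000000) (nat_lit 0x0) (nat_lit 0x64003b800fe003f00040000000000000) := Q_6 (nat_lit 105) (C_6 L46595 (C_6 L46050 (C_6 L46080 N_6))) (by decide +kernel)
theorem L46597 : W_6 (nat_lit 2) (nat_lit 0x200010001300098000400040000000000000000000000) (nat_lit 0x0) (nat_lit 0x20003000000000000000000) := D_6 (nat_lit 89) (nat_lit 72) (nat_lit 73) (nat_lit 7) (nat_lit 4) (nat_lit 4) (nat_lit 6) (nat_lit 4) (nat_lit 8) (by decide +kernel)
theorem L46598 : W_6 (nat_lit 8) (nat_lit 0x2000100013000d8000400040000000000000000000000) (nat_lit 0x0) (nat_lit 0x2000100028000800000002b0038000e000000000000000000) := T_6 (nat_lit 107) (nat_lit 73) (nat_lit 5) (nat_lit 5) (nat_lit 4) L46057 (by decide +kernel)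
theorem L46599 : W_6 (nat_lit 9) (nat_lit 0x200010001300098000400040000000000000000000000) (nat_lit 0x0) (nat_lit 0x2000100028000800060002b0038000e000000000000000000) := T_6 (nat_lit 126) (nat_lit 125) (nat_lit 1) (nat_lit 8) (nat_lit 7) L46598 (by decide +kernel)
theorem L46600 : W_6 (nat_lit 2) (nat_lit 0x200010001300098000700060000000000000000000000) (nat_lit 0x0) (nat_lit 0x800180000000000000000000000) := D_6 (nat_lit 91) (nat_lit 92) (nat_lit 107) (nat_lit 1) (nat_lit 7) (nat_lit 5) (nat_lit 2) (nat_lit 2) (nat_lit 6) (by decide +kernel)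
theorem L46601 : W_6 (nat_lit 3) (nat_lit 0x200010001300098000600060000000000000000000000) (nat_lit 0x0) (nat_lit 0x980180000000000000000000000) := T_6 (nat_lit 104) (nat_lit 103) (nat_lit 3) (nat_lit 1) (nat_lit 6) L46600 (by decide +kernel)
theorem L46602 : W_6 (nat_lit 4) (nat_lit 0x200010001300098000600040000000000000000000000) (nat_lit 0x0) (nat_lit 0x9801a0001000000000000000000) := T_6 (nat_lit 89) (nat_lit 72) (nat_lit 7) (nat_lit 4) (nat_lit 4) L46601 (by decide +kernel)
theorem L46603 : W_6 (nat_lit 2) (nat_lit 0x200010001b000d8002680160000000000000000000000) (nat_lit 0x0) (nat_lit 0x2000100008000000000000000000000000000000000000000) := D_6 (nat_lit 176) (nat_lit 159) (nat_lit 193) (nat_lit 5) (nat_lit 7) (nat_lit 6) (nat_lit 5) (nat_lit 7) (nat_lit 7) (by decide +kernel)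
theorem L46604 : W_6 (nat_lit 3) (nat_lit 0x2000100013000d8002680160000000000000000000000) (nat_lit 0x0) (nat_lit 0x2000100028000800000000000000000000000000000000000) := T_6 (nat_lit 143) (nat_lit 161) (nat_lit 7) (nat_lit 7) (nat_lit 5) L46603 (by decide +kernel)
theorem L46605 : W_6 (nat_lit 4) (nat_lit 0x2000100013000d8000680160000000000000000000000) (nat_lit 0x0) (nat_lit 0x2000100028000800000002000000008000000000000000000) := T_6 (nat_lit 109) (nat_lit 75) (nat_lit 7) (nat_lit 7) (nat_lit 4) L46604 (by decide +kernel)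
theorem L46606 : W_6 (nat_lit 5) (nat_lit 0x2000100013000d8000680060000000000000000000000) (nat_lit 0x0) (nat_lit 0x2000100028000800000002000180008000000000000000000) := T_6 (nat_lit 92) (nat_lit 91) (nat_lit 1) (nat_lit 7) (nat_lit 5) L46605 (by decide +kernel)
theorem L46607 : W_6 (nat_lit 6) (nat_lit 0x2000100013000d8000680040000000000000000000000) (nat_lit 0x0) (nat_lit 0x20001000280008000000020001a0009000000000000000000) := T_6 (nat_lit 89) (nat_lit 72) (nat_lit 7) (nat_lit 4) (nat_lit 4) L46606 (by decide +kernel)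
theorem L46608 : W_6 (nat_lit 7) (nat_lit 0x200010001300098000680040000000000000000000000) (nat_lit 0x0) (nat_lit 0x20001000280008000600020001a0009000000000000000000) := T_6 (nat_lit 126) (nat_lit 125) (nat_lit 1) (nat_lit 8) (nat_lit 7) L46607 (by decide +kernel)
theorem L46609 : W_6 (nat_lit 8) (nat_lit 0x200010001300098000600040000000000000000000000) (nat_lit 0x0) (nat_lit 0x20001000280008000600021801a0009000000000000000000) := T_6 (nat_lit 103) (nat_lit 104) (nat_lit 3) (nat_lit 1) (nat_lit 6) L46608 (by decide +kernel)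
theorem L46610 : W_6 (nat_lit 2) (nat_lit 0x200010001300098000700040000000000000000000000) (nat_lit 0x0) (nat_lit 0x64000000000000000000000000000000) := D_6 (nat_lit 125) (nat_lit 126) (nat_lit 122) (nat_lit 1) (nat_lit 8) (nat_lit 7) (nat_lit 0) (nat_lit 6) (nat_lit 7) (by decide +kernel)
theorem L46611 : W_6 (nat_lit 3) (nat_lit 0x200010001300098000600040000000000000000000000) (nat_lit 0x0) (nat_lit 0x64000180000000000000000000000000) := T_6 (nat_lit 104) (nat_lit 103) (nat_lit 3) (nat_lit 1) (nat_lit 6) L46610 (by decide +kernel)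
theorem L46612 : W_6 (nat_lit 2) (nat_lit 0x200010001b000d8002600160000000000000000000000) (nat_lit 0x0) (nat_lit 0x2000100008000000000000000000000000000000000000000) := D_6 (nat_lit 176) (nat_lit 159) (nat_lit 193) (nat_lit 5) (nat_lit 7) (nat_lit 6) (nat_lit 5) (nat_lit 7) (nat_lit 7) (by decide +kernel)
theorem L46613 : W_6 (nat_lit 3) (nat_lit 0x2000100013000d8002600160000000000000000000000) (nat_lit 0x0) (nat_lit 0x2000100028000800000000000000000000000000000000000) := T_6 (nat_lit 143) (nat_lit 161) (nat_lit 7) (nat_lit 7) (nat_lit 5) L46612 (by decide +kernel)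
theorem L46614 : W_6 (nat_lit 4) (nat_lit 0x2000100013000d8000600160000000000000000000000) (nat_lit 0x0) (nat_lit 0x2000100028000800000002000000008000000000000000000) := T_6 (nat_lit 109) (nat_lit 75) (nat_lit 7) (nat_lit 7) (nat_lit 4) L46613 (by decide +kernel)
theorem L46615 : W_6 (nat_lit 5) (nat_lit 0x2000100013000d8000600060000000000000000000000) (nat_lit 0x0) (nat_lit 0x2000100028000800000002000180008000000000000000000) := T_6 (nat_lit 92) (nat_lit 91) (nat_lit 1) (nat_lit 7) (nat_lit 5) L46614 (by decide +kernel)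
theorem L46616 : W_6 (nat_lit 6) (nat_lit 0x2000100013000d8000600040000000000000000000000) (nat_lit 0x0) (nat_lit 0x20001000280008000000020001a0009000000000000000000) := T_6 (nat_lit 89) (nat_lit 72) (nat_lit 7) (nat_lit 4) (nat_lit 4) L46615 (by decide +kernel)
theorem L46617 : W_6 (nat_lit 7) (nat_lit 0x200010001300098000600040000000000000000000000) (nat_lit 0x0) (nat_lit 0x20001000280008000600020001a0009000000000000000000) := T_6 (nat_lit 126) (nat_lit 125) (nat_lit 1) (nat_lit 8) (nat_lit 7) L46616 (by decide +kernel)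
theorem L46618 : W_6 (nat_lit 9) (nat_lit 0x200010001300098000400040000000000000000000000) (nat_lit 0x0) (nat_lit 0x2000100028000800064002b801a0009000000000000000000) := Q_6 (nat_lit 105) (C_6 L46602 (C_6 L46609 (C_6 L46611 (C_6 L46617 N_6)))) (by decide +kernel)
theorem L46619 : W_6 (nat_lit 10) (nat_lit 0x200010001300098000400000000000000000000000000) (nat_lit 0x0) (nat_lit 0x2000100028000800064002b803e000f000000000000000000) := Q_6 (nat_lit 90) (C_6 L46597 (C_6 L46599 (C_6 L46618 N_6))) (by decide +kernel)
theorem L46620 : W_6 (nat_lit 13) (nat_lit 0x200010001300098000000000000000000000000000000) (nat_lit 0x0) (nat_lit 0x2500138029c00860067003f803fe00ff00040000000000000) := Q_6 (nat_lit 106) (C_6 L46570 (C_6 L45959 (C_6 L46571 (C_6 L45968 (C_6 L45983 (C_6 L46067 (C_6 L46578 (C_6 L46596 (C_6 L46619 N_6))))))))) (by decide +kernel)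
theorem L46621 : W_6 (nat_lit 2) (nat_lit 0x20001200130009c000200000000000000000000000000) (nat_lit 0x0) (nat_lit 0x400010000800000000000000000) := D_6 (nat_lit 88) (nat_lit 106) (nat_lit 71) (nat_lit 4) (nat_lit 4) (nat_lit 9) (nat_lit 7) (nat_lit 3) (nat_lit 4) (by decide +kernel)
theorem L46622 : W_6 (nat_lit 2) (nat_lit 0x20001280134009e000300000000800000000000000000) (nat_lit 0x0) (nat_lit 0x20001400000000000000000000000000000000000000) := D_6 (nat_lit 156) (nat_lit 173) (nat_lit 154) (nat_lit 7) (nat_lit 2) (nat_lit 6) (nat_lit 2) (nat_lit 1) (nat_lit 9) (by decide +kernel)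
theorem L46623 : W_6 (nat_lit 3) (nat_lit 0x20001200134009e000300000000800000000000000000) (nat_lit 0x0) (nat_lit 0x30001c00000000000000000000000000000000000000) := T_6 (nat_lit 155) (nat_lit 172) (nat_lit 6) (nat_lit 2) (nat_lit 10) L46622 (by decide +kernel)
theorem L46624 : W_6 (nat_lit 4) (nat_lit 0x20001200134009e000200000000800000000000000000) (nat_lit 0x0) (nat_lit 0x30001c00000000000180000000000000000000000000) := T_6 (nat_lit 104) (nat_lit 103) (nat_lit 0) (nat_lit 5) (nat_lit 7) L46623 (by decide +kernel)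
theorem L46625 : W_6 (nat_lit 5) (nat_lit 0x20001200130009e000200000000800000000000000000) (nat_lit 0x0) (nat_lit 0x30001c00060000000180000000000000000000000000) := T_6 (nat_lit 138) (nat_lit 137) (nat_lit 1) (nat_lit 5) (nat_lit 7) L46624 (by decide +kernel)
theorem L46626 : W_6 (nat_lit 6) (nat_lit 0x20001200130009e000200000000000000000000000000) (nat_lit 0x0) (nat_lit 0x30001c00060000000180010000800000000000000000) := T_6 (nat_lit 71) (nat_lit 88) (nat_lit 7) (nat_lit 3) (nat_lit 4) L46625 (by decide +kernel)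
theorem L46627 : W_6 (nat_lit 7) (nat_lit 0x20001200130009c000200000000000000000000000000) (nat_lit 0x0) (nat_lit 0x30001c00060003000180010000800000000000000000) := T_6 (nat_lit 121) (nat_lit 120) (nat_lit 3) (nat_lit 1) (nat_lit 7) L46626 (by decide +kernel)
theorem L46628 : W_6 (nat_lit 2) (nat_lit 0x20001280134009e000300000000000000000000000000) (nat_lit 0x0) (nat_lit 0x20001400000000000000000000000000000000000000) := D_6 (nat_lit 156) (nat_lit 173) (nat_lit 154) (nat_lit 7) (nat_lit 2) (nat_lit 6) (nat_lit 2) (nat_lit 1) (nat_lit 9) (by decide +kernel)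
theorem L46629 : W_6 (nat_lit 3) (nat_lit 0x20001200134009e000300000000000000000000000000) (nat_lit 0x0) (nat_lit 0x30001c00000000000000000000000000000000000000) := T_6 (nat_lit 155) (nat_lit 172) (nat_lit 6) (nat_lit 2) (nat_lit 10) L46628 (by decide +kernel)
theorem L46630 : W_6 (nat_lit 4) (nat_lit 0x20001200130009e000300000000000000000000000000) (nat_lit 0x0) (nat_lit 0x30001c00060000000000000000000000000000000000) := T_6 (nat_lit 138) (nat_lit 137) (nat_lit 1) (nat_lit 5) (nat_lit 7) L46629 (by decide +kernel)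
theorem L46631 : W_6 (nat_lit 5) (nat_lit 0x20001200130009e000200000000000000000000000000) (nat_lit 0x0) (nat_lit 0x30001c00060000000180000000000000000000000000) := T_6 (nat_lit 104) (nat_lit 103) (nat_lit 0) (nat_lit 5) (nat_lit 7) L46630 (by decide +kernel)
theorem L46632 : W_6 (nat_lit 6) (nat_lit 0x20001200130009c000200000000000000000000000000) (nat_lit 0x0) (nat_lit 0x30001c00060003000180000000000000000000000000) := T_6 (nat_lit 121) (nat_lit 120) (nat_lit 3) (nat_lit 1) (nat_lit 7) L46631 (by decide +kernel)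
theorem L46633 : W_6 (nat_lit 8) (nat_lit 0x20001200130009c000000000000000000000000000000) (nat_lit 0x0) (nat_lit 0x30001c00060003000780010000800000000000000000) := Q_6 (nat_lit 105) (C_6 L46621 (C_6 L46627 (C_6 L46632 N_6))) (by decide +kernel)
theorem L46634 : W_6 (nat_lit 2) (nat_lit 0x2000120013000bc000200000000000000000000000000) (nat_lit 0x0) (nat_lit 0x400010000800000000000000000) := D_6 (nat_lit 88) (nat_lit 106) (nat_lit 71) (nat_lit 4) (nat_lit 4) (nat_lit 9) (nat_lit 7) (nat_lit 3) (nat_lit 4) (by decide +kernel)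
theorem L46635 : W_6 (nat_lit 3) (nat_lit 0x2000120013000bc000000000000000000000000000000) (nat_lit 0x0) (nat_lit 0x700010000800000000000000000) := T_6 (nat_lit 105) (nat_lit 104) (nat_lit 0) (nat_lit 6) (nat_lit 7) L46634 (by decide +kernel)
theorem L46636 : W_6 (nat_lit 4) (nat_lit 0x20001200130009c000000000000000000000000000000) (nat_lit 0x0) (nat_lit 0x60000700010000800000000000000000) := T_6 (nat_lit 125) (nat_lit 126) (nat_lit 1) (nat_lit 8) (nat_lit 7) L46635 (by decide +kernel)
theorem L46637 : W_6 (nat_lit 2) (nat_lit 0x2400134013000d8000400030000000000000000000000) (nat_lit 0x0) (nat_lit 0x1000180000000000000000000000000000000000000000000) := D_6 (nat_lit 175) (nat_lit 192) (nat_lit 176) (nat_lit 7) (nat_lit 4) (nat_lit 7) (nat_lit 0) (nat_lit 7) (nat_lit 10) (by decide +kernel)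
theorem L46638 : W_6 (nat_lit 3) (nat_lit 0x2000134013000d8000400030000000000000000000000) (nat_lit 0x0) (nat_lit 0x18001c0000000000000000000000000000000000000000000) := T_6 (nat_lit 174) (nat_lit 191) (nat_lit 6) (nat_lit 4) (nat_lit 11) L46637 (by decide +kernel)
theorem L46639 : W_6 (nat_lit 4) (nat_lit 0x2000130013000d8000400030000000000000000000000) (nat_lit 0x0) (nat_lit 0x18001c0000c00000000000000000000000000000000000000) := T_6 (nat_lit 154) (nat_lit 155) (nat_lit 2) (nat_lit 1) (nat_lit 9) L46638 (by decide +kernel)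
theorem L46640 : W_6 (nat_lit 5) (nat_lit 0x2000120013000d8000400030000000000000000000000) (nat_lit 0x0) (nat_lit 0x18001e0001c00000000000000000000000000000000000000) := T_6 (nat_lit 156) (nat_lit 173) (nat_lit 5) (nat_lit 4) (nat_lit 6) L46639 (by decide +kernel)
theorem L46641 : W_6 (nat_lit 6) (nat_lit 0x2000100013000d8000400030000000000000000000000) (nat_lit 0x0) (nat_lit 0x18001e0003c00000000000200000000000000000000000000) := T_6 (nat_lit 157) (nat_lit 105) (nat_lit 4) (nat_lit 4) (nat_lit 9) L46640 (by decide +kernel)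
theorem L46642 : W_6 (nat_lit 7) (nat_lit 0x2000100013000d8000400020000000000000000000000) (nat_lit 0x0) (nat_lit 0x18001e0003c00000000000200010000800000000000000000) := T_6 (nat_lit 88) (nat_lit 71) (nat_lit 4) (nat_lit 4) (nat_lit 8) L46641 (by decide +kernel)
theorem L46643 : W_6 (nat_lit 8) (nat_lit 0x2000100013000d8000400000000000000000000000000) (nat_lit 0x0) (nat_lit 0x18001e0003c00000000000200030001800000000000000000) := T_6 (nat_lit 89) (nat_lit 72) (nat_lit 7) (nat_lit 4) (nat_lit 4) L46642 (by decide +kernel)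
theorem L46644 : W_6 (nat_lit 9) (nat_lit 0x200010001300098000400000000000000000000000000) (nat_lit 0x0) (nat_lit 0x18001e0003c00000060000200030001800000000000000000) := T_6 (nat_lit 126) (nat_lit 125) (nat_lit 1) (nat_lit 8) (nat_lit 7) L46643 (by decide +kernel)
theorem L46645 : W_6 (nat_lit 2) (nat_lit 0x240013401300098000400030000000000000000000000) (nat_lit 0x0) (nat_lit 0x1000180000000000000000000000000000000000000000000) := D_6 (nat_lit 175) (nat_lit 192) (nat_lit 176) (nat_lit 7) (nat_lit 4) (nat_lit 7) (nat_lit 0) (nat_lit 7) (nat_lit 10) (by decide +kernel)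
theorem L46646 : W_6 (nat_lit 3) (nat_lit 0x200013401300098000400030000000000000000000000) (nat_lit 0x0) (nat_lit 0x18001c0000000000000000000000000000000000000000000) := T_6 (nat_lit 174) (nat_lit 191) (nat_lit 6) (nat_lit 4) (nat_lit 11) L46645 (by decide +kernel)
theorem L46647 : W_6 (nat_lit 4) (nat_lit 0x200013001300098000400030000000000000000000000) (nat_lit 0x0) (nat_lit 0x18001c0000c00000000000000000000000000000000000000) := T_6 (nat_lit 154) (nat_lit 155) (nat_lit 2) (nat_lit 1) (nat_lit 9) L46646 (by decide +kernel)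
theorem L46648 : W_6 (nat_lit 5) (nat_lit 0x200012001300098000400030000000000000000000000) (nat_lit 0x0) (nat_lit 0x18001e0001c00000000000000000000000000000000000000) := T_6 (nat_lit 156) (nat_lit 173) (nat_lit 5) (nat_lit 4) (nat_lit 6) L46647 (by decide +kernel)
theorem L46649 : W_6 (nat_lit 6) (nat_lit 0x200010001300098000400030000000000000000000000) (nat_lit 0x0) (nat_lit 0x18001e0003c00000000000200000000000000000000000000) := T_6 (nat_lit 157) (nat_lit 105) (nat_lit 4) (nat_lit 4) (nat_lit 9) L46648 (by decide +kernel)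
theorem L46650 : W_6 (nat_lit 7) (nat_lit 0x200010001300098000400020000000000000000000000) (nat_lit 0x0) (nat_lit 0x18001e0003c00000000000200010000800000000000000000) := T_6 (nat_lit 88) (nat_lit 71) (nat_lit 4) (nat_lit 4) (nat_lit 8) L46649 (by decide +kernel)
theorem L46651 : W_6 (nat_lit 8) (nat_lit 0x200010001300098000400000000000000000000000000) (nat_lit 0x0) (nat_lit 0x18001e0003c00000000000200030001800000000000000000) := T_6 (nat_lit 89) (nat_lit 72) (nat_lit 7) (nat_lit 4) (nat_lit 4) L46650 (by decide +kernel)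
theorem L46652 : W_6 (nat_lit 2) (nat_lit 0x2200120013000d8000400070000000000000000000000) (nat_lit 0x0) (nat_lit 0xc00040000000000000000000000000000000000000000000) := D_6 (nat_lit 174) (nat_lit 191) (nat_lit 190) (nat_lit 6) (nat_lit 4) (nat_lit 11) (nat_lit 5) (nat_lit 4) (nat_lit 7) (by decide +kernel)
theorem L46653 : W_6 (nat_lit 3) (nat_lit 0x2000120013000d8000400070000000000000000000000) (nat_lit 0x0) (nat_lit 0xc00060001000000000000000000000000000000000000000) := T_6 (nat_lit 173) (nat_lit 156) (nat_lit 5) (nat_lit 4) (nat_lit 6) L46652 (by decide +kernel)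
theorem L46654 : W_6 (nat_lit 4) (nat_lit 0x2000100013000d8000400070000000000000000000000) (nat_lit 0x0) (nat_lit 0xc00060003000000000000200000000000000000000000000) := T_6 (nat_lit 157) (nat_lit 105) (nat_lit 4) (nat_lit 4) (nat_lit 9) L46653 (by decide +kernel)
theorem L46655 : W_6 (nat_lit 5) (nat_lit 0x2000100013000d8000400060000000000000000000000) (nat_lit 0x0) (nat_lit 0xc00060003000000000000200010000800000000000000000) := T_6 (nat_lit 88) (nat_lit 71) (nat_lit 4) (nat_lit 4) (nat_lit 8) L46654 (by decide +kernel)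
theorem L46656 : W_6 (nat_lit 6) (nat_lit 0x2000100013000d8000400020000000000000000000000) (nat_lit 0x0) (nat_lit 0xc00060003000000000000200050002800000000000000000) := T_6 (nat_lit 90) (nat_lit 73) (nat_lit 6) (nat_lit 4) (nat_lit 8) L46655 (by decide +kernel)
theorem L46657 : W_6 (nat_lit 7) (nat_lit 0x200010001300098000400020000000000000000000000) (nat_lit 0x0) (nat_lit 0xc00060003000000060000200050002800000000000000000) := T_6 (nat_lit 126) (nat_lit 125) (nat_lit 1) (nat_lit 8) (nat_lit 7) L46656 (by decide +kernel)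
theorem L46658 : W_6 (nat_lit 8) (nat_lit 0x200010001300098000400000000000000000000000000) (nat_lit 0x0) (nat_lit 0xc00060003000000060000200070003800000000000000000) := T_6 (nat_lit 89) (nat_lit 72) (nat_lit 7) (nat_lit 4) (nat_lit 4) L46657 (by decide +kernel)
theorem L46659 : W_6 (nat_lit 2) (nat_lit 0x2400120013000d8000400000000000000000000000000) (nat_lit 0x0) (nat_lit 0x400020001000000000000000000000000000000000000000) := D_6 (nat_lit 173) (nat_lit 190) (nat_lit 156) (nat_lit 5) (nat_lit 4) (nat_lit 7) (nat_lit 5) (nat_lit 4) (nat_lit 6) (by decide +kernel)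
theorem L46660 : W_6 (nat_lit 3) (nat_lit 0x2400100013000d8000400000000000000000000000000) (nat_lit 0x0) (nat_lit 0xc00020003000000000000000000000000000000000000000) := T_6 (nat_lit 157) (nat_lit 191) (nat_lit 6) (nat_lit 4) (nat_lit 11) L46659 (by decide +kernel)
theorem L46661 : W_6 (nat_lit 4) (nat_lit 0x240010001300098000400000000000000000000000000) (nat_lit 0x0) (nat_lit 0xc00020003000000060000000000000000000000000000000) := T_6 (nat_lit 126) (nat_lit 125) (nat_lit 1) (nat_lit 8) (nat_lit 7) L46660 (by decide +kernel)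
theorem L46662 : W_6 (nat_lit 2) (nat_lit 0x3c00120013000d8000400000001000000000000000000) (nat_lit 0x0) (nat_lit 0x400020008000000000000000000000000000000000000000) := D_6 (nat_lit 173) (nat_lit 159) (nat_lit 190) (nat_lit 2) (nat_lit 3) (nat_lit 10) (nat_lit 5) (nat_lit 4) (nat_lit 7) (by decide +kernel)
theorem L46663 : W_6 (nat_lit 3) (nat_lit 0x2c00120013000d8000400000001000000000000000000) (nat_lit 0x0) (nat_lit 0x400120028000000000000000000000000000000000000000) := T_6 (nat_lit 176) (nat_lit 161) (nat_lit 2) (nat_lit 4) (nat_lit 10) L46662 (by decide +kernel)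
theorem L46664 : W_6 (nat_lit 4) (nat_lit 0x2400120013000d8000400000001000000000000000000) (nat_lit 0x0) (nat_lit 0x14001a0028000000000000000000000000000000000000000) := T_6 (nat_lit 175) (nat_lit 192) (nat_lit 7) (nat_lit 4) (nat_lit 7) L46663 (by decide +kernel)
theorem L46665 : W_6 (nat_lit 5) (nat_lit 0x2400100013000d8000400000001000000000000000000) (nat_lit 0x0) (nat_lit 0x1c001a002a000000000000000000000000000000000000000) := T_6 (nat_lit 157) (nat_lit 191) (nat_lit 6) (nat_lit 4) (nat_lit 11) L46664 (by decide +kernel)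
theorem L46666 : W_6 (nat_lit 6) (nat_lit 0x240010001300098000400000001000000000000000000) (nat_lit 0x0) (nat_lit 0x1c001a002a000000060000000000000000000000000000000) := T_6 (nat_lit 126) (nat_lit 125) (nat_lit 1) (nat_lit 8) (nat_lit 7) L46665 (by decide +kernel)
theorem L46667 : W_6 (nat_lit 7) (nat_lit 0x240010001300098000400000000000000000000000000) (nat_lit 0x0) (nat_lit 0x1c001a002a000000060000000020001000000000000000000) := T_6 (nat_lit 72) (nat_lit 89) (nat_lit 7) (nat_lit 4) (nat_lit 4) L46666 (by decide +kernel)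
theorem L46668 : W_6 (nat_lit 2) (nat_lit 0x3e0010001300098000400000001000000000000000000) (nat_lit 0x0) (nat_lit 0xe00000000000000000000000000000000000000000000000) := D_6 (nat_lit 190) (nat_lit 191) (nat_lit 189) (nat_lit 1) (nat_lit 7) (nat_lit 10) (nat_lit 1) (nat_lit 6) (nat_lit 10) (by decide +kernel)
theorem L46669 : W_6 (nat_lit 3) (nat_lit 0x3c0010001300098000400000001000000000000000000) (nat_lit 0x0) (nat_lit 0xe00020008000000000000000000000000000000000000000) := T_6 (nat_lit 173) (nat_lit 159) (nat_lit 2) (nat_lit 3) (nat_lit 10) L46668 (by decide +kernel)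
theorem L46670 : W_6 (nat_lit 4) (nat_lit 0x340010001300098000400000001000000000000000000) (nat_lit 0x0) (nat_lit 0xe000a0028000000000000000000000000000000000000000) := T_6 (nat_lit 175) (nat_lit 161) (nat_lit 2) (nat_lit 4) (nat_lit 10) L46669 (by decide +kernel)
theorem L46671 : W_6 (nat_lit 5) (nat_lit 0x340010001300098000400000000000000000000000000) (nat_lit 0x0) (nat_lit 0xe000a0028000000000000000020001000000000000000000) := T_6 (nat_lit 72) (nat_lit 89) (nat_lit 7) (nat_lit 4) (nat_lit 4) L46670 (by decide +kernel)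
theorem L46672 : W_6 (nat_lit 2) (nat_lit 0x340010001b000d8002400080001000000000000000000) (nat_lit 0x0) (nat_lit 0x10000c000000000000000000) := D_6 (nat_lit 92) (nat_lit 75) (nat_lit 74) (nat_lit 7) (nat_lit 7) (nat_lit 4) (nat_lit 4) (nat_lit 7) (nat_lit 8) (by decide +kernel)
theorem L46673 : W_6 (nat_lit 3) (nat_lit 0x340010001b000d8002400000001000000000000000000) (nat_lit 0x0) (nat_lit 0x100018000c000000000000000000) := T_6 (nat_lit 91) (nat_lit 108) (nat_lit 4) (nat_lit 7) (nat_lit 9) L46672 (by decide +kernel)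
theorem L46674 : W_6 (nat_lit 4) (nat_lit 0x340010001b000d8000400000001000000000000000000) (nat_lit 0x0) (nat_lit 0x800000000000300018000c000000000000000000) := T_6 (nat_lit 109) (nat_lit 159) (nat_lit 5) (nat_lit 7) (nat_lit 6) L46673 (by decide +kernel)
theorem L46675 : W_6 (nat_lit 5) (nat_lit 0x3400100013000d8000400000001000000000000000000) (nat_lit 0x0) (nat_lit 0x200000000800080000000300018000c000000000000000000) := T_6 (nat_lit 143) (nat_lit 193) (nat_lit 5) (nat_lit 7) (nat_lit 7) L46674 (by decide +kernel)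
theorem L46676 : W_6 (nat_lit 6) (nat_lit 0x3400100013000d8000400000000000000000000000000) (nat_lit 0x0) (nat_lit 0x20000000080008000000030001a000d000000000000000000) := T_6 (nat_lit 72) (nat_lit 89) (nat_lit 7) (nat_lit 4) (nat_lit 4) L46675 (by decide +kernel)
theorem L46677 : W_6 (nat_lit 7) (nat_lit 0x340010001300098000400000000000000000000000000) (nat_lit 0x0) (nat_lit 0x20000000080008000600030001a000d000000000000000000) := T_6 (nat_lit 126) (nat_lit 125) (nat_lit 1) (nat_lit 8) (nat_lit 7) L46676 (by decide +kernel)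
theorem L46678 : W_6 (nat_lit 2) (nat_lit 0x3e00100013000d8000400000000000000000000000000) (nat_lit 0x0) (nat_lit 0xe00000000000000000000000000000000000000000000000) := D_6 (nat_lit 190) (nat_lit 191) (nat_lit 189) (nat_lit 1) (nat_lit 7) (nat_lit 10) (nat_lit 1) (nat_lit 6) (nat_lit 10) (by decide +kernel)
theorem L46679 : W_6 (nat_lit 3) (nat_lit 0x3c00100013000d8000400000000000000000000000000) (nat_lit 0x0) (nat_lit 0xe00020008000000000000000000000000000000000000000) := T_6 (nat_lit 173) (nat_lit 159) (nat_lit 2) (nat_lit 3) (nat_lit 10) L46678 (by decide +kernel)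
theorem L46680 : W_6 (nat_lit 4) (nat_lit 0x3400100013000d8000400000000000000000000000000) (nat_lit 0x0) (nat_lit 0xe000a0028000000000000000000000000000000000000000) := T_6 (nat_lit 175) (nat_lit 161) (nat_lit 2) (nat_lit 4) (nat_lit 10) L46679 (by decide +kernel)
theorem L46681 : W_6 (nat_lit 5) (nat_lit 0x340010001300098000400000000000000000000000000) (nat_lit 0x0) (nat_lit 0xe000a0028000000060000000000000000000000000000000) := T_6 (nat_lit 126) (nat_lit 125) (nat_lit 1) (nat_lit 8) (nat_lit 7) L46680 (by decide +kernel)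
theorem L46682 : W_6 (nat_lit 2) (nat_lit 0x8000000024003e00108013000d8000400000001000000000000000000) (nat_lit 0x0) (nat_lit 0x1000010000400000000000000000000000000000000000000) := D_6 (nat_lit 172) (nat_lit 192) (nat_lit 154) (nat_lit 3) (nat_lit 2) (nat_lit 10) (nat_lit 0) (nat_lit 5) (nat_lit 10) (by decide +kernel)
theorem L46683 : W_6 (nat_lit 3) (nat_lit 0x8000000024003e00100013000d8000400000001000000000000000000) (nat_lit 0x0) (nat_lit 0x1000010001c00000000000000000000000000000000000000) := T_6 (nat_lit 155) (nat_lit 156) (nat_lit 0) (nat_lit 6) (nat_lit 10) L46682 (by decide +kernel)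
theorem L46684 : W_6 (nat_lit 4) (nat_lit 0x8000000024003c00100013000d8000400000001000000000000000000) (nat_lit 0x0) (nat_lit 0x1200030001c00000000000000000000000000000000000000) := T_6 (nat_lit 173) (nat_lit 189) (nat_lit 1) (nat_lit 6) (nat_lit 10) L46683 (by decide +kernel)
theorem L46685 : W_6 (nat_lit 5) (nat_lit 0x24003c00100013000d8000400000001000000000000000000) (nat_lit 0x0) (nat_lit 0x800040001200030001c00000000000000000000000000000000000000) := T_6 (nat_lit 227) (nat_lit 210) (nat_lit 6) (nat_lit 6) (nat_lit 13) L46684 (by decide +kernel)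
theorem L46686 : W_6 (nat_lit 6) (nat_lit 0x20003c00100013000d8000400000001000000000000000000) (nat_lit 0x0) (nat_lit 0x800040001e00030001c00000000000000000000000000000000000000) := T_6 (nat_lit 190) (nat_lit 191) (nat_lit 1) (nat_lit 7) (nat_lit 10) L46685 (by decide +kernel)
theorem L46687 : W_6 (nat_lit 7) (nat_lit 0x20003400100013000d8000400000001000000000000000000) (nat_lit 0x0) (nat_lit 0x800040001e000b0021c00000000000000000000000000000000000000) := T_6 (nat_lit 175) (nat_lit 161) (nat_lit 2) (nat_lit 4) (nat_lit 10) L46686 (by decide +kernel)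
theorem L46688 : W_6 (nat_lit 8) (nat_lit 0x3400100013000d8000400000001000000000000000000) (nat_lit 0x0) (nat_lit 0x800040003e000b0021c00800000000000000000000000000000000000) := T_6 (nat_lit 193) (nat_lit 143) (nat_lit 5) (nat_lit 7) (nat_lit 7) L46687 (by decide +kernel)
theorem L46689 : W_6 (nat_lit 9) (nat_lit 0x3400100013000d8000400000000000000000000000000) (nat_lit 0x0) (nat_lit 0x800040003e000b0021c00800000000000020001000000000000000000) := T_6 (nat_lit 72) (nat_lit 89) (nat_lit 7) (nat_lit 4) (nat_lit 4) L46688 (by decide +kernel)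
theorem L46690 : W_6 (nat_lit 10) (nat_lit 0x340010001300098000400000000000000000000000000) (nat_lit 0x0) (nat_lit 0x800040003e000b0021c00800060000000020001000000000000000000) := T_6 (nat_lit 126) (nat_lit 125) (nat_lit 1) (nat_lit 8) (nat_lit 7) L46689 (by decide +kernel)
theorem L46691 : W_6 (nat_lit 11) (nat_lit 0x240010001300098000400000000000000000000000000) (nat_lit 0x0) (nat_lit 0x800040003e001b0029c008000600030001a000d000000000000000000) := Q_6 (nat_lit 176) (C_6 L46671 (C_6 L46677 (C_6 L46681 (C_6 L46690 N_6)))) (by decide +kernel)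
theorem L46692 : W_6 (nat_lit 2) (nat_lit 0x240012001300098000400000000000000000000000000) (nat_lit 0x0) (nat_lit 0x400020001000000000000000000000000000000000000000) := D_6 (nat_lit 173) (nat_lit 190) (nat_lit 156) (nat_lit 5) (nat_lit 4) (nat_lit 7) (nat_lit 5) (nat_lit 4) (nat_lit 6) (by decide +kernel)
theorem L46693 : W_6 (nat_lit 3) (nat_lit 0x240010001300098000400000000000000000000000000) (nat_lit 0x0) (nat_lit 0xc00020003000000000000000000000000000000000000000) := T_6 (nat_lit 157) (nat_lit 191) (nat_lit 6) (nat_lit 4) (nat_lit 11) L46692 (by decide +kernel)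
theorem L46694 : W_6 (nat_lit 2) (nat_lit 0x2c00120013000d8000400000001000000000000000000) (nat_lit 0x0) (nat_lit 0x100021000000000000000000000000000000000000000) := D_6 (nat_lit 176) (nat_lit 161) (nat_lit 156) (nat_lit 2) (nat_lit 4) (nat_lit 10) (nat_lit 0) (nat_lit 7) (nat_lit 10) (by decide +kernel)
theorem L46695 : W_6 (nat_lit 3) (nat_lit 0x2400120013000d8000400000001000000000000000000) (nat_lit 0x0) (nat_lit 0x1000180021000000000000000000000000000000000000000) := T_6 (nat_lit 175) (nat_lit 192) (nat_lit 7) (nat_lit 4) (nat_lit 7) L46694 (by decide +kernel)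
theorem L46696 : W_6 (nat_lit 4) (nat_lit 0x2400100013000d8000400000001000000000000000000) (nat_lit 0x0) (nat_lit 0x1800180023000000000000000000000000000000000000000) := T_6 (nat_lit 157) (nat_lit 191) (nat_lit 6) (nat_lit 4) (nat_lit 11) L46695 (by decide +kernel)
theorem L46697 : W_6 (nat_lit 5) (nat_lit 0x240010001300098000400000001000000000000000000) (nat_lit 0x0) (nat_lit 0x1800180023000000060000000000000000000000000000000) := T_6 (nat_lit 126) (nat_lit 125) (nat_lit 1) (nat_lit 8) (nat_lit 7) L46696 (by decide +kernel)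
theorem L46698 : W_6 (nat_lit 6) (nat_lit 0x240010001300098000400000000000000000000000000) (nat_lit 0x0) (nat_lit 0x1800180023000000060000000020001000000000000000000) := T_6 (nat_lit 72) (nat_lit 89) (nat_lit 7) (nat_lit 4) (nat_lit 4) L46697 (by decide +kernel)
theorem L46699 : W_6 (nat_lit 5) (nat_lit 0x240012001300098000400000001000000000000000000) (nat_lit 0x0) (nat_lit 0x14001a0028000000060000000000000000000000000000000) := T_6 (nat_lit 126) (nat_lit 125) (nat_lit 1) (nat_lit 8) (nat_lit 7) L46664 (by decide +kernel)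
theorem L46700 : W_6 (nat_lit 6) (nat_lit 0x240012001300098000400000000000000000000000000) (nat_lit 0x0) (nat_lit 0x14001a0028000000060000000020001000000000000000000) := T_6 (nat_lit 72) (nat_lit 89) (nat_lit 7) (nat_lit 4) (nat_lit 4) L46699 (by decide +kernel)
theorem L46701 : W_6 (nat_lit 4) (nat_lit 0x240012001300098000400000001000000000000000000) (nat_lit 0x0) (nat_lit 0x1000180021000000060000000000000000000000000000000) := T_6 (nat_lit 126) (nat_lit 125) (nat_lit 1) (nat_lit 8) (nat_lit 7) L46695 (by decide +kernel)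
theorem L46702 : W_6 (nat_lit 5) (nat_lit 0x240012001300098000400000000000000000000000000) (nat_lit 0x0) (nat_lit 0x1000180021000000060000000020001000000000000000000) := T_6 (nat_lit 72) (nat_lit 89) (nat_lit 7) (nat_lit 4) (nat_lit 4) L46701 (by decide +kernel)
theorem L46703 : W_6 (nat_lit 7) (nat_lit 0x240010001300098000400000000000000000000000000) (nat_lit 0x0) (nat_lit 0x14001a002b000000060000000020001000000000000000000) := Q_6 (nat_lit 157) (C_6 L46692 (C_6 L46700 (C_6 L46702 N_6))) (by decide +kernel)
theorem L46704 : W_6 (nat_lit 12) (nat_lit 0x200010001300098000400000000000000000000000000) (nat_lit 0x0) (nat_lit 0x800040003e001f002bc008000600030001a000d000000000000000000) := Q_6 (nat_lit 174) (C_6 L46661 (C_6 L46667 (C_6 L46691 (C_6 L46693 (C_6 L46698 (C_6 L46703 N_6)))))) (by decide +kernel)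
theorem L46705 : W_6 (nat_lit 13) (nat_lit 0x200010001300098000000000000000000000000000000) (nat_lit 0x0) (nat_lit 0x800040003e001f002bc008000640037801f000f800000000000000000) := Q_6 (nat_lit 106) (C_6 L45959 (C_6 L46131 (C_6 L46644 (C_6 L46651 (C_6 L46658 (C_6 L46704 N_6)))))) (by decide +kernel)
theorem L46706 : W_6 (nat_lit 2) (nat_lit 0x2000100013000be000800000000000000000000000000) (nat_lit 0x0) (nat_lit 0x380000000000000000000000000) := D_6 (nat_lit 104) (nat_lit 105) (nat_lit 103) (nat_lit 0) (nat_lit 6) (nat_lit 7) (nat_lit 0) (nat_lit 5) (nat_lit 7) (by decide +kernel)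
theorem L46707 : W_6 (nat_lit 3) (nat_lit 0x2000100013000bc000800000000000000000000000000) (nat_lit 0x0) (nat_lit 0x3000380000000000000000000000000) := T_6 (nat_lit 121) (nat_lit 120) (nat_lit 3) (nat_lit 1) (nat_lit 7) L46706 (by decide +kernel)
theorem L46708 : W_6 (nat_lit 4) (nat_lit 0x20001000130009c000800000000000000000000000000) (nat_lit 0x0) (nat_lit 0x63000380000000000000000000000000) := T_6 (nat_lit 125) (nat_lit 126) (nat_lit 1) (nat_lit 8) (nat_lit 7) L46707 (by decide +kernel)
theorem L46709 : W_6 (nat_lit 2) (nat_lit 0x3e001000130009c000800000000000000000000000000) (nat_lit 0x0) (nat_lit 0xe00000000000000000000000000000000000000000000000) := D_6 (nat_lit 190) (nat_lit 191) (nat_lit 189) (nat_lit 1) (nat_lit 7) (nat_lit 10) (nat_lit 1) (nat_lit 6) (nat_lit 10) (by decide +kernel)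
theorem L46710 : W_6 (nat_lit 3) (nat_lit 0x3c001000130009c000800000000000000000000000000) (nat_lit 0x0) (nat_lit 0xe00020008000000000000000000000000000000000000000) := T_6 (nat_lit 173) (nat_lit 159) (nat_lit 2) (nat_lit 3) (nat_lit 10) L46709 (by decide +kernel)
theorem L46711 : W_6 (nat_lit 4) (nat_lit 0x34001000130009c000800000000000000000000000000) (nat_lit 0x0) (nat_lit 0xe000a0028000000000000000000000000000000000000000) := T_6 (nat_lit 175) (nat_lit 161) (nat_lit 2) (nat_lit 4) (nat_lit 10) L46710 (by decide +kernel)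
theorem L46712 : W_6 (nat_lit 5) (nat_lit 0x30001000130009c000800000000000000000000000000) (nat_lit 0x0) (nat_lit 0xe000e002a000000000000000000000000000000000000000) := T_6 (nat_lit 174) (nat_lit 157) (nat_lit 6) (nat_lit 4) (nat_lit 10) L46711 (by decide +kernel)
theorem L46713 : W_6 (nat_lit 2) (nat_lit 0x300010001b000dc002800000000000000000000000000) (nat_lit 0x0) (nat_lit 0x20000000000000000100008000000000000000000) := D_6 (nat_lit 92) (nat_lit 161) (nat_lit 75) (nat_lit 7) (nat_lit 7) (nat_lit 5) (nat_lit 7) (nat_lit 7) (nat_lit 4) (by decide +kernel)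
theorem L46714 : W_6 (nat_lit 3) (nat_lit 0x300010001b000dc000800000000000000000000000000) (nat_lit 0x0) (nat_lit 0x28000000000002000100008000000000000000000) := T_6 (nat_lit 109) (nat_lit 159) (nat_lit 5) (nat_lit 7) (nat_lit 6) L46713 (by decide +kernel)
theorem L46715 : W_6 (nat_lit 4) (nat_lit 0x3000100013000dc000800000000000000000000000000) (nat_lit 0x0) (nat_lit 0x2000000028000800000002000100008000000000000000000) := T_6 (nat_lit 143) (nat_lit 193) (nat_lit 5) (nat_lit 7) (nat_lit 7) L46714 (by decide +kernel)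
theorem L46716 : W_6 (nat_lit 5) (nat_lit 0x30001000130009c000800000000000000000000000000) (nat_lit 0x0) (nat_lit 0x2000000028000800060002000100008000000000000000000) := T_6 (nat_lit 126) (nat_lit 125) (nat_lit 1) (nat_lit 8) (nat_lit 7) L46715 (by decide +kernel)
theorem L46717 : W_6 (nat_lit 2) (nat_lit 0x340010001b000dc002800080000000000000000000000) (nat_lit 0x0) (nat_lit 0x10000c000000000000000000) := D_6 (nat_lit 92) (nat_lit 75) (nat_lit 74) (nat_lit 7) (nat_lit 7) (nat_lit 4) (nat_lit 4) (nat_lit 7) (nat_lit 8) (by decide +kernel)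
theorem L46718 : W_6 (nat_lit 3) (nat_lit 0x340010001b000dc002800000000000000000000000000) (nat_lit 0x0) (nat_lit 0x100018000c000000000000000000) := T_6 (nat_lit 91) (nat_lit 108) (nat_lit 4) (nat_lit 7) (nat_lit 9) L46717 (by decide +kernel)
theorem L46719 : W_6 (nat_lit 4) (nat_lit 0x340010001b000dc000800000000000000000000000000) (nat_lit 0x0) (nat_lit 0x800000000000300018000c000000000000000000) := T_6 (nat_lit 109) (nat_lit 159) (nat_lit 5) (nat_lit 7) (nat_lit 6) L46718 (by decide +kernel)
theorem L46720 : W_6 (nat_lit 5) (nat_lit 0x3400100013000dc000800000000000000000000000000) (nat_lit 0x0) (nat_lit 0x200000000800080000000300018000c000000000000000000) := T_6 (nat_lit 143) (nat_lit 193) (nat_lit 5) (nat_lit 7) (nat_lit 7) L46719 (by decide +kernel)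
theorem L46721 : W_6 (nat_lit 6) (nat_lit 0x3000100013000dc000800000000000000000000000000) (nat_lit 0x0) (nat_lit 0x200004000a00080000000300018000c000000000000000000) := T_6 (nat_lit 174) (nat_lit 157) (nat_lit 6) (nat_lit 4) (nat_lit 10) L46720 (by decide +kernel)
theorem L46722 : W_6 (nat_lit 7) (nat_lit 0x30001000130009c000800000000000000000000000000) (nat_lit 0x0) (nat_lit 0x200004000a00080006000300018000c000000000000000000) := T_6 (nat_lit 126) (nat_lit 125) (nat_lit 1) (nat_lit 8) (nat_lit 7) L46721 (by decide +kernel)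
theorem L46723 : W_6 (nat_lit 2) (nat_lit 0x8000000024003f00100013000dc000800000000000000000000000000) (nat_lit 0x0) (nat_lit 0x1c00000000000000000000000000000000000000) := D_6 (nat_lit 155) (nat_lit 154) (nat_lit 156) (nat_lit 0) (nat_lit 5) (nat_lit 10) (nat_lit 0) (nat_lit 6) (nat_lit 10) (by decide +kernel)
theorem L46724 : W_6 (nat_lit 3) (nat_lit 0x8000000024003e00100013000dc000800000000000000000000000000) (nat_lit 0x0) (nat_lit 0x1000010001c00000000000000000000000000000000000000) := T_6 (nat_lit 172) (nat_lit 192) (nat_lit 3) (nat_lit 2) (nat_lit 10) L46723 (by decide +kernel)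
theorem L46725 : W_6 (nat_lit 4) (nat_lit 0x24003e00100013000dc000800000000000000000000000000) (nat_lit 0x0) (nat_lit 0x800040001000010001c00000000000000000000000000000000000000) := T_6 (nat_lit 227) (nat_lit 210) (nat_lit 6) (nat_lit 6) (nat_lit 13) L46724 (by decide +kernel)
theorem L46726 : W_6 (nat_lit 5) (nat_lit 0x24003c00100013000dc000800000000000000000000000000) (nat_lit 0x0) (nat_lit 0x800040001200030001c00000000000000000000000000000000000000) := T_6 (nat_lit 173) (nat_lit 189) (nat_lit 1) (nat_lit 6) (nat_lit 10) L46725 (by decide +kernel)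
theorem L46727 : W_6 (nat_lit 6) (nat_lit 0x4003c00100013000dc000800000000000000000000000000) (nat_lit 0x0) (nat_lit 0x800040003200030001c00800000000000000000000000000000000000) := T_6 (nat_lit 193) (nat_lit 143) (nat_lit 5) (nat_lit 7) (nat_lit 7) L46726 (by decide +kernel)
theorem L46728 : W_6 (nat_lit 7) (nat_lit 0x3c00100013000dc000800000000000000000000000000) (nat_lit 0x0) (nat_lit 0x800040003e00030001c00800000000000000000000000000000000000) := T_6 (nat_lit 190) (nat_lit 191) (nat_lit 1) (nat_lit 7) (nat_lit 10) L46727 (by decide +kernel)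
theorem L46729 : W_6 (nat_lit 8) (nat_lit 0x3400100013000dc000800000000000000000000000000) (nat_lit 0x0) (nat_lit 0x800040003e000b0021c00800000000000000000000000000000000000) := T_6 (nat_lit 175) (nat_lit 161) (nat_lit 2) (nat_lit 4) (nat_lit 10) L46728 (by decide +kernel)
theorem L46730 : W_6 (nat_lit 9) (nat_lit 0x3000100013000dc000800000000000000000000000000) (nat_lit 0x0) (nat_lit 0x800040003e000f0023c00800000000000000000000000000000000000) := T_6 (nat_lit 174) (nat_lit 157) (nat_lit 6) (nat_lit 4) (nat_lit 10) L46729 (by decide +kernel)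
theorem L46731 : W_6 (nat_lit 10) (nat_lit 0x30001000130009c000800000000000000000000000000) (nat_lit 0x0) (nat_lit 0x800040003e000f0023c00800060000000000000000000000000000000) := T_6 (nat_lit 126) (nat_lit 125) (nat_lit 1) (nat_lit 8) (nat_lit 7) L46730 (by decide +kernel)
theorem L46732 : W_6 (nat_lit 11) (nat_lit 0x20001000130009c000800000000000000000000000000) (nat_lit 0x0) (nat_lit 0x800040003e001f002bc0080006000300018000c000000000000000000) := Q_6 (nat_lit 176) (C_6 L46712 (C_6 L46716 (C_6 L46722 (C_6 L46731 N_6)))) (by decide +kernel)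
theorem L46733 : W_6 (nat_lit 12) (nat_lit 0x200010001300098000800000000000000000000000000) (nat_lit 0x0) (nat_lit 0x800040003e001f002bc0080006700338018000c000000000000000000) := Q_6 (nat_lit 122) (C_6 L45646 (C_6 L46708 (C_6 L46732 N_6))) (by decide +kernel)
theorem L46734 : W_6 (nat_lit 2) (nat_lit 0x2000100013000bc0018000f0000000000000000000000) (nat_lit 0x0) (nat_lit 0x300000000800000000000000000) := D_6 (nat_lit 105) (nat_lit 104) (nat_lit 71) (nat_lit 1) (nat_lit 6) (nat_lit 5) (nat_lit 7) (nat_lit 3) (nat_lit 4) (by decide +kernel)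
theorem L46735 : W_6 (nat_lit 3) (nat_lit 0x2000100013000bc0018000e0000000000000000000000) (nat_lit 0x0) (nat_lit 0x300018000800000000000000000) := T_6 (nat_lit 88) (nat_lit 87) (nat_lit 3) (nat_lit 2) (nat_lit 5) L46734 (by decide +kernel)
theorem L46736 : W_6 (nat_lit 4) (nat_lit 0x2000100013000bc0018000c0000000000000000000000) (nat_lit 0x0) (nat_lit 0x300038001800000000000000000) := T_6 (nat_lit 89) (nat_lit 72) (nat_lit 4) (nat_lit 5) (nat_lit 8) L46735 (by decide +kernel)
theorem L46737 : W_6 (nat_lit 5) (nat_lit 0x2000100013000bc001800040000000000000000000000) (nat_lit 0x0) (nat_lit 0x3000b8005800000000000000000) := T_6 (nat_lit 91) (nat_lit 74) (nat_lit 6) (nat_lit 5) (nat_lit 8) L46736 (by decide +kernel)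
theorem L46738 : W_6 (nat_lit 6) (nat_lit 0x2000100013000bc000800040000000000000000000000) (nat_lit 0x0) (nat_lit 0x33000b8005800000000000000000) := T_6 (nat_lit 108) (nat_lit 109) (nat_lit 2) (nat_lit 3) (nat_lit 7) L46737 (by decide +kernel)
theorem L46739 : W_6 (nat_lit 7) (nat_lit 0x2000100013000bc000800000000000000000000000000) (nat_lit 0x0) (nat_lit 0x33000f8007800000000000000000) := T_6 (nat_lit 90) (nat_lit 73) (nat_lit 5) (nat_lit 5) (nat_lit 4) L46738 (by decide +kernel)
theorem L46740 : W_6 (nat_lit 8) (nat_lit 0x20001000130009c000800000000000000000000000000) (nat_lit 0x0) (nat_lit 0x600033000f8007800000000000000000) := T_6 (nat_lit 125) (nat_lit 126) (nat_lit 1) (nat_lit 8) (nat_lit 7) L46739 (by decide +kernel)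
theorem L46741 : W_6 (nat_lit 9) (nat_lit 0x200010001300098000800000000000000000000000000) (nat_lit 0x0) (nat_lit 0x670033800f8007800000000000000000) := Q_6 (nat_lit 122) (C_6 L46708 (C_6 L45646 (C_6 L46740 N_6))) (by decide +kernel)
theorem L46742 : W_6 (nat_lit 13) (nat_lit 0x200010001300098000000000000000000000000000000) (nat_lit 0x0) (nat_lit 0x800040003e001f002bc00800067003b801f800f800000000000000000) := Q_6 (nat_lit 107) (C_6 L45167 (C_6 L46733 (C_6 L46741 N_6))) (by decide +kernel)
theorem L46743 : W_6 (nat_lit 2) (nat_lit 0x2400100013000bc001a00090000000000000000000000) (nat_lit 0x0) (nat_lit 0x400108000000000000000000000) := D_6 (nat_lit 106) (nat_lit 92) (nat_lit 87) (nat_lit 2) (nat_lit 3) (nat_lit 6) (nat_lit 0) (nat_lit 6) (nat_lit 6) (by decide +kernel)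
theorem L46744 : W_6 (nat_lit 3) (nat_lit 0x2400100013000bc001a00080000000000000000000000) (nat_lit 0x0) (nat_lit 0x400118000800000000000000000) := T_6 (nat_lit 88) (nat_lit 71) (nat_lit 7) (nat_lit 3) (nat_lit 4) L46743 (by decide +kernel)
theorem L46745 : W_6 (nat_lit 4) (nat_lit 0x2400100013000bc001800080000000000000000000000) (nat_lit 0x0) (nat_lit 0x700118000800000000000000000) := T_6 (nat_lit 105) (nat_lit 104) (nat_lit 0) (nat_lit 6) (nat_lit 7) L46744 (by decide +kernel)
theorem L46746 : W_6 (nat_lit 5) (nat_lit 0x2400100013000bc001800000000000000000000000000) (nat_lit 0x0) (nat_lit 0x700198004800000000000000000) := T_6 (nat_lit 91) (nat_lit 74) (nat_lit 5) (nat_lit 6) (nat_lit 4) L46745 (by decide +kernel)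
theorem L46747 : W_6 (nat_lit 6) (nat_lit 0x2400100013000bc000800000000000000000000000000) (nat_lit 0x0) (nat_lit 0x3700198004800000000000000000) := T_6 (nat_lit 108) (nat_lit 109) (nat_lit 2) (nat_lit 3) (nat_lit 7) L46746 (by decide +kernel)
theorem L46748 : W_6 (nat_lit 7) (nat_lit 0x2000100013000bc000800000000000000000000000000) (nat_lit 0x0) (nat_lit 0x40002000000000003700198004800000000000000000) := T_6 (nat_lit 174) (nat_lit 157) (nat_lit 6) (nat_lit 4) (nat_lit 10) L46747 (by decide +kernel)
theorem L46749 : W_6 (nat_lit 8) (nat_lit 0x20001000130009c000800000000000000000000000000) (nat_lit 0x0) (nat_lit 0x40002000000060003700198004800000000000000000) := T_6 (nat_lit 125) (nat_lit 126) (nat_lit 1) (nat_lit 8) (nat_lit 7) L46748 (by decide +kernel)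
theorem L46750 : W_6 (nat_lit 9) (nat_lit 0x200010001300098000800000000000000000000000000) (nat_lit 0x0) (nat_lit 0x40002000000067003780198004800000000000000000) := Q_6 (nat_lit 122) (C_6 L45646 (C_6 L46708 (C_6 L46749 N_6))) (by decide +kernel)
theorem L46751 : W_6 (nat_lit 12) (nat_lit 0x200010001300098000000000000000000000000000000) (nat_lit 0x0) (nat_lit 0x40002c00060067003f803fc007800000000000000000) := Q_6 (nat_lit 107) (C_6 L46741 (C_6 L46750 (C_6 L45645 (C_6 L45167 N_6)))) (by decide +kernel)
theorem L46752 : W_6 (nat_lit 2) (nat_lit 0x3e0010001300098000800000000000000000000000000) (nat_lit 0x0) (nat_lit 0xe00000000000000000000000000000000000000000000000) := D_6 (nat_lit 190) (nat_lit 191) (nat_lit 189) (nat_lit 1) (nat_lit 7) (nat_lit 10) (nat_lit 1) (nat_lit 6) (nat_lit 10) (by decide +kernel)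
theorem L46753 : W_6 (nat_lit 3) (nat_lit 0x3c0010001300098000800000000000000000000000000) (nat_lit 0x0) (nat_lit 0xe00020008000000000000000000000000000000000000000) := T_6 (nat_lit 173) (nat_lit 159) (nat_lit 2) (nat_lit 3) (nat_lit 10) L46752 (by decide +kernel)
theorem L46754 : W_6 (nat_lit 4) (nat_lit 0x340010001300098000800000000000000000000000000) (nat_lit 0x0) (nat_lit 0xe000a0028000000000000000000000000000000000000000) := T_6 (nat_lit 175) (nat_lit 161) (nat_lit 2) (nat_lit 4) (nat_lit 10) L46753 (by decide +kernel)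
theorem L46755 : W_6 (nat_lit 5) (nat_lit 0x300010001300098000800000000000000000000000000) (nat_lit 0x0) (nat_lit 0xe000e002a000000000000000000000000000000000000000) := T_6 (nat_lit 174) (nat_lit 157) (nat_lit 6) (nat_lit 4) (nat_lit 10) L46754 (by decide +kernel)
theorem L46756 : W_6 (nat_lit 2) (nat_lit 0x300010001b000d8002800000000000000000000000000) (nat_lit 0x0) (nat_lit 0x1400080000000000000000000000) := D_6 (nat_lit 108) (nat_lit 106) (nat_lit 91) (nat_lit 3) (nat_lit 4) (nat_lit 6) (nat_lit 4) (nat_lit 7) (nat_lit 9) (by decide +kernel)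
theorem L46757 : W_6 (nat_lit 3) (nat_lit 0x300010001b000d8000800000000000000000000000000) (nat_lit 0x0) (nat_lit 0x8000000000003400080000000000000000000000) := T_6 (nat_lit 109) (nat_lit 159) (nat_lit 5) (nat_lit 7) (nat_lit 6) L46756 (by decide +kernel)
theorem L46758 : W_6 (nat_lit 4) (nat_lit 0x3000100013000d8000800000000000000000000000000) (nat_lit 0x0) (nat_lit 0x2000000008000800000003400080000000000000000000000) := T_6 (nat_lit 143) (nat_lit 193) (nat_lit 5) (nat_lit 7) (nat_lit 7) L46757 (by decide +kernel)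
theorem L46759 : W_6 (nat_lit 5) (nat_lit 0x300010001300098000800000000000000000000000000) (nat_lit 0x0) (nat_lit 0x2000000008000800060003400080000000000000000000000) := T_6 (nat_lit 126) (nat_lit 125) (nat_lit 1) (nat_lit 8) (nat_lit 7) L46758 (by decide +kernel)
theorem L46760 : W_6 (nat_lit 2) (nat_lit 0x4003f0010801b000da000800000000000000000000000000) (nat_lit 0x0) (nat_lit 0x5001000000000000000000000000000) := D_6 (nat_lit 122) (nat_lit 108) (nat_lit 120) (nat_lit 2) (nat_lit 2) (nat_lit 7) (nat_lit 3) (nat_lit 1) (nat_lit 7) (by decide +kernel)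
theorem L46761 : W_6 (nat_lit 3) (nat_lit 0x4003f0010801b000d8000800000000000000000000000000) (nat_lit 0x0) (nat_lit 0x40007001000000000000000000000000000) := T_6 (nat_lit 121) (nat_lit 138) (nat_lit 7) (nat_lit 2) (nat_lit 7) L46760 (by decide +kernel)
theorem L46762 : W_6 (nat_lit 4) (nat_lit 0x4003e0010801b000d8000800000000000000000000000000) (nat_lit 0x0) (nat_lit 0x10000400040007001000000000000000000000000000) := T_6 (nat_lit 172) (nat_lit 154) (nat_lit 0) (nat_lit 5) (nat_lit 10) L46761 (by decide +kernel)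
theorem L46763 : W_6 (nat_lit 5) (nat_lit 0x4003e0010001b000d8000800000000000000000000000000) (nat_lit 0x0) (nat_lit 0x10001c00040007001000000000000000000000000000) := T_6 (nat_lit 155) (nat_lit 156) (nat_lit 0) (nat_lit 6) (nat_lit 10) L46762 (by decide +kernel)
theorem L46764 : W_6 (nat_lit 6) (nat_lit 0x4003c0010001b000d8000800000000000000000000000000) (nat_lit 0x0) (nat_lit 0x200030001c00040007001000000000000000000000000000) := T_6 (nat_lit 173) (nat_lit 189) (nat_lit 1) (nat_lit 6) (nat_lit 10) L46763 (by decide +kernel)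
theorem L46765 : W_6 (nat_lit 7) (nat_lit 0x4003c00100013000d8000800000000000000000000000000) (nat_lit 0x0) (nat_lit 0x2200030001c00840007001000000000000000000000000000) := T_6 (nat_lit 143) (nat_lit 193) (nat_lit 5) (nat_lit 7) (nat_lit 7) L46764 (by decide +kernel)
theorem L46766 : W_6 (nat_lit 8) (nat_lit 0x3c00100013000d8000800000000000000000000000000) (nat_lit 0x0) (nat_lit 0x2e00030001c00840007001000000000000000000000000000) := T_6 (nat_lit 190) (nat_lit 191) (nat_lit 1) (nat_lit 7) (nat_lit 10) L46765 (by decide +kernel)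
theorem L46767 : W_6 (nat_lit 9) (nat_lit 0x3400100013000d8000800000000000000000000000000) (nat_lit 0x0) (nat_lit 0x2e000b0021c00840007001000000000000000000000000000) := T_6 (nat_lit 175) (nat_lit 161) (nat_lit 2) (nat_lit 4) (nat_lit 10) L46766 (by decide +kernel)
theorem L46768 : W_6 (nat_lit 10) (nat_lit 0x3000100013000d8000800000000000000000000000000) (nat_lit 0x0) (nat_lit 0x2e000f0023c00840007001000000000000000000000000000) := T_6 (nat_lit 174) (nat_lit 157) (nat_lit 6) (nat_lit 4) (nat_lit 10) L46767 (by decide +kernel)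
theorem L46769 : W_6 (nat_lit 11) (nat_lit 0x300010001300098000800000000000000000000000000) (nat_lit 0x0) (nat_lit 0x2e000f0023c00840067001000000000000000000000000000) := T_6 (nat_lit 126) (nat_lit 125) (nat_lit 1) (nat_lit 8) (nat_lit 7) L46768 (by decide +kernel)
theorem L46770 : W_6 (nat_lit 12) (nat_lit 0x200010001300098000800000000000000000000000000) (nat_lit 0x0) (nat_lit 0x2e001f002bc00840067003400080000000000000000000000) := Q_6 (nat_lit 176) (C_6 L46755 (C_6 L46759 (C_6 L46769 N_6))) (by decide +kernel)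
theorem L46771 : W_6 (nat_lit 13) (nat_lit 0x200010001300098000000000000000000000000000000) (nat_lit 0x0) (nat_lit 0x2e001f002bc00840067003c003fc00f800000000000000000) := Q_6 (nat_lit 107) (C_6 L46172 (C_6 L46770 (C_6 L45167 N_6))) (by decide +kernel)
theorem L46772 : W_6 (nat_lit 2) (nat_lit 0x2000120013000be000000000000000000000000000000) (nat_lit 0x0) (nat_lit 0x3800000000000000000000000000) := D_6 (nat_lit 108) (nat_lit 109) (nat_lit 107) (nat_lit 2) (nat_lit 3) (nat_lit 7) (nat_lit 2) (nat_lit 2) (nat_lit 7) (by decide +kernel)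
theorem L46773 : W_6 (nat_lit 3) (nat_lit 0x2000120013000bc000000000000000000000000000000) (nat_lit 0x0) (nat_lit 0x3003800000000000000000000000000) := T_6 (nat_lit 121) (nat_lit 120) (nat_lit 3) (nat_lit 1) (nat_lit 7) L46772 (by decide +kernel)
theorem L46774 : W_6 (nat_lit 4) (nat_lit 0x20001200130009c000000000000000000000000000000) (nat_lit 0x0) (nat_lit 0x63003800000000000000000000000000) := T_6 (nat_lit 125) (nat_lit 126) (nat_lit 1) (nat_lit 8) (nat_lit 7) L46773 (by decide +kernel)
theorem L46775 : W_6 (nat_lit 9) (nat_lit 0x200012001300098000000000000000000000000000000) (nat_lit 0x0) (nat_lit 0x30001c00060067003f80010000800000000000000000) := Q_6 (nat_lit 122) (C_6 L46774 (C_6 L46633 (C_6 L46636 N_6))) (by decide +kernel)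
theorem L46776 : W_6 (nat_lit 10) (nat_lit 0x200010001300098000000000000000000000000000000) (nat_lit 0x0) (nat_lit 0x1c001f002bc00060067003f80010000800000000000000000) := Q_6 (nat_lit 157) (C_6 L46775 (C_6 L46403 (C_6 L46179 N_6))) (by decide +kernel)
theorem L46777 : W_6 (nat_lit 13) (nat_lit 0x200010001300098000000000000000000000000000000) (nat_lit 0x0) (nat_lit 0x2e001f002bc00840067003f807e003f000000000000000000) := Q_6 (nat_lit 107) (C_6 L46194 (C_6 L46770 (C_6 L45167 N_6))) (by decide +kernel)
theorem L46778 : W_6 (nat_lit 2) (nat_lit 0x20001380130009e000700040000000000000000000000) (nat_lit 0x0) (nat_lit 0x10000000060000000000000000000000000000000000) := D_6 (nat_lit 138) (nat_lit 137) (nat_lit 172) (nat_lit 1) (nat_lit 5) (nat_lit 7) (nat_lit 6) (nat_lit 2) (nat_lit 10) (by decide +kernel)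
theorem L46779 : W_6 (nat_lit 3) (nat_lit 0x20001380130009c000700040000000000000000000000) (nat_lit 0x0) (nat_lit 0x10000000060003000000000000000000000000000000) := T_6 (nat_lit 121) (nat_lit 120) (nat_lit 3) (nat_lit 1) (nat_lit 7) L46778 (by decide +kernel)
theorem L46780 : W_6 (nat_lit 4) (nat_lit 0x200013801300098000700040000000000000000000000) (nat_lit 0x0) (nat_lit 0x10000000060027000000000000000000000000000000) := T_6 (nat_lit 122) (nat_lit 125) (nat_lit 0) (nat_lit 6) (nat_lit 7) L46779 (by decide +kernel)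
theorem L46781 : W_6 (nat_lit 5) (nat_lit 0x200013001300098000700040000000000000000000000) (nat_lit 0x0) (nat_lit 0x10000c00060027000000000000000000000000000000) := T_6 (nat_lit 155) (nat_lit 154) (nat_lit 2) (nat_lit 1) (nat_lit 9) L46780 (by decide +kernel)
theorem L46782 : W_6 (nat_lit 6) (nat_lit 0x200012001300098000700040000000000000000000000) (nat_lit 0x0) (nat_lit 0x30001c00060027000000000000000000000000000000) := T_6 (nat_lit 156) (nat_lit 173) (nat_lit 5) (nat_lit 4) (nat_lit 6) L46781 (by decide +kernel)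
theorem L46783 : W_6 (nat_lit 7) (nat_lit 0x200012001300098000600040000000000000000000000) (nat_lit 0x0) (nat_lit 0x30001c00060027000180000000000000000000000000) := T_6 (nat_lit 104) (nat_lit 103) (nat_lit 3) (nat_lit 1) (nat_lit 6) L46782 (by decide +kernel)
theorem L46784 : W_6 (nat_lit 8) (nat_lit 0x200012001300098000400040000000000000000000000) (nat_lit 0x0) (nat_lit 0x30001c00060027000380010000000000000000000000) := T_6 (nat_lit 105) (nat_lit 88) (nat_lit 4) (nat_lit 4) (nat_lit 9) L46783 (by decide +kernel)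
theorem L46785 : W_6 (nat_lit 9) (nat_lit 0x200012001300098000400000000000000000000000000) (nat_lit 0x0) (nat_lit 0x30001c00060027000b80050000000000000000000000) := T_6 (nat_lit 90) (nat_lit 107) (nat_lit 6) (nat_lit 4) (nat_lit 9) L46784 (by decide +kernel)
theorem L46786 : W_6 (nat_lit 10) (nat_lit 0x200012001300098000000000000000000000000000000) (nat_lit 0x0) (nat_lit 0x30001c00060027000f80070003800000000000000000) := Q_6 (nat_lit 106) (C_6 L45666 (C_6 L46405 (C_6 L46785 N_6))) (by decide +kernel)
theorem L46787 : W_6 (nat_lit 11) (nat_lit 0x200010001300098000000000000000000000000000000) (nat_lit 0x0) (nat_lit 0x1c001f002bc00060027000f80070003800000000000000000) := Q_6 (nat_lit 157) (C_6 L46786 (C_6 L46403 (C_6 L46179 N_6))) (by decide +kernel)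
theorem L46788 : W_6 (nat_lit 14) (nat_lit 0x200010001300088000000000000000000000000000000) (nat_lit 0x0) (nat_lit 0x800040003f001f802bc00860077003f807fe03ff00040000000000000) := Q_6 (nat_lit 124) (C_6 L46426 (C_6 L46203 (C_6 L46620 (C_6 L46415 (C_6 L46705 (C_6 L46742 (C_6 L46751 (C_6 L46771 (C_6 L46776 (C_6 L46777 (C_6 L46787 N_6))))))))))) (by decide +kernel)
theorem L46789 : W_6 (nat_lit 2) (nat_lit 0x2000100013800d8002c00140000000000000000000000) (nat_lit 0x0) (nat_lit 0x280004000000000000000000) := D_6 (nat_lit 91) (nat_lit 93) (nat_lit 74) (nat_lit 1) (nat_lit 8) (nat_lit 5) (nat_lit 6) (nat_lit 5) (nat_lit 8) (by decide +kernel)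
theorem L46790 : W_6 (nat_lit 3) (nat_lit 0x2000100013800d8002c00100000000000000000000000) (nat_lit 0x0) (nat_lit 0x2c0006000000000000000000) := T_6 (nat_lit 90) (nat_lit 73) (nat_lit 5) (nat_lit 5) (nat_lit 4) L46789 (by decide +kernel)
theorem L46791 : W_6 (nat_lit 4) (nat_lit 0x2000100013800d8002c00000000000000000000000000) (nat_lit 0x0) (nat_lit 0x3c000e000000000000000000) := T_6 (nat_lit 92) (nat_lit 75) (nat_lit 7) (nat_lit 7) (nat_lit 4) L46790 (by decide +kernel)
theorem L46792 : W_6 (nat_lit 5) (nat_lit 0x2000100013800d8002400000000000000000000000000) (nat_lit 0x0) (nat_lit 0x18003c000e000000000000000000) := T_6 (nat_lit 107) (nat_lit 108) (nat_lit 3) (nat_lit 4) (nat_lit 6) L46791 (by decide +kernel)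
theorem L46793 : W_6 (nat_lit 2) (nat_lit 0x200010001b800d8002400100000000000000000000000) (nat_lit 0x0) (nat_lit 0x2000100008000000000000000000000000000000000000000) := D_6 (nat_lit 176) (nat_lit 193) (nat_lit 159) (nat_lit 5) (nat_lit 7) (nat_lit 7) (nat_lit 5) (nat_lit 7) (nat_lit 6) (by decide +kernel)
theorem L46794 : W_6 (nat_lit 3) (nat_lit 0x2000100013800d8002400100000000000000000000000) (nat_lit 0x0) (nat_lit 0x2000100028000800000000000000000000000000000000000) := T_6 (nat_lit 143) (nat_lit 161) (nat_lit 7) (nat_lit 7) (nat_lit 5) L46793 (by decide +kernel)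
theorem L46795 : W_6 (nat_lit 4) (nat_lit 0x2000100013800d8002400000000000000000000000000) (nat_lit 0x0) (nat_lit 0x2000100028000800000000000100008000000000000000000) := T_6 (nat_lit 92) (nat_lit 75) (nat_lit 7) (nat_lit 7) (nat_lit 4) L46794 (by decide +kernel)
theorem L46796 : W_6 (nat_lit 2) (nat_lit 0x200010001b802d8003400000000000000000000000000) (nat_lit 0x0) (nat_lit 0x2000100008000000000000000000000000000000000000000) := D_6 (nat_lit 176) (nat_lit 159) (nat_lit 193) (nat_lit 5) (nat_lit 7) (nat_lit 6) (nat_lit 5) (nat_lit 7) (nat_lit 7) (by decide +kernel)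
theorem L46797 : W_6 (nat_lit 3) (nat_lit 0x2000100013802d8003400000000000000000000000000) (nat_lit 0x0) (nat_lit 0x2000100008000800000000000080000000000000000000000) := T_6 (nat_lit 143) (nat_lit 91) (nat_lit 4) (nat_lit 7) (nat_lit 9) L46796 (by decide +kernel)
theorem L46798 : W_6 (nat_lit 4) (nat_lit 0x2000100013800d8003400000000000000000000000000) (nat_lit 0x0) (nat_lit 0x2000100008000800300000000080000000000000000000000) := T_6 (nat_lit 129) (nat_lit 128) (nat_lit 0) (nat_lit 10) (nat_lit 7) L46797 (by decide +kernel)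
theorem L46799 : W_6 (nat_lit 5) (nat_lit 0x2000100013800d8002400000000000000000000000000) (nat_lit 0x0) (nat_lit 0x2000100008000800300001800080000000000000000000000) := T_6 (nat_lit 108) (nat_lit 107) (nat_lit 3) (nat_lit 4) (nat_lit 6) L46798 (by decide +kernel)
theorem L46800 : W_6 (nat_lit 6) (nat_lit 0x2000100013800d8000400000000000000000000000000) (nat_lit 0x0) (nat_lit 0x20001000280008003000038003c000e000000000000000000) := Q_6 (nat_lit 109) (C_6 L45362 (C_6 L46792 (C_6 L46795 (C_6 L46799 N_6)))) (by decide +kernel)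
theorem L46801 : W_6 (nat_lit 7) (nat_lit 0x200010001380098000400000000000000000000000000) (nat_lit 0x0) (nat_lit 0x20001000280008003600038003c000e000000000000000000) := T_6 (nat_lit 126) (nat_lit 125) (nat_lit 1) (nat_lit 7) (nat_lit 7) L46800 (by decide +kernel)
theorem L46802 : W_6 (nat_lit 11) (nat_lit 0x200010001380098000000000000000000000000000000) (nat_lit 0x0) (nat_lit 0x2000100029000800360003c003fc00f800000000000000000) := Q_6 (nat_lit 106) (C_6 L46363 (C_6 L45064 (C_6 L46801 N_6))) (by decide +kernel)
theorem L46803 : W_6 (nat_lit 2) (nat_lit 0x2000108013c009a000100000000000000000000000000) (nat_lit 0x0) (nat_lit 0x20001000000000000000008000000000000000000000) := D_6 (nat_lit 156) (nat_lit 87) (nat_lit 173) (nat_lit 7) (nat_lit 2) (nat_lit 5) (nat_lit 7) (nat_lit 2) (nat_lit 6) (by decide +kernel)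
theorem L46804 : W_6 (nat_lit 3) (nat_lit 0x2000100013c009a000100000000000000000000000000) (nat_lit 0x0) (nat_lit 0x20001c00000000000000008000000000000000000000) := T_6 (nat_lit 155) (nat_lit 154) (nat_lit 1) (nat_lit 5) (nat_lit 8) L46803 (by decide +kernel)
theorem L46805 : W_6 (nat_lit 2) (nat_lit 0x2000108013c009a000300000000000000000000000000) (nat_lit 0x0) (nat_lit 0x480004000000000000000000000) := D_6 (nat_lit 103) (nat_lit 106) (nat_lit 86) (nat_lit 3) (nat_lit 1) (nat_lit 6) (nat_lit 4) (nat_lit 2) (nat_lit 9) (by decide +kernel)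
theorem L46806 : W_6 (nat_lit 3) (nat_lit 0x2000108013c009a000100000000000000000000000000) (nat_lit 0x0) (nat_lit 0x680014000000000000000000000) := T_6 (nat_lit 105) (nat_lit 88) (nat_lit 6) (nat_lit 2) (nat_lit 9) L46805 (by decide +kernel)
theorem L46807 : W_6 (nat_lit 4) (nat_lit 0x2000100013c009a000100000000000000000000000000) (nat_lit 0x0) (nat_lit 0xc00000000000680014000000000000000000000) := T_6 (nat_lit 155) (nat_lit 154) (nat_lit 1) (nat_lit 5) (nat_lit 8) L46806 (by decide +kernel)
theorem L46808 : W_6 (nat_lit 2) (nat_lit 0x2000108013c009a00010000c000000000000000000000) (nat_lit 0x0) (nat_lit 0x200010000800000000000000000) := D_6 (nat_lit 88) (nat_lit 71) (nat_lit 105) (nat_lit 6) (nat_lit 2) (nat_lit 8) (nat_lit 6) (nat_lit 2) (nat_lit 9) (by decide +kernel)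
theorem L46809 : W_6 (nat_lit 3) (nat_lit 0x2000100013c009a00010000c000000000000000000000) (nat_lit 0x0) (nat_lit 0x800000000000280010000800000000000000000) := T_6 (nat_lit 155) (nat_lit 103) (nat_lit 4) (nat_lit 2) (nat_lit 9) L46808 (by decide +kernel)
theorem L46810 : W_6 (nat_lit 4) (nat_lit 0x2000100013c009a000100008000000000000000000000) (nat_lit 0x0) (nat_lit 0x800000000000280014000a00000000000000000) := T_6 (nat_lit 86) (nat_lit 69) (nat_lit 4) (nat_lit 2) (nat_lit 8) L46809 (by decide +kernel)
theorem L46811 : W_6 (nat_lit 5) (nat_lit 0x2000100013c009a000100000000000000000000000000) (nat_lit 0x0) (nat_lit 0x180000000000028001c000a00000000000000000) := T_6 (nat_lit 87) (nat_lit 156) (nat_lit 7) (nat_lit 2) (nat_lit 5) L46810 (by decide +kernel)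
theorem L46812 : W_6 (nat_lit 2) (nat_lit 0x2000100013c009a00050000c001c00000000000000000) (nat_lit 0x0) (nat_lit 0xa80000000000000000000000000) := D_6 (nat_lit 105) (nat_lit 103) (nat_lit 107) (nat_lit 3) (nat_lit 1) (nat_lit 6) (nat_lit 0) (nat_lit 5) (nat_lit 6) (by decide +kernel)
theorem L46813 : W_6 (nat_lit 3) (nat_lit 0x2000100013c009a00010000c001c00000000000000000) (nat_lit 0x0) (nat_lit 0xe80020000000000000000000000) := T_6 (nat_lit 106) (nat_lit 89) (nat_lit 7) (nat_lit 4) (nat_lit 4) L46812 (by decide +kernel)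
theorem L46814 : W_6 (nat_lit 4) (nat_lit 0x2000100013c009a00010000c000c00000000000000000) (nat_lit 0x0) (nat_lit 0xe80020003000000000000000000) := T_6 (nat_lit 72) (nat_lit 73) (nat_lit 1) (nat_lit 5) (nat_lit 4) L46813 (by decide +kernel)
theorem L46815 : W_6 (nat_lit 5) (nat_lit 0x2000100013c009a00010000c000800000000000000000) (nat_lit 0x0) (nat_lit 0xe80020003400040000000000000) := T_6 (nat_lit 70) (nat_lit 54) (nat_lit 6) (nat_lit 2) (nat_lit 7) L46814 (by decide +kernel)
theorem L46816 : W_6 (nat_lit 6) (nat_lit 0x2000100013c009a00010000c000000000000000000000) (nat_lit 0x0) (nat_lit 0xe80030003c00040000000000000) := T_6 (nat_lit 71) (nat_lit 88) (nat_lit 6) (nat_lit 2) (nat_lit 8) L46815 (by decide +kernel)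
theorem L46817 : W_6 (nat_lit 7) (nat_lit 0x2000100013c009a000100008000000000000000000000) (nat_lit 0x0) (nat_lit 0xe80034003e00040000000000000) := T_6 (nat_lit 86) (nat_lit 69) (nat_lit 4) (nat_lit 2) (nat_lit 8) L46816 (by decide +kernel)
theorem L46818 : W_6 (nat_lit 8) (nat_lit 0x2000100013c009a000100000000000000000000000000) (nat_lit 0x0) (nat_lit 0x1000000000000e8003c003e00040000000000000) := T_6 (nat_lit 87) (nat_lit 156) (nat_lit 7) (nat_lit 2) (nat_lit 5) L46817 (by decide +kernel)
theorem L46819 : W_6 (nat_lit 9) (nat_lit 0x2000100013c009a000000000000000000000000000000) (nat_lit 0x0) (nat_lit 0x20001c00000000000f8003c003e00040000000000000) := Q_6 (nat_lit 104) (C_6 L46804 (C_6 L46807 (C_6 L46811 (C_6 L46818 N_6)))) (by decide +kernel)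
theorem L46820 : W_6 (nat_lit 10) (nat_lit 0x2000100013c0098000000000000000000000000000000) (nat_lit 0x0) (nat_lit 0x20001c00000003000f8003c003e00040000000000000) := T_6 (nat_lit 121) (nat_lit 120) (nat_lit 0) (nat_lit 5) (nat_lit 8) L46819 (by decide +kernel)
theorem L46821 : W_6 (nat_lit 11) (nat_lit 0x200010001380098000000000000000000000000000000) (nat_lit 0x0) (nat_lit 0x20001c00060003000f8003c003e00040000000000000) := T_6 (nat_lit 138) (nat_lit 137) (nat_lit 2) (nat_lit 1) (nat_lit 8) L46820 (by decide +kernel)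
theorem L46822 : W_6 (nat_lit 12) (nat_lit 0x200010001300098000000000000000000000000000000) (nat_lit 0x0) (nat_lit 0x2000120029c008e0363003f803fc00fe00040000000000000) := Q_6 (nat_lit 139) (C_6 L45312 (C_6 L46802 (C_6 L46821 N_6))) (by decide +kernel)
theorem L46823 : W_6 (nat_lit 2) (nat_lit 0x20001340130009a000f00008000000000000000000000) (nat_lit 0x0) (nat_lit 0xe0000000000000000000000000000000000) := D_6 (nat_lit 138) (nat_lit 137) (nat_lit 139) (nat_lit 5) (nat_lit 2) (nat_lit 5) (nat_lit 7) (nat_lit 2) (nat_lit 5) (by decide +kernel)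
theorem L46824 : W_6 (nat_lit 3) (nat_lit 0x20001340130009a000f00000000000000000000000000) (nat_lit 0x0) (nat_lit 0xe000000000000c000000000000000000000) := T_6 (nat_lit 87) (nat_lit 86) (nat_lit 0) (nat_lit 5) (nat_lit 6) L46823 (by decide +kernel)
theorem L46825 : W_6 (nat_lit 4) (nat_lit 0x200013401300098000f00000000000000000000000000) (nat_lit 0x0) (nat_lit 0xe000300000000c000000000000000000000) := T_6 (nat_lit 121) (nat_lit 120) (nat_lit 1) (nat_lit 5) (nat_lit 6) L46824 (by decide +kernel)
theorem L46826 : W_6 (nat_lit 5) (nat_lit 0x200013001300098000f00000000000000000000000000) (nat_lit 0x0) (nat_lit 0xc000e000300000000c000000000000000000000) := T_6 (nat_lit 154) (nat_lit 155) (nat_lit 2) (nat_lit 1) (nat_lit 9) L46825 (by decide +kernel)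
theorem L46827 : W_6 (nat_lit 6) (nat_lit 0x200012001300098000f00000000000000000000000000) (nat_lit 0x0) (nat_lit 0x20001c000e000300000000c000000000000000000000) := T_6 (nat_lit 156) (nat_lit 173) (nat_lit 5) (nat_lit 4) (nat_lit 6) L46826 (by decide +kernel)
theorem L46828 : W_6 (nat_lit 7) (nat_lit 0x200012001300098000e00000000000000000000000000) (nat_lit 0x0) (nat_lit 0x20001c000e000300018000c000000000000000000000) := T_6 (nat_lit 104) (nat_lit 103) (nat_lit 3) (nat_lit 1) (nat_lit 6) L46827 (by decide +kernel)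
theorem L46829 : W_6 (nat_lit 8) (nat_lit 0x200012001300098000c00000000000000000000000000) (nat_lit 0x0) (nat_lit 0x20001c000e000300038001c000000000000000000000) := T_6 (nat_lit 105) (nat_lit 88) (nat_lit 4) (nat_lit 4) (nat_lit 9) L46828 (by decide +kernel)
theorem L46830 : W_6 (nat_lit 9) (nat_lit 0x200012001300098000400000000000000000000000000) (nat_lit 0x0) (nat_lit 0x20001c000e0003000b8005c000000000000000000000) := T_6 (nat_lit 107) (nat_lit 90) (nat_lit 6) (nat_lit 4) (nat_lit 9) L46829 (by decide +kernel)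
theorem L46831 : W_6 (nat_lit 10) (nat_lit 0x200012001300098000000000000000000000000000000) (nat_lit 0x0) (nat_lit 0x20001c000e0003000f8007c003800000000000000000) := Q_6 (nat_lit 106) (C_6 L46405 (C_6 L46830 (C_6 L45666 N_6))) (by decide +kernel)
theorem L46832 : W_6 (nat_lit 11) (nat_lit 0x200010001300098000000000000000000000000000000) (nat_lit 0x0) (nat_lit 0x1c001e002bc000e0003000f8007c003800000000000000000) := Q_6 (nat_lit 157) (C_6 L46831 (C_6 L46403 (C_6 L46179 N_6))) (by decide +kernel)
theorem L46833 : W_6 (nat_lit 4) (nat_lit 0x340010001380098000400000000000000000000000000) (nat_lit 0x0) (nat_lit 0xe000a0028000000000000000000000000000000000000000) := T_6 (nat_lit 175) (nat_lit 161) (nat_lit 2) (nat_lit 4) (nat_lit 10) L46462 (by decide +kernel)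
theorem L46834 : W_6 (nat_lit 2) (nat_lit 0x340010001b800d8002400080000000000000000000000) (nat_lit 0x0) (nat_lit 0x10000c000000000000000000) := D_6 (nat_lit 92) (nat_lit 75) (nat_lit 74) (nat_lit 7) (nat_lit 7) (nat_lit 4) (nat_lit 4) (nat_lit 7) (nat_lit 8) (by decide +kernel)
theorem L46835 : W_6 (nat_lit 3) (nat_lit 0x340010001b800d8002400000000000000000000000000) (nat_lit 0x0) (nat_lit 0x100018000c000000000000000000) := T_6 (nat_lit 91) (nat_lit 108) (nat_lit 4) (nat_lit 7) (nat_lit 9) L46834 (by decide +kernel)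
theorem L46836 : W_6 (nat_lit 4) (nat_lit 0x340010001b800d8000400000000000000000000000000) (nat_lit 0x0) (nat_lit 0x800000000000300018000c000000000000000000) := T_6 (nat_lit 109) (nat_lit 159) (nat_lit 5) (nat_lit 7) (nat_lit 6) L46835 (by decide +kernel)
theorem L46837 : W_6 (nat_lit 5) (nat_lit 0x3400100013800d8000400000000000000000000000000) (nat_lit 0x0) (nat_lit 0x200000000800080000000300018000c000000000000000000) := T_6 (nat_lit 143) (nat_lit 193) (nat_lit 5) (nat_lit 7) (nat_lit 7) L46836 (by decide +kernel)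
theorem L46838 : W_6 (nat_lit 6) (nat_lit 0x340010001380098000400000000000000000000000000) (nat_lit 0x0) (nat_lit 0x200000000800080006000300018000c000000000000000000) := T_6 (nat_lit 126) (nat_lit 125) (nat_lit 1) (nat_lit 7) (nat_lit 7) L46837 (by decide +kernel)
theorem L46839 : W_6 (nat_lit 2) (nat_lit 0x4003c00100013800d8000400000000000000000000000000) (nat_lit 0x0) (nat_lit 0x200020001000000000000000000000000000000000000000) := D_6 (nat_lit 173) (nat_lit 189) (nat_lit 156) (nat_lit 1) (nat_lit 6) (nat_lit 10) (nat_lit 6) (nat_lit 3) (nat_lit 11) (by decide +kernel)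
theorem L46840 : W_6 (nat_lit 3) (nat_lit 0x3c00100013800d8000400000000000000000000000000) (nat_lit 0x0) (nat_lit 0xe00020001000000000000000000000000000000000000000) := T_6 (nat_lit 190) (nat_lit 191) (nat_lit 1) (nat_lit 7) (nat_lit 10) L46839 (by decide +kernel)
theorem L46841 : W_6 (nat_lit 4) (nat_lit 0x3400100013800d8000400000000000000000000000000) (nat_lit 0x0) (nat_lit 0xe000a0021000000000000000000000000000000000000000) := T_6 (nat_lit 175) (nat_lit 161) (nat_lit 2) (nat_lit 4) (nat_lit 10) L46840 (by decide +kernel)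
theorem L46842 : W_6 (nat_lit 5) (nat_lit 0x340010001380098000400000000000000000000000000) (nat_lit 0x0) (nat_lit 0xe000a0021000000060000000000000000000000000000000) := T_6 (nat_lit 126) (nat_lit 125) (nat_lit 1) (nat_lit 7) (nat_lit 7) L46841 (by decide +kernel)
theorem L46843 : W_6 (nat_lit 7) (nat_lit 0x240010001380098000400000000000000000000000000) (nat_lit 0x0) (nat_lit 0x2e001a002900080006000300018000c000000000000000000) := Q_6 (nat_lit 176) (C_6 L46460 (C_6 L46833 (C_6 L46838 (C_6 L46842 N_6)))) (by decide +kernel)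
theorem L46844 : W_6 (nat_lit 2) (nat_lit 0x2400120013800d8000400000000000000000000000000) (nat_lit 0x0) (nat_lit 0x400020001000000000000000000000000000000000000000) := D_6 (nat_lit 173) (nat_lit 190) (nat_lit 156) (nat_lit 5) (nat_lit 4) (nat_lit 7) (nat_lit 5) (nat_lit 4) (nat_lit 6) (by decide +kernel)
theorem L46845 : W_6 (nat_lit 3) (nat_lit 0x2400100013800d8000400000000000000000000000000) (nat_lit 0x0) (nat_lit 0xc00020003000000000000000000000000000000000000000) := T_6 (nat_lit 157) (nat_lit 191) (nat_lit 6) (nat_lit 4) (nat_lit 11) L46844 (by decide +kernel)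
theorem L46846 : W_6 (nat_lit 4) (nat_lit 0x240010001380098000400000000000000000000000000) (nat_lit 0x0) (nat_lit 0xc00020003000000060000000000000000000000000000000) := T_6 (nat_lit 126) (nat_lit 125) (nat_lit 1) (nat_lit 7) (nat_lit 7) L46845 (by decide +kernel)
theorem L46847 : W_6 (nat_lit 2) (nat_lit 0x2e00120013800d8000400000000000000000000000000) (nat_lit 0x0) (nat_lit 0x100028000000000000000000000000000000000000000) := D_6 (nat_lit 176) (nat_lit 161) (nat_lit 159) (nat_lit 2) (nat_lit 4) (nat_lit 10) (nat_lit 2) (nat_lit 3) (nat_lit 10) (by decide +kernel)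
theorem L46848 : W_6 (nat_lit 3) (nat_lit 0x2600120013800d8000400000000000000000000000000) (nat_lit 0x0) (nat_lit 0x1000180028000000000000000000000000000000000000000) := T_6 (nat_lit 175) (nat_lit 192) (nat_lit 7) (nat_lit 4) (nat_lit 7) L46847 (by decide +kernel)
theorem L46849 : W_6 (nat_lit 4) (nat_lit 0x2400120013800d8000400000000000000000000000000) (nat_lit 0x0) (nat_lit 0x14001a0028000000000000000000000000000000000000000) := T_6 (nat_lit 173) (nat_lit 190) (nat_lit 5) (nat_lit 4) (nat_lit 7) L46848 (by decide +kernel)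
theorem L46850 : W_6 (nat_lit 5) (nat_lit 0x240012001380098000400000000000000000000000000) (nat_lit 0x0) (nat_lit 0x14001a0028000000060000000000000000000000000000000) := T_6 (nat_lit 126) (nat_lit 125) (nat_lit 1) (nat_lit 7) (nat_lit 7) L46849 (by decide +kernel)
theorem L46851 : W_6 (nat_lit 6) (nat_lit 0x240010001380098000400000000000000000000000000) (nat_lit 0x0) (nat_lit 0x1c001a002a000000060000000000000000000000000000000) := T_6 (nat_lit 157) (nat_lit 191) (nat_lit 6) (nat_lit 4) (nat_lit 11) L46850 (by decide +kernel)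
theorem L46852 : W_6 (nat_lit 2) (nat_lit 0x240012001380098000400000000000000000000000000) (nat_lit 0x0) (nat_lit 0x400020001000000000000000000000000000000000000000) := D_6 (nat_lit 173) (nat_lit 190) (nat_lit 156) (nat_lit 5) (nat_lit 4) (nat_lit 7) (nat_lit 5) (nat_lit 4) (nat_lit 6) (by decide +kernel)
theorem L46853 : W_6 (nat_lit 3) (nat_lit 0x240010001380098000400000000000000000000000000) (nat_lit 0x0) (nat_lit 0xc00020003000000000000000000000000000000000000000) := T_6 (nat_lit 157) (nat_lit 191) (nat_lit 6) (nat_lit 4) (nat_lit 11) L46852 (by decide +kernel)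
theorem L46854 : W_6 (nat_lit 2) (nat_lit 0x2c00120013800d8000400000000000000000000000000) (nat_lit 0x0) (nat_lit 0x100021000000000000000000000000000000000000000) := D_6 (nat_lit 176) (nat_lit 161) (nat_lit 156) (nat_lit 2) (nat_lit 4) (nat_lit 10) (nat_lit 0) (nat_lit 7) (nat_lit 10) (by decide +kernel)
theorem L46855 : W_6 (nat_lit 3) (nat_lit 0x2400120013800d8000400000000000000000000000000) (nat_lit 0x0) (nat_lit 0x1000180021000000000000000000000000000000000000000) := T_6 (nat_lit 175) (nat_lit 192) (nat_lit 7) (nat_lit 4) (nat_lit 7) L46854 (by decide +kernel)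
theorem L46856 : W_6 (nat_lit 4) (nat_lit 0x240012001380098000400000000000000000000000000) (nat_lit 0x0) (nat_lit 0x1000180021000000060000000000000000000000000000000) := T_6 (nat_lit 126) (nat_lit 125) (nat_lit 1) (nat_lit 7) (nat_lit 7) L46855 (by decide +kernel)
theorem L46857 : W_6 (nat_lit 5) (nat_lit 0x240010001380098000400000000000000000000000000) (nat_lit 0x0) (nat_lit 0x1800180023000000060000000000000000000000000000000) := T_6 (nat_lit 157) (nat_lit 191) (nat_lit 6) (nat_lit 4) (nat_lit 11) L46856 (by decide +kernel)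
theorem L46858 : W_6 (nat_lit 6) (nat_lit 0x240010001380098000400000000000000000000000000) (nat_lit 0x0) (nat_lit 0x14001a002b000000060000000000000000000000000000000) := Q_6 (nat_lit 157) (C_6 L46856 (C_6 L46850 (C_6 L46852 N_6))) (by decide +kernel)
theorem L46859 : W_6 (nat_lit 8) (nat_lit 0x200010001380098000400000000000000000000000000) (nat_lit 0x0) (nat_lit 0x3e001e002b00080006000300018000c000000000000000000) := Q_6 (nat_lit 174) (C_6 L46843 (C_6 L46846 (C_6 L46851 (C_6 L46853 (C_6 L46857 (C_6 L46858 N_6)))))) (by decide +kernel)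
theorem L46860 : W_6 (nat_lit 7) (nat_lit 0x200010001380098000400000000000000000000000000) (nat_lit 0x0) (nat_lit 0x20000000600003800f0003800000000000000000) := T_6 (nat_lit 126) (nat_lit 125) (nat_lit 1) (nat_lit 7) (nat_lit 7) L45397 (by decide +kernel)
theorem L46861 : W_6 (nat_lit 9) (nat_lit 0x200010001380098000000000000000000000000000000) (nat_lit 0x0) (nat_lit 0x3e001e002b0008000600037801f000f800000000000000000) := Q_6 (nat_lit 106) (C_6 L46859 (C_6 L45064 (C_6 L46860 N_6))) (by decide +kernel)
theorem L46862 : W_6 (nat_lit 2) (nat_lit 0x2000128013c009a000700000000000000000000000000) (nat_lit 0x0) (nat_lit 0x20001000000000000000008000000000000000000000) := D_6 (nat_lit 156) (nat_lit 173) (nat_lit 87) (nat_lit 7) (nat_lit 2) (nat_lit 6) (nat_lit 7) (nat_lit 2) (nat_lit 5) (by decide +kernel)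
theorem L46863 : W_6 (nat_lit 3) (nat_lit 0x2000128013c0098000700000000000000000000000000) (nat_lit 0x0) (nat_lit 0x20001000000003000000008000000000000000000000) := T_6 (nat_lit 121) (nat_lit 120) (nat_lit 0) (nat_lit 5) (nat_lit 8) L46862 (by decide +kernel)
theorem L46864 : W_6 (nat_lit 4) (nat_lit 0x2000120013c0098000700000000000000000000000000) (nat_lit 0x0) (nat_lit 0x20001c00000003000000008000000000000000000000) := T_6 (nat_lit 155) (nat_lit 154) (nat_lit 1) (nat_lit 5) (nat_lit 8) L46863 (by decide +kernel)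
theorem L46865 : W_6 (nat_lit 5) (nat_lit 0x2000120013c0098000600000000000000000000000000) (nat_lit 0x0) (nat_lit 0x20001c00000003000180008000000000000000000000) := T_6 (nat_lit 104) (nat_lit 103) (nat_lit 3) (nat_lit 1) (nat_lit 6) L46864 (by decide +kernel)
theorem L46866 : W_6 (nat_lit 6) (nat_lit 0x2000120013c0098000400000000000000000000000000) (nat_lit 0x0) (nat_lit 0x20001c00000003000380018000000000000000000000) := T_6 (nat_lit 105) (nat_lit 88) (nat_lit 4) (nat_lit 4) (nat_lit 9) L46865 (by decide +kernel)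
theorem L46867 : W_6 (nat_lit 7) (nat_lit 0x200012001380098000400000000000000000000000000) (nat_lit 0x0) (nat_lit 0x20001c00060003000380018000000000000000000000) := T_6 (nat_lit 138) (nat_lit 137) (nat_lit 2) (nat_lit 1) (nat_lit 8) L46866 (by decide +kernel)
theorem L46868 : W_6 (nat_lit 2) (nat_lit 0x240013401380098000400000000000000000000000000) (nat_lit 0x0) (nat_lit 0x1000180000000000000000000000000000000000000000000) := D_6 (nat_lit 175) (nat_lit 192) (nat_lit 176) (nat_lit 7) (nat_lit 4) (nat_lit 7) (nat_lit 0) (nat_lit 7) (nat_lit 10) (by decide +kernel)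
theorem L46869 : W_6 (nat_lit 3) (nat_lit 0x200013401380098000400000000000000000000000000) (nat_lit 0x0) (nat_lit 0x18001c0000000000000000000000000000000000000000000) := T_6 (nat_lit 174) (nat_lit 191) (nat_lit 6) (nat_lit 4) (nat_lit 11) L46868 (by decide +kernel)
theorem L46870 : W_6 (nat_lit 4) (nat_lit 0x200013001380098000400000000000000000000000000) (nat_lit 0x0) (nat_lit 0x18001c0000c00000000000000000000000000000000000000) := T_6 (nat_lit 154) (nat_lit 155) (nat_lit 2) (nat_lit 1) (nat_lit 9) L46869 (by decide +kernel)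
theorem L46871 : W_6 (nat_lit 5) (nat_lit 0x200012001380098000400000000000000000000000000) (nat_lit 0x0) (nat_lit 0x18001e0001c00000000000000000000000000000000000000) := T_6 (nat_lit 156) (nat_lit 173) (nat_lit 5) (nat_lit 4) (nat_lit 6) L46870 (by decide +kernel)
theorem L46872 : W_6 (nat_lit 2) (nat_lit 0x3c00120013a0098000680000000000000000000000000) (nat_lit 0x0) (nat_lit 0x400020008000000000000000000000000000000000000000) := D_6 (nat_lit 173) (nat_lit 159) (nat_lit 190) (nat_lit 2) (nat_lit 3) (nat_lit 10) (nat_lit 5) (nat_lit 4) (nat_lit 7) (by decide +kernel)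
theorem L46873 : W_6 (nat_lit 3) (nat_lit 0x2c00120013a0098000680000000000000000000000000) (nat_lit 0x0) (nat_lit 0x400120028000000000000000000000000000000000000000) := T_6 (nat_lit 176) (nat_lit 161) (nat_lit 2) (nat_lit 4) (nat_lit 10) L46872 (by decide +kernel)
theorem L46874 : W_6 (nat_lit 4) (nat_lit 0x2400120013a0098000680000000000000000000000000) (nat_lit 0x0) (nat_lit 0x14001a0028000000000000000000000000000000000000000) := T_6 (nat_lit 175) (nat_lit 192) (nat_lit 7) (nat_lit 4) (nat_lit 7) L46873 (by decide +kernel)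
theorem L46875 : W_6 (nat_lit 5) (nat_lit 0x2000120013a0098000680000000000000000000000000) (nat_lit 0x0) (nat_lit 0x1c001e0028000000000000000000000000000000000000000) := T_6 (nat_lit 174) (nat_lit 191) (nat_lit 6) (nat_lit 4) (nat_lit 11) L46874 (by decide +kernel)
theorem L46876 : W_6 (nat_lit 6) (nat_lit 0x200012001380098000680000000000000000000000000) (nat_lit 0x0) (nat_lit 0x1c001e0028000060000000000000000000000000000000000) := T_6 (nat_lit 137) (nat_lit 138) (nat_lit 2) (nat_lit 1) (nat_lit 8) L46875 (by decide +kernel)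
theorem L46877 : W_6 (nat_lit 7) (nat_lit 0x200012001380098000600000000000000000000000000) (nat_lit 0x0) (nat_lit 0x1c001e0028000060000000180000000000000000000000000) := T_6 (nat_lit 103) (nat_lit 104) (nat_lit 3) (nat_lit 1) (nat_lit 6) L46876 (by decide +kernel)
theorem L46878 : W_6 (nat_lit 8) (nat_lit 0x200012001380098000400000000000000000000000000) (nat_lit 0x0) (nat_lit 0x1c001e0028000060000000380010000000000000000000000) := T_6 (nat_lit 105) (nat_lit 88) (nat_lit 4) (nat_lit 4) (nat_lit 9) L46877 (by decide +kernel)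
theorem L46879 : W_6 (nat_lit 2) (nat_lit 0x2c0012001380098000680000000000000000000000000) (nat_lit 0x0) (nat_lit 0x100021000000000000000000000000000000000000000) := D_6 (nat_lit 176) (nat_lit 161) (nat_lit 156) (nat_lit 2) (nat_lit 4) (nat_lit 10) (nat_lit 0) (nat_lit 7) (nat_lit 10) (by decide +kernel)
theorem L46880 : W_6 (nat_lit 3) (nat_lit 0x240012001380098000680000000000000000000000000) (nat_lit 0x0) (nat_lit 0x1000180021000000000000000000000000000000000000000) := T_6 (nat_lit 175) (nat_lit 192) (nat_lit 7) (nat_lit 4) (nat_lit 7) L46879 (by decide +kernel)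
theorem L46881 : W_6 (nat_lit 4) (nat_lit 0x240012001380098000600000000000000000000000000) (nat_lit 0x0) (nat_lit 0x1000180021000000000000180000000000000000000000000) := T_6 (nat_lit 103) (nat_lit 104) (nat_lit 3) (nat_lit 1) (nat_lit 6) L46880 (by decide +kernel)
theorem L46882 : W_6 (nat_lit 5) (nat_lit 0x240012001380098000400000000000000000000000000) (nat_lit 0x0) (nat_lit 0x1000180021000000000000380010000000000000000000000) := T_6 (nat_lit 105) (nat_lit 88) (nat_lit 4) (nat_lit 4) (nat_lit 9) L46881 (by decide +kernel)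
theorem L46883 : W_6 (nat_lit 6) (nat_lit 0x200012001380098000400000000000000000000000000) (nat_lit 0x0) (nat_lit 0x18001c0021000000000000380010000000000000000000000) := T_6 (nat_lit 174) (nat_lit 191) (nat_lit 6) (nat_lit 4) (nat_lit 11) L46882 (by decide +kernel)
theorem L46884 : W_6 (nat_lit 9) (nat_lit 0x200010001380098000400000000000000000000000000) (nat_lit 0x0) (nat_lit 0x1c001e002bc00060003000380018000000000000000000000) := Q_6 (nat_lit 157) (C_6 L46867 (C_6 L46871 (C_6 L46878 (C_6 L46883 N_6)))) (by decide +kernel)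
theorem L46885 : W_6 (nat_lit 2) (nat_lit 0x3c00120013a0098000400070000000000000000000000) (nat_lit 0x0) (nat_lit 0x400020008000000000000000000000000000000000000000) := D_6 (nat_lit 173) (nat_lit 159) (nat_lit 190) (nat_lit 2) (nat_lit 3) (nat_lit 10) (nat_lit 5) (nat_lit 4) (nat_lit 7) (by decide +kernel)
theorem L46886 : W_6 (nat_lit 3) (nat_lit 0x2c00120013a0098000400070000000000000000000000) (nat_lit 0x0) (nat_lit 0x400120028000000000000000000000000000000000000000) := T_6 (nat_lit 176) (nat_lit 161) (nat_lit 2) (nat_lit 4) (nat_lit 10) L46885 (by decide +kernel)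
theorem L46887 : W_6 (nat_lit 4) (nat_lit 0x2400120013a0098000400070000000000000000000000) (nat_lit 0x0) (nat_lit 0x14001a0028000000000000000000000000000000000000000) := T_6 (nat_lit 175) (nat_lit 192) (nat_lit 7) (nat_lit 4) (nat_lit 7) L46886 (by decide +kernel)
theorem L46888 : W_6 (nat_lit 5) (nat_lit 0x2000120013a0098000400070000000000000000000000) (nat_lit 0x0) (nat_lit 0x1c001e0028000000000000000000000000000000000000000) := T_6 (nat_lit 174) (nat_lit 191) (nat_lit 6) (nat_lit 4) (nat_lit 11) L46887 (by decide +kernel)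
theorem L46889 : W_6 (nat_lit 6) (nat_lit 0x2000120013a0098000400030000000000000000000000) (nat_lit 0x0) (nat_lit 0x1c001e0028000000000000000040002000000000000000000) := T_6 (nat_lit 90) (nat_lit 73) (nat_lit 6) (nat_lit 4) (nat_lit 8) L46888 (by decide +kernel)
theorem L46890 : W_6 (nat_lit 7) (nat_lit 0x2000100013a0098000400030000000000000000000000) (nat_lit 0x0) (nat_lit 0x1c001e002a000000000000200040002000000000000000000) := T_6 (nat_lit 157) (nat_lit 105) (nat_lit 4) (nat_lit 4) (nat_lit 9) L46889 (by decide +kernel)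
theorem L46891 : W_6 (nat_lit 8) (nat_lit 0x2000100013a0098000400020000000000000000000000) (nat_lit 0x0) (nat_lit 0x1c001e002a000000000000200050002800000000000000000) := T_6 (nat_lit 88) (nat_lit 71) (nat_lit 4) (nat_lit 4) (nat_lit 8) L46890 (by decide +kernel)
theorem L46892 : W_6 (nat_lit 9) (nat_lit 0x2000100013a0098000400000000000000000000000000) (nat_lit 0x0) (nat_lit 0x1c001e002a000000000000200070003800000000000000000) := T_6 (nat_lit 89) (nat_lit 72) (nat_lit 7) (nat_lit 4) (nat_lit 4) L46891 (by decide +kernel)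
theorem L46893 : W_6 (nat_lit 10) (nat_lit 0x200010001380098000400000000000000000000000000) (nat_lit 0x0) (nat_lit 0x1c001e002a000060000000200070003800000000000000000) := T_6 (nat_lit 137) (nat_lit 138) (nat_lit 2) (nat_lit 1) (nat_lit 8) L46892 (by decide +kernel)
theorem L46894 : W_6 (nat_lit 11) (nat_lit 0x200010001380098000000000000000000000000000000) (nat_lit 0x0) (nat_lit 0x1c001e002bc00060003000780078003800000000000000000) := Q_6 (nat_lit 106) (C_6 L45064 (C_6 L46884 (C_6 L46893 N_6))) (by decide +kernel)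
theorem L46895 : W_6 (nat_lit 12) (nat_lit 0x200010001300098000000000000000000000000000000) (nat_lit 0x0) (nat_lit 0x3e001e002bc008e00630037801f800f800000000000000000) := Q_6 (nat_lit 139) (C_6 L45312 (C_6 L46861 (C_6 L46894 N_6))) (by decide +kernel)
theorem L46896 : W_6 (nat_lit 2) (nat_lit 0x2000100013800d80029000f0008400000000000000000) (nat_lit 0x0) (nat_lit 0x80008000200000000000000000) := D_6 (nat_lit 87) (nat_lit 69) (nat_lit 103) (nat_lit 0) (nat_lit 5) (nat_lit 5) (nat_lit 1) (nat_lit 5) (nat_lit 5) (by decide +kernel)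
theorem L46897 : W_6 (nat_lit 3) (nat_lit 0x2000100013800d80028000f0008400000000000000000) (nat_lit 0x0) (nat_lit 0x380008000200000000000000000) := T_6 (nat_lit 104) (nat_lit 105) (nat_lit 1) (nat_lit 6) (nat_lit 5) L46896 (by decide +kernel)
theorem L46898 : W_6 (nat_lit 4) (nat_lit 0x2000100013800d80028000f0008000000000000000000) (nat_lit 0x0) (nat_lit 0x380008000e00000000000000000) := T_6 (nat_lit 70) (nat_lit 71) (nat_lit 0) (nat_lit 6) (nat_lit 5) L46897 (by decide +kernel)
theorem L46899 : W_6 (nat_lit 5) (nat_lit 0x2000100013800d80028000e0008000000000000000000) (nat_lit 0x0) (nat_lit 0x1380018000e00000000000000000) := T_6 (nat_lit 88) (nat_lit 108) (nat_lit 3) (nat_lit 3) (nat_lit 5) L46898 (by decide +kernel)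
theorem L46900 : W_6 (nat_lit 6) (nat_lit 0x2000100013800d8002800060008000000000000000000) (nat_lit 0x0) (nat_lit 0x1380098004e00000000000000000) := T_6 (nat_lit 91) (nat_lit 74) (nat_lit 6) (nat_lit 5) (nat_lit 8) L46899 (by decide +kernel)
theorem L46901 : W_6 (nat_lit 7) (nat_lit 0x2000100013800d8002800040008000000000000000000) (nat_lit 0x0) (nat_lit 0x13800b8005e00000000000000000) := T_6 (nat_lit 89) (nat_lit 72) (nat_lit 4) (nat_lit 5) (nat_lit 8) L46900 (by decide +kernel)
theorem L46902 : W_6 (nat_lit 8) (nat_lit 0x2000100013800d8002800000008000000000000000000) (nat_lit 0x0) (nat_lit 0x13800f8007e00000000000000000) := T_6 (nat_lit 90) (nat_lit 73) (nat_lit 5) (nat_lit 5) (nat_lit 4) L46901 (by decide +kernel)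
theorem L46903 : W_6 (nat_lit 9) (nat_lit 0x2000100013800d8002800000000000000000000000000) (nat_lit 0x0) (nat_lit 0x13801f800fe00000000000000000) := T_6 (nat_lit 75) (nat_lit 92) (nat_lit 7) (nat_lit 7) (nat_lit 4) L46902 (by decide +kernel)
theorem L46904 : W_6 (nat_lit 2) (nat_lit 0x200010001b800d8002800100000000000000000000000) (nat_lit 0x0) (nat_lit 0x1000080004000000000000000000) := D_6 (nat_lit 91) (nat_lit 74) (nat_lit 108) (nat_lit 4) (nat_lit 7) (nat_lit 8) (nat_lit 4) (nat_lit 7) (nat_lit 9) (by decide +kernel)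
theorem L46905 : W_6 (nat_lit 3) (nat_lit 0x2000100013800d8002800100000000000000000000000) (nat_lit 0x0) (nat_lit 0x20000800000001000080004000000000000000000) := T_6 (nat_lit 143) (nat_lit 161) (nat_lit 7) (nat_lit 7) (nat_lit 5) L46904 (by decide +kernel)
theorem L46906 : W_6 (nat_lit 4) (nat_lit 0x2000100013800d8002800000000000000000000000000) (nat_lit 0x0) (nat_lit 0x2000080000000100018000c000000000000000000) := T_6 (nat_lit 92) (nat_lit 75) (nat_lit 7) (nat_lit 7) (nat_lit 4) L46905 (by decide +kernel)
theorem L46907 : W_6 (nat_lit 2) (nat_lit 0x2000100013800d80028000e0000000000000000000000) (nat_lit 0x0) (nat_lit 0x800000001000010000000000000000000000) := D_6 (nat_lit 108) (nat_lit 143) (nat_lit 88) (nat_lit 4) (nat_lit 7) (nat_lit 9) (nat_lit 3) (nat_lit 3) (nat_lit 5) (by decide +kernel)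
theorem L46908 : W_6 (nat_lit 3) (nat_lit 0x2000100013800d8002800060000000000000000000000) (nat_lit 0x0) (nat_lit 0x800000001000090004000000000000000000) := T_6 (nat_lit 91) (nat_lit 74) (nat_lit 6) (nat_lit 5) (nat_lit 8) L46907 (by decide +kernel)
theorem L46909 : W_6 (nat_lit 4) (nat_lit 0x2000100013800d8002800040000000000000000000000) (nat_lit 0x0) (nat_lit 0x8000000010000b0005000000000000000000) := T_6 (nat_lit 89) (nat_lit 72) (nat_lit 4) (nat_lit 5) (nat_lit 8) L46908 (by decide +kernel)
theorem L46910 : W_6 (nat_lit 5) (nat_lit 0x2000100013800d8002800000000000000000000000000) (nat_lit 0x0) (nat_lit 0x8000000010000f0007000000000000000000) := T_6 (nat_lit 90) (nat_lit 73) (nat_lit 5) (nat_lit 5) (nat_lit 4) L46909 (by decide +kernel)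
theorem L46911 : W_6 (nat_lit 10) (nat_lit 0x2000100013800d8000800000000000000000000000000) (nat_lit 0x0) (nat_lit 0x20001000280008000000033801f800fe00000000000000000) := Q_6 (nat_lit 109) (C_6 L42494 (C_6 L46903 (C_6 L46906 (C_6 L46910 N_6)))) (by decide +kernel)
theorem L46912 : W_6 (nat_lit 11) (nat_lit 0x200010001380098000800000000000000000000000000) (nat_lit 0x0) (nat_lit 0x20001000280008000600033801f800fe00000000000000000) := T_6 (nat_lit 126) (nat_lit 125) (nat_lit 1) (nat_lit 7) (nat_lit 7) L46911 (by decide +kernel)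
theorem L46913 : W_6 (nat_lit 2) (nat_lit 0x3e0010001380098000800000000000000000000000000) (nat_lit 0x0) (nat_lit 0x400000001800000000000000000000000000000000000000) := D_6 (nat_lit 156) (nat_lit 155) (nat_lit 190) (nat_lit 0) (nat_lit 6) (nat_lit 10) (nat_lit 6) (nat_lit 3) (nat_lit 11) (by decide +kernel)
theorem L46914 : W_6 (nat_lit 3) (nat_lit 0x3c0010001380098000800000000000000000000000000) (nat_lit 0x0) (nat_lit 0x400020009800000000000000000000000000000000000000) := T_6 (nat_lit 173) (nat_lit 159) (nat_lit 2) (nat_lit 3) (nat_lit 10) L46913 (by decide +kernel)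
theorem L46915 : W_6 (nat_lit 4) (nat_lit 0x340010001380098000800000000000000000000000000) (nat_lit 0x0) (nat_lit 0x4000a0029800000000000000000000000000000000000000) := T_6 (nat_lit 175) (nat_lit 161) (nat_lit 2) (nat_lit 4) (nat_lit 10) L46914 (by decide +kernel)
theorem L46916 : W_6 (nat_lit 5) (nat_lit 0x300010001380098000800000000000000000000000000) (nat_lit 0x0) (nat_lit 0x4000e002b800000000000000000000000000000000000000) := T_6 (nat_lit 174) (nat_lit 157) (nat_lit 6) (nat_lit 4) (nat_lit 10) L46915 (by decide +kernel)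
theorem L46917 : W_6 (nat_lit 2) (nat_lit 0x3e00100013800d8000800000000000000000000000000) (nat_lit 0x0) (nat_lit 0xe00000000000000000000000000000000000000000000000) := D_6 (nat_lit 190) (nat_lit 189) (nat_lit 191) (nat_lit 1) (nat_lit 6) (nat_lit 10) (nat_lit 1) (nat_lit 7) (nat_lit 10) (by decide +kernel)
theorem L46918 : W_6 (nat_lit 3) (nat_lit 0x3c00100013800d8000800000000000000000000000000) (nat_lit 0x0) (nat_lit 0xe00020008000000000000000000000000000000000000000) := T_6 (nat_lit 173) (nat_lit 159) (nat_lit 2) (nat_lit 3) (nat_lit 10) L46917 (by decide +kernel)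
theorem L46919 : W_6 (nat_lit 4) (nat_lit 0x3400100013800d8000800000000000000000000000000) (nat_lit 0x0) (nat_lit 0xe000a0028000000000000000000000000000000000000000) := T_6 (nat_lit 175) (nat_lit 161) (nat_lit 2) (nat_lit 4) (nat_lit 10) L46918 (by decide +kernel)
theorem L46920 : W_6 (nat_lit 5) (nat_lit 0x3000100013800d8000800000000000000000000000000) (nat_lit 0x0) (nat_lit 0xe000e002a000000000000000000000000000000000000000) := T_6 (nat_lit 174) (nat_lit 157) (nat_lit 6) (nat_lit 4) (nat_lit 10) L46919 (by decide +kernel)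
theorem L46921 : W_6 (nat_lit 6) (nat_lit 0x300010001380098000800000000000000000000000000) (nat_lit 0x0) (nat_lit 0xe000e002a000000060000000000000000000000000000000) := T_6 (nat_lit 126) (nat_lit 125) (nat_lit 1) (nat_lit 7) (nat_lit 7) L46920 (by decide +kernel)
theorem L46922 : W_6 (nat_lit 2) (nat_lit 0x300010001b800d8002800000000000000000000000000) (nat_lit 0x0) (nat_lit 0x20000000000000000100008000000000000000000) := D_6 (nat_lit 92) (nat_lit 161) (nat_lit 75) (nat_lit 7) (nat_lit 7) (nat_lit 5) (nat_lit 7) (nat_lit 7) (nat_lit 4) (by decide +kernel)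
theorem L46923 : W_6 (nat_lit 3) (nat_lit 0x300010001b800d8000800000000000000000000000000) (nat_lit 0x0) (nat_lit 0x28000000000002000100008000000000000000000) := T_6 (nat_lit 109) (nat_lit 159) (nat_lit 5) (nat_lit 7) (nat_lit 6) L46922 (by decide +kernel)
theorem L46924 : W_6 (nat_lit 4) (nat_lit 0x3000100013800d8000800000000000000000000000000) (nat_lit 0x0) (nat_lit 0x2000000028000800000002000100008000000000000000000) := T_6 (nat_lit 143) (nat_lit 193) (nat_lit 5) (nat_lit 7) (nat_lit 7) L46923 (by decide +kernel)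
theorem L46925 : W_6 (nat_lit 5) (nat_lit 0x300010001380098000800000000000000000000000000) (nat_lit 0x0) (nat_lit 0x2000000028000800060002000100008000000000000000000) := T_6 (nat_lit 126) (nat_lit 125) (nat_lit 1) (nat_lit 7) (nat_lit 7) L46924 (by decide +kernel)
theorem L46926 : W_6 (nat_lit 2) (nat_lit 0x340010001b800d8002800080000000000000000000000) (nat_lit 0x0) (nat_lit 0x10000c000000000000000000) := D_6 (nat_lit 92) (nat_lit 75) (nat_lit 74) (nat_lit 7) (nat_lit 7) (nat_lit 4) (nat_lit 4) (nat_lit 7) (nat_lit 8) (by decide +kernel)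
theorem L46927 : W_6 (nat_lit 3) (nat_lit 0x340010001b800d8002800000000000000000000000000) (nat_lit 0x0) (nat_lit 0x100018000c000000000000000000) := T_6 (nat_lit 91) (nat_lit 108) (nat_lit 4) (nat_lit 7) (nat_lit 9) L46926 (by decide +kernel)
theorem L46928 : W_6 (nat_lit 4) (nat_lit 0x340010001b800d8000800000000000000000000000000) (nat_lit 0x0) (nat_lit 0x800000000000300018000c000000000000000000) := T_6 (nat_lit 109) (nat_lit 159) (nat_lit 5) (nat_lit 7) (nat_lit 6) L46927 (by decide +kernel)
theorem L46929 : W_6 (nat_lit 5) (nat_lit 0x3400100013800d8000800000000000000000000000000) (nat_lit 0x0) (nat_lit 0x200000000800080000000300018000c000000000000000000) := T_6 (nat_lit 143) (nat_lit 193) (nat_lit 5) (nat_lit 7) (nat_lit 7) L46928 (by decide +kernel)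
theorem L46930 : W_6 (nat_lit 6) (nat_lit 0x3000100013800d8000800000000000000000000000000) (nat_lit 0x0) (nat_lit 0x200004000a00080000000300018000c000000000000000000) := T_6 (nat_lit 174) (nat_lit 157) (nat_lit 6) (nat_lit 4) (nat_lit 10) L46929 (by decide +kernel)
theorem L46931 : W_6 (nat_lit 7) (nat_lit 0x300010001380098000800000000000000000000000000) (nat_lit 0x0) (nat_lit 0x200004000a00080006000300018000c000000000000000000) := T_6 (nat_lit 126) (nat_lit 125) (nat_lit 1) (nat_lit 7) (nat_lit 7) L46930 (by decide +kernel)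
theorem L46932 : W_6 (nat_lit 2) (nat_lit 0x4003c00100013800d8000800000000000000000000000000) (nat_lit 0x0) (nat_lit 0x200020001000000000000000000000000000000000000000) := D_6 (nat_lit 173) (nat_lit 189) (nat_lit 156) (nat_lit 1) (nat_lit 6) (nat_lit 10) (nat_lit 6) (nat_lit 3) (nat_lit 11) (by decide +kernel)
theorem L46933 : W_6 (nat_lit 3) (nat_lit 0x3c00100013800d8000800000000000000000000000000) (nat_lit 0x0) (nat_lit 0xe00020001000000000000000000000000000000000000000) := T_6 (nat_lit 190) (nat_lit 191) (nat_lit 1) (nat_lit 7) (nat_lit 10) L46932 (by decide +kernel)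
theorem L46934 : W_6 (nat_lit 4) (nat_lit 0x3400100013800d8000800000000000000000000000000) (nat_lit 0x0) (nat_lit 0xe000a0021000000000000000000000000000000000000000) := T_6 (nat_lit 175) (nat_lit 161) (nat_lit 2) (nat_lit 4) (nat_lit 10) L46933 (by decide +kernel)
theorem L46935 : W_6 (nat_lit 5) (nat_lit 0x3000100013800d8000800000000000000000000000000) (nat_lit 0x0) (nat_lit 0xe000e0023000000000000000000000000000000000000000) := T_6 (nat_lit 174) (nat_lit 157) (nat_lit 6) (nat_lit 4) (nat_lit 10) L46934 (by decide +kernel)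
theorem L46936 : W_6 (nat_lit 6) (nat_lit 0x300010001380098000800000000000000000000000000) (nat_lit 0x0) (nat_lit 0xe000e0023000000060000000000000000000000000000000) := T_6 (nat_lit 126) (nat_lit 125) (nat_lit 1) (nat_lit 7) (nat_lit 7) L46935 (by decide +kernel)
theorem L46937 : W_6 (nat_lit 8) (nat_lit 0x200010001380098000800000000000000000000000000) (nat_lit 0x0) (nat_lit 0x2e001e002b80080006000300018000c000000000000000000) := Q_6 (nat_lit 176) (C_6 L46916 (C_6 L46921 (C_6 L46925 (C_6 L46931 (C_6 L46936 N_6))))) (by decide +kernel)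
theorem L46938 : W_6 (nat_lit 12) (nat_lit 0x200010001380098000000000000000000000000000000) (nat_lit 0x0) (nat_lit 0x2e001e002b800800060003b801f800fe00000000000000000) := Q_6 (nat_lit 107) (C_6 L45100 (C_6 L46912 (C_6 L46937 N_6))) (by decide +kernel)
theorem L46939 : W_6 (nat_lit 2) (nat_lit 0x2000108013c009a000180058000000000000000000000) (nat_lit 0x0) (nat_lit 0x2000000000000800000002000000000000000000) := D_6 (nat_lit 107) (nat_lit 157) (nat_lit 73) (nat_lit 5) (nat_lit 5) (nat_lit 5) (nat_lit 5) (nat_lit 5) (nat_lit 4) (by decide +kernel)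
theorem L46940 : W_6 (nat_lit 3) (nat_lit 0x2000108013c009a000180018000000000000000000000) (nat_lit 0x0) (nat_lit 0x2000000000000800060002000000000000000000) := T_6 (nat_lit 90) (nat_lit 89) (nat_lit 1) (nat_lit 5) (nat_lit 5) L46939 (by decide +kernel)
theorem L46941 : W_6 (nat_lit 4) (nat_lit 0x2000108013c009a000180010000000000000000000000) (nat_lit 0x0) (nat_lit 0x2000000000000800068002800000000000000000) := T_6 (nat_lit 87) (nat_lit 71) (nat_lit 6) (nat_lit 2) (nat_lit 8) L46940 (by decide +kernel)
theorem L46942 : W_6 (nat_lit 5) (nat_lit 0x2000108013c009a000100010000000000000000000000) (nat_lit 0x0) (nat_lit 0x200000000000088006c002800000000000000000) := T_6 (nat_lit 103) (nat_lit 86) (nat_lit 4) (nat_lit 2) (nat_lit 9) L46941 (by decide +kernel)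
theorem L46943 : W_6 (nat_lit 6) (nat_lit 0x2000108013c009a000100000000000000000000000000) (nat_lit 0x0) (nat_lit 0x2000000000000a8007c002800000000000000000) := T_6 (nat_lit 88) (nat_lit 105) (nat_lit 6) (nat_lit 2) (nat_lit 9) L46942 (by decide +kernel)
theorem L46944 : W_6 (nat_lit 7) (nat_lit 0x2000100013c009a000100000000000000000000000000) (nat_lit 0x0) (nat_lit 0x2c00000000000a8007c002800000000000000000) := T_6 (nat_lit 155) (nat_lit 154) (nat_lit 1) (nat_lit 5) (nat_lit 8) L46943 (by decide +kernel)
theorem L46945 : W_6 (nat_lit 2) (nat_lit 0x2000100013c009a000100058000600000000000000000) (nat_lit 0x0) (nat_lit 0x2000000000000800000002000000000000000000) := D_6 (nat_lit 107) (nat_lit 73) (nat_lit 157) (nat_lit 5) (nat_lit 5) (nat_lit 4) (nat_lit 5) (nat_lit 5) (nat_lit 5) (by decide +kernel)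
theorem L46946 : W_6 (nat_lit 3) (nat_lit 0x2000100013c009a000100018000600000000000000000) (nat_lit 0x0) (nat_lit 0x2000000000000800060002000000000000000000) := T_6 (nat_lit 90) (nat_lit 89) (nat_lit 0) (nat_lit 5) (nat_lit 5) L46945 (by decide +kernel)
theorem L46947 : W_6 (nat_lit 4) (nat_lit 0x2000100013c009a000100018000200000000000000000) (nat_lit 0x0) (nat_lit 0x2000000000000800060002400010000000000000) := T_6 (nat_lit 70) (nat_lit 52) (nat_lit 4) (nat_lit 2) (nat_lit 7) L46946 (by decide +kernel)
theorem L46948 : W_6 (nat_lit 5) (nat_lit 0x2000100013c009a000100008000200000000000000000) (nat_lit 0x0) (nat_lit 0x2000000000000800070002c00010000000000000) := T_6 (nat_lit 88) (nat_lit 71) (nat_lit 6) (nat_lit 2) (nat_lit 8) L46947 (by decide +kernel)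
theorem L46949 : W_6 (nat_lit 6) (nat_lit 0x2000100013c009a000100008000000000000000000000) (nat_lit 0x0) (nat_lit 0x2000000000000800074002e00010000000000000) := T_6 (nat_lit 69) (nat_lit 86) (nat_lit 4) (nat_lit 2) (nat_lit 8) L46948 (by decide +kernel)
theorem L46950 : W_6 (nat_lit 7) (nat_lit 0x2000100013c009a000100000000000000000000000000) (nat_lit 0x0) (nat_lit 0x300000000000080007c002e00010000000000000) := T_6 (nat_lit 87) (nat_lit 156) (nat_lit 7) (nat_lit 2) (nat_lit 5) L46949 (by decide +kernel)
theorem L46951 : W_6 (nat_lit 2) (nat_lit 0x3002700108013c009a000300000000000000000000000000) (nat_lit 0x0) (nat_lit 0x800000002000000000000800000000000000000000000000) := D_6 (nat_lit 157) (nat_lit 191) (nat_lit 107) (nat_lit 6) (nat_lit 4) (nat_lit 11) (nat_lit 6) (nat_lit 4) (nat_lit 10) (by decide +kernel)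
theorem L46952 : W_6 (nat_lit 3) (nat_lit 0x3002300108013c009a000300000000000000000000000000) (nat_lit 0x0) (nat_lit 0x8000c0002000000000000800000000000000000000000000) := T_6 (nat_lit 174) (nat_lit 175) (nat_lit 1) (nat_lit 5) (nat_lit 10) L46951 (by decide +kernel)
theorem L46953 : W_6 (nat_lit 4) (nat_lit 0x1002300108013c009a000300000000000000000000000000) (nat_lit 0x0) (nat_lit 0x2000a000c0002000000000000800000000000000000000000000) := T_6 (nat_lit 189) (nat_lit 205) (nat_lit 5) (nat_lit 2) (nat_lit 8) L46952 (by decide +kernel)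
theorem L46954 : W_6 (nat_lit 5) (nat_lit 0x2300108013c009a000300000000000000000000000000) (nat_lit 0x0) (nat_lit 0x2000b000c8002000000000000800000000000000000000000000) := T_6 (nat_lit 188) (nat_lit 171) (nat_lit 5) (nat_lit 2) (nat_lit 7) L46953 (by decide +kernel)
theorem L46955 : W_6 (nat_lit 6) (nat_lit 0x2200108013c009a000300000000000000000000000000) (nat_lit 0x0) (nat_lit 0x2000f000d8002000000000000800000000000000000000000000) := T_6 (nat_lit 172) (nat_lit 190) (nat_lit 7) (nat_lit 2) (nat_lit 7) L46954 (by decide +kernel)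
theorem L46956 : W_6 (nat_lit 7) (nat_lit 0x2000108013c009a000300000000000000000000000000) (nat_lit 0x0) (nat_lit 0x2000f000f8003000000000000800000000000000000000000000) := T_6 (nat_lit 173) (nat_lit 156) (nat_lit 7) (nat_lit 2) (nat_lit 6) L46955 (by decide +kernel)
theorem L46957 : W_6 (nat_lit 8) (nat_lit 0x2000108013c009a000100000000000000000000000000) (nat_lit 0x0) (nat_lit 0x2000f000f8003000000000000a00010000000000000000000000) := T_6 (nat_lit 105) (nat_lit 88) (nat_lit 6) (nat_lit 2) (nat_lit 9) L46956 (by decide +kernel)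
theorem L46958 : W_6 (nat_lit 9) (nat_lit 0x2000100013c009a000100000000000000000000000000) (nat_lit 0x0) (nat_lit 0x2000f000f8003c00000000000a00010000000000000000000000) := T_6 (nat_lit 155) (nat_lit 154) (nat_lit 1) (nat_lit 5) (nat_lit 8) L46957 (by decide +kernel)
theorem L46959 : W_6 (nat_lit 10) (nat_lit 0x2000100013c009a000000000000000000000000000000) (nat_lit 0x0) (nat_lit 0x2000f000f8003c00000000000b8007c002e00010000000000000) := Q_6 (nat_lit 104) (C_6 L46811 (C_6 L46944 (C_6 L46804 (C_6 L46950 (C_6 L46958 N_6))))) (by decide +kernel)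
theorem L46960 : W_6 (nat_lit 11) (nat_lit 0x2000100013c0098000000000000000000000000000000) (nat_lit 0x0) (nat_lit 0x2000f000f8003c00000003000b8007c002e00010000000000000) := T_6 (nat_lit 121) (nat_lit 120) (nat_lit 0) (nat_lit 5) (nat_lit 8) L46959 (by decide +kernel)
theorem L46961 : W_6 (nat_lit 12) (nat_lit 0x200010001380098000000000000000000000000000000) (nat_lit 0x0) (nat_lit 0x2000f000f8003c00060003000b8007c002e00010000000000000) := T_6 (nat_lit 138) (nat_lit 137) (nat_lit 2) (nat_lit 1) (nat_lit 8) L46960 (by decide +kernel)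
theorem L46962 : W_6 (nat_lit 13) (nat_lit 0x200010001300098000000000000000000000000000000) (nat_lit 0x0) (nat_lit 0x2002f001f802bc008e0063003b801fc00fe00010000000000000) := Q_6 (nat_lit 139) (C_6 L45312 (C_6 L46938 (C_6 L46961 N_6))) (by decide +kernel)
theorem L46963 : W_6 (nat_lit 11) (nat_lit 0x200010001300098000000000000000000000000000000) (nat_lit 0x0) (nat_lit 0x1c001e000bc000e0063000f8007c003800000000000000000) := Q_6 (nat_lit 157) (C_6 L46831 (C_6 L46179 (C_6 L46161 N_6))) (by decide +kernel)
theorem L46964 : W_6 (nat_lit 2) (nat_lit 0x2e00120013000d8000400010000000000000000000000) (nat_lit 0x0) (nat_lit 0x20001800000000000000000) := D_6 (nat_lit 89) (nat_lit 72) (nat_lit 71) (nat_lit 7) (nat_lit 4) (nat_lit 4) (nat_lit 4) (nat_lit 4) (nat_lit 8) (by decide +kernel)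
theorem L46965 : W_6 (nat_lit 3) (nat_lit 0x2e00120013000d8000400000000000000000000000000) (nat_lit 0x0) (nat_lit 0x200030001800000000000000000) := T_6 (nat_lit 88) (nat_lit 105) (nat_lit 4) (nat_lit 4) (nat_lit 9) L46964 (by decide +kernel)
theorem L46966 : W_6 (nat_lit 4) (nat_lit 0x2e00120013000d8000000000000000000000000000000) (nat_lit 0x0) (nat_lit 0x1000000000000600030001800000000000000000) := T_6 (nat_lit 106) (nat_lit 156) (nat_lit 5) (nat_lit 4) (nat_lit 6) L46965 (by decide +kernel)
theorem L46967 : W_6 (nat_lit 5) (nat_lit 0x2c00120013000d8000000000000000000000000000000) (nat_lit 0x0) (nat_lit 0x400020001000000000000600030001800000000000000000) := T_6 (nat_lit 173) (nat_lit 190) (nat_lit 5) (nat_lit 4) (nat_lit 7) L46966 (by decide +kernel)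
theorem L46968 : W_6 (nat_lit 6) (nat_lit 0x2400120013000d8000000000000000000000000000000) (nat_lit 0x0) (nat_lit 0x14000a0001000000000000600030001800000000000000000) := T_6 (nat_lit 175) (nat_lit 192) (nat_lit 7) (nat_lit 4) (nat_lit 7) L46967 (by decide +kernel)
theorem L46969 : W_6 (nat_lit 7) (nat_lit 0x2000120013000d8000000000000000000000000000000) (nat_lit 0x0) (nat_lit 0x1c000e0001000000000000600030001800000000000000000) := T_6 (nat_lit 174) (nat_lit 191) (nat_lit 6) (nat_lit 4) (nat_lit 11) L46968 (by decide +kernel)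
theorem L46970 : W_6 (nat_lit 8) (nat_lit 0x200012001300098000000000000000000000000000000) (nat_lit 0x0) (nat_lit 0x1c000e0001000000060000600030001800000000000000000) := T_6 (nat_lit 126) (nat_lit 125) (nat_lit 1) (nat_lit 8) (nat_lit 7) L46969 (by decide +kernel)
theorem L46971 : W_6 (nat_lit 11) (nat_lit 0x200010001300098000000000000000000000000000000) (nat_lit 0x0) (nat_lit 0x1c000e0003c000e0063000f8007c003800000000000000000) := Q_6 (nat_lit 157) (C_6 L46831 (C_6 L46179 (C_6 L46970 N_6))) (by decide +kernel)
theorem L46972 : W_6 (nat_lit 2) (nat_lit 0x200013401b000d8002c00100000000000000000000000) (nat_lit 0x0) (nat_lit 0x2000100008000000000000000000000000000000000000000) := D_6 (nat_lit 176) (nat_lit 193) (nat_lit 159) (nat_lit 5) (nat_lit 7) (nat_lit 7) (nat_lit 5) (nat_lit 7) (nat_lit 6) (by decide +kernel)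
theorem L46973 : W_6 (nat_lit 3) (nat_lit 0x2000134013000d8002c00100000000000000000000000) (nat_lit 0x0) (nat_lit 0x2000100028000800000000000000000000000000000000000) := T_6 (nat_lit 143) (nat_lit 161) (nat_lit 7) (nat_lit 7) (nat_lit 5) L46972 (by decide +kernel)
theorem L46974 : W_6 (nat_lit 4) (nat_lit 0x2000134013000d8002c00000000000000000000000000) (nat_lit 0x0) (nat_lit 0x2000100028000800000000000100008000000000000000000) := T_6 (nat_lit 92) (nat_lit 75) (nat_lit 7) (nat_lit 7) (nat_lit 4) L46973 (by decide +kernel)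
theorem L46975 : W_6 (nat_lit 5) (nat_lit 0x2000134013000d8000c00000000000000000000000000) (nat_lit 0x0) (nat_lit 0x2000100028000800000003000100008000000000000000000) := T_6 (nat_lit 109) (nat_lit 108) (nat_lit 3) (nat_lit 4) (nat_lit 6) L46974 (by decide +kernel)
theorem L46976 : W_6 (nat_lit 6) (nat_lit 0x2000130013000d8000c00000000000000000000000000) (nat_lit 0x0) (nat_lit 0x2000100028c00800000003000100008000000000000000000) := T_6 (nat_lit 154) (nat_lit 155) (nat_lit 2) (nat_lit 1) (nat_lit 9) L46975 (by decide +kernel)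
theorem L46977 : W_6 (nat_lit 7) (nat_lit 0x2000120013000d8000c00000000000000000000000000) (nat_lit 0x0) (nat_lit 0x2000120029c00800000003000100008000000000000000000) := T_6 (nat_lit 156) (nat_lit 173) (nat_lit 5) (nat_lit 4) (nat_lit 6) L46976 (by decide +kernel)
theorem L46978 : W_6 (nat_lit 8) (nat_lit 0x2000120013000d8000400000000000000000000000000) (nat_lit 0x0) (nat_lit 0x2000120029c00800000003800140008000000000000000000) := T_6 (nat_lit 107) (nat_lit 90) (nat_lit 6) (nat_lit 4) (nat_lit 9) L46977 (by decide +kernel)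
theorem L46979 : W_6 (nat_lit 9) (nat_lit 0x200012001300098000400000000000000000000000000) (nat_lit 0x0) (nat_lit 0x2000120029c00800060003800140008000000000000000000) := T_6 (nat_lit 126) (nat_lit 125) (nat_lit 1) (nat_lit 8) (nat_lit 7) L46978 (by decide +kernel)
theorem L46980 : W_6 (nat_lit 10) (nat_lit 0x200012001300098000000000000000000000000000000) (nat_lit 0x0) (nat_lit 0x2000120029c00880060003c0016000b000000000000000000) := Q_6 (nat_lit 106) (C_6 L45666 (C_6 L45611 (C_6 L46979 N_6))) (by decide +kernel)
theorem L46981 : W_6 (nat_lit 11) (nat_lit 0x200010001300098000000000000000000000000000000) (nat_lit 0x0) (nat_lit 0x3c001e002bc00880060003c0016000b000000000000000000) := Q_6 (nat_lit 157) (C_6 L46980 (C_6 L46403 (C_6 L46179 N_6))) (by decide +kernel)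
theorem L46982 : W_6 (nat_lit 2) (nat_lit 0x2000120013800d8000400030000000000000000000000) (nat_lit 0x0) (nat_lit 0x800040000000000000000800000000000000000000000000) := D_6 (nat_lit 174) (nat_lit 191) (nat_lit 107) (nat_lit 6) (nat_lit 4) (nat_lit 11) (nat_lit 6) (nat_lit 4) (nat_lit 10) (by decide +kernel)
theorem L46983 : W_6 (nat_lit 3) (nat_lit 0x2000100013800d8000400030000000000000000000000) (nat_lit 0x0) (nat_lit 0x800040002000000000000a00000000000000000000000000) := T_6 (nat_lit 157) (nat_lit 105) (nat_lit 4) (nat_lit 4) (nat_lit 9) L46982 (by decide +kernel)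
theorem L46984 : W_6 (nat_lit 4) (nat_lit 0x2000100013800d8000400020000000000000000000000) (nat_lit 0x0) (nat_lit 0x800040002000000000000a00010000800000000000000000) := T_6 (nat_lit 88) (nat_lit 71) (nat_lit 4) (nat_lit 4) (nat_lit 8) L46983 (by decide +kernel)
theorem L46985 : W_6 (nat_lit 5) (nat_lit 0x2000100013800d8000400000000000000000000000000) (nat_lit 0x0) (nat_lit 0x800040002000000000000a00030001800000000000000000) := T_6 (nat_lit 89) (nat_lit 72) (nat_lit 7) (nat_lit 4) (nat_lit 4) L46984 (by decide +kernel)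
theorem L46986 : W_6 (nat_lit 6) (nat_lit 0x200010001380098000400000000000000000000000000) (nat_lit 0x0) (nat_lit 0x800040002000000060000a00030001800000000000000000) := T_6 (nat_lit 126) (nat_lit 125) (nat_lit 1) (nat_lit 7) (nat_lit 7) L46985 (by decide +kernel)
theorem L46987 : W_6 (nat_lit 9) (nat_lit 0x200010001380098000000000000000000000000000000) (nat_lit 0x0) (nat_lit 0x3e001e002b000800060003e001b000d800000000000000000) := Q_6 (nat_lit 106) (C_6 L45064 (C_6 L46859 (C_6 L46986 N_6))) (by decide +kernel)
theorem L46988 : W_6 (nat_lit 12) (nat_lit 0x200010001300098000000000000000000000000000000) (nat_lit 0x0) (nat_lit 0x3e001e002bc008e0063003f801bc00fe00040000000000000) := Q_6 (nat_lit 139) (C_6 L46821 (C_6 L46987 (C_6 L45312 N_6))) (by decide +kernel)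
theorem L46989 : W_6 (nat_lit 2) (nat_lit 0x200012001340098000000000000000000000000000000) (nat_lit 0x0) (nat_lit 0x80060000000000000000000000000000000) := D_6 (nat_lit 125) (nat_lit 126) (nat_lit 139) (nat_lit 1) (nat_lit 8) (nat_lit 7) (nat_lit 2) (nat_lit 2) (nat_lit 8) (by decide +kernel)
theorem L46990 : W_6 (nat_lit 2) (nat_lit 0x200012001b400d8002000140000000000000000000000) (nat_lit 0x0) (nat_lit 0x2000100008000000000000000000000000000000000000000) := D_6 (nat_lit 176) (nat_lit 193) (nat_lit 159) (nat_lit 5) (nat_lit 7) (nat_lit 7) (nat_lit 5) (nat_lit 7) (nat_lit 6) (by decide +kernel)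
theorem L46991 : W_6 (nat_lit 3) (nat_lit 0x2000120013400d8002000140000000000000000000000) (nat_lit 0x0) (nat_lit 0x2000100028000800000000000000000000000000000000000) := T_6 (nat_lit 143) (nat_lit 161) (nat_lit 7) (nat_lit 7) (nat_lit 5) L46990 (by decide +kernel)
theorem L46992 : W_6 (nat_lit 4) (nat_lit 0x2000120013400d8002000040000000000000000000000) (nat_lit 0x0) (nat_lit 0x2000100028000800000000000100008000000000000000000) := T_6 (nat_lit 92) (nat_lit 75) (nat_lit 7) (nat_lit 7) (nat_lit 4) L46991 (by decide +kernel)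
theorem L46993 : W_6 (nat_lit 5) (nat_lit 0x2000120013400d8002000000000000000000000000000) (nat_lit 0x0) (nat_lit 0x2000100028000800000000800140008000000000000000000) := T_6 (nat_lit 90) (nat_lit 107) (nat_lit 5) (nat_lit 5) (nat_lit 5) L46992 (by decide +kernel)
theorem L46994 : W_6 (nat_lit 2) (nat_lit 0x200012001b400d8002000100000000000000000000000) (nat_lit 0x0) (nat_lit 0x1000080004000000000000000000) := D_6 (nat_lit 91) (nat_lit 74) (nat_lit 108) (nat_lit 4) (nat_lit 7) (nat_lit 8) (nat_lit 4) (nat_lit 7) (nat_lit 9) (by decide +kernel)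
theorem L46995 : W_6 (nat_lit 3) (nat_lit 0x2000120013400d8002000100000000000000000000000) (nat_lit 0x0) (nat_lit 0x20000800000001000080004000000000000000000) := T_6 (nat_lit 143) (nat_lit 161) (nat_lit 7) (nat_lit 7) (nat_lit 5) L46994 (by decide +kernel)
theorem L46996 : W_6 (nat_lit 4) (nat_lit 0x2000120013400d8002000000000000000000000000000) (nat_lit 0x0) (nat_lit 0x2000080000000100018000c000000000000000000) := T_6 (nat_lit 92) (nat_lit 75) (nat_lit 7) (nat_lit 7) (nat_lit 4) L46995 (by decide +kernel)
theorem L46997 : W_6 (nat_lit 2) (nat_lit 0x2000134013400da002f00000000000000000000000000) (nat_lit 0x0) (nat_lit 0x2000000000000c000000000000000000000) := D_6 (nat_lit 87) (nat_lit 86) (nat_lit 137) (nat_lit 0) (nat_lit 5) (nat_lit 6) (nat_lit 5) (nat_lit 2) (nat_lit 5) (by decide +kernel)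
theorem L46998 : W_6 (nat_lit 3) (nat_lit 0x2000134013400d8002f00000000000000000000000000) (nat_lit 0x0) (nat_lit 0x2000300000000c000000000000000000000) := T_6 (nat_lit 121) (nat_lit 120) (nat_lit 1) (nat_lit 5) (nat_lit 6) L46997 (by decide +kernel)
theorem L46999 : W_6 (nat_lit 4) (nat_lit 0x2000130013400d8002f00000000000000000000000000) (nat_lit 0x0) (nat_lit 0xc0002000300000000c000000000000000000000) := T_6 (nat_lit 154) (nat_lit 155) (nat_lit 2) (nat_lit 1) (nat_lit 9) L46998 (by decide +kernel)
theorem L47000 : W_6 (nat_lit 5) (nat_lit 0x2000130013400d8002e00000000000000000000000000) (nat_lit 0x0) (nat_lit 0xc0002000300018000c000000000000000000000) := T_6 (nat_lit 104) (nat_lit 103) (nat_lit 3) (nat_lit 1) (nat_lit 6) L46999 (by decide +kernel)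
theorem L47001 : W_6 (nat_lit 6) (nat_lit 0x2000130013400d8002c00000000000000000000000000) (nat_lit 0x0) (nat_lit 0xc0002000300038001c000000000000000000000) := T_6 (nat_lit 105) (nat_lit 88) (nat_lit 4) (nat_lit 4) (nat_lit 9) L47000 (by decide +kernel)
theorem L47002 : W_6 (nat_lit 7) (nat_lit 0x2000120013400d8002c00000000000000000000000000) (nat_lit 0x0) (nat_lit 0x20001c0002000300038001c000000000000000000000) := T_6 (nat_lit 156) (nat_lit 173) (nat_lit 5) (nat_lit 4) (nat_lit 6) L47001 (by decide +kernel)
theorem L47003 : W_6 (nat_lit 8) (nat_lit 0x2000120013400d8002800000000000000000000000000) (nat_lit 0x0) (nat_lit 0x20001c0002000300178001c000000000000000000000) := T_6 (nat_lit 106) (nat_lit 108) (nat_lit 3) (nat_lit 4) (nat_lit 6) L47002 (by decide +kernel)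
theorem L47004 : W_6 (nat_lit 9) (nat_lit 0x2000120013400d8002000000000000000000000000000) (nat_lit 0x0) (nat_lit 0x20001c00020003001f8005c000000000000000000000) := T_6 (nat_lit 107) (nat_lit 90) (nat_lit 5) (nat_lit 5) (nat_lit 5) L47003 (by decide +kernel)
theorem L47005 : W_6 (nat_lit 10) (nat_lit 0x2000120013400d8000000000000000000000000000000) (nat_lit 0x0) (nat_lit 0x2000120029c00820003003f801dc00c000000000000000000) := Q_6 (nat_lit 109) (C_6 L46993 (C_6 L46996 (C_6 L47004 N_6))) (by decide +kernel)
theorem L47006 : W_6 (nat_lit 11) (nat_lit 0x200012001340098000000000000000000000000000000) (nat_lit 0x0) (nat_lit 0x2000120029c00820063003f801dc00c000000000000000000) := T_6 (nat_lit 126) (nat_lit 125) (nat_lit 1) (nat_lit 8) (nat_lit 7) L47005 (by decide +kernel)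
theorem L47007 : W_6 (nat_lit 2) (nat_lit 0x20001340136009a000700040000000000000000000000) (nat_lit 0x0) (nat_lit 0x100008000000000001000000000000000000000000000000) := D_6 (nat_lit 171) (nat_lit 188) (nat_lit 120) (nat_lit 6) (nat_lit 1) (nat_lit 11) (nat_lit 6) (nat_lit 1) (nat_lit 10) (by decide +kernel)
theorem L47008 : W_6 (nat_lit 3) (nat_lit 0x200013401360098000700040000000000000000000000) (nat_lit 0x0) (nat_lit 0x100008000000000003000000008000000000000000000000) := T_6 (nat_lit 121) (nat_lit 87) (nat_lit 5) (nat_lit 2) (nat_lit 5) L47007 (by decide +kernel)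
theorem L47009 : W_6 (nat_lit 4) (nat_lit 0x200013401340098000700040000000000000000000000) (nat_lit 0x0) (nat_lit 0x1000080000000a0003000000008000000000000000000000) := T_6 (nat_lit 137) (nat_lit 139) (nat_lit 2) (nat_lit 1) (nat_lit 8) L47008 (by decide +kernel)
theorem L47010 : W_6 (nat_lit 5) (nat_lit 0x200013401340098000600040000000000000000000000) (nat_lit 0x0) (nat_lit 0x1000080000000a0003000180008000000000000000000000) := T_6 (nat_lit 104) (nat_lit 103) (nat_lit 3) (nat_lit 1) (nat_lit 6) L47009 (by decide +kernel)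
theorem L47011 : W_6 (nat_lit 6) (nat_lit 0x200013401340098000400040000000000000000000000) (nat_lit 0x0) (nat_lit 0x1000080000000a0003000380018000000000000000000000) := T_6 (nat_lit 105) (nat_lit 88) (nat_lit 4) (nat_lit 4) (nat_lit 9) L47010 (by decide +kernel)
theorem L47012 : W_6 (nat_lit 7) (nat_lit 0x200013001340098000400040000000000000000000000) (nat_lit 0x0) (nat_lit 0x100008000c000a0003000380018000000000000000000000) := T_6 (nat_lit 154) (nat_lit 155) (nat_lit 2) (nat_lit 1) (nat_lit 9) L47011 (by decide +kernel)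
theorem L47013 : W_6 (nat_lit 8) (nat_lit 0x200013001340098000000040000000000000000000000) (nat_lit 0x0) (nat_lit 0x100028000c000a0003000780018000000000000000000000) := T_6 (nat_lit 106) (nat_lit 173) (nat_lit 5) (nat_lit 4) (nat_lit 6) L47012 (by decide +kernel)
theorem L47014 : W_6 (nat_lit 9) (nat_lit 0x200013001340098000000000000000000000000000000) (nat_lit 0x0) (nat_lit 0x100028000c000a0003000f80058000000000000000000000) := T_6 (nat_lit 90) (nat_lit 107) (nat_lit 5) (nat_lit 5) (nat_lit 5) L47013 (by decide +kernel)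
theorem L47015 : W_6 (nat_lit 2) (nat_lit 0x400220013801340098000000040000000000000000000000) (nat_lit 0x0) (nat_lit 0x10000000000002000100000000000000000000000000) := D_6 (nat_lit 121) (nat_lit 104) (nat_lit 172) (nat_lit 7) (nat_lit 2) (nat_lit 6) (nat_lit 7) (nat_lit 2) (nat_lit 7) (by decide +kernel)
theorem L47016 : W_6 (nat_lit 3) (nat_lit 0x220013801340098000000040000000000000000000000) (nat_lit 0x0) (nat_lit 0x8000400010000000000002000100000000000000000000000000) := T_6 (nat_lit 190) (nat_lit 207) (nat_lit 6) (nat_lit 3) (nat_lit 12) L47015 (by decide +kernel)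
theorem L47017 : W_6 (nat_lit 4) (nat_lit 0x200013801340098000000040000000000000000000000) (nat_lit 0x0) (nat_lit 0x8000400030000000000002000500000000000000000000000000) := T_6 (nat_lit 173) (nat_lit 106) (nat_lit 5) (nat_lit 4) (nat_lit 6) L47016 (by decide +kernel)
theorem L47018 : W_6 (nat_lit 5) (nat_lit 0x200013001340098000000040000000000000000000000) (nat_lit 0x0) (nat_lit 0x8000400030000c00000002000500000000000000000000000000) := T_6 (nat_lit 155) (nat_lit 154) (nat_lit 2) (nat_lit 1) (nat_lit 9) L47017 (by decide +kernel)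
theorem L47019 : W_6 (nat_lit 6) (nat_lit 0x200013001340098000000000000000000000000000000) (nat_lit 0x0) (nat_lit 0x8000400030000c00000002000d00040000000000000000000000) := T_6 (nat_lit 90) (nat_lit 107) (nat_lit 5) (nat_lit 5) (nat_lit 5) L47018 (by decide +kernel)
theorem L47020 : W_6 (nat_lit 2) (nat_lit 0x200013801360099000680000000000000000000000000) (nat_lit 0x0) (nat_lit 0x200010000000000002000000000000000000000000000000) := D_6 (nat_lit 172) (nat_lit 121) (nat_lit 189) (nat_lit 4) (nat_lit 2) (nat_lit 10) (nat_lit 4) (nat_lit 2) (nat_lit 11) (by decide +kernel)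
theorem L47021 : W_6 (nat_lit 3) (nat_lit 0x200013801360098000680000000000000000000000000) (nat_lit 0x0) (nat_lit 0x200010000000000003000000004000000000000000000000) := T_6 (nat_lit 120) (nat_lit 86) (nat_lit 7) (nat_lit 1) (nat_lit 5) L47020 (by decide +kernel)
theorem L47022 : W_6 (nat_lit 4) (nat_lit 0x200013001360098000680000000000000000000000000) (nat_lit 0x0) (nat_lit 0x200010000c00000003000000004000000000000000000000) := T_6 (nat_lit 155) (nat_lit 154) (nat_lit 2) (nat_lit 1) (nat_lit 9) L47021 (by decide +kernel)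
theorem L47023 : W_6 (nat_lit 5) (nat_lit 0x200013001360098000600000000000000000000000000) (nat_lit 0x0) (nat_lit 0x200010000c00000003000180004000000000000000000000) := T_6 (nat_lit 103) (nat_lit 104) (nat_lit 3) (nat_lit 1) (nat_lit 6) L47022 (by decide +kernel)
theorem L47024 : W_6 (nat_lit 6) (nat_lit 0x200013001360098000400000000000000000000000000) (nat_lit 0x0) (nat_lit 0x200010000c00000003000380014000000000000000000000) := T_6 (nat_lit 105) (nat_lit 88) (nat_lit 4) (nat_lit 4) (nat_lit 9) L47023 (by decide +kernel)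
theorem L47025 : W_6 (nat_lit 7) (nat_lit 0x200013001340098000400000000000000000000000000) (nat_lit 0x0) (nat_lit 0x200010000c000a0003000380014000000000000000000000) := T_6 (nat_lit 137) (nat_lit 139) (nat_lit 2) (nat_lit 1) (nat_lit 8) L47024 (by decide +kernel)
theorem L47026 : W_6 (nat_lit 8) (nat_lit 0x200013001340098000000000000000000000000000000) (nat_lit 0x0) (nat_lit 0x200030000c000a0003000780014000000000000000000000) := T_6 (nat_lit 106) (nat_lit 173) (nat_lit 5) (nat_lit 4) (nat_lit 6) L47025 (by decide +kernel)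
theorem L47027 : W_6 (nat_lit 2) (nat_lit 0x2000138013c009a000000040000000000000000000000) (nat_lit 0x0) (nat_lit 0x400020000000000000000100000000000000000000000000) := D_6 (nat_lit 173) (nat_lit 190) (nat_lit 104) (nat_lit 6) (nat_lit 3) (nat_lit 11) (nat_lit 7) (nat_lit 2) (nat_lit 6) (by decide +kernel)
theorem L47028 : W_6 (nat_lit 3) (nat_lit 0x2000138013c0098000000040000000000000000000000) (nat_lit 0x0) (nat_lit 0x400020000000000003000100000000000000000000000000) := T_6 (nat_lit 121) (nat_lit 120) (nat_lit 0) (nat_lit 5) (nat_lit 8) L47027 (by decide +kernel)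
theorem L47029 : W_6 (nat_lit 4) (nat_lit 0x2000138013c0098000000000000000000000000000000) (nat_lit 0x0) (nat_lit 0x400020000000000003000900040000000000000000000000) := T_6 (nat_lit 90) (nat_lit 107) (nat_lit 5) (nat_lit 5) (nat_lit 5) L47028 (by decide +kernel)
theorem L47030 : W_6 (nat_lit 5) (nat_lit 0x200013801340098000000000000000000000000000000) (nat_lit 0x0) (nat_lit 0x4000200000000a0003000900040000000000000000000000) := T_6 (nat_lit 139) (nat_lit 137) (nat_lit 2) (nat_lit 1) (nat_lit 8) L47029 (by decide +kernel)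
theorem L47031 : W_6 (nat_lit 6) (nat_lit 0x200013001340098000000000000000000000000000000) (nat_lit 0x0) (nat_lit 0x400020000c000a0003000900040000000000000000000000) := T_6 (nat_lit 155) (nat_lit 154) (nat_lit 2) (nat_lit 1) (nat_lit 9) L47030 (by decide +kernel)
theorem L47032 : W_6 (nat_lit 2) (nat_lit 0x2000130013c0098000000000000000000000000000000) (nat_lit 0x0) (nat_lit 0x400020000000000000000400000000000000000000000000) := D_6 (nat_lit 173) (nat_lit 106) (nat_lit 190) (nat_lit 5) (nat_lit 4) (nat_lit 6) (nat_lit 6) (nat_lit 3) (nat_lit 11) (by decide +kernel)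
theorem L47033 : W_6 (nat_lit 3) (nat_lit 0x200013001340098000000000000000000000000000000) (nat_lit 0x0) (nat_lit 0x4000200000000a0000000400000000000000000000000000) := T_6 (nat_lit 139) (nat_lit 137) (nat_lit 2) (nat_lit 1) (nat_lit 8) L47032 (by decide +kernel)
theorem L47034 : W_6 (nat_lit 2) (nat_lit 0x2000138013c009a000180040000000000000000000000) (nat_lit 0x0) (nat_lit 0x600010000000000000000000000) := D_6 (nat_lit 105) (nat_lit 106) (nat_lit 88) (nat_lit 3) (nat_lit 1) (nat_lit 6) (nat_lit 6) (nat_lit 2) (nat_lit 9) (by decide +kernel)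
theorem L47035 : W_6 (nat_lit 3) (nat_lit 0x2000138013c009a000100040000000000000000000000) (nat_lit 0x0) (nat_lit 0x680014000000000000000000000) := T_6 (nat_lit 103) (nat_lit 86) (nat_lit 4) (nat_lit 2) (nat_lit 9) L47034 (by decide +kernel)
theorem L47036 : W_6 (nat_lit 4) (nat_lit 0x2000138013c009a000000040000000000000000000000) (nat_lit 0x0) (nat_lit 0x78001c000000000000000000000) := T_6 (nat_lit 104) (nat_lit 87) (nat_lit 7) (nat_lit 2) (nat_lit 5) L47035 (by decide +kernel)
theorem L47037 : W_6 (nat_lit 5) (nat_lit 0x2000138013c0098000000040000000000000000000000) (nat_lit 0x0) (nat_lit 0x300078001c000000000000000000000) := T_6 (nat_lit 121) (nat_lit 120) (nat_lit 0) (nat_lit 5) (nat_lit 8) L47036 (by decide +kernel)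
theorem L47038 : W_6 (nat_lit 6) (nat_lit 0x200013801340098000000040000000000000000000000) (nat_lit 0x0) (nat_lit 0xa000300078001c000000000000000000000) := T_6 (nat_lit 139) (nat_lit 137) (nat_lit 2) (nat_lit 1) (nat_lit 8) L47037 (by decide +kernel)
theorem L47039 : W_6 (nat_lit 7) (nat_lit 0x200013001340098000000040000000000000000000000) (nat_lit 0x0) (nat_lit 0xc000a000300078001c000000000000000000000) := T_6 (nat_lit 155) (nat_lit 154) (nat_lit 2) (nat_lit 1) (nat_lit 9) L47038 (by decide +kernel)
theorem L47040 : W_6 (nat_lit 8) (nat_lit 0x200013001340098000000000000000000000000000000) (nat_lit 0x0) (nat_lit 0xc000a0003000f8005c000000000000000000000) := T_6 (nat_lit 90) (nat_lit 107) (nat_lit 5) (nat_lit 5) (nat_lit 5) L47039 (by decide +kernel)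
theorem L47041 : W_6 (nat_lit 10) (nat_lit 0x200012001340098000000000000000000000000000000) (nat_lit 0x0) (nat_lit 0x8000700038001c000a0003000f8005c000000000000000000000) := Q_6 (nat_lit 156) (C_6 L47014 (C_6 L47019 (C_6 L47026 (C_6 L47031 (C_6 L47033 (C_6 L47040 N_6)))))) (by decide +kernel)
theorem L47042 : W_6 (nat_lit 12) (nat_lit 0x200012001300098000000000000000000000000000000) (nat_lit 0x0) (nat_lit 0x8002700138029c008e0063003f801dc00c000000000000000000) := Q_6 (nat_lit 138) (C_6 L46989 (C_6 L47006 (C_6 L47041 N_6))) (by decide +kernel)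
theorem L47043 : W_6 (nat_lit 13) (nat_lit 0x200010001300098000000000000000000000000000000) (nat_lit 0x0) (nat_lit 0x8003f001f802bc008e0063003f801dc00c000000000000000000) := Q_6 (nat_lit 157) (C_6 L47042 (C_6 L46403 (C_6 L46179 N_6))) (by decide +kernel)
theorem L47044 : W_6 (nat_lit 14) (nat_lit 0x200010001300088000000000000000000000000000000) (nat_lit 0x0) (nat_lit 0xa003f001f802bc008e0373003f803fc00fe00050000000000000) := Q_6 (nat_lit 124) (C_6 L46203 (C_6 L45686 (C_6 L46822 (C_6 L46832 (C_6 L46895 (C_6 L46962 (C_6 L46963 (C_6 L46971 (C_6 L46981 (C_6 L46988 (C_6 L47043 N_6))))))))))) (by decide +kernel)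
theorem L47045 : W_6 (nat_lit 2) (nat_lit 0x240012001300088000000000000000000000000000000) (nat_lit 0x0) (nat_lit 0x800000000000000010000800000000000000000000000000) := D_6 (nat_lit 124) (nat_lit 191) (nat_lit 107) (nat_lit 6) (nat_lit 4) (nat_lit 11) (nat_lit 6) (nat_lit 4) (nat_lit 10) (by decide +kernel)
theorem L47046 : W_6 (nat_lit 2) (nat_lit 0x800260012001300088000000000000000000000000000000) (nat_lit 0x0) (nat_lit 0x20001000080000000000000000000000000000000000000000000) := D_6 (nat_lit 192) (nat_lit 209) (nat_lit 175) (nat_lit 7) (nat_lit 4) (nat_lit 8) (nat_lit 7) (nat_lit 4) (nat_lit 7) (by decide +kernel)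
theorem L47047 : W_6 (nat_lit 3) (nat_lit 0x260012001300088000000000000000000000000000000) (nat_lit 0x0) (nat_lit 0x20001800080000000000010000000000000000000000000000000) := T_6 (nat_lit 191) (nat_lit 124) (nat_lit 6) (nat_lit 4) (nat_lit 11) L47046 (by decide +kernel)
theorem L47048 : W_6 (nat_lit 4) (nat_lit 0x240012001300088000000000000000000000000000000) (nat_lit 0x0) (nat_lit 0x20001c000a0000000000010000000000000000000000000000000) := T_6 (nat_lit 173) (nat_lit 190) (nat_lit 5) (nat_lit 4) (nat_lit 7) L47047 (by decide +kernel)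
theorem L47049 : W_6 (nat_lit 2) (nat_lit 0x2e0012001300088000000000000000000000000000000) (nat_lit 0x0) (nat_lit 0x100021000000000000000000000000000000000000000) := D_6 (nat_lit 176) (nat_lit 161) (nat_lit 156) (nat_lit 2) (nat_lit 4) (nat_lit 10) (nat_lit 0) (nat_lit 7) (nat_lit 10) (by decide +kernel)
theorem L47050 : W_6 (nat_lit 3) (nat_lit 0x260012001300088000000000000000000000000000000) (nat_lit 0x0) (nat_lit 0x1000180021000000000000000000000000000000000000000) := T_6 (nat_lit 175) (nat_lit 192) (nat_lit 7) (nat_lit 4) (nat_lit 7) L47049 (by decide +kernel)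
theorem L47051 : W_6 (nat_lit 4) (nat_lit 0x240012001300088000000000000000000000000000000) (nat_lit 0x0) (nat_lit 0x14001a0021000000000000000000000000000000000000000) := T_6 (nat_lit 173) (nat_lit 190) (nat_lit 5) (nat_lit 4) (nat_lit 7) L47050 (by decide +kernel)
theorem L47052 : W_6 (nat_lit 5) (nat_lit 0x200012001300088000000000000000000000000000000) (nat_lit 0x0) (nat_lit 0x20001c001e0021000000010000800000000000000000000000000) := Q_6 (nat_lit 174) (C_6 L47045 (C_6 L47048 (C_6 L47051 N_6))) (by decide +kernel)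
theorem L47053 : W_6 (nat_lit 2) (nat_lit 0x2e0012001300088000000000000000000000000000000) (nat_lit 0x0) (nat_lit 0x100028000000000000000000000000000000000000000) := D_6 (nat_lit 176) (nat_lit 161) (nat_lit 159) (nat_lit 2) (nat_lit 4) (nat_lit 10) (nat_lit 2) (nat_lit 3) (nat_lit 10) (by decide +kernel)
theorem L47054 : W_6 (nat_lit 3) (nat_lit 0x260012001300088000000000000000000000000000000) (nat_lit 0x0) (nat_lit 0x1000180028000000000000000000000000000000000000000) := T_6 (nat_lit 175) (nat_lit 192) (nat_lit 7) (nat_lit 4) (nat_lit 7) L47053 (by decide +kernel)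
theorem L47055 : W_6 (nat_lit 4) (nat_lit 0x240012001300088000000000000000000000000000000) (nat_lit 0x0) (nat_lit 0x14001a0028000000000000000000000000000000000000000) := T_6 (nat_lit 173) (nat_lit 190) (nat_lit 5) (nat_lit 4) (nat_lit 7) L47054 (by decide +kernel)
theorem L47056 : W_6 (nat_lit 5) (nat_lit 0x200012001300088000000000000000000000000000000) (nat_lit 0x0) (nat_lit 0x28001c001e0029000080004000200000000000000000000000000) := Q_6 (nat_lit 174) (C_6 L47051 (C_6 L47055 (C_6 L41904 (C_6 L41940 N_6)))) (by decide +kernel)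
theorem L47057 : W_6 (nat_lit 5) (nat_lit 0x200012001300088000000000000000000000000000000) (nat_lit 0x0) (nat_lit 0x28001c001e0028000080004000200000000000000000000000000) := Q_6 (nat_lit 174) (C_6 L41940 (C_6 L47055 (C_6 L41904 N_6))) (by decide +kernel)
theorem L47058 : W_6 (nat_lit 2) (nat_lit 0x200012001300088000600060001000000000000000000) (nat_lit 0x0) (nat_lit 0x80004000000000000000080000000000000) := D_6 (nat_lit 122) (nat_lit 139) (nat_lit 55) (nat_lit 5) (nat_lit 4) (nat_lit 4) (nat_lit 5) (nat_lit 4) (nat_lit 3) (by decide +kernel)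
theorem L47059 : W_6 (nat_lit 3) (nat_lit 0x200012001300088000600060000000000000000000000) (nat_lit 0x0) (nat_lit 0x80014000000000001000080000000000000) := T_6 (nat_lit 72) (nat_lit 124) (nat_lit 7) (nat_lit 4) (nat_lit 4) L47058 (by decide +kernel)
theorem L47060 : W_6 (nat_lit 4) (nat_lit 0x200012001300088000600040000000000000000000000) (nat_lit 0x0) (nat_lit 0x80014000000020003000080000000000000) := T_6 (nat_lit 89) (nat_lit 73) (nat_lit 6) (nat_lit 4) (nat_lit 8) L47059 (by decide +kernel)
theorem L47061 : W_6 (nat_lit 5) (nat_lit 0x200012001300088000600000000000000000000000000) (nat_lit 0x0) (nat_lit 0x80014000800060003000080000000000000) := T_6 (nat_lit 90) (nat_lit 107) (nat_lit 6) (nat_lit 4) (nat_lit 9) L47060 (by decide +kernel)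
theorem L47062 : W_6 (nat_lit 6) (nat_lit 0x200012001300088000400000000000000000000000000) (nat_lit 0x0) (nat_lit 0x80014000a00070003000080000000000000) := T_6 (nat_lit 105) (nat_lit 88) (nat_lit 4) (nat_lit 4) (nat_lit 9) L47061 (by decide +kernel)
theorem L47063 : W_6 (nat_lit 2) (nat_lit 0x200013401300088000400060000000000000000000000) (nat_lit 0x0) (nat_lit 0x200010000800000000000000000) := D_6 (nat_lit 88) (nat_lit 105) (nat_lit 71) (nat_lit 4) (nat_lit 4) (nat_lit 9) (nat_lit 4) (nat_lit 4) (nat_lit 8) (by decide +kernel)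
theorem L47064 : W_6 (nat_lit 3) (nat_lit 0x200013401300088000400040000000000000000000000) (nat_lit 0x0) (nat_lit 0x200030002800000000000000000) := T_6 (nat_lit 89) (nat_lit 73) (nat_lit 6) (nat_lit 4) (nat_lit 8) L47063 (by decide +kernel)
theorem L47065 : W_6 (nat_lit 4) (nat_lit 0x200013001300088000400040000000000000000000000) (nat_lit 0x0) (nat_lit 0xc00000000000200030002800000000000000000) := T_6 (nat_lit 154) (nat_lit 155) (nat_lit 2) (nat_lit 1) (nat_lit 9) L47064 (by decide +kernel)
theorem L47066 : W_6 (nat_lit 5) (nat_lit 0x200012001300088000400040000000000000000000000) (nat_lit 0x0) (nat_lit 0x20001c00000000000200030002800000000000000000) := T_6 (nat_lit 156) (nat_lit 173) (nat_lit 5) (nat_lit 4) (nat_lit 6) L47065 (by decide +kernel)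
theorem L47067 : W_6 (nat_lit 6) (nat_lit 0x200012001300088000400000000000000000000000000) (nat_lit 0x0) (nat_lit 0x20001c00000000000a00070002800000000000000000) := T_6 (nat_lit 90) (nat_lit 107) (nat_lit 6) (nat_lit 4) (nat_lit 9) L47066 (by decide +kernel)
theorem L47068 : W_6 (nat_lit 2) (nat_lit 0x20001380138008d002f00000000000000000000000000) (nat_lit 0x0) (nat_lit 0x10800080000000000000000000000000) := D_6 (nat_lit 103) (nat_lit 124) (nat_lit 119) (nat_lit 3) (nat_lit 1) (nat_lit 6) (nat_lit 1) (nat_lit 4) (nat_lit 6) (by decide +kernel)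
theorem L47069 : W_6 (nat_lit 3) (nat_lit 0x20001380138008d002e00000000000000000000000000) (nat_lit 0x0) (nat_lit 0x10800180008000000000000000000000) := T_6 (nat_lit 104) (nat_lit 87) (nat_lit 4) (nat_lit 3) (nat_lit 9) L47068 (by decide +kernel)
theorem L47070 : W_6 (nat_lit 4) (nat_lit 0x20001380130008d002e00000000000000000000000000) (nat_lit 0x0) (nat_lit 0x10000000080010800180008000000000000000000000) := T_6 (nat_lit 139) (nat_lit 172) (nat_lit 5) (nat_lit 3) (nat_lit 6) L47069 (by decide +kernel)
theorem L47071 : W_6 (nat_lit 5) (nat_lit 0x20001300130008d002e00000000000000000000000000) (nat_lit 0x0) (nat_lit 0x10000c00080010800180008000000000000000000000) := T_6 (nat_lit 155) (nat_lit 154) (nat_lit 2) (nat_lit 1) (nat_lit 9) L47070 (by decide +kernel)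
theorem L47072 : W_6 (nat_lit 6) (nat_lit 0x20001200130008d002e00000000000000000000000000) (nat_lit 0x0) (nat_lit 0x30001c00080010800180008000000000000000000000) := T_6 (nat_lit 156) (nat_lit 173) (nat_lit 5) (nat_lit 4) (nat_lit 6) L47071 (by decide +kernel)
theorem L47073 : W_6 (nat_lit 7) (nat_lit 0x20001200130008d002c00000000000000000000000000) (nat_lit 0x0) (nat_lit 0x30001c00080010800380018000000000000000000000) := T_6 (nat_lit 105) (nat_lit 88) (nat_lit 4) (nat_lit 4) (nat_lit 9) L47072 (by decide +kernel)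
theorem L47074 : W_6 (nat_lit 8) (nat_lit 0x20001200130008d000c00000000000000000000000000) (nat_lit 0x0) (nat_lit 0x30001c00080010803380018000000000000000000000) := T_6 (nat_lit 109) (nat_lit 108) (nat_lit 1) (nat_lit 7) (nat_lit 6) L47073 (by decide +kernel)
theorem L47075 : W_6 (nat_lit 9) (nat_lit 0x20001200130008c000c00000000000000000000000000) (nat_lit 0x0) (nat_lit 0x30001c00080013803380018000000000000000000000) := T_6 (nat_lit 120) (nat_lit 121) (nat_lit 3) (nat_lit 1) (nat_lit 7) L47074 (by decide +kernel)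
theorem L47076 : W_6 (nat_lit 10) (nat_lit 0x20001200130008c000400000000000000000000000000) (nat_lit 0x0) (nat_lit 0x30001c00080013803b80058000000000000000000000) := T_6 (nat_lit 107) (nat_lit 90) (nat_lit 6) (nat_lit 4) (nat_lit 9) L47075 (by decide +kernel)
theorem L47077 : W_6 (nat_lit 2) (nat_lit 0x20001380138008d000700000000000000000000000000) (nat_lit 0x0) (nat_lit 0x10800080000000000000000000000000) := D_6 (nat_lit 103) (nat_lit 124) (nat_lit 119) (nat_lit 3) (nat_lit 1) (nat_lit 6) (nat_lit 1) (nat_lit 4) (nat_lit 6) (by decide +kernel)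
theorem L47078 : W_6 (nat_lit 3) (nat_lit 0x20001380138008d000600000000000000000000000000) (nat_lit 0x0) (nat_lit 0x10800180008000000000000000000000) := T_6 (nat_lit 104) (nat_lit 87) (nat_lit 4) (nat_lit 3) (nat_lit 9) L47077 (by decide +kernel)
theorem L47079 : W_6 (nat_lit 4) (nat_lit 0x20001380130008d000600000000000000000000000000) (nat_lit 0x0) (nat_lit 0x10000000080010800180008000000000000000000000) := T_6 (nat_lit 139) (nat_lit 172) (nat_lit 5) (nat_lit 3) (nat_lit 6) L47078 (by decide +kernel)
theorem L47080 : W_6 (nat_lit 5) (nat_lit 0x20001380130008d000400000000000000000000000000) (nat_lit 0x0) (nat_lit 0x10000000080010800380018000000000000000000000) := T_6 (nat_lit 105) (nat_lit 88) (nat_lit 4) (nat_lit 4) (nat_lit 9) L47079 (by decide +kernel)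
theorem L47081 : W_6 (nat_lit 6) (nat_lit 0x20001380130008c000400000000000000000000000000) (nat_lit 0x0) (nat_lit 0x10000000080013800380018000000000000000000000) := T_6 (nat_lit 120) (nat_lit 121) (nat_lit 3) (nat_lit 1) (nat_lit 7) L47080 (by decide +kernel)
theorem L47082 : W_6 (nat_lit 7) (nat_lit 0x20001300130008c000400000000000000000000000000) (nat_lit 0x0) (nat_lit 0x10000c00080013800380018000000000000000000000) := T_6 (nat_lit 155) (nat_lit 154) (nat_lit 2) (nat_lit 1) (nat_lit 9) L47081 (by decide +kernel)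
theorem L47083 : W_6 (nat_lit 8) (nat_lit 0x20001200130008c000400000000000000000000000000) (nat_lit 0x0) (nat_lit 0x30001c00080013800380018000000000000000000000) := T_6 (nat_lit 156) (nat_lit 173) (nat_lit 5) (nat_lit 4) (nat_lit 6) L47082 (by decide +kernel)
theorem L47084 : W_6 (nat_lit 4) (nat_lit 0x20001200130008c000400000000000000000000000000) (nat_lit 0x0) (nat_lit 0x3001a00050000000000000000000000) := T_6 (nat_lit 105) (nat_lit 88) (nat_lit 4) (nat_lit 4) (nat_lit 9) L41888 (by decide +kernel)
theorem L47085 : W_6 (nat_lit 2) (nat_lit 0x20001380138008c002f00000000000000000000000000) (nat_lit 0x0) (nat_lit 0x100000c0000000000000000000000000) := D_6 (nat_lit 103) (nat_lit 124) (nat_lit 102) (nat_lit 3) (nat_lit 1) (nat_lit 6) (nat_lit 3) (nat_lit 0) (nat_lit 6) (by decide +kernel)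
theorem L47086 : W_6 (nat_lit 3) (nat_lit 0x20001380138008c002e00000000000000000000000000) (nat_lit 0x0) (nat_lit 0x100001c0008000000000000000000000) := T_6 (nat_lit 104) (nat_lit 87) (nat_lit 4) (nat_lit 3) (nat_lit 9) L47085 (by decide +kernel)
theorem L47087 : W_6 (nat_lit 4) (nat_lit 0x20001380138008c000e00000000000000000000000000) (nat_lit 0x0) (nat_lit 0x100031c0008000000000000000000000) := T_6 (nat_lit 109) (nat_lit 108) (nat_lit 1) (nat_lit 7) (nat_lit 6) L47086 (by decide +kernel)
theorem L47088 : W_6 (nat_lit 5) (nat_lit 0x20001380138008c000600000000000000000000000000) (nat_lit 0x0) (nat_lit 0x100039c0048000000000000000000000) := T_6 (nat_lit 107) (nat_lit 90) (nat_lit 6) (nat_lit 4) (nat_lit 9) L47087 (by decide +kernel)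
theorem L47089 : W_6 (nat_lit 6) (nat_lit 0x20001380130008c000600000000000000000000000000) (nat_lit 0x0) (nat_lit 0x100000000800100039c0048000000000000000000000) := T_6 (nat_lit 139) (nat_lit 172) (nat_lit 5) (nat_lit 3) (nat_lit 6) L47088 (by decide +kernel)
theorem L47090 : W_6 (nat_lit 7) (nat_lit 0x20001380130008c000400000000000000000000000000) (nat_lit 0x0) (nat_lit 0x10000000080010003bc0058000000000000000000000) := T_6 (nat_lit 105) (nat_lit 88) (nat_lit 4) (nat_lit 4) (nat_lit 9) L47089 (by decide +kernel)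
theorem L47091 : W_6 (nat_lit 8) (nat_lit 0x20001300130008c000400000000000000000000000000) (nat_lit 0x0) (nat_lit 0x10000c00080010003bc0058000000000000000000000) := T_6 (nat_lit 155) (nat_lit 154) (nat_lit 2) (nat_lit 1) (nat_lit 9) L47090 (by decide +kernel)
theorem L47092 : W_6 (nat_lit 9) (nat_lit 0x20001200130008c000400000000000000000000000000) (nat_lit 0x0) (nat_lit 0x30001c00080010003bc0058000000000000000000000) := T_6 (nat_lit 156) (nat_lit 173) (nat_lit 5) (nat_lit 4) (nat_lit 6) L47091 (by decide +kernel)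
theorem L47093 : W_6 (nat_lit 2) (nat_lit 0x20001340130008e000c00000000000000000000000000) (nat_lit 0x0) (nat_lit 0x10003000000000000000000000000000) := D_6 (nat_lit 108) (nat_lit 124) (nat_lit 109) (nat_lit 2) (nat_lit 2) (nat_lit 7) (nat_lit 1) (nat_lit 7) (nat_lit 6) (by decide +kernel)
theorem L47094 : W_6 (nat_lit 3) (nat_lit 0x20001340130008e000400000000000000000000000000) (nat_lit 0x0) (nat_lit 0x10003800040000000000000000000000) := T_6 (nat_lit 107) (nat_lit 90) (nat_lit 6) (nat_lit 4) (nat_lit 9) L47093 (by decide +kernel)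
theorem L47095 : W_6 (nat_lit 4) (nat_lit 0x20001300130008e000400000000000000000000000000) (nat_lit 0x0) (nat_lit 0xc00000010003800040000000000000000000000) := T_6 (nat_lit 154) (nat_lit 155) (nat_lit 2) (nat_lit 1) (nat_lit 9) L47094 (by decide +kernel)
theorem L47096 : W_6 (nat_lit 5) (nat_lit 0x20001200130008e000400000000000000000000000000) (nat_lit 0x0) (nat_lit 0x20001c00000010003800040000000000000000000000) := T_6 (nat_lit 156) (nat_lit 173) (nat_lit 5) (nat_lit 4) (nat_lit 6) L47095 (by decide +kernel)
theorem L47097 : W_6 (nat_lit 6) (nat_lit 0x20001200130008c000400000000000000000000000000) (nat_lit 0x0) (nat_lit 0x20001c00000013003800040000000000000000000000) := T_6 (nat_lit 121) (nat_lit 120) (nat_lit 3) (nat_lit 1) (nat_lit 7) L47096 (by decide +kernel)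
theorem L47098 : W_6 (nat_lit 11) (nat_lit 0x200012001300088000400000000000000000000000000) (nat_lit 0x0) (nat_lit 0x30001c00080017803bc0058000000000000000000000) := Q_6 (nat_lit 122) (C_6 L47076 (C_6 L47083 (C_6 L47084 (C_6 L47092 (C_6 L47097 N_6))))) (by decide +kernel)
theorem L47099 : W_6 (nat_lit 12) (nat_lit 0x200012001300088000000000000000000000000000000) (nat_lit 0x0) (nat_lit 0x30001c00080017803fc0078003800080000000000000) := Q_6 (nat_lit 106) (C_6 L41877 (C_6 L47062 (C_6 L47067 (C_6 L41873 (C_6 L47098 N_6))))) (by decide +kernel)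
theorem L47100 : W_6 (nat_lit 2) (nat_lit 0x2c001200130009d000000000000000000000000000000) (nat_lit 0x0) (nat_lit 0x100021000000000000000000000000000000000000000) := D_6 (nat_lit 176) (nat_lit 161) (nat_lit 156) (nat_lit 2) (nat_lit 4) (nat_lit 10) (nat_lit 0) (nat_lit 7) (nat_lit 10) (by decide +kernel)
theorem L47101 : W_6 (nat_lit 3) (nat_lit 0x24001200130009d000000000000000000000000000000) (nat_lit 0x0) (nat_lit 0x1000180021000000000000000000000000000000000000000) := T_6 (nat_lit 175) (nat_lit 192) (nat_lit 7) (nat_lit 4) (nat_lit 7) L47100 (by decide +kernel)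
theorem L47102 : W_6 (nat_lit 4) (nat_lit 0x24001200130008d000000000000000000000000000000) (nat_lit 0x0) (nat_lit 0x1000180021000000010000800000000000000000000000000) := T_6 (nat_lit 124) (nat_lit 107) (nat_lit 6) (nat_lit 4) (nat_lit 10) L47101 (by decide +kernel)
theorem L47103 : W_6 (nat_lit 5) (nat_lit 0x24001200130008c000000000000000000000000000000) (nat_lit 0x0) (nat_lit 0x1000180021000000013000800000000000000000000000000) := T_6 (nat_lit 120) (nat_lit 121) (nat_lit 3) (nat_lit 1) (nat_lit 7) L47102 (by decide +kernel)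
theorem L47104 : W_6 (nat_lit 6) (nat_lit 0x240012001300088000000000000000000000000000000) (nat_lit 0x0) (nat_lit 0x1000180021000000017000a00000000000000000000000000) := T_6 (nat_lit 122) (nat_lit 105) (nat_lit 4) (nat_lit 4) (nat_lit 10) L47103 (by decide +kernel)
theorem L47105 : W_6 (nat_lit 7) (nat_lit 0x200012001300088000000000000000000000000000000) (nat_lit 0x0) (nat_lit 0x200018001c0021000080017000a00000000000000000000000000) := Q_6 (nat_lit 174) (C_6 L41940 (C_6 L47045 (C_6 L47104 N_6))) (by decide +kernel)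
theorem L47106 : W_6 (nat_lit 13) (nat_lit 0x200010001300088000000000000000000000000000000) (nat_lit 0x0) (nat_lit 0x28001c001f002bc00080017803fc0078003800080000000000000) := Q_6 (nat_lit 157) (C_6 L47052 (C_6 L47056 (C_6 L47057 (C_6 L47099 (C_6 L47105 N_6))))) (by decide +kernel)
theorem L47107 : W_6 (nat_lit 8) (nat_lit 0x20001000130009c000000000000000000000000000000) (nat_lit 0x0) (nat_lit 0x30001c000e0003000380018000400000000000000000) := T_6 (nat_lit 121) (nat_lit 120) (nat_lit 3) (nat_lit 1) (nat_lit 7) L44843 (by decide +kernel)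
theorem L47108 : W_6 (nat_lit 11) (nat_lit 0x200010001300098000000000000000000000000000000) (nat_lit 0x0) (nat_lit 0x600030001c000e0067000780038001c00000000000000000) := Q_6 (nat_lit 122) (C_6 L43833 (C_6 L44834 (C_6 L47107 (C_6 L43779 N_6)))) (by decide +kernel)
theorem L47109 : W_6 (nat_lit 2) (nat_lit 0x20001380138009c000600000000000000000000000000) (nat_lit 0x0) (nat_lit 0x180008000000000000000000000) := D_6 (nat_lit 104) (nat_lit 103) (nat_lit 87) (nat_lit 3) (nat_lit 1) (nat_lit 6) (nat_lit 4) (nat_lit 3) (nat_lit 9) (by decide +kernel)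
theorem L47110 : W_6 (nat_lit 3) (nat_lit 0x200013801380098000600000000000000000000000000) (nat_lit 0x0) (nat_lit 0x10000000000004000180008000000000000000000000) := T_6 (nat_lit 122) (nat_lit 172) (nat_lit 5) (nat_lit 3) (nat_lit 6) L47109 (by decide +kernel)
theorem L47111 : W_6 (nat_lit 4) (nat_lit 0x200013801380098000400000000000000000000000000) (nat_lit 0x0) (nat_lit 0x10000000000004000380018000000000000000000000) := T_6 (nat_lit 105) (nat_lit 88) (nat_lit 4) (nat_lit 4) (nat_lit 9) L47110 (by decide +kernel)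
theorem L47112 : W_6 (nat_lit 5) (nat_lit 0x200013001380098000400000000000000000000000000) (nat_lit 0x0) (nat_lit 0x10000c00000004000380018000000000000000000000) := T_6 (nat_lit 155) (nat_lit 154) (nat_lit 2) (nat_lit 1) (nat_lit 9) L47111 (by decide +kernel)
theorem L47113 : W_6 (nat_lit 6) (nat_lit 0x200012001380098000400000000000000000000000000) (nat_lit 0x0) (nat_lit 0x30001c00000004000380018000000000000000000000) := T_6 (nat_lit 156) (nat_lit 173) (nat_lit 5) (nat_lit 4) (nat_lit 6) L47112 (by decide +kernel)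
theorem L47114 : W_6 (nat_lit 2) (nat_lit 0x5002100128013c009a000680000000000000000000000000) (nat_lit 0x0) (nat_lit 0xa000200000000000000000000000000000000000000000000000) := D_6 (nat_lit 189) (nat_lit 207) (nat_lit 205) (nat_lit 7) (nat_lit 2) (nat_lit 8) (nat_lit 5) (nat_lit 2) (nat_lit 8) (by decide +kernel)
theorem L47115 : W_6 (nat_lit 3) (nat_lit 0x4002100128013c009a000680000000000000000000000000) (nat_lit 0x0) (nat_lit 0xa000300008000000000000000000000000000000000000000000) := T_6 (nat_lit 188) (nat_lit 171) (nat_lit 5) (nat_lit 2) (nat_lit 7) L47114 (by decide +kernel)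
theorem L47116 : W_6 (nat_lit 4) (nat_lit 0x2100128013c009a000680000000000000000000000000) (nat_lit 0x0) (nat_lit 0xa000700028000000000000000000000000000000000000000000) := T_6 (nat_lit 190) (nat_lit 173) (nat_lit 7) (nat_lit 2) (nat_lit 7) L47115 (by decide +kernel)
theorem L47117 : W_6 (nat_lit 5) (nat_lit 0x2000128013c009a000680000000000000000000000000) (nat_lit 0x0) (nat_lit 0xa000700038000000000004000000000000000000000000000000) := T_6 (nat_lit 172) (nat_lit 122) (nat_lit 6) (nat_lit 2) (nat_lit 10) L47116 (by decide +kernel)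
theorem L47118 : W_6 (nat_lit 6) (nat_lit 0x2000120013c009a000680000000000000000000000000) (nat_lit 0x0) (nat_lit 0xa000700038000c00000004000000000000000000000000000000) := T_6 (nat_lit 155) (nat_lit 154) (nat_lit 1) (nat_lit 5) (nat_lit 8) L47117 (by decide +kernel)
theorem L47119 : W_6 (nat_lit 7) (nat_lit 0x2000120013c0098000680000000000000000000000000) (nat_lit 0x0) (nat_lit 0xa000700038000c00000007000000000000000000000000000000) := T_6 (nat_lit 121) (nat_lit 120) (nat_lit 0) (nat_lit 5) (nat_lit 8) L47118 (by decide +kernel)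
theorem L47120 : W_6 (nat_lit 8) (nat_lit 0x200012001380098000680000000000000000000000000) (nat_lit 0x0) (nat_lit 0xa000700038000c00060007000000000000000000000000000000) := T_6 (nat_lit 138) (nat_lit 137) (nat_lit 2) (nat_lit 1) (nat_lit 8) L47119 (by decide +kernel)
theorem L47121 : W_6 (nat_lit 9) (nat_lit 0x200012001380098000600000000000000000000000000) (nat_lit 0x0) (nat_lit 0xa000700038000c00060007000180000000000000000000000000) := T_6 (nat_lit 103) (nat_lit 104) (nat_lit 3) (nat_lit 1) (nat_lit 6) L47120 (by decide +kernel)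
theorem L47122 : W_6 (nat_lit 10) (nat_lit 0x200012001380098000400000000000000000000000000) (nat_lit 0x0) (nat_lit 0xa000700038000c00060007000380010000000000000000000000) := T_6 (nat_lit 105) (nat_lit 88) (nat_lit 4) (nat_lit 4) (nat_lit 9) L47121 (by decide +kernel)
theorem L47123 : W_6 (nat_lit 2) (nat_lit 0x2000138013c009a000500000000000000000000000000) (nat_lit 0x0) (nat_lit 0x4000080004000000000000000000000) := D_6 (nat_lit 103) (nat_lit 86) (nat_lit 122) (nat_lit 4) (nat_lit 2) (nat_lit 9) (nat_lit 0) (nat_lit 5) (nat_lit 7) (by decide +kernel)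
theorem L47124 : W_6 (nat_lit 3) (nat_lit 0x2000138013c009a000400000000000000000000000000) (nat_lit 0x0) (nat_lit 0x400018000c000000000000000000000) := T_6 (nat_lit 104) (nat_lit 87) (nat_lit 7) (nat_lit 2) (nat_lit 5) L47123 (by decide +kernel)
theorem L47125 : W_6 (nat_lit 4) (nat_lit 0x2000138013c0098000400000000000000000000000000) (nat_lit 0x0) (nat_lit 0x700018000c000000000000000000000) := T_6 (nat_lit 121) (nat_lit 120) (nat_lit 0) (nat_lit 5) (nat_lit 8) L47124 (by decide +kernel)
theorem L47126 : W_6 (nat_lit 5) (nat_lit 0x2000130013c0098000400000000000000000000000000) (nat_lit 0x0) (nat_lit 0xc0000000700018000c000000000000000000000) := T_6 (nat_lit 155) (nat_lit 154) (nat_lit 2) (nat_lit 1) (nat_lit 9) L47125 (by decide +kernel)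
theorem L47127 : W_6 (nat_lit 6) (nat_lit 0x2000120013c0098000400000000000000000000000000) (nat_lit 0x0) (nat_lit 0x20001c0000000700018000c000000000000000000000) := T_6 (nat_lit 156) (nat_lit 173) (nat_lit 5) (nat_lit 4) (nat_lit 6) L47126 (by decide +kernel)
theorem L47128 : W_6 (nat_lit 7) (nat_lit 0x200012001380098000400000000000000000000000000) (nat_lit 0x0) (nat_lit 0x20001c0006000700018000c000000000000000000000) := T_6 (nat_lit 138) (nat_lit 137) (nat_lit 2) (nat_lit 1) (nat_lit 8) L47127 (by decide +kernel)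
theorem L47129 : W_6 (nat_lit 2) (nat_lit 0x2000128013c009a000700008000000000000000000000) (nat_lit 0x0) (nat_lit 0x10000000000004000000000000400000000000000000) := D_6 (nat_lit 122) (nat_lit 172) (nat_lit 70) (nat_lit 6) (nat_lit 2) (nat_lit 10) (nat_lit 7) (nat_lit 2) (nat_lit 4) (by decide +kernel)
theorem L47130 : W_6 (nat_lit 3) (nat_lit 0x2000128013c009a000700000000000000000000000000) (nat_lit 0x0) (nat_lit 0x10001000000004000000008000400000000000000000) := T_6 (nat_lit 87) (nat_lit 156) (nat_lit 7) (nat_lit 2) (nat_lit 5) L47129 (by decide +kernel)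
theorem L47131 : W_6 (nat_lit 4) (nat_lit 0x2000120013c009a000700000000000000000000000000) (nat_lit 0x0) (nat_lit 0x10001c00000004000000008000400000000000000000) := T_6 (nat_lit 155) (nat_lit 154) (nat_lit 1) (nat_lit 5) (nat_lit 8) L47130 (by decide +kernel)
theorem L47132 : W_6 (nat_lit 5) (nat_lit 0x2000120013c0098000700000000000000000000000000) (nat_lit 0x0) (nat_lit 0x10001c00000007000000008000400000000000000000) := T_6 (nat_lit 121) (nat_lit 120) (nat_lit 0) (nat_lit 5) (nat_lit 8) L47131 (by decide +kernel)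
theorem L47133 : W_6 (nat_lit 6) (nat_lit 0x200012001380098000700000000000000000000000000) (nat_lit 0x0) (nat_lit 0x10001c00060007000000008000400000000000000000) := T_6 (nat_lit 138) (nat_lit 137) (nat_lit 2) (nat_lit 1) (nat_lit 8) L47132 (by decide +kernel)
theorem L47134 : W_6 (nat_lit 7) (nat_lit 0x200012001380098000600000000000000000000000000) (nat_lit 0x0) (nat_lit 0x10001c00060007000180008000400000000000000000) := T_6 (nat_lit 104) (nat_lit 103) (nat_lit 3) (nat_lit 1) (nat_lit 6) L47133 (by decide +kernel)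
theorem L47135 : W_6 (nat_lit 8) (nat_lit 0x200012001380098000400000000000000000000000000) (nat_lit 0x0) (nat_lit 0x10001c00060007000380018000400000000000000000) := T_6 (nat_lit 105) (nat_lit 88) (nat_lit 4) (nat_lit 4) (nat_lit 9) L47134 (by decide +kernel)
theorem L47136 : W_6 (nat_lit 2) (nat_lit 0x2000130013c009a000600000000000000000000000000) (nat_lit 0x0) (nat_lit 0x180008000000000000000000000) := D_6 (nat_lit 104) (nat_lit 103) (nat_lit 87) (nat_lit 3) (nat_lit 1) (nat_lit 6) (nat_lit 7) (nat_lit 2) (nat_lit 5) (by decide +kernel)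
theorem L47137 : W_6 (nat_lit 3) (nat_lit 0x2000130013c009a000400000000000000000000000000) (nat_lit 0x0) (nat_lit 0x380018000000000000000000000) := T_6 (nat_lit 105) (nat_lit 88) (nat_lit 4) (nat_lit 4) (nat_lit 9) L47136 (by decide +kernel)
theorem L47138 : W_6 (nat_lit 4) (nat_lit 0x2000130013c0098000400000000000000000000000000) (nat_lit 0x0) (nat_lit 0x3000380018000000000000000000000) := T_6 (nat_lit 121) (nat_lit 120) (nat_lit 0) (nat_lit 5) (nat_lit 8) L47137 (by decide +kernel)
theorem L47139 : W_6 (nat_lit 5) (nat_lit 0x2000120013c0098000400000000000000000000000000) (nat_lit 0x0) (nat_lit 0x20001000000003000380018000000000000000000000) := T_6 (nat_lit 156) (nat_lit 173) (nat_lit 5) (nat_lit 4) (nat_lit 6) L47138 (by decide +kernel)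
theorem L47140 : W_6 (nat_lit 6) (nat_lit 0x200012001380098000400000000000000000000000000) (nat_lit 0x0) (nat_lit 0x20001000060003000380018000000000000000000000) := T_6 (nat_lit 138) (nat_lit 137) (nat_lit 2) (nat_lit 1) (nat_lit 8) L47139 (by decide +kernel)
theorem L47141 : W_6 (nat_lit 2) (nat_lit 0x1002100138013c009a000600000000000000000000000000) (nat_lit 0x0) (nat_lit 0x6000200000000000000000000000000000000000000000000000) := D_6 (nat_lit 189) (nat_lit 206) (nat_lit 205) (nat_lit 6) (nat_lit 2) (nat_lit 12) (nat_lit 5) (nat_lit 2) (nat_lit 8) (by decide +kernel)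
theorem L47142 : W_6 (nat_lit 3) (nat_lit 0x2100138013c009a000600000000000000000000000000) (nat_lit 0x0) (nat_lit 0x6000300008000000000000000000000000000000000000000000) := T_6 (nat_lit 188) (nat_lit 171) (nat_lit 5) (nat_lit 2) (nat_lit 7) L47141 (by decide +kernel)
theorem L47143 : W_6 (nat_lit 4) (nat_lit 0x2000138013c009a000600000000000000000000000000) (nat_lit 0x0) (nat_lit 0x6000300018000000000004000000000000000000000000000000) := T_6 (nat_lit 172) (nat_lit 122) (nat_lit 6) (nat_lit 2) (nat_lit 10) L47142 (by decide +kernel)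
theorem L47144 : W_6 (nat_lit 5) (nat_lit 0x2000138013c0098000600000000000000000000000000) (nat_lit 0x0) (nat_lit 0x6000300018000000000007000000000000000000000000000000) := T_6 (nat_lit 121) (nat_lit 120) (nat_lit 0) (nat_lit 5) (nat_lit 8) L47143 (by decide +kernel)
theorem L47145 : W_6 (nat_lit 6) (nat_lit 0x2000130013c0098000600000000000000000000000000) (nat_lit 0x0) (nat_lit 0x6000300018000c00000007000000000000000000000000000000) := T_6 (nat_lit 155) (nat_lit 154) (nat_lit 2) (nat_lit 1) (nat_lit 9) L47144 (by decide +kernel)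
theorem L47146 : W_6 (nat_lit 7) (nat_lit 0x2000120013c0098000600000000000000000000000000) (nat_lit 0x0) (nat_lit 0x6000300038001c00000007000000000000000000000000000000) := T_6 (nat_lit 156) (nat_lit 173) (nat_lit 5) (nat_lit 4) (nat_lit 6) L47145 (by decide +kernel)
theorem L47147 : W_6 (nat_lit 8) (nat_lit 0x200012001380098000600000000000000000000000000) (nat_lit 0x0) (nat_lit 0x6000300038001c00060007000000000000000000000000000000) := T_6 (nat_lit 138) (nat_lit 137) (nat_lit 2) (nat_lit 1) (nat_lit 8) L47146 (by decide +kernel)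
theorem L47148 : W_6 (nat_lit 9) (nat_lit 0x200012001380098000400000000000000000000000000) (nat_lit 0x0) (nat_lit 0x6000300038001c00060007000200010000000000000000000000) := T_6 (nat_lit 105) (nat_lit 88) (nat_lit 4) (nat_lit 4) (nat_lit 9) L47147 (by decide +kernel)
theorem L47149 : W_6 (nat_lit 11) (nat_lit 0x200012001300098000400000000000000000000000000) (nat_lit 0x0) (nat_lit 0xe000700038001c000e000700038001c000400000000000000000) := Q_6 (nat_lit 139) (C_6 L46867 (C_6 L47113 (C_6 L47122 (C_6 L47128 (C_6 L47135 (C_6 L47140 (C_6 L47148 N_6))))))) (by decide +kernel)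
theorem L47150 : W_6 (nat_lit 12) (nat_lit 0x200012001300098000000000000000000000000000000) (nat_lit 0x0) (nat_lit 0xe000700038001c000e000700078003c001c00000000000000000) := Q_6 (nat_lit 106) (C_6 L46405 (C_6 L45611 (C_6 L47149 N_6))) (by decide +kernel)
theorem L47151 : W_6 (nat_lit 13) (nat_lit 0x200010001300098000000000000000000000000000000) (nat_lit 0x0) (nat_lit 0xe001f001f802bc000e000700078003c001c00000000000000000) := Q_6 (nat_lit 157) (C_6 L47150 (C_6 L46403 (C_6 L45744 N_6))) (by decide +kernel)
theorem L47152 : W_6 (nat_lit 2) (nat_lit 0x2c00120013800dd000000000000000000000000000000) (nat_lit 0x0) (nat_lit 0x100021000000000000000000000000000000000000000) := D_6 (nat_lit 176) (nat_lit 161) (nat_lit 156) (nat_lit 2) (nat_lit 4) (nat_lit 10) (nat_lit 0) (nat_lit 7) (nat_lit 10) (by decide +kernel)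
theorem L47153 : W_6 (nat_lit 3) (nat_lit 0x2400120013800dd000000000000000000000000000000) (nat_lit 0x0) (nat_lit 0x1000180021000000000000000000000000000000000000000) := T_6 (nat_lit 175) (nat_lit 192) (nat_lit 7) (nat_lit 4) (nat_lit 7) L47152 (by decide +kernel)
theorem L47154 : W_6 (nat_lit 4) (nat_lit 0x2400120013800dc000000000000000000000000000000) (nat_lit 0x0) (nat_lit 0x1000180021000000003000000000000000000000000000000) := T_6 (nat_lit 120) (nat_lit 121) (nat_lit 3) (nat_lit 1) (nat_lit 7) L47153 (by decide +kernel)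
theorem L47155 : W_6 (nat_lit 5) (nat_lit 0x2400100013800dc000000000000000000000000000000) (nat_lit 0x0) (nat_lit 0x1800180023000000003000000000000000000000000000000) := T_6 (nat_lit 157) (nat_lit 191) (nat_lit 6) (nat_lit 4) (nat_lit 11) L47154 (by decide +kernel)
theorem L47156 : W_6 (nat_lit 6) (nat_lit 0x24001000138009c000000000000000000000000000000) (nat_lit 0x0) (nat_lit 0x1800180023000000063000000000000000000000000000000) := T_6 (nat_lit 126) (nat_lit 125) (nat_lit 1) (nat_lit 7) (nat_lit 7) L47155 (by decide +kernel)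
theorem L47157 : W_6 (nat_lit 2) (nat_lit 0x2e00120013800dd000000000000000000000000000000) (nat_lit 0x0) (nat_lit 0x100028000000000000000000000000000000000000000) := D_6 (nat_lit 176) (nat_lit 161) (nat_lit 159) (nat_lit 2) (nat_lit 4) (nat_lit 10) (nat_lit 2) (nat_lit 3) (nat_lit 10) (by decide +kernel)
theorem L47158 : W_6 (nat_lit 3) (nat_lit 0x2600120013800dd000000000000000000000000000000) (nat_lit 0x0) (nat_lit 0x1000180028000000000000000000000000000000000000000) := T_6 (nat_lit 175) (nat_lit 192) (nat_lit 7) (nat_lit 4) (nat_lit 7) L47157 (by decide +kernel)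
theorem L47159 : W_6 (nat_lit 4) (nat_lit 0x2400120013800dd000000000000000000000000000000) (nat_lit 0x0) (nat_lit 0x14001a0028000000000000000000000000000000000000000) := T_6 (nat_lit 173) (nat_lit 190) (nat_lit 5) (nat_lit 4) (nat_lit 7) L47158 (by decide +kernel)
theorem L47160 : W_6 (nat_lit 5) (nat_lit 0x2400100013800dd000000000000000000000000000000) (nat_lit 0x0) (nat_lit 0x1c001a002a000000000000000000000000000000000000000) := T_6 (nat_lit 157) (nat_lit 191) (nat_lit 6) (nat_lit 4) (nat_lit 11) L47159 (by decide +kernel)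
theorem L47161 : W_6 (nat_lit 6) (nat_lit 0x24001000138009d000000000000000000000000000000) (nat_lit 0x0) (nat_lit 0x1c001a002a000000060000000000000000000000000000000) := T_6 (nat_lit 126) (nat_lit 125) (nat_lit 1) (nat_lit 7) (nat_lit 7) L47160 (by decide +kernel)
theorem L47162 : W_6 (nat_lit 7) (nat_lit 0x24001000138009c000000000000000000000000000000) (nat_lit 0x0) (nat_lit 0x1c001a002a000000063000000000000000000000000000000) := T_6 (nat_lit 120) (nat_lit 121) (nat_lit 3) (nat_lit 1) (nat_lit 7) L47161 (by decide +kernel)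
theorem L47163 : W_6 (nat_lit 2) (nat_lit 0x4003c001000138009d000000000000000000000000000000) (nat_lit 0x0) (nat_lit 0x200020001000000000000000000000000000000000000000) := D_6 (nat_lit 173) (nat_lit 189) (nat_lit 156) (nat_lit 1) (nat_lit 6) (nat_lit 10) (nat_lit 6) (nat_lit 3) (nat_lit 11) (by decide +kernel)
theorem L47164 : W_6 (nat_lit 3) (nat_lit 0x3c001000138009d000000000000000000000000000000) (nat_lit 0x0) (nat_lit 0xe00020001000000000000000000000000000000000000000) := T_6 (nat_lit 190) (nat_lit 191) (nat_lit 1) (nat_lit 7) (nat_lit 10) L47163 (by decide +kernel)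
theorem L47165 : W_6 (nat_lit 4) (nat_lit 0x34001000138009d000000000000000000000000000000) (nat_lit 0x0) (nat_lit 0xe000a0021000000000000000000000000000000000000000) := T_6 (nat_lit 175) (nat_lit 161) (nat_lit 2) (nat_lit 4) (nat_lit 10) L47164 (by decide +kernel)
theorem L47166 : W_6 (nat_lit 5) (nat_lit 0x34001000138009c000000000000000000000000000000) (nat_lit 0x0) (nat_lit 0xe000a0021000000003000000000000000000000000000000) := T_6 (nat_lit 120) (nat_lit 121) (nat_lit 3) (nat_lit 1) (nat_lit 7) L47165 (by decide +kernel)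
theorem L47167 : W_6 (nat_lit 7) (nat_lit 0x24001000138009c000000000000000000000000000000) (nat_lit 0x0) (nat_lit 0x2e001a002900080006300300018000c000000000000000000) := Q_6 (nat_lit 176) (C_6 L46451 (C_6 L46456 (C_6 L47166 N_6))) (by decide +kernel)
theorem L47168 : W_6 (nat_lit 2) (nat_lit 0x2e001200138009c000000000000000000000000000000) (nat_lit 0x0) (nat_lit 0x100021000000000000000000000000000000000000000) := D_6 (nat_lit 176) (nat_lit 161) (nat_lit 156) (nat_lit 2) (nat_lit 4) (nat_lit 10) (nat_lit 0) (nat_lit 7) (nat_lit 10) (by decide +kernel)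
theorem L47169 : W_6 (nat_lit 3) (nat_lit 0x26001200138009c000000000000000000000000000000) (nat_lit 0x0) (nat_lit 0x1000180021000000000000000000000000000000000000000) := T_6 (nat_lit 175) (nat_lit 192) (nat_lit 7) (nat_lit 4) (nat_lit 7) L47168 (by decide +kernel)
theorem L47170 : W_6 (nat_lit 4) (nat_lit 0x24001200138009c000000000000000000000000000000) (nat_lit 0x0) (nat_lit 0x14001a0021000000000000000000000000000000000000000) := T_6 (nat_lit 173) (nat_lit 190) (nat_lit 5) (nat_lit 4) (nat_lit 7) L47169 (by decide +kernel)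
theorem L47171 : W_6 (nat_lit 5) (nat_lit 0x24001000138009c000000000000000000000000000000) (nat_lit 0x0) (nat_lit 0x1c001a0023000000000000000000000000000000000000000) := T_6 (nat_lit 157) (nat_lit 191) (nat_lit 6) (nat_lit 4) (nat_lit 11) L47170 (by decide +kernel)
theorem L47172 : W_6 (nat_lit 2) (nat_lit 0x2e00120013800dd000000000000000000000000000000) (nat_lit 0x0) (nat_lit 0x100009000000000000000000000000000000000000000) := D_6 (nat_lit 176) (nat_lit 159) (nat_lit 156) (nat_lit 2) (nat_lit 3) (nat_lit 10) (nat_lit 0) (nat_lit 7) (nat_lit 10) (by decide +kernel)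
theorem L47173 : W_6 (nat_lit 3) (nat_lit 0x2600120013800dd000000000000000000000000000000) (nat_lit 0x0) (nat_lit 0x1000180009000000000000000000000000000000000000000) := T_6 (nat_lit 175) (nat_lit 192) (nat_lit 7) (nat_lit 4) (nat_lit 7) L47172 (by decide +kernel)
theorem L47174 : W_6 (nat_lit 4) (nat_lit 0x2400120013800dd000000000000000000000000000000) (nat_lit 0x0) (nat_lit 0x14001a0009000000000000000000000000000000000000000) := T_6 (nat_lit 173) (nat_lit 190) (nat_lit 5) (nat_lit 4) (nat_lit 7) L47173 (by decide +kernel)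
theorem L47175 : W_6 (nat_lit 5) (nat_lit 0x2400100013800dd000000000000000000000000000000) (nat_lit 0x0) (nat_lit 0x1c001a000b000000000000000000000000000000000000000) := T_6 (nat_lit 157) (nat_lit 191) (nat_lit 6) (nat_lit 4) (nat_lit 11) L47174 (by decide +kernel)
theorem L47176 : W_6 (nat_lit 6) (nat_lit 0x24001000138009d000000000000000000000000000000) (nat_lit 0x0) (nat_lit 0x1c001a000b000000060000000000000000000000000000000) := T_6 (nat_lit 126) (nat_lit 125) (nat_lit 1) (nat_lit 7) (nat_lit 7) L47175 (by decide +kernel)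
theorem L47177 : W_6 (nat_lit 7) (nat_lit 0x24001000138009c000000000000000000000000000000) (nat_lit 0x0) (nat_lit 0x1c001a000b000000063000000000000000000000000000000) := T_6 (nat_lit 120) (nat_lit 121) (nat_lit 3) (nat_lit 1) (nat_lit 7) L47176 (by decide +kernel)
theorem L47178 : W_6 (nat_lit 2) (nat_lit 0x2c001200138009e000100000000000000000000000000) (nat_lit 0x0) (nat_lit 0x400020001000000000000000000000000000000000000000) := D_6 (nat_lit 173) (nat_lit 190) (nat_lit 156) (nat_lit 5) (nat_lit 4) (nat_lit 7) (nat_lit 4) (nat_lit 3) (nat_lit 10) (by decide +kernel)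
theorem L47179 : W_6 (nat_lit 3) (nat_lit 0x2c001200138009e000000000000000000000000000000) (nat_lit 0x0) (nat_lit 0x400020001000000000000180000000000000000000000000) := T_6 (nat_lit 104) (nat_lit 103) (nat_lit 0) (nat_lit 5) (nat_lit 7) L47178 (by decide +kernel)
theorem L47180 : W_6 (nat_lit 4) (nat_lit 0x24001200138009e000000000000000000000000000000) (nat_lit 0x0) (nat_lit 0x14000a0001000000000000180000000000000000000000000) := T_6 (nat_lit 175) (nat_lit 192) (nat_lit 7) (nat_lit 4) (nat_lit 7) L47179 (by decide +kernel)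
theorem L47181 : W_6 (nat_lit 5) (nat_lit 0x24001200138009c000000000000000000000000000000) (nat_lit 0x0) (nat_lit 0x14000a0001000000003000180000000000000000000000000) := T_6 (nat_lit 121) (nat_lit 120) (nat_lit 3) (nat_lit 1) (nat_lit 7) L47180 (by decide +kernel)
theorem L47182 : W_6 (nat_lit 6) (nat_lit 0x24001000138009c000000000000000000000000000000) (nat_lit 0x0) (nat_lit 0x1c000a0003000000003000180000000000000000000000000) := T_6 (nat_lit 157) (nat_lit 191) (nat_lit 6) (nat_lit 4) (nat_lit 11) L47181 (by decide +kernel)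
theorem L47183 : W_6 (nat_lit 2) (nat_lit 0x2600120013800de000000000000000000000000000000) (nat_lit 0x0) (nat_lit 0x1000000000000180000000000000000000000000) := D_6 (nat_lit 104) (nat_lit 156) (nat_lit 103) (nat_lit 4) (nat_lit 3) (nat_lit 10) (nat_lit 0) (nat_lit 5) (nat_lit 7) (by decide +kernel)
theorem L47184 : W_6 (nat_lit 3) (nat_lit 0x2600120013800dc000000000000000000000000000000) (nat_lit 0x0) (nat_lit 0x1000000003000180000000000000000000000000) := T_6 (nat_lit 121) (nat_lit 120) (nat_lit 3) (nat_lit 1) (nat_lit 7) L47183 (by decide +kernel)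
theorem L47185 : W_6 (nat_lit 4) (nat_lit 0x2400120013800dc000000000000000000000000000000) (nat_lit 0x0) (nat_lit 0x400020001000000003000180000000000000000000000000) := T_6 (nat_lit 173) (nat_lit 190) (nat_lit 5) (nat_lit 4) (nat_lit 7) L47184 (by decide +kernel)
theorem L47186 : W_6 (nat_lit 5) (nat_lit 0x2400100013800dc000000000000000000000000000000) (nat_lit 0x0) (nat_lit 0xc00020003000000003000180000000000000000000000000) := T_6 (nat_lit 157) (nat_lit 191) (nat_lit 6) (nat_lit 4) (nat_lit 11) L47185 (by decide +kernel)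
theorem L47187 : W_6 (nat_lit 6) (nat_lit 0x24001000138009c000000000000000000000000000000) (nat_lit 0x0) (nat_lit 0xc00020003000000063000180000000000000000000000000) := T_6 (nat_lit 126) (nat_lit 125) (nat_lit 1) (nat_lit 7) (nat_lit 7) L47186 (by decide +kernel)
theorem L47188 : W_6 (nat_lit 2) (nat_lit 0x2e00120013800de000100000000400000000000000000) (nat_lit 0x0) (nat_lit 0x100028000000000000000000000000000000000000000) := D_6 (nat_lit 176) (nat_lit 161) (nat_lit 159) (nat_lit 2) (nat_lit 4) (nat_lit 10) (nat_lit 2) (nat_lit 3) (nat_lit 10) (by decide +kernel)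
theorem L47189 : W_6 (nat_lit 3) (nat_lit 0x2600120013800de000100000000400000000000000000) (nat_lit 0x0) (nat_lit 0x1000180028000000000000000000000000000000000000000) := T_6 (nat_lit 175) (nat_lit 192) (nat_lit 7) (nat_lit 4) (nat_lit 7) L47188 (by decide +kernel)
theorem L47190 : W_6 (nat_lit 4) (nat_lit 0x2600120013800de000100000000000000000000000000) (nat_lit 0x0) (nat_lit 0x1000180028000000000000000008000400000000000000000) := T_6 (nat_lit 70) (nat_lit 87) (nat_lit 7) (nat_lit 2) (nat_lit 4) L47189 (by decide +kernel)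
theorem L47191 : W_6 (nat_lit 5) (nat_lit 0x2600100013800de000100000000000000000000000000) (nat_lit 0x0) (nat_lit 0x140018002a000000000000000008000400000000000000000) := T_6 (nat_lit 157) (nat_lit 190) (nat_lit 5) (nat_lit 4) (nat_lit 7) L47190 (by decide +kernel)
theorem L47192 : W_6 (nat_lit 6) (nat_lit 0x2400100013800de000100000000000000000000000000) (nat_lit 0x0) (nat_lit 0x14001a002b000000000000000008000400000000000000000) := T_6 (nat_lit 173) (nat_lit 156) (nat_lit 4) (nat_lit 3) (nat_lit 10) L47191 (by decide +kernel)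
theorem L47193 : W_6 (nat_lit 7) (nat_lit 0x2400100013800de000000000000000000000000000000) (nat_lit 0x0) (nat_lit 0x14001a002b000000000000180008000400000000000000000) := T_6 (nat_lit 104) (nat_lit 103) (nat_lit 0) (nat_lit 5) (nat_lit 7) L47192 (by decide +kernel)
theorem L47194 : W_6 (nat_lit 8) (nat_lit 0x24001000138009e000000000000000000000000000000) (nat_lit 0x0) (nat_lit 0x14001a002b000000060000180008000400000000000000000) := T_6 (nat_lit 126) (nat_lit 125) (nat_lit 1) (nat_lit 7) (nat_lit 7) L47193 (by decide +kernel)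
theorem L47195 : W_6 (nat_lit 9) (nat_lit 0x24001000138009c000000000000000000000000000000) (nat_lit 0x0) (nat_lit 0x14001a002b000000063000180008000400000000000000000) := T_6 (nat_lit 121) (nat_lit 120) (nat_lit 3) (nat_lit 1) (nat_lit 7) L47194 (by decide +kernel)
theorem L47196 : W_6 (nat_lit 10) (nat_lit 0x20001000138009c000000000000000000000000000000) (nat_lit 0x0) (nat_lit 0x3e001e002b00080006300318018800c400000000000000000) := Q_6 (nat_lit 174) (C_6 L47156 (C_6 L47162 (C_6 L47167 (C_6 L47171 (C_6 L47177 (C_6 L47182 (C_6 L47187 (C_6 L47195 N_6)))))))) (by decide +kernel)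
theorem L47197 : W_6 (nat_lit 5) (nat_lit 0x2400100013800dd000000000000000000000000000000) (nat_lit 0x0) (nat_lit 0x14001a000b000000000000200000000000000000000000000) := T_6 (nat_lit 157) (nat_lit 105) (nat_lit 4) (nat_lit 4) (nat_lit 10) L47174 (by decide +kernel)
theorem L47198 : W_6 (nat_lit 6) (nat_lit 0x2400100013800dc000000000000000000000000000000) (nat_lit 0x0) (nat_lit 0x14001a000b000000003000200000000000000000000000000) := T_6 (nat_lit 120) (nat_lit 121) (nat_lit 3) (nat_lit 1) (nat_lit 7) L47197 (by decide +kernel)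
theorem L47199 : W_6 (nat_lit 7) (nat_lit 0x24001000138009c000000000000000000000000000000) (nat_lit 0x0) (nat_lit 0x14001a000b000000063000200000000000000000000000000) := T_6 (nat_lit 126) (nat_lit 125) (nat_lit 1) (nat_lit 7) (nat_lit 7) L47198 (by decide +kernel)
theorem L47200 : W_6 (nat_lit 8) (nat_lit 0x20001000138009c000000000000000000000000000000) (nat_lit 0x0) (nat_lit 0x3e001e002b00080006300320018000c000000000000000000) := Q_6 (nat_lit 174) (C_6 L47177 (C_6 L47162 (C_6 L47167 (C_6 L47171 (C_6 L46447 (C_6 L47199 N_6)))))) (by decide +kernel)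
theorem L47201 : W_6 (nat_lit 11) (nat_lit 0x200010001380098000000000000000000000000000000) (nat_lit 0x0) (nat_lit 0x3e001e002b00080006700338019800cc00000000000000000) := Q_6 (nat_lit 122) (C_6 L45417 (C_6 L43499 (C_6 L47196 (C_6 L47200 N_6)))) (by decide +kernel)
theorem L47202 : W_6 (nat_lit 5) (nat_lit 0x20001000138009c000000000000000000000000000000) (nat_lit 0x0) (nat_lit 0x200010001c00060000000200010000000000000000000000) := T_6 (nat_lit 138) (nat_lit 137) (nat_lit 2) (nat_lit 1) (nat_lit 8) L44735 (by decide +kernel)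
theorem L47203 : W_6 (nat_lit 6) (nat_lit 0x200010001380098000000000000000000000000000000) (nat_lit 0x0) (nat_lit 0x200030001c00060007000380018000400000000000000000) := Q_6 (nat_lit 122) (C_6 L43499 (C_6 L44971 (C_6 L47202 (C_6 L43706 N_6)))) (by decide +kernel)
theorem L47204 : W_6 (nat_lit 12) (nat_lit 0x200010001300098000000000000000000000000000000) (nat_lit 0x0) (nat_lit 0x3e001f002bc008e006700338019800cc00000000000000000) := Q_6 (nat_lit 139) (C_6 L47201 (C_6 L45312 (C_6 L47203 N_6))) (by decide +kernel)
theorem L47205 : W_6 (nat_lit 5) (nat_lit 0x2400100013800d8000000000000000000000000000000) (nat_lit 0x0) (nat_lit 0x1c001a002a000000000000000000000000000000000000000) := T_6 (nat_lit 157) (nat_lit 191) (nat_lit 6) (nat_lit 4) (nat_lit 11) L46421 (by decide +kernel)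
theorem L47206 : W_6 (nat_lit 6) (nat_lit 0x240010001380098000000000000000000000000000000) (nat_lit 0x0) (nat_lit 0x1c001a002a000000060000000000000000000000000000000) := T_6 (nat_lit 126) (nat_lit 125) (nat_lit 1) (nat_lit 7) (nat_lit 7) L47205 (by decide +kernel)
theorem L47207 : W_6 (nat_lit 2) (nat_lit 0x2c00120013800d8000000000000000000000000000000) (nat_lit 0x0) (nat_lit 0x100021000000000000000000000000000000000000000) := D_6 (nat_lit 176) (nat_lit 161) (nat_lit 156) (nat_lit 2) (nat_lit 4) (nat_lit 10) (nat_lit 0) (nat_lit 7) (nat_lit 10) (by decide +kernel)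
theorem L47208 : W_6 (nat_lit 3) (nat_lit 0x2400120013800d8000000000000000000000000000000) (nat_lit 0x0) (nat_lit 0x1000180021000000000000000000000000000000000000000) := T_6 (nat_lit 175) (nat_lit 192) (nat_lit 7) (nat_lit 4) (nat_lit 7) L47207 (by decide +kernel)
theorem L47209 : W_6 (nat_lit 4) (nat_lit 0x240012001380098000000000000000000000000000000) (nat_lit 0x0) (nat_lit 0x1000180021000000060000000000000000000000000000000) := T_6 (nat_lit 126) (nat_lit 125) (nat_lit 1) (nat_lit 7) (nat_lit 7) L47208 (by decide +kernel)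
theorem L47210 : W_6 (nat_lit 5) (nat_lit 0x240010001380098000000000000000000000000000000) (nat_lit 0x0) (nat_lit 0x1800180023000000060000000000000000000000000000000) := T_6 (nat_lit 157) (nat_lit 191) (nat_lit 6) (nat_lit 4) (nat_lit 11) L47209 (by decide +kernel)
theorem L47211 : W_6 (nat_lit 2) (nat_lit 0x3c00110013800d8000000000000000000000000000000) (nat_lit 0x0) (nat_lit 0x400020008000000000000000000000000000000000000000) := D_6 (nat_lit 173) (nat_lit 159) (nat_lit 190) (nat_lit 2) (nat_lit 3) (nat_lit 10) (nat_lit 6) (nat_lit 3) (nat_lit 11) (by decide +kernel)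
theorem L47212 : W_6 (nat_lit 3) (nat_lit 0x3400110013800d8000000000000000000000000000000) (nat_lit 0x0) (nat_lit 0x4000a0028000000000000000000000000000000000000000) := T_6 (nat_lit 175) (nat_lit 161) (nat_lit 2) (nat_lit 4) (nat_lit 10) L47211 (by decide +kernel)
theorem L47213 : W_6 (nat_lit 4) (nat_lit 0x340011001380098000000000000000000000000000000) (nat_lit 0x0) (nat_lit 0x4000a0028000000060000000000000000000000000000000) := T_6 (nat_lit 126) (nat_lit 125) (nat_lit 1) (nat_lit 7) (nat_lit 7) L47212 (by decide +kernel)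
theorem L47214 : W_6 (nat_lit 2) (nat_lit 0x260011001380098000000000000000000000000000000) (nat_lit 0x0) (nat_lit 0x4000400020000000000000000000000) := D_6 (nat_lit 106) (nat_lit 89) (nat_lit 122) (nat_lit 5) (nat_lit 4) (nat_lit 5) (nat_lit 6) (nat_lit 3) (nat_lit 10) (by decide +kernel)
theorem L47215 : W_6 (nat_lit 3) (nat_lit 0x240011001380098000000000000000000000000000000) (nat_lit 0x0) (nat_lit 0x400020000000000004000400020000000000000000000000) := T_6 (nat_lit 173) (nat_lit 190) (nat_lit 6) (nat_lit 3) (nat_lit 11) L47214 (by decide +kernel)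
theorem L47216 : W_6 (nat_lit 2) (nat_lit 0x2600110013800dc000000000000000000000000000000) (nat_lit 0x0) (nat_lit 0x3000100000000000000000000000000) := D_6 (nat_lit 121) (nat_lit 104) (nat_lit 120) (nat_lit 4) (nat_lit 3) (nat_lit 10) (nat_lit 3) (nat_lit 1) (nat_lit 7) (by decide +kernel)
theorem L47217 : W_6 (nat_lit 3) (nat_lit 0x2600110013800d8000000000000000000000000000000) (nat_lit 0x0) (nat_lit 0x800000000000000007000100000000000000000000000000) := T_6 (nat_lit 122) (nat_lit 191) (nat_lit 7) (nat_lit 3) (nat_lit 7) L47216 (by decide +kernel)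
theorem L47218 : W_6 (nat_lit 2) (nat_lit 0x360010001380098000000000000000000000000000000) (nat_lit 0x0) (nat_lit 0x80028000000000000000000000000000000000000000) := D_6 (nat_lit 175) (nat_lit 159) (nat_lit 161) (nat_lit 2) (nat_lit 3) (nat_lit 10) (nat_lit 2) (nat_lit 4) (nat_lit 10) (by decide +kernel)
theorem L47219 : W_6 (nat_lit 7) (nat_lit 0x3600100013800d8000000000000000000000000000000) (nat_lit 0x0) (nat_lit 0x3380098008e00800000000000000000000000000000000000) := T_6 (nat_lit 175) (nat_lit 159) (nat_lit 2) (nat_lit 3) (nat_lit 10) L46483 (by decide +kernel)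
theorem L47220 : W_6 (nat_lit 8) (nat_lit 0x360010001380098000000000000000000000000000000) (nat_lit 0x0) (nat_lit 0x3380098008e00800060000000000000000000000000000000) := T_6 (nat_lit 126) (nat_lit 125) (nat_lit 1) (nat_lit 7) (nat_lit 7) L47219 (by decide +kernel)
theorem L47221 : W_6 (nat_lit 2) (nat_lit 0x360010001b800d8002000000000000000000000000000) (nat_lit 0x0) (nat_lit 0x20000000000000000100008000000000000000000) := D_6 (nat_lit 92) (nat_lit 161) (nat_lit 75) (nat_lit 7) (nat_lit 7) (nat_lit 5) (nat_lit 7) (nat_lit 7) (nat_lit 4) (by decide +kernel)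
theorem L47222 : W_6 (nat_lit 3) (nat_lit 0x360010001b800d8000000000000000000000000000000) (nat_lit 0x0) (nat_lit 0x28000000000002000100008000000000000000000) := T_6 (nat_lit 109) (nat_lit 159) (nat_lit 5) (nat_lit 7) (nat_lit 6) L47221 (by decide +kernel)
theorem L47223 : W_6 (nat_lit 4) (nat_lit 0x3600100013800d8000000000000000000000000000000) (nat_lit 0x0) (nat_lit 0x2000000028000800000002000100008000000000000000000) := T_6 (nat_lit 143) (nat_lit 193) (nat_lit 5) (nat_lit 7) (nat_lit 7) L47222 (by decide +kernel)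
theorem L47224 : W_6 (nat_lit 5) (nat_lit 0x360010001380098000000000000000000000000000000) (nat_lit 0x0) (nat_lit 0x2000000028000800060002000100008000000000000000000) := T_6 (nat_lit 126) (nat_lit 125) (nat_lit 1) (nat_lit 7) (nat_lit 7) L47223 (by decide +kernel)
theorem L47225 : W_6 (nat_lit 7) (nat_lit 0x3600100013800d8000000000000000000000000000000) (nat_lit 0x0) (nat_lit 0x3380098020e00800000000000000000000000000000000000) := T_6 (nat_lit 175) (nat_lit 161) (nat_lit 2) (nat_lit 4) (nat_lit 10) L46483 (by decide +kernel)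
theorem L47226 : W_6 (nat_lit 8) (nat_lit 0x360010001380098000000000000000000000000000000) (nat_lit 0x0) (nat_lit 0x3380098020e00800060000000000000000000000000000000) := T_6 (nat_lit 126) (nat_lit 125) (nat_lit 1) (nat_lit 7) (nat_lit 7) L47225 (by decide +kernel)
theorem L47227 : W_6 (nat_lit 9) (nat_lit 0x260010001380098000000000000000000000000000000) (nat_lit 0x0) (nat_lit 0x3380198028e00800060002000100008000000000000000000) := Q_6 (nat_lit 176) (C_6 L47218 (C_6 L47220 (C_6 L47224 (C_6 L47226 N_6)))) (by decide +kernel)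
theorem L47228 : W_6 (nat_lit 4) (nat_lit 0x2600100013800d8000000000000000000000000000000) (nat_lit 0x0) (nat_lit 0xc00000001000000007000100000000000000000000000000) := T_6 (nat_lit 156) (nat_lit 190) (nat_lit 6) (nat_lit 3) (nat_lit 11) L47217 (by decide +kernel)
theorem L47229 : W_6 (nat_lit 5) (nat_lit 0x260010001380098000000000000000000000000000000) (nat_lit 0x0) (nat_lit 0xc00000001000000067000100000000000000000000000000) := T_6 (nat_lit 126) (nat_lit 125) (nat_lit 1) (nat_lit 7) (nat_lit 7) L47228 (by decide +kernel)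
theorem L47230 : W_6 (nat_lit 3) (nat_lit 0x260010001380098000000000000000000000000000000) (nat_lit 0x0) (nat_lit 0x400000001000000004000400020000000000000000000000) := T_6 (nat_lit 156) (nat_lit 190) (nat_lit 6) (nat_lit 3) (nat_lit 11) L47214 (by decide +kernel)
theorem L47231 : W_6 (nat_lit 10) (nat_lit 0x240010001380098000000000000000000000000000000) (nat_lit 0x0) (nat_lit 0x3f801b8029e00800067002500120008000000000000000000) := Q_6 (nat_lit 173) (C_6 L47227 (C_6 L47229 (C_6 L47230 N_6))) (by decide +kernel)
theorem L47232 : W_6 (nat_lit 2) (nat_lit 0x2c0012001380098000000000000000000000000000000) (nat_lit 0x0) (nat_lit 0x100021000000000000000000000000000000000000000) := D_6 (nat_lit 176) (nat_lit 161) (nat_lit 156) (nat_lit 2) (nat_lit 4) (nat_lit 10) (nat_lit 0) (nat_lit 7) (nat_lit 10) (by decide +kernel)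
theorem L47233 : W_6 (nat_lit 3) (nat_lit 0x240012001380098000000000000000000000000000000) (nat_lit 0x0) (nat_lit 0x1000180021000000000000000000000000000000000000000) := T_6 (nat_lit 175) (nat_lit 192) (nat_lit 7) (nat_lit 4) (nat_lit 7) L47232 (by decide +kernel)
theorem L47234 : W_6 (nat_lit 4) (nat_lit 0x240010001380098000000000000000000000000000000) (nat_lit 0x0) (nat_lit 0x1800180023000000000000000000000000000000000000000) := T_6 (nat_lit 157) (nat_lit 191) (nat_lit 6) (nat_lit 4) (nat_lit 11) L47233 (by decide +kernel)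
theorem L47235 : W_6 (nat_lit 3) (nat_lit 0x2c00120013800d8000000000000000000000000000000) (nat_lit 0x0) (nat_lit 0x400120009000000000000000000000000000000000000000) := T_6 (nat_lit 176) (nat_lit 156) (nat_lit 0) (nat_lit 7) (nat_lit 10) L46419 (by decide +kernel)
theorem L47236 : W_6 (nat_lit 4) (nat_lit 0x2400120013800d8000000000000000000000000000000) (nat_lit 0x0) (nat_lit 0x14001a0009000000000000000000000000000000000000000) := T_6 (nat_lit 175) (nat_lit 192) (nat_lit 7) (nat_lit 4) (nat_lit 7) L47235 (by decide +kernel)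
theorem L47237 : W_6 (nat_lit 5) (nat_lit 0x240012001380098000000000000000000000000000000) (nat_lit 0x0) (nat_lit 0x14001a0009000000060000000000000000000000000000000) := T_6 (nat_lit 126) (nat_lit 125) (nat_lit 1) (nat_lit 7) (nat_lit 7) L47236 (by decide +kernel)
theorem L47238 : W_6 (nat_lit 6) (nat_lit 0x240010001380098000000000000000000000000000000) (nat_lit 0x0) (nat_lit 0x1c001a000b000000060000000000000000000000000000000) := T_6 (nat_lit 157) (nat_lit 191) (nat_lit 6) (nat_lit 4) (nat_lit 11) L47237 (by decide +kernel)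
theorem L47239 : W_6 (nat_lit 2) (nat_lit 0x260010001380098000000000000000000000000000000) (nat_lit 0x0) (nat_lit 0xc00000002000000000000000000000000000000000000000) := D_6 (nat_lit 157) (nat_lit 191) (nat_lit 190) (nat_lit 6) (nat_lit 4) (nat_lit 11) (nat_lit 5) (nat_lit 4) (nat_lit 7) (by decide +kernel)
theorem L47240 : W_6 (nat_lit 2) (nat_lit 0x260011001380098000000000000000000000000000000) (nat_lit 0x0) (nat_lit 0x800000002000000000000400000000000000000000000000) := D_6 (nat_lit 157) (nat_lit 191) (nat_lit 106) (nat_lit 6) (nat_lit 4) (nat_lit 11) (nat_lit 5) (nat_lit 4) (nat_lit 6) (by decide +kernel)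
theorem L47241 : W_6 (nat_lit 2) (nat_lit 0x260011001380098000000000000000000000000000000) (nat_lit 0x0) (nat_lit 0x800000002000000004000000000000000000000000000000) := D_6 (nat_lit 191) (nat_lit 157) (nat_lit 122) (nat_lit 6) (nat_lit 4) (nat_lit 11) (nat_lit 7) (nat_lit 3) (nat_lit 7) (by decide +kernel)
theorem L47242 : W_6 (nat_lit 3) (nat_lit 0x260010001380098000000000000000000000000000000) (nat_lit 0x0) (nat_lit 0x800000003000000004000400020000000000000000000000) := Q_6 (nat_lit 156) (C_6 L47214 (C_6 L47240 (C_6 L47241 N_6))) (by decide +kernel)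
theorem L47243 : W_6 (nat_lit 4) (nat_lit 0x240010001380098000000000000000000000000000000) (nat_lit 0x0) (nat_lit 0xc00020003000000004000400020000000000000000000000) := Q_6 (nat_lit 173) (C_6 L47239 (C_6 L47230 (C_6 L47242 N_6))) (by decide +kernel)
theorem L47244 : W_6 (nat_lit 2) (nat_lit 0x340011001380098000000000000000000000000000000) (nat_lit 0x0) (nat_lit 0x80022000000000000000000000000000000000000000) := D_6 (nat_lit 175) (nat_lit 157) (nat_lit 161) (nat_lit 0) (nat_lit 7) (nat_lit 10) (nat_lit 2) (nat_lit 4) (nat_lit 10) (by decide +kernel)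
theorem L47245 : W_6 (nat_lit 2) (nat_lit 0x3c0011001b800d80020000a0000000000000000000000) (nat_lit 0x0) (nat_lit 0x10000c000000000000000000) := D_6 (nat_lit 92) (nat_lit 75) (nat_lit 74) (nat_lit 7) (nat_lit 7) (nat_lit 4) (nat_lit 4) (nat_lit 7) (nat_lit 8) (by decide +kernel)
theorem L47246 : W_6 (nat_lit 3) (nat_lit 0x3c0011001b800d8002000020000000000000000000000) (nat_lit 0x0) (nat_lit 0x100018000c000000000000000000) := T_6 (nat_lit 91) (nat_lit 108) (nat_lit 4) (nat_lit 7) (nat_lit 9) L47245 (by decide +kernel)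
theorem L47247 : W_6 (nat_lit 4) (nat_lit 0x3c0011001b800d8000000020000000000000000000000) (nat_lit 0x0) (nat_lit 0x800000000000300018000c000000000000000000) := T_6 (nat_lit 109) (nat_lit 159) (nat_lit 5) (nat_lit 7) (nat_lit 6) L47246 (by decide +kernel)
theorem L47248 : W_6 (nat_lit 5) (nat_lit 0x3c0011001b800d8000000000000000000000000000000) (nat_lit 0x0) (nat_lit 0x80000000000034001a000c000000000000000000) := T_6 (nat_lit 89) (nat_lit 106) (nat_lit 5) (nat_lit 4) (nat_lit 5) L47247 (by decide +kernel)
theorem L47249 : W_6 (nat_lit 6) (nat_lit 0x3c00110013800d8000000000000000000000000000000) (nat_lit 0x0) (nat_lit 0x20000000080008000000034001a000c000000000000000000) := T_6 (nat_lit 143) (nat_lit 193) (nat_lit 5) (nat_lit 7) (nat_lit 7) L47248 (by decide +kernel)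
theorem L47250 : W_6 (nat_lit 7) (nat_lit 0x3400110013800d8000000000000000000000000000000) (nat_lit 0x0) (nat_lit 0x20000800280008000000034001a000c000000000000000000) := T_6 (nat_lit 175) (nat_lit 161) (nat_lit 2) (nat_lit 4) (nat_lit 10) L47249 (by decide +kernel)
theorem L47251 : W_6 (nat_lit 8) (nat_lit 0x340011001380098000000000000000000000000000000) (nat_lit 0x0) (nat_lit 0x20000800280008000600034001a000c000000000000000000) := T_6 (nat_lit 126) (nat_lit 125) (nat_lit 1) (nat_lit 7) (nat_lit 7) L47250 (by decide +kernel)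
theorem L47252 : W_6 (nat_lit 7) (nat_lit 0x3400110013800d8000000000000000000000000000000) (nat_lit 0x0) (nat_lit 0x200008000a0008000000034001a000c000000000000000000) := T_6 (nat_lit 175) (nat_lit 157) (nat_lit 0) (nat_lit 7) (nat_lit 10) L47249 (by decide +kernel)
theorem L47253 : W_6 (nat_lit 8) (nat_lit 0x340011001380098000000000000000000000000000000) (nat_lit 0x0) (nat_lit 0x200008000a0008000600034001a000c000000000000000000) := T_6 (nat_lit 126) (nat_lit 125) (nat_lit 1) (nat_lit 7) (nat_lit 7) L47252 (by decide +kernel)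
theorem L47254 : W_6 (nat_lit 2) (nat_lit 0x340011001b800d8002000020000000000000000000000) (nat_lit 0x0) (nat_lit 0x20000000000000000100008000000000000000000) := D_6 (nat_lit 92) (nat_lit 161) (nat_lit 75) (nat_lit 7) (nat_lit 7) (nat_lit 5) (nat_lit 7) (nat_lit 7) (nat_lit 4) (by decide +kernel)
theorem L47255 : W_6 (nat_lit 3) (nat_lit 0x340011001b800d8000000020000000000000000000000) (nat_lit 0x0) (nat_lit 0x28000000000002000100008000000000000000000) := T_6 (nat_lit 109) (nat_lit 159) (nat_lit 5) (nat_lit 7) (nat_lit 6) L47254 (by decide +kernel)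
theorem L47256 : W_6 (nat_lit 4) (nat_lit 0x3400110013800d8000000020000000000000000000000) (nat_lit 0x0) (nat_lit 0x2000000028000800000002000100008000000000000000000) := T_6 (nat_lit 143) (nat_lit 193) (nat_lit 5) (nat_lit 7) (nat_lit 7) L47255 (by decide +kernel)
theorem L47257 : W_6 (nat_lit 5) (nat_lit 0x3400110013800d8000000000000000000000000000000) (nat_lit 0x0) (nat_lit 0x2000000028000800000002400120008000000000000000000) := T_6 (nat_lit 89) (nat_lit 106) (nat_lit 5) (nat_lit 4) (nat_lit 5) L47256 (by decide +kernel)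
theorem L47258 : W_6 (nat_lit 6) (nat_lit 0x340011001380098000000000000000000000000000000) (nat_lit 0x0) (nat_lit 0x2000000028000800060002400120008000000000000000000) := T_6 (nat_lit 126) (nat_lit 125) (nat_lit 1) (nat_lit 7) (nat_lit 7) L47257 (by decide +kernel)
theorem L47259 : W_6 (nat_lit 9) (nat_lit 0x240011001380098000000000000000000000000000000) (nat_lit 0x0) (nat_lit 0x200018002a0008000600034001a000c000000000000000000) := Q_6 (nat_lit 176) (C_6 L47244 (C_6 L47251 (C_6 L47253 (C_6 L47258 N_6)))) (by decide +kernel)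
theorem L47260 : W_6 (nat_lit 3) (nat_lit 0x3400110013800d8000000000000000000000000000000) (nat_lit 0x0) (nat_lit 0x4000a000a000000000000000000000000000000000000000) := T_6 (nat_lit 175) (nat_lit 157) (nat_lit 0) (nat_lit 7) (nat_lit 10) L47211 (by decide +kernel)
theorem L47261 : W_6 (nat_lit 4) (nat_lit 0x340011001380098000000000000000000000000000000) (nat_lit 0x0) (nat_lit 0x4000a000a000000060000000000000000000000000000000) := T_6 (nat_lit 126) (nat_lit 125) (nat_lit 1) (nat_lit 7) (nat_lit 7) L47260 (by decide +kernel)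
theorem L47262 : W_6 (nat_lit 2) (nat_lit 0x400340011001b800d8002000000000000000000000000000) (nat_lit 0x0) (nat_lit 0x20000000000000000100008000000000000000000) := D_6 (nat_lit 92) (nat_lit 161) (nat_lit 75) (nat_lit 7) (nat_lit 7) (nat_lit 5) (nat_lit 7) (nat_lit 7) (nat_lit 4) (by decide +kernel)
theorem L47263 : W_6 (nat_lit 3) (nat_lit 0x400340011001b800d8000000000000000000000000000000) (nat_lit 0x0) (nat_lit 0x28000000000002000100008000000000000000000) := T_6 (nat_lit 109) (nat_lit 159) (nat_lit 5) (nat_lit 7) (nat_lit 6) L47262 (by decide +kernel)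
theorem L47264 : W_6 (nat_lit 4) (nat_lit 0x4003400110013800d8000000000000000000000000000000) (nat_lit 0x0) (nat_lit 0x2000000028000800000002000100008000000000000000000) := T_6 (nat_lit 143) (nat_lit 193) (nat_lit 5) (nat_lit 7) (nat_lit 7) L47263 (by decide +kernel)
theorem L47265 : W_6 (nat_lit 5) (nat_lit 0x3400110013800d8000000000000000000000000000000) (nat_lit 0x0) (nat_lit 0x2400020028000800000002000100008000000000000000000) := T_6 (nat_lit 190) (nat_lit 173) (nat_lit 6) (nat_lit 3) (nat_lit 11) L47264 (by decide +kernel)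
theorem L47266 : W_6 (nat_lit 6) (nat_lit 0x340011001380098000000000000000000000000000000) (nat_lit 0x0) (nat_lit 0x2400020028000800060002000100008000000000000000000) := T_6 (nat_lit 126) (nat_lit 125) (nat_lit 1) (nat_lit 7) (nat_lit 7) L47265 (by decide +kernel)
theorem L47267 : W_6 (nat_lit 7) (nat_lit 0x240011001380098000000000000000000000000000000) (nat_lit 0x0) (nat_lit 0x24001a002a000800060002000100008000000000000000000) := Q_6 (nat_lit 176) (C_6 L47244 (C_6 L47213 (C_6 L47261 (C_6 L47266 N_6)))) (by decide +kernel)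
theorem L47268 : W_6 (nat_lit 10) (nat_lit 0x240010001380098000000000000000000000000000000) (nat_lit 0x0) (nat_lit 0x24001a002b0008000640034001a000c000000000000000000) := Q_6 (nat_lit 156) (C_6 L47259 (C_6 L47215 (C_6 L47267 N_6))) (by decide +kernel)
theorem L47269 : W_6 (nat_lit 11) (nat_lit 0x200010001380098000000000000000000000000000000) (nat_lit 0x0) (nat_lit 0x3f801f802be008000670035001a000c000000000000000000) := Q_6 (nat_lit 174) (C_6 L47206 (C_6 L47210 (C_6 L47231 (C_6 L47234 (C_6 L47238 (C_6 L47243 (C_6 L47268 N_6))))))) (by decide +kernel)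
theorem L47270 : W_6 (nat_lit 2) (nat_lit 0x2000118013c009a000100020000000000000000000000) (nat_lit 0x0) (nat_lit 0x4000080004000000000000000000000) := D_6 (nat_lit 103) (nat_lit 86) (nat_lit 122) (nat_lit 4) (nat_lit 2) (nat_lit 9) (nat_lit 0) (nat_lit 5) (nat_lit 7) (by decide +kernel)
theorem L47271 : W_6 (nat_lit 3) (nat_lit 0x2000118013c009a000000020000000000000000000000) (nat_lit 0x0) (nat_lit 0x400018000c000000000000000000000) := T_6 (nat_lit 104) (nat_lit 87) (nat_lit 7) (nat_lit 2) (nat_lit 5) L47270 (by decide +kernel)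
theorem L47272 : W_6 (nat_lit 4) (nat_lit 0x2000118013c0098000000020000000000000000000000) (nat_lit 0x0) (nat_lit 0x700018000c000000000000000000000) := T_6 (nat_lit 121) (nat_lit 120) (nat_lit 0) (nat_lit 5) (nat_lit 8) L47271 (by decide +kernel)
theorem L47273 : W_6 (nat_lit 5) (nat_lit 0x2000110013c0098000000020000000000000000000000) (nat_lit 0x0) (nat_lit 0xc0000000700018000c000000000000000000000) := T_6 (nat_lit 155) (nat_lit 154) (nat_lit 1) (nat_lit 5) (nat_lit 8) L47272 (by decide +kernel)
theorem L47274 : W_6 (nat_lit 6) (nat_lit 0x2000110013c0098000000000000000000000000000000) (nat_lit 0x0) (nat_lit 0xc0000000700058002c000000000000000000000) := T_6 (nat_lit 89) (nat_lit 106) (nat_lit 5) (nat_lit 4) (nat_lit 5) L47273 (by decide +kernel)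
theorem L47275 : W_6 (nat_lit 7) (nat_lit 0x200011001380098000000000000000000000000000000) (nat_lit 0x0) (nat_lit 0xc0006000700058002c000000000000000000000) := T_6 (nat_lit 138) (nat_lit 137) (nat_lit 2) (nat_lit 1) (nat_lit 8) L47274 (by decide +kernel)
theorem L47276 : W_6 (nat_lit 2) (nat_lit 0x2200118013c0098000000020000000000000000000000) (nat_lit 0x0) (nat_lit 0x3000100000000000000000000000000) := D_6 (nat_lit 121) (nat_lit 120) (nat_lit 104) (nat_lit 0) (nat_lit 5) (nat_lit 8) (nat_lit 7) (nat_lit 2) (nat_lit 6) (by decide +kernel)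
theorem L47277 : W_6 (nat_lit 3) (nat_lit 0x2200110013c0098000000020000000000000000000000) (nat_lit 0x0) (nat_lit 0xc00000003000100000000000000000000000000) := T_6 (nat_lit 155) (nat_lit 154) (nat_lit 1) (nat_lit 5) (nat_lit 8) L47276 (by decide +kernel)
theorem L47278 : W_6 (nat_lit 4) (nat_lit 0x2000110013c0098000000020000000000000000000000) (nat_lit 0x0) (nat_lit 0x400020000c00000003000100000000000000000000000000) := T_6 (nat_lit 173) (nat_lit 190) (nat_lit 6) (nat_lit 3) (nat_lit 11) L47277 (by decide +kernel)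
theorem L47279 : W_6 (nat_lit 5) (nat_lit 0x200011001380098000000020000000000000000000000) (nat_lit 0x0) (nat_lit 0x400020000c00060003000100000000000000000000000000) := T_6 (nat_lit 138) (nat_lit 137) (nat_lit 2) (nat_lit 1) (nat_lit 8) L47278 (by decide +kernel)
theorem L47280 : W_6 (nat_lit 6) (nat_lit 0x200011001380098000000000000000000000000000000) (nat_lit 0x0) (nat_lit 0x400020000c00060003000500020000000000000000000000) := T_6 (nat_lit 89) (nat_lit 106) (nat_lit 5) (nat_lit 4) (nat_lit 5) L47279 (by decide +kernel)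
theorem L47281 : W_6 (nat_lit 2) (nat_lit 0x4002000118013c009a000100000000000000000000000000) (nat_lit 0x0) (nat_lit 0x4000080004000000000000000000000) := D_6 (nat_lit 103) (nat_lit 86) (nat_lit 122) (nat_lit 4) (nat_lit 2) (nat_lit 9) (nat_lit 0) (nat_lit 5) (nat_lit 7) (by decide +kernel)
theorem L47282 : W_6 (nat_lit 3) (nat_lit 0x4002000118013c009a000000000000000000000000000000) (nat_lit 0x0) (nat_lit 0x400018000c000000000000000000000) := T_6 (nat_lit 104) (nat_lit 87) (nat_lit 7) (nat_lit 2) (nat_lit 5) L47281 (by decide +kernel)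
theorem L47283 : W_6 (nat_lit 4) (nat_lit 0x4002000110013c009a000000000000000000000000000000) (nat_lit 0x0) (nat_lit 0xc0000000400018000c000000000000000000000) := T_6 (nat_lit 155) (nat_lit 154) (nat_lit 1) (nat_lit 5) (nat_lit 8) L47282 (by decide +kernel)
theorem L47284 : W_6 (nat_lit 5) (nat_lit 0x4002000110013c0098000000000000000000000000000000) (nat_lit 0x0) (nat_lit 0xc0000000700018000c000000000000000000000) := T_6 (nat_lit 121) (nat_lit 120) (nat_lit 0) (nat_lit 5) (nat_lit 8) L47283 (by decide +kernel)
theorem L47285 : W_6 (nat_lit 6) (nat_lit 0x400200011001380098000000000000000000000000000000) (nat_lit 0x0) (nat_lit 0xc0006000700018000c000000000000000000000) := T_6 (nat_lit 138) (nat_lit 137) (nat_lit 2) (nat_lit 1) (nat_lit 8) L47284 (by decide +kernel)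
theorem L47286 : W_6 (nat_lit 7) (nat_lit 0x200011001380098000000000000000000000000000000) (nat_lit 0x0) (nat_lit 0x400020000c0006000700018000c000000000000000000000) := T_6 (nat_lit 190) (nat_lit 173) (nat_lit 6) (nat_lit 3) (nat_lit 11) L47285 (by decide +kernel)
theorem L47287 : W_6 (nat_lit 8) (nat_lit 0x200010001380098000000000000000000000000000000) (nat_lit 0x0) (nat_lit 0x400020003c0006000700058002c000000000000000000000) := Q_6 (nat_lit 156) (C_6 L47275 (C_6 L45388 (C_6 L47280 (C_6 L47286 N_6)))) (by decide +kernel)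
theorem L47288 : W_6 (nat_lit 12) (nat_lit 0x200010001300098000000000000000000000000000000) (nat_lit 0x0) (nat_lit 0x3f801f802be008e00670035801ac00c000000000000000000) := Q_6 (nat_lit 139) (C_6 L47269 (C_6 L45312 (C_6 L47287 N_6))) (by decide +kernel)
theorem L47289 : W_6 (nat_lit 2) (nat_lit 0x3c00120013800d8000400070000000000000000000000) (nat_lit 0x0) (nat_lit 0x400020008000000000000000000000000000000000000000) := D_6 (nat_lit 173) (nat_lit 159) (nat_lit 190) (nat_lit 2) (nat_lit 3) (nat_lit 10) (nat_lit 5) (nat_lit 4) (nat_lit 7) (by decide +kernel)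
theorem L47290 : W_6 (nat_lit 3) (nat_lit 0x2c00120013800d8000400070000000000000000000000) (nat_lit 0x0) (nat_lit 0x400120028000000000000000000000000000000000000000) := T_6 (nat_lit 176) (nat_lit 161) (nat_lit 2) (nat_lit 4) (nat_lit 10) L47289 (by decide +kernel)
theorem L47291 : W_6 (nat_lit 4) (nat_lit 0x2400120013800d8000400070000000000000000000000) (nat_lit 0x0) (nat_lit 0x14001a0028000000000000000000000000000000000000000) := T_6 (nat_lit 175) (nat_lit 192) (nat_lit 7) (nat_lit 4) (nat_lit 7) L47290 (by decide +kernel)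
theorem L47292 : W_6 (nat_lit 5) (nat_lit 0x2000120013800d8000400070000000000000000000000) (nat_lit 0x0) (nat_lit 0x1c001e0028000000000000000000000000000000000000000) := T_6 (nat_lit 174) (nat_lit 191) (nat_lit 6) (nat_lit 4) (nat_lit 11) L47291 (by decide +kernel)
theorem L47293 : W_6 (nat_lit 6) (nat_lit 0x2000120013800d8000400030000000000000000000000) (nat_lit 0x0) (nat_lit 0x1c001e0028000000000000000040002000000000000000000) := T_6 (nat_lit 90) (nat_lit 73) (nat_lit 6) (nat_lit 4) (nat_lit 8) L47292 (by decide +kernel)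
theorem L47294 : W_6 (nat_lit 7) (nat_lit 0x2000100013800d8000400030000000000000000000000) (nat_lit 0x0) (nat_lit 0x1c001e002a000000000000200040002000000000000000000) := T_6 (nat_lit 157) (nat_lit 105) (nat_lit 4) (nat_lit 4) (nat_lit 9) L47293 (by decide +kernel)
theorem L47295 : W_6 (nat_lit 8) (nat_lit 0x2000100013800d8000400020000000000000000000000) (nat_lit 0x0) (nat_lit 0x1c001e002a000000000000200050002800000000000000000) := T_6 (nat_lit 88) (nat_lit 71) (nat_lit 4) (nat_lit 4) (nat_lit 8) L47294 (by decide +kernel)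
theorem L47296 : W_6 (nat_lit 9) (nat_lit 0x2000100013800d8000400000000000000000000000000) (nat_lit 0x0) (nat_lit 0x1c001e002a000000000000200070003800000000000000000) := T_6 (nat_lit 89) (nat_lit 72) (nat_lit 7) (nat_lit 4) (nat_lit 4) L47295 (by decide +kernel)
theorem L47297 : W_6 (nat_lit 10) (nat_lit 0x200010001380098000400000000000000000000000000) (nat_lit 0x0) (nat_lit 0x1c001e002a000000060000200070003800000000000000000) := T_6 (nat_lit 126) (nat_lit 125) (nat_lit 1) (nat_lit 7) (nat_lit 7) L47296 (by decide +kernel)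
theorem L47298 : W_6 (nat_lit 11) (nat_lit 0x200010001380098000000000000000000000000000000) (nat_lit 0x0) (nat_lit 0x3e001e002b0008000600036001f000f800000000000000000) := Q_6 (nat_lit 106) (C_6 L47297 (C_6 L45064 (C_6 L46859 N_6))) (by decide +kernel)
theorem L47299 : W_6 (nat_lit 2) (nat_lit 0x2200110013a0098000000000000000000000000000000) (nat_lit 0x0) (nat_lit 0x4000400020000000000000000000000) := D_6 (nat_lit 106) (nat_lit 89) (nat_lit 122) (nat_lit 5) (nat_lit 4) (nat_lit 5) (nat_lit 6) (nat_lit 3) (nat_lit 10) (by decide +kernel)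
theorem L47300 : W_6 (nat_lit 3) (nat_lit 0x2000110013a0098000000000000000000000000000000) (nat_lit 0x0) (nat_lit 0x400020000000000004000400020000000000000000000000) := T_6 (nat_lit 173) (nat_lit 190) (nat_lit 6) (nat_lit 3) (nat_lit 11) L47299 (by decide +kernel)
theorem L47301 : W_6 (nat_lit 4) (nat_lit 0x200011001380098000000000000000000000000000000) (nat_lit 0x0) (nat_lit 0x400020000000060004000400020000000000000000000000) := T_6 (nat_lit 137) (nat_lit 138) (nat_lit 2) (nat_lit 1) (nat_lit 8) L47300 (by decide +kernel)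
theorem L47302 : W_6 (nat_lit 3) (nat_lit 0x200011001380098000000000000000000000000000000) (nat_lit 0x0) (nat_lit 0x400020002000000000000400020000000000000000000000) := T_6 (nat_lit 106) (nat_lit 89) (nat_lit 5) (nat_lit 4) (nat_lit 5) L45356 (by decide +kernel)
theorem L47303 : W_6 (nat_lit 2) (nat_lit 0x2400134013a0098000000000000000000000000000000) (nat_lit 0x0) (nat_lit 0x1000180000000000000000000000000000000000000000000) := D_6 (nat_lit 175) (nat_lit 176) (nat_lit 192) (nat_lit 0) (nat_lit 7) (nat_lit 10) (nat_lit 7) (nat_lit 4) (nat_lit 7) (by decide +kernel)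
theorem L47304 : W_6 (nat_lit 3) (nat_lit 0x2000134013a0098000000000000000000000000000000) (nat_lit 0x0) (nat_lit 0x18001c0000000000000000000000000000000000000000000) := T_6 (nat_lit 174) (nat_lit 191) (nat_lit 6) (nat_lit 4) (nat_lit 11) L47303 (by decide +kernel)
theorem L47305 : W_6 (nat_lit 4) (nat_lit 0x2000130013a0098000000000000000000000000000000) (nat_lit 0x0) (nat_lit 0x18001c0000c00000000000000000000000000000000000000) := T_6 (nat_lit 154) (nat_lit 155) (nat_lit 2) (nat_lit 1) (nat_lit 9) L47304 (by decide +kernel)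
theorem L47306 : W_6 (nat_lit 5) (nat_lit 0x200013001380098000000000000000000000000000000) (nat_lit 0x0) (nat_lit 0x18001c0000c00060000000000000000000000000000000000) := T_6 (nat_lit 137) (nat_lit 138) (nat_lit 2) (nat_lit 1) (nat_lit 8) L47305 (by decide +kernel)
theorem L47307 : W_6 (nat_lit 2) (nat_lit 0x240013001380098000000000000000000000000000000) (nat_lit 0x0) (nat_lit 0x1000180000000000000000000000000000000000000000000) := D_6 (nat_lit 175) (nat_lit 176) (nat_lit 192) (nat_lit 0) (nat_lit 7) (nat_lit 10) (nat_lit 7) (nat_lit 4) (nat_lit 7) (by decide +kernel)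
theorem L47308 : W_6 (nat_lit 3) (nat_lit 0x200013001380098000000000000000000000000000000) (nat_lit 0x0) (nat_lit 0x18001c0000000000000000000000000000000000000000000) := T_6 (nat_lit 174) (nat_lit 191) (nat_lit 6) (nat_lit 4) (nat_lit 11) L47307 (by decide +kernel)
theorem L47309 : W_6 (nat_lit 2) (nat_lit 0x4002100138013c0098000000000000000000000000000000) (nat_lit 0x0) (nat_lit 0x8000200000000000000004000000000000000000000000000000) := D_6 (nat_lit 189) (nat_lit 122) (nat_lit 207) (nat_lit 6) (nat_lit 2) (nat_lit 11) (nat_lit 7) (nat_lit 2) (nat_lit 8) (by decide +kernel)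
theorem L47310 : W_6 (nat_lit 3) (nat_lit 0x4002100130013c0098000000000000000000000000000000) (nat_lit 0x0) (nat_lit 0x8000200000000c00000004000000000000000000000000000000) := T_6 (nat_lit 155) (nat_lit 154) (nat_lit 2) (nat_lit 1) (nat_lit 9) L47309 (by decide +kernel)
theorem L47311 : W_6 (nat_lit 4) (nat_lit 0x400210013001380098000000000000000000000000000000) (nat_lit 0x0) (nat_lit 0x8000200000000c00060004000000000000000000000000000000) := T_6 (nat_lit 138) (nat_lit 137) (nat_lit 2) (nat_lit 1) (nat_lit 8) L47310 (by decide +kernel)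
theorem L47312 : W_6 (nat_lit 5) (nat_lit 0x210013001380098000000000000000000000000000000) (nat_lit 0x0) (nat_lit 0x8000600020000c00060004000000000000000000000000000000) := T_6 (nat_lit 190) (nat_lit 173) (nat_lit 6) (nat_lit 3) (nat_lit 11) L47311 (by decide +kernel)
theorem L47313 : W_6 (nat_lit 2) (nat_lit 0x4000200238013401380098000000000000000000000000000000) (nat_lit 0x0) (nat_lit 0x100000000000020001000000000000000000000000000000) := D_6 (nat_lit 137) (nat_lit 120) (nat_lit 188) (nat_lit 7) (nat_lit 1) (nat_lit 7) (nat_lit 7) (nat_lit 1) (nat_lit 8) (by decide +kernel)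
theorem L47314 : W_6 (nat_lit 3) (nat_lit 0x200238013401380098000000000000000000000000000000) (nat_lit 0x0) (nat_lit 0x80004000100000000000020001000000000000000000000000000000) := T_6 (nat_lit 206) (nat_lit 223) (nat_lit 6) (nat_lit 2) (nat_lit 13) L47313 (by decide +kernel)
theorem L47315 : W_6 (nat_lit 4) (nat_lit 0x200230013401380098000000000000000000000000000000) (nat_lit 0x0) (nat_lit 0x8000400010000c000000020001000000000000000000000000000000) := T_6 (nat_lit 171) (nat_lit 170) (nat_lit 2) (nat_lit 0) (nat_lit 10) L47314 (by decide +kernel)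
theorem L47316 : W_6 (nat_lit 5) (nat_lit 0x230013401380098000000000000000000000000000000) (nat_lit 0x0) (nat_lit 0x8000400030000c000000020005000000000000000000000000000000) := T_6 (nat_lit 189) (nat_lit 122) (nat_lit 5) (nat_lit 3) (nat_lit 7) L47315 (by decide +kernel)
theorem L47317 : W_6 (nat_lit 6) (nat_lit 0x210013401380098000000000000000000000000000000) (nat_lit 0x0) (nat_lit 0x8000400070002c000000020005000000000000000000000000000000) := T_6 (nat_lit 173) (nat_lit 190) (nat_lit 6) (nat_lit 3) (nat_lit 11) L47316 (by decide +kernel)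
theorem L47318 : W_6 (nat_lit 7) (nat_lit 0x210013001380098000000000000000000000000000000) (nat_lit 0x0) (nat_lit 0x8000400070002c000c00020005000000000000000000000000000000) := T_6 (nat_lit 154) (nat_lit 155) (nat_lit 2) (nat_lit 1) (nat_lit 9) L47317 (by decide +kernel)
theorem L47319 : W_6 (nat_lit 2) (nat_lit 0x4002100138013c0098000000000000000000000000000000) (nat_lit 0x0) (nat_lit 0xc000200000000000000000000000000000000000000000000000) := D_6 (nat_lit 189) (nat_lit 206) (nat_lit 207) (nat_lit 6) (nat_lit 2) (nat_lit 12) (nat_lit 7) (nat_lit 2) (nat_lit 8) (by decide +kernel)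
theorem L47320 : W_6 (nat_lit 3) (nat_lit 0x4002100130013c0098000000000000000000000000000000) (nat_lit 0x0) (nat_lit 0xc000200000000c00000000000000000000000000000000000000) := T_6 (nat_lit 155) (nat_lit 154) (nat_lit 2) (nat_lit 1) (nat_lit 9) L47319 (by decide +kernel)
theorem L47321 : W_6 (nat_lit 4) (nat_lit 0x400210013001380098000000000000000000000000000000) (nat_lit 0x0) (nat_lit 0xc000200000000c00060000000000000000000000000000000000) := T_6 (nat_lit 138) (nat_lit 137) (nat_lit 2) (nat_lit 1) (nat_lit 8) L47320 (by decide +kernel)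
theorem L47322 : W_6 (nat_lit 5) (nat_lit 0x210013001380098000000000000000000000000000000) (nat_lit 0x0) (nat_lit 0xc000600020000c00060000000000000000000000000000000000) := T_6 (nat_lit 190) (nat_lit 173) (nat_lit 6) (nat_lit 3) (nat_lit 11) L47321 (by decide +kernel)
theorem L47323 : W_6 (nat_lit 2) (nat_lit 0x2100138013c0098000000000000000000000000000000) (nat_lit 0x0) (nat_lit 0x4000200000000000000004000000000000000000000000000000) := D_6 (nat_lit 189) (nat_lit 206) (nat_lit 122) (nat_lit 6) (nat_lit 2) (nat_lit 12) (nat_lit 6) (nat_lit 2) (nat_lit 11) (by decide +kernel)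
theorem L47324 : W_6 (nat_lit 3) (nat_lit 0x210013801380098000000000000000000000000000000) (nat_lit 0x0) (nat_lit 0x4000200000000000060004000000000000000000000000000000) := T_6 (nat_lit 138) (nat_lit 137) (nat_lit 2) (nat_lit 1) (nat_lit 8) L47323 (by decide +kernel)
theorem L47325 : W_6 (nat_lit 4) (nat_lit 0x210013001380098000000000000000000000000000000) (nat_lit 0x0) (nat_lit 0x4000200000000c00060004000000000000000000000000000000) := T_6 (nat_lit 155) (nat_lit 154) (nat_lit 2) (nat_lit 1) (nat_lit 9) L47324 (by decide +kernel)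
theorem L47326 : W_6 (nat_lit 2) (nat_lit 0x2300130013a009c000000000000000000000000000000) (nat_lit 0x0) (nat_lit 0x800000000000200010000000000000000000000) := D_6 (nat_lit 105) (nat_lit 155) (nat_lit 88) (nat_lit 5) (nat_lit 3) (nat_lit 6) (nat_lit 7) (nat_lit 3) (nat_lit 5) (by decide +kernel)
theorem L47327 : W_6 (nat_lit 3) (nat_lit 0x2300130013a0098000000000000000000000000000000) (nat_lit 0x0) (nat_lit 0x200000000800000004000200010000000000000000000000) := T_6 (nat_lit 122) (nat_lit 189) (nat_lit 5) (nat_lit 3) (nat_lit 7) L47326 (by decide +kernel)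
theorem L47328 : W_6 (nat_lit 4) (nat_lit 0x2100130013a0098000000000000000000000000000000) (nat_lit 0x0) (nat_lit 0x600020000800000004000200010000000000000000000000) := T_6 (nat_lit 173) (nat_lit 190) (nat_lit 6) (nat_lit 3) (nat_lit 11) L47327 (by decide +kernel)
theorem L47329 : W_6 (nat_lit 5) (nat_lit 0x210013001380098000000000000000000000000000000) (nat_lit 0x0) (nat_lit 0x600020000800060004000200010000000000000000000000) := T_6 (nat_lit 137) (nat_lit 138) (nat_lit 2) (nat_lit 1) (nat_lit 8) L47328 (by decide +kernel)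
theorem L47330 : W_6 (nat_lit 2) (nat_lit 0x7002100138013c0098000200000000000000000000000000) (nat_lit 0x0) (nat_lit 0x8000000000003000000000000000000000000000000) := D_6 (nat_lit 121) (nat_lit 120) (nat_lit 171) (nat_lit 0) (nat_lit 5) (nat_lit 8) (nat_lit 5) (nat_lit 2) (nat_lit 7) (by decide +kernel)
theorem L47331 : W_6 (nat_lit 3) (nat_lit 0x6002100138013c0098000200000000000000000000000000) (nat_lit 0x0) (nat_lit 0x2000100008000000000003000000000000000000000000000000) := T_6 (nat_lit 188) (nat_lit 205) (nat_lit 5) (nat_lit 2) (nat_lit 8) L47330 (by decide +kernel)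
theorem L47332 : W_6 (nat_lit 4) (nat_lit 0x600210013801380098000200000000000000000000000000) (nat_lit 0x0) (nat_lit 0xa000100008000000040003000000000000000000000000000000) := T_6 (nat_lit 138) (nat_lit 207) (nat_lit 7) (nat_lit 2) (nat_lit 8) L47331 (by decide +kernel)
theorem L47333 : W_6 (nat_lit 5) (nat_lit 0x400210013801380098000200000000000000000000000000) (nat_lit 0x0) (nat_lit 0xe000300008000000040003000000000000000000000000000000) := T_6 (nat_lit 189) (nat_lit 206) (nat_lit 6) (nat_lit 2) (nat_lit 12) L47332 (by decide +kernel)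
theorem L47334 : W_6 (nat_lit 6) (nat_lit 0x400210013801380098000000000000000000000000000000) (nat_lit 0x0) (nat_lit 0xe000300008000000040007000200000000000000000000000000) := T_6 (nat_lit 105) (nat_lit 122) (nat_lit 5) (nat_lit 3) (nat_lit 6) L47333 (by decide +kernel)
theorem L47335 : W_6 (nat_lit 7) (nat_lit 0x400210013001380098000000000000000000000000000000) (nat_lit 0x0) (nat_lit 0xe000300008000c00040007000200000000000000000000000000) := T_6 (nat_lit 155) (nat_lit 154) (nat_lit 2) (nat_lit 1) (nat_lit 9) L47334 (by decide +kernel)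
theorem L47336 : W_6 (nat_lit 8) (nat_lit 0x210013001380098000000000000000000000000000000) (nat_lit 0x0) (nat_lit 0xe000700028000c00040007000200000000000000000000000000) := T_6 (nat_lit 190) (nat_lit 173) (nat_lit 6) (nat_lit 3) (nat_lit 11) L47335 (by decide +kernel)
theorem L47337 : W_6 (nat_lit 2) (nat_lit 0x40002002380130013a0098000000000000000000000000000000) (nat_lit 0x0) (nat_lit 0x100000000400000001000000000000000000000000000000) := D_6 (nat_lit 154) (nat_lit 120) (nat_lit 188) (nat_lit 7) (nat_lit 1) (nat_lit 7) (nat_lit 7) (nat_lit 1) (nat_lit 8) (by decide +kernel)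
theorem L47338 : W_6 (nat_lit 3) (nat_lit 0x2002380130013a0098000000000000000000000000000000) (nat_lit 0x0) (nat_lit 0x80004000100000000400000001000000000000000000000000000000) := T_6 (nat_lit 206) (nat_lit 223) (nat_lit 6) (nat_lit 2) (nat_lit 13) L47337 (by decide +kernel)
theorem L47339 : W_6 (nat_lit 4) (nat_lit 0x2002300130013a0098000000000000000000000000000000) (nat_lit 0x0) (nat_lit 0x8000400010000c000400000001000000000000000000000000000000) := T_6 (nat_lit 171) (nat_lit 170) (nat_lit 2) (nat_lit 0) (nat_lit 10) L47338 (by decide +kernel)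
theorem L47340 : W_6 (nat_lit 5) (nat_lit 0x2300130013a0098000000000000000000000000000000) (nat_lit 0x0) (nat_lit 0x8000400030000c000400000005000000000000000000000000000000) := T_6 (nat_lit 189) (nat_lit 122) (nat_lit 5) (nat_lit 3) (nat_lit 7) L47339 (by decide +kernel)
theorem L47341 : W_6 (nat_lit 6) (nat_lit 0x2100130013a0098000000000000000000000000000000) (nat_lit 0x0) (nat_lit 0x8000400070002c000400000005000000000000000000000000000000) := T_6 (nat_lit 173) (nat_lit 190) (nat_lit 6) (nat_lit 3) (nat_lit 11) L47340 (by decide +kernel)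
theorem L47342 : W_6 (nat_lit 7) (nat_lit 0x210013001380098000000000000000000000000000000) (nat_lit 0x0) (nat_lit 0x8000400070002c000400060005000000000000000000000000000000) := T_6 (nat_lit 137) (nat_lit 138) (nat_lit 2) (nat_lit 1) (nat_lit 8) L47341 (by decide +kernel)
theorem L47343 : W_6 (nat_lit 2) (nat_lit 0x2380138013c0098000200000000000000000000000000) (nat_lit 0x0) (nat_lit 0x100000000000000003000000000000000000000000000000) := D_6 (nat_lit 121) (nat_lit 188) (nat_lit 120) (nat_lit 5) (nat_lit 2) (nat_lit 7) (nat_lit 0) (nat_lit 5) (nat_lit 8) (by decide +kernel)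
theorem L47344 : W_6 (nat_lit 3) (nat_lit 0x238013801380098000200000000000000000000000000) (nat_lit 0x0) (nat_lit 0x100000000000060003000000000000000000000000000000) := T_6 (nat_lit 138) (nat_lit 137) (nat_lit 2) (nat_lit 1) (nat_lit 8) L47343 (by decide +kernel)
theorem L47345 : W_6 (nat_lit 4) (nat_lit 0x238013801380098000000000000000000000000000000) (nat_lit 0x0) (nat_lit 0x100000000000060007000200000000000000000000000000) := T_6 (nat_lit 105) (nat_lit 122) (nat_lit 5) (nat_lit 3) (nat_lit 6) L47344 (by decide +kernel)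
theorem L47346 : W_6 (nat_lit 5) (nat_lit 0x230013801380098000000000000000000000000000000) (nat_lit 0x0) (nat_lit 0x10000c000000060007000200000000000000000000000000) := T_6 (nat_lit 171) (nat_lit 170) (nat_lit 2) (nat_lit 0) (nat_lit 10) L47345 (by decide +kernel)
theorem L47347 : W_6 (nat_lit 6) (nat_lit 0x230013001380098000000000000000000000000000000) (nat_lit 0x0) (nat_lit 0x10000c000c00060007000200000000000000000000000000) := T_6 (nat_lit 155) (nat_lit 154) (nat_lit 2) (nat_lit 1) (nat_lit 9) L47346 (by decide +kernel)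
theorem L47348 : W_6 (nat_lit 7) (nat_lit 0x210013001380098000000000000000000000000000000) (nat_lit 0x0) (nat_lit 0x50002c000c00060007000200000000000000000000000000) := T_6 (nat_lit 173) (nat_lit 190) (nat_lit 6) (nat_lit 3) (nat_lit 11) L47347 (by decide +kernel)
theorem L47349 : W_6 (nat_lit 9) (nat_lit 0x200013001380098000000000000000000000000000000) (nat_lit 0x0) (nat_lit 0x8000e00070003c000c00060007000200010000000000000000000000) := Q_6 (nat_lit 172) (C_6 L47312 (C_6 L47318 (C_6 L47322 (C_6 L47325 (C_6 L47329 (C_6 L47336 (C_6 L47342 (C_6 L47348 N_6)))))))) (by decide +kernel)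
theorem L47350 : W_6 (nat_lit 10) (nat_lit 0x200011001380098000000000000000000000000000000) (nat_lit 0x0) (nat_lit 0x8000e001f001fc002c00060007000200010000000000000000000000) := Q_6 (nat_lit 157) (C_6 L47306 (C_6 L47308 (C_6 L47349 N_6))) (by decide +kernel)
theorem L47351 : W_6 (nat_lit 5) (nat_lit 0x2000138013c009a000400000000000000000000000000) (nat_lit 0x0) (nat_lit 0x6000300018000000000004000200010000000000000000000000) := T_6 (nat_lit 105) (nat_lit 88) (nat_lit 4) (nat_lit 4) (nat_lit 9) L47143 (by decide +kernel)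
theorem L47352 : W_6 (nat_lit 6) (nat_lit 0x2000138013c009a000000000000000000000000000000) (nat_lit 0x0) (nat_lit 0x6000300018000000000004000600030000000000000000000000) := T_6 (nat_lit 106) (nat_lit 89) (nat_lit 5) (nat_lit 4) (nat_lit 5) L47351 (by decide +kernel)
theorem L47353 : W_6 (nat_lit 7) (nat_lit 0x2000138013c0098000000000000000000000000000000) (nat_lit 0x0) (nat_lit 0x6000300018000000000007000600030000000000000000000000) := T_6 (nat_lit 121) (nat_lit 120) (nat_lit 0) (nat_lit 5) (nat_lit 8) L47352 (by decide +kernel)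
theorem L47354 : W_6 (nat_lit 8) (nat_lit 0x2000130013c0098000000000000000000000000000000) (nat_lit 0x0) (nat_lit 0x6000300018000c00000007000600030000000000000000000000) := T_6 (nat_lit 155) (nat_lit 154) (nat_lit 2) (nat_lit 1) (nat_lit 9) L47353 (by decide +kernel)
theorem L47355 : W_6 (nat_lit 9) (nat_lit 0x200013001380098000000000000000000000000000000) (nat_lit 0x0) (nat_lit 0x6000300018000c00060007000600030000000000000000000000) := T_6 (nat_lit 138) (nat_lit 137) (nat_lit 2) (nat_lit 1) (nat_lit 8) L47354 (by decide +kernel)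
theorem L47356 : W_6 (nat_lit 10) (nat_lit 0x200011001380098000000000000000000000000000000) (nat_lit 0x0) (nat_lit 0x6001b001d8002c00060007000600030000000000000000000000) := Q_6 (nat_lit 157) (C_6 L47308 (C_6 L47355 N_6)) (by decide +kernel)
theorem L47357 : W_6 (nat_lit 11) (nat_lit 0x200010001380098000000000000000000000000000000) (nat_lit 0x0) (nat_lit 0x8000e001f001fc003c00060007000600030000000000000000000000) := Q_6 (nat_lit 156) (C_6 L45388 (C_6 L47301 (C_6 L47302 (C_6 L47350 (C_6 L47356 N_6))))) (by decide +kernel)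
theorem L47358 : W_6 (nat_lit 12) (nat_lit 0x200010001300098000000000000000000000000000000) (nat_lit 0x0) (nat_lit 0x8000e003f001fc02bc008e00670036001f000f800000000000000000) := Q_6 (nat_lit 139) (C_6 L47298 (C_6 L45312 (C_6 L47357 N_6))) (by decide +kernel)
theorem L47359 : W_6 (nat_lit 14) (nat_lit 0x200010001300088000000000000000000000000000000) (nat_lit 0x0) (nat_lit 0x88004e003f801fc02be008e00770037801fc00fc00000000000000000) := Q_6 (nat_lit 124) (C_6 L46705 (C_6 L46895 (C_6 L45766 (C_6 L45415 (C_6 L47108 (C_6 L47151 (C_6 L47204 (C_6 L47288 (C_6 L47358 N_6))))))))) (by decide +kernel)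
theorem L47360 : W_6 (nat_lit 2) (nat_lit 0x2000100013800de0009000e0000400000000000000000) (nat_lit 0x0) (nat_lit 0x200010000800000000000000000) := D_6 (nat_lit 88) (nat_lit 71) (nat_lit 105) (nat_lit 0) (nat_lit 6) (nat_lit 5) (nat_lit 1) (nat_lit 6) (nat_lit 5) (by decide +kernel)
theorem L47361 : W_6 (nat_lit 3) (nat_lit 0x2000100013800de0009000c0000400000000000000000) (nat_lit 0x0) (nat_lit 0x200030001800000000000000000) := T_6 (nat_lit 89) (nat_lit 72) (nat_lit 4) (nat_lit 5) (nat_lit 8) L47360 (by decide +kernel)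
theorem L47362 : W_6 (nat_lit 4) (nat_lit 0x2000100013800de000900040000400000000000000000) (nat_lit 0x0) (nat_lit 0x2000b0005800000000000000000) := T_6 (nat_lit 91) (nat_lit 74) (nat_lit 6) (nat_lit 5) (nat_lit 8) L47361 (by decide +kernel)
theorem L47363 : W_6 (nat_lit 5) (nat_lit 0x2000100013800de000900040000000000000000000000) (nat_lit 0x0) (nat_lit 0x2000b8005c00000000000000000) := T_6 (nat_lit 70) (nat_lit 87) (nat_lit 7) (nat_lit 2) (nat_lit 4) L47362 (by decide +kernel)
theorem L47364 : W_6 (nat_lit 6) (nat_lit 0x2000100013800de000900000000000000000000000000) (nat_lit 0x0) (nat_lit 0x2000f8007c00000000000000000) := T_6 (nat_lit 90) (nat_lit 73) (nat_lit 5) (nat_lit 5) (nat_lit 4) L47363 (by decide +kernel)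
theorem L47365 : W_6 (nat_lit 7) (nat_lit 0x2000100013800de000800000000000000000000000000) (nat_lit 0x0) (nat_lit 0x3800f8007c00000000000000000) := T_6 (nat_lit 104) (nat_lit 103) (nat_lit 0) (nat_lit 5) (nat_lit 7) L47364 (by decide +kernel)
theorem L47366 : W_6 (nat_lit 8) (nat_lit 0x2000100013800de000000000000000000000000000000) (nat_lit 0x0) (nat_lit 0x1b800f8007c00000000000000000) := T_6 (nat_lit 107) (nat_lit 108) (nat_lit 2) (nat_lit 2) (nat_lit 7) L47365 (by decide +kernel)
theorem L47367 : W_6 (nat_lit 9) (nat_lit 0x2000100013800dc000000000000000000000000000000) (nat_lit 0x0) (nat_lit 0x3001b800f8007c00000000000000000) := T_6 (nat_lit 121) (nat_lit 120) (nat_lit 3) (nat_lit 1) (nat_lit 7) L47366 (by decide +kernel)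
theorem L47368 : W_6 (nat_lit 10) (nat_lit 0x20001000138009c000000000000000000000000000000) (nat_lit 0x0) (nat_lit 0x63001b800f8007c00000000000000000) := T_6 (nat_lit 126) (nat_lit 125) (nat_lit 1) (nat_lit 7) (nat_lit 7) L47367 (by decide +kernel)
theorem L47369 : W_6 (nat_lit 7) (nat_lit 0x2000100013800bc000200000000000000000000000000) (nat_lit 0x0) (nat_lit 0x38000f8007c00000000000000000) := T_6 (nat_lit 108) (nat_lit 109) (nat_lit 2) (nat_lit 3) (nat_lit 7) L44047 (by decide +kernel)
theorem L47370 : W_6 (nat_lit 8) (nat_lit 0x2000100013800bc000000000000000000000000000000) (nat_lit 0x0) (nat_lit 0x3b000f8007c00000000000000000) := T_6 (nat_lit 105) (nat_lit 104) (nat_lit 0) (nat_lit 6) (nat_lit 7) L47369 (by decide +kernel)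
theorem L47371 : W_6 (nat_lit 9) (nat_lit 0x20001000138009c000000000000000000000000000000) (nat_lit 0x0) (nat_lit 0x60003b000f8007c00000000000000000) := T_6 (nat_lit 125) (nat_lit 126) (nat_lit 1) (nat_lit 7) (nat_lit 7) L47370 (by decide +kernel)
theorem L47372 : W_6 (nat_lit 2) (nat_lit 0x2000100013800be000000000000000000000000000000) (nat_lit 0x0) (nat_lit 0x3800000000000000000000000000) := D_6 (nat_lit 108) (nat_lit 109) (nat_lit 107) (nat_lit 2) (nat_lit 3) (nat_lit 7) (nat_lit 2) (nat_lit 2) (nat_lit 7) (by decide +kernel)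
theorem L47373 : W_6 (nat_lit 3) (nat_lit 0x2000100013800bc000000000000000000000000000000) (nat_lit 0x0) (nat_lit 0x3003800000000000000000000000000) := T_6 (nat_lit 121) (nat_lit 120) (nat_lit 3) (nat_lit 1) (nat_lit 7) L47372 (by decide +kernel)
theorem L47374 : W_6 (nat_lit 4) (nat_lit 0x20001000138009c000000000000000000000000000000) (nat_lit 0x0) (nat_lit 0x63003800000000000000000000000000) := T_6 (nat_lit 125) (nat_lit 126) (nat_lit 1) (nat_lit 7) (nat_lit 7) L47373 (by decide +kernel)
theorem L47375 : W_6 (nat_lit 11) (nat_lit 0x200010001380098000000000000000000000000000000) (nat_lit 0x0) (nat_lit 0x20001000000067003b800f8007c00000000000000000) := Q_6 (nat_lit 122) (C_6 L43499 (C_6 L47368 (C_6 L47371 (C_6 L47374 N_6)))) (by decide +kernel)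
theorem L47376 : W_6 (nat_lit 12) (nat_lit 0x200010001300098000000000000000000000000000000) (nat_lit 0x0) (nat_lit 0x200030001c000e0067003b800f8007c00000000000000000) := Q_6 (nat_lit 139) (C_6 L47375 (C_6 L47203 (C_6 L45312 N_6))) (by decide +kernel)
theorem L47377 : W_6 (nat_lit 2) (nat_lit 0x2000100013000de0009000f0000400000000000000000) (nat_lit 0x0) (nat_lit 0x80000000000008000200000000000000000) := D_6 (nat_lit 87) (nat_lit 69) (nat_lit 139) (nat_lit 0) (nat_lit 5) (nat_lit 5) (nat_lit 7) (nat_lit 2) (nat_lit 4) (by decide +kernel)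
theorem L47378 : W_6 (nat_lit 3) (nat_lit 0x2000100013000de0009000f0000000000000000000000) (nat_lit 0x0) (nat_lit 0x80000000000008000e00000000000000000) := T_6 (nat_lit 70) (nat_lit 71) (nat_lit 0) (nat_lit 6) (nat_lit 5) L47377 (by decide +kernel)
theorem L47379 : W_6 (nat_lit 4) (nat_lit 0x2000100013000de0009000e0000000000000000000000) (nat_lit 0x0) (nat_lit 0x80000000200018000e00000000000000000) := T_6 (nat_lit 88) (nat_lit 105) (nat_lit 1) (nat_lit 6) (nat_lit 5) L47378 (by decide +kernel)
theorem L47380 : W_6 (nat_lit 5) (nat_lit 0x2000100013000de000900060000000000000000000000) (nat_lit 0x0) (nat_lit 0x80000000200098004e00000000000000000) := T_6 (nat_lit 91) (nat_lit 74) (nat_lit 6) (nat_lit 5) (nat_lit 8) L47379 (by decide +kernel)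
theorem L47381 : W_6 (nat_lit 6) (nat_lit 0x2000100013000de000900040000000000000000000000) (nat_lit 0x0) (nat_lit 0x800000002000b8005e00000000000000000) := T_6 (nat_lit 89) (nat_lit 72) (nat_lit 4) (nat_lit 5) (nat_lit 8) L47380 (by decide +kernel)
theorem L47382 : W_6 (nat_lit 7) (nat_lit 0x2000100013000de000900000000000000000000000000) (nat_lit 0x0) (nat_lit 0x800000002000f8007e00000000000000000) := T_6 (nat_lit 90) (nat_lit 73) (nat_lit 5) (nat_lit 5) (nat_lit 4) L47381 (by decide +kernel)
theorem L47383 : W_6 (nat_lit 8) (nat_lit 0x2000100013000de000100000000000000000000000000) (nat_lit 0x0) (nat_lit 0x80000001a000f8007e00000000000000000) := T_6 (nat_lit 107) (nat_lit 108) (nat_lit 2) (nat_lit 2) (nat_lit 7) L47382 (by decide +kernel)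
theorem L47384 : W_6 (nat_lit 9) (nat_lit 0x2000100013000de000000000000000000000000000000) (nat_lit 0x0) (nat_lit 0x80000001b800f8007e00000000000000000) := T_6 (nat_lit 104) (nat_lit 103) (nat_lit 0) (nat_lit 5) (nat_lit 7) L47383 (by decide +kernel)
theorem L47385 : W_6 (nat_lit 10) (nat_lit 0x2000100013000da000000000000000000000000000000) (nat_lit 0x0) (nat_lit 0x80005001b800f8007e00000000000000000) := T_6 (nat_lit 122) (nat_lit 120) (nat_lit 3) (nat_lit 1) (nat_lit 7) L47384 (by decide +kernel)
theorem L47386 : W_6 (nat_lit 11) (nat_lit 0x20001000130009a000000000000000000000000000000) (nat_lit 0x0) (nat_lit 0x80065001b800f8007e00000000000000000) := T_6 (nat_lit 126) (nat_lit 125) (nat_lit 1) (nat_lit 8) (nat_lit 7) L47385 (by decide +kernel)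
theorem L47387 : W_6 (nat_lit 2) (nat_lit 0x2000100013c008a000000000000000000000000000000) (nat_lit 0x0) (nat_lit 0x20030000000000000000000000000000000) := D_6 (nat_lit 124) (nat_lit 137) (nat_lit 125) (nat_lit 2) (nat_lit 1) (nat_lit 8) (nat_lit 2) (nat_lit 2) (nat_lit 8) (by decide +kernel)
theorem L47388 : W_6 (nat_lit 3) (nat_lit 0x20001000134008a000000000000000000000000000000) (nat_lit 0x0) (nat_lit 0xa0031000000000000000000000000000000) := T_6 (nat_lit 139) (nat_lit 120) (nat_lit 0) (nat_lit 5) (nat_lit 8) L47387 (by decide +kernel)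
theorem L47389 : W_6 (nat_lit 2) (nat_lit 0x2000100013400de0009000f0000000000000000000000) (nat_lit 0x0) (nat_lit 0x8000c00000000000000000) := D_6 (nat_lit 71) (nat_lit 70) (nat_lit 87) (nat_lit 0) (nat_lit 6) (nat_lit 5) (nat_lit 6) (nat_lit 2) (nat_lit 8) (by decide +kernel)
theorem L47390 : W_6 (nat_lit 3) (nat_lit 0x2000100013400de0009000e0000000000000000000000) (nat_lit 0x0) (nat_lit 0x200018000c00000000000000000) := T_6 (nat_lit 88) (nat_lit 105) (nat_lit 1) (nat_lit 6) (nat_lit 5) L47389 (by decide +kernel)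
theorem L47391 : W_6 (nat_lit 4) (nat_lit 0x2000100013400de000900060000000000000000000000) (nat_lit 0x0) (nat_lit 0x200098004c00000000000000000) := T_6 (nat_lit 91) (nat_lit 74) (nat_lit 6) (nat_lit 5) (nat_lit 8) L47390 (by decide +kernel)
theorem L47392 : W_6 (nat_lit 5) (nat_lit 0x2000100013400de000900040000000000000000000000) (nat_lit 0x0) (nat_lit 0x2000b8005c00000000000000000) := T_6 (nat_lit 89) (nat_lit 72) (nat_lit 4) (nat_lit 5) (nat_lit 8) L47391 (by decide +kernel)
theorem L47393 : W_6 (nat_lit 6) (nat_lit 0x2000100013400de000900000000000000000000000000) (nat_lit 0x0) (nat_lit 0x2000f8007c00000000000000000) := T_6 (nat_lit 90) (nat_lit 73) (nat_lit 5) (nat_lit 5) (nat_lit 4) L47392 (by decide +kernel)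
theorem L47394 : W_6 (nat_lit 7) (nat_lit 0x2000100013400de000800000000000000000000000000) (nat_lit 0x0) (nat_lit 0x3800f8007c00000000000000000) := T_6 (nat_lit 104) (nat_lit 103) (nat_lit 0) (nat_lit 5) (nat_lit 7) L47393 (by decide +kernel)
theorem L47395 : W_6 (nat_lit 8) (nat_lit 0x2000100013400de000000000000000000000000000000) (nat_lit 0x0) (nat_lit 0x1b800f8007c00000000000000000) := T_6 (nat_lit 107) (nat_lit 108) (nat_lit 2) (nat_lit 2) (nat_lit 7) L47394 (by decide +kernel)
theorem L47396 : W_6 (nat_lit 9) (nat_lit 0x20001000134009e000000000000000000000000000000) (nat_lit 0x0) (nat_lit 0x60001b800f8007c00000000000000000) := T_6 (nat_lit 126) (nat_lit 125) (nat_lit 1) (nat_lit 8) (nat_lit 7) L47395 (by decide +kernel)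
theorem L47397 : W_6 (nat_lit 10) (nat_lit 0x20001000134008e000000000000000000000000000000) (nat_lit 0x0) (nat_lit 0x20070001b800f8007c00000000000000000) := T_6 (nat_lit 124) (nat_lit 137) (nat_lit 1) (nat_lit 5) (nat_lit 7) L47396 (by decide +kernel)
theorem L47398 : W_6 (nat_lit 11) (nat_lit 0x20001000134008a000000000000000000000000000000) (nat_lit 0x0) (nat_lit 0x20075001b800f8007c00000000000000000) := T_6 (nat_lit 122) (nat_lit 120) (nat_lit 3) (nat_lit 1) (nat_lit 7) L47397 (by decide +kernel)
theorem L47399 : W_6 (nat_lit 2) (nat_lit 0x20001000134008a000000000000000000000000000000) (nat_lit 0x0) (nat_lit 0x80005000000000000000000000000000000) := D_6 (nat_lit 120) (nat_lit 122) (nat_lit 139) (nat_lit 3) (nat_lit 1) (nat_lit 7) (nat_lit 0) (nat_lit 5) (nat_lit 8) (by decide +kernel)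
theorem L47400 : W_6 (nat_lit 10) (nat_lit 0x20001000134009a000000000000000000000000000000) (nat_lit 0x0) (nat_lit 0x20064001b800f8007c00000000000000000) := T_6 (nat_lit 122) (nat_lit 137) (nat_lit 1) (nat_lit 5) (nat_lit 7) L47396 (by decide +kernel)
theorem L47401 : W_6 (nat_lit 2) (nat_lit 0x20001000134009a000000000000000000000000000000) (nat_lit 0x0) (nat_lit 0x80060000000000000000000000000000000) := D_6 (nat_lit 125) (nat_lit 126) (nat_lit 139) (nat_lit 1) (nat_lit 8) (nat_lit 7) (nat_lit 2) (nat_lit 2) (nat_lit 8) (by decide +kernel)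
theorem L47402 : W_6 (nat_lit 11) (nat_lit 0x20001000134008a000000000000000000000000000000) (nat_lit 0x0) (nat_lit 0xa0074001b800f8007c00000000000000000) := Q_6 (nat_lit 124) (C_6 L45413 (C_6 L47400 (C_6 L47401 N_6))) (by decide +kernel)
theorem L47403 : W_6 (nat_lit 12) (nat_lit 0x20001000130008a000000000000000000000000000000) (nat_lit 0x0) (nat_lit 0xe0075001b800f8007c00000000000000000) := Q_6 (nat_lit 138) (C_6 L47388 (C_6 L47398 (C_6 L47399 (C_6 L47402 N_6)))) (by decide +kernel)
theorem L47404 : W_6 (nat_lit 2) (nat_lit 0x20001000130009a000800000000000000000000000000) (nat_lit 0x0) (nat_lit 0x2000000000000000040002000000000000000000) := D_6 (nat_lit 90) (nat_lit 157) (nat_lit 73) (nat_lit 5) (nat_lit 5) (nat_lit 5) (nat_lit 5) (nat_lit 5) (nat_lit 4) (by decide +kernel)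
theorem L47405 : W_6 (nat_lit 2) (nat_lit 0x200010001b000da002800100000000000000000000000) (nat_lit 0x0) (nat_lit 0x1000080004000000000000000000) := D_6 (nat_lit 91) (nat_lit 74) (nat_lit 108) (nat_lit 4) (nat_lit 7) (nat_lit 8) (nat_lit 4) (nat_lit 7) (nat_lit 9) (by decide +kernel)
theorem L47406 : W_6 (nat_lit 3) (nat_lit 0x2000100013000da002800100000000000000000000000) (nat_lit 0x0) (nat_lit 0x20000800000001000080004000000000000000000) := T_6 (nat_lit 143) (nat_lit 161) (nat_lit 7) (nat_lit 7) (nat_lit 5) L47405 (by decide +kernel)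
theorem L47407 : W_6 (nat_lit 4) (nat_lit 0x2000100013000da002800000000000000000000000000) (nat_lit 0x0) (nat_lit 0x2000080000000100018000c000000000000000000) := T_6 (nat_lit 92) (nat_lit 75) (nat_lit 7) (nat_lit 7) (nat_lit 4) L47406 (by decide +kernel)
theorem L47408 : W_6 (nat_lit 2) (nat_lit 0x2000100013000da0029000f0008400000000000000000) (nat_lit 0x0) (nat_lit 0x80008000200000000000000000) := D_6 (nat_lit 87) (nat_lit 69) (nat_lit 103) (nat_lit 0) (nat_lit 5) (nat_lit 5) (nat_lit 1) (nat_lit 5) (nat_lit 5) (by decide +kernel)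
theorem L47409 : W_6 (nat_lit 3) (nat_lit 0x2000100013000da0028000f0008400000000000000000) (nat_lit 0x0) (nat_lit 0x380008000200000000000000000) := T_6 (nat_lit 104) (nat_lit 105) (nat_lit 1) (nat_lit 6) (nat_lit 5) L47408 (by decide +kernel)
theorem L47410 : W_6 (nat_lit 4) (nat_lit 0x2000100013000da0028000f0008000000000000000000) (nat_lit 0x0) (nat_lit 0x380008000e00000000000000000) := T_6 (nat_lit 70) (nat_lit 71) (nat_lit 0) (nat_lit 6) (nat_lit 5) L47409 (by decide +kernel)
theorem L47411 : W_6 (nat_lit 5) (nat_lit 0x2000100013000da0028000e0008000000000000000000) (nat_lit 0x0) (nat_lit 0x1380018000e00000000000000000) := T_6 (nat_lit 88) (nat_lit 108) (nat_lit 3) (nat_lit 3) (nat_lit 5) L47410 (by decide +kernel)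
theorem L47412 : W_6 (nat_lit 6) (nat_lit 0x2000100013000da002800060008000000000000000000) (nat_lit 0x0) (nat_lit 0x1380098004e00000000000000000) := T_6 (nat_lit 91) (nat_lit 74) (nat_lit 6) (nat_lit 5) (nat_lit 8) L47411 (by decide +kernel)
theorem L47413 : W_6 (nat_lit 7) (nat_lit 0x2000100013000da002800040008000000000000000000) (nat_lit 0x0) (nat_lit 0x13800b8005e00000000000000000) := T_6 (nat_lit 89) (nat_lit 72) (nat_lit 4) (nat_lit 5) (nat_lit 8) L47412 (by decide +kernel)
theorem L47414 : W_6 (nat_lit 8) (nat_lit 0x2000100013000da002800000008000000000000000000) (nat_lit 0x0) (nat_lit 0x13800f8007e00000000000000000) := T_6 (nat_lit 90) (nat_lit 73) (nat_lit 5) (nat_lit 5) (nat_lit 4) L47413 (by decide +kernel)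
theorem L47415 : W_6 (nat_lit 9) (nat_lit 0x2000100013000da002800000000000000000000000000) (nat_lit 0x0) (nat_lit 0x13801f800fe00000000000000000) := T_6 (nat_lit 75) (nat_lit 92) (nat_lit 7) (nat_lit 7) (nat_lit 4) L47414 (by decide +kernel)
theorem L47416 : W_6 (nat_lit 2) (nat_lit 0x200010001b000da002800100002000000000000000000) (nat_lit 0x0) (nat_lit 0x2000100008000000000000000000000000000000000000000) := D_6 (nat_lit 176) (nat_lit 193) (nat_lit 159) (nat_lit 5) (nat_lit 7) (nat_lit 7) (nat_lit 5) (nat_lit 7) (nat_lit 6) (by decide +kernel)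
theorem L47417 : W_6 (nat_lit 3) (nat_lit 0x2000100013000da002800100002000000000000000000) (nat_lit 0x0) (nat_lit 0x2000100028000800000000000000000000000000000000000) := T_6 (nat_lit 143) (nat_lit 161) (nat_lit 7) (nat_lit 7) (nat_lit 5) L47416 (by decide +kernel)
theorem L47418 : W_6 (nat_lit 4) (nat_lit 0x2000100013000da002800000002000000000000000000) (nat_lit 0x0) (nat_lit 0x2000100028000800000000000100008000000000000000000) := T_6 (nat_lit 92) (nat_lit 75) (nat_lit 7) (nat_lit 7) (nat_lit 4) L47417 (by decide +kernel)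
theorem L47419 : W_6 (nat_lit 5) (nat_lit 0x2000100013000da002800000000000000000000000000) (nat_lit 0x0) (nat_lit 0x200010002800080000000000014000a000000000000000000) := T_6 (nat_lit 73) (nat_lit 90) (nat_lit 5) (nat_lit 5) (nat_lit 4) L47418 (by decide +kernel)
theorem L47420 : W_6 (nat_lit 2) (nat_lit 0x2000100013000da0028000e0000000000000000000000) (nat_lit 0x0) (nat_lit 0x800000001000010000000000000000000000) := D_6 (nat_lit 108) (nat_lit 143) (nat_lit 88) (nat_lit 4) (nat_lit 7) (nat_lit 9) (nat_lit 3) (nat_lit 3) (nat_lit 5) (by decide +kernel)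
theorem L47421 : W_6 (nat_lit 3) (nat_lit 0x2000100013000da002800060000000000000000000000) (nat_lit 0x0) (nat_lit 0x800000001000090004000000000000000000) := T_6 (nat_lit 91) (nat_lit 74) (nat_lit 6) (nat_lit 5) (nat_lit 8) L47420 (by decide +kernel)
theorem L47422 : W_6 (nat_lit 4) (nat_lit 0x2000100013000da002800040000000000000000000000) (nat_lit 0x0) (nat_lit 0x8000000010000b0005000000000000000000) := T_6 (nat_lit 89) (nat_lit 72) (nat_lit 4) (nat_lit 5) (nat_lit 8) L47421 (by decide +kernel)
theorem L47423 : W_6 (nat_lit 5) (nat_lit 0x2000100013000da002800000000000000000000000000) (nat_lit 0x0) (nat_lit 0x8000000010000f0007000000000000000000) := T_6 (nat_lit 90) (nat_lit 73) (nat_lit 5) (nat_lit 5) (nat_lit 4) L47422 (by decide +kernel)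
theorem L47424 : W_6 (nat_lit 10) (nat_lit 0x2000100013000da000800000000000000000000000000) (nat_lit 0x0) (nat_lit 0x20001000280008000000033801f800fe00000000000000000) := Q_6 (nat_lit 109) (C_6 L47407 (C_6 L47415 (C_6 L47419 (C_6 L47423 N_6)))) (by decide +kernel)
theorem L47425 : W_6 (nat_lit 11) (nat_lit 0x20001000130009a000800000000000000000000000000) (nat_lit 0x0) (nat_lit 0x20001000280008000600033801f800fe00000000000000000) := T_6 (nat_lit 126) (nat_lit 125) (nat_lit 1) (nat_lit 8) (nat_lit 7) L47424 (by decide +kernel)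
theorem L47426 : W_6 (nat_lit 2) (nat_lit 0x3e001000130009a000800000000000000000000000000) (nat_lit 0x0) (nat_lit 0xe00000000000000000000000000000000000000000000000) := D_6 (nat_lit 190) (nat_lit 191) (nat_lit 189) (nat_lit 1) (nat_lit 7) (nat_lit 10) (nat_lit 1) (nat_lit 6) (nat_lit 10) (by decide +kernel)
theorem L47427 : W_6 (nat_lit 3) (nat_lit 0x3c001000130009a000800000000000000000000000000) (nat_lit 0x0) (nat_lit 0xe00020008000000000000000000000000000000000000000) := T_6 (nat_lit 173) (nat_lit 159) (nat_lit 2) (nat_lit 3) (nat_lit 10) L47426 (by decide +kernel)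
theorem L47428 : W_6 (nat_lit 4) (nat_lit 0x34001000130009a000800000000000000000000000000) (nat_lit 0x0) (nat_lit 0xe000a0028000000000000000000000000000000000000000) := T_6 (nat_lit 175) (nat_lit 161) (nat_lit 2) (nat_lit 4) (nat_lit 10) L47427 (by decide +kernel)
theorem L47429 : W_6 (nat_lit 5) (nat_lit 0x30001000130009a000800000000000000000000000000) (nat_lit 0x0) (nat_lit 0xe000e002a000000000000000000000000000000000000000) := T_6 (nat_lit 174) (nat_lit 157) (nat_lit 6) (nat_lit 4) (nat_lit 10) L47428 (by decide +kernel)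
theorem L47430 : W_6 (nat_lit 2) (nat_lit 0x300010001b000da002800000000000000000000000000) (nat_lit 0x0) (nat_lit 0x20000000000000000100008000000000000000000) := D_6 (nat_lit 92) (nat_lit 161) (nat_lit 75) (nat_lit 7) (nat_lit 7) (nat_lit 5) (nat_lit 7) (nat_lit 7) (nat_lit 4) (by decide +kernel)
theorem L47431 : W_6 (nat_lit 3) (nat_lit 0x300010001b000da000800000000000000000000000000) (nat_lit 0x0) (nat_lit 0x28000000000002000100008000000000000000000) := T_6 (nat_lit 109) (nat_lit 159) (nat_lit 5) (nat_lit 7) (nat_lit 6) L47430 (by decide +kernel)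
theorem L47432 : W_6 (nat_lit 4) (nat_lit 0x3000100013000da000800000000000000000000000000) (nat_lit 0x0) (nat_lit 0x2000000028000800000002000100008000000000000000000) := T_6 (nat_lit 143) (nat_lit 193) (nat_lit 5) (nat_lit 7) (nat_lit 7) L47431 (by decide +kernel)
theorem L47433 : W_6 (nat_lit 5) (nat_lit 0x30001000130009a000800000000000000000000000000) (nat_lit 0x0) (nat_lit 0x2000000028000800060002000100008000000000000000000) := T_6 (nat_lit 126) (nat_lit 125) (nat_lit 1) (nat_lit 8) (nat_lit 7) L47432 (by decide +kernel)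
theorem L47434 : W_6 (nat_lit 2) (nat_lit 0x340010001b000da002800080000000000000000000000) (nat_lit 0x0) (nat_lit 0x10000c000000000000000000) := D_6 (nat_lit 92) (nat_lit 75) (nat_lit 74) (nat_lit 7) (nat_lit 7) (nat_lit 4) (nat_lit 4) (nat_lit 7) (nat_lit 8) (by decide +kernel)
theorem L47435 : W_6 (nat_lit 3) (nat_lit 0x340010001b000da002800000000000000000000000000) (nat_lit 0x0) (nat_lit 0x100018000c000000000000000000) := T_6 (nat_lit 91) (nat_lit 108) (nat_lit 4) (nat_lit 7) (nat_lit 9) L47434 (by decide +kernel)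
theorem L47436 : W_6 (nat_lit 4) (nat_lit 0x340010001b000da000800000000000000000000000000) (nat_lit 0x0) (nat_lit 0x800000000000300018000c000000000000000000) := T_6 (nat_lit 109) (nat_lit 159) (nat_lit 5) (nat_lit 7) (nat_lit 6) L47435 (by decide +kernel)
theorem L47437 : W_6 (nat_lit 5) (nat_lit 0x300010001b000da000800000000000000000000000000) (nat_lit 0x0) (nat_lit 0x4000a00000000000300018000c000000000000000000) := T_6 (nat_lit 174) (nat_lit 157) (nat_lit 6) (nat_lit 4) (nat_lit 10) L47436 (by decide +kernel)
theorem L47438 : W_6 (nat_lit 6) (nat_lit 0x3000100013000da000800000000000000000000000000) (nat_lit 0x0) (nat_lit 0x200004000a00080000000300018000c000000000000000000) := T_6 (nat_lit 143) (nat_lit 193) (nat_lit 5) (nat_lit 7) (nat_lit 7) L47437 (by decide +kernel)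
theorem L47439 : W_6 (nat_lit 7) (nat_lit 0x30001000130009a000800000000000000000000000000) (nat_lit 0x0) (nat_lit 0x200004000a00080006000300018000c000000000000000000) := T_6 (nat_lit 126) (nat_lit 125) (nat_lit 1) (nat_lit 8) (nat_lit 7) L47438 (by decide +kernel)
theorem L47440 : W_6 (nat_lit 2) (nat_lit 0x4003e0010001b000da000800000000000000000000000000) (nat_lit 0x0) (nat_lit 0x1800080000000000000000000000000000000000) := D_6 (nat_lit 156) (nat_lit 155) (nat_lit 139) (nat_lit 0) (nat_lit 6) (nat_lit 10) (nat_lit 6) (nat_lit 3) (nat_lit 11) (by decide +kernel)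
theorem L47441 : W_6 (nat_lit 3) (nat_lit 0x4003c0010001b000da000800000000000000000000000000) (nat_lit 0x0) (nat_lit 0x200020001800080000000000000000000000000000000000) := T_6 (nat_lit 173) (nat_lit 189) (nat_lit 1) (nat_lit 6) (nat_lit 10) L47440 (by decide +kernel)
theorem L47442 : W_6 (nat_lit 4) (nat_lit 0x3c0010001b000da000800000000000000000000000000) (nat_lit 0x0) (nat_lit 0xe00020001800080000000000000000000000000000000000) := T_6 (nat_lit 190) (nat_lit 191) (nat_lit 1) (nat_lit 7) (nat_lit 10) L47441 (by decide +kernel)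
theorem L47443 : W_6 (nat_lit 5) (nat_lit 0x340010001b000da000800000000000000000000000000) (nat_lit 0x0) (nat_lit 0xe000a0021800080000000000000000000000000000000000) := T_6 (nat_lit 175) (nat_lit 161) (nat_lit 2) (nat_lit 4) (nat_lit 10) L47442 (by decide +kernel)
theorem L47444 : W_6 (nat_lit 6) (nat_lit 0x300010001b000da000800000000000000000000000000) (nat_lit 0x0) (nat_lit 0xe000e0023800080000000000000000000000000000000000) := T_6 (nat_lit 174) (nat_lit 157) (nat_lit 6) (nat_lit 4) (nat_lit 10) L47443 (by decide +kernel)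
theorem L47445 : W_6 (nat_lit 7) (nat_lit 0x3000100013000da000800000000000000000000000000) (nat_lit 0x0) (nat_lit 0x2e000e0023800880000000000000000000000000000000000) := T_6 (nat_lit 143) (nat_lit 193) (nat_lit 5) (nat_lit 7) (nat_lit 7) L47444 (by decide +kernel)
theorem L47446 : W_6 (nat_lit 8) (nat_lit 0x30001000130009a000800000000000000000000000000) (nat_lit 0x0) (nat_lit 0x2e000e0023800880060000000000000000000000000000000) := T_6 (nat_lit 126) (nat_lit 125) (nat_lit 1) (nat_lit 8) (nat_lit 7) L47445 (by decide +kernel)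
theorem L47447 : W_6 (nat_lit 9) (nat_lit 0x20001000130009a000800000000000000000000000000) (nat_lit 0x0) (nat_lit 0x2e001e002b80088006000300018000c000000000000000000) := Q_6 (nat_lit 176) (C_6 L47429 (C_6 L47433 (C_6 L47439 (C_6 L47446 N_6)))) (by decide +kernel)
theorem L47448 : W_6 (nat_lit 12) (nat_lit 0x20001000130009a000000000000000000000000000000) (nat_lit 0x0) (nat_lit 0x2e001e002b800880060003b801f800fe00000000000000000) := Q_6 (nat_lit 107) (C_6 L47404 (C_6 L47425 (C_6 L47447 N_6))) (by decide +kernel)
theorem L47449 : W_6 (nat_lit 2) (nat_lit 0x2000100013000de000900000000000000000000000000) (nat_lit 0x0) (nat_lit 0x2000000000000000040002000000000000000000) := D_6 (nat_lit 90) (nat_lit 157) (nat_lit 73) (nat_lit 5) (nat_lit 5) (nat_lit 5) (nat_lit 5) (nat_lit 5) (nat_lit 4) (by decide +kernel)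
theorem L47450 : W_6 (nat_lit 3) (nat_lit 0x2000100013000de000100000000000000000000000000) (nat_lit 0x0) (nat_lit 0x2000000000001800040002000000000000000000) := T_6 (nat_lit 107) (nat_lit 108) (nat_lit 2) (nat_lit 2) (nat_lit 7) L47449 (by decide +kernel)
theorem L47451 : W_6 (nat_lit 4) (nat_lit 0x2000100013000de000000000000000000000000000000) (nat_lit 0x0) (nat_lit 0x2000000000001980040002000000000000000000) := T_6 (nat_lit 104) (nat_lit 103) (nat_lit 0) (nat_lit 5) (nat_lit 7) L47450 (by decide +kernel)
theorem L47452 : W_6 (nat_lit 5) (nat_lit 0x2000100013000da000000000000000000000000000000) (nat_lit 0x0) (nat_lit 0x2000000005001980040002000000000000000000) := T_6 (nat_lit 122) (nat_lit 120) (nat_lit 3) (nat_lit 1) (nat_lit 7) L47451 (by decide +kernel)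
theorem L47453 : W_6 (nat_lit 6) (nat_lit 0x20001000130009a000000000000000000000000000000) (nat_lit 0x0) (nat_lit 0x2000000065001980040002000000000000000000) := T_6 (nat_lit 126) (nat_lit 125) (nat_lit 1) (nat_lit 8) (nat_lit 7) L47452 (by decide +kernel)
theorem L47454 : W_6 (nat_lit 2) (nat_lit 0x20001000130009e000900000000000000000000000000) (nat_lit 0x0) (nat_lit 0x2000000000000000040002000000000000000000) := D_6 (nat_lit 90) (nat_lit 157) (nat_lit 73) (nat_lit 5) (nat_lit 5) (nat_lit 5) (nat_lit 5) (nat_lit 5) (nat_lit 4) (by decide +kernel)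
theorem L47455 : W_6 (nat_lit 3) (nat_lit 0x20001000130009e000100000000000000000000000000) (nat_lit 0x0) (nat_lit 0x2000000000001800040002000000000000000000) := T_6 (nat_lit 107) (nat_lit 108) (nat_lit 2) (nat_lit 2) (nat_lit 7) L47454 (by decide +kernel)
theorem L47456 : W_6 (nat_lit 4) (nat_lit 0x20001000130009e000000000000000000000000000000) (nat_lit 0x0) (nat_lit 0x2000000000001980040002000000000000000000) := T_6 (nat_lit 104) (nat_lit 103) (nat_lit 0) (nat_lit 5) (nat_lit 7) L47455 (by decide +kernel)
theorem L47457 : W_6 (nat_lit 5) (nat_lit 0x20001000130009a000000000000000000000000000000) (nat_lit 0x0) (nat_lit 0x2000000005001980040002000000000000000000) := T_6 (nat_lit 122) (nat_lit 120) (nat_lit 3) (nat_lit 1) (nat_lit 7) L47456 (by decide +kernel)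
theorem L47458 : W_6 (nat_lit 4) (nat_lit 0x20001000130009a000000000000000000000000000000) (nat_lit 0x0) (nat_lit 0x65000380000000000000000000000000) := T_6 (nat_lit 122) (nat_lit 120) (nat_lit 3) (nat_lit 1) (nat_lit 7) L43832 (by decide +kernel)
theorem L47459 : W_6 (nat_lit 2) (nat_lit 0x2000100013000de000800000000000000000000000000) (nat_lit 0x0) (nat_lit 0x2000000000000000040002000000000000000000) := D_6 (nat_lit 90) (nat_lit 157) (nat_lit 73) (nat_lit 5) (nat_lit 5) (nat_lit 5) (nat_lit 5) (nat_lit 5) (nat_lit 4) (by decide +kernel)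
theorem L47460 : W_6 (nat_lit 3) (nat_lit 0x2000100013000de000000000000000000000000000000) (nat_lit 0x0) (nat_lit 0x2000000000001800040002000000000000000000) := T_6 (nat_lit 107) (nat_lit 108) (nat_lit 2) (nat_lit 2) (nat_lit 7) L47459 (by decide +kernel)
theorem L47461 : W_6 (nat_lit 4) (nat_lit 0x2000100013000da000000000000000000000000000000) (nat_lit 0x0) (nat_lit 0x2000000005001800040002000000000000000000) := T_6 (nat_lit 122) (nat_lit 120) (nat_lit 3) (nat_lit 1) (nat_lit 7) L47460 (by decide +kernel)
theorem L47462 : W_6 (nat_lit 5) (nat_lit 0x20001000130009a000000000000000000000000000000) (nat_lit 0x0) (nat_lit 0x2000000065001800040002000000000000000000) := T_6 (nat_lit 126) (nat_lit 125) (nat_lit 1) (nat_lit 8) (nat_lit 7) L47461 (by decide +kernel)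
theorem L47463 : W_6 (nat_lit 13) (nat_lit 0x20001000130008a000000000000000000000000000000) (nat_lit 0x0) (nat_lit 0x2e001e002b800880075003b801f800fe00000000000000000) := Q_6 (nat_lit 124) (C_6 L47448 (C_6 L47453 (C_6 L47386 (C_6 L47457 (C_6 L47458 (C_6 L47462 N_6)))))) (by decide +kernel)
theorem L47464 : W_6 (nat_lit 2) (nat_lit 0x4003e0010801b000da000800000000000000000000000000) (nat_lit 0x0) (nat_lit 0x10000400040000000000000000000000000000000000) := D_6 (nat_lit 172) (nat_lit 154) (nat_lit 138) (nat_lit 0) (nat_lit 5) (nat_lit 10) (nat_lit 7) (nat_lit 2) (nat_lit 7) (by decide +kernel)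
theorem L47465 : W_6 (nat_lit 3) (nat_lit 0x4003e0010001b000da000800000000000000000000000000) (nat_lit 0x0) (nat_lit 0x10001c00040000000000000000000000000000000000) := T_6 (nat_lit 155) (nat_lit 156) (nat_lit 0) (nat_lit 6) (nat_lit 10) L47464 (by decide +kernel)
theorem L47466 : W_6 (nat_lit 4) (nat_lit 0x4003c0010001b000da000800000000000000000000000000) (nat_lit 0x0) (nat_lit 0x200030001c00040000000000000000000000000000000000) := T_6 (nat_lit 173) (nat_lit 189) (nat_lit 1) (nat_lit 6) (nat_lit 10) L47465 (by decide +kernel)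
theorem L47467 : W_6 (nat_lit 5) (nat_lit 0x4003c00100013000da000800000000000000000000000000) (nat_lit 0x0) (nat_lit 0x2200030001c00840000000000000000000000000000000000) := T_6 (nat_lit 143) (nat_lit 193) (nat_lit 5) (nat_lit 7) (nat_lit 7) L47466 (by decide +kernel)
theorem L47468 : W_6 (nat_lit 6) (nat_lit 0x3c00100013000da000800000000000000000000000000) (nat_lit 0x0) (nat_lit 0x2e00030001c00840000000000000000000000000000000000) := T_6 (nat_lit 190) (nat_lit 191) (nat_lit 1) (nat_lit 7) (nat_lit 10) L47467 (by decide +kernel)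
theorem L47469 : W_6 (nat_lit 7) (nat_lit 0x3400100013000da000800000000000000000000000000) (nat_lit 0x0) (nat_lit 0x2e000b0021c00840000000000000000000000000000000000) := T_6 (nat_lit 175) (nat_lit 161) (nat_lit 2) (nat_lit 4) (nat_lit 10) L47468 (by decide +kernel)
theorem L47470 : W_6 (nat_lit 8) (nat_lit 0x3000100013000da000800000000000000000000000000) (nat_lit 0x0) (nat_lit 0x2e000f0023c00840000000000000000000000000000000000) := T_6 (nat_lit 174) (nat_lit 157) (nat_lit 6) (nat_lit 4) (nat_lit 10) L47469 (by decide +kernel)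
theorem L47471 : W_6 (nat_lit 9) (nat_lit 0x30001000130009a000800000000000000000000000000) (nat_lit 0x0) (nat_lit 0x2e000f0023c00840060000000000000000000000000000000) := T_6 (nat_lit 126) (nat_lit 125) (nat_lit 1) (nat_lit 8) (nat_lit 7) L47470 (by decide +kernel)
theorem L47472 : W_6 (nat_lit 10) (nat_lit 0x20001000130009a000800000000000000000000000000) (nat_lit 0x0) (nat_lit 0x2e001f002bc0084006000300018000c000000000000000000) := Q_6 (nat_lit 176) (C_6 L47429 (C_6 L47439 (C_6 L47433 (C_6 L47471 N_6)))) (by decide +kernel)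
theorem L47473 : W_6 (nat_lit 12) (nat_lit 0x20001000130009a000000000000000000000000000000) (nat_lit 0x0) (nat_lit 0x2e001f002bc00840060003b801f800fe00000000000000000) := Q_6 (nat_lit 107) (C_6 L47425 (C_6 L47404 (C_6 L47472 N_6))) (by decide +kernel)
theorem L47474 : W_6 (nat_lit 13) (nat_lit 0x20001000130008a000000000000000000000000000000) (nat_lit 0x0) (nat_lit 0x2e001f002bc00840075003b801f800fe00000000000000000) := Q_6 (nat_lit 124) (C_6 L47473 (C_6 L47462 (C_6 L47458 (C_6 L47457 N_6)))) (by decide +kernel)
theorem L47475 : W_6 (nat_lit 2) (nat_lit 0x200010c0134008a000100000000000000000000000000) (nat_lit 0x0) (nat_lit 0x20003000000000000000000000000000000000000000) := D_6 (nat_lit 156) (nat_lit 157) (nat_lit 173) (nat_lit 2) (nat_lit 1) (nat_lit 9) (nat_lit 7) (nat_lit 2) (nat_lit 6) (by decide +kernel)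
theorem L47476 : W_6 (nat_lit 3) (nat_lit 0x20001080134008a000100000000000000000000000000) (nat_lit 0x0) (nat_lit 0x28003400000000000000000000000000000000000000) := T_6 (nat_lit 154) (nat_lit 171) (nat_lit 5) (nat_lit 2) (nat_lit 6) L47475 (by decide +kernel)
theorem L47477 : W_6 (nat_lit 2) (nat_lit 0x200010c0134008a000300008000000000000000000000) (nat_lit 0x0) (nat_lit 0x80004000200000000000000000) := D_6 (nat_lit 86) (nat_lit 103) (nat_lit 69) (nat_lit 4) (nat_lit 2) (nat_lit 9) (nat_lit 4) (nat_lit 2) (nat_lit 8) (by decide +kernel)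
theorem L47478 : W_6 (nat_lit 3) (nat_lit 0x200010c0134008a000300000000000000000000000000) (nat_lit 0x0) (nat_lit 0x2000000008000c000200000000000000000) := T_6 (nat_lit 87) (nat_lit 137) (nat_lit 5) (nat_lit 2) (nat_lit 5) L47477 (by decide +kernel)
theorem L47479 : W_6 (nat_lit 4) (nat_lit 0x200010c0134008a000100000000000000000000000000) (nat_lit 0x0) (nat_lit 0x2000000028001c000200000000000000000) := T_6 (nat_lit 105) (nat_lit 88) (nat_lit 6) (nat_lit 2) (nat_lit 9) L47478 (by decide +kernel)
theorem L47480 : W_6 (nat_lit 5) (nat_lit 0x20001080134008a000100000000000000000000000000) (nat_lit 0x0) (nat_lit 0x800040002000000028001c000200000000000000000) := T_6 (nat_lit 154) (nat_lit 171) (nat_lit 5) (nat_lit 2) (nat_lit 6) L47479 (by decide +kernel)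
theorem L47481 : W_6 (nat_lit 2) (nat_lit 0x21001080134008a000180000000000000000000000000) (nat_lit 0x0) (nat_lit 0x400020001000000000000000000000000000000000000000) := D_6 (nat_lit 173) (nat_lit 156) (nat_lit 190) (nat_lit 7) (nat_lit 2) (nat_lit 6) (nat_lit 7) (nat_lit 2) (nat_lit 7) (by decide +kernel)
theorem L47482 : W_6 (nat_lit 3) (nat_lit 0x20001080134008a000180000000000000000000000000) (nat_lit 0x0) (nat_lit 0x400030001000000001000000000000000000000000000000) := T_6 (nat_lit 172) (nat_lit 120) (nat_lit 4) (nat_lit 2) (nat_lit 10) L47481 (by decide +kernel)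
theorem L47483 : W_6 (nat_lit 4) (nat_lit 0x20001080134008a000100000000000000000000000000) (nat_lit 0x0) (nat_lit 0x400030001000000001000080004000000000000000000000) := T_6 (nat_lit 103) (nat_lit 86) (nat_lit 4) (nat_lit 2) (nat_lit 9) L47482 (by decide +kernel)
theorem L47484 : W_6 (nat_lit 6) (nat_lit 0x20001080134008a000000000000000000000000000000) (nat_lit 0x0) (nat_lit 0x40003800340002000100038001c000200000000000000000) := Q_6 (nat_lit 104) (C_6 L47476 (C_6 L47480 (C_6 L47483 N_6))) (by decide +kernel)
theorem L47485 : W_6 (nat_lit 2) (nat_lit 0x23801080134008a000100000000000000000000000000) (nat_lit 0x0) (nat_lit 0x1000080004000000000000000000000) := D_6 (nat_lit 103) (nat_lit 120) (nat_lit 86) (nat_lit 4) (nat_lit 2) (nat_lit 10) (nat_lit 4) (nat_lit 2) (nat_lit 9) (by decide +kernel)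
theorem L47486 : W_6 (nat_lit 3) (nat_lit 0x23801080134008a000000000000000000000000000000) (nat_lit 0x0) (nat_lit 0x400000001000180004000000000000000000000) := T_6 (nat_lit 104) (nat_lit 154) (nat_lit 5) (nat_lit 2) (nat_lit 6) L47485 (by decide +kernel)
theorem L47487 : W_6 (nat_lit 4) (nat_lit 0x21801080134008a000000000000000000000000000000) (nat_lit 0x0) (nat_lit 0x400020000400000001000180004000000000000000000000) := T_6 (nat_lit 173) (nat_lit 190) (nat_lit 7) (nat_lit 2) (nat_lit 7) L47486 (by decide +kernel)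
theorem L47488 : W_6 (nat_lit 5) (nat_lit 0x21001080134008a000000000000000000000000000000) (nat_lit 0x0) (nat_lit 0x500028000400000001000180004000000000000000000000) := T_6 (nat_lit 171) (nat_lit 188) (nat_lit 5) (nat_lit 2) (nat_lit 7) L47487 (by decide +kernel)
theorem L47489 : W_6 (nat_lit 2) (nat_lit 0x20021001080134008b000000000000000000000000000000) (nat_lit 0x0) (nat_lit 0x2000100008000000000000000000000000000000000000000000) := D_6 (nat_lit 188) (nat_lit 205) (nat_lit 171) (nat_lit 5) (nat_lit 2) (nat_lit 8) (nat_lit 5) (nat_lit 2) (nat_lit 7) (by decide +kernel)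
theorem L47490 : W_6 (nat_lit 3) (nat_lit 0x21001080134008b000000000000000000000000000000) (nat_lit 0x0) (nat_lit 0x2000300008000000020000000000000000000000000000000000) := T_6 (nat_lit 189) (nat_lit 137) (nat_lit 4) (nat_lit 2) (nat_lit 11) L47489 (by decide +kernel)
theorem L47491 : W_6 (nat_lit 4) (nat_lit 0x21001080134008a000000000000000000000000000000) (nat_lit 0x0) (nat_lit 0x2000300008000000020001000080000000000000000000000000) := T_6 (nat_lit 120) (nat_lit 103) (nat_lit 4) (nat_lit 2) (nat_lit 10) L47490 (by decide +kernel)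
theorem L47492 : W_6 (nat_lit 2) (nat_lit 0x23801080134008a000100014000000000000000000000) (nat_lit 0x0) (nat_lit 0x8000a00000000000000000) := D_6 (nat_lit 87) (nat_lit 69) (nat_lit 71) (nat_lit 4) (nat_lit 2) (nat_lit 8) (nat_lit 6) (nat_lit 2) (nat_lit 8) (by decide +kernel)
theorem L47493 : W_6 (nat_lit 3) (nat_lit 0x23801080134008a000100004000000000000000000000) (nat_lit 0x0) (nat_lit 0x200018000a00000000000000000) := T_6 (nat_lit 88) (nat_lit 105) (nat_lit 6) (nat_lit 2) (nat_lit 9) L47492 (by decide +kernel)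
theorem L47494 : W_6 (nat_lit 4) (nat_lit 0x23801080134008a000100000000000000000000000000) (nat_lit 0x0) (nat_lit 0x28001c000a00000000000000000) := T_6 (nat_lit 86) (nat_lit 103) (nat_lit 4) (nat_lit 2) (nat_lit 9) L47493 (by decide +kernel)
theorem L47495 : W_6 (nat_lit 5) (nat_lit 0x23801080134008a000000000000000000000000000000) (nat_lit 0x0) (nat_lit 0x40000000000038001c000a00000000000000000) := T_6 (nat_lit 104) (nat_lit 154) (nat_lit 5) (nat_lit 2) (nat_lit 6) L47494 (by decide +kernel)
theorem L47496 : W_6 (nat_lit 6) (nat_lit 0x21801080134008a000000000000000000000000000000) (nat_lit 0x0) (nat_lit 0x40002000040000000000038001c000a00000000000000000) := T_6 (nat_lit 173) (nat_lit 190) (nat_lit 7) (nat_lit 2) (nat_lit 7) L47495 (by decide +kernel)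
theorem L47497 : W_6 (nat_lit 7) (nat_lit 0x21001080134008a000000000000000000000000000000) (nat_lit 0x0) (nat_lit 0x50002800040000000000038001c000a00000000000000000) := T_6 (nat_lit 171) (nat_lit 188) (nat_lit 5) (nat_lit 2) (nat_lit 7) L47496 (by decide +kernel)
theorem L47498 : W_6 (nat_lit 2) (nat_lit 0x20021001080134008b000000000000000000000000000000) (nat_lit 0x0) (nat_lit 0x8000400020000000000000000000000000000000000000000000) := D_6 (nat_lit 190) (nat_lit 173) (nat_lit 207) (nat_lit 7) (nat_lit 2) (nat_lit 7) (nat_lit 7) (nat_lit 2) (nat_lit 8) (by decide +kernel)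
theorem L47499 : W_6 (nat_lit 3) (nat_lit 0x21001080134008b000000000000000000000000000000) (nat_lit 0x0) (nat_lit 0x8000600020000000020000000000000000000000000000000000) := T_6 (nat_lit 189) (nat_lit 137) (nat_lit 4) (nat_lit 2) (nat_lit 11) L47498 (by decide +kernel)
theorem L47500 : W_6 (nat_lit 4) (nat_lit 0x21001080134008a000000000000000000000000000000) (nat_lit 0x0) (nat_lit 0x8000600020000000020001000080000000000000000000000000) := T_6 (nat_lit 120) (nat_lit 103) (nat_lit 4) (nat_lit 2) (nat_lit 10) L47499 (by decide +kernel)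
theorem L47501 : W_6 (nat_lit 2) (nat_lit 0x238010c0134008a000000000000000000000000000000) (nat_lit 0x0) (nat_lit 0xc0000200000000000000000000000000000000000000) := D_6 (nat_lit 174) (nat_lit 175) (nat_lit 153) (nat_lit 0) (nat_lit 5) (nat_lit 10) (nat_lit 0) (nat_lit 4) (nat_lit 10) (by decide +kernel)
theorem L47502 : W_6 (nat_lit 3) (nat_lit 0x23801080134008a000000000000000000000000000000) (nat_lit 0x0) (nat_lit 0xc0000600000000000100000000000000000000000000) := T_6 (nat_lit 154) (nat_lit 104) (nat_lit 5) (nat_lit 2) (nat_lit 6) L47501 (by decide +kernel)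
theorem L47503 : W_6 (nat_lit 4) (nat_lit 0x23001080134008a000000000000000000000000000000) (nat_lit 0x0) (nat_lit 0x1000c8000600000000000100000000000000000000000000) := T_6 (nat_lit 171) (nat_lit 188) (nat_lit 5) (nat_lit 2) (nat_lit 7) L47502 (by decide +kernel)
theorem L47504 : W_6 (nat_lit 5) (nat_lit 0x21001080134008a000000000000000000000000000000) (nat_lit 0x0) (nat_lit 0x5000e8000600000000000100000000000000000000000000) := T_6 (nat_lit 173) (nat_lit 190) (nat_lit 7) (nat_lit 2) (nat_lit 7) L47503 (by decide +kernel)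
theorem L47505 : W_6 (nat_lit 8) (nat_lit 0x20001080134008a000000000000000000000000000000) (nat_lit 0x0) (nat_lit 0xa0007000f800060002000100038001c000a00000000000000000) := Q_6 (nat_lit 172) (C_6 L47488 (C_6 L47491 (C_6 L47497 (C_6 L47500 (C_6 L47504 N_6))))) (by decide +kernel)
theorem L47506 : W_6 (nat_lit 6) (nat_lit 0x20001080134008a000000000000000000000000000000) (nat_lit 0x0) (nat_lit 0xa0007000f8000600020001000180000000000000000000000000) := Q_6 (nat_lit 172) (C_6 L47504 (C_6 L47500 (C_6 L47491 N_6))) (by decide +kernel)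
theorem L47507 : W_6 (nat_lit 2) (nat_lit 0x200011c0134008a000100008000000000000000000000) (nat_lit 0x0) (nat_lit 0x80004000200000000000000000) := D_6 (nat_lit 86) (nat_lit 103) (nat_lit 69) (nat_lit 4) (nat_lit 2) (nat_lit 9) (nat_lit 4) (nat_lit 2) (nat_lit 8) (by decide +kernel)
theorem L47508 : W_6 (nat_lit 3) (nat_lit 0x200011c0134008a000100000000000000000000000000) (nat_lit 0x0) (nat_lit 0x2000000008000c000200000000000000000) := T_6 (nat_lit 87) (nat_lit 137) (nat_lit 5) (nat_lit 2) (nat_lit 5) L47507 (by decide +kernel)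
theorem L47509 : W_6 (nat_lit 4) (nat_lit 0x200010c0134008a000100000000000000000000000000) (nat_lit 0x0) (nat_lit 0x300002000000008000c000200000000000000000) := T_6 (nat_lit 156) (nat_lit 157) (nat_lit 2) (nat_lit 1) (nat_lit 9) L47508 (by decide +kernel)
theorem L47510 : W_6 (nat_lit 5) (nat_lit 0x20001080134008a000100000000000000000000000000) (nat_lit 0x0) (nat_lit 0x800340002000000008000c000200000000000000000) := T_6 (nat_lit 154) (nat_lit 171) (nat_lit 5) (nat_lit 2) (nat_lit 6) L47509 (by decide +kernel)
theorem L47511 : W_6 (nat_lit 2) (nat_lit 0x20001080134008b000180018000000000000000000000) (nat_lit 0x0) (nat_lit 0x20000000000000000400020000000000000) := D_6 (nat_lit 70) (nat_lit 53) (nat_lit 137) (nat_lit 5) (nat_lit 2) (nat_lit 3) (nat_lit 5) (nat_lit 2) (nat_lit 4) (by decide +kernel)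
theorem L47512 : W_6 (nat_lit 3) (nat_lit 0x20001080134008b000180010000000000000000000000) (nat_lit 0x0) (nat_lit 0x20000000000008000c00020000000000000) := T_6 (nat_lit 87) (nat_lit 71) (nat_lit 6) (nat_lit 2) (nat_lit 8) L47511 (by decide +kernel)
theorem L47513 : W_6 (nat_lit 4) (nat_lit 0x20001080134008b000180000000000000000000000000) (nat_lit 0x0) (nat_lit 0x20000000200018000c00020000000000000) := T_6 (nat_lit 88) (nat_lit 105) (nat_lit 6) (nat_lit 2) (nat_lit 9) L47512 (by decide +kernel)
theorem L47514 : W_6 (nat_lit 5) (nat_lit 0x20001080134008a000180000000000000000000000000) (nat_lit 0x0) (nat_lit 0x10000000020001000200018000c00020000000000000) := T_6 (nat_lit 120) (nat_lit 172) (nat_lit 4) (nat_lit 2) (nat_lit 10) L47513 (by decide +kernel)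
theorem L47515 : W_6 (nat_lit 6) (nat_lit 0x20001080134008a000100000000000000000000000000) (nat_lit 0x0) (nat_lit 0x1000000002000100028001c000c00020000000000000) := T_6 (nat_lit 103) (nat_lit 86) (nat_lit 4) (nat_lit 2) (nat_lit 9) L47514 (by decide +kernel)
theorem L47516 : W_6 (nat_lit 2) (nat_lit 0x20801080134008a000380000000000000000000000000) (nat_lit 0x0) (nat_lit 0x100010000000000001000000000000000000000000000000) := D_6 (nat_lit 172) (nat_lit 120) (nat_lit 188) (nat_lit 4) (nat_lit 2) (nat_lit 10) (nat_lit 5) (nat_lit 2) (nat_lit 7) (by decide +kernel)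
theorem L47517 : W_6 (nat_lit 3) (nat_lit 0x20801080134008a000300000000000000000000000000) (nat_lit 0x0) (nat_lit 0x100010000000000001000080004000000000000000000000) := T_6 (nat_lit 103) (nat_lit 86) (nat_lit 4) (nat_lit 2) (nat_lit 9) L47516 (by decide +kernel)
theorem L47518 : W_6 (nat_lit 4) (nat_lit 0x20001080134008a000300000000000000000000000000) (nat_lit 0x0) (nat_lit 0x100018000400000001000080004000000000000000000000) := T_6 (nat_lit 171) (nat_lit 154) (nat_lit 5) (nat_lit 2) (nat_lit 6) L47517 (by decide +kernel)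
theorem L47519 : W_6 (nat_lit 5) (nat_lit 0x20001080134008a000100000000000000000000000000) (nat_lit 0x0) (nat_lit 0x100018000400000001000280014000000000000000000000) := T_6 (nat_lit 105) (nat_lit 88) (nat_lit 6) (nat_lit 2) (nat_lit 9) L47518 (by decide +kernel)
theorem L47520 : W_6 (nat_lit 2) (nat_lit 0x200010c0134008a000100010000000000000000000000) (nat_lit 0x0) (nat_lit 0x20000000000008000800000000000000000) := D_6 (nat_lit 87) (nat_lit 71) (nat_lit 137) (nat_lit 6) (nat_lit 2) (nat_lit 8) (nat_lit 5) (nat_lit 2) (nat_lit 5) (by decide +kernel)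
theorem L47521 : W_6 (nat_lit 3) (nat_lit 0x20001080134008a000100010000000000000000000000) (nat_lit 0x0) (nat_lit 0x8000400020000000000008000800000000000000000) := T_6 (nat_lit 154) (nat_lit 171) (nat_lit 5) (nat_lit 2) (nat_lit 6) L47520 (by decide +kernel)
theorem L47522 : W_6 (nat_lit 4) (nat_lit 0x20001080134008a000100000000000000000000000000) (nat_lit 0x0) (nat_lit 0x8000400020000000200018000800000000000000000) := T_6 (nat_lit 88) (nat_lit 105) (nat_lit 6) (nat_lit 2) (nat_lit 9) L47521 (by decide +kernel)
theorem L47523 : W_6 (nat_lit 7) (nat_lit 0x20001080134008a000000000000000000000000000000) (nat_lit 0x0) (nat_lit 0x10001800340002000100038001c000e00020000000000000) := Q_6 (nat_lit 104) (C_6 L47480 (C_6 L47510 (C_6 L47515 (C_6 L47519 (C_6 L47522 N_6))))) (by decide +kernel)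
theorem L47524 : W_6 (nat_lit 2) (nat_lit 0x23801080134008a000080000000000000000000000000) (nat_lit 0x0) (nat_lit 0x1000000000000100004000000000000000000000) := D_6 (nat_lit 104) (nat_lit 156) (nat_lit 86) (nat_lit 7) (nat_lit 2) (nat_lit 6) (nat_lit 4) (nat_lit 2) (nat_lit 9) (by decide +kernel)
theorem L47525 : W_6 (nat_lit 3) (nat_lit 0x23801080134008a000000000000000000000000000000) (nat_lit 0x0) (nat_lit 0x1000000001000180004000000000000000000000) := T_6 (nat_lit 103) (nat_lit 120) (nat_lit 4) (nat_lit 2) (nat_lit 10) L47524 (by decide +kernel)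
theorem L47526 : W_6 (nat_lit 4) (nat_lit 0x21801080134008a000000000000000000000000000000) (nat_lit 0x0) (nat_lit 0x400020001000000001000180004000000000000000000000) := T_6 (nat_lit 173) (nat_lit 190) (nat_lit 7) (nat_lit 2) (nat_lit 7) L47525 (by decide +kernel)
theorem L47527 : W_6 (nat_lit 5) (nat_lit 0x21001080134008a000000000000000000000000000000) (nat_lit 0x0) (nat_lit 0x500028001000000001000180004000000000000000000000) := T_6 (nat_lit 171) (nat_lit 188) (nat_lit 5) (nat_lit 2) (nat_lit 7) L47526 (by decide +kernel)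
theorem L47528 : W_6 (nat_lit 5) (nat_lit 0x23801080134008a000000000000000000000000000000) (nat_lit 0x0) (nat_lit 0x100000000000038001c000a00000000000000000) := T_6 (nat_lit 104) (nat_lit 156) (nat_lit 7) (nat_lit 2) (nat_lit 6) L47494 (by decide +kernel)
theorem L47529 : W_6 (nat_lit 6) (nat_lit 0x23001080134008a000000000000000000000000000000) (nat_lit 0x0) (nat_lit 0x10000800100000000000038001c000a00000000000000000) := T_6 (nat_lit 171) (nat_lit 188) (nat_lit 5) (nat_lit 2) (nat_lit 7) L47528 (by decide +kernel)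
theorem L47530 : W_6 (nat_lit 7) (nat_lit 0x21001080134008a000000000000000000000000000000) (nat_lit 0x0) (nat_lit 0x50002800100000000000038001c000a00000000000000000) := T_6 (nat_lit 173) (nat_lit 190) (nat_lit 7) (nat_lit 2) (nat_lit 7) L47529 (by decide +kernel)
theorem L47531 : W_6 (nat_lit 2) (nat_lit 0x50021001080134008a000000000000000000000000000000) (nat_lit 0x0) (nat_lit 0xa000200000000000000000000000000000000000000000000000) := D_6 (nat_lit 189) (nat_lit 207) (nat_lit 205) (nat_lit 7) (nat_lit 2) (nat_lit 8) (nat_lit 5) (nat_lit 2) (nat_lit 8) (by decide +kernel)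
theorem L47532 : W_6 (nat_lit 3) (nat_lit 0x40021001080134008a000000000000000000000000000000) (nat_lit 0x0) (nat_lit 0xa000300008000000000000000000000000000000000000000000) := T_6 (nat_lit 188) (nat_lit 171) (nat_lit 5) (nat_lit 2) (nat_lit 7) L47531 (by decide +kernel)
theorem L47533 : W_6 (nat_lit 4) (nat_lit 0x21001080134008a000000000000000000000000000000) (nat_lit 0x0) (nat_lit 0xa000700028000000000000000000000000000000000000000000) := T_6 (nat_lit 190) (nat_lit 173) (nat_lit 7) (nat_lit 2) (nat_lit 7) L47532 (by decide +kernel)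
theorem L47534 : W_6 (nat_lit 8) (nat_lit 0x20001080134008a000000000000000000000000000000) (nat_lit 0x0) (nat_lit 0xa00070003800100002000100038001c000a00000000000000000) := Q_6 (nat_lit 172) (C_6 L47500 (C_6 L47491 (C_6 L47527 (C_6 L47530 (C_6 L47533 N_6))))) (by decide +kernel)
theorem L47535 : W_6 (nat_lit 6) (nat_lit 0x20001080134008a000000000000000000000000000000) (nat_lit 0x0) (nat_lit 0x500038003400000001000380014000000000000000000000) := Q_6 (nat_lit 104) (C_6 L47519 (C_6 L47483 (C_6 L47476 N_6))) (by decide +kernel)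
theorem L47536 : W_6 (nat_lit 2) (nat_lit 0x20001180134008a000100018000000000000000000000) (nat_lit 0x0) (nat_lit 0x80004000200000000000000000) := D_6 (nat_lit 86) (nat_lit 69) (nat_lit 103) (nat_lit 4) (nat_lit 2) (nat_lit 8) (nat_lit 4) (nat_lit 2) (nat_lit 9) (by decide +kernel)
theorem L47537 : W_6 (nat_lit 3) (nat_lit 0x20001180134008a000100010000000000000000000000) (nat_lit 0x0) (nat_lit 0x8000c000a00000000000000000) := T_6 (nat_lit 87) (nat_lit 71) (nat_lit 6) (nat_lit 2) (nat_lit 8) L47536 (by decide +kernel)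
theorem L47538 : W_6 (nat_lit 4) (nat_lit 0x20001080134008a000100010000000000000000000000) (nat_lit 0x0) (nat_lit 0x2000100000000000008000c000a00000000000000000) := T_6 (nat_lit 156) (nat_lit 173) (nat_lit 7) (nat_lit 2) (nat_lit 6) L47537 (by decide +kernel)
theorem L47539 : W_6 (nat_lit 5) (nat_lit 0x20001080134008a000100000000000000000000000000) (nat_lit 0x0) (nat_lit 0x2000100000000000028001c000a00000000000000000) := T_6 (nat_lit 88) (nat_lit 105) (nat_lit 6) (nat_lit 2) (nat_lit 9) L47538 (by decide +kernel)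
theorem L47540 : W_6 (nat_lit 6) (nat_lit 0x20001080134008a000000000000000000000000000000) (nat_lit 0x0) (nat_lit 0x2800340002000000038001c000a00000000000000000) := Q_6 (nat_lit 104) (C_6 L47522 (C_6 L47510 (C_6 L47539 (C_6 L47476 N_6)))) (by decide +kernel)
theorem L47541 : W_6 (nat_lit 2) (nat_lit 0x24001280134008a000000000000000000000000000000) (nat_lit 0x0) (nat_lit 0x800000000000000010000800000000000000000000000000) := D_6 (nat_lit 124) (nat_lit 191) (nat_lit 107) (nat_lit 6) (nat_lit 4) (nat_lit 11) (nat_lit 6) (nat_lit 4) (nat_lit 10) (by decide +kernel)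
theorem L47542 : W_6 (nat_lit 2) (nat_lit 0x800240012c0134008a000000000000000000000000000000) (nat_lit 0x0) (nat_lit 0x20001000080000000000000000000000000000000000000000000) := D_6 (nat_lit 192) (nat_lit 209) (nat_lit 175) (nat_lit 7) (nat_lit 4) (nat_lit 8) (nat_lit 7) (nat_lit 4) (nat_lit 7) (by decide +kernel)
theorem L47543 : W_6 (nat_lit 3) (nat_lit 0x240012c0134008a000000000000000000000000000000) (nat_lit 0x0) (nat_lit 0x20001800080000000000010000000000000000000000000000000) := T_6 (nat_lit 191) (nat_lit 124) (nat_lit 6) (nat_lit 4) (nat_lit 11) L47542 (by decide +kernel)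
theorem L47544 : W_6 (nat_lit 4) (nat_lit 0x24001280134008a000000000000000000000000000000) (nat_lit 0x0) (nat_lit 0x20001800080001400000010000000000000000000000000000000) := T_6 (nat_lit 154) (nat_lit 156) (nat_lit 2) (nat_lit 1) (nat_lit 9) L47543 (by decide +kernel)
theorem L47545 : W_6 (nat_lit 2) (nat_lit 0x2c001280134008a000000000000000000000000000000) (nat_lit 0x0) (nat_lit 0x100021000000000000000000000000000000000000000) := D_6 (nat_lit 176) (nat_lit 161) (nat_lit 156) (nat_lit 2) (nat_lit 4) (nat_lit 10) (nat_lit 0) (nat_lit 7) (nat_lit 10) (by decide +kernel)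
theorem L47546 : W_6 (nat_lit 3) (nat_lit 0x24001280134008a000000000000000000000000000000) (nat_lit 0x0) (nat_lit 0x1000180021000000000000000000000000000000000000000) := T_6 (nat_lit 175) (nat_lit 192) (nat_lit 7) (nat_lit 4) (nat_lit 7) L47545 (by decide +kernel)
theorem L47547 : W_6 (nat_lit 5) (nat_lit 0x20001280134008a000000000000000000000000000000) (nat_lit 0x0) (nat_lit 0x200018001c0021400000010000800000000000000000000000000) := Q_6 (nat_lit 174) (C_6 L47541 (C_6 L47544 (C_6 L47546 N_6))) (by decide +kernel)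
theorem L47548 : W_6 (nat_lit 2) (nat_lit 0x80026001280134008a000000000000000000000000000000) (nat_lit 0x0) (nat_lit 0x20001000080000000000000000000000000000000000000000000) := D_6 (nat_lit 192) (nat_lit 209) (nat_lit 175) (nat_lit 7) (nat_lit 4) (nat_lit 8) (nat_lit 7) (nat_lit 4) (nat_lit 7) (by decide +kernel)
theorem L47549 : W_6 (nat_lit 3) (nat_lit 0x26001280134008a000000000000000000000000000000) (nat_lit 0x0) (nat_lit 0x20001800080000000000010000000000000000000000000000000) := T_6 (nat_lit 191) (nat_lit 124) (nat_lit 6) (nat_lit 4) (nat_lit 11) L47548 (by decide +kernel)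
theorem L47550 : W_6 (nat_lit 4) (nat_lit 0x24001280134008a000000000000000000000000000000) (nat_lit 0x0) (nat_lit 0x20001c000a0000000000010000000000000000000000000000000) := T_6 (nat_lit 173) (nat_lit 190) (nat_lit 5) (nat_lit 4) (nat_lit 7) L47549 (by decide +kernel)
theorem L47551 : W_6 (nat_lit 2) (nat_lit 0x3c001280134008a000000000000000000000000000000) (nat_lit 0x0) (nat_lit 0x400020008000000000000000000000000000000000000000) := D_6 (nat_lit 173) (nat_lit 159) (nat_lit 190) (nat_lit 2) (nat_lit 3) (nat_lit 10) (nat_lit 5) (nat_lit 4) (nat_lit 7) (by decide +kernel)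
theorem L47552 : W_6 (nat_lit 3) (nat_lit 0x2c001280134008a000000000000000000000000000000) (nat_lit 0x0) (nat_lit 0x400120028000000000000000000000000000000000000000) := T_6 (nat_lit 176) (nat_lit 161) (nat_lit 2) (nat_lit 4) (nat_lit 10) L47551 (by decide +kernel)
theorem L47553 : W_6 (nat_lit 4) (nat_lit 0x24001280134008a000000000000000000000000000000) (nat_lit 0x0) (nat_lit 0x14001a0028000000000000000000000000000000000000000) := T_6 (nat_lit 175) (nat_lit 192) (nat_lit 7) (nat_lit 4) (nat_lit 7) L47552 (by decide +kernel)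
theorem L47554 : W_6 (nat_lit 5) (nat_lit 0x20001280134008a000000000000000000000000000000) (nat_lit 0x0) (nat_lit 0x20001c001e0028000000010000800000000000000000000000000) := Q_6 (nat_lit 174) (C_6 L47541 (C_6 L47550 (C_6 L47553 N_6))) (by decide +kernel)
theorem L47555 : W_6 (nat_lit 2) (nat_lit 0x200230012c0134008b000000000000000000000000000000) (nat_lit 0x0) (nat_lit 0x2000100008000000000000000000000000000000000000000000) := D_6 (nat_lit 188) (nat_lit 205) (nat_lit 171) (nat_lit 5) (nat_lit 2) (nat_lit 8) (nat_lit 5) (nat_lit 2) (nat_lit 7) (by decide +kernel)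
theorem L47556 : W_6 (nat_lit 3) (nat_lit 0x230012c0134008b000000000000000000000000000000) (nat_lit 0x0) (nat_lit 0x2000300008000000020000000000000000000000000000000000) := T_6 (nat_lit 189) (nat_lit 137) (nat_lit 4) (nat_lit 2) (nat_lit 11) L47555 (by decide +kernel)
theorem L47557 : W_6 (nat_lit 4) (nat_lit 0x230012c0134008a000000000000000000000000000000) (nat_lit 0x0) (nat_lit 0x2000300008000000020001000080000000000000000000000000) := T_6 (nat_lit 120) (nat_lit 103) (nat_lit 4) (nat_lit 2) (nat_lit 10) L47556 (by decide +kernel)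
theorem L47558 : W_6 (nat_lit 5) (nat_lit 0x210012c0134008a000000000000000000000000000000) (nat_lit 0x0) (nat_lit 0x2000700028000000020001000080000000000000000000000000) := T_6 (nat_lit 173) (nat_lit 190) (nat_lit 7) (nat_lit 2) (nat_lit 7) L47557 (by decide +kernel)
theorem L47559 : W_6 (nat_lit 6) (nat_lit 0x21001280134008a000000000000000000000000000000) (nat_lit 0x0) (nat_lit 0x2000700028001400020001000080000000000000000000000000) := T_6 (nat_lit 154) (nat_lit 156) (nat_lit 2) (nat_lit 1) (nat_lit 9) L47558 (by decide +kernel)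
theorem L47560 : W_6 (nat_lit 2) (nat_lit 0x20021001280134008b000000000000000000000000000000) (nat_lit 0x0) (nat_lit 0x2000100008000000000000000000000000000000000000000000) := D_6 (nat_lit 188) (nat_lit 205) (nat_lit 171) (nat_lit 5) (nat_lit 2) (nat_lit 8) (nat_lit 5) (nat_lit 2) (nat_lit 7) (by decide +kernel)
theorem L47561 : W_6 (nat_lit 3) (nat_lit 0x21001280134008b000000000000000000000000000000) (nat_lit 0x0) (nat_lit 0x2000300008000000020000000000000000000000000000000000) := T_6 (nat_lit 189) (nat_lit 137) (nat_lit 4) (nat_lit 2) (nat_lit 11) L47560 (by decide +kernel)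
theorem L47562 : W_6 (nat_lit 4) (nat_lit 0x21001280134008a000000000000000000000000000000) (nat_lit 0x0) (nat_lit 0x2000300008000000020001000080000000000000000000000000) := T_6 (nat_lit 120) (nat_lit 103) (nat_lit 4) (nat_lit 2) (nat_lit 10) L47561 (by decide +kernel)
theorem L47563 : W_6 (nat_lit 2) (nat_lit 0x23001380134008a000000000000000000000000000000) (nat_lit 0x0) (nat_lit 0x10000c000000000000000000000000000000000000000000) := D_6 (nat_lit 171) (nat_lit 188) (nat_lit 170) (nat_lit 5) (nat_lit 2) (nat_lit 7) (nat_lit 2) (nat_lit 0) (nat_lit 10) (by decide +kernel)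
theorem L47564 : W_6 (nat_lit 3) (nat_lit 0x23001280134008a000000000000000000000000000000) (nat_lit 0x0) (nat_lit 0x10000c001400000000000000000000000000000000000000) := T_6 (nat_lit 156) (nat_lit 154) (nat_lit 2) (nat_lit 1) (nat_lit 9) L47563 (by decide +kernel)
theorem L47565 : W_6 (nat_lit 4) (nat_lit 0x21001280134008a000000000000000000000000000000) (nat_lit 0x0) (nat_lit 0x50002c001400000000000000000000000000000000000000) := T_6 (nat_lit 173) (nat_lit 190) (nat_lit 7) (nat_lit 2) (nat_lit 7) L47564 (by decide +kernel)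
theorem L47566 : W_6 (nat_lit 2) (nat_lit 0x20021001280134008b000000000000000000000000000000) (nat_lit 0x0) (nat_lit 0x8000400020000000000000000000000000000000000000000000) := D_6 (nat_lit 190) (nat_lit 173) (nat_lit 207) (nat_lit 7) (nat_lit 2) (nat_lit 7) (nat_lit 7) (nat_lit 2) (nat_lit 8) (by decide +kernel)
theorem L47567 : W_6 (nat_lit 3) (nat_lit 0x21001280134008b000000000000000000000000000000) (nat_lit 0x0) (nat_lit 0x8000600020000000020000000000000000000000000000000000) := T_6 (nat_lit 189) (nat_lit 137) (nat_lit 4) (nat_lit 2) (nat_lit 11) L47566 (by decide +kernel)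
theorem L47568 : W_6 (nat_lit 4) (nat_lit 0x21001280134008a000000000000000000000000000000) (nat_lit 0x0) (nat_lit 0x8000600020000000020001000080000000000000000000000000) := T_6 (nat_lit 120) (nat_lit 103) (nat_lit 4) (nat_lit 2) (nat_lit 10) L47567 (by decide +kernel)
theorem L47569 : W_6 (nat_lit 7) (nat_lit 0x20001280134008a000000000000000000000000000000) (nat_lit 0x0) (nat_lit 0xa00070003c001400020001000080000000000000000000000000) := Q_6 (nat_lit 172) (C_6 L47559 (C_6 L47562 (C_6 L47565 (C_6 L47568 N_6)))) (by decide +kernel)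
theorem L47570 : W_6 (nat_lit 8) (nat_lit 0x20001080134008a000000000000000000000000000000) (nat_lit 0x0) (nat_lit 0x2a001f001fc02b400020011000880000000000000000000000000) := Q_6 (nat_lit 157) (C_6 L47547 (C_6 L47554 (C_6 L47569 N_6))) (by decide +kernel)
theorem L47571 : W_6 (nat_lit 2) (nat_lit 0x200011c0134008a000100010000000000000000000000) (nat_lit 0x0) (nat_lit 0x20000000000008000800000000000000000) := D_6 (nat_lit 87) (nat_lit 71) (nat_lit 137) (nat_lit 6) (nat_lit 2) (nat_lit 8) (nat_lit 5) (nat_lit 2) (nat_lit 5) (by decide +kernel)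
theorem L47572 : W_6 (nat_lit 3) (nat_lit 0x20001180134008a000100010000000000000000000000) (nat_lit 0x0) (nat_lit 0x2400020000000000008000800000000000000000) := T_6 (nat_lit 154) (nat_lit 157) (nat_lit 2) (nat_lit 1) (nat_lit 9) L47571 (by decide +kernel)
theorem L47573 : W_6 (nat_lit 4) (nat_lit 0x20001080134008a000100010000000000000000000000) (nat_lit 0x0) (nat_lit 0x20003400020000000000008000800000000000000000) := T_6 (nat_lit 156) (nat_lit 173) (nat_lit 7) (nat_lit 2) (nat_lit 6) L47572 (by decide +kernel)
theorem L47574 : W_6 (nat_lit 5) (nat_lit 0x20001080134008a000100000000000000000000000000) (nat_lit 0x0) (nat_lit 0x20003400020000000200018000800000000000000000) := T_6 (nat_lit 88) (nat_lit 105) (nat_lit 6) (nat_lit 2) (nat_lit 9) L47573 (by decide +kernel)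
theorem L47575 : W_6 (nat_lit 7) (nat_lit 0x20001080134008a000000000000000000000000000000) (nat_lit 0x0) (nat_lit 0x40003000340002000100038001c000e00020000000000000) := Q_6 (nat_lit 104) (C_6 L47539 (C_6 L47515 (C_6 L47483 (C_6 L47574 N_6)))) (by decide +kernel)
theorem L47576 : W_6 (nat_lit 2) (nat_lit 0x200011c0134008a000000000000000000000000000000) (nat_lit 0x0) (nat_lit 0x28000000000000000100000000000000000000000000) := D_6 (nat_lit 104) (nat_lit 171) (nat_lit 173) (nat_lit 5) (nat_lit 2) (nat_lit 6) (nat_lit 7) (nat_lit 2) (nat_lit 6) (by decide +kernel)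
theorem L47577 : W_6 (nat_lit 3) (nat_lit 0x200010c0134008a000000000000000000000000000000) (nat_lit 0x0) (nat_lit 0x28003000000000000100000000000000000000000000) := T_6 (nat_lit 156) (nat_lit 157) (nat_lit 2) (nat_lit 1) (nat_lit 9) L47576 (by decide +kernel)
theorem L47578 : W_6 (nat_lit 2) (nat_lit 0x200010c0134008a000100008000000000000000000000) (nat_lit 0x0) (nat_lit 0x200010000800000000000000000) := D_6 (nat_lit 88) (nat_lit 105) (nat_lit 71) (nat_lit 6) (nat_lit 2) (nat_lit 9) (nat_lit 6) (nat_lit 2) (nat_lit 8) (by decide +kernel)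
theorem L47579 : W_6 (nat_lit 3) (nat_lit 0x200010c0134008a000100000000000000000000000000) (nat_lit 0x0) (nat_lit 0x20000000200018000800000000000000000) := T_6 (nat_lit 87) (nat_lit 137) (nat_lit 5) (nat_lit 2) (nat_lit 5) L47578 (by decide +kernel)
theorem L47580 : W_6 (nat_lit 4) (nat_lit 0x200010c0134008a000000000000000000000000000000) (nat_lit 0x0) (nat_lit 0x8000000020000000300018000800000000000000000) := T_6 (nat_lit 104) (nat_lit 171) (nat_lit 5) (nat_lit 2) (nat_lit 6) L47579 (by decide +kernel)
theorem L47581 : W_6 (nat_lit 2) (nat_lit 0x230011c0134008a000000000000000000000000000000) (nat_lit 0x0) (nat_lit 0xc0000200000000000000000000000000000000000000) := D_6 (nat_lit 174) (nat_lit 153) (nat_lit 175) (nat_lit 3) (nat_lit 0) (nat_lit 9) (nat_lit 0) (nat_lit 5) (nat_lit 10) (by decide +kernel)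
theorem L47582 : W_6 (nat_lit 3) (nat_lit 0x210011c0134008a000000000000000000000000000000) (nat_lit 0x0) (nat_lit 0x4000e0000200000000000000000000000000000000000000) := T_6 (nat_lit 173) (nat_lit 190) (nat_lit 7) (nat_lit 2) (nat_lit 7) L47581 (by decide +kernel)
theorem L47583 : W_6 (nat_lit 4) (nat_lit 0x210010c0134008a000000000000000000000000000000) (nat_lit 0x0) (nat_lit 0x4000e0003200000000000000000000000000000000000000) := T_6 (nat_lit 156) (nat_lit 157) (nat_lit 2) (nat_lit 1) (nat_lit 9) L47582 (by decide +kernel)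
theorem L47584 : W_6 (nat_lit 3) (nat_lit 0x218010c0134008a000000000000000000000000000000) (nat_lit 0x0) (nat_lit 0x4000e0000200000000000000000000000000000000000000) := T_6 (nat_lit 173) (nat_lit 190) (nat_lit 7) (nat_lit 2) (nat_lit 7) L47501 (by decide +kernel)
theorem L47585 : W_6 (nat_lit 4) (nat_lit 0x210010c0134008a000000000000000000000000000000) (nat_lit 0x0) (nat_lit 0x5000e8000200000000000000000000000000000000000000) := T_6 (nat_lit 171) (nat_lit 188) (nat_lit 5) (nat_lit 2) (nat_lit 7) L47584 (by decide +kernel)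
theorem L47586 : W_6 (nat_lit 2) (nat_lit 0x300230011c0134008a000000000000000000000000000000) (nat_lit 0x0) (nat_lit 0x80004000000000000000020000000000000000000000000000000000) := D_6 (nat_lit 206) (nat_lit 137) (nat_lit 223) (nat_lit 4) (nat_lit 2) (nat_lit 12) (nat_lit 6) (nat_lit 2) (nat_lit 13) (by decide +kernel)
theorem L47587 : W_6 (nat_lit 3) (nat_lit 0x100230011c0134008a000000000000000000000000000000) (nat_lit 0x0) (nat_lit 0x80006000200000000000020000000000000000000000000000000000) := T_6 (nat_lit 189) (nat_lit 205) (nat_lit 5) (nat_lit 2) (nat_lit 8) L47586 (by decide +kernel)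
theorem L47588 : W_6 (nat_lit 4) (nat_lit 0x230011c0134008a000000000000000000000000000000) (nat_lit 0x0) (nat_lit 0x80006000300008000000020000000000000000000000000000000000) := T_6 (nat_lit 188) (nat_lit 171) (nat_lit 5) (nat_lit 2) (nat_lit 7) L47587 (by decide +kernel)
theorem L47589 : W_6 (nat_lit 5) (nat_lit 0x230010c0134008a000000000000000000000000000000) (nat_lit 0x0) (nat_lit 0x80006000300008003000020000000000000000000000000000000000) := T_6 (nat_lit 156) (nat_lit 157) (nat_lit 2) (nat_lit 1) (nat_lit 9) L47588 (by decide +kernel)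
theorem L47590 : W_6 (nat_lit 6) (nat_lit 0x210010c0134008a000000000000000000000000000000) (nat_lit 0x0) (nat_lit 0x80006000700028003000020000000000000000000000000000000000) := T_6 (nat_lit 173) (nat_lit 190) (nat_lit 7) (nat_lit 2) (nat_lit 7) L47589 (by decide +kernel)
theorem L47591 : W_6 (nat_lit 2) (nat_lit 0x300210011c0134008a000000000000000000000000000000) (nat_lit 0x0) (nat_lit 0x4000000000000000020001000000000000000000000000000000) := D_6 (nat_lit 137) (nat_lit 206) (nat_lit 120) (nat_lit 4) (nat_lit 2) (nat_lit 12) (nat_lit 4) (nat_lit 2) (nat_lit 11) (by decide +kernel)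
theorem L47592 : W_6 (nat_lit 3) (nat_lit 0x100210011c0134008a000000000000000000000000000000) (nat_lit 0x0) (nat_lit 0x6000200000000000020001000000000000000000000000000000) := T_6 (nat_lit 189) (nat_lit 205) (nat_lit 5) (nat_lit 2) (nat_lit 8) L47591 (by decide +kernel)
theorem L47593 : W_6 (nat_lit 4) (nat_lit 0x100210010c0134008a000000000000000000000000000000) (nat_lit 0x0) (nat_lit 0x6000200000003000020001000000000000000000000000000000) := T_6 (nat_lit 156) (nat_lit 157) (nat_lit 2) (nat_lit 1) (nat_lit 9) L47592 (by decide +kernel)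
theorem L47594 : W_6 (nat_lit 5) (nat_lit 0x210010c0134008a000000000000000000000000000000) (nat_lit 0x0) (nat_lit 0x6000300008003000020001000000000000000000000000000000) := T_6 (nat_lit 188) (nat_lit 171) (nat_lit 5) (nat_lit 2) (nat_lit 7) L47593 (by decide +kernel)
theorem L47595 : W_6 (nat_lit 7) (nat_lit 0x200010c0134008a000000000000000000000000000000) (nat_lit 0x0) (nat_lit 0x800060007000f8003200020001000000000000000000000000000000) := Q_6 (nat_lit 172) (C_6 L47583 (C_6 L47585 (C_6 L47590 (C_6 L47594 N_6)))) (by decide +kernel)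
theorem L47596 : W_6 (nat_lit 2) (nat_lit 0x200011c0134008a000100008000000000000000000000) (nat_lit 0x0) (nat_lit 0x200010000800000000000000000) := D_6 (nat_lit 88) (nat_lit 105) (nat_lit 71) (nat_lit 6) (nat_lit 2) (nat_lit 9) (nat_lit 6) (nat_lit 2) (nat_lit 8) (by decide +kernel)
theorem L47597 : W_6 (nat_lit 3) (nat_lit 0x200011c0134008a000100000000000000000000000000) (nat_lit 0x0) (nat_lit 0x20000000200018000800000000000000000) := T_6 (nat_lit 87) (nat_lit 137) (nat_lit 5) (nat_lit 2) (nat_lit 5) L47596 (by decide +kernel)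
theorem L47598 : W_6 (nat_lit 4) (nat_lit 0x200011c0134008a000000000000000000000000000000) (nat_lit 0x0) (nat_lit 0x20000000020000000300018000800000000000000000) := T_6 (nat_lit 104) (nat_lit 173) (nat_lit 7) (nat_lit 2) (nat_lit 6) L47597 (by decide +kernel)
theorem L47599 : W_6 (nat_lit 5) (nat_lit 0x200010c0134008a000000000000000000000000000000) (nat_lit 0x0) (nat_lit 0x20003000020000000300018000800000000000000000) := T_6 (nat_lit 156) (nat_lit 157) (nat_lit 2) (nat_lit 1) (nat_lit 9) L47598 (by decide +kernel)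
theorem L47600 : W_6 (nat_lit 8) (nat_lit 0x20001080134008a000000000000000000000000000000) (nat_lit 0x0) (nat_lit 0x800060007000f8003600020001000300018000800000000000000000) := Q_6 (nat_lit 154) (C_6 L47577 (C_6 L47580 (C_6 L47595 (C_6 L47599 N_6)))) (by decide +kernel)
theorem L47601 : W_6 (nat_lit 9) (nat_lit 0x20001000134008a000000000000000000000000000000) (nat_lit 0x0) (nat_lit 0x8002e001f001fc02be00020011000b8001c000e00020000000000000) := Q_6 (nat_lit 155) (C_6 L47484 (C_6 L47505 (C_6 L47506 (C_6 L47523 (C_6 L47534 (C_6 L47535 (C_6 L47540 (C_6 L47570 (C_6 L47575 (C_6 L47600 N_6)))))))))) (by decide +kernel)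
theorem L47602 : W_6 (nat_lit 2) (nat_lit 0x20001080134008a000000000000000000000000000000) (nat_lit 0x0) (nat_lit 0x400080001000000000000000000000000000000) := D_6 (nat_lit 139) (nat_lit 120) (nat_lit 154) (nat_lit 0) (nat_lit 5) (nat_lit 8) (nat_lit 1) (nat_lit 5) (nat_lit 8) (by decide +kernel)
theorem L47603 : W_6 (nat_lit 9) (nat_lit 0x20001000134008a000000000000000000000000000000) (nat_lit 0x0) (nat_lit 0x8000e0007000f8003e000a000100038001c000e00020000000000000) := Q_6 (nat_lit 155) (C_6 L47600 (C_6 L47575 (C_6 L47506 (C_6 L47523 (C_6 L47534 (C_6 L47535 (C_6 L47540 (C_6 L47602 N_6)))))))) (by decide +kernel)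
theorem L47604 : W_6 (nat_lit 11) (nat_lit 0x2000100013c008a000000000000000000000000000000) (nat_lit 0x0) (nat_lit 0x2000f000f8003c00000030000b8007c002e00010000000000000) := T_6 (nat_lit 124) (nat_lit 125) (nat_lit 2) (nat_lit 2) (nat_lit 8) L46959 (by decide +kernel)
theorem L47605 : W_6 (nat_lit 12) (nat_lit 0x20001000134008a000000000000000000000000000000) (nat_lit 0x0) (nat_lit 0x2000f000f8003c00080031000b8007c002e00010000000000000) := T_6 (nat_lit 139) (nat_lit 120) (nat_lit 0) (nat_lit 5) (nat_lit 8) L47604 (by decide +kernel)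
theorem L47606 : W_6 (nat_lit 2) (nat_lit 0x3e001000134009a000000000000000000000000000000) (nat_lit 0x0) (nat_lit 0xe00000000000000000000000000000000000000000000000) := D_6 (nat_lit 190) (nat_lit 191) (nat_lit 189) (nat_lit 1) (nat_lit 7) (nat_lit 10) (nat_lit 1) (nat_lit 6) (nat_lit 10) (by decide +kernel)
theorem L47607 : W_6 (nat_lit 3) (nat_lit 0x3c001000134009a000000000000000000000000000000) (nat_lit 0x0) (nat_lit 0xe00020008000000000000000000000000000000000000000) := T_6 (nat_lit 173) (nat_lit 159) (nat_lit 2) (nat_lit 3) (nat_lit 10) L47606 (by decide +kernel)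
theorem L47608 : W_6 (nat_lit 4) (nat_lit 0x34001000134009a000000000000000000000000000000) (nat_lit 0x0) (nat_lit 0xe000a0028000000000000000000000000000000000000000) := T_6 (nat_lit 175) (nat_lit 161) (nat_lit 2) (nat_lit 4) (nat_lit 10) L47607 (by decide +kernel)
theorem L47609 : W_6 (nat_lit 2) (nat_lit 0x340010001b400da002000080000000000000000000000) (nat_lit 0x0) (nat_lit 0x10000c000000000000000000) := D_6 (nat_lit 92) (nat_lit 75) (nat_lit 74) (nat_lit 7) (nat_lit 7) (nat_lit 4) (nat_lit 4) (nat_lit 7) (nat_lit 8) (by decide +kernel)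
theorem L47610 : W_6 (nat_lit 3) (nat_lit 0x340010001b400da002000000000000000000000000000) (nat_lit 0x0) (nat_lit 0x100018000c000000000000000000) := T_6 (nat_lit 91) (nat_lit 108) (nat_lit 4) (nat_lit 7) (nat_lit 9) L47609 (by decide +kernel)
theorem L47611 : W_6 (nat_lit 4) (nat_lit 0x340010001b400da000000000000000000000000000000) (nat_lit 0x0) (nat_lit 0x800000000000300018000c000000000000000000) := T_6 (nat_lit 109) (nat_lit 159) (nat_lit 5) (nat_lit 7) (nat_lit 6) L47610 (by decide +kernel)
theorem L47612 : W_6 (nat_lit 5) (nat_lit 0x3400100013400da000000000000000000000000000000) (nat_lit 0x0) (nat_lit 0x200000000800080000000300018000c000000000000000000) := T_6 (nat_lit 143) (nat_lit 193) (nat_lit 5) (nat_lit 7) (nat_lit 7) L47611 (by decide +kernel)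
theorem L47613 : W_6 (nat_lit 6) (nat_lit 0x34001000134009a000000000000000000000000000000) (nat_lit 0x0) (nat_lit 0x200000000800080006000300018000c000000000000000000) := T_6 (nat_lit 126) (nat_lit 125) (nat_lit 1) (nat_lit 8) (nat_lit 7) L47612 (by decide +kernel)
theorem L47614 : W_6 (nat_lit 2) (nat_lit 0x4003e0010001b400da000000000000000000000000000000) (nat_lit 0x0) (nat_lit 0x10001800000000000000000000000000000000000000) := D_6 (nat_lit 155) (nat_lit 156) (nat_lit 172) (nat_lit 0) (nat_lit 6) (nat_lit 10) (nat_lit 7) (nat_lit 2) (nat_lit 7) (by decide +kernel)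
theorem L47615 : W_6 (nat_lit 3) (nat_lit 0x4003c0010001b400da000000000000000000000000000000) (nat_lit 0x0) (nat_lit 0x200030001800000000000000000000000000000000000000) := T_6 (nat_lit 173) (nat_lit 189) (nat_lit 1) (nat_lit 6) (nat_lit 10) L47614 (by decide +kernel)
theorem L47616 : W_6 (nat_lit 4) (nat_lit 0x4003c00100013400da000000000000000000000000000000) (nat_lit 0x0) (nat_lit 0x2200030001800800000000000000000000000000000000000) := T_6 (nat_lit 143) (nat_lit 193) (nat_lit 5) (nat_lit 7) (nat_lit 7) L47615 (by decide +kernel)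
theorem L47617 : W_6 (nat_lit 5) (nat_lit 0x3c00100013400da000000000000000000000000000000) (nat_lit 0x0) (nat_lit 0x2e00030001800800000000000000000000000000000000000) := T_6 (nat_lit 190) (nat_lit 191) (nat_lit 1) (nat_lit 7) (nat_lit 10) L47616 (by decide +kernel)
theorem L47618 : W_6 (nat_lit 6) (nat_lit 0x3400100013400da000000000000000000000000000000) (nat_lit 0x0) (nat_lit 0x2e000b0021800800000000000000000000000000000000000) := T_6 (nat_lit 175) (nat_lit 161) (nat_lit 2) (nat_lit 4) (nat_lit 10) L47617 (by decide +kernel)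
theorem L47619 : W_6 (nat_lit 7) (nat_lit 0x34001000134009a000000000000000000000000000000) (nat_lit 0x0) (nat_lit 0x2e000b0021800800060000000000000000000000000000000) := T_6 (nat_lit 126) (nat_lit 125) (nat_lit 1) (nat_lit 8) (nat_lit 7) L47618 (by decide +kernel)
theorem L47620 : W_6 (nat_lit 8) (nat_lit 0x24001000134009a000000000000000000000000000000) (nat_lit 0x0) (nat_lit 0x2e001b002980080006000300018000c000000000000000000) := Q_6 (nat_lit 176) (C_6 L47608 (C_6 L47613 (C_6 L47619 N_6))) (by decide +kernel)
theorem L47621 : W_6 (nat_lit 2) (nat_lit 0x24001000134009a000000000000000000000000000000) (nat_lit 0x0) (nat_lit 0x800000002000000000000800000000000000000000000000) := D_6 (nat_lit 157) (nat_lit 191) (nat_lit 107) (nat_lit 6) (nat_lit 4) (nat_lit 11) (nat_lit 6) (nat_lit 4) (nat_lit 10) (by decide +kernel)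
theorem L47622 : W_6 (nat_lit 2) (nat_lit 0x2c00120013400da000000000000000000000000000000) (nat_lit 0x0) (nat_lit 0x100021000000000000000000000000000000000000000) := D_6 (nat_lit 176) (nat_lit 161) (nat_lit 156) (nat_lit 2) (nat_lit 4) (nat_lit 10) (nat_lit 0) (nat_lit 7) (nat_lit 10) (by decide +kernel)
theorem L47623 : W_6 (nat_lit 3) (nat_lit 0x2400120013400da000000000000000000000000000000) (nat_lit 0x0) (nat_lit 0x1000180021000000000000000000000000000000000000000) := T_6 (nat_lit 175) (nat_lit 192) (nat_lit 7) (nat_lit 4) (nat_lit 7) L47622 (by decide +kernel)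
theorem L47624 : W_6 (nat_lit 4) (nat_lit 0x2400100013400da000000000000000000000000000000) (nat_lit 0x0) (nat_lit 0x1000180023000000000000800000000000000000000000000) := T_6 (nat_lit 157) (nat_lit 107) (nat_lit 6) (nat_lit 4) (nat_lit 10) L47623 (by decide +kernel)
theorem L47625 : W_6 (nat_lit 5) (nat_lit 0x24001000134009a000000000000000000000000000000) (nat_lit 0x0) (nat_lit 0x1000180023000000060000800000000000000000000000000) := T_6 (nat_lit 126) (nat_lit 125) (nat_lit 1) (nat_lit 8) (nat_lit 7) L47624 (by decide +kernel)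
theorem L47626 : W_6 (nat_lit 9) (nat_lit 0x20001000134009a000000000000000000000000000000) (nat_lit 0x0) (nat_lit 0x3e001f002b80080006000380018000c000000000000000000) := Q_6 (nat_lit 174) (C_6 L47620 (C_6 L47621 (C_6 L47625 N_6))) (by decide +kernel)
theorem L47627 : W_6 (nat_lit 11) (nat_lit 0x20001000134009a000000000000000000000000000000) (nat_lit 0x0) (nat_lit 0x2000f000f8003c000a0000000b8007c002e00010000000000000) := T_6 (nat_lit 139) (nat_lit 137) (nat_lit 2) (nat_lit 1) (nat_lit 8) L46959 (by decide +kernel)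
theorem L47628 : W_6 (nat_lit 12) (nat_lit 0x20001000134008a000000000000000000000000000000) (nat_lit 0x0) (nat_lit 0x2003f001f802bc008a0070003b801fc00ee00010000000000000) := Q_6 (nat_lit 124) (C_6 L47401 (C_6 L47626 (C_6 L47627 N_6))) (by decide +kernel)
theorem L47629 : W_6 (nat_lit 13) (nat_lit 0x20001000130008a000000000000000000000000000000) (nat_lit 0x0) (nat_lit 0x8002e003f001fc02be008e0071003b801fc00ee00030000000000000) := Q_6 (nat_lit 138) (C_6 L47388 (C_6 L47601 (C_6 L47603 (C_6 L47605 (C_6 L47628 N_6))))) (by decide +kernel)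
theorem L47630 : W_6 (nat_lit 2) (nat_lit 0x2000118013f008a000000000000000000000000000000) (nat_lit 0x0) (nat_lit 0x400020000000000000000100000000000000000000000000) := D_6 (nat_lit 173) (nat_lit 190) (nat_lit 104) (nat_lit 6) (nat_lit 3) (nat_lit 11) (nat_lit 7) (nat_lit 2) (nat_lit 6) (by decide +kernel)
theorem L47631 : W_6 (nat_lit 3) (nat_lit 0x2000108013f008a000000000000000000000000000000) (nat_lit 0x0) (nat_lit 0x400020003000000000000100000000000000000000000000) := T_6 (nat_lit 156) (nat_lit 157) (nat_lit 3) (nat_lit 0) (nat_lit 8) L47630 (by decide +kernel)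
theorem L47632 : W_6 (nat_lit 4) (nat_lit 0x2000108013e008a000000000000000000000000000000) (nat_lit 0x0) (nat_lit 0x400020003000010004000100000000000000000000000000) := T_6 (nat_lit 136) (nat_lit 122) (nat_lit 2) (nat_lit 0) (nat_lit 8) L47631 (by decide +kernel)
theorem L47633 : W_6 (nat_lit 5) (nat_lit 0x2000108013c008a000000000000000000000000000000) (nat_lit 0x0) (nat_lit 0x400020003000030014000100000000000000000000000000) := T_6 (nat_lit 137) (nat_lit 124) (nat_lit 2) (nat_lit 1) (nat_lit 8) L47632 (by decide +kernel)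
theorem L47634 : W_6 (nat_lit 6) (nat_lit 0x2000100013c008a000000000000000000000000000000) (nat_lit 0x0) (nat_lit 0x400020003c00030014000100000000000000000000000000) := T_6 (nat_lit 155) (nat_lit 154) (nat_lit 1) (nat_lit 5) (nat_lit 8) L47633 (by decide +kernel)
theorem L47635 : W_6 (nat_lit 2) (nat_lit 0x2000100013e008a000000000000000000000000000000) (nat_lit 0x0) (nat_lit 0xe00000000000000000000000000000000000000) := D_6 (nat_lit 154) (nat_lit 155) (nat_lit 153) (nat_lit 1) (nat_lit 5) (nat_lit 8) (nat_lit 1) (nat_lit 4) (nat_lit 8) (by decide +kernel)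
theorem L47636 : W_6 (nat_lit 3) (nat_lit 0x2000100013c008a000000000000000000000000000000) (nat_lit 0x0) (nat_lit 0xe00020010000000000000000000000000000000) := T_6 (nat_lit 137) (nat_lit 124) (nat_lit 2) (nat_lit 1) (nat_lit 8) L47635 (by decide +kernel)
theorem L47637 : W_6 (nat_lit 2) (nat_lit 0x2000108013c008a000100000000000000000000000000) (nat_lit 0x0) (nat_lit 0x20001000000000000000008000000000000000000000) := D_6 (nat_lit 156) (nat_lit 87) (nat_lit 173) (nat_lit 7) (nat_lit 2) (nat_lit 5) (nat_lit 7) (nat_lit 2) (nat_lit 6) (by decide +kernel)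
theorem L47638 : W_6 (nat_lit 3) (nat_lit 0x2000100013c008a000100000000000000000000000000) (nat_lit 0x0) (nat_lit 0x20001c00000000000000008000000000000000000000) := T_6 (nat_lit 155) (nat_lit 154) (nat_lit 1) (nat_lit 5) (nat_lit 8) L47637 (by decide +kernel)
theorem L47639 : W_6 (nat_lit 2) (nat_lit 0x5002100108013c008a000300000000000000000000000000) (nat_lit 0x0) (nat_lit 0xa000200000000000000000000000000000000000000000000000) := D_6 (nat_lit 189) (nat_lit 207) (nat_lit 205) (nat_lit 7) (nat_lit 2) (nat_lit 8) (nat_lit 5) (nat_lit 2) (nat_lit 8) (by decide +kernel)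
theorem L47640 : W_6 (nat_lit 3) (nat_lit 0x4002100108013c008a000300000000000000000000000000) (nat_lit 0x0) (nat_lit 0xa000300008000000000000000000000000000000000000000000) := T_6 (nat_lit 188) (nat_lit 171) (nat_lit 5) (nat_lit 2) (nat_lit 7) L47639 (by decide +kernel)
theorem L47641 : W_6 (nat_lit 4) (nat_lit 0x2100108013c008a000300000000000000000000000000) (nat_lit 0x0) (nat_lit 0xa000700028000000000000000000000000000000000000000000) := T_6 (nat_lit 190) (nat_lit 173) (nat_lit 7) (nat_lit 2) (nat_lit 7) L47640 (by decide +kernel)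
theorem L47642 : W_6 (nat_lit 5) (nat_lit 0x2000108013c008a000300000000000000000000000000) (nat_lit 0x0) (nat_lit 0xa000700038000000000004000000000000000000000000000000) := T_6 (nat_lit 172) (nat_lit 122) (nat_lit 6) (nat_lit 2) (nat_lit 10) L47641 (by decide +kernel)
theorem L47643 : W_6 (nat_lit 6) (nat_lit 0x2000108013c008a000100000000000000000000000000) (nat_lit 0x0) (nat_lit 0xa000700038000000000004000200010000000000000000000000) := T_6 (nat_lit 105) (nat_lit 88) (nat_lit 6) (nat_lit 2) (nat_lit 9) L47642 (by decide +kernel)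
theorem L47644 : W_6 (nat_lit 7) (nat_lit 0x2000100013c008a000100000000000000000000000000) (nat_lit 0x0) (nat_lit 0xa000700038000c00000004000200010000000000000000000000) := T_6 (nat_lit 155) (nat_lit 154) (nat_lit 1) (nat_lit 5) (nat_lit 8) L47643 (by decide +kernel)
theorem L47645 : W_6 (nat_lit 2) (nat_lit 0x2000108013c008a000100008000000000000000000000) (nat_lit 0x0) (nat_lit 0x80004000200000000000000000) := D_6 (nat_lit 86) (nat_lit 69) (nat_lit 103) (nat_lit 4) (nat_lit 2) (nat_lit 8) (nat_lit 4) (nat_lit 2) (nat_lit 9) (by decide +kernel)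
theorem L47646 : W_6 (nat_lit 3) (nat_lit 0x2000108013c008a000100000000000000000000000000) (nat_lit 0x0) (nat_lit 0x100000000000008000c000200000000000000000) := T_6 (nat_lit 87) (nat_lit 156) (nat_lit 7) (nat_lit 2) (nat_lit 5) L47645 (by decide +kernel)
theorem L47647 : W_6 (nat_lit 4) (nat_lit 0x2000100013c008a000100000000000000000000000000) (nat_lit 0x0) (nat_lit 0x1c0000000000008000c000200000000000000000) := T_6 (nat_lit 155) (nat_lit 154) (nat_lit 1) (nat_lit 5) (nat_lit 8) L47646 (by decide +kernel)
theorem L47648 : W_6 (nat_lit 2) (nat_lit 0x2000108013c008a00010000c000000000000000000000) (nat_lit 0x0) (nat_lit 0x200010000800000000000000000) := D_6 (nat_lit 88) (nat_lit 71) (nat_lit 105) (nat_lit 6) (nat_lit 2) (nat_lit 8) (nat_lit 6) (nat_lit 2) (nat_lit 9) (by decide +kernel)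
theorem L47649 : W_6 (nat_lit 3) (nat_lit 0x2000100013c008a00010000c000000000000000000000) (nat_lit 0x0) (nat_lit 0x800000000000280010000800000000000000000) := T_6 (nat_lit 155) (nat_lit 103) (nat_lit 4) (nat_lit 2) (nat_lit 9) L47648 (by decide +kernel)
theorem L47650 : W_6 (nat_lit 4) (nat_lit 0x2000100013c008a000100008000000000000000000000) (nat_lit 0x0) (nat_lit 0x800000000000280014000a00000000000000000) := T_6 (nat_lit 86) (nat_lit 69) (nat_lit 4) (nat_lit 2) (nat_lit 8) L47649 (by decide +kernel)
theorem L47651 : W_6 (nat_lit 5) (nat_lit 0x2000100013c008a000100000000000000000000000000) (nat_lit 0x0) (nat_lit 0x180000000000028001c000a00000000000000000) := T_6 (nat_lit 87) (nat_lit 156) (nat_lit 7) (nat_lit 2) (nat_lit 5) L47650 (by decide +kernel)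
theorem L47652 : W_6 (nat_lit 2) (nat_lit 0x2000100013c008e00010001c000000000000000000000) (nat_lit 0x0) (nat_lit 0x400030000000000000000000000000000000000) := D_6 (nat_lit 137) (nat_lit 154) (nat_lit 136) (nat_lit 5) (nat_lit 2) (nat_lit 5) (nat_lit 2) (nat_lit 0) (nat_lit 8) (by decide +kernel)
theorem L47653 : W_6 (nat_lit 3) (nat_lit 0x2000100013c008a00010001c000000000000000000000) (nat_lit 0x0) (nat_lit 0x400030004000000000000400000000000000000) := T_6 (nat_lit 122) (nat_lit 70) (nat_lit 7) (nat_lit 2) (nat_lit 4) L47652 (by decide +kernel)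
theorem L47654 : W_6 (nat_lit 4) (nat_lit 0x2000100013c008a00010000c000000000000000000000) (nat_lit 0x0) (nat_lit 0x400030004000000010000c00000000000000000) := T_6 (nat_lit 88) (nat_lit 71) (nat_lit 6) (nat_lit 2) (nat_lit 8) L47653 (by decide +kernel)
theorem L47655 : W_6 (nat_lit 5) (nat_lit 0x2000100013c008a000100008000000000000000000000) (nat_lit 0x0) (nat_lit 0x400030004000000014000e00000000000000000) := T_6 (nat_lit 86) (nat_lit 69) (nat_lit 4) (nat_lit 2) (nat_lit 8) L47654 (by decide +kernel)
theorem L47656 : W_6 (nat_lit 6) (nat_lit 0x2000100013c008a000100000000000000000000000000) (nat_lit 0x0) (nat_lit 0x140003000400000001c000e00000000000000000) := T_6 (nat_lit 87) (nat_lit 156) (nat_lit 7) (nat_lit 2) (nat_lit 5) L47655 (by decide +kernel)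
theorem L47657 : W_6 (nat_lit 8) (nat_lit 0x2000100013c008a000000000000000000000000000000) (nat_lit 0x0) (nat_lit 0xa000700038001c0003000400038001c000e00000000000000000) := Q_6 (nat_lit 104) (C_6 L47638 (C_6 L47644 (C_6 L47647 (C_6 L47651 (C_6 L47656 N_6))))) (by decide +kernel)
theorem L47658 : W_6 (nat_lit 2) (nat_lit 0x2200110013f008a000000000000000000000000000000) (nat_lit 0x0) (nat_lit 0x800000000000100008000000000000000000000) := D_6 (nat_lit 104) (nat_lit 87) (nat_lit 155) (nat_lit 7) (nat_lit 2) (nat_lit 5) (nat_lit 7) (nat_lit 2) (nat_lit 6) (by decide +kernel)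
theorem L47659 : W_6 (nat_lit 3) (nat_lit 0x2000110013f008a000000000000000000000000000000) (nat_lit 0x0) (nat_lit 0x400020000800000000000100008000000000000000000000) := T_6 (nat_lit 173) (nat_lit 190) (nat_lit 6) (nat_lit 3) (nat_lit 11) L47658 (by decide +kernel)
theorem L47660 : W_6 (nat_lit 4) (nat_lit 0x2000100013f008a000000000000000000000000000000) (nat_lit 0x0) (nat_lit 0x400020003800000000000100008000000000000000000000) := T_6 (nat_lit 156) (nat_lit 157) (nat_lit 3) (nat_lit 0) (nat_lit 8) L47659 (by decide +kernel)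
theorem L47661 : W_6 (nat_lit 5) (nat_lit 0x2000100013e008a000000000000000000000000000000) (nat_lit 0x0) (nat_lit 0x400020003800010004000100008000000000000000000000) := T_6 (nat_lit 136) (nat_lit 122) (nat_lit 2) (nat_lit 0) (nat_lit 8) L47660 (by decide +kernel)
theorem L47662 : W_6 (nat_lit 6) (nat_lit 0x2000100013c008a000000000000000000000000000000) (nat_lit 0x0) (nat_lit 0x400020003800030014000100008000000000000000000000) := T_6 (nat_lit 137) (nat_lit 124) (nat_lit 2) (nat_lit 1) (nat_lit 8) L47661 (by decide +kernel)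
theorem L47663 : W_6 (nat_lit 2) (nat_lit 0x2000108013c008a000200000000000000000000000000) (nat_lit 0x0) (nat_lit 0x4000100010000000000000000000000) := D_6 (nat_lit 88) (nat_lit 122) (nat_lit 104) (nat_lit 5) (nat_lit 3) (nat_lit 5) (nat_lit 6) (nat_lit 2) (nat_lit 9) (by decide +kernel)
theorem L47664 : W_6 (nat_lit 2) (nat_lit 0x2000108013c008a000300000000000000000000000000) (nat_lit 0x0) (nat_lit 0x20001000000000000000008000000000000000000000) := D_6 (nat_lit 156) (nat_lit 87) (nat_lit 173) (nat_lit 7) (nat_lit 2) (nat_lit 5) (nat_lit 7) (nat_lit 2) (nat_lit 6) (by decide +kernel)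
theorem L47665 : W_6 (nat_lit 3) (nat_lit 0x2000108013c008a000200000000000000000000000000) (nat_lit 0x0) (nat_lit 0x20001000000000000100018000000000000000000000) := T_6 (nat_lit 104) (nat_lit 88) (nat_lit 6) (nat_lit 2) (nat_lit 9) L47664 (by decide +kernel)
theorem L47666 : W_6 (nat_lit 2) (nat_lit 0x1002300118013c008a000200000000000000000000000000) (nat_lit 0x0) (nat_lit 0x6000200000000000000000000000000000000000000000000000) := D_6 (nat_lit 189) (nat_lit 206) (nat_lit 205) (nat_lit 6) (nat_lit 2) (nat_lit 12) (nat_lit 5) (nat_lit 2) (nat_lit 8) (by decide +kernel)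
theorem L47667 : W_6 (nat_lit 3) (nat_lit 0x2300118013c008a000200000000000000000000000000) (nat_lit 0x0) (nat_lit 0x6000300008000000000000000000000000000000000000000000) := T_6 (nat_lit 188) (nat_lit 171) (nat_lit 5) (nat_lit 2) (nat_lit 7) L47666 (by decide +kernel)
theorem L47668 : W_6 (nat_lit 4) (nat_lit 0x2300108013c008a000200000000000000000000000000) (nat_lit 0x0) (nat_lit 0x6000300008001000000000000100000000000000000000000000) := T_6 (nat_lit 156) (nat_lit 104) (nat_lit 7) (nat_lit 2) (nat_lit 6) L47667 (by decide +kernel)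
theorem L47669 : W_6 (nat_lit 5) (nat_lit 0x2100108013c008a000200000000000000000000000000) (nat_lit 0x0) (nat_lit 0x6000700028001000000000000100000000000000000000000000) := T_6 (nat_lit 173) (nat_lit 190) (nat_lit 7) (nat_lit 2) (nat_lit 7) L47668 (by decide +kernel)
theorem L47670 : W_6 (nat_lit 6) (nat_lit 0x2000108013c008a000200000000000000000000000000) (nat_lit 0x0) (nat_lit 0x6000700038001000000004000100000000000000000000000000) := T_6 (nat_lit 172) (nat_lit 122) (nat_lit 6) (nat_lit 2) (nat_lit 10) L47669 (by decide +kernel)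
theorem L47671 : W_6 (nat_lit 2) (nat_lit 0x2000108013c008a000200000000000000000000000000) (nat_lit 0x0) (nat_lit 0x10000000000004000000010000000000000000000000) := D_6 (nat_lit 122) (nat_lit 172) (nat_lit 88) (nat_lit 6) (nat_lit 2) (nat_lit 10) (nat_lit 5) (nat_lit 3) (nat_lit 5) (by decide +kernel)
theorem L47672 : W_6 (nat_lit 7) (nat_lit 0x2000108013c008a000000000000000000000000000000) (nat_lit 0x0) (nat_lit 0x6000700038001000000004000300018000000000000000000000) := Q_6 (nat_lit 105) (C_6 L47663 (C_6 L47665 (C_6 L47670 (C_6 L47671 N_6)))) (by decide +kernel)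
theorem L47673 : W_6 (nat_lit 8) (nat_lit 0x2000100013c008a000000000000000000000000000000) (nat_lit 0x0) (nat_lit 0x6000700038001c00000004000300018000000000000000000000) := T_6 (nat_lit 155) (nat_lit 154) (nat_lit 1) (nat_lit 5) (nat_lit 8) L47672 (by decide +kernel)
theorem L47674 : W_6 (nat_lit 2) (nat_lit 0x7002600104013e008a000000008000000000000000000000) (nat_lit 0x0) (nat_lit 0x190000000000000000000000000000000000000000000) := D_6 (nat_lit 175) (nat_lit 176) (nat_lit 172) (nat_lit 1) (nat_lit 6) (nat_lit 10) (nat_lit 1) (nat_lit 5) (nat_lit 10) (by decide +kernel)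
theorem L47675 : W_6 (nat_lit 3) (nat_lit 0x5002600104013e008a000000008000000000000000000000) (nat_lit 0x0) (nat_lit 0x280190000000000000000000000000000000000000000000) := T_6 (nat_lit 189) (nat_lit 187) (nat_lit 2) (nat_lit 0) (nat_lit 11) L47674 (by decide +kernel)
theorem L47676 : W_6 (nat_lit 4) (nat_lit 0x5002200104013e008a000000008000000000000000000000) (nat_lit 0x0) (nat_lit 0x2801d0002000000000000000000000000000000000000000) := T_6 (nat_lit 174) (nat_lit 157) (nat_lit 5) (nat_lit 4) (nat_lit 7) L47675 (by decide +kernel)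
theorem L47677 : W_6 (nat_lit 5) (nat_lit 0x5002200104013e008a000000000000000000000000000000) (nat_lit 0x0) (nat_lit 0x2801d0002000000000000100008000000000000000000000) := T_6 (nat_lit 87) (nat_lit 104) (nat_lit 5) (nat_lit 2) (nat_lit 5) L47676 (by decide +kernel)
theorem L47678 : W_6 (nat_lit 6) (nat_lit 0x4002200104013e008a000000000000000000000000000000) (nat_lit 0x0) (nat_lit 0x3801d8002000000000000100008000000000000000000000) := T_6 (nat_lit 188) (nat_lit 171) (nat_lit 6) (nat_lit 1) (nat_lit 11) L47677 (by decide +kernel)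
theorem L47679 : W_6 (nat_lit 7) (nat_lit 0x2200104013e008a000000000000000000000000000000) (nat_lit 0x0) (nat_lit 0x7801d8003000000000000100008000000000000000000000) := T_6 (nat_lit 190) (nat_lit 156) (nat_lit 6) (nat_lit 3) (nat_lit 11) L47678 (by decide +kernel)
theorem L47680 : W_6 (nat_lit 8) (nat_lit 0x2200100013e008a000000000000000000000000000000) (nat_lit 0x0) (nat_lit 0x7801d8003600000000000100008000000000000000000000) := T_6 (nat_lit 154) (nat_lit 153) (nat_lit 1) (nat_lit 4) (nat_lit 8) L47679 (by decide +kernel)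
theorem L47681 : W_6 (nat_lit 9) (nat_lit 0x2200100013c008a000000000000000000000000000000) (nat_lit 0x0) (nat_lit 0x7801d8003600020010000100008000000000000000000000) := T_6 (nat_lit 137) (nat_lit 124) (nat_lit 2) (nat_lit 1) (nat_lit 8) L47680 (by decide +kernel)
theorem L47682 : W_6 (nat_lit 2) (nat_lit 0x2200110013c008a000000000000000000000000000000) (nat_lit 0x0) (nat_lit 0x4000100008000000000000000000000) := D_6 (nat_lit 104) (nat_lit 87) (nat_lit 122) (nat_lit 7) (nat_lit 2) (nat_lit 5) (nat_lit 4) (nat_lit 3) (nat_lit 10) (by decide +kernel)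
theorem L47683 : W_6 (nat_lit 3) (nat_lit 0x2200100013c008a000000000000000000000000000000) (nat_lit 0x0) (nat_lit 0x400000001000000004000100008000000000000000000000) := T_6 (nat_lit 156) (nat_lit 190) (nat_lit 6) (nat_lit 3) (nat_lit 11) L47682 (by decide +kernel)
theorem L47684 : W_6 (nat_lit 2) (nat_lit 0x1002e00124013f008a000000000000000000000000000000) (nat_lit 0x0) (nat_lit 0x100028000000000000000000000000000000000000000) := D_6 (nat_lit 176) (nat_lit 161) (nat_lit 159) (nat_lit 2) (nat_lit 4) (nat_lit 10) (nat_lit 2) (nat_lit 3) (nat_lit 10) (by decide +kernel)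
theorem L47685 : W_6 (nat_lit 3) (nat_lit 0x1002600124013f008a000000000000000000000000000000) (nat_lit 0x0) (nat_lit 0x1000180028000000000000000000000000000000000000000) := T_6 (nat_lit 175) (nat_lit 192) (nat_lit 7) (nat_lit 4) (nat_lit 7) L47684 (by decide +kernel)
theorem L47686 : W_6 (nat_lit 4) (nat_lit 0x2600124013f008a000000000000000000000000000000) (nat_lit 0x0) (nat_lit 0x1100188028000000000000000000000000000000000000000) := T_6 (nat_lit 188) (nat_lit 171) (nat_lit 6) (nat_lit 1) (nat_lit 11) L47685 (by decide +kernel)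
theorem L47687 : W_6 (nat_lit 5) (nat_lit 0x2200124013f008a000000000000000000000000000000) (nat_lit 0x0) (nat_lit 0x15001c8028000000000000000000000000000000000000000) := T_6 (nat_lit 174) (nat_lit 190) (nat_lit 5) (nat_lit 4) (nat_lit 7) L47686 (by decide +kernel)
theorem L47688 : W_6 (nat_lit 6) (nat_lit 0x2200120013f008a000000000000000000000000000000) (nat_lit 0x0) (nat_lit 0x15001c8028600000000000000000000000000000000000000) := T_6 (nat_lit 154) (nat_lit 153) (nat_lit 1) (nat_lit 4) (nat_lit 8) L47687 (by decide +kernel)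
theorem L47689 : W_6 (nat_lit 7) (nat_lit 0x2200120013e008a000000000000000000000000000000) (nat_lit 0x0) (nat_lit 0x15001c8028600010004000000000000000000000000000000) := T_6 (nat_lit 136) (nat_lit 122) (nat_lit 2) (nat_lit 0) (nat_lit 8) L47688 (by decide +kernel)
theorem L47690 : W_6 (nat_lit 8) (nat_lit 0x2200120013c008a000000000000000000000000000000) (nat_lit 0x0) (nat_lit 0x15001c8028600030014000000000000000000000000000000) := T_6 (nat_lit 137) (nat_lit 124) (nat_lit 2) (nat_lit 1) (nat_lit 8) L47689 (by decide +kernel)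
theorem L47691 : W_6 (nat_lit 2) (nat_lit 0x2600120013c008a000000000000000000000000000000) (nat_lit 0x0) (nat_lit 0x800000000000020010000000000000000000000000000000) := D_6 (nat_lit 124) (nat_lit 137) (nat_lit 191) (nat_lit 2) (nat_lit 1) (nat_lit 8) (nat_lit 6) (nat_lit 4) (nat_lit 11) (by decide +kernel)
theorem L47692 : W_6 (nat_lit 3) (nat_lit 0x2200120013c008a000000000000000000000000000000) (nat_lit 0x0) (nat_lit 0xc00040000000020010000000000000000000000000000000) := T_6 (nat_lit 174) (nat_lit 190) (nat_lit 5) (nat_lit 4) (nat_lit 7) L47691 (by decide +kernel)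
theorem L47693 : W_6 (nat_lit 2) (nat_lit 0x2200120013c009e000900010000000000000000000000) (nat_lit 0x0) (nat_lit 0x8000c00000000000000000) := D_6 (nat_lit 87) (nat_lit 71) (nat_lit 70) (nat_lit 6) (nat_lit 2) (nat_lit 8) (nat_lit 7) (nat_lit 2) (nat_lit 4) (by decide +kernel)
theorem L47694 : W_6 (nat_lit 3) (nat_lit 0x2200120013c009e000900000000000000000000000000) (nat_lit 0x0) (nat_lit 0x200018000c00000000000000000) := T_6 (nat_lit 88) (nat_lit 105) (nat_lit 7) (nat_lit 3) (nat_lit 5) L47693 (by decide +kernel)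
theorem L47695 : W_6 (nat_lit 4) (nat_lit 0x2200120013c009e000800000000000000000000000000) (nat_lit 0x0) (nat_lit 0x380018000c00000000000000000) := T_6 (nat_lit 104) (nat_lit 103) (nat_lit 0) (nat_lit 5) (nat_lit 7) L47694 (by decide +kernel)
theorem L47696 : W_6 (nat_lit 5) (nat_lit 0x2200120013c009a000800000000000000000000000000) (nat_lit 0x0) (nat_lit 0x4001380018000c00000000000000000) := T_6 (nat_lit 122) (nat_lit 108) (nat_lit 2) (nat_lit 2) (nat_lit 7) L47695 (by decide +kernel)
theorem L47697 : W_6 (nat_lit 6) (nat_lit 0x2200120013c009a000000000000000000000000000000) (nat_lit 0x0) (nat_lit 0x4001b80058000c00000000000000000) := T_6 (nat_lit 107) (nat_lit 90) (nat_lit 5) (nat_lit 5) (nat_lit 5) L47696 (by decide +kernel)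
theorem L47698 : W_6 (nat_lit 7) (nat_lit 0x2200120013c008a000000000000000000000000000000) (nat_lit 0x0) (nat_lit 0x20014001b80058000c00000000000000000) := T_6 (nat_lit 124) (nat_lit 137) (nat_lit 2) (nat_lit 1) (nat_lit 8) L47697 (by decide +kernel)
theorem L47699 : W_6 (nat_lit 2) (nat_lit 0x2600120013c008a000000000000000000000000000000) (nat_lit 0x0) (nat_lit 0x800000000000000004000200000000000000000000000000) := D_6 (nat_lit 122) (nat_lit 191) (nat_lit 105) (nat_lit 4) (nat_lit 4) (nat_lit 11) (nat_lit 4) (nat_lit 4) (nat_lit 10) (by decide +kernel)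
theorem L47700 : W_6 (nat_lit 3) (nat_lit 0x2200120013c008a000000000000000000000000000000) (nat_lit 0x0) (nat_lit 0xc00040000000000004000200000000000000000000000000) := T_6 (nat_lit 174) (nat_lit 190) (nat_lit 5) (nat_lit 4) (nat_lit 7) L47699 (by decide +kernel)
theorem L47701 : W_6 (nat_lit 9) (nat_lit 0x2200100013c008a000000000000000000000000000000) (nat_lit 0x0) (nat_lit 0x1d001c802a600030014001b80058000c00000000000000000) := Q_6 (nat_lit 157) (C_6 L47690 (C_6 L47692 (C_6 L47698 (C_6 L47700 N_6)))) (by decide +kernel)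
theorem L47702 : W_6 (nat_lit 2) (nat_lit 0x2200104013e008e000000000000000000000000000000) (nat_lit 0x0) (nat_lit 0x1000000000000100008000000000000000000000) := D_6 (nat_lit 104) (nat_lit 156) (nat_lit 87) (nat_lit 4) (nat_lit 3) (nat_lit 10) (nat_lit 5) (nat_lit 2) (nat_lit 5) (by decide +kernel)
theorem L47703 : W_6 (nat_lit 3) (nat_lit 0x2200100013e008e000000000000000000000000000000) (nat_lit 0x0) (nat_lit 0x1600000000000100008000000000000000000000) := T_6 (nat_lit 154) (nat_lit 153) (nat_lit 1) (nat_lit 4) (nat_lit 8) L47702 (by decide +kernel)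
theorem L47704 : W_6 (nat_lit 4) (nat_lit 0x2200100013e008a000000000000000000000000000000) (nat_lit 0x0) (nat_lit 0x1600010004000100008000000000000000000000) := T_6 (nat_lit 122) (nat_lit 136) (nat_lit 2) (nat_lit 0) (nat_lit 8) L47703 (by decide +kernel)
theorem L47705 : W_6 (nat_lit 5) (nat_lit 0x2200100013c008a000000000000000000000000000000) (nat_lit 0x0) (nat_lit 0x1600030014000100008000000000000000000000) := T_6 (nat_lit 137) (nat_lit 124) (nat_lit 2) (nat_lit 1) (nat_lit 8) L47704 (by decide +kernel)
theorem L47706 : W_6 (nat_lit 2) (nat_lit 0x2200100013f008a000000000000000000000000000000) (nat_lit 0x0) (nat_lit 0x400000003000000000000000000000000000000000000000) := D_6 (nat_lit 156) (nat_lit 157) (nat_lit 190) (nat_lit 3) (nat_lit 0) (nat_lit 8) (nat_lit 6) (nat_lit 3) (nat_lit 11) (by decide +kernel)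
theorem L47707 : W_6 (nat_lit 3) (nat_lit 0x2200100013e008a000000000000000000000000000000) (nat_lit 0x0) (nat_lit 0x400000003000010004000000000000000000000000000000) := T_6 (nat_lit 136) (nat_lit 122) (nat_lit 2) (nat_lit 0) (nat_lit 8) L47706 (by decide +kernel)
theorem L47708 : W_6 (nat_lit 4) (nat_lit 0x2200100013c008a000000000000000000000000000000) (nat_lit 0x0) (nat_lit 0x400000003000030014000000000000000000000000000000) := T_6 (nat_lit 137) (nat_lit 124) (nat_lit 2) (nat_lit 1) (nat_lit 8) L47707 (by decide +kernel)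
theorem L47709 : W_6 (nat_lit 10) (nat_lit 0x2000100013c008a000000000000000000000000000000) (nat_lit 0x0) (nat_lit 0x1f801f802b600030014001b80058000c00000000000000000) := Q_6 (nat_lit 173) (C_6 L47681 (C_6 L47683 (C_6 L47701 (C_6 L47705 (C_6 L47708 N_6))))) (by decide +kernel)
theorem L47710 : W_6 (nat_lit 11) (nat_lit 0x20001000134008a000000000000000000000000000000) (nat_lit 0x0) (nat_lit 0xe001f801f802be000b0014001b8005c000e00000000000000000) := Q_6 (nat_lit 139) (C_6 L47634 (C_6 L47636 (C_6 L47657 (C_6 L47662 (C_6 L47673 (C_6 L47709 N_6)))))) (by decide +kernel)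
theorem L47711 : W_6 (nat_lit 12) (nat_lit 0x20001000130008a000000000000000000000000000000) (nat_lit 0x0) (nat_lit 0x8002e001f801fc02be000f0015001b8005c000e00020000000000000) := Q_6 (nat_lit 138) (C_6 L47603 (C_6 L47399 (C_6 L47601 (C_6 L47710 N_6)))) (by decide +kernel)
theorem L47712 : W_6 (nat_lit 2) (nat_lit 0x20001000138008a000000000000000000000000000000) (nat_lit 0x0) (nat_lit 0x40005000000000000000000000000000000) := D_6 (nat_lit 120) (nat_lit 122) (nat_lit 138) (nat_lit 3) (nat_lit 1) (nat_lit 7) (nat_lit 0) (nat_lit 5) (nat_lit 8) (by decide +kernel)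
theorem L47713 : W_6 (nat_lit 4) (nat_lit 0x20001000138008a000000000000000000000000000000) (nat_lit 0x0) (nat_lit 0xe00060011000000000000000000000000000000) := T_6 (nat_lit 138) (nat_lit 120) (nat_lit 0) (nat_lit 5) (nat_lit 8) L47636 (by decide +kernel)
theorem L47714 : W_6 (nat_lit 2) (nat_lit 0x20001200138008e000000000000000000000000000000) (nat_lit 0x0) (nat_lit 0x40000000000000000200010000000000000000000000) := D_6 (nat_lit 105) (nat_lit 88) (nat_lit 174) (nat_lit 7) (nat_lit 3) (nat_lit 5) (nat_lit 4) (nat_lit 4) (nat_lit 10) (by decide +kernel)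
theorem L47715 : W_6 (nat_lit 3) (nat_lit 0x20001200138008a000000000000000000000000000000) (nat_lit 0x0) (nat_lit 0x40000000000005000200010000000000000000000000) := T_6 (nat_lit 122) (nat_lit 120) (nat_lit 3) (nat_lit 1) (nat_lit 7) L47714 (by decide +kernel)
theorem L47716 : W_6 (nat_lit 2) (nat_lit 0x20001300138008e000000000000000000000000000000) (nat_lit 0x0) (nat_lit 0x400020000000000000000100000000000000000000000000) := D_6 (nat_lit 173) (nat_lit 190) (nat_lit 104) (nat_lit 6) (nat_lit 3) (nat_lit 11) (nat_lit 4) (nat_lit 3) (nat_lit 10) (by decide +kernel)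
theorem L47717 : W_6 (nat_lit 2) (nat_lit 0x20001300138008e000200000000000000000000000000) (nat_lit 0x0) (nat_lit 0x10000c00000000000000000000000000000000000000) := D_6 (nat_lit 155) (nat_lit 154) (nat_lit 172) (nat_lit 2) (nat_lit 1) (nat_lit 9) (nat_lit 5) (nat_lit 3) (nat_lit 6) (by decide +kernel)
theorem L47718 : W_6 (nat_lit 3) (nat_lit 0x20001300138008e000000000000000000000000000000) (nat_lit 0x0) (nat_lit 0x10000c00000000000200010000000000000000000000) := T_6 (nat_lit 105) (nat_lit 88) (nat_lit 7) (nat_lit 3) (nat_lit 5) L47717 (by decide +kernel)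
theorem L47719 : W_6 (nat_lit 4) (nat_lit 0x20001200138008e000000000000000000000000000000) (nat_lit 0x0) (nat_lit 0x400030001c00000000000300010000000000000000000000) := Q_6 (nat_lit 156) (C_6 L47716 (C_6 L47718 N_6)) (by decide +kernel)
theorem L47720 : W_6 (nat_lit 5) (nat_lit 0x20001200138008a000000000000000000000000000000) (nat_lit 0x0) (nat_lit 0x400030001c00000005000300010000000000000000000000) := T_6 (nat_lit 122) (nat_lit 120) (nat_lit 3) (nat_lit 1) (nat_lit 7) L47719 (by decide +kernel)
theorem L47721 : W_6 (nat_lit 2) (nat_lit 0x2e001200138008a000000000000000000000000000000) (nat_lit 0x0) (nat_lit 0x100021000000000000000000000000000000000000000) := D_6 (nat_lit 176) (nat_lit 161) (nat_lit 156) (nat_lit 2) (nat_lit 4) (nat_lit 10) (nat_lit 0) (nat_lit 7) (nat_lit 10) (by decide +kernel)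
theorem L47722 : W_6 (nat_lit 3) (nat_lit 0x26001200138008a000000000000000000000000000000) (nat_lit 0x0) (nat_lit 0x1000180021000000000000000000000000000000000000000) := T_6 (nat_lit 175) (nat_lit 192) (nat_lit 7) (nat_lit 4) (nat_lit 7) L47721 (by decide +kernel)
theorem L47723 : W_6 (nat_lit 4) (nat_lit 0x24001200138008a000000000000000000000000000000) (nat_lit 0x0) (nat_lit 0x14001a0021000000000000000000000000000000000000000) := T_6 (nat_lit 173) (nat_lit 190) (nat_lit 5) (nat_lit 4) (nat_lit 7) L47722 (by decide +kernel)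
theorem L47724 : W_6 (nat_lit 2) (nat_lit 0x3c001200138008a000000000000000000000000000000) (nat_lit 0x0) (nat_lit 0x400020008000000000000000000000000000000000000000) := D_6 (nat_lit 173) (nat_lit 159) (nat_lit 190) (nat_lit 2) (nat_lit 3) (nat_lit 10) (nat_lit 5) (nat_lit 4) (nat_lit 7) (by decide +kernel)
theorem L47725 : W_6 (nat_lit 3) (nat_lit 0x2c001200138008a000000000000000000000000000000) (nat_lit 0x0) (nat_lit 0x400120028000000000000000000000000000000000000000) := T_6 (nat_lit 176) (nat_lit 161) (nat_lit 2) (nat_lit 4) (nat_lit 10) L47724 (by decide +kernel)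
theorem L47726 : W_6 (nat_lit 4) (nat_lit 0x24001200138008a000000000000000000000000000000) (nat_lit 0x0) (nat_lit 0x14001a0028000000000000000000000000000000000000000) := T_6 (nat_lit 175) (nat_lit 192) (nat_lit 7) (nat_lit 4) (nat_lit 7) L47725 (by decide +kernel)
theorem L47727 : W_6 (nat_lit 2) (nat_lit 0x80024001200138008a000000000000000000000000000000) (nat_lit 0x0) (nat_lit 0x20001000080000000000000000000000000000000000000000000) := D_6 (nat_lit 192) (nat_lit 209) (nat_lit 175) (nat_lit 7) (nat_lit 4) (nat_lit 8) (nat_lit 7) (nat_lit 4) (nat_lit 7) (by decide +kernel)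
theorem L47728 : W_6 (nat_lit 3) (nat_lit 0x24001200138008a000000000000000000000000000000) (nat_lit 0x0) (nat_lit 0x20001800080000000000010000000000000000000000000000000) := T_6 (nat_lit 191) (nat_lit 124) (nat_lit 6) (nat_lit 4) (nat_lit 11) L47727 (by decide +kernel)
theorem L47729 : W_6 (nat_lit 2) (nat_lit 0x80024001200138008a000000000000000000000000000000) (nat_lit 0x0) (nat_lit 0x8000400020000000000000000000000000000000000000000000) := D_6 (nat_lit 190) (nat_lit 173) (nat_lit 207) (nat_lit 5) (nat_lit 4) (nat_lit 7) (nat_lit 5) (nat_lit 4) (nat_lit 8) (by decide +kernel)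
theorem L47730 : W_6 (nat_lit 3) (nat_lit 0x24001200138008a000000000000000000000000000000) (nat_lit 0x0) (nat_lit 0x8000c00020000000000010000000000000000000000000000000) := T_6 (nat_lit 191) (nat_lit 124) (nat_lit 6) (nat_lit 4) (nat_lit 11) L47729 (by decide +kernel)
theorem L47731 : W_6 (nat_lit 5) (nat_lit 0x20001200138008a000000000000000000000000000000) (nat_lit 0x0) (nat_lit 0x28001c001e0029000000010000000000000000000000000000000) := Q_6 (nat_lit 174) (C_6 L47723 (C_6 L47726 (C_6 L47728 (C_6 L47730 N_6)))) (by decide +kernel)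
theorem L47732 : W_6 (nat_lit 6) (nat_lit 0x20001000138008a000000000000000000000000000000) (nat_lit 0x0) (nat_lit 0x28001c001f002bc00000015000300010000000000000000000000) := Q_6 (nat_lit 157) (C_6 L47715 (C_6 L47720 (C_6 L47731 N_6))) (by decide +kernel)
theorem L47733 : W_6 (nat_lit 9) (nat_lit 0x20001000138008a000000000000000000000000000000) (nat_lit 0x0) (nat_lit 0x6000700038003e00070034000300018000000000000000000000) := Q_6 (nat_lit 138) (C_6 L47673 (C_6 L47636 (C_6 L47662 (C_6 L47387 N_6)))) (by decide +kernel)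
theorem L47734 : W_6 (nat_lit 10) (nat_lit 0x20001000130008a000000000000000000000000000000) (nat_lit 0x0) (nat_lit 0x2e001f001f802be000f0035000300018000000000000000000000) := Q_6 (nat_lit 139) (C_6 L47712 (C_6 L47713 (C_6 L47732 (C_6 L47733 N_6)))) (by decide +kernel)
theorem L47735 : W_6 (nat_lit 4) (nat_lit 0x20001080134008b000000000000000000000000000000) (nat_lit 0x0) (nat_lit 0x8000600030000000020000000080000000000000000000000000) := T_6 (nat_lit 172) (nat_lit 103) (nat_lit 4) (nat_lit 2) (nat_lit 10) L47499 (by decide +kernel)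
theorem L47736 : W_6 (nat_lit 5) (nat_lit 0x20001080134008a000000000000000000000000000000) (nat_lit 0x0) (nat_lit 0x8000600030000000020005000080000000000000000000000000) := T_6 (nat_lit 120) (nat_lit 122) (nat_lit 3) (nat_lit 1) (nat_lit 7) L47735 (by decide +kernel)
theorem L47737 : W_6 (nat_lit 9) (nat_lit 0x20001000134008a000000000000000000000000000000) (nat_lit 0x0) (nat_lit 0x8000e0007000f8003e0002000500038001c000e00020000000000000) := Q_6 (nat_lit 155) (C_6 L47600 (C_6 L47575 (C_6 L47506 (C_6 L47523 (C_6 L47534 (C_6 L47535 (C_6 L47540 (C_6 L47736 N_6)))))))) (by decide +kernel)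
theorem L47738 : W_6 (nat_lit 5) (nat_lit 0x20001080134008a000000000000000000000000000000) (nat_lit 0x0) (nat_lit 0x80004000a0000000300018000800000000000000000) := T_6 (nat_lit 154) (nat_lit 139) (nat_lit 1) (nat_lit 5) (nat_lit 8) L47580 (by decide +kernel)
theorem L47739 : W_6 (nat_lit 4) (nat_lit 0x20001080134008a000000000000000000000000000000) (nat_lit 0x0) (nat_lit 0x28003400080000000100000000000000000000000000) := T_6 (nat_lit 154) (nat_lit 139) (nat_lit 1) (nat_lit 5) (nat_lit 8) L47577 (by decide +kernel)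
theorem L47740 : W_6 (nat_lit 2) (nat_lit 0x10021001080134008e000000000000000000000000000000) (nat_lit 0x0) (nat_lit 0x2000200000000000080000000000000000000000000000000000) := D_6 (nat_lit 189) (nat_lit 139) (nat_lit 205) (nat_lit 6) (nat_lit 2) (nat_lit 11) (nat_lit 5) (nat_lit 2) (nat_lit 8) (by decide +kernel)
theorem L47741 : W_6 (nat_lit 3) (nat_lit 0x10021001080134008a000000000000000000000000000000) (nat_lit 0x0) (nat_lit 0x2000200000000000080004000200000000000000000000000000) := T_6 (nat_lit 122) (nat_lit 105) (nat_lit 6) (nat_lit 2) (nat_lit 10) L47740 (by decide +kernel)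
theorem L47742 : W_6 (nat_lit 4) (nat_lit 0x21001080134008a000000000000000000000000000000) (nat_lit 0x0) (nat_lit 0x2000300008000000080004000200000000000000000000000000) := T_6 (nat_lit 188) (nat_lit 171) (nat_lit 5) (nat_lit 2) (nat_lit 7) L47741 (by decide +kernel)
theorem L47743 : W_6 (nat_lit 2) (nat_lit 0x20021001080134008e000000000000000000000000000000) (nat_lit 0x0) (nat_lit 0x8000400020000000000000000000000000000000000000000000) := D_6 (nat_lit 190) (nat_lit 207) (nat_lit 173) (nat_lit 7) (nat_lit 2) (nat_lit 8) (nat_lit 7) (nat_lit 2) (nat_lit 7) (by decide +kernel)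
theorem L47744 : W_6 (nat_lit 3) (nat_lit 0x21001080134008e000000000000000000000000000000) (nat_lit 0x0) (nat_lit 0x8000600020000000080000000000000000000000000000000000) := T_6 (nat_lit 189) (nat_lit 139) (nat_lit 6) (nat_lit 2) (nat_lit 11) L47743 (by decide +kernel)
theorem L47745 : W_6 (nat_lit 4) (nat_lit 0x21001080134008a000000000000000000000000000000) (nat_lit 0x0) (nat_lit 0x8000600020000000080004000200000000000000000000000000) := T_6 (nat_lit 122) (nat_lit 105) (nat_lit 6) (nat_lit 2) (nat_lit 10) L47744 (by decide +kernel)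
theorem L47746 : W_6 (nat_lit 8) (nat_lit 0x20001080134008a000000000000000000000000000000) (nat_lit 0x0) (nat_lit 0xa00070003800100008000400038001c000a00000000000000000) := Q_6 (nat_lit 172) (C_6 L47533 (C_6 L47742 (C_6 L47530 (C_6 L47745 N_6)))) (by decide +kernel)
theorem L47747 : W_6 (nat_lit 5) (nat_lit 0x21001080134008a000000000000000000000000000000) (nat_lit 0x0) (nat_lit 0x5000e8000600080000000000000000000000000000000000) := T_6 (nat_lit 154) (nat_lit 139) (nat_lit 1) (nat_lit 5) (nat_lit 8) L47585 (by decide +kernel)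
theorem L47748 : W_6 (nat_lit 6) (nat_lit 0x20001080134008a000000000000000000000000000000) (nat_lit 0x0) (nat_lit 0xa0007000f8000600080004000200000000000000000000000000) := Q_6 (nat_lit 172) (C_6 L47533 (C_6 L47745 (C_6 L47742 (C_6 L47747 N_6)))) (by decide +kernel)
theorem L47749 : W_6 (nat_lit 6) (nat_lit 0x20001080134008a000000000000000000000000000000) (nat_lit 0x0) (nat_lit 0x200034000a0000000300018000800000000000000000) := T_6 (nat_lit 154) (nat_lit 139) (nat_lit 1) (nat_lit 5) (nat_lit 8) L47599 (by decide +kernel)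
theorem L47750 : W_6 (nat_lit 9) (nat_lit 0x20001000134008a000000000000000000000000000000) (nat_lit 0x0) (nat_lit 0xa0007000f8003e000a000400038001c000a00000000000000000) := Q_6 (nat_lit 155) (C_6 L47540 (C_6 L47738 (C_6 L47739 (C_6 L47746 (C_6 L47748 (C_6 L47749 N_6)))))) (by decide +kernel)
theorem L47751 : W_6 (nat_lit 10) (nat_lit 0x20001000130008a000000000000000000000000000000) (nat_lit 0x0) (nat_lit 0x8000e0007000f8003e000e000500038001c000e00020000000000000) := Q_6 (nat_lit 138) (C_6 L47603 (C_6 L47399 (C_6 L47737 (C_6 L47750 N_6)))) (by decide +kernel)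
theorem L47752 : W_6 (nat_lit 2) (nat_lit 0x4003c001000138009a000000000000000000000000000000) (nat_lit 0x0) (nat_lit 0x200020001000000000000000000000000000000000000000) := D_6 (nat_lit 173) (nat_lit 189) (nat_lit 156) (nat_lit 1) (nat_lit 6) (nat_lit 10) (nat_lit 6) (nat_lit 3) (nat_lit 11) (by decide +kernel)
theorem L47753 : W_6 (nat_lit 3) (nat_lit 0x3c001000138009a000000000000000000000000000000) (nat_lit 0x0) (nat_lit 0xe00020001000000000000000000000000000000000000000) := T_6 (nat_lit 190) (nat_lit 191) (nat_lit 1) (nat_lit 7) (nat_lit 10) L47752 (by decide +kernel)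
theorem L47754 : W_6 (nat_lit 4) (nat_lit 0x34001000138009a000000000000000000000000000000) (nat_lit 0x0) (nat_lit 0xe000a0021000000000000000000000000000000000000000) := T_6 (nat_lit 175) (nat_lit 161) (nat_lit 2) (nat_lit 4) (nat_lit 10) L47753 (by decide +kernel)
theorem L47755 : W_6 (nat_lit 7) (nat_lit 0x24001000138009a000000000000000000000000000000) (nat_lit 0x0) (nat_lit 0x2e001a002900080006000300018000c000000000000000000) := Q_6 (nat_lit 176) (C_6 L46478 (C_6 L46473 (C_6 L47754 N_6))) (by decide +kernel)
theorem L47756 : W_6 (nat_lit 2) (nat_lit 0x24001000138009a000000000000000000000000000000) (nat_lit 0x0) (nat_lit 0x800000002000000000000800000000000000000000000000) := D_6 (nat_lit 157) (nat_lit 191) (nat_lit 107) (nat_lit 6) (nat_lit 4) (nat_lit 11) (nat_lit 6) (nat_lit 4) (nat_lit 10) (by decide +kernel)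
theorem L47757 : W_6 (nat_lit 2) (nat_lit 0x2c00120013800da000000000000000000000000000000) (nat_lit 0x0) (nat_lit 0x100021000000000000000000000000000000000000000) := D_6 (nat_lit 176) (nat_lit 161) (nat_lit 156) (nat_lit 2) (nat_lit 4) (nat_lit 10) (nat_lit 0) (nat_lit 7) (nat_lit 10) (by decide +kernel)
theorem L47758 : W_6 (nat_lit 3) (nat_lit 0x2400120013800da000000000000000000000000000000) (nat_lit 0x0) (nat_lit 0x1000180021000000000000000000000000000000000000000) := T_6 (nat_lit 175) (nat_lit 192) (nat_lit 7) (nat_lit 4) (nat_lit 7) L47757 (by decide +kernel)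
theorem L47759 : W_6 (nat_lit 4) (nat_lit 0x2400100013800da000000000000000000000000000000) (nat_lit 0x0) (nat_lit 0x1000180023000000000000800000000000000000000000000) := T_6 (nat_lit 157) (nat_lit 107) (nat_lit 6) (nat_lit 4) (nat_lit 10) L47758 (by decide +kernel)
theorem L47760 : W_6 (nat_lit 5) (nat_lit 0x24001000138009a000000000000000000000000000000) (nat_lit 0x0) (nat_lit 0x1000180023000000060000800000000000000000000000000) := T_6 (nat_lit 126) (nat_lit 125) (nat_lit 1) (nat_lit 7) (nat_lit 7) L47759 (by decide +kernel)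
theorem L47761 : W_6 (nat_lit 8) (nat_lit 0x20001000138009a000000000000000000000000000000) (nat_lit 0x0) (nat_lit 0x3e001e002b00080006000380018000c000000000000000000) := Q_6 (nat_lit 174) (C_6 L47755 (C_6 L47756 (C_6 L47760 N_6))) (by decide +kernel)
theorem L47762 : W_6 (nat_lit 9) (nat_lit 0x20001000130009a000000000000000000000000000000) (nat_lit 0x0) (nat_lit 0x3e001e002b0008e006100380018000c000000000000000000) := Q_6 (nat_lit 139) (C_6 L45419 (C_6 L47761 N_6)) (by decide +kernel)
theorem L47763 : W_6 (nat_lit 3) (nat_lit 0x2000100013000ba000000000000000000000000000000) (nat_lit 0x0) (nat_lit 0x5003800000000000000000000000000) := T_6 (nat_lit 122) (nat_lit 120) (nat_lit 3) (nat_lit 1) (nat_lit 7) L43780 (by decide +kernel)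
theorem L47764 : W_6 (nat_lit 4) (nat_lit 0x20001000130009a000000000000000000000000000000) (nat_lit 0x0) (nat_lit 0x65003800000000000000000000000000) := T_6 (nat_lit 125) (nat_lit 126) (nat_lit 1) (nat_lit 8) (nat_lit 7) L47763 (by decide +kernel)
theorem L47765 : W_6 (nat_lit 3) (nat_lit 0x20001000130009e000000000000000000000000000000) (nat_lit 0x0) (nat_lit 0xe0060000000000000000000000000000000) := T_6 (nat_lit 125) (nat_lit 126) (nat_lit 1) (nat_lit 8) (nat_lit 7) L43777 (by decide +kernel)
theorem L47766 : W_6 (nat_lit 4) (nat_lit 0x20001000130009a000000000000000000000000000000) (nat_lit 0x0) (nat_lit 0xe0065000000000000000000000000000000) := T_6 (nat_lit 122) (nat_lit 120) (nat_lit 3) (nat_lit 1) (nat_lit 7) L47765 (by decide +kernel)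
theorem L47767 : W_6 (nat_lit 2) (nat_lit 0x2000100013400be000000000000000000000000000000) (nat_lit 0x0) (nat_lit 0x3800000000000000000000000000) := D_6 (nat_lit 108) (nat_lit 107) (nat_lit 109) (nat_lit 2) (nat_lit 2) (nat_lit 7) (nat_lit 2) (nat_lit 3) (nat_lit 7) (by decide +kernel)
theorem L47768 : W_6 (nat_lit 3) (nat_lit 0x2000100013400ba000000000000000000000000000000) (nat_lit 0x0) (nat_lit 0x20004003800000000000000000000000000) := T_6 (nat_lit 122) (nat_lit 137) (nat_lit 1) (nat_lit 5) (nat_lit 7) L47767 (by decide +kernel)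
theorem L47769 : W_6 (nat_lit 4) (nat_lit 0x2000100013000ba000000000000000000000000000000) (nat_lit 0x0) (nat_lit 0xe0004003800000000000000000000000000) := T_6 (nat_lit 138) (nat_lit 139) (nat_lit 2) (nat_lit 2) (nat_lit 8) L47768 (by decide +kernel)
theorem L47770 : W_6 (nat_lit 5) (nat_lit 0x20001000130009a000000000000000000000000000000) (nat_lit 0x0) (nat_lit 0xe0064003800000000000000000000000000) := T_6 (nat_lit 125) (nat_lit 126) (nat_lit 1) (nat_lit 8) (nat_lit 7) L47769 (by decide +kernel)
theorem L47771 : W_6 (nat_lit 10) (nat_lit 0x20001000130008a000000000000000000000000000000) (nat_lit 0x0) (nat_lit 0x3e001e002b0008e00750039801c000e000000000000000000) := Q_6 (nat_lit 124) (C_6 L47462 (C_6 L47762 (C_6 L47764 (C_6 L47457 (C_6 L47766 (C_6 L47770 N_6)))))) (by decide +kernel)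
theorem L47772 : W_6 (nat_lit 2) (nat_lit 0x2000100013400be000000000000000000000000000000) (nat_lit 0x0) (nat_lit 0x380000000000000000000000000) := D_6 (nat_lit 104) (nat_lit 103) (nat_lit 105) (nat_lit 0) (nat_lit 5) (nat_lit 7) (nat_lit 0) (nat_lit 6) (nat_lit 7) (by decide +kernel)
theorem L47773 : W_6 (nat_lit 3) (nat_lit 0x2000100013400ba000000000000000000000000000000) (nat_lit 0x0) (nat_lit 0x20004000380000000000000000000000000) := T_6 (nat_lit 122) (nat_lit 137) (nat_lit 1) (nat_lit 5) (nat_lit 7) L47772 (by decide +kernel)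
theorem L47774 : W_6 (nat_lit 4) (nat_lit 0x2000100013000ba000000000000000000000000000000) (nat_lit 0x0) (nat_lit 0xe0004000380000000000000000000000000) := T_6 (nat_lit 138) (nat_lit 139) (nat_lit 2) (nat_lit 2) (nat_lit 8) L47773 (by decide +kernel)
theorem L47775 : W_6 (nat_lit 5) (nat_lit 0x20001000130009a000000000000000000000000000000) (nat_lit 0x0) (nat_lit 0xe0064000380000000000000000000000000) := T_6 (nat_lit 125) (nat_lit 126) (nat_lit 1) (nat_lit 8) (nat_lit 7) L47774 (by decide +kernel)
theorem L47776 : W_6 (nat_lit 9) (nat_lit 0x20001000130009a000800000000000000000000000000) (nat_lit 0x0) (nat_lit 0x600040013800f8007c00000000000000000) := T_6 (nat_lit 122) (nat_lit 108) (nat_lit 2) (nat_lit 2) (nat_lit 7) L44859 (by decide +kernel)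
theorem L47777 : W_6 (nat_lit 2) (nat_lit 0x200012c0134009a000900008000000000000000000000) (nat_lit 0x0) (nat_lit 0x200010000800000000000000000) := D_6 (nat_lit 88) (nat_lit 105) (nat_lit 71) (nat_lit 6) (nat_lit 2) (nat_lit 9) (nat_lit 6) (nat_lit 2) (nat_lit 8) (by decide +kernel)
theorem L47778 : W_6 (nat_lit 3) (nat_lit 0x200012c0134009a000900000000000000000000000000) (nat_lit 0x0) (nat_lit 0x20000000200018000800000000000000000) := T_6 (nat_lit 87) (nat_lit 137) (nat_lit 5) (nat_lit 2) (nat_lit 5) L47777 (by decide +kernel)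
theorem L47779 : W_6 (nat_lit 4) (nat_lit 0x200012c0134009a000800000000000000000000000000) (nat_lit 0x0) (nat_lit 0x8000000020000000300018000800000000000000000) := T_6 (nat_lit 104) (nat_lit 171) (nat_lit 5) (nat_lit 2) (nat_lit 6) L47778 (by decide +kernel)
theorem L47780 : W_6 (nat_lit 5) (nat_lit 0x200012c0130009a000800000000000000000000000000) (nat_lit 0x0) (nat_lit 0x80000000e0000000300018000800000000000000000) := T_6 (nat_lit 138) (nat_lit 139) (nat_lit 1) (nat_lit 5) (nat_lit 8) L47779 (by decide +kernel)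
theorem L47781 : W_6 (nat_lit 6) (nat_lit 0x20001280130009a000800000000000000000000000000) (nat_lit 0x0) (nat_lit 0x80014000e0000000300018000800000000000000000) := T_6 (nat_lit 154) (nat_lit 156) (nat_lit 2) (nat_lit 1) (nat_lit 9) L47780 (by decide +kernel)
theorem L47782 : W_6 (nat_lit 7) (nat_lit 0x20001080130009a000800000000000000000000000000) (nat_lit 0x0) (nat_lit 0x480034000e0000000300018000800000000000000000) := T_6 (nat_lit 157) (nat_lit 174) (nat_lit 6) (nat_lit 4) (nat_lit 10) L47781 (by decide +kernel)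
theorem L47783 : W_6 (nat_lit 2) (nat_lit 0x20001080134009e000900000000000000000000000000) (nat_lit 0x0) (nat_lit 0x8000400080000000000000000000000000000000000) := D_6 (nat_lit 154) (nat_lit 139) (nat_lit 171) (nat_lit 1) (nat_lit 5) (nat_lit 8) (nat_lit 5) (nat_lit 2) (nat_lit 6) (by decide +kernel)
theorem L47784 : W_6 (nat_lit 3) (nat_lit 0x20001080130009e000900000000000000000000000000) (nat_lit 0x0) (nat_lit 0x80004000e0000000000000000000000000000000000) := T_6 (nat_lit 138) (nat_lit 137) (nat_lit 1) (nat_lit 5) (nat_lit 7) L47783 (by decide +kernel)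
theorem L47785 : W_6 (nat_lit 4) (nat_lit 0x20001080130009e000800000000000000000000000000) (nat_lit 0x0) (nat_lit 0x80004000e0000000180000000000000000000000000) := T_6 (nat_lit 104) (nat_lit 103) (nat_lit 0) (nat_lit 5) (nat_lit 7) L47784 (by decide +kernel)
theorem L47786 : W_6 (nat_lit 5) (nat_lit 0x20001080130009a000800000000000000000000000000) (nat_lit 0x0) (nat_lit 0x80004000e0004001180000000000000000000000000) := T_6 (nat_lit 122) (nat_lit 108) (nat_lit 2) (nat_lit 2) (nat_lit 7) L47785 (by decide +kernel)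
theorem L47787 : W_6 (nat_lit 2) (nat_lit 0x20001380138009e000900000000000000000000000000) (nat_lit 0x0) (nat_lit 0x10000000000000000200008000000000000000000000) := D_6 (nat_lit 105) (nat_lit 172) (nat_lit 87) (nat_lit 5) (nat_lit 3) (nat_lit 6) (nat_lit 4) (nat_lit 3) (nat_lit 9) (by decide +kernel)
theorem L47788 : W_6 (nat_lit 3) (nat_lit 0x20001380130009e000900000000000000000000000000) (nat_lit 0x0) (nat_lit 0x30000000080000000200008000000000000000000000) := T_6 (nat_lit 139) (nat_lit 173) (nat_lit 4) (nat_lit 3) (nat_lit 10) L47787 (by decide +kernel)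
theorem L47789 : W_6 (nat_lit 4) (nat_lit 0x20001280130009e000900000000000000000000000000) (nat_lit 0x0) (nat_lit 0x30001400080000000200008000000000000000000000) := T_6 (nat_lit 156) (nat_lit 154) (nat_lit 2) (nat_lit 1) (nat_lit 9) L47788 (by decide +kernel)
theorem L47790 : W_6 (nat_lit 5) (nat_lit 0x20001080130009e000900000000000000000000000000) (nat_lit 0x0) (nat_lit 0x70003400080000000200008000000000000000000000) := T_6 (nat_lit 157) (nat_lit 174) (nat_lit 6) (nat_lit 4) (nat_lit 10) L47789 (by decide +kernel)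
theorem L47791 : W_6 (nat_lit 6) (nat_lit 0x20001080130009e000800000000000000000000000000) (nat_lit 0x0) (nat_lit 0x70003400080000000380008000000000000000000000) := T_6 (nat_lit 104) (nat_lit 103) (nat_lit 0) (nat_lit 5) (nat_lit 7) L47790 (by decide +kernel)
theorem L47792 : W_6 (nat_lit 7) (nat_lit 0x20001080130009a000800000000000000000000000000) (nat_lit 0x0) (nat_lit 0x70003400080004001380008000000000000000000000) := T_6 (nat_lit 122) (nat_lit 108) (nat_lit 2) (nat_lit 2) (nat_lit 7) L47791 (by decide +kernel)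
theorem L47793 : W_6 (nat_lit 2) (nat_lit 0x24001080134009e000900000000000000000000000000) (nat_lit 0x0) (nat_lit 0x10000000000000000200010000000000000000000000) := D_6 (nat_lit 105) (nat_lit 172) (nat_lit 88) (nat_lit 6) (nat_lit 2) (nat_lit 10) (nat_lit 6) (nat_lit 2) (nat_lit 9) (by decide +kernel)
theorem L47794 : W_6 (nat_lit 3) (nat_lit 0x24001080130009e000900000000000000000000000000) (nat_lit 0x0) (nat_lit 0x10000000060000000200010000000000000000000000) := T_6 (nat_lit 138) (nat_lit 137) (nat_lit 1) (nat_lit 5) (nat_lit 7) L47793 (by decide +kernel)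
theorem L47795 : W_6 (nat_lit 4) (nat_lit 0x24001080130009e000800000000000000000000000000) (nat_lit 0x0) (nat_lit 0x10000000060000000380010000000000000000000000) := T_6 (nat_lit 104) (nat_lit 103) (nat_lit 0) (nat_lit 5) (nat_lit 7) L47794 (by decide +kernel)
theorem L47796 : W_6 (nat_lit 5) (nat_lit 0x24001080130009a000800000000000000000000000000) (nat_lit 0x0) (nat_lit 0x10000000060004001380010000000000000000000000) := T_6 (nat_lit 122) (nat_lit 108) (nat_lit 2) (nat_lit 2) (nat_lit 7) L47795 (by decide +kernel)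
theorem L47797 : W_6 (nat_lit 6) (nat_lit 0x20001080130009a000800000000000000000000000000) (nat_lit 0x0) (nat_lit 0x50002000060004001380010000000000000000000000) := T_6 (nat_lit 174) (nat_lit 157) (nat_lit 6) (nat_lit 4) (nat_lit 10) L47796 (by decide +kernel)
theorem L47798 : W_6 (nat_lit 3) (nat_lit 0x20001080134009e000800000000000000000000000000) (nat_lit 0x0) (nat_lit 0x10000400080000000200010000000000000000000000) := T_6 (nat_lit 139) (nat_lit 154) (nat_lit 1) (nat_lit 5) (nat_lit 8) L43353 (by decide +kernel)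
theorem L47799 : W_6 (nat_lit 4) (nat_lit 0x20001080130009e000800000000000000000000000000) (nat_lit 0x0) (nat_lit 0x100004000e0000000200010000000000000000000000) := T_6 (nat_lit 138) (nat_lit 137) (nat_lit 1) (nat_lit 5) (nat_lit 7) L47798 (by decide +kernel)
theorem L47800 : W_6 (nat_lit 5) (nat_lit 0x20001080130009a000800000000000000000000000000) (nat_lit 0x0) (nat_lit 0x100004000e0004001200010000000000000000000000) := T_6 (nat_lit 122) (nat_lit 108) (nat_lit 2) (nat_lit 2) (nat_lit 7) L47799 (by decide +kernel)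
theorem L47801 : W_6 (nat_lit 8) (nat_lit 0x20001000130009a000800000000000000000000000000) (nat_lit 0x0) (nat_lit 0x78003c000e0004001380018000800000000000000000) := Q_6 (nat_lit 155) (C_6 L47782 (C_6 L47786 (C_6 L47792 (C_6 L47797 (C_6 L47800 N_6))))) (by decide +kernel)
theorem L47802 : W_6 (nat_lit 10) (nat_lit 0x20001000130009a000000000000000000000000000000) (nat_lit 0x0) (nat_lit 0x78003c000e0004001b800f8007c00000000000000000) := Q_6 (nat_lit 107) (C_6 L47404 (C_6 L47776 (C_6 L47801 N_6))) (by decide +kernel)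
theorem L47803 : W_6 (nat_lit 13) (nat_lit 0x20001000130008a000000000000000000000000000000) (nat_lit 0x0) (nat_lit 0x2e001f802bc008e0074003b801f800fe00000000000000000) := Q_6 (nat_lit 124) (C_6 L47770 (C_6 L47473 (C_6 L47775 (C_6 L47448 (C_6 L47802 N_6))))) (by decide +kernel)
theorem L47804 : W_6 (nat_lit 2) (nat_lit 0x20001000134009e000800000000000000000000000000) (nat_lit 0x0) (nat_lit 0x2000000000000000040002000000000000000000) := D_6 (nat_lit 90) (nat_lit 157) (nat_lit 73) (nat_lit 5) (nat_lit 5) (nat_lit 5) (nat_lit 5) (nat_lit 5) (nat_lit 4) (by decide +kernel)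
theorem L47805 : W_6 (nat_lit 3) (nat_lit 0x20001000134009e000000000000000000000000000000) (nat_lit 0x0) (nat_lit 0x2000000000001800040002000000000000000000) := T_6 (nat_lit 107) (nat_lit 108) (nat_lit 2) (nat_lit 2) (nat_lit 7) L47804 (by decide +kernel)
theorem L47806 : W_6 (nat_lit 4) (nat_lit 0x20001000130009e000000000000000000000000000000) (nat_lit 0x0) (nat_lit 0x2000060000001800040002000000000000000000) := T_6 (nat_lit 138) (nat_lit 137) (nat_lit 1) (nat_lit 5) (nat_lit 7) L47805 (by decide +kernel)
theorem L47807 : W_6 (nat_lit 5) (nat_lit 0x20001000130009a000000000000000000000000000000) (nat_lit 0x0) (nat_lit 0x2000060005001800040002000000000000000000) := T_6 (nat_lit 122) (nat_lit 120) (nat_lit 3) (nat_lit 1) (nat_lit 7) L47806 (by decide +kernel)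
theorem L47808 : W_6 (nat_lit 10) (nat_lit 0x20001000130008a000000000000000000000000000000) (nat_lit 0x0) (nat_lit 0x3e001e002b0008e00750038001c000e000000000000000000) := Q_6 (nat_lit 124) (C_6 L47770 (C_6 L47762 (C_6 L47766 (C_6 L47764 (C_6 L47807 N_6))))) (by decide +kernel)
theorem L47809 : W_6 (nat_lit 14) (nat_lit 0x200010001300088000000000000000000000000000000) (nat_lit 0x0) (nat_lit 0x8002e003f801fc02be008f0077003b801fc00fe00030000000000000) := Q_6 (nat_lit 121) (C_6 L47403 (C_6 L47463 (C_6 L47474 (C_6 L47629 (C_6 L47711 (C_6 L47734 (C_6 L47751 (C_6 L47771 (C_6 L47803 (C_6 L47808 N_6)))))))))) (by decide +kernel)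
theorem L47810 : W_6 (nat_lit 4) (nat_lit 0x24001000138009c000000000000000000000000000000) (nat_lit 0x0) (nat_lit 0x63000380000000000000000000000000) := T_6 (nat_lit 125) (nat_lit 126) (nat_lit 1) (nat_lit 7) (nat_lit 7) L46485 (by decide +kernel)
theorem L47811 : W_6 (nat_lit 2) (nat_lit 0x24001100138009e000100000000000000000000000000) (nat_lit 0x0) (nat_lit 0x200008000400000000000000000) := D_6 (nat_lit 87) (nat_lit 70) (nat_lit 105) (nat_lit 7) (nat_lit 2) (nat_lit 4) (nat_lit 4) (nat_lit 3) (nat_lit 9) (by decide +kernel)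
theorem L47812 : W_6 (nat_lit 3) (nat_lit 0x24001000138009e000100000000000000000000000000) (nat_lit 0x0) (nat_lit 0x20001000000000000200008000400000000000000000) := T_6 (nat_lit 156) (nat_lit 173) (nat_lit 4) (nat_lit 3) (nat_lit 10) L47811 (by decide +kernel)
theorem L47813 : W_6 (nat_lit 4) (nat_lit 0x24001000138009e000000000000000000000000000000) (nat_lit 0x0) (nat_lit 0x20001000000000000380008000400000000000000000) := T_6 (nat_lit 104) (nat_lit 103) (nat_lit 0) (nat_lit 5) (nat_lit 7) L47812 (by decide +kernel)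
theorem L47814 : W_6 (nat_lit 5) (nat_lit 0x24001000138009c000000000000000000000000000000) (nat_lit 0x0) (nat_lit 0x20001000000003000380008000400000000000000000) := T_6 (nat_lit 121) (nat_lit 120) (nat_lit 3) (nat_lit 1) (nat_lit 7) L47813 (by decide +kernel)
theorem L47815 : W_6 (nat_lit 2) (nat_lit 0x360018001b800dc000000000000000000000000000000) (nat_lit 0x0) (nat_lit 0xc00000001000000000000000000000000000000000000000) := D_6 (nat_lit 156) (nat_lit 191) (nat_lit 190) (nat_lit 7) (nat_lit 3) (nat_lit 7) (nat_lit 6) (nat_lit 3) (nat_lit 11) (by decide +kernel)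
theorem L47816 : W_6 (nat_lit 3) (nat_lit 0x340018001b800dc000000000000000000000000000000) (nat_lit 0x0) (nat_lit 0xc000a0001000000000000000000000000000000000000000) := T_6 (nat_lit 173) (nat_lit 175) (nat_lit 2) (nat_lit 3) (nat_lit 10) L47815 (by decide +kernel)
theorem L47817 : W_6 (nat_lit 4) (nat_lit 0x340010001b800dc000000000000000000000000000000) (nat_lit 0x0) (nat_lit 0xc000a0009000000000002000000000000000000000000000) := T_6 (nat_lit 159) (nat_lit 109) (nat_lit 5) (nat_lit 7) (nat_lit 6) L47816 (by decide +kernel)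
theorem L47818 : W_6 (nat_lit 5) (nat_lit 0x3400100013800dc000000000000000000000000000000) (nat_lit 0x0) (nat_lit 0x2c000a0009000800000002000000000000000000000000000) := T_6 (nat_lit 143) (nat_lit 193) (nat_lit 5) (nat_lit 7) (nat_lit 7) L47817 (by decide +kernel)
theorem L47819 : W_6 (nat_lit 6) (nat_lit 0x34001000138009c000000000000000000000000000000) (nat_lit 0x0) (nat_lit 0x2c000a0009000800060002000000000000000000000000000) := T_6 (nat_lit 126) (nat_lit 125) (nat_lit 1) (nat_lit 7) (nat_lit 7) L47818 (by decide +kernel)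
theorem L47820 : W_6 (nat_lit 2) (nat_lit 0x340010001b800dc002000000000000000000000000000) (nat_lit 0x0) (nat_lit 0x20000000000000000100008000000000000000000) := D_6 (nat_lit 92) (nat_lit 161) (nat_lit 75) (nat_lit 7) (nat_lit 7) (nat_lit 5) (nat_lit 7) (nat_lit 7) (nat_lit 4) (by decide +kernel)
theorem L47821 : W_6 (nat_lit 3) (nat_lit 0x340010001b800dc000000000000000000000000000000) (nat_lit 0x0) (nat_lit 0x28000000000002000100008000000000000000000) := T_6 (nat_lit 109) (nat_lit 159) (nat_lit 5) (nat_lit 7) (nat_lit 6) L47820 (by decide +kernel)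
theorem L47822 : W_6 (nat_lit 4) (nat_lit 0x3400100013800dc000000000000000000000000000000) (nat_lit 0x0) (nat_lit 0x2000000028000800000002000100008000000000000000000) := T_6 (nat_lit 143) (nat_lit 193) (nat_lit 5) (nat_lit 7) (nat_lit 7) L47821 (by decide +kernel)
theorem L47823 : W_6 (nat_lit 5) (nat_lit 0x34001000138009c000000000000000000000000000000) (nat_lit 0x0) (nat_lit 0x2000000028000800060002000100008000000000000000000) := T_6 (nat_lit 126) (nat_lit 125) (nat_lit 1) (nat_lit 7) (nat_lit 7) L47822 (by decide +kernel)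
theorem L47824 : W_6 (nat_lit 4) (nat_lit 0x3400100013800dc000000000000000000000000000000) (nat_lit 0x0) (nat_lit 0xe000a0021000000000000000000000000000000000000000) := T_6 (nat_lit 175) (nat_lit 161) (nat_lit 2) (nat_lit 4) (nat_lit 10) L43361 (by decide +kernel)
theorem L47825 : W_6 (nat_lit 5) (nat_lit 0x34001000138009c000000000000000000000000000000) (nat_lit 0x0) (nat_lit 0xe000a0021000000060000000000000000000000000000000) := T_6 (nat_lit 126) (nat_lit 125) (nat_lit 1) (nat_lit 7) (nat_lit 7) L47824 (by decide +kernel)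
theorem L47826 : W_6 (nat_lit 7) (nat_lit 0x24001000138009c000000000000000000000000000000) (nat_lit 0x0) (nat_lit 0x2e001a0029000800060002000100008000000000000000000) := Q_6 (nat_lit 176) (C_6 L46451 (C_6 L47819 (C_6 L47823 (C_6 L47825 N_6)))) (by decide +kernel)
theorem L47827 : W_6 (nat_lit 8) (nat_lit 0x240010001380098000000000000000000000000000000) (nat_lit 0x0) (nat_lit 0x2e001a0029000800067002380108008400000000000000000) := Q_6 (nat_lit 122) (C_6 L47810 (C_6 L47814 (C_6 L47826 N_6))) (by decide +kernel)
theorem L47828 : W_6 (nat_lit 6) (nat_lit 0x240010001380098000000000000000000000000000000) (nat_lit 0x0) (nat_lit 0x14001a000b000000060000800000000000000000000000000) := T_6 (nat_lit 157) (nat_lit 107) (nat_lit 6) (nat_lit 4) (nat_lit 10) L47237 (by decide +kernel)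
theorem L47829 : W_6 (nat_lit 9) (nat_lit 0x200010001380098000000000000000000000000000000) (nat_lit 0x0) (nat_lit 0x3e001e002b000800067002b80108008400000000000000000) := Q_6 (nat_lit 174) (C_6 L47238 (C_6 L47206 (C_6 L47827 (C_6 L47234 (C_6 L46450 (C_6 L47828 N_6)))))) (by decide +kernel)
theorem L47830 : W_6 (nat_lit 13) (nat_lit 0x200010001300098000000000000000000000000000000) (nat_lit 0x0) (nat_lit 0x2003f001f802bc008e0067002b8017c00ae00010000000000000) := Q_6 (nat_lit 139) (C_6 L47203 (C_6 L46961 (C_6 L47829 (C_6 L45312 N_6)))) (by decide +kernel)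
theorem L47831 : W_6 (nat_lit 2) (nat_lit 0x2000100013800d8000c001e0000000000000000000000) (nat_lit 0x0) (nat_lit 0x2000000018000000000000000000) := D_6 (nat_lit 75) (nat_lit 76) (nat_lit 109) (nat_lit 2) (nat_lit 4) (nat_lit 5) (nat_lit 7) (nat_lit 7) (nat_lit 4) (by decide +kernel)
theorem L47832 : W_6 (nat_lit 3) (nat_lit 0x2000100013800d8000c000e0000000000000000000000) (nat_lit 0x0) (nat_lit 0x2000300018000000000000000000) := T_6 (nat_lit 92) (nat_lit 93) (nat_lit 1) (nat_lit 8) (nat_lit 5) L47831 (by decide +kernel)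
theorem L47833 : W_6 (nat_lit 4) (nat_lit 0x2000100013800d8000c00060000000000000000000000) (nat_lit 0x0) (nat_lit 0x200038001c000000000000000000) := T_6 (nat_lit 91) (nat_lit 74) (nat_lit 6) (nat_lit 5) (nat_lit 8) L47832 (by decide +kernel)
theorem L47834 : W_6 (nat_lit 5) (nat_lit 0x2000100013800d8000800060000000000000000000000) (nat_lit 0x0) (nat_lit 0x100000000000240038001c000000000000000000) := T_6 (nat_lit 106) (nat_lit 156) (nat_lit 5) (nat_lit 4) (nat_lit 5) L47833 (by decide +kernel)
theorem L47835 : W_6 (nat_lit 6) (nat_lit 0x2000100013800d8000800040000000000000000000000) (nat_lit 0x0) (nat_lit 0x10000000000024003a001d000000000000000000) := T_6 (nat_lit 89) (nat_lit 72) (nat_lit 4) (nat_lit 5) (nat_lit 8) L47834 (by decide +kernel)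
theorem L47836 : W_6 (nat_lit 7) (nat_lit 0x2000100013800d8000800000000000000000000000000) (nat_lit 0x0) (nat_lit 0x10000000000024003e001f000000000000000000) := T_6 (nat_lit 90) (nat_lit 73) (nat_lit 5) (nat_lit 5) (nat_lit 4) L47835 (by decide +kernel)
theorem L47837 : W_6 (nat_lit 8) (nat_lit 0x200010001380098000800000000000000000000000000) (nat_lit 0x0) (nat_lit 0x10000000600024003e001f000000000000000000) := T_6 (nat_lit 126) (nat_lit 125) (nat_lit 1) (nat_lit 7) (nat_lit 7) L47836 (by decide +kernel)
theorem L47838 : W_6 (nat_lit 2) (nat_lit 0x360010001380098000800000000000000000000000000) (nat_lit 0x0) (nat_lit 0x80028000000000000000000000000000000000000000) := D_6 (nat_lit 175) (nat_lit 161) (nat_lit 159) (nat_lit 2) (nat_lit 4) (nat_lit 10) (nat_lit 2) (nat_lit 3) (nat_lit 10) (by decide +kernel)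
theorem L47839 : W_6 (nat_lit 3) (nat_lit 0x320010001380098000800000000000000000000000000) (nat_lit 0x0) (nat_lit 0xc002a000000000000000000000000000000000000000) := T_6 (nat_lit 174) (nat_lit 157) (nat_lit 6) (nat_lit 4) (nat_lit 10) L47838 (by decide +kernel)
theorem L47840 : W_6 (nat_lit 2) (nat_lit 0x320010001b800d8002800000000000000000000000000) (nat_lit 0x0) (nat_lit 0x20000000000000000100008000000000000000000) := D_6 (nat_lit 92) (nat_lit 161) (nat_lit 75) (nat_lit 7) (nat_lit 7) (nat_lit 5) (nat_lit 7) (nat_lit 7) (nat_lit 4) (by decide +kernel)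
theorem L47841 : W_6 (nat_lit 3) (nat_lit 0x320010001b800d8000800000000000000000000000000) (nat_lit 0x0) (nat_lit 0x28000000000002000100008000000000000000000) := T_6 (nat_lit 109) (nat_lit 159) (nat_lit 5) (nat_lit 7) (nat_lit 6) L47840 (by decide +kernel)
theorem L47842 : W_6 (nat_lit 4) (nat_lit 0x3200100013800d8000800000000000000000000000000) (nat_lit 0x0) (nat_lit 0x2000000028000800000002000100008000000000000000000) := T_6 (nat_lit 143) (nat_lit 193) (nat_lit 5) (nat_lit 7) (nat_lit 7) L47841 (by decide +kernel)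
theorem L47843 : W_6 (nat_lit 5) (nat_lit 0x320010001380098000800000000000000000000000000) (nat_lit 0x0) (nat_lit 0x2000000028000800060002000100008000000000000000000) := T_6 (nat_lit 126) (nat_lit 125) (nat_lit 1) (nat_lit 7) (nat_lit 7) L47842 (by decide +kernel)
theorem L47844 : W_6 (nat_lit 3) (nat_lit 0x3600100013800d8000800000000000000000000000000) (nat_lit 0x0) (nat_lit 0xe00080008000000000000000000000000000000000000000) := T_6 (nat_lit 175) (nat_lit 159) (nat_lit 2) (nat_lit 3) (nat_lit 10) L46917 (by decide +kernel)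
theorem L47845 : W_6 (nat_lit 4) (nat_lit 0x3200100013800d8000800000000000000000000000000) (nat_lit 0x0) (nat_lit 0xe000c000a000000000000000000000000000000000000000) := T_6 (nat_lit 174) (nat_lit 157) (nat_lit 6) (nat_lit 4) (nat_lit 10) L47844 (by decide +kernel)
theorem L47846 : W_6 (nat_lit 5) (nat_lit 0x320010001380098000800000000000000000000000000) (nat_lit 0x0) (nat_lit 0xe000c000a000000060000000000000000000000000000000) := T_6 (nat_lit 126) (nat_lit 125) (nat_lit 1) (nat_lit 7) (nat_lit 7) L47845 (by decide +kernel)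
theorem L47847 : W_6 (nat_lit 3) (nat_lit 0x3600100013800d8000800000000000000000000000000) (nat_lit 0x0) (nat_lit 0xe00080020000000000000000000000000000000000000000) := T_6 (nat_lit 175) (nat_lit 161) (nat_lit 2) (nat_lit 4) (nat_lit 10) L46917 (by decide +kernel)
theorem L47848 : W_6 (nat_lit 4) (nat_lit 0x3200100013800d8000800000000000000000000000000) (nat_lit 0x0) (nat_lit 0xe000c0022000000000000000000000000000000000000000) := T_6 (nat_lit 174) (nat_lit 157) (nat_lit 6) (nat_lit 4) (nat_lit 10) L47847 (by decide +kernel)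
theorem L47849 : W_6 (nat_lit 5) (nat_lit 0x320010001380098000800000000000000000000000000) (nat_lit 0x0) (nat_lit 0xe000c0022000000060000000000000000000000000000000) := T_6 (nat_lit 126) (nat_lit 125) (nat_lit 1) (nat_lit 7) (nat_lit 7) L47848 (by decide +kernel)
theorem L47850 : W_6 (nat_lit 6) (nat_lit 0x220010001380098000800000000000000000000000000) (nat_lit 0x0) (nat_lit 0x2e001c002a000800060002000100008000000000000000000) := Q_6 (nat_lit 176) (C_6 L47839 (C_6 L47843 (C_6 L47846 (C_6 L47849 N_6)))) (by decide +kernel)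
theorem L47851 : W_6 (nat_lit 2) (nat_lit 0x2200110013800d8000800000000000000000000000000) (nat_lit 0x0) (nat_lit 0x40002000000000000400000000000000000000000000) := D_6 (nat_lit 157) (nat_lit 174) (nat_lit 106) (nat_lit 6) (nat_lit 4) (nat_lit 10) (nat_lit 5) (nat_lit 4) (nat_lit 6) (by decide +kernel)
theorem L47852 : W_6 (nat_lit 3) (nat_lit 0x2200100013800d8000800000000000000000000000000) (nat_lit 0x0) (nat_lit 0x400040003000000000000400000000000000000000000000) := T_6 (nat_lit 156) (nat_lit 190) (nat_lit 6) (nat_lit 3) (nat_lit 11) L47851 (by decide +kernel)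
theorem L47853 : W_6 (nat_lit 4) (nat_lit 0x220010001380098000800000000000000000000000000) (nat_lit 0x0) (nat_lit 0x400040003000000060000400000000000000000000000000) := T_6 (nat_lit 126) (nat_lit 125) (nat_lit 1) (nat_lit 7) (nat_lit 7) L47852 (by decide +kernel)
theorem L47854 : W_6 (nat_lit 2) (nat_lit 0x2200110013800d8000800000000000000000000000000) (nat_lit 0x0) (nat_lit 0x4000400020000000000000000000000) := D_6 (nat_lit 106) (nat_lit 89) (nat_lit 122) (nat_lit 5) (nat_lit 4) (nat_lit 5) (nat_lit 6) (nat_lit 3) (nat_lit 10) (by decide +kernel)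
theorem L47855 : W_6 (nat_lit 3) (nat_lit 0x2200100013800d8000800000000000000000000000000) (nat_lit 0x0) (nat_lit 0x400000001000000004000400020000000000000000000000) := T_6 (nat_lit 156) (nat_lit 190) (nat_lit 6) (nat_lit 3) (nat_lit 11) L47854 (by decide +kernel)
theorem L47856 : W_6 (nat_lit 4) (nat_lit 0x220010001380098000800000000000000000000000000) (nat_lit 0x0) (nat_lit 0x400000001000000064000400020000000000000000000000) := T_6 (nat_lit 126) (nat_lit 125) (nat_lit 1) (nat_lit 7) (nat_lit 7) L47855 (by decide +kernel)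
theorem L47857 : W_6 (nat_lit 2) (nat_lit 0x220011001380098000800000000000000000000000000) (nat_lit 0x0) (nat_lit 0x40002000000000000400000000000000000000000000) := D_6 (nat_lit 157) (nat_lit 174) (nat_lit 106) (nat_lit 6) (nat_lit 4) (nat_lit 10) (nat_lit 5) (nat_lit 4) (nat_lit 6) (by decide +kernel)
theorem L47858 : W_6 (nat_lit 3) (nat_lit 0x220010001380098000800000000000000000000000000) (nat_lit 0x0) (nat_lit 0x400040003000000000000400000000000000000000000000) := T_6 (nat_lit 156) (nat_lit 190) (nat_lit 6) (nat_lit 3) (nat_lit 11) L47857 (by decide +kernel)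
theorem L47859 : W_6 (nat_lit 2) (nat_lit 0x220011001380098000800000000000000000000000000) (nat_lit 0x0) (nat_lit 0x4000400020000000000000000000000) := D_6 (nat_lit 106) (nat_lit 89) (nat_lit 122) (nat_lit 5) (nat_lit 4) (nat_lit 5) (nat_lit 6) (nat_lit 3) (nat_lit 10) (by decide +kernel)
theorem L47860 : W_6 (nat_lit 2) (nat_lit 0x2600110013800dc000800000000000000000000000000) (nat_lit 0x0) (nat_lit 0x3000100000000000000000000000000) := D_6 (nat_lit 121) (nat_lit 104) (nat_lit 120) (nat_lit 4) (nat_lit 3) (nat_lit 10) (nat_lit 3) (nat_lit 1) (nat_lit 7) (by decide +kernel)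
theorem L47861 : W_6 (nat_lit 3) (nat_lit 0x2600110013800d8000800000000000000000000000000) (nat_lit 0x0) (nat_lit 0x800000000000000007000100000000000000000000000000) := T_6 (nat_lit 122) (nat_lit 191) (nat_lit 7) (nat_lit 3) (nat_lit 7) L47860 (by decide +kernel)
theorem L47862 : W_6 (nat_lit 4) (nat_lit 0x2200110013800d8000800000000000000000000000000) (nat_lit 0x0) (nat_lit 0x800040002000000007000100000000000000000000000000) := T_6 (nat_lit 174) (nat_lit 157) (nat_lit 6) (nat_lit 4) (nat_lit 10) L47861 (by decide +kernel)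
theorem L47863 : W_6 (nat_lit 5) (nat_lit 0x220011001380098000800000000000000000000000000) (nat_lit 0x0) (nat_lit 0x800040002000000067000100000000000000000000000000) := T_6 (nat_lit 126) (nat_lit 125) (nat_lit 1) (nat_lit 7) (nat_lit 7) L47862 (by decide +kernel)
theorem L47864 : W_6 (nat_lit 6) (nat_lit 0x220010001380098000800000000000000000000000000) (nat_lit 0x0) (nat_lit 0x800040003000000067000500020000000000000000000000) := Q_6 (nat_lit 156) (C_6 L47857 (C_6 L47859 (C_6 L47863 N_6))) (by decide +kernel)
theorem L47865 : W_6 (nat_lit 7) (nat_lit 0x200010001380098000800000000000000000000000000) (nat_lit 0x0) (nat_lit 0x2e001e002b000800067002500120008000000000000000000) := Q_6 (nat_lit 173) (C_6 L47850 (C_6 L47853 (C_6 L47856 (C_6 L47858 (C_6 L47864 N_6))))) (by decide +kernel)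
theorem L47866 : W_6 (nat_lit 9) (nat_lit 0x200010001380098000000000000000000000000000000) (nat_lit 0x0) (nat_lit 0x2e001e002b000800067002d003e001f000000000000000000) := Q_6 (nat_lit 107) (C_6 L45100 (C_6 L47837 (C_6 L47865 N_6))) (by decide +kernel)
theorem L47867 : W_6 (nat_lit 10) (nat_lit 0x200010001300098000000000000000000000000000000) (nat_lit 0x0) (nat_lit 0x2e001e002bc008e0067002d803ec01f000000000000000000) := Q_6 (nat_lit 139) (C_6 L47287 (C_6 L45312 (C_6 L47866 N_6))) (by decide +kernel)
theorem L47868 : W_6 (nat_lit 2) (nat_lit 0x200013001380098000200000000000000000000000000) (nat_lit 0x0) (nat_lit 0x4000400010000000000000000000000) := D_6 (nat_lit 88) (nat_lit 122) (nat_lit 106) (nat_lit 7) (nat_lit 3) (nat_lit 5) (nat_lit 4) (nat_lit 4) (nat_lit 9) (by decide +kernel)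
theorem L47869 : W_6 (nat_lit 2) (nat_lit 0x2000134013800b8000a00000000000000000000000000) (nat_lit 0x0) (nat_lit 0x500010000000000000000000000) := D_6 (nat_lit 106) (nat_lit 88) (nat_lit 104) (nat_lit 4) (nat_lit 4) (nat_lit 9) (nat_lit 3) (nat_lit 2) (nat_lit 6) (by decide +kernel)
theorem L47870 : W_6 (nat_lit 3) (nat_lit 0x2000134013800b8000200000000000000000000000000) (nat_lit 0x0) (nat_lit 0xd00050000000000000000000000) := T_6 (nat_lit 107) (nat_lit 90) (nat_lit 5) (nat_lit 5) (nat_lit 5) L47869 (by decide +kernel)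
theorem L47871 : W_6 (nat_lit 4) (nat_lit 0x2000130013800b8000200000000000000000000000000) (nat_lit 0x0) (nat_lit 0xc00000000000d00050000000000000000000000) := T_6 (nat_lit 154) (nat_lit 155) (nat_lit 2) (nat_lit 1) (nat_lit 9) L47870 (by decide +kernel)
theorem L47872 : W_6 (nat_lit 5) (nat_lit 0x200013001380098000200000000000000000000000000) (nat_lit 0x0) (nat_lit 0xc00000060000d00050000000000000000000000) := T_6 (nat_lit 125) (nat_lit 126) (nat_lit 1) (nat_lit 7) (nat_lit 7) L47871 (by decide +kernel)
theorem L47873 : W_6 (nat_lit 2) (nat_lit 0x20001300138009c000200000000000000000000000000) (nat_lit 0x0) (nat_lit 0x60000100000000000000000000000000) := D_6 (nat_lit 125) (nat_lit 126) (nat_lit 104) (nat_lit 1) (nat_lit 7) (nat_lit 7) (nat_lit 0) (nat_lit 6) (nat_lit 7) (by decide +kernel)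
theorem L47874 : W_6 (nat_lit 3) (nat_lit 0x200013001380098000200000000000000000000000000) (nat_lit 0x0) (nat_lit 0x64000100010000000000000000000000) := T_6 (nat_lit 122) (nat_lit 88) (nat_lit 7) (nat_lit 3) (nat_lit 5) L47873 (by decide +kernel)
theorem L47875 : W_6 (nat_lit 2) (nat_lit 0x2000138013800dd000300040000000000000000000000) (nat_lit 0x0) (nat_lit 0x4c0000000000000000000000000) := D_6 (nat_lit 103) (nat_lit 106) (nat_lit 102) (nat_lit 3) (nat_lit 1) (nat_lit 6) (nat_lit 3) (nat_lit 0) (nat_lit 6) (by decide +kernel)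
theorem L47876 : W_6 (nat_lit 3) (nat_lit 0x2000138013800dd000200040000000000000000000000) (nat_lit 0x0) (nat_lit 0x5c0008000000000000000000000) := T_6 (nat_lit 104) (nat_lit 87) (nat_lit 4) (nat_lit 3) (nat_lit 9) L47875 (by decide +kernel)
theorem L47877 : W_6 (nat_lit 4) (nat_lit 0x2000138013800dc000200040000000000000000000000) (nat_lit 0x0) (nat_lit 0x30005c0008000000000000000000000) := T_6 (nat_lit 120) (nat_lit 121) (nat_lit 3) (nat_lit 1) (nat_lit 7) L47876 (by decide +kernel)
theorem L47878 : W_6 (nat_lit 5) (nat_lit 0x2000138013800d8000200040000000000000000000000) (nat_lit 0x0) (nat_lit 0x100000000000070005c0008000000000000000000000) := T_6 (nat_lit 122) (nat_lit 172) (nat_lit 5) (nat_lit 3) (nat_lit 6) L47877 (by decide +kernel)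
theorem L47879 : W_6 (nat_lit 6) (nat_lit 0x200013801380098000200040000000000000000000000) (nat_lit 0x0) (nat_lit 0x100000000000670005c0008000000000000000000000) := T_6 (nat_lit 126) (nat_lit 125) (nat_lit 1) (nat_lit 7) (nat_lit 7) L47878 (by decide +kernel)
theorem L47880 : W_6 (nat_lit 7) (nat_lit 0x200013001380098000200040000000000000000000000) (nat_lit 0x0) (nat_lit 0x10000c000000670005c0008000000000000000000000) := T_6 (nat_lit 155) (nat_lit 154) (nat_lit 2) (nat_lit 1) (nat_lit 9) L47879 (by decide +kernel)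
theorem L47881 : W_6 (nat_lit 8) (nat_lit 0x200013001380098000200000000000000000000000000) (nat_lit 0x0) (nat_lit 0x10000c00000067000dc0048000000000000000000000) := T_6 (nat_lit 90) (nat_lit 107) (nat_lit 5) (nat_lit 5) (nat_lit 5) L47880 (by decide +kernel)
theorem L47882 : W_6 (nat_lit 9) (nat_lit 0x200013001380098000000000000000000000000000000) (nat_lit 0x0) (nat_lit 0x10000c00000067000fc0058000000000000000000000) := Q_6 (nat_lit 105) (C_6 L47868 (C_6 L47872 (C_6 L47874 (C_6 L47881 N_6)))) (by decide +kernel)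
theorem L47883 : W_6 (nat_lit 2) (nat_lit 0x22001300138009c000000010000000000000000000000) (nat_lit 0x0) (nat_lit 0x3000100000000000000000000000000) := D_6 (nat_lit 121) (nat_lit 120) (nat_lit 104) (nat_lit 3) (nat_lit 1) (nat_lit 7) (nat_lit 4) (nat_lit 3) (nat_lit 10) (by decide +kernel)
theorem L47884 : W_6 (nat_lit 3) (nat_lit 0x20001300138009c000000010000000000000000000000) (nat_lit 0x0) (nat_lit 0x400020000000000003000100000000000000000000000000) := T_6 (nat_lit 173) (nat_lit 190) (nat_lit 6) (nat_lit 3) (nat_lit 11) L47883 (by decide +kernel)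
theorem L47885 : W_6 (nat_lit 4) (nat_lit 0x20001300138009c000000000000000000000000000000) (nat_lit 0x0) (nat_lit 0x400020000000000003000300010000000000000000000000) := T_6 (nat_lit 88) (nat_lit 105) (nat_lit 7) (nat_lit 3) (nat_lit 5) L47884 (by decide +kernel)
theorem L47886 : W_6 (nat_lit 2) (nat_lit 0x2000130013800de000000040000000000000000000000) (nat_lit 0x0) (nat_lit 0x400020000000000000000100000000000000000000000000) := D_6 (nat_lit 173) (nat_lit 190) (nat_lit 104) (nat_lit 6) (nat_lit 3) (nat_lit 11) (nat_lit 4) (nat_lit 3) (nat_lit 10) (by decide +kernel)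
theorem L47887 : W_6 (nat_lit 3) (nat_lit 0x2000130013800dc000000040000000000000000000000) (nat_lit 0x0) (nat_lit 0x400020000000000003000100000000000000000000000000) := T_6 (nat_lit 121) (nat_lit 120) (nat_lit 3) (nat_lit 1) (nat_lit 7) L47886 (by decide +kernel)
theorem L47888 : W_6 (nat_lit 4) (nat_lit 0x20001300138009c000000040000000000000000000000) (nat_lit 0x0) (nat_lit 0x400020000000000063000100000000000000000000000000) := T_6 (nat_lit 126) (nat_lit 125) (nat_lit 1) (nat_lit 7) (nat_lit 7) L47887 (by decide +kernel)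
theorem L47889 : W_6 (nat_lit 5) (nat_lit 0x20001300138009c000000000000000000000000000000) (nat_lit 0x0) (nat_lit 0x400020000000000063000900040000000000000000000000) := T_6 (nat_lit 90) (nat_lit 107) (nat_lit 5) (nat_lit 5) (nat_lit 5) L47888 (by decide +kernel)
theorem L47890 : W_6 (nat_lit 3) (nat_lit 0x20001300138009c000000000000000000000000000000) (nat_lit 0x0) (nat_lit 0x60000300010000000000000000000000) := T_6 (nat_lit 105) (nat_lit 88) (nat_lit 7) (nat_lit 3) (nat_lit 5) L47873 (by decide +kernel)
theorem L47891 : W_6 (nat_lit 6) (nat_lit 0x200013001380098000000000000000000000000000000) (nat_lit 0x0) (nat_lit 0x400030000c00000067000b00050000000000000000000000) := Q_6 (nat_lit 122) (C_6 L47885 (C_6 L45892 (C_6 L47889 (C_6 L47890 N_6)))) (by decide +kernel)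
theorem L47892 : W_6 (nat_lit 10) (nat_lit 0x200012001380098000000000000000000000000000000) (nat_lit 0x0) (nat_lit 0x400030001c00000067000fc0058000000000000000000000) := Q_6 (nat_lit 156) (C_6 L47882 (C_6 L45885 (C_6 L47891 N_6))) (by decide +kernel)
theorem L47893 : W_6 (nat_lit 11) (nat_lit 0x200012001300098000000000000000000000000000000) (nat_lit 0x0) (nat_lit 0xa000700038001c000e0067000fc0058000000000000000000000) := Q_6 (nat_lit 139) (C_6 L46514 (C_6 L47892 (C_6 L45884 N_6))) (by decide +kernel)
theorem L47894 : W_6 (nat_lit 12) (nat_lit 0x200010001300098000000000000000000000000000000) (nat_lit 0x0) (nat_lit 0xa001f001f802bc000e0067000fc0058000000000000000000000) := Q_6 (nat_lit 157) (C_6 L46179 (C_6 L46403 (C_6 L47893 N_6))) (by decide +kernel)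
theorem L47895 : W_6 (nat_lit 2) (nat_lit 0x360018001b800d8000400000000000000000000000000) (nat_lit 0x0) (nat_lit 0x400000001000000004000000000000000000000000000000) := D_6 (nat_lit 156) (nat_lit 190) (nat_lit 122) (nat_lit 6) (nat_lit 3) (nat_lit 11) (nat_lit 6) (nat_lit 3) (nat_lit 10) (by decide +kernel)
theorem L47896 : W_6 (nat_lit 3) (nat_lit 0x340018001b800d8000400000000000000000000000000) (nat_lit 0x0) (nat_lit 0x4000a0001000000004000000000000000000000000000000) := T_6 (nat_lit 173) (nat_lit 175) (nat_lit 2) (nat_lit 3) (nat_lit 10) L47895 (by decide +kernel)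
theorem L47897 : W_6 (nat_lit 4) (nat_lit 0x340010001b800d8000400000000000000000000000000) (nat_lit 0x0) (nat_lit 0x4000a0009000000004002000000000000000000000000000) := T_6 (nat_lit 159) (nat_lit 109) (nat_lit 5) (nat_lit 7) (nat_lit 6) L47896 (by decide +kernel)
theorem L47898 : W_6 (nat_lit 5) (nat_lit 0x3400100013800d8000400000000000000000000000000) (nat_lit 0x0) (nat_lit 0x24000a0009000800004002000000000000000000000000000) := T_6 (nat_lit 143) (nat_lit 193) (nat_lit 5) (nat_lit 7) (nat_lit 7) L47897 (by decide +kernel)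
theorem L47899 : W_6 (nat_lit 6) (nat_lit 0x340010001380098000400000000000000000000000000) (nat_lit 0x0) (nat_lit 0x24000a0009000800064002000000000000000000000000000) := T_6 (nat_lit 126) (nat_lit 125) (nat_lit 1) (nat_lit 7) (nat_lit 7) L47898 (by decide +kernel)
theorem L47900 : W_6 (nat_lit 2) (nat_lit 0x340010001b800d8002400000000000000000000000000) (nat_lit 0x0) (nat_lit 0x20000000000000000100008000000000000000000) := D_6 (nat_lit 92) (nat_lit 161) (nat_lit 75) (nat_lit 7) (nat_lit 7) (nat_lit 5) (nat_lit 7) (nat_lit 7) (nat_lit 4) (by decide +kernel)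
theorem L47901 : W_6 (nat_lit 3) (nat_lit 0x340010001b800d8000400000000000000000000000000) (nat_lit 0x0) (nat_lit 0x28000000000002000100008000000000000000000) := T_6 (nat_lit 109) (nat_lit 159) (nat_lit 5) (nat_lit 7) (nat_lit 6) L47900 (by decide +kernel)
theorem L47902 : W_6 (nat_lit 4) (nat_lit 0x3400100013800d8000400000000000000000000000000) (nat_lit 0x0) (nat_lit 0x2000000028000800000002000100008000000000000000000) := T_6 (nat_lit 143) (nat_lit 193) (nat_lit 5) (nat_lit 7) (nat_lit 7) L47901 (by decide +kernel)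
theorem L47903 : W_6 (nat_lit 5) (nat_lit 0x340010001380098000400000000000000000000000000) (nat_lit 0x0) (nat_lit 0x2000000028000800060002000100008000000000000000000) := T_6 (nat_lit 126) (nat_lit 125) (nat_lit 1) (nat_lit 7) (nat_lit 7) L47902 (by decide +kernel)
theorem L47904 : W_6 (nat_lit 7) (nat_lit 0x240010001380098000400000000000000000000000000) (nat_lit 0x0) (nat_lit 0x2e001a0029000800064002000100008000000000000000000) := Q_6 (nat_lit 176) (C_6 L46833 (C_6 L46842 (C_6 L47899 (C_6 L47903 N_6)))) (by decide +kernel)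
theorem L47905 : W_6 (nat_lit 8) (nat_lit 0x200010001380098000400000000000000000000000000) (nat_lit 0x0) (nat_lit 0x3e001e002b000800064002000100008000000000000000000) := Q_6 (nat_lit 174) (C_6 L46851 (C_6 L46857 (C_6 L46858 (C_6 L47904 (C_6 L46853 N_6))))) (by decide +kernel)
theorem L47906 : W_6 (nat_lit 11) (nat_lit 0x200010001380098000000000000000000000000000000) (nat_lit 0x0) (nat_lit 0x3e001e002b000800064002e0017000b800000000000000000) := Q_6 (nat_lit 106) (C_6 L45567 (C_6 L47297 (C_6 L45064 (C_6 L47905 N_6)))) (by decide +kernel)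
theorem L47907 : W_6 (nat_lit 12) (nat_lit 0x200010001300098000000000000000000000000000000) (nat_lit 0x0) (nat_lit 0x8000e003f001fc02bc008e0067002e0017000b800000000000000000) := Q_6 (nat_lit 139) (C_6 L45312 (C_6 L47357 (C_6 L47906 N_6))) (by decide +kernel)
theorem L47908 : W_6 (nat_lit 14) (nat_lit 0x200010001300088000000000000000000000000000000) (nat_lit 0x0) (nat_lit 0x8000e003f001fc02bc008e0077002fc03fc01fe00010000000000000) := Q_6 (nat_lit 124) (C_6 L47108 (C_6 L46426 (C_6 L47151 (C_6 L46971 (C_6 L47830 (C_6 L47867 (C_6 L45793 (C_6 L47894 (C_6 L47907 N_6))))))))) (by decide +kernel)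
theorem L47909 : W_6 (nat_lit 9) (nat_lit 0x200010001300098000000000000000000000000000000) (nat_lit 0x0) (nat_lit 0x1c000e0003000080064000f80030001800000000000000000) := Q_6 (nat_lit 157) (C_6 L46178 (C_6 L46970 (C_6 L46179 N_6))) (by decide +kernel)
theorem L47910 : W_6 (nat_lit 11) (nat_lit 0x200010001300098000000000000000000000000000000) (nat_lit 0x0) (nat_lit 0x1e000f0003c000e0067001e00070001800000000000000000) := Q_6 (nat_lit 157) (C_6 L45916 (C_6 L46970 (C_6 L46179 N_6))) (by decide +kernel)
theorem L47911 : W_6 (nat_lit 13) (nat_lit 0x200010001300088000000000000000000000000000000) (nat_lit 0x0) (nat_lit 0xa001f000fc003e000e0077003fc03fc007e00000000000000000) := Q_6 (nat_lit 124) (C_6 L47376 (C_6 L47909 (C_6 L46751 (C_6 L46971 (C_6 L45353 (C_6 L47108 (C_6 L45883 (C_6 L45423 (C_6 L47910 (C_6 L46552 N_6)))))))))) (by decide +kernel)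
theorem L47912 : W_6 (nat_lit 2) (nat_lit 0x2000134013000e8001400000000000000000000000000) (nat_lit 0x0) (nat_lit 0xa00040000000000000000000000) := D_6 (nat_lit 107) (nat_lit 90) (nat_lit 105) (nat_lit 6) (nat_lit 4) (nat_lit 9) (nat_lit 3) (nat_lit 3) (nat_lit 6) (by decide +kernel)
theorem L47913 : W_6 (nat_lit 3) (nat_lit 0x2000134013000e8000400000000000000000000000000) (nat_lit 0x0) (nat_lit 0x800000001a00040000000000000000000000) := T_6 (nat_lit 108) (nat_lit 143) (nat_lit 4) (nat_lit 7) (nat_lit 10) L47912 (by decide +kernel)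
theorem L47914 : W_6 (nat_lit 4) (nat_lit 0x2000134013000a8000400000000000000000000000000) (nat_lit 0x0) (nat_lit 0x800050001a00040000000000000000000000) := T_6 (nat_lit 126) (nat_lit 124) (nat_lit 1) (nat_lit 8) (nat_lit 7) L47913 (by decide +kernel)
theorem L47915 : W_6 (nat_lit 5) (nat_lit 0x2000130013000a8000400000000000000000000000000) (nat_lit 0x0) (nat_lit 0xc00800050001a00040000000000000000000000) := T_6 (nat_lit 154) (nat_lit 155) (nat_lit 2) (nat_lit 1) (nat_lit 9) L47914 (by decide +kernel)
theorem L47916 : W_6 (nat_lit 6) (nat_lit 0x2000120013000a8000400000000000000000000000000) (nat_lit 0x0) (nat_lit 0x20001c00800050001a00040000000000000000000000) := T_6 (nat_lit 156) (nat_lit 173) (nat_lit 5) (nat_lit 4) (nat_lit 6) L47915 (by decide +kernel)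
theorem L47917 : W_6 (nat_lit 2) (nat_lit 0x2000120013000e8000c00000000000000000000000000) (nat_lit 0x0) (nat_lit 0x800000003000000000000000000000000000) := D_6 (nat_lit 108) (nat_lit 109) (nat_lit 143) (nat_lit 3) (nat_lit 4) (nat_lit 6) (nat_lit 4) (nat_lit 7) (nat_lit 10) (by decide +kernel)
theorem L47918 : W_6 (nat_lit 3) (nat_lit 0x2000120013000a8000c00000000000000000000000000) (nat_lit 0x0) (nat_lit 0x800050003000000000000000000000000000) := T_6 (nat_lit 126) (nat_lit 124) (nat_lit 1) (nat_lit 8) (nat_lit 7) L47917 (by decide +kernel)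
theorem L47919 : W_6 (nat_lit 4) (nat_lit 0x2000120013000a8000400000000000000000000000000) (nat_lit 0x0) (nat_lit 0x800050003800040000000000000000000000) := T_6 (nat_lit 107) (nat_lit 90) (nat_lit 6) (nat_lit 4) (nat_lit 9) L47918 (by decide +kernel)
theorem L47920 : W_6 (nat_lit 2) (nat_lit 0x300013401b000e8002400000000000000000000000000) (nat_lit 0x0) (nat_lit 0x20000000000000000100008000000000000000000) := D_6 (nat_lit 92) (nat_lit 161) (nat_lit 75) (nat_lit 7) (nat_lit 7) (nat_lit 5) (nat_lit 7) (nat_lit 7) (nat_lit 4) (by decide +kernel)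
theorem L47921 : W_6 (nat_lit 3) (nat_lit 0x300013401b000e8000400000000000000000000000000) (nat_lit 0x0) (nat_lit 0x28000000000002000100008000000000000000000) := T_6 (nat_lit 109) (nat_lit 159) (nat_lit 5) (nat_lit 7) (nat_lit 6) L47920 (by decide +kernel)
theorem L47922 : W_6 (nat_lit 4) (nat_lit 0x300013001b000e8000400000000000000000000000000) (nat_lit 0x0) (nat_lit 0x28c00000000002000100008000000000000000000) := T_6 (nat_lit 154) (nat_lit 155) (nat_lit 2) (nat_lit 1) (nat_lit 9) L47921 (by decide +kernel)
theorem L47923 : W_6 (nat_lit 5) (nat_lit 0x300012001b000e8000400000000000000000000000000) (nat_lit 0x0) (nat_lit 0x20029c00000000002000100008000000000000000000) := T_6 (nat_lit 156) (nat_lit 173) (nat_lit 5) (nat_lit 4) (nat_lit 6) L47922 (by decide +kernel)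
theorem L47924 : W_6 (nat_lit 6) (nat_lit 0x200012001b000e8000400000000000000000000000000) (nat_lit 0x0) (nat_lit 0x2000120029c00000000002000100008000000000000000000) := T_6 (nat_lit 176) (nat_lit 193) (nat_lit 5) (nat_lit 7) (nat_lit 7) L47923 (by decide +kernel)
theorem L47925 : W_6 (nat_lit 7) (nat_lit 0x2000120013000e8000400000000000000000000000000) (nat_lit 0x0) (nat_lit 0x2000120029c00800000003000100008000000000000000000) := T_6 (nat_lit 143) (nat_lit 108) (nat_lit 4) (nat_lit 7) (nat_lit 10) L47924 (by decide +kernel)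
theorem L47926 : W_6 (nat_lit 8) (nat_lit 0x2000120013000a8000400000000000000000000000000) (nat_lit 0x0) (nat_lit 0x2000120029c00800050003000100008000000000000000000) := T_6 (nat_lit 126) (nat_lit 124) (nat_lit 1) (nat_lit 8) (nat_lit 7) L47925 (by decide +kernel)
theorem L47927 : W_6 (nat_lit 2) (nat_lit 0x2000120013000e8000600000000000000000000000000) (nat_lit 0x0) (nat_lit 0x1800040000000000000000000000) := D_6 (nat_lit 107) (nat_lit 90) (nat_lit 108) (nat_lit 6) (nat_lit 4) (nat_lit 9) (nat_lit 3) (nat_lit 3) (nat_lit 6) (by decide +kernel)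
theorem L47928 : W_6 (nat_lit 3) (nat_lit 0x2000120013000a8000600000000000000000000000000) (nat_lit 0x0) (nat_lit 0x50001800040000000000000000000000) := T_6 (nat_lit 126) (nat_lit 124) (nat_lit 1) (nat_lit 8) (nat_lit 7) L47927 (by decide +kernel)
theorem L47929 : W_6 (nat_lit 4) (nat_lit 0x2000120013000a8000400000000000000000000000000) (nat_lit 0x0) (nat_lit 0x50001a00050000000000000000000000) := T_6 (nat_lit 105) (nat_lit 88) (nat_lit 4) (nat_lit 4) (nat_lit 9) L47928 (by decide +kernel)
theorem L47930 : W_6 (nat_lit 2) (nat_lit 0x2000120013000b8000c00000000000000000000000000) (nat_lit 0x0) (nat_lit 0x300010000000000000000000000) := D_6 (nat_lit 105) (nat_lit 88) (nat_lit 104) (nat_lit 4) (nat_lit 4) (nat_lit 9) (nat_lit 3) (nat_lit 2) (nat_lit 6) (by decide +kernel)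
theorem L47931 : W_6 (nat_lit 3) (nat_lit 0x2000120013000a8000c00000000000000000000000000) (nat_lit 0x0) (nat_lit 0x50000300010000000000000000000000) := T_6 (nat_lit 124) (nat_lit 126) (nat_lit 1) (nat_lit 8) (nat_lit 7) L47930 (by decide +kernel)
theorem L47932 : W_6 (nat_lit 4) (nat_lit 0x2000120013000a8000400000000000000000000000000) (nat_lit 0x0) (nat_lit 0x50000b00050000000000000000000000) := T_6 (nat_lit 107) (nat_lit 90) (nat_lit 6) (nat_lit 4) (nat_lit 9) L47931 (by decide +kernel)
theorem L47933 : W_6 (nat_lit 2) (nat_lit 0x2000120013000a8001e00100000000000000000000000) (nat_lit 0x0) (nat_lit 0x4002000200000000000000000000000) := D_6 (nat_lit 109) (nat_lit 122) (nat_lit 93) (nat_lit 1) (nat_lit 7) (nat_lit 6) (nat_lit 2) (nat_lit 4) (nat_lit 6) (by decide +kernel)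
theorem L47934 : W_6 (nat_lit 3) (nat_lit 0x2000120013000a8001e00000000000000000000000000) (nat_lit 0x0) (nat_lit 0x4002000380000000000000000000000) := T_6 (nat_lit 92) (nat_lit 91) (nat_lit 2) (nat_lit 3) (nat_lit 6) L47933 (by decide +kernel)
theorem L47935 : W_6 (nat_lit 4) (nat_lit 0x2000120013000a8000e00000000000000000000000000) (nat_lit 0x0) (nat_lit 0x44003000380000000000000000000000) := T_6 (nat_lit 108) (nat_lit 126) (nat_lit 3) (nat_lit 3) (nat_lit 6) L47934 (by decide +kernel)
theorem L47936 : W_6 (nat_lit 5) (nat_lit 0x2000120013000a8000600000000000000000000000000) (nat_lit 0x0) (nat_lit 0x440038003c0000000000000000000000) := T_6 (nat_lit 107) (nat_lit 90) (nat_lit 6) (nat_lit 4) (nat_lit 9) L47935 (by decide +kernel)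
theorem L47937 : W_6 (nat_lit 6) (nat_lit 0x2000120013000a8000400000000000000000000000000) (nat_lit 0x0) (nat_lit 0x44003a003d0000000000000000000000) := T_6 (nat_lit 105) (nat_lit 88) (nat_lit 4) (nat_lit 4) (nat_lit 9) L47936 (by decide +kernel)
theorem L47938 : W_6 (nat_lit 2) (nat_lit 0x2000134013000ac000f80008000000000000000000000) (nat_lit 0x0) (nat_lit 0x20001800000000000000000000000000000) := D_6 (nat_lit 120) (nat_lit 119) (nat_lit 137) (nat_lit 1) (nat_lit 4) (nat_lit 6) (nat_lit 6) (nat_lit 1) (nat_lit 9) (by decide +kernel)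
theorem L47939 : W_6 (nat_lit 3) (nat_lit 0x2000134013000ac000f00008000000000000000000000) (nat_lit 0x0) (nat_lit 0x200018000c0000000000000000000000000) := T_6 (nat_lit 103) (nat_lit 102) (nat_lit 3) (nat_lit 0) (nat_lit 6) L47938 (by decide +kernel)
theorem L47940 : W_6 (nat_lit 4) (nat_lit 0x2000134013000a8000f00008000000000000000000000) (nat_lit 0x0) (nat_lit 0xa00058000c0000000000000000000000000) := T_6 (nat_lit 122) (nat_lit 139) (nat_lit 4) (nat_lit 3) (nat_lit 9) L47939 (by decide +kernel)
theorem L47941 : W_6 (nat_lit 5) (nat_lit 0x2000134013000a8000f00000000000000000000000000) (nat_lit 0x0) (nat_lit 0xa00058000c000c000000000000000000000) := T_6 (nat_lit 87) (nat_lit 86) (nat_lit 0) (nat_lit 5) (nat_lit 6) L47940 (by decide +kernel)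
theorem L47942 : W_6 (nat_lit 6) (nat_lit 0x2000134013000a8000e00000000000000000000000000) (nat_lit 0x0) (nat_lit 0xa00158001c000c000000000000000000000) := T_6 (nat_lit 104) (nat_lit 124) (nat_lit 3) (nat_lit 2) (nat_lit 6) L47941 (by decide +kernel)
theorem L47943 : W_6 (nat_lit 7) (nat_lit 0x2000134013000a8000600000000000000000000000000) (nat_lit 0x0) (nat_lit 0xa00158009c004c000000000000000000000) := T_6 (nat_lit 107) (nat_lit 90) (nat_lit 6) (nat_lit 4) (nat_lit 9) L47942 (by decide +kernel)
theorem L47944 : W_6 (nat_lit 8) (nat_lit 0x2000134013000a8000400000000000000000000000000) (nat_lit 0x0) (nat_lit 0xa0015800bc005c000000000000000000000) := T_6 (nat_lit 105) (nat_lit 88) (nat_lit 4) (nat_lit 4) (nat_lit 9) L47943 (by decide +kernel)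
theorem L47945 : W_6 (nat_lit 9) (nat_lit 0x2000130013000a8000400000000000000000000000000) (nat_lit 0x0) (nat_lit 0xc000a0015800bc005c000000000000000000000) := T_6 (nat_lit 154) (nat_lit 155) (nat_lit 2) (nat_lit 1) (nat_lit 9) L47944 (by decide +kernel)
theorem L47946 : W_6 (nat_lit 10) (nat_lit 0x2000120013000a8000400000000000000000000000000) (nat_lit 0x0) (nat_lit 0x20001c000a0015800bc005c000000000000000000000) := T_6 (nat_lit 156) (nat_lit 173) (nat_lit 5) (nat_lit 4) (nat_lit 6) L47945 (by decide +kernel)
theorem L47947 : W_6 (nat_lit 11) (nat_lit 0x200012001300088000400000000000000000000000000) (nat_lit 0x0) (nat_lit 0x2000120029c008a0075803bc03dc008000000000000000000) := Q_6 (nat_lit 125) (C_6 L47916 (C_6 L47919 (C_6 L47926 (C_6 L47929 (C_6 L47932 (C_6 L47937 (C_6 L47946 N_6))))))) (by decide +kernel)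
theorem L47948 : W_6 (nat_lit 12) (nat_lit 0x200012001300088000000000000000000000000000000) (nat_lit 0x0) (nat_lit 0x2000120029c008a0075803fc03fc00b800080000000000000) := Q_6 (nat_lit 106) (C_6 L41873 (C_6 L47062 (C_6 L47067 (C_6 L41877 (C_6 L47947 N_6))))) (by decide +kernel)
theorem L47949 : W_6 (nat_lit 2) (nat_lit 0x240013401300088000c00000000000000000000000000) (nat_lit 0x0) (nat_lit 0x1000180000000000000000000000000000000000000000000) := D_6 (nat_lit 175) (nat_lit 192) (nat_lit 176) (nat_lit 7) (nat_lit 4) (nat_lit 7) (nat_lit 0) (nat_lit 7) (nat_lit 10) (by decide +kernel)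
theorem L47950 : W_6 (nat_lit 3) (nat_lit 0x200013401300088000c00000000000000000000000000) (nat_lit 0x0) (nat_lit 0x10001c0000000000010000000000000000000000000000000) := T_6 (nat_lit 174) (nat_lit 124) (nat_lit 6) (nat_lit 4) (nat_lit 10) L47949 (by decide +kernel)
theorem L47951 : W_6 (nat_lit 4) (nat_lit 0x200013401300088000400000000000000000000000000) (nat_lit 0x0) (nat_lit 0x10001c0000000000010000800040000000000000000000000) := T_6 (nat_lit 107) (nat_lit 90) (nat_lit 6) (nat_lit 4) (nat_lit 9) L47950 (by decide +kernel)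
theorem L47952 : W_6 (nat_lit 5) (nat_lit 0x200013001300088000400000000000000000000000000) (nat_lit 0x0) (nat_lit 0x10001c0000c00000010000800040000000000000000000000) := T_6 (nat_lit 154) (nat_lit 155) (nat_lit 2) (nat_lit 1) (nat_lit 9) L47951 (by decide +kernel)
theorem L47953 : W_6 (nat_lit 6) (nat_lit 0x200012001300088000400000000000000000000000000) (nat_lit 0x0) (nat_lit 0x10001e0001c00000010000800040000000000000000000000) := T_6 (nat_lit 156) (nat_lit 173) (nat_lit 5) (nat_lit 4) (nat_lit 6) L47952 (by decide +kernel)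
theorem L47954 : W_6 (nat_lit 7) (nat_lit 0x200012001300088000000000000000000000000000000) (nat_lit 0x0) (nat_lit 0x10001e0001c00080014000e00070003800080000000000000) := Q_6 (nat_lit 106) (C_6 L41873 (C_6 L47062 (C_6 L47067 (C_6 L41877 (C_6 L47953 N_6))))) (by decide +kernel)
theorem L47955 : W_6 (nat_lit 2) (nat_lit 0x240013401300088000c00000000000000000000000000) (nat_lit 0x0) (nat_lit 0x4000200010000000000000000000000) := D_6 (nat_lit 105) (nat_lit 88) (nat_lit 122) (nat_lit 4) (nat_lit 4) (nat_lit 9) (nat_lit 4) (nat_lit 4) (nat_lit 10) (by decide +kernel)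
theorem L47956 : W_6 (nat_lit 3) (nat_lit 0x200013401300088000c00000000000000000000000000) (nat_lit 0x0) (nat_lit 0x40000000000014000200010000000000000000000000) := T_6 (nat_lit 174) (nat_lit 124) (nat_lit 6) (nat_lit 4) (nat_lit 10) L47955 (by decide +kernel)
theorem L47957 : W_6 (nat_lit 4) (nat_lit 0x200013401300088000400000000000000000000000000) (nat_lit 0x0) (nat_lit 0x40000000000014000a00050000000000000000000000) := T_6 (nat_lit 107) (nat_lit 90) (nat_lit 6) (nat_lit 4) (nat_lit 9) L47956 (by decide +kernel)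
theorem L47958 : W_6 (nat_lit 5) (nat_lit 0x200013001300088000400000000000000000000000000) (nat_lit 0x0) (nat_lit 0x40000c00000014000a00050000000000000000000000) := T_6 (nat_lit 154) (nat_lit 155) (nat_lit 2) (nat_lit 1) (nat_lit 9) L47957 (by decide +kernel)
theorem L47959 : W_6 (nat_lit 6) (nat_lit 0x200012001300088000400000000000000000000000000) (nat_lit 0x0) (nat_lit 0x60001c00000014000a00050000000000000000000000) := T_6 (nat_lit 156) (nat_lit 173) (nat_lit 5) (nat_lit 4) (nat_lit 6) L47958 (by decide +kernel)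
theorem L47960 : W_6 (nat_lit 7) (nat_lit 0x200012001300088000000000000000000000000000000) (nat_lit 0x0) (nat_lit 0x60001c00080014000e00070003800080000000000000) := Q_6 (nat_lit 106) (C_6 L41873 (C_6 L47062 (C_6 L47067 (C_6 L41877 (C_6 L47959 N_6))))) (by decide +kernel)
theorem L47961 : W_6 (nat_lit 6) (nat_lit 0x200012001300088000000000000000000000000000000) (nat_lit 0x0) (nat_lit 0x18001c0021000000074000f80070003000000000000000000) := Q_6 (nat_lit 124) (C_6 L45670 (C_6 L46179 (C_6 L45744 N_6))) (by decide +kernel)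
theorem L47962 : W_6 (nat_lit 13) (nat_lit 0x200010001300088000000000000000000000000000000) (nat_lit 0x0) (nat_lit 0x28003c001e002bc008a0075803fc03fc00b800080000000000000) := Q_6 (nat_lit 157) (C_6 L47057 (C_6 L47052 (C_6 L47948 (C_6 L47954 (C_6 L47960 (C_6 L47961 N_6)))))) (by decide +kernel)
theorem L47963 : W_6 (nat_lit 2) (nat_lit 0x2e0012001300088000e00000000000000000000000000) (nat_lit 0x0) (nat_lit 0x100028000000000000000000000000000000000000000) := D_6 (nat_lit 176) (nat_lit 161) (nat_lit 159) (nat_lit 2) (nat_lit 4) (nat_lit 10) (nat_lit 2) (nat_lit 3) (nat_lit 10) (by decide +kernel)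
theorem L47964 : W_6 (nat_lit 3) (nat_lit 0x260012001300088000e00000000000000000000000000) (nat_lit 0x0) (nat_lit 0x1000180028000000000000000000000000000000000000000) := T_6 (nat_lit 175) (nat_lit 192) (nat_lit 7) (nat_lit 4) (nat_lit 7) L47963 (by decide +kernel)
theorem L47965 : W_6 (nat_lit 4) (nat_lit 0x240012001300088000e00000000000000000000000000) (nat_lit 0x0) (nat_lit 0x14001a0028000000000000000000000000000000000000000) := T_6 (nat_lit 173) (nat_lit 190) (nat_lit 5) (nat_lit 4) (nat_lit 7) L47964 (by decide +kernel)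
theorem L47966 : W_6 (nat_lit 5) (nat_lit 0x200012001300088000e00000000000000000000000000) (nat_lit 0x0) (nat_lit 0x14001e0028000000004000000000000000000000000000000) := T_6 (nat_lit 174) (nat_lit 122) (nat_lit 4) (nat_lit 4) (nat_lit 10) L47965 (by decide +kernel)
theorem L47967 : W_6 (nat_lit 6) (nat_lit 0x200012001300088000c00000000000000000000000000) (nat_lit 0x0) (nat_lit 0x14001e0028000000004000200010000000000000000000000) := T_6 (nat_lit 105) (nat_lit 88) (nat_lit 4) (nat_lit 4) (nat_lit 9) L47966 (by decide +kernel)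
theorem L47968 : W_6 (nat_lit 7) (nat_lit 0x200012001300088000400000000000000000000000000) (nat_lit 0x0) (nat_lit 0x14001e0028000000004000a00050000000000000000000000) := T_6 (nat_lit 107) (nat_lit 90) (nat_lit 6) (nat_lit 4) (nat_lit 9) L47967 (by decide +kernel)
theorem L47969 : W_6 (nat_lit 2) (nat_lit 0x2e0012001300088000c00000000000000000000000000) (nat_lit 0x0) (nat_lit 0x100028000000000000000000000000000000000000000) := D_6 (nat_lit 176) (nat_lit 161) (nat_lit 159) (nat_lit 2) (nat_lit 4) (nat_lit 10) (nat_lit 2) (nat_lit 3) (nat_lit 10) (by decide +kernel)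
theorem L47970 : W_6 (nat_lit 3) (nat_lit 0x260012001300088000c00000000000000000000000000) (nat_lit 0x0) (nat_lit 0x1000180028000000000000000000000000000000000000000) := T_6 (nat_lit 175) (nat_lit 192) (nat_lit 7) (nat_lit 4) (nat_lit 7) L47969 (by decide +kernel)
theorem L47971 : W_6 (nat_lit 4) (nat_lit 0x220012001300088000c00000000000000000000000000) (nat_lit 0x0) (nat_lit 0x14001c0028000000000000000000000000000000000000000) := T_6 (nat_lit 174) (nat_lit 190) (nat_lit 5) (nat_lit 4) (nat_lit 7) L47970 (by decide +kernel)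
theorem L47972 : W_6 (nat_lit 5) (nat_lit 0x220012001300088000400000000000000000000000000) (nat_lit 0x0) (nat_lit 0x14001c0028000000000000800040000000000000000000000) := T_6 (nat_lit 107) (nat_lit 90) (nat_lit 6) (nat_lit 4) (nat_lit 9) L47971 (by decide +kernel)
theorem L47973 : W_6 (nat_lit 6) (nat_lit 0x200012001300088000400000000000000000000000000) (nat_lit 0x0) (nat_lit 0x14001e0029000000000000800040000000000000000000000) := T_6 (nat_lit 173) (nat_lit 156) (nat_lit 5) (nat_lit 4) (nat_lit 6) L47972 (by decide +kernel)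
theorem L47974 : W_6 (nat_lit 2) (nat_lit 0x2c0012001300088000e00000000000000000000000000) (nat_lit 0x0) (nat_lit 0x100021000000000000000000000000000000000000000) := D_6 (nat_lit 176) (nat_lit 161) (nat_lit 156) (nat_lit 2) (nat_lit 4) (nat_lit 10) (nat_lit 0) (nat_lit 7) (nat_lit 10) (by decide +kernel)
theorem L47975 : W_6 (nat_lit 3) (nat_lit 0x240012001300088000e00000000000000000000000000) (nat_lit 0x0) (nat_lit 0x1000180021000000000000000000000000000000000000000) := T_6 (nat_lit 175) (nat_lit 192) (nat_lit 7) (nat_lit 4) (nat_lit 7) L47974 (by decide +kernel)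
theorem L47976 : W_6 (nat_lit 4) (nat_lit 0x200012001300088000e00000000000000000000000000) (nat_lit 0x0) (nat_lit 0x10001c0021000000004000000000000000000000000000000) := T_6 (nat_lit 174) (nat_lit 122) (nat_lit 4) (nat_lit 4) (nat_lit 10) L47975 (by decide +kernel)
theorem L47977 : W_6 (nat_lit 5) (nat_lit 0x200012001300088000c00000000000000000000000000) (nat_lit 0x0) (nat_lit 0x10001c0021000000004000200010000000000000000000000) := T_6 (nat_lit 105) (nat_lit 88) (nat_lit 4) (nat_lit 4) (nat_lit 9) L47976 (by decide +kernel)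
theorem L47978 : W_6 (nat_lit 6) (nat_lit 0x200012001300088000400000000000000000000000000) (nat_lit 0x0) (nat_lit 0x10001c0021000000004000a00050000000000000000000000) := T_6 (nat_lit 107) (nat_lit 90) (nat_lit 6) (nat_lit 4) (nat_lit 9) L47977 (by decide +kernel)
theorem L47979 : W_6 (nat_lit 8) (nat_lit 0x200010001300088000400000000000000000000000000) (nat_lit 0x0) (nat_lit 0x14001e002bc00000004000a00070002800000000000000000) := Q_6 (nat_lit 157) (C_6 L47067 (C_6 L47968 (C_6 L41880 (C_6 L47973 (C_6 L47978 N_6))))) (by decide +kernel)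
theorem L47980 : W_6 (nat_lit 2) (nat_lit 0x200012001300088000400030000000000000000000000) (nat_lit 0x0) (nat_lit 0x800040002000000000000000000) := D_6 (nat_lit 90) (nat_lit 73) (nat_lit 107) (nat_lit 6) (nat_lit 4) (nat_lit 8) (nat_lit 6) (nat_lit 4) (nat_lit 9) (by decide +kernel)
theorem L47981 : W_6 (nat_lit 3) (nat_lit 0x200010001300088000400030000000000000000000000) (nat_lit 0x0) (nat_lit 0x2000000000000a00040002000000000000000000) := T_6 (nat_lit 157) (nat_lit 105) (nat_lit 4) (nat_lit 4) (nat_lit 9) L47980 (by decide +kernel)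
theorem L47982 : W_6 (nat_lit 4) (nat_lit 0x200010001300088000400020000000000000000000000) (nat_lit 0x0) (nat_lit 0x2000000000000a00050002800000000000000000) := T_6 (nat_lit 88) (nat_lit 71) (nat_lit 4) (nat_lit 4) (nat_lit 8) L47981 (by decide +kernel)
theorem L47983 : W_6 (nat_lit 7) (nat_lit 0x200010001300088000400060001800000000000000000) (nat_lit 0x0) (nat_lit 0x80004000a0018000060018000c000400000) := T_6 (nat_lit 122) (nat_lit 139) (nat_lit 5) (nat_lit 4) (nat_lit 4) L44099 (by decide +kernel)
theorem L47984 : W_6 (nat_lit 8) (nat_lit 0x200010001300088000400060000800000000000000000) (nat_lit 0x0) (nat_lit 0x80004000a001800016001c000c000400000) := T_6 (nat_lit 72) (nat_lit 54) (nat_lit 4) (nat_lit 4) (nat_lit 7) L47983 (by decide +kernel)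
theorem L47985 : W_6 (nat_lit 9) (nat_lit 0x200010001300088000400060000000000000000000000) (nat_lit 0x0) (nat_lit 0x80004000a00190001e001c000c000400000) := T_6 (nat_lit 71) (nat_lit 88) (nat_lit 4) (nat_lit 4) (nat_lit 8) L47984 (by decide +kernel)
theorem L47986 : W_6 (nat_lit 10) (nat_lit 0x200010001300088000400020000000000000000000000) (nat_lit 0x0) (nat_lit 0x80004000a001d0003e001c000c000400000) := T_6 (nat_lit 90) (nat_lit 73) (nat_lit 6) (nat_lit 4) (nat_lit 8) L47985 (by decide +kernel)
theorem L47987 : W_6 (nat_lit 2) (nat_lit 0x200010001300088000600070000000000000000000000) (nat_lit 0x0) (nat_lit 0x180080000000000000000000000) := D_6 (nat_lit 104) (nat_lit 103) (nat_lit 91) (nat_lit 2) (nat_lit 1) (nat_lit 6) (nat_lit 1) (nat_lit 6) (nat_lit 5) (by decide +kernel)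
theorem L47988 : W_6 (nat_lit 3) (nat_lit 0x200010001300088000600030000000000000000000000) (nat_lit 0x0) (nat_lit 0x1800c0002000000000000000000) := T_6 (nat_lit 90) (nat_lit 73) (nat_lit 6) (nat_lit 4) (nat_lit 8) L47987 (by decide +kernel)
theorem L47989 : W_6 (nat_lit 4) (nat_lit 0x200010001300088000400030000000000000000000000) (nat_lit 0x0) (nat_lit 0x20000000000003800c0002000000000000000000) := T_6 (nat_lit 105) (nat_lit 157) (nat_lit 4) (nat_lit 4) (nat_lit 9) L47988 (by decide +kernel)
theorem L47990 : W_6 (nat_lit 5) (nat_lit 0x200010001300088000400020000000000000000000000) (nat_lit 0x0) (nat_lit 0x20000000000003800d0002800000000000000000) := T_6 (nat_lit 88) (nat_lit 71) (nat_lit 4) (nat_lit 4) (nat_lit 8) L47989 (by decide +kernel)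
theorem L47991 : W_6 (nat_lit 2) (nat_lit 0x200010001300088000c00070000000000000000000000) (nat_lit 0x0) (nat_lit 0x100000c000000000000000000000) := D_6 (nat_lit 87) (nat_lit 108) (nat_lit 86) (nat_lit 3) (nat_lit 2) (nat_lit 5) (nat_lit 3) (nat_lit 1) (nat_lit 5) (by decide +kernel)
theorem L47992 : W_6 (nat_lit 3) (nat_lit 0x200010001300088000c00060000000000000000000000) (nat_lit 0x0) (nat_lit 0x100001c000800000000000000000) := T_6 (nat_lit 88) (nat_lit 71) (nat_lit 4) (nat_lit 4) (nat_lit 8) L47991 (by decide +kernel)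
theorem L47993 : W_6 (nat_lit 4) (nat_lit 0x200010001300088000400060000000000000000000000) (nat_lit 0x0) (nat_lit 0x200000000000180001c000800000000000000000) := T_6 (nat_lit 107) (nat_lit 157) (nat_lit 6) (nat_lit 4) (nat_lit 9) L47992 (by decide +kernel)
theorem L47994 : W_6 (nat_lit 5) (nat_lit 0x200010001300088000400020000000000000000000000) (nat_lit 0x0) (nat_lit 0x200000000000180005c002800000000000000000) := T_6 (nat_lit 90) (nat_lit 73) (nat_lit 6) (nat_lit 4) (nat_lit 8) L47993 (by decide +kernel)
theorem L47995 : W_6 (nat_lit 2) (nat_lit 0x20001000130008d000400020001800080000000000000) (nat_lit 0x0) (nat_lit 0x2000100008000000000) := D_6 (nat_lit 56) (nat_lit 73) (nat_lit 39) (nat_lit 6) (nat_lit 4) (nat_lit 7) (nat_lit 6) (nat_lit 4) (nat_lit 6) (by decide +kernel)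
theorem L47996 : W_6 (nat_lit 3) (nat_lit 0x20001000130008d000400020001800000000000000000) (nat_lit 0x0) (nat_lit 0x200000002000180008000000000) := T_6 (nat_lit 55) (nat_lit 105) (nat_lit 5) (nat_lit 4) (nat_lit 3) L47995 (by decide +kernel)
theorem L47997 : W_6 (nat_lit 4) (nat_lit 0x20001000130008c000400020001800000000000000000) (nat_lit 0x0) (nat_lit 0x3000200000002000180008000000000) := T_6 (nat_lit 120) (nat_lit 121) (nat_lit 3) (nat_lit 1) (nat_lit 7) L47996 (by decide +kernel)
theorem L47998 : W_6 (nat_lit 5) (nat_lit 0x200010001300088000400020001800000000000000000) (nat_lit 0x0) (nat_lit 0x80007000200000002000180008000000000) := T_6 (nat_lit 122) (nat_lit 139) (nat_lit 5) (nat_lit 4) (nat_lit 4) L47997 (by decide +kernel)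
theorem L47999 : W_6 (nat_lit 6) (nat_lit 0x200010001300088000400020000800000000000000000) (nat_lit 0x0) (nat_lit 0x800070002000000030001c0008000000000) := T_6 (nat_lit 72) (nat_lit 54) (nat_lit 4) (nat_lit 4) (nat_lit 7) L47998 (by decide +kernel)
theorem L48000 : W_6 (nat_lit 7) (nat_lit 0x200010001300088000400020000000000000000000000) (nat_lit 0x0) (nat_lit 0x800070002000100038001c0008000000000) := T_6 (nat_lit 71) (nat_lit 88) (nat_lit 4) (nat_lit 4) (nat_lit 8) L47999 (by decide +kernel)
theorem L48001 : W_6 (nat_lit 2) (nat_lit 0x20001000130008e000e00020001800000000000000000) (nat_lit 0x0) (nat_lit 0x40002000000000000000040000000000000000000000) := D_6 (nat_lit 157) (nat_lit 174) (nat_lit 90) (nat_lit 4) (nat_lit 4) (nat_lit 10) (nat_lit 6) (nat_lit 4) (nat_lit 9) (by decide +kernel)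
theorem L48002 : W_6 (nat_lit 3) (nat_lit 0x20001000130008e000600020001800000000000000000) (nat_lit 0x0) (nat_lit 0x40002000000000001800040000000000000000000000) := T_6 (nat_lit 107) (nat_lit 108) (nat_lit 1) (nat_lit 6) (nat_lit 6) L48001 (by decide +kernel)
theorem L48003 : W_6 (nat_lit 4) (nat_lit 0x20001000130008e000400020001800000000000000000) (nat_lit 0x0) (nat_lit 0x40002000000000001a00040000000080000000000000) := T_6 (nat_lit 105) (nat_lit 55) (nat_lit 5) (nat_lit 4) (nat_lit 3) L48002 (by decide +kernel)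
theorem L48004 : W_6 (nat_lit 5) (nat_lit 0x20001000130008c000400020001800000000000000000) (nat_lit 0x0) (nat_lit 0x40002000000003001a00040000000080000000000000) := T_6 (nat_lit 121) (nat_lit 120) (nat_lit 3) (nat_lit 1) (nat_lit 7) L48003 (by decide +kernel)
theorem L48005 : W_6 (nat_lit 6) (nat_lit 0x200010001300088000400020001800000000000000000) (nat_lit 0x0) (nat_lit 0x40002000080007001a00040000000080000000000000) := T_6 (nat_lit 122) (nat_lit 139) (nat_lit 5) (nat_lit 4) (nat_lit 4) L48004 (by decide +kernel)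
theorem L48006 : W_6 (nat_lit 7) (nat_lit 0x200010001300088000400020000800000000000000000) (nat_lit 0x0) (nat_lit 0x40002000080007001a000400010000c0000000000000) := T_6 (nat_lit 72) (nat_lit 54) (nat_lit 4) (nat_lit 4) (nat_lit 7) L48005 (by decide +kernel)
theorem L48007 : W_6 (nat_lit 8) (nat_lit 0x200010001300088000400020000000000000000000000) (nat_lit 0x0) (nat_lit 0x40002000080007001a000500018000c0000000000000) := T_6 (nat_lit 71) (nat_lit 88) (nat_lit 4) (nat_lit 4) (nat_lit 8) L48006 (by decide +kernel)
theorem L48008 : W_6 (nat_lit 2) (nat_lit 0x20001000130008c000400020003000040000000000000) (nat_lit 0x0) (nat_lit 0x200000000000080002000000000) := D_6 (nat_lit 55) (nat_lit 37) (nat_lit 105) (nat_lit 4) (nat_lit 4) (nat_lit 6) (nat_lit 5) (nat_lit 4) (nat_lit 3) (by decide +kernel)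
theorem L48009 : W_6 (nat_lit 3) (nat_lit 0x200010001300088000400020003000040000000000000) (nat_lit 0x0) (nat_lit 0x80004000200000000000080002000000000) := T_6 (nat_lit 122) (nat_lit 139) (nat_lit 5) (nat_lit 4) (nat_lit 4) L48008 (by decide +kernel)
theorem L48010 : W_6 (nat_lit 4) (nat_lit 0x200010001300088000400020003000000000000000000) (nat_lit 0x0) (nat_lit 0x800040002000000008000c0002000000000) := T_6 (nat_lit 54) (nat_lit 71) (nat_lit 4) (nat_lit 4) (nat_lit 7) L48009 (by decide +kernel)
theorem L48011 : W_6 (nat_lit 5) (nat_lit 0x200010001300088000400020002000000000000000000) (nat_lit 0x0) (nat_lit 0x800040002000000018001c0002000000000) := T_6 (nat_lit 72) (nat_lit 56) (nat_lit 6) (nat_lit 4) (nat_lit 7) L48010 (by decide +kernel)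
theorem L48012 : W_6 (nat_lit 6) (nat_lit 0x200010001300088000400020000000000000000000000) (nat_lit 0x0) (nat_lit 0x800040002000400038001c0002000000000) := T_6 (nat_lit 73) (nat_lit 90) (nat_lit 6) (nat_lit 4) (nat_lit 8) L48011 (by decide +kernel)
theorem L48013 : W_6 (nat_lit 2) (nat_lit 0x2e0012001300088000600060000000000000000000000) (nat_lit 0x0) (nat_lit 0x100028000000000000000000000000000000000000000) := D_6 (nat_lit 176) (nat_lit 161) (nat_lit 159) (nat_lit 2) (nat_lit 4) (nat_lit 10) (nat_lit 2) (nat_lit 3) (nat_lit 10) (by decide +kernel)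
theorem L48014 : W_6 (nat_lit 3) (nat_lit 0x260012001300088000600060000000000000000000000) (nat_lit 0x0) (nat_lit 0x1000180028000000000000000000000000000000000000000) := T_6 (nat_lit 175) (nat_lit 192) (nat_lit 7) (nat_lit 4) (nat_lit 7) L48013 (by decide +kernel)
theorem L48015 : W_6 (nat_lit 4) (nat_lit 0x240012001300088000600060000000000000000000000) (nat_lit 0x0) (nat_lit 0x14001a0028000000000000000000000000000000000000000) := T_6 (nat_lit 173) (nat_lit 190) (nat_lit 5) (nat_lit 4) (nat_lit 7) L48014 (by decide +kernel)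
theorem L48016 : W_6 (nat_lit 5) (nat_lit 0x200012001300088000600060000000000000000000000) (nat_lit 0x0) (nat_lit 0x14001e0028000000004000000000000000000000000000000) := T_6 (nat_lit 174) (nat_lit 122) (nat_lit 4) (nat_lit 4) (nat_lit 10) L48015 (by decide +kernel)
theorem L48017 : W_6 (nat_lit 6) (nat_lit 0x200012001300088000400060000000000000000000000) (nat_lit 0x0) (nat_lit 0x14001e0028000000004000200010000000000000000000000) := T_6 (nat_lit 105) (nat_lit 88) (nat_lit 4) (nat_lit 4) (nat_lit 9) L48016 (by decide +kernel)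
theorem L48018 : W_6 (nat_lit 7) (nat_lit 0x200010001300088000400060000000000000000000000) (nat_lit 0x0) (nat_lit 0x14001e002a000000004000a00010000000000000000000000) := T_6 (nat_lit 157) (nat_lit 107) (nat_lit 6) (nat_lit 4) (nat_lit 9) L48017 (by decide +kernel)
theorem L48019 : W_6 (nat_lit 8) (nat_lit 0x200010001300088000400020000000000000000000000) (nat_lit 0x0) (nat_lit 0x14001e002a000000004000a00050002000000000000000000) := T_6 (nat_lit 90) (nat_lit 73) (nat_lit 6) (nat_lit 4) (nat_lit 8) L48018 (by decide +kernel)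
theorem L48020 : W_6 (nat_lit 11) (nat_lit 0x200010001300088000400000000000000000000000000) (nat_lit 0x0) (nat_lit 0x14001e002a000080007001b801fc003e001c000e000400000) := Q_6 (nat_lit 89) (C_6 L47982 (C_6 L47986 (C_6 L47990 (C_6 L47994 (C_6 L48000 (C_6 L48007 (C_6 L48012 (C_6 L48019 N_6)))))))) (by decide +kernel)
theorem L48021 : W_6 (nat_lit 2) (nat_lit 0x200010001380088000400020002800000000000000000) (nat_lit 0x0) (nat_lit 0x1000140000000000000) := D_6 (nat_lit 72) (nat_lit 56) (nat_lit 54) (nat_lit 6) (nat_lit 4) (nat_lit 7) (nat_lit 4) (nat_lit 4) (nat_lit 7) (by decide +kernel)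
theorem L48022 : W_6 (nat_lit 3) (nat_lit 0x200010001380088000400020002000000000000000000) (nat_lit 0x0) (nat_lit 0x10001800140000000000000) := T_6 (nat_lit 71) (nat_lit 88) (nat_lit 4) (nat_lit 4) (nat_lit 8) L48021 (by decide +kernel)
theorem L48023 : W_6 (nat_lit 4) (nat_lit 0x200010001380088000400020000000000000000000000) (nat_lit 0x0) (nat_lit 0x50003800140000000000000) := T_6 (nat_lit 73) (nat_lit 90) (nat_lit 6) (nat_lit 4) (nat_lit 8) L48022 (by decide +kernel)
theorem L48024 : W_6 (nat_lit 5) (nat_lit 0x200010001300088000400020000000000000000000000) (nat_lit 0x0) (nat_lit 0x1000080000000000050003800140000000000000) := T_6 (nat_lit 139) (nat_lit 156) (nat_lit 5) (nat_lit 4) (nat_lit 5) L48023 (by decide +kernel)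
theorem L48025 : W_6 (nat_lit 2) (nat_lit 0x200011001300088000400030000000000000000000000) (nat_lit 0x0) (nat_lit 0x20002000000000000200000000000000000000000000) := D_6 (nat_lit 157) (nat_lit 105) (nat_lit 173) (nat_lit 4) (nat_lit 4) (nat_lit 9) (nat_lit 5) (nat_lit 4) (nat_lit 6) (by decide +kernel)
theorem L48026 : W_6 (nat_lit 3) (nat_lit 0x200011001300088000400020000000000000000000000) (nat_lit 0x0) (nat_lit 0x20002000000000000200010000800000000000000000) := T_6 (nat_lit 88) (nat_lit 71) (nat_lit 4) (nat_lit 4) (nat_lit 8) L48025 (by decide +kernel)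
theorem L48027 : W_6 (nat_lit 4) (nat_lit 0x200010001300088000400020000000000000000000000) (nat_lit 0x0) (nat_lit 0x20003000080000000200010000800000000000000000) := T_6 (nat_lit 156) (nat_lit 139) (nat_lit 5) (nat_lit 4) (nat_lit 5) L48026 (by decide +kernel)
theorem L48028 : W_6 (nat_lit 2) (nat_lit 0x200012001300088000400060000000000000000000000) (nat_lit 0x0) (nat_lit 0x20001000080000000000000000000000000000000000) := D_6 (nat_lit 156) (nat_lit 173) (nat_lit 139) (nat_lit 5) (nat_lit 4) (nat_lit 6) (nat_lit 5) (nat_lit 4) (nat_lit 5) (by decide +kernel)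
theorem L48029 : W_6 (nat_lit 3) (nat_lit 0x200010001300088000400060000000000000000000000) (nat_lit 0x0) (nat_lit 0x20003000080000000800000000000000000000000000) := T_6 (nat_lit 157) (nat_lit 107) (nat_lit 6) (nat_lit 4) (nat_lit 9) L48028 (by decide +kernel)
theorem L48030 : W_6 (nat_lit 4) (nat_lit 0x200010001300088000400020000000000000000000000) (nat_lit 0x0) (nat_lit 0x20003000080000000800040002000000000000000000) := T_6 (nat_lit 90) (nat_lit 73) (nat_lit 6) (nat_lit 4) (nat_lit 8) L48029 (by decide +kernel)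
theorem L48031 : W_6 (nat_lit 6) (nat_lit 0x200010001300088000400000000000000000000000000) (nat_lit 0x0) (nat_lit 0x20003000080000001a0007c003800140000000000000) := Q_6 (nat_lit 89) (C_6 L47994 (C_6 L48024 (C_6 L48027 (C_6 L48030 N_6)))) (by decide +kernel)
theorem L48032 : W_6 (nat_lit 2) (nat_lit 0x200010001380088001400070000000000000000000000) (nat_lit 0x0) (nat_lit 0x2800080000000000000000000000) := D_6 (nat_lit 109) (nat_lit 91) (nat_lit 107) (nat_lit 3) (nat_lit 3) (nat_lit 5) (nat_lit 0) (nat_lit 7) (nat_lit 6) (by decide +kernel)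
theorem L48033 : W_6 (nat_lit 3) (nat_lit 0x200010001380088001400060000000000000000000000) (nat_lit 0x0) (nat_lit 0x2800090000800000000000000000) := T_6 (nat_lit 88) (nat_lit 71) (nat_lit 4) (nat_lit 4) (nat_lit 8) L48032 (by decide +kernel)
theorem L48034 : W_6 (nat_lit 4) (nat_lit 0x200010001380088001400020000000000000000000000) (nat_lit 0x0) (nat_lit 0x28000d0002800000000000000000) := T_6 (nat_lit 90) (nat_lit 73) (nat_lit 6) (nat_lit 4) (nat_lit 8) L48033 (by decide +kernel)
theorem L48035 : W_6 (nat_lit 5) (nat_lit 0x200010001300088001400020000000000000000000000) (nat_lit 0x0) (nat_lit 0x10000800000028000d0002800000000000000000) := T_6 (nat_lit 139) (nat_lit 156) (nat_lit 5) (nat_lit 4) (nat_lit 5) L48034 (by decide +kernel)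
theorem L48036 : W_6 (nat_lit 2) (nat_lit 0x200010001380088001500078000400000000000000000) (nat_lit 0x0) (nat_lit 0x6000200000000000000000000000000) := D_6 (nat_lit 122) (nat_lit 105) (nat_lit 121) (nat_lit 4) (nat_lit 3) (nat_lit 8) (nat_lit 7) (nat_lit 2) (nat_lit 4) (by decide +kernel)
theorem L48037 : W_6 (nat_lit 3) (nat_lit 0x200010001380088001400078000400000000000000000) (nat_lit 0x0) (nat_lit 0x6000380000000000000000000000000) := T_6 (nat_lit 104) (nat_lit 103) (nat_lit 1) (nat_lit 5) (nat_lit 5) L48036 (by decide +kernel)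
theorem L48038 : W_6 (nat_lit 4) (nat_lit 0x200010001380088001400078000000000000000000000) (nat_lit 0x0) (nat_lit 0x6000380000000600000000000000000) := T_6 (nat_lit 70) (nat_lit 69) (nat_lit 0) (nat_lit 5) (nat_lit 5) L48037 (by decide +kernel)
theorem L48039 : W_6 (nat_lit 5) (nat_lit 0x200010001380088001400070000000000000000000000) (nat_lit 0x0) (nat_lit 0x6000b80008000600000000000000000) := T_6 (nat_lit 87) (nat_lit 107) (nat_lit 3) (nat_lit 2) (nat_lit 5) L48038 (by decide +kernel)
theorem L48040 : W_6 (nat_lit 6) (nat_lit 0x200010001380088001400030000000000000000000000) (nat_lit 0x0) (nat_lit 0x6000b80048002600000000000000000) := T_6 (nat_lit 90) (nat_lit 73) (nat_lit 6) (nat_lit 4) (nat_lit 8) L48039 (by decide +kernel)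
theorem L48041 : W_6 (nat_lit 7) (nat_lit 0x200010001300088001400030000000000000000000000) (nat_lit 0x0) (nat_lit 0x1000080006000b80048002600000000000000000) := T_6 (nat_lit 139) (nat_lit 156) (nat_lit 5) (nat_lit 4) (nat_lit 5) L48040 (by decide +kernel)
theorem L48042 : W_6 (nat_lit 8) (nat_lit 0x200010001300088001400020000000000000000000000) (nat_lit 0x0) (nat_lit 0x1000080006000b80058002e00000000000000000) := T_6 (nat_lit 88) (nat_lit 71) (nat_lit 4) (nat_lit 4) (nat_lit 8) L48041 (by decide +kernel)
theorem L48043 : W_6 (nat_lit 2) (nat_lit 0x200010001300088001400070000000000000000000000) (nat_lit 0x0) (nat_lit 0x2800080000000000000000000000) := D_6 (nat_lit 109) (nat_lit 91) (nat_lit 107) (nat_lit 3) (nat_lit 3) (nat_lit 5) (nat_lit 0) (nat_lit 7) (nat_lit 6) (by decide +kernel)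
theorem L48044 : W_6 (nat_lit 3) (nat_lit 0x200010001300088001400060000000000000000000000) (nat_lit 0x0) (nat_lit 0x2800090000800000000000000000) := T_6 (nat_lit 88) (nat_lit 71) (nat_lit 4) (nat_lit 4) (nat_lit 8) L48043 (by decide +kernel)
theorem L48045 : W_6 (nat_lit 4) (nat_lit 0x200010001300088001400020000000000000000000000) (nat_lit 0x0) (nat_lit 0x28000d0002800000000000000000) := T_6 (nat_lit 90) (nat_lit 73) (nat_lit 6) (nat_lit 4) (nat_lit 8) L48044 (by decide +kernel)
theorem L48046 : W_6 (nat_lit 2) (nat_lit 0x2000100013800880014000f0000000000000000000000) (nat_lit 0x0) (nat_lit 0x300100000000000000000000000) := D_6 (nat_lit 105) (nat_lit 92) (nat_lit 104) (nat_lit 1) (nat_lit 7) (nat_lit 5) (nat_lit 1) (nat_lit 6) (nat_lit 5) (by decide +kernel)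
theorem L48047 : W_6 (nat_lit 3) (nat_lit 0x200010001380088001400070000000000000000000000) (nat_lit 0x0) (nat_lit 0x2300180000000000000000000000) := T_6 (nat_lit 91) (nat_lit 109) (nat_lit 3) (nat_lit 3) (nat_lit 5) L48046 (by decide +kernel)
theorem L48048 : W_6 (nat_lit 4) (nat_lit 0x200010001380088001400030000000000000000000000) (nat_lit 0x0) (nat_lit 0x23001c0002000000000000000000) := T_6 (nat_lit 90) (nat_lit 73) (nat_lit 6) (nat_lit 4) (nat_lit 8) L48047 (by decide +kernel)
theorem L48049 : W_6 (nat_lit 5) (nat_lit 0x200010001300088001400030000000000000000000000) (nat_lit 0x0) (nat_lit 0x10000800000023001c0002000000000000000000) := T_6 (nat_lit 139) (nat_lit 156) (nat_lit 5) (nat_lit 4) (nat_lit 5) L48048 (by decide +kernel)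
theorem L48050 : W_6 (nat_lit 6) (nat_lit 0x200010001300088001400020000000000000000000000) (nat_lit 0x0) (nat_lit 0x10000800000023001d0002800000000000000000) := T_6 (nat_lit 88) (nat_lit 71) (nat_lit 4) (nat_lit 4) (nat_lit 8) L48049 (by decide +kernel)
theorem L48051 : W_6 (nat_lit 2) (nat_lit 0x200010001300088001c00030000000000000000000000) (nat_lit 0x0) (nat_lit 0x20000c000000000000000000000) := D_6 (nat_lit 87) (nat_lit 105) (nat_lit 86) (nat_lit 0) (nat_lit 6) (nat_lit 6) (nat_lit 3) (nat_lit 1) (nat_lit 5) (by decide +kernel)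
theorem L48052 : W_6 (nat_lit 3) (nat_lit 0x200010001300088001400030000000000000000000000) (nat_lit 0x0) (nat_lit 0x2a0000c000000000000000000000) := T_6 (nat_lit 107) (nat_lit 109) (nat_lit 0) (nat_lit 7) (nat_lit 6) L48051 (by decide +kernel)
theorem L48053 : W_6 (nat_lit 4) (nat_lit 0x200010001300088001400020000000000000000000000) (nat_lit 0x0) (nat_lit 0x2a0001c000800000000000000000) := T_6 (nat_lit 88) (nat_lit 71) (nat_lit 4) (nat_lit 4) (nat_lit 8) L48052 (by decide +kernel)
theorem L48054 : W_6 (nat_lit 2) (nat_lit 0x200010001b000c8001400020000000000000000000000) (nat_lit 0x0) (nat_lit 0x2800080000000000000000000000) := D_6 (nat_lit 109) (nat_lit 107) (nat_lit 91) (nat_lit 3) (nat_lit 4) (nat_lit 6) (nat_lit 4) (nat_lit 7) (nat_lit 9) (by decide +kernel)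
theorem L48055 : W_6 (nat_lit 3) (nat_lit 0x2000100013000c8001400020000000000000000000000) (nat_lit 0x0) (nat_lit 0x800020002800080000000000000000000000) := T_6 (nat_lit 143) (nat_lit 125) (nat_lit 4) (nat_lit 7) (nat_lit 10) L48054 (by decide +kernel)
theorem L48056 : W_6 (nat_lit 2) (nat_lit 0x2000100013000e8001400020000000000000000000000) (nat_lit 0x0) (nat_lit 0x100000a00000000000000000000000000) := D_6 (nat_lit 107) (nat_lit 105) (nat_lit 128) (nat_lit 3) (nat_lit 3) (nat_lit 6) (nat_lit 0) (nat_lit 9) (nat_lit 7) (by decide +kernel)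
theorem L48057 : W_6 (nat_lit 3) (nat_lit 0x2000100013000c8001400020000000000000000000000) (nat_lit 0x0) (nat_lit 0x800120000a00000000000000000000000000) := T_6 (nat_lit 125) (nat_lit 143) (nat_lit 4) (nat_lit 7) (nat_lit 10) L48056 (by decide +kernel)
theorem L48058 : W_6 (nat_lit 2) (nat_lit 0x200010001b800c8003400060000000000000000000000) (nat_lit 0x0) (nat_lit 0x2000100008000000000000000000000000000000000000000) := D_6 (nat_lit 176) (nat_lit 159) (nat_lit 193) (nat_lit 5) (nat_lit 7) (nat_lit 6) (nat_lit 5) (nat_lit 7) (nat_lit 7) (by decide +kernel)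
theorem L48059 : W_6 (nat_lit 3) (nat_lit 0x2000100013800c8003400060000000000000000000000) (nat_lit 0x0) (nat_lit 0x2000100008000800000000000080000000000000000000000) := T_6 (nat_lit 143) (nat_lit 91) (nat_lit 4) (nat_lit 7) (nat_lit 9) L48058 (by decide +kernel)
theorem L48060 : W_6 (nat_lit 4) (nat_lit 0x2000100013000c8003400060000000000000000000000) (nat_lit 0x0) (nat_lit 0x2000100009000880000000000080000000000000000000000) := T_6 (nat_lit 139) (nat_lit 156) (nat_lit 5) (nat_lit 4) (nat_lit 5) L48059 (by decide +kernel)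
theorem L48061 : W_6 (nat_lit 5) (nat_lit 0x2000100013000c8001400060000000000000000000000) (nat_lit 0x0) (nat_lit 0x2000100009000880000002800080000000000000000000000) := T_6 (nat_lit 109) (nat_lit 107) (nat_lit 3) (nat_lit 4) (nat_lit 6) L48060 (by decide +kernel)
theorem L48062 : W_6 (nat_lit 6) (nat_lit 0x2000100013000c8001400020000000000000000000000) (nat_lit 0x0) (nat_lit 0x20001000090008800000028000c0002000000000000000000) := T_6 (nat_lit 90) (nat_lit 73) (nat_lit 6) (nat_lit 4) (nat_lit 8) L48061 (by decide +kernel)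
theorem L48063 : W_6 (nat_lit 2) (nat_lit 0x300010001b000c8001400020000000000000000000000) (nat_lit 0x0) (nat_lit 0x8000000000002000080000000000000000000000) := D_6 (nat_lit 109) (nat_lit 91) (nat_lit 159) (nat_lit 4) (nat_lit 7) (nat_lit 9) (nat_lit 5) (nat_lit 7) (nat_lit 6) (by decide +kernel)
theorem L48064 : W_6 (nat_lit 3) (nat_lit 0x200010001b000c8001400020000000000000000000000) (nat_lit 0x0) (nat_lit 0x2000100008000000000002000080000000000000000000000) := T_6 (nat_lit 176) (nat_lit 193) (nat_lit 5) (nat_lit 7) (nat_lit 7) L48063 (by decide +kernel)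
theorem L48065 : W_6 (nat_lit 4) (nat_lit 0x2000100013000c8001400020000000000000000000000) (nat_lit 0x0) (nat_lit 0x2000100008000800020002000080000000000000000000000) := T_6 (nat_lit 143) (nat_lit 125) (nat_lit 4) (nat_lit 7) (nat_lit 10) L48064 (by decide +kernel)
theorem L48066 : W_6 (nat_lit 2) (nat_lit 0x2000100013000c8001c00020000000000000000000000) (nat_lit 0x0) (nat_lit 0x120000200000000000000000000000000) := D_6 (nat_lit 125) (nat_lit 105) (nat_lit 128) (nat_lit 3) (nat_lit 3) (nat_lit 6) (nat_lit 0) (nat_lit 9) (nat_lit 7) (by decide +kernel)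
theorem L48067 : W_6 (nat_lit 3) (nat_lit 0x2000100013000c8001400020000000000000000000000) (nat_lit 0x0) (nat_lit 0x120002a00000000000000000000000000) := T_6 (nat_lit 107) (nat_lit 109) (nat_lit 3) (nat_lit 4) (nat_lit 6) L48066 (by decide +kernel)
theorem L48068 : W_6 (nat_lit 7) (nat_lit 0x200010001300088001400020000000000000000000000) (nat_lit 0x0) (nat_lit 0x2000100009000880160002a000c0002000000000000000000) := Q_6 (nat_lit 126) (C_6 L48055 (C_6 L48057 (C_6 L48062 (C_6 L48065 (C_6 L48067 N_6))))) (by decide +kernel)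
theorem L48069 : W_6 (nat_lit 9) (nat_lit 0x200010001300088000400020000000000000000000000) (nat_lit 0x0) (nat_lit 0x2000100009000880166003b801dc002e00000000000000000) := Q_6 (nat_lit 108) (C_6 L48035 (C_6 L48042 (C_6 L48045 (C_6 L48050 (C_6 L48053 (C_6 L48068 N_6)))))) (by decide +kernel)
theorem L48070 : W_6 (nat_lit 2) (nat_lit 0x200010001300088000400020002800000000000000000) (nat_lit 0x0) (nat_lit 0x1000140000000000000) := D_6 (nat_lit 72) (nat_lit 56) (nat_lit 54) (nat_lit 6) (nat_lit 4) (nat_lit 7) (nat_lit 4) (nat_lit 4) (nat_lit 7) (by decide +kernel)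
theorem L48071 : W_6 (nat_lit 3) (nat_lit 0x200010001300088000400020002000000000000000000) (nat_lit 0x0) (nat_lit 0x10001800140000000000000) := T_6 (nat_lit 71) (nat_lit 88) (nat_lit 4) (nat_lit 4) (nat_lit 8) L48070 (by decide +kernel)
theorem L48072 : W_6 (nat_lit 4) (nat_lit 0x200010001300088000400020000000000000000000000) (nat_lit 0x0) (nat_lit 0x50003800140000000000000) := T_6 (nat_lit 73) (nat_lit 90) (nat_lit 6) (nat_lit 4) (nat_lit 8) L48071 (by decide +kernel)
theorem L48073 : W_6 (nat_lit 2) (nat_lit 0x200010001380088000400020000800000000000000000) (nat_lit 0x0) (nat_lit 0x4000000000001000040000000000000) := D_6 (nat_lit 72) (nat_lit 122) (nat_lit 54) (nat_lit 5) (nat_lit 4) (nat_lit 4) (nat_lit 4) (nat_lit 4) (nat_lit 7) (by decide +kernel)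
theorem L48074 : W_6 (nat_lit 3) (nat_lit 0x200010001380088000400020000000000000000000000) (nat_lit 0x0) (nat_lit 0x4000000010001800040000000000000) := T_6 (nat_lit 71) (nat_lit 88) (nat_lit 4) (nat_lit 4) (nat_lit 8) L48073 (by decide +kernel)
theorem L48075 : W_6 (nat_lit 4) (nat_lit 0x200010001300088000400020000000000000000000000) (nat_lit 0x0) (nat_lit 0x1000080004000000010001800040000000000000) := T_6 (nat_lit 139) (nat_lit 156) (nat_lit 5) (nat_lit 4) (nat_lit 5) L48074 (by decide +kernel)
theorem L48076 : W_6 (nat_lit 2) (nat_lit 0x200010001380088000400020002000000000000000000) (nat_lit 0x0) (nat_lit 0x4000000000001000100000000000000) := D_6 (nat_lit 72) (nat_lit 122) (nat_lit 56) (nat_lit 5) (nat_lit 4) (nat_lit 4) (nat_lit 6) (nat_lit 4) (nat_lit 7) (by decide +kernel)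
theorem L48077 : W_6 (nat_lit 3) (nat_lit 0x200010001380088000400020000000000000000000000) (nat_lit 0x0) (nat_lit 0x4000000040003000100000000000000) := T_6 (nat_lit 73) (nat_lit 90) (nat_lit 6) (nat_lit 4) (nat_lit 8) L48076 (by decide +kernel)
theorem L48078 : W_6 (nat_lit 4) (nat_lit 0x200010001300088000400020000000000000000000000) (nat_lit 0x0) (nat_lit 0x1000080004000000040003000100000000000000) := T_6 (nat_lit 139) (nat_lit 156) (nat_lit 5) (nat_lit 4) (nat_lit 5) L48077 (by decide +kernel)
theorem L48079 : W_6 (nat_lit 10) (nat_lit 0x200010001300088000400000000000000000000000000) (nat_lit 0x0) (nat_lit 0x2000100009000880167003b801fc003e001c000a000000000) := Q_6 (nat_lit 89) (C_6 L48069 (C_6 L48024 (C_6 L48012 (C_6 L48072 (C_6 L48000 (C_6 L48075 (C_6 L48078 N_6))))))) (by decide +kernel)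
theorem L48080 : W_6 (nat_lit 2) (nat_lit 0x2e0012001300088000600000000000000000000000000) (nat_lit 0x0) (nat_lit 0x100028000000000000000000000000000000000000000) := D_6 (nat_lit 176) (nat_lit 161) (nat_lit 159) (nat_lit 2) (nat_lit 4) (nat_lit 10) (nat_lit 2) (nat_lit 3) (nat_lit 10) (by decide +kernel)
theorem L48081 : W_6 (nat_lit 3) (nat_lit 0x260012001300088000600000000000000000000000000) (nat_lit 0x0) (nat_lit 0x1000180028000000000000000000000000000000000000000) := T_6 (nat_lit 175) (nat_lit 192) (nat_lit 7) (nat_lit 4) (nat_lit 7) L48080 (by decide +kernel)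
theorem L48082 : W_6 (nat_lit 4) (nat_lit 0x240012001300088000600000000000000000000000000) (nat_lit 0x0) (nat_lit 0x14001a0028000000000000000000000000000000000000000) := T_6 (nat_lit 173) (nat_lit 190) (nat_lit 5) (nat_lit 4) (nat_lit 7) L48081 (by decide +kernel)
theorem L48083 : W_6 (nat_lit 5) (nat_lit 0x200012001300088000600000000000000000000000000) (nat_lit 0x0) (nat_lit 0x14001e0028000000004000000000000000000000000000000) := T_6 (nat_lit 174) (nat_lit 122) (nat_lit 4) (nat_lit 4) (nat_lit 10) L48082 (by decide +kernel)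
theorem L48084 : W_6 (nat_lit 6) (nat_lit 0x200012001300088000400000000000000000000000000) (nat_lit 0x0) (nat_lit 0x14001e0028000000004000200010000000000000000000000) := T_6 (nat_lit 105) (nat_lit 88) (nat_lit 4) (nat_lit 4) (nat_lit 9) L48083 (by decide +kernel)
theorem L48085 : W_6 (nat_lit 2) (nat_lit 0x200013401300088000400020002800000000000000000) (nat_lit 0x0) (nat_lit 0x1000140000000000000) := D_6 (nat_lit 72) (nat_lit 54) (nat_lit 56) (nat_lit 4) (nat_lit 4) (nat_lit 7) (nat_lit 6) (nat_lit 4) (nat_lit 7) (by decide +kernel)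
theorem L48086 : W_6 (nat_lit 3) (nat_lit 0x200013401300088000400020000800000000000000000) (nat_lit 0x0) (nat_lit 0x40003000140000000000000) := T_6 (nat_lit 73) (nat_lit 90) (nat_lit 6) (nat_lit 4) (nat_lit 8) L48085 (by decide +kernel)
theorem L48087 : W_6 (nat_lit 4) (nat_lit 0x200013401300088000400020000000000000000000000) (nat_lit 0x0) (nat_lit 0x50003800140000000000000) := T_6 (nat_lit 71) (nat_lit 88) (nat_lit 4) (nat_lit 4) (nat_lit 8) L48086 (by decide +kernel)
theorem L48088 : W_6 (nat_lit 5) (nat_lit 0x200013401300088000400000000000000000000000000) (nat_lit 0x0) (nat_lit 0x80000000000070003800140000000000000) := T_6 (nat_lit 89) (nat_lit 139) (nat_lit 5) (nat_lit 4) (nat_lit 5) L48087 (by decide +kernel)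
theorem L48089 : W_6 (nat_lit 6) (nat_lit 0x200013001300088000400000000000000000000000000) (nat_lit 0x0) (nat_lit 0xc00080000000000070003800140000000000000) := T_6 (nat_lit 154) (nat_lit 155) (nat_lit 2) (nat_lit 1) (nat_lit 9) L48088 (by decide +kernel)
theorem L48090 : W_6 (nat_lit 7) (nat_lit 0x200012001300088000400000000000000000000000000) (nat_lit 0x0) (nat_lit 0x20001c00080000000000070003800140000000000000) := T_6 (nat_lit 156) (nat_lit 173) (nat_lit 5) (nat_lit 4) (nat_lit 6) L48089 (by decide +kernel)
theorem L48091 : W_6 (nat_lit 2) (nat_lit 0x2c0012001300088000600000000000000000000000000) (nat_lit 0x0) (nat_lit 0x100021000000000000000000000000000000000000000) := D_6 (nat_lit 176) (nat_lit 161) (nat_lit 156) (nat_lit 2) (nat_lit 4) (nat_lit 10) (nat_lit 0) (nat_lit 7) (nat_lit 10) (by decide +kernel)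
theorem L48092 : W_6 (nat_lit 3) (nat_lit 0x240012001300088000600000000000000000000000000) (nat_lit 0x0) (nat_lit 0x1000180021000000000000000000000000000000000000000) := T_6 (nat_lit 175) (nat_lit 192) (nat_lit 7) (nat_lit 4) (nat_lit 7) L48091 (by decide +kernel)
theorem L48093 : W_6 (nat_lit 4) (nat_lit 0x200012001300088000600000000000000000000000000) (nat_lit 0x0) (nat_lit 0x10001c0021000000004000000000000000000000000000000) := T_6 (nat_lit 174) (nat_lit 122) (nat_lit 4) (nat_lit 4) (nat_lit 10) L48092 (by decide +kernel)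
theorem L48094 : W_6 (nat_lit 5) (nat_lit 0x200012001300088000400000000000000000000000000) (nat_lit 0x0) (nat_lit 0x10001c0021000000004000200010000000000000000000000) := T_6 (nat_lit 105) (nat_lit 88) (nat_lit 4) (nat_lit 4) (nat_lit 9) L48093 (by decide +kernel)
theorem L48095 : W_6 (nat_lit 2) (nat_lit 0x80026001200130008c000400000000000000000000000000) (nat_lit 0x0) (nat_lit 0x20001000080000000000000000000000000000000000000000000) := D_6 (nat_lit 192) (nat_lit 175) (nat_lit 209) (nat_lit 7) (nat_lit 4) (nat_lit 7) (nat_lit 7) (nat_lit 4) (nat_lit 8) (by decide +kernel)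
theorem L48096 : W_6 (nat_lit 3) (nat_lit 0x26001200130008c000400000000000000000000000000) (nat_lit 0x0) (nat_lit 0x20001800080000000080000000000000000000000000000000000) := T_6 (nat_lit 191) (nat_lit 139) (nat_lit 4) (nat_lit 4) (nat_lit 11) L48095 (by decide +kernel)
theorem L48097 : W_6 (nat_lit 4) (nat_lit 0x260012001300088000400000000000000000000000000) (nat_lit 0x0) (nat_lit 0x20001800080000000080004000200000000000000000000000000) := T_6 (nat_lit 122) (nat_lit 105) (nat_lit 4) (nat_lit 4) (nat_lit 10) L48096 (by decide +kernel)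
theorem L48098 : W_6 (nat_lit 5) (nat_lit 0x220012001300088000400000000000000000000000000) (nat_lit 0x0) (nat_lit 0x20001c000c0000000080004000200000000000000000000000000) := T_6 (nat_lit 174) (nat_lit 190) (nat_lit 5) (nat_lit 4) (nat_lit 7) L48097 (by decide +kernel)
theorem L48099 : W_6 (nat_lit 6) (nat_lit 0x200012001300088000400000000000000000000000000) (nat_lit 0x0) (nat_lit 0x20001c000e0001000080004000200000000000000000000000000) := T_6 (nat_lit 173) (nat_lit 156) (nat_lit 5) (nat_lit 4) (nat_lit 6) L48098 (by decide +kernel)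
theorem L48100 : W_6 (nat_lit 8) (nat_lit 0x200010001300088000400000000000000000000000000) (nat_lit 0x0) (nat_lit 0x20001c001e002bc00080004000200070003800140000000000000) := Q_6 (nat_lit 157) (C_6 L41877 (C_6 L41880 (C_6 L48084 (C_6 L48090 (C_6 L48094 (C_6 L48099 N_6)))))) (by decide +kernel)
theorem L48101 : W_6 (nat_lit 5) (nat_lit 0x200010001300088000400000000000000000000000000) (nat_lit 0x0) (nat_lit 0x20003000080004000800070003800140000000000000) := Q_6 (nat_lit 89) (C_6 L48078 (C_6 L48072 (C_6 L48075 (C_6 L48030 N_6)))) (by decide +kernel)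
theorem L48102 : W_6 (nat_lit 2) (nat_lit 0x2e0012001300088000400000000000000000000000000) (nat_lit 0x0) (nat_lit 0x100028000000000000000000000000000000000000000) := D_6 (nat_lit 176) (nat_lit 161) (nat_lit 159) (nat_lit 2) (nat_lit 4) (nat_lit 10) (nat_lit 2) (nat_lit 3) (nat_lit 10) (by decide +kernel)
theorem L48103 : W_6 (nat_lit 3) (nat_lit 0x260012001300088000400000000000000000000000000) (nat_lit 0x0) (nat_lit 0x1000180028000000000000000000000000000000000000000) := T_6 (nat_lit 175) (nat_lit 192) (nat_lit 7) (nat_lit 4) (nat_lit 7) L48102 (by decide +kernel)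
theorem L48104 : W_6 (nat_lit 4) (nat_lit 0x220012001300088000400000000000000000000000000) (nat_lit 0x0) (nat_lit 0x14001c0028000000000000000000000000000000000000000) := T_6 (nat_lit 174) (nat_lit 190) (nat_lit 5) (nat_lit 4) (nat_lit 7) L48103 (by decide +kernel)
theorem L48105 : W_6 (nat_lit 5) (nat_lit 0x200012001300088000400000000000000000000000000) (nat_lit 0x0) (nat_lit 0x14001e0029000000000000000000000000000000000000000) := T_6 (nat_lit 173) (nat_lit 156) (nat_lit 5) (nat_lit 4) (nat_lit 6) L48104 (by decide +kernel)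
theorem L48106 : W_6 (nat_lit 7) (nat_lit 0x200010001300088000400000000000000000000000000) (nat_lit 0x0) (nat_lit 0x20001c001e002bc00080004000200030000800000000000000000) := Q_6 (nat_lit 157) (C_6 L41877 (C_6 L48099 (C_6 L48084 (C_6 L48105 (C_6 L48094 N_6))))) (by decide +kernel)
theorem L48107 : W_6 (nat_lit 2) (nat_lit 0x20001340138008b000c00000000000000000000000000) (nat_lit 0x0) (nat_lit 0x300010000000000000000000000) := D_6 (nat_lit 105) (nat_lit 104) (nat_lit 88) (nat_lit 1) (nat_lit 5) (nat_lit 6) (nat_lit 4) (nat_lit 4) (nat_lit 9) (by decide +kernel)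
theorem L48108 : W_6 (nat_lit 3) (nat_lit 0x20001340138008b000400000000000000000000000000) (nat_lit 0x0) (nat_lit 0xb00050000000000000000000000) := T_6 (nat_lit 107) (nat_lit 90) (nat_lit 6) (nat_lit 4) (nat_lit 9) L48107 (by decide +kernel)
theorem L48109 : W_6 (nat_lit 4) (nat_lit 0x20001340130008b000400000000000000000000000000) (nat_lit 0x0) (nat_lit 0xc0000000b00050000000000000000000000) := T_6 (nat_lit 139) (nat_lit 138) (nat_lit 0) (nat_lit 5) (nat_lit 8) L48108 (by decide +kernel)
theorem L48110 : W_6 (nat_lit 5) (nat_lit 0x20001340130008a000400000000000000000000000000) (nat_lit 0x0) (nat_lit 0xc0005000b00050000000000000000000000) := T_6 (nat_lit 120) (nat_lit 122) (nat_lit 3) (nat_lit 1) (nat_lit 7) L48109 (by decide +kernel)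
theorem L48111 : W_6 (nat_lit 6) (nat_lit 0x20001300130008a000400000000000000000000000000) (nat_lit 0x0) (nat_lit 0xc000c0005000b00050000000000000000000000) := T_6 (nat_lit 154) (nat_lit 155) (nat_lit 2) (nat_lit 1) (nat_lit 9) L48110 (by decide +kernel)
theorem L48112 : W_6 (nat_lit 7) (nat_lit 0x20001200130008a000400000000000000000000000000) (nat_lit 0x0) (nat_lit 0x20001c000c0005000b00050000000000000000000000) := T_6 (nat_lit 156) (nat_lit 173) (nat_lit 5) (nat_lit 4) (nat_lit 6) L48111 (by decide +kernel)
theorem L48113 : W_6 (nat_lit 2) (nat_lit 0x20001340130008b000600000000000000000000000000) (nat_lit 0x0) (nat_lit 0x900040000000000000000000000) := D_6 (nat_lit 107) (nat_lit 104) (nat_lit 90) (nat_lit 1) (nat_lit 5) (nat_lit 6) (nat_lit 6) (nat_lit 4) (nat_lit 9) (by decide +kernel)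
theorem L48114 : W_6 (nat_lit 3) (nat_lit 0x20001340130008a000600000000000000000000000000) (nat_lit 0x0) (nat_lit 0x5000900040000000000000000000000) := T_6 (nat_lit 120) (nat_lit 122) (nat_lit 3) (nat_lit 1) (nat_lit 7) L48113 (by decide +kernel)
theorem L48115 : W_6 (nat_lit 4) (nat_lit 0x20001300130008a000600000000000000000000000000) (nat_lit 0x0) (nat_lit 0xc00000005000900040000000000000000000000) := T_6 (nat_lit 154) (nat_lit 155) (nat_lit 2) (nat_lit 1) (nat_lit 9) L48114 (by decide +kernel)
theorem L48116 : W_6 (nat_lit 5) (nat_lit 0x20001200130008a000600000000000000000000000000) (nat_lit 0x0) (nat_lit 0x20001c00000005000900040000000000000000000000) := T_6 (nat_lit 156) (nat_lit 173) (nat_lit 5) (nat_lit 4) (nat_lit 6) L48115 (by decide +kernel)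
theorem L48117 : W_6 (nat_lit 6) (nat_lit 0x20001200130008a000400000000000000000000000000) (nat_lit 0x0) (nat_lit 0x20001c00000005000b00050000000000000000000000) := T_6 (nat_lit 105) (nat_lit 88) (nat_lit 4) (nat_lit 4) (nat_lit 9) L48116 (by decide +kernel)
theorem L48118 : W_6 (nat_lit 2) (nat_lit 0x20001200138008b000600000000000000000000000000) (nat_lit 0x0) (nat_lit 0x900040000000000000000000000) := D_6 (nat_lit 107) (nat_lit 104) (nat_lit 90) (nat_lit 1) (nat_lit 5) (nat_lit 6) (nat_lit 6) (nat_lit 4) (nat_lit 9) (by decide +kernel)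
theorem L48119 : W_6 (nat_lit 3) (nat_lit 0x20001200138008b000400000000000000000000000000) (nat_lit 0x0) (nat_lit 0xb00050000000000000000000000) := T_6 (nat_lit 105) (nat_lit 88) (nat_lit 4) (nat_lit 4) (nat_lit 9) L48118 (by decide +kernel)
theorem L48120 : W_6 (nat_lit 4) (nat_lit 0x20001200130008b000400000000000000000000000000) (nat_lit 0x0) (nat_lit 0xc0000000b00050000000000000000000000) := T_6 (nat_lit 139) (nat_lit 138) (nat_lit 0) (nat_lit 5) (nat_lit 8) L48119 (by decide +kernel)
theorem L48121 : W_6 (nat_lit 5) (nat_lit 0x20001200130008a000400000000000000000000000000) (nat_lit 0x0) (nat_lit 0xc0005000b00050000000000000000000000) := T_6 (nat_lit 120) (nat_lit 122) (nat_lit 3) (nat_lit 1) (nat_lit 7) L48120 (by decide +kernel)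
theorem L48122 : W_6 (nat_lit 2) (nat_lit 0x20001340130008a000f00008000000000000000000000) (nat_lit 0x0) (nat_lit 0xe0000000000000000000000000000000000) := D_6 (nat_lit 138) (nat_lit 137) (nat_lit 139) (nat_lit 5) (nat_lit 2) (nat_lit 5) (nat_lit 7) (nat_lit 2) (nat_lit 5) (by decide +kernel)
theorem L48123 : W_6 (nat_lit 3) (nat_lit 0x20001340130008a000f00000000000000000000000000) (nat_lit 0x0) (nat_lit 0xe000000000000c000000000000000000000) := T_6 (nat_lit 87) (nat_lit 86) (nat_lit 0) (nat_lit 5) (nat_lit 6) L48122 (by decide +kernel)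
theorem L48124 : W_6 (nat_lit 4) (nat_lit 0x20001340130008a000e00000000000000000000000000) (nat_lit 0x0) (nat_lit 0xe000100010000c000000000000000000000) := T_6 (nat_lit 104) (nat_lit 120) (nat_lit 1) (nat_lit 5) (nat_lit 6) L48123 (by decide +kernel)
theorem L48125 : W_6 (nat_lit 5) (nat_lit 0x20001340130008a000c00000000000000000000000000) (nat_lit 0x0) (nat_lit 0xe000100030001c000000000000000000000) := T_6 (nat_lit 105) (nat_lit 88) (nat_lit 4) (nat_lit 4) (nat_lit 9) L48124 (by decide +kernel)
theorem L48126 : W_6 (nat_lit 6) (nat_lit 0x20001300130008a000c00000000000000000000000000) (nat_lit 0x0) (nat_lit 0xc000e000100030001c000000000000000000000) := T_6 (nat_lit 154) (nat_lit 155) (nat_lit 2) (nat_lit 1) (nat_lit 9) L48125 (by decide +kernel)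
theorem L48127 : W_6 (nat_lit 7) (nat_lit 0x20001200130008a000c00000000000000000000000000) (nat_lit 0x0) (nat_lit 0x20001c000e000100030001c000000000000000000000) := T_6 (nat_lit 156) (nat_lit 173) (nat_lit 5) (nat_lit 4) (nat_lit 6) L48126 (by decide +kernel)
theorem L48128 : W_6 (nat_lit 8) (nat_lit 0x20001200130008a000400000000000000000000000000) (nat_lit 0x0) (nat_lit 0x20001c000e0001000b0005c000000000000000000000) := T_6 (nat_lit 107) (nat_lit 90) (nat_lit 6) (nat_lit 4) (nat_lit 9) L48127 (by decide +kernel)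
theorem L48129 : W_6 (nat_lit 2) (nat_lit 0x20021001380134008b000600000000000000000000000000) (nat_lit 0x0) (nat_lit 0x2000100008000000000000000000000000000000000000000000) := D_6 (nat_lit 188) (nat_lit 205) (nat_lit 171) (nat_lit 5) (nat_lit 2) (nat_lit 8) (nat_lit 5) (nat_lit 2) (nat_lit 7) (by decide +kernel)
theorem L48130 : W_6 (nat_lit 3) (nat_lit 0x21001380134008b000600000000000000000000000000) (nat_lit 0x0) (nat_lit 0x2000300008000000020000000000000000000000000000000000) := T_6 (nat_lit 189) (nat_lit 137) (nat_lit 4) (nat_lit 2) (nat_lit 11) L48129 (by decide +kernel)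
theorem L48131 : W_6 (nat_lit 4) (nat_lit 0x20001380134008b000600000000000000000000000000) (nat_lit 0x0) (nat_lit 0x2000300018000000020000000080000000000000000000000000) := T_6 (nat_lit 172) (nat_lit 103) (nat_lit 4) (nat_lit 2) (nat_lit 10) L48130 (by decide +kernel)
theorem L48132 : W_6 (nat_lit 5) (nat_lit 0x20001300134008b000600000000000000000000000000) (nat_lit 0x0) (nat_lit 0x2000300018000c00020000000080000000000000000000000000) := T_6 (nat_lit 155) (nat_lit 154) (nat_lit 2) (nat_lit 1) (nat_lit 9) L48131 (by decide +kernel)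
theorem L48133 : W_6 (nat_lit 6) (nat_lit 0x20001200134008b000600000000000000000000000000) (nat_lit 0x0) (nat_lit 0x2000300038001c00020000000080000000000000000000000000) := T_6 (nat_lit 156) (nat_lit 173) (nat_lit 5) (nat_lit 4) (nat_lit 6) L48132 (by decide +kernel)
theorem L48134 : W_6 (nat_lit 7) (nat_lit 0x20001200130008b000600000000000000000000000000) (nat_lit 0x0) (nat_lit 0x2000300038001c000e0000000080000000000000000000000000) := T_6 (nat_lit 138) (nat_lit 139) (nat_lit 0) (nat_lit 5) (nat_lit 8) L48133 (by decide +kernel)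
theorem L48135 : W_6 (nat_lit 8) (nat_lit 0x20001200130008a000600000000000000000000000000) (nat_lit 0x0) (nat_lit 0x2000300038001c000e0005000080000000000000000000000000) := T_6 (nat_lit 120) (nat_lit 122) (nat_lit 3) (nat_lit 1) (nat_lit 7) L48134 (by decide +kernel)
theorem L48136 : W_6 (nat_lit 9) (nat_lit 0x20001200130008a000400000000000000000000000000) (nat_lit 0x0) (nat_lit 0x2000300038001c000e0005000280010000000000000000000000) := T_6 (nat_lit 105) (nat_lit 88) (nat_lit 4) (nat_lit 4) (nat_lit 9) L48135 (by decide +kernel)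
theorem L48137 : W_6 (nat_lit 2) (nat_lit 0x20021001380134008b000c00000000000000000000000000) (nat_lit 0x0) (nat_lit 0x2000100008000000000000000000000000000000000000000000) := D_6 (nat_lit 188) (nat_lit 205) (nat_lit 171) (nat_lit 5) (nat_lit 2) (nat_lit 8) (nat_lit 5) (nat_lit 2) (nat_lit 7) (by decide +kernel)
theorem L48138 : W_6 (nat_lit 3) (nat_lit 0x21001380134008b000c00000000000000000000000000) (nat_lit 0x0) (nat_lit 0x2000300008000000020000000000000000000000000000000000) := T_6 (nat_lit 189) (nat_lit 137) (nat_lit 4) (nat_lit 2) (nat_lit 11) L48137 (by decide +kernel)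
theorem L48139 : W_6 (nat_lit 4) (nat_lit 0x20001380134008b000c00000000000000000000000000) (nat_lit 0x0) (nat_lit 0x2000300018000000020000000080000000000000000000000000) := T_6 (nat_lit 172) (nat_lit 103) (nat_lit 4) (nat_lit 2) (nat_lit 10) L48138 (by decide +kernel)
theorem L48140 : W_6 (nat_lit 5) (nat_lit 0x20001380130008b000c00000000000000000000000000) (nat_lit 0x0) (nat_lit 0x20003000180000000e0000000080000000000000000000000000) := T_6 (nat_lit 138) (nat_lit 139) (nat_lit 0) (nat_lit 5) (nat_lit 8) L48139 (by decide +kernel)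
theorem L48141 : W_6 (nat_lit 6) (nat_lit 0x20001380130008a000c00000000000000000000000000) (nat_lit 0x0) (nat_lit 0x20003000180000000e0005000080000000000000000000000000) := T_6 (nat_lit 120) (nat_lit 122) (nat_lit 3) (nat_lit 1) (nat_lit 7) L48140 (by decide +kernel)
theorem L48142 : W_6 (nat_lit 7) (nat_lit 0x20001380130008a000400000000000000000000000000) (nat_lit 0x0) (nat_lit 0x20003000180000000e0005000880040000000000000000000000) := T_6 (nat_lit 107) (nat_lit 90) (nat_lit 6) (nat_lit 4) (nat_lit 9) L48141 (by decide +kernel)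
theorem L48143 : W_6 (nat_lit 8) (nat_lit 0x20001300130008a000400000000000000000000000000) (nat_lit 0x0) (nat_lit 0x2000300018000c000e0005000880040000000000000000000000) := T_6 (nat_lit 155) (nat_lit 154) (nat_lit 2) (nat_lit 1) (nat_lit 9) L48142 (by decide +kernel)
theorem L48144 : W_6 (nat_lit 9) (nat_lit 0x20001200130008a000400000000000000000000000000) (nat_lit 0x0) (nat_lit 0x2000300038001c000e0005000880040000000000000000000000) := T_6 (nat_lit 156) (nat_lit 173) (nat_lit 5) (nat_lit 4) (nat_lit 6) L48143 (by decide +kernel)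
theorem L48145 : W_6 (nat_lit 2) (nat_lit 0x20001340130008a001e00000000000000000000000000) (nat_lit 0x0) (nat_lit 0x60002000000000000000000000000000) := D_6 (nat_lit 126) (nat_lit 125) (nat_lit 109) (nat_lit 3) (nat_lit 3) (nat_lit 6) (nat_lit 3) (nat_lit 4) (nat_lit 6) (by decide +kernel)
theorem L48146 : W_6 (nat_lit 3) (nat_lit 0x20001340130008a000e00000000000000000000000000) (nat_lit 0x0) (nat_lit 0x64003000000000000000000000000000) := T_6 (nat_lit 108) (nat_lit 122) (nat_lit 1) (nat_lit 6) (nat_lit 6) L48145 (by decide +kernel)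
theorem L48147 : W_6 (nat_lit 4) (nat_lit 0x20001340130008a000600000000000000000000000000) (nat_lit 0x0) (nat_lit 0x64003800040000000000000000000000) := T_6 (nat_lit 107) (nat_lit 90) (nat_lit 6) (nat_lit 4) (nat_lit 9) L48146 (by decide +kernel)
theorem L48148 : W_6 (nat_lit 5) (nat_lit 0x20001300130008a000600000000000000000000000000) (nat_lit 0x0) (nat_lit 0xc00000064003800040000000000000000000000) := T_6 (nat_lit 154) (nat_lit 155) (nat_lit 2) (nat_lit 1) (nat_lit 9) L48147 (by decide +kernel)
theorem L48149 : W_6 (nat_lit 6) (nat_lit 0x20001200130008a000600000000000000000000000000) (nat_lit 0x0) (nat_lit 0x20001c00000064003800040000000000000000000000) := T_6 (nat_lit 156) (nat_lit 173) (nat_lit 5) (nat_lit 4) (nat_lit 6) L48148 (by decide +kernel)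
theorem L48150 : W_6 (nat_lit 7) (nat_lit 0x20001200130008a000400000000000000000000000000) (nat_lit 0x0) (nat_lit 0x20001c00000064003a00050000000000000000000000) := T_6 (nat_lit 105) (nat_lit 88) (nat_lit 4) (nat_lit 4) (nat_lit 9) L48149 (by decide +kernel)
theorem L48151 : W_6 (nat_lit 10) (nat_lit 0x200012001300088000400000000000000000000000000) (nat_lit 0x0) (nat_lit 0x2000300038001c000e0067003b8005c000000000000000000000) := Q_6 (nat_lit 121) (C_6 L48112 (C_6 L48117 (C_6 L48121 (C_6 L48128 (C_6 L48136 (C_6 L48144 (C_6 L48150 N_6))))))) (by decide +kernel)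
theorem L48152 : W_6 (nat_lit 11) (nat_lit 0x200010001300088000400000000000000000000000000) (nat_lit 0x0) (nat_lit 0x20017001f802bc000e0067003b8005c000000000000000000000) := Q_6 (nat_lit 157) (C_6 L48151 (C_6 L48105 (C_6 L48084 (C_6 L48094 N_6)))) (by decide +kernel)
theorem L48153 : W_6 (nat_lit 2) (nat_lit 0x3c0012001300088000c00000000000000000000000000) (nat_lit 0x0) (nat_lit 0x400020008000000000000000000000000000000000000000) := D_6 (nat_lit 173) (nat_lit 159) (nat_lit 190) (nat_lit 2) (nat_lit 3) (nat_lit 10) (nat_lit 5) (nat_lit 4) (nat_lit 7) (by decide +kernel)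
theorem L48154 : W_6 (nat_lit 3) (nat_lit 0x2c0012001300088000c00000000000000000000000000) (nat_lit 0x0) (nat_lit 0x400120028000000000000000000000000000000000000000) := T_6 (nat_lit 176) (nat_lit 161) (nat_lit 2) (nat_lit 4) (nat_lit 10) L48153 (by decide +kernel)
theorem L48155 : W_6 (nat_lit 4) (nat_lit 0x240012001300088000c00000000000000000000000000) (nat_lit 0x0) (nat_lit 0x14001a0028000000000000000000000000000000000000000) := T_6 (nat_lit 175) (nat_lit 192) (nat_lit 7) (nat_lit 4) (nat_lit 7) L48154 (by decide +kernel)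
theorem L48156 : W_6 (nat_lit 5) (nat_lit 0x240012001300088000400000000000000000000000000) (nat_lit 0x0) (nat_lit 0x14001a0028000000000000800040000000000000000000000) := T_6 (nat_lit 107) (nat_lit 90) (nat_lit 6) (nat_lit 4) (nat_lit 9) L48155 (by decide +kernel)
theorem L48157 : W_6 (nat_lit 2) (nat_lit 0x80024001200130008c000400000000000000000000000000) (nat_lit 0x0) (nat_lit 0x8000400020000000000000000000000000000000000000000000) := D_6 (nat_lit 190) (nat_lit 207) (nat_lit 173) (nat_lit 5) (nat_lit 4) (nat_lit 8) (nat_lit 5) (nat_lit 4) (nat_lit 7) (by decide +kernel)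
theorem L48158 : W_6 (nat_lit 3) (nat_lit 0x24001200130008c000400000000000000000000000000) (nat_lit 0x0) (nat_lit 0x8000c00020000000080000000000000000000000000000000000) := T_6 (nat_lit 191) (nat_lit 139) (nat_lit 4) (nat_lit 4) (nat_lit 11) L48157 (by decide +kernel)
theorem L48159 : W_6 (nat_lit 4) (nat_lit 0x240012001300088000400000000000000000000000000) (nat_lit 0x0) (nat_lit 0x8000c00020000000080004000200000000000000000000000000) := T_6 (nat_lit 122) (nat_lit 105) (nat_lit 4) (nat_lit 4) (nat_lit 10) L48158 (by decide +kernel)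
theorem L48160 : W_6 (nat_lit 2) (nat_lit 0x8003c0012001300088000400000000000000000000000000) (nat_lit 0x0) (nat_lit 0x80004000200000000000000000000000000) := D_6 (nat_lit 122) (nat_lit 105) (nat_lit 139) (nat_lit 4) (nat_lit 4) (nat_lit 10) (nat_lit 4) (nat_lit 4) (nat_lit 11) (by decide +kernel)
theorem L48161 : W_6 (nat_lit 3) (nat_lit 0x3c0012001300088000400000000000000000000000000) (nat_lit 0x0) (nat_lit 0xc00000000000080004000200000000000000000000000000) := T_6 (nat_lit 191) (nat_lit 190) (nat_lit 1) (nat_lit 7) (nat_lit 10) L48160 (by decide +kernel)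
theorem L48162 : W_6 (nat_lit 4) (nat_lit 0x2c0012001300088000400000000000000000000000000) (nat_lit 0x0) (nat_lit 0xc00100020000080004000200000000000000000000000000) := T_6 (nat_lit 176) (nat_lit 161) (nat_lit 2) (nat_lit 4) (nat_lit 10) L48161 (by decide +kernel)
theorem L48163 : W_6 (nat_lit 5) (nat_lit 0x240012001300088000400000000000000000000000000) (nat_lit 0x0) (nat_lit 0x1c00180020000080004000200000000000000000000000000) := T_6 (nat_lit 175) (nat_lit 192) (nat_lit 7) (nat_lit 4) (nat_lit 7) L48162 (by decide +kernel)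
theorem L48164 : W_6 (nat_lit 2) (nat_lit 0x80024001200130008c000400000000000000000000000000) (nat_lit 0x0) (nat_lit 0x20001000080000000000000000000000000000000000000000000) := D_6 (nat_lit 192) (nat_lit 175) (nat_lit 209) (nat_lit 7) (nat_lit 4) (nat_lit 7) (nat_lit 7) (nat_lit 4) (nat_lit 8) (by decide +kernel)
theorem L48165 : W_6 (nat_lit 3) (nat_lit 0x24001200130008c000400000000000000000000000000) (nat_lit 0x0) (nat_lit 0x20001800080000000080000000000000000000000000000000000) := T_6 (nat_lit 191) (nat_lit 139) (nat_lit 4) (nat_lit 4) (nat_lit 11) L48164 (by decide +kernel)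
theorem L48166 : W_6 (nat_lit 4) (nat_lit 0x240012001300088000400000000000000000000000000) (nat_lit 0x0) (nat_lit 0x20001800080000000080004000200000000000000000000000000) := T_6 (nat_lit 122) (nat_lit 105) (nat_lit 4) (nat_lit 4) (nat_lit 10) L48165 (by decide +kernel)
theorem L48167 : W_6 (nat_lit 6) (nat_lit 0x200012001300088000400000000000000000000000000) (nat_lit 0x0) (nat_lit 0x28001c001e0028000080004000a00040000000000000000000000) := Q_6 (nat_lit 174) (C_6 L48156 (C_6 L48159 (C_6 L48163 (C_6 L48166 N_6)))) (by decide +kernel)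
theorem L48168 : W_6 (nat_lit 2) (nat_lit 0x20001200138008c000400060000000000000000000000) (nat_lit 0x0) (nat_lit 0x800040000000000000000200000000000000000000000000) := D_6 (nat_lit 174) (nat_lit 191) (nat_lit 105) (nat_lit 4) (nat_lit 4) (nat_lit 11) (nat_lit 4) (nat_lit 4) (nat_lit 10) (by decide +kernel)
theorem L48169 : W_6 (nat_lit 3) (nat_lit 0x200012001380088000400060000000000000000000000) (nat_lit 0x0) (nat_lit 0x800040000000000004000200000001000000000000000000) := T_6 (nat_lit 122) (nat_lit 72) (nat_lit 5) (nat_lit 4) (nat_lit 4) L48168 (by decide +kernel)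
theorem L48170 : W_6 (nat_lit 4) (nat_lit 0x200012001300088000400060000000000000000000000) (nat_lit 0x0) (nat_lit 0x800040001000080004000200000001000000000000000000) := T_6 (nat_lit 139) (nat_lit 156) (nat_lit 5) (nat_lit 4) (nat_lit 5) L48169 (by decide +kernel)
theorem L48171 : W_6 (nat_lit 5) (nat_lit 0x200012001300088000400040000000000000000000000) (nat_lit 0x0) (nat_lit 0x800040001000080004000200020003000000000000000000) := T_6 (nat_lit 89) (nat_lit 73) (nat_lit 6) (nat_lit 4) (nat_lit 8) L48170 (by decide +kernel)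
theorem L48172 : W_6 (nat_lit 6) (nat_lit 0x200012001300088000400000000000000000000000000) (nat_lit 0x0) (nat_lit 0x800040001000080004000a00060003000000000000000000) := T_6 (nat_lit 90) (nat_lit 107) (nat_lit 6) (nat_lit 4) (nat_lit 9) L48171 (by decide +kernel)
theorem L48173 : W_6 (nat_lit 7) (nat_lit 0x200010001300088000400000000000000000000000000) (nat_lit 0x0) (nat_lit 0x28001c001e002bc00080004000a00060003000000000000000000) := Q_6 (nat_lit 157) (C_6 L41873 (C_6 L48105 (C_6 L48167 (C_6 L48172 N_6)))) (by decide +kernel)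
theorem L48174 : W_6 (nat_lit 12) (nat_lit 0x200010001300088000000000000000000000000000000) (nat_lit 0x0) (nat_lit 0x2a003f001f802bc008e0167003f801fc003e001c000e000400000) := Q_6 (nat_lit 106) (C_6 L47979 (C_6 L48020 (C_6 L48031 (C_6 L48079 (C_6 L48100 (C_6 L48101 (C_6 L48106 (C_6 L48152 (C_6 L48173 N_6))))))))) (by decide +kernel)
theorem L48175 : W_6 (nat_lit 2) (nat_lit 0x8000200218010c0134009b000000000000000000000000000000) (nat_lit 0x0) (nat_lit 0x180004000000000000000000000000000000000000000000000000000) := D_6 (nat_lit 206) (nat_lit 223) (nat_lit 224) (nat_lit 4) (nat_lit 2) (nat_lit 13) (nat_lit 7) (nat_lit 2) (nat_lit 9) (by decide +kernel)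
theorem L48176 : W_6 (nat_lit 3) (nat_lit 0x200218010c0134009b000000000000000000000000000000) (nat_lit 0x0) (nat_lit 0x18000c000400000000000000000000000000000000000000000000000) := T_6 (nat_lit 207) (nat_lit 190) (nat_lit 7) (nat_lit 2) (nat_lit 8) L48175 (by decide +kernel)
theorem L48177 : W_6 (nat_lit 4) (nat_lit 0x20021801080134009b000000000000000000000000000000) (nat_lit 0x0) (nat_lit 0x18000c000400000000400000000000100000000000000000000000000) := T_6 (nat_lit 154) (nat_lit 104) (nat_lit 5) (nat_lit 2) (nat_lit 6) L48176 (by decide +kernel)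
theorem L48178 : W_6 (nat_lit 5) (nat_lit 0x21801080134009b000000000000000000000000000000) (nat_lit 0x0) (nat_lit 0x18000c000600000000400020000000100000000000000000000000000) := T_6 (nat_lit 189) (nat_lit 137) (nat_lit 4) (nat_lit 2) (nat_lit 11) L48177 (by decide +kernel)
theorem L48179 : W_6 (nat_lit 6) (nat_lit 0x21801080134009a000000000000000000000000000000) (nat_lit 0x0) (nat_lit 0x18000c000600000000400020001000180000000000000000000000000) := T_6 (nat_lit 120) (nat_lit 103) (nat_lit 4) (nat_lit 2) (nat_lit 10) L48178 (by decide +kernel)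
theorem L48180 : W_6 (nat_lit 7) (nat_lit 0x21001080134009a000000000000000000000000000000) (nat_lit 0x0) (nat_lit 0x18000c000700008000400020001000180000000000000000000000000) := T_6 (nat_lit 171) (nat_lit 188) (nat_lit 5) (nat_lit 2) (nat_lit 7) L48179 (by decide +kernel)
theorem L48181 : W_6 (nat_lit 2) (nat_lit 0x23801080134009a000100000000000000000000000000) (nat_lit 0x0) (nat_lit 0x1000080004000000000000000000000) := D_6 (nat_lit 103) (nat_lit 120) (nat_lit 86) (nat_lit 4) (nat_lit 2) (nat_lit 10) (nat_lit 4) (nat_lit 2) (nat_lit 9) (by decide +kernel)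
theorem L48182 : W_6 (nat_lit 3) (nat_lit 0x23801080134009a000000000000000000000000000000) (nat_lit 0x0) (nat_lit 0x400000001000180004000000000000000000000) := T_6 (nat_lit 104) (nat_lit 154) (nat_lit 5) (nat_lit 2) (nat_lit 6) L48181 (by decide +kernel)
theorem L48183 : W_6 (nat_lit 4) (nat_lit 0x21801080134009a000000000000000000000000000000) (nat_lit 0x0) (nat_lit 0x400020000400000001000180004000000000000000000000) := T_6 (nat_lit 173) (nat_lit 190) (nat_lit 7) (nat_lit 2) (nat_lit 7) L48182 (by decide +kernel)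
theorem L48184 : W_6 (nat_lit 5) (nat_lit 0x21001080134009a000000000000000000000000000000) (nat_lit 0x0) (nat_lit 0x500028000400000001000180004000000000000000000000) := T_6 (nat_lit 171) (nat_lit 188) (nat_lit 5) (nat_lit 2) (nat_lit 7) L48183 (by decide +kernel)
theorem L48185 : W_6 (nat_lit 2) (nat_lit 0x20021001080134009b000000000000000000000000000000) (nat_lit 0x0) (nat_lit 0x2000100008000000000000000000000000000000000000000000) := D_6 (nat_lit 188) (nat_lit 205) (nat_lit 171) (nat_lit 5) (nat_lit 2) (nat_lit 8) (nat_lit 5) (nat_lit 2) (nat_lit 7) (by decide +kernel)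
theorem L48186 : W_6 (nat_lit 3) (nat_lit 0x21001080134009b000000000000000000000000000000) (nat_lit 0x0) (nat_lit 0x2000300008000000020000000000000000000000000000000000) := T_6 (nat_lit 189) (nat_lit 137) (nat_lit 4) (nat_lit 2) (nat_lit 11) L48185 (by decide +kernel)
theorem L48187 : W_6 (nat_lit 4) (nat_lit 0x21001080134009a000000000000000000000000000000) (nat_lit 0x0) (nat_lit 0x2000300008000000020001000080000000000000000000000000) := T_6 (nat_lit 120) (nat_lit 103) (nat_lit 4) (nat_lit 2) (nat_lit 10) L48186 (by decide +kernel)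
theorem L48188 : W_6 (nat_lit 2) (nat_lit 0x238010c0134009a000000000000000000000000000000) (nat_lit 0x0) (nat_lit 0xc0000200000000000000000000000000000000000000) := D_6 (nat_lit 174) (nat_lit 175) (nat_lit 153) (nat_lit 0) (nat_lit 5) (nat_lit 10) (nat_lit 0) (nat_lit 4) (nat_lit 10) (by decide +kernel)
theorem L48189 : W_6 (nat_lit 3) (nat_lit 0x23801080134009a000000000000000000000000000000) (nat_lit 0x0) (nat_lit 0xc0000600000000000100000000000000000000000000) := T_6 (nat_lit 154) (nat_lit 104) (nat_lit 5) (nat_lit 2) (nat_lit 6) L48188 (by decide +kernel)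
theorem L48190 : W_6 (nat_lit 4) (nat_lit 0x21801080134009a000000000000000000000000000000) (nat_lit 0x0) (nat_lit 0x4000e0000600000000000100000000000000000000000000) := T_6 (nat_lit 173) (nat_lit 190) (nat_lit 7) (nat_lit 2) (nat_lit 7) L48189 (by decide +kernel)
theorem L48191 : W_6 (nat_lit 5) (nat_lit 0x21001080134009a000000000000000000000000000000) (nat_lit 0x0) (nat_lit 0x5000e8000600000000000100000000000000000000000000) := T_6 (nat_lit 171) (nat_lit 188) (nat_lit 5) (nat_lit 2) (nat_lit 7) L48190 (by decide +kernel)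
theorem L48192 : W_6 (nat_lit 8) (nat_lit 0x20001080134009a000000000000000000000000000000) (nat_lit 0x0) (nat_lit 0x18000e0007000f8000600020001000180004000000000000000000000) := Q_6 (nat_lit 172) (C_6 L45830 (C_6 L48180 (C_6 L48184 (C_6 L48187 (C_6 L48191 N_6))))) (by decide +kernel)
theorem L48193 : W_6 (nat_lit 6) (nat_lit 0x20001080134009a000000000000000000000000000000) (nat_lit 0x0) (nat_lit 0xa000700038001400020001000180004000000000000000000000) := Q_6 (nat_lit 172) (C_6 L48187 (C_6 L48184 (C_6 L45804 (C_6 L45830 N_6)))) (by decide +kernel)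
theorem L48194 : W_6 (nat_lit 2) (nat_lit 0x23801180134009b000000000000000000000000000000) (nat_lit 0x0) (nat_lit 0x4002000000000000400000000000000000000000000) := D_6 (nat_lit 157) (nat_lit 106) (nat_lit 170) (nat_lit 5) (nat_lit 4) (nat_lit 6) (nat_lit 2) (nat_lit 0) (nat_lit 10) (by decide +kernel)
theorem L48195 : W_6 (nat_lit 3) (nat_lit 0x23801080134009b000000000000000000000000000000) (nat_lit 0x0) (nat_lit 0x4003000000000000500000000000000000000000000) := T_6 (nat_lit 156) (nat_lit 104) (nat_lit 7) (nat_lit 2) (nat_lit 6) L48194 (by decide +kernel)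
theorem L48196 : W_6 (nat_lit 4) (nat_lit 0x23801080134009a000000000000000000000000000000) (nat_lit 0x0) (nat_lit 0x4003000000001000580000000000000000000000000) := T_6 (nat_lit 120) (nat_lit 103) (nat_lit 4) (nat_lit 2) (nat_lit 10) L48195 (by decide +kernel)
theorem L48197 : W_6 (nat_lit 5) (nat_lit 0x21801080134009a000000000000000000000000000000) (nat_lit 0x0) (nat_lit 0x400024003000000001000580000000000000000000000000) := T_6 (nat_lit 173) (nat_lit 190) (nat_lit 7) (nat_lit 2) (nat_lit 7) L48196 (by decide +kernel)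
theorem L48198 : W_6 (nat_lit 6) (nat_lit 0x21001080134009a000000000000000000000000000000) (nat_lit 0x0) (nat_lit 0x50002c003000000001000580000000000000000000000000) := T_6 (nat_lit 171) (nat_lit 188) (nat_lit 5) (nat_lit 2) (nat_lit 7) L48197 (by decide +kernel)
theorem L48199 : W_6 (nat_lit 2) (nat_lit 0x23801180134009a000000000000000000000000000000) (nat_lit 0x0) (nat_lit 0x4002000000000000400000000000000000000000000) := D_6 (nat_lit 157) (nat_lit 106) (nat_lit 170) (nat_lit 5) (nat_lit 4) (nat_lit 6) (nat_lit 2) (nat_lit 0) (nat_lit 10) (by decide +kernel)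
theorem L48200 : W_6 (nat_lit 3) (nat_lit 0x23801080134009a000000000000000000000000000000) (nat_lit 0x0) (nat_lit 0x4003000000000000500000000000000000000000000) := T_6 (nat_lit 156) (nat_lit 104) (nat_lit 7) (nat_lit 2) (nat_lit 6) L48199 (by decide +kernel)
theorem L48201 : W_6 (nat_lit 4) (nat_lit 0x23001080134009a000000000000000000000000000000) (nat_lit 0x0) (nat_lit 0x10000c003000000000000500000000000000000000000000) := T_6 (nat_lit 171) (nat_lit 188) (nat_lit 5) (nat_lit 2) (nat_lit 7) L48200 (by decide +kernel)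
theorem L48202 : W_6 (nat_lit 5) (nat_lit 0x21001080134009a000000000000000000000000000000) (nat_lit 0x0) (nat_lit 0x50002c003000000000000500000000000000000000000000) := T_6 (nat_lit 173) (nat_lit 190) (nat_lit 7) (nat_lit 2) (nat_lit 7) L48201 (by decide +kernel)
theorem L48203 : W_6 (nat_lit 7) (nat_lit 0x20001080134009a000000000000000000000000000000) (nat_lit 0x0) (nat_lit 0xa00070003c003000020001000580000000000000000000000000) := Q_6 (nat_lit 172) (C_6 L48187 (C_6 L48198 (C_6 L48202 (C_6 L45830 N_6)))) (by decide +kernel)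
theorem L48204 : W_6 (nat_lit 2) (nat_lit 0x208012c0134009a000000040000000000000000000000) (nat_lit 0x0) (nat_lit 0x2000100010000000000000000000000000000000000000000000) := D_6 (nat_lit 188) (nat_lit 172) (nat_lit 205) (nat_lit 5) (nat_lit 2) (nat_lit 7) (nat_lit 6) (nat_lit 1) (nat_lit 12) (by decide +kernel)
theorem L48205 : W_6 (nat_lit 3) (nat_lit 0x200012c0134009a000000040000000000000000000000) (nat_lit 0x0) (nat_lit 0x2000100018000000000000000100000000000000000000000000) := T_6 (nat_lit 171) (nat_lit 104) (nat_lit 5) (nat_lit 2) (nat_lit 6) L48204 (by decide +kernel)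
theorem L48206 : W_6 (nat_lit 4) (nat_lit 0x200012c0134009a000000000000000000000000000000) (nat_lit 0x0) (nat_lit 0x2000100018000000000000000900040000000000000000000000) := T_6 (nat_lit 90) (nat_lit 107) (nat_lit 5) (nat_lit 5) (nat_lit 5) L48205 (by decide +kernel)
theorem L48207 : W_6 (nat_lit 5) (nat_lit 0x20001280134009a000000000000000000000000000000) (nat_lit 0x0) (nat_lit 0x2000100018001400000000000900040000000000000000000000) := T_6 (nat_lit 154) (nat_lit 156) (nat_lit 2) (nat_lit 1) (nat_lit 9) L48206 (by decide +kernel)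
theorem L48208 : W_6 (nat_lit 2) (nat_lit 0x800208012c0134009a000000000000000000000000000000) (nat_lit 0x0) (nat_lit 0x2000100010000000000000000000000000000000000000000000) := D_6 (nat_lit 188) (nat_lit 172) (nat_lit 205) (nat_lit 5) (nat_lit 2) (nat_lit 7) (nat_lit 6) (nat_lit 1) (nat_lit 12) (by decide +kernel)
theorem L48209 : W_6 (nat_lit 3) (nat_lit 0x800200012c0134009a000000000000000000000000000000) (nat_lit 0x0) (nat_lit 0x2000100018000000000000000100000000000000000000000000) := T_6 (nat_lit 171) (nat_lit 104) (nat_lit 5) (nat_lit 2) (nat_lit 6) L48208 (by decide +kernel)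
theorem L48210 : W_6 (nat_lit 4) (nat_lit 0x200012c0134009a000000000000000000000000000000) (nat_lit 0x0) (nat_lit 0x2000900058000000000000000100000000000000000000000000) := T_6 (nat_lit 191) (nat_lit 174) (nat_lit 6) (nat_lit 4) (nat_lit 11) L48209 (by decide +kernel)
theorem L48211 : W_6 (nat_lit 5) (nat_lit 0x20001280134009a000000000000000000000000000000) (nat_lit 0x0) (nat_lit 0x2000900058001400000000000100000000000000000000000000) := T_6 (nat_lit 154) (nat_lit 156) (nat_lit 2) (nat_lit 1) (nat_lit 9) L48210 (by decide +kernel)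
theorem L48212 : W_6 (nat_lit 6) (nat_lit 0x20001080134009a000000000000000000000000000000) (nat_lit 0x0) (nat_lit 0x2000900058003400000000000900040000000000000000000000) := Q_6 (nat_lit 157) (C_6 L45832 (C_6 L48207 (C_6 L48211 N_6))) (by decide +kernel)
theorem L48213 : W_6 (nat_lit 2) (nat_lit 0x20001380134009a000400040000000000000000000000) (nat_lit 0x0) (nat_lit 0x20003000000000000000000) := D_6 (nat_lit 89) (nat_lit 72) (nat_lit 73) (nat_lit 7) (nat_lit 4) (nat_lit 4) (nat_lit 6) (nat_lit 4) (nat_lit 8) (by decide +kernel)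
theorem L48214 : W_6 (nat_lit 3) (nat_lit 0x20001380134009a000000040000000000000000000000) (nat_lit 0x0) (nat_lit 0x20000000000000000400020003000000000000000000) := T_6 (nat_lit 106) (nat_lit 173) (nat_lit 5) (nat_lit 4) (nat_lit 6) L48213 (by decide +kernel)
theorem L48215 : W_6 (nat_lit 4) (nat_lit 0x20001380134009a000000000000000000000000000000) (nat_lit 0x0) (nat_lit 0x20000000000000000c00060003000000000000000000) := T_6 (nat_lit 90) (nat_lit 107) (nat_lit 5) (nat_lit 5) (nat_lit 5) L48214 (by decide +kernel)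
theorem L48216 : W_6 (nat_lit 5) (nat_lit 0x20001280134009a000000000000000000000000000000) (nat_lit 0x0) (nat_lit 0x20001400000000000c00060003000000000000000000) := T_6 (nat_lit 156) (nat_lit 154) (nat_lit 2) (nat_lit 1) (nat_lit 9) L48215 (by decide +kernel)
theorem L48217 : W_6 (nat_lit 2) (nat_lit 0x2c0012c0134009a000000000000000000000000000000) (nat_lit 0x0) (nat_lit 0x400030000000000000000000000000000000000000000000) := D_6 (nat_lit 173) (nat_lit 190) (nat_lit 172) (nat_lit 5) (nat_lit 4) (nat_lit 7) (nat_lit 0) (nat_lit 5) (nat_lit 10) (by decide +kernel)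
theorem L48218 : W_6 (nat_lit 3) (nat_lit 0x240012c0134009a000000000000000000000000000000) (nat_lit 0x0) (nat_lit 0x14000b0000000000000000000000000000000000000000000) := T_6 (nat_lit 175) (nat_lit 192) (nat_lit 7) (nat_lit 4) (nat_lit 7) L48217 (by decide +kernel)
theorem L48219 : W_6 (nat_lit 4) (nat_lit 0x200012c0134009a000000000000000000000000000000) (nat_lit 0x0) (nat_lit 0x1c000f0000000000000000000000000000000000000000000) := T_6 (nat_lit 174) (nat_lit 191) (nat_lit 6) (nat_lit 4) (nat_lit 11) L48218 (by decide +kernel)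
theorem L48220 : W_6 (nat_lit 5) (nat_lit 0x20001280134009a000000000000000000000000000000) (nat_lit 0x0) (nat_lit 0x1c000f0001400000000000000000000000000000000000000) := T_6 (nat_lit 154) (nat_lit 156) (nat_lit 2) (nat_lit 1) (nat_lit 9) L48219 (by decide +kernel)
theorem L48221 : W_6 (nat_lit 6) (nat_lit 0x20001080134009a000000000000000000000000000000) (nat_lit 0x0) (nat_lit 0x1c000f0003400000000000c00060003000000000000000000) := Q_6 (nat_lit 157) (C_6 L45832 (C_6 L48216 (C_6 L48220 N_6))) (by decide +kernel)
theorem L48222 : W_6 (nat_lit 9) (nat_lit 0x20001000134009a000000000000000000000000000000) (nat_lit 0x0) (nat_lit 0x18000e001f000fc003e00020001000d8006c003200000000000000000) := Q_6 (nat_lit 155) (C_6 L48192 (C_6 L45843 (C_6 L48193 (C_6 L48203 (C_6 L48212 (C_6 L48221 N_6)))))) (by decide +kernel)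
theorem L48223 : W_6 (nat_lit 2) (nat_lit 0x20001200134009a000000000000000000000000000000) (nat_lit 0x0) (nat_lit 0x40000000000000000800040000000000000000000000) := D_6 (nat_lit 107) (nat_lit 90) (nat_lit 174) (nat_lit 5) (nat_lit 5) (nat_lit 5) (nat_lit 6) (nat_lit 4) (nat_lit 10) (by decide +kernel)
theorem L48224 : W_6 (nat_lit 2) (nat_lit 0x2000120013c009a000400000000000000000000000000) (nat_lit 0x0) (nat_lit 0x20001000000000000000020000000000000000000000) := D_6 (nat_lit 156) (nat_lit 173) (nat_lit 89) (nat_lit 5) (nat_lit 4) (nat_lit 6) (nat_lit 5) (nat_lit 4) (nat_lit 5) (by decide +kernel)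
theorem L48225 : W_6 (nat_lit 3) (nat_lit 0x20001200134009a000400000000000000000000000000) (nat_lit 0x0) (nat_lit 0x20001000080001000000020000000000000000000000) := T_6 (nat_lit 139) (nat_lit 120) (nat_lit 0) (nat_lit 5) (nat_lit 8) L48224 (by decide +kernel)
theorem L48226 : W_6 (nat_lit 2) (nat_lit 0x2000128013c009a000400020000000000000000000000) (nat_lit 0x0) (nat_lit 0x800040002000000000000000000) := D_6 (nat_lit 90) (nat_lit 107) (nat_lit 73) (nat_lit 6) (nat_lit 4) (nat_lit 9) (nat_lit 6) (nat_lit 4) (nat_lit 8) (by decide +kernel)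
theorem L48227 : W_6 (nat_lit 3) (nat_lit 0x2000128013c009a000400000000000000000000000000) (nat_lit 0x0) (nat_lit 0x800060003000000000000000000) := T_6 (nat_lit 89) (nat_lit 72) (nat_lit 7) (nat_lit 4) (nat_lit 4) L48226 (by decide +kernel)
theorem L48228 : W_6 (nat_lit 4) (nat_lit 0x2000120013c009a000400000000000000000000000000) (nat_lit 0x0) (nat_lit 0xc00000000000800060003000000000000000000) := T_6 (nat_lit 155) (nat_lit 154) (nat_lit 1) (nat_lit 5) (nat_lit 8) L48227 (by decide +kernel)
theorem L48229 : W_6 (nat_lit 5) (nat_lit 0x20001200134009a000400000000000000000000000000) (nat_lit 0x0) (nat_lit 0xc00080001000800060003000000000000000000) := T_6 (nat_lit 139) (nat_lit 120) (nat_lit 0) (nat_lit 5) (nat_lit 8) L48228 (by decide +kernel)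
theorem L48230 : W_6 (nat_lit 2) (nat_lit 0x20001380134009a000c80034000000000000000000000) (nat_lit 0x0) (nat_lit 0x10000000000001000000000000200000000000000000) := D_6 (nat_lit 120) (nat_lit 172) (nat_lit 69) (nat_lit 4) (nat_lit 2) (nat_lit 10) (nat_lit 7) (nat_lit 1) (nat_lit 4) (by decide +kernel)
theorem L48231 : W_6 (nat_lit 3) (nat_lit 0x20001380134009a000c00034000000000000000000000) (nat_lit 0x0) (nat_lit 0x10000000000001000180000000200000000000000000) := T_6 (nat_lit 103) (nat_lit 104) (nat_lit 4) (nat_lit 2) (nat_lit 9) L48230 (by decide +kernel)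
theorem L48232 : W_6 (nat_lit 4) (nat_lit 0x20001380134009a000c00030000000000000000000000) (nat_lit 0x0) (nat_lit 0x1000000000000100018000c000200000000000000000) := T_6 (nat_lit 86) (nat_lit 87) (nat_lit 3) (nat_lit 1) (nat_lit 5) L48231 (by decide +kernel)
theorem L48233 : W_6 (nat_lit 5) (nat_lit 0x20001380134009a000c00020000000000000000000000) (nat_lit 0x0) (nat_lit 0x1000000000000100018001c000a00000000000000000) := T_6 (nat_lit 88) (nat_lit 71) (nat_lit 4) (nat_lit 4) (nat_lit 8) L48232 (by decide +kernel)
theorem L48234 : W_6 (nat_lit 6) (nat_lit 0x20001300134009a000c00020000000000000000000000) (nat_lit 0x0) (nat_lit 0x10000c0000000100018001c000a00000000000000000) := T_6 (nat_lit 155) (nat_lit 154) (nat_lit 2) (nat_lit 1) (nat_lit 9) L48233 (by decide +kernel)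
theorem L48235 : W_6 (nat_lit 7) (nat_lit 0x20001200134009a000c00020000000000000000000000) (nat_lit 0x0) (nat_lit 0x30001c0000000100018001c000a00000000000000000) := T_6 (nat_lit 156) (nat_lit 173) (nat_lit 5) (nat_lit 4) (nat_lit 6) L48234 (by decide +kernel)
theorem L48236 : W_6 (nat_lit 8) (nat_lit 0x20001200134009a000c00000000000000000000000000) (nat_lit 0x0) (nat_lit 0x30001c0000000100018003c001a00000000000000000) := T_6 (nat_lit 89) (nat_lit 72) (nat_lit 7) (nat_lit 4) (nat_lit 4) L48235 (by decide +kernel)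
theorem L48237 : W_6 (nat_lit 9) (nat_lit 0x20001200134009a000400000000000000000000000000) (nat_lit 0x0) (nat_lit 0x30001c0000000100098007c001a00000000000000000) := T_6 (nat_lit 107) (nat_lit 90) (nat_lit 6) (nat_lit 4) (nat_lit 9) L48236 (by decide +kernel)
theorem L48238 : W_6 (nat_lit 2) (nat_lit 0x20001380134009b000c80000000000000000000000000) (nat_lit 0x0) (nat_lit 0x100004000200000000000000000) := D_6 (nat_lit 86) (nat_lit 104) (nat_lit 69) (nat_lit 4) (nat_lit 2) (nat_lit 9) (nat_lit 7) (nat_lit 1) (nat_lit 4) (by decide +kernel)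
theorem L48239 : W_6 (nat_lit 3) (nat_lit 0x20001380134009b000c00000000000000000000000000) (nat_lit 0x0) (nat_lit 0x10000000000000000180004000200000000000000000) := T_6 (nat_lit 103) (nat_lit 172) (nat_lit 4) (nat_lit 2) (nat_lit 10) L48238 (by decide +kernel)
theorem L48240 : W_6 (nat_lit 4) (nat_lit 0x20001300134009b000c00000000000000000000000000) (nat_lit 0x0) (nat_lit 0x10000c00000000000180004000200000000000000000) := T_6 (nat_lit 155) (nat_lit 154) (nat_lit 2) (nat_lit 1) (nat_lit 9) L48239 (by decide +kernel)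
theorem L48241 : W_6 (nat_lit 5) (nat_lit 0x20001200134009b000c00000000000000000000000000) (nat_lit 0x0) (nat_lit 0x30001c00000000000180004000200000000000000000) := T_6 (nat_lit 156) (nat_lit 173) (nat_lit 5) (nat_lit 4) (nat_lit 6) L48240 (by decide +kernel)
theorem L48242 : W_6 (nat_lit 6) (nat_lit 0x20001200134009b000400000000000000000000000000) (nat_lit 0x0) (nat_lit 0x30001c00000000000980044000200000000000000000) := T_6 (nat_lit 107) (nat_lit 90) (nat_lit 6) (nat_lit 4) (nat_lit 9) L48241 (by decide +kernel)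
theorem L48243 : W_6 (nat_lit 7) (nat_lit 0x20001200134009a000400000000000000000000000000) (nat_lit 0x0) (nat_lit 0x30001c00080001000980044000200000000000000000) := T_6 (nat_lit 120) (nat_lit 139) (nat_lit 0) (nat_lit 5) (nat_lit 8) L48242 (by decide +kernel)
theorem L48244 : W_6 (nat_lit 2) (nat_lit 0x20001300134009a000400000000000000000000000000) (nat_lit 0x0) (nat_lit 0x80000000000020001000000000000000000) := D_6 (nat_lit 89) (nat_lit 72) (nat_lit 139) (nat_lit 7) (nat_lit 4) (nat_lit 4) (nat_lit 5) (nat_lit 4) (nat_lit 5) (by decide +kernel)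
theorem L48245 : W_6 (nat_lit 3) (nat_lit 0x20001200134009a000400000000000000000000000000) (nat_lit 0x0) (nat_lit 0x20001000080000000000020001000000000000000000) := T_6 (nat_lit 156) (nat_lit 173) (nat_lit 5) (nat_lit 4) (nat_lit 6) L48244 (by decide +kernel)
theorem L48246 : W_6 (nat_lit 10) (nat_lit 0x20001200134009a000000000000000000000000000000) (nat_lit 0x0) (nat_lit 0x30001c00080001000d8007c003a00000000000000000) := Q_6 (nat_lit 106) (C_6 L48225 (C_6 L48229 (C_6 L48237 (C_6 L48243 (C_6 L48245 N_6))))) (by decide +kernel)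
theorem L48247 : W_6 (nat_lit 2) (nat_lit 0x2c00128013c009a000000000000000000000000000000) (nat_lit 0x0) (nat_lit 0x100021000000000000000000000000000000000000000) := D_6 (nat_lit 176) (nat_lit 161) (nat_lit 156) (nat_lit 2) (nat_lit 4) (nat_lit 10) (nat_lit 0) (nat_lit 7) (nat_lit 10) (by decide +kernel)
theorem L48248 : W_6 (nat_lit 3) (nat_lit 0x2400128013c009a000000000000000000000000000000) (nat_lit 0x0) (nat_lit 0x1000180021000000000000000000000000000000000000000) := T_6 (nat_lit 175) (nat_lit 192) (nat_lit 7) (nat_lit 4) (nat_lit 7) L48247 (by decide +kernel)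
theorem L48249 : W_6 (nat_lit 4) (nat_lit 0x2000128013c009a000000000000000000000000000000) (nat_lit 0x0) (nat_lit 0x18001c0021000000000000000000000000000000000000000) := T_6 (nat_lit 174) (nat_lit 191) (nat_lit 6) (nat_lit 4) (nat_lit 11) L48248 (by decide +kernel)
theorem L48250 : W_6 (nat_lit 5) (nat_lit 0x2000120013c009a000000000000000000000000000000) (nat_lit 0x0) (nat_lit 0x18001c0021c00000000000000000000000000000000000000) := T_6 (nat_lit 155) (nat_lit 154) (nat_lit 1) (nat_lit 5) (nat_lit 8) L48249 (by decide +kernel)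
theorem L48251 : W_6 (nat_lit 6) (nat_lit 0x20001200134009a000000000000000000000000000000) (nat_lit 0x0) (nat_lit 0x18001c0021c00080001000000000000000000000000000000) := T_6 (nat_lit 139) (nat_lit 120) (nat_lit 0) (nat_lit 5) (nat_lit 8) L48250 (by decide +kernel)
theorem L48252 : W_6 (nat_lit 11) (nat_lit 0x20001000134009a000000000000000000000000000000) (nat_lit 0x0) (nat_lit 0x18001f0023c00080001000d8007c003a00000000000000000) := Q_6 (nat_lit 157) (C_6 L48223 (C_6 L48246 (C_6 L48251 N_6))) (by decide +kernel)
theorem L48253 : W_6 (nat_lit 2) (nat_lit 0x20001000134009a000800000000000000000000000000) (nat_lit 0x0) (nat_lit 0x2000000000000000040002000000000000000000) := D_6 (nat_lit 90) (nat_lit 157) (nat_lit 73) (nat_lit 5) (nat_lit 5) (nat_lit 5) (nat_lit 5) (nat_lit 5) (nat_lit 4) (by decide +kernel)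
theorem L48254 : W_6 (nat_lit 2) (nat_lit 0x2000108013c009a000c002f0000000000000000000000) (nat_lit 0x0) (nat_lit 0x3000008000000000000000000000) := D_6 (nat_lit 108) (nat_lit 109) (nat_lit 87) (nat_lit 3) (nat_lit 3) (nat_lit 5) (nat_lit 3) (nat_lit 2) (nat_lit 5) (by decide +kernel)
theorem L48255 : W_6 (nat_lit 3) (nat_lit 0x2000108013c009a000c002e0000000000000000000000) (nat_lit 0x0) (nat_lit 0x3000018000800000000000000000) := T_6 (nat_lit 88) (nat_lit 71) (nat_lit 4) (nat_lit 4) (nat_lit 8) L48254 (by decide +kernel)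
theorem L48256 : W_6 (nat_lit 4) (nat_lit 0x2000108013c009a000c000e0000000000000000000000) (nat_lit 0x0) (nat_lit 0x3000318000800000000000000000) := T_6 (nat_lit 93) (nat_lit 92) (nat_lit 1) (nat_lit 8) (nat_lit 5) L48255 (by decide +kernel)
theorem L48257 : W_6 (nat_lit 5) (nat_lit 0x2000108013c009a0008000e0000000000000000000000) (nat_lit 0x0) (nat_lit 0x1000000000003400318000800000000000000000) := T_6 (nat_lit 106) (nat_lit 156) (nat_lit 5) (nat_lit 4) (nat_lit 5) L48256 (by decide +kernel)
theorem L48258 : W_6 (nat_lit 6) (nat_lit 0x2000108013c009a0008000c0000000000000000000000) (nat_lit 0x0) (nat_lit 0x1000000000003400338001800000000000000000) := T_6 (nat_lit 89) (nat_lit 72) (nat_lit 4) (nat_lit 5) (nat_lit 8) L48257 (by decide +kernel)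
theorem L48259 : W_6 (nat_lit 7) (nat_lit 0x2000108013c009a000800040000000000000000000000) (nat_lit 0x0) (nat_lit 0x10000000000034003b8005800000000000000000) := T_6 (nat_lit 91) (nat_lit 74) (nat_lit 6) (nat_lit 5) (nat_lit 8) L48258 (by decide +kernel)
theorem L48260 : W_6 (nat_lit 8) (nat_lit 0x2000100013c009a000800040000000000000000000000) (nat_lit 0x0) (nat_lit 0x1c000000000034003b8005800000000000000000) := T_6 (nat_lit 155) (nat_lit 154) (nat_lit 1) (nat_lit 5) (nat_lit 8) L48259 (by decide +kernel)
theorem L48261 : W_6 (nat_lit 9) (nat_lit 0x2000100013c009a000800000000000000000000000000) (nat_lit 0x0) (nat_lit 0x1c000000000034003f8007800000000000000000) := T_6 (nat_lit 90) (nat_lit 73) (nat_lit 5) (nat_lit 5) (nat_lit 4) L48260 (by decide +kernel)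
theorem L48262 : W_6 (nat_lit 10) (nat_lit 0x20001000134009a000800000000000000000000000000) (nat_lit 0x0) (nat_lit 0x1c000a00000034003f8007800000000000000000) := T_6 (nat_lit 139) (nat_lit 137) (nat_lit 2) (nat_lit 1) (nat_lit 8) L48261 (by decide +kernel)
theorem L48263 : W_6 (nat_lit 2) (nat_lit 0x2600108013c009a000800000000000000000000000000) (nat_lit 0x0) (nat_lit 0x400010001000000000000000000000000000000000000000) := D_6 (nat_lit 190) (nat_lit 156) (nat_lit 172) (nat_lit 6) (nat_lit 3) (nat_lit 11) (nat_lit 7) (nat_lit 2) (nat_lit 7) (by decide +kernel)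
theorem L48264 : W_6 (nat_lit 3) (nat_lit 0x2600100013c009a000800000000000000000000000000) (nat_lit 0x0) (nat_lit 0x400010001c00000000000000000000000000000000000000) := T_6 (nat_lit 155) (nat_lit 154) (nat_lit 1) (nat_lit 5) (nat_lit 8) L48263 (by decide +kernel)
theorem L48265 : W_6 (nat_lit 4) (nat_lit 0x26001000134009a000800000000000000000000000000) (nat_lit 0x0) (nat_lit 0x400010001c000a0000000000000000000000000000000000) := T_6 (nat_lit 139) (nat_lit 137) (nat_lit 2) (nat_lit 1) (nat_lit 8) L48264 (by decide +kernel)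
theorem L48266 : W_6 (nat_lit 5) (nat_lit 0x22001000134009a000800000000000000000000000000) (nat_lit 0x0) (nat_lit 0x400050003c000a0000000000000000000000000000000000) := T_6 (nat_lit 174) (nat_lit 157) (nat_lit 6) (nat_lit 4) (nat_lit 10) L48265 (by decide +kernel)
theorem L48267 : W_6 (nat_lit 2) (nat_lit 0x10002f80108013c009a000800000000000000000000000000) (nat_lit 0x0) (nat_lit 0x100028000000000000000000000000000000000000000) := D_6 (nat_lit 176) (nat_lit 159) (nat_lit 161) (nat_lit 2) (nat_lit 3) (nat_lit 10) (nat_lit 2) (nat_lit 4) (nat_lit 10) (by decide +kernel)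
theorem L48268 : W_6 (nat_lit 3) (nat_lit 0x10002780108013c009a000800000000000000000000000000) (nat_lit 0x0) (nat_lit 0x2000180028000000000000000000000000000000000000000) := T_6 (nat_lit 175) (nat_lit 193) (nat_lit 3) (nat_lit 2) (nat_lit 10) L48267 (by decide +kernel)
theorem L48269 : W_6 (nat_lit 4) (nat_lit 0x2780108013c009a000800000000000000000000000000) (nat_lit 0x0) (nat_lit 0x3800180028000000000000000000000000000000000000000) := T_6 (nat_lit 192) (nat_lit 191) (nat_lit 3) (nat_lit 1) (nat_lit 10) L48268 (by decide +kernel)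
theorem L48270 : W_6 (nat_lit 5) (nat_lit 0x2700108013c009a000800000000000000000000000000) (nat_lit 0x0) (nat_lit 0x3900188028000000000000000000000000000000000000000) := T_6 (nat_lit 171) (nat_lit 188) (nat_lit 5) (nat_lit 2) (nat_lit 7) L48269 (by decide +kernel)
theorem L48271 : W_6 (nat_lit 6) (nat_lit 0x2600108013c009a000800000000000000000000000000) (nat_lit 0x0) (nat_lit 0x3d00198028000000000000000000000000000000000000000) := T_6 (nat_lit 172) (nat_lit 190) (nat_lit 7) (nat_lit 2) (nat_lit 7) L48270 (by decide +kernel)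
theorem L48272 : W_6 (nat_lit 7) (nat_lit 0x2600100013c009a000800000000000000000000000000) (nat_lit 0x0) (nat_lit 0x3d00198028c00000000000000000000000000000000000000) := T_6 (nat_lit 155) (nat_lit 154) (nat_lit 1) (nat_lit 5) (nat_lit 8) L48271 (by decide +kernel)
theorem L48273 : W_6 (nat_lit 8) (nat_lit 0x2200100013c009a000800000000000000000000000000) (nat_lit 0x0) (nat_lit 0x3d001d802ac00000000000000000000000000000000000000) := T_6 (nat_lit 174) (nat_lit 157) (nat_lit 6) (nat_lit 4) (nat_lit 10) L48272 (by decide +kernel)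
theorem L48274 : W_6 (nat_lit 9) (nat_lit 0x22001000134009a000800000000000000000000000000) (nat_lit 0x0) (nat_lit 0x3d001d802ac000a0000000000000000000000000000000000) := T_6 (nat_lit 139) (nat_lit 137) (nat_lit 2) (nat_lit 1) (nat_lit 8) L48273 (by decide +kernel)
theorem L48275 : W_6 (nat_lit 2) (nat_lit 0x22001300134009a000800000000000000000000000000) (nat_lit 0x0) (nat_lit 0xc00000000000100000000000000000000000000) := D_6 (nat_lit 155) (nat_lit 154) (nat_lit 104) (nat_lit 2) (nat_lit 1) (nat_lit 9) (nat_lit 7) (nat_lit 2) (nat_lit 6) (by decide +kernel)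
theorem L48276 : W_6 (nat_lit 3) (nat_lit 0x22001200134009a000800000000000000000000000000) (nat_lit 0x0) (nat_lit 0x1c00000000000500000000000000000000000000) := T_6 (nat_lit 156) (nat_lit 106) (nat_lit 5) (nat_lit 4) (nat_lit 6) L48275 (by decide +kernel)
theorem L48277 : W_6 (nat_lit 4) (nat_lit 0x22001000134009a000800000000000000000000000000) (nat_lit 0x0) (nat_lit 0x40003c00000000000500000000000000000000000000) := T_6 (nat_lit 157) (nat_lit 174) (nat_lit 6) (nat_lit 4) (nat_lit 10) L48276 (by decide +kernel)
theorem L48278 : W_6 (nat_lit 2) (nat_lit 0x2200108013c009a000800000000000000000000000000) (nat_lit 0x0) (nat_lit 0x400010001000000000000000000000000000000000000000) := D_6 (nat_lit 190) (nat_lit 156) (nat_lit 172) (nat_lit 6) (nat_lit 3) (nat_lit 11) (nat_lit 7) (nat_lit 2) (nat_lit 7) (by decide +kernel)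
theorem L48279 : W_6 (nat_lit 3) (nat_lit 0x2200100013c009a000800000000000000000000000000) (nat_lit 0x0) (nat_lit 0x400010001c00000000000000000000000000000000000000) := T_6 (nat_lit 155) (nat_lit 154) (nat_lit 1) (nat_lit 5) (nat_lit 8) L48278 (by decide +kernel)
theorem L48280 : W_6 (nat_lit 4) (nat_lit 0x22001000134009a000800000000000000000000000000) (nat_lit 0x0) (nat_lit 0x400010001c000a0000000000000000000000000000000000) := T_6 (nat_lit 139) (nat_lit 137) (nat_lit 2) (nat_lit 1) (nat_lit 8) L48279 (by decide +kernel)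
theorem L48281 : W_6 (nat_lit 2) (nat_lit 0x22001380136009a000800000000000000000000000000) (nat_lit 0x0) (nat_lit 0x8000400010000000000000000000000000000000000000000000) := D_6 (nat_lit 190) (nat_lit 207) (nat_lit 172) (nat_lit 6) (nat_lit 3) (nat_lit 12) (nat_lit 7) (nat_lit 2) (nat_lit 7) (by decide +kernel)
theorem L48282 : W_6 (nat_lit 3) (nat_lit 0x22001300136009a000800000000000000000000000000) (nat_lit 0x0) (nat_lit 0x8000400010000800000000000100000000000000000000000000) := T_6 (nat_lit 155) (nat_lit 104) (nat_lit 7) (nat_lit 2) (nat_lit 6) L48281 (by decide +kernel)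
theorem L48283 : W_6 (nat_lit 4) (nat_lit 0x22001200136009a000800000000000000000000000000) (nat_lit 0x0) (nat_lit 0x8000400010001800000000000500000000000000000000000000) := T_6 (nat_lit 156) (nat_lit 106) (nat_lit 5) (nat_lit 4) (nat_lit 6) L48282 (by decide +kernel)
theorem L48284 : W_6 (nat_lit 5) (nat_lit 0x22001000136009a000800000000000000000000000000) (nat_lit 0x0) (nat_lit 0x8000400050003800000000000500000000000000000000000000) := T_6 (nat_lit 157) (nat_lit 174) (nat_lit 6) (nat_lit 4) (nat_lit 10) L48283 (by decide +kernel)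
theorem L48285 : W_6 (nat_lit 6) (nat_lit 0x22001000134009a000800000000000000000000000000) (nat_lit 0x0) (nat_lit 0x80004000500038000a0000000500000000000000000000000000) := T_6 (nat_lit 137) (nat_lit 139) (nat_lit 2) (nat_lit 1) (nat_lit 8) L48284 (by decide +kernel)
theorem L48286 : W_6 (nat_lit 2) (nat_lit 0x2200120013c009a000800000000000000000000000000) (nat_lit 0x0) (nat_lit 0x400000001000000000000400000000000000000000000000) := D_6 (nat_lit 156) (nat_lit 106) (nat_lit 190) (nat_lit 5) (nat_lit 4) (nat_lit 6) (nat_lit 6) (nat_lit 3) (nat_lit 11) (by decide +kernel)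
theorem L48287 : W_6 (nat_lit 3) (nat_lit 0x22001200134009a000800000000000000000000000000) (nat_lit 0x0) (nat_lit 0x4000000010000a0000000400000000000000000000000000) := T_6 (nat_lit 139) (nat_lit 137) (nat_lit 2) (nat_lit 1) (nat_lit 8) L48286 (by decide +kernel)
theorem L48288 : W_6 (nat_lit 4) (nat_lit 0x22001000134009a000800000000000000000000000000) (nat_lit 0x0) (nat_lit 0x4000400030000a0000000400000000000000000000000000) := T_6 (nat_lit 157) (nat_lit 174) (nat_lit 6) (nat_lit 4) (nat_lit 10) L48287 (by decide +kernel)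
theorem L48289 : W_6 (nat_lit 10) (nat_lit 0x20001000134009a000800000000000000000000000000) (nat_lit 0x0) (nat_lit 0x8003d001f802bc000a0000000500000000000000000000000000) := Q_6 (nat_lit 173) (C_6 L48266 (C_6 L48274 (C_6 L48277 (C_6 L48280 (C_6 L48285 (C_6 L48288 N_6)))))) (by decide +kernel)
theorem L48290 : W_6 (nat_lit 11) (nat_lit 0x20001000134009a000000000000000000000000000000) (nat_lit 0x0) (nat_lit 0x8003d001f802bc000a0000003d003f8007800000000000000000) := Q_6 (nat_lit 107) (C_6 L48253 (C_6 L48262 (C_6 L48289 N_6))) (by decide +kernel)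
theorem L48291 : W_6 (nat_lit 12) (nat_lit 0x20001000130009a000000000000000000000000000000) (nat_lit 0x0) (nat_lit 0x18000e003f001fc02be000e0001003d803fc007a00000000000000000) := Q_6 (nat_lit 138) (C_6 L43670 (C_6 L48222 (C_6 L48252 (C_6 L48290 N_6)))) (by decide +kernel)
theorem L48292 : W_6 (nat_lit 12) (nat_lit 0x20001000130009a000000000000000000000000000000) (nat_lit 0x0) (nat_lit 0x600030001c000e0005001d800fc007e00000000000000000) := T_6 (nat_lit 122) (nat_lit 120) (nat_lit 3) (nat_lit 1) (nat_lit 7) L43718 (by decide +kernel)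
theorem L48293 : W_6 (nat_lit 3) (nat_lit 0x20001000130009a000000000000000000000000000000) (nat_lit 0x0) (nat_lit 0xe0005000000000000000000000000000000) := Q_6 (nat_lit 138) (C_6 L45413 (C_6 L43512 (C_6 L43670 (C_6 L45412 N_6)))) (by decide +kernel)
theorem L48294 : W_6 (nat_lit 2) (nat_lit 0x20001000130009a001800070000000000000000000000) (nat_lit 0x0) (nat_lit 0x2000080004000000000000000000) := D_6 (nat_lit 91) (nat_lit 74) (nat_lit 109) (nat_lit 6) (nat_lit 5) (nat_lit 8) (nat_lit 3) (nat_lit 3) (nat_lit 5) (by decide +kernel)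
theorem L48295 : W_6 (nat_lit 3) (nat_lit 0x20001000130009a001800060000000000000000000000) (nat_lit 0x0) (nat_lit 0x2000098004000000000000000000) := T_6 (nat_lit 88) (nat_lit 87) (nat_lit 3) (nat_lit 2) (nat_lit 5) L48294 (by decide +kernel)
theorem L48296 : W_6 (nat_lit 4) (nat_lit 0x20001000130009a001800040000000000000000000000) (nat_lit 0x0) (nat_lit 0x20000b8005000000000000000000) := T_6 (nat_lit 89) (nat_lit 72) (nat_lit 4) (nat_lit 5) (nat_lit 8) L48295 (by decide +kernel)
theorem L48297 : W_6 (nat_lit 5) (nat_lit 0x20001000130009a001800000000000000000000000000) (nat_lit 0x0) (nat_lit 0x20000f8007000000000000000000) := T_6 (nat_lit 90) (nat_lit 73) (nat_lit 5) (nat_lit 5) (nat_lit 4) L48296 (by decide +kernel)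
theorem L48298 : W_6 (nat_lit 6) (nat_lit 0x20001000130009a000800000000000000000000000000) (nat_lit 0x0) (nat_lit 0x40030000f8007000000000000000000) := T_6 (nat_lit 108) (nat_lit 122) (nat_lit 2) (nat_lit 2) (nat_lit 7) L48297 (by decide +kernel)
theorem L48299 : W_6 (nat_lit 2) (nat_lit 0x20001000134009a000800000000000000000000000000) (nat_lit 0x0) (nat_lit 0x20004001000000000000000000000000000) := D_6 (nat_lit 122) (nat_lit 108) (nat_lit 137) (nat_lit 2) (nat_lit 2) (nat_lit 7) (nat_lit 1) (nat_lit 5) (nat_lit 7) (by decide +kernel)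
theorem L48300 : W_6 (nat_lit 2) (nat_lit 0x2400108013c009e000900000000000000000000000000) (nat_lit 0x0) (nat_lit 0x20001000000000000000008000000000000000000000) := D_6 (nat_lit 156) (nat_lit 173) (nat_lit 87) (nat_lit 7) (nat_lit 2) (nat_lit 6) (nat_lit 7) (nat_lit 2) (nat_lit 5) (by decide +kernel)
theorem L48301 : W_6 (nat_lit 3) (nat_lit 0x2400108013c009e000800000000000000000000000000) (nat_lit 0x0) (nat_lit 0x20001000000000000180008000000000000000000000) := T_6 (nat_lit 104) (nat_lit 103) (nat_lit 0) (nat_lit 5) (nat_lit 7) L48300 (by decide +kernel)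
theorem L48302 : W_6 (nat_lit 4) (nat_lit 0x2400108013c009a000800000000000000000000000000) (nat_lit 0x0) (nat_lit 0x20001000000004001180008000000000000000000000) := T_6 (nat_lit 122) (nat_lit 108) (nat_lit 2) (nat_lit 2) (nat_lit 7) L48301 (by decide +kernel)
theorem L48303 : W_6 (nat_lit 5) (nat_lit 0x24001080134009a000800000000000000000000000000) (nat_lit 0x0) (nat_lit 0x20001400080004001180008000000000000000000000) := T_6 (nat_lit 139) (nat_lit 154) (nat_lit 1) (nat_lit 5) (nat_lit 8) L48302 (by decide +kernel)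
theorem L48304 : W_6 (nat_lit 6) (nat_lit 0x20001080134009a000800000000000000000000000000) (nat_lit 0x0) (nat_lit 0x60003400080004001180008000000000000000000000) := T_6 (nat_lit 174) (nat_lit 157) (nat_lit 6) (nat_lit 4) (nat_lit 10) L48303 (by decide +kernel)
theorem L48305 : W_6 (nat_lit 3) (nat_lit 0x20001080134009e000800000000000000000000000000) (nat_lit 0x0) (nat_lit 0x8000400080000000180000000000000000000000000) := T_6 (nat_lit 104) (nat_lit 103) (nat_lit 0) (nat_lit 5) (nat_lit 7) L47783 (by decide +kernel)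
theorem L48306 : W_6 (nat_lit 4) (nat_lit 0x20001080134009a000800000000000000000000000000) (nat_lit 0x0) (nat_lit 0x8000400080004001180000000000000000000000000) := T_6 (nat_lit 122) (nat_lit 108) (nat_lit 2) (nat_lit 2) (nat_lit 7) L48305 (by decide +kernel)
theorem L48307 : W_6 (nat_lit 2) (nat_lit 0x260010c0134009e000900000000000000000000000000) (nat_lit 0x0) (nat_lit 0x400090000000000000000000000000000000000000000000) := D_6 (nat_lit 172) (nat_lit 190) (nat_lit 175) (nat_lit 7) (nat_lit 2) (nat_lit 7) (nat_lit 0) (nat_lit 5) (nat_lit 10) (by decide +kernel)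
theorem L48308 : W_6 (nat_lit 3) (nat_lit 0x240010c0134009e000900000000000000000000000000) (nat_lit 0x0) (nat_lit 0x4000b0001000000000000000000000000000000000000000) := T_6 (nat_lit 173) (nat_lit 156) (nat_lit 7) (nat_lit 2) (nat_lit 6) L48307 (by decide +kernel)
theorem L48309 : W_6 (nat_lit 4) (nat_lit 0x24001080134009e000900000000000000000000000000) (nat_lit 0x0) (nat_lit 0x4000b8001400000000000000000000000000000000000000) := T_6 (nat_lit 154) (nat_lit 171) (nat_lit 5) (nat_lit 2) (nat_lit 6) L48308 (by decide +kernel)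
theorem L48310 : W_6 (nat_lit 5) (nat_lit 0x24001080134009e000800000000000000000000000000) (nat_lit 0x0) (nat_lit 0x4000b8001400000000000180000000000000000000000000) := T_6 (nat_lit 104) (nat_lit 103) (nat_lit 0) (nat_lit 5) (nat_lit 7) L48309 (by decide +kernel)
theorem L48311 : W_6 (nat_lit 6) (nat_lit 0x24001080134009a000800000000000000000000000000) (nat_lit 0x0) (nat_lit 0x4000b8001400000004001180000000000000000000000000) := T_6 (nat_lit 122) (nat_lit 108) (nat_lit 2) (nat_lit 2) (nat_lit 7) L48310 (by decide +kernel)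
theorem L48312 : W_6 (nat_lit 7) (nat_lit 0x20001080134009a000800000000000000000000000000) (nat_lit 0x0) (nat_lit 0x4000f8003400000004001180000000000000000000000000) := T_6 (nat_lit 174) (nat_lit 157) (nat_lit 6) (nat_lit 4) (nat_lit 10) L48311 (by decide +kernel)
theorem L48313 : W_6 (nat_lit 2) (nat_lit 0x200010c0134009a000800000000000000000000000000) (nat_lit 0x0) (nat_lit 0x40003000000000000000000000000000000000000000) := D_6 (nat_lit 157) (nat_lit 174) (nat_lit 156) (nat_lit 6) (nat_lit 4) (nat_lit 10) (nat_lit 2) (nat_lit 1) (nat_lit 9) (by decide +kernel)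
theorem L48314 : W_6 (nat_lit 3) (nat_lit 0x20001080134009a000800000000000000000000000000) (nat_lit 0x0) (nat_lit 0x40003400080000000000000000000000000000000000) := T_6 (nat_lit 154) (nat_lit 139) (nat_lit 1) (nat_lit 5) (nat_lit 8) L48313 (by decide +kernel)
theorem L48315 : W_6 (nat_lit 2) (nat_lit 0x24001180134009e000900008000a00000000000000000) (nat_lit 0x0) (nat_lit 0x400050000000000000) := D_6 (nat_lit 70) (nat_lit 52) (nat_lit 54) (nat_lit 4) (nat_lit 2) (nat_lit 7) (nat_lit 6) (nat_lit 2) (nat_lit 7) (by decide +kernel)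
theorem L48316 : W_6 (nat_lit 3) (nat_lit 0x24001180134009e000900008000200000000000000000) (nat_lit 0x0) (nat_lit 0x10000c00050000000000000) := T_6 (nat_lit 71) (nat_lit 88) (nat_lit 6) (nat_lit 2) (nat_lit 8) L48315 (by decide +kernel)
theorem L48317 : W_6 (nat_lit 4) (nat_lit 0x24001180134009e000900008000000000000000000000) (nat_lit 0x0) (nat_lit 0x14000e00050000000000000) := T_6 (nat_lit 69) (nat_lit 86) (nat_lit 4) (nat_lit 2) (nat_lit 8) L48316 (by decide +kernel)
theorem L48318 : W_6 (nat_lit 5) (nat_lit 0x24001180134009e000900000000000000000000000000) (nat_lit 0x0) (nat_lit 0x8000000000001c000e00050000000000000) := T_6 (nat_lit 87) (nat_lit 139) (nat_lit 7) (nat_lit 2) (nat_lit 5) L48317 (by decide +kernel)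
theorem L48319 : W_6 (nat_lit 6) (nat_lit 0x24001080134009e000900000000000000000000000000) (nat_lit 0x0) (nat_lit 0x2000100008000000000001c000e00050000000000000) := T_6 (nat_lit 156) (nat_lit 173) (nat_lit 7) (nat_lit 2) (nat_lit 6) L48318 (by decide +kernel)
theorem L48320 : W_6 (nat_lit 7) (nat_lit 0x24001080134009e000800000000000000000000000000) (nat_lit 0x0) (nat_lit 0x2000100008000000018001c000e00050000000000000) := T_6 (nat_lit 104) (nat_lit 103) (nat_lit 0) (nat_lit 5) (nat_lit 7) L48319 (by decide +kernel)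
theorem L48321 : W_6 (nat_lit 8) (nat_lit 0x24001080134009a000800000000000000000000000000) (nat_lit 0x0) (nat_lit 0x2000100008000400118001c000e00050000000000000) := T_6 (nat_lit 122) (nat_lit 108) (nat_lit 2) (nat_lit 2) (nat_lit 7) L48320 (by decide +kernel)
theorem L48322 : W_6 (nat_lit 9) (nat_lit 0x20001080134009a000800000000000000000000000000) (nat_lit 0x0) (nat_lit 0x6000300008000400118001c000e00050000000000000) := T_6 (nat_lit 174) (nat_lit 157) (nat_lit 6) (nat_lit 4) (nat_lit 10) L48321 (by decide +kernel)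
theorem L48323 : W_6 (nat_lit 10) (nat_lit 0x20001000134009a000800000000000000000000000000) (nat_lit 0x0) (nat_lit 0x4000f8003c0008000400118001c000e00050000000000000) := Q_6 (nat_lit 155) (C_6 L48304 (C_6 L48306 (C_6 L48312 (C_6 L48314 (C_6 L48322 N_6))))) (by decide +kernel)
theorem L48324 : W_6 (nat_lit 11) (nat_lit 0x20001000130009a000800000000000000000000000000) (nat_lit 0x0) (nat_lit 0x8003d001f802bc000e000400158001c000e00050000000000000) := Q_6 (nat_lit 138) (C_6 L48299 (C_6 L48289 (C_6 L48323 N_6))) (by decide +kernel)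
theorem L48325 : W_6 (nat_lit 12) (nat_lit 0x20001000130009a000000000000000000000000000000) (nat_lit 0x0) (nat_lit 0x8003d001f802bc000e0004003d800fc007e00050000000000000) := Q_6 (nat_lit 107) (C_6 L48298 (C_6 L47404 (C_6 L48324 N_6))) (by decide +kernel)
theorem L48326 : W_6 (nat_lit 13) (nat_lit 0x200010001300098000000000000000000000000000000) (nat_lit 0x0) (nat_lit 0x18000e003f001fc02be000e0007003d803fc007e00050000000000000) := Q_6 (nat_lit 121) (C_6 L47807 (C_6 L47457 (C_6 L48291 (C_6 L48292 (C_6 L48293 (C_6 L48325 N_6)))))) (by decide +kernel)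
theorem L48327 : W_6 (nat_lit 9) (nat_lit 0x20001000138009a000000000000000000000000000000) (nat_lit 0x0) (nat_lit 0x20001000000005001d800e8007400000000000000000) := T_6 (nat_lit 122) (nat_lit 120) (nat_lit 3) (nat_lit 1) (nat_lit 7) L43693 (by decide +kernel)
theorem L48328 : W_6 (nat_lit 4) (nat_lit 0x2000110013c009a000000020000000000000000000000) (nat_lit 0x0) (nat_lit 0xc0000000400018000c000000000000000000000) := T_6 (nat_lit 155) (nat_lit 154) (nat_lit 1) (nat_lit 5) (nat_lit 8) L47271 (by decide +kernel)
theorem L48329 : W_6 (nat_lit 5) (nat_lit 0x2000110013c009a000000000000000000000000000000) (nat_lit 0x0) (nat_lit 0xc0000000400058002c000000000000000000000) := T_6 (nat_lit 89) (nat_lit 106) (nat_lit 5) (nat_lit 4) (nat_lit 5) L48328 (by decide +kernel)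
theorem L48330 : W_6 (nat_lit 6) (nat_lit 0x20001100138009a000000000000000000000000000000) (nat_lit 0x0) (nat_lit 0xc0006000400058002c000000000000000000000) := T_6 (nat_lit 138) (nat_lit 137) (nat_lit 2) (nat_lit 1) (nat_lit 8) L48329 (by decide +kernel)
theorem L48331 : W_6 (nat_lit 2) (nat_lit 0x22001100138009a000000000000000000000000000000) (nat_lit 0x0) (nat_lit 0x4000400020000000000000000000000) := D_6 (nat_lit 106) (nat_lit 89) (nat_lit 122) (nat_lit 5) (nat_lit 4) (nat_lit 5) (nat_lit 6) (nat_lit 3) (nat_lit 10) (by decide +kernel)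
theorem L48332 : W_6 (nat_lit 3) (nat_lit 0x20001100138009a000000000000000000000000000000) (nat_lit 0x0) (nat_lit 0x400020000000000004000400020000000000000000000000) := T_6 (nat_lit 173) (nat_lit 190) (nat_lit 6) (nat_lit 3) (nat_lit 11) L48331 (by decide +kernel)
theorem L48333 : W_6 (nat_lit 2) (nat_lit 0x2200110013c009a000000020000000000000000000000) (nat_lit 0x0) (nat_lit 0x800000000000100008000000000000000000000) := D_6 (nat_lit 104) (nat_lit 87) (nat_lit 155) (nat_lit 7) (nat_lit 2) (nat_lit 5) (nat_lit 7) (nat_lit 2) (nat_lit 6) (by decide +kernel)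
theorem L48334 : W_6 (nat_lit 3) (nat_lit 0x2000110013c009a000000020000000000000000000000) (nat_lit 0x0) (nat_lit 0x400020000800000000000100008000000000000000000000) := T_6 (nat_lit 173) (nat_lit 190) (nat_lit 6) (nat_lit 3) (nat_lit 11) L48333 (by decide +kernel)
theorem L48335 : W_6 (nat_lit 4) (nat_lit 0x20001100138009a000000020000000000000000000000) (nat_lit 0x0) (nat_lit 0x400020000800060000000100008000000000000000000000) := T_6 (nat_lit 138) (nat_lit 137) (nat_lit 2) (nat_lit 1) (nat_lit 8) L48334 (by decide +kernel)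
theorem L48336 : W_6 (nat_lit 5) (nat_lit 0x20001100138009a000000000000000000000000000000) (nat_lit 0x0) (nat_lit 0x400020000800060000000500028000000000000000000000) := T_6 (nat_lit 89) (nat_lit 106) (nat_lit 5) (nat_lit 4) (nat_lit 5) L48335 (by decide +kernel)
theorem L48337 : W_6 (nat_lit 5) (nat_lit 0x2000110013c009a000000000000000000000000000000) (nat_lit 0x0) (nat_lit 0x400020000c0000000400018000c000000000000000000000) := T_6 (nat_lit 190) (nat_lit 173) (nat_lit 6) (nat_lit 3) (nat_lit 11) L47283 (by decide +kernel)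
theorem L48338 : W_6 (nat_lit 6) (nat_lit 0x20001100138009a000000000000000000000000000000) (nat_lit 0x0) (nat_lit 0x400020000c0006000400018000c000000000000000000000) := T_6 (nat_lit 138) (nat_lit 137) (nat_lit 2) (nat_lit 1) (nat_lit 8) L48337 (by decide +kernel)
theorem L48339 : W_6 (nat_lit 7) (nat_lit 0x20001000138009a000000000000000000000000000000) (nat_lit 0x0) (nat_lit 0x400020001c0006000400058002c000000000000000000000) := Q_6 (nat_lit 156) (C_6 L48330 (C_6 L48332 (C_6 L48336 (C_6 L48338 N_6)))) (by decide +kernel)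
theorem L48340 : W_6 (nat_lit 10) (nat_lit 0x200010001380098000000000000000000000000000000) (nat_lit 0x0) (nat_lit 0x400020001c00060007001d800ec007400000000000000000) := Q_6 (nat_lit 121) (C_6 L45419 (C_6 L48327 (C_6 L48339 N_6))) (by decide +kernel)
theorem L48341 : W_6 (nat_lit 12) (nat_lit 0x200010001300098000000000000000000000000000000) (nat_lit 0x0) (nat_lit 0x2400120029c008e0367003d803fc00fc00000000000000000) := Q_6 (nat_lit 139) (C_6 L45312 (C_6 L46802 (C_6 L48340 N_6))) (by decide +kernel)
theorem L48342 : W_6 (nat_lit 2) (nat_lit 0x4003c00100013800d8000000000000000000000000000000) (nat_lit 0x0) (nat_lit 0x200020001000000000000000000000000000000000000000) := D_6 (nat_lit 173) (nat_lit 189) (nat_lit 156) (nat_lit 1) (nat_lit 6) (nat_lit 10) (nat_lit 6) (nat_lit 3) (nat_lit 11) (by decide +kernel)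
theorem L48343 : W_6 (nat_lit 3) (nat_lit 0x3c00100013800d8000000000000000000000000000000) (nat_lit 0x0) (nat_lit 0xe00020001000000000000000000000000000000000000000) := T_6 (nat_lit 190) (nat_lit 191) (nat_lit 1) (nat_lit 7) (nat_lit 10) L48342 (by decide +kernel)
theorem L48344 : W_6 (nat_lit 4) (nat_lit 0x3400100013800d8000000000000000000000000000000) (nat_lit 0x0) (nat_lit 0xe000a0021000000000000000000000000000000000000000) := T_6 (nat_lit 175) (nat_lit 161) (nat_lit 2) (nat_lit 4) (nat_lit 10) L48343 (by decide +kernel)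
theorem L48345 : W_6 (nat_lit 5) (nat_lit 0x340010001380098000000000000000000000000000000) (nat_lit 0x0) (nat_lit 0xe000a0021000000060000000000000000000000000000000) := T_6 (nat_lit 126) (nat_lit 125) (nat_lit 1) (nat_lit 7) (nat_lit 7) L48344 (by decide +kernel)
theorem L48346 : W_6 (nat_lit 7) (nat_lit 0x240010001380098000000000000000000000000000000) (nat_lit 0x0) (nat_lit 0x2e001a002900080006000300018000c000000000000000000) := Q_6 (nat_lit 176) (C_6 L46470 (C_6 L46465 (C_6 L48345 N_6))) (by decide +kernel)
theorem L48347 : W_6 (nat_lit 8) (nat_lit 0x200010001380098000000000000000000000000000000) (nat_lit 0x0) (nat_lit 0x3e001e002b00080006000380018000c000000000000000000) := Q_6 (nat_lit 174) (C_6 L48346 (C_6 L47828 (C_6 L47206 (C_6 L47234 (C_6 L46450 N_6))))) (by decide +kernel)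
theorem L48348 : W_6 (nat_lit 2) (nat_lit 0x2000128013c009e000900000000000000000000000000) (nat_lit 0x0) (nat_lit 0x20001000000000000000008000000000000000000000) := D_6 (nat_lit 156) (nat_lit 173) (nat_lit 87) (nat_lit 7) (nat_lit 2) (nat_lit 6) (nat_lit 7) (nat_lit 2) (nat_lit 5) (by decide +kernel)
theorem L48349 : W_6 (nat_lit 3) (nat_lit 0x2000128013c009e000800000000000000000000000000) (nat_lit 0x0) (nat_lit 0x20001000000000000180008000000000000000000000) := T_6 (nat_lit 104) (nat_lit 103) (nat_lit 0) (nat_lit 5) (nat_lit 7) L48348 (by decide +kernel)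
theorem L48350 : W_6 (nat_lit 4) (nat_lit 0x2000128013c009a000800000000000000000000000000) (nat_lit 0x0) (nat_lit 0x20001000000004001180008000000000000000000000) := T_6 (nat_lit 122) (nat_lit 108) (nat_lit 2) (nat_lit 2) (nat_lit 7) L48349 (by decide +kernel)
theorem L48351 : W_6 (nat_lit 5) (nat_lit 0x2000128013c0098000800000000000000000000000000) (nat_lit 0x0) (nat_lit 0x20001000000007001180008000000000000000000000) := T_6 (nat_lit 121) (nat_lit 120) (nat_lit 0) (nat_lit 5) (nat_lit 8) L48350 (by decide +kernel)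
theorem L48352 : W_6 (nat_lit 6) (nat_lit 0x2000120013c0098000800000000000000000000000000) (nat_lit 0x0) (nat_lit 0x20001c00000007001180008000000000000000000000) := T_6 (nat_lit 155) (nat_lit 154) (nat_lit 1) (nat_lit 5) (nat_lit 8) L48351 (by decide +kernel)
theorem L48353 : W_6 (nat_lit 7) (nat_lit 0x2000120013c0098000000000000000000000000000000) (nat_lit 0x0) (nat_lit 0x20001c00000007001980048000000000000000000000) := T_6 (nat_lit 107) (nat_lit 90) (nat_lit 5) (nat_lit 5) (nat_lit 5) L48352 (by decide +kernel)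
theorem L48354 : W_6 (nat_lit 8) (nat_lit 0x200012001380098000000000000000000000000000000) (nat_lit 0x0) (nat_lit 0x20001c00060007001980048000000000000000000000) := T_6 (nat_lit 138) (nat_lit 137) (nat_lit 2) (nat_lit 1) (nat_lit 8) L48353 (by decide +kernel)
theorem L48355 : W_6 (nat_lit 2) (nat_lit 0x2c00120013a0098000000000000000000000000000000) (nat_lit 0x0) (nat_lit 0x100021000000000000000000000000000000000000000) := D_6 (nat_lit 176) (nat_lit 161) (nat_lit 156) (nat_lit 2) (nat_lit 4) (nat_lit 10) (nat_lit 0) (nat_lit 7) (nat_lit 10) (by decide +kernel)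
theorem L48356 : W_6 (nat_lit 3) (nat_lit 0x2400120013a0098000000000000000000000000000000) (nat_lit 0x0) (nat_lit 0x1000180021000000000000000000000000000000000000000) := T_6 (nat_lit 175) (nat_lit 192) (nat_lit 7) (nat_lit 4) (nat_lit 7) L48355 (by decide +kernel)
theorem L48357 : W_6 (nat_lit 4) (nat_lit 0x2000120013a0098000000000000000000000000000000) (nat_lit 0x0) (nat_lit 0x18001c0021000000000000000000000000000000000000000) := T_6 (nat_lit 174) (nat_lit 191) (nat_lit 6) (nat_lit 4) (nat_lit 11) L48356 (by decide +kernel)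
theorem L48358 : W_6 (nat_lit 5) (nat_lit 0x200012001380098000000000000000000000000000000) (nat_lit 0x0) (nat_lit 0x18001c0021000060000000000000000000000000000000000) := T_6 (nat_lit 137) (nat_lit 138) (nat_lit 2) (nat_lit 1) (nat_lit 8) L48357 (by decide +kernel)
theorem L48359 : W_6 (nat_lit 9) (nat_lit 0x200010001380098000000000000000000000000000000) (nat_lit 0x0) (nat_lit 0x18001e0023c00060007001980048000000000000000000000) := Q_6 (nat_lit 157) (C_6 L48354 (C_6 L46486 (C_6 L48358 N_6))) (by decide +kernel)
theorem L48360 : W_6 (nat_lit 10) (nat_lit 0x200010001300098000000000000000000000000000000) (nat_lit 0x0) (nat_lit 0x3e001e002bc008e00670039801c800c000000000000000000) := Q_6 (nat_lit 139) (C_6 L48347 (C_6 L45312 (C_6 L48359 N_6))) (by decide +kernel)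
theorem L48361 : W_6 (nat_lit 2) (nat_lit 0x200010001380098000800000000000000000000000000) (nat_lit 0x0) (nat_lit 0x40060000000000000000000000000000000) := D_6 (nat_lit 125) (nat_lit 126) (nat_lit 138) (nat_lit 1) (nat_lit 7) (nat_lit 7) (nat_lit 2) (nat_lit 2) (nat_lit 8) (by decide +kernel)
theorem L48362 : W_6 (nat_lit 2) (nat_lit 0x200010001380098000c00000000000000000000000000) (nat_lit 0x0) (nat_lit 0x1000000000000000020001000000000000000000) := D_6 (nat_lit 89) (nat_lit 72) (nat_lit 156) (nat_lit 7) (nat_lit 4) (nat_lit 4) (nat_lit 5) (nat_lit 4) (nat_lit 5) (by decide +kernel)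
theorem L48363 : W_6 (nat_lit 7) (nat_lit 0x200010001380098000800000000000000000000000000) (nat_lit 0x0) (nat_lit 0x2000100029000800060003400120009000000000000000000) := Q_6 (nat_lit 106) (C_6 L45136 (C_6 L48362 N_6)) (by decide +kernel)
theorem L48364 : W_6 (nat_lit 2) (nat_lit 0x2400108013c009e000900000000000000000000000000) (nat_lit 0x0) (nat_lit 0x1000000000000000008000400000000000000000) := D_6 (nat_lit 87) (nat_lit 70) (nat_lit 156) (nat_lit 7) (nat_lit 2) (nat_lit 4) (nat_lit 7) (nat_lit 2) (nat_lit 5) (by decide +kernel)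
theorem L48365 : W_6 (nat_lit 3) (nat_lit 0x2400108013c009e000800000000000000000000000000) (nat_lit 0x0) (nat_lit 0x1000000000000180008000400000000000000000) := T_6 (nat_lit 104) (nat_lit 103) (nat_lit 0) (nat_lit 5) (nat_lit 7) L48364 (by decide +kernel)
theorem L48366 : W_6 (nat_lit 4) (nat_lit 0x2400108013c009a000800000000000000000000000000) (nat_lit 0x0) (nat_lit 0x1000000004001180008000400000000000000000) := T_6 (nat_lit 122) (nat_lit 108) (nat_lit 2) (nat_lit 2) (nat_lit 7) L48365 (by decide +kernel)
theorem L48367 : W_6 (nat_lit 5) (nat_lit 0x2400108013c0098000800000000000000000000000000) (nat_lit 0x0) (nat_lit 0x1000000007001180008000400000000000000000) := T_6 (nat_lit 121) (nat_lit 120) (nat_lit 0) (nat_lit 5) (nat_lit 8) L48366 (by decide +kernel)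
theorem L48368 : W_6 (nat_lit 6) (nat_lit 0x2400100013c0098000800000000000000000000000000) (nat_lit 0x0) (nat_lit 0x1c00000007001180008000400000000000000000) := T_6 (nat_lit 155) (nat_lit 154) (nat_lit 1) (nat_lit 5) (nat_lit 8) L48367 (by decide +kernel)
theorem L48369 : W_6 (nat_lit 7) (nat_lit 0x2000100013c0098000800000000000000000000000000) (nat_lit 0x0) (nat_lit 0x40003c00000007001180008000400000000000000000) := T_6 (nat_lit 174) (nat_lit 157) (nat_lit 6) (nat_lit 4) (nat_lit 10) L48368 (by decide +kernel)
theorem L48370 : W_6 (nat_lit 8) (nat_lit 0x200010001380098000800000000000000000000000000) (nat_lit 0x0) (nat_lit 0x40003c00060007001180008000400000000000000000) := T_6 (nat_lit 138) (nat_lit 137) (nat_lit 2) (nat_lit 1) (nat_lit 8) L48369 (by decide +kernel)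
theorem L48371 : W_6 (nat_lit 9) (nat_lit 0x200010001300098000800000000000000000000000000) (nat_lit 0x0) (nat_lit 0x200014002bc008e0067003580128009400000000000000000) := Q_6 (nat_lit 139) (C_6 L48361 (C_6 L48363 (C_6 L48370 N_6))) (by decide +kernel)
theorem L48372 : W_6 (nat_lit 11) (nat_lit 0x200010001300098000000000000000000000000000000) (nat_lit 0x0) (nat_lit 0x200014002bc008e0067003d803fc00fc00000000000000000) := Q_6 (nat_lit 107) (C_6 L45167 (C_6 L46172 (C_6 L48371 N_6))) (by decide +kernel)
theorem L48373 : W_6 (nat_lit 14) (nat_lit 0x200010001300088000000000000000000000000000000) (nat_lit 0x0) (nat_lit 0x18000e003f801fc0ebe008e0377003d803fc01fe00050000000000000) := Q_6 (nat_lit 124) (C_6 L46771 (C_6 L48326 (C_6 L45883 (C_6 L46981 (C_6 L46446 (C_6 L48341 (C_6 L47288 (C_6 L48360 (C_6 L47867 (C_6 L48372 N_6)))))))))) (by decide +kernel)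
theorem L48374 : W_6 (nat_lit 2) (nat_lit 0x20001200138009e000900008000000000000000000000) (nat_lit 0x0) (nat_lit 0x1000000000000200010000000000000000000000) := D_6 (nat_lit 105) (nat_lit 88) (nat_lit 156) (nat_lit 7) (nat_lit 3) (nat_lit 5) (nat_lit 4) (nat_lit 3) (nat_lit 9) (by decide +kernel)
theorem L48375 : W_6 (nat_lit 3) (nat_lit 0x20001200138009e000900000000000000000000000000) (nat_lit 0x0) (nat_lit 0x1000000000000200018000400000000000000000) := T_6 (nat_lit 87) (nat_lit 70) (nat_lit 7) (nat_lit 2) (nat_lit 4) L48374 (by decide +kernel)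
theorem L48376 : W_6 (nat_lit 4) (nat_lit 0x20001000138009e000900000000000000000000000000) (nat_lit 0x0) (nat_lit 0x40003000000000000200018000400000000000000000) := T_6 (nat_lit 157) (nat_lit 174) (nat_lit 6) (nat_lit 4) (nat_lit 10) L48375 (by decide +kernel)
theorem L48377 : W_6 (nat_lit 5) (nat_lit 0x20001000138009e000800000000000000000000000000) (nat_lit 0x0) (nat_lit 0x40003000000000000380018000400000000000000000) := T_6 (nat_lit 104) (nat_lit 103) (nat_lit 0) (nat_lit 5) (nat_lit 7) L48376 (by decide +kernel)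
theorem L48378 : W_6 (nat_lit 6) (nat_lit 0x20001000138009e000000000000000000000000000000) (nat_lit 0x0) (nat_lit 0x40003000000000001b80018000400000000000000000) := T_6 (nat_lit 107) (nat_lit 108) (nat_lit 2) (nat_lit 2) (nat_lit 7) L48377 (by decide +kernel)
theorem L48379 : W_6 (nat_lit 7) (nat_lit 0x20001000138009c000000000000000000000000000000) (nat_lit 0x0) (nat_lit 0x40003000000003001b80018000400000000000000000) := T_6 (nat_lit 121) (nat_lit 120) (nat_lit 3) (nat_lit 1) (nat_lit 7) L48378 (by decide +kernel)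
theorem L48380 : W_6 (nat_lit 8) (nat_lit 0x200010001380098000000000000000000000000000000) (nat_lit 0x0) (nat_lit 0x40003000000067003b80018000c00000000000000000) := Q_6 (nat_lit 122) (C_6 L47374 (C_6 L45417 (C_6 L48379 N_6))) (by decide +kernel)
theorem L48381 : W_6 (nat_lit 2) (nat_lit 0x2000108013c009e000100000000000000000000000000) (nat_lit 0x0) (nat_lit 0x1000000000000000008000400000000000000000) := D_6 (nat_lit 87) (nat_lit 70) (nat_lit 156) (nat_lit 7) (nat_lit 2) (nat_lit 4) (nat_lit 7) (nat_lit 2) (nat_lit 5) (by decide +kernel)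
theorem L48382 : W_6 (nat_lit 3) (nat_lit 0x2000108013c009e000000000000000000000000000000) (nat_lit 0x0) (nat_lit 0x1000000000000180008000400000000000000000) := T_6 (nat_lit 104) (nat_lit 103) (nat_lit 0) (nat_lit 5) (nat_lit 7) L48381 (by decide +kernel)
theorem L48383 : W_6 (nat_lit 4) (nat_lit 0x2000100013c009e000000000000000000000000000000) (nat_lit 0x0) (nat_lit 0x1c00000000000180008000400000000000000000) := T_6 (nat_lit 155) (nat_lit 154) (nat_lit 1) (nat_lit 5) (nat_lit 8) L48382 (by decide +kernel)
theorem L48384 : W_6 (nat_lit 5) (nat_lit 0x2000100013c009c000000000000000000000000000000) (nat_lit 0x0) (nat_lit 0x1c00000003000180008000400000000000000000) := T_6 (nat_lit 121) (nat_lit 120) (nat_lit 3) (nat_lit 1) (nat_lit 7) L48383 (by decide +kernel)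
theorem L48385 : W_6 (nat_lit 6) (nat_lit 0x20001000138009c000000000000000000000000000000) (nat_lit 0x0) (nat_lit 0x1c00060003000180008000400000000000000000) := T_6 (nat_lit 138) (nat_lit 137) (nat_lit 2) (nat_lit 1) (nat_lit 8) L48384 (by decide +kernel)
theorem L48386 : W_6 (nat_lit 8) (nat_lit 0x200010001380098000000000000000000000000000000) (nat_lit 0x0) (nat_lit 0x200050003c00060007001b80018000400000000000000000) := Q_6 (nat_lit 122) (C_6 L47202 (C_6 L48379 (C_6 L44971 (C_6 L48385 N_6)))) (by decide +kernel)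
theorem L48387 : W_6 (nat_lit 9) (nat_lit 0x200010001300098000000000000000000000000000000) (nat_lit 0x0) (nat_lit 0x200050003c000e0067003b80018000c00000000000000000) := Q_6 (nat_lit 139) (C_6 L45312 (C_6 L48380 (C_6 L48386 N_6))) (by decide +kernel)
theorem L48388 : W_6 (nat_lit 12) (nat_lit 0x200010001300098000000000000000000000000000000) (nat_lit 0x0) (nat_lit 0x8000e003f001fc02bc008e0067003e001b000c000000000000000000) := Q_6 (nat_lit 139) (C_6 L48347 (C_6 L47357 (C_6 L45312 N_6))) (by decide +kernel)
theorem L48389 : W_6 (nat_lit 14) (nat_lit 0x200010001300088000000000000000000000000000000) (nat_lit 0x0) (nat_lit 0x8000e003f801fc02be008e0077003f801bc00fe00040000000000000) := Q_6 (nat_lit 124) (C_6 L46776 (C_6 L47151 (C_6 L47909 (C_6 L46516 (C_6 L46988 (C_6 L47108 (C_6 L47204 (C_6 L47288 (C_6 L48387 (C_6 L48388 N_6)))))))))) (by decide +kernel)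
theorem L48390 : W_6 (nat_lit 2) (nat_lit 0x2400108013c009a000c00034000000000000000000000) (nat_lit 0x0) (nat_lit 0x4000300000000000000000000000000) := D_6 (nat_lit 105) (nat_lit 122) (nat_lit 104) (nat_lit 5) (nat_lit 3) (nat_lit 5) (nat_lit 6) (nat_lit 2) (nat_lit 9) (by decide +kernel)
theorem L48391 : W_6 (nat_lit 3) (nat_lit 0x2400100013c009a000c00034000000000000000000000) (nat_lit 0x0) (nat_lit 0xc00000004000300000000000000000000000000) := T_6 (nat_lit 155) (nat_lit 154) (nat_lit 1) (nat_lit 5) (nat_lit 8) L48390 (by decide +kernel)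
theorem L48392 : W_6 (nat_lit 4) (nat_lit 0x2400100013c0098000c00034000000000000000000000) (nat_lit 0x0) (nat_lit 0xc00000007000300000000000000000000000000) := T_6 (nat_lit 121) (nat_lit 120) (nat_lit 0) (nat_lit 5) (nat_lit 8) L48391 (by decide +kernel)
theorem L48393 : W_6 (nat_lit 5) (nat_lit 0x240010001380098000c00034000000000000000000000) (nat_lit 0x0) (nat_lit 0xc00060007000300000000000000000000000000) := T_6 (nat_lit 138) (nat_lit 137) (nat_lit 2) (nat_lit 1) (nat_lit 8) L48392 (by decide +kernel)
theorem L48394 : W_6 (nat_lit 6) (nat_lit 0x240010001300098000c00034000000000000000000000) (nat_lit 0x0) (nat_lit 0x1c000e0007000300000000000000000000000000) := T_6 (nat_lit 139) (nat_lit 156) (nat_lit 5) (nat_lit 4) (nat_lit 5) L48393 (by decide +kernel)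
theorem L48395 : W_6 (nat_lit 7) (nat_lit 0x240010001300098000c00030000000000000000000000) (nat_lit 0x0) (nat_lit 0x1c000e000700030000c000000000000000000000) := T_6 (nat_lit 86) (nat_lit 87) (nat_lit 3) (nat_lit 1) (nat_lit 5) L48394 (by decide +kernel)
theorem L48396 : W_6 (nat_lit 8) (nat_lit 0x240010001300098000c00020000000000000000000000) (nat_lit 0x0) (nat_lit 0x1c000e000700030001c000800000000000000000) := T_6 (nat_lit 88) (nat_lit 71) (nat_lit 4) (nat_lit 4) (nat_lit 8) L48395 (by decide +kernel)
theorem L48397 : W_6 (nat_lit 9) (nat_lit 0x240010001300098000c00000000000000000000000000) (nat_lit 0x0) (nat_lit 0x1c000e000700030003c001800000000000000000) := T_6 (nat_lit 89) (nat_lit 72) (nat_lit 7) (nat_lit 4) (nat_lit 4) L48396 (by decide +kernel)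
theorem L48398 : W_6 (nat_lit 10) (nat_lit 0x200010001300098000c00000000000000000000000000) (nat_lit 0x0) (nat_lit 0x40003c000e000700030003c001800000000000000000) := T_6 (nat_lit 174) (nat_lit 157) (nat_lit 6) (nat_lit 4) (nat_lit 10) L48397 (by decide +kernel)
theorem L48399 : W_6 (nat_lit 11) (nat_lit 0x200010001300098000800000000000000000000000000) (nat_lit 0x0) (nat_lit 0x200050003c000e00470037803bc001800000000000000000) := Q_6 (nat_lit 106) (C_6 L45967 (C_6 L45351 (C_6 L48398 (C_6 L45344 (C_6 L45333 N_6))))) (by decide +kernel)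
theorem L48400 : W_6 (nat_lit 12) (nat_lit 0x200010001300098000000000000000000000000000000) (nat_lit 0x0) (nat_lit 0x200050003c000e0047003f803fc007800000000000000000) := Q_6 (nat_lit 107) (C_6 L45167 (C_6 L45323 (C_6 L48399 N_6))) (by decide +kernel)
theorem L48401 : W_6 (nat_lit 12) (nat_lit 0x200010001300098000000000000000000000000000000) (nat_lit 0x0) (nat_lit 0x200014002bc008e0067003f807e803f400000000000000000) := Q_6 (nat_lit 107) (C_6 L45167 (C_6 L48371 (C_6 L46194 N_6))) (by decide +kernel)
theorem L48402 : W_6 (nat_lit 14) (nat_lit 0x200010001300088000000000000000000000000000000) (nat_lit 0x0) (nat_lit 0x3a001d002bc008e0077003fc07fe03fe00000000000000000) := Q_6 (nat_lit 124) (C_6 L46751 (C_6 L48400 (C_6 L45793 (C_6 L46203 (C_6 L46399 (C_6 L45415 (C_6 L48387 (C_6 L48372 (C_6 L48401 (C_6 L45563 (C_6 L46552 N_6))))))))))) (by decide +kernel)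
theorem L48403 : W_6 (nat_lit 2) (nat_lit 0x21001380134008b000000000000000000000000000000) (nat_lit 0x0) (nat_lit 0x400020000000000000000100000000000000000000000000) := D_6 (nat_lit 173) (nat_lit 104) (nat_lit 190) (nat_lit 7) (nat_lit 2) (nat_lit 6) (nat_lit 7) (nat_lit 2) (nat_lit 7) (by decide +kernel)
theorem L48404 : W_6 (nat_lit 3) (nat_lit 0x20001380134008b000000000000000000000000000000) (nat_lit 0x0) (nat_lit 0x400030000000000000000180000000000000000000000000) := T_6 (nat_lit 172) (nat_lit 103) (nat_lit 4) (nat_lit 2) (nat_lit 10) L48403 (by decide +kernel)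
theorem L48405 : W_6 (nat_lit 4) (nat_lit 0x20001380130008b000000000000000000000000000000) (nat_lit 0x0) (nat_lit 0x4000300000000c0000000180000000000000000000000000) := T_6 (nat_lit 138) (nat_lit 139) (nat_lit 0) (nat_lit 5) (nat_lit 8) L48404 (by decide +kernel)
theorem L48406 : W_6 (nat_lit 5) (nat_lit 0x20001380130008a000000000000000000000000000000) (nat_lit 0x0) (nat_lit 0x4000300000000c0005000180000000000000000000000000) := T_6 (nat_lit 120) (nat_lit 122) (nat_lit 3) (nat_lit 1) (nat_lit 7) L48405 (by decide +kernel)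
theorem L48407 : W_6 (nat_lit 6) (nat_lit 0x20001300130008a000000000000000000000000000000) (nat_lit 0x0) (nat_lit 0x400030000c000c0005000180000000000000000000000000) := T_6 (nat_lit 155) (nat_lit 154) (nat_lit 2) (nat_lit 1) (nat_lit 9) L48406 (by decide +kernel)
theorem L48408 : W_6 (nat_lit 4) (nat_lit 0x20001300130008e000000000000000000000000000000) (nat_lit 0x0) (nat_lit 0x400030000c00080000000300010000000000000000000000) := Q_6 (nat_lit 139) (C_6 L47718 (C_6 L47716 N_6)) (by decide +kernel)
theorem L48409 : W_6 (nat_lit 5) (nat_lit 0x20001300130008a000000000000000000000000000000) (nat_lit 0x0) (nat_lit 0x400030000c00080005000300010000000000000000000000) := T_6 (nat_lit 122) (nat_lit 120) (nat_lit 3) (nat_lit 1) (nat_lit 7) L48408 (by decide +kernel)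
theorem L48410 : W_6 (nat_lit 2) (nat_lit 0x20001300130009e000000000000000000000000000000) (nat_lit 0x0) (nat_lit 0x1800040000000000000000000000) := D_6 (nat_lit 107) (nat_lit 90) (nat_lit 108) (nat_lit 5) (nat_lit 5) (nat_lit 5) (nat_lit 2) (nat_lit 2) (nat_lit 7) (by decide +kernel)
theorem L48411 : W_6 (nat_lit 2) (nat_lit 0x20001340130009e000100000000000000000000000000) (nat_lit 0x0) (nat_lit 0x60000200000000000000000000000000) := D_6 (nat_lit 125) (nat_lit 126) (nat_lit 105) (nat_lit 1) (nat_lit 8) (nat_lit 7) (nat_lit 0) (nat_lit 6) (nat_lit 7) (by decide +kernel)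
theorem L48412 : W_6 (nat_lit 3) (nat_lit 0x20001340130009e000000000000000000000000000000) (nat_lit 0x0) (nat_lit 0x60000380000000000000000000000000) := T_6 (nat_lit 104) (nat_lit 103) (nat_lit 0) (nat_lit 5) (nat_lit 7) L48411 (by decide +kernel)
theorem L48413 : W_6 (nat_lit 4) (nat_lit 0x20001300130009e000000000000000000000000000000) (nat_lit 0x0) (nat_lit 0xc00000060000380000000000000000000000000) := T_6 (nat_lit 154) (nat_lit 155) (nat_lit 2) (nat_lit 1) (nat_lit 9) L48412 (by decide +kernel)
theorem L48414 : W_6 (nat_lit 5) (nat_lit 0x20001300130008e000000000000000000000000000000) (nat_lit 0x0) (nat_lit 0xc00000070001b80040000000000000000000000) := Q_6 (nat_lit 124) (C_6 L48410 (C_6 L48413 N_6)) (by decide +kernel)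
theorem L48415 : W_6 (nat_lit 6) (nat_lit 0x20001300130008a000000000000000000000000000000) (nat_lit 0x0) (nat_lit 0xc00000075001b80040000000000000000000000) := T_6 (nat_lit 122) (nat_lit 120) (nat_lit 3) (nat_lit 1) (nat_lit 7) L48414 (by decide +kernel)
theorem L48416 : W_6 (nat_lit 2) (nat_lit 0x22001300130008a000000000000000000000000000000) (nat_lit 0x0) (nat_lit 0x8000400000000000080000000000000000000000000000000000) := D_6 (nat_lit 190) (nat_lit 207) (nat_lit 139) (nat_lit 6) (nat_lit 3) (nat_lit 12) (nat_lit 6) (nat_lit 3) (nat_lit 11) (by decide +kernel)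
theorem L48417 : W_6 (nat_lit 2) (nat_lit 0x40022001380130008a000000000000000000000000000000) (nat_lit 0x0) (nat_lit 0x10000000040000000100000000000000000000000000) := D_6 (nat_lit 138) (nat_lit 104) (nat_lit 172) (nat_lit 7) (nat_lit 2) (nat_lit 6) (nat_lit 7) (nat_lit 2) (nat_lit 7) (by decide +kernel)
theorem L48418 : W_6 (nat_lit 3) (nat_lit 0x22001380130008a000000000000000000000000000000) (nat_lit 0x0) (nat_lit 0x8000400010000000040000000100000000000000000000000000) := T_6 (nat_lit 190) (nat_lit 207) (nat_lit 6) (nat_lit 3) (nat_lit 12) L48417 (by decide +kernel)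
theorem L48419 : W_6 (nat_lit 4) (nat_lit 0x22001300130008a000000000000000000000000000000) (nat_lit 0x0) (nat_lit 0x8000400010000c00040000000100000000000000000000000000) := T_6 (nat_lit 155) (nat_lit 154) (nat_lit 2) (nat_lit 1) (nat_lit 9) L48418 (by decide +kernel)
theorem L48420 : W_6 (nat_lit 2) (nat_lit 0x2200138013c008a000000000000000000000000000000) (nat_lit 0x0) (nat_lit 0x30010000000000000000000000000000000) := D_6 (nat_lit 137) (nat_lit 136) (nat_lit 124) (nat_lit 3) (nat_lit 0) (nat_lit 8) (nat_lit 2) (nat_lit 1) (nat_lit 8) (by decide +kernel)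
theorem L48421 : W_6 (nat_lit 3) (nat_lit 0x22001380134008a000000000000000000000000000000) (nat_lit 0x0) (nat_lit 0xb0011000000000000000000000000000000) := T_6 (nat_lit 139) (nat_lit 120) (nat_lit 0) (nat_lit 5) (nat_lit 8) L48420 (by decide +kernel)
theorem L48422 : W_6 (nat_lit 4) (nat_lit 0x22001380130008a000000000000000000000000000000) (nat_lit 0x0) (nat_lit 0xf0011000100000000000000000000000000) := T_6 (nat_lit 138) (nat_lit 104) (nat_lit 7) (nat_lit 2) (nat_lit 6) L48421 (by decide +kernel)
theorem L48423 : W_6 (nat_lit 5) (nat_lit 0x22001300130008a000000000000000000000000000000) (nat_lit 0x0) (nat_lit 0xc000f0011000100000000000000000000000000) := T_6 (nat_lit 155) (nat_lit 154) (nat_lit 2) (nat_lit 1) (nat_lit 9) L48422 (by decide +kernel)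
theorem L48424 : W_6 (nat_lit 6) (nat_lit 0x20001300130008a000000000000000000000000000000) (nat_lit 0x0) (nat_lit 0x8000400030000c000f0011000100000000000000000000000000) := Q_6 (nat_lit 173) (C_6 L48416 (C_6 L48419 (C_6 L48423 N_6))) (by decide +kernel)
theorem L48425 : W_6 (nat_lit 2) (nat_lit 0x20001300134009e000000000000000000000000000000) (nat_lit 0x0) (nat_lit 0x80060000000000000000000000000000000) := D_6 (nat_lit 125) (nat_lit 126) (nat_lit 139) (nat_lit 1) (nat_lit 8) (nat_lit 7) (nat_lit 2) (nat_lit 2) (nat_lit 8) (by decide +kernel)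
theorem L48426 : W_6 (nat_lit 3) (nat_lit 0x20001300130009e000000000000000000000000000000) (nat_lit 0x0) (nat_lit 0xe0060000000000000000000000000000000) := T_6 (nat_lit 138) (nat_lit 137) (nat_lit 1) (nat_lit 5) (nat_lit 7) L48425 (by decide +kernel)
theorem L48427 : W_6 (nat_lit 4) (nat_lit 0x20001300130008e000000000000000000000000000000) (nat_lit 0x0) (nat_lit 0xe0070001800040000000000000000000000) := Q_6 (nat_lit 124) (C_6 L48410 (C_6 L48426 N_6)) (by decide +kernel)
theorem L48428 : W_6 (nat_lit 5) (nat_lit 0x20001300130008a000000000000000000000000000000) (nat_lit 0x0) (nat_lit 0xe0075001800040000000000000000000000) := T_6 (nat_lit 122) (nat_lit 120) (nat_lit 3) (nat_lit 1) (nat_lit 7) L48427 (by decide +kernel)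
theorem L48429 : W_6 (nat_lit 2) (nat_lit 0x2000134013400be000000040000000000000000000000) (nat_lit 0x0) (nat_lit 0x380000000000000000000000000) := D_6 (nat_lit 104) (nat_lit 103) (nat_lit 105) (nat_lit 0) (nat_lit 5) (nat_lit 7) (nat_lit 0) (nat_lit 6) (nat_lit 7) (by decide +kernel)
theorem L48430 : W_6 (nat_lit 3) (nat_lit 0x2000134013400ba000000040000000000000000000000) (nat_lit 0x0) (nat_lit 0x20004000380000000000000000000000000) := T_6 (nat_lit 122) (nat_lit 137) (nat_lit 1) (nat_lit 5) (nat_lit 7) L48429 (by decide +kernel)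
theorem L48431 : W_6 (nat_lit 4) (nat_lit 0x2000134013000ba000000040000000000000000000000) (nat_lit 0x0) (nat_lit 0xe0004000380000000000000000000000000) := T_6 (nat_lit 138) (nat_lit 139) (nat_lit 2) (nat_lit 2) (nat_lit 8) L48430 (by decide +kernel)
theorem L48432 : W_6 (nat_lit 5) (nat_lit 0x20001340130009a000000040000000000000000000000) (nat_lit 0x0) (nat_lit 0xe0064000380000000000000000000000000) := T_6 (nat_lit 125) (nat_lit 126) (nat_lit 1) (nat_lit 8) (nat_lit 7) L48431 (by decide +kernel)
theorem L48433 : W_6 (nat_lit 6) (nat_lit 0x20001340130009a000000000000000000000000000000) (nat_lit 0x0) (nat_lit 0xe0064000b80040000000000000000000000) := T_6 (nat_lit 90) (nat_lit 107) (nat_lit 5) (nat_lit 5) (nat_lit 5) L48432 (by decide +kernel)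
theorem L48434 : W_6 (nat_lit 7) (nat_lit 0x20001300130009a000000000000000000000000000000) (nat_lit 0x0) (nat_lit 0xc000e0064000b80040000000000000000000000) := T_6 (nat_lit 154) (nat_lit 155) (nat_lit 2) (nat_lit 1) (nat_lit 9) L48433 (by decide +kernel)
theorem L48435 : W_6 (nat_lit 2) (nat_lit 0x2000134013800de000900000000000000000000000000) (nat_lit 0x0) (nat_lit 0x200018000000000000000000000) := D_6 (nat_lit 105) (nat_lit 87) (nat_lit 88) (nat_lit 4) (nat_lit 3) (nat_lit 9) (nat_lit 7) (nat_lit 3) (nat_lit 5) (by decide +kernel)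
theorem L48436 : W_6 (nat_lit 3) (nat_lit 0x2000134013000de000900000000000000000000000000) (nat_lit 0x0) (nat_lit 0x20000000080000000200018000000000000000000000) := T_6 (nat_lit 139) (nat_lit 173) (nat_lit 4) (nat_lit 3) (nat_lit 10) L48435 (by decide +kernel)
theorem L48437 : W_6 (nat_lit 4) (nat_lit 0x2000134013000de000800000000000000000000000000) (nat_lit 0x0) (nat_lit 0x20000000080000000380018000000000000000000000) := T_6 (nat_lit 104) (nat_lit 103) (nat_lit 0) (nat_lit 5) (nat_lit 7) L48436 (by decide +kernel)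
theorem L48438 : W_6 (nat_lit 5) (nat_lit 0x2000134013000da000800000000000000000000000000) (nat_lit 0x0) (nat_lit 0x20000000080004001380018000000000000000000000) := T_6 (nat_lit 122) (nat_lit 108) (nat_lit 2) (nat_lit 2) (nat_lit 7) L48437 (by decide +kernel)
theorem L48439 : W_6 (nat_lit 6) (nat_lit 0x2000134013000da000000000000000000000000000000) (nat_lit 0x0) (nat_lit 0x20000000080004001b80058000000000000000000000) := T_6 (nat_lit 107) (nat_lit 90) (nat_lit 5) (nat_lit 5) (nat_lit 5) L48438 (by decide +kernel)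
theorem L48440 : W_6 (nat_lit 7) (nat_lit 0x2000130013000da000000000000000000000000000000) (nat_lit 0x0) (nat_lit 0x20000c00080004001b80058000000000000000000000) := T_6 (nat_lit 154) (nat_lit 155) (nat_lit 2) (nat_lit 1) (nat_lit 9) L48439 (by decide +kernel)
theorem L48441 : W_6 (nat_lit 8) (nat_lit 0x20001300130009a000000000000000000000000000000) (nat_lit 0x0) (nat_lit 0x20000c00080064001b80058000000000000000000000) := T_6 (nat_lit 126) (nat_lit 125) (nat_lit 1) (nat_lit 8) (nat_lit 7) L48440 (by decide +kernel)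
theorem L48442 : W_6 (nat_lit 2) (nat_lit 0x2000130013400de000900000000000000000000000000) (nat_lit 0x0) (nat_lit 0x20000c00000000000000000000000000000000000000) := D_6 (nat_lit 155) (nat_lit 154) (nat_lit 173) (nat_lit 2) (nat_lit 1) (nat_lit 9) (nat_lit 7) (nat_lit 2) (nat_lit 6) (by decide +kernel)
theorem L48443 : W_6 (nat_lit 3) (nat_lit 0x2000130013000de000900000000000000000000000000) (nat_lit 0x0) (nat_lit 0x20000c00060000000000000000000000000000000000) := T_6 (nat_lit 138) (nat_lit 137) (nat_lit 1) (nat_lit 5) (nat_lit 7) L48442 (by decide +kernel)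
theorem L48444 : W_6 (nat_lit 4) (nat_lit 0x2000130013000de000800000000000000000000000000) (nat_lit 0x0) (nat_lit 0x20000c00060000000180000000000000000000000000) := T_6 (nat_lit 104) (nat_lit 103) (nat_lit 0) (nat_lit 5) (nat_lit 7) L48443 (by decide +kernel)
theorem L48445 : W_6 (nat_lit 5) (nat_lit 0x2000130013000da000800000000000000000000000000) (nat_lit 0x0) (nat_lit 0x20000c00060004001180000000000000000000000000) := T_6 (nat_lit 122) (nat_lit 108) (nat_lit 2) (nat_lit 2) (nat_lit 7) L48444 (by decide +kernel)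
theorem L48446 : W_6 (nat_lit 6) (nat_lit 0x20001300130009a000800000000000000000000000000) (nat_lit 0x0) (nat_lit 0x20000c00060064001180000000000000000000000000) := T_6 (nat_lit 126) (nat_lit 125) (nat_lit 1) (nat_lit 8) (nat_lit 7) L48445 (by decide +kernel)
theorem L48447 : W_6 (nat_lit 7) (nat_lit 0x20001300130009a000000000000000000000000000000) (nat_lit 0x0) (nat_lit 0x20000c00060064001980040000000000000000000000) := T_6 (nat_lit 107) (nat_lit 90) (nat_lit 5) (nat_lit 5) (nat_lit 5) L48446 (by decide +kernel)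
theorem L48448 : W_6 (nat_lit 2) (nat_lit 0x2000138013400ba000100054000000000000000000000) (nat_lit 0x0) (nat_lit 0x8000a00000000000000000) := D_6 (nat_lit 87) (nat_lit 69) (nat_lit 71) (nat_lit 4) (nat_lit 2) (nat_lit 8) (nat_lit 6) (nat_lit 2) (nat_lit 8) (by decide +kernel)
theorem L48449 : W_6 (nat_lit 3) (nat_lit 0x2000138013400ba000100044000000000000000000000) (nat_lit 0x0) (nat_lit 0x200018000a00000000000000000) := T_6 (nat_lit 88) (nat_lit 105) (nat_lit 6) (nat_lit 2) (nat_lit 9) L48448 (by decide +kernel)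
theorem L48450 : W_6 (nat_lit 4) (nat_lit 0x2000138013400ba000100040000000000000000000000) (nat_lit 0x0) (nat_lit 0x28001c000a00000000000000000) := T_6 (nat_lit 86) (nat_lit 103) (nat_lit 4) (nat_lit 2) (nat_lit 9) L48449 (by decide +kernel)
theorem L48451 : W_6 (nat_lit 5) (nat_lit 0x2000138013400ba000000040000000000000000000000) (nat_lit 0x0) (nat_lit 0x2000000000000000038001c000a00000000000000000) := T_6 (nat_lit 104) (nat_lit 173) (nat_lit 7) (nat_lit 2) (nat_lit 6) L48450 (by decide +kernel)
theorem L48452 : W_6 (nat_lit 6) (nat_lit 0x2000138013000ba000000040000000000000000000000) (nat_lit 0x0) (nat_lit 0x200000000c000000038001c000a00000000000000000) := T_6 (nat_lit 138) (nat_lit 139) (nat_lit 2) (nat_lit 2) (nat_lit 8) L48451 (by decide +kernel)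
theorem L48453 : W_6 (nat_lit 7) (nat_lit 0x2000138013000ba000000000000000000000000000000) (nat_lit 0x0) (nat_lit 0x200000000c0000000b8005c000a00000000000000000) := T_6 (nat_lit 90) (nat_lit 107) (nat_lit 5) (nat_lit 5) (nat_lit 5) L48452 (by decide +kernel)
theorem L48454 : W_6 (nat_lit 8) (nat_lit 0x20001380130009a000000000000000000000000000000) (nat_lit 0x0) (nat_lit 0x200000000c0060000b8005c000a00000000000000000) := T_6 (nat_lit 125) (nat_lit 126) (nat_lit 1) (nat_lit 8) (nat_lit 7) L48453 (by decide +kernel)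
theorem L48455 : W_6 (nat_lit 9) (nat_lit 0x20001300130009a000000000000000000000000000000) (nat_lit 0x0) (nat_lit 0x20000c000c0060000b8005c000a00000000000000000) := T_6 (nat_lit 155) (nat_lit 154) (nat_lit 2) (nat_lit 1) (nat_lit 9) L48454 (by decide +kernel)
theorem L48456 : W_6 (nat_lit 2) (nat_lit 0x20001340134009e000900000000000000000000000000) (nat_lit 0x0) (nat_lit 0x20000000080000000000008000000000000000000000) := D_6 (nat_lit 139) (nat_lit 173) (nat_lit 87) (nat_lit 4) (nat_lit 3) (nat_lit 10) (nat_lit 7) (nat_lit 2) (nat_lit 5) (by decide +kernel)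
theorem L48457 : W_6 (nat_lit 3) (nat_lit 0x20001340130009e000900000000000000000000000000) (nat_lit 0x0) (nat_lit 0x200000000e0000000000008000000000000000000000) := T_6 (nat_lit 138) (nat_lit 137) (nat_lit 1) (nat_lit 5) (nat_lit 7) L48456 (by decide +kernel)
theorem L48458 : W_6 (nat_lit 4) (nat_lit 0x20001340130009e000800000000000000000000000000) (nat_lit 0x0) (nat_lit 0x200000000e0000000180008000000000000000000000) := T_6 (nat_lit 104) (nat_lit 103) (nat_lit 0) (nat_lit 5) (nat_lit 7) L48457 (by decide +kernel)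
theorem L48459 : W_6 (nat_lit 5) (nat_lit 0x20001340130009a000800000000000000000000000000) (nat_lit 0x0) (nat_lit 0x200000000e0004001180008000000000000000000000) := T_6 (nat_lit 122) (nat_lit 108) (nat_lit 2) (nat_lit 2) (nat_lit 7) L48458 (by decide +kernel)
theorem L48460 : W_6 (nat_lit 6) (nat_lit 0x20001340130009a000000000000000000000000000000) (nat_lit 0x0) (nat_lit 0x200000000e0004001980048000000000000000000000) := T_6 (nat_lit 107) (nat_lit 90) (nat_lit 5) (nat_lit 5) (nat_lit 5) L48459 (by decide +kernel)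
theorem L48461 : W_6 (nat_lit 7) (nat_lit 0x20001300130009a000000000000000000000000000000) (nat_lit 0x0) (nat_lit 0x20000c000e0004001980048000000000000000000000) := T_6 (nat_lit 154) (nat_lit 155) (nat_lit 2) (nat_lit 1) (nat_lit 9) L48460 (by decide +kernel)
theorem L48462 : W_6 (nat_lit 2) (nat_lit 0x2000134013400be000000000000000000000000000000) (nat_lit 0x0) (nat_lit 0x380000000000000000000000000) := D_6 (nat_lit 104) (nat_lit 103) (nat_lit 105) (nat_lit 0) (nat_lit 5) (nat_lit 7) (nat_lit 0) (nat_lit 6) (nat_lit 7) (by decide +kernel)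
theorem L48463 : W_6 (nat_lit 3) (nat_lit 0x2000134013400ba000000000000000000000000000000) (nat_lit 0x0) (nat_lit 0x20004000380000000000000000000000000) := T_6 (nat_lit 122) (nat_lit 137) (nat_lit 1) (nat_lit 5) (nat_lit 7) L48462 (by decide +kernel)
theorem L48464 : W_6 (nat_lit 4) (nat_lit 0x2000134013000ba000000000000000000000000000000) (nat_lit 0x0) (nat_lit 0xe0004000380000000000000000000000000) := T_6 (nat_lit 138) (nat_lit 139) (nat_lit 2) (nat_lit 2) (nat_lit 8) L48463 (by decide +kernel)
theorem L48465 : W_6 (nat_lit 5) (nat_lit 0x2000130013000ba000000000000000000000000000000) (nat_lit 0x0) (nat_lit 0xc000e0004000380000000000000000000000000) := T_6 (nat_lit 154) (nat_lit 155) (nat_lit 2) (nat_lit 1) (nat_lit 9) L48464 (by decide +kernel)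
theorem L48466 : W_6 (nat_lit 6) (nat_lit 0x20001300130009a000000000000000000000000000000) (nat_lit 0x0) (nat_lit 0xc000e0064000380000000000000000000000000) := T_6 (nat_lit 125) (nat_lit 126) (nat_lit 1) (nat_lit 8) (nat_lit 7) L48465 (by decide +kernel)
theorem L48467 : W_6 (nat_lit 2) (nat_lit 0x2000130013400de000900000000000000000000000000) (nat_lit 0x0) (nat_lit 0x20000800080000000000000000000000000000000000) := D_6 (nat_lit 173) (nat_lit 139) (nat_lit 155) (nat_lit 4) (nat_lit 3) (nat_lit 10) (nat_lit 7) (nat_lit 2) (nat_lit 6) (by decide +kernel)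
theorem L48468 : W_6 (nat_lit 3) (nat_lit 0x2000130013000de000900000000000000000000000000) (nat_lit 0x0) (nat_lit 0x200008000e0000000000000000000000000000000000) := T_6 (nat_lit 138) (nat_lit 137) (nat_lit 1) (nat_lit 5) (nat_lit 7) L48467 (by decide +kernel)
theorem L48469 : W_6 (nat_lit 4) (nat_lit 0x2000130013000de000800000000000000000000000000) (nat_lit 0x0) (nat_lit 0x200008000e0000000180000000000000000000000000) := T_6 (nat_lit 104) (nat_lit 103) (nat_lit 0) (nat_lit 5) (nat_lit 7) L48468 (by decide +kernel)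
theorem L48470 : W_6 (nat_lit 5) (nat_lit 0x2000130013000da000800000000000000000000000000) (nat_lit 0x0) (nat_lit 0x200008000e0004001180000000000000000000000000) := T_6 (nat_lit 122) (nat_lit 108) (nat_lit 2) (nat_lit 2) (nat_lit 7) L48469 (by decide +kernel)
theorem L48471 : W_6 (nat_lit 6) (nat_lit 0x2000130013000da000000000000000000000000000000) (nat_lit 0x0) (nat_lit 0x200008000e0004001980040000000000000000000000) := T_6 (nat_lit 107) (nat_lit 90) (nat_lit 5) (nat_lit 5) (nat_lit 5) L48470 (by decide +kernel)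
theorem L48472 : W_6 (nat_lit 7) (nat_lit 0x20001300130009a000000000000000000000000000000) (nat_lit 0x0) (nat_lit 0x200008000e0064001980040000000000000000000000) := T_6 (nat_lit 126) (nat_lit 125) (nat_lit 1) (nat_lit 8) (nat_lit 7) L48471 (by decide +kernel)
theorem L48473 : W_6 (nat_lit 2) (nat_lit 0x2000130013400be000000040000000000000000000000) (nat_lit 0x0) (nat_lit 0x380000000000000000000000000) := D_6 (nat_lit 104) (nat_lit 103) (nat_lit 105) (nat_lit 0) (nat_lit 5) (nat_lit 7) (nat_lit 0) (nat_lit 6) (nat_lit 7) (by decide +kernel)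
theorem L48474 : W_6 (nat_lit 3) (nat_lit 0x2000130013400ba000000040000000000000000000000) (nat_lit 0x0) (nat_lit 0x20004000380000000000000000000000000) := T_6 (nat_lit 122) (nat_lit 137) (nat_lit 1) (nat_lit 5) (nat_lit 7) L48473 (by decide +kernel)
theorem L48475 : W_6 (nat_lit 4) (nat_lit 0x2000130013000ba000000040000000000000000000000) (nat_lit 0x0) (nat_lit 0xe0004000380000000000000000000000000) := T_6 (nat_lit 138) (nat_lit 139) (nat_lit 2) (nat_lit 2) (nat_lit 8) L48474 (by decide +kernel)
theorem L48476 : W_6 (nat_lit 5) (nat_lit 0x20001300130009a000000040000000000000000000000) (nat_lit 0x0) (nat_lit 0xe0064000380000000000000000000000000) := T_6 (nat_lit 125) (nat_lit 126) (nat_lit 1) (nat_lit 8) (nat_lit 7) L48475 (by decide +kernel)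
theorem L48477 : W_6 (nat_lit 6) (nat_lit 0x20001300130009a000000000000000000000000000000) (nat_lit 0x0) (nat_lit 0xe0064000b80040000000000000000000000) := T_6 (nat_lit 90) (nat_lit 107) (nat_lit 5) (nat_lit 5) (nat_lit 5) L48476 (by decide +kernel)
theorem L48478 : W_6 (nat_lit 2) (nat_lit 0x2002100138013400de000800000000000000000000000000) (nat_lit 0x0) (nat_lit 0x8000400020000000000000000000000000000000000000000000) := D_6 (nat_lit 190) (nat_lit 207) (nat_lit 173) (nat_lit 7) (nat_lit 2) (nat_lit 8) (nat_lit 7) (nat_lit 2) (nat_lit 7) (by decide +kernel)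
theorem L48479 : W_6 (nat_lit 3) (nat_lit 0x2100138013400de000800000000000000000000000000) (nat_lit 0x0) (nat_lit 0x8000600020000000080000000000000000000000000000000000) := T_6 (nat_lit 189) (nat_lit 139) (nat_lit 6) (nat_lit 2) (nat_lit 11) L48478 (by decide +kernel)
theorem L48480 : W_6 (nat_lit 4) (nat_lit 0x2000138013400de000800000000000000000000000000) (nat_lit 0x0) (nat_lit 0x8000600030000000080000000200000000000000000000000000) := T_6 (nat_lit 172) (nat_lit 105) (nat_lit 6) (nat_lit 2) (nat_lit 10) L48479 (by decide +kernel)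
theorem L48481 : W_6 (nat_lit 5) (nat_lit 0x2000138013000de000800000000000000000000000000) (nat_lit 0x0) (nat_lit 0x80006000300000000e0000000200000000000000000000000000) := T_6 (nat_lit 138) (nat_lit 137) (nat_lit 1) (nat_lit 5) (nat_lit 7) L48480 (by decide +kernel)
theorem L48482 : W_6 (nat_lit 6) (nat_lit 0x2000138013000da000800000000000000000000000000) (nat_lit 0x0) (nat_lit 0x80006000300000000e0004001200000000000000000000000000) := T_6 (nat_lit 122) (nat_lit 108) (nat_lit 2) (nat_lit 2) (nat_lit 7) L48481 (by decide +kernel)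
theorem L48483 : W_6 (nat_lit 7) (nat_lit 0x2000138013000da000000000000000000000000000000) (nat_lit 0x0) (nat_lit 0x80006000300000000e0004001a00040000000000000000000000) := T_6 (nat_lit 107) (nat_lit 90) (nat_lit 5) (nat_lit 5) (nat_lit 5) L48482 (by decide +kernel)
theorem L48484 : W_6 (nat_lit 8) (nat_lit 0x2000130013000da000000000000000000000000000000) (nat_lit 0x0) (nat_lit 0x8000600030000c000e0004001a00040000000000000000000000) := T_6 (nat_lit 155) (nat_lit 154) (nat_lit 2) (nat_lit 1) (nat_lit 9) L48483 (by decide +kernel)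
theorem L48485 : W_6 (nat_lit 9) (nat_lit 0x20001300130009a000000000000000000000000000000) (nat_lit 0x0) (nat_lit 0x8000600030000c000e0064001a00040000000000000000000000) := T_6 (nat_lit 126) (nat_lit 125) (nat_lit 1) (nat_lit 8) (nat_lit 7) L48484 (by decide +kernel)
theorem L48486 : W_6 (nat_lit 10) (nat_lit 0x20001300130008a000000000000000000000000000000) (nat_lit 0x0) (nat_lit 0x8000600030000c000e0074001b8005c000a00000000000000000) := Q_6 (nat_lit 124) (C_6 L48434 (C_6 L48441 (C_6 L48447 (C_6 L48455 (C_6 L48461 (C_6 L48466 (C_6 L48472 (C_6 L48477 (C_6 L48485 N_6))))))))) (by decide +kernel)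
theorem L48487 : W_6 (nat_lit 11) (nat_lit 0x200013001300088000000000000000000000000000000) (nat_lit 0x0) (nat_lit 0x8000600030000c000f0077001b8005c000a00000000000000000) := Q_6 (nat_lit 121) (C_6 L48407 (C_6 L48409 (C_6 L48415 (C_6 L48424 (C_6 L48428 (C_6 L48486 N_6)))))) (by decide +kernel)
theorem L48488 : W_6 (nat_lit 2) (nat_lit 0x220013401300088000000000000000000000000000000) (nat_lit 0x0) (nat_lit 0x8000400000000000080000000000000000000000000000000000) := D_6 (nat_lit 190) (nat_lit 207) (nat_lit 139) (nat_lit 6) (nat_lit 3) (nat_lit 12) (nat_lit 6) (nat_lit 3) (nat_lit 11) (by decide +kernel)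
theorem L48489 : W_6 (nat_lit 3) (nat_lit 0x200013401300088000000000000000000000000000000) (nat_lit 0x0) (nat_lit 0x8000400020000000080000000400000000000000000000000000) := T_6 (nat_lit 173) (nat_lit 106) (nat_lit 5) (nat_lit 4) (nat_lit 6) L48488 (by decide +kernel)
theorem L48490 : W_6 (nat_lit 4) (nat_lit 0x200013001300088000000000000000000000000000000) (nat_lit 0x0) (nat_lit 0x8000400020000c00080000000400000000000000000000000000) := T_6 (nat_lit 154) (nat_lit 155) (nat_lit 2) (nat_lit 1) (nat_lit 9) L48489 (by decide +kernel)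
theorem L48491 : W_6 (nat_lit 2) (nat_lit 0x2000130013000e8000c00000000000000000000000000) (nat_lit 0x0) (nat_lit 0x800000003000000000000000000000000000) := D_6 (nat_lit 108) (nat_lit 109) (nat_lit 143) (nat_lit 3) (nat_lit 4) (nat_lit 6) (nat_lit 4) (nat_lit 7) (nat_lit 10) (by decide +kernel)
theorem L48492 : W_6 (nat_lit 3) (nat_lit 0x2000130013000e8000400000000000000000000000000) (nat_lit 0x0) (nat_lit 0x800000003800040000000000000000000000) := T_6 (nat_lit 107) (nat_lit 90) (nat_lit 6) (nat_lit 4) (nat_lit 9) L48491 (by decide +kernel)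
theorem L48493 : W_6 (nat_lit 4) (nat_lit 0x2000130013000c8000400000000000000000000000000) (nat_lit 0x0) (nat_lit 0x800030003800040000000000000000000000) := T_6 (nat_lit 125) (nat_lit 124) (nat_lit 1) (nat_lit 8) (nat_lit 7) L48492 (by decide +kernel)
theorem L48494 : W_6 (nat_lit 5) (nat_lit 0x2000130013000c8000000000000000000000000000000) (nat_lit 0x0) (nat_lit 0x20000000800030003c00040000000000000000000000) := T_6 (nat_lit 106) (nat_lit 173) (nat_lit 5) (nat_lit 4) (nat_lit 6) L48493 (by decide +kernel)
theorem L48495 : W_6 (nat_lit 2) (nat_lit 0x2000130013000e8001400000000000000000000000000) (nat_lit 0x0) (nat_lit 0xa00040000000000000000000000) := D_6 (nat_lit 107) (nat_lit 90) (nat_lit 105) (nat_lit 6) (nat_lit 4) (nat_lit 9) (nat_lit 3) (nat_lit 3) (nat_lit 6) (by decide +kernel)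
theorem L48496 : W_6 (nat_lit 3) (nat_lit 0x2000130013000e8000400000000000000000000000000) (nat_lit 0x0) (nat_lit 0x800000001a00040000000000000000000000) := T_6 (nat_lit 108) (nat_lit 143) (nat_lit 4) (nat_lit 7) (nat_lit 10) L48495 (by decide +kernel)
theorem L48497 : W_6 (nat_lit 4) (nat_lit 0x2000130013000e8000000000000000000000000000000) (nat_lit 0x0) (nat_lit 0x20000000800000001e00040000000000000000000000) := T_6 (nat_lit 106) (nat_lit 173) (nat_lit 5) (nat_lit 4) (nat_lit 6) L48496 (by decide +kernel)
theorem L48498 : W_6 (nat_lit 5) (nat_lit 0x2000130013000c8000000000000000000000000000000) (nat_lit 0x0) (nat_lit 0x20000000800030001e00040000000000000000000000) := T_6 (nat_lit 125) (nat_lit 124) (nat_lit 1) (nat_lit 8) (nat_lit 7) L48497 (by decide +kernel)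
theorem L48499 : W_6 (nat_lit 2) (nat_lit 0x2000134013000ca001f00084000000000000000000000) (nat_lit 0x0) (nat_lit 0x10000080002000000000000000000000) := D_6 (nat_lit 103) (nat_lit 124) (nat_lit 85) (nat_lit 3) (nat_lit 1) (nat_lit 6) (nat_lit 0) (nat_lit 4) (nat_lit 6) (by decide +kernel)
theorem L48500 : W_6 (nat_lit 3) (nat_lit 0x2000134013000ca001f00080000000000000000000000) (nat_lit 0x0) (nat_lit 0x1000008000e000000000000000000000) := T_6 (nat_lit 86) (nat_lit 87) (nat_lit 0) (nat_lit 5) (nat_lit 6) L48499 (by decide +kernel)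
theorem L48501 : W_6 (nat_lit 4) (nat_lit 0x2000134013000ca001e00080000000000000000000000) (nat_lit 0x0) (nat_lit 0x1100018000e000000000000000000000) := T_6 (nat_lit 104) (nat_lit 120) (nat_lit 1) (nat_lit 5) (nat_lit 6) L48500 (by decide +kernel)
theorem L48502 : W_6 (nat_lit 5) (nat_lit 0x2000134013000c8001e00080000000000000000000000) (nat_lit 0x0) (nat_lit 0x1700018000e000000000000000000000) := T_6 (nat_lit 121) (nat_lit 122) (nat_lit 1) (nat_lit 6) (nat_lit 6) L48501 (by decide +kernel)
theorem L48503 : W_6 (nat_lit 6) (nat_lit 0x2000134013000c8001e00000000000000000000000000) (nat_lit 0x0) (nat_lit 0x1700018018e000000000000000000000) := T_6 (nat_lit 91) (nat_lit 92) (nat_lit 2) (nat_lit 3) (nat_lit 6) L48502 (by decide +kernel)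
theorem L48504 : W_6 (nat_lit 7) (nat_lit 0x2000134013000c8001c00000000000000000000000000) (nat_lit 0x0) (nat_lit 0x1700038019e000000000000000000000) := T_6 (nat_lit 105) (nat_lit 88) (nat_lit 4) (nat_lit 4) (nat_lit 9) L48503 (by decide +kernel)
theorem L48505 : W_6 (nat_lit 8) (nat_lit 0x2000134013000c8000c00000000000000000000000000) (nat_lit 0x0) (nat_lit 0x1700338019e000000000000000000000) := T_6 (nat_lit 108) (nat_lit 109) (nat_lit 3) (nat_lit 4) (nat_lit 6) L48504 (by decide +kernel)
theorem L48506 : W_6 (nat_lit 9) (nat_lit 0x2000134013000c8000400000000000000000000000000) (nat_lit 0x0) (nat_lit 0x17003b801de000000000000000000000) := T_6 (nat_lit 107) (nat_lit 90) (nat_lit 6) (nat_lit 4) (nat_lit 9) L48505 (by decide +kernel)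
theorem L48507 : W_6 (nat_lit 10) (nat_lit 0x2000130013000c8000400000000000000000000000000) (nat_lit 0x0) (nat_lit 0xc00000017003b801de000000000000000000000) := T_6 (nat_lit 154) (nat_lit 155) (nat_lit 2) (nat_lit 1) (nat_lit 9) L48506 (by decide +kernel)
theorem L48508 : W_6 (nat_lit 11) (nat_lit 0x2000130013000c8000000000000000000000000000000) (nat_lit 0x0) (nat_lit 0x20000c00000017003f801de000000000000000000000) := T_6 (nat_lit 106) (nat_lit 173) (nat_lit 5) (nat_lit 4) (nat_lit 6) L48507 (by decide +kernel)
theorem L48509 : W_6 (nat_lit 2) (nat_lit 0x300013401b000e8002600000000000000000000000000) (nat_lit 0x0) (nat_lit 0x20000000000000000100008000000000000000000) := D_6 (nat_lit 92) (nat_lit 161) (nat_lit 75) (nat_lit 7) (nat_lit 7) (nat_lit 5) (nat_lit 7) (nat_lit 7) (nat_lit 4) (by decide +kernel)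
theorem L48510 : W_6 (nat_lit 3) (nat_lit 0x300013401b000e8000600000000000000000000000000) (nat_lit 0x0) (nat_lit 0x28000000000002000100008000000000000000000) := T_6 (nat_lit 109) (nat_lit 159) (nat_lit 5) (nat_lit 7) (nat_lit 6) L48509 (by decide +kernel)
theorem L48511 : W_6 (nat_lit 4) (nat_lit 0x300013001b000e8000600000000000000000000000000) (nat_lit 0x0) (nat_lit 0x28c00000000002000100008000000000000000000) := T_6 (nat_lit 154) (nat_lit 155) (nat_lit 2) (nat_lit 1) (nat_lit 9) L48510 (by decide +kernel)
theorem L48512 : W_6 (nat_lit 5) (nat_lit 0x200013001b000e8000600000000000000000000000000) (nat_lit 0x0) (nat_lit 0x2000100028c00000000002000100008000000000000000000) := T_6 (nat_lit 176) (nat_lit 193) (nat_lit 5) (nat_lit 7) (nat_lit 7) L48511 (by decide +kernel)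
theorem L48513 : W_6 (nat_lit 6) (nat_lit 0x2000130013000e8000600000000000000000000000000) (nat_lit 0x0) (nat_lit 0x2000100028c00800000003000100008000000000000000000) := T_6 (nat_lit 143) (nat_lit 108) (nat_lit 4) (nat_lit 7) (nat_lit 10) L48512 (by decide +kernel)
theorem L48514 : W_6 (nat_lit 7) (nat_lit 0x2000130013000e8000400000000000000000000000000) (nat_lit 0x0) (nat_lit 0x2000100028c00800000003200110008000000000000000000) := T_6 (nat_lit 105) (nat_lit 88) (nat_lit 4) (nat_lit 4) (nat_lit 9) L48513 (by decide +kernel)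
theorem L48515 : W_6 (nat_lit 8) (nat_lit 0x2000130013000c8000400000000000000000000000000) (nat_lit 0x0) (nat_lit 0x2000100028c00800030003200110008000000000000000000) := T_6 (nat_lit 125) (nat_lit 124) (nat_lit 1) (nat_lit 8) (nat_lit 7) L48514 (by decide +kernel)
theorem L48516 : W_6 (nat_lit 9) (nat_lit 0x2000130013000c8000000000000000000000000000000) (nat_lit 0x0) (nat_lit 0x2000120028c00800030003600110008000000000000000000) := T_6 (nat_lit 106) (nat_lit 173) (nat_lit 5) (nat_lit 4) (nat_lit 6) L48515 (by decide +kernel)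
theorem L48517 : W_6 (nat_lit 2) (nat_lit 0x300013401b000e8002000000000000000000000000000) (nat_lit 0x0) (nat_lit 0x20000000000000000100008000000000000000000) := D_6 (nat_lit 92) (nat_lit 161) (nat_lit 75) (nat_lit 7) (nat_lit 7) (nat_lit 5) (nat_lit 7) (nat_lit 7) (nat_lit 4) (by decide +kernel)
theorem L48518 : W_6 (nat_lit 3) (nat_lit 0x300013401b000e8000000000000000000000000000000) (nat_lit 0x0) (nat_lit 0x28000000000002000100008000000000000000000) := T_6 (nat_lit 109) (nat_lit 159) (nat_lit 5) (nat_lit 7) (nat_lit 6) L48517 (by decide +kernel)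
theorem L48519 : W_6 (nat_lit 4) (nat_lit 0x200013401b000e8000000000000000000000000000000) (nat_lit 0x0) (nat_lit 0x2000100028000000000002000100008000000000000000000) := T_6 (nat_lit 176) (nat_lit 193) (nat_lit 5) (nat_lit 7) (nat_lit 7) L48518 (by decide +kernel)
theorem L48520 : W_6 (nat_lit 5) (nat_lit 0x2000134013000e8000000000000000000000000000000) (nat_lit 0x0) (nat_lit 0x2000100028000800000003000100008000000000000000000) := T_6 (nat_lit 143) (nat_lit 108) (nat_lit 4) (nat_lit 7) (nat_lit 10) L48519 (by decide +kernel)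
theorem L48521 : W_6 (nat_lit 6) (nat_lit 0x2000134013000c8000000000000000000000000000000) (nat_lit 0x0) (nat_lit 0x2000100028000800030003000100008000000000000000000) := T_6 (nat_lit 125) (nat_lit 124) (nat_lit 1) (nat_lit 8) (nat_lit 7) L48520 (by decide +kernel)
theorem L48522 : W_6 (nat_lit 7) (nat_lit 0x2000130013000c8000000000000000000000000000000) (nat_lit 0x0) (nat_lit 0x2000100028c00800030003000100008000000000000000000) := T_6 (nat_lit 154) (nat_lit 155) (nat_lit 2) (nat_lit 1) (nat_lit 9) L48521 (by decide +kernel)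
theorem L48523 : W_6 (nat_lit 4) (nat_lit 0x300013001b000e8000000000000000000000000000000) (nat_lit 0x0) (nat_lit 0x28c00000000002000100008000000000000000000) := T_6 (nat_lit 154) (nat_lit 155) (nat_lit 2) (nat_lit 1) (nat_lit 9) L48518 (by decide +kernel)
theorem L48524 : W_6 (nat_lit 5) (nat_lit 0x200013001b000e8000000000000000000000000000000) (nat_lit 0x0) (nat_lit 0x2000100028c00000000002000100008000000000000000000) := T_6 (nat_lit 176) (nat_lit 193) (nat_lit 5) (nat_lit 7) (nat_lit 7) L48523 (by decide +kernel)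
theorem L48525 : W_6 (nat_lit 6) (nat_lit 0x200013001b000c8000000000000000000000000000000) (nat_lit 0x0) (nat_lit 0x2000100028c00000030002000100008000000000000000000) := T_6 (nat_lit 125) (nat_lit 124) (nat_lit 3) (nat_lit 4) (nat_lit 7) L48524 (by decide +kernel)
theorem L48526 : W_6 (nat_lit 2) (nat_lit 0x300013001b000cb000c00000000000000000000000000) (nat_lit 0x0) (nat_lit 0x300010000000000000000000000) := D_6 (nat_lit 105) (nat_lit 104) (nat_lit 88) (nat_lit 1) (nat_lit 5) (nat_lit 6) (nat_lit 4) (nat_lit 4) (nat_lit 9) (by decide +kernel)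
theorem L48527 : W_6 (nat_lit 3) (nat_lit 0x300013001b000cb000400000000000000000000000000) (nat_lit 0x0) (nat_lit 0xb00050000000000000000000000) := T_6 (nat_lit 107) (nat_lit 90) (nat_lit 6) (nat_lit 4) (nat_lit 9) L48526 (by decide +kernel)
theorem L48528 : W_6 (nat_lit 4) (nat_lit 0x300013001b000ca000400000000000000000000000000) (nat_lit 0x0) (nat_lit 0x5000b00050000000000000000000000) := T_6 (nat_lit 120) (nat_lit 122) (nat_lit 3) (nat_lit 1) (nat_lit 7) L48527 (by decide +kernel)
theorem L48529 : W_6 (nat_lit 5) (nat_lit 0x300013001b000ca000000000000000000000000000000) (nat_lit 0x0) (nat_lit 0x20000000000005000f00050000000000000000000000) := T_6 (nat_lit 106) (nat_lit 173) (nat_lit 5) (nat_lit 4) (nat_lit 6) L48528 (by decide +kernel)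
theorem L48530 : W_6 (nat_lit 6) (nat_lit 0x200013001b000ca000000000000000000000000000000) (nat_lit 0x0) (nat_lit 0x2000120000000000005000f00050000000000000000000000) := T_6 (nat_lit 176) (nat_lit 193) (nat_lit 5) (nat_lit 7) (nat_lit 7) L48529 (by decide +kernel)
theorem L48531 : W_6 (nat_lit 2) (nat_lit 0x200013801b000ea000f00004000000000000000000000) (nat_lit 0x0) (nat_lit 0x40000000080002000000000000000000000) := D_6 (nat_lit 103) (nat_lit 85) (nat_lit 138) (nat_lit 0) (nat_lit 4) (nat_lit 6) (nat_lit 4) (nat_lit 2) (nat_lit 9) (by decide +kernel)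
theorem L48532 : W_6 (nat_lit 3) (nat_lit 0x200013801b000ea000f00000000000000000000000000) (nat_lit 0x0) (nat_lit 0x4000000008000e000000000000000000000) := T_6 (nat_lit 86) (nat_lit 87) (nat_lit 0) (nat_lit 5) (nat_lit 6) L48531 (by decide +kernel)
theorem L48533 : W_6 (nat_lit 4) (nat_lit 0x200013801b000ea000e00000000000000000000000000) (nat_lit 0x0) (nat_lit 0x4000100018000e000000000000000000000) := T_6 (nat_lit 104) (nat_lit 120) (nat_lit 1) (nat_lit 5) (nat_lit 6) L48532 (by decide +kernel)
theorem L48534 : W_6 (nat_lit 5) (nat_lit 0x200013801b000ea000c00000000000000000000000000) (nat_lit 0x0) (nat_lit 0x4000100038001e000000000000000000000) := T_6 (nat_lit 105) (nat_lit 88) (nat_lit 4) (nat_lit 4) (nat_lit 9) L48533 (by decide +kernel)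
theorem L48535 : W_6 (nat_lit 6) (nat_lit 0x200013001b000ea000c00000000000000000000000000) (nat_lit 0x0) (nat_lit 0xc0004000100038001e000000000000000000000) := T_6 (nat_lit 155) (nat_lit 154) (nat_lit 2) (nat_lit 1) (nat_lit 9) L48534 (by decide +kernel)
theorem L48536 : W_6 (nat_lit 7) (nat_lit 0x200013001b000ea000400000000000000000000000000) (nat_lit 0x0) (nat_lit 0xc00040001000b8005e000000000000000000000) := T_6 (nat_lit 107) (nat_lit 90) (nat_lit 6) (nat_lit 4) (nat_lit 9) L48535 (by decide +kernel)
theorem L48537 : W_6 (nat_lit 8) (nat_lit 0x200013001b000ca000400000000000000000000000000) (nat_lit 0x0) (nat_lit 0xc00040031000b8005e000000000000000000000) := T_6 (nat_lit 125) (nat_lit 124) (nat_lit 3) (nat_lit 4) (nat_lit 7) L48536 (by decide +kernel)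
theorem L48538 : W_6 (nat_lit 9) (nat_lit 0x200013001b000ca000000000000000000000000000000) (nat_lit 0x0) (nat_lit 0x20000c00040031000f8005e000000000000000000000) := T_6 (nat_lit 106) (nat_lit 173) (nat_lit 5) (nat_lit 4) (nat_lit 6) L48537 (by decide +kernel)
theorem L48539 : W_6 (nat_lit 2) (nat_lit 0x320013801b400eb000000000000000000000000000000) (nat_lit 0x0) (nat_lit 0x8000400010000000000000000000000000000000000000000000) := D_6 (nat_lit 190) (nat_lit 207) (nat_lit 172) (nat_lit 6) (nat_lit 3) (nat_lit 12) (nat_lit 7) (nat_lit 2) (nat_lit 7) (by decide +kernel)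
theorem L48540 : W_6 (nat_lit 3) (nat_lit 0x320013801b000eb000000000000000000000000000000) (nat_lit 0x0) (nat_lit 0x8000400010000000040000000100000000000000000000000000) := T_6 (nat_lit 138) (nat_lit 104) (nat_lit 7) (nat_lit 2) (nat_lit 6) L48539 (by decide +kernel)
theorem L48541 : W_6 (nat_lit 4) (nat_lit 0x300013801b000eb000000000000000000000000000000) (nat_lit 0x0) (nat_lit 0x8000400030000000040000000500000000000000000000000000) := T_6 (nat_lit 173) (nat_lit 106) (nat_lit 5) (nat_lit 4) (nat_lit 6) L48540 (by decide +kernel)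
theorem L48542 : W_6 (nat_lit 5) (nat_lit 0x300013001b000eb000000000000000000000000000000) (nat_lit 0x0) (nat_lit 0x8000400030000c00040000000500000000000000000000000000) := T_6 (nat_lit 155) (nat_lit 154) (nat_lit 2) (nat_lit 1) (nat_lit 9) L48541 (by decide +kernel)
theorem L48543 : W_6 (nat_lit 6) (nat_lit 0x300013001b000cb000000000000000000000000000000) (nat_lit 0x0) (nat_lit 0x8000400030000c00040030000500000000000000000000000000) := T_6 (nat_lit 125) (nat_lit 124) (nat_lit 3) (nat_lit 4) (nat_lit 7) L48542 (by decide +kernel)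
theorem L48544 : W_6 (nat_lit 7) (nat_lit 0x300013001b000ca000000000000000000000000000000) (nat_lit 0x0) (nat_lit 0x8000400030000c00040035000500000000000000000000000000) := T_6 (nat_lit 120) (nat_lit 122) (nat_lit 3) (nat_lit 1) (nat_lit 7) L48543 (by decide +kernel)
theorem L48545 : W_6 (nat_lit 8) (nat_lit 0x200013001b000ca000000000000000000000000000000) (nat_lit 0x0) (nat_lit 0x8002400130000c00040035000500000000000000000000000000) := T_6 (nat_lit 176) (nat_lit 193) (nat_lit 5) (nat_lit 7) (nat_lit 7) L48544 (by decide +kernel)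
theorem L48546 : W_6 (nat_lit 2) (nat_lit 0x300013801b000de000100040000000000000000000000) (nat_lit 0x0) (nat_lit 0x20000000060000000000000000000000000000000000) := D_6 (nat_lit 138) (nat_lit 137) (nat_lit 173) (nat_lit 1) (nat_lit 5) (nat_lit 7) (nat_lit 7) (nat_lit 2) (nat_lit 6) (by decide +kernel)
theorem L48547 : W_6 (nat_lit 3) (nat_lit 0x300013001b000de000100040000000000000000000000) (nat_lit 0x0) (nat_lit 0x20000c00060000000000000000000000000000000000) := T_6 (nat_lit 155) (nat_lit 154) (nat_lit 2) (nat_lit 1) (nat_lit 9) L48546 (by decide +kernel)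
theorem L48548 : W_6 (nat_lit 4) (nat_lit 0x300013001b000de000100000000000000000000000000) (nat_lit 0x0) (nat_lit 0x20000c00060000000800040000000000000000000000) := T_6 (nat_lit 90) (nat_lit 107) (nat_lit 5) (nat_lit 5) (nat_lit 5) L48547 (by decide +kernel)
theorem L48549 : W_6 (nat_lit 5) (nat_lit 0x300013001b000de000000000000000000000000000000) (nat_lit 0x0) (nat_lit 0x20000c00060000000980040000000000000000000000) := T_6 (nat_lit 104) (nat_lit 103) (nat_lit 0) (nat_lit 5) (nat_lit 7) L48548 (by decide +kernel)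
theorem L48550 : W_6 (nat_lit 6) (nat_lit 0x300013001b000ce000000000000000000000000000000) (nat_lit 0x0) (nat_lit 0x20000c00060030000980040000000000000000000000) := T_6 (nat_lit 124) (nat_lit 125) (nat_lit 3) (nat_lit 4) (nat_lit 7) L48549 (by decide +kernel)
theorem L48551 : W_6 (nat_lit 7) (nat_lit 0x300013001b000ca000000000000000000000000000000) (nat_lit 0x0) (nat_lit 0x20000c00060035000980040000000000000000000000) := T_6 (nat_lit 122) (nat_lit 120) (nat_lit 3) (nat_lit 1) (nat_lit 7) L48550 (by decide +kernel)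
theorem L48552 : W_6 (nat_lit 8) (nat_lit 0x200013001b000ca000000000000000000000000000000) (nat_lit 0x0) (nat_lit 0x2000120000c00060035000980040000000000000000000000) := T_6 (nat_lit 176) (nat_lit 193) (nat_lit 5) (nat_lit 7) (nat_lit 7) L48551 (by decide +kernel)
theorem L48553 : W_6 (nat_lit 2) (nat_lit 0x300013801b400de000100040000000000000000000000) (nat_lit 0x0) (nat_lit 0x10000000000000000200010000000000000000000000) := D_6 (nat_lit 105) (nat_lit 172) (nat_lit 88) (nat_lit 6) (nat_lit 2) (nat_lit 10) (nat_lit 6) (nat_lit 2) (nat_lit 9) (by decide +kernel)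
theorem L48554 : W_6 (nat_lit 3) (nat_lit 0x300013801b400de000000040000000000000000000000) (nat_lit 0x0) (nat_lit 0x10000000000000000380010000000000000000000000) := T_6 (nat_lit 104) (nat_lit 103) (nat_lit 0) (nat_lit 5) (nat_lit 7) L48553 (by decide +kernel)
theorem L48555 : W_6 (nat_lit 4) (nat_lit 0x300013801b000de000000040000000000000000000000) (nat_lit 0x0) (nat_lit 0x10000000060000000380010000000000000000000000) := T_6 (nat_lit 138) (nat_lit 137) (nat_lit 1) (nat_lit 5) (nat_lit 7) L48554 (by decide +kernel)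
theorem L48556 : W_6 (nat_lit 5) (nat_lit 0x200013801b000de000000040000000000000000000000) (nat_lit 0x0) (nat_lit 0x2000110000000060000000380010000000000000000000000) := T_6 (nat_lit 176) (nat_lit 193) (nat_lit 5) (nat_lit 7) (nat_lit 7) L48555 (by decide +kernel)
theorem L48557 : W_6 (nat_lit 6) (nat_lit 0x200013801b000da000000040000000000000000000000) (nat_lit 0x0) (nat_lit 0x2000110000000060005000380010000000000000000000000) := T_6 (nat_lit 122) (nat_lit 120) (nat_lit 3) (nat_lit 1) (nat_lit 7) L48556 (by decide +kernel)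
theorem L48558 : W_6 (nat_lit 7) (nat_lit 0x200013801b000da000000000000000000000000000000) (nat_lit 0x0) (nat_lit 0x2000110000000060005000b80050000000000000000000000) := T_6 (nat_lit 90) (nat_lit 107) (nat_lit 5) (nat_lit 5) (nat_lit 5) L48557 (by decide +kernel)
theorem L48559 : W_6 (nat_lit 8) (nat_lit 0x200013001b000da000000000000000000000000000000) (nat_lit 0x0) (nat_lit 0x2000110000c00060005000b80050000000000000000000000) := T_6 (nat_lit 155) (nat_lit 154) (nat_lit 2) (nat_lit 1) (nat_lit 9) L48558 (by decide +kernel)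
theorem L48560 : W_6 (nat_lit 9) (nat_lit 0x200013001b000ca000000000000000000000000000000) (nat_lit 0x0) (nat_lit 0x2000110000c00060035000b80050000000000000000000000) := T_6 (nat_lit 124) (nat_lit 125) (nat_lit 3) (nat_lit 4) (nat_lit 7) L48559 (by decide +kernel)
theorem L48561 : W_6 (nat_lit 2) (nat_lit 0x320013801b400ea000000000000000000000000000000) (nat_lit 0x0) (nat_lit 0x8000400010000000000000000000000000000000000000000000) := D_6 (nat_lit 190) (nat_lit 207) (nat_lit 172) (nat_lit 6) (nat_lit 3) (nat_lit 12) (nat_lit 7) (nat_lit 2) (nat_lit 7) (by decide +kernel)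
theorem L48562 : W_6 (nat_lit 3) (nat_lit 0x320013801b000ea000000000000000000000000000000) (nat_lit 0x0) (nat_lit 0x8000400010000000040000000100000000000000000000000000) := T_6 (nat_lit 138) (nat_lit 104) (nat_lit 7) (nat_lit 2) (nat_lit 6) L48561 (by decide +kernel)
theorem L48563 : W_6 (nat_lit 4) (nat_lit 0x300013801b000ea000000000000000000000000000000) (nat_lit 0x0) (nat_lit 0x8000400030000000040000000500000000000000000000000000) := T_6 (nat_lit 173) (nat_lit 106) (nat_lit 5) (nat_lit 4) (nat_lit 6) L48562 (by decide +kernel)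
theorem L48564 : W_6 (nat_lit 5) (nat_lit 0x300013001b000ea000000000000000000000000000000) (nat_lit 0x0) (nat_lit 0x8000400030000c00040000000500000000000000000000000000) := T_6 (nat_lit 155) (nat_lit 154) (nat_lit 2) (nat_lit 1) (nat_lit 9) L48563 (by decide +kernel)
theorem L48565 : W_6 (nat_lit 6) (nat_lit 0x300013001b000ca000000000000000000000000000000) (nat_lit 0x0) (nat_lit 0x8000400030000c00040030000500000000000000000000000000) := T_6 (nat_lit 125) (nat_lit 124) (nat_lit 3) (nat_lit 4) (nat_lit 7) L48564 (by decide +kernel)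
theorem L48566 : W_6 (nat_lit 7) (nat_lit 0x200013001b000ca000000000000000000000000000000) (nat_lit 0x0) (nat_lit 0x8002400130000c00040030000500000000000000000000000000) := T_6 (nat_lit 176) (nat_lit 193) (nat_lit 5) (nat_lit 7) (nat_lit 7) L48565 (by decide +kernel)
theorem L48567 : W_6 (nat_lit 2) (nat_lit 0x300013801b400de000400000000000000000000000000) (nat_lit 0x0) (nat_lit 0x10000000000000000200010000000000000000000000) := D_6 (nat_lit 105) (nat_lit 88) (nat_lit 172) (nat_lit 4) (nat_lit 4) (nat_lit 9) (nat_lit 6) (nat_lit 2) (nat_lit 10) (by decide +kernel)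
theorem L48568 : W_6 (nat_lit 3) (nat_lit 0x300013801b000de000400000000000000000000000000) (nat_lit 0x0) (nat_lit 0x10000000060000000200010000000000000000000000) := T_6 (nat_lit 138) (nat_lit 137) (nat_lit 1) (nat_lit 5) (nat_lit 7) L48567 (by decide +kernel)
theorem L48569 : W_6 (nat_lit 4) (nat_lit 0x200013801b000de000400000000000000000000000000) (nat_lit 0x0) (nat_lit 0x2000110000000060000000200010000000000000000000000) := T_6 (nat_lit 176) (nat_lit 193) (nat_lit 5) (nat_lit 7) (nat_lit 7) L48568 (by decide +kernel)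
theorem L48570 : W_6 (nat_lit 5) (nat_lit 0x200013001b000de000400000000000000000000000000) (nat_lit 0x0) (nat_lit 0x2000110000c00060000000200010000000000000000000000) := T_6 (nat_lit 155) (nat_lit 154) (nat_lit 2) (nat_lit 1) (nat_lit 9) L48569 (by decide +kernel)
theorem L48571 : W_6 (nat_lit 6) (nat_lit 0x200013001b000ce000400000000000000000000000000) (nat_lit 0x0) (nat_lit 0x2000110000c00060030000200010000000000000000000000) := T_6 (nat_lit 124) (nat_lit 125) (nat_lit 3) (nat_lit 4) (nat_lit 7) L48570 (by decide +kernel)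
theorem L48572 : W_6 (nat_lit 7) (nat_lit 0x200013001b000ca000400000000000000000000000000) (nat_lit 0x0) (nat_lit 0x2000110000c00060035000200010000000000000000000000) := T_6 (nat_lit 122) (nat_lit 120) (nat_lit 3) (nat_lit 1) (nat_lit 7) L48571 (by decide +kernel)
theorem L48573 : W_6 (nat_lit 8) (nat_lit 0x200013001b000ca000000000000000000000000000000) (nat_lit 0x0) (nat_lit 0x2000130000c00060035000600010000000000000000000000) := T_6 (nat_lit 106) (nat_lit 173) (nat_lit 5) (nat_lit 4) (nat_lit 6) L48572 (by decide +kernel)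
theorem L48574 : W_6 (nat_lit 10) (nat_lit 0x200013001b000c8000000000000000000000000000000) (nat_lit 0x0) (nat_lit 0x8002400130000c00060037000f8005e000000000000000000000) := Q_6 (nat_lit 121) (C_6 L48530 (C_6 L48538 (C_6 L48545 (C_6 L48552 (C_6 L48560 (C_6 L48566 (C_6 L48573 N_6))))))) (by decide +kernel)
theorem L48575 : W_6 (nat_lit 2) (nat_lit 0x300013001b000c8002c00000000000000000000000000) (nat_lit 0x0) (nat_lit 0x20000000000000000100008000000000000000000) := D_6 (nat_lit 92) (nat_lit 161) (nat_lit 75) (nat_lit 7) (nat_lit 7) (nat_lit 5) (nat_lit 7) (nat_lit 7) (nat_lit 4) (by decide +kernel)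
theorem L48576 : W_6 (nat_lit 3) (nat_lit 0x300013001b000c8000c00000000000000000000000000) (nat_lit 0x0) (nat_lit 0x28000000000002000100008000000000000000000) := T_6 (nat_lit 109) (nat_lit 159) (nat_lit 5) (nat_lit 7) (nat_lit 6) L48575 (by decide +kernel)
theorem L48577 : W_6 (nat_lit 4) (nat_lit 0x300013001b000c8000400000000000000000000000000) (nat_lit 0x0) (nat_lit 0x28000000000002800140008000000000000000000) := T_6 (nat_lit 107) (nat_lit 90) (nat_lit 6) (nat_lit 4) (nat_lit 9) L48576 (by decide +kernel)
theorem L48578 : W_6 (nat_lit 5) (nat_lit 0x200013001b000c8000400000000000000000000000000) (nat_lit 0x0) (nat_lit 0x2000100028000000000002800140008000000000000000000) := T_6 (nat_lit 176) (nat_lit 193) (nat_lit 5) (nat_lit 7) (nat_lit 7) L48577 (by decide +kernel)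
theorem L48579 : W_6 (nat_lit 6) (nat_lit 0x200013001b000c8000000000000000000000000000000) (nat_lit 0x0) (nat_lit 0x2000120028000000000002c00140008000000000000000000) := T_6 (nat_lit 106) (nat_lit 173) (nat_lit 5) (nat_lit 4) (nat_lit 6) L48578 (by decide +kernel)
theorem L48580 : W_6 (nat_lit 2) (nat_lit 0x200013001b000cb000c00000000000000000000000000) (nat_lit 0x0) (nat_lit 0x300010000000000000000000000) := D_6 (nat_lit 105) (nat_lit 104) (nat_lit 88) (nat_lit 1) (nat_lit 5) (nat_lit 6) (nat_lit 4) (nat_lit 4) (nat_lit 9) (by decide +kernel)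
theorem L48581 : W_6 (nat_lit 3) (nat_lit 0x200013001b000cb000400000000000000000000000000) (nat_lit 0x0) (nat_lit 0xb00050000000000000000000000) := T_6 (nat_lit 107) (nat_lit 90) (nat_lit 6) (nat_lit 4) (nat_lit 9) L48580 (by decide +kernel)
theorem L48582 : W_6 (nat_lit 4) (nat_lit 0x200013001b000ca000400000000000000000000000000) (nat_lit 0x0) (nat_lit 0x5000b00050000000000000000000000) := T_6 (nat_lit 120) (nat_lit 122) (nat_lit 3) (nat_lit 1) (nat_lit 7) L48581 (by decide +kernel)
theorem L48583 : W_6 (nat_lit 5) (nat_lit 0x200013001b000ca000000000000000000000000000000) (nat_lit 0x0) (nat_lit 0x20000000000005000f00050000000000000000000000) := T_6 (nat_lit 106) (nat_lit 173) (nat_lit 5) (nat_lit 4) (nat_lit 6) L48582 (by decide +kernel)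
theorem L48584 : W_6 (nat_lit 2) (nat_lit 0x200013401b200db000700000000000000000000000000) (nat_lit 0x0) (nat_lit 0x40000000000008000400000000000000000) := D_6 (nat_lit 87) (nat_lit 70) (nat_lit 138) (nat_lit 5) (nat_lit 2) (nat_lit 4) (nat_lit 5) (nat_lit 2) (nat_lit 5) (by decide +kernel)
theorem L48585 : W_6 (nat_lit 3) (nat_lit 0x200013401b000db000700000000000000000000000000) (nat_lit 0x0) (nat_lit 0x8000000060000000000008000400000000000000000) := T_6 (nat_lit 137) (nat_lit 171) (nat_lit 6) (nat_lit 1) (nat_lit 10) L48584 (by decide +kernel)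
theorem L48586 : W_6 (nat_lit 4) (nat_lit 0x200013401b000db000600000000000000000000000000) (nat_lit 0x0) (nat_lit 0x8000000060000000180008000400000000000000000) := T_6 (nat_lit 104) (nat_lit 103) (nat_lit 3) (nat_lit 1) (nat_lit 6) L48585 (by decide +kernel)
theorem L48587 : W_6 (nat_lit 5) (nat_lit 0x200013001b000db000600000000000000000000000000) (nat_lit 0x0) (nat_lit 0x8000c00060000000180008000400000000000000000) := T_6 (nat_lit 154) (nat_lit 155) (nat_lit 2) (nat_lit 1) (nat_lit 9) L48586 (by decide +kernel)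
theorem L48588 : W_6 (nat_lit 6) (nat_lit 0x200013001b000cb000600000000000000000000000000) (nat_lit 0x0) (nat_lit 0x8000c00060030000180008000400000000000000000) := T_6 (nat_lit 124) (nat_lit 125) (nat_lit 3) (nat_lit 4) (nat_lit 7) L48587 (by decide +kernel)
theorem L48589 : W_6 (nat_lit 7) (nat_lit 0x200013001b000cb000400000000000000000000000000) (nat_lit 0x0) (nat_lit 0x8000c00060030000380018000400000000000000000) := T_6 (nat_lit 105) (nat_lit 88) (nat_lit 4) (nat_lit 4) (nat_lit 9) L48588 (by decide +kernel)
theorem L48590 : W_6 (nat_lit 8) (nat_lit 0x200013001b000ca000400000000000000000000000000) (nat_lit 0x0) (nat_lit 0x8000c00060035000380018000400000000000000000) := T_6 (nat_lit 120) (nat_lit 122) (nat_lit 3) (nat_lit 1) (nat_lit 7) L48589 (by decide +kernel)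
theorem L48591 : W_6 (nat_lit 9) (nat_lit 0x200013001b000ca000000000000000000000000000000) (nat_lit 0x0) (nat_lit 0x28000c00060035000780018000400000000000000000) := T_6 (nat_lit 106) (nat_lit 173) (nat_lit 5) (nat_lit 4) (nat_lit 6) L48590 (by decide +kernel)
theorem L48592 : W_6 (nat_lit 2) (nat_lit 0x200013001b400de000100040000000000000000000000) (nat_lit 0x0) (nat_lit 0x20000c00000000000000000000000000000000000000) := D_6 (nat_lit 155) (nat_lit 154) (nat_lit 173) (nat_lit 2) (nat_lit 1) (nat_lit 9) (nat_lit 7) (nat_lit 2) (nat_lit 6) (by decide +kernel)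
theorem L48593 : W_6 (nat_lit 3) (nat_lit 0x200013001b400de000000040000000000000000000000) (nat_lit 0x0) (nat_lit 0x20000c00000000000180000000000000000000000000) := T_6 (nat_lit 104) (nat_lit 103) (nat_lit 0) (nat_lit 5) (nat_lit 7) L48592 (by decide +kernel)
theorem L48594 : W_6 (nat_lit 4) (nat_lit 0x200013001b000de000000040000000000000000000000) (nat_lit 0x0) (nat_lit 0x20000c00060000000180000000000000000000000000) := T_6 (nat_lit 138) (nat_lit 137) (nat_lit 1) (nat_lit 5) (nat_lit 7) L48593 (by decide +kernel)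
theorem L48595 : W_6 (nat_lit 5) (nat_lit 0x200013001b000de000000000000000000000000000000) (nat_lit 0x0) (nat_lit 0x20000c00060000000980040000000000000000000000) := T_6 (nat_lit 90) (nat_lit 107) (nat_lit 5) (nat_lit 5) (nat_lit 5) L48594 (by decide +kernel)
theorem L48596 : W_6 (nat_lit 6) (nat_lit 0x200013001b000da000000000000000000000000000000) (nat_lit 0x0) (nat_lit 0x20000c00060005000980040000000000000000000000) := T_6 (nat_lit 122) (nat_lit 120) (nat_lit 3) (nat_lit 1) (nat_lit 7) L48595 (by decide +kernel)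
theorem L48597 : W_6 (nat_lit 7) (nat_lit 0x200013001b000ca000000000000000000000000000000) (nat_lit 0x0) (nat_lit 0x20000c00060035000980040000000000000000000000) := T_6 (nat_lit 124) (nat_lit 125) (nat_lit 3) (nat_lit 4) (nat_lit 7) L48596 (by decide +kernel)
theorem L48598 : W_6 (nat_lit 2) (nat_lit 0x200013801b400de000100040000000000000000000000) (nat_lit 0x0) (nat_lit 0x10000000000000000200010000000000000000000000) := D_6 (nat_lit 105) (nat_lit 172) (nat_lit 88) (nat_lit 6) (nat_lit 2) (nat_lit 10) (nat_lit 6) (nat_lit 2) (nat_lit 9) (by decide +kernel)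
theorem L48599 : W_6 (nat_lit 3) (nat_lit 0x200013801b400de000000040000000000000000000000) (nat_lit 0x0) (nat_lit 0x10000000000000000380010000000000000000000000) := T_6 (nat_lit 104) (nat_lit 103) (nat_lit 0) (nat_lit 5) (nat_lit 7) L48598 (by decide +kernel)
theorem L48600 : W_6 (nat_lit 4) (nat_lit 0x200013801b000de000000040000000000000000000000) (nat_lit 0x0) (nat_lit 0x10000000060000000380010000000000000000000000) := T_6 (nat_lit 138) (nat_lit 137) (nat_lit 1) (nat_lit 5) (nat_lit 7) L48599 (by decide +kernel)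
theorem L48601 : W_6 (nat_lit 5) (nat_lit 0x200013801b000de000000000000000000000000000000) (nat_lit 0x0) (nat_lit 0x10000000060000000b80050000000000000000000000) := T_6 (nat_lit 90) (nat_lit 107) (nat_lit 5) (nat_lit 5) (nat_lit 5) L48600 (by decide +kernel)
theorem L48602 : W_6 (nat_lit 6) (nat_lit 0x200013801b000da000000000000000000000000000000) (nat_lit 0x0) (nat_lit 0x10000000060005000b80050000000000000000000000) := T_6 (nat_lit 122) (nat_lit 120) (nat_lit 3) (nat_lit 1) (nat_lit 7) L48601 (by decide +kernel)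
theorem L48603 : W_6 (nat_lit 7) (nat_lit 0x200013801b000ca000000000000000000000000000000) (nat_lit 0x0) (nat_lit 0x10000000060035000b80050000000000000000000000) := T_6 (nat_lit 124) (nat_lit 125) (nat_lit 3) (nat_lit 4) (nat_lit 7) L48602 (by decide +kernel)
theorem L48604 : W_6 (nat_lit 8) (nat_lit 0x200013001b000ca000000000000000000000000000000) (nat_lit 0x0) (nat_lit 0x10000c00060035000b80050000000000000000000000) := T_6 (nat_lit 155) (nat_lit 154) (nat_lit 2) (nat_lit 1) (nat_lit 9) L48603 (by decide +kernel)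
theorem L48605 : W_6 (nat_lit 2) (nat_lit 0x220013801b400da000000040000000000000000000000) (nat_lit 0x0) (nat_lit 0x8000400010000000000000000000000000000000000000000000) := D_6 (nat_lit 190) (nat_lit 207) (nat_lit 172) (nat_lit 6) (nat_lit 3) (nat_lit 12) (nat_lit 7) (nat_lit 2) (nat_lit 7) (by decide +kernel)
theorem L48606 : W_6 (nat_lit 3) (nat_lit 0x220013801b000da000000040000000000000000000000) (nat_lit 0x0) (nat_lit 0x8000400010000000040000000100000000000000000000000000) := T_6 (nat_lit 138) (nat_lit 104) (nat_lit 7) (nat_lit 2) (nat_lit 6) L48605 (by decide +kernel)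
theorem L48607 : W_6 (nat_lit 4) (nat_lit 0x200013801b000da000000040000000000000000000000) (nat_lit 0x0) (nat_lit 0x8000400030000000040000000500000000000000000000000000) := T_6 (nat_lit 173) (nat_lit 106) (nat_lit 5) (nat_lit 4) (nat_lit 6) L48606 (by decide +kernel)
theorem L48608 : W_6 (nat_lit 5) (nat_lit 0x200013801b000da000000000000000000000000000000) (nat_lit 0x0) (nat_lit 0x8000400030000000040000000d00040000000000000000000000) := T_6 (nat_lit 90) (nat_lit 107) (nat_lit 5) (nat_lit 5) (nat_lit 5) L48607 (by decide +kernel)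
theorem L48609 : W_6 (nat_lit 6) (nat_lit 0x200013001b000da000000000000000000000000000000) (nat_lit 0x0) (nat_lit 0x8000400030000c00040000000d00040000000000000000000000) := T_6 (nat_lit 155) (nat_lit 154) (nat_lit 2) (nat_lit 1) (nat_lit 9) L48608 (by decide +kernel)
theorem L48610 : W_6 (nat_lit 7) (nat_lit 0x200013001b000ca000000000000000000000000000000) (nat_lit 0x0) (nat_lit 0x8000400030000c00040030000d00040000000000000000000000) := T_6 (nat_lit 124) (nat_lit 125) (nat_lit 3) (nat_lit 4) (nat_lit 7) L48609 (by decide +kernel)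
theorem L48611 : W_6 (nat_lit 2) (nat_lit 0x200013801b400de000c00000000000000000000000000) (nat_lit 0x0) (nat_lit 0x10000000000000000200010000000000000000000000) := D_6 (nat_lit 105) (nat_lit 88) (nat_lit 172) (nat_lit 4) (nat_lit 4) (nat_lit 9) (nat_lit 6) (nat_lit 2) (nat_lit 10) (by decide +kernel)
theorem L48612 : W_6 (nat_lit 3) (nat_lit 0x200013801b000de000c00000000000000000000000000) (nat_lit 0x0) (nat_lit 0x10000000060000000200010000000000000000000000) := T_6 (nat_lit 138) (nat_lit 137) (nat_lit 1) (nat_lit 5) (nat_lit 7) L48611 (by decide +kernel)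
theorem L48613 : W_6 (nat_lit 4) (nat_lit 0x200013001b000de000c00000000000000000000000000) (nat_lit 0x0) (nat_lit 0x10000c00060000000200010000000000000000000000) := T_6 (nat_lit 155) (nat_lit 154) (nat_lit 2) (nat_lit 1) (nat_lit 9) L48612 (by decide +kernel)
theorem L48614 : W_6 (nat_lit 5) (nat_lit 0x200013001b000ce000c00000000000000000000000000) (nat_lit 0x0) (nat_lit 0x10000c00060030000200010000000000000000000000) := T_6 (nat_lit 124) (nat_lit 125) (nat_lit 3) (nat_lit 4) (nat_lit 7) L48613 (by decide +kernel)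
theorem L48615 : W_6 (nat_lit 6) (nat_lit 0x200013001b000ce000400000000000000000000000000) (nat_lit 0x0) (nat_lit 0x10000c00060030000a00050000000000000000000000) := T_6 (nat_lit 107) (nat_lit 90) (nat_lit 6) (nat_lit 4) (nat_lit 9) L48614 (by decide +kernel)
theorem L48616 : W_6 (nat_lit 7) (nat_lit 0x200013001b000ca000400000000000000000000000000) (nat_lit 0x0) (nat_lit 0x10000c00060035000a00050000000000000000000000) := T_6 (nat_lit 122) (nat_lit 120) (nat_lit 3) (nat_lit 1) (nat_lit 7) L48615 (by decide +kernel)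
theorem L48617 : W_6 (nat_lit 8) (nat_lit 0x200013001b000ca000000000000000000000000000000) (nat_lit 0x0) (nat_lit 0x30000c00060035000e00050000000000000000000000) := T_6 (nat_lit 106) (nat_lit 173) (nat_lit 5) (nat_lit 4) (nat_lit 6) L48616 (by decide +kernel)
theorem L48618 : W_6 (nat_lit 10) (nat_lit 0x200013001b000c8000000000000000000000000000000) (nat_lit 0x0) (nat_lit 0x8000400038000c00060037000f8005e000400000000000000000) := Q_6 (nat_lit 121) (C_6 L48583 (C_6 L48538 (C_6 L48591 (C_6 L48597 (C_6 L48604 (C_6 L48610 (C_6 L48617 N_6))))))) (by decide +kernel)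
theorem L48619 : W_6 (nat_lit 11) (nat_lit 0x2000130013000c8000000000000000000000000000000) (nat_lit 0x0) (nat_lit 0x8002400138028c00860037002f8015e008400000000000000000) := Q_6 (nat_lit 143) (C_6 L48525 (C_6 L48574 (C_6 L48579 (C_6 L48618 N_6)))) (by decide +kernel)
theorem L48620 : W_6 (nat_lit 2) (nat_lit 0x2000134013000c8001c00000000000000000000000000) (nat_lit 0x0) (nat_lit 0x20000200010000000000000000000000) := D_6 (nat_lit 105) (nat_lit 125) (nat_lit 88) (nat_lit 3) (nat_lit 3) (nat_lit 6) (nat_lit 4) (nat_lit 4) (nat_lit 9) (by decide +kernel)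
theorem L48621 : W_6 (nat_lit 3) (nat_lit 0x2000134013000c8000c00000000000000000000000000) (nat_lit 0x0) (nat_lit 0x20003200010000000000000000000000) := T_6 (nat_lit 108) (nat_lit 109) (nat_lit 3) (nat_lit 4) (nat_lit 6) L48620 (by decide +kernel)
theorem L48622 : W_6 (nat_lit 4) (nat_lit 0x2000134013000c8000400000000000000000000000000) (nat_lit 0x0) (nat_lit 0x20003a00050000000000000000000000) := T_6 (nat_lit 107) (nat_lit 90) (nat_lit 6) (nat_lit 4) (nat_lit 9) L48621 (by decide +kernel)
theorem L48623 : W_6 (nat_lit 5) (nat_lit 0x2000130013000c8000400000000000000000000000000) (nat_lit 0x0) (nat_lit 0xc00000020003a00050000000000000000000000) := T_6 (nat_lit 154) (nat_lit 155) (nat_lit 2) (nat_lit 1) (nat_lit 9) L48622 (by decide +kernel)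
theorem L48624 : W_6 (nat_lit 6) (nat_lit 0x2000130013000c8000000000000000000000000000000) (nat_lit 0x0) (nat_lit 0x20000c00000020003e00050000000000000000000000) := T_6 (nat_lit 106) (nat_lit 173) (nat_lit 5) (nat_lit 4) (nat_lit 6) L48623 (by decide +kernel)
theorem L48625 : W_6 (nat_lit 12) (nat_lit 0x200013001300088000000000000000000000000000000) (nat_lit 0x0) (nat_lit 0x8002400138028c00860077003f801de008400000000000000000) := Q_6 (nat_lit 126) (C_6 L48494 (C_6 L48498 (C_6 L48508 (C_6 L48516 (C_6 L48522 (C_6 L48619 (C_6 L48624 N_6))))))) (by decide +kernel)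
theorem L48626 : W_6 (nat_lit 2) (nat_lit 0x200013001300088000800000000000000000000000000) (nat_lit 0x0) (nat_lit 0x10000400040000000000000000000000) := D_6 (nat_lit 90) (nat_lit 124) (nat_lit 106) (nat_lit 5) (nat_lit 5) (nat_lit 5) (nat_lit 6) (nat_lit 4) (nat_lit 9) (by decide +kernel)
theorem L48627 : W_6 (nat_lit 2) (nat_lit 0x2000134013800bd001800000000000000000000000000) (nat_lit 0x0) (nat_lit 0x300010000000000000000000000) := D_6 (nat_lit 105) (nat_lit 104) (nat_lit 88) (nat_lit 0) (nat_lit 6) (nat_lit 7) (nat_lit 7) (nat_lit 3) (nat_lit 5) (by decide +kernel)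
theorem L48628 : W_6 (nat_lit 3) (nat_lit 0x2000134013000bd001800000000000000000000000000) (nat_lit 0x0) (nat_lit 0xc0000000300010000000000000000000000) := T_6 (nat_lit 139) (nat_lit 138) (nat_lit 2) (nat_lit 2) (nat_lit 8) L48627 (by decide +kernel)
theorem L48629 : W_6 (nat_lit 4) (nat_lit 0x2000134013000bd000800000000000000000000000000) (nat_lit 0x0) (nat_lit 0xc0000003300010000000000000000000000) := T_6 (nat_lit 108) (nat_lit 109) (nat_lit 2) (nat_lit 3) (nat_lit 7) L48628 (by decide +kernel)
theorem L48630 : W_6 (nat_lit 5) (nat_lit 0x20001340130009d000800000000000000000000000000) (nat_lit 0x0) (nat_lit 0xc0060003300010000000000000000000000) := T_6 (nat_lit 125) (nat_lit 126) (nat_lit 1) (nat_lit 8) (nat_lit 7) L48629 (by decide +kernel)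
theorem L48631 : W_6 (nat_lit 6) (nat_lit 0x20001340130008d000800000000000000000000000000) (nat_lit 0x0) (nat_lit 0xc0070003300050000000000000000000000) := T_6 (nat_lit 124) (nat_lit 90) (nat_lit 5) (nat_lit 5) (nat_lit 5) L48630 (by decide +kernel)
theorem L48632 : W_6 (nat_lit 7) (nat_lit 0x20001340130008c000800000000000000000000000000) (nat_lit 0x0) (nat_lit 0xc0073003300050000000000000000000000) := T_6 (nat_lit 120) (nat_lit 121) (nat_lit 3) (nat_lit 1) (nat_lit 7) L48631 (by decide +kernel)
theorem L48633 : W_6 (nat_lit 8) (nat_lit 0x20001300130008c000800000000000000000000000000) (nat_lit 0x0) (nat_lit 0xc000c0073003300050000000000000000000000) := T_6 (nat_lit 154) (nat_lit 155) (nat_lit 2) (nat_lit 1) (nat_lit 9) L48632 (by decide +kernel)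
theorem L48634 : W_6 (nat_lit 2) (nat_lit 0x20001300130009c000800000000000000000000000000) (nat_lit 0x0) (nat_lit 0x3001000000000000000000000000000) := D_6 (nat_lit 121) (nat_lit 120) (nat_lit 108) (nat_lit 3) (nat_lit 1) (nat_lit 7) (nat_lit 2) (nat_lit 2) (nat_lit 7) (by decide +kernel)
theorem L48635 : W_6 (nat_lit 3) (nat_lit 0x20001300130008c000800000000000000000000000000) (nat_lit 0x0) (nat_lit 0x13001000040000000000000000000000) := T_6 (nat_lit 124) (nat_lit 90) (nat_lit 5) (nat_lit 5) (nat_lit 5) L48634 (by decide +kernel)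
theorem L48636 : W_6 (nat_lit 2) (nat_lit 0x2000134013800bd000800000000000000000000000000) (nat_lit 0x0) (nat_lit 0x300010000000000000000000000) := D_6 (nat_lit 105) (nat_lit 104) (nat_lit 88) (nat_lit 0) (nat_lit 6) (nat_lit 7) (nat_lit 7) (nat_lit 3) (nat_lit 5) (by decide +kernel)
theorem L48637 : W_6 (nat_lit 3) (nat_lit 0x2000134013000bd000800000000000000000000000000) (nat_lit 0x0) (nat_lit 0xc0000000300010000000000000000000000) := T_6 (nat_lit 139) (nat_lit 138) (nat_lit 2) (nat_lit 2) (nat_lit 8) L48636 (by decide +kernel)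
theorem L48638 : W_6 (nat_lit 4) (nat_lit 0x20001340130009d000800000000000000000000000000) (nat_lit 0x0) (nat_lit 0xc0060000300010000000000000000000000) := T_6 (nat_lit 125) (nat_lit 126) (nat_lit 1) (nat_lit 8) (nat_lit 7) L48637 (by decide +kernel)
theorem L48639 : W_6 (nat_lit 5) (nat_lit 0x20001340130009c000800000000000000000000000000) (nat_lit 0x0) (nat_lit 0xc0063000300010000000000000000000000) := T_6 (nat_lit 120) (nat_lit 121) (nat_lit 3) (nat_lit 1) (nat_lit 7) L48638 (by decide +kernel)
theorem L48640 : W_6 (nat_lit 6) (nat_lit 0x20001340130008c000800000000000000000000000000) (nat_lit 0x0) (nat_lit 0xc0073000300050000000000000000000000) := T_6 (nat_lit 124) (nat_lit 90) (nat_lit 5) (nat_lit 5) (nat_lit 5) L48639 (by decide +kernel)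
theorem L48641 : W_6 (nat_lit 7) (nat_lit 0x20001300130008c000800000000000000000000000000) (nat_lit 0x0) (nat_lit 0xc000c0073000300050000000000000000000000) := T_6 (nat_lit 154) (nat_lit 155) (nat_lit 2) (nat_lit 1) (nat_lit 9) L48640 (by decide +kernel)
theorem L48642 : W_6 (nat_lit 2) (nat_lit 0x2000134013800bc001800000000000000000000000000) (nat_lit 0x0) (nat_lit 0x300010000000000000000000000) := D_6 (nat_lit 105) (nat_lit 104) (nat_lit 88) (nat_lit 0) (nat_lit 6) (nat_lit 7) (nat_lit 7) (nat_lit 3) (nat_lit 5) (by decide +kernel)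
theorem L48643 : W_6 (nat_lit 3) (nat_lit 0x2000134013000bc001800000000000000000000000000) (nat_lit 0x0) (nat_lit 0xc0000000300010000000000000000000000) := T_6 (nat_lit 139) (nat_lit 138) (nat_lit 2) (nat_lit 2) (nat_lit 8) L48642 (by decide +kernel)
theorem L48644 : W_6 (nat_lit 4) (nat_lit 0x2000134013000bc000800000000000000000000000000) (nat_lit 0x0) (nat_lit 0xc0000003300010000000000000000000000) := T_6 (nat_lit 108) (nat_lit 109) (nat_lit 2) (nat_lit 3) (nat_lit 7) L48643 (by decide +kernel)
theorem L48645 : W_6 (nat_lit 5) (nat_lit 0x20001340130009c000800000000000000000000000000) (nat_lit 0x0) (nat_lit 0xc0060003300010000000000000000000000) := T_6 (nat_lit 125) (nat_lit 126) (nat_lit 1) (nat_lit 8) (nat_lit 7) L48644 (by decide +kernel)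
theorem L48646 : W_6 (nat_lit 6) (nat_lit 0x20001300130009c000800000000000000000000000000) (nat_lit 0x0) (nat_lit 0xc000c0060003300010000000000000000000000) := T_6 (nat_lit 154) (nat_lit 155) (nat_lit 2) (nat_lit 1) (nat_lit 9) L48645 (by decide +kernel)
theorem L48647 : W_6 (nat_lit 7) (nat_lit 0x20001300130008c000800000000000000000000000000) (nat_lit 0x0) (nat_lit 0xc000c0070003300050000000000000000000000) := T_6 (nat_lit 124) (nat_lit 90) (nat_lit 5) (nat_lit 5) (nat_lit 5) L48646 (by decide +kernel)
theorem L48648 : W_6 (nat_lit 2) (nat_lit 0x20001300130008c000a00000000000000000000000000) (nat_lit 0x0) (nat_lit 0x80000000000010000800000000000000000) := D_6 (nat_lit 88) (nat_lit 139) (nat_lit 71) (nat_lit 7) (nat_lit 3) (nat_lit 5) (nat_lit 7) (nat_lit 3) (nat_lit 4) (by decide +kernel)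
theorem L48649 : W_6 (nat_lit 2) (nat_lit 0x20001380130008e000a00010000000000000000000000) (nat_lit 0x0) (nat_lit 0x10000000040000000100000000000000000000000000) := D_6 (nat_lit 138) (nat_lit 172) (nat_lit 104) (nat_lit 6) (nat_lit 2) (nat_lit 10) (nat_lit 6) (nat_lit 2) (nat_lit 9) (by decide +kernel)
theorem L48650 : W_6 (nat_lit 3) (nat_lit 0x20001300130008e000a00010000000000000000000000) (nat_lit 0x0) (nat_lit 0x10000c00040000000100000000000000000000000000) := T_6 (nat_lit 155) (nat_lit 154) (nat_lit 2) (nat_lit 1) (nat_lit 9) L48649 (by decide +kernel)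
theorem L48651 : W_6 (nat_lit 4) (nat_lit 0x20001300130008e000a00000000000000000000000000) (nat_lit 0x0) (nat_lit 0x10000c00040000000100010000800000000000000000) := T_6 (nat_lit 88) (nat_lit 71) (nat_lit 7) (nat_lit 3) (nat_lit 4) L48650 (by decide +kernel)
theorem L48652 : W_6 (nat_lit 5) (nat_lit 0x20001300130008c000a00000000000000000000000000) (nat_lit 0x0) (nat_lit 0x10000c00040003000100010000800000000000000000) := T_6 (nat_lit 121) (nat_lit 120) (nat_lit 3) (nat_lit 1) (nat_lit 7) L48651 (by decide +kernel)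
theorem L48653 : W_6 (nat_lit 2) (nat_lit 0x20001380130008e000a00000000000000000000000000) (nat_lit 0x0) (nat_lit 0x100000000c0000000000000000000000000000000000) := D_6 (nat_lit 172) (nat_lit 139) (nat_lit 138) (nat_lit 5) (nat_lit 3) (nat_lit 6) (nat_lit 6) (nat_lit 2) (nat_lit 10) (by decide +kernel)
theorem L48654 : W_6 (nat_lit 3) (nat_lit 0x20001380130008c000a00000000000000000000000000) (nat_lit 0x0) (nat_lit 0x100000000c0003000000000000000000000000000000) := T_6 (nat_lit 121) (nat_lit 120) (nat_lit 3) (nat_lit 1) (nat_lit 7) L48653 (by decide +kernel)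
theorem L48655 : W_6 (nat_lit 4) (nat_lit 0x20001300130008c000a00000000000000000000000000) (nat_lit 0x0) (nat_lit 0x10000c000c0003000000000000000000000000000000) := T_6 (nat_lit 155) (nat_lit 154) (nat_lit 2) (nat_lit 1) (nat_lit 9) L48654 (by decide +kernel)
theorem L48656 : W_6 (nat_lit 6) (nat_lit 0x20001300130008c000800000000000000000000000000) (nat_lit 0x0) (nat_lit 0x10000c000c0003000300010000800000000000000000) := Q_6 (nat_lit 105) (C_6 L48648 (C_6 L48652 (C_6 L48655 N_6))) (by decide +kernel)
theorem L48657 : W_6 (nat_lit 9) (nat_lit 0x200013001300088000800000000000000000000000000) (nat_lit 0x0) (nat_lit 0x10000c000c0077003300050000800000000000000000) := Q_6 (nat_lit 122) (C_6 L48633 (C_6 L48635 (C_6 L48641 (C_6 L48647 (C_6 L48656 N_6))))) (by decide +kernel)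
theorem L48658 : W_6 (nat_lit 2) (nat_lit 0x200013001300088000a00000000000000000000000000) (nat_lit 0x0) (nat_lit 0x400050000000000000000000000) := D_6 (nat_lit 106) (nat_lit 90) (nat_lit 88) (nat_lit 6) (nat_lit 4) (nat_lit 9) (nat_lit 4) (nat_lit 4) (nat_lit 9) (by decide +kernel)
theorem L48659 : W_6 (nat_lit 6) (nat_lit 0x200013001300088000a00000000000000000000000000) (nat_lit 0x0) (nat_lit 0x10000c000c0007000100010000800000000000000000) := Q_6 (nat_lit 122) (C_6 L48655 (C_6 L48648 (C_6 L48652 N_6))) (by decide +kernel)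
theorem L48660 : W_6 (nat_lit 2) (nat_lit 0x20001340130008b000a00000000000000000000000000) (nat_lit 0x0) (nat_lit 0x500040000000000000000000000) := D_6 (nat_lit 106) (nat_lit 90) (nat_lit 104) (nat_lit 6) (nat_lit 4) (nat_lit 9) (nat_lit 1) (nat_lit 5) (nat_lit 6) (by decide +kernel)
theorem L48661 : W_6 (nat_lit 3) (nat_lit 0x20001340130008a000a00000000000000000000000000) (nat_lit 0x0) (nat_lit 0x5000500040000000000000000000000) := T_6 (nat_lit 120) (nat_lit 122) (nat_lit 3) (nat_lit 1) (nat_lit 7) L48660 (by decide +kernel)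
theorem L48662 : W_6 (nat_lit 4) (nat_lit 0x20001300130008a000a00000000000000000000000000) (nat_lit 0x0) (nat_lit 0xc00000005000500040000000000000000000000) := T_6 (nat_lit 154) (nat_lit 155) (nat_lit 2) (nat_lit 1) (nat_lit 9) L48661 (by decide +kernel)
theorem L48663 : W_6 (nat_lit 5) (nat_lit 0x20001340130008a000a00000000000000000000000000) (nat_lit 0x0) (nat_lit 0xe000100050004c000000000000000000000) := T_6 (nat_lit 106) (nat_lit 90) (nat_lit 6) (nat_lit 4) (nat_lit 9) L48124 (by decide +kernel)
theorem L48664 : W_6 (nat_lit 6) (nat_lit 0x20001300130008a000a00000000000000000000000000) (nat_lit 0x0) (nat_lit 0xc000e000100050004c000000000000000000000) := T_6 (nat_lit 154) (nat_lit 155) (nat_lit 2) (nat_lit 1) (nat_lit 9) L48663 (by decide +kernel)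
theorem L48665 : W_6 (nat_lit 2) (nat_lit 0x20021001380134008b000a00000000000000000000000000) (nat_lit 0x0) (nat_lit 0x2000100008000000000000000000000000000000000000000000) := D_6 (nat_lit 188) (nat_lit 205) (nat_lit 171) (nat_lit 5) (nat_lit 2) (nat_lit 8) (nat_lit 5) (nat_lit 2) (nat_lit 7) (by decide +kernel)
theorem L48666 : W_6 (nat_lit 3) (nat_lit 0x21001380134008b000a00000000000000000000000000) (nat_lit 0x0) (nat_lit 0x2000300008000000020000000000000000000000000000000000) := T_6 (nat_lit 189) (nat_lit 137) (nat_lit 4) (nat_lit 2) (nat_lit 11) L48665 (by decide +kernel)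
theorem L48667 : W_6 (nat_lit 4) (nat_lit 0x20001380134008b000a00000000000000000000000000) (nat_lit 0x0) (nat_lit 0x2000300018000000020000000080000000000000000000000000) := T_6 (nat_lit 172) (nat_lit 103) (nat_lit 4) (nat_lit 2) (nat_lit 10) L48666 (by decide +kernel)
theorem L48668 : W_6 (nat_lit 5) (nat_lit 0x20001300134008b000a00000000000000000000000000) (nat_lit 0x0) (nat_lit 0x2000300018000c00020000000080000000000000000000000000) := T_6 (nat_lit 155) (nat_lit 154) (nat_lit 2) (nat_lit 1) (nat_lit 9) L48667 (by decide +kernel)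
theorem L48669 : W_6 (nat_lit 6) (nat_lit 0x20001300130008b000a00000000000000000000000000) (nat_lit 0x0) (nat_lit 0x2000300018000c000e0000000080000000000000000000000000) := T_6 (nat_lit 138) (nat_lit 139) (nat_lit 0) (nat_lit 5) (nat_lit 8) L48668 (by decide +kernel)
theorem L48670 : W_6 (nat_lit 7) (nat_lit 0x20001300130008a000a00000000000000000000000000) (nat_lit 0x0) (nat_lit 0x2000300018000c000e0005000080000000000000000000000000) := T_6 (nat_lit 120) (nat_lit 122) (nat_lit 3) (nat_lit 1) (nat_lit 7) L48669 (by decide +kernel)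
theorem L48671 : W_6 (nat_lit 2) (nat_lit 0x20001300130008a000e00000000000000000000000000) (nat_lit 0x0) (nat_lit 0x5000100000000000000000000000000) := D_6 (nat_lit 120) (nat_lit 122) (nat_lit 104) (nat_lit 3) (nat_lit 1) (nat_lit 7) (nat_lit 1) (nat_lit 5) (nat_lit 6) (by decide +kernel)
theorem L48672 : W_6 (nat_lit 3) (nat_lit 0x20001300130008a000a00000000000000000000000000) (nat_lit 0x0) (nat_lit 0x5000500040000000000000000000000) := T_6 (nat_lit 106) (nat_lit 90) (nat_lit 6) (nat_lit 4) (nat_lit 9) L48671 (by decide +kernel)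
theorem L48673 : W_6 (nat_lit 4) (nat_lit 0x20001340130008a000a00000000000000000000000000) (nat_lit 0x0) (nat_lit 0x64003400040000000000000000000000) := T_6 (nat_lit 106) (nat_lit 90) (nat_lit 6) (nat_lit 4) (nat_lit 9) L48146 (by decide +kernel)
theorem L48674 : W_6 (nat_lit 5) (nat_lit 0x20001300130008a000a00000000000000000000000000) (nat_lit 0x0) (nat_lit 0xc00000064003400040000000000000000000000) := T_6 (nat_lit 154) (nat_lit 155) (nat_lit 2) (nat_lit 1) (nat_lit 9) L48673 (by decide +kernel)
theorem L48675 : W_6 (nat_lit 8) (nat_lit 0x200013001300088000a00000000000000000000000000) (nat_lit 0x0) (nat_lit 0x2000300018000c000e006700358004c000000000000000000000) := Q_6 (nat_lit 121) (C_6 L48662 (C_6 L48664 (C_6 L48670 (C_6 L48672 (C_6 L48674 N_6))))) (by decide +kernel)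
theorem L48676 : W_6 (nat_lit 9) (nat_lit 0x200013001300088000800000000000000000000000000) (nat_lit 0x0) (nat_lit 0x2000300018000c000e006700378005c000800000000000000000) := Q_6 (nat_lit 105) (C_6 L48658 (C_6 L48659 (C_6 L48675 N_6))) (by decide +kernel)
theorem L48677 : W_6 (nat_lit 2) (nat_lit 0x20001340130009e000900000000000000000000000000) (nat_lit 0x0) (nat_lit 0x60000200000000000000000000000000) := D_6 (nat_lit 125) (nat_lit 126) (nat_lit 105) (nat_lit 1) (nat_lit 8) (nat_lit 7) (nat_lit 0) (nat_lit 6) (nat_lit 7) (by decide +kernel)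
theorem L48678 : W_6 (nat_lit 3) (nat_lit 0x20001340130009e000800000000000000000000000000) (nat_lit 0x0) (nat_lit 0x60000380000000000000000000000000) := T_6 (nat_lit 104) (nat_lit 103) (nat_lit 0) (nat_lit 5) (nat_lit 7) L48677 (by decide +kernel)
theorem L48679 : W_6 (nat_lit 4) (nat_lit 0x20001340130008e000800000000000000000000000000) (nat_lit 0x0) (nat_lit 0x70001380000000000000000000000000) := T_6 (nat_lit 124) (nat_lit 108) (nat_lit 2) (nat_lit 2) (nat_lit 7) L48678 (by decide +kernel)
theorem L48680 : W_6 (nat_lit 5) (nat_lit 0x20001340130008c000800000000000000000000000000) (nat_lit 0x0) (nat_lit 0x73001380000000000000000000000000) := T_6 (nat_lit 121) (nat_lit 120) (nat_lit 3) (nat_lit 1) (nat_lit 7) L48679 (by decide +kernel)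
theorem L48681 : W_6 (nat_lit 6) (nat_lit 0x20001300130008c000800000000000000000000000000) (nat_lit 0x0) (nat_lit 0xc00000073001380000000000000000000000000) := T_6 (nat_lit 154) (nat_lit 155) (nat_lit 2) (nat_lit 1) (nat_lit 9) L48680 (by decide +kernel)
theorem L48682 : W_6 (nat_lit 2) (nat_lit 0x20001300130008c000a00000000000000000000000000) (nat_lit 0x0) (nat_lit 0x400010000800000000000000000) := D_6 (nat_lit 88) (nat_lit 106) (nat_lit 71) (nat_lit 4) (nat_lit 4) (nat_lit 9) (nat_lit 7) (nat_lit 3) (nat_lit 4) (by decide +kernel)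
theorem L48683 : W_6 (nat_lit 2) (nat_lit 0x20001380138008c000b80000000000000000000000000) (nat_lit 0x0) (nat_lit 0x30000400000000000000000000000000) := D_6 (nat_lit 124) (nat_lit 125) (nat_lit 106) (nat_lit 0) (nat_lit 6) (nat_lit 7) (nat_lit 3) (nat_lit 1) (nat_lit 6) (by decide +kernel)
theorem L48684 : W_6 (nat_lit 3) (nat_lit 0x20001380138008c000b00000000000000000000000000) (nat_lit 0x0) (nat_lit 0x300004c0000000000000000000000000) := T_6 (nat_lit 103) (nat_lit 102) (nat_lit 3) (nat_lit 0) (nat_lit 6) L48683 (by decide +kernel)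
theorem L48685 : W_6 (nat_lit 4) (nat_lit 0x20001380138008c000a00000000000000000000000000) (nat_lit 0x0) (nat_lit 0x300005c0008000000000000000000000) := T_6 (nat_lit 104) (nat_lit 87) (nat_lit 4) (nat_lit 3) (nat_lit 9) L48684 (by decide +kernel)
theorem L48686 : W_6 (nat_lit 5) (nat_lit 0x20001380130008c000a00000000000000000000000000) (nat_lit 0x0) (nat_lit 0x100000000800300005c0008000000000000000000000) := T_6 (nat_lit 139) (nat_lit 172) (nat_lit 5) (nat_lit 3) (nat_lit 6) L48685 (by decide +kernel)
theorem L48687 : W_6 (nat_lit 6) (nat_lit 0x20001300130008c000a00000000000000000000000000) (nat_lit 0x0) (nat_lit 0x10000c000800300005c0008000000000000000000000) := T_6 (nat_lit 155) (nat_lit 154) (nat_lit 2) (nat_lit 1) (nat_lit 9) L48686 (by decide +kernel)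
theorem L48688 : W_6 (nat_lit 7) (nat_lit 0x20001300130008c000800000000000000000000000000) (nat_lit 0x0) (nat_lit 0x10000c000800300007c0018000800000000000000000) := Q_6 (nat_lit 105) (C_6 L48648 (C_6 L48682 (C_6 L48687 N_6))) (by decide +kernel)
theorem L48689 : W_6 (nat_lit 2) (nat_lit 0x2000134013000be000900000000000000000000000000) (nat_lit 0x0) (nat_lit 0xe0000000000000000000000000000000000) := D_6 (nat_lit 138) (nat_lit 137) (nat_lit 139) (nat_lit 1) (nat_lit 5) (nat_lit 7) (nat_lit 2) (nat_lit 2) (nat_lit 8) (by decide +kernel)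
theorem L48690 : W_6 (nat_lit 3) (nat_lit 0x20001340130009e000900000000000000000000000000) (nat_lit 0x0) (nat_lit 0xe0060000000000000000000000000000000) := T_6 (nat_lit 125) (nat_lit 126) (nat_lit 1) (nat_lit 8) (nat_lit 7) L48689 (by decide +kernel)
theorem L48691 : W_6 (nat_lit 4) (nat_lit 0x20001340130009e000800000000000000000000000000) (nat_lit 0x0) (nat_lit 0xe0060000180000000000000000000000000) := T_6 (nat_lit 104) (nat_lit 103) (nat_lit 0) (nat_lit 5) (nat_lit 7) L48690 (by decide +kernel)
theorem L48692 : W_6 (nat_lit 5) (nat_lit 0x20001340130008e000800000000000000000000000000) (nat_lit 0x0) (nat_lit 0xe0070001180000000000000000000000000) := T_6 (nat_lit 124) (nat_lit 108) (nat_lit 2) (nat_lit 2) (nat_lit 7) L48691 (by decide +kernel)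
theorem L48693 : W_6 (nat_lit 6) (nat_lit 0x20001340130008c000800000000000000000000000000) (nat_lit 0x0) (nat_lit 0xe0073001180000000000000000000000000) := T_6 (nat_lit 121) (nat_lit 120) (nat_lit 3) (nat_lit 1) (nat_lit 7) L48692 (by decide +kernel)
theorem L48694 : W_6 (nat_lit 7) (nat_lit 0x20001300130008c000800000000000000000000000000) (nat_lit 0x0) (nat_lit 0xc000e0073001180000000000000000000000000) := T_6 (nat_lit 154) (nat_lit 155) (nat_lit 2) (nat_lit 1) (nat_lit 9) L48693 (by decide +kernel)
theorem L48695 : W_6 (nat_lit 2) (nat_lit 0x20001300130009e000900000000000000000000000000) (nat_lit 0x0) (nat_lit 0x60000200000000000000000000000000) := D_6 (nat_lit 125) (nat_lit 126) (nat_lit 105) (nat_lit 1) (nat_lit 8) (nat_lit 7) (nat_lit 0) (nat_lit 6) (nat_lit 7) (by decide +kernel)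
theorem L48696 : W_6 (nat_lit 3) (nat_lit 0x20001300130009e000800000000000000000000000000) (nat_lit 0x0) (nat_lit 0x60000380000000000000000000000000) := T_6 (nat_lit 104) (nat_lit 103) (nat_lit 0) (nat_lit 5) (nat_lit 7) L48695 (by decide +kernel)
theorem L48697 : W_6 (nat_lit 4) (nat_lit 0x20001300130008e000800000000000000000000000000) (nat_lit 0x0) (nat_lit 0x70001380000000000000000000000000) := T_6 (nat_lit 124) (nat_lit 108) (nat_lit 2) (nat_lit 2) (nat_lit 7) L48696 (by decide +kernel)
theorem L48698 : W_6 (nat_lit 5) (nat_lit 0x20001300130008c000800000000000000000000000000) (nat_lit 0x0) (nat_lit 0x73001380000000000000000000000000) := T_6 (nat_lit 121) (nat_lit 120) (nat_lit 3) (nat_lit 1) (nat_lit 7) L48697 (by decide +kernel)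
theorem L48699 : W_6 (nat_lit 2) (nat_lit 0x2000134013000be000800000000000000000000000000) (nat_lit 0x0) (nat_lit 0xe0000000000000000000000000000000000) := D_6 (nat_lit 138) (nat_lit 137) (nat_lit 139) (nat_lit 1) (nat_lit 5) (nat_lit 7) (nat_lit 2) (nat_lit 2) (nat_lit 8) (by decide +kernel)
theorem L48700 : W_6 (nat_lit 3) (nat_lit 0x20001340130009e000800000000000000000000000000) (nat_lit 0x0) (nat_lit 0xe0060000000000000000000000000000000) := T_6 (nat_lit 125) (nat_lit 126) (nat_lit 1) (nat_lit 8) (nat_lit 7) L48699 (by decide +kernel)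
theorem L48701 : W_6 (nat_lit 4) (nat_lit 0x20001340130008e000800000000000000000000000000) (nat_lit 0x0) (nat_lit 0xe0070001000000000000000000000000000) := T_6 (nat_lit 124) (nat_lit 108) (nat_lit 2) (nat_lit 2) (nat_lit 7) L48700 (by decide +kernel)
theorem L48702 : W_6 (nat_lit 5) (nat_lit 0x20001300130008e000800000000000000000000000000) (nat_lit 0x0) (nat_lit 0xc000e0070001000000000000000000000000000) := T_6 (nat_lit 154) (nat_lit 155) (nat_lit 2) (nat_lit 1) (nat_lit 9) L48701 (by decide +kernel)
theorem L48703 : W_6 (nat_lit 6) (nat_lit 0x20001300130008c000800000000000000000000000000) (nat_lit 0x0) (nat_lit 0xc000e0073001000000000000000000000000000) := T_6 (nat_lit 121) (nat_lit 120) (nat_lit 3) (nat_lit 1) (nat_lit 7) L48702 (by decide +kernel)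
theorem L48704 : W_6 (nat_lit 8) (nat_lit 0x200013001300088000800000000000000000000000000) (nat_lit 0x0) (nat_lit 0x10000c000e00770017c0018000800000000000000000) := Q_6 (nat_lit 122) (C_6 L48656 (C_6 L48681 (C_6 L48688 (C_6 L48694 (C_6 L48698 (C_6 L48703 N_6)))))) (by decide +kernel)
theorem L48705 : W_6 (nat_lit 10) (nat_lit 0x200013001300088000000000000000000000000000000) (nat_lit 0x0) (nat_lit 0x2000300018000c000e0077003fc005c000800000000000000000) := Q_6 (nat_lit 107) (C_6 L48626 (C_6 L48657 (C_6 L48676 (C_6 L48704 N_6)))) (by decide +kernel)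
theorem L48706 : W_6 (nat_lit 2) (nat_lit 0x220013001300088000000000000000000000000000000) (nat_lit 0x0) (nat_lit 0x8000400000000000080000000000000000000000000000000000) := D_6 (nat_lit 190) (nat_lit 207) (nat_lit 139) (nat_lit 6) (nat_lit 3) (nat_lit 12) (nat_lit 6) (nat_lit 3) (nat_lit 11) (by decide +kernel)
theorem L48707 : W_6 (nat_lit 3) (nat_lit 0x200013001300088000000000000000000000000000000) (nat_lit 0x0) (nat_lit 0x8000400020000000080000000400000000000000000000000000) := T_6 (nat_lit 173) (nat_lit 106) (nat_lit 5) (nat_lit 4) (nat_lit 6) L48706 (by decide +kernel)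
theorem L48708 : W_6 (nat_lit 13) (nat_lit 0x200012001300088000000000000000000000000000000) (nat_lit 0x0) (nat_lit 0xa002700138029c008f0077003fc01de008e00000000000000000) := Q_6 (nat_lit 156) (C_6 L48487 (C_6 L48490 (C_6 L48625 (C_6 L48705 (C_6 L48707 N_6))))) (by decide +kernel)
theorem L48709 : W_6 (nat_lit 2) (nat_lit 0x2e0012001300088000000000000000000000000000000) (nat_lit 0x0) (nat_lit 0x100009000000000000000000000000000000000000000) := D_6 (nat_lit 176) (nat_lit 159) (nat_lit 156) (nat_lit 2) (nat_lit 3) (nat_lit 10) (nat_lit 0) (nat_lit 7) (nat_lit 10) (by decide +kernel)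
theorem L48710 : W_6 (nat_lit 3) (nat_lit 0x260012001300088000000000000000000000000000000) (nat_lit 0x0) (nat_lit 0x1000180009000000000000000000000000000000000000000) := T_6 (nat_lit 175) (nat_lit 192) (nat_lit 7) (nat_lit 4) (nat_lit 7) L48709 (by decide +kernel)
theorem L48711 : W_6 (nat_lit 4) (nat_lit 0x240012001300088000000000000000000000000000000) (nat_lit 0x0) (nat_lit 0x14001a0009000000000000000000000000000000000000000) := T_6 (nat_lit 173) (nat_lit 190) (nat_lit 5) (nat_lit 4) (nat_lit 7) L48710 (by decide +kernel)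
theorem L48712 : W_6 (nat_lit 5) (nat_lit 0x200012001300088000000000000000000000000000000) (nat_lit 0x0) (nat_lit 0x28001c001e0009000080014000200000000000000000000000000) := Q_6 (nat_lit 174) (C_6 L41940 (C_6 L47048 (C_6 L41904 (C_6 L48711 N_6)))) (by decide +kernel)
theorem L48713 : W_6 (nat_lit 2) (nat_lit 0x2e0012001300088000400000000000000000000000000) (nat_lit 0x0) (nat_lit 0x10000800040000000000000000000000) := D_6 (nat_lit 107) (nat_lit 124) (nat_lit 90) (nat_lit 6) (nat_lit 4) (nat_lit 10) (nat_lit 6) (nat_lit 4) (nat_lit 9) (by decide +kernel)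
theorem L48714 : W_6 (nat_lit 3) (nat_lit 0x2e0012001300088000000000000000000000000000000) (nat_lit 0x0) (nat_lit 0x1000000010000c00040000000000000000000000) := T_6 (nat_lit 106) (nat_lit 156) (nat_lit 5) (nat_lit 4) (nat_lit 6) L48713 (by decide +kernel)
theorem L48715 : W_6 (nat_lit 4) (nat_lit 0x260012001300088000000000000000000000000000000) (nat_lit 0x0) (nat_lit 0x1000080001000000010000c00040000000000000000000000) := T_6 (nat_lit 175) (nat_lit 192) (nat_lit 7) (nat_lit 4) (nat_lit 7) L48714 (by decide +kernel)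
theorem L48716 : W_6 (nat_lit 5) (nat_lit 0x240012001300088000000000000000000000000000000) (nat_lit 0x0) (nat_lit 0x14000a0001000000010000c00040000000000000000000000) := T_6 (nat_lit 173) (nat_lit 190) (nat_lit 5) (nat_lit 4) (nat_lit 7) L48715 (by decide +kernel)
theorem L48717 : W_6 (nat_lit 6) (nat_lit 0x200012001300088000000000000000000000000000000) (nat_lit 0x0) (nat_lit 0x28001c000e0001000080014000e00040000000000000000000000) := Q_6 (nat_lit 174) (C_6 L41940 (C_6 L47048 (C_6 L41904 (C_6 L48716 N_6)))) (by decide +kernel)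
theorem L48718 : W_6 (nat_lit 14) (nat_lit 0x200010001300088000000000000000000000000000000) (nat_lit 0x0) (nat_lit 0x2a003f001f802bc008f0077003fc01de008e00000000000000000) := Q_6 (nat_lit 157) (C_6 L47052 (C_6 L47105 (C_6 L47057 (C_6 L48708 (C_6 L48712 (C_6 L48717 N_6)))))) (by decide +kernel)
theorem L48719 : W_6 (nat_lit 14) (nat_lit 0x200010001300088000000000000000000000000000000) (nat_lit 0x0) (nat_lit 0x3e001e00eb0008e0077003fc07fe03ff00070001800000000) := Q_6 (nat_lit 124) (C_6 L46108 (C_6 L46426 (C_6 L47909 (C_6 L46203 (C_6 L46415 (C_6 L45415 (C_6 L46156 (C_6 L46446 (C_6 L46517 (C_6 L46552 N_6)))))))))) (by decide +kernel)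
theorem L48720 : W_6 (nat_lit 8) (nat_lit 0x200010001380098000000000000000000000000000000) (nat_lit 0x0) (nat_lit 0x2000100029000800360003c003e000f000000000000000000) := Q_6 (nat_lit 106) (C_6 L46801 (C_6 L45064 N_6)) (by decide +kernel)
theorem L48721 : W_6 (nat_lit 11) (nat_lit 0x200010001300098000000000000000000000000000000) (nat_lit 0x0) (nat_lit 0x2400120029c008e0367003d803ec00f400000000000000000) := Q_6 (nat_lit 139) (C_6 L45312 (C_6 L48720 (C_6 L48340 N_6))) (by decide +kernel)
theorem L48722 : W_6 (nat_lit 2) (nat_lit 0x20001340134009a000400020000000000000000000000) (nat_lit 0x0) (nat_lit 0x800040002000000000000000000) := D_6 (nat_lit 90) (nat_lit 107) (nat_lit 73) (nat_lit 6) (nat_lit 4) (nat_lit 9) (nat_lit 6) (nat_lit 4) (nat_lit 8) (by decide +kernel)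
theorem L48723 : W_6 (nat_lit 3) (nat_lit 0x20001340134009a000400000000000000000000000000) (nat_lit 0x0) (nat_lit 0x800060003000000000000000000) := T_6 (nat_lit 89) (nat_lit 72) (nat_lit 7) (nat_lit 4) (nat_lit 4) L48722 (by decide +kernel)
theorem L48724 : W_6 (nat_lit 4) (nat_lit 0x20001300134009a000400000000000000000000000000) (nat_lit 0x0) (nat_lit 0xc00000000000800060003000000000000000000) := T_6 (nat_lit 154) (nat_lit 155) (nat_lit 2) (nat_lit 1) (nat_lit 9) L48723 (by decide +kernel)
theorem L48725 : W_6 (nat_lit 5) (nat_lit 0x20001200134009a000400000000000000000000000000) (nat_lit 0x0) (nat_lit 0x20001c00000000000800060003000000000000000000) := T_6 (nat_lit 156) (nat_lit 173) (nat_lit 5) (nat_lit 4) (nat_lit 6) L48724 (by decide +kernel)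
theorem L48726 : W_6 (nat_lit 8) (nat_lit 0x20001200134009a000000000000000000000000000000) (nat_lit 0x0) (nat_lit 0x30001c00080001000d80064003200000000000000000) := Q_6 (nat_lit 106) (C_6 L48245 (C_6 L48229 (C_6 L48725 (C_6 L48243 N_6)))) (by decide +kernel)
theorem L48727 : W_6 (nat_lit 9) (nat_lit 0x20001000134009a000000000000000000000000000000) (nat_lit 0x0) (nat_lit 0x18001f0023c00080001000d80064003200000000000000000) := Q_6 (nat_lit 157) (C_6 L48223 (C_6 L48251 (C_6 L48726 N_6))) (by decide +kernel)
theorem L48728 : W_6 (nat_lit 2) (nat_lit 0x20001200136009a000400020000000000000000000000) (nat_lit 0x0) (nat_lit 0x800040002000000000000000000) := D_6 (nat_lit 90) (nat_lit 107) (nat_lit 73) (nat_lit 6) (nat_lit 4) (nat_lit 9) (nat_lit 6) (nat_lit 4) (nat_lit 8) (by decide +kernel)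
theorem L48729 : W_6 (nat_lit 3) (nat_lit 0x20001200136009a000400000000000000000000000000) (nat_lit 0x0) (nat_lit 0x800060003000000000000000000) := T_6 (nat_lit 89) (nat_lit 72) (nat_lit 7) (nat_lit 4) (nat_lit 4) L48728 (by decide +kernel)
theorem L48730 : W_6 (nat_lit 4) (nat_lit 0x20001200134009a000400000000000000000000000000) (nat_lit 0x0) (nat_lit 0xa0000000800060003000000000000000000) := T_6 (nat_lit 137) (nat_lit 139) (nat_lit 2) (nat_lit 1) (nat_lit 8) L48729 (by decide +kernel)
theorem L48731 : W_6 (nat_lit 2) (nat_lit 0x2000138013c009a000500040000000000000000000000) (nat_lit 0x0) (nat_lit 0x280004000000000000000000000) := D_6 (nat_lit 103) (nat_lit 86) (nat_lit 105) (nat_lit 4) (nat_lit 2) (nat_lit 9) (nat_lit 3) (nat_lit 1) (nat_lit 6) (by decide +kernel)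
theorem L48732 : W_6 (nat_lit 3) (nat_lit 0x2000138013c009a000400040000000000000000000000) (nat_lit 0x0) (nat_lit 0x38000c000000000000000000000) := T_6 (nat_lit 104) (nat_lit 87) (nat_lit 7) (nat_lit 2) (nat_lit 5) L48731 (by decide +kernel)
theorem L48733 : W_6 (nat_lit 4) (nat_lit 0x20001380134009a000400040000000000000000000000) (nat_lit 0x0) (nat_lit 0xa000000038000c000000000000000000000) := T_6 (nat_lit 139) (nat_lit 137) (nat_lit 2) (nat_lit 1) (nat_lit 8) L48732 (by decide +kernel)
theorem L48734 : W_6 (nat_lit 5) (nat_lit 0x20001380134009a000400000000000000000000000000) (nat_lit 0x0) (nat_lit 0xa0000000b8004c000000000000000000000) := T_6 (nat_lit 90) (nat_lit 107) (nat_lit 6) (nat_lit 4) (nat_lit 9) L48733 (by decide +kernel)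
theorem L48735 : W_6 (nat_lit 6) (nat_lit 0x20001300134009a000400000000000000000000000000) (nat_lit 0x0) (nat_lit 0xc000a0000000b8004c000000000000000000000) := T_6 (nat_lit 155) (nat_lit 154) (nat_lit 2) (nat_lit 1) (nat_lit 9) L48734 (by decide +kernel)
theorem L48736 : W_6 (nat_lit 7) (nat_lit 0x20001200134009a000400000000000000000000000000) (nat_lit 0x0) (nat_lit 0x20001c000a0000000b8004c000000000000000000000) := T_6 (nat_lit 156) (nat_lit 173) (nat_lit 5) (nat_lit 4) (nat_lit 6) L48735 (by decide +kernel)
theorem L48737 : W_6 (nat_lit 8) (nat_lit 0x20001200134009a000000000000000000000000000000) (nat_lit 0x0) (nat_lit 0x20001c000a0000000f8006c003000000000000000000) := Q_6 (nat_lit 106) (C_6 L48725 (C_6 L48730 (C_6 L48245 (C_6 L48736 N_6)))) (by decide +kernel)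
theorem L48738 : W_6 (nat_lit 2) (nat_lit 0x2c001200136009a000000000000000000000000000000) (nat_lit 0x0) (nat_lit 0x100021000000000000000000000000000000000000000) := D_6 (nat_lit 176) (nat_lit 161) (nat_lit 156) (nat_lit 2) (nat_lit 4) (nat_lit 10) (nat_lit 0) (nat_lit 7) (nat_lit 10) (by decide +kernel)
theorem L48739 : W_6 (nat_lit 3) (nat_lit 0x24001200136009a000000000000000000000000000000) (nat_lit 0x0) (nat_lit 0x1000180021000000000000000000000000000000000000000) := T_6 (nat_lit 175) (nat_lit 192) (nat_lit 7) (nat_lit 4) (nat_lit 7) L48738 (by decide +kernel)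
theorem L48740 : W_6 (nat_lit 4) (nat_lit 0x20001200136009a000000000000000000000000000000) (nat_lit 0x0) (nat_lit 0x18001c0021000000000000000000000000000000000000000) := T_6 (nat_lit 174) (nat_lit 191) (nat_lit 6) (nat_lit 4) (nat_lit 11) L48739 (by decide +kernel)
theorem L48741 : W_6 (nat_lit 5) (nat_lit 0x20001200134009a000000000000000000000000000000) (nat_lit 0x0) (nat_lit 0x18001c00210000a0000000000000000000000000000000000) := T_6 (nat_lit 137) (nat_lit 139) (nat_lit 2) (nat_lit 1) (nat_lit 8) L48740 (by decide +kernel)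
theorem L48742 : W_6 (nat_lit 9) (nat_lit 0x20001000134009a000000000000000000000000000000) (nat_lit 0x0) (nat_lit 0x18001e0023c000a0000000f8006c003000000000000000000) := Q_6 (nat_lit 157) (C_6 L48223 (C_6 L48737 (C_6 L48741 N_6))) (by decide +kernel)
theorem L48743 : W_6 (nat_lit 10) (nat_lit 0x20001000130009a000000000000000000000000000000) (nat_lit 0x0) (nat_lit 0x18000e001f001fc023e000e0001000f8006c003200000000000000000) := Q_6 (nat_lit 138) (C_6 L43670 (C_6 L48222 (C_6 L48727 (C_6 L48742 N_6)))) (by decide +kernel)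
theorem L48744 : W_6 (nat_lit 10) (nat_lit 0x20001000130009a000800000000000000000000000000) (nat_lit 0x0) (nat_lit 0x18000c000e00040017800e0007000000000000000000) := T_6 (nat_lit 122) (nat_lit 108) (nat_lit 2) (nat_lit 2) (nat_lit 7) L44913 (by decide +kernel)
theorem L48745 : W_6 (nat_lit 2) (nat_lit 0x25001080134009e000900000000000000000000000000) (nat_lit 0x0) (nat_lit 0x400020001000000000000000000000000000000000000000) := D_6 (nat_lit 173) (nat_lit 156) (nat_lit 190) (nat_lit 7) (nat_lit 2) (nat_lit 6) (nat_lit 7) (nat_lit 2) (nat_lit 7) (by decide +kernel)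
theorem L48746 : W_6 (nat_lit 3) (nat_lit 0x24001080134009e000900000000000000000000000000) (nat_lit 0x0) (nat_lit 0x400030001000000000000200000000000000000000000000) := T_6 (nat_lit 172) (nat_lit 105) (nat_lit 6) (nat_lit 2) (nat_lit 10) L48745 (by decide +kernel)
theorem L48747 : W_6 (nat_lit 4) (nat_lit 0x24001080134009e000800000000000000000000000000) (nat_lit 0x0) (nat_lit 0x400030001000000000000380000000000000000000000000) := T_6 (nat_lit 104) (nat_lit 103) (nat_lit 0) (nat_lit 5) (nat_lit 7) L48746 (by decide +kernel)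
theorem L48748 : W_6 (nat_lit 5) (nat_lit 0x24001080134009a000800000000000000000000000000) (nat_lit 0x0) (nat_lit 0x400030001000000004001380000000000000000000000000) := T_6 (nat_lit 122) (nat_lit 108) (nat_lit 2) (nat_lit 2) (nat_lit 7) L48747 (by decide +kernel)
theorem L48749 : W_6 (nat_lit 6) (nat_lit 0x20001080134009a000800000000000000000000000000) (nat_lit 0x0) (nat_lit 0x400070003000000004001380000000000000000000000000) := T_6 (nat_lit 174) (nat_lit 157) (nat_lit 6) (nat_lit 4) (nat_lit 10) L48748 (by decide +kernel)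
theorem L48750 : W_6 (nat_lit 8) (nat_lit 0x20001000134009a000800000000000000000000000000) (nat_lit 0x0) (nat_lit 0x4000f8003c00080004001380000000000000000000000000) := Q_6 (nat_lit 155) (C_6 L48314 (C_6 L48306 (C_6 L48312 (C_6 L48749 N_6)))) (by decide +kernel)
theorem L48751 : W_6 (nat_lit 11) (nat_lit 0x20001000130009a000800000000000000000000000000) (nat_lit 0x0) (nat_lit 0x8003d001f802bc000e0004001780000000000000000000000000) := Q_6 (nat_lit 138) (C_6 L48299 (C_6 L48289 (C_6 L48750 N_6))) (by decide +kernel)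
theorem L48752 : W_6 (nat_lit 12) (nat_lit 0x20001000130009a000000000000000000000000000000) (nat_lit 0x0) (nat_lit 0x8003d001f802bc000e0004001f800e0007000000000000000000) := Q_6 (nat_lit 107) (C_6 L48744 (C_6 L47404 (C_6 L48751 N_6))) (by decide +kernel)
theorem L48753 : W_6 (nat_lit 13) (nat_lit 0x200010001300098000000000000000000000000000000) (nat_lit 0x0) (nat_lit 0x18000e003f001fc02be000e0007001f800ec007200000000000000000) := Q_6 (nat_lit 121) (C_6 L48293 (C_6 L47457 (C_6 L48743 (C_6 L48752 N_6)))) (by decide +kernel)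
theorem L48754 : W_6 (nat_lit 14) (nat_lit 0x200010001300088000000000000000000000000000000) (nat_lit 0x0) (nat_lit 0x18000e003f801fc0ebe008e0377003f807ec03f600000000000000000) := Q_6 (nat_lit 124) (C_6 L48721 (C_6 L46777 (C_6 L45883 (C_6 L46981 (C_6 L46517 (C_6 L48753 (C_6 L47288 (C_6 L48360 (C_6 L47867 (C_6 L48401 N_6)))))))))) (by decide +kernel)
theorem L48755 : W_6 (nat_lit 2) (nat_lit 0x2000108013c009c000680000000000000000000000000) (nat_lit 0x0) (nat_lit 0x200010000000000002000000000000000000000000000000) := D_6 (nat_lit 172) (nat_lit 121) (nat_lit 189) (nat_lit 6) (nat_lit 2) (nat_lit 10) (nat_lit 6) (nat_lit 2) (nat_lit 11) (by decide +kernel)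
theorem L48756 : W_6 (nat_lit 3) (nat_lit 0x2000108013c0098000680000000000000000000000000) (nat_lit 0x0) (nat_lit 0x200010000000000006000000010000000000000000000000) := T_6 (nat_lit 122) (nat_lit 88) (nat_lit 5) (nat_lit 3) (nat_lit 5) L48755 (by decide +kernel)
theorem L48757 : W_6 (nat_lit 4) (nat_lit 0x2000100013c0098000680000000000000000000000000) (nat_lit 0x0) (nat_lit 0x200010000c00000006000000010000000000000000000000) := T_6 (nat_lit 155) (nat_lit 154) (nat_lit 1) (nat_lit 5) (nat_lit 8) L48756 (by decide +kernel)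
theorem L48758 : W_6 (nat_lit 5) (nat_lit 0x2000100013c0098000600000000000000000000000000) (nat_lit 0x0) (nat_lit 0x200010000c00000006000180010000000000000000000000) := T_6 (nat_lit 103) (nat_lit 104) (nat_lit 3) (nat_lit 1) (nat_lit 6) L48757 (by decide +kernel)
theorem L48759 : W_6 (nat_lit 6) (nat_lit 0x200010001380098000600000000000000000000000000) (nat_lit 0x0) (nat_lit 0x200010000c00060006000180010000000000000000000000) := T_6 (nat_lit 138) (nat_lit 137) (nat_lit 2) (nat_lit 1) (nat_lit 8) L48758 (by decide +kernel)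
theorem L48760 : W_6 (nat_lit 2) (nat_lit 0x200010001380098000e800c0000000000000000000000) (nat_lit 0x0) (nat_lit 0x1000300000000000000000000000) := D_6 (nat_lit 92) (nat_lit 108) (nat_lit 93) (nat_lit 2) (nat_lit 3) (nat_lit 6) (nat_lit 1) (nat_lit 8) (nat_lit 5) (by decide +kernel)
theorem L48761 : W_6 (nat_lit 3) (nat_lit 0x200010001380098000e80040000000000000000000000) (nat_lit 0x0) (nat_lit 0x1000380004000000000000000000) := T_6 (nat_lit 91) (nat_lit 74) (nat_lit 6) (nat_lit 5) (nat_lit 8) L48760 (by decide +kernel)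
theorem L48762 : W_6 (nat_lit 4) (nat_lit 0x200010001380098000e80000000000000000000000000) (nat_lit 0x0) (nat_lit 0x10003c0006000000000000000000) := T_6 (nat_lit 90) (nat_lit 73) (nat_lit 5) (nat_lit 5) (nat_lit 4) L48761 (by decide +kernel)
theorem L48763 : W_6 (nat_lit 5) (nat_lit 0x200010001380098000e00000000000000000000000000) (nat_lit 0x0) (nat_lit 0x11803c0006000000000000000000) := T_6 (nat_lit 103) (nat_lit 104) (nat_lit 3) (nat_lit 1) (nat_lit 6) L48762 (by decide +kernel)
theorem L48764 : W_6 (nat_lit 2) (nat_lit 0x20001000138009c000f00008002000000000000000000) (nat_lit 0x0) (nat_lit 0x10000c00000000000000000) := D_6 (nat_lit 88) (nat_lit 70) (nat_lit 71) (nat_lit 4) (nat_lit 3) (nat_lit 8) (nat_lit 7) (nat_lit 3) (nat_lit 4) (by decide +kernel)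
theorem L48765 : W_6 (nat_lit 3) (nat_lit 0x200010001380098000f00008002000000000000000000) (nat_lit 0x0) (nat_lit 0x1000000004000000010000c00000000000000000) := T_6 (nat_lit 122) (nat_lit 156) (nat_lit 4) (nat_lit 3) (nat_lit 9) L48764 (by decide +kernel)
theorem L48766 : W_6 (nat_lit 4) (nat_lit 0x200010001380098000f00000002000000000000000000) (nat_lit 0x0) (nat_lit 0x100000000400000001c000c00000000000000000) := T_6 (nat_lit 87) (nat_lit 86) (nat_lit 0) (nat_lit 5) (nat_lit 6) L48765 (by decide +kernel)
theorem L48767 : W_6 (nat_lit 5) (nat_lit 0x200010001380098000e00000002000000000000000000) (nat_lit 0x0) (nat_lit 0x100000000400018001c000c00000000000000000) := T_6 (nat_lit 104) (nat_lit 103) (nat_lit 3) (nat_lit 1) (nat_lit 6) L48766 (by decide +kernel)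
theorem L48768 : W_6 (nat_lit 6) (nat_lit 0x200010001380098000e00000000000000000000000000) (nat_lit 0x0) (nat_lit 0x100000000400018005c002c00000000000000000) := T_6 (nat_lit 73) (nat_lit 90) (nat_lit 5) (nat_lit 5) (nat_lit 4) L48767 (by decide +kernel)
theorem L48769 : W_6 (nat_lit 2) (nat_lit 0x200010001380098001f00008000000000000000000000) (nat_lit 0x0) (nat_lit 0x44002000000000000000000000000000) := D_6 (nat_lit 109) (nat_lit 122) (nat_lit 126) (nat_lit 1) (nat_lit 7) (nat_lit 6) (nat_lit 3) (nat_lit 4) (nat_lit 6) (by decide +kernel)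
theorem L48770 : W_6 (nat_lit 3) (nat_lit 0x200010001380098000f00008000000000000000000000) (nat_lit 0x0) (nat_lit 0x44003000010000000000000000000000) := T_6 (nat_lit 108) (nat_lit 88) (nat_lit 0) (nat_lit 6) (nat_lit 6) L48769 (by decide +kernel)
theorem L48771 : W_6 (nat_lit 4) (nat_lit 0x200010001380098000f00000000000000000000000000) (nat_lit 0x0) (nat_lit 0x4400300001c000000000000000000000) := T_6 (nat_lit 87) (nat_lit 86) (nat_lit 0) (nat_lit 5) (nat_lit 6) L48770 (by decide +kernel)
theorem L48772 : W_6 (nat_lit 5) (nat_lit 0x200010001380098000e00000000000000000000000000) (nat_lit 0x0) (nat_lit 0x4400318001c000000000000000000000) := T_6 (nat_lit 104) (nat_lit 103) (nat_lit 3) (nat_lit 1) (nat_lit 6) L48771 (by decide +kernel)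
theorem L48773 : W_6 (nat_lit 3) (nat_lit 0x200010001380098000e00040000000000000000000000) (nat_lit 0x0) (nat_lit 0x1000380004000000000000000000) := T_6 (nat_lit 91) (nat_lit 74) (nat_lit 6) (nat_lit 5) (nat_lit 8) L45568 (by decide +kernel)
theorem L48774 : W_6 (nat_lit 4) (nat_lit 0x200010001380098000e00000000000000000000000000) (nat_lit 0x0) (nat_lit 0x10003c0006000000000000000000) := T_6 (nat_lit 90) (nat_lit 73) (nat_lit 5) (nat_lit 5) (nat_lit 4) L48773 (by decide +kernel)
theorem L48775 : W_6 (nat_lit 7) (nat_lit 0x200010001380098000600000000000000000000000000) (nat_lit 0x0) (nat_lit 0x10000000440039803dc006c00000000000000000) := Q_6 (nat_lit 107) (C_6 L48763 (C_6 L48768 (C_6 L48772 (C_6 L48774 N_6)))) (by decide +kernel)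
theorem L48776 : W_6 (nat_lit 2) (nat_lit 0x2000108013c009a000700000000000000000000000000) (nat_lit 0x0) (nat_lit 0x20001000000000000000008000000000000000000000) := D_6 (nat_lit 156) (nat_lit 87) (nat_lit 173) (nat_lit 7) (nat_lit 2) (nat_lit 5) (nat_lit 7) (nat_lit 2) (nat_lit 6) (by decide +kernel)
theorem L48777 : W_6 (nat_lit 3) (nat_lit 0x2000108013c0098000700000000000000000000000000) (nat_lit 0x0) (nat_lit 0x20001000000002000000018000000000000000000000) := T_6 (nat_lit 121) (nat_lit 88) (nat_lit 6) (nat_lit 2) (nat_lit 9) L48776 (by decide +kernel)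
theorem L48778 : W_6 (nat_lit 4) (nat_lit 0x2000100013c0098000700000000000000000000000000) (nat_lit 0x0) (nat_lit 0x20001c00000002000000018000000000000000000000) := T_6 (nat_lit 155) (nat_lit 154) (nat_lit 1) (nat_lit 5) (nat_lit 8) L48777 (by decide +kernel)
theorem L48779 : W_6 (nat_lit 5) (nat_lit 0x200010001380098000700000000000000000000000000) (nat_lit 0x0) (nat_lit 0x20001c00060002000000018000000000000000000000) := T_6 (nat_lit 138) (nat_lit 137) (nat_lit 2) (nat_lit 1) (nat_lit 8) L48778 (by decide +kernel)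
theorem L48780 : W_6 (nat_lit 6) (nat_lit 0x200010001380098000600000000000000000000000000) (nat_lit 0x0) (nat_lit 0x20001c00060002000180018000000000000000000000) := T_6 (nat_lit 104) (nat_lit 103) (nat_lit 3) (nat_lit 1) (nat_lit 6) L48779 (by decide +kernel)
theorem L48781 : W_6 (nat_lit 2) (nat_lit 0x2000110013a009c000600000000000000000000000000) (nat_lit 0x0) (nat_lit 0x180008000000000000000000000) := D_6 (nat_lit 104) (nat_lit 103) (nat_lit 87) (nat_lit 3) (nat_lit 1) (nat_lit 6) (nat_lit 4) (nat_lit 3) (nat_lit 9) (by decide +kernel)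
theorem L48782 : W_6 (nat_lit 3) (nat_lit 0x2000100013a009c000600000000000000000000000000) (nat_lit 0x0) (nat_lit 0x20001000000000000180008000000000000000000000) := T_6 (nat_lit 156) (nat_lit 173) (nat_lit 6) (nat_lit 3) (nat_lit 10) L48781 (by decide +kernel)
theorem L48783 : W_6 (nat_lit 4) (nat_lit 0x20001000138009c000600000000000000000000000000) (nat_lit 0x0) (nat_lit 0x20001000060000000180008000000000000000000000) := T_6 (nat_lit 137) (nat_lit 138) (nat_lit 2) (nat_lit 1) (nat_lit 8) L48782 (by decide +kernel)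
theorem L48784 : W_6 (nat_lit 2) (nat_lit 0x20001000138009c000700000000000000000000000000) (nat_lit 0x0) (nat_lit 0x20001000000000000000008000000000000000000000) := D_6 (nat_lit 156) (nat_lit 173) (nat_lit 87) (nat_lit 6) (nat_lit 3) (nat_lit 10) (nat_lit 4) (nat_lit 3) (nat_lit 9) (by decide +kernel)
theorem L48785 : W_6 (nat_lit 3) (nat_lit 0x20001000138009c000600000000000000000000000000) (nat_lit 0x0) (nat_lit 0x20001000000000000180008000000000000000000000) := T_6 (nat_lit 104) (nat_lit 103) (nat_lit 3) (nat_lit 1) (nat_lit 6) L48784 (by decide +kernel)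
theorem L48786 : W_6 (nat_lit 3) (nat_lit 0x2000100013c009c000680000000000000000000000000) (nat_lit 0x0) (nat_lit 0x200010000c00000002000000000000000000000000000000) := T_6 (nat_lit 155) (nat_lit 154) (nat_lit 1) (nat_lit 5) (nat_lit 8) L48755 (by decide +kernel)
theorem L48787 : W_6 (nat_lit 4) (nat_lit 0x2000100013c009c000600000000000000000000000000) (nat_lit 0x0) (nat_lit 0x200010000c00000002000180000000000000000000000000) := T_6 (nat_lit 103) (nat_lit 104) (nat_lit 3) (nat_lit 1) (nat_lit 6) L48786 (by decide +kernel)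
theorem L48788 : W_6 (nat_lit 5) (nat_lit 0x20001000138009c000600000000000000000000000000) (nat_lit 0x0) (nat_lit 0x200010000c00060002000180000000000000000000000000) := T_6 (nat_lit 138) (nat_lit 137) (nat_lit 2) (nat_lit 1) (nat_lit 8) L48787 (by decide +kernel)
theorem L48789 : W_6 (nat_lit 2) (nat_lit 0x2200108013c009c000600000000000000000000000000) (nat_lit 0x0) (nat_lit 0x200010000000000002000000000000000000000000000000) := D_6 (nat_lit 172) (nat_lit 189) (nat_lit 121) (nat_lit 6) (nat_lit 2) (nat_lit 11) (nat_lit 6) (nat_lit 2) (nat_lit 10) (by decide +kernel)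
theorem L48790 : W_6 (nat_lit 3) (nat_lit 0x2200100013c009c000600000000000000000000000000) (nat_lit 0x0) (nat_lit 0x200010000c00000002000000000000000000000000000000) := T_6 (nat_lit 155) (nat_lit 154) (nat_lit 1) (nat_lit 5) (nat_lit 8) L48789 (by decide +kernel)
theorem L48791 : W_6 (nat_lit 4) (nat_lit 0x22001000138009c000600000000000000000000000000) (nat_lit 0x0) (nat_lit 0x200010000c00060002000000000000000000000000000000) := T_6 (nat_lit 138) (nat_lit 137) (nat_lit 2) (nat_lit 1) (nat_lit 8) L48790 (by decide +kernel)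
theorem L48792 : W_6 (nat_lit 5) (nat_lit 0x20001000138009c000600000000000000000000000000) (nat_lit 0x0) (nat_lit 0x200030001c00060002000000000000000000000000000000) := T_6 (nat_lit 173) (nat_lit 156) (nat_lit 6) (nat_lit 3) (nat_lit 10) L48791 (by decide +kernel)
theorem L48793 : W_6 (nat_lit 6) (nat_lit 0x200010001380098000600000000000000000000000000) (nat_lit 0x0) (nat_lit 0x200030001c00060006000180008000000000000000000000) := Q_6 (nat_lit 122) (C_6 L48783 (C_6 L48785 (C_6 L48788 (C_6 L48792 N_6)))) (by decide +kernel)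
theorem L48794 : W_6 (nat_lit 2) (nat_lit 0x2000108013c009c000600000000000000000000000000) (nat_lit 0x0) (nat_lit 0x30001000000000000000000000000000000000000000) := D_6 (nat_lit 156) (nat_lit 172) (nat_lit 173) (nat_lit 5) (nat_lit 3) (nat_lit 6) (nat_lit 6) (nat_lit 3) (nat_lit 10) (by decide +kernel)
theorem L48795 : W_6 (nat_lit 3) (nat_lit 0x2000108013c0098000600000000000000000000000000) (nat_lit 0x0) (nat_lit 0x30001000000004000000010000000000000000000000) := T_6 (nat_lit 122) (nat_lit 88) (nat_lit 5) (nat_lit 3) (nat_lit 5) L48794 (by decide +kernel)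
theorem L48796 : W_6 (nat_lit 4) (nat_lit 0x2000100013c0098000600000000000000000000000000) (nat_lit 0x0) (nat_lit 0x30001c00000004000000010000000000000000000000) := T_6 (nat_lit 155) (nat_lit 154) (nat_lit 1) (nat_lit 5) (nat_lit 8) L48795 (by decide +kernel)
theorem L48797 : W_6 (nat_lit 5) (nat_lit 0x200010001380098000600000000000000000000000000) (nat_lit 0x0) (nat_lit 0x30001c00060004000000010000000000000000000000) := T_6 (nat_lit 138) (nat_lit 137) (nat_lit 2) (nat_lit 1) (nat_lit 8) L48796 (by decide +kernel)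
theorem L48798 : W_6 (nat_lit 8) (nat_lit 0x200010001380098000400000000000000000000000000) (nat_lit 0x0) (nat_lit 0x200030001c00060046003b803dc006c00000000000000000) := Q_6 (nat_lit 105) (C_6 L48759 (C_6 L48775 (C_6 L48780 (C_6 L48793 (C_6 L48797 N_6))))) (by decide +kernel)
theorem L48799 : W_6 (nat_lit 9) (nat_lit 0x200010001380098000000000000000000000000000000) (nat_lit 0x0) (nat_lit 0x200030001c00060046003f803fc007c00000000000000000) := Q_6 (nat_lit 106) (C_6 L45253 (C_6 L45064 (C_6 L48798 N_6))) (by decide +kernel)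
theorem L48800 : W_6 (nat_lit 10) (nat_lit 0x200010001300098000000000000000000000000000000) (nat_lit 0x0) (nat_lit 0x2200130029c008e0366003f803fc00fc00000000000000000) := Q_6 (nat_lit 139) (C_6 L48720 (C_6 L45312 (C_6 L48799 N_6))) (by decide +kernel)
theorem L48801 : W_6 (nat_lit 2) (nat_lit 0x200013401380098000f00008000000000000000000000) (nat_lit 0x0) (nat_lit 0x60002000000000000000000000000000000) := D_6 (nat_lit 138) (nat_lit 137) (nat_lit 121) (nat_lit 2) (nat_lit 1) (nat_lit 8) (nat_lit 7) (nat_lit 2) (nat_lit 5) (by decide +kernel)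
theorem L48802 : W_6 (nat_lit 3) (nat_lit 0x200013401300098000f00008000000000000000000000) (nat_lit 0x0) (nat_lit 0xe0006000000000000000000000000000000) := T_6 (nat_lit 139) (nat_lit 122) (nat_lit 4) (nat_lit 3) (nat_lit 9) L48801 (by decide +kernel)
theorem L48803 : W_6 (nat_lit 4) (nat_lit 0x200013401300098000f00000000000000000000000000) (nat_lit 0x0) (nat_lit 0xe000600000000c000000000000000000000) := T_6 (nat_lit 87) (nat_lit 86) (nat_lit 0) (nat_lit 5) (nat_lit 6) L48802 (by decide +kernel)
theorem L48804 : W_6 (nat_lit 5) (nat_lit 0x200013001300098000f00000000000000000000000000) (nat_lit 0x0) (nat_lit 0xc000e000600000000c000000000000000000000) := T_6 (nat_lit 154) (nat_lit 155) (nat_lit 2) (nat_lit 1) (nat_lit 9) L48803 (by decide +kernel)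
theorem L48805 : W_6 (nat_lit 6) (nat_lit 0x200012001300098000f00000000000000000000000000) (nat_lit 0x0) (nat_lit 0x20001c000e000600000000c000000000000000000000) := T_6 (nat_lit 156) (nat_lit 173) (nat_lit 5) (nat_lit 4) (nat_lit 6) L48804 (by decide +kernel)
theorem L48806 : W_6 (nat_lit 7) (nat_lit 0x200012001300098000e00000000000000000000000000) (nat_lit 0x0) (nat_lit 0x20001c000e000600018000c000000000000000000000) := T_6 (nat_lit 104) (nat_lit 103) (nat_lit 3) (nat_lit 1) (nat_lit 6) L48805 (by decide +kernel)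
theorem L48807 : W_6 (nat_lit 8) (nat_lit 0x200012001300098000c00000000000000000000000000) (nat_lit 0x0) (nat_lit 0x20001c000e000600038001c000000000000000000000) := T_6 (nat_lit 105) (nat_lit 88) (nat_lit 4) (nat_lit 4) (nat_lit 9) L48806 (by decide +kernel)
theorem L48808 : W_6 (nat_lit 9) (nat_lit 0x200012001300098000400000000000000000000000000) (nat_lit 0x0) (nat_lit 0x20001c000e0006000b8005c000000000000000000000) := T_6 (nat_lit 107) (nat_lit 90) (nat_lit 6) (nat_lit 4) (nat_lit 9) L48807 (by decide +kernel)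
theorem L48809 : W_6 (nat_lit 10) (nat_lit 0x200012001300098000000000000000000000000000000) (nat_lit 0x0) (nat_lit 0x20001c000e0006000f8007c003800000000000000000) := Q_6 (nat_lit 106) (C_6 L46405 (C_6 L45666 (C_6 L48808 N_6))) (by decide +kernel)
theorem L48810 : W_6 (nat_lit 11) (nat_lit 0x200010001300098000000000000000000000000000000) (nat_lit 0x0) (nat_lit 0x1c001e002bc000e0006000f8007c003800000000000000000) := Q_6 (nat_lit 157) (C_6 L46403 (C_6 L48809 (C_6 L46179 N_6))) (by decide +kernel)
theorem L48811 : W_6 (nat_lit 2) (nat_lit 0x2000120013800bc000800000000000000000000000000) (nat_lit 0x0) (nat_lit 0x2003000000000000000000000000000) := D_6 (nat_lit 108) (nat_lit 109) (nat_lit 121) (nat_lit 2) (nat_lit 3) (nat_lit 7) (nat_lit 2) (nat_lit 2) (nat_lit 7) (by decide +kernel)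
theorem L48812 : W_6 (nat_lit 3) (nat_lit 0x2000120013800bc000000000000000000000000000000) (nat_lit 0x0) (nat_lit 0x2003800040000000000000000000000) := T_6 (nat_lit 107) (nat_lit 90) (nat_lit 5) (nat_lit 5) (nat_lit 5) L48811 (by decide +kernel)
theorem L48813 : W_6 (nat_lit 4) (nat_lit 0x20001200138009c000000000000000000000000000000) (nat_lit 0x0) (nat_lit 0x62003800040000000000000000000000) := T_6 (nat_lit 125) (nat_lit 126) (nat_lit 1) (nat_lit 7) (nat_lit 7) L48812 (by decide +kernel)
theorem L48814 : W_6 (nat_lit 2) (nat_lit 0x20001200138009e000b00000000000000000000000000) (nat_lit 0x0) (nat_lit 0x1000000000000000008000400000000000000000) := D_6 (nat_lit 87) (nat_lit 70) (nat_lit 156) (nat_lit 7) (nat_lit 2) (nat_lit 4) (nat_lit 4) (nat_lit 3) (nat_lit 9) (by decide +kernel)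
theorem L48815 : W_6 (nat_lit 3) (nat_lit 0x20001200138009e000a00000000000000000000000000) (nat_lit 0x0) (nat_lit 0x1000000000000180008000400000000000000000) := T_6 (nat_lit 104) (nat_lit 103) (nat_lit 0) (nat_lit 5) (nat_lit 7) L48814 (by decide +kernel)
theorem L48816 : W_6 (nat_lit 4) (nat_lit 0x20001200138009c000a00000000000000000000000000) (nat_lit 0x0) (nat_lit 0x1000000002001180008000400000000000000000) := T_6 (nat_lit 121) (nat_lit 108) (nat_lit 2) (nat_lit 2) (nat_lit 7) L48815 (by decide +kernel)
theorem L48817 : W_6 (nat_lit 5) (nat_lit 0x20001200138009c000200000000000000000000000000) (nat_lit 0x0) (nat_lit 0x1000000002001980048000400000000000000000) := T_6 (nat_lit 107) (nat_lit 90) (nat_lit 5) (nat_lit 5) (nat_lit 5) L48816 (by decide +kernel)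
theorem L48818 : W_6 (nat_lit 6) (nat_lit 0x20001200138009c000000000000000000000000000000) (nat_lit 0x0) (nat_lit 0x1000000002001b80058000400000000000000000) := T_6 (nat_lit 105) (nat_lit 88) (nat_lit 7) (nat_lit 3) (nat_lit 5) L48817 (by decide +kernel)
theorem L48819 : W_6 (nat_lit 7) (nat_lit 0x200012001380098000000000000000000000000000000) (nat_lit 0x0) (nat_lit 0x1000000066003b80058000400000000000000000) := Q_6 (nat_lit 122) (C_6 L48813 (C_6 L46417 (C_6 L48818 N_6))) (by decide +kernel)
theorem L48820 : W_6 (nat_lit 2) (nat_lit 0x2000120013c009e000900000000000000000000000000) (nat_lit 0x0) (nat_lit 0x20001000000000000000008000000000000000000000) := D_6 (nat_lit 156) (nat_lit 173) (nat_lit 87) (nat_lit 4) (nat_lit 3) (nat_lit 10) (nat_lit 7) (nat_lit 2) (nat_lit 5) (by decide +kernel)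
theorem L48821 : W_6 (nat_lit 3) (nat_lit 0x2000120013c009e000800000000000000000000000000) (nat_lit 0x0) (nat_lit 0x20001000000000000180008000000000000000000000) := T_6 (nat_lit 104) (nat_lit 103) (nat_lit 0) (nat_lit 5) (nat_lit 7) L48820 (by decide +kernel)
theorem L48822 : W_6 (nat_lit 4) (nat_lit 0x2000120013c009c000800000000000000000000000000) (nat_lit 0x0) (nat_lit 0x20001000000002001180008000000000000000000000) := T_6 (nat_lit 121) (nat_lit 108) (nat_lit 2) (nat_lit 2) (nat_lit 7) L48821 (by decide +kernel)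
theorem L48823 : W_6 (nat_lit 5) (nat_lit 0x20001200138009c000800000000000000000000000000) (nat_lit 0x0) (nat_lit 0x20001000060002001180008000000000000000000000) := T_6 (nat_lit 138) (nat_lit 137) (nat_lit 2) (nat_lit 1) (nat_lit 8) L48822 (by decide +kernel)
theorem L48824 : W_6 (nat_lit 6) (nat_lit 0x20001200138009c000000000000000000000000000000) (nat_lit 0x0) (nat_lit 0x20001000060002001980048000000000000000000000) := T_6 (nat_lit 107) (nat_lit 90) (nat_lit 5) (nat_lit 5) (nat_lit 5) L48823 (by decide +kernel)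
theorem L48825 : W_6 (nat_lit 2) (nat_lit 0x2000128013c009c000200040000000000000000000000) (nat_lit 0x0) (nat_lit 0x200010000000000002000000000000000000000000000000) := D_6 (nat_lit 172) (nat_lit 189) (nat_lit 121) (nat_lit 6) (nat_lit 2) (nat_lit 11) (nat_lit 6) (nat_lit 2) (nat_lit 10) (by decide +kernel)
theorem L48826 : W_6 (nat_lit 3) (nat_lit 0x2000120013c009c000200040000000000000000000000) (nat_lit 0x0) (nat_lit 0x200010000c00000002000000000000000000000000000000) := T_6 (nat_lit 155) (nat_lit 154) (nat_lit 1) (nat_lit 5) (nat_lit 8) L48825 (by decide +kernel)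
theorem L48827 : W_6 (nat_lit 4) (nat_lit 0x2000120013c009c000000040000000000000000000000) (nat_lit 0x0) (nat_lit 0x200010000c00000002000200010000000000000000000000) := T_6 (nat_lit 105) (nat_lit 88) (nat_lit 7) (nat_lit 3) (nat_lit 5) L48826 (by decide +kernel)
theorem L48828 : W_6 (nat_lit 5) (nat_lit 0x20001200138009c000000040000000000000000000000) (nat_lit 0x0) (nat_lit 0x200010000c00060002000200010000000000000000000000) := T_6 (nat_lit 138) (nat_lit 137) (nat_lit 2) (nat_lit 1) (nat_lit 8) L48827 (by decide +kernel)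
theorem L48829 : W_6 (nat_lit 6) (nat_lit 0x20001200138009c000000000000000000000000000000) (nat_lit 0x0) (nat_lit 0x200010000c00060002000a00050000000000000000000000) := T_6 (nat_lit 90) (nat_lit 107) (nat_lit 5) (nat_lit 5) (nat_lit 5) L48828 (by decide +kernel)
theorem L48830 : W_6 (nat_lit 2) (nat_lit 0x2000128013c009c000200000000000000000000000000) (nat_lit 0x0) (nat_lit 0x10001000000002000000000000000000000000000000) := D_6 (nat_lit 172) (nat_lit 121) (nat_lit 156) (nat_lit 6) (nat_lit 2) (nat_lit 10) (nat_lit 5) (nat_lit 3) (nat_lit 6) (by decide +kernel)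
theorem L48831 : W_6 (nat_lit 3) (nat_lit 0x2000120013c009c000200000000000000000000000000) (nat_lit 0x0) (nat_lit 0x10001c00000002000000000000000000000000000000) := T_6 (nat_lit 155) (nat_lit 154) (nat_lit 1) (nat_lit 5) (nat_lit 8) L48830 (by decide +kernel)
theorem L48832 : W_6 (nat_lit 4) (nat_lit 0x20001200138009c000200000000000000000000000000) (nat_lit 0x0) (nat_lit 0x10001c00060002000000000000000000000000000000) := T_6 (nat_lit 138) (nat_lit 137) (nat_lit 2) (nat_lit 1) (nat_lit 8) L48831 (by decide +kernel)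
theorem L48833 : W_6 (nat_lit 5) (nat_lit 0x20001200138009c000000000000000000000000000000) (nat_lit 0x0) (nat_lit 0x10001c00060002000200010000000000000000000000) := T_6 (nat_lit 105) (nat_lit 88) (nat_lit 7) (nat_lit 3) (nat_lit 5) L48832 (by decide +kernel)
theorem L48834 : W_6 (nat_lit 2) (nat_lit 0x2000128013c009c000200040000000000000000000000) (nat_lit 0x0) (nat_lit 0x200010001000000000000000000000000000000000000000) := D_6 (nat_lit 172) (nat_lit 189) (nat_lit 156) (nat_lit 6) (nat_lit 2) (nat_lit 11) (nat_lit 5) (nat_lit 3) (nat_lit 6) (by decide +kernel)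
theorem L48835 : W_6 (nat_lit 3) (nat_lit 0x2000128013c009c000000040000000000000000000000) (nat_lit 0x0) (nat_lit 0x200010001000000000000200010000000000000000000000) := T_6 (nat_lit 105) (nat_lit 88) (nat_lit 7) (nat_lit 3) (nat_lit 5) L48834 (by decide +kernel)
theorem L48836 : W_6 (nat_lit 4) (nat_lit 0x2000120013c009c000000040000000000000000000000) (nat_lit 0x0) (nat_lit 0x200010001c00000000000200010000000000000000000000) := T_6 (nat_lit 155) (nat_lit 154) (nat_lit 1) (nat_lit 5) (nat_lit 8) L48835 (by decide +kernel)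
theorem L48837 : W_6 (nat_lit 5) (nat_lit 0x2000120013c009c000000000000000000000000000000) (nat_lit 0x0) (nat_lit 0x200010001c00000000000a00050000000000000000000000) := T_6 (nat_lit 90) (nat_lit 107) (nat_lit 5) (nat_lit 5) (nat_lit 5) L48836 (by decide +kernel)
theorem L48838 : W_6 (nat_lit 6) (nat_lit 0x20001200138009c000000000000000000000000000000) (nat_lit 0x0) (nat_lit 0x200010001c00060000000a00050000000000000000000000) := T_6 (nat_lit 138) (nat_lit 137) (nat_lit 2) (nat_lit 1) (nat_lit 8) L48837 (by decide +kernel)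
theorem L48839 : W_6 (nat_lit 7) (nat_lit 0x200012001380098000000000000000000000000000000) (nat_lit 0x0) (nat_lit 0x200030001c00060006001b80058000400000000000000000) := Q_6 (nat_lit 122) (C_6 L48824 (C_6 L48818 (C_6 L48829 (C_6 L48833 (C_6 L48838 N_6))))) (by decide +kernel)
theorem L48840 : W_6 (nat_lit 8) (nat_lit 0x200012001300098000000000000000000000000000000) (nat_lit 0x0) (nat_lit 0x200030001c000e0066003b80058000400000000000000000) := Q_6 (nat_lit 139) (C_6 L45884 (C_6 L48819 (C_6 L48839 N_6))) (by decide +kernel)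
theorem L48841 : W_6 (nat_lit 9) (nat_lit 0x200010001300098000000000000000000000000000000) (nat_lit 0x0) (nat_lit 0x1e001f002bc000e0066003b80058000400000000000000000) := Q_6 (nat_lit 157) (C_6 L46403 (C_6 L48840 (C_6 L46179 N_6))) (by decide +kernel)
theorem L48842 : W_6 (nat_lit 14) (nat_lit 0x200010001300088000000000000000000000000000000) (nat_lit 0x0) (nat_lit 0x800040003e001f002bc008e0376003f803fc00fc00000000000000000) := Q_6 (nat_lit 124) (C_6 L48800 (C_6 L46705 (C_6 L47909 (C_6 L46426 (C_6 L46981 (C_6 L48810 (C_6 L48841 (C_6 L46203 N_6)))))))) (by decide +kernel)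
theorem L48843 : W_6 (nat_lit 2) (nat_lit 0x2000108013c00980006000f0000000000000000000000) (nat_lit 0x0) (nat_lit 0x80000000c000000000000000000) := D_6 (nat_lit 74) (nat_lit 75) (nat_lit 107) (nat_lit 2) (nat_lit 3) (nat_lit 5) (nat_lit 6) (nat_lit 5) (nat_lit 8) (by decide +kernel)
theorem L48844 : W_6 (nat_lit 3) (nat_lit 0x2000108013c0098000600070000000000000000000000) (nat_lit 0x0) (nat_lit 0x80018000c000000000000000000) := T_6 (nat_lit 91) (nat_lit 92) (nat_lit 1) (nat_lit 7) (nat_lit 5) L48843 (by decide +kernel)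
theorem L48845 : W_6 (nat_lit 4) (nat_lit 0x2000108013c0098000400070000000000000000000000) (nat_lit 0x0) (nat_lit 0x4000a0018000c000000000000000000) := T_6 (nat_lit 105) (nat_lit 122) (nat_lit 5) (nat_lit 3) (nat_lit 5) L48844 (by decide +kernel)
theorem L48846 : W_6 (nat_lit 5) (nat_lit 0x2000108013c0098000400060000000000000000000000) (nat_lit 0x0) (nat_lit 0x4000a0019000c800000000000000000) := T_6 (nat_lit 88) (nat_lit 71) (nat_lit 4) (nat_lit 4) (nat_lit 8) L48845 (by decide +kernel)
theorem L48847 : W_6 (nat_lit 6) (nat_lit 0x2000108013c0098000400020000000000000000000000) (nat_lit 0x0) (nat_lit 0x4000a001d000e800000000000000000) := T_6 (nat_lit 90) (nat_lit 73) (nat_lit 6) (nat_lit 4) (nat_lit 8) L48846 (by decide +kernel)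
theorem L48848 : W_6 (nat_lit 7) (nat_lit 0x2000100013c0098000400020000000000000000000000) (nat_lit 0x0) (nat_lit 0xc00000004000a001d000e800000000000000000) := T_6 (nat_lit 155) (nat_lit 154) (nat_lit 1) (nat_lit 5) (nat_lit 8) L48847 (by decide +kernel)
theorem L48849 : W_6 (nat_lit 8) (nat_lit 0x2000100013c0098000400000000000000000000000000) (nat_lit 0x0) (nat_lit 0xc00000004000a001f000f800000000000000000) := T_6 (nat_lit 89) (nat_lit 72) (nat_lit 7) (nat_lit 4) (nat_lit 4) L48848 (by decide +kernel)
theorem L48850 : W_6 (nat_lit 9) (nat_lit 0x200010001380098000400000000000000000000000000) (nat_lit 0x0) (nat_lit 0xc00060004000a001f000f800000000000000000) := T_6 (nat_lit 138) (nat_lit 137) (nat_lit 2) (nat_lit 1) (nat_lit 8) L48849 (by decide +kernel)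
theorem L48851 : W_6 (nat_lit 2) (nat_lit 0x4002200108013c0098000400000000000000000000000000) (nat_lit 0x0) (nat_lit 0x10000000000003000000000000000000000000000000) := D_6 (nat_lit 121) (nat_lit 120) (nat_lit 172) (nat_lit 0) (nat_lit 5) (nat_lit 8) (nat_lit 7) (nat_lit 2) (nat_lit 7) (by decide +kernel)
theorem L48852 : W_6 (nat_lit 3) (nat_lit 0x4002200100013c0098000400000000000000000000000000) (nat_lit 0x0) (nat_lit 0x10000c00000003000000000000000000000000000000) := T_6 (nat_lit 155) (nat_lit 154) (nat_lit 1) (nat_lit 5) (nat_lit 8) L48851 (by decide +kernel)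
theorem L48853 : W_6 (nat_lit 4) (nat_lit 0x2200100013c0098000400000000000000000000000000) (nat_lit 0x0) (nat_lit 0x400010001c00000003000000000000000000000000000000) := T_6 (nat_lit 190) (nat_lit 156) (nat_lit 6) (nat_lit 3) (nat_lit 11) L48852 (by decide +kernel)
theorem L48854 : W_6 (nat_lit 5) (nat_lit 0x220010001380098000400000000000000000000000000) (nat_lit 0x0) (nat_lit 0x400010001c00060003000000000000000000000000000000) := T_6 (nat_lit 138) (nat_lit 137) (nat_lit 2) (nat_lit 1) (nat_lit 8) L48853 (by decide +kernel)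
theorem L48855 : W_6 (nat_lit 2) (nat_lit 0x220010001380098000400000000000000000000000000) (nat_lit 0x0) (nat_lit 0x400000001000000004000000000000000000000000000000) := D_6 (nat_lit 156) (nat_lit 190) (nat_lit 122) (nat_lit 6) (nat_lit 3) (nat_lit 11) (nat_lit 6) (nat_lit 3) (nat_lit 10) (by decide +kernel)
theorem L48856 : W_6 (nat_lit 2) (nat_lit 0x2300108013c009a000400000000000000000000000000) (nat_lit 0x0) (nat_lit 0x200000000000000004000200000000000000000000000000) := D_6 (nat_lit 122) (nat_lit 189) (nat_lit 105) (nat_lit 6) (nat_lit 2) (nat_lit 11) (nat_lit 6) (nat_lit 2) (nat_lit 10) (by decide +kernel)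
theorem L48857 : W_6 (nat_lit 3) (nat_lit 0x2200108013c009a000400000000000000000000000000) (nat_lit 0x0) (nat_lit 0x600010000000000004000200000000000000000000000000) := T_6 (nat_lit 172) (nat_lit 190) (nat_lit 7) (nat_lit 2) (nat_lit 7) L48856 (by decide +kernel)
theorem L48858 : W_6 (nat_lit 4) (nat_lit 0x2200100013c009a000400000000000000000000000000) (nat_lit 0x0) (nat_lit 0x600010000c00000004000200000000000000000000000000) := T_6 (nat_lit 155) (nat_lit 154) (nat_lit 1) (nat_lit 5) (nat_lit 8) L48857 (by decide +kernel)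
theorem L48859 : W_6 (nat_lit 5) (nat_lit 0x2200100013c0098000400000000000000000000000000) (nat_lit 0x0) (nat_lit 0x600010000c00000007000200000000000000000000000000) := T_6 (nat_lit 121) (nat_lit 120) (nat_lit 0) (nat_lit 5) (nat_lit 8) L48858 (by decide +kernel)
theorem L48860 : W_6 (nat_lit 6) (nat_lit 0x220010001380098000400000000000000000000000000) (nat_lit 0x0) (nat_lit 0x600010000c00060007000200000000000000000000000000) := T_6 (nat_lit 138) (nat_lit 137) (nat_lit 2) (nat_lit 1) (nat_lit 8) L48859 (by decide +kernel)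
theorem L48861 : W_6 (nat_lit 2) (nat_lit 0x2200108013c009e000400000000000000000000000000) (nat_lit 0x0) (nat_lit 0x10000000000000000200010000000000000000000000) := D_6 (nat_lit 105) (nat_lit 88) (nat_lit 172) (nat_lit 5) (nat_lit 3) (nat_lit 5) (nat_lit 6) (nat_lit 2) (nat_lit 10) (by decide +kernel)
theorem L48862 : W_6 (nat_lit 3) (nat_lit 0x2200108013c009c000400000000000000000000000000) (nat_lit 0x0) (nat_lit 0x10000000000003000200010000000000000000000000) := T_6 (nat_lit 121) (nat_lit 120) (nat_lit 3) (nat_lit 1) (nat_lit 7) L48861 (by decide +kernel)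
theorem L48863 : W_6 (nat_lit 4) (nat_lit 0x2200100013c009c000400000000000000000000000000) (nat_lit 0x0) (nat_lit 0x10000c00000003000200010000000000000000000000) := T_6 (nat_lit 155) (nat_lit 154) (nat_lit 1) (nat_lit 5) (nat_lit 8) L48862 (by decide +kernel)
theorem L48864 : W_6 (nat_lit 5) (nat_lit 0x2200100013c0098000400000000000000000000000000) (nat_lit 0x0) (nat_lit 0x10001c00000007000200010000000000000000000000) := T_6 (nat_lit 122) (nat_lit 156) (nat_lit 6) (nat_lit 3) (nat_lit 10) L48863 (by decide +kernel)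
theorem L48865 : W_6 (nat_lit 6) (nat_lit 0x220010001380098000400000000000000000000000000) (nat_lit 0x0) (nat_lit 0x10001c00060007000200010000000000000000000000) := T_6 (nat_lit 138) (nat_lit 137) (nat_lit 2) (nat_lit 1) (nat_lit 8) L48864 (by decide +kernel)
theorem L48866 : W_6 (nat_lit 7) (nat_lit 0x200010001380098000400000000000000000000000000) (nat_lit 0x0) (nat_lit 0x600030001c00060007000200010000000000000000000000) := Q_6 (nat_lit 173) (C_6 L48854 (C_6 L48855 (C_6 L48860 (C_6 L48865 N_6)))) (by decide +kernel)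
theorem L48867 : W_6 (nat_lit 10) (nat_lit 0x200010001380098000000000000000000000000000000) (nat_lit 0x0) (nat_lit 0x600030001c00060007000e001f000f800000000000000000) := Q_6 (nat_lit 106) (C_6 L45064 (C_6 L48850 (C_6 L48866 N_6))) (by decide +kernel)
theorem L48868 : W_6 (nat_lit 11) (nat_lit 0x200010001300098000000000000000000000000000000) (nat_lit 0x0) (nat_lit 0x2600130029c008e0367003e003f000f800000000000000000) := Q_6 (nat_lit 139) (C_6 L48720 (C_6 L45312 (C_6 L48867 N_6))) (by decide +kernel)
theorem L48869 : W_6 (nat_lit 2) (nat_lit 0x240011001380098000000000000000000000000000000) (nat_lit 0x0) (nat_lit 0x800000002000000000000800000000000000000000000000) := D_6 (nat_lit 157) (nat_lit 191) (nat_lit 107) (nat_lit 6) (nat_lit 4) (nat_lit 11) (nat_lit 6) (nat_lit 4) (nat_lit 10) (by decide +kernel)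
theorem L48870 : W_6 (nat_lit 2) (nat_lit 0x2700118013a009c000000000000000000000000000000) (nat_lit 0x0) (nat_lit 0x80000600000000000000000000000000000000000000) := D_6 (nat_lit 154) (nat_lit 153) (nat_lit 175) (nat_lit 3) (nat_lit 0) (nat_lit 9) (nat_lit 0) (nat_lit 5) (nat_lit 10) (by decide +kernel)
theorem L48871 : W_6 (nat_lit 3) (nat_lit 0x2700110013a009c000000000000000000000000000000) (nat_lit 0x0) (nat_lit 0x80000e00000000000200000000000000000000000000) := T_6 (nat_lit 155) (nat_lit 105) (nat_lit 5) (nat_lit 3) (nat_lit 6) L48870 (by decide +kernel)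
theorem L48872 : W_6 (nat_lit 4) (nat_lit 0x2600110013a009c000000000000000000000000000000) (nat_lit 0x0) (nat_lit 0x200090000e00000000000200000000000000000000000000) := T_6 (nat_lit 172) (nat_lit 189) (nat_lit 5) (nat_lit 3) (nat_lit 7) L48871 (by decide +kernel)
theorem L48873 : W_6 (nat_lit 5) (nat_lit 0x2600110013a0098000000000000000000000000000000) (nat_lit 0x0) (nat_lit 0xa00090000e00000004000200000000000000000000000000) := T_6 (nat_lit 122) (nat_lit 191) (nat_lit 7) (nat_lit 3) (nat_lit 7) L48872 (by decide +kernel)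
theorem L48874 : W_6 (nat_lit 6) (nat_lit 0x2400110013a0098000000000000000000000000000000) (nat_lit 0x0) (nat_lit 0xe000b0000e00000004000200000000000000000000000000) := T_6 (nat_lit 173) (nat_lit 190) (nat_lit 6) (nat_lit 3) (nat_lit 11) L48873 (by decide +kernel)
theorem L48875 : W_6 (nat_lit 7) (nat_lit 0x240011001380098000000000000000000000000000000) (nat_lit 0x0) (nat_lit 0xe000b0000e00060004000200000000000000000000000000) := T_6 (nat_lit 137) (nat_lit 138) (nat_lit 2) (nat_lit 1) (nat_lit 8) L48874 (by decide +kernel)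
theorem L48876 : W_6 (nat_lit 2) (nat_lit 0x400240013001380098000000000000000000000000000000) (nat_lit 0x0) (nat_lit 0x1000180000000000000000000000000000000000000000000) := D_6 (nat_lit 175) (nat_lit 176) (nat_lit 192) (nat_lit 0) (nat_lit 7) (nat_lit 10) (nat_lit 7) (nat_lit 4) (nat_lit 7) (by decide +kernel)
theorem L48877 : W_6 (nat_lit 3) (nat_lit 0x400240011001380098000000000000000000000000000000) (nat_lit 0x0) (nat_lit 0x1000180002000000000000800000000000000000000000000) := T_6 (nat_lit 157) (nat_lit 107) (nat_lit 6) (nat_lit 4) (nat_lit 10) L48876 (by decide +kernel)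
theorem L48878 : W_6 (nat_lit 4) (nat_lit 0x240011001380098000000000000000000000000000000) (nat_lit 0x0) (nat_lit 0x14001a0002000000000000800000000000000000000000000) := T_6 (nat_lit 190) (nat_lit 173) (nat_lit 6) (nat_lit 3) (nat_lit 11) L48877 (by decide +kernel)
theorem L48879 : W_6 (nat_lit 8) (nat_lit 0x200011001380098000000000000000000000000000000) (nat_lit 0x0) (nat_lit 0x1e001f0002e00060004000a00000000000000000000000000) := Q_6 (nat_lit 174) (C_6 L48869 (C_6 L48875 (C_6 L48878 N_6))) (by decide +kernel)
theorem L48880 : W_6 (nat_lit 2) (nat_lit 0x2000110013a0098000600010000000000000000000000) (nat_lit 0x0) (nat_lit 0x4000000000000800040000000000000) := D_6 (nat_lit 71) (nat_lit 54) (nat_lit 122) (nat_lit 7) (nat_lit 3) (nat_lit 3) (nat_lit 7) (nat_lit 3) (nat_lit 4) (by decide +kernel)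
theorem L48881 : W_6 (nat_lit 3) (nat_lit 0x2000110013a0098000600000000000000000000000000) (nat_lit 0x0) (nat_lit 0x2000000004000000010000800040000000000000) := T_6 (nat_lit 88) (nat_lit 157) (nat_lit 4) (nat_lit 4) (nat_lit 9) L48880 (by decide +kernel)
theorem L48882 : W_6 (nat_lit 4) (nat_lit 0x2000110013a0098000200000000000000000000000000) (nat_lit 0x0) (nat_lit 0x2000000004000400030000800040000000000000) := T_6 (nat_lit 106) (nat_lit 89) (nat_lit 5) (nat_lit 4) (nat_lit 5) L48881 (by decide +kernel)
theorem L48883 : W_6 (nat_lit 5) (nat_lit 0x200011001380098000200000000000000000000000000) (nat_lit 0x0) (nat_lit 0x2000060004000400030000800040000000000000) := T_6 (nat_lit 137) (nat_lit 138) (nat_lit 2) (nat_lit 1) (nat_lit 8) L48882 (by decide +kernel)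
theorem L48884 : W_6 (nat_lit 2) (nat_lit 0x2000130013a0098000600000000000000000000000000) (nat_lit 0x0) (nat_lit 0x40000000000000000800040000000000000000000000) := D_6 (nat_lit 107) (nat_lit 90) (nat_lit 174) (nat_lit 6) (nat_lit 4) (nat_lit 9) (nat_lit 6) (nat_lit 4) (nat_lit 10) (by decide +kernel)
theorem L48885 : W_6 (nat_lit 3) (nat_lit 0x2000110013a0098000600000000000000000000000000) (nat_lit 0x0) (nat_lit 0x40002000000000000800050000000000000000000000) := T_6 (nat_lit 157) (nat_lit 88) (nat_lit 4) (nat_lit 4) (nat_lit 9) L48884 (by decide +kernel)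
theorem L48886 : W_6 (nat_lit 4) (nat_lit 0x200011001380098000600000000000000000000000000) (nat_lit 0x0) (nat_lit 0x40002000060000000800050000000000000000000000) := T_6 (nat_lit 137) (nat_lit 138) (nat_lit 2) (nat_lit 1) (nat_lit 8) L48885 (by decide +kernel)
theorem L48887 : W_6 (nat_lit 5) (nat_lit 0x200011001380098000200000000000000000000000000) (nat_lit 0x0) (nat_lit 0x40002000060000000c00070000000000000000000000) := T_6 (nat_lit 106) (nat_lit 89) (nat_lit 5) (nat_lit 4) (nat_lit 5) L48886 (by decide +kernel)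
theorem L48888 : W_6 (nat_lit 2) (nat_lit 0x200013001380098000600000000000000000000000000) (nat_lit 0x0) (nat_lit 0x800040000000000004000000000000000000000000000000) := D_6 (nat_lit 174) (nat_lit 122) (nat_lit 191) (nat_lit 7) (nat_lit 3) (nat_lit 6) (nat_lit 6) (nat_lit 4) (nat_lit 11) (by decide +kernel)
theorem L48889 : W_6 (nat_lit 3) (nat_lit 0x200011001380098000600000000000000000000000000) (nat_lit 0x0) (nat_lit 0x800040002000000004000000010000000000000000000000) := T_6 (nat_lit 157) (nat_lit 88) (nat_lit 4) (nat_lit 4) (nat_lit 9) L48888 (by decide +kernel)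
theorem L48890 : W_6 (nat_lit 4) (nat_lit 0x200011001380098000200000000000000000000000000) (nat_lit 0x0) (nat_lit 0x800040002000000004000400030000000000000000000000) := T_6 (nat_lit 106) (nat_lit 89) (nat_lit 5) (nat_lit 4) (nat_lit 5) L48889 (by decide +kernel)
theorem L48891 : W_6 (nat_lit 2) (nat_lit 0x2000118013c0098000200020000000000000000000000) (nat_lit 0x0) (nat_lit 0x10000000000004000000010000000000000000000000) := D_6 (nat_lit 122) (nat_lit 88) (nat_lit 172) (nat_lit 5) (nat_lit 3) (nat_lit 5) (nat_lit 5) (nat_lit 3) (nat_lit 6) (by decide +kernel)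
theorem L48892 : W_6 (nat_lit 3) (nat_lit 0x2000110013c0098000200020000000000000000000000) (nat_lit 0x0) (nat_lit 0x10000c00000004000000010000000000000000000000) := T_6 (nat_lit 155) (nat_lit 154) (nat_lit 1) (nat_lit 5) (nat_lit 8) L48891 (by decide +kernel)
theorem L48893 : W_6 (nat_lit 4) (nat_lit 0x200011001380098000200020000000000000000000000) (nat_lit 0x0) (nat_lit 0x10000c00060004000000010000000000000000000000) := T_6 (nat_lit 138) (nat_lit 137) (nat_lit 2) (nat_lit 1) (nat_lit 8) L48892 (by decide +kernel)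
theorem L48894 : W_6 (nat_lit 5) (nat_lit 0x200011001380098000200000000000000000000000000) (nat_lit 0x0) (nat_lit 0x10000c00060004000400030000000000000000000000) := T_6 (nat_lit 89) (nat_lit 106) (nat_lit 5) (nat_lit 4) (nat_lit 5) L48893 (by decide +kernel)
theorem L48895 : W_6 (nat_lit 2) (nat_lit 0x2000118013c0098000200000000000000000000000000) (nat_lit 0x0) (nat_lit 0x10000000000004000000010000000000000000000000) := D_6 (nat_lit 122) (nat_lit 88) (nat_lit 172) (nat_lit 5) (nat_lit 3) (nat_lit 5) (nat_lit 5) (nat_lit 3) (nat_lit 6) (by decide +kernel)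
theorem L48896 : W_6 (nat_lit 3) (nat_lit 0x2000110013c0098000200000000000000000000000000) (nat_lit 0x0) (nat_lit 0x10000c00000004000000010000000000000000000000) := T_6 (nat_lit 155) (nat_lit 154) (nat_lit 1) (nat_lit 5) (nat_lit 8) L48895 (by decide +kernel)
theorem L48897 : W_6 (nat_lit 4) (nat_lit 0x200011001380098000200000000000000000000000000) (nat_lit 0x0) (nat_lit 0x10000c00060004000000010000000000000000000000) := T_6 (nat_lit 138) (nat_lit 137) (nat_lit 2) (nat_lit 1) (nat_lit 8) L48896 (by decide +kernel)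
theorem L48898 : W_6 (nat_lit 2) (nat_lit 0x240011001380098000200000000000000000000000000) (nat_lit 0x0) (nat_lit 0x800000002000000004000000000000000000000000000000) := D_6 (nat_lit 157) (nat_lit 122) (nat_lit 191) (nat_lit 7) (nat_lit 3) (nat_lit 6) (nat_lit 6) (nat_lit 4) (nat_lit 11) (by decide +kernel)
theorem L48899 : W_6 (nat_lit 2) (nat_lit 0x240011001380098000200000000000000000000000000) (nat_lit 0x0) (nat_lit 0x800000002000000000000800000000000000000000000000) := D_6 (nat_lit 157) (nat_lit 107) (nat_lit 191) (nat_lit 6) (nat_lit 4) (nat_lit 10) (nat_lit 6) (nat_lit 4) (nat_lit 11) (by decide +kernel)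
theorem L48900 : W_6 (nat_lit 2) (nat_lit 0xf002500118013c0098000200000000000000000000000000) (nat_lit 0x0) (nat_lit 0x100000c000000000000000000000000000000000000000000) := D_6 (nat_lit 171) (nat_lit 192) (nat_lit 170) (nat_lit 0) (nat_lit 5) (nat_lit 11) (nat_lit 0) (nat_lit 4) (nat_lit 11) (by decide +kernel)
theorem L48901 : W_6 (nat_lit 3) (nat_lit 0x7002500118013c0098000200000000000000000000000000) (nat_lit 0x0) (nat_lit 0x180008c000000000000000000000000000000000000000000) := T_6 (nat_lit 191) (nat_lit 175) (nat_lit 2) (nat_lit 1) (nat_lit 11) L48900 (by decide +kernel)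
theorem L48902 : W_6 (nat_lit 4) (nat_lit 0x6002500118013c0098000200000000000000000000000000) (nat_lit 0x0) (nat_lit 0x200190008c000000000000000000000000000000000000000000) := T_6 (nat_lit 188) (nat_lit 205) (nat_lit 5) (nat_lit 2) (nat_lit 8) L48901 (by decide +kernel)
theorem L48903 : W_6 (nat_lit 5) (nat_lit 0x2002500118013c0098000200000000000000000000000000) (nat_lit 0x0) (nat_lit 0xa001d0008c000000000000000000000000000000000000000000) := T_6 (nat_lit 190) (nat_lit 207) (nat_lit 7) (nat_lit 2) (nat_lit 8) L48902 (by decide +kernel)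
theorem L48904 : W_6 (nat_lit 6) (nat_lit 0x2500118013c0098000200000000000000000000000000) (nat_lit 0x0) (nat_lit 0xe001f0008c000000000000000000000000000000000000000000) := T_6 (nat_lit 189) (nat_lit 206) (nat_lit 6) (nat_lit 2) (nat_lit 12) L48903 (by decide +kernel)
theorem L48905 : W_6 (nat_lit 7) (nat_lit 0x2400118013c0098000200000000000000000000000000) (nat_lit 0x0) (nat_lit 0xe001f0009c000000000004000000000000000000000000000000) := T_6 (nat_lit 172) (nat_lit 122) (nat_lit 5) (nat_lit 3) (nat_lit 6) L48904 (by decide +kernel)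
theorem L48906 : W_6 (nat_lit 8) (nat_lit 0x2400110013c0098000200000000000000000000000000) (nat_lit 0x0) (nat_lit 0xe001f0009c000c00000004000000000000000000000000000000) := T_6 (nat_lit 155) (nat_lit 154) (nat_lit 1) (nat_lit 5) (nat_lit 8) L48905 (by decide +kernel)
theorem L48907 : W_6 (nat_lit 9) (nat_lit 0x240011001380098000200000000000000000000000000) (nat_lit 0x0) (nat_lit 0xe001f0009c000c00060004000000000000000000000000000000) := T_6 (nat_lit 138) (nat_lit 137) (nat_lit 2) (nat_lit 1) (nat_lit 8) L48906 (by decide +kernel)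
theorem L48908 : W_6 (nat_lit 2) (nat_lit 0x240011001380098000200000000000000000000000000) (nat_lit 0x0) (nat_lit 0x2000000004000800000000000000000000000000) := D_6 (nat_lit 157) (nat_lit 122) (nat_lit 107) (nat_lit 7) (nat_lit 3) (nat_lit 6) (nat_lit 6) (nat_lit 4) (nat_lit 10) (by decide +kernel)
theorem L48909 : W_6 (nat_lit 10) (nat_lit 0x200011001380098000200000000000000000000000000) (nat_lit 0x0) (nat_lit 0xe001f000dc002c00060004000800000000000000000000000000) := Q_6 (nat_lit 174) (C_6 L48898 (C_6 L48899 (C_6 L48907 (C_6 L48908 N_6)))) (by decide +kernel)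
theorem L48910 : W_6 (nat_lit 11) (nat_lit 0x200011001380098000000000000000000000000000000) (nat_lit 0x0) (nat_lit 0xe001f000dc002c00060004000e00070000800040000000000000) := Q_6 (nat_lit 105) (C_6 L48883 (C_6 L48887 (C_6 L48890 (C_6 L48894 (C_6 L48897 (C_6 L48909 N_6)))))) (by decide +kernel)
theorem L48911 : W_6 (nat_lit 2) (nat_lit 0x200011001380098000400000000000000000000000000) (nat_lit 0x0) (nat_lit 0x20002000000004000000000000000000000000000000) := D_6 (nat_lit 173) (nat_lit 157) (nat_lit 122) (nat_lit 5) (nat_lit 4) (nat_lit 6) (nat_lit 6) (nat_lit 3) (nat_lit 10) (by decide +kernel)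
theorem L48912 : W_6 (nat_lit 3) (nat_lit 0x200011001380098000000000000000000000000000000) (nat_lit 0x0) (nat_lit 0x20002000000004000400020000000000000000000000) := T_6 (nat_lit 106) (nat_lit 89) (nat_lit 5) (nat_lit 4) (nat_lit 5) L48911 (by decide +kernel)
theorem L48913 : W_6 (nat_lit 12) (nat_lit 0x200010001380098000000000000000000000000000000) (nat_lit 0x0) (nat_lit 0xe001f001fc003e00060004000e00070000800040000000000000) := Q_6 (nat_lit 156) (C_6 L47301 (C_6 L47302 (C_6 L48879 (C_6 L48910 (C_6 L48912 N_6))))) (by decide +kernel)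
theorem L48914 : W_6 (nat_lit 2) (nat_lit 0x200012001380098000400000000000000000000000000) (nat_lit 0x0) (nat_lit 0x20001000000000000000020000000000000000000000) := D_6 (nat_lit 156) (nat_lit 173) (nat_lit 89) (nat_lit 5) (nat_lit 4) (nat_lit 6) (nat_lit 5) (nat_lit 4) (nat_lit 5) (by decide +kernel)
theorem L48915 : W_6 (nat_lit 6) (nat_lit 0x200012001380098000c00000000000000000000000000) (nat_lit 0x0) (nat_lit 0x30001c00000007001200010000000000000000000000) := T_6 (nat_lit 105) (nat_lit 88) (nat_lit 4) (nat_lit 4) (nat_lit 9) L45576 (by decide +kernel)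
theorem L48916 : W_6 (nat_lit 7) (nat_lit 0x200012001380098000400000000000000000000000000) (nat_lit 0x0) (nat_lit 0x30001c00000007001a00050000000000000000000000) := T_6 (nat_lit 107) (nat_lit 90) (nat_lit 6) (nat_lit 4) (nat_lit 9) L48915 (by decide +kernel)
theorem L48917 : W_6 (nat_lit 8) (nat_lit 0x200012001380098000000000000000000000000000000) (nat_lit 0x0) (nat_lit 0x30001c00000007001e00070001800000000000000000) := Q_6 (nat_lit 106) (C_6 L46500 (C_6 L48914 (C_6 L48916 N_6))) (by decide +kernel)
theorem L48918 : W_6 (nat_lit 4) (nat_lit 0x200012001380098000000000000000000000000000000) (nat_lit 0x0) (nat_lit 0x18001c0021000000000000000000000000000000000000000) := T_6 (nat_lit 174) (nat_lit 191) (nat_lit 6) (nat_lit 4) (nat_lit 11) L47233 (by decide +kernel)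
theorem L48919 : W_6 (nat_lit 9) (nat_lit 0x200010001380098000000000000000000000000000000) (nat_lit 0x0) (nat_lit 0x18001f0023c00000007001e00070001800000000000000000) := Q_6 (nat_lit 157) (C_6 L46486 (C_6 L48917 (C_6 L48918 N_6))) (by decide +kernel)
theorem L48920 : W_6 (nat_lit 2) (nat_lit 0x2000100013a0098000c000e0000000000000000000000) (nat_lit 0x0) (nat_lit 0x200300000000000000000000000) := D_6 (nat_lit 92) (nat_lit 93) (nat_lit 105) (nat_lit 1) (nat_lit 8) (nat_lit 5) (nat_lit 1) (nat_lit 7) (nat_lit 5) (by decide +kernel)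
theorem L48921 : W_6 (nat_lit 3) (nat_lit 0x2000100013a0098000c00060000000000000000000000) (nat_lit 0x0) (nat_lit 0x200380004000000000000000000) := T_6 (nat_lit 91) (nat_lit 74) (nat_lit 6) (nat_lit 5) (nat_lit 8) L48920 (by decide +kernel)
theorem L48922 : W_6 (nat_lit 4) (nat_lit 0x2000100013a0098000800060000000000000000000000) (nat_lit 0x0) (nat_lit 0x1000000000000600380004000000000000000000) := T_6 (nat_lit 106) (nat_lit 156) (nat_lit 5) (nat_lit 4) (nat_lit 5) L48921 (by decide +kernel)
theorem L48923 : W_6 (nat_lit 5) (nat_lit 0x2000100013a0098000800040000000000000000000000) (nat_lit 0x0) (nat_lit 0x10000000000006003a0005000000000000000000) := T_6 (nat_lit 89) (nat_lit 72) (nat_lit 4) (nat_lit 5) (nat_lit 8) L48922 (by decide +kernel)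
theorem L48924 : W_6 (nat_lit 6) (nat_lit 0x2000100013a0098000800000000000000000000000000) (nat_lit 0x0) (nat_lit 0x10000000000006003e0007000000000000000000) := T_6 (nat_lit 90) (nat_lit 73) (nat_lit 5) (nat_lit 5) (nat_lit 4) L48923 (by decide +kernel)
theorem L48925 : W_6 (nat_lit 7) (nat_lit 0x200010001380098000800000000000000000000000000) (nat_lit 0x0) (nat_lit 0x10000600000006003e0007000000000000000000) := T_6 (nat_lit 137) (nat_lit 138) (nat_lit 2) (nat_lit 1) (nat_lit 8) L48924 (by decide +kernel)
theorem L48926 : W_6 (nat_lit 2) (nat_lit 0x220010001380098000c00000000000000000000000000) (nat_lit 0x0) (nat_lit 0x40003000000000000000000000000000000000000000) := D_6 (nat_lit 157) (nat_lit 174) (nat_lit 156) (nat_lit 6) (nat_lit 4) (nat_lit 10) (nat_lit 5) (nat_lit 4) (nat_lit 6) (by decide +kernel)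
theorem L48927 : W_6 (nat_lit 2) (nat_lit 0x1002700108013c009a000c00000000000000000000000000) (nat_lit 0x0) (nat_lit 0x2000200080000000000000000000000000000000000000000000) := D_6 (nat_lit 189) (nat_lit 205) (nat_lit 175) (nat_lit 5) (nat_lit 2) (nat_lit 8) (nat_lit 1) (nat_lit 5) (nat_lit 10) (by decide +kernel)
theorem L48928 : W_6 (nat_lit 3) (nat_lit 0x2700108013c009a000c00000000000000000000000000) (nat_lit 0x0) (nat_lit 0x2000300088000000000000000000000000000000000000000000) := T_6 (nat_lit 188) (nat_lit 171) (nat_lit 5) (nat_lit 2) (nat_lit 7) L48927 (by decide +kernel)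
theorem L48929 : W_6 (nat_lit 4) (nat_lit 0x2600108013c009a000c00000000000000000000000000) (nat_lit 0x0) (nat_lit 0x2000700098000000000000000000000000000000000000000000) := T_6 (nat_lit 172) (nat_lit 190) (nat_lit 7) (nat_lit 2) (nat_lit 7) L48928 (by decide +kernel)
theorem L48930 : W_6 (nat_lit 5) (nat_lit 0x2600100013c009a000c00000000000000000000000000) (nat_lit 0x0) (nat_lit 0x2000700098000c00000000000000000000000000000000000000) := T_6 (nat_lit 155) (nat_lit 154) (nat_lit 1) (nat_lit 5) (nat_lit 8) L48929 (by decide +kernel)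
theorem L48931 : W_6 (nat_lit 6) (nat_lit 0x2600100013c0098000c00000000000000000000000000) (nat_lit 0x0) (nat_lit 0x2000700098000c00000003000000000000000000000000000000) := T_6 (nat_lit 121) (nat_lit 120) (nat_lit 0) (nat_lit 5) (nat_lit 8) L48930 (by decide +kernel)
theorem L48932 : W_6 (nat_lit 7) (nat_lit 0x260010001380098000c00000000000000000000000000) (nat_lit 0x0) (nat_lit 0x2000700098000c00060003000000000000000000000000000000) := T_6 (nat_lit 138) (nat_lit 137) (nat_lit 2) (nat_lit 1) (nat_lit 8) L48931 (by decide +kernel)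
theorem L48933 : W_6 (nat_lit 8) (nat_lit 0x220010001380098000c00000000000000000000000000) (nat_lit 0x0) (nat_lit 0x20007000d8002c00060003000000000000000000000000000000) := T_6 (nat_lit 174) (nat_lit 157) (nat_lit 6) (nat_lit 4) (nat_lit 10) L48932 (by decide +kernel)
theorem L48934 : W_6 (nat_lit 2) (nat_lit 0x4002200108013c0098000c00000000000000000000000000) (nat_lit 0x0) (nat_lit 0x10000000000003000000000000000000000000000000) := D_6 (nat_lit 121) (nat_lit 120) (nat_lit 172) (nat_lit 0) (nat_lit 5) (nat_lit 8) (nat_lit 7) (nat_lit 2) (nat_lit 7) (by decide +kernel)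
theorem L48935 : W_6 (nat_lit 3) (nat_lit 0x4002200100013c0098000c00000000000000000000000000) (nat_lit 0x0) (nat_lit 0x10000c00000003000000000000000000000000000000) := T_6 (nat_lit 155) (nat_lit 154) (nat_lit 1) (nat_lit 5) (nat_lit 8) L48934 (by decide +kernel)
theorem L48936 : W_6 (nat_lit 4) (nat_lit 0x2200100013c0098000c00000000000000000000000000) (nat_lit 0x0) (nat_lit 0x400010001c00000003000000000000000000000000000000) := T_6 (nat_lit 190) (nat_lit 156) (nat_lit 6) (nat_lit 3) (nat_lit 11) L48935 (by decide +kernel)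
theorem L48937 : W_6 (nat_lit 5) (nat_lit 0x220010001380098000c00000000000000000000000000) (nat_lit 0x0) (nat_lit 0x400010001c00060003000000000000000000000000000000) := T_6 (nat_lit 138) (nat_lit 137) (nat_lit 2) (nat_lit 1) (nat_lit 8) L48936 (by decide +kernel)
theorem L48938 : W_6 (nat_lit 9) (nat_lit 0x200010001380098000c00000000000000000000000000) (nat_lit 0x0) (nat_lit 0x20007000f8003c00060003000000000000000000000000000000) := Q_6 (nat_lit 173) (C_6 L48926 (C_6 L48933 (C_6 L48937 N_6))) (by decide +kernel)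
theorem L48939 : W_6 (nat_lit 10) (nat_lit 0x200010001380098000800000000000000000000000000) (nat_lit 0x0) (nat_lit 0x20007000f8003c0006000300160003c001800000000000000000) := Q_6 (nat_lit 106) (C_6 L48362 (C_6 L45145 (C_6 L48938 N_6))) (by decide +kernel)
theorem L48940 : W_6 (nat_lit 11) (nat_lit 0x200010001380098000000000000000000000000000000) (nat_lit 0x0) (nat_lit 0x20007000f8003c00060003001e003fc007800000000000000000) := Q_6 (nat_lit 107) (C_6 L45100 (C_6 L48925 (C_6 L48939 N_6))) (by decide +kernel)
theorem L48941 : W_6 (nat_lit 2) (nat_lit 0x2300138013c009e000800000000000000000000000000) (nat_lit 0x0) (nat_lit 0x10000c000000000000000000000000000000000000000000) := D_6 (nat_lit 171) (nat_lit 170) (nat_lit 188) (nat_lit 2) (nat_lit 0) (nat_lit 10) (nat_lit 5) (nat_lit 2) (nat_lit 7) (by decide +kernel)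
theorem L48942 : W_6 (nat_lit 3) (nat_lit 0x2300128013c009e000800000000000000000000000000) (nat_lit 0x0) (nat_lit 0x10000c001000000000000400000000000000000000000000) := T_6 (nat_lit 156) (nat_lit 106) (nat_lit 6) (nat_lit 3) (nat_lit 10) L48941 (by decide +kernel)
theorem L48943 : W_6 (nat_lit 4) (nat_lit 0x2100128013c009e000800000000000000000000000000) (nat_lit 0x0) (nat_lit 0x50002c001000000000000400000000000000000000000000) := T_6 (nat_lit 173) (nat_lit 190) (nat_lit 7) (nat_lit 2) (nat_lit 7) L48942 (by decide +kernel)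
theorem L48944 : W_6 (nat_lit 5) (nat_lit 0x2000128013c009e000800000000000000000000000000) (nat_lit 0x0) (nat_lit 0x70003c001000000000000400000000000000000000000000) := T_6 (nat_lit 172) (nat_lit 189) (nat_lit 6) (nat_lit 2) (nat_lit 11) L48943 (by decide +kernel)
theorem L48945 : W_6 (nat_lit 6) (nat_lit 0x2000128013c009a000800000000000000000000000000) (nat_lit 0x0) (nat_lit 0x70003c001000000004001400000000000000000000000000) := T_6 (nat_lit 122) (nat_lit 108) (nat_lit 2) (nat_lit 2) (nat_lit 7) L48944 (by decide +kernel)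
theorem L48946 : W_6 (nat_lit 7) (nat_lit 0x2000128013c0098000800000000000000000000000000) (nat_lit 0x0) (nat_lit 0x70003c001000000007001400000000000000000000000000) := T_6 (nat_lit 121) (nat_lit 120) (nat_lit 0) (nat_lit 5) (nat_lit 8) L48945 (by decide +kernel)
theorem L48947 : W_6 (nat_lit 8) (nat_lit 0x2000120013c0098000800000000000000000000000000) (nat_lit 0x0) (nat_lit 0x70003c001c00000007001400000000000000000000000000) := T_6 (nat_lit 155) (nat_lit 154) (nat_lit 1) (nat_lit 5) (nat_lit 8) L48946 (by decide +kernel)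
theorem L48948 : W_6 (nat_lit 9) (nat_lit 0x2000120013c0098000000000000000000000000000000) (nat_lit 0x0) (nat_lit 0x70003c001c00000007001c00040000000000000000000000) := T_6 (nat_lit 107) (nat_lit 90) (nat_lit 5) (nat_lit 5) (nat_lit 5) L48947 (by decide +kernel)
theorem L48949 : W_6 (nat_lit 10) (nat_lit 0x200012001380098000000000000000000000000000000) (nat_lit 0x0) (nat_lit 0x70003c001c00060007001c00040000000000000000000000) := T_6 (nat_lit 138) (nat_lit 137) (nat_lit 2) (nat_lit 1) (nat_lit 8) L48948 (by decide +kernel)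
theorem L48950 : W_6 (nat_lit 11) (nat_lit 0x200010001380098000000000000000000000000000000) (nat_lit 0x0) (nat_lit 0x1f001fc023c00060007001c00040000000000000000000000) := Q_6 (nat_lit 157) (C_6 L48949 (C_6 L48918 (C_6 L46486 N_6))) (by decide +kernel)
theorem L48951 : W_6 (nat_lit 2) (nat_lit 0x2000130013c009a003e00000000000000000000000000) (nat_lit 0x0) (nat_lit 0x380000000000000000000000) := D_6 (nat_lit 92) (nat_lit 91) (nat_lit 93) (nat_lit 2) (nat_lit 3) (nat_lit 6) (nat_lit 2) (nat_lit 4) (nat_lit 6) (by decide +kernel)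
theorem L48952 : W_6 (nat_lit 3) (nat_lit 0x2000130013c009a001e00000000000000000000000000) (nat_lit 0x0) (nat_lit 0x40002000380000000000000000000000) := T_6 (nat_lit 109) (nat_lit 126) (nat_lit 3) (nat_lit 4) (nat_lit 6) L48951 (by decide +kernel)
theorem L48953 : W_6 (nat_lit 4) (nat_lit 0x2000130013c009a000e00000000000000000000000000) (nat_lit 0x0) (nat_lit 0x44003000380000000000000000000000) := T_6 (nat_lit 108) (nat_lit 122) (nat_lit 2) (nat_lit 2) (nat_lit 7) L48952 (by decide +kernel)
theorem L48954 : W_6 (nat_lit 5) (nat_lit 0x2000130013c009a000600000000000000000000000000) (nat_lit 0x0) (nat_lit 0x440038003c0000000000000000000000) := T_6 (nat_lit 107) (nat_lit 90) (nat_lit 6) (nat_lit 4) (nat_lit 9) L48953 (by decide +kernel)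
theorem L48955 : W_6 (nat_lit 6) (nat_lit 0x2000120013c009a000600000000000000000000000000) (nat_lit 0x0) (nat_lit 0x200010000000440038003c0000000000000000000000) := T_6 (nat_lit 156) (nat_lit 173) (nat_lit 5) (nat_lit 4) (nat_lit 6) L48954 (by decide +kernel)
theorem L48956 : W_6 (nat_lit 7) (nat_lit 0x2000120013c0098000600000000000000000000000000) (nat_lit 0x0) (nat_lit 0x200010000000470038003c0000000000000000000000) := T_6 (nat_lit 121) (nat_lit 120) (nat_lit 0) (nat_lit 5) (nat_lit 8) L48955 (by decide +kernel)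
theorem L48957 : W_6 (nat_lit 8) (nat_lit 0x2000120013c0098000400000000000000000000000000) (nat_lit 0x0) (nat_lit 0x20001000000047003a003d0000000000000000000000) := T_6 (nat_lit 105) (nat_lit 88) (nat_lit 4) (nat_lit 4) (nat_lit 9) L48956 (by decide +kernel)
theorem L48958 : W_6 (nat_lit 9) (nat_lit 0x200012001380098000400000000000000000000000000) (nat_lit 0x0) (nat_lit 0x20001000060047003a003d0000000000000000000000) := T_6 (nat_lit 138) (nat_lit 137) (nat_lit 2) (nat_lit 1) (nat_lit 8) L48957 (by decide +kernel)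
theorem L48959 : W_6 (nat_lit 10) (nat_lit 0x200012001380098000000000000000000000000000000) (nat_lit 0x0) (nat_lit 0x20001000060047003e003f0001800000000000000000) := Q_6 (nat_lit 106) (C_6 L48914 (C_6 L46500 (C_6 L48958 N_6))) (by decide +kernel)
theorem L48960 : W_6 (nat_lit 11) (nat_lit 0x200010001380098000000000000000000000000000000) (nat_lit 0x0) (nat_lit 0x18001e0023000060047003e003f0001800000000000000000) := Q_6 (nat_lit 157) (C_6 L48959 (C_6 L48918 (C_6 L46486 N_6))) (by decide +kernel)
theorem L48961 : W_6 (nat_lit 13) (nat_lit 0x200010001300098000000000000000000000000000000) (nat_lit 0x0) (nat_lit 0x8000e001f001fc023e000e0047003e003fc00f800040000000000000) := Q_6 (nat_lit 139) (C_6 L48913 (C_6 L45422 (C_6 L48919 (C_6 L48940 (C_6 L48867 (C_6 L47357 (C_6 L48950 (C_6 L48960 N_6)))))))) (by decide +kernel)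
theorem L48962 : W_6 (nat_lit 9) (nat_lit 0x200010001300098000000000000000000000000000000) (nat_lit 0x0) (nat_lit 0x3e001f002bc008e0067003a001d000e000000000000000000) := Q_6 (nat_lit 139) (C_6 L48347 (C_6 L45422 (C_6 L45312 N_6))) (by decide +kernel)
theorem L48963 : W_6 (nat_lit 2) (nat_lit 0x200012001380098000400000000000000000000000000) (nat_lit 0x0) (nat_lit 0x60020000000000000000000000000000000) := D_6 (nat_lit 138) (nat_lit 137) (nat_lit 125) (nat_lit 2) (nat_lit 1) (nat_lit 8) (nat_lit 2) (nat_lit 2) (nat_lit 8) (by decide +kernel)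
theorem L48964 : W_6 (nat_lit 8) (nat_lit 0x200012001300098000400000000000000000000000000) (nat_lit 0x0) (nat_lit 0x30001c000e0027001a00050000000000000000000000) := Q_6 (nat_lit 139) (C_6 L48963 (C_6 L48916 N_6)) (by decide +kernel)
theorem L48965 : W_6 (nat_lit 9) (nat_lit 0x200012001300098000000000000000000000000000000) (nat_lit 0x0) (nat_lit 0x30001c000e0027001e00070003800000000000000000) := Q_6 (nat_lit 106) (C_6 L46405 (C_6 L45666 (C_6 L48964 N_6))) (by decide +kernel)
theorem L48966 : W_6 (nat_lit 10) (nat_lit 0x200010001300098000000000000000000000000000000) (nat_lit 0x0) (nat_lit 0x1c001f002bc000e0027001e00070003800000000000000000) := Q_6 (nat_lit 157) (C_6 L46403 (C_6 L48965 (C_6 L46179 N_6))) (by decide +kernel)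
theorem L48967 : W_6 (nat_lit 14) (nat_lit 0x200010001300088000000000000000000000000000000) (nat_lit 0x0) (nat_lit 0x8000e003f001fc0ebe008e0377003e003fc00f800040000000000000) := Q_6 (nat_lit 124) (C_6 L48868 (C_6 L46771 (C_6 L47910 (C_6 L46981 (C_6 L46446 (C_6 L48961 (C_6 L47358 (C_6 L48962 (C_6 L47907 (C_6 L48388 (C_6 L45563 (C_6 L48966 N_6)))))))))))) (by decide +kernel)
theorem L48968 : W_6 (nat_lit 2) (nat_lit 0x20001340130009a003f00000000000000000000000000) (nat_lit 0x0) (nat_lit 0x380000000000000000000000) := D_6 (nat_lit 92) (nat_lit 91) (nat_lit 93) (nat_lit 2) (nat_lit 3) (nat_lit 6) (nat_lit 2) (nat_lit 4) (nat_lit 6) (by decide +kernel)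
theorem L48969 : W_6 (nat_lit 3) (nat_lit 0x20001340130009a001f00000000000000000000000000) (nat_lit 0x0) (nat_lit 0x40002000380000000000000000000000) := T_6 (nat_lit 109) (nat_lit 126) (nat_lit 3) (nat_lit 4) (nat_lit 6) L48968 (by decide +kernel)
theorem L48970 : W_6 (nat_lit 4) (nat_lit 0x20001340130009a000f00000000000000000000000000) (nat_lit 0x0) (nat_lit 0x44003000380000000000000000000000) := T_6 (nat_lit 108) (nat_lit 122) (nat_lit 2) (nat_lit 2) (nat_lit 7) L48969 (by decide +kernel)
theorem L48971 : W_6 (nat_lit 5) (nat_lit 0x200013401300098000f00000000000000000000000000) (nat_lit 0x0) (nat_lit 0x47003000380000000000000000000000) := T_6 (nat_lit 121) (nat_lit 120) (nat_lit 1) (nat_lit 5) (nat_lit 6) L48970 (by decide +kernel)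
theorem L48972 : W_6 (nat_lit 6) (nat_lit 0x200013001300098000f00000000000000000000000000) (nat_lit 0x0) (nat_lit 0xc00000047003000380000000000000000000000) := T_6 (nat_lit 154) (nat_lit 155) (nat_lit 2) (nat_lit 1) (nat_lit 9) L48971 (by decide +kernel)
theorem L48973 : W_6 (nat_lit 7) (nat_lit 0x200012001300098000f00000000000000000000000000) (nat_lit 0x0) (nat_lit 0x20001c00000047003000380000000000000000000000) := T_6 (nat_lit 156) (nat_lit 173) (nat_lit 5) (nat_lit 4) (nat_lit 6) L48972 (by decide +kernel)
theorem L48974 : W_6 (nat_lit 8) (nat_lit 0x200012001300098000e00000000000000000000000000) (nat_lit 0x0) (nat_lit 0x20001c00000047003180380000000000000000000000) := T_6 (nat_lit 104) (nat_lit 103) (nat_lit 3) (nat_lit 1) (nat_lit 6) L48973 (by decide +kernel)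
theorem L48975 : W_6 (nat_lit 9) (nat_lit 0x200012001300098000c00000000000000000000000000) (nat_lit 0x0) (nat_lit 0x20001c00000047003380390000000000000000000000) := T_6 (nat_lit 105) (nat_lit 88) (nat_lit 4) (nat_lit 4) (nat_lit 9) L48974 (by decide +kernel)
theorem L48976 : W_6 (nat_lit 10) (nat_lit 0x200012001300098000400000000000000000000000000) (nat_lit 0x0) (nat_lit 0x20001c00000047003b803d0000000000000000000000) := T_6 (nat_lit 107) (nat_lit 90) (nat_lit 6) (nat_lit 4) (nat_lit 9) L48975 (by decide +kernel)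
theorem L48977 : W_6 (nat_lit 11) (nat_lit 0x200012001300098000000000000000000000000000000) (nat_lit 0x0) (nat_lit 0x20001c00000047003f803f0003800000000000000000) := Q_6 (nat_lit 106) (C_6 L46405 (C_6 L45666 (C_6 L48976 N_6))) (by decide +kernel)
theorem L48978 : W_6 (nat_lit 12) (nat_lit 0x200010001300098000000000000000000000000000000) (nat_lit 0x0) (nat_lit 0x1c001e002bc00000047003f803f0003800000000000000000) := Q_6 (nat_lit 157) (C_6 L46403 (C_6 L48977 (C_6 L46179 N_6))) (by decide +kernel)
theorem L48979 : W_6 (nat_lit 13) (nat_lit 0x200010001300088000000000000000000000000000000) (nat_lit 0x0) (nat_lit 0x8000e003f001fc0ebc008e0377003f807f003f800000000000000000) := Q_6 (nat_lit 124) (C_6 L48868 (C_6 L46787 (C_6 L48966 (C_6 L47909 (C_6 L46517 (C_6 L46981 (C_6 L48978 (C_6 L47358 (C_6 L48962 (C_6 L46156 N_6)))))))))) (by decide +kernel)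
theorem L48980 : W_6 (nat_lit 15) (nat_lit 0x200010001300080000000000000000000000000000000) (nat_lit 0x0) (nat_lit 0x98006e003f801fc0ebe008f037f81bfc07fe07ff001f000f800500000) := Q_6 (nat_lit 123) (C_6 L45000 (C_6 L45582 (C_6 L45918 (C_6 L46196 (C_6 L46553 (C_6 L46788 (C_6 L47044 (C_6 L47106 (C_6 L47359 (C_6 L47809 (C_6 L47908 (C_6 L47911 (C_6 L47962 (C_6 L48174 (C_6 L48373 (C_6 L48389 (C_6 L48402 (C_6 L48718 (C_6 L48719 (C_6 L48754 (C_6 L48842 (C_6 L48967 (C_6 L48979 N_6))))))))))))))))))))))) (by decide +kernel)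
theorem L48981 : W_6 (nat_lit 2) (nat_lit 0x200014001300098000800020000000000000000000000) (nat_lit 0x0) (nat_lit 0x40003000000000000000000) := D_6 (nat_lit 90) (nat_lit 72) (nat_lit 73) (nat_lit 4) (nat_lit 5) (nat_lit 8) (nat_lit 5) (nat_lit 5) (nat_lit 4) (by decide +kernel)
theorem L48982 : W_6 (nat_lit 3) (nat_lit 0x200014001300098000800000000000000000000000000) (nat_lit 0x0) (nat_lit 0x400060003000000000000000000) := T_6 (nat_lit 89) (nat_lit 106) (nat_lit 7) (nat_lit 4) (nat_lit 5) L48981 (by decide +kernel)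
theorem L48983 : W_6 (nat_lit 2) (nat_lit 0x200014001300098000800080000000000000000000000) (nat_lit 0x0) (nat_lit 0x40006000000000000000000) := D_6 (nat_lit 90) (nat_lit 73) (nat_lit 74) (nat_lit 5) (nat_lit 5) (nat_lit 4) (nat_lit 6) (nat_lit 5) (nat_lit 8) (by decide +kernel)
theorem L48984 : W_6 (nat_lit 3) (nat_lit 0x200014001300098000800000000000000000000000000) (nat_lit 0x0) (nat_lit 0x10000c0006000000000000000000) := T_6 (nat_lit 91) (nat_lit 108) (nat_lit 6) (nat_lit 5) (nat_lit 9) L48983 (by decide +kernel)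
theorem L48985 : W_6 (nat_lit 4) (nat_lit 0x200014001300098000800000000000000000000000000) (nat_lit 0x0) (nat_lit 0x60034000a0000000000000000000000) := T_6 (nat_lit 106) (nat_lit 89) (nat_lit 7) (nat_lit 4) (nat_lit 5) L43215 (by decide +kernel)
theorem L48986 : W_6 (nat_lit 5) (nat_lit 0x200014001300098000000000000000000000000000000) (nat_lit 0x0) (nat_lit 0x6003c000e0007000000000000000000) := Q_6 (nat_lit 107) (C_6 L48982 (C_6 L48984 (C_6 L48985 N_6))) (by decide +kernel)
theorem L48987 : W_6 (nat_lit 2) (nat_lit 0x200014001300098000000000000000000000000000000) (nat_lit 0x0) (nat_lit 0x1000080000000000000000400000000000000000000000000) := D_6 (nat_lit 175) (nat_lit 106) (nat_lit 192) (nat_lit 4) (nat_lit 5) (nat_lit 10) (nat_lit 4) (nat_lit 5) (nat_lit 11) (by decide +kernel)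
theorem L48988 : W_6 (nat_lit 2) (nat_lit 0x2c0014001300098000000000000000000000000000000) (nat_lit 0x0) (nat_lit 0x2000100020000000000000000000000000000000000000000) := D_6 (nat_lit 176) (nat_lit 161) (nat_lit 193) (nat_lit 2) (nat_lit 4) (nat_lit 10) (nat_lit 7) (nat_lit 5) (nat_lit 7) (by decide +kernel)
theorem L48989 : W_6 (nat_lit 3) (nat_lit 0x280014001300098000000000000000000000000000000) (nat_lit 0x0) (nat_lit 0x2800140020000000000000000000000000000000000000000) := T_6 (nat_lit 174) (nat_lit 191) (nat_lit 5) (nat_lit 5) (nat_lit 7) L48988 (by decide +kernel)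
theorem L48990 : W_6 (nat_lit 4) (nat_lit 0x200014001300098000000000000000000000000000000) (nat_lit 0x0) (nat_lit 0x38001c0020000000000000000000000000000000000000000) := T_6 (nat_lit 175) (nat_lit 192) (nat_lit 4) (nat_lit 5) (nat_lit 11) L48989 (by decide +kernel)
theorem L48991 : W_6 (nat_lit 6) (nat_lit 0x200010001300098000000000000000000000000000000) (nat_lit 0x0) (nat_lit 0x38001c0024000000006003c000e0007000000000000000000) := Q_6 (nat_lit 158) (C_6 L48986 (C_6 L48987 (C_6 L48990 N_6))) (by decide +kernel)
theorem L48992 : W_6 (nat_lit 2) (nat_lit 0x2000100013800de000900008002000000000000000000) (nat_lit 0x0) (nat_lit 0x20001000000000000200000000000000000000000000) := D_6 (nat_lit 156) (nat_lit 173) (nat_lit 105) (nat_lit 4) (nat_lit 3) (nat_lit 10) (nat_lit 4) (nat_lit 3) (nat_lit 9) (by decide +kernel)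
theorem L48993 : W_6 (nat_lit 3) (nat_lit 0x2000100013800de000900000002000000000000000000) (nat_lit 0x0) (nat_lit 0x20001000000000000200008000400000000000000000) := T_6 (nat_lit 87) (nat_lit 70) (nat_lit 7) (nat_lit 2) (nat_lit 4) L48992 (by decide +kernel)
theorem L48994 : W_6 (nat_lit 4) (nat_lit 0x2000100013800de000900000000000000000000000000) (nat_lit 0x0) (nat_lit 0x20001000000000000200048002400000000000000000) := T_6 (nat_lit 73) (nat_lit 90) (nat_lit 5) (nat_lit 5) (nat_lit 4) L48993 (by decide +kernel)
theorem L48995 : W_6 (nat_lit 5) (nat_lit 0x2000100013800de000800000000000000000000000000) (nat_lit 0x0) (nat_lit 0x20001000000000000380048002400000000000000000) := T_6 (nat_lit 104) (nat_lit 103) (nat_lit 0) (nat_lit 5) (nat_lit 7) L48994 (by decide +kernel)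
theorem L48996 : W_6 (nat_lit 6) (nat_lit 0x2000100013800de000000000000000000000000000000) (nat_lit 0x0) (nat_lit 0x20001000000000001b80048002400000000000000000) := T_6 (nat_lit 107) (nat_lit 108) (nat_lit 2) (nat_lit 2) (nat_lit 7) L48995 (by decide +kernel)
theorem L48997 : W_6 (nat_lit 7) (nat_lit 0x2000100013800dc000000000000000000000000000000) (nat_lit 0x0) (nat_lit 0x20001000000003001b80048002400000000000000000) := T_6 (nat_lit 121) (nat_lit 120) (nat_lit 3) (nat_lit 1) (nat_lit 7) L48996 (by decide +kernel)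
theorem L48998 : W_6 (nat_lit 8) (nat_lit 0x20001000138009c000000000000000000000000000000) (nat_lit 0x0) (nat_lit 0x20001000000063001b80048002400000000000000000) := T_6 (nat_lit 126) (nat_lit 125) (nat_lit 1) (nat_lit 7) (nat_lit 7) L48997 (by decide +kernel)
theorem L48999 : W_6 (nat_lit 2) (nat_lit 0x20001000138009e000900008002000000000000000000) (nat_lit 0x0) (nat_lit 0x20001000000000000200000000000000000000000000) := D_6 (nat_lit 156) (nat_lit 173) (nat_lit 105) (nat_lit 4) (nat_lit 3) (nat_lit 10) (nat_lit 4) (nat_lit 3) (nat_lit 9) (by decide +kernel)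
theorem L49000 : W_6 (nat_lit 3) (nat_lit 0x20001000138009e000900000002000000000000000000) (nat_lit 0x0) (nat_lit 0x20001000000000000200008000400000000000000000) := T_6 (nat_lit 87) (nat_lit 70) (nat_lit 7) (nat_lit 2) (nat_lit 4) L48999 (by decide +kernel)
theorem L49001 : W_6 (nat_lit 4) (nat_lit 0x20001000138009e000900000000000000000000000000) (nat_lit 0x0) (nat_lit 0x20001000000000000200048002400000000000000000) := T_6 (nat_lit 73) (nat_lit 90) (nat_lit 5) (nat_lit 5) (nat_lit 4) L49000 (by decide +kernel)
theorem L49002 : W_6 (nat_lit 5) (nat_lit 0x20001000138009e000800000000000000000000000000) (nat_lit 0x0) (nat_lit 0x20001000000000000380048002400000000000000000) := T_6 (nat_lit 104) (nat_lit 103) (nat_lit 0) (nat_lit 5) (nat_lit 7) L49001 (by decide +kernel)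
theorem L49003 : W_6 (nat_lit 6) (nat_lit 0x20001000138009e000000000000000000000000000000) (nat_lit 0x0) (nat_lit 0x20001000000000001b80048002400000000000000000) := T_6 (nat_lit 107) (nat_lit 108) (nat_lit 2) (nat_lit 2) (nat_lit 7) L49002 (by decide +kernel)
theorem L49004 : W_6 (nat_lit 7) (nat_lit 0x20001000138009c000000000000000000000000000000) (nat_lit 0x0) (nat_lit 0x20001000000003001b80048002400000000000000000) := T_6 (nat_lit 121) (nat_lit 120) (nat_lit 3) (nat_lit 1) (nat_lit 7) L49003 (by decide +kernel)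
theorem L49005 : W_6 (nat_lit 2) (nat_lit 0x2200110013800bd001200030004000000000000000000) (nat_lit 0x0) (nat_lit 0x200010000800000000000000000000000000000000000000) := D_6 (nat_lit 172) (nat_lit 155) (nat_lit 189) (nat_lit 5) (nat_lit 3) (nat_lit 6) (nat_lit 5) (nat_lit 3) (nat_lit 7) (by decide +kernel)
theorem L49006 : W_6 (nat_lit 3) (nat_lit 0x2000110013800bd001200030004000000000000000000) (nat_lit 0x0) (nat_lit 0x600030000800000000000000000000000000000000000000) := T_6 (nat_lit 173) (nat_lit 190) (nat_lit 6) (nat_lit 3) (nat_lit 11) L49005 (by decide +kernel)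
theorem L49007 : W_6 (nat_lit 4) (nat_lit 0x2000100013800bd001200030004000000000000000000) (nat_lit 0x0) (nat_lit 0x600030001800000000000400000000000000000000000000) := T_6 (nat_lit 156) (nat_lit 106) (nat_lit 6) (nat_lit 3) (nat_lit 9) L49006 (by decide +kernel)
theorem L49008 : W_6 (nat_lit 5) (nat_lit 0x2000100013800bd001200010004000000000000000000) (nat_lit 0x0) (nat_lit 0x600030001800000000000400020001000000000000000000) := T_6 (nat_lit 89) (nat_lit 72) (nat_lit 6) (nat_lit 3) (nat_lit 8) L49007 (by decide +kernel)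
theorem L49009 : W_6 (nat_lit 6) (nat_lit 0x2000100013800bd001200010000000000000000000000) (nat_lit 0x0) (nat_lit 0x6000300018000000000004000a0005000000000000000000) := T_6 (nat_lit 74) (nat_lit 91) (nat_lit 5) (nat_lit 6) (nat_lit 4) L49008 (by decide +kernel)
theorem L49010 : W_6 (nat_lit 7) (nat_lit 0x2000100013800bd001200000000000000000000000000) (nat_lit 0x0) (nat_lit 0x6000300018000000000004000b0005800000000000000000) := T_6 (nat_lit 88) (nat_lit 71) (nat_lit 7) (nat_lit 3) (nat_lit 4) L49009 (by decide +kernel)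
theorem L49011 : W_6 (nat_lit 8) (nat_lit 0x2000100013800bd000200000000000000000000000000) (nat_lit 0x0) (nat_lit 0x6000300018000000000034000b0005800000000000000000) := T_6 (nat_lit 108) (nat_lit 109) (nat_lit 2) (nat_lit 3) (nat_lit 7) L49010 (by decide +kernel)
theorem L49012 : W_6 (nat_lit 9) (nat_lit 0x2000100013800bd000000000000000000000000000000) (nat_lit 0x0) (nat_lit 0x6000300018000000000037000b0005800000000000000000) := T_6 (nat_lit 105) (nat_lit 104) (nat_lit 0) (nat_lit 6) (nat_lit 7) L49011 (by decide +kernel)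
theorem L49013 : W_6 (nat_lit 10) (nat_lit 0x20001000138009d000000000000000000000000000000) (nat_lit 0x0) (nat_lit 0x6000300018000000600037000b0005800000000000000000) := T_6 (nat_lit 125) (nat_lit 126) (nat_lit 1) (nat_lit 7) (nat_lit 7) L49012 (by decide +kernel)
theorem L49014 : W_6 (nat_lit 11) (nat_lit 0x20001000138009c000000000000000000000000000000) (nat_lit 0x0) (nat_lit 0x6000300018000000630037000b0005800000000000000000) := T_6 (nat_lit 120) (nat_lit 121) (nat_lit 3) (nat_lit 1) (nat_lit 7) L49013 (by decide +kernel)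
theorem L49015 : W_6 (nat_lit 2) (nat_lit 0x2000110013800de000900040000400000000000000000) (nat_lit 0x0) (nat_lit 0x400020001000000000000000000) := D_6 (nat_lit 89) (nat_lit 72) (nat_lit 106) (nat_lit 4) (nat_lit 5) (nat_lit 8) (nat_lit 5) (nat_lit 4) (nat_lit 5) (by decide +kernel)
theorem L49016 : W_6 (nat_lit 3) (nat_lit 0x2000100013800de000900040000400000000000000000) (nat_lit 0x0) (nat_lit 0x20001000000000000400020001000000000000000000) := T_6 (nat_lit 156) (nat_lit 173) (nat_lit 4) (nat_lit 3) (nat_lit 10) L49015 (by decide +kernel)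
theorem L49017 : W_6 (nat_lit 4) (nat_lit 0x2000100013800de000900000000400000000000000000) (nat_lit 0x0) (nat_lit 0x20001000000000000400060003000000000000000000) := T_6 (nat_lit 90) (nat_lit 73) (nat_lit 5) (nat_lit 5) (nat_lit 4) L49016 (by decide +kernel)
theorem L49018 : W_6 (nat_lit 5) (nat_lit 0x2000100013800de000900000000000000000000000000) (nat_lit 0x0) (nat_lit 0x20001000000000000400068003400000000000000000) := T_6 (nat_lit 70) (nat_lit 87) (nat_lit 7) (nat_lit 2) (nat_lit 4) L49017 (by decide +kernel)
theorem L49019 : W_6 (nat_lit 6) (nat_lit 0x2000100013800de000100000000000000000000000000) (nat_lit 0x0) (nat_lit 0x20001000000000001c00068003400000000000000000) := T_6 (nat_lit 107) (nat_lit 108) (nat_lit 2) (nat_lit 2) (nat_lit 7) L49018 (by decide +kernel)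
theorem L49020 : W_6 (nat_lit 7) (nat_lit 0x2000100013800de000000000000000000000000000000) (nat_lit 0x0) (nat_lit 0x20001000000000001d80068003400000000000000000) := T_6 (nat_lit 104) (nat_lit 103) (nat_lit 0) (nat_lit 5) (nat_lit 7) L49019 (by decide +kernel)
theorem L49021 : W_6 (nat_lit 8) (nat_lit 0x20001000138009e000000000000000000000000000000) (nat_lit 0x0) (nat_lit 0x20001000000060001d80068003400000000000000000) := T_6 (nat_lit 126) (nat_lit 125) (nat_lit 1) (nat_lit 7) (nat_lit 7) L49020 (by decide +kernel)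
theorem L49022 : W_6 (nat_lit 9) (nat_lit 0x20001000138009c000000000000000000000000000000) (nat_lit 0x0) (nat_lit 0x20001000000063001d80068003400000000000000000) := T_6 (nat_lit 121) (nat_lit 120) (nat_lit 3) (nat_lit 1) (nat_lit 7) L49021 (by decide +kernel)
theorem L49023 : W_6 (nat_lit 2) (nat_lit 0x2000100013800de000b000c0000400000000000000000) (nat_lit 0x0) (nat_lit 0x30001000000000000000000) := D_6 (nat_lit 89) (nat_lit 88) (nat_lit 72) (nat_lit 1) (nat_lit 6) (nat_lit 5) (nat_lit 4) (nat_lit 5) (nat_lit 8) (by decide +kernel)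
theorem L49024 : W_6 (nat_lit 3) (nat_lit 0x2000100013800de0009000c0000400000000000000000) (nat_lit 0x0) (nat_lit 0x600030001000000000000000000) := T_6 (nat_lit 105) (nat_lit 106) (nat_lit 2) (nat_lit 2) (nat_lit 6) L49023 (by decide +kernel)
theorem L49025 : W_6 (nat_lit 4) (nat_lit 0x2000100013800de000900040000400000000000000000) (nat_lit 0x0) (nat_lit 0x6000b0005000000000000000000) := T_6 (nat_lit 91) (nat_lit 74) (nat_lit 6) (nat_lit 5) (nat_lit 8) L49024 (by decide +kernel)
theorem L49026 : W_6 (nat_lit 5) (nat_lit 0x2000100013800de000900040000000000000000000000) (nat_lit 0x0) (nat_lit 0x6000b8005400000000000000000) := T_6 (nat_lit 70) (nat_lit 87) (nat_lit 7) (nat_lit 2) (nat_lit 4) L49025 (by decide +kernel)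
theorem L49027 : W_6 (nat_lit 6) (nat_lit 0x2000100013800de000900000000000000000000000000) (nat_lit 0x0) (nat_lit 0x6000f8007400000000000000000) := T_6 (nat_lit 90) (nat_lit 73) (nat_lit 5) (nat_lit 5) (nat_lit 4) L49026 (by decide +kernel)
theorem L49028 : W_6 (nat_lit 7) (nat_lit 0x2000100013800de000800000000000000000000000000) (nat_lit 0x0) (nat_lit 0x7800f8007400000000000000000) := T_6 (nat_lit 104) (nat_lit 103) (nat_lit 0) (nat_lit 5) (nat_lit 7) L49027 (by decide +kernel)
theorem L49029 : W_6 (nat_lit 8) (nat_lit 0x2000100013800de000000000000000000000000000000) (nat_lit 0x0) (nat_lit 0x1f800f8007400000000000000000) := T_6 (nat_lit 107) (nat_lit 108) (nat_lit 2) (nat_lit 2) (nat_lit 7) L49028 (by decide +kernel)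
theorem L49030 : W_6 (nat_lit 9) (nat_lit 0x2000100013800dc000000000000000000000000000000) (nat_lit 0x0) (nat_lit 0x3001f800f8007400000000000000000) := T_6 (nat_lit 121) (nat_lit 120) (nat_lit 3) (nat_lit 1) (nat_lit 7) L49029 (by decide +kernel)
theorem L49031 : W_6 (nat_lit 10) (nat_lit 0x20001000138009c000000000000000000000000000000) (nat_lit 0x0) (nat_lit 0x63001f800f8007400000000000000000) := T_6 (nat_lit 126) (nat_lit 125) (nat_lit 1) (nat_lit 7) (nat_lit 7) L49030 (by decide +kernel)
theorem L49032 : W_6 (nat_lit 12) (nat_lit 0x200010001380098000000000000000000000000000000) (nat_lit 0x0) (nat_lit 0x600030001800000067003f803f8007c00000000000000000) := Q_6 (nat_lit 122) (C_6 L48998 (C_6 L49004 (C_6 L49014 (C_6 L43017 (C_6 L42606 (C_6 L49022 (C_6 L49031 (C_6 L43034 N_6)))))))) (by decide +kernel)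
theorem L49033 : W_6 (nat_lit 11) (nat_lit 0x200010001380098000000000000000000000000000000) (nat_lit 0x0) (nat_lit 0x200030001c00060007001f800f8007400000000000000000) := Q_6 (nat_lit 122) (C_6 L49004 (C_6 L42644 (C_6 L43039 (C_6 L42658 (C_6 L42667 N_6))))) (by decide +kernel)
theorem L49034 : W_6 (nat_lit 13) (nat_lit 0x200010001300098000000000000000000000000000000) (nat_lit 0x0) (nat_lit 0x600030001c000e0067003f803f8007c00000000000000000) := Q_6 (nat_lit 139) (C_6 L49032 (C_6 L42589 (C_6 L49033 N_6))) (by decide +kernel)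
theorem L49035 : W_6 (nat_lit 2) (nat_lit 0x2000100013800bc000200038000000000000000000000) (nat_lit 0x0) (nat_lit 0x5000000000000400000000000000000000000000) := D_6 (nat_lit 106) (nat_lit 156) (nat_lit 158) (nat_lit 6) (nat_lit 3) (nat_lit 9) (nat_lit 7) (nat_lit 4) (nat_lit 5) (by decide +kernel)
theorem L49036 : W_6 (nat_lit 3) (nat_lit 0x2000100013800bc000200018000000000000000000000) (nat_lit 0x0) (nat_lit 0x5000000000000400020001000000000000000000) := T_6 (nat_lit 89) (nat_lit 72) (nat_lit 6) (nat_lit 3) (nat_lit 8) L49035 (by decide +kernel)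
theorem L49037 : W_6 (nat_lit 4) (nat_lit 0x2000100013800bc000200010000000000000000000000) (nat_lit 0x0) (nat_lit 0x5000000000000400028001400000000000000000) := T_6 (nat_lit 87) (nat_lit 70) (nat_lit 4) (nat_lit 3) (nat_lit 8) L49036 (by decide +kernel)
theorem L49038 : W_6 (nat_lit 5) (nat_lit 0x2000100013800bc000200000000000000000000000000) (nat_lit 0x0) (nat_lit 0x5000000000000400038001c00000000000000000) := T_6 (nat_lit 88) (nat_lit 71) (nat_lit 7) (nat_lit 3) (nat_lit 4) L49037 (by decide +kernel)
theorem L49039 : W_6 (nat_lit 6) (nat_lit 0x2000100013800bc000000000000000000000000000000) (nat_lit 0x0) (nat_lit 0x5000000000000700038001c00000000000000000) := T_6 (nat_lit 105) (nat_lit 104) (nat_lit 0) (nat_lit 6) (nat_lit 7) L49038 (by decide +kernel)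
theorem L49040 : W_6 (nat_lit 7) (nat_lit 0x20001000138009c000000000000000000000000000000) (nat_lit 0x0) (nat_lit 0x5000000060000700038001c00000000000000000) := T_6 (nat_lit 125) (nat_lit 126) (nat_lit 1) (nat_lit 7) (nat_lit 7) L49039 (by decide +kernel)
theorem L49041 : W_6 (nat_lit 11) (nat_lit 0x200010001380098000000000000000000000000000000) (nat_lit 0x0) (nat_lit 0x20005000000067001f803f8007c00000000000000000) := Q_6 (nat_lit 122) (C_6 L43034 (C_6 L42606 (C_6 L49004 (C_6 L49040 (C_6 L49022 (C_6 L49031 N_6)))))) (by decide +kernel)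
theorem L49042 : W_6 (nat_lit 12) (nat_lit 0x200010001300098000000000000000000000000000000) (nat_lit 0x0) (nat_lit 0x200030005c000e0067001f803f8007c00000000000000000) := Q_6 (nat_lit 139) (C_6 L49041 (C_6 L42589 (C_6 L49033 N_6))) (by decide +kernel)
theorem L49043 : W_6 (nat_lit 8) (nat_lit 0x200010001380098000000000000000000000000000000) (nat_lit 0x0) (nat_lit 0xa0005000000067003b800d8006c00000000000000000) := Q_6 (nat_lit 122) (C_6 L42606 (C_6 L49004 (C_6 L42894 (C_6 L42888 N_6)))) (by decide +kernel)
theorem L49044 : W_6 (nat_lit 2) (nat_lit 0x2002000108013c009e000900000002000000000000000000) (nat_lit 0x0) (nat_lit 0x20001000000000000000008000000000000000000000) := D_6 (nat_lit 156) (nat_lit 173) (nat_lit 87) (nat_lit 7) (nat_lit 2) (nat_lit 6) (nat_lit 7) (nat_lit 2) (nat_lit 5) (by decide +kernel)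
theorem L49045 : W_6 (nat_lit 3) (nat_lit 0x2002000108013c009e000800000002000000000000000000) (nat_lit 0x0) (nat_lit 0x20001000000000000180008000000000000000000000) := T_6 (nat_lit 104) (nat_lit 103) (nat_lit 0) (nat_lit 5) (nat_lit 7) L49044 (by decide +kernel)
theorem L49046 : W_6 (nat_lit 4) (nat_lit 0x2000108013c009e000800000002000000000000000000) (nat_lit 0x0) (nat_lit 0x200030001000000000000180008000000000000000000000) := T_6 (nat_lit 189) (nat_lit 172) (nat_lit 6) (nat_lit 2) (nat_lit 11) L49045 (by decide +kernel)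
theorem L49047 : W_6 (nat_lit 5) (nat_lit 0x2000108013c009e000800000000000000000000000000) (nat_lit 0x0) (nat_lit 0x200030001000000000000180048002000000000000000000) := T_6 (nat_lit 73) (nat_lit 90) (nat_lit 5) (nat_lit 5) (nat_lit 4) L49046 (by decide +kernel)
theorem L49048 : W_6 (nat_lit 6) (nat_lit 0x2000100013c009e000800000000000000000000000000) (nat_lit 0x0) (nat_lit 0x200030001c00000000000180048002000000000000000000) := T_6 (nat_lit 155) (nat_lit 154) (nat_lit 1) (nat_lit 5) (nat_lit 8) L49047 (by decide +kernel)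
theorem L49049 : W_6 (nat_lit 7) (nat_lit 0x2000100013c009e000000000000000000000000000000) (nat_lit 0x0) (nat_lit 0x200030001c00000000001980048002000000000000000000) := T_6 (nat_lit 107) (nat_lit 108) (nat_lit 2) (nat_lit 2) (nat_lit 7) L49048 (by decide +kernel)
theorem L49050 : W_6 (nat_lit 8) (nat_lit 0x20001000138009e000000000000000000000000000000) (nat_lit 0x0) (nat_lit 0x200030001c00060000001980048002000000000000000000) := T_6 (nat_lit 138) (nat_lit 137) (nat_lit 2) (nat_lit 1) (nat_lit 8) L49049 (by decide +kernel)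
theorem L49051 : W_6 (nat_lit 9) (nat_lit 0x20001000138009c000000000000000000000000000000) (nat_lit 0x0) (nat_lit 0x200030001c00060003001980048002000000000000000000) := T_6 (nat_lit 121) (nat_lit 120) (nat_lit 3) (nat_lit 1) (nat_lit 7) L49050 (by decide +kernel)
theorem L49052 : W_6 (nat_lit 11) (nat_lit 0x200010001380098000000000000000000000000000000) (nat_lit 0x0) (nat_lit 0x200030001c00060007001b800f8007c00000000000000000) := Q_6 (nat_lit 122) (C_6 L43039 (C_6 L49004 (C_6 L49051 (C_6 L42915 N_6)))) (by decide +kernel)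
theorem L49053 : W_6 (nat_lit 12) (nat_lit 0x200010001300098000000000000000000000000000000) (nat_lit 0x0) (nat_lit 0x2000b0005c000e0067003b800f8007c00000000000000000) := Q_6 (nat_lit 139) (C_6 L42589 (C_6 L49043 (C_6 L49052 N_6))) (by decide +kernel)
theorem L49054 : W_6 (nat_lit 4) (nat_lit 0x2000100013c009c000000000000000000000000000000) (nat_lit 0x0) (nat_lit 0x10000c00000003000200010000000000000000000000) := T_6 (nat_lit 121) (nat_lit 120) (nat_lit 3) (nat_lit 1) (nat_lit 7) L44841 (by decide +kernel)
theorem L49055 : W_6 (nat_lit 5) (nat_lit 0x20001000138009c000000000000000000000000000000) (nat_lit 0x0) (nat_lit 0x10000c00060003000200010000000000000000000000) := T_6 (nat_lit 138) (nat_lit 137) (nat_lit 2) (nat_lit 1) (nat_lit 8) L49054 (by decide +kernel)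
theorem L49056 : W_6 (nat_lit 6) (nat_lit 0x20001000130009c000000000000000000000000000000) (nat_lit 0x0) (nat_lit 0x200030001c000e0003000380018000400000000000000000) := Q_6 (nat_lit 139) (C_6 L43039 (C_6 L43499 (C_6 L43706 (C_6 L49055 N_6)))) (by decide +kernel)
theorem L49057 : W_6 (nat_lit 2) (nat_lit 0x2000140013000bd001200030007000000000000000000) (nat_lit 0x0) (nat_lit 0x4c000000000000000000000) := D_6 (nat_lit 87) (nat_lit 86) (nat_lit 90) (nat_lit 2) (nat_lit 1) (nat_lit 5) (nat_lit 2) (nat_lit 2) (nat_lit 5) (by decide +kernel)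
theorem L49058 : W_6 (nat_lit 3) (nat_lit 0x2000140013000bd001200030005000000000000000000) (nat_lit 0x0) (nat_lit 0x4c00a000000000000000000) := T_6 (nat_lit 73) (nat_lit 75) (nat_lit 1) (nat_lit 7) (nat_lit 4) L49057 (by decide +kernel)
theorem L49059 : W_6 (nat_lit 4) (nat_lit 0x2000140013000bd001200030004000000000000000000) (nat_lit 0x0) (nat_lit 0x8000000000004c00b000000000000000000) := T_6 (nat_lit 72) (nat_lit 139) (nat_lit 6) (nat_lit 3) (nat_lit 8) L49058 (by decide +kernel)
theorem L49060 : W_6 (nat_lit 5) (nat_lit 0x2000140013000bd001200030000000000000000000000) (nat_lit 0x0) (nat_lit 0x800000000000cc00f000000000000000000) := T_6 (nat_lit 74) (nat_lit 91) (nat_lit 5) (nat_lit 6) (nat_lit 4) L49059 (by decide +kernel)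
theorem L49061 : W_6 (nat_lit 6) (nat_lit 0x2000140013000bd001200010000000000000000000000) (nat_lit 0x0) (nat_lit 0x800000004000ec00f000000000000000000) := T_6 (nat_lit 89) (nat_lit 106) (nat_lit 7) (nat_lit 4) (nat_lit 5) L49060 (by decide +kernel)
theorem L49062 : W_6 (nat_lit 7) (nat_lit 0x2000140013000bd001200000000000000000000000000) (nat_lit 0x0) (nat_lit 0x800000004000fc00f800000000000000000) := T_6 (nat_lit 88) (nat_lit 71) (nat_lit 7) (nat_lit 3) (nat_lit 4) L49061 (by decide +kernel)
theorem L49063 : W_6 (nat_lit 8) (nat_lit 0x2000100013000bd001200000000000000000000000000) (nat_lit 0x0) (nat_lit 0x800040000800000004000fc00f800000000000000000) := T_6 (nat_lit 158) (nat_lit 175) (nat_lit 6) (nat_lit 5) (nat_lit 10) L49062 (by decide +kernel)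
theorem L49064 : W_6 (nat_lit 9) (nat_lit 0x2000100013000bd001000000000000000000000000000) (nat_lit 0x0) (nat_lit 0x800040000800000007000fc00f800000000000000000) := T_6 (nat_lit 105) (nat_lit 104) (nat_lit 0) (nat_lit 6) (nat_lit 7) L49063 (by decide +kernel)
theorem L49065 : W_6 (nat_lit 10) (nat_lit 0x2000100013000bd000000000000000000000000000000) (nat_lit 0x0) (nat_lit 0x800040000800000037000fc00f800000000000000000) := T_6 (nat_lit 108) (nat_lit 109) (nat_lit 2) (nat_lit 3) (nat_lit 7) L49064 (by decide +kernel)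
theorem L49066 : W_6 (nat_lit 11) (nat_lit 0x20001000130009d000000000000000000000000000000) (nat_lit 0x0) (nat_lit 0x800040000800600037000fc00f800000000000000000) := T_6 (nat_lit 125) (nat_lit 126) (nat_lit 1) (nat_lit 8) (nat_lit 7) L49065 (by decide +kernel)
theorem L49067 : W_6 (nat_lit 12) (nat_lit 0x20001000130009c000000000000000000000000000000) (nat_lit 0x0) (nat_lit 0x800040000800630037000fc00f800000000000000000) := T_6 (nat_lit 120) (nat_lit 121) (nat_lit 3) (nat_lit 1) (nat_lit 7) L49066 (by decide +kernel)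
theorem L49068 : W_6 (nat_lit 2) (nat_lit 0x2000100013000be000000000000000000000000000000) (nat_lit 0x0) (nat_lit 0x380000000000000000000000000) := D_6 (nat_lit 104) (nat_lit 105) (nat_lit 103) (nat_lit 0) (nat_lit 6) (nat_lit 7) (nat_lit 0) (nat_lit 5) (nat_lit 7) (by decide +kernel)
theorem L49069 : W_6 (nat_lit 3) (nat_lit 0x2000100013000bc000000000000000000000000000000) (nat_lit 0x0) (nat_lit 0x3000380000000000000000000000000) := T_6 (nat_lit 121) (nat_lit 120) (nat_lit 3) (nat_lit 1) (nat_lit 7) L49068 (by decide +kernel)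
theorem L49070 : W_6 (nat_lit 4) (nat_lit 0x20001000130009c000000000000000000000000000000) (nat_lit 0x0) (nat_lit 0x63000380000000000000000000000000) := T_6 (nat_lit 125) (nat_lit 126) (nat_lit 1) (nat_lit 8) (nat_lit 7) L49069 (by decide +kernel)
theorem L49071 : W_6 (nat_lit 2) (nat_lit 0x2a00110013800bc001200030004000000000000000000) (nat_lit 0x0) (nat_lit 0x200010000800000000000000000000000000000000000000) := D_6 (nat_lit 172) (nat_lit 155) (nat_lit 189) (nat_lit 5) (nat_lit 3) (nat_lit 6) (nat_lit 5) (nat_lit 3) (nat_lit 7) (by decide +kernel)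
theorem L49072 : W_6 (nat_lit 3) (nat_lit 0x2800110013800bc001200030004000000000000000000) (nat_lit 0x0) (nat_lit 0x600030000800000000000000000000000000000000000000) := T_6 (nat_lit 173) (nat_lit 190) (nat_lit 6) (nat_lit 3) (nat_lit 11) L49071 (by decide +kernel)
theorem L49073 : W_6 (nat_lit 4) (nat_lit 0x2800100013800bc001200030004000000000000000000) (nat_lit 0x0) (nat_lit 0x600030001800000000000400000000000000000000000000) := T_6 (nat_lit 156) (nat_lit 106) (nat_lit 6) (nat_lit 3) (nat_lit 9) L49072 (by decide +kernel)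
theorem L49074 : W_6 (nat_lit 5) (nat_lit 0x2800100013800bc001200010004000000000000000000) (nat_lit 0x0) (nat_lit 0x600030001800000000000400020001000000000000000000) := T_6 (nat_lit 89) (nat_lit 72) (nat_lit 6) (nat_lit 3) (nat_lit 8) L49073 (by decide +kernel)
theorem L49075 : W_6 (nat_lit 6) (nat_lit 0x2800100013800bc001200000004000000000000000000) (nat_lit 0x0) (nat_lit 0x600030001800000000000400030001800000000000000000) := T_6 (nat_lit 88) (nat_lit 71) (nat_lit 7) (nat_lit 3) (nat_lit 4) L49074 (by decide +kernel)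
theorem L49076 : W_6 (nat_lit 7) (nat_lit 0x2000100013800bc001200000004000000000000000000) (nat_lit 0x0) (nat_lit 0x6000b0005800000000000400030001800000000000000000) := T_6 (nat_lit 175) (nat_lit 158) (nat_lit 6) (nat_lit 5) (nat_lit 10) L49075 (by decide +kernel)
theorem L49077 : W_6 (nat_lit 8) (nat_lit 0x2000100013800bc001000000004000000000000000000) (nat_lit 0x0) (nat_lit 0x6000b0005800000000000700030001800000000000000000) := T_6 (nat_lit 105) (nat_lit 104) (nat_lit 0) (nat_lit 6) (nat_lit 7) L49076 (by decide +kernel)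
theorem L49078 : W_6 (nat_lit 9) (nat_lit 0x2000100013800bc001000000000000000000000000000) (nat_lit 0x0) (nat_lit 0x6000b00058000000000007000b0005800000000000000000) := T_6 (nat_lit 74) (nat_lit 91) (nat_lit 5) (nat_lit 6) (nat_lit 4) L49077 (by decide +kernel)
theorem L49079 : W_6 (nat_lit 10) (nat_lit 0x2000100013000bc001000000000000000000000000000) (nat_lit 0x0) (nat_lit 0x6000b00058000c00000007000b0005800000000000000000) := T_6 (nat_lit 139) (nat_lit 138) (nat_lit 2) (nat_lit 2) (nat_lit 8) L49078 (by decide +kernel)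
theorem L49080 : W_6 (nat_lit 11) (nat_lit 0x2000100013000bc000000000000000000000000000000) (nat_lit 0x0) (nat_lit 0x6000b00058000c00000037000b0005800000000000000000) := T_6 (nat_lit 108) (nat_lit 109) (nat_lit 2) (nat_lit 3) (nat_lit 7) L49079 (by decide +kernel)
theorem L49081 : W_6 (nat_lit 12) (nat_lit 0x20001000130009c000000000000000000000000000000) (nat_lit 0x0) (nat_lit 0x6000b00058000c00600037000b0005800000000000000000) := T_6 (nat_lit 125) (nat_lit 126) (nat_lit 1) (nat_lit 8) (nat_lit 7) L49080 (by decide +kernel)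
theorem L49082 : W_6 (nat_lit 13) (nat_lit 0x200010001300098000000000000000000000000000000) (nat_lit 0x0) (nat_lit 0x6000b0005c000e00670037800fc00fc00000000000000000) := Q_6 (nat_lit 122) (C_6 L43779 (C_6 L49056 (C_6 L49067 (C_6 L49070 (C_6 L49081 N_6))))) (by decide +kernel)
theorem L49083 : W_6 (nat_lit 2) (nat_lit 0x2000108013c00da000400030000000000000000000000) (nat_lit 0x0) (nat_lit 0x4000300000000000000000000000000) := D_6 (nat_lit 105) (nat_lit 122) (nat_lit 104) (nat_lit 5) (nat_lit 3) (nat_lit 5) (nat_lit 6) (nat_lit 2) (nat_lit 9) (by decide +kernel)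
theorem L49084 : W_6 (nat_lit 3) (nat_lit 0x2000100013c00da000400030000000000000000000000) (nat_lit 0x0) (nat_lit 0xc00000004000300000000000000000000000000) := T_6 (nat_lit 155) (nat_lit 154) (nat_lit 1) (nat_lit 5) (nat_lit 8) L49083 (by decide +kernel)
theorem L49085 : W_6 (nat_lit 4) (nat_lit 0x2000100013c00d8000400030000000000000000000000) (nat_lit 0x0) (nat_lit 0xc00000007000300000000000000000000000000) := T_6 (nat_lit 121) (nat_lit 120) (nat_lit 0) (nat_lit 5) (nat_lit 8) L49084 (by decide +kernel)
theorem L49086 : W_6 (nat_lit 5) (nat_lit 0x2000100013800d8000400030000000000000000000000) (nat_lit 0x0) (nat_lit 0xc00060007000300000000000000000000000000) := T_6 (nat_lit 138) (nat_lit 137) (nat_lit 2) (nat_lit 1) (nat_lit 8) L49085 (by decide +kernel)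
theorem L49087 : W_6 (nat_lit 6) (nat_lit 0x2000100013000d8000400030000000000000000000000) (nat_lit 0x0) (nat_lit 0x1c000e0007000300000000000000000000000000) := T_6 (nat_lit 139) (nat_lit 156) (nat_lit 5) (nat_lit 4) (nat_lit 5) L49086 (by decide +kernel)
theorem L49088 : W_6 (nat_lit 7) (nat_lit 0x2000100013000d8000400020000000000000000000000) (nat_lit 0x0) (nat_lit 0x1c000e0007000300010000800000000000000000) := T_6 (nat_lit 88) (nat_lit 71) (nat_lit 4) (nat_lit 4) (nat_lit 8) L49087 (by decide +kernel)
theorem L49089 : W_6 (nat_lit 8) (nat_lit 0x2000100013000d8000400000000000000000000000000) (nat_lit 0x0) (nat_lit 0x1c000e0007000300030001800000000000000000) := T_6 (nat_lit 89) (nat_lit 72) (nat_lit 7) (nat_lit 4) (nat_lit 4) L49088 (by decide +kernel)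
theorem L49090 : W_6 (nat_lit 9) (nat_lit 0x200010001300098000400000000000000000000000000) (nat_lit 0x0) (nat_lit 0x1c000e0067000300030001800000000000000000) := T_6 (nat_lit 126) (nat_lit 125) (nat_lit 1) (nat_lit 8) (nat_lit 7) L49089 (by decide +kernel)
theorem L49091 : W_6 (nat_lit 3) (nat_lit 0x200014001300098001400000000000000000000000000) (nat_lit 0x0) (nat_lit 0x6002800080000000000000000000000) := T_6 (nat_lit 107) (nat_lit 91) (nat_lit 6) (nat_lit 5) (nat_lit 9) L43214 (by decide +kernel)
theorem L49092 : W_6 (nat_lit 4) (nat_lit 0x200010001300098001400000000000000000000000000) (nat_lit 0x0) (nat_lit 0x80004000000006002800080000000000000000000000) := T_6 (nat_lit 158) (nat_lit 175) (nat_lit 4) (nat_lit 5) (nat_lit 10) L49091 (by decide +kernel)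
theorem L49093 : W_6 (nat_lit 2) (nat_lit 0x200010001b002d8003400000000000000000000000000) (nat_lit 0x0) (nat_lit 0x20000000000000000100008000000000000000000) := D_6 (nat_lit 92) (nat_lit 75) (nat_lit 161) (nat_lit 7) (nat_lit 7) (nat_lit 4) (nat_lit 7) (nat_lit 7) (nat_lit 5) (by decide +kernel)
theorem L49094 : W_6 (nat_lit 3) (nat_lit 0x2000100013002d8003400000000000000000000000000) (nat_lit 0x0) (nat_lit 0x20000800000000000180008000000000000000000) := T_6 (nat_lit 143) (nat_lit 91) (nat_lit 4) (nat_lit 7) (nat_lit 9) L49093 (by decide +kernel)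
theorem L49095 : W_6 (nat_lit 4) (nat_lit 0x2000100013000d8003400000000000000000000000000) (nat_lit 0x0) (nat_lit 0x20000800300000000180008000000000000000000) := T_6 (nat_lit 129) (nat_lit 128) (nat_lit 0) (nat_lit 10) (nat_lit 7) L49094 (by decide +kernel)
theorem L49096 : W_6 (nat_lit 5) (nat_lit 0x2000100013000d8001400000000000000000000000000) (nat_lit 0x0) (nat_lit 0x20000800300002800180008000000000000000000) := T_6 (nat_lit 109) (nat_lit 107) (nat_lit 3) (nat_lit 4) (nat_lit 6) L49095 (by decide +kernel)
theorem L49097 : W_6 (nat_lit 6) (nat_lit 0x200010001300098001400000000000000000000000000) (nat_lit 0x0) (nat_lit 0x20000800360002800180008000000000000000000) := T_6 (nat_lit 126) (nat_lit 125) (nat_lit 1) (nat_lit 8) (nat_lit 7) L49096 (by decide +kernel)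
theorem L49098 : W_6 (nat_lit 2) (nat_lit 0x2000140013000b8001400000000000000000000000000) (nat_lit 0x0) (nat_lit 0x800080004000000000000000000) := D_6 (nat_lit 91) (nat_lit 74) (nat_lit 107) (nat_lit 5) (nat_lit 6) (nat_lit 4) (nat_lit 6) (nat_lit 5) (nat_lit 9) (by decide +kernel)
theorem L49099 : W_6 (nat_lit 3) (nat_lit 0x2000100013000b8001400000000000000000000000000) (nat_lit 0x0) (nat_lit 0x80004000000000000800080004000000000000000000) := T_6 (nat_lit 158) (nat_lit 175) (nat_lit 6) (nat_lit 5) (nat_lit 10) L49098 (by decide +kernel)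
theorem L49100 : W_6 (nat_lit 4) (nat_lit 0x200010001300098001400000000000000000000000000) (nat_lit 0x0) (nat_lit 0x80004000000060000800080004000000000000000000) := T_6 (nat_lit 125) (nat_lit 126) (nat_lit 1) (nat_lit 8) (nat_lit 7) L49099 (by decide +kernel)
theorem L49101 : W_6 (nat_lit 2) (nat_lit 0x2800100013000be001400000004000000000000000000) (nat_lit 0x0) (nat_lit 0x380000000000000000000000000) := D_6 (nat_lit 104) (nat_lit 105) (nat_lit 103) (nat_lit 0) (nat_lit 6) (nat_lit 7) (nat_lit 0) (nat_lit 5) (nat_lit 7) (by decide +kernel)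
theorem L49102 : W_6 (nat_lit 3) (nat_lit 0x2800100013000bc001400000004000000000000000000) (nat_lit 0x0) (nat_lit 0x3000380000000000000000000000000) := T_6 (nat_lit 121) (nat_lit 120) (nat_lit 3) (nat_lit 1) (nat_lit 7) L49101 (by decide +kernel)
theorem L49103 : W_6 (nat_lit 4) (nat_lit 0x2800100013000b8001400000004000000000000000000) (nat_lit 0x0) (nat_lit 0x7002380000000000000000000000000) := T_6 (nat_lit 122) (nat_lit 109) (nat_lit 2) (nat_lit 3) (nat_lit 7) L49102 (by decide +kernel)
theorem L49104 : W_6 (nat_lit 5) (nat_lit 0x2800100013000b8001400000000000000000000000000) (nat_lit 0x0) (nat_lit 0x7002380080004000000000000000000) := T_6 (nat_lit 74) (nat_lit 91) (nat_lit 5) (nat_lit 6) (nat_lit 4) L49103 (by decide +kernel)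
theorem L49105 : W_6 (nat_lit 6) (nat_lit 0x2000100013000b8001400000000000000000000000000) (nat_lit 0x0) (nat_lit 0x80004000000007002380080004000000000000000000) := T_6 (nat_lit 175) (nat_lit 158) (nat_lit 6) (nat_lit 5) (nat_lit 10) L49104 (by decide +kernel)
theorem L49106 : W_6 (nat_lit 7) (nat_lit 0x200010001300098001400000000000000000000000000) (nat_lit 0x0) (nat_lit 0x80004000000067002380080004000000000000000000) := T_6 (nat_lit 125) (nat_lit 126) (nat_lit 1) (nat_lit 8) (nat_lit 7) L49105 (by decide +kernel)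
theorem L49107 : W_6 (nat_lit 2) (nat_lit 0x2800100013000bc001400000000000000000000000000) (nat_lit 0x0) (nat_lit 0x3000800000000000000000000000000) := D_6 (nat_lit 121) (nat_lit 107) (nat_lit 120) (nat_lit 2) (nat_lit 2) (nat_lit 7) (nat_lit 3) (nat_lit 1) (nat_lit 7) (by decide +kernel)
theorem L49108 : W_6 (nat_lit 3) (nat_lit 0x2800100013000b8001400000000000000000000000000) (nat_lit 0x0) (nat_lit 0x7002800000000000000000000000000) := T_6 (nat_lit 122) (nat_lit 109) (nat_lit 2) (nat_lit 3) (nat_lit 7) L49107 (by decide +kernel)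
theorem L49109 : W_6 (nat_lit 4) (nat_lit 0x2000100013000b8001400000000000000000000000000) (nat_lit 0x0) (nat_lit 0x80004000000007002800000000000000000000000000) := T_6 (nat_lit 175) (nat_lit 158) (nat_lit 6) (nat_lit 5) (nat_lit 10) L49108 (by decide +kernel)
theorem L49110 : W_6 (nat_lit 5) (nat_lit 0x200010001300098001400000000000000000000000000) (nat_lit 0x0) (nat_lit 0x80004000000067002800000000000000000000000000) := T_6 (nat_lit 125) (nat_lit 126) (nat_lit 1) (nat_lit 8) (nat_lit 7) L49109 (by decide +kernel)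
theorem L49111 : W_6 (nat_lit 8) (nat_lit 0x200010001300098000400000000000000000000000000) (nat_lit 0x0) (nat_lit 0x80024000800367003b8018000c000000000000000000) := Q_6 (nat_lit 108) (C_6 L49092 (C_6 L49097 (C_6 L49100 (C_6 L49106 (C_6 L49110 N_6))))) (by decide +kernel)
theorem L49112 : W_6 (nat_lit 10) (nat_lit 0x200010001300098000000000000000000000000000000) (nat_lit 0x0) (nat_lit 0x80025c008e0367003f801b000d800000000000000000) := Q_6 (nat_lit 106) (C_6 L49090 (C_6 L42671 (C_6 L49111 N_6))) (by decide +kernel)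
theorem L49113 : W_6 (nat_lit 3) (nat_lit 0x200014001300098001800000000000000000000000000) (nat_lit 0x0) (nat_lit 0x44002400020000000000000000000000) := T_6 (nat_lit 106) (nat_lit 89) (nat_lit 7) (nat_lit 4) (nat_lit 5) L40442 (by decide +kernel)
theorem L49114 : W_6 (nat_lit 4) (nat_lit 0x200014001300098000800000000000000000000000000) (nat_lit 0x0) (nat_lit 0x440034000a0000000000000000000000) := T_6 (nat_lit 108) (nat_lit 91) (nat_lit 6) (nat_lit 5) (nat_lit 9) L49113 (by decide +kernel)
theorem L49115 : W_6 (nat_lit 5) (nat_lit 0x200014001300098000000000000000000000000000000) (nat_lit 0x0) (nat_lit 0x44003c000e0007000000000000000000) := Q_6 (nat_lit 107) (C_6 L48984 (C_6 L49114 (C_6 L48982 N_6))) (by decide +kernel)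
theorem L49116 : W_6 (nat_lit 6) (nat_lit 0x200010001300098000000000000000000000000000000) (nat_lit 0x0) (nat_lit 0x38001c0024000000044003c000e0007000000000000000000) := Q_6 (nat_lit 158) (C_6 L48990 (C_6 L49115 N_6)) (by decide +kernel)
theorem L49117 : W_6 (nat_lit 7) (nat_lit 0x2000100013000bc000000000000000000000000000000) (nat_lit 0x0) (nat_lit 0x50000c0000000700038001c00000000000000000) := T_6 (nat_lit 139) (nat_lit 138) (nat_lit 2) (nat_lit 2) (nat_lit 8) L49039 (by decide +kernel)
theorem L49118 : W_6 (nat_lit 8) (nat_lit 0x20001000130009c000000000000000000000000000000) (nat_lit 0x0) (nat_lit 0x50000c0060000700038001c00000000000000000) := T_6 (nat_lit 125) (nat_lit 126) (nat_lit 1) (nat_lit 8) (nat_lit 7) L49117 (by decide +kernel)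
theorem L49119 : W_6 (nat_lit 9) (nat_lit 0x200010001300098000000000000000000000000000000) (nat_lit 0x0) (nat_lit 0x200030005c000e0067000780038001c00000000000000000) := Q_6 (nat_lit 122) (C_6 L49070 (C_6 L49056 (C_6 L49118 (C_6 L43779 N_6)))) (by decide +kernel)
theorem L49120 : W_6 (nat_lit 6) (nat_lit 0x200010001380098000000000000000000000000000000) (nat_lit 0x0) (nat_lit 0x200030001c00060007000380018000400000000000000000) := Q_6 (nat_lit 122) (C_6 L49055 (C_6 L43499 (C_6 L43039 (C_6 L43706 N_6)))) (by decide +kernel)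
theorem L49121 : W_6 (nat_lit 9) (nat_lit 0x200010001300098000000000000000000000000000000) (nat_lit 0x0) (nat_lit 0x2000b0005c000e0067003b800d8006c00000000000000000) := Q_6 (nat_lit 139) (C_6 L49043 (C_6 L42589 (C_6 L49120 N_6))) (by decide +kernel)
theorem L49122 : W_6 (nat_lit 2) (nat_lit 0x200014001300098001c00000000000000000000000000) (nat_lit 0x0) (nat_lit 0x60002000000000000000000000000000) := D_6 (nat_lit 126) (nat_lit 109) (nat_lit 125) (nat_lit 3) (nat_lit 4) (nat_lit 6) (nat_lit 1) (nat_lit 8) (nat_lit 7) (by decide +kernel)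
theorem L49123 : W_6 (nat_lit 3) (nat_lit 0x200014001300098001800000000000000000000000000) (nat_lit 0x0) (nat_lit 0x60002400020000000000000000000000) := T_6 (nat_lit 106) (nat_lit 89) (nat_lit 7) (nat_lit 4) (nat_lit 5) L49122 (by decide +kernel)
theorem L49124 : W_6 (nat_lit 4) (nat_lit 0x200014001300098000800000000000000000000000000) (nat_lit 0x0) (nat_lit 0x600034000a0000000000000000000000) := T_6 (nat_lit 108) (nat_lit 91) (nat_lit 6) (nat_lit 5) (nat_lit 9) L49123 (by decide +kernel)
theorem L49125 : W_6 (nat_lit 5) (nat_lit 0x200014001300098000000000000000000000000000000) (nat_lit 0x0) (nat_lit 0x60003c000e0007000000000000000000) := Q_6 (nat_lit 107) (C_6 L48984 (C_6 L49124 (C_6 L48982 N_6))) (by decide +kernel)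
theorem L49126 : W_6 (nat_lit 6) (nat_lit 0x200010001300098000000000000000000000000000000) (nat_lit 0x0) (nat_lit 0x38001c0024000000060003c000e0007000000000000000000) := Q_6 (nat_lit 158) (C_6 L48990 (C_6 L49125 N_6)) (by decide +kernel)
theorem L49127 : W_6 (nat_lit 14) (nat_lit 0x200010001300088000000000000000000000000000000) (nat_lit 0x0) (nat_lit 0x3e001f0025c008e0377003f803fc00fc00000000000000000) := Q_6 (nat_lit 124) (C_6 L48991 (C_6 L49034 (C_6 L49042 (C_6 L49053 (C_6 L49082 (C_6 L49112 (C_6 L49116 (C_6 L49119 (C_6 L49121 (C_6 L49126 N_6)))))))))) (by decide +kernel)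
theorem L49128 : W_6 (nat_lit 2) (nat_lit 0x210017801340088000600000000000000000000000000) (nat_lit 0x0) (nat_lit 0x80006000000000000000000000000000000) := D_6 (nat_lit 122) (nat_lit 139) (nat_lit 121) (nat_lit 5) (nat_lit 3) (nat_lit 6) (nat_lit 6) (nat_lit 2) (nat_lit 10) (by decide +kernel)
theorem L49129 : W_6 (nat_lit 3) (nat_lit 0x210017801340088000400000000000000000000000000) (nat_lit 0x0) (nat_lit 0x80006000200010000000000000000000000) := T_6 (nat_lit 105) (nat_lit 88) (nat_lit 4) (nat_lit 4) (nat_lit 9) L49128 (by decide +kernel)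
theorem L49130 : W_6 (nat_lit 4) (nat_lit 0x200017801340088000400000000000000000000000000) (nat_lit 0x0) (nat_lit 0x18000000080006000200010000000000000000000000) := T_6 (nat_lit 172) (nat_lit 171) (nat_lit 1) (nat_lit 5) (nat_lit 9) L49129 (by decide +kernel)
theorem L49131 : W_6 (nat_lit 5) (nat_lit 0x200017801300088000400000000000000000000000000) (nat_lit 0x0) (nat_lit 0x180000000e0006000200010000000000000000000000) := T_6 (nat_lit 138) (nat_lit 137) (nat_lit 0) (nat_lit 5) (nat_lit 9) L49130 (by decide +kernel)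
theorem L49132 : W_6 (nat_lit 6) (nat_lit 0x200013801300088000400000000000000000000000000) (nat_lit 0x0) (nat_lit 0x980040000e0006000200010000000000000000000000) := T_6 (nat_lit 158) (nat_lit 175) (nat_lit 7) (nat_lit 4) (nat_lit 6) L49131 (by decide +kernel)
theorem L49133 : W_6 (nat_lit 7) (nat_lit 0x200013001300088000400000000000000000000000000) (nat_lit 0x0) (nat_lit 0x98004c000e0006000200010000000000000000000000) := T_6 (nat_lit 155) (nat_lit 154) (nat_lit 2) (nat_lit 1) (nat_lit 9) L49132 (by decide +kernel)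
theorem L49134 : W_6 (nat_lit 8) (nat_lit 0x200012001300088000400000000000000000000000000) (nat_lit 0x0) (nat_lit 0xb8005c000e0006000200010000000000000000000000) := T_6 (nat_lit 156) (nat_lit 173) (nat_lit 5) (nat_lit 4) (nat_lit 6) L49133 (by decide +kernel)
theorem L49135 : W_6 (nat_lit 2) (nat_lit 0x240012001300088000600000000000000000000000000) (nat_lit 0x0) (nat_lit 0x10000800040000000000000000000000) := D_6 (nat_lit 107) (nat_lit 90) (nat_lit 124) (nat_lit 6) (nat_lit 4) (nat_lit 9) (nat_lit 6) (nat_lit 4) (nat_lit 10) (by decide +kernel)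
theorem L49136 : W_6 (nat_lit 3) (nat_lit 0x200012001300088000600000000000000000000000000) (nat_lit 0x0) (nat_lit 0x40000000000014000800040000000000000000000000) := T_6 (nat_lit 174) (nat_lit 122) (nat_lit 4) (nat_lit 4) (nat_lit 10) L49135 (by decide +kernel)
theorem L49137 : W_6 (nat_lit 4) (nat_lit 0x200012001300088000400000000000000000000000000) (nat_lit 0x0) (nat_lit 0x40000000000014000a00050000000000000000000000) := T_6 (nat_lit 105) (nat_lit 88) (nat_lit 4) (nat_lit 4) (nat_lit 9) L49136 (by decide +kernel)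
theorem L49138 : W_6 (nat_lit 9) (nat_lit 0x200010001300088000400000000000000000000000000) (nat_lit 0x0) (nat_lit 0x14001f8007c000e0016000a00050000000000000000000000) := Q_6 (nat_lit 157) (C_6 L47953 (C_6 L41880 (C_6 L49134 (C_6 L49137 N_6)))) (by decide +kernel)
theorem L49139 : W_6 (nat_lit 2) (nat_lit 0x200010001380088000400020000000000000000000000) (nat_lit 0x0) (nat_lit 0x14000000000001000000000000000000) := D_6 (nat_lit 72) (nat_lit 124) (nat_lit 122) (nat_lit 7) (nat_lit 4) (nat_lit 4) (nat_lit 5) (nat_lit 4) (nat_lit 4) (by decide +kernel)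
theorem L49140 : W_6 (nat_lit 3) (nat_lit 0x200010001300088000400020000000000000000000000) (nat_lit 0x0) (nat_lit 0x1000080014000000000001000000000000000000) := T_6 (nat_lit 139) (nat_lit 156) (nat_lit 5) (nat_lit 4) (nat_lit 5) L49139 (by decide +kernel)
theorem L49141 : W_6 (nat_lit 2) (nat_lit 0x200012001300088000400060000000000000000000000) (nat_lit 0x0) (nat_lit 0x200010000800000000000000000) := D_6 (nat_lit 88) (nat_lit 105) (nat_lit 71) (nat_lit 4) (nat_lit 4) (nat_lit 9) (nat_lit 4) (nat_lit 4) (nat_lit 8) (by decide +kernel)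
theorem L49142 : W_6 (nat_lit 3) (nat_lit 0x200010001300088000400060000000000000000000000) (nat_lit 0x0) (nat_lit 0x2000000000000a00010000800000000000000000) := T_6 (nat_lit 157) (nat_lit 107) (nat_lit 6) (nat_lit 4) (nat_lit 9) L49141 (by decide +kernel)
theorem L49143 : W_6 (nat_lit 4) (nat_lit 0x200010001300088000400020000000000000000000000) (nat_lit 0x0) (nat_lit 0x2000000000000a00050002800000000000000000) := T_6 (nat_lit 90) (nat_lit 73) (nat_lit 6) (nat_lit 4) (nat_lit 8) L49142 (by decide +kernel)
theorem L49144 : W_6 (nat_lit 5) (nat_lit 0x200010001300088000400000000000000000000000000) (nat_lit 0x0) (nat_lit 0x3000080014000a00070003800000000000000000) := Q_6 (nat_lit 89) (C_6 L49140 (C_6 L49143 N_6)) (by decide +kernel)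
theorem L49145 : W_6 (nat_lit 4) (nat_lit 0x200010001300088000400000000000000000000000000) (nat_lit 0x0) (nat_lit 0x5000080014000000020001000000000000000000) := T_6 (nat_lit 89) (nat_lit 158) (nat_lit 7) (nat_lit 4) (nat_lit 5) L49140 (by decide +kernel)
theorem L49146 : W_6 (nat_lit 5) (nat_lit 0x200010001300088000400000000000000000000000000) (nat_lit 0x0) (nat_lit 0x6000000000000a00070002800000000000000000) := T_6 (nat_lit 89) (nat_lit 158) (nat_lit 7) (nat_lit 4) (nat_lit 5) L49143 (by decide +kernel)
theorem L49147 : W_6 (nat_lit 10) (nat_lit 0x200010001300088000000000000000000000000000000) (nat_lit 0x0) (nat_lit 0x14001f8007c000e0016000e00070003800000000000000000) := Q_6 (nat_lit 106) (C_6 L49138 (C_6 L49144 (C_6 L49145 (C_6 L49146 N_6)))) (by decide +kernel)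
theorem L49148 : W_6 (nat_lit 5) (nat_lit 0x200012001300088000000000000000000000000000000) (nat_lit 0x0) (nat_lit 0x20001c001e0021000000010000800000000000000000000000000) := Q_6 (nat_lit 174) (C_6 L47045 (C_6 L47048 (C_6 L47051 N_6))) (by decide +kernel)
theorem L49149 : W_6 (nat_lit 2) (nat_lit 0x200013001300098000e80000000000000000000000000) (nat_lit 0x0) (nat_lit 0x80000000000020001000000000000000000) := D_6 (nat_lit 89) (nat_lit 72) (nat_lit 139) (nat_lit 7) (nat_lit 4) (nat_lit 4) (nat_lit 5) (nat_lit 4) (nat_lit 5) (by decide +kernel)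
theorem L49150 : W_6 (nat_lit 3) (nat_lit 0x200012001300098000e80000000000000000000000000) (nat_lit 0x0) (nat_lit 0x20001000080000000000020001000000000000000000) := T_6 (nat_lit 156) (nat_lit 173) (nat_lit 5) (nat_lit 4) (nat_lit 6) L49149 (by decide +kernel)
theorem L49151 : W_6 (nat_lit 4) (nat_lit 0x200012001300098000e00000000000000000000000000) (nat_lit 0x0) (nat_lit 0x20001000080000000180020001000000000000000000) := T_6 (nat_lit 103) (nat_lit 104) (nat_lit 3) (nat_lit 1) (nat_lit 6) L49150 (by decide +kernel)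
theorem L49152 : W_6 (nat_lit 5) (nat_lit 0x200012001300098000c00000000000000000000000000) (nat_lit 0x0) (nat_lit 0x20001000080000000380030001000000000000000000) := T_6 (nat_lit 105) (nat_lit 88) (nat_lit 4) (nat_lit 4) (nat_lit 9) L49151 (by decide +kernel)
theorem L49153 : W_6 (nat_lit 6) (nat_lit 0x200012001300098000400000000000000000000000000) (nat_lit 0x0) (nat_lit 0x20001000080000000b80070001000000000000000000) := T_6 (nat_lit 107) (nat_lit 90) (nat_lit 6) (nat_lit 4) (nat_lit 9) L49152 (by decide +kernel)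
theorem L49154 : W_6 (nat_lit 2) (nat_lit 0x2000134013000da001e00000000000000000000000000) (nat_lit 0x0) (nat_lit 0x1000180000000000000000000000000) := D_6 (nat_lit 104) (nat_lit 120) (nat_lit 103) (nat_lit 1) (nat_lit 5) (nat_lit 6) (nat_lit 3) (nat_lit 1) (nat_lit 6) (by decide +kernel)
theorem L49155 : W_6 (nat_lit 3) (nat_lit 0x2000134013000da001c00000000000000000000000000) (nat_lit 0x0) (nat_lit 0x1000380010000000000000000000000) := T_6 (nat_lit 105) (nat_lit 88) (nat_lit 4) (nat_lit 4) (nat_lit 9) L49154 (by decide +kernel)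
theorem L49156 : W_6 (nat_lit 4) (nat_lit 0x2000134013000d8001c00000000000000000000000000) (nat_lit 0x0) (nat_lit 0x7000380010000000000000000000000) := T_6 (nat_lit 121) (nat_lit 122) (nat_lit 2) (nat_lit 2) (nat_lit 7) L49155 (by decide +kernel)
theorem L49157 : W_6 (nat_lit 5) (nat_lit 0x2000134013000d8000c00000000000000000000000000) (nat_lit 0x0) (nat_lit 0x7003380010000000000000000000000) := T_6 (nat_lit 108) (nat_lit 109) (nat_lit 3) (nat_lit 4) (nat_lit 6) L49156 (by decide +kernel)
theorem L49158 : W_6 (nat_lit 6) (nat_lit 0x2000134013000d8000400000000000000000000000000) (nat_lit 0x0) (nat_lit 0x7003b80050000000000000000000000) := T_6 (nat_lit 107) (nat_lit 90) (nat_lit 6) (nat_lit 4) (nat_lit 9) L49157 (by decide +kernel)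
theorem L49159 : W_6 (nat_lit 7) (nat_lit 0x200013401300098000400000000000000000000000000) (nat_lit 0x0) (nat_lit 0x67003b80050000000000000000000000) := T_6 (nat_lit 126) (nat_lit 125) (nat_lit 1) (nat_lit 8) (nat_lit 7) L49158 (by decide +kernel)
theorem L49160 : W_6 (nat_lit 8) (nat_lit 0x200013001300098000400000000000000000000000000) (nat_lit 0x0) (nat_lit 0xc00000067003b80050000000000000000000000) := T_6 (nat_lit 154) (nat_lit 155) (nat_lit 2) (nat_lit 1) (nat_lit 9) L49159 (by decide +kernel)
theorem L49161 : W_6 (nat_lit 9) (nat_lit 0x200012001300098000400000000000000000000000000) (nat_lit 0x0) (nat_lit 0x20001c00000067003b80050000000000000000000000) := T_6 (nat_lit 156) (nat_lit 173) (nat_lit 5) (nat_lit 4) (nat_lit 6) L49160 (by decide +kernel)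
theorem L49162 : W_6 (nat_lit 2) (nat_lit 0x2000134013400b8000600000001000000000000000000) (nat_lit 0x0) (nat_lit 0x4000180000000000000000000000000) := D_6 (nat_lit 104) (nat_lit 103) (nat_lit 122) (nat_lit 3) (nat_lit 1) (nat_lit 6) (nat_lit 0) (nat_lit 6) (nat_lit 7) (by decide +kernel)
theorem L49163 : W_6 (nat_lit 3) (nat_lit 0x2000134013400b8000400000001000000000000000000) (nat_lit 0x0) (nat_lit 0x4000380010000000000000000000000) := T_6 (nat_lit 105) (nat_lit 88) (nat_lit 4) (nat_lit 4) (nat_lit 9) L49162 (by decide +kernel)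
theorem L49164 : W_6 (nat_lit 4) (nat_lit 0x2000134013000b8000400000001000000000000000000) (nat_lit 0x0) (nat_lit 0xc0004000380010000000000000000000000) := T_6 (nat_lit 138) (nat_lit 139) (nat_lit 2) (nat_lit 2) (nat_lit 8) L49163 (by decide +kernel)
theorem L49165 : W_6 (nat_lit 5) (nat_lit 0x2000130013000b8000400000001000000000000000000) (nat_lit 0x0) (nat_lit 0xc000c0004000380010000000000000000000000) := T_6 (nat_lit 154) (nat_lit 155) (nat_lit 2) (nat_lit 1) (nat_lit 9) L49164 (by decide +kernel)
theorem L49166 : W_6 (nat_lit 6) (nat_lit 0x2000120013000b8000400000001000000000000000000) (nat_lit 0x0) (nat_lit 0x20001c000c0004000380010000000000000000000000) := T_6 (nat_lit 156) (nat_lit 173) (nat_lit 5) (nat_lit 4) (nat_lit 6) L49165 (by decide +kernel)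
theorem L49167 : W_6 (nat_lit 7) (nat_lit 0x200012001300098000400000001000000000000000000) (nat_lit 0x0) (nat_lit 0x20001c000c0064000380010000000000000000000000) := T_6 (nat_lit 125) (nat_lit 126) (nat_lit 1) (nat_lit 8) (nat_lit 7) L49166 (by decide +kernel)
theorem L49168 : W_6 (nat_lit 8) (nat_lit 0x200012001300098000400000000000000000000000000) (nat_lit 0x0) (nat_lit 0x20001c000c0064000380030001000000000000000000) := T_6 (nat_lit 72) (nat_lit 89) (nat_lit 7) (nat_lit 4) (nat_lit 4) L49167 (by decide +kernel)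
theorem L49169 : W_6 (nat_lit 2) (nat_lit 0x2000120013000d8000c00020000000000000000000000) (nat_lit 0x0) (nat_lit 0x20001000080000000000000000000000000000000000) := D_6 (nat_lit 156) (nat_lit 173) (nat_lit 139) (nat_lit 5) (nat_lit 4) (nat_lit 6) (nat_lit 5) (nat_lit 4) (nat_lit 5) (by decide +kernel)
theorem L49170 : W_6 (nat_lit 3) (nat_lit 0x2000120013000d8000c00000000000000000000000000) (nat_lit 0x0) (nat_lit 0x20001000080000000000020001000000000000000000) := T_6 (nat_lit 89) (nat_lit 72) (nat_lit 7) (nat_lit 4) (nat_lit 4) L49169 (by decide +kernel)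
theorem L49171 : W_6 (nat_lit 4) (nat_lit 0x200012001300098000c00000000000000000000000000) (nat_lit 0x0) (nat_lit 0x20001000080060000000020001000000000000000000) := T_6 (nat_lit 126) (nat_lit 125) (nat_lit 1) (nat_lit 8) (nat_lit 7) L49170 (by decide +kernel)
theorem L49172 : W_6 (nat_lit 5) (nat_lit 0x200012001300098000400000000000000000000000000) (nat_lit 0x0) (nat_lit 0x20001000080060000800060001000000000000000000) := T_6 (nat_lit 107) (nat_lit 90) (nat_lit 6) (nat_lit 4) (nat_lit 9) L49171 (by decide +kernel)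
theorem L49173 : W_6 (nat_lit 2) (nat_lit 0x2000120013000da001e00000001000000000000000000) (nat_lit 0x0) (nat_lit 0x1000180000000000000000000000000) := D_6 (nat_lit 104) (nat_lit 120) (nat_lit 103) (nat_lit 1) (nat_lit 5) (nat_lit 6) (nat_lit 3) (nat_lit 1) (nat_lit 6) (by decide +kernel)
theorem L49174 : W_6 (nat_lit 3) (nat_lit 0x2000120013000da001c00000001000000000000000000) (nat_lit 0x0) (nat_lit 0x1000380010000000000000000000000) := T_6 (nat_lit 105) (nat_lit 88) (nat_lit 4) (nat_lit 4) (nat_lit 9) L49173 (by decide +kernel)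
theorem L49175 : W_6 (nat_lit 4) (nat_lit 0x2000120013000da001c00000000000000000000000000) (nat_lit 0x0) (nat_lit 0x1000380030001000000000000000000) := T_6 (nat_lit 72) (nat_lit 89) (nat_lit 7) (nat_lit 4) (nat_lit 4) L49174 (by decide +kernel)
theorem L49176 : W_6 (nat_lit 5) (nat_lit 0x2000120013000d8001c00000000000000000000000000) (nat_lit 0x0) (nat_lit 0x7000380030001000000000000000000) := T_6 (nat_lit 121) (nat_lit 122) (nat_lit 2) (nat_lit 2) (nat_lit 7) L49175 (by decide +kernel)
theorem L49177 : W_6 (nat_lit 6) (nat_lit 0x2000120013000d8000c00000000000000000000000000) (nat_lit 0x0) (nat_lit 0x7003380030001000000000000000000) := T_6 (nat_lit 108) (nat_lit 109) (nat_lit 3) (nat_lit 4) (nat_lit 6) L49176 (by decide +kernel)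
theorem L49178 : W_6 (nat_lit 7) (nat_lit 0x2000120013000d8000400000000000000000000000000) (nat_lit 0x0) (nat_lit 0x7003b80070001000000000000000000) := T_6 (nat_lit 107) (nat_lit 90) (nat_lit 6) (nat_lit 4) (nat_lit 9) L49177 (by decide +kernel)
theorem L49179 : W_6 (nat_lit 8) (nat_lit 0x200012001300098000400000000000000000000000000) (nat_lit 0x0) (nat_lit 0x67003b80070001000000000000000000) := T_6 (nat_lit 126) (nat_lit 125) (nat_lit 1) (nat_lit 8) (nat_lit 7) L49178 (by decide +kernel)
theorem L49180 : W_6 (nat_lit 10) (nat_lit 0x200012001300098000000000000000000000000000000) (nat_lit 0x0) (nat_lit 0x20001c000c0067003f80070001000000000000000000) := Q_6 (nat_lit 106) (C_6 L49153 (C_6 L49161 (C_6 L49168 (C_6 L49172 (C_6 L49179 N_6))))) (by decide +kernel)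
theorem L49181 : W_6 (nat_lit 2) (nat_lit 0x2600130013400de000000000000000000000000000000) (nat_lit 0x0) (nat_lit 0xc00000000000100000000000000000000000000) := D_6 (nat_lit 155) (nat_lit 154) (nat_lit 104) (nat_lit 2) (nat_lit 1) (nat_lit 9) (nat_lit 7) (nat_lit 2) (nat_lit 6) (by decide +kernel)
theorem L49182 : W_6 (nat_lit 3) (nat_lit 0x2600120013400de000000000000000000000000000000) (nat_lit 0x0) (nat_lit 0x1c00000000000500000000000000000000000000) := T_6 (nat_lit 156) (nat_lit 106) (nat_lit 5) (nat_lit 4) (nat_lit 6) L49181 (by decide +kernel)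
theorem L49183 : W_6 (nat_lit 4) (nat_lit 0x2600120013000de000000000000000000000000000000) (nat_lit 0x0) (nat_lit 0x1c00060000000500000000000000000000000000) := T_6 (nat_lit 138) (nat_lit 137) (nat_lit 1) (nat_lit 5) (nat_lit 7) L49182 (by decide +kernel)
theorem L49184 : W_6 (nat_lit 5) (nat_lit 0x2400120013000de000000000000000000000000000000) (nat_lit 0x0) (nat_lit 0x400020001c00060000000500000000000000000000000000) := T_6 (nat_lit 173) (nat_lit 190) (nat_lit 5) (nat_lit 4) (nat_lit 7) L49183 (by decide +kernel)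
theorem L49185 : W_6 (nat_lit 6) (nat_lit 0x2400120013000dc000000000000000000000000000000) (nat_lit 0x0) (nat_lit 0x400020001c00060003000500000000000000000000000000) := T_6 (nat_lit 121) (nat_lit 120) (nat_lit 3) (nat_lit 1) (nat_lit 7) L49184 (by decide +kernel)
theorem L49186 : W_6 (nat_lit 7) (nat_lit 0x2400120013000d8000000000000000000000000000000) (nat_lit 0x0) (nat_lit 0x400020001c00060007000700000000000000000000000000) := T_6 (nat_lit 122) (nat_lit 105) (nat_lit 4) (nat_lit 4) (nat_lit 10) L49185 (by decide +kernel)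
theorem L49187 : W_6 (nat_lit 8) (nat_lit 0x2000120013000d8000000000000000000000000000000) (nat_lit 0x0) (nat_lit 0xc00060001c00060007000700000000000000000000000000) := T_6 (nat_lit 174) (nat_lit 191) (nat_lit 6) (nat_lit 4) (nat_lit 11) L49186 (by decide +kernel)
theorem L49188 : W_6 (nat_lit 9) (nat_lit 0x200012001300098000000000000000000000000000000) (nat_lit 0x0) (nat_lit 0xc00060001c00060067000700000000000000000000000000) := T_6 (nat_lit 126) (nat_lit 125) (nat_lit 1) (nat_lit 8) (nat_lit 7) L49187 (by decide +kernel)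
theorem L49189 : W_6 (nat_lit 11) (nat_lit 0x200012001300088000000000000000000000000000000) (nat_lit 0x0) (nat_lit 0xc00060001c000e0077003f80070001000000000000000000) := Q_6 (nat_lit 124) (C_6 L49180 (C_6 L45583 (C_6 L49188 N_6))) (by decide +kernel)
theorem L49190 : W_6 (nat_lit 2) (nat_lit 0x20001340130008e000c00000000000000000000000000) (nat_lit 0x0) (nat_lit 0x10001200000000000000000000000000) := D_6 (nat_lit 108) (nat_lit 124) (nat_lit 105) (nat_lit 2) (nat_lit 2) (nat_lit 7) (nat_lit 1) (nat_lit 6) (nat_lit 6) (by decide +kernel)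
theorem L49191 : W_6 (nat_lit 3) (nat_lit 0x20001340130008e000400000000000000000000000000) (nat_lit 0x0) (nat_lit 0x10001a00040000000000000000000000) := T_6 (nat_lit 107) (nat_lit 90) (nat_lit 6) (nat_lit 4) (nat_lit 9) L49190 (by decide +kernel)
theorem L49192 : W_6 (nat_lit 4) (nat_lit 0x20001340130008c000400000000000000000000000000) (nat_lit 0x0) (nat_lit 0x13001a00040000000000000000000000) := T_6 (nat_lit 121) (nat_lit 120) (nat_lit 3) (nat_lit 1) (nat_lit 7) L49191 (by decide +kernel)
theorem L49193 : W_6 (nat_lit 5) (nat_lit 0x20001300130008c000400000000000000000000000000) (nat_lit 0x0) (nat_lit 0xc00000013001a00040000000000000000000000) := T_6 (nat_lit 154) (nat_lit 155) (nat_lit 2) (nat_lit 1) (nat_lit 9) L49192 (by decide +kernel)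
theorem L49194 : W_6 (nat_lit 6) (nat_lit 0x20001200130008c000400000000000000000000000000) (nat_lit 0x0) (nat_lit 0x20001c00000013001a00040000000000000000000000) := T_6 (nat_lit 156) (nat_lit 173) (nat_lit 5) (nat_lit 4) (nat_lit 6) L49193 (by decide +kernel)
theorem L49195 : W_6 (nat_lit 5) (nat_lit 0x20001300130008d000600000000000000000000000000) (nat_lit 0x0) (nat_lit 0x10000c00080010800180008000000000000000000000) := T_6 (nat_lit 155) (nat_lit 154) (nat_lit 2) (nat_lit 1) (nat_lit 9) L47079 (by decide +kernel)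
theorem L49196 : W_6 (nat_lit 6) (nat_lit 0x20001200130008d000600000000000000000000000000) (nat_lit 0x0) (nat_lit 0x30001c00080010800180008000000000000000000000) := T_6 (nat_lit 156) (nat_lit 173) (nat_lit 5) (nat_lit 4) (nat_lit 6) L49195 (by decide +kernel)
theorem L49197 : W_6 (nat_lit 7) (nat_lit 0x20001200130008c000600000000000000000000000000) (nat_lit 0x0) (nat_lit 0x30001c00080013800180008000000000000000000000) := T_6 (nat_lit 120) (nat_lit 121) (nat_lit 3) (nat_lit 1) (nat_lit 7) L49196 (by decide +kernel)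
theorem L49198 : W_6 (nat_lit 8) (nat_lit 0x20001200130008c000400000000000000000000000000) (nat_lit 0x0) (nat_lit 0x30001c00080013800380018000000000000000000000) := T_6 (nat_lit 105) (nat_lit 88) (nat_lit 4) (nat_lit 4) (nat_lit 9) L49197 (by decide +kernel)
theorem L49199 : W_6 (nat_lit 2) (nat_lit 0x20001340130008e000c00000000000000000000000000) (nat_lit 0x0) (nat_lit 0x1200010000000000000000000000) := D_6 (nat_lit 105) (nat_lit 88) (nat_lit 108) (nat_lit 4) (nat_lit 4) (nat_lit 9) (nat_lit 1) (nat_lit 6) (nat_lit 6) (by decide +kernel)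
theorem L49200 : W_6 (nat_lit 3) (nat_lit 0x20001340130008c000c00000000000000000000000000) (nat_lit 0x0) (nat_lit 0x3001200010000000000000000000000) := T_6 (nat_lit 121) (nat_lit 120) (nat_lit 3) (nat_lit 1) (nat_lit 7) L49199 (by decide +kernel)
theorem L49201 : W_6 (nat_lit 4) (nat_lit 0x20001340130008c000400000000000000000000000000) (nat_lit 0x0) (nat_lit 0x3001a00050000000000000000000000) := T_6 (nat_lit 107) (nat_lit 90) (nat_lit 6) (nat_lit 4) (nat_lit 9) L49200 (by decide +kernel)
theorem L49202 : W_6 (nat_lit 5) (nat_lit 0x20001300130008c000400000000000000000000000000) (nat_lit 0x0) (nat_lit 0xc00000003001a00050000000000000000000000) := T_6 (nat_lit 154) (nat_lit 155) (nat_lit 2) (nat_lit 1) (nat_lit 9) L49201 (by decide +kernel)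
theorem L49203 : W_6 (nat_lit 6) (nat_lit 0x20001200130008c000400000000000000000000000000) (nat_lit 0x0) (nat_lit 0x20001c00000003001a00050000000000000000000000) := T_6 (nat_lit 156) (nat_lit 173) (nat_lit 5) (nat_lit 4) (nat_lit 6) L49202 (by decide +kernel)
theorem L49204 : W_6 (nat_lit 2) (nat_lit 0x20001380138008c002f00000000000000000000000000) (nat_lit 0x0) (nat_lit 0x30000080000000000000000000000000) := D_6 (nat_lit 124) (nat_lit 125) (nat_lit 103) (nat_lit 3) (nat_lit 2) (nat_lit 6) (nat_lit 3) (nat_lit 1) (nat_lit 6) (by decide +kernel)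
theorem L49205 : W_6 (nat_lit 3) (nat_lit 0x20001380138008c002e00000000000000000000000000) (nat_lit 0x0) (nat_lit 0x30000180008000000000000000000000) := T_6 (nat_lit 104) (nat_lit 87) (nat_lit 4) (nat_lit 3) (nat_lit 9) L49204 (by decide +kernel)
theorem L49206 : W_6 (nat_lit 4) (nat_lit 0x20001380130008c002e00000000000000000000000000) (nat_lit 0x0) (nat_lit 0x10000000080030000180008000000000000000000000) := T_6 (nat_lit 139) (nat_lit 172) (nat_lit 5) (nat_lit 3) (nat_lit 6) L49205 (by decide +kernel)
theorem L49207 : W_6 (nat_lit 5) (nat_lit 0x20001300130008c002e00000000000000000000000000) (nat_lit 0x0) (nat_lit 0x10000c00080030000180008000000000000000000000) := T_6 (nat_lit 155) (nat_lit 154) (nat_lit 2) (nat_lit 1) (nat_lit 9) L49206 (by decide +kernel)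
theorem L49208 : W_6 (nat_lit 6) (nat_lit 0x20001200130008c002e00000000000000000000000000) (nat_lit 0x0) (nat_lit 0x30001c00080030000180008000000000000000000000) := T_6 (nat_lit 156) (nat_lit 173) (nat_lit 5) (nat_lit 4) (nat_lit 6) L49207 (by decide +kernel)
theorem L49209 : W_6 (nat_lit 7) (nat_lit 0x20001200130008c000e00000000000000000000000000) (nat_lit 0x0) (nat_lit 0x30001c00080030003180008000000000000000000000) := T_6 (nat_lit 109) (nat_lit 108) (nat_lit 1) (nat_lit 7) (nat_lit 6) L49208 (by decide +kernel)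
theorem L49210 : W_6 (nat_lit 8) (nat_lit 0x20001200130008c000600000000000000000000000000) (nat_lit 0x0) (nat_lit 0x30001c00080030003980048000000000000000000000) := T_6 (nat_lit 107) (nat_lit 90) (nat_lit 6) (nat_lit 4) (nat_lit 9) L49209 (by decide +kernel)
theorem L49211 : W_6 (nat_lit 9) (nat_lit 0x20001200130008c000400000000000000000000000000) (nat_lit 0x0) (nat_lit 0x30001c00080030003b80058000000000000000000000) := T_6 (nat_lit 105) (nat_lit 88) (nat_lit 4) (nat_lit 4) (nat_lit 9) L49210 (by decide +kernel)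
theorem L49212 : W_6 (nat_lit 2) (nat_lit 0x2000130013000ad001f00000000000000000000000000) (nat_lit 0x0) (nat_lit 0x8000000000000c000000000000000000000) := D_6 (nat_lit 87) (nat_lit 139) (nat_lit 86) (nat_lit 4) (nat_lit 3) (nat_lit 9) (nat_lit 0) (nat_lit 5) (nat_lit 6) (by decide +kernel)
theorem L49213 : W_6 (nat_lit 3) (nat_lit 0x2000130013000ad001e00000000000000000000000000) (nat_lit 0x0) (nat_lit 0x8001000010000c000000000000000000000) := T_6 (nat_lit 104) (nat_lit 124) (nat_lit 3) (nat_lit 2) (nat_lit 6) L49212 (by decide +kernel)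
theorem L49214 : W_6 (nat_lit 4) (nat_lit 0x20001300130008d001e00000000000000000000000000) (nat_lit 0x0) (nat_lit 0x8007000010000c000000000000000000000) := T_6 (nat_lit 125) (nat_lit 126) (nat_lit 3) (nat_lit 3) (nat_lit 6) L49213 (by decide +kernel)
theorem L49215 : W_6 (nat_lit 5) (nat_lit 0x20001300130008d000e00000000000000000000000000) (nat_lit 0x0) (nat_lit 0x8007000310000c000000000000000000000) := T_6 (nat_lit 108) (nat_lit 109) (nat_lit 1) (nat_lit 7) (nat_lit 6) L49214 (by decide +kernel)
theorem L49216 : W_6 (nat_lit 6) (nat_lit 0x20001300130008d000600000000000000000000000000) (nat_lit 0x0) (nat_lit 0x8007000390004c000000000000000000000) := T_6 (nat_lit 107) (nat_lit 90) (nat_lit 6) (nat_lit 4) (nat_lit 9) L49215 (by decide +kernel)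
theorem L49217 : W_6 (nat_lit 7) (nat_lit 0x20001300130008d000400000000000000000000000000) (nat_lit 0x0) (nat_lit 0x80070003b0005c000000000000000000000) := T_6 (nat_lit 105) (nat_lit 88) (nat_lit 4) (nat_lit 4) (nat_lit 9) L49216 (by decide +kernel)
theorem L49218 : W_6 (nat_lit 8) (nat_lit 0x20001300130008c000400000000000000000000000000) (nat_lit 0x0) (nat_lit 0x80073003b0005c000000000000000000000) := T_6 (nat_lit 120) (nat_lit 121) (nat_lit 3) (nat_lit 1) (nat_lit 7) L49217 (by decide +kernel)
theorem L49219 : W_6 (nat_lit 9) (nat_lit 0x20001200130008c000400000000000000000000000000) (nat_lit 0x0) (nat_lit 0x20001000080073003b0005c000000000000000000000) := T_6 (nat_lit 156) (nat_lit 173) (nat_lit 5) (nat_lit 4) (nat_lit 6) L49218 (by decide +kernel)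
theorem L49220 : W_6 (nat_lit 2) (nat_lit 0x20001200130008e000c00000000000000000000000000) (nat_lit 0x0) (nat_lit 0x10003000000000000000000000000000) := D_6 (nat_lit 108) (nat_lit 109) (nat_lit 124) (nat_lit 1) (nat_lit 7) (nat_lit 6) (nat_lit 2) (nat_lit 2) (nat_lit 7) (by decide +kernel)
theorem L49221 : W_6 (nat_lit 3) (nat_lit 0x20001200130008c000c00000000000000000000000000) (nat_lit 0x0) (nat_lit 0x13003000000000000000000000000000) := T_6 (nat_lit 121) (nat_lit 120) (nat_lit 3) (nat_lit 1) (nat_lit 7) L49220 (by decide +kernel)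
theorem L49222 : W_6 (nat_lit 4) (nat_lit 0x20001200130008c000400000000000000000000000000) (nat_lit 0x0) (nat_lit 0x13003800040000000000000000000000) := T_6 (nat_lit 107) (nat_lit 90) (nat_lit 6) (nat_lit 4) (nat_lit 9) L49221 (by decide +kernel)
theorem L49223 : W_6 (nat_lit 10) (nat_lit 0x200012001300088000400000000000000000000000000) (nat_lit 0x0) (nat_lit 0x30001c00080077803b8005c000000000000000000000) := Q_6 (nat_lit 122) (C_6 L49194 (C_6 L49198 (C_6 L49203 (C_6 L49211 (C_6 L49219 (C_6 L49222 N_6)))))) (by decide +kernel)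
theorem L49224 : W_6 (nat_lit 2) (nat_lit 0x20001340130008c000e00020003800000000000000000) (nat_lit 0x0) (nat_lit 0x3001000000000000000000000000000) := D_6 (nat_lit 121) (nat_lit 120) (nat_lit 108) (nat_lit 3) (nat_lit 1) (nat_lit 7) (nat_lit 1) (nat_lit 6) (nat_lit 6) (by decide +kernel)
theorem L49225 : W_6 (nat_lit 3) (nat_lit 0x200013401300088000e00020003800000000000000000) (nat_lit 0x0) (nat_lit 0x7001000000000000080000000000000) := T_6 (nat_lit 122) (nat_lit 55) (nat_lit 5) (nat_lit 4) (nat_lit 3) L49224 (by decide +kernel)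
theorem L49226 : W_6 (nat_lit 4) (nat_lit 0x200013401300088000e00020001800000000000000000) (nat_lit 0x0) (nat_lit 0x7001000000002000180000000000000) := T_6 (nat_lit 73) (nat_lit 56) (nat_lit 6) (nat_lit 4) (nat_lit 7) L49225 (by decide +kernel)
theorem L49227 : W_6 (nat_lit 5) (nat_lit 0x200013401300088000e00020001000000000000000000) (nat_lit 0x0) (nat_lit 0x70010000000028001c0000000000000) := T_6 (nat_lit 71) (nat_lit 54) (nat_lit 4) (nat_lit 4) (nat_lit 7) L49226 (by decide +kernel)
theorem L49228 : W_6 (nat_lit 6) (nat_lit 0x200013401300088000e00020000000000000000000000) (nat_lit 0x0) (nat_lit 0x170010000000038001c0000000000000) := T_6 (nat_lit 72) (nat_lit 124) (nat_lit 7) (nat_lit 4) (nat_lit 4) L49227 (by decide +kernel)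
theorem L49229 : W_6 (nat_lit 7) (nat_lit 0x200013401300088000e00000000000000000000000000) (nat_lit 0x0) (nat_lit 0x800170010000200038001c0000000000000) := T_6 (nat_lit 89) (nat_lit 139) (nat_lit 5) (nat_lit 4) (nat_lit 5) L49228 (by decide +kernel)
theorem L49230 : W_6 (nat_lit 8) (nat_lit 0x200013001300088000e00000000000000000000000000) (nat_lit 0x0) (nat_lit 0xc000800170010000200038001c0000000000000) := T_6 (nat_lit 154) (nat_lit 155) (nat_lit 2) (nat_lit 1) (nat_lit 9) L49229 (by decide +kernel)
theorem L49231 : W_6 (nat_lit 9) (nat_lit 0x200012001300088000e00000000000000000000000000) (nat_lit 0x0) (nat_lit 0x20001c000800170010000200038001c0000000000000) := T_6 (nat_lit 156) (nat_lit 173) (nat_lit 5) (nat_lit 4) (nat_lit 6) L49230 (by decide +kernel)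
theorem L49232 : W_6 (nat_lit 10) (nat_lit 0x200012001300088000600000000000000000000000000) (nat_lit 0x0) (nat_lit 0x20001c000800170018000600038001c0000000000000) := T_6 (nat_lit 107) (nat_lit 90) (nat_lit 6) (nat_lit 4) (nat_lit 9) L49231 (by decide +kernel)
theorem L49233 : W_6 (nat_lit 11) (nat_lit 0x200012001300088000400000000000000000000000000) (nat_lit 0x0) (nat_lit 0x20001c00080017001a000700038001c0000000000000) := T_6 (nat_lit 105) (nat_lit 88) (nat_lit 4) (nat_lit 4) (nat_lit 9) L49232 (by decide +kernel)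
theorem L49234 : W_6 (nat_lit 2) (nat_lit 0x200013401300088000600060001000040000000000000) (nat_lit 0x0) (nat_lit 0x4000000000000000080002000000000) := D_6 (nat_lit 55) (nat_lit 122) (nat_lit 37) (nat_lit 5) (nat_lit 4) (nat_lit 3) (nat_lit 4) (nat_lit 4) (nat_lit 6) (by decide +kernel)
theorem L49235 : W_6 (nat_lit 3) (nat_lit 0x200013401300088000600060001000000000000000000) (nat_lit 0x0) (nat_lit 0x40000000000008000c0002000000000) := T_6 (nat_lit 54) (nat_lit 71) (nat_lit 4) (nat_lit 4) (nat_lit 7) L49234 (by decide +kernel)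
theorem L49236 : W_6 (nat_lit 4) (nat_lit 0x200013401300088000600060000000000000000000000) (nat_lit 0x0) (nat_lit 0x140000000000018000c0002000000000) := T_6 (nat_lit 72) (nat_lit 124) (nat_lit 7) (nat_lit 4) (nat_lit 4) L49235 (by decide +kernel)
theorem L49237 : W_6 (nat_lit 5) (nat_lit 0x200013401300088000600040000000000000000000000) (nat_lit 0x0) (nat_lit 0x140000000200038000c0002000000000) := T_6 (nat_lit 89) (nat_lit 73) (nat_lit 6) (nat_lit 4) (nat_lit 8) L49236 (by decide +kernel)
theorem L49238 : W_6 (nat_lit 6) (nat_lit 0x200013401300088000600000000000000000000000000) (nat_lit 0x0) (nat_lit 0x140008000600038000c0002000000000) := T_6 (nat_lit 90) (nat_lit 107) (nat_lit 6) (nat_lit 4) (nat_lit 9) L49237 (by decide +kernel)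
theorem L49239 : W_6 (nat_lit 7) (nat_lit 0x200013401300088000400000000000000000000000000) (nat_lit 0x0) (nat_lit 0x14000a000700038000c0002000000000) := T_6 (nat_lit 105) (nat_lit 88) (nat_lit 4) (nat_lit 4) (nat_lit 9) L49238 (by decide +kernel)
theorem L49240 : W_6 (nat_lit 8) (nat_lit 0x200013001300088000400000000000000000000000000) (nat_lit 0x0) (nat_lit 0xc00000014000a000700038000c0002000000000) := T_6 (nat_lit 154) (nat_lit 155) (nat_lit 2) (nat_lit 1) (nat_lit 9) L49239 (by decide +kernel)
theorem L49241 : W_6 (nat_lit 9) (nat_lit 0x200012001300088000400000000000000000000000000) (nat_lit 0x0) (nat_lit 0x20001c00000014000a000700038000c0002000000000) := T_6 (nat_lit 156) (nat_lit 173) (nat_lit 5) (nat_lit 4) (nat_lit 6) L49240 (by decide +kernel)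
theorem L49242 : W_6 (nat_lit 2) (nat_lit 0x20001300130008c000e00020003800000000000000000) (nat_lit 0x0) (nat_lit 0x3001000000000000000000000000000) := D_6 (nat_lit 121) (nat_lit 120) (nat_lit 108) (nat_lit 3) (nat_lit 1) (nat_lit 7) (nat_lit 1) (nat_lit 6) (nat_lit 6) (by decide +kernel)
theorem L49243 : W_6 (nat_lit 3) (nat_lit 0x200013001300088000e00020003800000000000000000) (nat_lit 0x0) (nat_lit 0x7001000000000000080000000000000) := T_6 (nat_lit 122) (nat_lit 55) (nat_lit 5) (nat_lit 4) (nat_lit 3) L49242 (by decide +kernel)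
theorem L49244 : W_6 (nat_lit 4) (nat_lit 0x200013001300088000e00020001800000000000000000) (nat_lit 0x0) (nat_lit 0x7001000000002000180000000000000) := T_6 (nat_lit 73) (nat_lit 56) (nat_lit 6) (nat_lit 4) (nat_lit 7) L49243 (by decide +kernel)
theorem L49245 : W_6 (nat_lit 5) (nat_lit 0x200013001300088000e00020001000000000000000000) (nat_lit 0x0) (nat_lit 0x70010000000028001c0000000000000) := T_6 (nat_lit 71) (nat_lit 54) (nat_lit 4) (nat_lit 4) (nat_lit 7) L49244 (by decide +kernel)
theorem L49246 : W_6 (nat_lit 6) (nat_lit 0x200013001300088000e00020000000000000000000000) (nat_lit 0x0) (nat_lit 0x170010000000038001c0000000000000) := T_6 (nat_lit 72) (nat_lit 124) (nat_lit 7) (nat_lit 4) (nat_lit 4) L49245 (by decide +kernel)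
theorem L49247 : W_6 (nat_lit 7) (nat_lit 0x200013001300088000e00000000000000000000000000) (nat_lit 0x0) (nat_lit 0x800170010000200038001c0000000000000) := T_6 (nat_lit 89) (nat_lit 139) (nat_lit 5) (nat_lit 4) (nat_lit 5) L49246 (by decide +kernel)
theorem L49248 : W_6 (nat_lit 8) (nat_lit 0x200012001300088000e00000000000000000000000000) (nat_lit 0x0) (nat_lit 0x200010000800170010000200038001c0000000000000) := T_6 (nat_lit 156) (nat_lit 173) (nat_lit 5) (nat_lit 4) (nat_lit 6) L49247 (by decide +kernel)
theorem L49249 : W_6 (nat_lit 9) (nat_lit 0x200012001300088000600000000000000000000000000) (nat_lit 0x0) (nat_lit 0x200010000800170018000600038001c0000000000000) := T_6 (nat_lit 107) (nat_lit 90) (nat_lit 6) (nat_lit 4) (nat_lit 9) L49248 (by decide +kernel)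
theorem L49250 : W_6 (nat_lit 10) (nat_lit 0x200012001300088000400000000000000000000000000) (nat_lit 0x0) (nat_lit 0x20001000080017001a000700038001c0000000000000) := T_6 (nat_lit 105) (nat_lit 88) (nat_lit 4) (nat_lit 4) (nat_lit 9) L49249 (by decide +kernel)
theorem L49251 : W_6 (nat_lit 5) (nat_lit 0x200012001300088000400040000000000000000000000) (nat_lit 0x0) (nat_lit 0x80014000200030003000080000000000000) := T_6 (nat_lit 105) (nat_lit 88) (nat_lit 4) (nat_lit 4) (nat_lit 9) L47060 (by decide +kernel)
theorem L49252 : W_6 (nat_lit 6) (nat_lit 0x200012001300088000400000000000000000000000000) (nat_lit 0x0) (nat_lit 0x80014000a00070003000080000000000000) := T_6 (nat_lit 90) (nat_lit 107) (nat_lit 6) (nat_lit 4) (nat_lit 9) L49251 (by decide +kernel)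
theorem L49253 : W_6 (nat_lit 12) (nat_lit 0x200012001300088000000000000000000000000000000) (nat_lit 0x0) (nat_lit 0x30001c00080077803f8007c0038001c0002000000000) := Q_6 (nat_lit 106) (C_6 L49223 (C_6 L49233 (C_6 L49241 (C_6 L41877 (C_6 L49250 (C_6 L41873 (C_6 L49252 N_6))))))) (by decide +kernel)
theorem L49254 : W_6 (nat_lit 2) (nat_lit 0x800260012001300088000000000000000000000000000000) (nat_lit 0x0) (nat_lit 0x80004000200000000000000000000000000) := D_6 (nat_lit 122) (nat_lit 105) (nat_lit 139) (nat_lit 4) (nat_lit 4) (nat_lit 10) (nat_lit 4) (nat_lit 4) (nat_lit 11) (by decide +kernel)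
theorem L49255 : W_6 (nat_lit 3) (nat_lit 0x260012001300088000000000000000000000000000000) (nat_lit 0x0) (nat_lit 0x800000000000080014000200000000000000000000000000) := T_6 (nat_lit 191) (nat_lit 124) (nat_lit 6) (nat_lit 4) (nat_lit 11) L49254 (by decide +kernel)
theorem L49256 : W_6 (nat_lit 4) (nat_lit 0x240012001300088000000000000000000000000000000) (nat_lit 0x0) (nat_lit 0xc00020000000080014000200000000000000000000000000) := T_6 (nat_lit 173) (nat_lit 190) (nat_lit 5) (nat_lit 4) (nat_lit 7) L49255 (by decide +kernel)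
theorem L49257 : W_6 (nat_lit 2) (nat_lit 0x2c0012001300088000000000000000000000000000000) (nat_lit 0x0) (nat_lit 0x100021000000000000000000000000000000000000000) := D_6 (nat_lit 176) (nat_lit 161) (nat_lit 156) (nat_lit 2) (nat_lit 4) (nat_lit 10) (nat_lit 0) (nat_lit 7) (nat_lit 10) (by decide +kernel)
theorem L49258 : W_6 (nat_lit 3) (nat_lit 0x240012001300088000000000000000000000000000000) (nat_lit 0x0) (nat_lit 0x1000180021000000000000000000000000000000000000000) := T_6 (nat_lit 175) (nat_lit 192) (nat_lit 7) (nat_lit 4) (nat_lit 7) L49257 (by decide +kernel)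
theorem L49259 : W_6 (nat_lit 5) (nat_lit 0x200012001300088000000000000000000000000000000) (nat_lit 0x0) (nat_lit 0x1c001e0021000080014000200000000000000000000000000) := Q_6 (nat_lit 174) (C_6 L47051 (C_6 L49256 (C_6 L49258 N_6))) (by decide +kernel)
theorem L49260 : W_6 (nat_lit 2) (nat_lit 0x2000080026001300130008d000000000000000000000000000000) (nat_lit 0x0) (nat_lit 0x600010000000000000000000000000000000000000000000000000000) := D_6 (nat_lit 208) (nat_lit 226) (nat_lit 225) (nat_lit 7) (nat_lit 4) (nat_lit 9) (nat_lit 4) (nat_lit 4) (nat_lit 13) (by decide +kernel)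
theorem L49261 : W_6 (nat_lit 3) (nat_lit 0x2000080026001200130008d000000000000000000000000000000) (nat_lit 0x0) (nat_lit 0x600010000000000001000000000000400000000000000000000000000) := T_6 (nat_lit 156) (nat_lit 106) (nat_lit 5) (nat_lit 4) (nat_lit 6) L49260 (by decide +kernel)
theorem L49262 : W_6 (nat_lit 4) (nat_lit 0x80026001200130008d000000000000000000000000000000) (nat_lit 0x0) (nat_lit 0x600030001000000001000000000000400000000000000000000000000) := T_6 (nat_lit 209) (nat_lit 192) (nat_lit 7) (nat_lit 4) (nat_lit 8) L49261 (by decide +kernel)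
theorem L49263 : W_6 (nat_lit 5) (nat_lit 0x80026001200130008c000000000000000000000000000000) (nat_lit 0x0) (nat_lit 0x600030001000000001000000003000400000000000000000000000000) := T_6 (nat_lit 120) (nat_lit 121) (nat_lit 3) (nat_lit 1) (nat_lit 7) L49262 (by decide +kernel)
theorem L49264 : W_6 (nat_lit 6) (nat_lit 0x26001200130008c000000000000000000000000000000) (nat_lit 0x0) (nat_lit 0x600030001800000001000080003000400000000000000000000000000) := T_6 (nat_lit 191) (nat_lit 139) (nat_lit 4) (nat_lit 4) (nat_lit 11) L49263 (by decide +kernel)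
theorem L49265 : W_6 (nat_lit 7) (nat_lit 0x260012001300088000000000000000000000000000000) (nat_lit 0x0) (nat_lit 0x600030001800000001000080007000600000000000000000000000000) := T_6 (nat_lit 122) (nat_lit 105) (nat_lit 4) (nat_lit 4) (nat_lit 10) L49264 (by decide +kernel)
theorem L49266 : W_6 (nat_lit 8) (nat_lit 0x240012001300088000000000000000000000000000000) (nat_lit 0x0) (nat_lit 0x600030001c00020001000080007000600000000000000000000000000) := T_6 (nat_lit 173) (nat_lit 190) (nat_lit 5) (nat_lit 4) (nat_lit 7) L49265 (by decide +kernel)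
theorem L49267 : W_6 (nat_lit 2) (nat_lit 0x37001340138008d000000000000000000000000000000) (nat_lit 0x0) (nat_lit 0xc000200000000000000000000000000000000000000) := D_6 (nat_lit 171) (nat_lit 170) (nat_lit 153) (nat_lit 2) (nat_lit 0) (nat_lit 10) (nat_lit 0) (nat_lit 4) (nat_lit 10) (by decide +kernel)
theorem L49268 : W_6 (nat_lit 3) (nat_lit 0x36001340138008d000000000000000000000000000000) (nat_lit 0x0) (nat_lit 0x20001c000200000000000000000000000000000000000000) := T_6 (nat_lit 172) (nat_lit 189) (nat_lit 5) (nat_lit 3) (nat_lit 7) L49267 (by decide +kernel)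
theorem L49269 : W_6 (nat_lit 4) (nat_lit 0x26001340138008d000000000000000000000000000000) (nat_lit 0x0) (nat_lit 0x20019c000200000000000000000000000000000000000000) := T_6 (nat_lit 176) (nat_lit 175) (nat_lit 0) (nat_lit 7) (nat_lit 10) L49268 (by decide +kernel)
theorem L49270 : W_6 (nat_lit 5) (nat_lit 0x26001300138008d000000000000000000000000000000) (nat_lit 0x0) (nat_lit 0x20019c000e00000000000000000000000000000000000000) := T_6 (nat_lit 154) (nat_lit 155) (nat_lit 2) (nat_lit 1) (nat_lit 9) L49269 (by decide +kernel)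
theorem L49271 : W_6 (nat_lit 6) (nat_lit 0x26001200138008d000000000000000000000000000000) (nat_lit 0x0) (nat_lit 0x20019c001e00000000000400000000000000000000000000) := T_6 (nat_lit 156) (nat_lit 106) (nat_lit 6) (nat_lit 3) (nat_lit 10) L49270 (by decide +kernel)
theorem L49272 : W_6 (nat_lit 7) (nat_lit 0x26001200138008c000000000000000000000000000000) (nat_lit 0x0) (nat_lit 0x20019c001e00000003000400000000000000000000000000) := T_6 (nat_lit 120) (nat_lit 121) (nat_lit 3) (nat_lit 1) (nat_lit 7) L49271 (by decide +kernel)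
theorem L49273 : W_6 (nat_lit 8) (nat_lit 0x26001200130008c000000000000000000000000000000) (nat_lit 0x0) (nat_lit 0xa0019c001e00080003000400000000000000000000000000) := T_6 (nat_lit 139) (nat_lit 191) (nat_lit 4) (nat_lit 4) (nat_lit 11) L49272 (by decide +kernel)
theorem L49274 : W_6 (nat_lit 9) (nat_lit 0x260012001300088000000000000000000000000000000) (nat_lit 0x0) (nat_lit 0xa0019c001e00080007000600000000000000000000000000) := T_6 (nat_lit 122) (nat_lit 105) (nat_lit 4) (nat_lit 4) (nat_lit 10) L49273 (by decide +kernel)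
theorem L49275 : W_6 (nat_lit 10) (nat_lit 0x240012001300088000000000000000000000000000000) (nat_lit 0x0) (nat_lit 0xe001bc001e00080007000600000000000000000000000000) := T_6 (nat_lit 173) (nat_lit 190) (nat_lit 5) (nat_lit 4) (nat_lit 7) L49274 (by decide +kernel)
theorem L49276 : W_6 (nat_lit 2) (nat_lit 0x100026001200130008c000000000000000000000000000000) (nat_lit 0x0) (nat_lit 0x20000800000000000080000000000000000000000000000000000) := D_6 (nat_lit 191) (nat_lit 139) (nat_lit 209) (nat_lit 4) (nat_lit 4) (nat_lit 11) (nat_lit 7) (nat_lit 4) (nat_lit 8) (by decide +kernel)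
theorem L49277 : W_6 (nat_lit 3) (nat_lit 0x1000260012001300088000000000000000000000000000000) (nat_lit 0x0) (nat_lit 0x20000800000000000080004000200000000000000000000000000) := T_6 (nat_lit 122) (nat_lit 105) (nat_lit 4) (nat_lit 4) (nat_lit 10) L49276 (by decide +kernel)
theorem L49278 : W_6 (nat_lit 4) (nat_lit 0x260012001300088000000000000000000000000000000) (nat_lit 0x0) (nat_lit 0x20001800080000000080004000200000000000000000000000000) := T_6 (nat_lit 192) (nat_lit 175) (nat_lit 7) (nat_lit 4) (nat_lit 7) L49277 (by decide +kernel)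
theorem L49279 : W_6 (nat_lit 5) (nat_lit 0x240012001300088000000000000000000000000000000) (nat_lit 0x0) (nat_lit 0x20001c000a0000000080004000200000000000000000000000000) := T_6 (nat_lit 173) (nat_lit 190) (nat_lit 5) (nat_lit 4) (nat_lit 7) L49278 (by decide +kernel)
theorem L49280 : W_6 (nat_lit 11) (nat_lit 0x200012001300088000000000000000000000000000000) (nat_lit 0x0) (nat_lit 0x600030001e001fc021e00080007000600000000000000000000000000) := Q_6 (nat_lit 174) (C_6 L49258 (C_6 L49266 (C_6 L49275 (C_6 L49279 N_6)))) (by decide +kernel)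
theorem L49281 : W_6 (nat_lit 2) (nat_lit 0x3e00120013400bc000000000000000000000000000000) (nat_lit 0x0) (nat_lit 0x20003000000000000000000000000000000) := D_6 (nat_lit 121) (nat_lit 137) (nat_lit 120) (nat_lit 1) (nat_lit 5) (nat_lit 7) (nat_lit 3) (nat_lit 1) (nat_lit 7) (by decide +kernel)
theorem L49282 : W_6 (nat_lit 3) (nat_lit 0x3e00120013400b8000000000000000000000000000000) (nat_lit 0x0) (nat_lit 0x20007000200000000000000000000000000) := T_6 (nat_lit 122) (nat_lit 105) (nat_lit 4) (nat_lit 4) (nat_lit 10) L49281 (by decide +kernel)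
theorem L49283 : W_6 (nat_lit 4) (nat_lit 0x3e00120013000b8000000000000000000000000000000) (nat_lit 0x0) (nat_lit 0xe0007000200000000000000000000000000) := T_6 (nat_lit 138) (nat_lit 139) (nat_lit 2) (nat_lit 2) (nat_lit 8) L49282 (by decide +kernel)
theorem L49284 : W_6 (nat_lit 5) (nat_lit 0x3e0012001300098000000000000000000000000000000) (nat_lit 0x0) (nat_lit 0xe0067000200000000000000000000000000) := T_6 (nat_lit 125) (nat_lit 126) (nat_lit 1) (nat_lit 8) (nat_lit 7) L49283 (by decide +kernel)
theorem L49285 : W_6 (nat_lit 6) (nat_lit 0x3e0012001300088000000000000000000000000000000) (nat_lit 0x0) (nat_lit 0xe0077000a00000000000000000000000000) := T_6 (nat_lit 124) (nat_lit 107) (nat_lit 6) (nat_lit 4) (nat_lit 10) L49284 (by decide +kernel)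
theorem L49286 : W_6 (nat_lit 7) (nat_lit 0x2e0012001300088000000000000000000000000000000) (nat_lit 0x0) (nat_lit 0x1000200000e0077000a00000000000000000000000000) := T_6 (nat_lit 176) (nat_lit 161) (nat_lit 2) (nat_lit 4) (nat_lit 10) L49285 (by decide +kernel)
theorem L49287 : W_6 (nat_lit 8) (nat_lit 0x260012001300088000000000000000000000000000000) (nat_lit 0x0) (nat_lit 0x10001800200000e0077000a00000000000000000000000000) := T_6 (nat_lit 175) (nat_lit 192) (nat_lit 7) (nat_lit 4) (nat_lit 7) L49286 (by decide +kernel)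
theorem L49288 : W_6 (nat_lit 9) (nat_lit 0x240012001300088000000000000000000000000000000) (nat_lit 0x0) (nat_lit 0x14001a00200000e0077000a00000000000000000000000000) := T_6 (nat_lit 173) (nat_lit 190) (nat_lit 5) (nat_lit 4) (nat_lit 7) L49287 (by decide +kernel)
theorem L49289 : W_6 (nat_lit 10) (nat_lit 0x200012001300088000000000000000000000000000000) (nat_lit 0x0) (nat_lit 0x20001c001e00200000e0077000a00000000000000000000000000) := Q_6 (nat_lit 174) (C_6 L49279 (C_6 L49256 (C_6 L47048 (C_6 L49288 (C_6 L47045 N_6))))) (by decide +kernel)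
theorem L49290 : W_6 (nat_lit 2) (nat_lit 0x2000120013c009a003e80020000000000000000000000) (nat_lit 0x0) (nat_lit 0x380000000000000000000000) := D_6 (nat_lit 92) (nat_lit 91) (nat_lit 93) (nat_lit 2) (nat_lit 3) (nat_lit 6) (nat_lit 2) (nat_lit 4) (nat_lit 6) (by decide +kernel)
theorem L49291 : W_6 (nat_lit 3) (nat_lit 0x2000120013c009a001e80020000000000000000000000) (nat_lit 0x0) (nat_lit 0x40002000380000000000000000000000) := T_6 (nat_lit 109) (nat_lit 126) (nat_lit 3) (nat_lit 4) (nat_lit 6) L49290 (by decide +kernel)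
theorem L49292 : W_6 (nat_lit 4) (nat_lit 0x2000120013c009a000e80020000000000000000000000) (nat_lit 0x0) (nat_lit 0x44003000380000000000000000000000) := T_6 (nat_lit 108) (nat_lit 122) (nat_lit 2) (nat_lit 2) (nat_lit 7) L49291 (by decide +kernel)
theorem L49293 : W_6 (nat_lit 5) (nat_lit 0x2000120013c0098000e80020000000000000000000000) (nat_lit 0x0) (nat_lit 0x47003000380000000000000000000000) := T_6 (nat_lit 121) (nat_lit 120) (nat_lit 0) (nat_lit 5) (nat_lit 8) L49292 (by decide +kernel)
theorem L49294 : W_6 (nat_lit 6) (nat_lit 0x200012001380098000e80020000000000000000000000) (nat_lit 0x0) (nat_lit 0x60047003000380000000000000000000000) := T_6 (nat_lit 138) (nat_lit 137) (nat_lit 2) (nat_lit 1) (nat_lit 8) L49293 (by decide +kernel)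
theorem L49295 : W_6 (nat_lit 7) (nat_lit 0x200012001300098000e80020000000000000000000000) (nat_lit 0x0) (nat_lit 0x10000e0047003000380000000000000000000000) := T_6 (nat_lit 139) (nat_lit 156) (nat_lit 5) (nat_lit 4) (nat_lit 5) L49294 (by decide +kernel)
theorem L49296 : W_6 (nat_lit 8) (nat_lit 0x200012001300098000e80000000000000000000000000) (nat_lit 0x0) (nat_lit 0x10000e00470030003a0001000000000000000000) := T_6 (nat_lit 89) (nat_lit 72) (nat_lit 7) (nat_lit 4) (nat_lit 4) L49295 (by decide +kernel)
theorem L49297 : W_6 (nat_lit 9) (nat_lit 0x200012001300098000e00000000000000000000000000) (nat_lit 0x0) (nat_lit 0x10000e00470031803a0001000000000000000000) := T_6 (nat_lit 103) (nat_lit 104) (nat_lit 3) (nat_lit 1) (nat_lit 6) L49296 (by decide +kernel)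
theorem L49298 : W_6 (nat_lit 10) (nat_lit 0x200012001300098000c00000000000000000000000000) (nat_lit 0x0) (nat_lit 0x10000e00470033803b0001000000000000000000) := T_6 (nat_lit 105) (nat_lit 88) (nat_lit 4) (nat_lit 4) (nat_lit 9) L49297 (by decide +kernel)
theorem L49299 : W_6 (nat_lit 11) (nat_lit 0x200012001300098000400000000000000000000000000) (nat_lit 0x0) (nat_lit 0x10000e0047003b803f0001000000000000000000) := T_6 (nat_lit 107) (nat_lit 90) (nat_lit 6) (nat_lit 4) (nat_lit 9) L49298 (by decide +kernel)
theorem L49300 : W_6 (nat_lit 2) (nat_lit 0x2000120013000de000f00008001000000000000000000) (nat_lit 0x0) (nat_lit 0x1000080000000000000000400000000000000000) := D_6 (nat_lit 139) (nat_lit 156) (nat_lit 70) (nat_lit 4) (nat_lit 3) (nat_lit 9) (nat_lit 7) (nat_lit 2) (nat_lit 4) (by decide +kernel)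
theorem L49301 : W_6 (nat_lit 3) (nat_lit 0x2000120013000da000f00008001000000000000000000) (nat_lit 0x0) (nat_lit 0x1000080004001000000000400000000000000000) := T_6 (nat_lit 122) (nat_lit 108) (nat_lit 2) (nat_lit 2) (nat_lit 7) L49300 (by decide +kernel)
theorem L49302 : W_6 (nat_lit 4) (nat_lit 0x2000120013000d8000f00008001000000000000000000) (nat_lit 0x0) (nat_lit 0x1000080007001000000000400000000000000000) := T_6 (nat_lit 121) (nat_lit 120) (nat_lit 1) (nat_lit 5) (nat_lit 6) L49301 (by decide +kernel)
theorem L49303 : W_6 (nat_lit 5) (nat_lit 0x2000120013000d8000f00000001000000000000000000) (nat_lit 0x0) (nat_lit 0x100008000700100000c000400000000000000000) := T_6 (nat_lit 87) (nat_lit 86) (nat_lit 0) (nat_lit 5) (nat_lit 6) L49302 (by decide +kernel)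
theorem L49304 : W_6 (nat_lit 6) (nat_lit 0x2000120013000d8000e00000001000000000000000000) (nat_lit 0x0) (nat_lit 0x100008000700118000c000400000000000000000) := T_6 (nat_lit 104) (nat_lit 103) (nat_lit 3) (nat_lit 1) (nat_lit 6) L49303 (by decide +kernel)
theorem L49305 : W_6 (nat_lit 7) (nat_lit 0x2000120013000d8000c00000001000000000000000000) (nat_lit 0x0) (nat_lit 0x100008000700138001c000400000000000000000) := T_6 (nat_lit 105) (nat_lit 88) (nat_lit 4) (nat_lit 4) (nat_lit 9) L49304 (by decide +kernel)
theorem L49306 : W_6 (nat_lit 8) (nat_lit 0x2000120013000d8000400000001000000000000000000) (nat_lit 0x0) (nat_lit 0x1000080007001b8005c000400000000000000000) := T_6 (nat_lit 107) (nat_lit 90) (nat_lit 6) (nat_lit 4) (nat_lit 9) L49305 (by decide +kernel)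
theorem L49307 : W_6 (nat_lit 9) (nat_lit 0x200012001300098000400000001000000000000000000) (nat_lit 0x0) (nat_lit 0x1000080067001b8005c000400000000000000000) := T_6 (nat_lit 126) (nat_lit 125) (nat_lit 1) (nat_lit 8) (nat_lit 7) L49306 (by decide +kernel)
theorem L49308 : W_6 (nat_lit 10) (nat_lit 0x200012001300098000400000000000000000000000000) (nat_lit 0x0) (nat_lit 0x1000080067001b8007c001400000000000000000) := T_6 (nat_lit 72) (nat_lit 89) (nat_lit 7) (nat_lit 4) (nat_lit 4) L49307 (by decide +kernel)
theorem L49309 : W_6 (nat_lit 2) (nat_lit 0x2000120013000b8000680020000000000000000000000) (nat_lit 0x0) (nat_lit 0x10000c0000000000000000000000000000000000) := D_6 (nat_lit 139) (nat_lit 138) (nat_lit 156) (nat_lit 2) (nat_lit 2) (nat_lit 8) (nat_lit 5) (nat_lit 4) (nat_lit 5) (by decide +kernel)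
theorem L49310 : W_6 (nat_lit 3) (nat_lit 0x2000120013000b8000680000000000000000000000000) (nat_lit 0x0) (nat_lit 0x10000c0000000000020001000000000000000000) := T_6 (nat_lit 89) (nat_lit 72) (nat_lit 7) (nat_lit 4) (nat_lit 4) L49309 (by decide +kernel)
theorem L49311 : W_6 (nat_lit 4) (nat_lit 0x200012001300098000680000000000000000000000000) (nat_lit 0x0) (nat_lit 0x10000c0060000000020001000000000000000000) := T_6 (nat_lit 125) (nat_lit 126) (nat_lit 1) (nat_lit 8) (nat_lit 7) L49310 (by decide +kernel)
theorem L49312 : W_6 (nat_lit 5) (nat_lit 0x200012001300098000600000000000000000000000000) (nat_lit 0x0) (nat_lit 0x10000c0060000180020001000000000000000000) := T_6 (nat_lit 103) (nat_lit 104) (nat_lit 3) (nat_lit 1) (nat_lit 6) L49311 (by decide +kernel)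
theorem L49313 : W_6 (nat_lit 6) (nat_lit 0x200012001300098000400000000000000000000000000) (nat_lit 0x0) (nat_lit 0x10000c0060000380030001000000000000000000) := T_6 (nat_lit 105) (nat_lit 88) (nat_lit 4) (nat_lit 4) (nat_lit 9) L49312 (by decide +kernel)
theorem L49314 : W_6 (nat_lit 2) (nat_lit 0x2000120013000d8001f00000000000000000000000000) (nat_lit 0x0) (nat_lit 0x7000000000000000000000000000000) := D_6 (nat_lit 121) (nat_lit 120) (nat_lit 122) (nat_lit 1) (nat_lit 5) (nat_lit 6) (nat_lit 2) (nat_lit 2) (nat_lit 7) (by decide +kernel)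
theorem L49315 : W_6 (nat_lit 3) (nat_lit 0x2000120013000d8000f00000000000000000000000000) (nat_lit 0x0) (nat_lit 0x7003000000000000000000000000000) := T_6 (nat_lit 108) (nat_lit 109) (nat_lit 3) (nat_lit 4) (nat_lit 6) L49314 (by decide +kernel)
theorem L49316 : W_6 (nat_lit 4) (nat_lit 0x2000120013000d8000e00000000000000000000000000) (nat_lit 0x0) (nat_lit 0x7003180000000000000000000000000) := T_6 (nat_lit 104) (nat_lit 103) (nat_lit 3) (nat_lit 1) (nat_lit 6) L49315 (by decide +kernel)
theorem L49317 : W_6 (nat_lit 5) (nat_lit 0x2000120013000d8000c00000000000000000000000000) (nat_lit 0x0) (nat_lit 0x7003380010000000000000000000000) := T_6 (nat_lit 105) (nat_lit 88) (nat_lit 4) (nat_lit 4) (nat_lit 9) L49316 (by decide +kernel)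
theorem L49318 : W_6 (nat_lit 6) (nat_lit 0x2000120013000d8000400000000000000000000000000) (nat_lit 0x0) (nat_lit 0x7003b80050000000000000000000000) := T_6 (nat_lit 107) (nat_lit 90) (nat_lit 6) (nat_lit 4) (nat_lit 9) L49317 (by decide +kernel)
theorem L49319 : W_6 (nat_lit 7) (nat_lit 0x200012001300098000400000000000000000000000000) (nat_lit 0x0) (nat_lit 0x67003b80050000000000000000000000) := T_6 (nat_lit 126) (nat_lit 125) (nat_lit 1) (nat_lit 8) (nat_lit 7) L49318 (by decide +kernel)
theorem L49320 : W_6 (nat_lit 2) (nat_lit 0x200012001300098000400040000000000000000000000) (nat_lit 0x0) (nat_lit 0x20003000000000000000000) := D_6 (nat_lit 89) (nat_lit 72) (nat_lit 73) (nat_lit 7) (nat_lit 4) (nat_lit 4) (nat_lit 6) (nat_lit 4) (nat_lit 8) (by decide +kernel)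
theorem L49321 : W_6 (nat_lit 3) (nat_lit 0x200012001300098000400000000000000000000000000) (nat_lit 0x0) (nat_lit 0x800060003000000000000000000) := T_6 (nat_lit 90) (nat_lit 107) (nat_lit 6) (nat_lit 4) (nat_lit 9) L49320 (by decide +kernel)
theorem L49322 : W_6 (nat_lit 12) (nat_lit 0x200012001300098000000000000000000000000000000) (nat_lit 0x0) (nat_lit 0x10000e0067003f803fc003400000000000000000) := Q_6 (nat_lit 106) (C_6 L49299 (C_6 L49179 (C_6 L49308 (C_6 L49313 (C_6 L49319 (C_6 L49321 N_6)))))) (by decide +kernel)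
theorem L49323 : W_6 (nat_lit 13) (nat_lit 0x200012001300088000000000000000000000000000000) (nat_lit 0x0) (nat_lit 0x18001c00210000e0077003f803fc003400000000000000000) := Q_6 (nat_lit 124) (C_6 L49322 (C_6 L45583 (C_6 L45685 N_6))) (by decide +kernel)
theorem L49324 : W_6 (nat_lit 14) (nat_lit 0x200010001300088000000000000000000000000000000) (nat_lit 0x0) (nat_lit 0x600030001e001fc023e000e0077803f803fc003c001c0002000000000) := Q_6 (nat_lit 157) (C_6 L49148 (C_6 L49189 (C_6 L49253 (C_6 L49259 (C_6 L49280 (C_6 L49289 (C_6 L49323 N_6))))))) (by decide +kernel)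
theorem L49325 : W_6 (nat_lit 2) (nat_lit 0x2000140013000d8000800060000000000000000000000) (nat_lit 0x0) (nat_lit 0x1000080004000000000000000000) := D_6 (nat_lit 91) (nat_lit 74) (nat_lit 108) (nat_lit 6) (nat_lit 5) (nat_lit 8) (nat_lit 6) (nat_lit 5) (nat_lit 9) (by decide +kernel)
theorem L49326 : W_6 (nat_lit 3) (nat_lit 0x2000100013000d8000800060000000000000000000000) (nat_lit 0x0) (nat_lit 0x4000000000001400080004000000000000000000) := T_6 (nat_lit 158) (nat_lit 106) (nat_lit 7) (nat_lit 4) (nat_lit 5) L49325 (by decide +kernel)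
theorem L49327 : W_6 (nat_lit 4) (nat_lit 0x2000100013000d8000800040000000000000000000000) (nat_lit 0x0) (nat_lit 0x40000000000014000a0005000000000000000000) := T_6 (nat_lit 89) (nat_lit 72) (nat_lit 4) (nat_lit 5) (nat_lit 8) L49326 (by decide +kernel)
theorem L49328 : W_6 (nat_lit 5) (nat_lit 0x2000100013000d8000800000000000000000000000000) (nat_lit 0x0) (nat_lit 0x40000000000014000e0007000000000000000000) := T_6 (nat_lit 90) (nat_lit 73) (nat_lit 5) (nat_lit 5) (nat_lit 4) L49327 (by decide +kernel)
theorem L49329 : W_6 (nat_lit 6) (nat_lit 0x200010001300098000800000000000000000000000000) (nat_lit 0x0) (nat_lit 0x40000000600014000e0007000000000000000000) := T_6 (nat_lit 126) (nat_lit 125) (nat_lit 1) (nat_lit 8) (nat_lit 7) L49328 (by decide +kernel)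
theorem L49330 : W_6 (nat_lit 2) (nat_lit 0x200010001300098000c00000000000000000000000000) (nat_lit 0x0) (nat_lit 0x4000000000000000020001000000000000000000) := D_6 (nat_lit 89) (nat_lit 72) (nat_lit 158) (nat_lit 7) (nat_lit 4) (nat_lit 4) (nat_lit 7) (nat_lit 4) (nat_lit 5) (by decide +kernel)
theorem L49331 : W_6 (nat_lit 2) (nat_lit 0x2400100013800da001c00034000000000000000000000) (nat_lit 0x0) (nat_lit 0x60001000000000000000000000000000000) := D_6 (nat_lit 138) (nat_lit 137) (nat_lit 120) (nat_lit 2) (nat_lit 1) (nat_lit 8) (nat_lit 0) (nat_lit 5) (nat_lit 8) (by decide +kernel)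
theorem L49332 : W_6 (nat_lit 3) (nat_lit 0x2400100013000da001c00034000000000000000000000) (nat_lit 0x0) (nat_lit 0x10000e0001000000000000000000000000000000) := T_6 (nat_lit 139) (nat_lit 156) (nat_lit 5) (nat_lit 4) (nat_lit 5) L49331 (by decide +kernel)
theorem L49333 : W_6 (nat_lit 4) (nat_lit 0x2400100013000da001c00030000000000000000000000) (nat_lit 0x0) (nat_lit 0x10000e000100000000c000000000000000000000) := T_6 (nat_lit 86) (nat_lit 87) (nat_lit 3) (nat_lit 1) (nat_lit 5) L49332 (by decide +kernel)
theorem L49334 : W_6 (nat_lit 5) (nat_lit 0x2400100013000da001c00020000000000000000000000) (nat_lit 0x0) (nat_lit 0x10000e000100000001c000800000000000000000) := T_6 (nat_lit 88) (nat_lit 71) (nat_lit 4) (nat_lit 4) (nat_lit 8) L49333 (by decide +kernel)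
theorem L49335 : W_6 (nat_lit 6) (nat_lit 0x2400100013000da001c00000000000000000000000000) (nat_lit 0x0) (nat_lit 0x10000e000100000003c001800000000000000000) := T_6 (nat_lit 89) (nat_lit 72) (nat_lit 7) (nat_lit 4) (nat_lit 4) L49334 (by decide +kernel)
theorem L49336 : W_6 (nat_lit 7) (nat_lit 0x2400100013000d8001c00000000000000000000000000) (nat_lit 0x0) (nat_lit 0x10000e000700000003c001800000000000000000) := T_6 (nat_lit 121) (nat_lit 122) (nat_lit 2) (nat_lit 2) (nat_lit 7) L49335 (by decide +kernel)
theorem L49337 : W_6 (nat_lit 8) (nat_lit 0x2400100013000d8000c00000000000000000000000000) (nat_lit 0x0) (nat_lit 0x10000e000700300003c001800000000000000000) := T_6 (nat_lit 108) (nat_lit 109) (nat_lit 3) (nat_lit 4) (nat_lit 6) L49336 (by decide +kernel)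
theorem L49338 : W_6 (nat_lit 9) (nat_lit 0x240010001300098000c00000000000000000000000000) (nat_lit 0x0) (nat_lit 0x10000e006700300003c001800000000000000000) := T_6 (nat_lit 126) (nat_lit 125) (nat_lit 1) (nat_lit 8) (nat_lit 7) L49337 (by decide +kernel)
theorem L49339 : W_6 (nat_lit 10) (nat_lit 0x200010001300098000c00000000000000000000000000) (nat_lit 0x0) (nat_lit 0x400030000e006700300003c001800000000000000000) := T_6 (nat_lit 174) (nat_lit 157) (nat_lit 6) (nat_lit 4) (nat_lit 10) L49338 (by decide +kernel)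
theorem L49340 : W_6 (nat_lit 2) (nat_lit 0x2100178013400da001c00000000000000000000000000) (nat_lit 0x0) (nat_lit 0x80001000080000000000000000000000000) := D_6 (nat_lit 120) (nat_lit 139) (nat_lit 103) (nat_lit 0) (nat_lit 5) (nat_lit 8) (nat_lit 4) (nat_lit 2) (nat_lit 10) (by decide +kernel)
theorem L49341 : W_6 (nat_lit 3) (nat_lit 0x2000178013400da001c00000000000000000000000000) (nat_lit 0x0) (nat_lit 0x18000000080001000080000000000000000000000000) := T_6 (nat_lit 172) (nat_lit 171) (nat_lit 1) (nat_lit 5) (nat_lit 9) L49340 (by decide +kernel)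
theorem L49342 : W_6 (nat_lit 4) (nat_lit 0x2000178013000da001c00000000000000000000000000) (nat_lit 0x0) (nat_lit 0x180000000e0001000080000000000000000000000000) := T_6 (nat_lit 138) (nat_lit 137) (nat_lit 0) (nat_lit 5) (nat_lit 9) L49341 (by decide +kernel)
theorem L49343 : W_6 (nat_lit 5) (nat_lit 0x2000170013000da001c00000000000000000000000000) (nat_lit 0x0) (nat_lit 0x18000c000e0001000080000000000000000000000000) := T_6 (nat_lit 155) (nat_lit 154) (nat_lit 2) (nat_lit 1) (nat_lit 9) L49342 (by decide +kernel)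
theorem L49344 : W_6 (nat_lit 6) (nat_lit 0x2000160013000da001c00000000000000000000000000) (nat_lit 0x0) (nat_lit 0x38001c000e0001000080000000000000000000000000) := T_6 (nat_lit 156) (nat_lit 173) (nat_lit 5) (nat_lit 4) (nat_lit 6) L49343 (by decide +kernel)
theorem L49345 : W_6 (nat_lit 7) (nat_lit 0x2000160013000d8001c00000000000000000000000000) (nat_lit 0x0) (nat_lit 0x38001c000e0007000080000000000000000000000000) := T_6 (nat_lit 121) (nat_lit 122) (nat_lit 2) (nat_lit 2) (nat_lit 7) L49344 (by decide +kernel)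
theorem L49346 : W_6 (nat_lit 8) (nat_lit 0x2000120013000d8001c00000000000000000000000000) (nat_lit 0x0) (nat_lit 0x38005c000e0007000080080000000000000000000000) := T_6 (nat_lit 158) (nat_lit 91) (nat_lit 6) (nat_lit 5) (nat_lit 9) L49345 (by decide +kernel)
theorem L49347 : W_6 (nat_lit 9) (nat_lit 0x2000120013000d8000c00000000000000000000000000) (nat_lit 0x0) (nat_lit 0x38005c000e0007003080080000000000000000000000) := T_6 (nat_lit 108) (nat_lit 109) (nat_lit 3) (nat_lit 4) (nat_lit 6) L49346 (by decide +kernel)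
theorem L49348 : W_6 (nat_lit 10) (nat_lit 0x200012001300098000c00000000000000000000000000) (nat_lit 0x0) (nat_lit 0x38005c000e0067003080080000000000000000000000) := T_6 (nat_lit 126) (nat_lit 125) (nat_lit 1) (nat_lit 8) (nat_lit 7) L49347 (by decide +kernel)
theorem L49349 : W_6 (nat_lit 11) (nat_lit 0x200010001300098000c00000000000000000000000000) (nat_lit 0x0) (nat_lit 0x78007c000e0067003080080000000000000000000000) := T_6 (nat_lit 157) (nat_lit 174) (nat_lit 6) (nat_lit 4) (nat_lit 10) L49348 (by decide +kernel)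
theorem L49350 : W_6 (nat_lit 12) (nat_lit 0x200010001300098000800000000000000000000000000) (nat_lit 0x0) (nat_lit 0x78007c000e00670034800bc001800000000000000000) := Q_6 (nat_lit 106) (C_6 L49330 (C_6 L49339 (C_6 L49349 N_6))) (by decide +kernel)
theorem L49351 : W_6 (nat_lit 13) (nat_lit 0x200010001300098000000000000000000000000000000) (nat_lit 0x0) (nat_lit 0x78007c000e0067003c800fc007800000000000000000) := Q_6 (nat_lit 107) (C_6 L45167 (C_6 L49329 (C_6 L49350 N_6))) (by decide +kernel)
theorem L49352 : W_6 (nat_lit 2) (nat_lit 0x200014001300098000800060000000000000000000000) (nat_lit 0x0) (nat_lit 0x1000080004000000000000000000) := D_6 (nat_lit 91) (nat_lit 74) (nat_lit 108) (nat_lit 6) (nat_lit 5) (nat_lit 8) (nat_lit 6) (nat_lit 5) (nat_lit 9) (by decide +kernel)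
theorem L49353 : W_6 (nat_lit 3) (nat_lit 0x200010001300098000800060000000000000000000000) (nat_lit 0x0) (nat_lit 0x4000000000001400080004000000000000000000) := T_6 (nat_lit 158) (nat_lit 106) (nat_lit 7) (nat_lit 4) (nat_lit 5) L49352 (by decide +kernel)
theorem L49354 : W_6 (nat_lit 4) (nat_lit 0x200010001300098000800040000000000000000000000) (nat_lit 0x0) (nat_lit 0x40000000000014000a0005000000000000000000) := T_6 (nat_lit 89) (nat_lit 72) (nat_lit 4) (nat_lit 5) (nat_lit 8) L49353 (by decide +kernel)
theorem L49355 : W_6 (nat_lit 5) (nat_lit 0x200010001300098000800000000000000000000000000) (nat_lit 0x0) (nat_lit 0x40000000000014000e0007000000000000000000) := T_6 (nat_lit 90) (nat_lit 73) (nat_lit 5) (nat_lit 5) (nat_lit 4) L49354 (by decide +kernel)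
theorem L49356 : W_6 (nat_lit 2) (nat_lit 0x2400108013c009a002c00034000000000000000000000) (nat_lit 0x0) (nat_lit 0x4000300000000000000000000000000) := D_6 (nat_lit 105) (nat_lit 122) (nat_lit 104) (nat_lit 5) (nat_lit 3) (nat_lit 5) (nat_lit 6) (nat_lit 2) (nat_lit 9) (by decide +kernel)
theorem L49357 : W_6 (nat_lit 3) (nat_lit 0x2400100013c009a002c00034000000000000000000000) (nat_lit 0x0) (nat_lit 0xc00000004000300000000000000000000000000) := T_6 (nat_lit 155) (nat_lit 154) (nat_lit 1) (nat_lit 5) (nat_lit 8) L49356 (by decide +kernel)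
theorem L49358 : W_6 (nat_lit 4) (nat_lit 0x2400100013c0098002c00034000000000000000000000) (nat_lit 0x0) (nat_lit 0xc00000007000300000000000000000000000000) := T_6 (nat_lit 121) (nat_lit 120) (nat_lit 0) (nat_lit 5) (nat_lit 8) L49357 (by decide +kernel)
theorem L49359 : W_6 (nat_lit 5) (nat_lit 0x240010001380098002c00034000000000000000000000) (nat_lit 0x0) (nat_lit 0xc00060007000300000000000000000000000000) := T_6 (nat_lit 138) (nat_lit 137) (nat_lit 2) (nat_lit 1) (nat_lit 8) L49358 (by decide +kernel)
theorem L49360 : W_6 (nat_lit 6) (nat_lit 0x240010001300098002c00034000000000000000000000) (nat_lit 0x0) (nat_lit 0x1c000e0007000300000000000000000000000000) := T_6 (nat_lit 139) (nat_lit 156) (nat_lit 5) (nat_lit 4) (nat_lit 5) L49359 (by decide +kernel)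
theorem L49361 : W_6 (nat_lit 7) (nat_lit 0x240010001300098000c00034000000000000000000000) (nat_lit 0x0) (nat_lit 0x1c000e0007003300000000000000000000000000) := T_6 (nat_lit 109) (nat_lit 108) (nat_lit 0) (nat_lit 7) (nat_lit 6) L49360 (by decide +kernel)
theorem L49362 : W_6 (nat_lit 8) (nat_lit 0x240010001300098000c00030000000000000000000000) (nat_lit 0x0) (nat_lit 0x1c000e000700330000c000000000000000000000) := T_6 (nat_lit 86) (nat_lit 87) (nat_lit 3) (nat_lit 1) (nat_lit 5) L49361 (by decide +kernel)
theorem L49363 : W_6 (nat_lit 9) (nat_lit 0x240010001300098000c00020000000000000000000000) (nat_lit 0x0) (nat_lit 0x1c000e000700330001c000800000000000000000) := T_6 (nat_lit 88) (nat_lit 71) (nat_lit 4) (nat_lit 4) (nat_lit 8) L49362 (by decide +kernel)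
theorem L49364 : W_6 (nat_lit 10) (nat_lit 0x240010001300098000c00000000000000000000000000) (nat_lit 0x0) (nat_lit 0x1c000e000700330003c001800000000000000000) := T_6 (nat_lit 89) (nat_lit 72) (nat_lit 7) (nat_lit 4) (nat_lit 4) L49363 (by decide +kernel)
theorem L49365 : W_6 (nat_lit 11) (nat_lit 0x200010001300098000c00000000000000000000000000) (nat_lit 0x0) (nat_lit 0x40003c000e000700330003c001800000000000000000) := T_6 (nat_lit 174) (nat_lit 157) (nat_lit 6) (nat_lit 4) (nat_lit 10) L49364 (by decide +kernel)
theorem L49366 : W_6 (nat_lit 9) (nat_lit 0x200010001300098000c00000000000000000000000000) (nat_lit 0x0) (nat_lit 0x60003c0008000700138001c000000000000000000000) := T_6 (nat_lit 157) (nat_lit 174) (nat_lit 6) (nat_lit 4) (nat_lit 10) L45739 (by decide +kernel)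
theorem L49367 : W_6 (nat_lit 12) (nat_lit 0x200010001300098000800000000000000000000000000) (nat_lit 0x0) (nat_lit 0x60007c000e000700378003c001800000000000000000) := Q_6 (nat_lit 106) (C_6 L49365 (C_6 L49330 (C_6 L49366 N_6))) (by decide +kernel)
theorem L49368 : W_6 (nat_lit 13) (nat_lit 0x200010001300098000000000000000000000000000000) (nat_lit 0x0) (nat_lit 0x60007c000e0007003f800fc007800000000000000000) := Q_6 (nat_lit 107) (C_6 L45167 (C_6 L49355 (C_6 L49367 N_6))) (by decide +kernel)
theorem L49369 : W_6 (nat_lit 10) (nat_lit 0x200010001300098000800000000000000000000000000) (nat_lit 0x0) (nat_lit 0x60007c0008000700178003c001000000000000000000) := Q_6 (nat_lit 106) (C_6 L49366 (C_6 L49330 N_6)) (by decide +kernel)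
theorem L49370 : W_6 (nat_lit 11) (nat_lit 0x200010001300098000000000000000000000000000000) (nat_lit 0x0) (nat_lit 0x60007c00080007001f800fc007000000000000000000) := Q_6 (nat_lit 107) (C_6 L49355 (C_6 L45167 (C_6 L49369 N_6))) (by decide +kernel)
theorem L49371 : W_6 (nat_lit 4) (nat_lit 0x2000100013000da001c00000001000000000000000000) (nat_lit 0x0) (nat_lit 0x40002000000001000380010000000000000000000000) := T_6 (nat_lit 157) (nat_lit 174) (nat_lit 6) (nat_lit 4) (nat_lit 10) L49174 (by decide +kernel)
theorem L49372 : W_6 (nat_lit 5) (nat_lit 0x2000100013000d8001c00000001000000000000000000) (nat_lit 0x0) (nat_lit 0x40002000000007000380010000000000000000000000) := T_6 (nat_lit 121) (nat_lit 122) (nat_lit 2) (nat_lit 2) (nat_lit 7) L49371 (by decide +kernel)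
theorem L49373 : W_6 (nat_lit 6) (nat_lit 0x2000100013000d8000c00000001000000000000000000) (nat_lit 0x0) (nat_lit 0x40002000000007003380010000000000000000000000) := T_6 (nat_lit 108) (nat_lit 109) (nat_lit 3) (nat_lit 4) (nat_lit 6) L49372 (by decide +kernel)
theorem L49374 : W_6 (nat_lit 7) (nat_lit 0x200010001300098000c00000001000000000000000000) (nat_lit 0x0) (nat_lit 0x40002000000067003380010000000000000000000000) := T_6 (nat_lit 126) (nat_lit 125) (nat_lit 1) (nat_lit 8) (nat_lit 7) L49373 (by decide +kernel)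
theorem L49375 : W_6 (nat_lit 8) (nat_lit 0x200010001300098000c00000000000000000000000000) (nat_lit 0x0) (nat_lit 0x40002000000067003380030001000000000000000000) := T_6 (nat_lit 72) (nat_lit 89) (nat_lit 7) (nat_lit 4) (nat_lit 4) L49374 (by decide +kernel)
theorem L49376 : W_6 (nat_lit 2) (nat_lit 0x2400100013000da001e00080000000000000000000000) (nat_lit 0x0) (nat_lit 0x1000180000000000000000000000000) := D_6 (nat_lit 104) (nat_lit 103) (nat_lit 120) (nat_lit 3) (nat_lit 1) (nat_lit 6) (nat_lit 1) (nat_lit 5) (nat_lit 6) (by decide +kernel)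
theorem L49377 : W_6 (nat_lit 3) (nat_lit 0x2400100013000da001c00080000000000000000000000) (nat_lit 0x0) (nat_lit 0x1000380100000000000000000000000) := T_6 (nat_lit 105) (nat_lit 92) (nat_lit 2) (nat_lit 3) (nat_lit 6) L49376 (by decide +kernel)
theorem L49378 : W_6 (nat_lit 4) (nat_lit 0x2400100013000d8001c00080000000000000000000000) (nat_lit 0x0) (nat_lit 0x7000380100000000000000000000000) := T_6 (nat_lit 121) (nat_lit 122) (nat_lit 2) (nat_lit 2) (nat_lit 7) L49377 (by decide +kernel)
theorem L49379 : W_6 (nat_lit 5) (nat_lit 0x2400100013000d8001c00000000000000000000000000) (nat_lit 0x0) (nat_lit 0x4000000007000380180000000000000000000000) := T_6 (nat_lit 91) (nat_lit 158) (nat_lit 6) (nat_lit 5) (nat_lit 9) L49378 (by decide +kernel)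
theorem L49380 : W_6 (nat_lit 6) (nat_lit 0x2400100013000d8000c00000000000000000000000000) (nat_lit 0x0) (nat_lit 0x4000000007003380180000000000000000000000) := T_6 (nat_lit 108) (nat_lit 109) (nat_lit 3) (nat_lit 4) (nat_lit 6) L49379 (by decide +kernel)
theorem L49381 : W_6 (nat_lit 7) (nat_lit 0x240010001300098000c00000000000000000000000000) (nat_lit 0x0) (nat_lit 0x4000000067003380180000000000000000000000) := T_6 (nat_lit 126) (nat_lit 125) (nat_lit 1) (nat_lit 8) (nat_lit 7) L49380 (by decide +kernel)
theorem L49382 : W_6 (nat_lit 8) (nat_lit 0x200010001300098000c00000000000000000000000000) (nat_lit 0x0) (nat_lit 0x40006000000067003380180000000000000000000000) := T_6 (nat_lit 174) (nat_lit 157) (nat_lit 6) (nat_lit 4) (nat_lit 10) L49381 (by decide +kernel)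
theorem L49383 : W_6 (nat_lit 9) (nat_lit 0x200010001300098000800000000000000000000000000) (nat_lit 0x0) (nat_lit 0x400060000000670037801b0001000000000000000000) := Q_6 (nat_lit 106) (C_6 L49330 (C_6 L49375 (C_6 L49382 N_6))) (by decide +kernel)
theorem L49384 : W_6 (nat_lit 10) (nat_lit 0x200010001300098000000000000000000000000000000) (nat_lit 0x0) (nat_lit 0x40006000000067003f801f0007000000000000000000) := Q_6 (nat_lit 107) (C_6 L49355 (C_6 L45167 (C_6 L49383 N_6))) (by decide +kernel)
theorem L49385 : W_6 (nat_lit 2) (nat_lit 0x2000100013800bc000200000000000000000000000000) (nat_lit 0x0) (nat_lit 0x40002000000000000000010000000000000000000000) := D_6 (nat_lit 157) (nat_lit 174) (nat_lit 88) (nat_lit 4) (nat_lit 4) (nat_lit 10) (nat_lit 7) (nat_lit 3) (nat_lit 5) (by decide +kernel)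
theorem L49386 : W_6 (nat_lit 3) (nat_lit 0x2000100013800bc000000000000000000000000000000) (nat_lit 0x0) (nat_lit 0x40002000000000000300010000000000000000000000) := T_6 (nat_lit 105) (nat_lit 104) (nat_lit 0) (nat_lit 6) (nat_lit 7) L49385 (by decide +kernel)
theorem L49387 : W_6 (nat_lit 4) (nat_lit 0x20001000138009c000000000000000000000000000000) (nat_lit 0x0) (nat_lit 0x40002000000060000300010000000000000000000000) := T_6 (nat_lit 125) (nat_lit 126) (nat_lit 1) (nat_lit 7) (nat_lit 7) L49386 (by decide +kernel)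
theorem L49388 : W_6 (nat_lit 2) (nat_lit 0x2000100013800de000800000000000000000000000000) (nat_lit 0x0) (nat_lit 0x2000000000000000040002000000000000000000) := D_6 (nat_lit 90) (nat_lit 157) (nat_lit 73) (nat_lit 5) (nat_lit 5) (nat_lit 5) (nat_lit 5) (nat_lit 5) (nat_lit 4) (by decide +kernel)
theorem L49389 : W_6 (nat_lit 3) (nat_lit 0x2000100013800de000000000000000000000000000000) (nat_lit 0x0) (nat_lit 0x2000000000001800040002000000000000000000) := T_6 (nat_lit 107) (nat_lit 108) (nat_lit 2) (nat_lit 2) (nat_lit 7) L49388 (by decide +kernel)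
theorem L49390 : W_6 (nat_lit 4) (nat_lit 0x2000100013800dc000000000000000000000000000000) (nat_lit 0x0) (nat_lit 0x2000000003001800040002000000000000000000) := T_6 (nat_lit 121) (nat_lit 120) (nat_lit 3) (nat_lit 1) (nat_lit 7) L49389 (by decide +kernel)
theorem L49391 : W_6 (nat_lit 5) (nat_lit 0x20001000138009c000000000000000000000000000000) (nat_lit 0x0) (nat_lit 0x2000000063001800040002000000000000000000) := T_6 (nat_lit 126) (nat_lit 125) (nat_lit 1) (nat_lit 7) (nat_lit 7) L49390 (by decide +kernel)
theorem L49392 : W_6 (nat_lit 6) (nat_lit 0x200010001380098000000000000000000000000000000) (nat_lit 0x0) (nat_lit 0x60003000000067001b80058002400000000000000000) := Q_6 (nat_lit 122) (C_6 L43499 (C_6 L49387 (C_6 L49391 N_6))) (by decide +kernel)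
theorem L49393 : W_6 (nat_lit 7) (nat_lit 0x200010001300098000000000000000000000000000000) (nat_lit 0x0) (nat_lit 0x200070003c000e0067001b80058002400000000000000000) := Q_6 (nat_lit 139) (C_6 L49120 (C_6 L49392 (C_6 L42589 N_6))) (by decide +kernel)
theorem L49394 : W_6 (nat_lit 2) (nat_lit 0x2400100013000d8001c00030000000000000000000000) (nat_lit 0x0) (nat_lit 0x20000c000000000000000000000) := D_6 (nat_lit 87) (nat_lit 86) (nat_lit 105) (nat_lit 3) (nat_lit 1) (nat_lit 5) (nat_lit 0) (nat_lit 6) (nat_lit 6) (by decide +kernel)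
theorem L49395 : W_6 (nat_lit 3) (nat_lit 0x2400100013000d8001c00020000000000000000000000) (nat_lit 0x0) (nat_lit 0x20001c000800000000000000000) := T_6 (nat_lit 88) (nat_lit 71) (nat_lit 4) (nat_lit 4) (nat_lit 8) L49394 (by decide +kernel)
theorem L49396 : W_6 (nat_lit 4) (nat_lit 0x2400100013000d8001c00000000000000000000000000) (nat_lit 0x0) (nat_lit 0x20003c001800000000000000000) := T_6 (nat_lit 89) (nat_lit 72) (nat_lit 7) (nat_lit 4) (nat_lit 4) L49395 (by decide +kernel)
theorem L49397 : W_6 (nat_lit 5) (nat_lit 0x2000100013000d8001c00000000000000000000000000) (nat_lit 0x0) (nat_lit 0x4000200000000000020003c001800000000000000000) := T_6 (nat_lit 174) (nat_lit 157) (nat_lit 6) (nat_lit 4) (nat_lit 10) L49396 (by decide +kernel)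
theorem L49398 : W_6 (nat_lit 6) (nat_lit 0x2000100013000d8000c00000000000000000000000000) (nat_lit 0x0) (nat_lit 0x4000200000000000320003c001800000000000000000) := T_6 (nat_lit 108) (nat_lit 109) (nat_lit 3) (nat_lit 4) (nat_lit 6) L49397 (by decide +kernel)
theorem L49399 : W_6 (nat_lit 7) (nat_lit 0x200010001300098000c00000000000000000000000000) (nat_lit 0x0) (nat_lit 0x4000200000006000320003c001800000000000000000) := T_6 (nat_lit 126) (nat_lit 125) (nat_lit 1) (nat_lit 8) (nat_lit 7) L49398 (by decide +kernel)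
theorem L49400 : W_6 (nat_lit 2) (nat_lit 0x2400100013000d8001e80090000000000000000000000) (nat_lit 0x0) (nat_lit 0x4000000000000800040000000000000) := D_6 (nat_lit 71) (nat_lit 122) (nat_lit 54) (nat_lit 7) (nat_lit 3) (nat_lit 4) (nat_lit 7) (nat_lit 3) (nat_lit 3) (by decide +kernel)
theorem L49401 : W_6 (nat_lit 3) (nat_lit 0x2400100013000d8001e80080000000000000000000000) (nat_lit 0x0) (nat_lit 0x4000000018000800040000000000000) := T_6 (nat_lit 88) (nat_lit 87) (nat_lit 0) (nat_lit 6) (nat_lit 6) L49400 (by decide +kernel)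
theorem L49402 : W_6 (nat_lit 4) (nat_lit 0x2400100013000d8001e00080000000000000000000000) (nat_lit 0x0) (nat_lit 0x4000180018000800040000000000000) := T_6 (nat_lit 103) (nat_lit 104) (nat_lit 3) (nat_lit 1) (nat_lit 6) L49401 (by decide +kernel)
theorem L49403 : W_6 (nat_lit 5) (nat_lit 0x2400100013000d8001c00080000000000000000000000) (nat_lit 0x0) (nat_lit 0x4000380118000800040000000000000) := T_6 (nat_lit 105) (nat_lit 92) (nat_lit 2) (nat_lit 3) (nat_lit 6) L49402 (by decide +kernel)
theorem L49404 : W_6 (nat_lit 6) (nat_lit 0x2000100013000d8001c00080000000000000000000000) (nat_lit 0x0) (nat_lit 0x40002000000004000380118000800040000000000000) := T_6 (nat_lit 174) (nat_lit 157) (nat_lit 6) (nat_lit 4) (nat_lit 10) L49403 (by decide +kernel)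
theorem L49405 : W_6 (nat_lit 7) (nat_lit 0x2000100013000d8001c00000000000000000000000000) (nat_lit 0x0) (nat_lit 0x40006000000004000380198000800040000000000000) := T_6 (nat_lit 91) (nat_lit 158) (nat_lit 6) (nat_lit 5) (nat_lit 9) L49404 (by decide +kernel)
theorem L49406 : W_6 (nat_lit 8) (nat_lit 0x2000100013000d8000c00000000000000000000000000) (nat_lit 0x0) (nat_lit 0x40006000000004003380198000800040000000000000) := T_6 (nat_lit 108) (nat_lit 109) (nat_lit 3) (nat_lit 4) (nat_lit 6) L49405 (by decide +kernel)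
theorem L49407 : W_6 (nat_lit 9) (nat_lit 0x200010001300098000c00000000000000000000000000) (nat_lit 0x0) (nat_lit 0x40006000000064003380198000800040000000000000) := T_6 (nat_lit 126) (nat_lit 125) (nat_lit 1) (nat_lit 8) (nat_lit 7) L49406 (by decide +kernel)
theorem L49408 : W_6 (nat_lit 10) (nat_lit 0x200010001300098000800000000000000000000000000) (nat_lit 0x0) (nat_lit 0x400060000000640037801bc001800040000000000000) := Q_6 (nat_lit 106) (C_6 L49330 (C_6 L49399 (C_6 L49407 N_6))) (by decide +kernel)
theorem L49409 : W_6 (nat_lit 11) (nat_lit 0x200010001300098000000000000000000000000000000) (nat_lit 0x0) (nat_lit 0x40006000000064003f801fc007800040000000000000) := Q_6 (nat_lit 107) (C_6 L49355 (C_6 L45167 (C_6 L49408 N_6))) (by decide +kernel)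
theorem L49410 : W_6 (nat_lit 2) (nat_lit 0x2400100013000d8001f00080000000200000000000000) (nat_lit 0x0) (nat_lit 0x1c000000000000000000000) := D_6 (nat_lit 87) (nat_lit 88) (nat_lit 86) (nat_lit 0) (nat_lit 6) (nat_lit 6) (nat_lit 0) (nat_lit 5) (nat_lit 6) (by decide +kernel)
theorem L49411 : W_6 (nat_lit 3) (nat_lit 0x2400100013000d8001e00080000000200000000000000) (nat_lit 0x0) (nat_lit 0x18001c000000000000000000000) := T_6 (nat_lit 104) (nat_lit 103) (nat_lit 3) (nat_lit 1) (nat_lit 6) L49410 (by decide +kernel)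
theorem L49412 : W_6 (nat_lit 4) (nat_lit 0x2400100013000d8001c00080000000200000000000000) (nat_lit 0x0) (nat_lit 0x38011c000000000000000000000) := T_6 (nat_lit 105) (nat_lit 92) (nat_lit 2) (nat_lit 3) (nat_lit 6) L49411 (by decide +kernel)
theorem L49413 : W_6 (nat_lit 5) (nat_lit 0x2400100013000d8001c00080000000000000000000000) (nat_lit 0x0) (nat_lit 0x38011c004000200000000000000) := T_6 (nat_lit 57) (nat_lit 74) (nat_lit 5) (nat_lit 6) (nat_lit 3) L49412 (by decide +kernel)
theorem L49414 : W_6 (nat_lit 6) (nat_lit 0x2400100013000d8001c00000000000000000000000000) (nat_lit 0x0) (nat_lit 0x400000000000038019c004000200000000000000) := T_6 (nat_lit 91) (nat_lit 158) (nat_lit 6) (nat_lit 5) (nat_lit 9) L49413 (by decide +kernel)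
theorem L49415 : W_6 (nat_lit 7) (nat_lit 0x2000100013000d8001c00000000000000000000000000) (nat_lit 0x0) (nat_lit 0x4000600000000000038019c004000200000000000000) := T_6 (nat_lit 174) (nat_lit 157) (nat_lit 6) (nat_lit 4) (nat_lit 10) L49414 (by decide +kernel)
theorem L49416 : W_6 (nat_lit 8) (nat_lit 0x2000100013000d8000c00000000000000000000000000) (nat_lit 0x0) (nat_lit 0x4000600000000000338019c004000200000000000000) := T_6 (nat_lit 108) (nat_lit 109) (nat_lit 3) (nat_lit 4) (nat_lit 6) L49415 (by decide +kernel)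
theorem L49417 : W_6 (nat_lit 9) (nat_lit 0x200010001300098000c00000000000000000000000000) (nat_lit 0x0) (nat_lit 0x4000600000006000338019c004000200000000000000) := T_6 (nat_lit 126) (nat_lit 125) (nat_lit 1) (nat_lit 8) (nat_lit 7) L49416 (by decide +kernel)
theorem L49418 : W_6 (nat_lit 10) (nat_lit 0x200010001300098000800000000000000000000000000) (nat_lit 0x0) (nat_lit 0x400060000000600037801bc005800200000000000000) := Q_6 (nat_lit 106) (C_6 L49330 (C_6 L49399 (C_6 L49417 N_6))) (by decide +kernel)
theorem L49419 : W_6 (nat_lit 11) (nat_lit 0x200010001300098000000000000000000000000000000) (nat_lit 0x0) (nat_lit 0x40006000000060003f801fc007800200000000000000) := Q_6 (nat_lit 107) (C_6 L49355 (C_6 L45167 (C_6 L49418 N_6))) (by decide +kernel)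
theorem L49420 : W_6 (nat_lit 2) (nat_lit 0x20001000130009c000800000000000000000000000000) (nat_lit 0x0) (nat_lit 0x3001000000000000000000000000000) := D_6 (nat_lit 121) (nat_lit 108) (nat_lit 120) (nat_lit 2) (nat_lit 2) (nat_lit 7) (nat_lit 3) (nat_lit 1) (nat_lit 7) (by decide +kernel)
theorem L49421 : W_6 (nat_lit 2) (nat_lit 0x2400100013400bc001a00000000000000000000000000) (nat_lit 0x0) (nat_lit 0x4000000000000000080004000000000000000000) := D_6 (nat_lit 91) (nat_lit 158) (nat_lit 74) (nat_lit 6) (nat_lit 5) (nat_lit 9) (nat_lit 5) (nat_lit 6) (nat_lit 4) (by decide +kernel)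
theorem L49422 : W_6 (nat_lit 3) (nat_lit 0x2400100013400bc000a00000000000000000000000000) (nat_lit 0x0) (nat_lit 0x4000000000003000080004000000000000000000) := T_6 (nat_lit 108) (nat_lit 109) (nat_lit 2) (nat_lit 3) (nat_lit 7) L49421 (by decide +kernel)
theorem L49423 : W_6 (nat_lit 4) (nat_lit 0x2400100013400bc000800000000000000000000000000) (nat_lit 0x0) (nat_lit 0x4000000000003300080004000000000000000000) := T_6 (nat_lit 105) (nat_lit 104) (nat_lit 0) (nat_lit 6) (nat_lit 7) L49422 (by decide +kernel)
theorem L49424 : W_6 (nat_lit 5) (nat_lit 0x2400100013000bc000800000000000000000000000000) (nat_lit 0x0) (nat_lit 0x40000c0000003300080004000000000000000000) := T_6 (nat_lit 138) (nat_lit 139) (nat_lit 2) (nat_lit 2) (nat_lit 8) L49423 (by decide +kernel)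
theorem L49425 : W_6 (nat_lit 6) (nat_lit 0x2000100013000bc000800000000000000000000000000) (nat_lit 0x0) (nat_lit 0x400060000c0000003300080004000000000000000000) := T_6 (nat_lit 174) (nat_lit 157) (nat_lit 6) (nat_lit 4) (nat_lit 10) L49424 (by decide +kernel)
theorem L49426 : W_6 (nat_lit 7) (nat_lit 0x20001000130009c000800000000000000000000000000) (nat_lit 0x0) (nat_lit 0x400060000c0060003300080004000000000000000000) := T_6 (nat_lit 125) (nat_lit 126) (nat_lit 1) (nat_lit 8) (nat_lit 7) L49425 (by decide +kernel)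
theorem L49427 : W_6 (nat_lit 2) (nat_lit 0x2400100013000be000800000000000000000000000000) (nat_lit 0x0) (nat_lit 0xe0000000000000000000000000000000000) := D_6 (nat_lit 138) (nat_lit 137) (nat_lit 139) (nat_lit 1) (nat_lit 5) (nat_lit 7) (nat_lit 2) (nat_lit 2) (nat_lit 8) (by decide +kernel)
theorem L49428 : W_6 (nat_lit 3) (nat_lit 0x24001000130009e000800000000000000000000000000) (nat_lit 0x0) (nat_lit 0xe0060000000000000000000000000000000) := T_6 (nat_lit 125) (nat_lit 126) (nat_lit 1) (nat_lit 8) (nat_lit 7) L49427 (by decide +kernel)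
theorem L49429 : W_6 (nat_lit 4) (nat_lit 0x24001000130009c000800000000000000000000000000) (nat_lit 0x0) (nat_lit 0xe0063000000000000000000000000000000) := T_6 (nat_lit 121) (nat_lit 120) (nat_lit 3) (nat_lit 1) (nat_lit 7) L49428 (by decide +kernel)
theorem L49430 : W_6 (nat_lit 5) (nat_lit 0x20001000130009c000800000000000000000000000000) (nat_lit 0x0) (nat_lit 0x400020000e0063000000000000000000000000000000) := T_6 (nat_lit 174) (nat_lit 157) (nat_lit 6) (nat_lit 4) (nat_lit 10) L49429 (by decide +kernel)
theorem L49431 : W_6 (nat_lit 8) (nat_lit 0x200010001300098000800000000000000000000000000) (nat_lit 0x0) (nat_lit 0x400060000e0067003300080004000000000000000000) := Q_6 (nat_lit 122) (C_6 L49420 (C_6 L49426 (C_6 L49430 N_6))) (by decide +kernel)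
theorem L49432 : W_6 (nat_lit 9) (nat_lit 0x200010001300098000000000000000000000000000000) (nat_lit 0x0) (nat_lit 0x400060000e0067003f000e0007000000000000000000) := Q_6 (nat_lit 107) (C_6 L49355 (C_6 L45167 (C_6 L49431 N_6))) (by decide +kernel)
theorem L49433 : W_6 (nat_lit 14) (nat_lit 0x200010001300088000000000000000000000000000000) (nat_lit 0x0) (nat_lit 0x600078007c000e0077003f803fc007c00240000000000000) := Q_6 (nat_lit 124) (C_6 L49351 (C_6 L49034 (C_6 L49368 (C_6 L49370 (C_6 L49384 (C_6 L49393 (C_6 L49119 (C_6 L49409 (C_6 L49419 (C_6 L49432 N_6)))))))))) (by decide +kernel)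
theorem L49434 : W_6 (nat_lit 11) (nat_lit 0x200010001300088000400000000000000000000000000) (nat_lit 0x0) (nat_lit 0x14001f0003c00080077803b8005c000000000000000000000) := Q_6 (nat_lit 157) (C_6 L49223 (C_6 L49137 (C_6 L41880 (C_6 L47953 N_6)))) (by decide +kernel)
theorem L49435 : W_6 (nat_lit 12) (nat_lit 0x200010001300088000000000000000000000000000000) (nat_lit 0x0) (nat_lit 0x14001f0007c00080077803f8007c003800000000000000000) := Q_6 (nat_lit 106) (C_6 L49145 (C_6 L49144 (C_6 L49146 (C_6 L49434 N_6)))) (by decide +kernel)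
theorem L49436 : W_6 (nat_lit 2) (nat_lit 0x210017801340098000680000000000000000000000000) (nat_lit 0x0) (nat_lit 0x80006000000000000000000000000000000) := D_6 (nat_lit 122) (nat_lit 139) (nat_lit 121) (nat_lit 5) (nat_lit 3) (nat_lit 6) (nat_lit 6) (nat_lit 2) (nat_lit 10) (by decide +kernel)
theorem L49437 : W_6 (nat_lit 3) (nat_lit 0x200017801340098000680000000000000000000000000) (nat_lit 0x0) (nat_lit 0x18000000080006000000000000000000000000000000) := T_6 (nat_lit 172) (nat_lit 171) (nat_lit 1) (nat_lit 5) (nat_lit 9) L49436 (by decide +kernel)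
theorem L49438 : W_6 (nat_lit 4) (nat_lit 0x200017801300098000680000000000000000000000000) (nat_lit 0x0) (nat_lit 0x180000000e0006000000000000000000000000000000) := T_6 (nat_lit 138) (nat_lit 137) (nat_lit 0) (nat_lit 5) (nat_lit 9) L49437 (by decide +kernel)
theorem L49439 : W_6 (nat_lit 5) (nat_lit 0x200017001300098000680000000000000000000000000) (nat_lit 0x0) (nat_lit 0x18000c000e0006000000000000000000000000000000) := T_6 (nat_lit 155) (nat_lit 154) (nat_lit 2) (nat_lit 1) (nat_lit 9) L49438 (by decide +kernel)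
theorem L49440 : W_6 (nat_lit 6) (nat_lit 0x200016001300098000680000000000000000000000000) (nat_lit 0x0) (nat_lit 0x38001c000e0006000000000000000000000000000000) := T_6 (nat_lit 156) (nat_lit 173) (nat_lit 5) (nat_lit 4) (nat_lit 6) L49439 (by decide +kernel)
theorem L49441 : W_6 (nat_lit 7) (nat_lit 0x200016001300098000600000000000000000000000000) (nat_lit 0x0) (nat_lit 0x38001c000e0006000180000000000000000000000000) := T_6 (nat_lit 103) (nat_lit 104) (nat_lit 3) (nat_lit 1) (nat_lit 6) L49440 (by decide +kernel)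
theorem L49442 : W_6 (nat_lit 8) (nat_lit 0x200016001300098000400000000000000000000000000) (nat_lit 0x0) (nat_lit 0x38001c000e0006000380010000000000000000000000) := T_6 (nat_lit 105) (nat_lit 88) (nat_lit 4) (nat_lit 4) (nat_lit 9) L49441 (by decide +kernel)
theorem L49443 : W_6 (nat_lit 9) (nat_lit 0x200012001300098000400000000000000000000000000) (nat_lit 0x0) (nat_lit 0xb8005c000e0006000380010000000000000000000000) := T_6 (nat_lit 158) (nat_lit 175) (nat_lit 7) (nat_lit 4) (nat_lit 6) L49442 (by decide +kernel)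
theorem L49444 : W_6 (nat_lit 5) (nat_lit 0x200013401300098000e00000000000000000000000000) (nat_lit 0x0) (nat_lit 0x8000700118000c000000000000000000000) := T_6 (nat_lit 104) (nat_lit 103) (nat_lit 3) (nat_lit 1) (nat_lit 6) L45735 (by decide +kernel)
theorem L49445 : W_6 (nat_lit 6) (nat_lit 0x200013401300098000c00000000000000000000000000) (nat_lit 0x0) (nat_lit 0x8000700138001c000000000000000000000) := T_6 (nat_lit 105) (nat_lit 88) (nat_lit 4) (nat_lit 4) (nat_lit 9) L49444 (by decide +kernel)
theorem L49446 : W_6 (nat_lit 7) (nat_lit 0x200013401300098000400000000000000000000000000) (nat_lit 0x0) (nat_lit 0x80007001b8005c000000000000000000000) := T_6 (nat_lit 107) (nat_lit 90) (nat_lit 6) (nat_lit 4) (nat_lit 9) L49445 (by decide +kernel)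
theorem L49447 : W_6 (nat_lit 8) (nat_lit 0x200013001300098000400000000000000000000000000) (nat_lit 0x0) (nat_lit 0xc00080007001b8005c000000000000000000000) := T_6 (nat_lit 154) (nat_lit 155) (nat_lit 2) (nat_lit 1) (nat_lit 9) L49446 (by decide +kernel)
theorem L49448 : W_6 (nat_lit 9) (nat_lit 0x200012001300098000400000000000000000000000000) (nat_lit 0x0) (nat_lit 0x20001c00080007001b8005c000000000000000000000) := T_6 (nat_lit 156) (nat_lit 173) (nat_lit 5) (nat_lit 4) (nat_lit 6) L49447 (by decide +kernel)
theorem L49449 : W_6 (nat_lit 2) (nat_lit 0x200017401300098001e80000000000000000000000000) (nat_lit 0x0) (nat_lit 0x6002000000000000000000000000000) := D_6 (nat_lit 122) (nat_lit 121) (nat_lit 109) (nat_lit 2) (nat_lit 2) (nat_lit 7) (nat_lit 1) (nat_lit 7) (nat_lit 6) (by decide +kernel)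
theorem L49450 : W_6 (nat_lit 3) (nat_lit 0x200017401300098000e80000000000000000000000000) (nat_lit 0x0) (nat_lit 0x6003000080000000000000000000000) := T_6 (nat_lit 108) (nat_lit 91) (nat_lit 6) (nat_lit 5) (nat_lit 9) L49449 (by decide +kernel)
theorem L49451 : W_6 (nat_lit 4) (nat_lit 0x200017401300098000680000000000000000000000000) (nat_lit 0x0) (nat_lit 0x60038000c0000000000000000000000) := T_6 (nat_lit 107) (nat_lit 90) (nat_lit 6) (nat_lit 4) (nat_lit 9) L49450 (by decide +kernel)
theorem L49452 : W_6 (nat_lit 5) (nat_lit 0x200017001300098000680000000000000000000000000) (nat_lit 0x0) (nat_lit 0xc000000060038000c0000000000000000000000) := T_6 (nat_lit 154) (nat_lit 155) (nat_lit 2) (nat_lit 1) (nat_lit 9) L49451 (by decide +kernel)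
theorem L49453 : W_6 (nat_lit 6) (nat_lit 0x200016001300098000680000000000000000000000000) (nat_lit 0x0) (nat_lit 0x20001c000000060038000c0000000000000000000000) := T_6 (nat_lit 156) (nat_lit 173) (nat_lit 5) (nat_lit 4) (nat_lit 6) L49452 (by decide +kernel)
theorem L49454 : W_6 (nat_lit 7) (nat_lit 0x200012001300098000680000000000000000000000000) (nat_lit 0x0) (nat_lit 0xa0005c000000060038000c0000000000000000000000) := T_6 (nat_lit 158) (nat_lit 175) (nat_lit 7) (nat_lit 4) (nat_lit 6) L49453 (by decide +kernel)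
theorem L49455 : W_6 (nat_lit 8) (nat_lit 0x200012001300098000600000000000000000000000000) (nat_lit 0x0) (nat_lit 0xa0005c000000060039800c0000000000000000000000) := T_6 (nat_lit 103) (nat_lit 104) (nat_lit 3) (nat_lit 1) (nat_lit 6) L49454 (by decide +kernel)
theorem L49456 : W_6 (nat_lit 9) (nat_lit 0x200012001300098000400000000000000000000000000) (nat_lit 0x0) (nat_lit 0xa0005c00000006003b800d0000000000000000000000) := T_6 (nat_lit 105) (nat_lit 88) (nat_lit 4) (nat_lit 4) (nat_lit 9) L49455 (by decide +kernel)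
theorem L49457 : W_6 (nat_lit 2) (nat_lit 0x200016001300098001c00000000000000000000000000) (nat_lit 0x0) (nat_lit 0x44002000000000000000000000000000) := D_6 (nat_lit 109) (nat_lit 126) (nat_lit 122) (nat_lit 3) (nat_lit 4) (nat_lit 6) (nat_lit 1) (nat_lit 7) (nat_lit 6) (by decide +kernel)
theorem L49458 : W_6 (nat_lit 3) (nat_lit 0x200016001300098000c00000000000000000000000000) (nat_lit 0x0) (nat_lit 0x44003000080000000000000000000000) := T_6 (nat_lit 108) (nat_lit 91) (nat_lit 6) (nat_lit 5) (nat_lit 9) L49457 (by decide +kernel)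
theorem L49459 : W_6 (nat_lit 4) (nat_lit 0x200012001300098000c00000000000000000000000000) (nat_lit 0x0) (nat_lit 0x80004000000044003000080000000000000000000000) := T_6 (nat_lit 158) (nat_lit 175) (nat_lit 7) (nat_lit 4) (nat_lit 6) L49458 (by decide +kernel)
theorem L49460 : W_6 (nat_lit 5) (nat_lit 0x200012001300098000400000000000000000000000000) (nat_lit 0x0) (nat_lit 0x800040000000440038000c0000000000000000000000) := T_6 (nat_lit 107) (nat_lit 90) (nat_lit 6) (nat_lit 4) (nat_lit 9) L49459 (by decide +kernel)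
theorem L49461 : W_6 (nat_lit 2) (nat_lit 0x28001340130009a000f00008000000000000000000000) (nat_lit 0x0) (nat_lit 0xe0000000000000000000000000000000000) := D_6 (nat_lit 138) (nat_lit 137) (nat_lit 139) (nat_lit 5) (nat_lit 2) (nat_lit 5) (nat_lit 7) (nat_lit 2) (nat_lit 5) (by decide +kernel)
theorem L49462 : W_6 (nat_lit 3) (nat_lit 0x280013401300098000f00008000000000000000000000) (nat_lit 0x0) (nat_lit 0xe0003000000000000000000000000000000) := T_6 (nat_lit 121) (nat_lit 120) (nat_lit 1) (nat_lit 5) (nat_lit 6) L49461 (by decide +kernel)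
theorem L49463 : W_6 (nat_lit 4) (nat_lit 0x280013401300098000f00000000000000000000000000) (nat_lit 0x0) (nat_lit 0xe000300000000c000000000000000000000) := T_6 (nat_lit 87) (nat_lit 86) (nat_lit 0) (nat_lit 5) (nat_lit 6) L49462 (by decide +kernel)
theorem L49464 : W_6 (nat_lit 5) (nat_lit 0x280013401300098000e00000000000000000000000000) (nat_lit 0x0) (nat_lit 0xe000300018000c000000000000000000000) := T_6 (nat_lit 104) (nat_lit 103) (nat_lit 3) (nat_lit 1) (nat_lit 6) L49463 (by decide +kernel)
theorem L49465 : W_6 (nat_lit 6) (nat_lit 0x280013401300098000c00000000000000000000000000) (nat_lit 0x0) (nat_lit 0xe000300038001c000000000000000000000) := T_6 (nat_lit 105) (nat_lit 88) (nat_lit 4) (nat_lit 4) (nat_lit 9) L49464 (by decide +kernel)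
theorem L49466 : W_6 (nat_lit 7) (nat_lit 0x200013401300098000c00000000000000000000000000) (nat_lit 0x0) (nat_lit 0x800040000e000300038001c000000000000000000000) := T_6 (nat_lit 175) (nat_lit 158) (nat_lit 7) (nat_lit 4) (nat_lit 6) L49465 (by decide +kernel)
theorem L49467 : W_6 (nat_lit 8) (nat_lit 0x200013401300098000400000000000000000000000000) (nat_lit 0x0) (nat_lit 0x800040000e0003000b8005c000000000000000000000) := T_6 (nat_lit 107) (nat_lit 90) (nat_lit 6) (nat_lit 4) (nat_lit 9) L49466 (by decide +kernel)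
theorem L49468 : W_6 (nat_lit 9) (nat_lit 0x200013001300098000400000000000000000000000000) (nat_lit 0x0) (nat_lit 0x80004c000e0003000b8005c000000000000000000000) := T_6 (nat_lit 154) (nat_lit 155) (nat_lit 2) (nat_lit 1) (nat_lit 9) L49467 (by decide +kernel)
theorem L49469 : W_6 (nat_lit 10) (nat_lit 0x200012001300098000400000000000000000000000000) (nat_lit 0x0) (nat_lit 0xa0005c000e0003000b8005c000000000000000000000) := T_6 (nat_lit 156) (nat_lit 173) (nat_lit 5) (nat_lit 4) (nat_lit 6) L49468 (by decide +kernel)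
theorem L49470 : W_6 (nat_lit 11) (nat_lit 0x200010001300098000400000000000000000000000000) (nat_lit 0x0) (nat_lit 0xb8007c000e0047003b800dc000000000000000000000) := Q_6 (nat_lit 157) (C_6 L49443 (C_6 L49448 (C_6 L49456 (C_6 L49460 (C_6 L49469 N_6))))) (by decide +kernel)
theorem L49471 : W_6 (nat_lit 2) (nat_lit 0x2000100013000da001e00080000000000000000000000) (nat_lit 0x0) (nat_lit 0x1000180000000000000000000000000) := D_6 (nat_lit 104) (nat_lit 103) (nat_lit 120) (nat_lit 3) (nat_lit 1) (nat_lit 6) (nat_lit 1) (nat_lit 5) (nat_lit 6) (by decide +kernel)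
theorem L49472 : W_6 (nat_lit 3) (nat_lit 0x2000100013000da001c00080000000000000000000000) (nat_lit 0x0) (nat_lit 0x1000380100000000000000000000000) := T_6 (nat_lit 105) (nat_lit 92) (nat_lit 2) (nat_lit 3) (nat_lit 6) L49471 (by decide +kernel)
theorem L49473 : W_6 (nat_lit 4) (nat_lit 0x2000100013000d8001c00080000000000000000000000) (nat_lit 0x0) (nat_lit 0x7000380100000000000000000000000) := T_6 (nat_lit 121) (nat_lit 122) (nat_lit 2) (nat_lit 2) (nat_lit 7) L49472 (by decide +kernel)
theorem L49474 : W_6 (nat_lit 5) (nat_lit 0x2000100013000d8001c00000000000000000000000000) (nat_lit 0x0) (nat_lit 0x4000000007000380180000000000000000000000) := T_6 (nat_lit 91) (nat_lit 158) (nat_lit 6) (nat_lit 5) (nat_lit 9) L49473 (by decide +kernel)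
theorem L49475 : W_6 (nat_lit 6) (nat_lit 0x2000100013000d8000c00000000000000000000000000) (nat_lit 0x0) (nat_lit 0x4000000007003380180000000000000000000000) := T_6 (nat_lit 108) (nat_lit 109) (nat_lit 3) (nat_lit 4) (nat_lit 6) L49474 (by decide +kernel)
theorem L49476 : W_6 (nat_lit 7) (nat_lit 0x200010001300098000c00000000000000000000000000) (nat_lit 0x0) (nat_lit 0x4000000067003380180000000000000000000000) := T_6 (nat_lit 126) (nat_lit 125) (nat_lit 1) (nat_lit 8) (nat_lit 7) L49475 (by decide +kernel)
theorem L49477 : W_6 (nat_lit 8) (nat_lit 0x200010001300098000400000000000000000000000000) (nat_lit 0x0) (nat_lit 0x6000000067003b801c0002000000000000000000) := Q_6 (nat_lit 107) (C_6 L49476 (C_6 L45047 N_6)) (by decide +kernel)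
theorem L49478 : W_6 (nat_lit 2) (nat_lit 0x2000100013400b8000e00010000000000000000000000) (nat_lit 0x0) (nat_lit 0x4000000000000800040000000000000) := D_6 (nat_lit 71) (nat_lit 122) (nat_lit 54) (nat_lit 7) (nat_lit 3) (nat_lit 4) (nat_lit 7) (nat_lit 3) (nat_lit 3) (by decide +kernel)
theorem L49479 : W_6 (nat_lit 3) (nat_lit 0x2000100013400b8000e00000000000000000000000000) (nat_lit 0x0) (nat_lit 0x2000000004000000010000800040000000000000) := T_6 (nat_lit 88) (nat_lit 157) (nat_lit 4) (nat_lit 4) (nat_lit 9) L49478 (by decide +kernel)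
theorem L49480 : W_6 (nat_lit 4) (nat_lit 0x2000100013400b8000c00000000000000000000000000) (nat_lit 0x0) (nat_lit 0x2000000004000300010000800040000000000000) := T_6 (nat_lit 105) (nat_lit 104) (nat_lit 3) (nat_lit 2) (nat_lit 6) L49479 (by decide +kernel)
theorem L49481 : W_6 (nat_lit 5) (nat_lit 0x2000100013000b8000c00000000000000000000000000) (nat_lit 0x0) (nat_lit 0x20000c0004000300010000800040000000000000) := T_6 (nat_lit 138) (nat_lit 139) (nat_lit 2) (nat_lit 2) (nat_lit 8) L49480 (by decide +kernel)
theorem L49482 : W_6 (nat_lit 6) (nat_lit 0x200010001300098000c00000000000000000000000000) (nat_lit 0x0) (nat_lit 0x20000c0064000300010000800040000000000000) := T_6 (nat_lit 125) (nat_lit 126) (nat_lit 1) (nat_lit 8) (nat_lit 7) L49481 (by decide +kernel)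
theorem L49483 : W_6 (nat_lit 8) (nat_lit 0x200010001300098000400000000000000000000000000) (nat_lit 0x0) (nat_lit 0x20000c0066003b001d0006800040000000000000) := Q_6 (nat_lit 107) (C_6 L49482 (C_6 L45047 (C_6 L42689 N_6))) (by decide +kernel)
theorem L49484 : W_6 (nat_lit 8) (nat_lit 0x200010001300098000400000000000000000000000000) (nat_lit 0x0) (nat_lit 0x800060000c0064001b003d0006800040000000000000) := Q_6 (nat_lit 107) (C_6 L49482 (C_6 L45047 (C_6 L42771 N_6))) (by decide +kernel)
theorem L49485 : W_6 (nat_lit 5) (nat_lit 0x200017801300098000600000000000000000000000000) (nat_lit 0x0) (nat_lit 0x180000000e0006000180000000000000000000000000) := T_6 (nat_lit 103) (nat_lit 104) (nat_lit 3) (nat_lit 1) (nat_lit 6) L49438 (by decide +kernel)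
theorem L49486 : W_6 (nat_lit 6) (nat_lit 0x200013801300098000600000000000000000000000000) (nat_lit 0x0) (nat_lit 0x980040000e0006000180000000000000000000000000) := T_6 (nat_lit 158) (nat_lit 175) (nat_lit 7) (nat_lit 4) (nat_lit 6) L49485 (by decide +kernel)
theorem L49487 : W_6 (nat_lit 7) (nat_lit 0x200013001300098000600000000000000000000000000) (nat_lit 0x0) (nat_lit 0x98004c000e0006000180000000000000000000000000) := T_6 (nat_lit 155) (nat_lit 154) (nat_lit 2) (nat_lit 1) (nat_lit 9) L49486 (by decide +kernel)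
theorem L49488 : W_6 (nat_lit 8) (nat_lit 0x200012001300098000600000000000000000000000000) (nat_lit 0x0) (nat_lit 0xb8005c000e0006000180000000000000000000000000) := T_6 (nat_lit 156) (nat_lit 173) (nat_lit 5) (nat_lit 4) (nat_lit 6) L49487 (by decide +kernel)
theorem L49489 : W_6 (nat_lit 9) (nat_lit 0x200010001300098000600000000000000000000000000) (nat_lit 0x0) (nat_lit 0xb8007c000e0006000180010000000000000000000000) := T_6 (nat_lit 157) (nat_lit 88) (nat_lit 4) (nat_lit 4) (nat_lit 9) L49488 (by decide +kernel)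
theorem L49490 : W_6 (nat_lit 2) (nat_lit 0x2000100013000d8000680010000000000000000000000) (nat_lit 0x0) (nat_lit 0x4000000000000800040000000000000) := D_6 (nat_lit 71) (nat_lit 122) (nat_lit 54) (nat_lit 7) (nat_lit 3) (nat_lit 4) (nat_lit 7) (nat_lit 3) (nat_lit 3) (by decide +kernel)
theorem L49491 : W_6 (nat_lit 3) (nat_lit 0x2000100013000d8000680000000000000000000000000) (nat_lit 0x0) (nat_lit 0x2000000004000000010000800040000000000000) := T_6 (nat_lit 88) (nat_lit 157) (nat_lit 4) (nat_lit 4) (nat_lit 9) L49490 (by decide +kernel)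
theorem L49492 : W_6 (nat_lit 4) (nat_lit 0x200010001300098000680000000000000000000000000) (nat_lit 0x0) (nat_lit 0x2000000064000000010000800040000000000000) := T_6 (nat_lit 126) (nat_lit 125) (nat_lit 1) (nat_lit 8) (nat_lit 7) L49491 (by decide +kernel)
theorem L49493 : W_6 (nat_lit 5) (nat_lit 0x200010001300098000600000000000000000000000000) (nat_lit 0x0) (nat_lit 0x2000000064000180010000800040000000000000) := T_6 (nat_lit 103) (nat_lit 104) (nat_lit 3) (nat_lit 1) (nat_lit 6) L49492 (by decide +kernel)
theorem L49494 : W_6 (nat_lit 2) (nat_lit 0x280010001300098000700000000000000000000000000) (nat_lit 0x0) (nat_lit 0x64000000000000000000000000000000) := D_6 (nat_lit 125) (nat_lit 126) (nat_lit 122) (nat_lit 1) (nat_lit 8) (nat_lit 7) (nat_lit 0) (nat_lit 6) (nat_lit 7) (by decide +kernel)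
theorem L49495 : W_6 (nat_lit 3) (nat_lit 0x280010001300098000600000000000000000000000000) (nat_lit 0x0) (nat_lit 0x64000180000000000000000000000000) := T_6 (nat_lit 104) (nat_lit 103) (nat_lit 3) (nat_lit 1) (nat_lit 6) L49494 (by decide +kernel)
theorem L49496 : W_6 (nat_lit 4) (nat_lit 0x200010001300098000600000000000000000000000000) (nat_lit 0x0) (nat_lit 0x80004000000064000180000000000000000000000000) := T_6 (nat_lit 175) (nat_lit 158) (nat_lit 4) (nat_lit 5) (nat_lit 10) L49495 (by decide +kernel)
theorem L49497 : W_6 (nat_lit 2) (nat_lit 0x2800100013400b8000700010000800000000000000000) (nat_lit 0x0) (nat_lit 0x800000002000000008000000000000000000000) := D_6 (nat_lit 121) (nat_lit 155) (nat_lit 87) (nat_lit 6) (nat_lit 2) (nat_lit 9) (nat_lit 6) (nat_lit 2) (nat_lit 8) (by decide +kernel)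
theorem L49498 : W_6 (nat_lit 3) (nat_lit 0x2800100013400b8000700010000000000000000000000) (nat_lit 0x0) (nat_lit 0x800000002000000008000800040000000000000) := T_6 (nat_lit 71) (nat_lit 54) (nat_lit 7) (nat_lit 3) (nat_lit 3) L49497 (by decide +kernel)
theorem L49499 : W_6 (nat_lit 4) (nat_lit 0x2800100013400b8000700000000000000000000000000) (nat_lit 0x0) (nat_lit 0x2800000002000000018000800040000000000000) := T_6 (nat_lit 88) (nat_lit 157) (nat_lit 4) (nat_lit 4) (nat_lit 9) L49498 (by decide +kernel)
theorem L49500 : W_6 (nat_lit 5) (nat_lit 0x2800100013400b8000600000000000000000000000000) (nat_lit 0x0) (nat_lit 0x2800000002000180018000800040000000000000) := T_6 (nat_lit 104) (nat_lit 103) (nat_lit 3) (nat_lit 1) (nat_lit 6) L49499 (by decide +kernel)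
theorem L49501 : W_6 (nat_lit 6) (nat_lit 0x2800100013000b8000600000000000000000000000000) (nat_lit 0x0) (nat_lit 0x28000c0002000180018000800040000000000000) := T_6 (nat_lit 138) (nat_lit 139) (nat_lit 2) (nat_lit 2) (nat_lit 8) L49500 (by decide +kernel)
theorem L49502 : W_6 (nat_lit 7) (nat_lit 0x2000100013000b8000600000000000000000000000000) (nat_lit 0x0) (nat_lit 0x800068000c0002000180018000800040000000000000) := T_6 (nat_lit 175) (nat_lit 158) (nat_lit 4) (nat_lit 5) (nat_lit 10) L49501 (by decide +kernel)
theorem L49503 : W_6 (nat_lit 8) (nat_lit 0x200010001300098000600000000000000000000000000) (nat_lit 0x0) (nat_lit 0x800068000c0062000180018000800040000000000000) := T_6 (nat_lit 125) (nat_lit 126) (nat_lit 1) (nat_lit 8) (nat_lit 7) L49502 (by decide +kernel)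
theorem L49504 : W_6 (nat_lit 2) (nat_lit 0x200017801340098000600000000000000000000000000) (nat_lit 0x0) (nat_lit 0x80060000000000000000000000000000000) := D_6 (nat_lit 125) (nat_lit 126) (nat_lit 139) (nat_lit 1) (nat_lit 8) (nat_lit 7) (nat_lit 2) (nat_lit 2) (nat_lit 8) (by decide +kernel)
theorem L49505 : W_6 (nat_lit 3) (nat_lit 0x200017801300098000600000000000000000000000000) (nat_lit 0x0) (nat_lit 0xe0060000000000000000000000000000000) := T_6 (nat_lit 138) (nat_lit 137) (nat_lit 0) (nat_lit 5) (nat_lit 9) L49504 (by decide +kernel)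
theorem L49506 : W_6 (nat_lit 4) (nat_lit 0x200013801300098000600000000000000000000000000) (nat_lit 0x0) (nat_lit 0x800040000e0060000000000000000000000000000000) := T_6 (nat_lit 158) (nat_lit 175) (nat_lit 7) (nat_lit 4) (nat_lit 6) L49505 (by decide +kernel)
theorem L49507 : W_6 (nat_lit 5) (nat_lit 0x200013001300098000600000000000000000000000000) (nat_lit 0x0) (nat_lit 0x80004c000e0060000000000000000000000000000000) := T_6 (nat_lit 155) (nat_lit 154) (nat_lit 2) (nat_lit 1) (nat_lit 9) L49506 (by decide +kernel)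
theorem L49508 : W_6 (nat_lit 6) (nat_lit 0x200012001300098000600000000000000000000000000) (nat_lit 0x0) (nat_lit 0xa0005c000e0060000000000000000000000000000000) := T_6 (nat_lit 156) (nat_lit 173) (nat_lit 5) (nat_lit 4) (nat_lit 6) L49507 (by decide +kernel)
theorem L49509 : W_6 (nat_lit 7) (nat_lit 0x200010001300098000600000000000000000000000000) (nat_lit 0x0) (nat_lit 0xa0007c000e0060000000010000000000000000000000) := T_6 (nat_lit 157) (nat_lit 88) (nat_lit 4) (nat_lit 4) (nat_lit 9) L49508 (by decide +kernel)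
theorem L49510 : W_6 (nat_lit 10) (nat_lit 0x200010001300098000400000000000000000000000000) (nat_lit 0x0) (nat_lit 0xb8007c000e0066000380018000800040000000000000) := Q_6 (nat_lit 105) (C_6 L49489 (C_6 L49493 (C_6 L49496 (C_6 L49503 (C_6 L49509 N_6))))) (by decide +kernel)
theorem L49511 : W_6 (nat_lit 2) (nat_lit 0x2800100013400b8001e00010000000000000000000000) (nat_lit 0x0) (nat_lit 0x180004000000000000000000) := D_6 (nat_lit 91) (nat_lit 92) (nat_lit 74) (nat_lit 2) (nat_lit 3) (nat_lit 6) (nat_lit 5) (nat_lit 6) (nat_lit 4) (by decide +kernel)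
theorem L49512 : W_6 (nat_lit 3) (nat_lit 0x2800100013400b8000e00010000000000000000000000) (nat_lit 0x0) (nat_lit 0x1000188004000000000000000000) := T_6 (nat_lit 108) (nat_lit 87) (nat_lit 0) (nat_lit 6) (nat_lit 6) L49511 (by decide +kernel)
theorem L49513 : W_6 (nat_lit 4) (nat_lit 0x2800100013400b8000e00000000000000000000000000) (nat_lit 0x0) (nat_lit 0x2000000000001000198004000000000000000000) := T_6 (nat_lit 88) (nat_lit 157) (nat_lit 4) (nat_lit 4) (nat_lit 9) L49512 (by decide +kernel)
theorem L49514 : W_6 (nat_lit 5) (nat_lit 0x2800100013400b8000c00000000000000000000000000) (nat_lit 0x0) (nat_lit 0x2000000000001300198004000000000000000000) := T_6 (nat_lit 105) (nat_lit 104) (nat_lit 3) (nat_lit 2) (nat_lit 6) L49513 (by decide +kernel)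
theorem L49515 : W_6 (nat_lit 6) (nat_lit 0x2800100013000b8000c00000000000000000000000000) (nat_lit 0x0) (nat_lit 0x20000c0000001300198004000000000000000000) := T_6 (nat_lit 138) (nat_lit 139) (nat_lit 2) (nat_lit 2) (nat_lit 8) L49514 (by decide +kernel)
theorem L49516 : W_6 (nat_lit 7) (nat_lit 0x280010001300098000c00000000000000000000000000) (nat_lit 0x0) (nat_lit 0x20000c0060001300198004000000000000000000) := T_6 (nat_lit 125) (nat_lit 126) (nat_lit 1) (nat_lit 8) (nat_lit 7) L49515 (by decide +kernel)
theorem L49517 : W_6 (nat_lit 8) (nat_lit 0x200010001300098000c00000000000000000000000000) (nat_lit 0x0) (nat_lit 0x800060000c0060001300198004000000000000000000) := T_6 (nat_lit 175) (nat_lit 158) (nat_lit 4) (nat_lit 5) (nat_lit 10) L49516 (by decide +kernel)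
theorem L49518 : W_6 (nat_lit 9) (nat_lit 0x200010001300098000400000000000000000000000000) (nat_lit 0x0) (nat_lit 0x800060000c0060001b003d8006000000000000000000) := Q_6 (nat_lit 107) (C_6 L45047 (C_6 L49517 (C_6 L42771 N_6))) (by decide +kernel)
theorem L49519 : W_6 (nat_lit 5) (nat_lit 0x200010001300098000400000000000000000000000000) (nat_lit 0x0) (nat_lit 0x800060000000600038000c0002000000000000000000) := Q_6 (nat_lit 107) (C_6 L45047 (C_6 L42683 N_6)) (by decide +kernel)
theorem L49520 : W_6 (nat_lit 2) (nat_lit 0x280012001300098000e00000000000000000000000000) (nat_lit 0x0) (nat_lit 0x20000180000000000000000000000000) := D_6 (nat_lit 104) (nat_lit 125) (nat_lit 103) (nat_lit 3) (nat_lit 2) (nat_lit 6) (nat_lit 3) (nat_lit 1) (nat_lit 6) (by decide +kernel)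
theorem L49521 : W_6 (nat_lit 3) (nat_lit 0x280012001300098000c00000000000000000000000000) (nat_lit 0x0) (nat_lit 0x20000380010000000000000000000000) := T_6 (nat_lit 105) (nat_lit 88) (nat_lit 4) (nat_lit 4) (nat_lit 9) L49520 (by decide +kernel)
theorem L49522 : W_6 (nat_lit 4) (nat_lit 0x200012001300098000c00000000000000000000000000) (nat_lit 0x0) (nat_lit 0x80004000000020000380010000000000000000000000) := T_6 (nat_lit 175) (nat_lit 158) (nat_lit 7) (nat_lit 4) (nat_lit 6) L49521 (by decide +kernel)
theorem L49523 : W_6 (nat_lit 5) (nat_lit 0x200012001300098000400000000000000000000000000) (nat_lit 0x0) (nat_lit 0x80004000000020000b80050000000000000000000000) := T_6 (nat_lit 107) (nat_lit 90) (nat_lit 6) (nat_lit 4) (nat_lit 9) L49522 (by decide +kernel)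
theorem L49524 : W_6 (nat_lit 2) (nat_lit 0x200017401300098001c00000000000000000000000000) (nat_lit 0x0) (nat_lit 0x6002000000000000000000000000000) := D_6 (nat_lit 122) (nat_lit 121) (nat_lit 109) (nat_lit 2) (nat_lit 2) (nat_lit 7) (nat_lit 1) (nat_lit 7) (nat_lit 6) (by decide +kernel)
theorem L49525 : W_6 (nat_lit 3) (nat_lit 0x200017401300098000c00000000000000000000000000) (nat_lit 0x0) (nat_lit 0x6003000080000000000000000000000) := T_6 (nat_lit 108) (nat_lit 91) (nat_lit 6) (nat_lit 5) (nat_lit 9) L49524 (by decide +kernel)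
theorem L49526 : W_6 (nat_lit 4) (nat_lit 0x200013401300098000c00000000000000000000000000) (nat_lit 0x0) (nat_lit 0x80004000000006003000080000000000000000000000) := T_6 (nat_lit 158) (nat_lit 175) (nat_lit 7) (nat_lit 4) (nat_lit 6) L49525 (by decide +kernel)
theorem L49527 : W_6 (nat_lit 5) (nat_lit 0x200013401300098000400000000000000000000000000) (nat_lit 0x0) (nat_lit 0x800040000000060038000c0000000000000000000000) := T_6 (nat_lit 107) (nat_lit 90) (nat_lit 6) (nat_lit 4) (nat_lit 9) L49526 (by decide +kernel)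
theorem L49528 : W_6 (nat_lit 6) (nat_lit 0x200013001300098000400000000000000000000000000) (nat_lit 0x0) (nat_lit 0x80004c000000060038000c0000000000000000000000) := T_6 (nat_lit 154) (nat_lit 155) (nat_lit 2) (nat_lit 1) (nat_lit 9) L49527 (by decide +kernel)
theorem L49529 : W_6 (nat_lit 7) (nat_lit 0x200012001300098000400000000000000000000000000) (nat_lit 0x0) (nat_lit 0xa0005c000000060038000c0000000000000000000000) := T_6 (nat_lit 156) (nat_lit 173) (nat_lit 5) (nat_lit 4) (nat_lit 6) L49528 (by decide +kernel)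
theorem L49530 : W_6 (nat_lit 11) (nat_lit 0x200010001300098000400000000000000000000000000) (nat_lit 0x0) (nat_lit 0xb8007c000e0027003b800dc000000000000000000000) := Q_6 (nat_lit 157) (C_6 L49469 (C_6 L49443 (C_6 L49448 (C_6 L49456 (C_6 L49523 (C_6 L49529 N_6)))))) (by decide +kernel)
theorem L49531 : W_6 (nat_lit 12) (nat_lit 0x200010001300088000400000000000000000000000000) (nat_lit 0x0) (nat_lit 0xb8027c008e0377003b803dc00e800040000000000000) := Q_6 (nat_lit 124) (C_6 L49111 (C_6 L49470 (C_6 L49477 (C_6 L49483 (C_6 L49484 (C_6 L49510 (C_6 L49518 (C_6 L49519 (C_6 L49530 N_6))))))))) (by decide +kernel)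
theorem L49532 : W_6 (nat_lit 13) (nat_lit 0x200010001300088000000000000000000000000000000) (nat_lit 0x0) (nat_lit 0xb8027c008e0377003f803fc00f800040000000000000) := Q_6 (nat_lit 106) (C_6 L49145 (C_6 L49144 (C_6 L49146 (C_6 L49531 N_6)))) (by decide +kernel)
theorem L49533 : W_6 (nat_lit 4) (nat_lit 0x200013401300098000400070000000000000000000000) (nat_lit 0x0) (nat_lit 0x18001c0000000000060000000000000000000000000000000) := T_6 (nat_lit 126) (nat_lit 125) (nat_lit 1) (nat_lit 8) (nat_lit 7) L46114 (by decide +kernel)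
theorem L49534 : W_6 (nat_lit 5) (nat_lit 0x200013401300088000400070000000000000000000000) (nat_lit 0x0) (nat_lit 0x18001c0000000000070000000000001000000000000000000) := T_6 (nat_lit 124) (nat_lit 72) (nat_lit 7) (nat_lit 4) (nat_lit 4) L49533 (by decide +kernel)
theorem L49535 : W_6 (nat_lit 6) (nat_lit 0x200013001300088000400070000000000000000000000) (nat_lit 0x0) (nat_lit 0x18001c0000c00000070000000000001000000000000000000) := T_6 (nat_lit 154) (nat_lit 155) (nat_lit 2) (nat_lit 1) (nat_lit 9) L49534 (by decide +kernel)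
theorem L49536 : W_6 (nat_lit 7) (nat_lit 0x200012001300088000400070000000000000000000000) (nat_lit 0x0) (nat_lit 0x18001e0001c00000070000000000001000000000000000000) := T_6 (nat_lit 156) (nat_lit 173) (nat_lit 5) (nat_lit 4) (nat_lit 6) L49535 (by decide +kernel)
theorem L49537 : W_6 (nat_lit 8) (nat_lit 0x200010001300088000400070000000000000000000000) (nat_lit 0x0) (nat_lit 0x18001e0003c00000070000800000001000000000000000000) := T_6 (nat_lit 157) (nat_lit 107) (nat_lit 6) (nat_lit 4) (nat_lit 9) L49536 (by decide +kernel)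
theorem L49538 : W_6 (nat_lit 9) (nat_lit 0x200010001300088000400030000000000000000000000) (nat_lit 0x0) (nat_lit 0x18001e0003c00000070000800040003000000000000000000) := T_6 (nat_lit 90) (nat_lit 73) (nat_lit 6) (nat_lit 4) (nat_lit 8) L49537 (by decide +kernel)
theorem L49539 : W_6 (nat_lit 10) (nat_lit 0x200010001300088000400020000000000000000000000) (nat_lit 0x0) (nat_lit 0x18001e0003c00000070000800050003800000000000000000) := T_6 (nat_lit 88) (nat_lit 71) (nat_lit 4) (nat_lit 4) (nat_lit 8) L49538 (by decide +kernel)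
theorem L49540 : W_6 (nat_lit 11) (nat_lit 0x200010001300088000400000000000000000000000000) (nat_lit 0x0) (nat_lit 0x18001e0007c00000070000800070003800000000000000000) := T_6 (nat_lit 89) (nat_lit 158) (nat_lit 7) (nat_lit 4) (nat_lit 5) L49539 (by decide +kernel)
theorem L49541 : W_6 (nat_lit 10) (nat_lit 0x200010001300088000400000000000000000000000000) (nat_lit 0x0) (nat_lit 0x14001e0003c00000014000a000700038000c0002000000000) := Q_6 (nat_lit 157) (C_6 L49241 (C_6 L49137 (C_6 L41880 (C_6 L47953 N_6)))) (by decide +kernel)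
theorem L49542 : W_6 (nat_lit 2) (nat_lit 0x200010001300088000400030002000000000000000000) (nat_lit 0x0) (nat_lit 0x10000000000001000100000000000000) := D_6 (nat_lit 72) (nat_lit 124) (nat_lit 56) (nat_lit 7) (nat_lit 4) (nat_lit 4) (nat_lit 6) (nat_lit 4) (nat_lit 7) (by decide +kernel)
theorem L49543 : W_6 (nat_lit 3) (nat_lit 0x200010001300088000400030000000000000000000000) (nat_lit 0x0) (nat_lit 0x10000000040003000100000000000000) := T_6 (nat_lit 73) (nat_lit 90) (nat_lit 6) (nat_lit 4) (nat_lit 8) L49542 (by decide +kernel)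
theorem L49544 : W_6 (nat_lit 4) (nat_lit 0x200010001300088000400020000000000000000000000) (nat_lit 0x0) (nat_lit 0x10000000050003800100000000000000) := T_6 (nat_lit 88) (nat_lit 71) (nat_lit 4) (nat_lit 4) (nat_lit 8) L49543 (by decide +kernel)
theorem L49545 : W_6 (nat_lit 5) (nat_lit 0x200010001300088000400000000000000000000000000) (nat_lit 0x0) (nat_lit 0x4000000010000000070003800100000000000000) := T_6 (nat_lit 89) (nat_lit 158) (nat_lit 7) (nat_lit 4) (nat_lit 5) L49544 (by decide +kernel)
theorem L49546 : W_6 (nat_lit 2) (nat_lit 0x200013401300098000400030000000000000000000000) (nat_lit 0x0) (nat_lit 0x800040000000000000000800000000000000000000000000) := D_6 (nat_lit 174) (nat_lit 191) (nat_lit 107) (nat_lit 6) (nat_lit 4) (nat_lit 11) (nat_lit 6) (nat_lit 4) (nat_lit 10) (by decide +kernel)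
theorem L49547 : W_6 (nat_lit 3) (nat_lit 0x200013401300088000400030000000000000000000000) (nat_lit 0x0) (nat_lit 0x800040000000000010000800000001000000000000000000) := T_6 (nat_lit 124) (nat_lit 72) (nat_lit 7) (nat_lit 4) (nat_lit 4) L49546 (by decide +kernel)
theorem L49548 : W_6 (nat_lit 4) (nat_lit 0x200013001300088000400030000000000000000000000) (nat_lit 0x0) (nat_lit 0x800040000c00000010000800000001000000000000000000) := T_6 (nat_lit 154) (nat_lit 155) (nat_lit 2) (nat_lit 1) (nat_lit 9) L49547 (by decide +kernel)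
theorem L49549 : W_6 (nat_lit 5) (nat_lit 0x200012001300088000400030000000000000000000000) (nat_lit 0x0) (nat_lit 0x800060001c00000010000800000001000000000000000000) := T_6 (nat_lit 156) (nat_lit 173) (nat_lit 5) (nat_lit 4) (nat_lit 6) L49548 (by decide +kernel)
theorem L49550 : W_6 (nat_lit 6) (nat_lit 0x200010001300088000400030000000000000000000000) (nat_lit 0x0) (nat_lit 0x800060003c00000010000a00000001000000000000000000) := T_6 (nat_lit 157) (nat_lit 105) (nat_lit 4) (nat_lit 4) (nat_lit 9) L49549 (by decide +kernel)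
theorem L49551 : W_6 (nat_lit 7) (nat_lit 0x200010001300088000400020000000000000000000000) (nat_lit 0x0) (nat_lit 0x800060003c00000010000a00010001800000000000000000) := T_6 (nat_lit 88) (nat_lit 71) (nat_lit 4) (nat_lit 4) (nat_lit 8) L49550 (by decide +kernel)
theorem L49552 : W_6 (nat_lit 8) (nat_lit 0x200010001300088000400000000000000000000000000) (nat_lit 0x0) (nat_lit 0x800060007c00000010000a00030001800000000000000000) := T_6 (nat_lit 89) (nat_lit 158) (nat_lit 7) (nat_lit 4) (nat_lit 5) L49551 (by decide +kernel)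
theorem L49553 : W_6 (nat_lit 2) (nat_lit 0x21001780134008a000e00000000000000000000000000) (nat_lit 0x0) (nat_lit 0x1000180000000000000000000000000) := D_6 (nat_lit 120) (nat_lit 103) (nat_lit 104) (nat_lit 4) (nat_lit 2) (nat_lit 10) (nat_lit 1) (nat_lit 5) (nat_lit 6) (by decide +kernel)
theorem L49554 : W_6 (nat_lit 3) (nat_lit 0x210017801340088000e00000000000000000000000000) (nat_lit 0x0) (nat_lit 0x7000180000000000000000000000000) := T_6 (nat_lit 121) (nat_lit 122) (nat_lit 6) (nat_lit 2) (nat_lit 10) L49553 (by decide +kernel)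
theorem L49555 : W_6 (nat_lit 4) (nat_lit 0x210017801340088000c00000000000000000000000000) (nat_lit 0x0) (nat_lit 0x7000380010000000000000000000000) := T_6 (nat_lit 105) (nat_lit 88) (nat_lit 4) (nat_lit 4) (nat_lit 9) L49554 (by decide +kernel)
theorem L49556 : W_6 (nat_lit 5) (nat_lit 0x200017801340088000c00000000000000000000000000) (nat_lit 0x0) (nat_lit 0x18000000000007000380010000000000000000000000) := T_6 (nat_lit 172) (nat_lit 171) (nat_lit 1) (nat_lit 5) (nat_lit 9) L49555 (by decide +kernel)
theorem L49557 : W_6 (nat_lit 6) (nat_lit 0x200017801300088000c00000000000000000000000000) (nat_lit 0x0) (nat_lit 0x18000000060007000380010000000000000000000000) := T_6 (nat_lit 138) (nat_lit 137) (nat_lit 0) (nat_lit 5) (nat_lit 9) L49556 (by decide +kernel)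
theorem L49558 : W_6 (nat_lit 7) (nat_lit 0x200013801300088000c00000000000000000000000000) (nat_lit 0x0) (nat_lit 0x98004000060007000380010000000000000000000000) := T_6 (nat_lit 158) (nat_lit 175) (nat_lit 7) (nat_lit 4) (nat_lit 6) L49557 (by decide +kernel)
theorem L49559 : W_6 (nat_lit 8) (nat_lit 0x200013801300088000400000000000000000000000000) (nat_lit 0x0) (nat_lit 0x98004000060007000b80050000000000000000000000) := T_6 (nat_lit 107) (nat_lit 90) (nat_lit 6) (nat_lit 4) (nat_lit 9) L49558 (by decide +kernel)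
theorem L49560 : W_6 (nat_lit 9) (nat_lit 0x200013001300088000400000000000000000000000000) (nat_lit 0x0) (nat_lit 0x98004c00060007000b80050000000000000000000000) := T_6 (nat_lit 155) (nat_lit 154) (nat_lit 2) (nat_lit 1) (nat_lit 9) L49559 (by decide +kernel)
theorem L49561 : W_6 (nat_lit 10) (nat_lit 0x200012001300088000400000000000000000000000000) (nat_lit 0x0) (nat_lit 0xb8005c00060007000b80050000000000000000000000) := T_6 (nat_lit 156) (nat_lit 173) (nat_lit 5) (nat_lit 4) (nat_lit 6) L49560 (by decide +kernel)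
theorem L49562 : W_6 (nat_lit 11) (nat_lit 0x200010001300088000400000000000000000000000000) (nat_lit 0x0) (nat_lit 0x14001f8007c00060017000b80050000000000000000000000) := Q_6 (nat_lit 157) (C_6 L49561 (C_6 L49137 (C_6 L41880 (C_6 L47953 N_6)))) (by decide +kernel)
theorem L49563 : W_6 (nat_lit 2) (nat_lit 0x200010001300088000400020001000000000000000000) (nat_lit 0x0) (nat_lit 0x40002000100000000000000) := D_6 (nat_lit 73) (nat_lit 90) (nat_lit 56) (nat_lit 6) (nat_lit 4) (nat_lit 8) (nat_lit 6) (nat_lit 4) (nat_lit 7) (by decide +kernel)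
theorem L49564 : W_6 (nat_lit 3) (nat_lit 0x200010001300088000400020000000000000000000000) (nat_lit 0x0) (nat_lit 0x10000000040003000100000000000000) := T_6 (nat_lit 72) (nat_lit 124) (nat_lit 7) (nat_lit 4) (nat_lit 4) L49563 (by decide +kernel)
theorem L49565 : W_6 (nat_lit 4) (nat_lit 0x200010001300088000400000000000000000000000000) (nat_lit 0x0) (nat_lit 0x4000000010000000060003000100000000000000) := T_6 (nat_lit 89) (nat_lit 158) (nat_lit 7) (nat_lit 4) (nat_lit 5) L49564 (by decide +kernel)
theorem L49566 : W_6 (nat_lit 12) (nat_lit 0x200010001300088000000000000000000000000000000) (nat_lit 0x0) (nat_lit 0x1c001f8007c00060077000f800700038001c0002000000000) := Q_6 (nat_lit 106) (C_6 L49540 (C_6 L49541 (C_6 L49146 (C_6 L49545 (C_6 L49552 (C_6 L49562 (C_6 L49565 N_6))))))) (by decide +kernel)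
theorem L49567 : W_6 (nat_lit 2) (nat_lit 0x20001200130009e000000000000000000000000000000) (nat_lit 0x0) (nat_lit 0x1800040000000000000000000000) := D_6 (nat_lit 107) (nat_lit 90) (nat_lit 108) (nat_lit 5) (nat_lit 5) (nat_lit 5) (nat_lit 2) (nat_lit 2) (nat_lit 7) (by decide +kernel)
theorem L49568 : W_6 (nat_lit 3) (nat_lit 0x20001200130009c000000000000000000000000000000) (nat_lit 0x0) (nat_lit 0x3001800040000000000000000000000) := T_6 (nat_lit 121) (nat_lit 120) (nat_lit 3) (nat_lit 1) (nat_lit 7) L49567 (by decide +kernel)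
theorem L49569 : W_6 (nat_lit 2) (nat_lit 0x2000120013000be000000000000000000000000000000) (nat_lit 0x0) (nat_lit 0xe0000000000000000000000000000000000) := D_6 (nat_lit 138) (nat_lit 139) (nat_lit 137) (nat_lit 2) (nat_lit 2) (nat_lit 8) (nat_lit 1) (nat_lit 5) (nat_lit 7) (by decide +kernel)
theorem L49570 : W_6 (nat_lit 3) (nat_lit 0x2000120013000bc000000000000000000000000000000) (nat_lit 0x0) (nat_lit 0xe0003000000000000000000000000000000) := T_6 (nat_lit 121) (nat_lit 120) (nat_lit 3) (nat_lit 1) (nat_lit 7) L49569 (by decide +kernel)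
theorem L49571 : W_6 (nat_lit 4) (nat_lit 0x20001200130009c000000000000000000000000000000) (nat_lit 0x0) (nat_lit 0xe0063000000000000000000000000000000) := T_6 (nat_lit 125) (nat_lit 126) (nat_lit 1) (nat_lit 8) (nat_lit 7) L49570 (by decide +kernel)
theorem L49572 : W_6 (nat_lit 2) (nat_lit 0x2000120013400bc001800000000000000000000000000) (nat_lit 0x0) (nat_lit 0x4000000000000000080004000000000000000000) := D_6 (nat_lit 91) (nat_lit 74) (nat_lit 158) (nat_lit 5) (nat_lit 6) (nat_lit 4) (nat_lit 6) (nat_lit 5) (nat_lit 9) (by decide +kernel)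
theorem L49573 : W_6 (nat_lit 3) (nat_lit 0x2000120013400bc000800000000000000000000000000) (nat_lit 0x0) (nat_lit 0x4000000000003000080004000000000000000000) := T_6 (nat_lit 108) (nat_lit 109) (nat_lit 2) (nat_lit 3) (nat_lit 7) L49572 (by decide +kernel)
theorem L49574 : W_6 (nat_lit 4) (nat_lit 0x2000120013000bc000800000000000000000000000000) (nat_lit 0x0) (nat_lit 0x40000c0000003000080004000000000000000000) := T_6 (nat_lit 138) (nat_lit 139) (nat_lit 2) (nat_lit 2) (nat_lit 8) L49573 (by decide +kernel)
theorem L49575 : W_6 (nat_lit 5) (nat_lit 0x2000120013000bc000000000000000000000000000000) (nat_lit 0x0) (nat_lit 0x40000c00000038000c0004000000000000000000) := T_6 (nat_lit 107) (nat_lit 90) (nat_lit 5) (nat_lit 5) (nat_lit 5) L49574 (by decide +kernel)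
theorem L49576 : W_6 (nat_lit 6) (nat_lit 0x20001200130009c000000000000000000000000000000) (nat_lit 0x0) (nat_lit 0x40000c00600038000c0004000000000000000000) := T_6 (nat_lit 125) (nat_lit 126) (nat_lit 1) (nat_lit 8) (nat_lit 7) L49575 (by decide +kernel)
theorem L49577 : W_6 (nat_lit 7) (nat_lit 0x200012001300098000000000000000000000000000000) (nat_lit 0x0) (nat_lit 0x40000e00670038000c0004000000000000000000) := Q_6 (nat_lit 122) (C_6 L49568 (C_6 L49571 (C_6 L49576 N_6))) (by decide +kernel)
theorem L49578 : W_6 (nat_lit 8) (nat_lit 0x200010001300098000000000000000000000000000000) (nat_lit 0x0) (nat_lit 0x18001c00270000e00670038000c0004000000000000000000) := Q_6 (nat_lit 157) (C_6 L49577 (C_6 L45583 (C_6 L45685 N_6))) (by decide +kernel)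
theorem L49579 : W_6 (nat_lit 2) (nat_lit 0x240010001300098000000000000000000000000000000) (nat_lit 0x0) (nat_lit 0x800000002000000000000800000000000000000000000000) := D_6 (nat_lit 157) (nat_lit 191) (nat_lit 107) (nat_lit 6) (nat_lit 4) (nat_lit 11) (nat_lit 6) (nat_lit 4) (nat_lit 10) (by decide +kernel)
theorem L49580 : W_6 (nat_lit 2) (nat_lit 0x2c0010001300098000000000000000000000000000000) (nat_lit 0x0) (nat_lit 0x1800000004000000000000000000000000000000000000000) := D_6 (nat_lit 158) (nat_lit 191) (nat_lit 192) (nat_lit 5) (nat_lit 5) (nat_lit 7) (nat_lit 4) (nat_lit 5) (nat_lit 11) (by decide +kernel)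
theorem L49581 : W_6 (nat_lit 2) (nat_lit 0x4003e0010001300098000000000000000000000000000000) (nat_lit 0x0) (nat_lit 0x1800080000000000000000000000000000000000) := D_6 (nat_lit 156) (nat_lit 155) (nat_lit 139) (nat_lit 0) (nat_lit 6) (nat_lit 10) (nat_lit 6) (nat_lit 3) (nat_lit 11) (by decide +kernel)
theorem L49582 : W_6 (nat_lit 3) (nat_lit 0x4003c0010001300098000000000000000000000000000000) (nat_lit 0x0) (nat_lit 0x200020001800080000000000000000000000000000000000) := T_6 (nat_lit 173) (nat_lit 189) (nat_lit 1) (nat_lit 6) (nat_lit 10) L49581 (by decide +kernel)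
theorem L49583 : W_6 (nat_lit 4) (nat_lit 0x3c0010001300098000000000000000000000000000000) (nat_lit 0x0) (nat_lit 0xe00020001800080000000000000000000000000000000000) := T_6 (nat_lit 190) (nat_lit 191) (nat_lit 1) (nat_lit 7) (nat_lit 10) L49582 (by decide +kernel)
theorem L49584 : W_6 (nat_lit 5) (nat_lit 0x2c0010001300098000000000000000000000000000000) (nat_lit 0x0) (nat_lit 0xe00120021800080000000000000000000000000000000000) := T_6 (nat_lit 176) (nat_lit 161) (nat_lit 2) (nat_lit 4) (nat_lit 10) L49583 (by decide +kernel)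
theorem L49585 : W_6 (nat_lit 2) (nat_lit 0x3c0010001300098000000000000000000000000000000) (nat_lit 0x0) (nat_lit 0x3000000004000000000000000000000000000000000000000) := D_6 (nat_lit 158) (nat_lit 192) (nat_lit 193) (nat_lit 4) (nat_lit 5) (nat_lit 11) (nat_lit 7) (nat_lit 5) (nat_lit 7) (by decide +kernel)
theorem L49586 : W_6 (nat_lit 3) (nat_lit 0x2c0010001300098000000000000000000000000000000) (nat_lit 0x0) (nat_lit 0x3000100024000000000000000000000000000000000000000) := T_6 (nat_lit 176) (nat_lit 161) (nat_lit 2) (nat_lit 4) (nat_lit 10) L49585 (by decide +kernel)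
theorem L49587 : W_6 (nat_lit 6) (nat_lit 0x240010001300098000000000000000000000000000000) (nat_lit 0x0) (nat_lit 0x3e001a0025800080000000000000000000000000000000000) := Q_6 (nat_lit 175) (C_6 L49580 (C_6 L49584 (C_6 L49586 N_6))) (by decide +kernel)
theorem L49588 : W_6 (nat_lit 4) (nat_lit 0x240010001300098000000000000000000000000000000) (nat_lit 0x0) (nat_lit 0x1000180023000000000000800000000000000000000000000) := T_6 (nat_lit 157) (nat_lit 107) (nat_lit 6) (nat_lit 4) (nat_lit 10) L45743 (by decide +kernel)
theorem L49589 : W_6 (nat_lit 7) (nat_lit 0x200010001300098000000000000000000000000000000) (nat_lit 0x0) (nat_lit 0x3e001e0027800080000000800000000000000000000000000) := Q_6 (nat_lit 174) (C_6 L49579 (C_6 L49587 (C_6 L49588 N_6))) (by decide +kernel)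
theorem L49590 : W_6 (nat_lit 2) (nat_lit 0x2000120013000be000000000000000000000000000000) (nat_lit 0x0) (nat_lit 0x380000000000000000000000000) := D_6 (nat_lit 104) (nat_lit 103) (nat_lit 105) (nat_lit 0) (nat_lit 5) (nat_lit 7) (nat_lit 0) (nat_lit 6) (nat_lit 7) (by decide +kernel)
theorem L49591 : W_6 (nat_lit 3) (nat_lit 0x20001200130009e000000000000000000000000000000) (nat_lit 0x0) (nat_lit 0x60000380000000000000000000000000) := T_6 (nat_lit 125) (nat_lit 126) (nat_lit 1) (nat_lit 8) (nat_lit 7) L49590 (by decide +kernel)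
theorem L49592 : W_6 (nat_lit 4) (nat_lit 0x20001200130009c000000000000000000000000000000) (nat_lit 0x0) (nat_lit 0x63000380000000000000000000000000) := T_6 (nat_lit 121) (nat_lit 120) (nat_lit 3) (nat_lit 1) (nat_lit 7) L49591 (by decide +kernel)
theorem L49593 : W_6 (nat_lit 2) (nat_lit 0x2000120013000bc001800000000000000000000000000) (nat_lit 0x0) (nat_lit 0x4000000000000000080004000000000000000000) := D_6 (nat_lit 91) (nat_lit 74) (nat_lit 158) (nat_lit 5) (nat_lit 6) (nat_lit 4) (nat_lit 6) (nat_lit 5) (nat_lit 9) (by decide +kernel)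
theorem L49594 : W_6 (nat_lit 3) (nat_lit 0x2000120013000bc000800000000000000000000000000) (nat_lit 0x0) (nat_lit 0x4000000000003000080004000000000000000000) := T_6 (nat_lit 108) (nat_lit 109) (nat_lit 2) (nat_lit 3) (nat_lit 7) L49593 (by decide +kernel)
theorem L49595 : W_6 (nat_lit 4) (nat_lit 0x2000120013000bc000000000000000000000000000000) (nat_lit 0x0) (nat_lit 0x40000000000038000c0004000000000000000000) := T_6 (nat_lit 107) (nat_lit 90) (nat_lit 5) (nat_lit 5) (nat_lit 5) L49594 (by decide +kernel)
theorem L49596 : W_6 (nat_lit 5) (nat_lit 0x20001200130009c000000000000000000000000000000) (nat_lit 0x0) (nat_lit 0x40000000600038000c0004000000000000000000) := T_6 (nat_lit 125) (nat_lit 126) (nat_lit 1) (nat_lit 8) (nat_lit 7) L49595 (by decide +kernel)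
theorem L49597 : W_6 (nat_lit 6) (nat_lit 0x200012001300098000000000000000000000000000000) (nat_lit 0x0) (nat_lit 0x4000000067003b800c0004000000000000000000) := Q_6 (nat_lit 122) (C_6 L49568 (C_6 L49592 (C_6 L49596 N_6))) (by decide +kernel)
theorem L49598 : W_6 (nat_lit 7) (nat_lit 0x200010001300098000000000000000000000000000000) (nat_lit 0x0) (nat_lit 0x18001c0027000000067003b800c0004000000000000000000) := Q_6 (nat_lit 157) (C_6 L45685 (C_6 L49597 (C_6 L45583 N_6))) (by decide +kernel)
theorem L49599 : W_6 (nat_lit 2) (nat_lit 0x2000100013800bc001200000004000000000000000000) (nat_lit 0x0) (nat_lit 0x40002000000000000000010000000000000000000000) := D_6 (nat_lit 157) (nat_lit 174) (nat_lit 88) (nat_lit 4) (nat_lit 4) (nat_lit 10) (nat_lit 7) (nat_lit 3) (nat_lit 5) (by decide +kernel)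
theorem L49600 : W_6 (nat_lit 3) (nat_lit 0x2000100013800bc001000000004000000000000000000) (nat_lit 0x0) (nat_lit 0x40002000000000000300010000000000000000000000) := T_6 (nat_lit 105) (nat_lit 104) (nat_lit 0) (nat_lit 6) (nat_lit 7) L49599 (by decide +kernel)
theorem L49601 : W_6 (nat_lit 4) (nat_lit 0x2000100013800bc001000000000000000000000000000) (nat_lit 0x0) (nat_lit 0x40002000000000000300090004000000000000000000) := T_6 (nat_lit 74) (nat_lit 91) (nat_lit 5) (nat_lit 6) (nat_lit 4) L49600 (by decide +kernel)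
theorem L49602 : W_6 (nat_lit 5) (nat_lit 0x2000100013000bc001000000000000000000000000000) (nat_lit 0x0) (nat_lit 0x400020000c0000000300090004000000000000000000) := T_6 (nat_lit 139) (nat_lit 138) (nat_lit 2) (nat_lit 2) (nat_lit 8) L49601 (by decide +kernel)
theorem L49603 : W_6 (nat_lit 6) (nat_lit 0x2000100013000bc000000000000000000000000000000) (nat_lit 0x0) (nat_lit 0x400020000c0000003300090004000000000000000000) := T_6 (nat_lit 108) (nat_lit 109) (nat_lit 2) (nat_lit 3) (nat_lit 7) L49602 (by decide +kernel)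
theorem L49604 : W_6 (nat_lit 7) (nat_lit 0x20001000130009c000000000000000000000000000000) (nat_lit 0x0) (nat_lit 0x400020000c0060003300090004000000000000000000) := T_6 (nat_lit 125) (nat_lit 126) (nat_lit 1) (nat_lit 8) (nat_lit 7) L49603 (by decide +kernel)
theorem L49605 : W_6 (nat_lit 8) (nat_lit 0x200010001300098000000000000000000000000000000) (nat_lit 0x0) (nat_lit 0x200070003c000e0067003380098004400000000000000000) := Q_6 (nat_lit 122) (C_6 L49070 (C_6 L49056 (C_6 L49604 (C_6 L43779 N_6)))) (by decide +kernel)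
theorem L49606 : W_6 (nat_lit 2) (nat_lit 0x2c00140013000d80008000e0000000000000000000000) (nat_lit 0x0) (nat_lit 0x2000100020000000000000000000000000000000000000000) := D_6 (nat_lit 176) (nat_lit 161) (nat_lit 193) (nat_lit 2) (nat_lit 4) (nat_lit 10) (nat_lit 7) (nat_lit 5) (nat_lit 7) (by decide +kernel)
theorem L49607 : W_6 (nat_lit 3) (nat_lit 0x2800140013000d80008000e0000000000000000000000) (nat_lit 0x0) (nat_lit 0x2800140020000000000000000000000000000000000000000) := T_6 (nat_lit 174) (nat_lit 191) (nat_lit 5) (nat_lit 5) (nat_lit 7) L49606 (by decide +kernel)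
theorem L49608 : W_6 (nat_lit 4) (nat_lit 0x2000140013000d80008000e0000000000000000000000) (nat_lit 0x0) (nat_lit 0x38001c0020000000000000000000000000000000000000000) := T_6 (nat_lit 175) (nat_lit 192) (nat_lit 4) (nat_lit 5) (nat_lit 11) L49607 (by decide +kernel)
theorem L49609 : W_6 (nat_lit 5) (nat_lit 0x2000100013000d80008000e0000000000000000000000) (nat_lit 0x0) (nat_lit 0x38001c0024000000000001000000000000000000000000000) := T_6 (nat_lit 158) (nat_lit 108) (nat_lit 6) (nat_lit 5) (nat_lit 9) L49608 (by decide +kernel)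
theorem L49610 : W_6 (nat_lit 6) (nat_lit 0x2000100013000d8000800060000000000000000000000) (nat_lit 0x0) (nat_lit 0x38001c0024000000000001000080004000000000000000000) := T_6 (nat_lit 91) (nat_lit 74) (nat_lit 6) (nat_lit 5) (nat_lit 8) L49609 (by decide +kernel)
theorem L49611 : W_6 (nat_lit 7) (nat_lit 0x2000100013000d8000800040000000000000000000000) (nat_lit 0x0) (nat_lit 0x38001c00240000000000010000a0005000000000000000000) := T_6 (nat_lit 89) (nat_lit 72) (nat_lit 4) (nat_lit 5) (nat_lit 8) L49610 (by decide +kernel)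
theorem L49612 : W_6 (nat_lit 8) (nat_lit 0x2000100013000d8000800000000000000000000000000) (nat_lit 0x0) (nat_lit 0x38001c00240000000000010000e0007000000000000000000) := T_6 (nat_lit 90) (nat_lit 73) (nat_lit 5) (nat_lit 5) (nat_lit 4) L49611 (by decide +kernel)
theorem L49613 : W_6 (nat_lit 9) (nat_lit 0x200010001300098000800000000000000000000000000) (nat_lit 0x0) (nat_lit 0x38001c00240000000600010000e0007000000000000000000) := T_6 (nat_lit 126) (nat_lit 125) (nat_lit 1) (nat_lit 8) (nat_lit 7) L49612 (by decide +kernel)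
theorem L49614 : W_6 (nat_lit 10) (nat_lit 0x200010001300098000000000000000000000000000000) (nat_lit 0x0) (nat_lit 0x38001c00260000e0067003b000e0007000000000000000000) := Q_6 (nat_lit 107) (C_6 L45167 (C_6 L49431 (C_6 L49613 N_6))) (by decide +kernel)
theorem L49615 : W_6 (nat_lit 11) (nat_lit 0x200010001300088000000000000000000000000000000) (nat_lit 0x0) (nat_lit 0x3e001f0027c000e0077003b800f8007c00000000000000000) := Q_6 (nat_lit 124) (C_6 L49578 (C_6 L49393 (C_6 L49589 (C_6 L49121 (C_6 L49598 (C_6 L49605 (C_6 L49614 N_6))))))) (by decide +kernel)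
theorem L49616 : W_6 (nat_lit 3) (nat_lit 0x200010001380088000400070000000000000000000000) (nat_lit 0x0) (nat_lit 0x2000000000000380080000000000000000000000) := T_6 (nat_lit 105) (nat_lit 157) (nat_lit 4) (nat_lit 4) (nat_lit 9) L40736 (by decide +kernel)
theorem L49617 : W_6 (nat_lit 4) (nat_lit 0x200010001380088000400060000000000000000000000) (nat_lit 0x0) (nat_lit 0x2000000000000380090000800000000000000000) := T_6 (nat_lit 88) (nat_lit 71) (nat_lit 4) (nat_lit 4) (nat_lit 8) L49616 (by decide +kernel)
theorem L49618 : W_6 (nat_lit 5) (nat_lit 0x200010001300088000400060000000000000000000000) (nat_lit 0x0) (nat_lit 0x3000080000000380090000800000000000000000) := T_6 (nat_lit 139) (nat_lit 156) (nat_lit 5) (nat_lit 4) (nat_lit 5) L49617 (by decide +kernel)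
theorem L49619 : W_6 (nat_lit 6) (nat_lit 0x200010001300088000400020000000000000000000000) (nat_lit 0x0) (nat_lit 0x30000800000003800d0002800000000000000000) := T_6 (nat_lit 90) (nat_lit 73) (nat_lit 6) (nat_lit 4) (nat_lit 8) L49618 (by decide +kernel)
theorem L49620 : W_6 (nat_lit 7) (nat_lit 0x200010001300088000400000000000000000000000000) (nat_lit 0x0) (nat_lit 0x30000800140003800f0003800100000000000000) := Q_6 (nat_lit 89) (C_6 L49564 (C_6 L49619 (C_6 L49140 N_6))) (by decide +kernel)
theorem L49621 : W_6 (nat_lit 7) (nat_lit 0x200010001300088000400000000000000000000000000) (nat_lit 0x0) (nat_lit 0x70000800000003800f0002800000000000000000) := T_6 (nat_lit 89) (nat_lit 158) (nat_lit 7) (nat_lit 4) (nat_lit 5) L49619 (by decide +kernel)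
theorem L49622 : W_6 (nat_lit 2) (nat_lit 0x280013401300088000400000000000000000000000000) (nat_lit 0x0) (nat_lit 0x1000140000000000000000000000000000000000000000000) := D_6 (nat_lit 174) (nat_lit 192) (nat_lit 176) (nat_lit 7) (nat_lit 4) (nat_lit 7) (nat_lit 0) (nat_lit 7) (nat_lit 10) (by decide +kernel)
theorem L49623 : W_6 (nat_lit 3) (nat_lit 0x200013401300088000400000000000000000000000000) (nat_lit 0x0) (nat_lit 0x10001c0004000000000000000000000000000000000000000) := T_6 (nat_lit 175) (nat_lit 158) (nat_lit 7) (nat_lit 4) (nat_lit 6) L49622 (by decide +kernel)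
theorem L49624 : W_6 (nat_lit 4) (nat_lit 0x200013001300088000400000000000000000000000000) (nat_lit 0x0) (nat_lit 0x10001c0004c00000000000000000000000000000000000000) := T_6 (nat_lit 154) (nat_lit 155) (nat_lit 2) (nat_lit 1) (nat_lit 9) L49623 (by decide +kernel)
theorem L49625 : W_6 (nat_lit 5) (nat_lit 0x200012001300088000400000000000000000000000000) (nat_lit 0x0) (nat_lit 0x10001e0005c00000000000000000000000000000000000000) := T_6 (nat_lit 156) (nat_lit 173) (nat_lit 5) (nat_lit 4) (nat_lit 6) L49624 (by decide +kernel)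
theorem L49626 : W_6 (nat_lit 2) (nat_lit 0x240012001300088000600000000000000000000000000) (nat_lit 0x0) (nat_lit 0x1000080004000000000000000000000000000000000000000) := D_6 (nat_lit 175) (nat_lit 158) (nat_lit 192) (nat_lit 7) (nat_lit 4) (nat_lit 6) (nat_lit 7) (nat_lit 4) (nat_lit 7) (by decide +kernel)
theorem L49627 : W_6 (nat_lit 3) (nat_lit 0x200012001300088000600000000000000000000000000) (nat_lit 0x0) (nat_lit 0x10000c0004000000004000000000000000000000000000000) := T_6 (nat_lit 174) (nat_lit 122) (nat_lit 4) (nat_lit 4) (nat_lit 10) L49626 (by decide +kernel)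
theorem L49628 : W_6 (nat_lit 4) (nat_lit 0x200012001300088000400000000000000000000000000) (nat_lit 0x0) (nat_lit 0x10000c0004000000004000200010000000000000000000000) := T_6 (nat_lit 105) (nat_lit 88) (nat_lit 4) (nat_lit 4) (nat_lit 9) L49627 (by decide +kernel)
theorem L49629 : W_6 (nat_lit 9) (nat_lit 0x200010001300088000400000000000000000000000000) (nat_lit 0x0) (nat_lit 0x14001f8007c000e0006000200010000000000000000000000) := Q_6 (nat_lit 157) (C_6 L41880 (C_6 L49134 (C_6 L49625 (C_6 L49628 N_6)))) (by decide +kernel)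
theorem L49630 : W_6 (nat_lit 10) (nat_lit 0x200010001300088000000000000000000000000000000) (nat_lit 0x0) (nat_lit 0x14001f8007c000e00160007800f0003800100000000000000) := Q_6 (nat_lit 106) (C_6 L49565 (C_6 L49620 (C_6 L49621 (C_6 L49145 (C_6 L49629 N_6))))) (by decide +kernel)
theorem L49631 : W_6 (nat_lit 2) (nat_lit 0x200012001300088000400070000000000000000000000) (nat_lit 0x0) (nat_lit 0x20001000080000000000000000000000000000000000) := D_6 (nat_lit 156) (nat_lit 173) (nat_lit 139) (nat_lit 5) (nat_lit 4) (nat_lit 6) (nat_lit 5) (nat_lit 4) (nat_lit 5) (by decide +kernel)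
theorem L49632 : W_6 (nat_lit 3) (nat_lit 0x200010001300088000400070000000000000000000000) (nat_lit 0x0) (nat_lit 0x20003000080000000800000000000000000000000000) := T_6 (nat_lit 157) (nat_lit 107) (nat_lit 6) (nat_lit 4) (nat_lit 9) L49631 (by decide +kernel)
theorem L49633 : W_6 (nat_lit 4) (nat_lit 0x200010001300088000400030000000000000000000000) (nat_lit 0x0) (nat_lit 0x20003000080000000800040002000000000000000000) := T_6 (nat_lit 90) (nat_lit 73) (nat_lit 6) (nat_lit 4) (nat_lit 8) L49632 (by decide +kernel)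
theorem L49634 : W_6 (nat_lit 5) (nat_lit 0x200010001300088000400020000000000000000000000) (nat_lit 0x0) (nat_lit 0x20003000080000000800050002800000000000000000) := T_6 (nat_lit 88) (nat_lit 71) (nat_lit 4) (nat_lit 4) (nat_lit 8) L49633 (by decide +kernel)
theorem L49635 : W_6 (nat_lit 6) (nat_lit 0x200010001300088000400000000000000000000000000) (nat_lit 0x0) (nat_lit 0x20007000080000000800070002800000000000000000) := T_6 (nat_lit 89) (nat_lit 158) (nat_lit 7) (nat_lit 4) (nat_lit 5) L49634 (by decide +kernel)
theorem L49636 : W_6 (nat_lit 2) (nat_lit 0x200010001380088000400060000800000000000000000) (nat_lit 0x0) (nat_lit 0x4000000000001000040000000000000) := D_6 (nat_lit 72) (nat_lit 122) (nat_lit 54) (nat_lit 5) (nat_lit 4) (nat_lit 4) (nat_lit 4) (nat_lit 4) (nat_lit 7) (by decide +kernel)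
theorem L49637 : W_6 (nat_lit 3) (nat_lit 0x200010001380088000400060000000000000000000000) (nat_lit 0x0) (nat_lit 0x4000000010001800040000000000000) := T_6 (nat_lit 71) (nat_lit 88) (nat_lit 4) (nat_lit 4) (nat_lit 8) L49636 (by decide +kernel)
theorem L49638 : W_6 (nat_lit 4) (nat_lit 0x200010001300088000400060000000000000000000000) (nat_lit 0x0) (nat_lit 0x1000080004000000010001800040000000000000) := T_6 (nat_lit 139) (nat_lit 156) (nat_lit 5) (nat_lit 4) (nat_lit 5) L49637 (by decide +kernel)
theorem L49639 : W_6 (nat_lit 5) (nat_lit 0x200010001300088000400020000000000000000000000) (nat_lit 0x0) (nat_lit 0x1000080004000000050003800040000000000000) := T_6 (nat_lit 90) (nat_lit 73) (nat_lit 6) (nat_lit 4) (nat_lit 8) L49638 (by decide +kernel)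
theorem L49640 : W_6 (nat_lit 2) (nat_lit 0x200010001380088000600030001000080000000000000) (nat_lit 0x0) (nat_lit 0x2000100008000000000) := D_6 (nat_lit 56) (nat_lit 73) (nat_lit 39) (nat_lit 6) (nat_lit 4) (nat_lit 7) (nat_lit 6) (nat_lit 4) (nat_lit 6) (by decide +kernel)
theorem L49641 : W_6 (nat_lit 3) (nat_lit 0x200010001380088000600030001000000000000000000) (nat_lit 0x0) (nat_lit 0x200018000c000000000) := T_6 (nat_lit 55) (nat_lit 38) (nat_lit 5) (nat_lit 4) (nat_lit 2) L49640 (by decide +kernel)
theorem L49642 : W_6 (nat_lit 4) (nat_lit 0x200010001380088000600030000000000000000000000) (nat_lit 0x0) (nat_lit 0x400000000000300018000c000000000) := T_6 (nat_lit 72) (nat_lit 122) (nat_lit 6) (nat_lit 3) (nat_lit 8) L49641 (by decide +kernel)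
theorem L49643 : W_6 (nat_lit 5) (nat_lit 0x200010001380088000400030000000000000000000000) (nat_lit 0x0) (nat_lit 0x200000000400020000000300018000c000000000) := T_6 (nat_lit 105) (nat_lit 157) (nat_lit 4) (nat_lit 4) (nat_lit 9) L49642 (by decide +kernel)
theorem L49644 : W_6 (nat_lit 6) (nat_lit 0x200010001380088000400020000000000000000000000) (nat_lit 0x0) (nat_lit 0x200000000400020001000380018000c000000000) := T_6 (nat_lit 88) (nat_lit 71) (nat_lit 4) (nat_lit 4) (nat_lit 8) L49643 (by decide +kernel)
theorem L49645 : W_6 (nat_lit 7) (nat_lit 0x200010001300088000400020000000000000000000000) (nat_lit 0x0) (nat_lit 0x300008000400020001000380018000c000000000) := T_6 (nat_lit 139) (nat_lit 156) (nat_lit 5) (nat_lit 4) (nat_lit 5) L49644 (by decide +kernel)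
theorem L49646 : W_6 (nat_lit 2) (nat_lit 0x2000100013d008e00160003c000000000000000000000) (nat_lit 0x0) (nat_lit 0x100000000300000000000000000) := D_6 (nat_lit 69) (nat_lit 68) (nat_lit 104) (nat_lit 0) (nat_lit 4) (nat_lit 5) (nat_lit 4) (nat_lit 2) (nat_lit 8) (by decide +kernel)
theorem L49647 : W_6 (nat_lit 3) (nat_lit 0x2000100013d008e001600038000000000000000000000) (nat_lit 0x0) (nat_lit 0x100006000300000000000000000) := T_6 (nat_lit 86) (nat_lit 85) (nat_lit 3) (nat_lit 0) (nat_lit 5) L49646 (by decide +kernel)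
theorem L49648 : W_6 (nat_lit 4) (nat_lit 0x2000100013d008e001600030000000000000000000000) (nat_lit 0x0) (nat_lit 0x10000e000700000000000000000) := T_6 (nat_lit 87) (nat_lit 70) (nat_lit 4) (nat_lit 3) (nat_lit 8) L49647 (by decide +kernel)
theorem L49649 : W_6 (nat_lit 5) (nat_lit 0x2000100013d008e000600030000000000000000000000) (nat_lit 0x0) (nat_lit 0x190000e000700000000000000000) := T_6 (nat_lit 108) (nat_lit 107) (nat_lit 1) (nat_lit 6) (nat_lit 6) L49648 (by decide +kernel)
theorem L49650 : W_6 (nat_lit 6) (nat_lit 0x2000100013d008c000600030000000000000000000000) (nat_lit 0x0) (nat_lit 0x300190000e000700000000000000000) := T_6 (nat_lit 121) (nat_lit 120) (nat_lit 3) (nat_lit 1) (nat_lit 7) L49649 (by decide +kernel)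
theorem L49651 : W_6 (nat_lit 7) (nat_lit 0x2000100013c008c000600030000000000000000000000) (nat_lit 0x0) (nat_lit 0x3000300190000e000700000000000000000) := T_6 (nat_lit 136) (nat_lit 137) (nat_lit 2) (nat_lit 0) (nat_lit 8) L49650 (by decide +kernel)
theorem L49652 : W_6 (nat_lit 8) (nat_lit 0x20001000138008c000600030000000000000000000000) (nat_lit 0x0) (nat_lit 0x80007000300190000e000700000000000000000) := T_6 (nat_lit 138) (nat_lit 155) (nat_lit 5) (nat_lit 3) (nat_lit 5) L49651 (by decide +kernel)
theorem L49653 : W_6 (nat_lit 9) (nat_lit 0x200010001380088000600030000000000000000000000) (nat_lit 0x0) (nat_lit 0x80007000700190000e001700000000000000000) := T_6 (nat_lit 122) (nat_lit 72) (nat_lit 6) (nat_lit 3) (nat_lit 8) L49652 (by decide +kernel)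
theorem L49654 : W_6 (nat_lit 10) (nat_lit 0x200010001380088000400030000000000000000000000) (nat_lit 0x0) (nat_lit 0x2800070007001b0000e001700000000000000000) := T_6 (nat_lit 105) (nat_lit 157) (nat_lit 4) (nat_lit 4) (nat_lit 9) L49653 (by decide +kernel)
theorem L49655 : W_6 (nat_lit 11) (nat_lit 0x200010001380088000400020000000000000000000000) (nat_lit 0x0) (nat_lit 0x2800070007001b0001e001f00000000000000000) := T_6 (nat_lit 88) (nat_lit 71) (nat_lit 4) (nat_lit 4) (nat_lit 8) L49654 (by decide +kernel)
theorem L49656 : W_6 (nat_lit 12) (nat_lit 0x200010001300088000400020000000000000000000000) (nat_lit 0x0) (nat_lit 0x38000f0007001b0001e001f00000000000000000) := T_6 (nat_lit 139) (nat_lit 156) (nat_lit 5) (nat_lit 4) (nat_lit 5) L49655 (by decide +kernel)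
theorem L49657 : W_6 (nat_lit 4) (nat_lit 0x200010001380088000400060000000000000000000000) (nat_lit 0x0) (nat_lit 0x800040002000000004000a00000001000000000000000000) := T_6 (nat_lit 157) (nat_lit 107) (nat_lit 6) (nat_lit 4) (nat_lit 9) L48169 (by decide +kernel)
theorem L49658 : W_6 (nat_lit 5) (nat_lit 0x200010001380088000400020000000000000000000000) (nat_lit 0x0) (nat_lit 0x800040002000000004000a00040003000000000000000000) := T_6 (nat_lit 90) (nat_lit 73) (nat_lit 6) (nat_lit 4) (nat_lit 8) L49657 (by decide +kernel)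
theorem L49659 : W_6 (nat_lit 6) (nat_lit 0x200010001300088000400020000000000000000000000) (nat_lit 0x0) (nat_lit 0x800040003000080004000a00040003000000000000000000) := T_6 (nat_lit 139) (nat_lit 156) (nat_lit 5) (nat_lit 4) (nat_lit 5) L49658 (by decide +kernel)
theorem L49660 : W_6 (nat_lit 13) (nat_lit 0x200010001300088000400000000000000000000000000) (nat_lit 0x0) (nat_lit 0x8000600038000f0007001b0007e003f001c000c000000000) := Q_6 (nat_lit 89) (C_6 L49143 (C_6 L49634 (C_6 L49639 (C_6 L49645 (C_6 L49656 (C_6 L49659 N_6)))))) (by decide +kernel)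
theorem L49661 : W_6 (nat_lit 6) (nat_lit 0x200010001300088000400000000000000000000000000) (nat_lit 0x0) (nat_lit 0x5000080004000000070003800040000000000000) := T_6 (nat_lit 89) (nat_lit 158) (nat_lit 7) (nat_lit 4) (nat_lit 5) L49639 (by decide +kernel)
theorem L49662 : W_6 (nat_lit 7) (nat_lit 0x200010001300088000400000000000000000000000000) (nat_lit 0x0) (nat_lit 0x800040007000080004000a00060003000000000000000000) := T_6 (nat_lit 89) (nat_lit 158) (nat_lit 7) (nat_lit 4) (nat_lit 5) L49659 (by decide +kernel)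
theorem L49663 : W_6 (nat_lit 14) (nat_lit 0x200010001300088000000000000000000000000000000) (nat_lit 0x0) (nat_lit 0x1c001f8007c000f0007001f0007e003f001c000c000000000) := Q_6 (nat_lit 106) (C_6 L49629 (C_6 L49635 (C_6 L49660 (C_6 L49661 (C_6 L49146 (C_6 L49662 N_6)))))) (by decide +kernel)
theorem L49664 : W_6 (nat_lit 2) (nat_lit 0x2000120013000d8000400030000000000000000000000) (nat_lit 0x0) (nat_lit 0x800040000000000000000800000000000000000000000000) := D_6 (nat_lit 174) (nat_lit 191) (nat_lit 107) (nat_lit 6) (nat_lit 4) (nat_lit 11) (nat_lit 6) (nat_lit 4) (nat_lit 10) (by decide +kernel)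
theorem L49665 : W_6 (nat_lit 3) (nat_lit 0x2000100013000d8000400030000000000000000000000) (nat_lit 0x0) (nat_lit 0x800040002000000000000a00000000000000000000000000) := T_6 (nat_lit 157) (nat_lit 105) (nat_lit 4) (nat_lit 4) (nat_lit 9) L49664 (by decide +kernel)
theorem L49666 : W_6 (nat_lit 4) (nat_lit 0x2000100013000d8000400020000000000000000000000) (nat_lit 0x0) (nat_lit 0x800040002000000000000a00010000800000000000000000) := T_6 (nat_lit 88) (nat_lit 71) (nat_lit 4) (nat_lit 4) (nat_lit 8) L49665 (by decide +kernel)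
theorem L49667 : W_6 (nat_lit 5) (nat_lit 0x200010001300098000400020000000000000000000000) (nat_lit 0x0) (nat_lit 0x800040002000000060000a00010000800000000000000000) := T_6 (nat_lit 126) (nat_lit 125) (nat_lit 1) (nat_lit 8) (nat_lit 7) L49666 (by decide +kernel)
theorem L49668 : W_6 (nat_lit 6) (nat_lit 0x200010001300098000400000000000000000000000000) (nat_lit 0x0) (nat_lit 0x800040002000000060000a00030001800000000000000000) := T_6 (nat_lit 89) (nat_lit 72) (nat_lit 7) (nat_lit 4) (nat_lit 4) L49667 (by decide +kernel)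
theorem L49669 : W_6 (nat_lit 9) (nat_lit 0x200010001300098000000000000000000000000000000) (nat_lit 0x0) (nat_lit 0x8000c0026000800367003f801b000d800000000000000000) := Q_6 (nat_lit 106) (C_6 L49111 (C_6 L42671 (C_6 L49668 N_6))) (by decide +kernel)
theorem L49670 : W_6 (nat_lit 10) (nat_lit 0x200010001300088000000000000000000000000000000) (nat_lit 0x0) (nat_lit 0x3e001f0027c008e0377003f801b800dc00000000000000000) := Q_6 (nat_lit 124) (C_6 L49589 (C_6 L49605 (C_6 L49119 (C_6 L49669 N_6)))) (by decide +kernel)
theorem L49671 : W_6 (nat_lit 3) (nat_lit 0x200012001300098000c00000000000000000000000000) (nat_lit 0x0) (nat_lit 0x60000300010000000000000000000000) := T_6 (nat_lit 125) (nat_lit 126) (nat_lit 1) (nat_lit 8) (nat_lit 7) L47930 (by decide +kernel)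
theorem L49672 : W_6 (nat_lit 4) (nat_lit 0x200012001300098000400000000000000000000000000) (nat_lit 0x0) (nat_lit 0x60000b00050000000000000000000000) := T_6 (nat_lit 107) (nat_lit 90) (nat_lit 6) (nat_lit 4) (nat_lit 9) L49671 (by decide +kernel)
theorem L49673 : W_6 (nat_lit 7) (nat_lit 0x200012001300098000000000000000000000000000000) (nat_lit 0x0) (nat_lit 0x10000c0060000f80070003000000000000000000) := Q_6 (nat_lit 106) (C_6 L49321 (C_6 L49313 (C_6 L49672 N_6))) (by decide +kernel)
theorem L49674 : W_6 (nat_lit 8) (nat_lit 0x200010001300098000000000000000000000000000000) (nat_lit 0x0) (nat_lit 0x18001c00230000c0060000f80070003000000000000000000) := Q_6 (nat_lit 157) (C_6 L45685 (C_6 L45583 (C_6 L49673 N_6))) (by decide +kernel)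
theorem L49675 : W_6 (nat_lit 2) (nat_lit 0x2000120013000d8000400060000000000000000000000) (nat_lit 0x0) (nat_lit 0x200010000800000000000000000) := D_6 (nat_lit 88) (nat_lit 105) (nat_lit 71) (nat_lit 4) (nat_lit 4) (nat_lit 9) (nat_lit 4) (nat_lit 4) (nat_lit 8) (by decide +kernel)
theorem L49676 : W_6 (nat_lit 3) (nat_lit 0x2000100013000d8000400060000000000000000000000) (nat_lit 0x0) (nat_lit 0x2000000000000a00010000800000000000000000) := T_6 (nat_lit 157) (nat_lit 107) (nat_lit 6) (nat_lit 4) (nat_lit 9) L49675 (by decide +kernel)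
theorem L49677 : W_6 (nat_lit 4) (nat_lit 0x2000100013000d8000400020000000000000000000000) (nat_lit 0x0) (nat_lit 0x2000000000000a00050002800000000000000000) := T_6 (nat_lit 90) (nat_lit 73) (nat_lit 6) (nat_lit 4) (nat_lit 8) L49676 (by decide +kernel)
theorem L49678 : W_6 (nat_lit 5) (nat_lit 0x200010001300098000400020000000000000000000000) (nat_lit 0x0) (nat_lit 0x2000000060000a00050002800000000000000000) := T_6 (nat_lit 126) (nat_lit 125) (nat_lit 1) (nat_lit 8) (nat_lit 7) L49677 (by decide +kernel)
theorem L49679 : W_6 (nat_lit 6) (nat_lit 0x200010001300098000400000000000000000000000000) (nat_lit 0x0) (nat_lit 0x2000000060000a00070003800000000000000000) := T_6 (nat_lit 89) (nat_lit 72) (nat_lit 7) (nat_lit 4) (nat_lit 4) L49678 (by decide +kernel)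
theorem L49680 : W_6 (nat_lit 7) (nat_lit 0x200010001300098000000000000000000000000000000) (nat_lit 0x0) (nat_lit 0x80006000000060003e000f0003800000000000000000) := Q_6 (nat_lit 106) (C_6 L49519 (C_6 L42671 (C_6 L49679 N_6))) (by decide +kernel)
theorem L49681 : W_6 (nat_lit 2) (nat_lit 0x2000120013000d8000400030000000000000000000000) (nat_lit 0x0) (nat_lit 0x20001000080000000000000000000000000000000000) := D_6 (nat_lit 156) (nat_lit 173) (nat_lit 139) (nat_lit 5) (nat_lit 4) (nat_lit 6) (nat_lit 5) (nat_lit 4) (nat_lit 5) (by decide +kernel)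
theorem L49682 : W_6 (nat_lit 3) (nat_lit 0x2000100013000d8000400030000000000000000000000) (nat_lit 0x0) (nat_lit 0x20003000080000000200000000000000000000000000) := T_6 (nat_lit 157) (nat_lit 105) (nat_lit 4) (nat_lit 4) (nat_lit 9) L49681 (by decide +kernel)
theorem L49683 : W_6 (nat_lit 4) (nat_lit 0x2000100013000d8000400020000000000000000000000) (nat_lit 0x0) (nat_lit 0x20003000080000000200010000800000000000000000) := T_6 (nat_lit 88) (nat_lit 71) (nat_lit 4) (nat_lit 4) (nat_lit 8) L49682 (by decide +kernel)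
theorem L49684 : W_6 (nat_lit 5) (nat_lit 0x2000100013000d8000400000000000000000000000000) (nat_lit 0x0) (nat_lit 0x20003000080000000200030001800000000000000000) := T_6 (nat_lit 89) (nat_lit 72) (nat_lit 7) (nat_lit 4) (nat_lit 4) L49683 (by decide +kernel)
theorem L49685 : W_6 (nat_lit 6) (nat_lit 0x200010001300098000400000000000000000000000000) (nat_lit 0x0) (nat_lit 0x20003000080060000200030001800000000000000000) := T_6 (nat_lit 126) (nat_lit 125) (nat_lit 1) (nat_lit 8) (nat_lit 7) L49684 (by decide +kernel)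
theorem L49686 : W_6 (nat_lit 2) (nat_lit 0x280012001300098000400000000000000000000000000) (nat_lit 0x0) (nat_lit 0x1800040000000000000000000000000000000000000000000) := D_6 (nat_lit 174) (nat_lit 192) (nat_lit 191) (nat_lit 7) (nat_lit 4) (nat_lit 7) (nat_lit 6) (nat_lit 4) (nat_lit 11) (by decide +kernel)
theorem L49687 : W_6 (nat_lit 3) (nat_lit 0x200012001300098000400000000000000000000000000) (nat_lit 0x0) (nat_lit 0x18000c0004000000000000000000000000000000000000000) := T_6 (nat_lit 175) (nat_lit 158) (nat_lit 7) (nat_lit 4) (nat_lit 6) L49686 (by decide +kernel)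
theorem L49688 : W_6 (nat_lit 2) (nat_lit 0x2000120013000d8000600000000000000000000000000) (nat_lit 0x0) (nat_lit 0x800040000000000004000000000000000000000000000000) := D_6 (nat_lit 174) (nat_lit 122) (nat_lit 191) (nat_lit 4) (nat_lit 4) (nat_lit 10) (nat_lit 6) (nat_lit 4) (nat_lit 11) (by decide +kernel)
theorem L49689 : W_6 (nat_lit 3) (nat_lit 0x2000120013000d8000400000000000000000000000000) (nat_lit 0x0) (nat_lit 0x800040000000000004000200010000000000000000000000) := T_6 (nat_lit 105) (nat_lit 88) (nat_lit 4) (nat_lit 4) (nat_lit 9) L49688 (by decide +kernel)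
theorem L49690 : W_6 (nat_lit 4) (nat_lit 0x200012001300098000400000000000000000000000000) (nat_lit 0x0) (nat_lit 0x800040000000000064000200010000000000000000000000) := T_6 (nat_lit 126) (nat_lit 125) (nat_lit 1) (nat_lit 8) (nat_lit 7) L49689 (by decide +kernel)
theorem L49691 : W_6 (nat_lit 2) (nat_lit 0x280013401300098000700000000000000000000000000) (nat_lit 0x0) (nat_lit 0x64000000000000000000000000000000) := D_6 (nat_lit 125) (nat_lit 126) (nat_lit 122) (nat_lit 1) (nat_lit 8) (nat_lit 7) (nat_lit 0) (nat_lit 6) (nat_lit 7) (by decide +kernel)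
theorem L49692 : W_6 (nat_lit 3) (nat_lit 0x280013401300098000600000000000000000000000000) (nat_lit 0x0) (nat_lit 0x64000180000000000000000000000000) := T_6 (nat_lit 104) (nat_lit 103) (nat_lit 3) (nat_lit 1) (nat_lit 6) L49691 (by decide +kernel)
theorem L49693 : W_6 (nat_lit 4) (nat_lit 0x280013401300098000400000000000000000000000000) (nat_lit 0x0) (nat_lit 0x64000380010000000000000000000000) := T_6 (nat_lit 105) (nat_lit 88) (nat_lit 4) (nat_lit 4) (nat_lit 9) L49692 (by decide +kernel)
theorem L49694 : W_6 (nat_lit 5) (nat_lit 0x200013401300098000400000000000000000000000000) (nat_lit 0x0) (nat_lit 0x80004000000064000380010000000000000000000000) := T_6 (nat_lit 175) (nat_lit 158) (nat_lit 7) (nat_lit 4) (nat_lit 6) L49693 (by decide +kernel)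
theorem L49695 : W_6 (nat_lit 6) (nat_lit 0x200013001300098000400000000000000000000000000) (nat_lit 0x0) (nat_lit 0x80004c00000064000380010000000000000000000000) := T_6 (nat_lit 154) (nat_lit 155) (nat_lit 2) (nat_lit 1) (nat_lit 9) L49694 (by decide +kernel)
theorem L49696 : W_6 (nat_lit 7) (nat_lit 0x200012001300098000400000000000000000000000000) (nat_lit 0x0) (nat_lit 0xa0005c00000064000380010000000000000000000000) := T_6 (nat_lit 156) (nat_lit 173) (nat_lit 5) (nat_lit 4) (nat_lit 6) L49695 (by decide +kernel)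
theorem L49697 : W_6 (nat_lit 8) (nat_lit 0x200010001300098000400000000000000000000000000) (nat_lit 0x0) (nat_lit 0x18000e0007c00000064000380010000000000000000000000) := Q_6 (nat_lit 157) (C_6 L49687 (C_6 L49690 (C_6 L49696 N_6))) (by decide +kernel)
theorem L49698 : W_6 (nat_lit 9) (nat_lit 0x200010001300098000000000000000000000000000000) (nat_lit 0x0) (nat_lit 0x18000e0007c00080064000780030001800000000000000000) := Q_6 (nat_lit 106) (C_6 L42671 (C_6 L49685 (C_6 L49697 N_6))) (by decide +kernel)
theorem L49699 : W_6 (nat_lit 12) (nat_lit 0x200010001300088000000000000000000000000000000) (nat_lit 0x0) (nat_lit 0x3e001e0027c000c0074003f801fc007800200000000000000) := Q_6 (nat_lit 124) (C_6 L49589 (C_6 L49674 (C_6 L49419 (C_6 L49126 (C_6 L49680 (C_6 L49698 N_6)))))) (by decide +kernel)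
theorem L49700 : W_6 (nat_lit 2) (nat_lit 0x2000140013000d80008000c0000000000000000000000) (nat_lit 0x0) (nat_lit 0x1000080000000000000000400000000000000000000000000) := D_6 (nat_lit 175) (nat_lit 106) (nat_lit 192) (nat_lit 4) (nat_lit 5) (nat_lit 10) (nat_lit 4) (nat_lit 5) (nat_lit 11) (by decide +kernel)
theorem L49701 : W_6 (nat_lit 3) (nat_lit 0x2000100013000d80008000c0000000000000000000000) (nat_lit 0x0) (nat_lit 0x1000080004000000000001400000000000000000000000000) := T_6 (nat_lit 158) (nat_lit 108) (nat_lit 6) (nat_lit 5) (nat_lit 9) L49700 (by decide +kernel)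
theorem L49702 : W_6 (nat_lit 4) (nat_lit 0x2000100013000d8000800040000000000000000000000) (nat_lit 0x0) (nat_lit 0x1000080004000000000001400080004000000000000000000) := T_6 (nat_lit 91) (nat_lit 74) (nat_lit 6) (nat_lit 5) (nat_lit 8) L49701 (by decide +kernel)
theorem L49703 : W_6 (nat_lit 5) (nat_lit 0x2000100013000d8000800000000000000000000000000) (nat_lit 0x0) (nat_lit 0x10000800040000000000014000c0006000000000000000000) := T_6 (nat_lit 90) (nat_lit 73) (nat_lit 5) (nat_lit 5) (nat_lit 4) L49702 (by decide +kernel)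
theorem L49704 : W_6 (nat_lit 6) (nat_lit 0x200010001300098000800000000000000000000000000) (nat_lit 0x0) (nat_lit 0x10000800040000000600014000c0006000000000000000000) := T_6 (nat_lit 126) (nat_lit 125) (nat_lit 1) (nat_lit 8) (nat_lit 7) L49703 (by decide +kernel)
theorem L49705 : W_6 (nat_lit 9) (nat_lit 0x200010001300098000000000000000000000000000000) (nat_lit 0x0) (nat_lit 0x10000c00060000e0067003f000c0006000000000000000000) := Q_6 (nat_lit 107) (C_6 L45167 (C_6 L49431 (C_6 L49704 N_6))) (by decide +kernel)
theorem L49706 : W_6 (nat_lit 10) (nat_lit 0x200010001300088000000000000000000000000000000) (nat_lit 0x0) (nat_lit 0x3e001f0027c000e0077003f800d8006c00000000000000000) := Q_6 (nat_lit 124) (C_6 L49589 (C_6 L49605 (C_6 L49121 (C_6 L49598 (C_6 L49705 N_6))))) (by decide +kernel)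
theorem L49707 : W_6 (nat_lit 2) (nat_lit 0x2000170013400b8000600000000000000000000000000) (nat_lit 0x0) (nat_lit 0x4000180000000000000000000000000) := D_6 (nat_lit 104) (nat_lit 103) (nat_lit 122) (nat_lit 3) (nat_lit 1) (nat_lit 6) (nat_lit 0) (nat_lit 6) (nat_lit 7) (by decide +kernel)
theorem L49708 : W_6 (nat_lit 3) (nat_lit 0x2000170013400b8000400000000000000000000000000) (nat_lit 0x0) (nat_lit 0x4000380010000000000000000000000) := T_6 (nat_lit 105) (nat_lit 88) (nat_lit 4) (nat_lit 4) (nat_lit 9) L49707 (by decide +kernel)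
theorem L49709 : W_6 (nat_lit 4) (nat_lit 0x2000160013400b8000400000000000000000000000000) (nat_lit 0x0) (nat_lit 0x20001000000004000380010000000000000000000000) := T_6 (nat_lit 156) (nat_lit 173) (nat_lit 5) (nat_lit 4) (nat_lit 6) L49708 (by decide +kernel)
theorem L49710 : W_6 (nat_lit 5) (nat_lit 0x2000160013000b8000400000000000000000000000000) (nat_lit 0x0) (nat_lit 0x200010000c0004000380010000000000000000000000) := T_6 (nat_lit 138) (nat_lit 139) (nat_lit 2) (nat_lit 2) (nat_lit 8) L49709 (by decide +kernel)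
theorem L49711 : W_6 (nat_lit 6) (nat_lit 0x2000120013000b8000400000000000000000000000000) (nat_lit 0x0) (nat_lit 0xa00050000c0004000380010000000000000000000000) := T_6 (nat_lit 158) (nat_lit 175) (nat_lit 7) (nat_lit 4) (nat_lit 6) L49710 (by decide +kernel)
theorem L49712 : W_6 (nat_lit 7) (nat_lit 0x200012001300098000400000000000000000000000000) (nat_lit 0x0) (nat_lit 0xa00050000c0064000380010000000000000000000000) := T_6 (nat_lit 125) (nat_lit 126) (nat_lit 1) (nat_lit 8) (nat_lit 7) L49711 (by decide +kernel)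
theorem L49713 : W_6 (nat_lit 8) (nat_lit 0x200010001300098000400000000000000000000000000) (nat_lit 0x0) (nat_lit 0x18000e00070000c0064000380010000000000000000000000) := Q_6 (nat_lit 157) (C_6 L49687 (C_6 L49690 (C_6 L49712 N_6))) (by decide +kernel)
theorem L49714 : W_6 (nat_lit 9) (nat_lit 0x200010001300098000000000000000000000000000000) (nat_lit 0x0) (nat_lit 0x18000e00070000c0064000780030001800000000000000000) := Q_6 (nat_lit 106) (C_6 L42671 (C_6 L49685 (C_6 L49713 N_6))) (by decide +kernel)
theorem L49715 : W_6 (nat_lit 10) (nat_lit 0x200010001300088000000000000000000000000000000) (nat_lit 0x0) (nat_lit 0x38001e00270000e0077003f800f0007800000000000000000) := Q_6 (nat_lit 124) (C_6 L49578 (C_6 L49674 (C_6 L49705 (C_6 L49116 (C_6 L49432 (C_6 L49680 (C_6 L49714 (C_6 L48991 N_6)))))))) (by decide +kernel)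
theorem L49716 : W_6 (nat_lit 2) (nat_lit 0x8002000138013600b9000680000000000000000000000000) (nat_lit 0x0) (nat_lit 0x200010000000000002000000000000000000000000000000) := D_6 (nat_lit 172) (nat_lit 121) (nat_lit 189) (nat_lit 4) (nat_lit 2) (nat_lit 10) (nat_lit 4) (nat_lit 2) (nat_lit 11) (by decide +kernel)
theorem L49717 : W_6 (nat_lit 3) (nat_lit 0x8002000138013600b8000680000000000000000000000000) (nat_lit 0x0) (nat_lit 0x200010000000000003000000004000000000000000000000) := T_6 (nat_lit 120) (nat_lit 86) (nat_lit 7) (nat_lit 1) (nat_lit 5) L49716 (by decide +kernel)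
theorem L49718 : W_6 (nat_lit 4) (nat_lit 0x8002000138013400b8000680000000000000000000000000) (nat_lit 0x0) (nat_lit 0x200010004000020003000000004000000000000000000000) := T_6 (nat_lit 137) (nat_lit 158) (nat_lit 0) (nat_lit 5) (nat_lit 9) L49717 (by decide +kernel)
theorem L49719 : W_6 (nat_lit 5) (nat_lit 0x8002000138013000b8000680000000000000000000000000) (nat_lit 0x0) (nat_lit 0x2000100040000e0003000000004000000000000000000000) := T_6 (nat_lit 138) (nat_lit 139) (nat_lit 2) (nat_lit 2) (nat_lit 8) L49718 (by decide +kernel)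
theorem L49720 : W_6 (nat_lit 6) (nat_lit 0x8002000130013000b8000680000000000000000000000000) (nat_lit 0x0) (nat_lit 0x200010004c000e0003000000004000000000000000000000) := T_6 (nat_lit 155) (nat_lit 154) (nat_lit 2) (nat_lit 1) (nat_lit 9) L49719 (by decide +kernel)
theorem L49721 : W_6 (nat_lit 7) (nat_lit 0x8002000120013000b8000680000000000000000000000000) (nat_lit 0x0) (nat_lit 0x200030005c000e0003000000004000000000000000000000) := T_6 (nat_lit 156) (nat_lit 173) (nat_lit 5) (nat_lit 4) (nat_lit 6) L49720 (by decide +kernel)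
theorem L49722 : W_6 (nat_lit 8) (nat_lit 0x800200012001300098000680000000000000000000000000) (nat_lit 0x0) (nat_lit 0x200030005c000e0063000000004000000000000000000000) := T_6 (nat_lit 125) (nat_lit 126) (nat_lit 1) (nat_lit 8) (nat_lit 7) L49721 (by decide +kernel)
theorem L49723 : W_6 (nat_lit 9) (nat_lit 0x800200012001300098000600000000000000000000000000) (nat_lit 0x0) (nat_lit 0x200030005c000e0063000180004000000000000000000000) := T_6 (nat_lit 103) (nat_lit 104) (nat_lit 3) (nat_lit 1) (nat_lit 6) L49722 (by decide +kernel)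
theorem L49724 : W_6 (nat_lit 10) (nat_lit 0x800200012001300098000400000000000000000000000000) (nat_lit 0x0) (nat_lit 0x200030005c000e0063000380014000000000000000000000) := T_6 (nat_lit 105) (nat_lit 88) (nat_lit 4) (nat_lit 4) (nat_lit 9) L49723 (by decide +kernel)
theorem L49725 : W_6 (nat_lit 11) (nat_lit 0x200012001300098000400000000000000000000000000) (nat_lit 0x0) (nat_lit 0xa00070005c000e0063000380014000000000000000000000) := T_6 (nat_lit 191) (nat_lit 174) (nat_lit 6) (nat_lit 4) (nat_lit 11) L49724 (by decide +kernel)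
theorem L49726 : W_6 (nat_lit 2) (nat_lit 0x2000170013400b8000680000000000000000000000000) (nat_lit 0x0) (nat_lit 0xc00020000000000000000000000000000000000) := D_6 (nat_lit 155) (nat_lit 154) (nat_lit 137) (nat_lit 2) (nat_lit 1) (nat_lit 9) (nat_lit 0) (nat_lit 5) (nat_lit 9) (by decide +kernel)
theorem L49727 : W_6 (nat_lit 3) (nat_lit 0x2000160013400b8000680000000000000000000000000) (nat_lit 0x0) (nat_lit 0x20001c00020000000000000000000000000000000000) := T_6 (nat_lit 156) (nat_lit 173) (nat_lit 5) (nat_lit 4) (nat_lit 6) L49726 (by decide +kernel)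
theorem L49728 : W_6 (nat_lit 4) (nat_lit 0x2000160013400b8000600000000000000000000000000) (nat_lit 0x0) (nat_lit 0x20001c00020000000180000000000000000000000000) := T_6 (nat_lit 103) (nat_lit 104) (nat_lit 3) (nat_lit 1) (nat_lit 6) L49727 (by decide +kernel)
theorem L49729 : W_6 (nat_lit 5) (nat_lit 0x2000160013400b8000400000000000000000000000000) (nat_lit 0x0) (nat_lit 0x20001c00020000000380010000000000000000000000) := T_6 (nat_lit 105) (nat_lit 88) (nat_lit 4) (nat_lit 4) (nat_lit 9) L49728 (by decide +kernel)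
theorem L49730 : W_6 (nat_lit 6) (nat_lit 0x2000160013000b8000400000000000000000000000000) (nat_lit 0x0) (nat_lit 0x20001c000e0000000380010000000000000000000000) := T_6 (nat_lit 138) (nat_lit 139) (nat_lit 2) (nat_lit 2) (nat_lit 8) L49729 (by decide +kernel)
theorem L49731 : W_6 (nat_lit 7) (nat_lit 0x2000120013000b8000400000000000000000000000000) (nat_lit 0x0) (nat_lit 0xa0005c000e0000000380010000000000000000000000) := T_6 (nat_lit 158) (nat_lit 175) (nat_lit 7) (nat_lit 4) (nat_lit 6) L49730 (by decide +kernel)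
theorem L49732 : W_6 (nat_lit 8) (nat_lit 0x200012001300098000400000000000000000000000000) (nat_lit 0x0) (nat_lit 0xa0005c000e0060000380010000000000000000000000) := T_6 (nat_lit 125) (nat_lit 126) (nat_lit 1) (nat_lit 8) (nat_lit 7) L49731 (by decide +kernel)
theorem L49733 : W_6 (nat_lit 2) (nat_lit 0x240013401300098000400000000000000000000000000) (nat_lit 0x0) (nat_lit 0x1000180000000000000000000000000000000000000000000) := D_6 (nat_lit 175) (nat_lit 192) (nat_lit 176) (nat_lit 7) (nat_lit 4) (nat_lit 7) (nat_lit 0) (nat_lit 7) (nat_lit 10) (by decide +kernel)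
theorem L49734 : W_6 (nat_lit 3) (nat_lit 0x200013401300098000400000000000000000000000000) (nat_lit 0x0) (nat_lit 0x18001c0000000000000000000000000000000000000000000) := T_6 (nat_lit 174) (nat_lit 191) (nat_lit 6) (nat_lit 4) (nat_lit 11) L49733 (by decide +kernel)
theorem L49735 : W_6 (nat_lit 4) (nat_lit 0x200013001300098000400000000000000000000000000) (nat_lit 0x0) (nat_lit 0x18001c0000c00000000000000000000000000000000000000) := T_6 (nat_lit 154) (nat_lit 155) (nat_lit 2) (nat_lit 1) (nat_lit 9) L49734 (by decide +kernel)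
theorem L49736 : W_6 (nat_lit 5) (nat_lit 0x200012001300098000400000000000000000000000000) (nat_lit 0x0) (nat_lit 0x18001e0001c00000000000000000000000000000000000000) := T_6 (nat_lit 156) (nat_lit 173) (nat_lit 5) (nat_lit 4) (nat_lit 6) L49735 (by decide +kernel)
theorem L49737 : W_6 (nat_lit 12) (nat_lit 0x200010001300098000400000000000000000000000000) (nat_lit 0x0) (nat_lit 0x1a001f0007c000e0063000380014000000000000000000000) := Q_6 (nat_lit 157) (C_6 L49687 (C_6 L49725 (C_6 L49732 (C_6 L49736 N_6)))) (by decide +kernel)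
theorem L49738 : W_6 (nat_lit 13) (nat_lit 0x200010001300098000000000000000000000000000000) (nat_lit 0x0) (nat_lit 0x1a001f0007c000e0063000780034001800000000000000000) := Q_6 (nat_lit 106) (C_6 L42671 (C_6 L49685 (C_6 L49737 N_6))) (by decide +kernel)
theorem L49739 : W_6 (nat_lit 14) (nat_lit 0x200010001300088000000000000000000000000000000) (nat_lit 0x0) (nat_lit 0x3e001f0027c000e0073003f801fc007800200000000000000) := Q_6 (nat_lit 124) (C_6 L49589 (C_6 L49674 (C_6 L49680 (C_6 L49419 (C_6 L49126 (C_6 L49738 N_6)))))) (by decide +kernel)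
theorem L49740 : W_6 (nat_lit 6) (nat_lit 0x200010001300088000400000000000000000000000000) (nat_lit 0x0) (nat_lit 0x20003000080014000800070003800140000000000000) := Q_6 (nat_lit 89) (C_6 L49564 (C_6 L49639 (C_6 L49140 (C_6 L49634 N_6)))) (by decide +kernel)
theorem L49741 : W_6 (nat_lit 3) (nat_lit 0x2100178013400d8001c00000000000000000000000000) (nat_lit 0x0) (nat_lit 0x80007000080000000000000000000000000) := T_6 (nat_lit 121) (nat_lit 122) (nat_lit 2) (nat_lit 2) (nat_lit 7) L49340 (by decide +kernel)
theorem L49742 : W_6 (nat_lit 4) (nat_lit 0x2000178013400d8001c00000000000000000000000000) (nat_lit 0x0) (nat_lit 0x18000000080007000080000000000000000000000000) := T_6 (nat_lit 172) (nat_lit 171) (nat_lit 1) (nat_lit 5) (nat_lit 9) L49741 (by decide +kernel)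
theorem L49743 : W_6 (nat_lit 5) (nat_lit 0x2000178013000d8001c00000000000000000000000000) (nat_lit 0x0) (nat_lit 0x180000000e0007000080000000000000000000000000) := T_6 (nat_lit 138) (nat_lit 137) (nat_lit 0) (nat_lit 5) (nat_lit 9) L49742 (by decide +kernel)
theorem L49744 : W_6 (nat_lit 6) (nat_lit 0x2000138013000d8001c00000000000000000000000000) (nat_lit 0x0) (nat_lit 0x180040000e0007000080080000000000000000000000) := T_6 (nat_lit 158) (nat_lit 91) (nat_lit 6) (nat_lit 5) (nat_lit 9) L49743 (by decide +kernel)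
theorem L49745 : W_6 (nat_lit 7) (nat_lit 0x2000138013000d8000c00000000000000000000000000) (nat_lit 0x0) (nat_lit 0x180040000e0007003080080000000000000000000000) := T_6 (nat_lit 108) (nat_lit 109) (nat_lit 3) (nat_lit 4) (nat_lit 6) L49744 (by decide +kernel)
theorem L49746 : W_6 (nat_lit 8) (nat_lit 0x200013801300098000c00000000000000000000000000) (nat_lit 0x0) (nat_lit 0x180040000e0067003080080000000000000000000000) := T_6 (nat_lit 126) (nat_lit 125) (nat_lit 1) (nat_lit 8) (nat_lit 7) L49745 (by decide +kernel)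
theorem L49747 : W_6 (nat_lit 9) (nat_lit 0x200013801300088000c00000000000000000000000000) (nat_lit 0x0) (nat_lit 0x580040000e0077003080080000000000000000000000) := T_6 (nat_lit 124) (nat_lit 174) (nat_lit 6) (nat_lit 4) (nat_lit 10) L49746 (by decide +kernel)
theorem L49748 : W_6 (nat_lit 10) (nat_lit 0x200013801300088000400000000000000000000000000) (nat_lit 0x0) (nat_lit 0x580040000e00770038800c0000000000000000000000) := T_6 (nat_lit 107) (nat_lit 90) (nat_lit 6) (nat_lit 4) (nat_lit 9) L49747 (by decide +kernel)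
theorem L49749 : W_6 (nat_lit 11) (nat_lit 0x200013001300088000400000000000000000000000000) (nat_lit 0x0) (nat_lit 0x58004c000e00770038800c0000000000000000000000) := T_6 (nat_lit 155) (nat_lit 154) (nat_lit 2) (nat_lit 1) (nat_lit 9) L49748 (by decide +kernel)
theorem L49750 : W_6 (nat_lit 12) (nat_lit 0x200012001300088000400000000000000000000000000) (nat_lit 0x0) (nat_lit 0x78005c000e00770038800c0000000000000000000000) := T_6 (nat_lit 156) (nat_lit 173) (nat_lit 5) (nat_lit 4) (nat_lit 6) L49749 (by decide +kernel)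
theorem L49751 : W_6 (nat_lit 2) (nat_lit 0x2000160013000be000c00000000000000000000000000) (nat_lit 0x0) (nat_lit 0xe0000000000000000000000000000000000) := D_6 (nat_lit 138) (nat_lit 137) (nat_lit 139) (nat_lit 1) (nat_lit 5) (nat_lit 7) (nat_lit 2) (nat_lit 2) (nat_lit 8) (by decide +kernel)
theorem L49752 : W_6 (nat_lit 3) (nat_lit 0x20001600130009e000c00000000000000000000000000) (nat_lit 0x0) (nat_lit 0xe0060000000000000000000000000000000) := T_6 (nat_lit 125) (nat_lit 126) (nat_lit 1) (nat_lit 8) (nat_lit 7) L49751 (by decide +kernel)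
theorem L49753 : W_6 (nat_lit 4) (nat_lit 0x20001600130008e000c00000000000000000000000000) (nat_lit 0x0) (nat_lit 0xe0070001000000000000000000000000000) := T_6 (nat_lit 124) (nat_lit 108) (nat_lit 2) (nat_lit 2) (nat_lit 7) L49752 (by decide +kernel)
theorem L49754 : W_6 (nat_lit 5) (nat_lit 0x20001200130008e000c00000000000000000000000000) (nat_lit 0x0) (nat_lit 0x800040000e0070001000000000000000000000000000) := T_6 (nat_lit 158) (nat_lit 175) (nat_lit 7) (nat_lit 4) (nat_lit 6) L49753 (by decide +kernel)
theorem L49755 : W_6 (nat_lit 6) (nat_lit 0x20001200130008c000c00000000000000000000000000) (nat_lit 0x0) (nat_lit 0x800040000e0073001000000000000000000000000000) := T_6 (nat_lit 121) (nat_lit 120) (nat_lit 3) (nat_lit 1) (nat_lit 7) L49754 (by decide +kernel)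
theorem L49756 : W_6 (nat_lit 7) (nat_lit 0x20001200130008c000400000000000000000000000000) (nat_lit 0x0) (nat_lit 0x800040000e0073001800040000000000000000000000) := T_6 (nat_lit 107) (nat_lit 90) (nat_lit 6) (nat_lit 4) (nat_lit 9) L49755 (by decide +kernel)
theorem L49757 : W_6 (nat_lit 2) (nat_lit 0xa00020021001780134008d000400000000000000000000000000) (nat_lit 0x0) (nat_lit 0x140004000000000000000000000000000000000000000000000000000) := D_6 (nat_lit 206) (nat_lit 224) (nat_lit 222) (nat_lit 7) (nat_lit 2) (nat_lit 9) (nat_lit 5) (nat_lit 2) (nat_lit 9) (by decide +kernel)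
theorem L49758 : W_6 (nat_lit 3) (nat_lit 0x800020021001780134008d000400000000000000000000000000) (nat_lit 0x0) (nat_lit 0x140006000100000000000000000000000000000000000000000000000) := T_6 (nat_lit 205) (nat_lit 188) (nat_lit 5) (nat_lit 2) (nat_lit 8) L49757 (by decide +kernel)
theorem L49759 : W_6 (nat_lit 4) (nat_lit 0x20021001780134008d000400000000000000000000000000) (nat_lit 0x0) (nat_lit 0x14000e000500000000000000000000000000000000000000000000000) := T_6 (nat_lit 207) (nat_lit 190) (nat_lit 7) (nat_lit 2) (nat_lit 8) L49758 (by decide +kernel)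
theorem L49760 : W_6 (nat_lit 5) (nat_lit 0x21001780134008d000400000000000000000000000000) (nat_lit 0x0) (nat_lit 0x14000e000700000000000080000000000000000000000000000000000) := T_6 (nat_lit 189) (nat_lit 139) (nat_lit 6) (nat_lit 2) (nat_lit 11) L49759 (by decide +kernel)
theorem L49761 : W_6 (nat_lit 6) (nat_lit 0x21001780134008c000400000000000000000000000000) (nat_lit 0x0) (nat_lit 0x14000e000700000000000080003000000000000000000000000000000) := T_6 (nat_lit 120) (nat_lit 121) (nat_lit 3) (nat_lit 1) (nat_lit 7) L49760 (by decide +kernel)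
theorem L49762 : W_6 (nat_lit 7) (nat_lit 0x20001780134008c000400000000000000000000000000) (nat_lit 0x0) (nat_lit 0x14000e000700018000000080003000000000000000000000000000000) := T_6 (nat_lit 172) (nat_lit 171) (nat_lit 1) (nat_lit 5) (nat_lit 9) L49761 (by decide +kernel)
theorem L49763 : W_6 (nat_lit 8) (nat_lit 0x20001780130008c000400000000000000000000000000) (nat_lit 0x0) (nat_lit 0x14000e0007000180000000e0003000000000000000000000000000000) := T_6 (nat_lit 138) (nat_lit 137) (nat_lit 0) (nat_lit 5) (nat_lit 9) L49762 (by decide +kernel)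
theorem L49764 : W_6 (nat_lit 9) (nat_lit 0x20001380130008c000400000000000000000000000000) (nat_lit 0x0) (nat_lit 0x14000e0007000980040000e0003000000000000000000000000000000) := T_6 (nat_lit 158) (nat_lit 175) (nat_lit 7) (nat_lit 4) (nat_lit 6) L49763 (by decide +kernel)
theorem L49765 : W_6 (nat_lit 10) (nat_lit 0x20001300130008c000400000000000000000000000000) (nat_lit 0x0) (nat_lit 0x14000e000700098004c000e0003000000000000000000000000000000) := T_6 (nat_lit 155) (nat_lit 154) (nat_lit 2) (nat_lit 1) (nat_lit 9) L49764 (by decide +kernel)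
theorem L49766 : W_6 (nat_lit 11) (nat_lit 0x20001200130008c000400000000000000000000000000) (nat_lit 0x0) (nat_lit 0x14000e0007000b8005c000e0003000000000000000000000000000000) := T_6 (nat_lit 156) (nat_lit 173) (nat_lit 5) (nat_lit 4) (nat_lit 6) L49765 (by decide +kernel)
theorem L49767 : W_6 (nat_lit 2) (nat_lit 0x2000178013000bc001c00000000000000000000000000) (nat_lit 0x0) (nat_lit 0xe0000000000000000000000000000000000) := D_6 (nat_lit 138) (nat_lit 137) (nat_lit 139) (nat_lit 0) (nat_lit 5) (nat_lit 9) (nat_lit 2) (nat_lit 2) (nat_lit 8) (by decide +kernel)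
theorem L49768 : W_6 (nat_lit 3) (nat_lit 0x20001780130009c001c00000000000000000000000000) (nat_lit 0x0) (nat_lit 0xe0060000000000000000000000000000000) := T_6 (nat_lit 125) (nat_lit 126) (nat_lit 1) (nat_lit 8) (nat_lit 7) L49767 (by decide +kernel)
theorem L49769 : W_6 (nat_lit 4) (nat_lit 0x20001780130008c001c00000000000000000000000000) (nat_lit 0x0) (nat_lit 0xe0070000000080000000000000000000000) := T_6 (nat_lit 124) (nat_lit 91) (nat_lit 6) (nat_lit 5) (nat_lit 9) L49768 (by decide +kernel)
theorem L49770 : W_6 (nat_lit 5) (nat_lit 0x20001380130008c001c00000000000000000000000000) (nat_lit 0x0) (nat_lit 0x800040000e0070000000080000000000000000000000) := T_6 (nat_lit 158) (nat_lit 175) (nat_lit 7) (nat_lit 4) (nat_lit 6) L49769 (by decide +kernel)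
theorem L49771 : W_6 (nat_lit 6) (nat_lit 0x20001300130008c001c00000000000000000000000000) (nat_lit 0x0) (nat_lit 0x80004c000e0070000000080000000000000000000000) := T_6 (nat_lit 155) (nat_lit 154) (nat_lit 2) (nat_lit 1) (nat_lit 9) L49770 (by decide +kernel)
theorem L49772 : W_6 (nat_lit 7) (nat_lit 0x20001200130008c001c00000000000000000000000000) (nat_lit 0x0) (nat_lit 0xa0005c000e0070000000080000000000000000000000) := T_6 (nat_lit 156) (nat_lit 173) (nat_lit 5) (nat_lit 4) (nat_lit 6) L49771 (by decide +kernel)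
theorem L49773 : W_6 (nat_lit 8) (nat_lit 0x20001200130008c000c00000000000000000000000000) (nat_lit 0x0) (nat_lit 0xa0005c000e0070003000080000000000000000000000) := T_6 (nat_lit 108) (nat_lit 109) (nat_lit 1) (nat_lit 7) (nat_lit 6) L49772 (by decide +kernel)
theorem L49774 : W_6 (nat_lit 9) (nat_lit 0x20001200130008c000400000000000000000000000000) (nat_lit 0x0) (nat_lit 0xa0005c000e00700038000c0000000000000000000000) := T_6 (nat_lit 107) (nat_lit 90) (nat_lit 6) (nat_lit 4) (nat_lit 9) L49773 (by decide +kernel)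
theorem L49775 : W_6 (nat_lit 12) (nat_lit 0x200012001300088000400000000000000000000000000) (nat_lit 0x0) (nat_lit 0x14000e0007000b8005c000e00770038000c0000000000000000000000) := Q_6 (nat_lit 122) (C_6 L49222 (C_6 L49756 (C_6 L49766 (C_6 L49774 N_6)))) (by decide +kernel)
theorem L49776 : W_6 (nat_lit 2) (nat_lit 0x240012001300088000c00000000000000000000000000) (nat_lit 0x0) (nat_lit 0x1000080004000000000000000000000000000000000000000) := D_6 (nat_lit 175) (nat_lit 192) (nat_lit 158) (nat_lit 7) (nat_lit 4) (nat_lit 7) (nat_lit 7) (nat_lit 4) (nat_lit 6) (by decide +kernel)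
theorem L49777 : W_6 (nat_lit 3) (nat_lit 0x200012001300088000c00000000000000000000000000) (nat_lit 0x0) (nat_lit 0x10000c0004000000010000000000000000000000000000000) := T_6 (nat_lit 174) (nat_lit 124) (nat_lit 6) (nat_lit 4) (nat_lit 10) L49776 (by decide +kernel)
theorem L49778 : W_6 (nat_lit 4) (nat_lit 0x200012001300088000400000000000000000000000000) (nat_lit 0x0) (nat_lit 0x10000c0004000000010000800040000000000000000000000) := T_6 (nat_lit 107) (nat_lit 90) (nat_lit 6) (nat_lit 4) (nat_lit 9) L49777 (by decide +kernel)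
theorem L49779 : W_6 (nat_lit 13) (nat_lit 0x200010001300088000400000000000000000000000000) (nat_lit 0x0) (nat_lit 0x14000e0017001f8007c000e00770038800c0000000000000000000000) := Q_6 (nat_lit 157) (C_6 L49625 (C_6 L49750 (C_6 L49775 (C_6 L47953 (C_6 L49778 N_6))))) (by decide +kernel)
theorem L49780 : W_6 (nat_lit 14) (nat_lit 0x200010001300088000000000000000000000000000000) (nat_lit 0x0) (nat_lit 0x14000e0017001f8007c000e0077003c800f0003800140000000000000) := Q_6 (nat_lit 106) (C_6 L49740 (C_6 L49661 (C_6 L49565 (C_6 L49145 (C_6 L49779 N_6))))) (by decide +kernel)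
theorem L49781 : W_6 (nat_lit 2) (nat_lit 0x200010001300098000c00038002000000000000000000) (nat_lit 0x0) (nat_lit 0x3200000000000000000000000000) := D_6 (nat_lit 108) (nat_lit 109) (nat_lit 105) (nat_lit 0) (nat_lit 7) (nat_lit 6) (nat_lit 0) (nat_lit 6) (nat_lit 6) (by decide +kernel)
theorem L49782 : W_6 (nat_lit 3) (nat_lit 0x200010001300098000c00030002000000000000000000) (nat_lit 0x0) (nat_lit 0x320000c000000000000000000000) := T_6 (nat_lit 87) (nat_lit 86) (nat_lit 3) (nat_lit 1) (nat_lit 5) L49781 (by decide +kernel)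
theorem L49783 : W_6 (nat_lit 4) (nat_lit 0x200010001300098000c00020002000000000000000000) (nat_lit 0x0) (nat_lit 0x320001c000800000000000000000) := T_6 (nat_lit 88) (nat_lit 71) (nat_lit 4) (nat_lit 4) (nat_lit 8) L49782 (by decide +kernel)
theorem L49784 : W_6 (nat_lit 5) (nat_lit 0x200010001300098000c00000002000000000000000000) (nat_lit 0x0) (nat_lit 0x320003c001800000000000000000) := T_6 (nat_lit 89) (nat_lit 72) (nat_lit 7) (nat_lit 4) (nat_lit 4) L49783 (by decide +kernel)
theorem L49785 : W_6 (nat_lit 6) (nat_lit 0x200010001300098000c00000000000000000000000000) (nat_lit 0x0) (nat_lit 0x320007c003800000000000000000) := T_6 (nat_lit 73) (nat_lit 90) (nat_lit 5) (nat_lit 5) (nat_lit 4) L49784 (by decide +kernel)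
theorem L49786 : W_6 (nat_lit 2) (nat_lit 0x2000100013000d8000e000c0001000000000000000000) (nat_lit 0x0) (nat_lit 0x1000300000000000000000000000) := D_6 (nat_lit 92) (nat_lit 93) (nat_lit 108) (nat_lit 1) (nat_lit 8) (nat_lit 5) (nat_lit 2) (nat_lit 3) (nat_lit 6) (by decide +kernel)
theorem L49787 : W_6 (nat_lit 3) (nat_lit 0x2000100013000d8000c000c0001000000000000000000) (nat_lit 0x0) (nat_lit 0x1300300000000000000000000000) := T_6 (nat_lit 105) (nat_lit 104) (nat_lit 2) (nat_lit 2) (nat_lit 6) L49786 (by decide +kernel)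
theorem L49788 : W_6 (nat_lit 4) (nat_lit 0x2000100013000d8000c00040001000000000000000000) (nat_lit 0x0) (nat_lit 0x1300380004000000000000000000) := T_6 (nat_lit 91) (nat_lit 74) (nat_lit 6) (nat_lit 5) (nat_lit 8) L49787 (by decide +kernel)
theorem L49789 : W_6 (nat_lit 5) (nat_lit 0x2000100013000d8000c00000001000000000000000000) (nat_lit 0x0) (nat_lit 0x13003c0006000000000000000000) := T_6 (nat_lit 90) (nat_lit 73) (nat_lit 5) (nat_lit 5) (nat_lit 4) L49788 (by decide +kernel)
theorem L49790 : W_6 (nat_lit 6) (nat_lit 0x200010001300098000c00000001000000000000000000) (nat_lit 0x0) (nat_lit 0x600013003c0006000000000000000000) := T_6 (nat_lit 126) (nat_lit 125) (nat_lit 1) (nat_lit 8) (nat_lit 7) L49789 (by decide +kernel)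
theorem L49791 : W_6 (nat_lit 7) (nat_lit 0x200010001300098000c00000000000000000000000000) (nat_lit 0x0) (nat_lit 0x600013003e0007000000000000000000) := T_6 (nat_lit 72) (nat_lit 89) (nat_lit 7) (nat_lit 4) (nat_lit 4) L49790 (by decide +kernel)
theorem L49792 : W_6 (nat_lit 2) (nat_lit 0x2000100013000d8000c00038000000000000000000000) (nat_lit 0x0) (nat_lit 0x3200000000000000000000000000) := D_6 (nat_lit 108) (nat_lit 109) (nat_lit 105) (nat_lit 3) (nat_lit 4) (nat_lit 6) (nat_lit 0) (nat_lit 6) (nat_lit 6) (by decide +kernel)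
theorem L49793 : W_6 (nat_lit 3) (nat_lit 0x2000100013000d8000c00030000000000000000000000) (nat_lit 0x0) (nat_lit 0x320000c000000000000000000000) := T_6 (nat_lit 87) (nat_lit 86) (nat_lit 3) (nat_lit 1) (nat_lit 5) L49792 (by decide +kernel)
theorem L49794 : W_6 (nat_lit 4) (nat_lit 0x2000100013000d8000c00020000000000000000000000) (nat_lit 0x0) (nat_lit 0x320001c000800000000000000000) := T_6 (nat_lit 88) (nat_lit 71) (nat_lit 4) (nat_lit 4) (nat_lit 8) L49793 (by decide +kernel)
theorem L49795 : W_6 (nat_lit 5) (nat_lit 0x200010001300098000c00020000000000000000000000) (nat_lit 0x0) (nat_lit 0x6000320001c000800000000000000000) := T_6 (nat_lit 126) (nat_lit 125) (nat_lit 1) (nat_lit 8) (nat_lit 7) L49794 (by decide +kernel)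
theorem L49796 : W_6 (nat_lit 6) (nat_lit 0x200010001300098000c00000000000000000000000000) (nat_lit 0x0) (nat_lit 0x6000320003c001800000000000000000) := T_6 (nat_lit 89) (nat_lit 72) (nat_lit 7) (nat_lit 4) (nat_lit 4) L49795 (by decide +kernel)
theorem L49797 : W_6 (nat_lit 2) (nat_lit 0x2000100013000d8000c000e0000000000000000000000) (nat_lit 0x0) (nat_lit 0x300100000000000000000000000) := D_6 (nat_lit 105) (nat_lit 104) (nat_lit 92) (nat_lit 2) (nat_lit 2) (nat_lit 6) (nat_lit 1) (nat_lit 7) (nat_lit 5) (by decide +kernel)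
theorem L49798 : W_6 (nat_lit 3) (nat_lit 0x2000100013000d8000c00060000000000000000000000) (nat_lit 0x0) (nat_lit 0x300180004000000000000000000) := T_6 (nat_lit 91) (nat_lit 74) (nat_lit 6) (nat_lit 5) (nat_lit 8) L49797 (by decide +kernel)
theorem L49799 : W_6 (nat_lit 4) (nat_lit 0x2000100013000d8000c00040000000000000000000000) (nat_lit 0x0) (nat_lit 0x3001a0005000000000000000000) := T_6 (nat_lit 89) (nat_lit 72) (nat_lit 7) (nat_lit 4) (nat_lit 4) L49798 (by decide +kernel)
theorem L49800 : W_6 (nat_lit 5) (nat_lit 0x2000100013000d8000c00000000000000000000000000) (nat_lit 0x0) (nat_lit 0x3001e0007000000000000000000) := T_6 (nat_lit 90) (nat_lit 73) (nat_lit 5) (nat_lit 5) (nat_lit 4) L49799 (by decide +kernel)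
theorem L49801 : W_6 (nat_lit 6) (nat_lit 0x200010001300098000c00000000000000000000000000) (nat_lit 0x0) (nat_lit 0x600003001e0007000000000000000000) := T_6 (nat_lit 126) (nat_lit 125) (nat_lit 1) (nat_lit 8) (nat_lit 7) L49800 (by decide +kernel)
theorem L49802 : W_6 (nat_lit 3) (nat_lit 0x2000100013000da001c00020000000000000000000000) (nat_lit 0x0) (nat_lit 0x58002800000000000000000) := T_6 (nat_lit 90) (nat_lit 73) (nat_lit 6) (nat_lit 4) (nat_lit 8) L45977 (by decide +kernel)
theorem L49803 : W_6 (nat_lit 4) (nat_lit 0x2000100013000da001c00000000000000000000000000) (nat_lit 0x0) (nat_lit 0x78003800000000000000000) := T_6 (nat_lit 89) (nat_lit 72) (nat_lit 7) (nat_lit 4) (nat_lit 4) L49802 (by decide +kernel)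
theorem L49804 : W_6 (nat_lit 5) (nat_lit 0x2000100013000d8001c00000000000000000000000000) (nat_lit 0x0) (nat_lit 0x6000000078003800000000000000000) := T_6 (nat_lit 121) (nat_lit 122) (nat_lit 2) (nat_lit 2) (nat_lit 7) L49803 (by decide +kernel)
theorem L49805 : W_6 (nat_lit 6) (nat_lit 0x2000100013000d8000c00000000000000000000000000) (nat_lit 0x0) (nat_lit 0x6003000078003800000000000000000) := T_6 (nat_lit 108) (nat_lit 109) (nat_lit 3) (nat_lit 4) (nat_lit 6) L49804 (by decide +kernel)
theorem L49806 : W_6 (nat_lit 7) (nat_lit 0x200010001300098000c00000000000000000000000000) (nat_lit 0x0) (nat_lit 0x66003000078003800000000000000000) := T_6 (nat_lit 126) (nat_lit 125) (nat_lit 1) (nat_lit 8) (nat_lit 7) L49805 (by decide +kernel)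
theorem L49807 : W_6 (nat_lit 8) (nat_lit 0x200010001300098000800000000000000000000000000) (nat_lit 0x0) (nat_lit 0x660037003fc007800000000000000000) := Q_6 (nat_lit 106) (C_6 L49785 (C_6 L49791 (C_6 L49796 (C_6 L49801 (C_6 L42689 (C_6 L49806 N_6)))))) (by decide +kernel)
theorem L49808 : W_6 (nat_lit 2) (nat_lit 0x2400100013800bc001a00010004000000000000000000) (nat_lit 0x0) (nat_lit 0x400008000400000000000000000) := D_6 (nat_lit 87) (nat_lit 70) (nat_lit 106) (nat_lit 4) (nat_lit 3) (nat_lit 8) (nat_lit 0) (nat_lit 6) (nat_lit 6) (by decide +kernel)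
theorem L49809 : W_6 (nat_lit 3) (nat_lit 0x2400100013800bc001a00000004000000000000000000) (nat_lit 0x0) (nat_lit 0x400018000c00000000000000000) := T_6 (nat_lit 88) (nat_lit 71) (nat_lit 7) (nat_lit 3) (nat_lit 4) L49808 (by decide +kernel)
theorem L49810 : W_6 (nat_lit 4) (nat_lit 0x2400100013800bc001800000004000000000000000000) (nat_lit 0x0) (nat_lit 0x700018000c00000000000000000) := T_6 (nat_lit 105) (nat_lit 104) (nat_lit 0) (nat_lit 6) (nat_lit 7) L49809 (by decide +kernel)
theorem L49811 : W_6 (nat_lit 5) (nat_lit 0x2400100013000bc001800000004000000000000000000) (nat_lit 0x0) (nat_lit 0xc0000000700018000c00000000000000000) := T_6 (nat_lit 139) (nat_lit 138) (nat_lit 2) (nat_lit 2) (nat_lit 8) L49810 (by decide +kernel)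
theorem L49812 : W_6 (nat_lit 6) (nat_lit 0x2400100013000bc001800000000000000000000000000) (nat_lit 0x0) (nat_lit 0xc0000000700098004c00000000000000000) := T_6 (nat_lit 74) (nat_lit 91) (nat_lit 5) (nat_lit 6) (nat_lit 4) L49811 (by decide +kernel)
theorem L49813 : W_6 (nat_lit 7) (nat_lit 0x2400100013000bc000800000000000000000000000000) (nat_lit 0x0) (nat_lit 0xc0000003700098004c00000000000000000) := T_6 (nat_lit 108) (nat_lit 109) (nat_lit 2) (nat_lit 3) (nat_lit 7) L49812 (by decide +kernel)
theorem L49814 : W_6 (nat_lit 8) (nat_lit 0x24001000130009c000800000000000000000000000000) (nat_lit 0x0) (nat_lit 0xc0060003700098004c00000000000000000) := T_6 (nat_lit 125) (nat_lit 126) (nat_lit 1) (nat_lit 8) (nat_lit 7) L49813 (by decide +kernel)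
theorem L49815 : W_6 (nat_lit 9) (nat_lit 0x20001000130009c000800000000000000000000000000) (nat_lit 0x0) (nat_lit 0x400020000c0060003700098004c00000000000000000) := T_6 (nat_lit 174) (nat_lit 157) (nat_lit 6) (nat_lit 4) (nat_lit 10) L49814 (by decide +kernel)
theorem L49816 : W_6 (nat_lit 10) (nat_lit 0x200010001300098000800000000000000000000000000) (nat_lit 0x0) (nat_lit 0x400020000e0067003700098004c00000000000000000) := Q_6 (nat_lit 122) (C_6 L49430 (C_6 L49420 (C_6 L49815 N_6))) (by decide +kernel)
theorem L49817 : W_6 (nat_lit 11) (nat_lit 0x200010001300098000000000000000000000000000000) (nat_lit 0x0) (nat_lit 0x400020000e0067003f003fc007c00000000000000000) := Q_6 (nat_lit 107) (C_6 L45167 (C_6 L49807 (C_6 L49816 N_6))) (by decide +kernel)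
theorem L49818 : W_6 (nat_lit 10) (nat_lit 0x200010001300098000000000000000000000000000000) (nat_lit 0x0) (nat_lit 0x800060000c0060001f003f8007800000000000000000) := Q_6 (nat_lit 106) (C_6 L49679 (C_6 L42671 (C_6 L49518 N_6))) (by decide +kernel)
theorem L49819 : W_6 (nat_lit 2) (nat_lit 0x2000100013000d8000600070000000000000000000000) (nat_lit 0x0) (nat_lit 0x180080000000000000000000000) := D_6 (nat_lit 104) (nat_lit 103) (nat_lit 91) (nat_lit 3) (nat_lit 1) (nat_lit 6) (nat_lit 1) (nat_lit 6) (nat_lit 5) (by decide +kernel)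
theorem L49820 : W_6 (nat_lit 3) (nat_lit 0x2000100013000d8000600030000000000000000000000) (nat_lit 0x0) (nat_lit 0x1800c0002000000000000000000) := T_6 (nat_lit 90) (nat_lit 73) (nat_lit 6) (nat_lit 4) (nat_lit 8) L49819 (by decide +kernel)
theorem L49821 : W_6 (nat_lit 4) (nat_lit 0x2000100013000d8000400030000000000000000000000) (nat_lit 0x0) (nat_lit 0x20000000000003800c0002000000000000000000) := T_6 (nat_lit 105) (nat_lit 157) (nat_lit 4) (nat_lit 4) (nat_lit 9) L49820 (by decide +kernel)
theorem L49822 : W_6 (nat_lit 5) (nat_lit 0x2000100013000d8000400020000000000000000000000) (nat_lit 0x0) (nat_lit 0x20000000000003800d0002800000000000000000) := T_6 (nat_lit 88) (nat_lit 71) (nat_lit 4) (nat_lit 4) (nat_lit 8) L49821 (by decide +kernel)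
theorem L49823 : W_6 (nat_lit 6) (nat_lit 0x2000100013000d8000400000000000000000000000000) (nat_lit 0x0) (nat_lit 0x20000000000003800f0003800000000000000000) := T_6 (nat_lit 89) (nat_lit 72) (nat_lit 7) (nat_lit 4) (nat_lit 4) L49822 (by decide +kernel)
theorem L49824 : W_6 (nat_lit 7) (nat_lit 0x200010001300098000400000000000000000000000000) (nat_lit 0x0) (nat_lit 0x20000000600003800f0003800000000000000000) := T_6 (nat_lit 126) (nat_lit 125) (nat_lit 1) (nat_lit 8) (nat_lit 7) L49823 (by decide +kernel)
theorem L49825 : W_6 (nat_lit 2) (nat_lit 0x280012001300098000680000000000000000000000000) (nat_lit 0x0) (nat_lit 0x1000040000000000004000000000000000000000000000000) := D_6 (nat_lit 174) (nat_lit 122) (nat_lit 192) (nat_lit 4) (nat_lit 4) (nat_lit 10) (nat_lit 7) (nat_lit 4) (nat_lit 7) (by decide +kernel)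
theorem L49826 : W_6 (nat_lit 3) (nat_lit 0x280010001300098000680000000000000000000000000) (nat_lit 0x0) (nat_lit 0x1000040002000000004000000010000000000000000000000) := T_6 (nat_lit 157) (nat_lit 88) (nat_lit 4) (nat_lit 4) (nat_lit 9) L49825 (by decide +kernel)
theorem L49827 : W_6 (nat_lit 4) (nat_lit 0x280010001300098000600000000000000000000000000) (nat_lit 0x0) (nat_lit 0x1000040002000000004000180010000000000000000000000) := T_6 (nat_lit 103) (nat_lit 104) (nat_lit 3) (nat_lit 1) (nat_lit 6) L49826 (by decide +kernel)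
theorem L49828 : W_6 (nat_lit 5) (nat_lit 0x200010001300098000600000000000000000000000000) (nat_lit 0x0) (nat_lit 0x10000c0006000000004000180010000000000000000000000) := T_6 (nat_lit 175) (nat_lit 158) (nat_lit 4) (nat_lit 5) (nat_lit 10) L49827 (by decide +kernel)
theorem L49829 : W_6 (nat_lit 2) (nat_lit 0x2800120013000d8000600000000000000000000000000) (nat_lit 0x0) (nat_lit 0x1000040000000000004000000000000000000000000000000) := D_6 (nat_lit 174) (nat_lit 122) (nat_lit 192) (nat_lit 4) (nat_lit 4) (nat_lit 10) (nat_lit 7) (nat_lit 4) (nat_lit 7) (by decide +kernel)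
theorem L49830 : W_6 (nat_lit 3) (nat_lit 0x2800100013000d8000600000000000000000000000000) (nat_lit 0x0) (nat_lit 0x1000040002000000004000000010000000000000000000000) := T_6 (nat_lit 157) (nat_lit 88) (nat_lit 4) (nat_lit 4) (nat_lit 9) L49829 (by decide +kernel)
theorem L49831 : W_6 (nat_lit 4) (nat_lit 0x280010001300098000600000000000000000000000000) (nat_lit 0x0) (nat_lit 0x1000040002000000064000000010000000000000000000000) := T_6 (nat_lit 126) (nat_lit 125) (nat_lit 1) (nat_lit 8) (nat_lit 7) L49830 (by decide +kernel)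
theorem L49832 : W_6 (nat_lit 5) (nat_lit 0x200010001300098000600000000000000000000000000) (nat_lit 0x0) (nat_lit 0x10000c0006000000064000000010000000000000000000000) := T_6 (nat_lit 175) (nat_lit 158) (nat_lit 4) (nat_lit 5) (nat_lit 10) L49831 (by decide +kernel)
theorem L49833 : W_6 (nat_lit 9) (nat_lit 0x200010001300098000400000000000000000000000000) (nat_lit 0x0) (nat_lit 0x10000c00068000c0066000380018000800040000000000000) := Q_6 (nat_lit 105) (C_6 L49828 (C_6 L49493 (C_6 L49496 (C_6 L49503 (C_6 L49832 N_6))))) (by decide +kernel)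
theorem L49834 : W_6 (nat_lit 10) (nat_lit 0x200010001300098000000000000000000000000000000) (nat_lit 0x0) (nat_lit 0x10000c00068000c00660007800f8003800040000000000000) := Q_6 (nat_lit 106) (C_6 L42671 (C_6 L49824 (C_6 L49833 N_6))) (by decide +kernel)
theorem L49835 : W_6 (nat_lit 10) (nat_lit 0x200010001300098000000000000000000000000000000) (nat_lit 0x0) (nat_lit 0x10000c00068000c0066000f80078003800040000000000000) := Q_6 (nat_lit 106) (C_6 L49679 (C_6 L49833 (C_6 L42671 N_6))) (by decide +kernel)
theorem L49836 : W_6 (nat_lit 12) (nat_lit 0x200010001300088000000000000000000000000000000) (nat_lit 0x0) (nat_lit 0x38001c00268008e0377003f803fc00fc00040000000000000) := Q_6 (nat_lit 124) (C_6 L49126 (C_6 L49817 (C_6 L49116 (C_6 L49680 (C_6 L49818 (C_6 L49614 (C_6 L49834 (C_6 L49669 (C_6 L49705 (C_6 L49835 (C_6 L48991 N_6))))))))))) (by decide +kernel)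
theorem L49837 : W_6 (nat_lit 2) (nat_lit 0x2000100013800b8000c000e0000000000000000000000) (nat_lit 0x0) (nat_lit 0x300100000000000000000000000) := D_6 (nat_lit 105) (nat_lit 104) (nat_lit 92) (nat_lit 3) (nat_lit 2) (nat_lit 6) (nat_lit 1) (nat_lit 7) (nat_lit 5) (by decide +kernel)
theorem L49838 : W_6 (nat_lit 3) (nat_lit 0x2000100013800b80008000e0000000000000000000000) (nat_lit 0x0) (nat_lit 0x1000000000000700100000000000000000000000) := T_6 (nat_lit 106) (nat_lit 156) (nat_lit 5) (nat_lit 4) (nat_lit 5) L49837 (by decide +kernel)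
theorem L49839 : W_6 (nat_lit 4) (nat_lit 0x2000100013800b80008000c0000000000000000000000) (nat_lit 0x0) (nat_lit 0x1000000000000700120001000000000000000000) := T_6 (nat_lit 89) (nat_lit 72) (nat_lit 4) (nat_lit 5) (nat_lit 8) L49838 (by decide +kernel)
theorem L49840 : W_6 (nat_lit 5) (nat_lit 0x2000100013800b8000800040000000000000000000000) (nat_lit 0x0) (nat_lit 0x10000000000007001a0005000000000000000000) := T_6 (nat_lit 91) (nat_lit 74) (nat_lit 6) (nat_lit 5) (nat_lit 8) L49839 (by decide +kernel)
theorem L49841 : W_6 (nat_lit 6) (nat_lit 0x2000100013000b8000800040000000000000000000000) (nat_lit 0x0) (nat_lit 0x10000c00000007001a0005000000000000000000) := T_6 (nat_lit 139) (nat_lit 138) (nat_lit 2) (nat_lit 2) (nat_lit 8) L49840 (by decide +kernel)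
theorem L49842 : W_6 (nat_lit 7) (nat_lit 0x2000100013000b8000800000000000000000000000000) (nat_lit 0x0) (nat_lit 0x10000c00000007001e0007000000000000000000) := T_6 (nat_lit 90) (nat_lit 73) (nat_lit 5) (nat_lit 5) (nat_lit 4) L49841 (by decide +kernel)
theorem L49843 : W_6 (nat_lit 8) (nat_lit 0x200010001300098000800000000000000000000000000) (nat_lit 0x0) (nat_lit 0x10000c00600007001e0007000000000000000000) := T_6 (nat_lit 125) (nat_lit 126) (nat_lit 1) (nat_lit 8) (nat_lit 7) L49842 (by decide +kernel)
theorem L49844 : W_6 (nat_lit 2) (nat_lit 0x2400100013800bc001e00080000000000000000000000) (nat_lit 0x0) (nat_lit 0x1000000000000000020001000000000000000000) := D_6 (nat_lit 89) (nat_lit 156) (nat_lit 72) (nat_lit 6) (nat_lit 3) (nat_lit 9) (nat_lit 7) (nat_lit 4) (nat_lit 4) (by decide +kernel)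
theorem L49845 : W_6 (nat_lit 3) (nat_lit 0x2400100013800bc001a00080000000000000000000000) (nat_lit 0x0) (nat_lit 0x1000000000000400120001000000000000000000) := T_6 (nat_lit 106) (nat_lit 92) (nat_lit 2) (nat_lit 3) (nat_lit 6) L49844 (by decide +kernel)
theorem L49846 : W_6 (nat_lit 4) (nat_lit 0x2400100013800bc001800080000000000000000000000) (nat_lit 0x0) (nat_lit 0x1000000000000700120001000000000000000000) := T_6 (nat_lit 105) (nat_lit 104) (nat_lit 0) (nat_lit 6) (nat_lit 7) L49845 (by decide +kernel)
theorem L49847 : W_6 (nat_lit 5) (nat_lit 0x2400100013000bc001800080000000000000000000000) (nat_lit 0x0) (nat_lit 0x10000c0000000700120001000000000000000000) := T_6 (nat_lit 139) (nat_lit 138) (nat_lit 2) (nat_lit 2) (nat_lit 8) L49846 (by decide +kernel)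
theorem L49848 : W_6 (nat_lit 6) (nat_lit 0x2400100013000bc001800000000000000000000000000) (nat_lit 0x0) (nat_lit 0x10000c00000007001a0005000000000000000000) := T_6 (nat_lit 91) (nat_lit 74) (nat_lit 5) (nat_lit 6) (nat_lit 4) L49847 (by decide +kernel)
theorem L49849 : W_6 (nat_lit 7) (nat_lit 0x2400100013000bc000800000000000000000000000000) (nat_lit 0x0) (nat_lit 0x10000c00000037001a0005000000000000000000) := T_6 (nat_lit 108) (nat_lit 109) (nat_lit 2) (nat_lit 3) (nat_lit 7) L49848 (by decide +kernel)
theorem L49850 : W_6 (nat_lit 8) (nat_lit 0x24001000130009c000800000000000000000000000000) (nat_lit 0x0) (nat_lit 0x10000c00600037001a0005000000000000000000) := T_6 (nat_lit 125) (nat_lit 126) (nat_lit 1) (nat_lit 8) (nat_lit 7) L49849 (by decide +kernel)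
theorem L49851 : W_6 (nat_lit 9) (nat_lit 0x20001000130009c000800000000000000000000000000) (nat_lit 0x0) (nat_lit 0x400030000c00600037001a0005000000000000000000) := T_6 (nat_lit 174) (nat_lit 157) (nat_lit 6) (nat_lit 4) (nat_lit 10) L49850 (by decide +kernel)
theorem L49852 : W_6 (nat_lit 10) (nat_lit 0x200010001300098000800000000000000000000000000) (nat_lit 0x0) (nat_lit 0x400030000e00670037001a0005000000000000000000) := Q_6 (nat_lit 122) (C_6 L49430 (C_6 L49420 (C_6 L49851 N_6))) (by decide +kernel)
theorem L49853 : W_6 (nat_lit 11) (nat_lit 0x200010001300098000000000000000000000000000000) (nat_lit 0x0) (nat_lit 0x400030000e0067003f001e0007000000000000000000) := Q_6 (nat_lit 107) (C_6 L45167 (C_6 L49843 (C_6 L49852 N_6))) (by decide +kernel)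
theorem L49854 : W_6 (nat_lit 7) (nat_lit 0x200010001300098000000000000000000000000000000) (nat_lit 0x0) (nat_lit 0xa0007000080060003c000e0003000000000000000000) := Q_6 (nat_lit 106) (C_6 L49519 (C_6 L42671 (C_6 L45010 N_6))) (by decide +kernel)
theorem L49855 : W_6 (nat_lit 2) (nat_lit 0x240012001300098000400000000000000000000000000) (nat_lit 0x0) (nat_lit 0x400020001000000000000000000000000000000000000000) := D_6 (nat_lit 173) (nat_lit 156) (nat_lit 190) (nat_lit 5) (nat_lit 4) (nat_lit 6) (nat_lit 5) (nat_lit 4) (nat_lit 7) (by decide +kernel)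
theorem L49856 : W_6 (nat_lit 3) (nat_lit 0x200012001300098000400000000000000000000000000) (nat_lit 0x0) (nat_lit 0xc00060001000000000000000000000000000000000000000) := T_6 (nat_lit 174) (nat_lit 191) (nat_lit 6) (nat_lit 4) (nat_lit 11) L49855 (by decide +kernel)
theorem L49857 : W_6 (nat_lit 2) (nat_lit 0x200017801340098000400000000000000000000000000) (nat_lit 0x0) (nat_lit 0x80060000000000000000000000000000000) := D_6 (nat_lit 125) (nat_lit 126) (nat_lit 139) (nat_lit 1) (nat_lit 8) (nat_lit 7) (nat_lit 2) (nat_lit 2) (nat_lit 8) (by decide +kernel)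
theorem L49858 : W_6 (nat_lit 3) (nat_lit 0x200017801300098000400000000000000000000000000) (nat_lit 0x0) (nat_lit 0xe0060000000000000000000000000000000) := T_6 (nat_lit 138) (nat_lit 137) (nat_lit 0) (nat_lit 5) (nat_lit 9) L49857 (by decide +kernel)
theorem L49859 : W_6 (nat_lit 4) (nat_lit 0x200013801300098000400000000000000000000000000) (nat_lit 0x0) (nat_lit 0x800040000e0060000000000000000000000000000000) := T_6 (nat_lit 158) (nat_lit 175) (nat_lit 7) (nat_lit 4) (nat_lit 6) L49858 (by decide +kernel)
theorem L49860 : W_6 (nat_lit 5) (nat_lit 0x200013001300098000400000000000000000000000000) (nat_lit 0x0) (nat_lit 0x80004c000e0060000000000000000000000000000000) := T_6 (nat_lit 155) (nat_lit 154) (nat_lit 2) (nat_lit 1) (nat_lit 9) L49859 (by decide +kernel)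
theorem L49861 : W_6 (nat_lit 6) (nat_lit 0x200012001300098000400000000000000000000000000) (nat_lit 0x0) (nat_lit 0xa0005c000e0060000000000000000000000000000000) := T_6 (nat_lit 156) (nat_lit 173) (nat_lit 5) (nat_lit 4) (nat_lit 6) L49860 (by decide +kernel)
theorem L49862 : W_6 (nat_lit 7) (nat_lit 0x200010001300098000400000000000000000000000000) (nat_lit 0x0) (nat_lit 0x1c001e0007c000e0060000000000000000000000000000000) := Q_6 (nat_lit 157) (C_6 L49736 (C_6 L49856 (C_6 L49861 (C_6 L49687 N_6)))) (by decide +kernel)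
theorem L49863 : W_6 (nat_lit 10) (nat_lit 0x200010001300098000000000000000000000000000000) (nat_lit 0x0) (nat_lit 0x1c001e0007c000e0060000400060003000000000000000000) := Q_6 (nat_lit 106) (C_6 L42671 (C_6 L46139 (C_6 L49862 N_6))) (by decide +kernel)
theorem L49864 : W_6 (nat_lit 12) (nat_lit 0x200010001300088000000000000000000000000000000) (nat_lit 0x0) (nat_lit 0x3e001e0027c000e0077003f001e0007000000000000000000) := Q_6 (nat_lit 124) (C_6 L49589 (C_6 L49853 (C_6 L49126 (C_6 L49854 (C_6 L49863 N_6))))) (by decide +kernel)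
theorem L49865 : W_6 (nat_lit 15) (nat_lit 0x200010001300080000000000000000000000000000000) (nat_lit 0x0) (nat_lit 0x74003e003f001fc027e008f037f803f803fe00ff003c000e000000000) := Q_6 (nat_lit 123) (C_6 L49127 (C_6 L49147 (C_6 L49324 (C_6 L49433 (C_6 L49435 (C_6 L49532 (C_6 L49566 (C_6 L49615 (C_6 L49630 (C_6 L49663 (C_6 L49670 (C_6 L49699 (C_6 L49706 (C_6 L49715 (C_6 L49739 (C_6 L49780 (C_6 L49836 (C_6 L49864 N_6)))))))))))))))))) (by decide +kernel)
theorem L49866 : W_6 (nat_lit 2) (nat_lit 0x18002c0016001300080000000000000000000000000000000) (nat_lit 0x0) (nat_lit 0x400100001000000000000000000000000000000000000000) := D_6 (nat_lit 176) (nat_lit 156) (nat_lit 190) (nat_lit 0) (nat_lit 7) (nat_lit 10) (nat_lit 1) (nat_lit 7) (nat_lit 10) (by decide +kernel)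
theorem L49867 : W_6 (nat_lit 3) (nat_lit 0x1800240016001300080000000000000000000000000000000) (nat_lit 0x0) (nat_lit 0x400180001000000008000000000000000000000000000000) := T_6 (nat_lit 175) (nat_lit 123) (nat_lit 7) (nat_lit 4) (nat_lit 7) L49866 (by decide +kernel)
theorem L49868 : W_6 (nat_lit 4) (nat_lit 0x800240016001300080000000000000000000000000000000) (nat_lit 0x0) (nat_lit 0x20001400180001000000008000000000000000000000000000000) := T_6 (nat_lit 192) (nat_lit 209) (nat_lit 7) (nat_lit 4) (nat_lit 8) L49867 (by decide +kernel)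
theorem L49869 : W_6 (nat_lit 5) (nat_lit 0x240016001300080000000000000000000000000000000) (nat_lit 0x0) (nat_lit 0x30001c00180001000000008000000000000000000000000000000) := T_6 (nat_lit 191) (nat_lit 208) (nat_lit 6) (nat_lit 4) (nat_lit 12) L49868 (by decide +kernel)
theorem L49870 : W_6 (nat_lit 2) (nat_lit 0x240016001300080000000000000000000000000000000) (nat_lit 0x0) (nat_lit 0x20008000080000000000000000000000000000000000) := D_6 (nat_lit 159) (nat_lit 173) (nat_lit 139) (nat_lit 1) (nat_lit 7) (nat_lit 9) (nat_lit 0) (nat_lit 7) (nat_lit 9) (by decide +kernel)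
theorem L49871 : W_6 (nat_lit 6) (nat_lit 0x240012001300080000000000000000000000000000000) (nat_lit 0x0) (nat_lit 0x30001c001a000d000080008000000000000000000000000000000) := Q_6 (nat_lit 158) (C_6 L49869 (C_6 L49870 N_6)) (by decide +kernel)
theorem L49872 : W_6 (nat_lit 2) (nat_lit 0x10000800240012001300080000000000000000000000000000000) (nat_lit 0x0) (nat_lit 0x400020001000000000000000000000000000000000000000000000000) := D_6 (nat_lit 209) (nat_lit 226) (nat_lit 192) (nat_lit 7) (nat_lit 4) (nat_lit 9) (nat_lit 7) (nat_lit 4) (nat_lit 8) (by decide +kernel)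
theorem L49873 : W_6 (nat_lit 3) (nat_lit 0x800240012001300080000000000000000000000000000000) (nat_lit 0x0) (nat_lit 0x400030001000000004000000000000000000000000000000000000000) := T_6 (nat_lit 208) (nat_lit 158) (nat_lit 6) (nat_lit 4) (nat_lit 12) L49872 (by decide +kernel)
theorem L49874 : W_6 (nat_lit 4) (nat_lit 0x240012001300080000000000000000000000000000000) (nat_lit 0x0) (nat_lit 0x400030001800000004000000010000000000000000000000000000000) := T_6 (nat_lit 191) (nat_lit 124) (nat_lit 6) (nat_lit 4) (nat_lit 11) L49873 (by decide +kernel)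
theorem L49875 : W_6 (nat_lit 2) (nat_lit 0x10001800240012001380080000000000000000000000000000000) (nat_lit 0x0) (nat_lit 0x100008000400000000000000000000000000000000000000000000000) := D_6 (nat_lit 207) (nat_lit 224) (nat_lit 190) (nat_lit 5) (nat_lit 4) (nat_lit 9) (nat_lit 5) (nat_lit 4) (nat_lit 8) (by decide +kernel)
theorem L49876 : W_6 (nat_lit 3) (nat_lit 0x1800240012001380080000000000000000000000000000000) (nat_lit 0x0) (nat_lit 0x100018000400000001000000000000000000000000000000000000000) := T_6 (nat_lit 208) (nat_lit 156) (nat_lit 4) (nat_lit 4) (nat_lit 12) L49875 (by decide +kernel)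
theorem L49877 : W_6 (nat_lit 4) (nat_lit 0x1800240012001300080000000000000000000000000000000) (nat_lit 0x0) (nat_lit 0x100018000400000001000080004000000000000000000000000000000) := T_6 (nat_lit 139) (nat_lit 122) (nat_lit 4) (nat_lit 4) (nat_lit 11) L49876 (by decide +kernel)
theorem L49878 : W_6 (nat_lit 5) (nat_lit 0x800240012001300080000000000000000000000000000000) (nat_lit 0x0) (nat_lit 0x100038001400000001000080004000000000000000000000000000000) := T_6 (nat_lit 192) (nat_lit 209) (nat_lit 7) (nat_lit 4) (nat_lit 8) L49877 (by decide +kernel)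
theorem L49879 : W_6 (nat_lit 6) (nat_lit 0x240012001300080000000000000000000000000000000) (nat_lit 0x0) (nat_lit 0x100038001c00000001000080014000000000000000000000000000000) := T_6 (nat_lit 191) (nat_lit 124) (nat_lit 6) (nat_lit 4) (nat_lit 11) L49878 (by decide +kernel)
theorem L49880 : W_6 (nat_lit 2) (nat_lit 0x260012001300098000400000000000000000000000000) (nat_lit 0x0) (nat_lit 0x1000080004000000000000000000000000000000000000000) := D_6 (nat_lit 175) (nat_lit 192) (nat_lit 158) (nat_lit 7) (nat_lit 4) (nat_lit 7) (nat_lit 7) (nat_lit 4) (nat_lit 6) (by decide +kernel)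
theorem L49881 : W_6 (nat_lit 3) (nat_lit 0x260012001300098000000000000000000000000000000) (nat_lit 0x0) (nat_lit 0x1000080005000000000000400000000000000000000000000) := T_6 (nat_lit 106) (nat_lit 156) (nat_lit 5) (nat_lit 4) (nat_lit 6) L49880 (by decide +kernel)
theorem L49882 : W_6 (nat_lit 4) (nat_lit 0x260012001300088000000000000000000000000000000) (nat_lit 0x0) (nat_lit 0x1000080005000000010000c00000000000000000000000000) := T_6 (nat_lit 124) (nat_lit 107) (nat_lit 6) (nat_lit 4) (nat_lit 10) L49881 (by decide +kernel)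
theorem L49883 : W_6 (nat_lit 5) (nat_lit 0x240012001300088000000000000000000000000000000) (nat_lit 0x0) (nat_lit 0x14000a0005000000010000c00000000000000000000000000) := T_6 (nat_lit 173) (nat_lit 190) (nat_lit 5) (nat_lit 4) (nat_lit 7) L49882 (by decide +kernel)
theorem L49884 : W_6 (nat_lit 2) (nat_lit 0x3c0012001300088000000000000000000000000000000) (nat_lit 0x0) (nat_lit 0x400020008000000000000000000000000000000000000000) := D_6 (nat_lit 173) (nat_lit 190) (nat_lit 159) (nat_lit 5) (nat_lit 4) (nat_lit 7) (nat_lit 2) (nat_lit 3) (nat_lit 10) (by decide +kernel)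
theorem L49885 : W_6 (nat_lit 3) (nat_lit 0x2c0012001300088000000000000000000000000000000) (nat_lit 0x0) (nat_lit 0x400120009000000000000000000000000000000000000000) := T_6 (nat_lit 176) (nat_lit 156) (nat_lit 0) (nat_lit 7) (nat_lit 10) L49884 (by decide +kernel)
theorem L49886 : W_6 (nat_lit 4) (nat_lit 0x240012001300088000000000000000000000000000000) (nat_lit 0x0) (nat_lit 0x14001a0009000000000000000000000000000000000000000) := T_6 (nat_lit 175) (nat_lit 192) (nat_lit 7) (nat_lit 4) (nat_lit 7) L49885 (by decide +kernel)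
theorem L49887 : W_6 (nat_lit 2) (nat_lit 0x26001a001300098000400000000000000000000000000) (nat_lit 0x0) (nat_lit 0x4000200010000000000000000000000) := D_6 (nat_lit 105) (nat_lit 122) (nat_lit 88) (nat_lit 4) (nat_lit 4) (nat_lit 10) (nat_lit 4) (nat_lit 4) (nat_lit 9) (by decide +kernel)
theorem L49888 : W_6 (nat_lit 3) (nat_lit 0x26001a001300098000000000000000000000000000000) (nat_lit 0x0) (nat_lit 0x1000000004000600010000000000000000000000) := T_6 (nat_lit 106) (nat_lit 156) (nat_lit 5) (nat_lit 4) (nat_lit 6) L49887 (by decide +kernel)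
theorem L49889 : W_6 (nat_lit 4) (nat_lit 0x260012001300098000000000000000000000000000000) (nat_lit 0x0) (nat_lit 0xd000000004000600010000000000000000000000) := T_6 (nat_lit 159) (nat_lit 158) (nat_lit 1) (nat_lit 7) (nat_lit 9) L49888 (by decide +kernel)
theorem L49890 : W_6 (nat_lit 5) (nat_lit 0x240012001300098000000000000000000000000000000) (nat_lit 0x0) (nat_lit 0x40002000d000000004000600010000000000000000000000) := T_6 (nat_lit 173) (nat_lit 190) (nat_lit 5) (nat_lit 4) (nat_lit 7) L49889 (by decide +kernel)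
theorem L49891 : W_6 (nat_lit 6) (nat_lit 0x240012001300088000000000000000000000000000000) (nat_lit 0x0) (nat_lit 0x40002000d000000014000e00010000000000000000000000) := T_6 (nat_lit 124) (nat_lit 107) (nat_lit 6) (nat_lit 4) (nat_lit 10) L49890 (by decide +kernel)
theorem L49892 : W_6 (nat_lit 2) (nat_lit 0x2c001600130009d000000000000000000000000000000) (nat_lit 0x0) (nat_lit 0x8000880000000000000000000000000000000000) := D_6 (nat_lit 159) (nat_lit 143) (nat_lit 139) (nat_lit 2) (nat_lit 4) (nat_lit 9) (nat_lit 0) (nat_lit 7) (nat_lit 9) (by decide +kernel)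
theorem L49893 : W_6 (nat_lit 3) (nat_lit 0x2c001200130009d000000000000000000000000000000) (nat_lit 0x0) (nat_lit 0xc000880000000400000000000000000000000000) := T_6 (nat_lit 158) (nat_lit 106) (nat_lit 7) (nat_lit 4) (nat_lit 6) L49892 (by decide +kernel)
theorem L49894 : W_6 (nat_lit 4) (nat_lit 0x24001200130009d000000000000000000000000000000) (nat_lit 0x0) (nat_lit 0x100008000c000880000000400000000000000000000000000) := T_6 (nat_lit 175) (nat_lit 192) (nat_lit 7) (nat_lit 4) (nat_lit 7) L49893 (by decide +kernel)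
theorem L49895 : W_6 (nat_lit 5) (nat_lit 0x24001200130008d000000000000000000000000000000) (nat_lit 0x0) (nat_lit 0x100008000c000880010000c00000000000000000000000000) := T_6 (nat_lit 124) (nat_lit 107) (nat_lit 6) (nat_lit 4) (nat_lit 10) L49894 (by decide +kernel)
theorem L49896 : W_6 (nat_lit 6) (nat_lit 0x24001200130008c000000000000000000000000000000) (nat_lit 0x0) (nat_lit 0x100008000c000880013000c00000000000000000000000000) := T_6 (nat_lit 120) (nat_lit 121) (nat_lit 3) (nat_lit 1) (nat_lit 7) L49895 (by decide +kernel)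
theorem L49897 : W_6 (nat_lit 7) (nat_lit 0x240012001300088000000000000000000000000000000) (nat_lit 0x0) (nat_lit 0x100008000c000880017000e00000000000000000000000000) := T_6 (nat_lit 122) (nat_lit 105) (nat_lit 4) (nat_lit 4) (nat_lit 10) L49896 (by decide +kernel)
theorem L49898 : W_6 (nat_lit 8) (nat_lit 0x240012001300080000000000000000000000000000000) (nat_lit 0x0) (nat_lit 0x14001a000d00088001f000e00010000000000000000000000) := Q_6 (nat_lit 123) (C_6 L49883 (C_6 L49886 (C_6 L49891 (C_6 L49897 N_6)))) (by decide +kernel)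
theorem L49899 : W_6 (nat_lit 2) (nat_lit 0x10000800240012001300080000000000000000000000000000000) (nat_lit 0x0) (nat_lit 0x100008000400000000000000000000000000000000000000000000000) := D_6 (nat_lit 207) (nat_lit 190) (nat_lit 224) (nat_lit 5) (nat_lit 4) (nat_lit 8) (nat_lit 5) (nat_lit 4) (nat_lit 9) (by decide +kernel)
theorem L49900 : W_6 (nat_lit 3) (nat_lit 0x800240012001300080000000000000000000000000000000) (nat_lit 0x0) (nat_lit 0x100018000400000004000000000000000000000000000000000000000) := T_6 (nat_lit 208) (nat_lit 158) (nat_lit 6) (nat_lit 4) (nat_lit 12) L49899 (by decide +kernel)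
theorem L49901 : W_6 (nat_lit 4) (nat_lit 0x240012001300080000000000000000000000000000000) (nat_lit 0x0) (nat_lit 0x100018000c00000004000000010000000000000000000000000000000) := T_6 (nat_lit 191) (nat_lit 124) (nat_lit 6) (nat_lit 4) (nat_lit 11) L49900 (by decide +kernel)
theorem L49902 : W_6 (nat_lit 9) (nat_lit 0x200012001300080000000000000000000000000000000) (nat_lit 0x0) (nat_lit 0x500038001c001e000d00088001f000e00010000000000000000000000) := Q_6 (nat_lit 174) (C_6 L49871 (C_6 L49874 (C_6 L49879 (C_6 L49898 (C_6 L49901 N_6))))) (by decide +kernel)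
theorem L49903 : W_6 (nat_lit 2) (nat_lit 0xc00340012001300088000000000000000000000000000000) (nat_lit 0x0) (nat_lit 0x80004000200000000000000000000000000) := D_6 (nat_lit 122) (nat_lit 139) (nat_lit 105) (nat_lit 4) (nat_lit 4) (nat_lit 11) (nat_lit 4) (nat_lit 4) (nat_lit 10) (by decide +kernel)
theorem L49904 : W_6 (nat_lit 3) (nat_lit 0xc00340012001300080000000000000000000000000000000) (nat_lit 0x0) (nat_lit 0x2000000008000c000200000000000000000000000000) := T_6 (nat_lit 123) (nat_lit 173) (nat_lit 5) (nat_lit 4) (nat_lit 7) L49903 (by decide +kernel)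
theorem L49905 : W_6 (nat_lit 4) (nat_lit 0xc00240012001300080000000000000000000000000000000) (nat_lit 0x0) (nat_lit 0x1a000000008000c000200000000000000000000000000) := T_6 (nat_lit 176) (nat_lit 175) (nat_lit 1) (nat_lit 7) (nat_lit 10) L49904 (by decide +kernel)
theorem L49906 : W_6 (nat_lit 5) (nat_lit 0x800240012001300080000000000000000000000000000000) (nat_lit 0x0) (nat_lit 0x80004001a000000008000c000200000000000000000000000000) := T_6 (nat_lit 190) (nat_lit 207) (nat_lit 5) (nat_lit 4) (nat_lit 8) L49905 (by decide +kernel)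
theorem L49907 : W_6 (nat_lit 2) (nat_lit 0x1c00240012001300080000000000000000000000000000000) (nat_lit 0x0) (nat_lit 0x2000180000000000000000000000000000000000000000000) := D_6 (nat_lit 176) (nat_lit 193) (nat_lit 175) (nat_lit 2) (nat_lit 3) (nat_lit 11) (nat_lit 1) (nat_lit 7) (nat_lit 10) (by decide +kernel)
theorem L49908 : W_6 (nat_lit 3) (nat_lit 0x1800240012001300080000000000000000000000000000000) (nat_lit 0x0) (nat_lit 0x8002400180000000000000000000000000000000000000000000) := T_6 (nat_lit 190) (nat_lit 207) (nat_lit 5) (nat_lit 4) (nat_lit 8) L49907 (by decide +kernel)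
theorem L49909 : W_6 (nat_lit 4) (nat_lit 0x800240012001300080000000000000000000000000000000) (nat_lit 0x0) (nat_lit 0x28003400180000000000000000000000000000000000000000000) := T_6 (nat_lit 192) (nat_lit 209) (nat_lit 7) (nat_lit 4) (nat_lit 8) L49908 (by decide +kernel)
theorem L49910 : W_6 (nat_lit 2) (nat_lit 0x10000800240012001380080000000000000000000000000000000) (nat_lit 0x0) (nat_lit 0x400020001000000000000000000000000000000000000000000000000) := D_6 (nat_lit 209) (nat_lit 192) (nat_lit 226) (nat_lit 7) (nat_lit 4) (nat_lit 8) (nat_lit 7) (nat_lit 4) (nat_lit 9) (by decide +kernel)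
theorem L49911 : W_6 (nat_lit 3) (nat_lit 0x800240012001380080000000000000000000000000000000) (nat_lit 0x0) (nat_lit 0x400030001000000001000000000000000000000000000000000000000) := T_6 (nat_lit 208) (nat_lit 156) (nat_lit 4) (nat_lit 4) (nat_lit 12) L49910 (by decide +kernel)
theorem L49912 : W_6 (nat_lit 4) (nat_lit 0x800240012001300080000000000000000000000000000000) (nat_lit 0x0) (nat_lit 0x400030001000000001000080004000000000000000000000000000000) := T_6 (nat_lit 139) (nat_lit 122) (nat_lit 4) (nat_lit 4) (nat_lit 11) L49911 (by decide +kernel)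
theorem L49913 : W_6 (nat_lit 6) (nat_lit 0x240012001300080000000000000000000000000000000) (nat_lit 0x0) (nat_lit 0x500038003c001a000100008000c000200000000000000000000000000) := Q_6 (nat_lit 191) (C_6 L49878 (C_6 L49906 (C_6 L49909 (C_6 L49912 N_6)))) (by decide +kernel)
theorem L49914 : W_6 (nat_lit 2) (nat_lit 0x2600120013000d8000400000000000000000000000000) (nat_lit 0x0) (nat_lit 0x4000200010000000000000000000000) := D_6 (nat_lit 105) (nat_lit 122) (nat_lit 88) (nat_lit 4) (nat_lit 4) (nat_lit 10) (nat_lit 4) (nat_lit 4) (nat_lit 9) (by decide +kernel)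
theorem L49915 : W_6 (nat_lit 3) (nat_lit 0x2600120013000d8000000000000000000000000000000) (nat_lit 0x0) (nat_lit 0x1000000004000600010000000000000000000000) := T_6 (nat_lit 106) (nat_lit 156) (nat_lit 5) (nat_lit 4) (nat_lit 6) L49914 (by decide +kernel)
theorem L49916 : W_6 (nat_lit 4) (nat_lit 0x260012001300098000000000000000000000000000000) (nat_lit 0x0) (nat_lit 0x1000000064000600010000000000000000000000) := T_6 (nat_lit 126) (nat_lit 125) (nat_lit 1) (nat_lit 8) (nat_lit 7) L49915 (by decide +kernel)
theorem L49917 : W_6 (nat_lit 5) (nat_lit 0x260012001300088000000000000000000000000000000) (nat_lit 0x0) (nat_lit 0x1000000074000e00010000000000000000000000) := T_6 (nat_lit 124) (nat_lit 107) (nat_lit 6) (nat_lit 4) (nat_lit 10) L49916 (by decide +kernel)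
theorem L49918 : W_6 (nat_lit 6) (nat_lit 0x240012001300088000000000000000000000000000000) (nat_lit 0x0) (nat_lit 0x400020001000000074000e00010000000000000000000000) := T_6 (nat_lit 173) (nat_lit 190) (nat_lit 5) (nat_lit 4) (nat_lit 7) L49917 (by decide +kernel)
theorem L49919 : W_6 (nat_lit 2) (nat_lit 0x3c0012001b000dd002000080000000000000000000000) (nat_lit 0x0) (nat_lit 0x10000c000000000000000000) := D_6 (nat_lit 92) (nat_lit 75) (nat_lit 74) (nat_lit 7) (nat_lit 7) (nat_lit 4) (nat_lit 4) (nat_lit 7) (nat_lit 8) (by decide +kernel)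
theorem L49920 : W_6 (nat_lit 3) (nat_lit 0x3c0012001b000dd002000000000000000000000000000) (nat_lit 0x0) (nat_lit 0x100018000c000000000000000000) := T_6 (nat_lit 91) (nat_lit 108) (nat_lit 4) (nat_lit 7) (nat_lit 9) L49919 (by decide +kernel)
theorem L49921 : W_6 (nat_lit 4) (nat_lit 0x3c0012001b000dd000000000000000000000000000000) (nat_lit 0x0) (nat_lit 0x800000000000300018000c000000000000000000) := T_6 (nat_lit 109) (nat_lit 159) (nat_lit 5) (nat_lit 7) (nat_lit 6) L49920 (by decide +kernel)
theorem L49922 : W_6 (nat_lit 5) (nat_lit 0x3c0012001b000dc000000000000000000000000000000) (nat_lit 0x0) (nat_lit 0x800000000300300018000c000000000000000000) := T_6 (nat_lit 120) (nat_lit 121) (nat_lit 3) (nat_lit 1) (nat_lit 7) L49921 (by decide +kernel)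
theorem L49923 : W_6 (nat_lit 6) (nat_lit 0x3c0012001b000d8000000000000000000000000000000) (nat_lit 0x0) (nat_lit 0x800000000700320018000c000000000000000000) := T_6 (nat_lit 122) (nat_lit 105) (nat_lit 4) (nat_lit 4) (nat_lit 10) L49922 (by decide +kernel)
theorem L49924 : W_6 (nat_lit 7) (nat_lit 0x3c00120013000d8000000000000000000000000000000) (nat_lit 0x0) (nat_lit 0x200000000800080000700320018000c000000000000000000) := T_6 (nat_lit 143) (nat_lit 193) (nat_lit 5) (nat_lit 7) (nat_lit 7) L49923 (by decide +kernel)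
theorem L49925 : W_6 (nat_lit 8) (nat_lit 0x3c0012001300098000000000000000000000000000000) (nat_lit 0x0) (nat_lit 0x200000000800080006700320018000c000000000000000000) := T_6 (nat_lit 126) (nat_lit 125) (nat_lit 1) (nat_lit 8) (nat_lit 7) L49924 (by decide +kernel)
theorem L49926 : W_6 (nat_lit 9) (nat_lit 0x3c0012001300088000000000000000000000000000000) (nat_lit 0x0) (nat_lit 0x2000000008000800077003a0018000c000000000000000000) := T_6 (nat_lit 124) (nat_lit 107) (nat_lit 6) (nat_lit 4) (nat_lit 10) L49925 (by decide +kernel)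
theorem L49927 : W_6 (nat_lit 10) (nat_lit 0x2c0012001300088000000000000000000000000000000) (nat_lit 0x0) (nat_lit 0x2000100009000800077003a0018000c000000000000000000) := T_6 (nat_lit 176) (nat_lit 156) (nat_lit 0) (nat_lit 7) (nat_lit 10) L49926 (by decide +kernel)
theorem L49928 : W_6 (nat_lit 11) (nat_lit 0x240012001300088000000000000000000000000000000) (nat_lit 0x0) (nat_lit 0x3000180009000800077003a0018000c000000000000000000) := T_6 (nat_lit 175) (nat_lit 192) (nat_lit 7) (nat_lit 4) (nat_lit 7) L49927 (by decide +kernel)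
theorem L49929 : W_6 (nat_lit 12) (nat_lit 0x240012001300080000000000000000000000000000000) (nat_lit 0x0) (nat_lit 0x34001a00090008e007f003f8019000c000000000000000000) := Q_6 (nat_lit 123) (C_6 L49918 (C_6 L49886 (C_6 L49928 (C_6 L41845 N_6)))) (by decide +kernel)
theorem L49930 : W_6 (nat_lit 6) (nat_lit 0x240012001300080000000000000000000000000000000) (nat_lit 0x0) (nat_lit 0x8000c001a000000008001c000200000000000000000000000000) := T_6 (nat_lit 191) (nat_lit 124) (nat_lit 6) (nat_lit 4) (nat_lit 11) L49906 (by decide +kernel)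
theorem L49931 : W_6 (nat_lit 5) (nat_lit 0x240012001300080000000000000000000000000000000) (nat_lit 0x0) (nat_lit 0x28003c00180000000000010000000000000000000000000000000) := T_6 (nat_lit 191) (nat_lit 124) (nat_lit 6) (nat_lit 4) (nat_lit 11) L49909 (by decide +kernel)
theorem L49932 : W_6 (nat_lit 5) (nat_lit 0x240012001300080000000000000000000000000000000) (nat_lit 0x0) (nat_lit 0x400030001800000001000080014000000000000000000000000000000) := T_6 (nat_lit 191) (nat_lit 124) (nat_lit 6) (nat_lit 4) (nat_lit 11) L49912 (by decide +kernel)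
theorem L49933 : W_6 (nat_lit 13) (nat_lit 0x200012001300080000000000000000000000000000000) (nat_lit 0x0) (nat_lit 0x500038003c001e00090008e007f003f8019000c000000000000000000) := Q_6 (nat_lit 174) (C_6 L49879 (C_6 L49913 (C_6 L49929 (C_6 L49930 (C_6 L49931 (C_6 L49932 N_6)))))) (by decide +kernel)
theorem L49934 : W_6 (nat_lit 5) (nat_lit 0x240012001300080000000000000000000000000000000) (nat_lit 0x0) (nat_lit 0x500038003c00180005000080004000000000000000000000000000000) := Q_6 (nat_lit 191) (C_6 L49912 (C_6 L49900 (C_6 L49909 N_6))) (by decide +kernel)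
theorem L49935 : W_6 (nat_lit 2) (nat_lit 0x3c00240012001300080000000000000000000000000000000) (nat_lit 0x0) (nat_lit 0x30000000000008000000000000000000000000000000) := D_6 (nat_lit 173) (nat_lit 123) (nat_lit 172) (nat_lit 5) (nat_lit 4) (nat_lit 7) (nat_lit 0) (nat_lit 6) (nat_lit 11) (by decide +kernel)
theorem L49936 : W_6 (nat_lit 3) (nat_lit 0x1c00240012001300080000000000000000000000000000000) (nat_lit 0x0) (nat_lit 0x2000130000000000008000000000000000000000000000000) := T_6 (nat_lit 193) (nat_lit 176) (nat_lit 2) (nat_lit 3) (nat_lit 11) L49935 (by decide +kernel)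
theorem L49937 : W_6 (nat_lit 4) (nat_lit 0xc00240012001300080000000000000000000000000000000) (nat_lit 0x0) (nat_lit 0x20003000130000000000008000000000000000000000000000000) := T_6 (nat_lit 192) (nat_lit 209) (nat_lit 7) (nat_lit 4) (nat_lit 8) L49936 (by decide +kernel)
theorem L49938 : W_6 (nat_lit 5) (nat_lit 0x800240012001300080000000000000000000000000000000) (nat_lit 0x0) (nat_lit 0x28003400130000000000008000000000000000000000000000000) := T_6 (nat_lit 190) (nat_lit 207) (nat_lit 5) (nat_lit 4) (nat_lit 8) L49937 (by decide +kernel)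
theorem L49939 : W_6 (nat_lit 6) (nat_lit 0x240012001300080000000000000000000000000000000) (nat_lit 0x0) (nat_lit 0x500038003c0013000500008000c000000000000000000000000000000) := Q_6 (nat_lit 191) (C_6 L49912 (C_6 L49900 (C_6 L49938 N_6))) (by decide +kernel)
theorem L49940 : W_6 (nat_lit 2) (nat_lit 0x2e0012001300088000000000000000000000000000000) (nat_lit 0x0) (nat_lit 0x5000000000000400000000000000000000000000) := D_6 (nat_lit 106) (nat_lit 158) (nat_lit 156) (nat_lit 7) (nat_lit 4) (nat_lit 6) (nat_lit 5) (nat_lit 4) (nat_lit 6) (by decide +kernel)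
theorem L49941 : W_6 (nat_lit 3) (nat_lit 0x260012001300088000000000000000000000000000000) (nat_lit 0x0) (nat_lit 0x1000080005000000000000400000000000000000000000000) := T_6 (nat_lit 175) (nat_lit 192) (nat_lit 7) (nat_lit 4) (nat_lit 7) L49940 (by decide +kernel)
theorem L49942 : W_6 (nat_lit 4) (nat_lit 0x240012001300088000000000000000000000000000000) (nat_lit 0x0) (nat_lit 0x14000a0005000000000000400000000000000000000000000) := T_6 (nat_lit 173) (nat_lit 190) (nat_lit 5) (nat_lit 4) (nat_lit 7) L49941 (by decide +kernel)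
theorem L49943 : W_6 (nat_lit 2) (nat_lit 0x3c001200130008d000400060000800000000000000000) (nat_lit 0x0) (nat_lit 0x80000000000000001000040000000000000) := D_6 (nat_lit 72) (nat_lit 139) (nat_lit 54) (nat_lit 5) (nat_lit 4) (nat_lit 4) (nat_lit 4) (nat_lit 4) (nat_lit 7) (by decide +kernel)
theorem L49944 : W_6 (nat_lit 3) (nat_lit 0x3c001200130008d000400060000000000000000000000) (nat_lit 0x0) (nat_lit 0x80000000000010001800040000000000000) := T_6 (nat_lit 71) (nat_lit 88) (nat_lit 4) (nat_lit 4) (nat_lit 8) L49943 (by decide +kernel)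
theorem L49945 : W_6 (nat_lit 4) (nat_lit 0x3c001200130008d000400040000000000000000000000) (nat_lit 0x0) (nat_lit 0x80000000000030003800040000000000000) := T_6 (nat_lit 89) (nat_lit 73) (nat_lit 6) (nat_lit 4) (nat_lit 8) L49944 (by decide +kernel)
theorem L49946 : W_6 (nat_lit 5) (nat_lit 0x3c001200130008d000400000000000000000000000000) (nat_lit 0x0) (nat_lit 0x80000000800070003800040000000000000) := T_6 (nat_lit 90) (nat_lit 107) (nat_lit 6) (nat_lit 4) (nat_lit 9) L49945 (by decide +kernel)
theorem L49947 : W_6 (nat_lit 6) (nat_lit 0x2c001200130008d000400000000000000000000000000) (nat_lit 0x0) (nat_lit 0x100001000080000000800070003800040000000000000) := T_6 (nat_lit 176) (nat_lit 156) (nat_lit 0) (nat_lit 7) (nat_lit 10) L49946 (by decide +kernel)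
theorem L49948 : W_6 (nat_lit 7) (nat_lit 0x2c001200130008d000000000000000000000000000000) (nat_lit 0x0) (nat_lit 0x100005000080000000c00070003800040000000000000) := T_6 (nat_lit 106) (nat_lit 158) (nat_lit 7) (nat_lit 4) (nat_lit 6) L49947 (by decide +kernel)
theorem L49949 : W_6 (nat_lit 8) (nat_lit 0x24001200130008d000000000000000000000000000000) (nat_lit 0x0) (nat_lit 0x1000180005000080000000c00070003800040000000000000) := T_6 (nat_lit 175) (nat_lit 192) (nat_lit 7) (nat_lit 4) (nat_lit 7) L49948 (by decide +kernel)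
theorem L49950 : W_6 (nat_lit 9) (nat_lit 0x24001200130008c000000000000000000000000000000) (nat_lit 0x0) (nat_lit 0x1000180005000080003000c00070003800040000000000000) := T_6 (nat_lit 120) (nat_lit 121) (nat_lit 3) (nat_lit 1) (nat_lit 7) L49949 (by decide +kernel)
theorem L49951 : W_6 (nat_lit 10) (nat_lit 0x240012001300088000000000000000000000000000000) (nat_lit 0x0) (nat_lit 0x1000180005000080007000e00070003800040000000000000) := T_6 (nat_lit 122) (nat_lit 105) (nat_lit 4) (nat_lit 4) (nat_lit 10) L49950 (by decide +kernel)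
theorem L49952 : W_6 (nat_lit 11) (nat_lit 0x240012001300080000000000000000000000000000000) (nat_lit 0x0) (nat_lit 0x14001a000d00008000f000e00070003800040000000000000) := Q_6 (nat_lit 123) (C_6 L49942 (C_6 L49886 (C_6 L41908 (C_6 L49951 (C_6 L41911 N_6))))) (by decide +kernel)
theorem L49953 : W_6 (nat_lit 2) (nat_lit 0xc002c00160013a0080000000000000000000000000000000) (nat_lit 0x0) (nat_lit 0x20000000000008000400000000000000000000000000) := D_6 (nat_lit 123) (nat_lit 173) (nat_lit 106) (nat_lit 5) (nat_lit 4) (nat_lit 7) (nat_lit 7) (nat_lit 4) (nat_lit 6) (by decide +kernel)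
theorem L49954 : W_6 (nat_lit 3) (nat_lit 0xc002400160013a0080000000000000000000000000000000) (nat_lit 0x0) (nat_lit 0x1a0000000000008000400000000000000000000000000) := T_6 (nat_lit 175) (nat_lit 176) (nat_lit 1) (nat_lit 7) (nat_lit 10) L49953 (by decide +kernel)
theorem L49955 : W_6 (nat_lit 4) (nat_lit 0x8002400160013a0080000000000000000000000000000000) (nat_lit 0x0) (nat_lit 0x80004001a0000000000008000400000000000000000000000000) := T_6 (nat_lit 190) (nat_lit 207) (nat_lit 5) (nat_lit 4) (nat_lit 8) L49954 (by decide +kernel)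
theorem L49956 : W_6 (nat_lit 5) (nat_lit 0x800240016001380080000000000000000000000000000000) (nat_lit 0x0) (nat_lit 0x80004001a0000000060008000400000000000000000000000000) := T_6 (nat_lit 137) (nat_lit 138) (nat_lit 3) (nat_lit 1) (nat_lit 8) L49955 (by decide +kernel)
theorem L49957 : W_6 (nat_lit 6) (nat_lit 0x800240016001300080000000000000000000000000000000) (nat_lit 0x0) (nat_lit 0x80004001a00000000e000c000400000000000000000000000000) := T_6 (nat_lit 139) (nat_lit 122) (nat_lit 4) (nat_lit 4) (nat_lit 11) L49956 (by decide +kernel)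
theorem L49958 : W_6 (nat_lit 7) (nat_lit 0x240016001300080000000000000000000000000000000) (nat_lit 0x0) (nat_lit 0x18000c001a00000000e000c000400000000000000000000000000) := T_6 (nat_lit 191) (nat_lit 208) (nat_lit 6) (nat_lit 4) (nat_lit 12) L49957 (by decide +kernel)
theorem L49959 : W_6 (nat_lit 2) (nat_lit 0x240016001300080000000000000000000000000000000) (nat_lit 0x0) (nat_lit 0x20008000800000000000000000000000000000000000) := D_6 (nat_lit 159) (nat_lit 173) (nat_lit 143) (nat_lit 1) (nat_lit 7) (nat_lit 9) (nat_lit 2) (nat_lit 4) (nat_lit 9) (by decide +kernel)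
theorem L49960 : W_6 (nat_lit 2) (nat_lit 0x240016001300080000000000000000000000000000000) (nat_lit 0x0) (nat_lit 0x8000880000000000000000000000000000000000) := D_6 (nat_lit 159) (nat_lit 139) (nat_lit 143) (nat_lit 0) (nat_lit 7) (nat_lit 9) (nat_lit 2) (nat_lit 4) (nat_lit 9) (by decide +kernel)
theorem L49961 : W_6 (nat_lit 8) (nat_lit 0x240012001300080000000000000000000000000000000) (nat_lit 0x0) (nat_lit 0x18000c001a000c0008e000c000400000000000000000000000000) := Q_6 (nat_lit 158) (C_6 L49958 (C_6 L49870 (C_6 L49959 (C_6 L49960 N_6)))) (by decide +kernel)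
theorem L49962 : W_6 (nat_lit 6) (nat_lit 0x240012001300080000000000000000000000000000000) (nat_lit 0x0) (nat_lit 0x14001a000d00000000c000600010000000000000000000000) := Q_6 (nat_lit 123) (C_6 L41911 (C_6 L49886 (C_6 L41908 N_6))) (by decide +kernel)
theorem L49963 : W_6 (nat_lit 11) (nat_lit 0x240012001300080000000000000000000000000000000) (nat_lit 0x0) (nat_lit 0x78003f000b800c0008e000c000000000000000000000000000000) := Q_6 (nat_lit 158) (C_6 L42027 (C_6 L49960 (C_6 L49959 N_6))) (by decide +kernel)
theorem L49964 : W_6 (nat_lit 2) (nat_lit 0x38002d0017001300080000000000000000000000000000000) (nat_lit 0x0) (nat_lit 0x8000c00000000000000000000000000000000000000) := D_6 (nat_lit 155) (nat_lit 171) (nat_lit 154) (nat_lit 1) (nat_lit 5) (nat_lit 9) (nat_lit 3) (nat_lit 1) (nat_lit 9) (by decide +kernel)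
theorem L49965 : W_6 (nat_lit 3) (nat_lit 0x38002c0017001300080000000000000000000000000000000) (nat_lit 0x0) (nat_lit 0x38000c00000000000000000000000000000000000000) := T_6 (nat_lit 172) (nat_lit 173) (nat_lit 3) (nat_lit 2) (nat_lit 10) L49964 (by decide +kernel)
theorem L49966 : W_6 (nat_lit 4) (nat_lit 0x18002c0017001300080000000000000000000000000000000) (nat_lit 0x0) (nat_lit 0x40002000038000c00000000000000000000000000000000000000) := T_6 (nat_lit 193) (nat_lit 210) (nat_lit 7) (nat_lit 5) (nat_lit 8) L49965 (by decide +kernel)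
theorem L49967 : W_6 (nat_lit 5) (nat_lit 0x18002c0016001300080000000000000000000000000000000) (nat_lit 0x0) (nat_lit 0x40002000138001c00000000000000000000000000000000000000) := T_6 (nat_lit 156) (nat_lit 176) (nat_lit 0) (nat_lit 7) (nat_lit 10) L49966 (by decide +kernel)
theorem L49968 : W_6 (nat_lit 6) (nat_lit 0x1800240016001300080000000000000000000000000000000) (nat_lit 0x0) (nat_lit 0x400020001b8001c00000008000000000000000000000000000000) := T_6 (nat_lit 175) (nat_lit 123) (nat_lit 7) (nat_lit 4) (nat_lit 7) L49967 (by decide +kernel)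
theorem L49969 : W_6 (nat_lit 7) (nat_lit 0x800240016001300080000000000000000000000000000000) (nat_lit 0x0) (nat_lit 0x600030001b8001c00000008000000000000000000000000000000) := T_6 (nat_lit 192) (nat_lit 209) (nat_lit 7) (nat_lit 4) (nat_lit 8) L49968 (by decide +kernel)
theorem L49970 : W_6 (nat_lit 8) (nat_lit 0x240016001300080000000000000000000000000000000) (nat_lit 0x0) (nat_lit 0x700038001b8001c00000008000000000000000000000000000000) := T_6 (nat_lit 191) (nat_lit 208) (nat_lit 6) (nat_lit 4) (nat_lit 12) L49969 (by decide +kernel)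
theorem L49971 : W_6 (nat_lit 9) (nat_lit 0x240012001300080000000000000000000000000000000) (nat_lit 0x0) (nat_lit 0x700038001b800dc00880008000000000000000000000000000000) := Q_6 (nat_lit 158) (C_6 L49970 (C_6 L49960 N_6)) (by decide +kernel)
theorem L49972 : W_6 (nat_lit 12) (nat_lit 0x200012001300080000000000000000000000000000000) (nat_lit 0x0) (nat_lit 0x500078003f001f800dc008e000f000e00070003800040000000000000) := Q_6 (nat_lit 174) (C_6 L49913 (C_6 L49934 (C_6 L49939 (C_6 L49952 (C_6 L49961 (C_6 L49962 (C_6 L49871 (C_6 L49963 (C_6 L49971 N_6))))))))) (by decide +kernel)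
theorem L49973 : W_6 (nat_lit 2) (nat_lit 0x2400120013000d0000000000000000000000000000000) (nat_lit 0x0) (nat_lit 0x8000800040000000000000000000000) := D_6 (nat_lit 107) (nat_lit 90) (nat_lit 123) (nat_lit 5) (nat_lit 5) (nat_lit 5) (nat_lit 6) (nat_lit 4) (nat_lit 10) (by decide +kernel)
theorem L49974 : W_6 (nat_lit 3) (nat_lit 0x2000120013000d0000000000000000000000000000000) (nat_lit 0x0) (nat_lit 0x800040000000000008000800040000000000000000000000) := T_6 (nat_lit 174) (nat_lit 191) (nat_lit 6) (nat_lit 4) (nat_lit 11) L49973 (by decide +kernel)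
theorem L49975 : W_6 (nat_lit 4) (nat_lit 0x200012001300090000000000000000000000000000000) (nat_lit 0x0) (nat_lit 0x800040000000000068000800040000000000000000000000) := T_6 (nat_lit 126) (nat_lit 125) (nat_lit 1) (nat_lit 8) (nat_lit 7) L49974 (by decide +kernel)
theorem L49976 : W_6 (nat_lit 2) (nat_lit 0x200012001300090000800000000000000000000000000) (nat_lit 0x0) (nat_lit 0x800040004000000000000000000000000000000000000000) := D_6 (nat_lit 174) (nat_lit 191) (nat_lit 158) (nat_lit 6) (nat_lit 4) (nat_lit 11) (nat_lit 5) (nat_lit 5) (nat_lit 6) (by decide +kernel)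
theorem L49977 : W_6 (nat_lit 3) (nat_lit 0x200012001300090000000000000000000000000000000) (nat_lit 0x0) (nat_lit 0x800040004000000000000800040000000000000000000000) := T_6 (nat_lit 107) (nat_lit 90) (nat_lit 5) (nat_lit 5) (nat_lit 5) L49976 (by decide +kernel)
theorem L49978 : W_6 (nat_lit 2) (nat_lit 0x2c0016001300098000000000000000000000000000000) (nat_lit 0x0) (nat_lit 0x2000100001000000000000000000000000000000000000000) := D_6 (nat_lit 176) (nat_lit 156) (nat_lit 193) (nat_lit 0) (nat_lit 7) (nat_lit 10) (nat_lit 7) (nat_lit 5) (nat_lit 7) (by decide +kernel)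
theorem L49979 : W_6 (nat_lit 3) (nat_lit 0x2c0012001300098000000000000000000000000000000) (nat_lit 0x0) (nat_lit 0x2000100005000000000000400000000000000000000000000) := T_6 (nat_lit 158) (nat_lit 106) (nat_lit 7) (nat_lit 4) (nat_lit 6) L49978 (by decide +kernel)
theorem L49980 : W_6 (nat_lit 4) (nat_lit 0x2c0012001300090000000000000000000000000000000) (nat_lit 0x0) (nat_lit 0x3000100005000000008000400000000000000000000000000) := T_6 (nat_lit 123) (nat_lit 192) (nat_lit 7) (nat_lit 4) (nat_lit 7) L49979 (by decide +kernel)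
theorem L49981 : W_6 (nat_lit 5) (nat_lit 0x280012001300090000000000000000000000000000000) (nat_lit 0x0) (nat_lit 0x3800140005000000008000400000000000000000000000000) := T_6 (nat_lit 174) (nat_lit 191) (nat_lit 6) (nat_lit 4) (nat_lit 11) L49980 (by decide +kernel)
theorem L49982 : W_6 (nat_lit 2) (nat_lit 0x2c00130013000d8000000000000000000000000000000) (nat_lit 0x0) (nat_lit 0x400020000000000000000400000000000000000000000000) := D_6 (nat_lit 173) (nat_lit 190) (nat_lit 106) (nat_lit 5) (nat_lit 4) (nat_lit 7) (nat_lit 5) (nat_lit 4) (nat_lit 6) (by decide +kernel)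
theorem L49983 : W_6 (nat_lit 3) (nat_lit 0x2c00130013000d0000000000000000000000000000000) (nat_lit 0x0) (nat_lit 0x1400020000000000008000400000000000000000000000000) := T_6 (nat_lit 123) (nat_lit 192) (nat_lit 7) (nat_lit 4) (nat_lit 7) L49982 (by decide +kernel)
theorem L49984 : W_6 (nat_lit 4) (nat_lit 0x2c00120013000d0000000000000000000000000000000) (nat_lit 0x0) (nat_lit 0x1400120001000000008000400000000000000000000000000) := T_6 (nat_lit 156) (nat_lit 176) (nat_lit 0) (nat_lit 7) (nat_lit 10) L49983 (by decide +kernel)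
theorem L49985 : W_6 (nat_lit 5) (nat_lit 0x2c0012001300090000000000000000000000000000000) (nat_lit 0x0) (nat_lit 0x1400120001000000068000400000000000000000000000000) := T_6 (nat_lit 126) (nat_lit 125) (nat_lit 1) (nat_lit 8) (nat_lit 7) L49984 (by decide +kernel)
theorem L49986 : W_6 (nat_lit 6) (nat_lit 0x280012001300090000000000000000000000000000000) (nat_lit 0x0) (nat_lit 0x1c00160001000000068000400000000000000000000000000) := T_6 (nat_lit 174) (nat_lit 191) (nat_lit 6) (nat_lit 4) (nat_lit 11) L49985 (by decide +kernel)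
theorem L49987 : W_6 (nat_lit 2) (nat_lit 0x3c00120013000d0000000000000000000000000000000) (nat_lit 0x0) (nat_lit 0x2000000004000800000000000000000000000000000000000) := D_6 (nat_lit 193) (nat_lit 143) (nat_lit 158) (nat_lit 5) (nat_lit 7) (nat_lit 7) (nat_lit 7) (nat_lit 5) (nat_lit 7) (by decide +kernel)
theorem L49988 : W_6 (nat_lit 3) (nat_lit 0x2c00120013000d0000000000000000000000000000000) (nat_lit 0x0) (nat_lit 0x2000100005000800000000000000000000000000000000000) := T_6 (nat_lit 176) (nat_lit 156) (nat_lit 0) (nat_lit 7) (nat_lit 10) L49987 (by decide +kernel)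
theorem L49989 : W_6 (nat_lit 4) (nat_lit 0x2800120013000d0000000000000000000000000000000) (nat_lit 0x0) (nat_lit 0x2800140005000800000000000000000000000000000000000) := T_6 (nat_lit 174) (nat_lit 191) (nat_lit 6) (nat_lit 4) (nat_lit 11) L49988 (by decide +kernel)
theorem L49990 : W_6 (nat_lit 5) (nat_lit 0x280012001300090000000000000000000000000000000) (nat_lit 0x0) (nat_lit 0x2800140005000800060000000000000000000000000000000) := T_6 (nat_lit 126) (nat_lit 125) (nat_lit 1) (nat_lit 8) (nat_lit 7) L49989 (by decide +kernel)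
theorem L49991 : W_6 (nat_lit 7) (nat_lit 0x200012001300090000000000000000000000000000000) (nat_lit 0x0) (nat_lit 0x3c001e00050008c0068001400000000000000000000000000) := Q_6 (nat_lit 175) (C_6 L49981 (C_6 L49986 (C_6 L41750 (C_6 L49990 N_6)))) (by decide +kernel)
theorem L49992 : W_6 (nat_lit 2) (nat_lit 0x2000160013000d0001800000000000000000000000000) (nat_lit 0x0) (nat_lit 0x2400020000000000000000000000) := D_6 (nat_lit 106) (nat_lit 109) (nat_lit 89) (nat_lit 3) (nat_lit 4) (nat_lit 6) (nat_lit 4) (nat_lit 5) (nat_lit 9) (by decide +kernel)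
theorem L49993 : W_6 (nat_lit 3) (nat_lit 0x2000160013000d0000800000000000000000000000000) (nat_lit 0x0) (nat_lit 0x34000a0000000000000000000000) := T_6 (nat_lit 108) (nat_lit 91) (nat_lit 6) (nat_lit 5) (nat_lit 9) L49992 (by decide +kernel)
theorem L49994 : W_6 (nat_lit 4) (nat_lit 0x200016001300090000800000000000000000000000000) (nat_lit 0x0) (nat_lit 0x600034000a0000000000000000000000) := T_6 (nat_lit 126) (nat_lit 125) (nat_lit 1) (nat_lit 8) (nat_lit 7) L49993 (by decide +kernel)
theorem L49995 : W_6 (nat_lit 5) (nat_lit 0x200016001300090000000000000000000000000000000) (nat_lit 0x0) (nat_lit 0x60003c000e0000000000000000000000) := T_6 (nat_lit 107) (nat_lit 90) (nat_lit 5) (nat_lit 5) (nat_lit 5) L49994 (by decide +kernel)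
theorem L49996 : W_6 (nat_lit 2) (nat_lit 0x1000280016001300090000c00000000000000000000000000) (nat_lit 0x0) (nat_lit 0x40002000100000000000000000000000000000000000000000000) := D_6 (nat_lit 193) (nat_lit 176) (nat_lit 210) (nat_lit 7) (nat_lit 5) (nat_lit 7) (nat_lit 7) (nat_lit 5) (nat_lit 8) (by decide +kernel)
theorem L49997 : W_6 (nat_lit 3) (nat_lit 0x280016001300090000c00000000000000000000000000) (nat_lit 0x0) (nat_lit 0x60003000100000000000000000000000000000000000000000000) := T_6 (nat_lit 192) (nat_lit 209) (nat_lit 4) (nat_lit 5) (nat_lit 12) L49996 (by decide +kernel)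
theorem L49998 : W_6 (nat_lit 4) (nat_lit 0x200016001300090000c00000000000000000000000000) (nat_lit 0x0) (nat_lit 0x60003000180000000000008000000000000000000000000000000) := T_6 (nat_lit 175) (nat_lit 123) (nat_lit 7) (nat_lit 4) (nat_lit 6) L49997 (by decide +kernel)
theorem L49999 : W_6 (nat_lit 5) (nat_lit 0x200016001300090000800000000000000000000000000) (nat_lit 0x0) (nat_lit 0x60003000180000000000008000400020000000000000000000000) := T_6 (nat_lit 106) (nat_lit 89) (nat_lit 4) (nat_lit 5) (nat_lit 9) L49998 (by decide +kernel)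
theorem L50000 : W_6 (nat_lit 6) (nat_lit 0x200016001300090000000000000000000000000000000) (nat_lit 0x0) (nat_lit 0x60003000180000000000008000c00060000000000000000000000) := T_6 (nat_lit 107) (nat_lit 90) (nat_lit 5) (nat_lit 5) (nat_lit 5) L49999 (by decide +kernel)
theorem L50001 : W_6 (nat_lit 2) (nat_lit 0x2800160013000b0000000040000000000000000000000) (nat_lit 0x0) (nat_lit 0x20001000000000000000008000000000000000000000000000000) := D_6 (nat_lit 192) (nat_lit 209) (nat_lit 123) (nat_lit 4) (nat_lit 5) (nat_lit 12) (nat_lit 4) (nat_lit 5) (nat_lit 11) (by decide +kernel)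
theorem L50002 : W_6 (nat_lit 3) (nat_lit 0x2000160013000b0000000040000000000000000000000) (nat_lit 0x0) (nat_lit 0x20001000080000000000008001000000000000000000000000000) := T_6 (nat_lit 175) (nat_lit 108) (nat_lit 6) (nat_lit 5) (nat_lit 10) L50001 (by decide +kernel)
theorem L50003 : W_6 (nat_lit 4) (nat_lit 0x2000160013000b0000000000000000000000000000000) (nat_lit 0x0) (nat_lit 0x20001000080000000000008001800040000000000000000000000) := T_6 (nat_lit 90) (nat_lit 107) (nat_lit 5) (nat_lit 5) (nat_lit 5) L50002 (by decide +kernel)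
theorem L50004 : W_6 (nat_lit 5) (nat_lit 0x200016001300090000000000000000000000000000000) (nat_lit 0x0) (nat_lit 0x20001000080000000000068001800040000000000000000000000) := T_6 (nat_lit 125) (nat_lit 126) (nat_lit 1) (nat_lit 8) (nat_lit 7) L50003 (by decide +kernel)
theorem L50005 : W_6 (nat_lit 7) (nat_lit 0x200012001300090000000000000000000000000000000) (nat_lit 0x0) (nat_lit 0x600030001800040000c0068003c000e0000000000000000000000) := Q_6 (nat_lit 158) (C_6 L49995 (C_6 L50000 (C_6 L40515 (C_6 L50004 N_6)))) (by decide +kernel)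
theorem L50006 : W_6 (nat_lit 8) (nat_lit 0x200012001300080000000000000000000000000000000) (nat_lit 0x0) (nat_lit 0x60003c001e00050008c0078003c000e0000000000000000000000) := Q_6 (nat_lit 124) (C_6 L49975 (C_6 L49977 (C_6 L49991 (C_6 L50005 N_6)))) (by decide +kernel)
theorem L50007 : W_6 (nat_lit 2) (nat_lit 0x240016001300080000000000000000000000000000000) (nat_lit 0x0) (nat_lit 0x10000800000000000000010000000000000000000000000000000) := D_6 (nat_lit 191) (nat_lit 208) (nat_lit 124) (nat_lit 6) (nat_lit 4) (nat_lit 12) (nat_lit 6) (nat_lit 4) (nat_lit 11) (by decide +kernel)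
theorem L50008 : W_6 (nat_lit 10) (nat_lit 0x200012001300080000000000000000000000000000000) (nat_lit 0x0) (nat_lit 0x500078003c001f800dc008e001c000600010000000000000000000000) := Q_6 (nat_lit 174) (C_6 L49939 (C_6 L49932 (C_6 L49971 (C_6 L49962 (C_6 L49961 N_6))))) (by decide +kernel)
theorem L50009 : W_6 (nat_lit 7) (nat_lit 0x200016001300080000000000000000000000000000000) (nat_lit 0x0) (nat_lit 0x600030001800000000c0078003c000e0000000000000000000000) := Q_6 (nat_lit 124) (C_6 L49995 (C_6 L50004 (C_6 L50000 (C_6 L40515 N_6)))) (by decide +kernel)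
theorem L50010 : W_6 (nat_lit 5) (nat_lit 0x200016001300080000000000000000000000000000000) (nat_lit 0x0) (nat_lit 0x138009c00800000000000000000000000000000000000) := T_6 (nat_lit 159) (nat_lit 143) (nat_lit 2) (nat_lit 4) (nat_lit 9) L40693 (by decide +kernel)
theorem L50011 : W_6 (nat_lit 8) (nat_lit 0x200012001300080000000000000000000000000000000) (nat_lit 0x0) (nat_lit 0x600030001b800dc008c0078003c000e0000000000000000000000) := Q_6 (nat_lit 158) (C_6 L50009 (C_6 L40505 (C_6 L50010 N_6))) (by decide +kernel)
theorem L50012 : W_6 (nat_lit 2) (nat_lit 0x2600160013000dd000000000000000000000000000000) (nat_lit 0x0) (nat_lit 0x1000000000000400020000000000000000000000) := D_6 (nat_lit 106) (nat_lit 156) (nat_lit 89) (nat_lit 5) (nat_lit 4) (nat_lit 6) (nat_lit 7) (nat_lit 4) (nat_lit 5) (by decide +kernel)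
theorem L50013 : W_6 (nat_lit 3) (nat_lit 0x2600120013000dd000000000000000000000000000000) (nat_lit 0x0) (nat_lit 0xd000000000000400020000000000000000000000) := T_6 (nat_lit 158) (nat_lit 159) (nat_lit 1) (nat_lit 7) (nat_lit 9) L50012 (by decide +kernel)
theorem L50014 : W_6 (nat_lit 4) (nat_lit 0x2400120013000dd000000000000000000000000000000) (nat_lit 0x0) (nat_lit 0x40002000d000000000000400020000000000000000000000) := T_6 (nat_lit 173) (nat_lit 190) (nat_lit 5) (nat_lit 4) (nat_lit 7) L50013 (by decide +kernel)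
theorem L50015 : W_6 (nat_lit 5) (nat_lit 0x2400120013000dc000000000000000000000000000000) (nat_lit 0x0) (nat_lit 0x40002000d000000003000400020000000000000000000000) := T_6 (nat_lit 120) (nat_lit 121) (nat_lit 3) (nat_lit 1) (nat_lit 7) L50014 (by decide +kernel)
theorem L50016 : W_6 (nat_lit 6) (nat_lit 0x2400120013000d8000000000000000000000000000000) (nat_lit 0x0) (nat_lit 0x40002000d000000007000600020000000000000000000000) := T_6 (nat_lit 122) (nat_lit 105) (nat_lit 4) (nat_lit 4) (nat_lit 10) L50015 (by decide +kernel)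
theorem L50017 : W_6 (nat_lit 7) (nat_lit 0x2000120013000d8000000000000000000000000000000) (nat_lit 0x0) (nat_lit 0xc0006000d000000007000600020000000000000000000000) := T_6 (nat_lit 174) (nat_lit 191) (nat_lit 6) (nat_lit 4) (nat_lit 11) L50016 (by decide +kernel)
theorem L50018 : W_6 (nat_lit 8) (nat_lit 0x200012001300098000000000000000000000000000000) (nat_lit 0x0) (nat_lit 0xc0006000d000000067000600020000000000000000000000) := T_6 (nat_lit 126) (nat_lit 125) (nat_lit 1) (nat_lit 8) (nat_lit 7) L50017 (by decide +kernel)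
theorem L50019 : W_6 (nat_lit 6) (nat_lit 0x200012001300098000000000000000000000000000000) (nat_lit 0x0) (nat_lit 0xc0006000d000000004000600010000000000000000000000) := T_6 (nat_lit 174) (nat_lit 191) (nat_lit 6) (nat_lit 4) (nat_lit 11) L49890 (by decide +kernel)
theorem L50020 : W_6 (nat_lit 4) (nat_lit 0x2400120013000d8000000000000000000000000000000) (nat_lit 0x0) (nat_lit 0x400020001000000004000600010000000000000000000000) := T_6 (nat_lit 173) (nat_lit 190) (nat_lit 5) (nat_lit 4) (nat_lit 7) L49915 (by decide +kernel)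
theorem L50021 : W_6 (nat_lit 5) (nat_lit 0x240012001300098000000000000000000000000000000) (nat_lit 0x0) (nat_lit 0x400020001000000064000600010000000000000000000000) := T_6 (nat_lit 126) (nat_lit 125) (nat_lit 1) (nat_lit 8) (nat_lit 7) L50020 (by decide +kernel)
theorem L50022 : W_6 (nat_lit 6) (nat_lit 0x200012001300098000000000000000000000000000000) (nat_lit 0x0) (nat_lit 0xc00060001000000064000600010000000000000000000000) := T_6 (nat_lit 174) (nat_lit 191) (nat_lit 6) (nat_lit 4) (nat_lit 11) L50021 (by decide +kernel)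
theorem L50023 : W_6 (nat_lit 7) (nat_lit 0x240012001300098000000000000000000000000000000) (nat_lit 0x0) (nat_lit 0x40002000d000000060000600030001800000000000000000) := T_6 (nat_lit 126) (nat_lit 125) (nat_lit 1) (nat_lit 8) (nat_lit 7) L41992 (by decide +kernel)
theorem L50024 : W_6 (nat_lit 8) (nat_lit 0x200012001300098000000000000000000000000000000) (nat_lit 0x0) (nat_lit 0xc0006000d000000060000600030001800000000000000000) := T_6 (nat_lit 174) (nat_lit 191) (nat_lit 6) (nat_lit 4) (nat_lit 11) L50023 (by decide +kernel)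
theorem L50025 : W_6 (nat_lit 5) (nat_lit 0x2000120013000d8000000000000000000000000000000) (nat_lit 0x0) (nat_lit 0xc0006000d000000000000400020000000000000000000000) := T_6 (nat_lit 174) (nat_lit 191) (nat_lit 6) (nat_lit 4) (nat_lit 11) L41997 (by decide +kernel)
theorem L50026 : W_6 (nat_lit 6) (nat_lit 0x200012001300098000000000000000000000000000000) (nat_lit 0x0) (nat_lit 0xc0006000d000000060000400020000000000000000000000) := T_6 (nat_lit 126) (nat_lit 125) (nat_lit 1) (nat_lit 8) (nat_lit 7) L50025 (by decide +kernel)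
theorem L50027 : W_6 (nat_lit 11) (nat_lit 0x200012001300090000000000000000000000000000000) (nat_lit 0x0) (nat_lit 0xc0006000d8000e006f000780030001800000000000000000) := Q_6 (nat_lit 123) (C_6 L50018 (C_6 L50019 (C_6 L50022 (C_6 L41987 (C_6 L41962 (C_6 L50024 (C_6 L50026 N_6))))))) (by decide +kernel)
theorem L50028 : W_6 (nat_lit 12) (nat_lit 0x200012001300080000000000000000000000000000000) (nat_lit 0x0) (nat_lit 0xc0006000d8000e007f001f800f8001800000000000000000) := Q_6 (nat_lit 124) (C_6 L49977 (C_6 L49975 (C_6 L50027 (C_6 L42011 N_6)))) (by decide +kernel)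
theorem L50029 : W_6 (nat_lit 2) (nat_lit 0x8002800160013400b0000000000000000000000000000000) (nat_lit 0x0) (nat_lit 0x30001000000000000000000000000000000000000000000000000) := D_6 (nat_lit 192) (nat_lit 208) (nat_lit 209) (nat_lit 5) (nat_lit 5) (nat_lit 8) (nat_lit 4) (nat_lit 5) (nat_lit 12) (by decide +kernel)
theorem L50030 : W_6 (nat_lit 3) (nat_lit 0x8002000160013400b0000000000000000000000000000000) (nat_lit 0x0) (nat_lit 0x30001000080000000000000001000000000000000000000000000) := T_6 (nat_lit 175) (nat_lit 108) (nat_lit 6) (nat_lit 5) (nat_lit 10) L50029 (by decide +kernel)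
theorem L50031 : W_6 (nat_lit 4) (nat_lit 0x8002000160013000b0000000000000000000000000000000) (nat_lit 0x0) (nat_lit 0x300010000800000000c0000001000000000000000000000000000) := T_6 (nat_lit 138) (nat_lit 139) (nat_lit 2) (nat_lit 2) (nat_lit 8) L50030 (by decide +kernel)
theorem L50032 : W_6 (nat_lit 5) (nat_lit 0x800200016001300090000000000000000000000000000000) (nat_lit 0x0) (nat_lit 0x300010000800000000c0060001000000000000000000000000000) := T_6 (nat_lit 125) (nat_lit 126) (nat_lit 1) (nat_lit 8) (nat_lit 7) L50031 (by decide +kernel)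
theorem L50033 : W_6 (nat_lit 6) (nat_lit 0x200016001300090000000000000000000000000000000) (nat_lit 0x0) (nat_lit 0x300018000c00000000c0060001000000000000000000000000000) := T_6 (nat_lit 191) (nat_lit 174) (nat_lit 6) (nat_lit 4) (nat_lit 11) L50032 (by decide +kernel)
theorem L50034 : W_6 (nat_lit 7) (nat_lit 0x200016001300080000000000000000000000000000000) (nat_lit 0x0) (nat_lit 0x300018000c00000000c0070003c000e0000000000000000000000) := Q_6 (nat_lit 124) (C_6 L49995 (C_6 L40593 (C_6 L50033 N_6))) (by decide +kernel)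
theorem L50035 : W_6 (nat_lit 8) (nat_lit 0x200012001300080000000000000000000000000000000) (nat_lit 0x0) (nat_lit 0x300018001f800dc008c0070003c000e0000000000000000000000) := Q_6 (nat_lit 158) (C_6 L50034 (C_6 L50010 N_6)) (by decide +kernel)
theorem L50036 : W_6 (nat_lit 2) (nat_lit 0x2c00160013400b0000000000000000000000000000000) (nat_lit 0x0) (nat_lit 0x2000100001000000000000000000000000000000000000000) := D_6 (nat_lit 176) (nat_lit 193) (nat_lit 156) (nat_lit 7) (nat_lit 5) (nat_lit 7) (nat_lit 0) (nat_lit 7) (nat_lit 10) (by decide +kernel)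
theorem L50037 : W_6 (nat_lit 3) (nat_lit 0x2400160013400b0000000000000000000000000000000) (nat_lit 0x0) (nat_lit 0x2000180001000000000001000000000000000000000000000) := T_6 (nat_lit 175) (nat_lit 108) (nat_lit 6) (nat_lit 5) (nat_lit 10) L50036 (by decide +kernel)
theorem L50038 : W_6 (nat_lit 4) (nat_lit 0x2400160013000b0000000000000000000000000000000) (nat_lit 0x0) (nat_lit 0x20001800010000c0000001000000000000000000000000000) := T_6 (nat_lit 138) (nat_lit 139) (nat_lit 2) (nat_lit 2) (nat_lit 8) L50037 (by decide +kernel)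
theorem L50039 : W_6 (nat_lit 5) (nat_lit 0x240016001300090000000000000000000000000000000) (nat_lit 0x0) (nat_lit 0x20001800010000c0060001000000000000000000000000000) := T_6 (nat_lit 125) (nat_lit 126) (nat_lit 1) (nat_lit 8) (nat_lit 7) L50038 (by decide +kernel)
theorem L50040 : W_6 (nat_lit 6) (nat_lit 0x240016001300080000000000000000000000000000000) (nat_lit 0x0) (nat_lit 0x20001800010000c0070001800000000000000000000000000) := T_6 (nat_lit 124) (nat_lit 107) (nat_lit 5) (nat_lit 5) (nat_lit 6) L50039 (by decide +kernel)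
theorem L50041 : W_6 (nat_lit 9) (nat_lit 0x200016001300080000000000000000000000000000000) (nat_lit 0x0) (nat_lit 0x700038001f8001c000c0078001800000000000000000000000000) := Q_6 (nat_lit 174) (C_6 L50007 (C_6 L49970 (C_6 L50040 N_6))) (by decide +kernel)
theorem L50042 : W_6 (nat_lit 10) (nat_lit 0x200012001300080000000000000000000000000000000) (nat_lit 0x0) (nat_lit 0x700038001f800dc008c0078001800000000000000000000000000) := Q_6 (nat_lit 158) (C_6 L50041 (C_6 L50010 (C_6 L40505 N_6))) (by decide +kernel)
theorem L50043 : W_6 (nat_lit 2) (nat_lit 0x20001e0013000d0000000000000000000000000000000) (nat_lit 0x0) (nat_lit 0x800060000000000000000000000000000000000000000000) := D_6 (nat_lit 174) (nat_lit 191) (nat_lit 173) (nat_lit 6) (nat_lit 4) (nat_lit 11) (nat_lit 1) (nat_lit 7) (nat_lit 9) (by decide +kernel)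
theorem L50044 : W_6 (nat_lit 3) (nat_lit 0x2000160013000d0000000000000000000000000000000) (nat_lit 0x0) (nat_lit 0x800060008000800000000000000000000000000000000000) := T_6 (nat_lit 159) (nat_lit 143) (nat_lit 2) (nat_lit 4) (nat_lit 9) L50043 (by decide +kernel)
theorem L50045 : W_6 (nat_lit 4) (nat_lit 0x200016001300090000000000000000000000000000000) (nat_lit 0x0) (nat_lit 0x800060008000800060000000000000000000000000000000) := T_6 (nat_lit 126) (nat_lit 125) (nat_lit 1) (nat_lit 8) (nat_lit 7) L50044 (by decide +kernel)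
theorem L50046 : W_6 (nat_lit 2) (nat_lit 0x80021001f001300090000000000000000000000000000000) (nat_lit 0x0) (nat_lit 0x8000c00000000000000000000000000000000000000) := D_6 (nat_lit 155) (nat_lit 154) (nat_lit 171) (nat_lit 2) (nat_lit 1) (nat_lit 9) (nat_lit 1) (nat_lit 5) (nat_lit 9) (by decide +kernel)
theorem L50047 : W_6 (nat_lit 3) (nat_lit 0x80020001f001300090000000000000000000000000000000) (nat_lit 0x0) (nat_lit 0x38000c00000000000000000000000000000000000000) := T_6 (nat_lit 172) (nat_lit 173) (nat_lit 1) (nat_lit 6) (nat_lit 9) L50046 (by decide +kernel)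
theorem L50048 : W_6 (nat_lit 4) (nat_lit 0x80020001e001300090000000000000000000000000000000) (nat_lit 0x0) (nat_lit 0x138001c00000000000000000000000000000000000000) := T_6 (nat_lit 156) (nat_lit 176) (nat_lit 3) (nat_lit 3) (nat_lit 9) L50047 (by decide +kernel)
theorem L50049 : W_6 (nat_lit 5) (nat_lit 0x800200016001300090000000000000000000000000000000) (nat_lit 0x0) (nat_lit 0x138009c00800000000000000000000000000000000000) := T_6 (nat_lit 159) (nat_lit 143) (nat_lit 2) (nat_lit 4) (nat_lit 9) L50048 (by decide +kernel)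
theorem L50050 : W_6 (nat_lit 6) (nat_lit 0x200016001300090000000000000000000000000000000) (nat_lit 0x0) (nat_lit 0x800178009c00800000000000000000000000000000000000) := T_6 (nat_lit 191) (nat_lit 174) (nat_lit 6) (nat_lit 4) (nat_lit 11) L50049 (by decide +kernel)
theorem L50051 : W_6 (nat_lit 2) (nat_lit 0x21001f0013000d0000000000000000000000000000000) (nat_lit 0x0) (nat_lit 0x8000c00000000000000000000000000000000000000) := D_6 (nat_lit 155) (nat_lit 154) (nat_lit 171) (nat_lit 2) (nat_lit 1) (nat_lit 9) (nat_lit 1) (nat_lit 5) (nat_lit 9) (by decide +kernel)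
theorem L50052 : W_6 (nat_lit 3) (nat_lit 0x20001f0013000d0000000000000000000000000000000) (nat_lit 0x0) (nat_lit 0x38000c00000000000000000000000000000000000000) := T_6 (nat_lit 172) (nat_lit 173) (nat_lit 1) (nat_lit 6) (nat_lit 9) L50051 (by decide +kernel)
theorem L50053 : W_6 (nat_lit 4) (nat_lit 0x20001e0013000d0000000000000000000000000000000) (nat_lit 0x0) (nat_lit 0x138001c00000000000000000000000000000000000000) := T_6 (nat_lit 156) (nat_lit 176) (nat_lit 3) (nat_lit 3) (nat_lit 9) L50052 (by decide +kernel)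
theorem L50054 : W_6 (nat_lit 5) (nat_lit 0x2000160013000d0000000000000000000000000000000) (nat_lit 0x0) (nat_lit 0x138009c00800000000000000000000000000000000000) := T_6 (nat_lit 159) (nat_lit 143) (nat_lit 2) (nat_lit 4) (nat_lit 9) L50053 (by decide +kernel)
theorem L50055 : W_6 (nat_lit 6) (nat_lit 0x200016001300090000000000000000000000000000000) (nat_lit 0x0) (nat_lit 0x138009c00800060000000000000000000000000000000) := T_6 (nat_lit 126) (nat_lit 125) (nat_lit 1) (nat_lit 8) (nat_lit 7) L50054 (by decide +kernel)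
theorem L50056 : W_6 (nat_lit 7) (nat_lit 0x200012001300090000000000000000000000000000000) (nat_lit 0x0) (nat_lit 0x18001f800dc00800068001400000000000000000000000000) := Q_6 (nat_lit 158) (C_6 L50045 (C_6 L50050 (C_6 L40592 (C_6 L50055 N_6)))) (by decide +kernel)
theorem L50057 : W_6 (nat_lit 7) (nat_lit 0x200012001300090000000000000000000000000000000) (nat_lit 0x0) (nat_lit 0x600030001b800dc00800068001c00060000000000000000000000) := Q_6 (nat_lit 158) (C_6 L50055 (C_6 L50000 (C_6 L50004 N_6))) (by decide +kernel)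
theorem L50058 : W_6 (nat_lit 8) (nat_lit 0x200012001300080000000000000000000000000000000) (nat_lit 0x0) (nat_lit 0x600038001f800dc00800078001c00060000000000000000000000) := Q_6 (nat_lit 124) (C_6 L49977 (C_6 L49975 (C_6 L50056 (C_6 L50057 N_6)))) (by decide +kernel)
theorem L50059 : W_6 (nat_lit 8) (nat_lit 0x200012001300080000000000000000000000000000000) (nat_lit 0x0) (nat_lit 0x300018000e000c0008c0070003c000e0000000000000000000000) := Q_6 (nat_lit 158) (C_6 L50034 (C_6 L40505 (C_6 L42039 N_6))) (by decide +kernel)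
theorem L50060 : W_6 (nat_lit 10) (nat_lit 0x200012001300080000000000000000000000000000000) (nat_lit 0x0) (nat_lit 0x700038001c000d0008c0078003c000e0000000000000000000000) := Q_6 (nat_lit 158) (C_6 L50034 (C_6 L40505 (C_6 L40617 N_6))) (by decide +kernel)
theorem L50061 : W_6 (nat_lit 14) (nat_lit 0x200010001300080000000000000000000000000000000) (nat_lit 0x0) (nat_lit 0x500078003f001f800fc008e007f003f801f800f800040000000000000) := Q_6 (nat_lit 157) (C_6 L49902 (C_6 L49933 (C_6 L49972 (C_6 L50006 (C_6 L50008 (C_6 L50011 (C_6 L50028 (C_6 L50035 (C_6 L50042 (C_6 L50058 (C_6 L50059 (C_6 L50060 N_6)))))))))))) (by decide +kernel)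
theorem L50062 : W_6 (nat_lit 2) (nat_lit 0x280014001300090000000000000000000000000000000) (nat_lit 0x0) (nat_lit 0x60001000000000000000000000000000) := D_6 (nat_lit 125) (nat_lit 126) (nat_lit 108) (nat_lit 1) (nat_lit 8) (nat_lit 7) (nat_lit 6) (nat_lit 5) (nat_lit 10) (by decide +kernel)
theorem L50063 : W_6 (nat_lit 2) (nat_lit 0x3800140013000b0000000000000000000000000000000) (nat_lit 0x0) (nat_lit 0x800040020000000000000000000000000000000000000000) := D_6 (nat_lit 174) (nat_lit 161) (nat_lit 191) (nat_lit 2) (nat_lit 4) (nat_lit 10) (nat_lit 5) (nat_lit 5) (nat_lit 7) (by decide +kernel)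
theorem L50064 : W_6 (nat_lit 3) (nat_lit 0x2800140013000b0000000000000000000000000000000) (nat_lit 0x0) (nat_lit 0x2800140020000000000000000000000000000000000000000) := T_6 (nat_lit 176) (nat_lit 193) (nat_lit 7) (nat_lit 5) (nat_lit 7) L50063 (by decide +kernel)
theorem L50065 : W_6 (nat_lit 4) (nat_lit 0x280014001300090000000000000000000000000000000) (nat_lit 0x0) (nat_lit 0x2800140020000000020001000000000000000000000000000) := T_6 (nat_lit 125) (nat_lit 108) (nat_lit 6) (nat_lit 5) (nat_lit 10) L50064 (by decide +kernel)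
theorem L50066 : W_6 (nat_lit 2) (nat_lit 0x380014001300098000000000000000000000000000000) (nat_lit 0x0) (nat_lit 0x800040020000000000000000000000000000000000000000) := D_6 (nat_lit 174) (nat_lit 161) (nat_lit 191) (nat_lit 2) (nat_lit 4) (nat_lit 10) (nat_lit 5) (nat_lit 5) (nat_lit 7) (by decide +kernel)
theorem L50067 : W_6 (nat_lit 3) (nat_lit 0x280014001300098000000000000000000000000000000) (nat_lit 0x0) (nat_lit 0x2800140020000000000000000000000000000000000000000) := T_6 (nat_lit 176) (nat_lit 193) (nat_lit 7) (nat_lit 5) (nat_lit 7) L50066 (by decide +kernel)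
theorem L50068 : W_6 (nat_lit 4) (nat_lit 0x280014001300090000000000000000000000000000000) (nat_lit 0x0) (nat_lit 0x2800140020000000008000400000000000000000000000000) := T_6 (nat_lit 123) (nat_lit 106) (nat_lit 4) (nat_lit 5) (nat_lit 10) L50067 (by decide +kernel)
theorem L50069 : W_6 (nat_lit 5) (nat_lit 0x280014001300080000000000000000000000000000000) (nat_lit 0x0) (nat_lit 0x2800140020000000078001400000000000000000000000000) := Q_6 (nat_lit 124) (C_6 L50062 (C_6 L50065 (C_6 L50068 N_6))) (by decide +kernel)
theorem L50073 : W_6 (nat_lit 5) (nat_lit 0x280014001300080000000000000000000000000000000) (nat_lit 0x0) (nat_lit 0x2800140020000000070001000000000000000000000000000) := Q_6 (nat_lit 124) (C_6 L50065 (C_6 L38639 (C_6 L50062 N_6))) (by decide +kernel)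
theorem L50074 : W_6 (nat_lit 6) (nat_lit 0x200014001300080000000000000000000000000000000) (nat_lit 0x0) (nat_lit 0xa000700038001c0022000000078001400000000000000000000000000) := Q_6 (nat_lit 175) (C_6 L50069 (C_6 L50072 (C_6 L50073 (C_6 L36340 N_6)))) (by decide +kernel)
theorem L50075 : W_6 (nat_lit 2) (nat_lit 0x10002c0034001300080000000000000000000000000000000) (nat_lit 0x0) (nat_lit 0x10000800000000000000010000000000000000000000000000000) := D_6 (nat_lit 191) (nat_lit 208) (nat_lit 124) (nat_lit 5) (nat_lit 5) (nat_lit 8) (nat_lit 5) (nat_lit 5) (nat_lit 7) (by decide +kernel)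
theorem L50076 : W_6 (nat_lit 3) (nat_lit 0x2c0034001300080000000000000000000000000000000) (nat_lit 0x0) (nat_lit 0x10001800000000000000018000000000000000000000000000000) := T_6 (nat_lit 192) (nat_lit 123) (nat_lit 4) (nat_lit 5) (nat_lit 11) L50075 (by decide +kernel)
theorem L50077 : W_6 (nat_lit 4) (nat_lit 0x280034001300080000000000000000000000000000000) (nat_lit 0x0) (nat_lit 0x10001800140000000000018000000000000000000000000000000) := T_6 (nat_lit 174) (nat_lit 176) (nat_lit 2) (nat_lit 4) (nat_lit 10) L50076 (by decide +kernel)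
theorem L50078 : W_6 (nat_lit 5) (nat_lit 0x280014001300080000000000000000000000000000000) (nat_lit 0x0) (nat_lit 0x10001800140028000000018000000000000000000000000000000) := T_6 (nat_lit 161) (nat_lit 159) (nat_lit 0) (nat_lit 8) (nat_lit 9) L50077 (by decide +kernel)
theorem L50079 : W_6 (nat_lit 2) (nat_lit 0x3800280014001300080000000000000000000000000000000) (nat_lit 0x0) (nat_lit 0x400100000000000010000000000000000000000000000000) := D_6 (nat_lit 176) (nat_lit 190) (nat_lit 124) (nat_lit 2) (nat_lit 3) (nat_lit 11) (nat_lit 7) (nat_lit 5) (nat_lit 7) (by decide +kernel)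
theorem L50080 : W_6 (nat_lit 3) (nat_lit 0x1800280014001300080000000000000000000000000000000) (nat_lit 0x0) (nat_lit 0x40002400100000000000010000000000000000000000000000000) := T_6 (nat_lit 193) (nat_lit 210) (nat_lit 7) (nat_lit 5) (nat_lit 8) L50079 (by decide +kernel)
theorem L50081 : W_6 (nat_lit 4) (nat_lit 0x1000280014001300080000000000000000000000000000000) (nat_lit 0x0) (nat_lit 0x50002c00100000000000010000000000000000000000000000000) := T_6 (nat_lit 191) (nat_lit 208) (nat_lit 5) (nat_lit 5) (nat_lit 8) L50080 (by decide +kernel)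
theorem L50082 : W_6 (nat_lit 5) (nat_lit 0x280014001300080000000000000000000000000000000) (nat_lit 0x0) (nat_lit 0x50003c00100000000000018000000000000000000000000000000) := T_6 (nat_lit 192) (nat_lit 123) (nat_lit 4) (nat_lit 5) (nat_lit 11) L50081 (by decide +kernel)
theorem L50083 : W_6 (nat_lit 2) (nat_lit 0x1000380034001300080000000000000000000000000000000) (nat_lit 0x0) (nat_lit 0x40002000000000000000010000000000000000000000000000000) := D_6 (nat_lit 193) (nat_lit 210) (nat_lit 124) (nat_lit 7) (nat_lit 5) (nat_lit 8) (nat_lit 7) (nat_lit 5) (nat_lit 7) (by decide +kernel)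
theorem L50084 : W_6 (nat_lit 3) (nat_lit 0x1000280034001300080000000000000000000000000000000) (nat_lit 0x0) (nat_lit 0x40002000140000000000010000000000000000000000000000000) := T_6 (nat_lit 176) (nat_lit 174) (nat_lit 2) (nat_lit 4) (nat_lit 10) L50083 (by decide +kernel)
theorem L50085 : W_6 (nat_lit 4) (nat_lit 0x1000280014001300080000000000000000000000000000000) (nat_lit 0x0) (nat_lit 0x40002000140028000000010000000000000000000000000000000) := T_6 (nat_lit 161) (nat_lit 159) (nat_lit 0) (nat_lit 8) (nat_lit 9) L50084 (by decide +kernel)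
theorem L50086 : W_6 (nat_lit 5) (nat_lit 0x280014001300080000000000000000000000000000000) (nat_lit 0x0) (nat_lit 0x40003000140028000000018000000000000000000000000000000) := T_6 (nat_lit 192) (nat_lit 123) (nat_lit 4) (nat_lit 5) (nat_lit 11) L50085 (by decide +kernel)
theorem L50087 : W_6 (nat_lit 2) (nat_lit 0x3800280014001300090000000000000000000000000000000) (nat_lit 0x0) (nat_lit 0x60001000000000000000000000000000) := D_6 (nat_lit 125) (nat_lit 126) (nat_lit 108) (nat_lit 1) (nat_lit 8) (nat_lit 7) (nat_lit 6) (nat_lit 5) (nat_lit 10) (by decide +kernel)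
theorem L50088 : W_6 (nat_lit 3) (nat_lit 0x3800280014001300080000000000000000000000000000000) (nat_lit 0x0) (nat_lit 0x40000000000070001000000000000000000000000000) := T_6 (nat_lit 124) (nat_lit 174) (nat_lit 5) (nat_lit 5) (nat_lit 7) L50087 (by decide +kernel)
theorem L50089 : W_6 (nat_lit 4) (nat_lit 0x1800280014001300080000000000000000000000000000000) (nat_lit 0x0) (nat_lit 0x40002000040000000000070001000000000000000000000000000) := T_6 (nat_lit 193) (nat_lit 210) (nat_lit 7) (nat_lit 5) (nat_lit 8) L50088 (by decide +kernel)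
theorem L50090 : W_6 (nat_lit 5) (nat_lit 0x1000280014001300080000000000000000000000000000000) (nat_lit 0x0) (nat_lit 0x50002800040000000000070001000000000000000000000000000) := T_6 (nat_lit 191) (nat_lit 208) (nat_lit 5) (nat_lit 5) (nat_lit 8) L50089 (by decide +kernel)
theorem L50091 : W_6 (nat_lit 6) (nat_lit 0x280014001300080000000000000000000000000000000) (nat_lit 0x0) (nat_lit 0x50003800040000000000078001000000000000000000000000000) := T_6 (nat_lit 192) (nat_lit 123) (nat_lit 4) (nat_lit 5) (nat_lit 11) L50090 (by decide +kernel)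
theorem L50092 : W_6 (nat_lit 2) (nat_lit 0x4003c00290014001300080000000000000000000000000000000) (nat_lit 0x0) (nat_lit 0x2000200008000000000000000000000000000000000000000000) := D_6 (nat_lit 189) (nat_lit 171) (nat_lit 205) (nat_lit 0) (nat_lit 5) (nat_lit 11) (nat_lit 1) (nat_lit 5) (nat_lit 11) (by decide +kernel)
theorem L50093 : W_6 (nat_lit 3) (nat_lit 0x3c00290014001300080000000000000000000000000000000) (nat_lit 0x0) (nat_lit 0xe000200008000000000000000000000000000000000000000000) := T_6 (nat_lit 206) (nat_lit 207) (nat_lit 1) (nat_lit 6) (nat_lit 11) L50092 (by decide +kernel)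
theorem L50094 : W_6 (nat_lit 4) (nat_lit 0x3c00280014001300080000000000000000000000000000000) (nat_lit 0x0) (nat_lit 0xe000200038000000000000000000000000000000000000000000) := T_6 (nat_lit 172) (nat_lit 173) (nat_lit 0) (nat_lit 6) (nat_lit 11) L50093 (by decide +kernel)
theorem L50095 : W_6 (nat_lit 5) (nat_lit 0x3800280014001300080000000000000000000000000000000) (nat_lit 0x0) (nat_lit 0xe000600138000000000000000000000000000000000000000000) := T_6 (nat_lit 190) (nat_lit 176) (nat_lit 2) (nat_lit 3) (nat_lit 11) L50094 (by decide +kernel)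
theorem L50096 : W_6 (nat_lit 6) (nat_lit 0x1800280014001300080000000000000000000000000000000) (nat_lit 0x0) (nat_lit 0x4e002600138000000000000000000000000000000000000000000) := T_6 (nat_lit 193) (nat_lit 210) (nat_lit 7) (nat_lit 5) (nat_lit 8) L50095 (by decide +kernel)
theorem L50097 : W_6 (nat_lit 7) (nat_lit 0x1000280014001300080000000000000000000000000000000) (nat_lit 0x0) (nat_lit 0x5e002e00138000000000000000000000000000000000000000000) := T_6 (nat_lit 191) (nat_lit 208) (nat_lit 5) (nat_lit 5) (nat_lit 8) L50096 (by decide +kernel)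
theorem L50098 : W_6 (nat_lit 8) (nat_lit 0x280014001300080000000000000000000000000000000) (nat_lit 0x0) (nat_lit 0x5e003e00138000000000008000000000000000000000000000000) := T_6 (nat_lit 192) (nat_lit 123) (nat_lit 4) (nat_lit 5) (nat_lit 11) L50097 (by decide +kernel)
theorem L50099 : W_6 (nat_lit 9) (nat_lit 0x200014001300080000000000000000000000000000000) (nat_lit 0x0) (nat_lit 0x5e003e001f8028000000078001000000000000000000000000000) := Q_6 (nat_lit 175) (C_6 L50073 (C_6 L50078 (C_6 L50082 (C_6 L50086 (C_6 L50091 (C_6 L50098 N_6)))))) (by decide +kernel)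
theorem L50100 : W_6 (nat_lit 4) (nat_lit 0x800200016001300090000000000000000000000000000000) (nat_lit 0x0) (nat_lit 0x1000080000000000068001400000000000000000000000000) := T_6 (nat_lit 125) (nat_lit 126) (nat_lit 1) (nat_lit 8) (nat_lit 7) L40590 (by decide +kernel)
theorem L50101 : W_6 (nat_lit 5) (nat_lit 0x200016001300090000000000000000000000000000000) (nat_lit 0x0) (nat_lit 0x18000c0000000000068001400000000000000000000000000) := T_6 (nat_lit 191) (nat_lit 174) (nat_lit 6) (nat_lit 4) (nat_lit 11) L50100 (by decide +kernel)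
theorem L50102 : W_6 (nat_lit 6) (nat_lit 0x200016001300080000000000000000000000000000000) (nat_lit 0x0) (nat_lit 0x18000c0000000000078003c000e0000000000000000000000) := Q_6 (nat_lit 124) (C_6 L40506 (C_6 L40510 (C_6 L40593 (C_6 L50101 N_6)))) (by decide +kernel)
theorem L50103 : W_6 (nat_lit 7) (nat_lit 0x200014001300080000000000000000000000000000000) (nat_lit 0x0) (nat_lit 0x18001f800bc00800078003c000e0000000000000000000000) := Q_6 (nat_lit 157) (C_6 L42039 (C_6 L50102 (C_6 L50010 N_6))) (by decide +kernel)
theorem L50104 : W_6 (nat_lit 10) (nat_lit 0x200010001300080000000000000000000000000000000) (nat_lit 0x0) (nat_lit 0xa0007e003e001f802fc00800078003c000e0000000000000000000000) := Q_6 (nat_lit 158) (C_6 L50074 (C_6 L40522 (C_6 L50099 (C_6 L40695 (C_6 L42042 (C_6 L50103 N_6)))))) (by decide +kernel)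
theorem L50105 : W_6 (nat_lit 7) (nat_lit 0x200014001300080000000000000000000000000000000) (nat_lit 0x0) (nat_lit 0x38001c00220000c0078003c000e0000000000000000000000) := Q_6 (nat_lit 124) (C_6 L40600 (C_6 L40538 (C_6 L40464 (C_6 L40533 N_6)))) (by decide +kernel)
theorem L50106 : W_6 (nat_lit 2) (nat_lit 0x20001c001300080000000000000000000000000000000) (nat_lit 0x0) (nat_lit 0x20000c0000000000000000000000000000000000) := D_6 (nat_lit 139) (nat_lit 157) (nat_lit 138) (nat_lit 0) (nat_lit 7) (nat_lit 9) (nat_lit 3) (nat_lit 2) (nat_lit 8) (by decide +kernel)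
theorem L50107 : W_6 (nat_lit 3) (nat_lit 0x200014001300080000000000000000000000000000000) (nat_lit 0x0) (nat_lit 0x2a0000c0000000000000000000000000000000000) := T_6 (nat_lit 159) (nat_lit 161) (nat_lit 0) (nat_lit 8) (nat_lit 9) L50106 (by decide +kernel)
theorem L50108 : W_6 (nat_lit 4) (nat_lit 0x20001c001300080000000000000000000000000000000) (nat_lit 0x0) (nat_lit 0x800060002000080010000800000000000000000000000000) := T_6 (nat_lit 157) (nat_lit 139) (nat_lit 0) (nat_lit 7) (nat_lit 9) L42038 (by decide +kernel)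
theorem L50109 : W_6 (nat_lit 5) (nat_lit 0x200014001300080000000000000000000000000000000) (nat_lit 0x0) (nat_lit 0x80006002a000080010000800000000000000000000000000) := T_6 (nat_lit 159) (nat_lit 161) (nat_lit 0) (nat_lit 8) (nat_lit 9) L50108 (by decide +kernel)
theorem L50110 : W_6 (nat_lit 7) (nat_lit 0x200014001300080000000000000000000000000000000) (nat_lit 0x0) (nat_lit 0x38001c00280000c0078003c000a0000000000000000000000) := Q_6 (nat_lit 124) (C_6 L40464 (C_6 L40600 (C_6 L40538 (C_6 L40498 N_6)))) (by decide +kernel)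
theorem L50111 : W_6 (nat_lit 2) (nat_lit 0x180024001f401300088000200000000000000000000000000) (nat_lit 0x0) (nat_lit 0x400030000000000000000000000) := D_6 (nat_lit 106) (nat_lit 89) (nat_lit 88) (nat_lit 7) (nat_lit 4) (nat_lit 5) (nat_lit 4) (nat_lit 4) (nat_lit 9) (by decide +kernel)
theorem L50112 : W_6 (nat_lit 3) (nat_lit 0x180024001f401300088000000000000000000000000000000) (nat_lit 0x0) (nat_lit 0x4000600030000000000000000000000) := T_6 (nat_lit 105) (nat_lit 122) (nat_lit 4) (nat_lit 4) (nat_lit 10) L50111 (by decide +kernel)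
theorem L50113 : W_6 (nat_lit 4) (nat_lit 0x180024001f401300080000000000000000000000000000000) (nat_lit 0x0) (nat_lit 0x8000000000000c000600030000000000000000000000) := T_6 (nat_lit 123) (nat_lit 175) (nat_lit 7) (nat_lit 4) (nat_lit 7) L50112 (by decide +kernel)
theorem L50114 : W_6 (nat_lit 5) (nat_lit 0x80024001f401300080000000000000000000000000000000) (nat_lit 0x0) (nat_lit 0x2000100008000000000000c000600030000000000000000000000) := T_6 (nat_lit 192) (nat_lit 209) (nat_lit 7) (nat_lit 4) (nat_lit 8) L50113 (by decide +kernel)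
theorem L50115 : W_6 (nat_lit 6) (nat_lit 0x24001f401300080000000000000000000000000000000) (nat_lit 0x0) (nat_lit 0x3000180008000000000000c000600030000000000000000000000) := T_6 (nat_lit 191) (nat_lit 208) (nat_lit 6) (nat_lit 4) (nat_lit 12) L50114 (by decide +kernel)
theorem L50116 : W_6 (nat_lit 7) (nat_lit 0x24001f001300080000000000000000000000000000000) (nat_lit 0x0) (nat_lit 0x30001800080000c0000000c000600030000000000000000000000) := T_6 (nat_lit 154) (nat_lit 155) (nat_lit 2) (nat_lit 1) (nat_lit 9) L50115 (by decide +kernel)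
theorem L50117 : W_6 (nat_lit 8) (nat_lit 0x24001e001300080000000000000000000000000000000) (nat_lit 0x0) (nat_lit 0x30001800180001c0000000c000600030000000000000000000000) := T_6 (nat_lit 156) (nat_lit 176) (nat_lit 3) (nat_lit 3) (nat_lit 9) L50116 (by decide +kernel)
theorem L50118 : W_6 (nat_lit 9) (nat_lit 0x20001e001300080000000000000000000000000000000) (nat_lit 0x0) (nat_lit 0x300018001e0001c0000000c000600030000000000000000000000) := T_6 (nat_lit 174) (nat_lit 173) (nat_lit 1) (nat_lit 7) (nat_lit 9) L50117 (by decide +kernel)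
theorem L50119 : W_6 (nat_lit 10) (nat_lit 0x200016001300080000000000000000000000000000000) (nat_lit 0x0) (nat_lit 0x300018001e0009c0008000c000600030000000000000000000000) := T_6 (nat_lit 159) (nat_lit 139) (nat_lit 0) (nat_lit 7) (nat_lit 9) L50118 (by decide +kernel)
theorem L50120 : W_6 (nat_lit 4) (nat_lit 0x200016001300080000000000000000000000000000000) (nat_lit 0x0) (nat_lit 0x800060008000080010000800000000000000000000000000) := T_6 (nat_lit 159) (nat_lit 139) (nat_lit 0) (nat_lit 7) (nat_lit 9) L42038 (by decide +kernel)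
theorem L50121 : W_6 (nat_lit 5) (nat_lit 0x200016001300080000000000000000000000000000000) (nat_lit 0x0) (nat_lit 0x138009c00080000000000000000000000000000000000) := T_6 (nat_lit 159) (nat_lit 139) (nat_lit 0) (nat_lit 7) (nat_lit 9) L40693 (by decide +kernel)
theorem L50122 : W_6 (nat_lit 9) (nat_lit 0x240016001300080000000000000000000000000000000) (nat_lit 0x0) (nat_lit 0x300018001a0009c0000000c000600030000000000000000000000) := T_6 (nat_lit 159) (nat_lit 173) (nat_lit 1) (nat_lit 7) (nat_lit 9) L50117 (by decide +kernel)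
theorem L50123 : W_6 (nat_lit 2) (nat_lit 0x268016001300088000800000000000000000000000000) (nat_lit 0x0) (nat_lit 0x80001000000000000400000000000000000000000000) := D_6 (nat_lit 106) (nat_lit 156) (nat_lit 175) (nat_lit 5) (nat_lit 4) (nat_lit 6) (nat_lit 7) (nat_lit 4) (nat_lit 6) (by decide +kernel)
theorem L50124 : W_6 (nat_lit 3) (nat_lit 0x268016001300080000800000000000000000000000000) (nat_lit 0x0) (nat_lit 0x400080001000000008000400000000000000000000000000) := T_6 (nat_lit 123) (nat_lit 190) (nat_lit 5) (nat_lit 4) (nat_lit 7) L50123 (by decide +kernel)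
theorem L50125 : W_6 (nat_lit 4) (nat_lit 0x260016001300080000800000000000000000000000000) (nat_lit 0x0) (nat_lit 0x400098001000000008000400000000000000000000000000) := T_6 (nat_lit 171) (nat_lit 172) (nat_lit 2) (nat_lit 1) (nat_lit 10) L50124 (by decide +kernel)
theorem L50126 : W_6 (nat_lit 5) (nat_lit 0x240016001300080000800000000000000000000000000) (nat_lit 0x0) (nat_lit 0x4000b8009000000008000400000000000000000000000000) := T_6 (nat_lit 173) (nat_lit 159) (nat_lit 1) (nat_lit 7) (nat_lit 9) L50125 (by decide +kernel)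
theorem L50127 : W_6 (nat_lit 6) (nat_lit 0x240016001300080000000000000000000000000000000) (nat_lit 0x0) (nat_lit 0x4000b8009000000018000c00000000000000000000000000) := T_6 (nat_lit 107) (nat_lit 124) (nat_lit 5) (nat_lit 5) (nat_lit 6) L50126 (by decide +kernel)
theorem L50128 : W_6 (nat_lit 10) (nat_lit 0x200016001300080000000000000000000000000000000) (nat_lit 0x0) (nat_lit 0x30001c001f8009c0000001c000e00030000000000000000000000) := Q_6 (nat_lit 174) (C_6 L42018 (C_6 L50122 (C_6 L50127 N_6))) (by decide +kernel)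
theorem L50129 : W_6 (nat_lit 11) (nat_lit 0x200014001300080000000000000000000000000000000) (nat_lit 0x0) (nat_lit 0x30001c001f800bc000c007c003e000f0000000000000000000000) := Q_6 (nat_lit 157) (C_6 L40609 (C_6 L50119 (C_6 L50120 (C_6 L50121 (C_6 L50128 N_6))))) (by decide +kernel)
theorem L50130 : W_6 (nat_lit 2) (nat_lit 0x2c0034001300090000000000000000000000000000000) (nat_lit 0x0) (nat_lit 0x60001000000000000000000000000000) := D_6 (nat_lit 125) (nat_lit 126) (nat_lit 108) (nat_lit 1) (nat_lit 8) (nat_lit 7) (nat_lit 6) (nat_lit 5) (nat_lit 10) (by decide +kernel)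
theorem L50131 : W_6 (nat_lit 3) (nat_lit 0x2c0034001300080000000000000000000000000000000) (nat_lit 0x0) (nat_lit 0x800000000000000070001000000000000000000000000000) := T_6 (nat_lit 124) (nat_lit 191) (nat_lit 5) (nat_lit 5) (nat_lit 7) L50130 (by decide +kernel)
theorem L50132 : W_6 (nat_lit 4) (nat_lit 0x280034001300080000000000000000000000000000000) (nat_lit 0x0) (nat_lit 0x800140000000000070001000000000000000000000000000) := T_6 (nat_lit 174) (nat_lit 176) (nat_lit 2) (nat_lit 4) (nat_lit 10) L50131 (by decide +kernel)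
theorem L50133 : W_6 (nat_lit 5) (nat_lit 0x280014001300080000000000000000000000000000000) (nat_lit 0x0) (nat_lit 0x800140028000000070001000000000000000000000000000) := T_6 (nat_lit 161) (nat_lit 159) (nat_lit 0) (nat_lit 8) (nat_lit 9) L50132 (by decide +kernel)
theorem L50134 : W_6 (nat_lit 2) (nat_lit 0x200010002c0034001300080000000000000000000000000000000) (nat_lit 0x0) (nat_lit 0x800040002000000000000000000000000000000000000000000000000) := D_6 (nat_lit 210) (nat_lit 227) (nat_lit 193) (nat_lit 7) (nat_lit 5) (nat_lit 9) (nat_lit 7) (nat_lit 5) (nat_lit 8) (by decide +kernel)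
theorem L50135 : W_6 (nat_lit 3) (nat_lit 0x10002c0034001300080000000000000000000000000000000) (nat_lit 0x0) (nat_lit 0x800060002000000002000000000000000000000000000000000000000) := T_6 (nat_lit 209) (nat_lit 157) (nat_lit 4) (nat_lit 5) (nat_lit 12) L50134 (by decide +kernel)
theorem L50136 : W_6 (nat_lit 4) (nat_lit 0x2c0034001300080000000000000000000000000000000) (nat_lit 0x0) (nat_lit 0x800060003000000002000000008000000000000000000000000000000) := T_6 (nat_lit 192) (nat_lit 123) (nat_lit 4) (nat_lit 5) (nat_lit 11) L50135 (by decide +kernel)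
theorem L50137 : W_6 (nat_lit 5) (nat_lit 0x280034001300080000000000000000000000000000000) (nat_lit 0x0) (nat_lit 0x800060003000140002000000008000000000000000000000000000000) := T_6 (nat_lit 174) (nat_lit 176) (nat_lit 2) (nat_lit 4) (nat_lit 10) L50136 (by decide +kernel)
theorem L50138 : W_6 (nat_lit 6) (nat_lit 0x280014001300080000000000000000000000000000000) (nat_lit 0x0) (nat_lit 0x80006000300014002a000000008000000000000000000000000000000) := T_6 (nat_lit 161) (nat_lit 159) (nat_lit 0) (nat_lit 8) (nat_lit 9) L50137 (by decide +kernel)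
theorem L50139 : W_6 (nat_lit 7) (nat_lit 0x200014001300080000000000000000000000000000000) (nat_lit 0x0) (nat_lit 0xa000700038001c002a000000078001000000000000000000000000000) := Q_6 (nat_lit 175) (C_6 L50072 (C_6 L50133 (C_6 L50138 N_6))) (by decide +kernel)
theorem L50140 : W_6 (nat_lit 12) (nat_lit 0x200010001300080000000000000000000000000000000) (nat_lit 0x0) (nat_lit 0xa00070003c001f802fc000c007c003e000f0000000000000000000000) := Q_6 (nat_lit 158) (C_6 L50105 (C_6 L50107 (C_6 L50109 (C_6 L50110 (C_6 L50129 (C_6 L50139 N_6)))))) (by decide +kernel)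
theorem L50141 : W_6 (nat_lit 2) (nat_lit 0x380014001300090001800000000000000000000000000) (nat_lit 0x0) (nat_lit 0x800040020000000000000000000000000000000000000000) := D_6 (nat_lit 174) (nat_lit 161) (nat_lit 191) (nat_lit 2) (nat_lit 4) (nat_lit 10) (nat_lit 5) (nat_lit 5) (nat_lit 7) (by decide +kernel)
theorem L50142 : W_6 (nat_lit 3) (nat_lit 0x280014001300090001800000000000000000000000000) (nat_lit 0x0) (nat_lit 0x2800140020000000000000000000000000000000000000000) := T_6 (nat_lit 176) (nat_lit 193) (nat_lit 7) (nat_lit 5) (nat_lit 7) L50141 (by decide +kernel)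
theorem L50143 : W_6 (nat_lit 4) (nat_lit 0x200014001300090001800000000000000000000000000) (nat_lit 0x0) (nat_lit 0x28001c0020000000020000000000000000000000000000000) := T_6 (nat_lit 175) (nat_lit 125) (nat_lit 6) (nat_lit 5) (nat_lit 10) L50142 (by decide +kernel)
theorem L50144 : W_6 (nat_lit 5) (nat_lit 0x200014001300090000800000000000000000000000000) (nat_lit 0x0) (nat_lit 0x28001c0020000000020001000080000000000000000000000) := T_6 (nat_lit 108) (nat_lit 91) (nat_lit 6) (nat_lit 5) (nat_lit 9) L50143 (by decide +kernel)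
theorem L50145 : W_6 (nat_lit 6) (nat_lit 0x200014001300090000000000000000000000000000000) (nat_lit 0x0) (nat_lit 0x28001c0022000000020001c000e0004000000000000000000) := Q_6 (nat_lit 107) (C_6 L50144 (C_6 L40432 (C_6 L40645 N_6))) (by decide +kernel)
theorem L50146 : W_6 (nat_lit 2) (nat_lit 0x200018002800140013400b0000000000000000000000000000000) (nat_lit 0x0) (nat_lit 0x800040002000000000000000000000000000000000000000000000000) := D_6 (nat_lit 210) (nat_lit 193) (nat_lit 227) (nat_lit 7) (nat_lit 5) (nat_lit 8) (nat_lit 7) (nat_lit 5) (nat_lit 9) (by decide +kernel)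
theorem L50147 : W_6 (nat_lit 3) (nat_lit 0x18002800140013400b0000000000000000000000000000000) (nat_lit 0x0) (nat_lit 0x800060002000000002000000000000000000000000000000000000000) := T_6 (nat_lit 209) (nat_lit 157) (nat_lit 4) (nat_lit 5) (nat_lit 12) L50146 (by decide +kernel)
theorem L50148 : W_6 (nat_lit 4) (nat_lit 0x8002800140013400b0000000000000000000000000000000) (nat_lit 0x0) (nat_lit 0x800070003000000002000000000000000000000000000000000000000) := T_6 (nat_lit 192) (nat_lit 208) (nat_lit 5) (nat_lit 5) (nat_lit 8) L50147 (by decide +kernel)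
theorem L50149 : W_6 (nat_lit 5) (nat_lit 0x2800140013400b0000000000000000000000000000000) (nat_lit 0x0) (nat_lit 0x800070003800040002000000000000000000000000000000000000000) := T_6 (nat_lit 191) (nat_lit 174) (nat_lit 5) (nat_lit 5) (nat_lit 7) L50148 (by decide +kernel)
theorem L50150 : W_6 (nat_lit 6) (nat_lit 0x2000140013400b0000000000000000000000000000000) (nat_lit 0x0) (nat_lit 0x8000700038000c0002000000000001000000000000000000000000000) := T_6 (nat_lit 175) (nat_lit 108) (nat_lit 6) (nat_lit 5) (nat_lit 10) L50149 (by decide +kernel)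
theorem L50151 : W_6 (nat_lit 7) (nat_lit 0x2000140013000b0000000000000000000000000000000) (nat_lit 0x0) (nat_lit 0x8000700038000c00020000c0000001000000000000000000000000000) := T_6 (nat_lit 138) (nat_lit 139) (nat_lit 2) (nat_lit 2) (nat_lit 8) L50150 (by decide +kernel)
theorem L50152 : W_6 (nat_lit 8) (nat_lit 0x200014001300090000000000000000000000000000000) (nat_lit 0x0) (nat_lit 0x8000700038000c00020000c0060001000000000000000000000000000) := T_6 (nat_lit 125) (nat_lit 126) (nat_lit 1) (nat_lit 8) (nat_lit 7) L50151 (by decide +kernel)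
theorem L50153 : W_6 (nat_lit 2) (nat_lit 0x2000140013000900008000a0000000000000000000000) (nat_lit 0x0) (nat_lit 0x40005000000000000000000) := D_6 (nat_lit 90) (nat_lit 74) (nat_lit 72) (nat_lit 6) (nat_lit 5) (nat_lit 8) (nat_lit 4) (nat_lit 5) (nat_lit 8) (by decide +kernel)
theorem L50154 : W_6 (nat_lit 3) (nat_lit 0x200014001300090000800080000000000000000000000) (nat_lit 0x0) (nat_lit 0x400060005000000000000000000) := T_6 (nat_lit 89) (nat_lit 106) (nat_lit 4) (nat_lit 5) (nat_lit 9) L50153 (by decide +kernel)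
theorem L50155 : W_6 (nat_lit 4) (nat_lit 0x200014001300090000800000000000000000000000000) (nat_lit 0x0) (nat_lit 0x14000e0005000000000000000000) := T_6 (nat_lit 91) (nat_lit 108) (nat_lit 6) (nat_lit 5) (nat_lit 9) L50154 (by decide +kernel)
theorem L50156 : W_6 (nat_lit 2) (nat_lit 0x2c0014001300090003c00000000000000000000000000) (nat_lit 0x0) (nat_lit 0x2000100020000000000000000000000000000000000000000) := D_6 (nat_lit 176) (nat_lit 161) (nat_lit 193) (nat_lit 2) (nat_lit 4) (nat_lit 10) (nat_lit 7) (nat_lit 5) (nat_lit 7) (by decide +kernel)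
theorem L50157 : W_6 (nat_lit 3) (nat_lit 0x240014001300090003c00000000000000000000000000) (nat_lit 0x0) (nat_lit 0x2800180020000000000000000000000000000000000000000) := T_6 (nat_lit 175) (nat_lit 191) (nat_lit 5) (nat_lit 5) (nat_lit 7) L50156 (by decide +kernel)
theorem L50158 : W_6 (nat_lit 4) (nat_lit 0x240014001300090001c00000000000000000000000000) (nat_lit 0x0) (nat_lit 0x2800180020000000040002000000000000000000000000000) := T_6 (nat_lit 109) (nat_lit 126) (nat_lit 3) (nat_lit 4) (nat_lit 6) L50157 (by decide +kernel)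
theorem L50159 : W_6 (nat_lit 5) (nat_lit 0x240014001300090001800000000000000000000000000) (nat_lit 0x0) (nat_lit 0x2800180020000000040002400020000000000000000000000) := T_6 (nat_lit 106) (nat_lit 89) (nat_lit 4) (nat_lit 5) (nat_lit 9) L50158 (by decide +kernel)
theorem L50160 : W_6 (nat_lit 6) (nat_lit 0x200014001300090001800000000000000000000000000) (nat_lit 0x0) (nat_lit 0x28001c0022000000040002400020000000000000000000000) := T_6 (nat_lit 174) (nat_lit 157) (nat_lit 5) (nat_lit 5) (nat_lit 6) L50159 (by decide +kernel)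
theorem L50161 : W_6 (nat_lit 7) (nat_lit 0x200014001300090000800000000000000000000000000) (nat_lit 0x0) (nat_lit 0x28001c00220000000400034000a0000000000000000000000) := T_6 (nat_lit 108) (nat_lit 91) (nat_lit 6) (nat_lit 5) (nat_lit 9) L50160 (by decide +kernel)
theorem L50162 : W_6 (nat_lit 8) (nat_lit 0x200014001300090000000000000000000000000000000) (nat_lit 0x0) (nat_lit 0x28001c0022000000040003c000e0005000000000000000000) := Q_6 (nat_lit 107) (C_6 L50155 (C_6 L50161 (C_6 L40432 N_6))) (by decide +kernel)
theorem L50163 : W_6 (nat_lit 4) (nat_lit 0x2000140013000d0000800000000000000000000000000) (nat_lit 0x0) (nat_lit 0x400020000000000034000a0000000000000000000000) := T_6 (nat_lit 157) (nat_lit 174) (nat_lit 5) (nat_lit 5) (nat_lit 6) L41690 (by decide +kernel)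
theorem L50164 : W_6 (nat_lit 5) (nat_lit 0x200014001300090000800000000000000000000000000) (nat_lit 0x0) (nat_lit 0x400020000000600034000a0000000000000000000000) := T_6 (nat_lit 126) (nat_lit 125) (nat_lit 1) (nat_lit 8) (nat_lit 7) L50163 (by decide +kernel)
theorem L50165 : W_6 (nat_lit 6) (nat_lit 0x200014001300090000000000000000000000000000000) (nat_lit 0x0) (nat_lit 0x40002000000060003c000e0005000000000000000000) := Q_6 (nat_lit 107) (C_6 L50155 (C_6 L50164 (C_6 L40432 N_6))) (by decide +kernel)
theorem L50166 : W_6 (nat_lit 2) (nat_lit 0x3800140013000d0000000000000000000000000000000) (nat_lit 0x0) (nat_lit 0x800040020000000000000000000000000000000000000000) := D_6 (nat_lit 174) (nat_lit 161) (nat_lit 191) (nat_lit 2) (nat_lit 4) (nat_lit 10) (nat_lit 5) (nat_lit 5) (nat_lit 7) (by decide +kernel)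
theorem L50167 : W_6 (nat_lit 3) (nat_lit 0x2800140013000d0000000000000000000000000000000) (nat_lit 0x0) (nat_lit 0x2800140020000000000000000000000000000000000000000) := T_6 (nat_lit 176) (nat_lit 193) (nat_lit 7) (nat_lit 5) (nat_lit 7) L50166 (by decide +kernel)
theorem L50168 : W_6 (nat_lit 4) (nat_lit 0x280014001300090000000000000000000000000000000) (nat_lit 0x0) (nat_lit 0x2800140020000000060000000000000000000000000000000) := T_6 (nat_lit 126) (nat_lit 125) (nat_lit 1) (nat_lit 8) (nat_lit 7) L50167 (by decide +kernel)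
theorem L50169 : W_6 (nat_lit 2) (nat_lit 0x3c00140013000d0000000000000000000000000000000) (nat_lit 0x0) (nat_lit 0x3000000000000800000000000000000000000000) := D_6 (nat_lit 157) (nat_lit 156) (nat_lit 107) (nat_lit 0) (nat_lit 7) (nat_lit 10) (nat_lit 5) (nat_lit 5) (nat_lit 6) (by decide +kernel)
theorem L50170 : W_6 (nat_lit 3) (nat_lit 0x3800140013000d0000000000000000000000000000000) (nat_lit 0x0) (nat_lit 0x40023000000000000800000000000000000000000000) := T_6 (nat_lit 174) (nat_lit 161) (nat_lit 2) (nat_lit 4) (nat_lit 10) L50169 (by decide +kernel)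
theorem L50171 : W_6 (nat_lit 4) (nat_lit 0x2800140013000d0000000000000000000000000000000) (nat_lit 0x0) (nat_lit 0x2000140023000000000000800000000000000000000000000) := T_6 (nat_lit 176) (nat_lit 193) (nat_lit 7) (nat_lit 5) (nat_lit 7) L50170 (by decide +kernel)
theorem L50172 : W_6 (nat_lit 5) (nat_lit 0x280014001300090000000000000000000000000000000) (nat_lit 0x0) (nat_lit 0x2000140023000000060000800000000000000000000000000) := T_6 (nat_lit 126) (nat_lit 125) (nat_lit 1) (nat_lit 8) (nat_lit 7) L50171 (by decide +kernel)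
theorem L50173 : W_6 (nat_lit 2) (nat_lit 0x200030002800140013000d0000000000000000000000000000000) (nat_lit 0x0) (nat_lit 0x200010000800000000000000000000000000000000000000000000000) := D_6 (nat_lit 208) (nat_lit 225) (nat_lit 191) (nat_lit 5) (nat_lit 5) (nat_lit 9) (nat_lit 5) (nat_lit 5) (nat_lit 8) (by decide +kernel)
theorem L50174 : W_6 (nat_lit 3) (nat_lit 0x30002800140013000d0000000000000000000000000000000) (nat_lit 0x0) (nat_lit 0x200030000800000002000000000000000000000000000000000000000) := T_6 (nat_lit 209) (nat_lit 157) (nat_lit 4) (nat_lit 5) (nat_lit 12) L50173 (by decide +kernel)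
theorem L50175 : W_6 (nat_lit 4) (nat_lit 0x20002800140013000d0000000000000000000000000000000) (nat_lit 0x0) (nat_lit 0x200070001800000002000000000000000000000000000000000000000) := T_6 (nat_lit 192) (nat_lit 210) (nat_lit 7) (nat_lit 5) (nat_lit 8) L50174 (by decide +kernel)
theorem L50176 : W_6 (nat_lit 5) (nat_lit 0x2800140013000d0000000000000000000000000000000) (nat_lit 0x0) (nat_lit 0x200070003800100002000000000000000000000000000000000000000) := T_6 (nat_lit 193) (nat_lit 176) (nat_lit 7) (nat_lit 5) (nat_lit 7) L50175 (by decide +kernel)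
theorem L50177 : W_6 (nat_lit 6) (nat_lit 0x280014001300090000000000000000000000000000000) (nat_lit 0x0) (nat_lit 0x200070003800100002000000060000000000000000000000000000000) := T_6 (nat_lit 126) (nat_lit 125) (nat_lit 1) (nat_lit 8) (nat_lit 7) L50176 (by decide +kernel)
theorem L50178 : W_6 (nat_lit 2) (nat_lit 0x200018002800140013000d0000000000000000000000000000000) (nat_lit 0x0) (nat_lit 0x800040002000000000000000000000000000000000000000000000000) := D_6 (nat_lit 210) (nat_lit 193) (nat_lit 227) (nat_lit 7) (nat_lit 5) (nat_lit 8) (nat_lit 7) (nat_lit 5) (nat_lit 9) (by decide +kernel)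
theorem L50179 : W_6 (nat_lit 3) (nat_lit 0x18002800140013000d0000000000000000000000000000000) (nat_lit 0x0) (nat_lit 0x800060002000000002000000000000000000000000000000000000000) := T_6 (nat_lit 209) (nat_lit 157) (nat_lit 4) (nat_lit 5) (nat_lit 12) L50178 (by decide +kernel)
theorem L50180 : W_6 (nat_lit 4) (nat_lit 0x8002800140013000d0000000000000000000000000000000) (nat_lit 0x0) (nat_lit 0x800070003000000002000000000000000000000000000000000000000) := T_6 (nat_lit 192) (nat_lit 208) (nat_lit 5) (nat_lit 5) (nat_lit 8) L50179 (by decide +kernel)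
theorem L50181 : W_6 (nat_lit 5) (nat_lit 0x800280014001300090000000000000000000000000000000) (nat_lit 0x0) (nat_lit 0x800070003000000002000000060000000000000000000000000000000) := T_6 (nat_lit 126) (nat_lit 125) (nat_lit 1) (nat_lit 8) (nat_lit 7) L50180 (by decide +kernel)
theorem L50182 : W_6 (nat_lit 6) (nat_lit 0x280014001300090000000000000000000000000000000) (nat_lit 0x0) (nat_lit 0x800070003800040002000000060000000000000000000000000000000) := T_6 (nat_lit 191) (nat_lit 174) (nat_lit 5) (nat_lit 5) (nat_lit 7) L50181 (by decide +kernel)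
theorem L50183 : W_6 (nat_lit 2) (nat_lit 0x3c0014001300090000000000000000000000000000000) (nat_lit 0x0) (nat_lit 0x3000000000000800000000000000000000000000) := D_6 (nat_lit 157) (nat_lit 156) (nat_lit 107) (nat_lit 0) (nat_lit 7) (nat_lit 10) (nat_lit 5) (nat_lit 5) (nat_lit 6) (by decide +kernel)
theorem L50184 : W_6 (nat_lit 3) (nat_lit 0x2c0014001300090000000000000000000000000000000) (nat_lit 0x0) (nat_lit 0x100023000000000000800000000000000000000000000) := T_6 (nat_lit 176) (nat_lit 161) (nat_lit 2) (nat_lit 4) (nat_lit 10) L50183 (by decide +kernel)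
theorem L50185 : W_6 (nat_lit 4) (nat_lit 0x280014001300090000000000000000000000000000000) (nat_lit 0x0) (nat_lit 0x800140023000000000000800000000000000000000000000) := T_6 (nat_lit 174) (nat_lit 191) (nat_lit 5) (nat_lit 5) (nat_lit 7) L50184 (by decide +kernel)
theorem L50186 : W_6 (nat_lit 7) (nat_lit 0x200014001300090000000000000000000000000000000) (nat_lit 0x0) (nat_lit 0xa000700038001c0023000000060000800000000000000000000000000) := Q_6 (nat_lit 175) (C_6 L50168 (C_6 L50172 (C_6 L38639 (C_6 L50177 (C_6 L50182 (C_6 L50185 N_6)))))) (by decide +kernel)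
theorem L50187 : W_6 (nat_lit 9) (nat_lit 0x200014001300080000000000000000000000000000000) (nat_lit 0x0) (nat_lit 0xa000700038001c00230000c0070003c000e0005000000000000000000) := Q_6 (nat_lit 124) (C_6 L50145 (C_6 L50152 (C_6 L50162 (C_6 L40644 (C_6 L50165 (C_6 L40538 (C_6 L50186 N_6))))))) (by decide +kernel)
theorem L50188 : W_6 (nat_lit 2) (nat_lit 0x2000340013400b0001000000000000000000000000000) (nat_lit 0x0) (nat_lit 0x800080004000000000000000000) := D_6 (nat_lit 91) (nat_lit 74) (nat_lit 107) (nat_lit 5) (nat_lit 6) (nat_lit 4) (nat_lit 6) (nat_lit 5) (nat_lit 9) (by decide +kernel)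
theorem L50189 : W_6 (nat_lit 3) (nat_lit 0x2000340013400b0000000000000000000000000000000) (nat_lit 0x0) (nat_lit 0x80000000000000001800080004000000000000000000) := T_6 (nat_lit 108) (nat_lit 175) (nat_lit 6) (nat_lit 5) (nat_lit 10) L50188 (by decide +kernel)
theorem L50190 : W_6 (nat_lit 4) (nat_lit 0x2000340013000b0000000000000000000000000000000) (nat_lit 0x0) (nat_lit 0x800000000c0000001800080004000000000000000000) := T_6 (nat_lit 138) (nat_lit 139) (nat_lit 2) (nat_lit 2) (nat_lit 8) L50189 (by decide +kernel)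
theorem L50191 : W_6 (nat_lit 5) (nat_lit 0x200034001300090000000000000000000000000000000) (nat_lit 0x0) (nat_lit 0x800000000c0060001800080004000000000000000000) := T_6 (nat_lit 125) (nat_lit 126) (nat_lit 1) (nat_lit 8) (nat_lit 7) L50190 (by decide +kernel)
theorem L50192 : W_6 (nat_lit 6) (nat_lit 0x200014001300090000000000000000000000000000000) (nat_lit 0x0) (nat_lit 0x800280000c0060001800080004000000000000000000) := T_6 (nat_lit 161) (nat_lit 159) (nat_lit 0) (nat_lit 8) (nat_lit 9) L50191 (by decide +kernel)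
theorem L50193 : W_6 (nat_lit 8) (nat_lit 0x200014001300080000000000000000000000000000000) (nat_lit 0x0) (nat_lit 0x28001e00280008c0070001c000e0005000000000000000000) := Q_6 (nat_lit 124) (C_6 L50192 (C_6 L40538 (C_6 L43258 (C_6 L40553 (C_6 L43384 (C_6 L43389 N_6)))))) (by decide +kernel)
theorem L50194 : W_6 (nat_lit 7) (nat_lit 0x200016001300080000000000000000000000000000000) (nat_lit 0x0) (nat_lit 0x300018000c00000000c0070003c000e0000000000000000000000) := Q_6 (nat_lit 124) (C_6 L40506 (C_6 L41692 (C_6 L50033 N_6))) (by decide +kernel)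
theorem L50195 : W_6 (nat_lit 8) (nat_lit 0x200014001300080000000000000000000000000000000) (nat_lit 0x0) (nat_lit 0x300018001f000b0008c0070003c000e0000000000000000000000) := Q_6 (nat_lit 157) (C_6 L40505 (C_6 L50194 (C_6 L40519 N_6))) (by decide +kernel)
theorem L50196 : W_6 (nat_lit 10) (nat_lit 0x200010001300080000000000000000000000000000000) (nat_lit 0x0) (nat_lit 0xa000700038001f002f0008c0070003c000e0005000000000000000000) := Q_6 (nat_lit 158) (C_6 L50187 (C_6 L38631 (C_6 L50193 (C_6 L50195 (C_6 L40522 N_6))))) (by decide +kernel)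
theorem L50197 : W_6 (nat_lit 2) (nat_lit 0x2000128013c0080000000000000000000000000000000) (nat_lit 0x0) (nat_lit 0xc000020000000000000000000000000000000000) := D_6 (nat_lit 158) (nat_lit 159) (nat_lit 137) (nat_lit 3) (nat_lit 2) (nat_lit 8) (nat_lit 3) (nat_lit 1) (nat_lit 8) (by decide +kernel)
theorem L50198 : W_6 (nat_lit 3) (nat_lit 0x200012801340080000000000000000000000000000000) (nat_lit 0x0) (nat_lit 0xc4000a0000000000000000000000000000000000) := T_6 (nat_lit 139) (nat_lit 154) (nat_lit 1) (nat_lit 5) (nat_lit 8) L50197 (by decide +kernel)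
theorem L50199 : W_6 (nat_lit 2) (nat_lit 0x200012c01340082000100004000000000000000000000) (nat_lit 0x0) (nat_lit 0x20000000000008000200000000000000000) := D_6 (nat_lit 87) (nat_lit 137) (nat_lit 69) (nat_lit 5) (nat_lit 2) (nat_lit 5) (nat_lit 4) (nat_lit 2) (nat_lit 8) (by decide +kernel)
theorem L50200 : W_6 (nat_lit 3) (nat_lit 0x200012c01340082000100000000000000000000000000) (nat_lit 0x0) (nat_lit 0x2000000008000c000200000000000000000) := T_6 (nat_lit 86) (nat_lit 103) (nat_lit 4) (nat_lit 2) (nat_lit 9) L50199 (by decide +kernel)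
theorem L50201 : W_6 (nat_lit 4) (nat_lit 0x200012801340082000100000000000000000000000000) (nat_lit 0x0) (nat_lit 0x800040002000000008000c000200000000000000000) := T_6 (nat_lit 154) (nat_lit 171) (nat_lit 5) (nat_lit 2) (nat_lit 6) L50200 (by decide +kernel)
theorem L50202 : W_6 (nat_lit 2) (nat_lit 0x200012801340082000100014000000000000000000000) (nat_lit 0x0) (nat_lit 0x8000a00000000000000000) := D_6 (nat_lit 87) (nat_lit 71) (nat_lit 69) (nat_lit 6) (nat_lit 2) (nat_lit 8) (nat_lit 4) (nat_lit 2) (nat_lit 8) (by decide +kernel)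
theorem L50203 : W_6 (nat_lit 3) (nat_lit 0x200012801340082000100010000000000000000000000) (nat_lit 0x0) (nat_lit 0x8000c000a00000000000000000) := T_6 (nat_lit 86) (nat_lit 103) (nat_lit 4) (nat_lit 2) (nat_lit 9) L50202 (by decide +kernel)
theorem L50204 : W_6 (nat_lit 4) (nat_lit 0x200012801340082000100000000000000000000000000) (nat_lit 0x0) (nat_lit 0x28001c000a00000000000000000) := T_6 (nat_lit 88) (nat_lit 105) (nat_lit 6) (nat_lit 2) (nat_lit 9) L50203 (by decide +kernel)
theorem L50205 : W_6 (nat_lit 2) (nat_lit 0x20001280134008a000400000000000000000000000000) (nat_lit 0x0) (nat_lit 0x80004000000000000000020000000000000000000000) := D_6 (nat_lit 158) (nat_lit 175) (nat_lit 89) (nat_lit 7) (nat_lit 4) (nat_lit 6) (nat_lit 7) (nat_lit 4) (nat_lit 5) (by decide +kernel)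
theorem L50206 : W_6 (nat_lit 2) (nat_lit 0x20001280134008b000400020000000000000000000000) (nat_lit 0x0) (nat_lit 0x200010000800000000000000000) := D_6 (nat_lit 88) (nat_lit 71) (nat_lit 105) (nat_lit 4) (nat_lit 4) (nat_lit 8) (nat_lit 4) (nat_lit 4) (nat_lit 9) (by decide +kernel)
theorem L50207 : W_6 (nat_lit 3) (nat_lit 0x20001280134008b000400000000000000000000000000) (nat_lit 0x0) (nat_lit 0x4000000000000200030000800000000000000000) := T_6 (nat_lit 89) (nat_lit 158) (nat_lit 7) (nat_lit 4) (nat_lit 5) L50206 (by decide +kernel)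
theorem L50208 : W_6 (nat_lit 4) (nat_lit 0x20001280134008a000400000000000000000000000000) (nat_lit 0x0) (nat_lit 0x4000000005000200030000800000000000000000) := T_6 (nat_lit 120) (nat_lit 122) (nat_lit 3) (nat_lit 1) (nat_lit 7) L50207 (by decide +kernel)
theorem L50209 : W_6 (nat_lit 2) (nat_lit 0x20001280134008b000c00000000000000000000000000) (nat_lit 0x0) (nat_lit 0x300010000000000000000000000) := D_6 (nat_lit 105) (nat_lit 104) (nat_lit 88) (nat_lit 1) (nat_lit 5) (nat_lit 6) (nat_lit 4) (nat_lit 4) (nat_lit 9) (by decide +kernel)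
theorem L50210 : W_6 (nat_lit 3) (nat_lit 0x20001280134008b000400000000000000000000000000) (nat_lit 0x0) (nat_lit 0xb00050000000000000000000000) := T_6 (nat_lit 107) (nat_lit 90) (nat_lit 6) (nat_lit 4) (nat_lit 9) L50209 (by decide +kernel)
theorem L50211 : W_6 (nat_lit 4) (nat_lit 0x20001280134008a000400000000000000000000000000) (nat_lit 0x0) (nat_lit 0x5000b00050000000000000000000000) := T_6 (nat_lit 120) (nat_lit 122) (nat_lit 3) (nat_lit 1) (nat_lit 7) L50210 (by decide +kernel)
theorem L50212 : W_6 (nat_lit 5) (nat_lit 0x20001280134008a000000000000000000000000000000) (nat_lit 0x0) (nat_lit 0x80004000000005000f00070000800000000000000000) := Q_6 (nat_lit 106) (C_6 L50205 (C_6 L50208 (C_6 L50211 N_6))) (by decide +kernel)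
theorem L50213 : W_6 (nat_lit 2) (nat_lit 0x20001680134008a000000000000000000000000000000) (nat_lit 0x0) (nat_lit 0x80000000000000000400020000000000000000000000) := D_6 (nat_lit 106) (nat_lit 89) (nat_lit 175) (nat_lit 7) (nat_lit 4) (nat_lit 5) (nat_lit 7) (nat_lit 4) (nat_lit 6) (by decide +kernel)
theorem L50214 : W_6 (nat_lit 2) (nat_lit 0x20001680134008a000000000000000000000000000000) (nat_lit 0x0) (nat_lit 0x28000800000000000000000000000000000000000) := D_6 (nat_lit 159) (nat_lit 161) (nat_lit 143) (nat_lit 0) (nat_lit 8) (nat_lit 9) (nat_lit 2) (nat_lit 4) (nat_lit 9) (by decide +kernel)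
theorem L50215 : W_6 (nat_lit 3) (nat_lit 0x20001280134008a000000000000000000000000000000) (nat_lit 0x0) (nat_lit 0x8002c000800000000400020000000000000000000000) := Q_6 (nat_lit 158) (C_6 L50213 (C_6 L50214 N_6)) (by decide +kernel)
theorem L50216 : W_6 (nat_lit 2) (nat_lit 0x200012c0134008b000b00004000000000000000000000) (nat_lit 0x0) (nat_lit 0x20000000000008000200000000000000000) := D_6 (nat_lit 87) (nat_lit 69) (nat_lit 137) (nat_lit 4) (nat_lit 2) (nat_lit 8) (nat_lit 5) (nat_lit 2) (nat_lit 5) (by decide +kernel)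
theorem L50217 : W_6 (nat_lit 3) (nat_lit 0x20001280134008b000b00004000000000000000000000) (nat_lit 0x0) (nat_lit 0x8000400020000000000008000200000000000000000) := T_6 (nat_lit 154) (nat_lit 171) (nat_lit 5) (nat_lit 2) (nat_lit 6) L50216 (by decide +kernel)
theorem L50218 : W_6 (nat_lit 4) (nat_lit 0x20001280134008b000b00000000000000000000000000) (nat_lit 0x0) (nat_lit 0x800040002000000008000c000200000000000000000) := T_6 (nat_lit 86) (nat_lit 103) (nat_lit 4) (nat_lit 2) (nat_lit 9) L50217 (by decide +kernel)
theorem L50219 : W_6 (nat_lit 5) (nat_lit 0x20001280134008b000300000000000000000000000000) (nat_lit 0x0) (nat_lit 0x8000400020000000c8000c000200000000000000000) := T_6 (nat_lit 107) (nat_lit 106) (nat_lit 1) (nat_lit 5) (nat_lit 6) L50218 (by decide +kernel)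
theorem L50220 : W_6 (nat_lit 6) (nat_lit 0x20001280134008b000100000000000000000000000000) (nat_lit 0x0) (nat_lit 0x8000400020000000e8001c000200000000000000000) := T_6 (nat_lit 105) (nat_lit 88) (nat_lit 6) (nat_lit 2) (nat_lit 9) L50219 (by decide +kernel)
theorem L50221 : W_6 (nat_lit 7) (nat_lit 0x20001280134008a000100000000000000000000000000) (nat_lit 0x0) (nat_lit 0x8000400020005000e8001c000200000000000000000) := T_6 (nat_lit 120) (nat_lit 122) (nat_lit 3) (nat_lit 1) (nat_lit 7) L50220 (by decide +kernel)
theorem L50222 : W_6 (nat_lit 2) (nat_lit 0x200012c0134008a000180010000000000000000000000) (nat_lit 0x0) (nat_lit 0x20000000000008000800000000000000000) := D_6 (nat_lit 87) (nat_lit 71) (nat_lit 137) (nat_lit 6) (nat_lit 2) (nat_lit 8) (nat_lit 5) (nat_lit 2) (nat_lit 5) (by decide +kernel)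
theorem L50223 : W_6 (nat_lit 3) (nat_lit 0x20001280134008a000180010000000000000000000000) (nat_lit 0x0) (nat_lit 0x8000400020000000000008000800000000000000000) := T_6 (nat_lit 154) (nat_lit 171) (nat_lit 5) (nat_lit 2) (nat_lit 6) L50222 (by decide +kernel)
theorem L50224 : W_6 (nat_lit 4) (nat_lit 0x20001280134008a000180000000000000000000000000) (nat_lit 0x0) (nat_lit 0x8000400020000000200018000800000000000000000) := T_6 (nat_lit 88) (nat_lit 105) (nat_lit 6) (nat_lit 2) (nat_lit 9) L50223 (by decide +kernel)
theorem L50225 : W_6 (nat_lit 5) (nat_lit 0x20001280134008a000100000000000000000000000000) (nat_lit 0x0) (nat_lit 0x800040002000000028001c000800000000000000000) := T_6 (nat_lit 103) (nat_lit 86) (nat_lit 4) (nat_lit 2) (nat_lit 9) L50224 (by decide +kernel)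
theorem L50226 : W_6 (nat_lit 2) (nat_lit 0x200012c0134008b000180008000400000000000000000) (nat_lit 0x0) (nat_lit 0x10000800040000000000000) := D_6 (nat_lit 71) (nat_lit 88) (nat_lit 54) (nat_lit 6) (nat_lit 2) (nat_lit 8) (nat_lit 6) (nat_lit 2) (nat_lit 7) (by decide +kernel)
theorem L50227 : W_6 (nat_lit 3) (nat_lit 0x200012c0134008b000180008000000000000000000000) (nat_lit 0x0) (nat_lit 0x10000c00060000000000000) := T_6 (nat_lit 70) (nat_lit 53) (nat_lit 5) (nat_lit 2) (nat_lit 3) L50226 (by decide +kernel)
theorem L50228 : W_6 (nat_lit 4) (nat_lit 0x200012c0134008b000180000000000000000000000000) (nat_lit 0x0) (nat_lit 0x20000000000018000c00060000000000000) := T_6 (nat_lit 87) (nat_lit 137) (nat_lit 6) (nat_lit 1) (nat_lit 9) L50227 (by decide +kernel)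
theorem L50229 : W_6 (nat_lit 5) (nat_lit 0x20001280134008b000180000000000000000000000000) (nat_lit 0x0) (nat_lit 0x8000400020000000000018000c00060000000000000) := T_6 (nat_lit 154) (nat_lit 171) (nat_lit 5) (nat_lit 2) (nat_lit 6) L50228 (by decide +kernel)
theorem L50230 : W_6 (nat_lit 6) (nat_lit 0x20001280134008b000100000000000000000000000000) (nat_lit 0x0) (nat_lit 0x800040002000000008001c000c00060000000000000) := T_6 (nat_lit 103) (nat_lit 86) (nat_lit 4) (nat_lit 2) (nat_lit 9) L50229 (by decide +kernel)
theorem L50231 : W_6 (nat_lit 7) (nat_lit 0x20001280134008a000100000000000000000000000000) (nat_lit 0x0) (nat_lit 0x800040002000500008001c000c00060000000000000) := T_6 (nat_lit 120) (nat_lit 122) (nat_lit 3) (nat_lit 1) (nat_lit 7) L50230 (by decide +kernel)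
theorem L50232 : W_6 (nat_lit 2) (nat_lit 0x200012c0134008b000700000000000000000000000000) (nat_lit 0x0) (nat_lit 0x800080004000000000000000000000) := D_6 (nat_lit 103) (nat_lit 86) (nat_lit 119) (nat_lit 4) (nat_lit 2) (nat_lit 9) (nat_lit 1) (nat_lit 4) (nat_lit 6) (by decide +kernel)
theorem L50233 : W_6 (nat_lit 3) (nat_lit 0x200012c0134008b000300000000000000000000000000) (nat_lit 0x0) (nat_lit 0x800c80004000000000000000000000) := T_6 (nat_lit 106) (nat_lit 107) (nat_lit 1) (nat_lit 5) (nat_lit 6) L50232 (by decide +kernel)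
theorem L50234 : W_6 (nat_lit 4) (nat_lit 0x200012c0134008a000300000000000000000000000000) (nat_lit 0x0) (nat_lit 0x5800c80004000000000000000000000) := T_6 (nat_lit 120) (nat_lit 122) (nat_lit 3) (nat_lit 1) (nat_lit 7) L50233 (by decide +kernel)
theorem L50235 : W_6 (nat_lit 5) (nat_lit 0x200012c0134008a000100000000000000000000000000) (nat_lit 0x0) (nat_lit 0x5800e80014000000000000000000000) := T_6 (nat_lit 105) (nat_lit 88) (nat_lit 6) (nat_lit 2) (nat_lit 9) L50234 (by decide +kernel)
theorem L50236 : W_6 (nat_lit 6) (nat_lit 0x20001280134008a000100000000000000000000000000) (nat_lit 0x0) (nat_lit 0x8000400000005800e80014000000000000000000000) := T_6 (nat_lit 154) (nat_lit 171) (nat_lit 5) (nat_lit 2) (nat_lit 6) L50235 (by decide +kernel)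
theorem L50237 : W_6 (nat_lit 2) (nat_lit 0x200012c0134008a000100004000000000000000000000) (nat_lit 0x0) (nat_lit 0x20000000000008000200000000000000000) := D_6 (nat_lit 87) (nat_lit 69) (nat_lit 137) (nat_lit 4) (nat_lit 2) (nat_lit 8) (nat_lit 5) (nat_lit 2) (nat_lit 5) (by decide +kernel)
theorem L50238 : W_6 (nat_lit 3) (nat_lit 0x20001280134008a000100004000000000000000000000) (nat_lit 0x0) (nat_lit 0x8000400020000000000008000200000000000000000) := T_6 (nat_lit 154) (nat_lit 171) (nat_lit 5) (nat_lit 2) (nat_lit 6) L50237 (by decide +kernel)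
theorem L50239 : W_6 (nat_lit 4) (nat_lit 0x20001280134008a000100000000000000000000000000) (nat_lit 0x0) (nat_lit 0x800040002000000008000c000200000000000000000) := T_6 (nat_lit 86) (nat_lit 103) (nat_lit 4) (nat_lit 2) (nat_lit 9) L50238 (by decide +kernel)
theorem L50240 : W_6 (nat_lit 2) (nat_lit 0x20001280134008a000380000000000000000000000000) (nat_lit 0x0) (nat_lit 0x5000040000000000000000000000000) := D_6 (nat_lit 122) (nat_lit 102) (nat_lit 120) (nat_lit 3) (nat_lit 0) (nat_lit 6) (nat_lit 3) (nat_lit 1) (nat_lit 7) (by decide +kernel)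
theorem L50241 : W_6 (nat_lit 3) (nat_lit 0x20001280134008a000180000000000000000000000000) (nat_lit 0x0) (nat_lit 0x5000240010000000000000000000000) := T_6 (nat_lit 105) (nat_lit 88) (nat_lit 6) (nat_lit 2) (nat_lit 9) L50240 (by decide +kernel)
theorem L50242 : W_6 (nat_lit 4) (nat_lit 0x20001280134008a000100000000000000000000000000) (nat_lit 0x0) (nat_lit 0x50002c0014000000000000000000000) := T_6 (nat_lit 103) (nat_lit 86) (nat_lit 4) (nat_lit 2) (nat_lit 9) L50241 (by decide +kernel)
theorem L50243 : W_6 (nat_lit 2) (nat_lit 0x200012c0134008b000700028000000000000000000000) (nat_lit 0x0) (nat_lit 0x800080040000000000000000000000) := D_6 (nat_lit 103) (nat_lit 90) (nat_lit 119) (nat_lit 2) (nat_lit 1) (nat_lit 6) (nat_lit 1) (nat_lit 4) (nat_lit 6) (by decide +kernel)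
theorem L50244 : W_6 (nat_lit 3) (nat_lit 0x200012c0134008b000700008000000000000000000000) (nat_lit 0x0) (nat_lit 0x4000000000800080060000000000000000000000) := T_6 (nat_lit 89) (nat_lit 158) (nat_lit 7) (nat_lit 4) (nat_lit 5) L50243 (by decide +kernel)
theorem L50245 : W_6 (nat_lit 4) (nat_lit 0x200012c0134008b000700000000000000000000000000) (nat_lit 0x0) (nat_lit 0x4000020000800080068000000000000000000000) := T_6 (nat_lit 87) (nat_lit 137) (nat_lit 5) (nat_lit 2) (nat_lit 5) L50244 (by decide +kernel)
theorem L50246 : W_6 (nat_lit 5) (nat_lit 0x200012c0134008b000300000000000000000000000000) (nat_lit 0x0) (nat_lit 0x4000020000800c80068000000000000000000000) := T_6 (nat_lit 106) (nat_lit 107) (nat_lit 1) (nat_lit 5) (nat_lit 6) L50245 (by decide +kernel)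
theorem L50247 : W_6 (nat_lit 6) (nat_lit 0x200012c0134008b000100000000000000000000000000) (nat_lit 0x0) (nat_lit 0x4000020000800e80078000000000000000000000) := T_6 (nat_lit 105) (nat_lit 88) (nat_lit 6) (nat_lit 2) (nat_lit 9) L50246 (by decide +kernel)
theorem L50248 : W_6 (nat_lit 7) (nat_lit 0x20001280134008b000100000000000000000000000000) (nat_lit 0x0) (nat_lit 0x8004400020000800e80078000000000000000000000) := T_6 (nat_lit 154) (nat_lit 171) (nat_lit 5) (nat_lit 2) (nat_lit 6) L50247 (by decide +kernel)
theorem L50249 : W_6 (nat_lit 8) (nat_lit 0x20001280134008a000100000000000000000000000000) (nat_lit 0x0) (nat_lit 0x8004400020005800e80078000000000000000000000) := T_6 (nat_lit 120) (nat_lit 122) (nat_lit 3) (nat_lit 1) (nat_lit 7) L50248 (by decide +kernel)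
theorem L50250 : W_6 (nat_lit 2) (nat_lit 0x200012c0134008b000100008000000000000000000000) (nat_lit 0x0) (nat_lit 0x200010000800000000000000000) := D_6 (nat_lit 88) (nat_lit 105) (nat_lit 71) (nat_lit 6) (nat_lit 2) (nat_lit 9) (nat_lit 6) (nat_lit 2) (nat_lit 8) (by decide +kernel)
theorem L50251 : W_6 (nat_lit 3) (nat_lit 0x200012c0134008b000100000000000000000000000000) (nat_lit 0x0) (nat_lit 0x20000000200018000800000000000000000) := T_6 (nat_lit 87) (nat_lit 137) (nat_lit 5) (nat_lit 2) (nat_lit 5) L50250 (by decide +kernel)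
theorem L50252 : W_6 (nat_lit 4) (nat_lit 0x200012c0134008a000100000000000000000000000000) (nat_lit 0x0) (nat_lit 0x20005000200018000800000000000000000) := T_6 (nat_lit 120) (nat_lit 122) (nat_lit 3) (nat_lit 1) (nat_lit 7) L50251 (by decide +kernel)
theorem L50253 : W_6 (nat_lit 5) (nat_lit 0x20001280134008a000100000000000000000000000000) (nat_lit 0x0) (nat_lit 0x8000400020005000200018000800000000000000000) := T_6 (nat_lit 154) (nat_lit 171) (nat_lit 5) (nat_lit 2) (nat_lit 6) L50252 (by decide +kernel)
theorem L50254 : W_6 (nat_lit 9) (nat_lit 0x20001280134008a000000000000000000000000000000) (nat_lit 0x0) (nat_lit 0x8004400020005800fc007c000e00060000000000000) := Q_6 (nat_lit 104) (C_6 L50221 (C_6 L50225 (C_6 L50231 (C_6 L50236 (C_6 L50239 (C_6 L50242 (C_6 L50249 (C_6 L50253 N_6)))))))) (by decide +kernel)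
theorem L50255 : W_6 (nat_lit 6) (nat_lit 0x20001280134008a000000000000000000000000000000) (nat_lit 0x0) (nat_lit 0x80004000200050003c001c000a00000000000000000) := Q_6 (nat_lit 104) (C_6 L50253 (C_6 L50239 (C_6 L50242 N_6))) (by decide +kernel)
theorem L50256 : W_6 (nat_lit 10) (nat_lit 0x200012801340082000000000000000000000000000000) (nat_lit 0x0) (nat_lit 0x8802c40082000d800fc007c000e00060000000000000) := Q_6 (nat_lit 123) (C_6 L50212 (C_6 L50215 (C_6 L50254 (C_6 L50255 N_6)))) (by decide +kernel)
theorem L50257 : W_6 (nat_lit 2) (nat_lit 0x210012c01340082000300000000000000000000000000) (nat_lit 0x0) (nat_lit 0x1000080004000000000000000000000) := D_6 (nat_lit 103) (nat_lit 86) (nat_lit 120) (nat_lit 4) (nat_lit 2) (nat_lit 9) (nat_lit 4) (nat_lit 2) (nat_lit 10) (by decide +kernel)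
theorem L50258 : W_6 (nat_lit 3) (nat_lit 0x200012c01340082000300000000000000000000000000) (nat_lit 0x0) (nat_lit 0x10000000000005000080004000000000000000000000) := T_6 (nat_lit 172) (nat_lit 122) (nat_lit 6) (nat_lit 2) (nat_lit 10) L50257 (by decide +kernel)
theorem L50259 : W_6 (nat_lit 4) (nat_lit 0x200012c01340082000100000000000000000000000000) (nat_lit 0x0) (nat_lit 0x10000000000005000280014000000000000000000000) := T_6 (nat_lit 105) (nat_lit 88) (nat_lit 6) (nat_lit 2) (nat_lit 9) L50258 (by decide +kernel)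
theorem L50260 : W_6 (nat_lit 5) (nat_lit 0x200012801340082000100000000000000000000000000) (nat_lit 0x0) (nat_lit 0x18000400000005000280014000000000000000000000) := T_6 (nat_lit 154) (nat_lit 171) (nat_lit 5) (nat_lit 2) (nat_lit 6) L50259 (by decide +kernel)
theorem L50261 : W_6 (nat_lit 2) (nat_lit 0x210012801340082000300000000000000000000000000) (nat_lit 0x0) (nat_lit 0x100008000400000000000000000000000000000000000000) := D_6 (nat_lit 171) (nat_lit 154) (nat_lit 188) (nat_lit 5) (nat_lit 2) (nat_lit 6) (nat_lit 5) (nat_lit 2) (nat_lit 7) (by decide +kernel)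
theorem L50262 : W_6 (nat_lit 3) (nat_lit 0x200012801340082000300000000000000000000000000) (nat_lit 0x0) (nat_lit 0x100018000400000004000000000000000000000000000000) := T_6 (nat_lit 172) (nat_lit 122) (nat_lit 6) (nat_lit 2) (nat_lit 10) L50261 (by decide +kernel)
theorem L50263 : W_6 (nat_lit 4) (nat_lit 0x200012801340082000100000000000000000000000000) (nat_lit 0x0) (nat_lit 0x100018000400000004000200010000000000000000000000) := T_6 (nat_lit 105) (nat_lit 88) (nat_lit 6) (nat_lit 2) (nat_lit 9) L50262 (by decide +kernel)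
theorem L50264 : W_6 (nat_lit 6) (nat_lit 0x200012801340082000000000000000000000000000000) (nat_lit 0x0) (nat_lit 0x10001800040002000500038001c000a00000000000000000) := Q_6 (nat_lit 104) (C_6 L50204 (C_6 L50260 (C_6 L50201 (C_6 L50263 N_6)))) (by decide +kernel)
theorem L50265 : W_6 (nat_lit 2) (nat_lit 0x4000600210012c01340082000380000000000000000000000000) (nat_lit 0x0) (nat_lit 0x40002000100000000000000000000000000000000000000000000000) := D_6 (nat_lit 205) (nat_lit 222) (nat_lit 188) (nat_lit 5) (nat_lit 2) (nat_lit 9) (nat_lit 5) (nat_lit 2) (nat_lit 8) (by decide +kernel)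
theorem L50266 : W_6 (nat_lit 3) (nat_lit 0x600210012c01340082000380000000000000000000000000) (nat_lit 0x0) (nat_lit 0x40006000100000000000020000000000000000000000000000000000) := T_6 (nat_lit 206) (nat_lit 137) (nat_lit 4) (nat_lit 2) (nat_lit 12) L50265 (by decide +kernel)
theorem L50267 : W_6 (nat_lit 4) (nat_lit 0x400210012c01340082000380000000000000000000000000) (nat_lit 0x0) (nat_lit 0x4000e000300000000000020000000000000000000000000000000000) := T_6 (nat_lit 189) (nat_lit 207) (nat_lit 7) (nat_lit 2) (nat_lit 8) L50266 (by decide +kernel)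
theorem L50268 : W_6 (nat_lit 5) (nat_lit 0x210012c01340082000380000000000000000000000000) (nat_lit 0x0) (nat_lit 0x4000e000700020000000020000000000000000000000000000000000) := T_6 (nat_lit 190) (nat_lit 173) (nat_lit 7) (nat_lit 2) (nat_lit 7) L50267 (by decide +kernel)
theorem L50269 : W_6 (nat_lit 6) (nat_lit 0x200012c01340082000380000000000000000000000000) (nat_lit 0x0) (nat_lit 0x4000e000700030000000020001000000000000000000000000000000) := T_6 (nat_lit 172) (nat_lit 120) (nat_lit 4) (nat_lit 2) (nat_lit 10) L50268 (by decide +kernel)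
theorem L50270 : W_6 (nat_lit 7) (nat_lit 0x200012c01340082000300000000000000000000000000) (nat_lit 0x0) (nat_lit 0x4000e000700030000000020001000080004000000000000000000000) := T_6 (nat_lit 103) (nat_lit 86) (nat_lit 4) (nat_lit 2) (nat_lit 9) L50269 (by decide +kernel)
theorem L50271 : W_6 (nat_lit 8) (nat_lit 0x200012c01340082000100000000000000000000000000) (nat_lit 0x0) (nat_lit 0x4000e000700030000000020001000280014000000000000000000000) := T_6 (nat_lit 105) (nat_lit 88) (nat_lit 6) (nat_lit 2) (nat_lit 9) L50270 (by decide +kernel)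
theorem L50272 : W_6 (nat_lit 9) (nat_lit 0x200012801340082000100000000000000000000000000) (nat_lit 0x0) (nat_lit 0x4000e000700038000400020001000280014000000000000000000000) := T_6 (nat_lit 154) (nat_lit 171) (nat_lit 5) (nat_lit 2) (nat_lit 6) L50271 (by decide +kernel)
theorem L50273 : W_6 (nat_lit 2) (nat_lit 0x200218012801340083000300000000000000000000000000) (nat_lit 0x0) (nat_lit 0x8000400020000000000000000000000000000000000000000000) := D_6 (nat_lit 190) (nat_lit 173) (nat_lit 207) (nat_lit 7) (nat_lit 2) (nat_lit 7) (nat_lit 7) (nat_lit 2) (nat_lit 8) (by decide +kernel)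
theorem L50274 : W_6 (nat_lit 3) (nat_lit 0x218012801340083000300000000000000000000000000) (nat_lit 0x0) (nat_lit 0x8000600020000000020000000000000000000000000000000000) := T_6 (nat_lit 189) (nat_lit 137) (nat_lit 4) (nat_lit 2) (nat_lit 11) L50273 (by decide +kernel)
theorem L50275 : W_6 (nat_lit 4) (nat_lit 0x218012801340082000300000000000000000000000000) (nat_lit 0x0) (nat_lit 0x8000600020000000020001000080000000000000000000000000) := T_6 (nat_lit 120) (nat_lit 103) (nat_lit 4) (nat_lit 2) (nat_lit 10) L50274 (by decide +kernel)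
theorem L50276 : W_6 (nat_lit 5) (nat_lit 0x208012801340082000300000000000000000000000000) (nat_lit 0x0) (nat_lit 0x8000700030000000020001000080000000000000000000000000) := T_6 (nat_lit 172) (nat_lit 188) (nat_lit 5) (nat_lit 2) (nat_lit 7) L50275 (by decide +kernel)
theorem L50277 : W_6 (nat_lit 6) (nat_lit 0x200012801340082000300000000000000000000000000) (nat_lit 0x0) (nat_lit 0x8000700038000400020001000080000000000000000000000000) := T_6 (nat_lit 171) (nat_lit 154) (nat_lit 5) (nat_lit 2) (nat_lit 6) L50276 (by decide +kernel)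
theorem L50278 : W_6 (nat_lit 7) (nat_lit 0x200012801340082000100000000000000000000000000) (nat_lit 0x0) (nat_lit 0x8000700038000400020001000280010000000000000000000000) := T_6 (nat_lit 105) (nat_lit 88) (nat_lit 6) (nat_lit 2) (nat_lit 9) L50277 (by decide +kernel)
theorem L50279 : W_6 (nat_lit 2) (nat_lit 0x200012c01340082000100010000000000000000000000) (nat_lit 0x0) (nat_lit 0x20000000000008000800000000000000000) := D_6 (nat_lit 87) (nat_lit 137) (nat_lit 71) (nat_lit 5) (nat_lit 2) (nat_lit 5) (nat_lit 6) (nat_lit 2) (nat_lit 8) (by decide +kernel)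
theorem L50280 : W_6 (nat_lit 3) (nat_lit 0x200012c01340082000100000000000000000000000000) (nat_lit 0x0) (nat_lit 0x20000000200018000800000000000000000) := T_6 (nat_lit 88) (nat_lit 105) (nat_lit 6) (nat_lit 2) (nat_lit 9) L50279 (by decide +kernel)
theorem L50281 : W_6 (nat_lit 4) (nat_lit 0x200012801340082000100000000000000000000000000) (nat_lit 0x0) (nat_lit 0x8000400020000000200018000800000000000000000) := T_6 (nat_lit 154) (nat_lit 171) (nat_lit 5) (nat_lit 2) (nat_lit 6) L50280 (by decide +kernel)
theorem L50282 : W_6 (nat_lit 10) (nat_lit 0x200012801340082000000000000000000000000000000) (nat_lit 0x0) (nat_lit 0x4000e00070003800040002000100038001c000a00000000000000000) := Q_6 (nat_lit 104) (C_6 L50204 (C_6 L50272 (C_6 L50201 (C_6 L50278 (C_6 L50281 N_6))))) (by decide +kernel)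
theorem L50283 : W_6 (nat_lit 2) (nat_lit 0x238012801340082000100000000000000000000000000) (nat_lit 0x0) (nat_lit 0x1000080004000000000000000000000) := D_6 (nat_lit 103) (nat_lit 120) (nat_lit 86) (nat_lit 4) (nat_lit 2) (nat_lit 10) (nat_lit 4) (nat_lit 2) (nat_lit 9) (by decide +kernel)
theorem L50284 : W_6 (nat_lit 3) (nat_lit 0x238012801340082000000000000000000000000000000) (nat_lit 0x0) (nat_lit 0x400000001000180004000000000000000000000) := T_6 (nat_lit 104) (nat_lit 154) (nat_lit 5) (nat_lit 2) (nat_lit 6) L50283 (by decide +kernel)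
theorem L50285 : W_6 (nat_lit 4) (nat_lit 0x218012801340082000000000000000000000000000000) (nat_lit 0x0) (nat_lit 0x400020000400000001000180004000000000000000000000) := T_6 (nat_lit 173) (nat_lit 190) (nat_lit 7) (nat_lit 2) (nat_lit 7) L50284 (by decide +kernel)
theorem L50286 : W_6 (nat_lit 5) (nat_lit 0x210012801340082000000000000000000000000000000) (nat_lit 0x0) (nat_lit 0x500028000400000001000180004000000000000000000000) := T_6 (nat_lit 171) (nat_lit 188) (nat_lit 5) (nat_lit 2) (nat_lit 7) L50285 (by decide +kernel)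
theorem L50287 : W_6 (nat_lit 2) (nat_lit 0x200210012801340083000000000000000000000000000000) (nat_lit 0x0) (nat_lit 0x2000100008000000000000000000000000000000000000000000) := D_6 (nat_lit 188) (nat_lit 205) (nat_lit 171) (nat_lit 5) (nat_lit 2) (nat_lit 8) (nat_lit 5) (nat_lit 2) (nat_lit 7) (by decide +kernel)
theorem L50288 : W_6 (nat_lit 3) (nat_lit 0x210012801340083000000000000000000000000000000) (nat_lit 0x0) (nat_lit 0x2000300008000000020000000000000000000000000000000000) := T_6 (nat_lit 189) (nat_lit 137) (nat_lit 4) (nat_lit 2) (nat_lit 11) L50287 (by decide +kernel)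
theorem L50289 : W_6 (nat_lit 4) (nat_lit 0x210012801340082000000000000000000000000000000) (nat_lit 0x0) (nat_lit 0x2000300008000000020001000080000000000000000000000000) := T_6 (nat_lit 120) (nat_lit 103) (nat_lit 4) (nat_lit 2) (nat_lit 10) L50288 (by decide +kernel)
theorem L50290 : W_6 (nat_lit 2) (nat_lit 0x600218012c01340082000000000000000000000000000000) (nat_lit 0x0) (nat_lit 0x80004000000000000000020000000000000000000000000000000000) := D_6 (nat_lit 206) (nat_lit 137) (nat_lit 223) (nat_lit 4) (nat_lit 2) (nat_lit 12) (nat_lit 4) (nat_lit 2) (nat_lit 13) (by decide +kernel)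
theorem L50291 : W_6 (nat_lit 3) (nat_lit 0x400218012c01340082000000000000000000000000000000) (nat_lit 0x0) (nat_lit 0x8000c000200000000000020000000000000000000000000000000000) := T_6 (nat_lit 189) (nat_lit 207) (nat_lit 7) (nat_lit 2) (nat_lit 8) L50290 (by decide +kernel)
theorem L50292 : W_6 (nat_lit 4) (nat_lit 0x400218012801340082000000000000000000000000000000) (nat_lit 0x0) (nat_lit 0x8000c000200000000400020000000100000000000000000000000000) := T_6 (nat_lit 154) (nat_lit 104) (nat_lit 5) (nat_lit 2) (nat_lit 6) L50291 (by decide +kernel)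
theorem L50293 : W_6 (nat_lit 5) (nat_lit 0x218012801340082000000000000000000000000000000) (nat_lit 0x0) (nat_lit 0x8000c000600020000400020000000100000000000000000000000000) := T_6 (nat_lit 190) (nat_lit 173) (nat_lit 7) (nat_lit 2) (nat_lit 7) L50292 (by decide +kernel)
theorem L50294 : W_6 (nat_lit 6) (nat_lit 0x210012801340082000000000000000000000000000000) (nat_lit 0x0) (nat_lit 0x8000c000700028000400020000000100000000000000000000000000) := T_6 (nat_lit 171) (nat_lit 188) (nat_lit 5) (nat_lit 2) (nat_lit 7) L50293 (by decide +kernel)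
theorem L50295 : W_6 (nat_lit 2) (nat_lit 0x200210012801340083000000000000000000000000000000) (nat_lit 0x0) (nat_lit 0x8000400020000000000000000000000000000000000000000000) := D_6 (nat_lit 190) (nat_lit 173) (nat_lit 207) (nat_lit 7) (nat_lit 2) (nat_lit 7) (nat_lit 7) (nat_lit 2) (nat_lit 8) (by decide +kernel)
theorem L50296 : W_6 (nat_lit 3) (nat_lit 0x210012801340083000000000000000000000000000000) (nat_lit 0x0) (nat_lit 0x8000600020000000020000000000000000000000000000000000) := T_6 (nat_lit 189) (nat_lit 137) (nat_lit 4) (nat_lit 2) (nat_lit 11) L50295 (by decide +kernel)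
theorem L50297 : W_6 (nat_lit 4) (nat_lit 0x210012801340082000000000000000000000000000000) (nat_lit 0x0) (nat_lit 0x8000600020000000020001000080000000000000000000000000) := T_6 (nat_lit 120) (nat_lit 103) (nat_lit 4) (nat_lit 2) (nat_lit 10) L50296 (by decide +kernel)
theorem L50298 : W_6 (nat_lit 7) (nat_lit 0x200012801340082000000000000000000000000000000) (nat_lit 0x0) (nat_lit 0x8000e000700038000400020001000180004000000000000000000000) := Q_6 (nat_lit 172) (C_6 L50286 (C_6 L50289 (C_6 L50294 (C_6 L50297 N_6)))) (by decide +kernel)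
theorem L50299 : W_6 (nat_lit 5) (nat_lit 0x200012801340082000000000000000000000000000000) (nat_lit 0x0) (nat_lit 0x10001800040002000400038001c000a00000000000000000) := Q_6 (nat_lit 104) (C_6 L50281 (C_6 L50263 (C_6 L50201 (C_6 L50204 N_6)))) (by decide +kernel)
theorem L50300 : W_6 (nat_lit 2) (nat_lit 0x218012801340086000000000000000000000000000000) (nat_lit 0x0) (nat_lit 0x9000080000000000000000000000000) := D_6 (nat_lit 120) (nat_lit 123) (nat_lit 103) (nat_lit 3) (nat_lit 1) (nat_lit 7) (nat_lit 4) (nat_lit 2) (nat_lit 10) (by decide +kernel)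
theorem L50301 : W_6 (nat_lit 3) (nat_lit 0x218012801340082000000000000000000000000000000) (nat_lit 0x0) (nat_lit 0xd000280000000000000000000000000) := T_6 (nat_lit 122) (nat_lit 105) (nat_lit 6) (nat_lit 2) (nat_lit 10) L50300 (by decide +kernel)
theorem L50302 : W_6 (nat_lit 4) (nat_lit 0x210012801340082000000000000000000000000000000) (nat_lit 0x0) (nat_lit 0x10000800000000000d000280000000000000000000000000) := T_6 (nat_lit 171) (nat_lit 188) (nat_lit 5) (nat_lit 2) (nat_lit 7) L50301 (by decide +kernel)
theorem L50303 : W_6 (nat_lit 2) (nat_lit 0x218012801340082000200000000000000000000000000) (nat_lit 0x0) (nat_lit 0x400000000000100010000000000000000000000) := D_6 (nat_lit 104) (nat_lit 154) (nat_lit 88) (nat_lit 5) (nat_lit 2) (nat_lit 6) (nat_lit 6) (nat_lit 2) (nat_lit 9) (by decide +kernel)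
theorem L50304 : W_6 (nat_lit 3) (nat_lit 0x218012801340082000000000000000000000000000000) (nat_lit 0x0) (nat_lit 0x400000004000300010000000000000000000000) := T_6 (nat_lit 105) (nat_lit 122) (nat_lit 6) (nat_lit 2) (nat_lit 10) L50303 (by decide +kernel)
theorem L50305 : W_6 (nat_lit 4) (nat_lit 0x210012801340082000000000000000000000000000000) (nat_lit 0x0) (nat_lit 0x100008000400000004000300010000000000000000000000) := T_6 (nat_lit 171) (nat_lit 188) (nat_lit 5) (nat_lit 2) (nat_lit 7) L50304 (by decide +kernel)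
theorem L50306 : W_6 (nat_lit 2) (nat_lit 0x210012801340083000000000000000000000000000000) (nat_lit 0x0) (nat_lit 0xc000200000000000000000000000000) := D_6 (nat_lit 122) (nat_lit 123) (nat_lit 105) (nat_lit 3) (nat_lit 1) (nat_lit 7) (nat_lit 6) (nat_lit 2) (nat_lit 10) (by decide +kernel)
theorem L50307 : W_6 (nat_lit 3) (nat_lit 0x210012801340082000000000000000000000000000000) (nat_lit 0x0) (nat_lit 0xd000280000000000000000000000000) := T_6 (nat_lit 120) (nat_lit 103) (nat_lit 4) (nat_lit 2) (nat_lit 10) L50306 (by decide +kernel)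
theorem L50308 : W_6 (nat_lit 6) (nat_lit 0x200012801340082000000000000000000000000000000) (nat_lit 0x0) (nat_lit 0x50003800040000000d000380014000000000000000000000) := Q_6 (nat_lit 172) (C_6 L50286 (C_6 L50302 (C_6 L50305 (C_6 L50307 N_6)))) (by decide +kernel)
theorem L50309 : W_6 (nat_lit 2) (nat_lit 0x500210012801340082000000000000000000000000000000) (nat_lit 0x0) (nat_lit 0xa000200000000000000000000000000000000000000000000000) := D_6 (nat_lit 189) (nat_lit 205) (nat_lit 207) (nat_lit 5) (nat_lit 2) (nat_lit 8) (nat_lit 7) (nat_lit 2) (nat_lit 8) (by decide +kernel)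
theorem L50310 : W_6 (nat_lit 3) (nat_lit 0x100210012801340082000000000000000000000000000000) (nat_lit 0x0) (nat_lit 0xa000600020000000000000000000000000000000000000000000) := T_6 (nat_lit 190) (nat_lit 173) (nat_lit 7) (nat_lit 2) (nat_lit 7) L50309 (by decide +kernel)
theorem L50311 : W_6 (nat_lit 4) (nat_lit 0x210012801340082000000000000000000000000000000) (nat_lit 0x0) (nat_lit 0xa000700028000000000000000000000000000000000000000000) := T_6 (nat_lit 188) (nat_lit 171) (nat_lit 5) (nat_lit 2) (nat_lit 7) L50310 (by decide +kernel)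
theorem L50312 : W_6 (nat_lit 5) (nat_lit 0x200012801340082000000000000000000000000000000) (nat_lit 0x0) (nat_lit 0xa00070003800000002000d000280000000000000000000000000) := Q_6 (nat_lit 172) (C_6 L50307 (C_6 L50297 (C_6 L50311 N_6))) (by decide +kernel)
theorem L50313 : W_6 (nat_lit 2) (nat_lit 0x6001600210036801340086000000000000000000000000000000) (nat_lit 0x0) (nat_lit 0x20000000080000000000008000000000000000000000000000000) := D_6 (nat_lit 175) (nat_lit 209) (nat_lit 123) (nat_lit 4) (nat_lit 5) (nat_lit 12) (nat_lit 4) (nat_lit 5) (nat_lit 11) (by decide +kernel)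
theorem L50314 : W_6 (nat_lit 3) (nat_lit 0x6000600210036801340086000000000000000000000000000000) (nat_lit 0x0) (nat_lit 0x20001800080000000000008000000000000000000000000000000) := T_6 (nat_lit 192) (nat_lit 191) (nat_lit 1) (nat_lit 5) (nat_lit 11) L50313 (by decide +kernel)
theorem L50315 : W_6 (nat_lit 4) (nat_lit 0x2000600210036801340086000000000000000000000000000000) (nat_lit 0x0) (nat_lit 0x40024001800080000000000008000000000000000000000000000000) := T_6 (nat_lit 206) (nat_lit 222) (nat_lit 5) (nat_lit 2) (nat_lit 9) L50314 (by decide +kernel)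
theorem L50316 : W_6 (nat_lit 5) (nat_lit 0x600210036801340086000000000000000000000000000000) (nat_lit 0x0) (nat_lit 0x40026001900080000000000008000000000000000000000000000000) := T_6 (nat_lit 205) (nat_lit 188) (nat_lit 5) (nat_lit 2) (nat_lit 8) L50315 (by decide +kernel)
theorem L50317 : W_6 (nat_lit 6) (nat_lit 0x400210036801340086000000000000000000000000000000) (nat_lit 0x0) (nat_lit 0x4002e001b00080000000000008000000000000000000000000000000) := T_6 (nat_lit 189) (nat_lit 207) (nat_lit 7) (nat_lit 2) (nat_lit 8) L50316 (by decide +kernel)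
theorem L50318 : W_6 (nat_lit 7) (nat_lit 0x210036801340086000000000000000000000000000000) (nat_lit 0x0) (nat_lit 0x4002e001f000a0000000000008000000000000000000000000000000) := T_6 (nat_lit 190) (nat_lit 173) (nat_lit 7) (nat_lit 2) (nat_lit 7) L50317 (by decide +kernel)
theorem L50319 : W_6 (nat_lit 8) (nat_lit 0x210016801340086000000000000000000000000000000) (nat_lit 0x0) (nat_lit 0x4002e001f000a0028000000008000000000000000000000000000000) := T_6 (nat_lit 161) (nat_lit 159) (nat_lit 0) (nat_lit 8) (nat_lit 9) L50318 (by decide +kernel)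
theorem L50320 : W_6 (nat_lit 9) (nat_lit 0x210016801340082000000000000000000000000000000) (nat_lit 0x0) (nat_lit 0x4002e001f000a002800000000c000200000000000000000000000000) := T_6 (nat_lit 122) (nat_lit 105) (nat_lit 6) (nat_lit 2) (nat_lit 10) L50319 (by decide +kernel)
theorem L50321 : W_6 (nat_lit 2) (nat_lit 0x210016801340082000000000000000000000000000000) (nat_lit 0x0) (nat_lit 0x28000800000000000000000000000000000000000) := D_6 (nat_lit 159) (nat_lit 161) (nat_lit 143) (nat_lit 0) (nat_lit 8) (nat_lit 9) (nat_lit 2) (nat_lit 4) (nat_lit 9) (by decide +kernel)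
theorem L50322 : W_6 (nat_lit 2) (nat_lit 0x23001680136008200070000c000000000000000000000) (nat_lit 0x0) (nat_lit 0x80000000000008000000020000000000000000000000) := D_6 (nat_lit 123) (nat_lit 175) (nat_lit 89) (nat_lit 7) (nat_lit 4) (nat_lit 6) (nat_lit 7) (nat_lit 4) (nat_lit 5) (by decide +kernel)
theorem L50323 : W_6 (nat_lit 3) (nat_lit 0x23001680136008200030000c000000000000000000000) (nat_lit 0x0) (nat_lit 0x80000000000008000c00020000000000000000000000) := T_6 (nat_lit 106) (nat_lit 107) (nat_lit 0) (nat_lit 5) (nat_lit 6) L50322 (by decide +kernel)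
theorem L50324 : W_6 (nat_lit 4) (nat_lit 0x23001680134008200030000c000000000000000000000) (nat_lit 0x0) (nat_lit 0x80000400020008000c00020000000000000000000000) := T_6 (nat_lit 137) (nat_lit 154) (nat_lit 5) (nat_lit 2) (nat_lit 5) L50323 (by decide +kernel)
theorem L50325 : W_6 (nat_lit 5) (nat_lit 0x230016801340082000300004000000000000000000000) (nat_lit 0x0) (nat_lit 0x80000400020008000c00028000200000000000000000) := T_6 (nat_lit 87) (nat_lit 69) (nat_lit 4) (nat_lit 2) (nat_lit 8) L50324 (by decide +kernel)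
theorem L50326 : W_6 (nat_lit 6) (nat_lit 0x230016801340082000300000000000000000000000000) (nat_lit 0x0) (nat_lit 0x80000400020008000c8002c000200000000000000000) := T_6 (nat_lit 86) (nat_lit 103) (nat_lit 4) (nat_lit 2) (nat_lit 9) L50325 (by decide +kernel)
theorem L50327 : W_6 (nat_lit 7) (nat_lit 0x230016801340082000200000000000000000000000000) (nat_lit 0x0) (nat_lit 0x80000400020008000d8003c000200000000000000000) := T_6 (nat_lit 104) (nat_lit 88) (nat_lit 6) (nat_lit 2) (nat_lit 9) L50326 (by decide +kernel)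
theorem L50328 : W_6 (nat_lit 8) (nat_lit 0x230016801340082000000000000000000000000000000) (nat_lit 0x0) (nat_lit 0x8000040002000c000f8003c000200000000000000000) := T_6 (nat_lit 105) (nat_lit 122) (nat_lit 6) (nat_lit 2) (nat_lit 10) L50327 (by decide +kernel)
theorem L50329 : W_6 (nat_lit 9) (nat_lit 0x210016801340082000000000000000000000000000000) (nat_lit 0x0) (nat_lit 0x4000a000040002000c000f8003c000200000000000000000) := T_6 (nat_lit 173) (nat_lit 190) (nat_lit 7) (nat_lit 2) (nat_lit 7) L50328 (by decide +kernel)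
theorem L50330 : W_6 (nat_lit 10) (nat_lit 0x210012801340082000000000000000000000000000000) (nat_lit 0x0) (nat_lit 0x4002e001f000a002c40082000c000f8003c000200000000000000000) := Q_6 (nat_lit 158) (C_6 L50320 (C_6 L50321 (C_6 L50329 N_6))) (by decide +kernel)
theorem L50331 : W_6 (nat_lit 2) (nat_lit 0x400210012801340087000000000000000000000000000000) (nat_lit 0x0) (nat_lit 0x8000200000000000020000000000000000000000000000000000) := D_6 (nat_lit 189) (nat_lit 137) (nat_lit 207) (nat_lit 4) (nat_lit 2) (nat_lit 11) (nat_lit 7) (nat_lit 2) (nat_lit 8) (by decide +kernel)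
theorem L50332 : W_6 (nat_lit 3) (nat_lit 0x210012801340087000000000000000000000000000000) (nat_lit 0x0) (nat_lit 0x8000600020000000020000000000000000000000000000000000) := T_6 (nat_lit 190) (nat_lit 173) (nat_lit 7) (nat_lit 2) (nat_lit 7) L50331 (by decide +kernel)
theorem L50333 : W_6 (nat_lit 4) (nat_lit 0x210012801340086000000000000000000000000000000) (nat_lit 0x0) (nat_lit 0x8000600020000000020009000000000000000000000000000000) := T_6 (nat_lit 120) (nat_lit 123) (nat_lit 3) (nat_lit 1) (nat_lit 7) L50332 (by decide +kernel)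
theorem L50334 : W_6 (nat_lit 5) (nat_lit 0x210012801340082000000000000000000000000000000) (nat_lit 0x0) (nat_lit 0x800060002000000002000d000200000000000000000000000000) := T_6 (nat_lit 122) (nat_lit 105) (nat_lit 6) (nat_lit 2) (nat_lit 10) L50333 (by decide +kernel)
theorem L50335 : W_6 (nat_lit 11) (nat_lit 0x200012801340082000000000000000000000000000000) (nat_lit 0x0) (nat_lit 0x4002e001f000b002c40082000d000f8003c000200000000000000000) := Q_6 (nat_lit 172) (C_6 L50307 (C_6 L50297 (C_6 L50330 (C_6 L50334 N_6)))) (by decide +kernel)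
theorem L50336 : W_6 (nat_lit 6) (nat_lit 0x200012801340082000000000000000000000000000000) (nat_lit 0x0) (nat_lit 0xa00070003800040002000d000300010000000000000000000000) := Q_6 (nat_lit 172) (C_6 L50334 (C_6 L50311 (C_6 L50305 N_6))) (by decide +kernel)
theorem L50337 : W_6 (nat_lit 12) (nat_lit 0x200012801340080000000000000000000000000000000) (nat_lit 0x0) (nat_lit 0xc002e001f000b802c40082000f800fc007c000e00060000000000000) := Q_6 (nat_lit 121) (C_6 L50256 (C_6 L50264 (C_6 L50282 (C_6 L50298 (C_6 L50299 (C_6 L50308 (C_6 L50312 (C_6 L50335 (C_6 L50336 N_6))))))))) (by decide +kernel)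
theorem L50338 : W_6 (nat_lit 2) (nat_lit 0x2000128013c0081000000000000000000000000000000) (nat_lit 0x0) (nat_lit 0x4000020000800000000000000000000000000000) := D_6 (nat_lit 137) (nat_lit 158) (nat_lit 119) (nat_lit 3) (nat_lit 1) (nat_lit 8) (nat_lit 0) (nat_lit 4) (nat_lit 8) (by decide +kernel)
theorem L50339 : W_6 (nat_lit 3) (nat_lit 0x2000128013c0080000000000000000000000000000000) (nat_lit 0x0) (nat_lit 0x4000020003800000000000000000000000000000) := T_6 (nat_lit 120) (nat_lit 121) (nat_lit 0) (nat_lit 5) (nat_lit 8) L50338 (by decide +kernel)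
theorem L50340 : W_6 (nat_lit 4) (nat_lit 0x200012801340080000000000000000000000000000000) (nat_lit 0x0) (nat_lit 0x44000a0003800000000000000000000000000000) := T_6 (nat_lit 139) (nat_lit 154) (nat_lit 1) (nat_lit 5) (nat_lit 8) L50339 (by decide +kernel)
theorem L50341 : W_6 (nat_lit 2) (nat_lit 0x200016801340080000000000000000000000000000000) (nat_lit 0x0) (nat_lit 0x8400080000000000000000000000000000000000) := D_6 (nat_lit 139) (nat_lit 154) (nat_lit 159) (nat_lit 1) (nat_lit 5) (nat_lit 8) (nat_lit 3) (nat_lit 2) (nat_lit 8) (by decide +kernel)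
theorem L50342 : W_6 (nat_lit 2) (nat_lit 0x200016801340080000000000000000000000000000000) (nat_lit 0x0) (nat_lit 0x28000800000000000000000000000000000000000) := D_6 (nat_lit 159) (nat_lit 143) (nat_lit 161) (nat_lit 2) (nat_lit 4) (nat_lit 9) (nat_lit 0) (nat_lit 8) (nat_lit 9) (by decide +kernel)
theorem L50343 : W_6 (nat_lit 2) (nat_lit 0x200016801340088000000000000000000000000000000) (nat_lit 0x0) (nat_lit 0x1000080000000000000000400000000000000000000000000) := D_6 (nat_lit 175) (nat_lit 192) (nat_lit 106) (nat_lit 4) (nat_lit 5) (nat_lit 11) (nat_lit 7) (nat_lit 4) (nat_lit 6) (by decide +kernel)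
theorem L50344 : W_6 (nat_lit 2) (nat_lit 0x2000168013c008a000e00000000000000000000000000) (nat_lit 0x0) (nat_lit 0x10000000000004001000000000000000000000000000) := D_6 (nat_lit 122) (nat_lit 172) (nat_lit 108) (nat_lit 6) (nat_lit 2) (nat_lit 10) (nat_lit 1) (nat_lit 6) (nat_lit 6) (by decide +kernel)
theorem L50345 : W_6 (nat_lit 3) (nat_lit 0x2000168013c008a000c00000000000000000000000000) (nat_lit 0x0) (nat_lit 0x10000000000004001200010000000000000000000000) := T_6 (nat_lit 105) (nat_lit 88) (nat_lit 4) (nat_lit 4) (nat_lit 9) L50344 (by decide +kernel)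
theorem L50346 : W_6 (nat_lit 4) (nat_lit 0x2000168013c008a000400000000000000000000000000) (nat_lit 0x0) (nat_lit 0x10000000000004001a00050000000000000000000000) := T_6 (nat_lit 107) (nat_lit 90) (nat_lit 6) (nat_lit 4) (nat_lit 9) L50345 (by decide +kernel)
theorem L50347 : W_6 (nat_lit 5) (nat_lit 0x2000168013c0088000400000000000000000000000000) (nat_lit 0x0) (nat_lit 0x10000000000007001a00050000000000000000000000) := T_6 (nat_lit 121) (nat_lit 120) (nat_lit 0) (nat_lit 5) (nat_lit 8) L50346 (by decide +kernel)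
theorem L50348 : W_6 (nat_lit 6) (nat_lit 0x2000168013c0088000000000000000000000000000000) (nat_lit 0x0) (nat_lit 0x10000000000007001e00070000000000000000000000) := T_6 (nat_lit 106) (nat_lit 89) (nat_lit 7) (nat_lit 4) (nat_lit 5) L50347 (by decide +kernel)
theorem L50349 : W_6 (nat_lit 7) (nat_lit 0x200016801340088000000000000000000000000000000) (nat_lit 0x0) (nat_lit 0x10000400080007001e00070000000000000000000000) := T_6 (nat_lit 139) (nat_lit 154) (nat_lit 1) (nat_lit 5) (nat_lit 8) L50348 (by decide +kernel)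
theorem L50350 : W_6 (nat_lit 2) (nat_lit 0x20001680134008a000000000000000000000000000000) (nat_lit 0x0) (nat_lit 0x400080001000000000000000000000000000000) := D_6 (nat_lit 139) (nat_lit 154) (nat_lit 120) (nat_lit 1) (nat_lit 5) (nat_lit 8) (nat_lit 0) (nat_lit 5) (nat_lit 8) (by decide +kernel)
theorem L50351 : W_6 (nat_lit 2) (nat_lit 0x140021801680134008b000000000000000000000000000000) (nat_lit 0x0) (nat_lit 0x8000a00000000000000000000000000000000000000000000000) := D_6 (nat_lit 189) (nat_lit 207) (nat_lit 191) (nat_lit 7) (nat_lit 2) (nat_lit 8) (nat_lit 0) (nat_lit 5) (nat_lit 11) (by decide +kernel)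
theorem L50352 : W_6 (nat_lit 3) (nat_lit 0x100021801680134008b000000000000000000000000000000) (nat_lit 0x0) (nat_lit 0x8000e00020000000000000000000000000000000000000000000) := T_6 (nat_lit 190) (nat_lit 173) (nat_lit 7) (nat_lit 2) (nat_lit 7) L50351 (by decide +kernel)
theorem L50353 : W_6 (nat_lit 4) (nat_lit 0x100021001680134008b000000000000000000000000000000) (nat_lit 0x0) (nat_lit 0x8000f00028000000000000000000000000000000000000000000) := T_6 (nat_lit 171) (nat_lit 188) (nat_lit 5) (nat_lit 2) (nat_lit 7) L50352 (by decide +kernel)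
theorem L50354 : W_6 (nat_lit 5) (nat_lit 0x100020001680134008b000000000000000000000000000000) (nat_lit 0x0) (nat_lit 0x8000f00038000000000000000080000000000000000000000000) := T_6 (nat_lit 172) (nat_lit 103) (nat_lit 4) (nat_lit 2) (nat_lit 10) L50353 (by decide +kernel)
theorem L50355 : W_6 (nat_lit 6) (nat_lit 0x20001680134008b000000000000000000000000000000) (nat_lit 0x0) (nat_lit 0x8001f000b8000000000000000080000000000000000000000000) := T_6 (nat_lit 192) (nat_lit 175) (nat_lit 4) (nat_lit 5) (nat_lit 11) L50354 (by decide +kernel)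
theorem L50356 : W_6 (nat_lit 7) (nat_lit 0x20001680134008a000000000000000000000000000000) (nat_lit 0x0) (nat_lit 0x8001f000b8000000000005000080000000000000000000000000) := T_6 (nat_lit 120) (nat_lit 122) (nat_lit 3) (nat_lit 1) (nat_lit 7) L50355 (by decide +kernel)
theorem L50357 : W_6 (nat_lit 2) (nat_lit 0x1000200016c0134008a000380000000000000000000000000) (nat_lit 0x0) (nat_lit 0x10000000000004000040000000000000000000000000) := D_6 (nat_lit 122) (nat_lit 172) (nat_lit 102) (nat_lit 6) (nat_lit 2) (nat_lit 10) (nat_lit 3) (nat_lit 0) (nat_lit 6) (by decide +kernel)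
theorem L50358 : W_6 (nat_lit 3) (nat_lit 0x1000200016c0134008a000180000000000000000000000000) (nat_lit 0x0) (nat_lit 0x10000000000004000240010000000000000000000000) := T_6 (nat_lit 105) (nat_lit 88) (nat_lit 6) (nat_lit 2) (nat_lit 9) L50357 (by decide +kernel)
theorem L50359 : W_6 (nat_lit 4) (nat_lit 0x1000200016c0134008a000100000000000000000000000000) (nat_lit 0x0) (nat_lit 0x100000000000040002c0014000000000000000000000) := T_6 (nat_lit 103) (nat_lit 86) (nat_lit 4) (nat_lit 2) (nat_lit 9) L50358 (by decide +kernel)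
theorem L50360 : W_6 (nat_lit 5) (nat_lit 0x1000200016c0134008a000000000000000000000000000000) (nat_lit 0x0) (nat_lit 0x180000000000040003c0014000000000000000000000) := T_6 (nat_lit 104) (nat_lit 171) (nat_lit 5) (nat_lit 2) (nat_lit 6) L50359 (by decide +kernel)
theorem L50361 : W_6 (nat_lit 6) (nat_lit 0x200016c0134008a000000000000000000000000000000) (nat_lit 0x0) (nat_lit 0x10000980000000000040003c0014000000000000000000000) := T_6 (nat_lit 192) (nat_lit 175) (nat_lit 4) (nat_lit 5) (nat_lit 11) L50360 (by decide +kernel)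
theorem L50362 : W_6 (nat_lit 7) (nat_lit 0x20001680134008a000000000000000000000000000000) (nat_lit 0x0) (nat_lit 0x10000980004000800040003c0014000000000000000000000) := T_6 (nat_lit 154) (nat_lit 139) (nat_lit 1) (nat_lit 5) (nat_lit 8) L50361 (by decide +kernel)
theorem L50363 : W_6 (nat_lit 8) (nat_lit 0x200016801340088000000000000000000000000000000) (nat_lit 0x0) (nat_lit 0x8001f000b80004000800070003c0014000000000000000000000) := Q_6 (nat_lit 121) (C_6 L50350 (C_6 L50356 (C_6 L50362 N_6))) (by decide +kernel)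
theorem L50364 : W_6 (nat_lit 9) (nat_lit 0x200016801340080000000000000000000000000000000) (nat_lit 0x0) (nat_lit 0x8001f000b800040008000f001fc0074000000000000000000000) := Q_6 (nat_lit 123) (C_6 L50343 (C_6 L50349 (C_6 L50363 N_6))) (by decide +kernel)
theorem L50365 : W_6 (nat_lit 10) (nat_lit 0x200012801340080000000000000000000000000000000) (nat_lit 0x0) (nat_lit 0x8001f000b802c40088000f001fc0074000000000000000000000) := Q_6 (nat_lit 158) (C_6 L50341 (C_6 L50342 (C_6 L50364 N_6))) (by decide +kernel)
theorem L50366 : W_6 (nat_lit 2) (nat_lit 0x200012801340082000000000000000000000000000000) (nat_lit 0x0) (nat_lit 0x400080001000000000000000000000000000000) := D_6 (nat_lit 139) (nat_lit 154) (nat_lit 120) (nat_lit 1) (nat_lit 5) (nat_lit 8) (nat_lit 0) (nat_lit 5) (nat_lit 8) (by decide +kernel)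
theorem L50367 : W_6 (nat_lit 8) (nat_lit 0x200012801340080000000000000000000000000000000) (nat_lit 0x0) (nat_lit 0x8000e0007000380004000a000f00038001c000a00000000000000000) := Q_6 (nat_lit 121) (C_6 L50336 (C_6 L50299 (C_6 L50298 (C_6 L50308 (C_6 L50366 (C_6 L50312 N_6)))))) (by decide +kernel)
theorem L50368 : W_6 (nat_lit 2) (nat_lit 0x200016801340080000000000000000000000000000000) (nat_lit 0x0) (nat_lit 0x28000080000000000000000000000000000000000) := D_6 (nat_lit 159) (nat_lit 139) (nat_lit 161) (nat_lit 3) (nat_lit 2) (nat_lit 8) (nat_lit 0) (nat_lit 8) (nat_lit 9) (by decide +kernel)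
theorem L50369 : W_6 (nat_lit 2) (nat_lit 0x200016801340082000000000000000000000000000000) (nat_lit 0x0) (nat_lit 0xa0001000000000000000000000000000000) := D_6 (nat_lit 139) (nat_lit 137) (nat_lit 120) (nat_lit 3) (nat_lit 1) (nat_lit 8) (nat_lit 0) (nat_lit 5) (nat_lit 8) (by decide +kernel)
theorem L50370 : W_6 (nat_lit 2) (nat_lit 0x20021001680134008b000000020000000000000000000000) (nat_lit 0x0) (nat_lit 0x2000100008000000000000000000000000000000000000000000) := D_6 (nat_lit 188) (nat_lit 205) (nat_lit 171) (nat_lit 5) (nat_lit 2) (nat_lit 8) (nat_lit 5) (nat_lit 2) (nat_lit 7) (by decide +kernel)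
theorem L50371 : W_6 (nat_lit 3) (nat_lit 0x21001680134008b000000020000000000000000000000) (nat_lit 0x0) (nat_lit 0x2000300008000000020000000000000000000000000000000000) := T_6 (nat_lit 189) (nat_lit 137) (nat_lit 4) (nat_lit 2) (nat_lit 11) L50370 (by decide +kernel)
theorem L50372 : W_6 (nat_lit 4) (nat_lit 0x20001680134008b000000020000000000000000000000) (nat_lit 0x0) (nat_lit 0x2000300018000000020000000080000000000000000000000000) := T_6 (nat_lit 172) (nat_lit 103) (nat_lit 4) (nat_lit 2) (nat_lit 10) L50371 (by decide +kernel)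
theorem L50373 : W_6 (nat_lit 5) (nat_lit 0x20001680134008a000000020000000000000000000000) (nat_lit 0x0) (nat_lit 0x2000300018000000020005000080000000000000000000000000) := T_6 (nat_lit 120) (nat_lit 122) (nat_lit 3) (nat_lit 1) (nat_lit 7) L50372 (by decide +kernel)
theorem L50374 : W_6 (nat_lit 6) (nat_lit 0x20001680134008a000000000000000000000000000000) (nat_lit 0x0) (nat_lit 0x2000300018000000020005000480020000000000000000000000) := T_6 (nat_lit 89) (nat_lit 106) (nat_lit 7) (nat_lit 4) (nat_lit 5) L50373 (by decide +kernel)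
theorem L50375 : W_6 (nat_lit 8) (nat_lit 0x200016801340082000000000000000000000000000000) (nat_lit 0x0) (nat_lit 0xa001f000b800000002000d000480020000000000000000000000) := Q_6 (nat_lit 123) (C_6 L50356 (C_6 L50213 (C_6 L50374 N_6))) (by decide +kernel)
theorem L50376 : W_6 (nat_lit 2) (nat_lit 0x1600218016801360086000000000000000000000000000000) (nat_lit 0x0) (nat_lit 0x20000000080000000000008000000000000000000000000000000) := D_6 (nat_lit 175) (nat_lit 209) (nat_lit 123) (nat_lit 4) (nat_lit 5) (nat_lit 12) (nat_lit 4) (nat_lit 5) (nat_lit 11) (by decide +kernel)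
theorem L50377 : W_6 (nat_lit 3) (nat_lit 0x600218016801360086000000000000000000000000000000) (nat_lit 0x0) (nat_lit 0x20001800080000000000008000000000000000000000000000000) := T_6 (nat_lit 192) (nat_lit 191) (nat_lit 0) (nat_lit 5) (nat_lit 11) L50376 (by decide +kernel)
theorem L50378 : W_6 (nat_lit 4) (nat_lit 0x400218016801360086000000000000000000000000000000) (nat_lit 0x0) (nat_lit 0x28001a00080000000000008000000000000000000000000000000) := T_6 (nat_lit 189) (nat_lit 207) (nat_lit 7) (nat_lit 2) (nat_lit 8) L50377 (by decide +kernel)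
theorem L50379 : W_6 (nat_lit 5) (nat_lit 0x400210016801360086000000000000000000000000000000) (nat_lit 0x0) (nat_lit 0x28001b00088000000000008000000000000000000000000000000) := T_6 (nat_lit 171) (nat_lit 188) (nat_lit 5) (nat_lit 2) (nat_lit 7) L50378 (by decide +kernel)
theorem L50380 : W_6 (nat_lit 6) (nat_lit 0x210016801360086000000000000000000000000000000) (nat_lit 0x0) (nat_lit 0x28001f000a8000000000008000000000000000000000000000000) := T_6 (nat_lit 190) (nat_lit 173) (nat_lit 7) (nat_lit 2) (nat_lit 7) L50379 (by decide +kernel)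
theorem L50381 : W_6 (nat_lit 7) (nat_lit 0x210016801360082000000000000000000000000000000) (nat_lit 0x0) (nat_lit 0x28001f000a800000000000c000200000000000000000000000000) := T_6 (nat_lit 122) (nat_lit 105) (nat_lit 6) (nat_lit 2) (nat_lit 10) L50380 (by decide +kernel)
theorem L50382 : W_6 (nat_lit 8) (nat_lit 0x210016801340082000000000000000000000000000000) (nat_lit 0x0) (nat_lit 0x28001f000a80000000a000c000200000000000000000000000000) := T_6 (nat_lit 137) (nat_lit 139) (nat_lit 3) (nat_lit 1) (nat_lit 8) L50381 (by decide +kernel)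
theorem L50383 : W_6 (nat_lit 2) (nat_lit 0x2180168013c0082000000000000000000000000000000) (nat_lit 0x0) (nat_lit 0x200000000000000004000200000000000000000000000000) := D_6 (nat_lit 122) (nat_lit 105) (nat_lit 189) (nat_lit 6) (nat_lit 2) (nat_lit 10) (nat_lit 6) (nat_lit 2) (nat_lit 11) (by decide +kernel)
theorem L50384 : W_6 (nat_lit 3) (nat_lit 0x218016801340082000000000000000000000000000000) (nat_lit 0x0) (nat_lit 0x2000000000000a0004000200000000000000000000000000) := T_6 (nat_lit 139) (nat_lit 137) (nat_lit 3) (nat_lit 1) (nat_lit 8) L50383 (by decide +kernel)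
theorem L50385 : W_6 (nat_lit 4) (nat_lit 0x210016801340082000000000000000000000000000000) (nat_lit 0x0) (nat_lit 0x3000080000000a0004000200000000000000000000000000) := T_6 (nat_lit 171) (nat_lit 188) (nat_lit 5) (nat_lit 2) (nat_lit 7) L50384 (by decide +kernel)
theorem L50386 : W_6 (nat_lit 2) (nat_lit 0x1600218016801360082000000000000000000000000000000) (nat_lit 0x0) (nat_lit 0x20000000080000000000008000000000000000000000000000000) := D_6 (nat_lit 175) (nat_lit 209) (nat_lit 123) (nat_lit 4) (nat_lit 5) (nat_lit 12) (nat_lit 4) (nat_lit 5) (nat_lit 11) (by decide +kernel)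
theorem L50387 : W_6 (nat_lit 3) (nat_lit 0x600218016801360082000000000000000000000000000000) (nat_lit 0x0) (nat_lit 0x20001800080000000000008000000000000000000000000000000) := T_6 (nat_lit 192) (nat_lit 191) (nat_lit 0) (nat_lit 5) (nat_lit 11) L50386 (by decide +kernel)
theorem L50388 : W_6 (nat_lit 4) (nat_lit 0x400218016801360082000000000000000000000000000000) (nat_lit 0x0) (nat_lit 0x28001a00080000000000008000000000000000000000000000000) := T_6 (nat_lit 189) (nat_lit 207) (nat_lit 7) (nat_lit 2) (nat_lit 8) L50387 (by decide +kernel)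
theorem L50389 : W_6 (nat_lit 5) (nat_lit 0x218016801360082000000000000000000000000000000) (nat_lit 0x0) (nat_lit 0x28001e000a0000000000008000000000000000000000000000000) := T_6 (nat_lit 190) (nat_lit 173) (nat_lit 7) (nat_lit 2) (nat_lit 7) L50388 (by decide +kernel)
theorem L50390 : W_6 (nat_lit 6) (nat_lit 0x218016801340082000000000000000000000000000000) (nat_lit 0x0) (nat_lit 0x28001e000a00000000a0008000000000000000000000000000000) := T_6 (nat_lit 137) (nat_lit 139) (nat_lit 3) (nat_lit 1) (nat_lit 8) L50389 (by decide +kernel)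
theorem L50391 : W_6 (nat_lit 7) (nat_lit 0x210016801340082000000000000000000000000000000) (nat_lit 0x0) (nat_lit 0x28001f000a80000000a0008000000000000000000000000000000) := T_6 (nat_lit 171) (nat_lit 188) (nat_lit 5) (nat_lit 2) (nat_lit 7) L50390 (by decide +kernel)
theorem L50392 : W_6 (nat_lit 2) (nat_lit 0x23801680134008200070000c000000000000000000000) (nat_lit 0x0) (nat_lit 0x80000000000008000000020000000000000000000000) := D_6 (nat_lit 123) (nat_lit 175) (nat_lit 89) (nat_lit 7) (nat_lit 4) (nat_lit 6) (nat_lit 7) (nat_lit 4) (nat_lit 5) (by decide +kernel)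
theorem L50393 : W_6 (nat_lit 3) (nat_lit 0x23801680134008200030000c000000000000000000000) (nat_lit 0x0) (nat_lit 0x80000000000008000c00020000000000000000000000) := T_6 (nat_lit 106) (nat_lit 107) (nat_lit 0) (nat_lit 5) (nat_lit 6) L50392 (by decide +kernel)
theorem L50394 : W_6 (nat_lit 4) (nat_lit 0x238016801340082000300004000000000000000000000) (nat_lit 0x0) (nat_lit 0x80000000000008000c00028000200000000000000000) := T_6 (nat_lit 87) (nat_lit 69) (nat_lit 4) (nat_lit 2) (nat_lit 8) L50393 (by decide +kernel)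
theorem L50395 : W_6 (nat_lit 5) (nat_lit 0x238016801340082000300000000000000000000000000) (nat_lit 0x0) (nat_lit 0x80000000000008000c8002c000200000000000000000) := T_6 (nat_lit 86) (nat_lit 103) (nat_lit 4) (nat_lit 2) (nat_lit 9) L50394 (by decide +kernel)
theorem L50396 : W_6 (nat_lit 6) (nat_lit 0x238016801340082000200000000000000000000000000) (nat_lit 0x0) (nat_lit 0x80000000000008000d8003c000200000000000000000) := T_6 (nat_lit 104) (nat_lit 88) (nat_lit 6) (nat_lit 2) (nat_lit 9) L50395 (by decide +kernel)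
theorem L50397 : W_6 (nat_lit 7) (nat_lit 0x238016801340082000000000000000000000000000000) (nat_lit 0x0) (nat_lit 0x8000000000000c000f8003c000200000000000000000) := T_6 (nat_lit 105) (nat_lit 122) (nat_lit 6) (nat_lit 2) (nat_lit 10) L50396 (by decide +kernel)
theorem L50398 : W_6 (nat_lit 8) (nat_lit 0x230016801340082000000000000000000000000000000) (nat_lit 0x0) (nat_lit 0x10008800000000000c000f8003c000200000000000000000) := T_6 (nat_lit 171) (nat_lit 188) (nat_lit 5) (nat_lit 2) (nat_lit 7) L50397 (by decide +kernel)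
theorem L50399 : W_6 (nat_lit 9) (nat_lit 0x210016801340082000000000000000000000000000000) (nat_lit 0x0) (nat_lit 0x5000a800000000000c000f8003c000200000000000000000) := T_6 (nat_lit 173) (nat_lit 190) (nat_lit 7) (nat_lit 2) (nat_lit 7) L50398 (by decide +kernel)
theorem L50400 : W_6 (nat_lit 2) (nat_lit 0x210016801340086000000000000000000000000000000) (nat_lit 0x0) (nat_lit 0x2000000000000a0000000000000000000000000000000000) := D_6 (nat_lit 139) (nat_lit 189) (nat_lit 137) (nat_lit 6) (nat_lit 2) (nat_lit 11) (nat_lit 3) (nat_lit 1) (nat_lit 8) (by decide +kernel)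
theorem L50401 : W_6 (nat_lit 3) (nat_lit 0x210016801340082000000000000000000000000000000) (nat_lit 0x0) (nat_lit 0x2000000000000a0004000200000000000000000000000000) := T_6 (nat_lit 122) (nat_lit 105) (nat_lit 6) (nat_lit 2) (nat_lit 10) L50400 (by decide +kernel)
theorem L50402 : W_6 (nat_lit 10) (nat_lit 0x200016801340082000000000000000000000000000000) (nat_lit 0x0) (nat_lit 0x28001f000b80000000a000c000f8003c000200000000000000000) := Q_6 (nat_lit 172) (C_6 L50382 (C_6 L50385 (C_6 L50391 (C_6 L50399 (C_6 L50401 N_6))))) (by decide +kernel)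
theorem L50403 : W_6 (nat_lit 2) (nat_lit 0x200016801340087000000000000000000000000000000) (nat_lit 0x0) (nat_lit 0x10000000000000000280000000000000000000000000) := D_6 (nat_lit 172) (nat_lit 103) (nat_lit 105) (nat_lit 4) (nat_lit 2) (nat_lit 10) (nat_lit 6) (nat_lit 2) (nat_lit 10) (by decide +kernel)
theorem L50404 : W_6 (nat_lit 3) (nat_lit 0x200016801340083000000000000000000000000000000) (nat_lit 0x0) (nat_lit 0x1000000000000c000280000000000000000000000000) := T_6 (nat_lit 122) (nat_lit 123) (nat_lit 3) (nat_lit 1) (nat_lit 7) L50403 (by decide +kernel)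
theorem L50405 : W_6 (nat_lit 4) (nat_lit 0x200016801340082000000000000000000000000000000) (nat_lit 0x0) (nat_lit 0x1000000008000d000280000000000000000000000000) := T_6 (nat_lit 120) (nat_lit 139) (nat_lit 0) (nat_lit 5) (nat_lit 8) L50404 (by decide +kernel)
theorem L50406 : W_6 (nat_lit 11) (nat_lit 0x200016801340080000000000000000000000000000000) (nat_lit 0x0) (nat_lit 0x2a001f000b80000000a000f000f8003c000200000000000000000) := Q_6 (nat_lit 121) (C_6 L50369 (C_6 L50375 (C_6 L50402 (C_6 L50405 N_6)))) (by decide +kernel)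
theorem L50407 : W_6 (nat_lit 12) (nat_lit 0x200012801340080000000000000000000000000000000) (nat_lit 0x0) (nat_lit 0x2a001f000b802c0008a000f000f8003c000200000000000000000) := Q_6 (nat_lit 158) (C_6 L50342 (C_6 L50368 (C_6 L50406 N_6))) (by decide +kernel)
theorem L50408 : W_6 (nat_lit 13) (nat_lit 0x200012801300080000000000000000000000000000000) (nat_lit 0x0) (nat_lit 0xc002e001f000b802c4008e000f801fc007c000e00060000000000000) := Q_6 (nat_lit 138) (C_6 L50198 (C_6 L50337 (C_6 L50340 (C_6 L50365 (C_6 L50367 (C_6 L50407 N_6)))))) (by decide +kernel)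
theorem L50409 : W_6 (nat_lit 2) (nat_lit 0x200016801300080000000000000000000000000000000) (nat_lit 0x0) (nat_lit 0x28000080000000000000000000000000000000000) := D_6 (nat_lit 159) (nat_lit 139) (nat_lit 161) (nat_lit 0) (nat_lit 7) (nat_lit 9) (nat_lit 0) (nat_lit 8) (nat_lit 9) (by decide +kernel)
theorem L50410 : W_6 (nat_lit 2) (nat_lit 0x200016801300080000000000000000000000000000000) (nat_lit 0x0) (nat_lit 0x28000800000000000000000000000000000000000) := D_6 (nat_lit 159) (nat_lit 143) (nat_lit 161) (nat_lit 2) (nat_lit 4) (nat_lit 9) (nat_lit 0) (nat_lit 8) (nat_lit 9) (by decide +kernel)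
theorem L50411 : W_6 (nat_lit 2) (nat_lit 0x280017801300080000000000000000000000000000000) (nat_lit 0x0) (nat_lit 0x20001000000000000000008000000000000000000000000000000) := D_6 (nat_lit 192) (nat_lit 209) (nat_lit 123) (nat_lit 4) (nat_lit 5) (nat_lit 12) (nat_lit 4) (nat_lit 5) (nat_lit 11) (by decide +kernel)
theorem L50412 : W_6 (nat_lit 3) (nat_lit 0x200017801300080000000000000000000000000000000) (nat_lit 0x0) (nat_lit 0x20001000180000000000008000000000000000000000000000000) := T_6 (nat_lit 175) (nat_lit 176) (nat_lit 3) (nat_lit 2) (nat_lit 9) L50411 (by decide +kernel)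
theorem L50413 : W_6 (nat_lit 4) (nat_lit 0x200016801300080000000000000000000000000000000) (nat_lit 0x0) (nat_lit 0x20001000180001400000008000000000000000000000000000000) := T_6 (nat_lit 156) (nat_lit 154) (nat_lit 2) (nat_lit 1) (nat_lit 9) L50412 (by decide +kernel)
theorem L50414 : W_6 (nat_lit 5) (nat_lit 0x200012801300080000000000000000000000000000000) (nat_lit 0x0) (nat_lit 0x2000100018002d400880008000000000000000000000000000000) := Q_6 (nat_lit 158) (C_6 L50409 (C_6 L50410 (C_6 L50413 N_6))) (by decide +kernel)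
theorem L50415 : W_6 (nat_lit 2) (nat_lit 0x3c00290017801340080000000000000000000000000000000) (nat_lit 0x0) (nat_lit 0xc000200000000000000000000000000000000000000000000000) := D_6 (nat_lit 207) (nat_lit 206) (nat_lit 189) (nat_lit 1) (nat_lit 6) (nat_lit 11) (nat_lit 7) (nat_lit 2) (nat_lit 8) (by decide +kernel)
theorem L50416 : W_6 (nat_lit 3) (nat_lit 0x3800290017801340080000000000000000000000000000000) (nat_lit 0x0) (nat_lit 0xc000600020000000000000000000000000000000000000000000) := T_6 (nat_lit 190) (nat_lit 173) (nat_lit 0) (nat_lit 6) (nat_lit 11) L50415 (by decide +kernel)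
theorem L50417 : W_6 (nat_lit 4) (nat_lit 0x3000290017801340080000000000000000000000000000000) (nat_lit 0x0) (nat_lit 0x1c000e00020000000000000000000000000000000000000000000) := T_6 (nat_lit 191) (nat_lit 208) (nat_lit 5) (nat_lit 5) (nat_lit 8) L50416 (by decide +kernel)
theorem L50418 : W_6 (nat_lit 5) (nat_lit 0x1000290017801340080000000000000000000000000000000) (nat_lit 0x0) (nat_lit 0x5c002e00020000000000000000000000000000000000000000000) := T_6 (nat_lit 193) (nat_lit 210) (nat_lit 7) (nat_lit 5) (nat_lit 8) L50417 (by decide +kernel)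
theorem L50419 : W_6 (nat_lit 6) (nat_lit 0x1000280017801340080000000000000000000000000000000) (nat_lit 0x0) (nat_lit 0x5c002e00038000000000000000000000000000000000000000000) := T_6 (nat_lit 172) (nat_lit 171) (nat_lit 1) (nat_lit 5) (nat_lit 9) L50418 (by decide +kernel)
theorem L50420 : W_6 (nat_lit 7) (nat_lit 0x280017801340080000000000000000000000000000000) (nat_lit 0x0) (nat_lit 0x7c003e00038000000000000000000000000000000000000000000) := T_6 (nat_lit 192) (nat_lit 209) (nat_lit 4) (nat_lit 5) (nat_lit 12) L50419 (by decide +kernel)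
theorem L50421 : W_6 (nat_lit 8) (nat_lit 0x280017801300080000000000000000000000000000000) (nat_lit 0x0) (nat_lit 0x7c003e00038000000060000000000000000000000000000000000) := T_6 (nat_lit 138) (nat_lit 137) (nat_lit 0) (nat_lit 5) (nat_lit 9) L50420 (by decide +kernel)
theorem L50422 : W_6 (nat_lit 9) (nat_lit 0x200017801300080000000000000000000000000000000) (nat_lit 0x0) (nat_lit 0x7c003e001b8000000060000000000000000000000000000000000) := T_6 (nat_lit 175) (nat_lit 176) (nat_lit 3) (nat_lit 2) (nat_lit 9) L50421 (by decide +kernel)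
theorem L50423 : W_6 (nat_lit 10) (nat_lit 0x200016801300080000000000000000000000000000000) (nat_lit 0x0) (nat_lit 0x7c003e001b8001400060000000000000000000000000000000000) := T_6 (nat_lit 156) (nat_lit 154) (nat_lit 2) (nat_lit 1) (nat_lit 9) L50422 (by decide +kernel)
theorem L50424 : W_6 (nat_lit 11) (nat_lit 0x200012801300080000000000000000000000000000000) (nat_lit 0x0) (nat_lit 0x7c003e001b802d4008e0000000000000000000000000000000000) := Q_6 (nat_lit 158) (C_6 L50410 (C_6 L50409 (C_6 L50423 N_6))) (by decide +kernel)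
theorem L50425 : W_6 (nat_lit 11) (nat_lit 0x200012801300080000000000000000000000000000000) (nat_lit 0x0) (nat_lit 0x7c003e001b802d4000e0008000000000000000000000000000000) := Q_6 (nat_lit 158) (C_6 L50413 (C_6 L50423 (C_6 L50409 N_6))) (by decide +kernel)
theorem L50426 : W_6 (nat_lit 11) (nat_lit 0x200012801300080000000000000000000000000000000) (nat_lit 0x0) (nat_lit 0x7c003e001b802d400860008000000000000000000000000000000) := Q_6 (nat_lit 158) (C_6 L50413 (C_6 L50423 (C_6 L50410 N_6))) (by decide +kernel)
theorem L50427 : W_6 (nat_lit 2) (nat_lit 0x200016801340080000000000000000000000000000000) (nat_lit 0x0) (nat_lit 0x1400080000000000000000000000000000000000) := D_6 (nat_lit 154) (nat_lit 156) (nat_lit 139) (nat_lit 2) (nat_lit 1) (nat_lit 9) (nat_lit 1) (nat_lit 5) (nat_lit 8) (by decide +kernel)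
theorem L50428 : W_6 (nat_lit 2) (nat_lit 0x200016801340080000000000000000000000000000000) (nat_lit 0x0) (nat_lit 0x4000a0000000000000000000000000000000000) := D_6 (nat_lit 139) (nat_lit 137) (nat_lit 154) (nat_lit 3) (nat_lit 1) (nat_lit 8) (nat_lit 1) (nat_lit 5) (nat_lit 8) (by decide +kernel)
theorem L50429 : W_6 (nat_lit 2) (nat_lit 0x200016801340080000000000000000000000000000000) (nat_lit 0x0) (nat_lit 0x1400020000000000000000000000000000000000) := D_6 (nat_lit 156) (nat_lit 137) (nat_lit 154) (nat_lit 0) (nat_lit 5) (nat_lit 9) (nat_lit 2) (nat_lit 1) (nat_lit 9) (by decide +kernel)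
theorem L50430 : W_6 (nat_lit 2) (nat_lit 0x200016801340080000000000000000000000000000000) (nat_lit 0x0) (nat_lit 0x10000a0000000000000000000000000000000000) := D_6 (nat_lit 137) (nat_lit 156) (nat_lit 139) (nat_lit 0) (nat_lit 5) (nat_lit 9) (nat_lit 3) (nat_lit 1) (nat_lit 8) (by decide +kernel)
theorem L50431 : W_6 (nat_lit 3) (nat_lit 0x200016801300080000000000000000000000000000000) (nat_lit 0x0) (nat_lit 0x14000e0000000000000000000000000000000000) := Q_6 (nat_lit 138) (C_6 L50427 (C_6 L50428 (C_6 L50429 (C_6 L50430 N_6)))) (by decide +kernel)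
theorem L50432 : W_6 (nat_lit 4) (nat_lit 0x200012801300080000000000000000000000000000000) (nat_lit 0x0) (nat_lit 0x2d4008e0000000000000000000000000000000000) := Q_6 (nat_lit 158) (C_6 L50410 (C_6 L50409 (C_6 L50431 N_6))) (by decide +kernel)
theorem L50433 : W_6 (nat_lit 2) (nat_lit 0x290017801340080000000000000000000000000000000) (nat_lit 0x0) (nat_lit 0x20001000000000000000008000000000000000000000000000000) := D_6 (nat_lit 192) (nat_lit 209) (nat_lit 123) (nat_lit 4) (nat_lit 5) (nat_lit 12) (nat_lit 4) (nat_lit 5) (nat_lit 11) (by decide +kernel)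
theorem L50434 : W_6 (nat_lit 3) (nat_lit 0x210017801340080000000000000000000000000000000) (nat_lit 0x0) (nat_lit 0x20001000180000000000008000000000000000000000000000000) := T_6 (nat_lit 175) (nat_lit 176) (nat_lit 3) (nat_lit 2) (nat_lit 9) L50433 (by decide +kernel)
theorem L50435 : W_6 (nat_lit 4) (nat_lit 0x200017801340080000000000000000000000000000000) (nat_lit 0x0) (nat_lit 0x20001000198000000000008000000000000000000000000000000) := T_6 (nat_lit 172) (nat_lit 171) (nat_lit 1) (nat_lit 5) (nat_lit 9) L50434 (by decide +kernel)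
theorem L50436 : W_6 (nat_lit 5) (nat_lit 0x200013801340080000000000000000000000000000000) (nat_lit 0x0) (nat_lit 0x20001000198004000020008000000000000000000000000000000) := T_6 (nat_lit 158) (nat_lit 137) (nat_lit 0) (nat_lit 5) (nat_lit 9) L50435 (by decide +kernel)
theorem L50437 : W_6 (nat_lit 6) (nat_lit 0x200012801340080000000000000000000000000000000) (nat_lit 0x0) (nat_lit 0x20001000198005400020008000000000000000000000000000000) := T_6 (nat_lit 156) (nat_lit 154) (nat_lit 2) (nat_lit 1) (nat_lit 9) L50436 (by decide +kernel)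
theorem L50438 : W_6 (nat_lit 2) (nat_lit 0x200012801340080000000000000000000000000000000) (nat_lit 0x0) (nat_lit 0x1400080000000000000000000000000000000000) := D_6 (nat_lit 154) (nat_lit 156) (nat_lit 139) (nat_lit 2) (nat_lit 1) (nat_lit 9) (nat_lit 1) (nat_lit 5) (nat_lit 8) (by decide +kernel)
theorem L50439 : W_6 (nat_lit 2) (nat_lit 0x2000138013e0082000000000000000000000000000000) (nat_lit 0x0) (nat_lit 0x400020000000000000000100000000000000000000000000) := D_6 (nat_lit 173) (nat_lit 190) (nat_lit 104) (nat_lit 4) (nat_lit 3) (nat_lit 11) (nat_lit 7) (nat_lit 2) (nat_lit 6) (by decide +kernel)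
theorem L50440 : W_6 (nat_lit 3) (nat_lit 0x2000128013e0082000000000000000000000000000000) (nat_lit 0x0) (nat_lit 0x400020001000010000000100000000000000000000000000) := T_6 (nat_lit 156) (nat_lit 136) (nat_lit 3) (nat_lit 0) (nat_lit 8) L50439 (by decide +kernel)
theorem L50441 : W_6 (nat_lit 4) (nat_lit 0x2000128013c0082000000000000000000000000000000) (nat_lit 0x0) (nat_lit 0x400020005000030000000100000000000000000000000000) := T_6 (nat_lit 137) (nat_lit 158) (nat_lit 3) (nat_lit 1) (nat_lit 8) L50440 (by decide +kernel)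
end Crest.Agent.Helper32.Snaky.R1_0
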